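import Crest.Agent.Helper32.Snaky.Rules2
set_option autoImplicit false
set_option maxRecDepth 100000
set_option linter.all false
set_option Elab.async false
namespace Crest.Agent.Helper32.Snaky.Hc
@[reducible] def W_1 (d M Bz Z : Nat) : Prop := Crest.Agent.Helper32.Snaky.Wins (nat_lit 17) d M Bz Z
theorem D_1 {d M Bz Z : Nat} (m t1 t2 o1 x1 y1 o2 x2 y2 : Nat) (h : Crest.Agent.Helper32.Snaky.chkDoubleC (nat_lit 17) d M Bz Z m t1 t2 o1 x1 y1 o2 x2 y2 = true) : W_1 d M Bz Z := Crest.Agent.Helper32.Snaky.doubleC m t1 t2 o1 x1 y1 o2 x2 y2 h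
theorem T_1 {d M Bz Z cd cM cBz cZ : Nat} (m t o x y : Nat) (child : W_1 cd cM cBz cZ) (h : Crest.Agent.Helper32.Snaky.chkThreatC (nat_lit 17) d M Bz Z cd cM cBz cZ m t o x y = true) : W_1 d M Bz Z := Crest.Agent.Helper32.Snaky.threatC m t o x y child h
theorem Q_1 {d M Bz Z : Nat} (m : Nat) {l : List Crest.Agent.Helper32.Snaky.Spec} (kids : Crest.Agent.Helper32.Snaky.AllWins (nat_lit 17) l) (h : Crest.Agent.Helper32.Snaky.chkQuiet d M Bz Z m l = true) : W_1 d M Bz Z := Crest.Agent.Helper32.Snaky.quiet m kids h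
theorem C_1 {cd cM cBz cZ : Nat} {l : List Crest.Agent.Helper32.Snaky.Spec} (h : W_1 cd cM cBz cZ) (hl : Crest.Agent.Helper32.Snaky.AllWins (nat_lit 17) l) : Crest.Agent.Helper32.Snaky.AllWins (nat_lit 17) ((cd, cM, cBz, cZ) :: l) := Crest.Agent.Helper32.Snaky.AllWins.cons h hl
theorem N_1 : Crest.Agent.Helper32.Snaky.AllWins (nat_lit 17) [] := Crest.Agent.Helper32.Snaky.AllWins.nil
theorem L5588 : W_1 (nat_lit 2) (nat_lit 0x30000c0004000700010000800040000000000) (nat_lit 0x0) (nat_lit 0x1000080004000000) := D_1 (nat_lit 43) (nat_lit 26) (nat_lit 60) (nat_lit 6) (nat_lit 8) (nat_lit 5) (nat_lit 6) (nat_lit 8) (nat_lit 6) (by decide +kernel)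
theorem L5589 : W_1 (nat_lit 3) (nat_lit 0x30000c0004000700010000800000000000000) (nat_lit 0x0) (nat_lit 0x80000000000010000c0004000000) := T_1 (nat_lit 42) (nat_lit 111) (nat_lit 7) (nat_lit 8) (nat_lit 2) L5588 (by decide +kernel)
theorem L5590 : W_1 (nat_lit 4) (nat_lit 0x30000c0004000700010000000000000000000) (nat_lit 0x0) (nat_lit 0xa0000000000018000c0004000000) := T_1 (nat_lit 59) (nat_lit 109) (nat_lit 5) (nat_lit 8) (nat_lit 3) L5589 (by decide +kernel)
theorem L5591 : W_1 (nat_lit 5) (nat_lit 0x3000080004000700010000000000000000000) (nat_lit 0x0) (nat_lit 0x80004000a0000000000018000c0004000000) := T_1 (nat_lit 126) (nat_lit 143) (nat_lit 5) (nat_lit 8) (nat_lit 4) L5590 (by decide +kernel)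
theorem L5592 : W_1 (nat_lit 6) (nat_lit 0x3000080004000700000000000000000000000) (nat_lit 0x0) (nat_lit 0x80014000a0000000100018000c0004000000) := T_1 (nat_lit 76) (nat_lit 128) (nat_lit 7) (nat_lit 8) (nat_lit 4) L5591 (by decide +kernel)
theorem L5593 : W_1 (nat_lit 7) (nat_lit 0x3000080004000300000000000000000000000) (nat_lit 0x0) (nat_lit 0x80014000a0004000300018000c0004000000) := T_1 (nat_lit 94) (nat_lit 77) (nat_lit 6) (nat_lit 8) (nat_lit 8) L5592 (by decide +kernel)
theorem L5595 : W_1 (nat_lit 2) (nat_lit 0x3000080004000200010000000000000000000) (nat_lit 0x0) (nat_lit 0x400020001000000000000000) := D_1 (nat_lit 77) (nat_lit 60) (nat_lit 94) (nat_lit 6) (nat_lit 8) (nat_lit 7) (nat_lit 6) (nat_lit 8) (nat_lit 8) (by decide +kernel)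
theorem L5596 : W_1 (nat_lit 3) (nat_lit 0x3000080004000200000000000000000000000) (nat_lit 0x0) (nat_lit 0x100000000400030001000000000000000) := T_1 (nat_lit 76) (nat_lit 128) (nat_lit 7) (nat_lit 8) (nat_lit 4) L5595 (by decide +kernel)
theorem L5597 : W_1 (nat_lit 2) (nat_lit 0x3800080004000200000000000000000000000) (nat_lit 0x0) (nat_lit 0x140000000000010000000000000000000) := D_1 (nat_lit 76) (nat_lit 126) (nat_lit 128) (nat_lit 5) (nat_lit 8) (nat_lit 4) (nat_lit 7) (nat_lit 8) (nat_lit 4) (by decide +kernel)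
theorem L5598 : W_1 (nat_lit 3) (nat_lit 0x3000080004000200000000000000000000000) (nat_lit 0x0) (nat_lit 0x10000800140000000000010000000000000000000) := T_1 (nat_lit 143) (nat_lit 160) (nat_lit 5) (nat_lit 8) (nat_lit 5) L5597 (by decide +kernel)
theorem L5599 : W_1 (nat_lit 2) (nat_lit 0x3000080006000700000000000000000000000) (nat_lit 0x0) (nat_lit 0x1800800000000000000000000000) := D_1 (nat_lit 108) (nat_lit 107) (nat_lit 95) (nat_lit 2) (nat_lit 5) (nat_lit 6) (nat_lit 1) (nat_lit 10) (nat_lit 5) (by decide +kernel)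
theorem L5600 : W_1 (nat_lit 3) (nat_lit 0x3000080006000300000000000000000000000) (nat_lit 0x0) (nat_lit 0x1800c00020000000000000000000) := T_1 (nat_lit 94) (nat_lit 77) (nat_lit 6) (nat_lit 8) (nat_lit 8) L5599 (by decide +kernel)
theorem L5910 : W_1 (nat_lit 2) (nat_lit 0x3000180005000780000000000000000000000) (nat_lit 0x0) (nat_lit 0x18000040000000000000000000000) := D_1 (nat_lit 111) (nat_lit 90) (nat_lit 112) (nat_lit 3) (nat_lit 5) (nat_lit 5) (nat_lit 3) (nat_lit 6) (nat_lit 5) (by decide +kernel)
theorem L5911 : W_1 (nat_lit 3) (nat_lit 0x3000180005000700000000000000000000000) (nat_lit 0x0) (nat_lit 0x188000c0000000000000000000000) := T_1 (nat_lit 91) (nat_lit 107) (nat_lit 1) (nat_lit 9) (nat_lit 5) L5910 (by decide +kernel)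
theorem L5917 : W_1 (nat_lit 2) (nat_lit 0x300018000d000f00000000000000000000000) (nat_lit 0x0) (nat_lit 0x100000c0000000000000000000000) := D_1 (nat_lit 91) (nat_lit 112) (nat_lit 90) (nat_lit 3) (nat_lit 6) (nat_lit 5) (nat_lit 3) (nat_lit 5) (nat_lit 5) (by decide +kernel)
theorem L5918 : W_1 (nat_lit 3) (nat_lit 0x3000180005000f00000000000000000000000) (nat_lit 0x0) (nat_lit 0x180000c0040000000000000000000) := T_1 (nat_lit 111) (nat_lit 78) (nat_lit 6) (nat_lit 9) (nat_lit 8) L5917 (by decide +kernel)
theorem L5919 : W_1 (nat_lit 4) (nat_lit 0x3000180005000700000000000000000000000) (nat_lit 0x0) (nat_lit 0x1a0008c0040000000000000000000) := T_1 (nat_lit 95) (nat_lit 109) (nat_lit 1) (nat_lit 10) (nat_lit 5) L5918 (by decide +kernel)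
theorem L5920 : W_1 (nat_lit 5) (nat_lit 0x3000180005000600000000000000000000000) (nat_lit 0x0) (nat_lit 0x1a0009c0048000000000000000000) := T_1 (nat_lit 92) (nat_lit 75) (nat_lit 4) (nat_lit 8) (nat_lit 8) L5919 (by decide +kernel)
theorem L5921 : W_1 (nat_lit 6) (nat_lit 0x3000180005000200000000000000000000000) (nat_lit 0x0) (nat_lit 0x1a000dc0068000000000000000000) := T_1 (nat_lit 94) (nat_lit 77) (nat_lit 6) (nat_lit 8) (nat_lit 8) L5920 (by decide +kernel)
theorem L22392 : W_1 (nat_lit 2) (nat_lit 0x100038000e0000000000000000000000000000000) (nat_lit 0x0) (nat_lit 0x200000000000000004000200000000000000000000000) := D_1 (nat_lit 110) (nat_lit 93) (nat_lit 177) (nat_lit 5) (nat_lit 8) (nat_lit 5) (nat_lit 6) (nat_lit 7) (nat_lit 10) (by decide +kernel)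
theorem L22393 : W_1 (nat_lit 2) (nat_lit 0x100038000e0002000200000000000000000000000) (nat_lit 0x0) (nat_lit 0x100018000000000000000000) := D_1 (nat_lit 92) (nat_lit 75) (nat_lit 76) (nat_lit 7) (nat_lit 7) (nat_lit 4) (nat_lit 6) (nat_lit 7) (nat_lit 8) (by decide +kernel)
theorem L22394 : W_1 (nat_lit 3) (nat_lit 0x100038000e0002000000000000000000000000000) (nat_lit 0x0) (nat_lit 0x4000300018000000000000000000) := T_1 (nat_lit 93) (nat_lit 110) (nat_lit 6) (nat_lit 7) (nat_lit 9) L22393 (by decide +kernel)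
theorem L22395 : W_1 (nat_lit 2) (nat_lit 0x180038000e0016000000000000000000000000000) (nat_lit 0x0) (nat_lit 0x6000400000000000000000000000000000000000) := D_1 (nat_lit 158) (nat_lit 157) (nat_lit 142) (nat_lit 2) (nat_lit 4) (nat_lit 9) (nat_lit 1) (nat_lit 9) (nat_lit 8) (by decide +kernel)
theorem L22396 : W_1 (nat_lit 3) (nat_lit 0x100038000e0016000000000000000000000000000) (nat_lit 0x0) (nat_lit 0x10000e000400000000000000000000000000000000000) := T_1 (nat_lit 159) (nat_lit 176) (nat_lit 5) (nat_lit 7) (nat_lit 6) L22395 (by decide +kernel)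
theorem L22397 : W_1 (nat_lit 4) (nat_lit 0x100038000e0006000000000000000000000000000) (nat_lit 0x0) (nat_lit 0x10000e000400000018000000000000000000000000000) := T_1 (nat_lit 112) (nat_lit 111) (nat_lit 1) (nat_lit 10) (nat_lit 6) L22396 (by decide +kernel)
theorem L22398 : W_1 (nat_lit 5) (nat_lit 0x100038000e0002000000000000000000000000000) (nat_lit 0x0) (nat_lit 0x10000e00040000001c000200000000000000000000000) := T_1 (nat_lit 110) (nat_lit 93) (nat_lit 6) (nat_lit 7) (nat_lit 9) L22397 (by decide +kernel)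
theorem L22399 : W_1 (nat_lit 2) (nat_lit 0x180038000e0002000000000000000000000000000) (nat_lit 0x0) (nat_lit 0x400000000000100008000000000000000000) := D_1 (nat_lit 92) (nat_lit 142) (nat_lit 75) (nat_lit 5) (nat_lit 7) (nat_lit 5) (nat_lit 7) (nat_lit 7) (nat_lit 4) (by decide +kernel)
theorem L22400 : W_1 (nat_lit 3) (nat_lit 0x100038000e0002000000000000000000000000000) (nat_lit 0x0) (nat_lit 0x100008000400000000000100008000000000000000000) := T_1 (nat_lit 159) (nat_lit 176) (nat_lit 5) (nat_lit 7) (nat_lit 6) L22399 (by decide +kernel)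
theorem L22401 : W_1 (nat_lit 6) (nat_lit 0x100038000e0000000000000000000000000000000) (nat_lit 0x0) (nat_lit 0x10000e00040000001e000300018000000000000000000) := Q_1 (nat_lit 109) (C_1 L22394 (C_1 L22398 (C_1 L22400 N_1))) (by decide +kernel)
theorem L22402 : W_1 (nat_lit 2) (nat_lit 0x3000180038000e0000000000000000000000000000000) (nat_lit 0x0) (nat_lit 0x6000400000000000000000000000000000000000) := D_1 (nat_lit 158) (nat_lit 157) (nat_lit 142) (nat_lit 2) (nat_lit 4) (nat_lit 9) (nat_lit 1) (nat_lit 9) (nat_lit 8) (by decide +kernel)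
theorem L22403 : W_1 (nat_lit 3) (nat_lit 0x3000100038000e0000000000000000000000000000000) (nat_lit 0x0) (nat_lit 0xe000400000002000000000000000000000000000) := T_1 (nat_lit 159) (nat_lit 109) (nat_lit 5) (nat_lit 7) (nat_lit 6) L22402 (by decide +kernel)
theorem L22404 : W_1 (nat_lit 4) (nat_lit 0x2000100038000e0000000000000000000000000000000) (nat_lit 0x0) (nat_lit 0x200010000e000400000002000000000000000000000000000) := T_1 (nat_lit 176) (nat_lit 193) (nat_lit 5) (nat_lit 7) (nat_lit 7) L22403 (by decide +kernel)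
theorem L22405 : W_1 (nat_lit 5) (nat_lit 0x100038000e0000000000000000000000000000000) (nat_lit 0x0) (nat_lit 0x600030000e000400000002000000000000000000000000000) := T_1 (nat_lit 177) (nat_lit 194) (nat_lit 6) (nat_lit 7) (nat_lit 11) L22404 (by decide +kernel)
theorem L22406 : W_1 (nat_lit 7) (nat_lit 0x38000e0000000000000000000000000000000) (nat_lit 0x0) (nat_lit 0x600030001e00040000001e000300018000000000000000000) := Q_1 (nat_lit 160) (C_1 L22392 (C_1 L22401 (C_1 L22405 N_1))) (by decide +kernel)
theorem L22407 : W_1 (nat_lit 8) (nat_lit 0x30000e0000000000000000000000000000000) (nat_lit 0x0) (nat_lit 0x600030001e004c0000001e000300018000000000000000000) := T_1 (nat_lit 143) (nat_lit 146) (nat_lit 0) (nat_lit 10) (nat_lit 8) L22406 (by decide +kernel)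
theorem L22408 : W_1 (nat_lit 2) (nat_lit 0x30000e0000000000000000000000000000000) (nat_lit 0x0) (nat_lit 0x4800100000000000000000000000000000000) := D_1 (nat_lit 146) (nat_lit 143) (nat_lit 128) (nat_lit 0) (nat_lit 10) (nat_lit 8) (nat_lit 3) (nat_lit 6) (nat_lit 7) (by decide +kernel)
theorem L22409 : W_1 (nat_lit 2) (nat_lit 0x30001e0000000200000000000000000000000) (nat_lit 0x0) (nat_lit 0x40000000000004000000010000000000000000000) := D_1 (nat_lit 110) (nat_lit 162) (nat_lit 76) (nat_lit 7) (nat_lit 8) (nat_lit 5) (nat_lit 7) (nat_lit 8) (nat_lit 4) (by decide +kernel)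
theorem L22410 : W_1 (nat_lit 3) (nat_lit 0x30000e0000000200000000000000000000000) (nat_lit 0x0) (nat_lit 0x40004000100004000000010000000000000000000) := T_1 (nat_lit 128) (nat_lit 146) (nat_lit 3) (nat_lit 6) (nat_lit 7) L22409 (by decide +kernel)
theorem L22411 : W_1 (nat_lit 2) (nat_lit 0x30001e0008000200000000000000000000000) (nat_lit 0x0) (nat_lit 0x4000400010000000000000000000) := D_1 (nat_lit 76) (nat_lit 110) (nat_lit 94) (nat_lit 7) (nat_lit 8) (nat_lit 4) (nat_lit 4) (nat_lit 9) (nat_lit 8) (by decide +kernel)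
theorem L22412 : W_1 (nat_lit 3) (nat_lit 0x30001e0000000200000000000000000000000) (nat_lit 0x0) (nat_lit 0x1c000400010000000000000000000) := T_1 (nat_lit 111) (nat_lit 112) (nat_lit 2) (nat_lit 6) (nat_lit 7) L22411 (by decide +kernel)
theorem L22413 : W_1 (nat_lit 4) (nat_lit 0x30000e0000000200000000000000000000000) (nat_lit 0x0) (nat_lit 0x400010001c000400010000000000000000000) := T_1 (nat_lit 128) (nat_lit 146) (nat_lit 3) (nat_lit 6) (nat_lit 7) L22412 (by decide +kernel)
theorem L22414 : W_1 (nat_lit 2) (nat_lit 0x30000e000400060001a000800080000000000) (nat_lit 0x0) (nat_lit 0x8000000000000000040004000000) := D_1 (nat_lit 42) (nat_lit 26) (nat_lit 111) (nat_lit 6) (nat_lit 8) (nat_lit 5) (nat_lit 7) (nat_lit 8) (nat_lit 2) (by decide +kernel)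
theorem L22415 : W_1 (nat_lit 3) (nat_lit 0x30000e000400060001a000800000000000000) (nat_lit 0x0) (nat_lit 0x80000000000010000c0004000000) := T_1 (nat_lit 43) (nat_lit 60) (nat_lit 6) (nat_lit 8) (nat_lit 6) L22414 (by decide +kernel)
theorem L22416 : W_1 (nat_lit 4) (nat_lit 0x30000e000400060001a000000000000000000) (nat_lit 0x0) (nat_lit 0xa0000000000018000c0004000000) := T_1 (nat_lit 59) (nat_lit 109) (nat_lit 5) (nat_lit 8) (nat_lit 3) L22415 (by decide +kernel)
theorem L22417 : W_1 (nat_lit 5) (nat_lit 0x30000e0004000600018000000000000000000) (nat_lit 0x0) (nat_lit 0xa0000000060018000c0004000000) := T_1 (nat_lit 73) (nat_lit 74) (nat_lit 3) (nat_lit 5) (nat_lit 4) L22416 (by decide +kernel)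
theorem L22418 : W_1 (nat_lit 6) (nat_lit 0x30000e0004000600008000000000000000000) (nat_lit 0x0) (nat_lit 0xa000000016001c000c0004000000) := T_1 (nat_lit 76) (nat_lit 58) (nat_lit 4) (nat_lit 8) (nat_lit 7) L22417 (by decide +kernel)
theorem L22419 : W_1 (nat_lit 7) (nat_lit 0x30000e0004000600000000000000000000000) (nat_lit 0x0) (nat_lit 0xa00010001e001c000c0004000000) := T_1 (nat_lit 75) (nat_lit 92) (nat_lit 4) (nat_lit 8) (nat_lit 8) L22418 (by decide +kernel)
theorem L22420 : W_1 (nat_lit 8) (nat_lit 0x30000e0004000200000000000000000000000) (nat_lit 0x0) (nat_lit 0xa00050003e001c000c0004000000) := T_1 (nat_lit 94) (nat_lit 77) (nat_lit 6) (nat_lit 8) (nat_lit 8) L22419 (by decide +kernel)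
theorem L22421 : W_1 (nat_lit 9) (nat_lit 0x30000e0000000200000000000000000000000) (nat_lit 0x0) (nat_lit 0x4000000000000e00050003e001c000c0004000000) := T_1 (nat_lit 110) (nat_lit 162) (nat_lit 7) (nat_lit 8) (nat_lit 5) L22420 (by decide +kernel)
theorem L22422 : W_1 (nat_lit 2) (nat_lit 0x30001e0008000200000000000000000000000) (nat_lit 0x0) (nat_lit 0x400030000000000000000000) := D_1 (nat_lit 94) (nat_lit 76) (nat_lit 77) (nat_lit 4) (nat_lit 9) (nat_lit 8) (nat_lit 5) (nat_lit 9) (nat_lit 4) (by decide +kernel)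
theorem L22423 : W_1 (nat_lit 3) (nat_lit 0x30001e0000000200000000000000000000000) (nat_lit 0x0) (nat_lit 0x18000400030000000000000000000) := T_1 (nat_lit 111) (nat_lit 112) (nat_lit 2) (nat_lit 6) (nat_lit 7) L22422 (by decide +kernel)
theorem L22424 : W_1 (nat_lit 4) (nat_lit 0x30000e0000000200000000000000000000000) (nat_lit 0x0) (nat_lit 0x4000100018000400030000000000000000000) := T_1 (nat_lit 128) (nat_lit 146) (nat_lit 3) (nat_lit 6) (nat_lit 7) L22423 (by decide +kernel)
theorem L22425 : W_1 (nat_lit 2) (nat_lit 0x400034001e0010000200000000000000000000000) (nat_lit 0x0) (nat_lit 0x10000800000000000200000000000000000000000000000000) := D_1 (nat_lit 179) (nat_lit 129) (nat_lit 196) (nat_lit 6) (nat_lit 9) (nat_lit 10) (nat_lit 4) (nat_lit 9) (nat_lit 11) (by decide +kernel)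
theorem L22426 : W_1 (nat_lit 3) (nat_lit 0x34001e0010000200000000000000000000000) (nat_lit 0x0) (nat_lit 0x10000800040000000200004000000000000000000000000000) := T_1 (nat_lit 162) (nat_lit 110) (nat_lit 7) (nat_lit 8) (nat_lit 5) L22425 (by decide +kernel)
theorem L22427 : W_1 (nat_lit 4) (nat_lit 0x30001e0010000200000000000000000000000) (nat_lit 0x0) (nat_lit 0x10000800040000600200004000000000000000000000000000) := T_1 (nat_lit 142) (nat_lit 141) (nat_lit 1) (nat_lit 9) (nat_lit 7) L22426 (by decide +kernel)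
theorem L22428 : W_1 (nat_lit 5) (nat_lit 0x30001e0000000200000000000000000000000) (nat_lit 0x0) (nat_lit 0x1000080004000060020001c000000000000000000000000000) := T_1 (nat_lit 112) (nat_lit 111) (nat_lit 2) (nat_lit 6) (nat_lit 7) L22427 (by decide +kernel)
theorem L22429 : W_1 (nat_lit 6) (nat_lit 0x30000e0000000200000000000000000000000) (nat_lit 0x0) (nat_lit 0x1000080004000460030001c000000000000000000000000000) := T_1 (nat_lit 128) (nat_lit 146) (nat_lit 3) (nat_lit 6) (nat_lit 7) L22428 (by decide +kernel)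
theorem L22430 : W_1 (nat_lit 10) (nat_lit 0x30000e0000000000000000000000000000000) (nat_lit 0x0) (nat_lit 0x1000080004000460030001e00070003e001c000c0004000000) := Q_1 (nat_lit 93) (C_1 L22410 (C_1 L22413 (C_1 L22421 (C_1 L22424 (C_1 L22429 N_1))))) (by decide +kernel)
theorem L22431 : W_1 (nat_lit 2) (nat_lit 0x40003c001e0008000000020000000000000000000) (nat_lit 0x0) (nat_lit 0x800000000000000004000200000000000000000000000) := D_1 (nat_lit 110) (nat_lit 93) (nat_lit 179) (nat_lit 7) (nat_lit 8) (nat_lit 5) (nat_lit 4) (nat_lit 9) (nat_lit 10) (by decide +kernel)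
theorem L22432 : W_1 (nat_lit 3) (nat_lit 0x3c001e0008000000020000000000000000000) (nat_lit 0x0) (nat_lit 0x8000c0000000000004000200000000000000000000000) := T_1 (nat_lit 162) (nat_lit 163) (nat_lit 3) (nat_lit 6) (nat_lit 8) L22431 (by decide +kernel)
theorem L22433 : W_1 (nat_lit 4) (nat_lit 0x3c001e0008000000000000000000000000000) (nat_lit 0x0) (nat_lit 0x8000c0000000000004000600020000000000000000000) := T_1 (nat_lit 77) (nat_lit 94) (nat_lit 5) (nat_lit 9) (nat_lit 4) L22432 (by decide +kernel)
theorem L22434 : W_1 (nat_lit 5) (nat_lit 0x34001e0008000000000000000000000000000) (nat_lit 0x0) (nat_lit 0x8000c0000800200004000600020000000000000000000) := T_1 (nat_lit 143) (nat_lit 129) (nat_lit 2) (nat_lit 6) (nat_lit 8) L22433 (by decide +kernel)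
theorem L22435 : W_1 (nat_lit 6) (nat_lit 0x34001e0000000000000000000000000000000) (nat_lit 0x0) (nat_lit 0x8000c000080020001c000600020000000000000000000) := T_1 (nat_lit 111) (nat_lit 112) (nat_lit 2) (nat_lit 6) (nat_lit 7) L22434 (by decide +kernel)
theorem L22436 : W_1 (nat_lit 7) (nat_lit 0x30001e0000000000000000000000000000000) (nat_lit 0x0) (nat_lit 0x8000c0000e0020001c000600020000000000000000000) := T_1 (nat_lit 142) (nat_lit 141) (nat_lit 1) (nat_lit 9) (nat_lit 7) L22435 (by decide +kernel)
theorem L22437 : W_1 (nat_lit 2) (nat_lit 0x30001e000c000780004000000000000000000) (nat_lit 0x0) (nat_lit 0x10000800000002000000000000000000000000000) := D_1 (nat_lit 143) (nat_lit 160) (nat_lit 109) (nat_lit 5) (nat_lit 8) (nat_lit 5) (nat_lit 4) (nat_lit 7) (nat_lit 8) (by decide +kernel)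
theorem L22438 : W_1 (nat_lit 3) (nat_lit 0x30001e000c000780000000000000000000000) (nat_lit 0x0) (nat_lit 0x10000800000002000000006000000000000000000) := T_1 (nat_lit 74) (nat_lit 73) (nat_lit 0) (nat_lit 9) (nat_lit 5) L22437 (by decide +kernel)
theorem L22439 : W_1 (nat_lit 4) (nat_lit 0x30001e000c000700000000000000000000000) (nat_lit 0x0) (nat_lit 0x100008000000020000c0006000000000000000000) := T_1 (nat_lit 91) (nat_lit 90) (nat_lit 3) (nat_lit 5) (nat_lit 5) L22438 (by decide +kernel)
theorem L22440 : W_1 (nat_lit 5) (nat_lit 0x30001e000c000600000000000000000000000) (nat_lit 0x0) (nat_lit 0x100008000000020001c000e000000000000000000) := T_1 (nat_lit 92) (nat_lit 75) (nat_lit 4) (nat_lit 8) (nat_lit 8) L22439 (by decide +kernel)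
theorem L22441 : W_1 (nat_lit 6) (nat_lit 0x30001e0008000600000000000000000000000) (nat_lit 0x0) (nat_lit 0x500008000000060001c000e000000000000000000) := T_1 (nat_lit 110) (nat_lit 162) (nat_lit 7) (nat_lit 8) (nat_lit 5) L22440 (by decide +kernel)
theorem L22442 : W_1 (nat_lit 7) (nat_lit 0x30001e0008000400000000000000000000000) (nat_lit 0x0) (nat_lit 0x500008000000060003c001e000000000000000000) := T_1 (nat_lit 93) (nat_lit 76) (nat_lit 4) (nat_lit 9) (nat_lit 8) L22441 (by decide +kernel)
theorem L22443 : W_1 (nat_lit 8) (nat_lit 0x30001e0008000000000000000000000000000) (nat_lit 0x0) (nat_lit 0x500008000000060007c003e000000000000000000) := T_1 (nat_lit 94) (nat_lit 77) (nat_lit 5) (nat_lit 9) (nat_lit 4) L22442 (by decide +kernel)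
theorem L22444 : W_1 (nat_lit 9) (nat_lit 0x30001e0000000000000000000000000000000) (nat_lit 0x0) (nat_lit 0x5000080000001e0007c003e000000000000000000) := T_1 (nat_lit 111) (nat_lit 112) (nat_lit 2) (nat_lit 6) (nat_lit 7) L22443 (by decide +kernel)
theorem L22445 : W_1 (nat_lit 2) (nat_lit 0x8003c001e0008000000020000000000000000000) (nat_lit 0x0) (nat_lit 0x100000000000000002000100000000000000000000000) := D_1 (nat_lit 109) (nat_lit 92) (nat_lit 176) (nat_lit 5) (nat_lit 7) (nat_lit 5) (nat_lit 6) (nat_lit 6) (nat_lit 10) (by decide +kernel)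
theorem L22446 : W_1 (nat_lit 3) (nat_lit 0x3c001e0008000000020000000000000000000) (nat_lit 0x0) (nat_lit 0x10000c000000000002000100000000000000000000000) := T_1 (nat_lit 159) (nat_lit 158) (nat_lit 1) (nat_lit 9) (nat_lit 8) L22445 (by decide +kernel)
theorem L22447 : W_1 (nat_lit 4) (nat_lit 0x34001e0008000000020000000000000000000) (nat_lit 0x0) (nat_lit 0x10000c000800200002000100000000000000000000000) := T_1 (nat_lit 143) (nat_lit 129) (nat_lit 2) (nat_lit 6) (nat_lit 8) L22446 (by decide +kernel)
theorem L22448 : W_1 (nat_lit 5) (nat_lit 0x34001e0008000000000000000000000000000) (nat_lit 0x0) (nat_lit 0x10000c000800200002000500020000000000000000000) := T_1 (nat_lit 77) (nat_lit 94) (nat_lit 5) (nat_lit 9) (nat_lit 4) L22447 (by decide +kernel)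
theorem L22449 : W_1 (nat_lit 6) (nat_lit 0x30001e0008000000000000000000000000000) (nat_lit 0x0) (nat_lit 0x10000c000e00200002000500020000000000000000000) := T_1 (nat_lit 142) (nat_lit 141) (nat_lit 1) (nat_lit 9) (nat_lit 7) L22448 (by decide +kernel)
theorem L22450 : W_1 (nat_lit 7) (nat_lit 0x30001e0000000000000000000000000000000) (nat_lit 0x0) (nat_lit 0x10000c000e0020001a000500020000000000000000000) := T_1 (nat_lit 111) (nat_lit 112) (nat_lit 2) (nat_lit 6) (nat_lit 7) L22449 (by decide +kernel)
theorem L22451 : W_1 (nat_lit 2) (nat_lit 0x400030001e0000000000000000000000000000000) (nat_lit 0x0) (nat_lit 0x10000800000000000000004000000000000000000000000000) := D_1 (nat_lit 179) (nat_lit 110) (nat_lit 196) (nat_lit 4) (nat_lit 9) (nat_lit 10) (nat_lit 4) (nat_lit 9) (nat_lit 11) (by decide +kernel)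
theorem L22452 : W_1 (nat_lit 2) (nat_lit 0x400034001e0008000200000000000000000000000) (nat_lit 0x0) (nat_lit 0x400030000000000000000000) := D_1 (nat_lit 94) (nat_lit 76) (nat_lit 77) (nat_lit 4) (nat_lit 9) (nat_lit 8) (nat_lit 5) (nat_lit 9) (nat_lit 4) (by decide +kernel)
theorem L22453 : W_1 (nat_lit 3) (nat_lit 0x400034001e0000000200000000000000000000000) (nat_lit 0x0) (nat_lit 0x18000400030000000000000000000) := T_1 (nat_lit 111) (nat_lit 112) (nat_lit 2) (nat_lit 6) (nat_lit 7) L22452 (by decide +kernel)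
theorem L22454 : W_1 (nat_lit 4) (nat_lit 0x400034001e0000000000000000000000000000000) (nat_lit 0x0) (nat_lit 0x1c000600030000000000000000000) := T_1 (nat_lit 93) (nat_lit 110) (nat_lit 7) (nat_lit 8) (nat_lit 5) L22453 (by decide +kernel)
theorem L22455 : W_1 (nat_lit 5) (nat_lit 0x400030001e0000000000000000000000000000000) (nat_lit 0x0) (nat_lit 0x60000001c000600030000000000000000000) := T_1 (nat_lit 142) (nat_lit 141) (nat_lit 1) (nat_lit 9) (nat_lit 7) L22454 (by decide +kernel)
theorem L22456 : W_1 (nat_lit 2) (nat_lit 0x400030001e0010000000000000000000000000000) (nat_lit 0x0) (nat_lit 0x10000800000000000200000000000000000000000000000000) := D_1 (nat_lit 179) (nat_lit 196) (nat_lit 129) (nat_lit 4) (nat_lit 9) (nat_lit 11) (nat_lit 6) (nat_lit 9) (nat_lit 10) (by decide +kernel)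
theorem L22457 : W_1 (nat_lit 3) (nat_lit 0x400030001e0000000000000000000000000000000) (nat_lit 0x0) (nat_lit 0x10000800000000000200018000000000000000000000000000) := T_1 (nat_lit 112) (nat_lit 111) (nat_lit 2) (nat_lit 6) (nat_lit 7) L22456 (by decide +kernel)
theorem L22458 : W_1 (nat_lit 6) (nat_lit 0x30001e0000000000000000000000000000000) (nat_lit 0x0) (nat_lit 0x1000080004000060020001c000600030000000000000000000) := Q_1 (nat_lit 162) (C_1 L22451 (C_1 L22455 (C_1 L22457 N_1))) (by decide +kernel)
theorem L22459 : W_1 (nat_lit 2) (nat_lit 0x8003c001e0000000000000000000000000000000) (nat_lit 0x0) (nat_lit 0x100000000000000002000100000000000000000000000) := D_1 (nat_lit 109) (nat_lit 92) (nat_lit 176) (nat_lit 5) (nat_lit 7) (nat_lit 5) (nat_lit 6) (nat_lit 6) (nat_lit 10) (by decide +kernel)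
theorem L22460 : W_1 (nat_lit 3) (nat_lit 0x3c001e0000000000000000000000000000000) (nat_lit 0x0) (nat_lit 0x10000c000000000002000100000000000000000000000) := T_1 (nat_lit 159) (nat_lit 158) (nat_lit 1) (nat_lit 9) (nat_lit 8) L22459 (by decide +kernel)
theorem L22461 : W_1 (nat_lit 4) (nat_lit 0x34001e0000000000000000000000000000000) (nat_lit 0x0) (nat_lit 0x10000c000800200002000100000000000000000000000) := T_1 (nat_lit 143) (nat_lit 129) (nat_lit 2) (nat_lit 6) (nat_lit 8) L22460 (by decide +kernel)
theorem L22462 : W_1 (nat_lit 5) (nat_lit 0x30001e0000000000000000000000000000000) (nat_lit 0x0) (nat_lit 0x10000c000e00200002000100000000000000000000000) := T_1 (nat_lit 142) (nat_lit 141) (nat_lit 1) (nat_lit 9) (nat_lit 7) L22461 (by decide +kernel)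
theorem L22463 : W_1 (nat_lit 10) (nat_lit 0x30000e0000000000000000000000000000000) (nat_lit 0x0) (nat_lit 0x100009000dc000e0030001e0007c003e000000000000000000) := Q_1 (nat_lit 128) (C_1 L22436 (C_1 L22444 (C_1 L22450 (C_1 L22458 (C_1 L22462 N_1))))) (by decide +kernel)
theorem L22464 : W_1 (nat_lit 11) (nat_lit 0x10000e0000000000000000000000000000000) (nat_lit 0x0) (nat_lit 0x16000b000de006e0030001e0007c003e001c000c0004000000) := Q_1 (nat_lit 145) (C_1 L22407 (C_1 L22408 (C_1 L22430 (C_1 L22463 N_1)))) (by decide +kernel)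
theorem L22465 : W_1 (nat_lit 2) (nat_lit 0x10000f8000000000000000000000000000000) (nat_lit 0x0) (nat_lit 0x380000000000000000000000000000000000) := D_1 (nat_lit 140) (nat_lit 139) (nat_lit 141) (nat_lit 1) (nat_lit 7) (nat_lit 7) (nat_lit 1) (nat_lit 8) (nat_lit 7) (by decide +kernel)
theorem L22466 : W_1 (nat_lit 3) (nat_lit 0x10000f0000000000000000000000000000000) (nat_lit 0x0) (nat_lit 0xb80008000000000000000000000000000000) := T_1 (nat_lit 123) (nat_lit 143) (nat_lit 3) (nat_lit 4) (nat_lit 7) L22465 (by decide +kernel)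
theorem L22467 : W_1 (nat_lit 4) (nat_lit 0x10000e0000000000000000000000000000000) (nat_lit 0x0) (nat_lit 0x2b80018000000000000000000000000000000) := T_1 (nat_lit 124) (nat_lit 145) (nat_lit 3) (nat_lit 5) (nat_lit 7) L22466 (by decide +kernel)
theorem L22468 : W_1 (nat_lit 2) (nat_lit 0x10000f8004000000000000000000000000000) (nat_lit 0x0) (nat_lit 0x380000000000000000000000000000000000) := D_1 (nat_lit 140) (nat_lit 139) (nat_lit 141) (nat_lit 1) (nat_lit 7) (nat_lit 7) (nat_lit 1) (nat_lit 8) (nat_lit 7) (by decide +kernel)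
theorem L22469 : W_1 (nat_lit 3) (nat_lit 0x10000f0004000000000000000000000000000) (nat_lit 0x0) (nat_lit 0x380008002000000000000000000000000000) := T_1 (nat_lit 123) (nat_lit 109) (nat_lit 2) (nat_lit 4) (nat_lit 7) L22468 (by decide +kernel)
theorem L22470 : W_1 (nat_lit 4) (nat_lit 0x10000f0000000000000000000000000000000) (nat_lit 0x0) (nat_lit 0x38000800e000000000000000000000000000) := T_1 (nat_lit 110) (nat_lit 111) (nat_lit 2) (nat_lit 5) (nat_lit 7) L22469 (by decide +kernel)
theorem L22471 : W_1 (nat_lit 5) (nat_lit 0x10000e0000000000000000000000000000000) (nat_lit 0x0) (nat_lit 0x238001800e000000000000000000000000000) := T_1 (nat_lit 124) (nat_lit 145) (nat_lit 3) (nat_lit 5) (nat_lit 7) L22470 (by decide +kernel)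
theorem L22472 : W_1 (nat_lit 2) (nat_lit 0x10000f0004800000000000000000000000000) (nat_lit 0x0) (nat_lit 0x800008002000000000000000000000000000) := D_1 (nat_lit 123) (nat_lit 109) (nat_lit 143) (nat_lit 2) (nat_lit 4) (nat_lit 7) (nat_lit 3) (nat_lit 4) (nat_lit 7) (by decide +kernel)
theorem L22473 : W_1 (nat_lit 3) (nat_lit 0x10000f0000800000000000000000000000000) (nat_lit 0x0) (nat_lit 0x80000800e000000000000000000000000000) := T_1 (nat_lit 110) (nat_lit 111) (nat_lit 2) (nat_lit 5) (nat_lit 7) L22472 (by decide +kernel)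
theorem L22474 : W_1 (nat_lit 4) (nat_lit 0x10000f0000000000000000000000000000000) (nat_lit 0x0) (nat_lit 0x80000800ec00000000000000000000000000) := T_1 (nat_lit 107) (nat_lit 106) (nat_lit 0) (nat_lit 8) (nat_lit 7) L22473 (by decide +kernel)
theorem L22475 : W_1 (nat_lit 2) (nat_lit 0x12001f0000800000000000000000000000000) (nat_lit 0x0) (nat_lit 0x1c000000000000000000000000000) := D_1 (nat_lit 111) (nat_lit 110) (nat_lit 112) (nat_lit 2) (nat_lit 5) (nat_lit 7) (nat_lit 2) (nat_lit 6) (nat_lit 7) (by decide +kernel)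
theorem L22476 : W_1 (nat_lit 3) (nat_lit 0x12000f0000800000000000000000000000000) (nat_lit 0x0) (nat_lit 0x40010001c000000000000000000000000000) := T_1 (nat_lit 128) (nat_lit 142) (nat_lit 1) (nat_lit 9) (nat_lit 7) L22475 (by decide +kernel)
theorem L22477 : W_1 (nat_lit 4) (nat_lit 0x12000f0000000000000000000000000000000) (nat_lit 0x0) (nat_lit 0x40010001cc00000000000000000000000000) := T_1 (nat_lit 107) (nat_lit 106) (nat_lit 0) (nat_lit 8) (nat_lit 7) L22476 (by decide +kernel)
theorem L22478 : W_1 (nat_lit 5) (nat_lit 0x10000f0000000000000000000000000000000) (nat_lit 0x0) (nat_lit 0x70010001cc00000000000000000000000000) := T_1 (nat_lit 141) (nat_lit 140) (nat_lit 1) (nat_lit 8) (nat_lit 7) L22477 (by decide +kernel)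
theorem L22479 : W_1 (nat_lit 6) (nat_lit 0x10000e0000000000000000000000000000000) (nat_lit 0x0) (nat_lit 0xf8011801ec00000000000000000000000000) := Q_1 (nat_lit 124) (C_1 L22470 (C_1 L22466 (C_1 L22474 (C_1 L22478 N_1)))) (by decide +kernel)
theorem L22480 : W_1 (nat_lit 5) (nat_lit 0x10000e0000000000000000000000000000000) (nat_lit 0x0) (nat_lit 0x280001800ec00000000000000000000000000) := T_1 (nat_lit 124) (nat_lit 145) (nat_lit 3) (nat_lit 5) (nat_lit 7) L22474 (by decide +kernel)
theorem L22481 : W_1 (nat_lit 12) (nat_lit 0x10000a0000000000000000000000000000000) (nat_lit 0x0) (nat_lit 0x16000b000de006f8035801ec007c003e001c000c0004000000) := Q_1 (nat_lit 126) (C_1 L22464 (C_1 L22467 (C_1 L22471 (C_1 L22479 (C_1 L22480 N_1))))) (by decide +kernel)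
theorem L22482 : W_1 (nat_lit 2) (nat_lit 0x12000f0000800000000000000000000000000) (nat_lit 0x0) (nat_lit 0x400100001000000000000000000000000000) := D_1 (nat_lit 128) (nat_lit 142) (nat_lit 108) (nat_lit 1) (nat_lit 9) (nat_lit 7) (nat_lit 0) (nat_lit 9) (nat_lit 7) (by decide +kernel)
theorem L22483 : W_1 (nat_lit 3) (nat_lit 0x12000f0000000000000000000000000000000) (nat_lit 0x0) (nat_lit 0x400100001c00000000000000000000000000) := T_1 (nat_lit 107) (nat_lit 106) (nat_lit 0) (nat_lit 8) (nat_lit 7) L22482 (by decide +kernel)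
theorem L22484 : W_1 (nat_lit 4) (nat_lit 0x10000f0000000000000000000000000000000) (nat_lit 0x0) (nat_lit 0x700100001c00000000000000000000000000) := T_1 (nat_lit 141) (nat_lit 140) (nat_lit 1) (nat_lit 8) (nat_lit 7) L22483 (by decide +kernel)
theorem L22485 : W_1 (nat_lit 5) (nat_lit 0x10000e0000000000000000000000000000000) (nat_lit 0x0) (nat_lit 0x2700110001c00000000000000000000000000) := T_1 (nat_lit 124) (nat_lit 145) (nat_lit 3) (nat_lit 5) (nat_lit 7) L22484 (by decide +kernel)
theorem L22486 : W_1 (nat_lit 2) (nat_lit 0x11000f8001800000000000000000000000000) (nat_lit 0x0) (nat_lit 0x6002000000000000000000000000000) := D_1 (nat_lit 122) (nat_lit 121) (nat_lit 109) (nat_lit 2) (nat_lit 2) (nat_lit 7) (nat_lit 2) (nat_lit 3) (nat_lit 7) (by decide +kernel)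
theorem L22487 : W_1 (nat_lit 3) (nat_lit 0x11000f8000800000000000000000000000000) (nat_lit 0x0) (nat_lit 0x106003000000000000000000000000000) := T_1 (nat_lit 108) (nat_lit 128) (nat_lit 0) (nat_lit 9) (nat_lit 7) L22486 (by decide +kernel)
theorem L22488 : W_1 (nat_lit 4) (nat_lit 0x10000f8000800000000000000000000000000) (nat_lit 0x0) (nat_lit 0x180106003000000000000000000000000000) := T_1 (nat_lit 140) (nat_lit 139) (nat_lit 1) (nat_lit 7) (nat_lit 7) L22487 (by decide +kernel)
theorem L22489 : W_1 (nat_lit 5) (nat_lit 0x10000f0000800000000000000000000000000) (nat_lit 0x0) (nat_lit 0x98010e003000000000000000000000000000) := T_1 (nat_lit 123) (nat_lit 143) (nat_lit 3) (nat_lit 4) (nat_lit 7) L22488 (by decide +kernel)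
theorem L22490 : W_1 (nat_lit 6) (nat_lit 0x10000f0000000000000000000000000000000) (nat_lit 0x0) (nat_lit 0x98010e003c00000000000000000000000000) := T_1 (nat_lit 107) (nat_lit 106) (nat_lit 0) (nat_lit 8) (nat_lit 7) L22489 (by decide +kernel)
theorem L22491 : W_1 (nat_lit 2) (nat_lit 0x10000f8001800000000000000000000000000) (nat_lit 0x0) (nat_lit 0x6002000000000000000000000000000) := D_1 (nat_lit 122) (nat_lit 121) (nat_lit 109) (nat_lit 2) (nat_lit 2) (nat_lit 7) (nat_lit 2) (nat_lit 3) (nat_lit 7) (by decide +kernel)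
theorem L22492 : W_1 (nat_lit 3) (nat_lit 0x10000f8000800000000000000000000000000) (nat_lit 0x0) (nat_lit 0x106003000000000000000000000000000) := T_1 (nat_lit 108) (nat_lit 128) (nat_lit 0) (nat_lit 9) (nat_lit 7) L22491 (by decide +kernel)
theorem L22493 : W_1 (nat_lit 4) (nat_lit 0x10000f0000800000000000000000000000000) (nat_lit 0x0) (nat_lit 0x80010e003000000000000000000000000000) := T_1 (nat_lit 123) (nat_lit 143) (nat_lit 3) (nat_lit 4) (nat_lit 7) L22492 (by decide +kernel)
theorem L22494 : W_1 (nat_lit 5) (nat_lit 0x10000f0000000000000000000000000000000) (nat_lit 0x0) (nat_lit 0x80010e003c00000000000000000000000000) := T_1 (nat_lit 107) (nat_lit 106) (nat_lit 0) (nat_lit 8) (nat_lit 7) L22493 (by decide +kernel)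
theorem L22495 : W_1 (nat_lit 7) (nat_lit 0x10000e0000000000000000000000000000000) (nat_lit 0x0) (nat_lit 0xf8011e003c00000000000000000000000000) := Q_1 (nat_lit 124) (C_1 L22466 (C_1 L22484 (C_1 L22490 (C_1 L22494 N_1)))) (by decide +kernel)
theorem L22496 : W_1 (nat_lit 2) (nat_lit 0x10003e0009000000000000000000000000000) (nat_lit 0x0) (nat_lit 0xe00000000000000000000000000000000000) := D_1 (nat_lit 142) (nat_lit 141) (nat_lit 143) (nat_lit 1) (nat_lit 9) (nat_lit 7) (nat_lit 1) (nat_lit 10) (nat_lit 7) (by decide +kernel)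
theorem L22497 : W_1 (nat_lit 3) (nat_lit 0x10001e0009000000000000000000000000000) (nat_lit 0x0) (nat_lit 0xe00200002000000000000000000000000000) := T_1 (nat_lit 129) (nat_lit 109) (nat_lit 0) (nat_lit 10) (nat_lit 7) L22496 (by decide +kernel)
theorem L22498 : W_1 (nat_lit 4) (nat_lit 0x10001e0001000000000000000000000000000) (nat_lit 0x0) (nat_lit 0xe0020001a000000000000000000000000000) := T_1 (nat_lit 111) (nat_lit 112) (nat_lit 2) (nat_lit 6) (nat_lit 7) L22497 (by decide +kernel)
theorem L22499 : W_1 (nat_lit 5) (nat_lit 0x10001e0000000000000000000000000000000) (nat_lit 0x0) (nat_lit 0xe0020001b800000000000000000000000000) := T_1 (nat_lit 108) (nat_lit 107) (nat_lit 0) (nat_lit 9) (nat_lit 7) L22498 (by decide +kernel)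
theorem L22500 : W_1 (nat_lit 2) (nat_lit 0x3c001e0009000000020000000000000000000) (nat_lit 0x0) (nat_lit 0x200010000000000000000080000000000000000000000) := D_1 (nat_lit 160) (nat_lit 177) (nat_lit 91) (nat_lit 4) (nat_lit 7) (nat_lit 10) (nat_lit 7) (nat_lit 6) (nat_lit 5) (by decide +kernel)
theorem L22501 : W_1 (nat_lit 3) (nat_lit 0x34001e0009000000020000000000000000000) (nat_lit 0x0) (nat_lit 0x200010000800200000000080000000000000000000000) := T_1 (nat_lit 143) (nat_lit 129) (nat_lit 2) (nat_lit 6) (nat_lit 8) L22500 (by decide +kernel)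
theorem L22502 : W_1 (nat_lit 4) (nat_lit 0x30001e0009000000020000000000000000000) (nat_lit 0x0) (nat_lit 0x200010000e00200000000080000000000000000000000) := T_1 (nat_lit 142) (nat_lit 141) (nat_lit 1) (nat_lit 9) (nat_lit 7) L22501 (by decide +kernel)
theorem L22503 : W_1 (nat_lit 5) (nat_lit 0x30001e0008000000020000000000000000000) (nat_lit 0x0) (nat_lit 0x200010000e00200001800080000000000000000000000) := T_1 (nat_lit 108) (nat_lit 107) (nat_lit 0) (nat_lit 9) (nat_lit 7) L22502 (by decide +kernel)
theorem L22504 : W_1 (nat_lit 6) (nat_lit 0x30001e0008000000000000000000000000000) (nat_lit 0x0) (nat_lit 0x200010000e00200001800480020000000000000000000) := T_1 (nat_lit 77) (nat_lit 94) (nat_lit 5) (nat_lit 9) (nat_lit 4) L22503 (by decide +kernel)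
theorem L22505 : W_1 (nat_lit 7) (nat_lit 0x10001e0008000000000000000000000000000) (nat_lit 0x0) (nat_lit 0x200010006e00200001800480020000000000000000000) := T_1 (nat_lit 145) (nat_lit 146) (nat_lit 3) (nat_lit 6) (nat_lit 7) L22504 (by decide +kernel)
theorem L22506 : W_1 (nat_lit 8) (nat_lit 0x10001e0000000000000000000000000000000) (nat_lit 0x0) (nat_lit 0x200010006e00200019800480020000000000000000000) := T_1 (nat_lit 111) (nat_lit 112) (nat_lit 2) (nat_lit 6) (nat_lit 7) L22505 (by decide +kernel)
theorem L22507 : W_1 (nat_lit 4) (nat_lit 0x1c001e0008000000020000000000000000000) (nat_lit 0x0) (nat_lit 0x10000c006000000002000100000000000000000000000) := T_1 (nat_lit 145) (nat_lit 146) (nat_lit 3) (nat_lit 6) (nat_lit 7) L22446 (by decide +kernel)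
theorem L22508 : W_1 (nat_lit 5) (nat_lit 0x1c001e0008000000000000000000000000000) (nat_lit 0x0) (nat_lit 0x10000c006000000002000500020000000000000000000) := T_1 (nat_lit 77) (nat_lit 94) (nat_lit 5) (nat_lit 9) (nat_lit 4) L22507 (by decide +kernel)
theorem L22509 : W_1 (nat_lit 6) (nat_lit 0x14001e0008000000000000000000000000000) (nat_lit 0x0) (nat_lit 0x10000c006800200002000500020000000000000000000) := T_1 (nat_lit 143) (nat_lit 129) (nat_lit 1) (nat_lit 10) (nat_lit 7) L22508 (by decide +kernel)
theorem L22510 : W_1 (nat_lit 7) (nat_lit 0x14001e0000000000000000000000000000000) (nat_lit 0x0) (nat_lit 0x10000c00680020001a000500020000000000000000000) := T_1 (nat_lit 111) (nat_lit 112) (nat_lit 2) (nat_lit 6) (nat_lit 7) L22509 (by decide +kernel)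
theorem L22511 : W_1 (nat_lit 8) (nat_lit 0x10001e0000000000000000000000000000000) (nat_lit 0x0) (nat_lit 0x10000c006e0020001a000500020000000000000000000) := T_1 (nat_lit 142) (nat_lit 141) (nat_lit 1) (nat_lit 9) (nat_lit 7) L22510 (by decide +kernel)
theorem L22512 : W_1 (nat_lit 2) (nat_lit 0x14001e000b000000000000000000000000000) (nat_lit 0x0) (nat_lit 0x8000000000000000100008000000000000000000) := D_1 (nat_lit 92) (nat_lit 75) (nat_lit 159) (nat_lit 7) (nat_lit 7) (nat_lit 4) (nat_lit 6) (nat_lit 6) (nat_lit 9) (by decide +kernel)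
theorem L22513 : W_1 (nat_lit 3) (nat_lit 0x14001e0009000000000000000000000000000) (nat_lit 0x0) (nat_lit 0x8000000200002000100008000000000000000000) := T_1 (nat_lit 109) (nat_lit 129) (nat_lit 0) (nat_lit 10) (nat_lit 7) L22512 (by decide +kernel)
theorem L22514 : W_1 (nat_lit 4) (nat_lit 0x14001e0001000000000000000000000000000) (nat_lit 0x0) (nat_lit 0x800000020001a000100008000000000000000000) := T_1 (nat_lit 111) (nat_lit 112) (nat_lit 2) (nat_lit 6) (nat_lit 7) L22513 (by decide +kernel)
theorem L22515 : W_1 (nat_lit 5) (nat_lit 0x14001e0000000000000000000000000000000) (nat_lit 0x0) (nat_lit 0x800000020001b800100008000000000000000000) := T_1 (nat_lit 108) (nat_lit 107) (nat_lit 0) (nat_lit 9) (nat_lit 7) L22514 (by decide +kernel)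
theorem L22516 : W_1 (nat_lit 6) (nat_lit 0x10001e0000000000000000000000000000000) (nat_lit 0x0) (nat_lit 0x800060020001b800100008000000000000000000) := T_1 (nat_lit 142) (nat_lit 141) (nat_lit 1) (nat_lit 9) (nat_lit 7) L22515 (by decide +kernel)
theorem L22517 : W_1 (nat_lit 2) (nat_lit 0x14001e0001000000000000000000000000000) (nat_lit 0x0) (nat_lit 0x800200002000000000000000000000000000) := D_1 (nat_lit 129) (nat_lit 143) (nat_lit 109) (nat_lit 1) (nat_lit 10) (nat_lit 7) (nat_lit 0) (nat_lit 10) (nat_lit 7) (by decide +kernel)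
theorem L22518 : W_1 (nat_lit 3) (nat_lit 0x14001e0000000000000000000000000000000) (nat_lit 0x0) (nat_lit 0x800200003800000000000000000000000000) := T_1 (nat_lit 108) (nat_lit 107) (nat_lit 0) (nat_lit 9) (nat_lit 7) L22517 (by decide +kernel)
theorem L22519 : W_1 (nat_lit 4) (nat_lit 0x10001e0000000000000000000000000000000) (nat_lit 0x0) (nat_lit 0xe00200003800000000000000000000000000) := T_1 (nat_lit 142) (nat_lit 141) (nat_lit 1) (nat_lit 9) (nat_lit 7) L22518 (by decide +kernel)
theorem L22520 : W_1 (nat_lit 2) (nat_lit 0x30001e000b000c00000000000000000000000) (nat_lit 0x0) (nat_lit 0x300010000000000000000000) := D_1 (nat_lit 93) (nat_lit 92) (nat_lit 76) (nat_lit 1) (nat_lit 10) (nat_lit 5) (nat_lit 4) (nat_lit 9) (nat_lit 8) (by decide +kernel)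
theorem L22521 : W_1 (nat_lit 3) (nat_lit 0x30001e000b000400000000000000000000000) (nat_lit 0x0) (nat_lit 0xb00050000000000000000000) := T_1 (nat_lit 95) (nat_lit 78) (nat_lit 6) (nat_lit 9) (nat_lit 8) L22520 (by decide +kernel)
theorem L22522 : W_1 (nat_lit 4) (nat_lit 0x10001e000b000400000000000000000000000) (nat_lit 0x0) (nat_lit 0x6000000000000b00050000000000000000000) := T_1 (nat_lit 145) (nat_lit 146) (nat_lit 3) (nat_lit 6) (nat_lit 7) L22521 (by decide +kernel)
theorem L22523 : W_1 (nat_lit 5) (nat_lit 0x10001e0009000400000000000000000000000) (nat_lit 0x0) (nat_lit 0x6000200002000b00050000000000000000000) := T_1 (nat_lit 109) (nat_lit 129) (nat_lit 0) (nat_lit 10) (nat_lit 7) L22522 (by decide +kernel)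
theorem L22524 : W_1 (nat_lit 6) (nat_lit 0x10001e0009000000000000000000000000000) (nat_lit 0x0) (nat_lit 0x6000200002000f00070000000000000000000) := T_1 (nat_lit 94) (nat_lit 77) (nat_lit 5) (nat_lit 9) (nat_lit 4) L22523 (by decide +kernel)
theorem L22525 : W_1 (nat_lit 7) (nat_lit 0x10001e0008000000000000000000000000000) (nat_lit 0x0) (nat_lit 0x6000200003800f00070000000000000000000) := T_1 (nat_lit 108) (nat_lit 107) (nat_lit 0) (nat_lit 9) (nat_lit 7) L22524 (by decide +kernel)
theorem L22526 : W_1 (nat_lit 8) (nat_lit 0x10001e0000000000000000000000000000000) (nat_lit 0x0) (nat_lit 0x600020001b800f00070000000000000000000) := T_1 (nat_lit 111) (nat_lit 112) (nat_lit 2) (nat_lit 6) (nat_lit 7) L22525 (by decide +kernel)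
theorem L22527 : W_1 (nat_lit 2) (nat_lit 0x34001e0009000f00000000000000000000000) (nat_lit 0x0) (nat_lit 0x8000c000000000000000000) := D_1 (nat_lit 75) (nat_lit 74) (nat_lit 91) (nat_lit 0) (nat_lit 10) (nat_lit 5) (nat_lit 6) (nat_lit 6) (nat_lit 8) (by decide +kernel)
theorem L22528 : W_1 (nat_lit 3) (nat_lit 0x34001e0009000e00000000000000000000000) (nat_lit 0x0) (nat_lit 0x200018000c000000000000000000) := T_1 (nat_lit 92) (nat_lit 109) (nat_lit 1) (nat_lit 10) (nat_lit 5) L22527 (by decide +kernel)
theorem L22529 : W_1 (nat_lit 4) (nat_lit 0x34001e0009000600000000000000000000000) (nat_lit 0x0) (nat_lit 0x200098004c000000000000000000) := T_1 (nat_lit 95) (nat_lit 78) (nat_lit 6) (nat_lit 9) (nat_lit 8) L22528 (by decide +kernel)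
theorem L22530 : W_1 (nat_lit 5) (nat_lit 0x34001e0009000400000000000000000000000) (nat_lit 0x0) (nat_lit 0x2000b8005c000000000000000000) := T_1 (nat_lit 93) (nat_lit 76) (nat_lit 4) (nat_lit 9) (nat_lit 8) L22529 (by decide +kernel)
theorem L22531 : W_1 (nat_lit 6) (nat_lit 0x34001e0009000000000000000000000000000) (nat_lit 0x0) (nat_lit 0x2000f8007c000000000000000000) := T_1 (nat_lit 94) (nat_lit 77) (nat_lit 5) (nat_lit 9) (nat_lit 4) L22530 (by decide +kernel)
theorem L22532 : W_1 (nat_lit 7) (nat_lit 0x34001e0008000000000000000000000000000) (nat_lit 0x0) (nat_lit 0x3800f8007c000000000000000000) := T_1 (nat_lit 108) (nat_lit 107) (nat_lit 0) (nat_lit 9) (nat_lit 7) L22531 (by decide +kernel)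
theorem L22533 : W_1 (nat_lit 8) (nat_lit 0x34001e0000000000000000000000000000000) (nat_lit 0x0) (nat_lit 0x1b800f8007c000000000000000000) := T_1 (nat_lit 111) (nat_lit 112) (nat_lit 2) (nat_lit 6) (nat_lit 7) L22532 (by decide +kernel)
theorem L22534 : W_1 (nat_lit 9) (nat_lit 0x30001e0000000000000000000000000000000) (nat_lit 0x0) (nat_lit 0x60000001b800f8007c000000000000000000) := T_1 (nat_lit 142) (nat_lit 141) (nat_lit 1) (nat_lit 9) (nat_lit 7) L22533 (by decide +kernel)
theorem L22535 : W_1 (nat_lit 10) (nat_lit 0x10001e0000000000000000000000000000000) (nat_lit 0x0) (nat_lit 0x660000001b800f8007c000000000000000000) := T_1 (nat_lit 145) (nat_lit 146) (nat_lit 3) (nat_lit 6) (nat_lit 7) L22534 (by decide +kernel)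
theorem L22536 : W_1 (nat_lit 11) (nat_lit 0x10000e0000000000000000000000000000000) (nat_lit 0x0) (nat_lit 0x30001c006e0030001b800f8007c000000000000000000) := Q_1 (nat_lit 128) (C_1 L22499 (C_1 L22506 (C_1 L22511 (C_1 L22516 (C_1 L22519 (C_1 L22526 (C_1 L22535 N_1))))))) (by decide +kernel)
theorem L22537 : W_1 (nat_lit 6) (nat_lit 0x10000e0000000000000000000000000000000) (nat_lit 0x0) (nat_lit 0x280011e003c00000000000000000000000000) := T_1 (nat_lit 124) (nat_lit 145) (nat_lit 3) (nat_lit 5) (nat_lit 7) L22494 (by decide +kernel)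
theorem L22538 : W_1 (nat_lit 12) (nat_lit 0x10000a0000000000000000000000000000000) (nat_lit 0x0) (nat_lit 0x30001c006f8035e01bc00f8007c000000000000000000) := Q_1 (nat_lit 126) (C_1 L22467 (C_1 L22485 (C_1 L22495 (C_1 L22536 (C_1 L22537 N_1))))) (by decide +kernel)
theorem L22539 : W_1 (nat_lit 7) (nat_lit 0x10001e0000000000000000000000000000000) (nat_lit 0x0) (nat_lit 0x1000080004000660020001c000600030000000000000000000) := T_1 (nat_lit 145) (nat_lit 146) (nat_lit 3) (nat_lit 6) (nat_lit 7) L22458 (by decide +kernel)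
theorem L22540 : W_1 (nat_lit 11) (nat_lit 0x10000e0000000000000000000000000000000) (nat_lit 0x0) (nat_lit 0x10000a00050006e0030001f800f8007c000000000000000000) := Q_1 (nat_lit 128) (C_1 L22519 (C_1 L22535 (C_1 L22506 (C_1 L22539 (C_1 L22526 N_1))))) (by decide +kernel)
theorem L22541 : W_1 (nat_lit 12) (nat_lit 0x10000a0000000000000000000000000000000) (nat_lit 0x0) (nat_lit 0x10000a00050006f8035e01fc00f8007c000000000000000000) := Q_1 (nat_lit 126) (C_1 L22537 (C_1 L22480 (C_1 L22485 (C_1 L22495 (C_1 L22540 (C_1 L22471 N_1)))))) (by decide +kernel)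
theorem L22542 : W_1 (nat_lit 4) (nat_lit 0x10000b0000000000000000000000000000000) (nat_lit 0x0) (nat_lit 0x2b80048000000000000000000000000000000) := T_1 (nat_lit 126) (nat_lit 145) (nat_lit 3) (nat_lit 5) (nat_lit 7) L22466 (by decide +kernel)
theorem L22543 : W_1 (nat_lit 2) (nat_lit 0x4001e000b0000000000000000000000000000000) (nat_lit 0x0) (nat_lit 0x80000000000000001000080000000000000000000000) := D_1 (nat_lit 108) (nat_lit 91) (nat_lit 175) (nat_lit 5) (nat_lit 6) (nat_lit 5) (nat_lit 6) (nat_lit 5) (nat_lit 10) (by decide +kernel)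
theorem L22544 : W_1 (nat_lit 3) (nat_lit 0x1e000b0000000000000000000000000000000) (nat_lit 0x0) (nat_lit 0x80006000000000001000080000000000000000000000) := T_1 (nat_lit 158) (nat_lit 157) (nat_lit 1) (nat_lit 8) (nat_lit 8) L22543 (by decide +kernel)
theorem L22545 : W_1 (nat_lit 4) (nat_lit 0x16000b0000000000000000000000000000000) (nat_lit 0x0) (nat_lit 0x80006000800008001000080000000000000000000000) := T_1 (nat_lit 143) (nat_lit 123) (nat_lit 0) (nat_lit 8) (nat_lit 8) L22544 (by decide +kernel)
theorem L22546 : W_1 (nat_lit 2) (nat_lit 0x80016800bc0010000c0000000000000000000000) (nat_lit 0x0) (nat_lit 0x200010000100000000000000000000000000000000000) := D_1 (nat_lit 160) (nat_lit 140) (nat_lit 177) (nat_lit 3) (nat_lit 3) (nat_lit 8) (nat_lit 7) (nat_lit 6) (nat_lit 6) (by decide +kernel)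
theorem L22547 : W_1 (nat_lit 3) (nat_lit 0x16800bc0010000c0000000000000000000000) (nat_lit 0x0) (nat_lit 0x200018000100000000800000000000000000000000000) := T_1 (nat_lit 159) (nat_lit 107) (nat_lit 7) (nat_lit 5) (nat_lit 5) L22546 (by decide +kernel)
theorem L22548 : W_1 (nat_lit 4) (nat_lit 0x16800bc001000080000000000000000000000) (nat_lit 0x0) (nat_lit 0x200018000100000000800040002000000000000000000) := T_1 (nat_lit 90) (nat_lit 73) (nat_lit 4) (nat_lit 6) (nat_lit 8) L22547 (by decide +kernel)
theorem L22549 : W_1 (nat_lit 5) (nat_lit 0x16800bc001000000000000000000000000000) (nat_lit 0x0) (nat_lit 0x2000180001000000008000c0006000000000000000000) := T_1 (nat_lit 91) (nat_lit 74) (nat_lit 5) (nat_lit 6) (nat_lit 4) L22548 (by decide +kernel)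
theorem L22550 : W_1 (nat_lit 6) (nat_lit 0x16000bc001000000000000000000000000000) (nat_lit 0x0) (nat_lit 0x2000180001c00000008000c0006000000000000000000) := T_1 (nat_lit 139) (nat_lit 138) (nat_lit 1) (nat_lit 6) (nat_lit 7) L22549 (by decide +kernel)
theorem L22551 : W_1 (nat_lit 7) (nat_lit 0x16000bc000000000000000000000000000000) (nat_lit 0x0) (nat_lit 0x2000180001c00000038000c0006000000000000000000) := T_1 (nat_lit 108) (nat_lit 109) (nat_lit 2) (nat_lit 3) (nat_lit 7) L22550 (by decide +kernel)
theorem L22552 : W_1 (nat_lit 8) (nat_lit 0x16000b8000000000000000000000000000000) (nat_lit 0x0) (nat_lit 0x2000180001c00060038000c0006000000000000000000) := T_1 (nat_lit 122) (nat_lit 121) (nat_lit 3) (nat_lit 2) (nat_lit 7) L22551 (by decide +kernel)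
theorem L22553 : W_1 (nat_lit 9) (nat_lit 0x16000b0000000000000000000000000000000) (nat_lit 0x0) (nat_lit 0x2000180009c000e0038000c0006000000000000000000) := T_1 (nat_lit 123) (nat_lit 143) (nat_lit 0) (nat_lit 8) (nat_lit 8) L22552 (by decide +kernel)
theorem L22554 : W_1 (nat_lit 2) (nat_lit 0x1c0004001e000b0000800040000000000000000000000) (nat_lit 0x0) (nat_lit 0x400020001000000000000000000) := D_1 (nat_lit 89) (nat_lit 106) (nat_lit 72) (nat_lit 4) (nat_lit 5) (nat_lit 9) (nat_lit 4) (nat_lit 5) (nat_lit 8) (by decide +kernel)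
theorem L22555 : W_1 (nat_lit 3) (nat_lit 0x1c0004001e000b0000800000000000000000000000000) (nat_lit 0x0) (nat_lit 0x400060003000000000000000000) := T_1 (nat_lit 90) (nat_lit 73) (nat_lit 7) (nat_lit 5) (nat_lit 4) L22554 (by decide +kernel)
theorem L22556 : W_1 (nat_lit 4) (nat_lit 0x1c0004001e000b0000000000000000000000000000000) (nat_lit 0x0) (nat_lit 0x8000000000000c00060003000000000000000000) := T_1 (nat_lit 107) (nat_lit 159) (nat_lit 7) (nat_lit 5) (nat_lit 6) L22555 (by decide +kernel)
theorem L22557 : W_1 (nat_lit 5) (nat_lit 0xc0004001e000b0000000000000000000000000000000) (nat_lit 0x0) (nat_lit 0x2000100008000000000000c00060003000000000000000000) := T_1 (nat_lit 176) (nat_lit 193) (nat_lit 7) (nat_lit 5) (nat_lit 7) L22556 (by decide +kernel)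
theorem L22558 : W_1 (nat_lit 6) (nat_lit 0x80004001e000b0000000000000000000000000000000) (nat_lit 0x0) (nat_lit 0x2800140008000000000000c00060003000000000000000000) := T_1 (nat_lit 174) (nat_lit 191) (nat_lit 5) (nat_lit 5) (nat_lit 7) L22557 (by decide +kernel)
theorem L22559 : W_1 (nat_lit 7) (nat_lit 0x4001e000b0000000000000000000000000000000) (nat_lit 0x0) (nat_lit 0x38001c0008000000000000c00060003000000000000000000) := T_1 (nat_lit 175) (nat_lit 192) (nat_lit 6) (nat_lit 5) (nat_lit 11) L22558 (by decide +kernel)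
theorem L22560 : W_1 (nat_lit 8) (nat_lit 0x1e000b0000000000000000000000000000000) (nat_lit 0x0) (nat_lit 0x38001c000e000000000000c00060003000000000000000000) := T_1 (nat_lit 158) (nat_lit 157) (nat_lit 1) (nat_lit 8) (nat_lit 8) L22559 (by decide +kernel)
theorem L22561 : W_1 (nat_lit 9) (nat_lit 0x16000b0000000000000000000000000000000) (nat_lit 0x0) (nat_lit 0x38001c000e000800008000c00060003000000000000000000) := T_1 (nat_lit 143) (nat_lit 123) (nat_lit 0) (nat_lit 8) (nat_lit 8) L22560 (by decide +kernel)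
theorem L22562 : W_1 (nat_lit 2) (nat_lit 0x16000b00018001c0000000000000000000000) (nat_lit 0x0) (nat_lit 0x600200000000000000000000000) := D_1 (nat_lit 106) (nat_lit 105) (nat_lit 93) (nat_lit 2) (nat_lit 3) (nat_lit 6) (nat_lit 1) (nat_lit 8) (nat_lit 5) (by decide +kernel)
theorem L22563 : W_1 (nat_lit 3) (nat_lit 0x16000b00018000c0000000000000000000000) (nat_lit 0x0) (nat_lit 0x600300008000000000000000000) := T_1 (nat_lit 92) (nat_lit 75) (nat_lit 6) (nat_lit 6) (nat_lit 8) L22562 (by decide +kernel)
theorem L22564 : W_1 (nat_lit 4) (nat_lit 0x16000b00008000c0000000000000000000000) (nat_lit 0x0) (nat_lit 0x4000000000001600300008000000000000000000) := T_1 (nat_lit 108) (nat_lit 158) (nat_lit 6) (nat_lit 5) (nat_lit 9) L22563 (by decide +kernel)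
theorem L22565 : W_1 (nat_lit 5) (nat_lit 0x16000b0000800040000000000000000000000) (nat_lit 0x0) (nat_lit 0x400000000000160038000c000000000000000000) := T_1 (nat_lit 91) (nat_lit 74) (nat_lit 6) (nat_lit 5) (nat_lit 8) L22564 (by decide +kernel)
theorem L22566 : W_1 (nat_lit 6) (nat_lit 0x16000b0000800000000000000000000000000) (nat_lit 0x0) (nat_lit 0x40000000000016003c000e000000000000000000) := T_1 (nat_lit 90) (nat_lit 73) (nat_lit 7) (nat_lit 5) (nat_lit 4) L22565 (by decide +kernel)
theorem L22567 : W_1 (nat_lit 2) (nat_lit 0x16000b0000800000000000000000000000000) (nat_lit 0x0) (nat_lit 0x8000000000000000040002000000000000000000) := D_1 (nat_lit 90) (nat_lit 73) (nat_lit 159) (nat_lit 7) (nat_lit 5) (nat_lit 4) (nat_lit 7) (nat_lit 5) (nat_lit 5) (by decide +kernel)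
theorem L22568 : W_1 (nat_lit 2) (nat_lit 0x40016000b0000800000000000000000000000000) (nat_lit 0x0) (nat_lit 0x80000000000000001000080000000000000000000000) := D_1 (nat_lit 108) (nat_lit 91) (nat_lit 175) (nat_lit 6) (nat_lit 5) (nat_lit 9) (nat_lit 6) (nat_lit 5) (nat_lit 10) (by decide +kernel)
theorem L22569 : W_1 (nat_lit 2) (nat_lit 0x1000040016000b0000800000000000000000000000000) (nat_lit 0x0) (nat_lit 0x3000080000000000000000000000000000000000000000000) := D_1 (nat_lit 175) (nat_lit 192) (nat_lit 193) (nat_lit 6) (nat_lit 5) (nat_lit 11) (nat_lit 7) (nat_lit 5) (nat_lit 7) (by decide +kernel)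
theorem L22570 : W_1 (nat_lit 3) (nat_lit 0x40016000b0000800000000000000000000000000) (nat_lit 0x0) (nat_lit 0x3000180008000000000000000000000000000000000000000) := T_1 (nat_lit 176) (nat_lit 159) (nat_lit 7) (nat_lit 5) (nat_lit 6) L22569 (by decide +kernel)
theorem L22571 : W_1 (nat_lit 2) (nat_lit 0xe8016000b0003800000000000000000000000000) (nat_lit 0x0) (nat_lit 0xc004000000000000000000000000000) := D_1 (nat_lit 123) (nat_lit 122) (nat_lit 110) (nat_lit 2) (nat_lit 3) (nat_lit 7) (nat_lit 1) (nat_lit 8) (nat_lit 6) (by decide +kernel)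
theorem L22572 : W_1 (nat_lit 3) (nat_lit 0xe8016000b0001800000000000000000000000000) (nat_lit 0x0) (nat_lit 0xc006000100000000000000000000000) := T_1 (nat_lit 109) (nat_lit 92) (nat_lit 6) (nat_lit 6) (nat_lit 9) L22571 (by decide +kernel)
theorem L22573 : W_1 (nat_lit 4) (nat_lit 0xe0016000b0001800000000000000000000000000) (nat_lit 0x0) (nat_lit 0x180000000c006000100000000000000000000000) := T_1 (nat_lit 155) (nat_lit 156) (nat_lit 2) (nat_lit 2) (nat_lit 9) L22572 (by decide +kernel)
theorem L22574 : W_1 (nat_lit 5) (nat_lit 0xc0016000b0001800000000000000000000000000) (nat_lit 0x0) (nat_lit 0x4000380000000c006000100000000000000000000000) := T_1 (nat_lit 157) (nat_lit 174) (nat_lit 5) (nat_lit 5) (nat_lit 6) L22573 (by decide +kernel)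
theorem L22575 : W_1 (nat_lit 6) (nat_lit 0x40016000b0001800000000000000000000000000) (nat_lit 0x0) (nat_lit 0x14000b80000000c006000100000000000000000000000) := T_1 (nat_lit 159) (nat_lit 176) (nat_lit 7) (nat_lit 5) (nat_lit 6) L22574 (by decide +kernel)
theorem L22576 : W_1 (nat_lit 7) (nat_lit 0x40016000b0000800000000000000000000000000) (nat_lit 0x0) (nat_lit 0x14000b80000000c007000180000000000000000000000) := T_1 (nat_lit 108) (nat_lit 91) (nat_lit 6) (nat_lit 5) (nat_lit 9) L22575 (by decide +kernel)
theorem L22577 : W_1 (nat_lit 8) (nat_lit 0x16000b0000800000000000000000000000000) (nat_lit 0x0) (nat_lit 0x30001c000f80000000c007000180000000000000000000000) := Q_1 (nat_lit 158) (C_1 L22568 (C_1 L22570 (C_1 L22576 N_1))) (by decide +kernel)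
theorem L22578 : W_1 (nat_lit 9) (nat_lit 0x16000b0000000000000000000000000000000) (nat_lit 0x0) (nat_lit 0x30001c000f80000000c007e003c000e000000000000000000) := Q_1 (nat_lit 107) (C_1 L22566 (C_1 L22567 (C_1 L22577 N_1))) (by decide +kernel)
theorem L22579 : W_1 (nat_lit 2) (nat_lit 0x40016000b0000000000000000000000000000000) (nat_lit 0x0) (nat_lit 0x80000000000000001000080000000000000000000000) := D_1 (nat_lit 108) (nat_lit 91) (nat_lit 175) (nat_lit 5) (nat_lit 6) (nat_lit 5) (nat_lit 6) (nat_lit 5) (nat_lit 10) (by decide +kernel)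
theorem L22580 : W_1 (nat_lit 8) (nat_lit 0x40016000b0000000000000000000000000000000) (nat_lit 0x0) (nat_lit 0x38001c000a000800000000c00060003000000000000000000) := T_1 (nat_lit 143) (nat_lit 157) (nat_lit 1) (nat_lit 8) (nat_lit 8) L22559 (by decide +kernel)
theorem L22581 : W_1 (nat_lit 2) (nat_lit 0x68016000b0000800080000000000000000000000) (nat_lit 0x0) (nat_lit 0x100000000000040004000000000000000000) := D_1 (nat_lit 90) (nat_lit 140) (nat_lit 74) (nat_lit 5) (nat_lit 5) (nat_lit 5) (nat_lit 6) (nat_lit 5) (nat_lit 8) (by decide +kernel)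
theorem L22582 : W_1 (nat_lit 3) (nat_lit 0x68016000b0000000080000000000000000000000) (nat_lit 0x0) (nat_lit 0x40000000100000000800040004000000000000000000) := T_1 (nat_lit 107) (nat_lit 174) (nat_lit 5) (nat_lit 5) (nat_lit 6) L22581 (by decide +kernel)
theorem L22583 : W_1 (nat_lit 4) (nat_lit 0x60016000b0000000080000000000000000000000) (nat_lit 0x0) (nat_lit 0x40001800100000000800040004000000000000000000) := T_1 (nat_lit 155) (nat_lit 156) (nat_lit 2) (nat_lit 2) (nat_lit 9) L22582 (by decide +kernel)
theorem L22584 : W_1 (nat_lit 5) (nat_lit 0x40016000b0000000080000000000000000000000) (nat_lit 0x0) (nat_lit 0x40003800900000000800040004000000000000000000) := T_1 (nat_lit 157) (nat_lit 143) (nat_lit 1) (nat_lit 8) (nat_lit 8) L22583 (by decide +kernel)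
theorem L22585 : W_1 (nat_lit 6) (nat_lit 0x40016000b0000000000000000000000000000000) (nat_lit 0x0) (nat_lit 0x400038009000000018000c0004000000000000000000) := T_1 (nat_lit 91) (nat_lit 108) (nat_lit 5) (nat_lit 6) (nat_lit 5) L22584 (by decide +kernel)
theorem L22586 : W_1 (nat_lit 9) (nat_lit 0x16000b0000000000000000000000000000000) (nat_lit 0x0) (nat_lit 0x38001c000f800900000001c000e0007000000000000000000) := Q_1 (nat_lit 158) (C_1 L22579 (C_1 L22580 (C_1 L22585 N_1))) (by decide +kernel)
theorem L22587 : W_1 (nat_lit 10) (nat_lit 0x14000b0000000000000000000000000000000) (nat_lit 0x0) (nat_lit 0x38003c001f800bc000e007e003e000f000000000000000000) := Q_1 (nat_lit 141) (C_1 L22545 (C_1 L22553 (C_1 L22561 (C_1 L22578 (C_1 L22586 N_1))))) (by decide +kernel)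
theorem L22588 : W_1 (nat_lit 2) (nat_lit 0x1c000b0000000000000000000000000000000) (nat_lit 0x0) (nat_lit 0x20000c000000000000000000000000000000) := D_1 (nat_lit 123) (nat_lit 141) (nat_lit 122) (nat_lit 0) (nat_lit 8) (nat_lit 8) (nat_lit 3) (nat_lit 3) (nat_lit 7) (by decide +kernel)
theorem L22589 : W_1 (nat_lit 3) (nat_lit 0x14000b0000000000000000000000000000000) (nat_lit 0x0) (nat_lit 0x2a0000c000000000000000000000000000000) := T_1 (nat_lit 143) (nat_lit 145) (nat_lit 0) (nat_lit 9) (nat_lit 8) L22588 (by decide +kernel)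
theorem L22590 : W_1 (nat_lit 2) (nat_lit 0x14000b0001800080000000000000000000000) (nat_lit 0x0) (nat_lit 0x200000000000000004000200000000000000) := D_1 (nat_lit 74) (nat_lit 57) (nat_lit 141) (nat_lit 5) (nat_lit 6) (nat_lit 3) (nat_lit 5) (nat_lit 6) (nat_lit 4) (by decide +kernel)
theorem L22591 : W_1 (nat_lit 2) (nat_lit 0x14000b0001800080002000000000000000000) (nat_lit 0x0) (nat_lit 0x4000300000000000000) := D_1 (nat_lit 74) (nat_lit 56) (nat_lit 57) (nat_lit 4) (nat_lit 6) (nat_lit 7) (nat_lit 5) (nat_lit 6) (nat_lit 3) (by decide +kernel)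
theorem L22592 : W_1 (nat_lit 3) (nat_lit 0x14000b0001800080000000000000000000000) (nat_lit 0x0) (nat_lit 0x40006000300000000000000) := T_1 (nat_lit 73) (nat_lit 90) (nat_lit 7) (nat_lit 5) (nat_lit 4) L22591 (by decide +kernel)
theorem L22600 : W_1 (nat_lit 2) (nat_lit 0x16000b0001a001e0000000000000000000000) (nat_lit 0x0) (nat_lit 0x100018000000000000000000000) := D_1 (nat_lit 88) (nat_lit 87) (nat_lit 104) (nat_lit 3) (nat_lit 2) (nat_lit 5) (nat_lit 1) (nat_lit 6) (nat_lit 5) (by decide +kernel)
theorem L22601 : W_1 (nat_lit 3) (nat_lit 0x16000b0001a001c0000000000000000000000) (nat_lit 0x0) (nat_lit 0x100038001000000000000000000) := T_1 (nat_lit 89) (nat_lit 72) (nat_lit 4) (nat_lit 5) (nat_lit 8) L22600 (by decide +kernel)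
theorem L22602 : W_1 (nat_lit 4) (nat_lit 0x16000b0001a00180000000000000000000000) (nat_lit 0x0) (nat_lit 0x100078003000000000000000000) := T_1 (nat_lit 90) (nat_lit 73) (nat_lit 7) (nat_lit 5) (nat_lit 4) L22601 (by decide +kernel)
theorem L22603 : W_1 (nat_lit 5) (nat_lit 0x14000b0001a00180000000000000000000000) (nat_lit 0x0) (nat_lit 0x4000200000000100078003000000000000000000) := T_1 (nat_lit 141) (nat_lit 158) (nat_lit 6) (nat_lit 5) (nat_lit 9) L22602 (by decide +kernel)
theorem L22604 : W_1 (nat_lit 6) (nat_lit 0x14000b0001800180000000000000000000000) (nat_lit 0x0) (nat_lit 0x4000200000000700078003000000000000000000) := T_1 (nat_lit 105) (nat_lit 106) (nat_lit 2) (nat_lit 3) (nat_lit 6) L22603 (by decide +kernel)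
theorem L22605 : W_1 (nat_lit 7) (nat_lit 0x14000b0001800080000000000000000000000) (nat_lit 0x0) (nat_lit 0x400020000000070017800b000000000000000000) := T_1 (nat_lit 92) (nat_lit 75) (nat_lit 6) (nat_lit 6) (nat_lit 8) L22604 (by decide +kernel)
theorem L22636 : W_1 (nat_lit 2) (nat_lit 0x40017400b0000800060000000000000000000000) (nat_lit 0x0) (nat_lit 0x1000080000000000000001000000000000000000000000000) := D_1 (nat_lit 175) (nat_lit 108) (nat_lit 192) (nat_lit 6) (nat_lit 5) (nat_lit 10) (nat_lit 6) (nat_lit 5) (nat_lit 11) (by decide +kernel)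
theorem L22637 : W_1 (nat_lit 3) (nat_lit 0x17400b0000800060000000000000000000000) (nat_lit 0x0) (nat_lit 0x1000080004000000000001400000000000000000000000000) := T_1 (nat_lit 158) (nat_lit 106) (nat_lit 4) (nat_lit 5) (nat_lit 9) L22636 (by decide +kernel)
theorem L22638 : W_1 (nat_lit 4) (nat_lit 0x17400b0000800040000000000000000000000) (nat_lit 0x0) (nat_lit 0x1000080004000000000001400020001000000000000000000) := T_1 (nat_lit 89) (nat_lit 72) (nat_lit 4) (nat_lit 5) (nat_lit 8) L22637 (by decide +kernel)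
theorem L22639 : W_1 (nat_lit 5) (nat_lit 0x17000b0000800040000000000000000000000) (nat_lit 0x0) (nat_lit 0x10000800040000c0000001400020001000000000000000000) := T_1 (nat_lit 138) (nat_lit 139) (nat_lit 2) (nat_lit 2) (nat_lit 8) L22638 (by decide +kernel)
theorem L22640 : W_1 (nat_lit 6) (nat_lit 0x16000b0000800040000000000000000000000) (nat_lit 0x0) (nat_lit 0x10000800060001c0000001400020001000000000000000000) := T_1 (nat_lit 140) (nat_lit 157) (nat_lit 5) (nat_lit 5) (nat_lit 5) L22639 (by decide +kernel)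
theorem L22641 : W_1 (nat_lit 7) (nat_lit 0x16000b0000800000000000000000000000000) (nat_lit 0x0) (nat_lit 0x10000800060001c0000001400060003000000000000000000) := T_1 (nat_lit 90) (nat_lit 73) (nat_lit 7) (nat_lit 5) (nat_lit 4) L22640 (by decide +kernel)
theorem L22658 : W_1 (nat_lit 2) (nat_lit 0x16000b0000c00020000000000000000000000) (nat_lit 0x0) (nat_lit 0x8000000000001000080000000000000) := D_1 (nat_lit 72) (nat_lit 55) (nat_lit 123) (nat_lit 7) (nat_lit 4) (nat_lit 3) (nat_lit 7) (nat_lit 4) (nat_lit 4) (by decide +kernel)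
theorem L22659 : W_1 (nat_lit 3) (nat_lit 0x16000b0000c00000000000000000000000000) (nat_lit 0x0) (nat_lit 0x4000000008000000020001000080000000000000) := T_1 (nat_lit 89) (nat_lit 158) (nat_lit 4) (nat_lit 5) (nat_lit 9) L22658 (by decide +kernel)
theorem L22673 : W_1 (nat_lit 2) (nat_lit 0x14000b0001c00180000000200000000000000) (nat_lit 0x0) (nat_lit 0x2000600000000000000000000000) := D_1 (nat_lit 93) (nat_lit 94) (nat_lit 109) (nat_lit 1) (nat_lit 9) (nat_lit 5) (nat_lit 2) (nat_lit 4) (nat_lit 6) (by decide +kernel)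
theorem L22674 : W_1 (nat_lit 3) (nat_lit 0x14000b0001800180000000200000000000000) (nat_lit 0x0) (nat_lit 0x2600600000000000000000000000) := T_1 (nat_lit 106) (nat_lit 105) (nat_lit 2) (nat_lit 3) (nat_lit 6) L22673 (by decide +kernel)
theorem L22675 : W_1 (nat_lit 4) (nat_lit 0x14000b0001800080000000200000000000000) (nat_lit 0x0) (nat_lit 0x2600700008000000000000000000) := T_1 (nat_lit 92) (nat_lit 75) (nat_lit 6) (nat_lit 6) (nat_lit 8) L22674 (by decide +kernel)
theorem L22676 : W_1 (nat_lit 5) (nat_lit 0x14000b0001800080000000000000000000000) (nat_lit 0x0) (nat_lit 0x260070000c000200000000000000) := T_1 (nat_lit 57) (nat_lit 74) (nat_lit 5) (nat_lit 6) (nat_lit 3) L22675 (by decide +kernel)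
theorem L22677 : W_1 (nat_lit 2) (nat_lit 0x14000b0001c00180000000000000000000000) (nat_lit 0x0) (nat_lit 0x2000600000000000000000000000) := D_1 (nat_lit 93) (nat_lit 94) (nat_lit 109) (nat_lit 1) (nat_lit 9) (nat_lit 5) (nat_lit 2) (nat_lit 4) (nat_lit 6) (by decide +kernel)
theorem L22678 : W_1 (nat_lit 3) (nat_lit 0x14000b0001800180000000000000000000000) (nat_lit 0x0) (nat_lit 0x2600600000000000000000000000) := T_1 (nat_lit 106) (nat_lit 105) (nat_lit 2) (nat_lit 3) (nat_lit 6) L22677 (by decide +kernel)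
theorem L22679 : W_1 (nat_lit 4) (nat_lit 0x14000b0001800080000000000000000000000) (nat_lit 0x0) (nat_lit 0x2600700008000000000000000000) := T_1 (nat_lit 92) (nat_lit 75) (nat_lit 6) (nat_lit 6) (nat_lit 8) L22678 (by decide +kernel)
theorem L22680 : W_1 (nat_lit 6) (nat_lit 0x14000b0000800080000000000000000000000) (nat_lit 0x0) (nat_lit 0x20000000360070000c000200000000000000) := Q_1 (nat_lit 108) (C_1 L22676 (C_1 L22590 (C_1 L22679 N_1))) (by decide +kernel)
theorem L22681 : W_1 (nat_lit 5) (nat_lit 0x14000b00008000c0000000000000000000000) (nat_lit 0x0) (nat_lit 0x400020000000160030000c000000000000000000) := T_1 (nat_lit 141) (nat_lit 74) (nat_lit 6) (nat_lit 5) (nat_lit 8) L22564 (by decide +kernel)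
theorem L22682 : W_1 (nat_lit 6) (nat_lit 0x14000b0000800080000000000000000000000) (nat_lit 0x0) (nat_lit 0x400020000000160034000e000000000000000000) := T_1 (nat_lit 90) (nat_lit 73) (nat_lit 7) (nat_lit 5) (nat_lit 4) L22681 (by decide +kernel)
theorem L22683 : W_1 (nat_lit 2) (nat_lit 0x17400b0000c000e0000000000000000000000) (nat_lit 0x0) (nat_lit 0x300100000000000000000000000) := D_1 (nat_lit 105) (nat_lit 104) (nat_lit 92) (nat_lit 3) (nat_lit 2) (nat_lit 6) (nat_lit 1) (nat_lit 7) (nat_lit 5) (by decide +kernel)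
theorem L22684 : W_1 (nat_lit 3) (nat_lit 0x17400b00008000e0000000000000000000000) (nat_lit 0x0) (nat_lit 0x4000000000000700100000000000000000000000) := T_1 (nat_lit 106) (nat_lit 158) (nat_lit 4) (nat_lit 5) (nat_lit 9) L22683 (by decide +kernel)
theorem L22685 : W_1 (nat_lit 4) (nat_lit 0x17400b00008000c0000000000000000000000) (nat_lit 0x0) (nat_lit 0x4000000000000700120001000000000000000000) := T_1 (nat_lit 89) (nat_lit 72) (nat_lit 4) (nat_lit 5) (nat_lit 8) L22684 (by decide +kernel)
theorem L22686 : W_1 (nat_lit 5) (nat_lit 0x17000b00008000c0000000000000000000000) (nat_lit 0x0) (nat_lit 0x40000c0000000700120001000000000000000000) := T_1 (nat_lit 138) (nat_lit 139) (nat_lit 2) (nat_lit 2) (nat_lit 8) L22685 (by decide +kernel)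
theorem L22687 : W_1 (nat_lit 6) (nat_lit 0x16000b00008000c0000000000000000000000) (nat_lit 0x0) (nat_lit 0x60001c0000000700120001000000000000000000) := T_1 (nat_lit 140) (nat_lit 157) (nat_lit 5) (nat_lit 5) (nat_lit 5) L22686 (by decide +kernel)
theorem L22688 : W_1 (nat_lit 7) (nat_lit 0x14000b00008000c0000000000000000000000) (nat_lit 0x0) (nat_lit 0x60003c0000000700120005000000000000000000) := T_1 (nat_lit 141) (nat_lit 74) (nat_lit 6) (nat_lit 5) (nat_lit 8) L22687 (by decide +kernel)
theorem L22689 : W_1 (nat_lit 8) (nat_lit 0x14000b0000800080000000000000000000000) (nat_lit 0x0) (nat_lit 0x60003c0000000700160007000000000000000000) := T_1 (nat_lit 90) (nat_lit 73) (nat_lit 7) (nat_lit 5) (nat_lit 4) L22688 (by decide +kernel)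
theorem L22690 : W_1 (nat_lit 2) (nat_lit 0x17400b00018000e0000000000000000000000) (nat_lit 0x0) (nat_lit 0x2000018000000000000000000000) := D_1 (nat_lit 88) (nat_lit 109) (nat_lit 87) (nat_lit 3) (nat_lit 3) (nat_lit 5) (nat_lit 3) (nat_lit 2) (nat_lit 5) (by decide +kernel)
theorem L22691 : W_1 (nat_lit 3) (nat_lit 0x17400b00018000c0000000000000000000000) (nat_lit 0x0) (nat_lit 0x2000038001000000000000000000) := T_1 (nat_lit 89) (nat_lit 72) (nat_lit 4) (nat_lit 5) (nat_lit 8) L22690 (by decide +kernel)
theorem L22692 : W_1 (nat_lit 4) (nat_lit 0x17000b00018000c0000000000000000000000) (nat_lit 0x0) (nat_lit 0xc0000002000038001000000000000000000) := T_1 (nat_lit 138) (nat_lit 139) (nat_lit 2) (nat_lit 2) (nat_lit 8) L22691 (by decide +kernel)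
theorem L22693 : W_1 (nat_lit 5) (nat_lit 0x16000b00018000c0000000000000000000000) (nat_lit 0x0) (nat_lit 0x20001c0000002000038001000000000000000000) := T_1 (nat_lit 140) (nat_lit 157) (nat_lit 5) (nat_lit 5) (nat_lit 5) L22692 (by decide +kernel)
theorem L22694 : W_1 (nat_lit 6) (nat_lit 0x16000b00008000c0000000000000000000000) (nat_lit 0x0) (nat_lit 0x60001c0000003000038001000000000000000000) := T_1 (nat_lit 108) (nat_lit 158) (nat_lit 6) (nat_lit 5) (nat_lit 9) L22693 (by decide +kernel)
theorem L22695 : W_1 (nat_lit 7) (nat_lit 0x14000b00008000c0000000000000000000000) (nat_lit 0x0) (nat_lit 0x60003c0000003000038005000000000000000000) := T_1 (nat_lit 141) (nat_lit 74) (nat_lit 6) (nat_lit 5) (nat_lit 8) L22694 (by decide +kernel)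
theorem L22696 : W_1 (nat_lit 8) (nat_lit 0x14000b0000800080000000000000000000000) (nat_lit 0x0) (nat_lit 0x60003c0000003000078007000000000000000000) := T_1 (nat_lit 90) (nat_lit 73) (nat_lit 7) (nat_lit 5) (nat_lit 4) L22695 (by decide +kernel)
theorem L22697 : W_1 (nat_lit 5) (nat_lit 0x14000b0000800080000000000000000000000) (nat_lit 0x0) (nat_lit 0x360074000e000300000000000000) := Q_1 (nat_lit 108) (C_1 L22679 (C_1 L22592 N_1)) (by decide +kernel)
theorem L22698 : W_1 (nat_lit 6) (nat_lit 0x14000b00018000c0000000000000000000000) (nat_lit 0x0) (nat_lit 0x60003c0000002000038001000000000000000000) := T_1 (nat_lit 141) (nat_lit 158) (nat_lit 6) (nat_lit 5) (nat_lit 9) L22693 (by decide +kernel)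
theorem L22699 : W_1 (nat_lit 7) (nat_lit 0x14000b0001800080000000000000000000000) (nat_lit 0x0) (nat_lit 0x60003c0000002000078003000000000000000000) := T_1 (nat_lit 90) (nat_lit 73) (nat_lit 7) (nat_lit 5) (nat_lit 4) L22698 (by decide +kernel)
theorem L22700 : W_1 (nat_lit 8) (nat_lit 0x14000b0000800080000000000000000000000) (nat_lit 0x0) (nat_lit 0x60003c000000370077800b000000000000000000) := Q_1 (nat_lit 108) (C_1 L22679 (C_1 L22605 (C_1 L22699 N_1))) (by decide +kernel)
theorem L22701 : W_1 (nat_lit 9) (nat_lit 0x14000b0000800000000000000000000000000) (nat_lit 0x0) (nat_lit 0x60003c00000037007f800f000300000000000000) := Q_1 (nat_lit 91) (C_1 L22680 (C_1 L22682 (C_1 L22689 (C_1 L22696 (C_1 L22697 (C_1 L22700 N_1)))))) (by decide +kernel)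
theorem L22702 : W_1 (nat_lit 2) (nat_lit 0x14000b0000800040000000000000000000000) (nat_lit 0x0) (nat_lit 0x100008000000000001000000000000000000000000000) := D_1 (nat_lit 159) (nat_lit 176) (nat_lit 108) (nat_lit 4) (nat_lit 6) (nat_lit 10) (nat_lit 4) (nat_lit 6) (nat_lit 9) (by decide +kernel)
theorem L22703 : W_1 (nat_lit 3) (nat_lit 0x14000b0000800000000000000000000000000) (nat_lit 0x0) (nat_lit 0x100008000000000001000040002000000000000000000) := T_1 (nat_lit 90) (nat_lit 73) (nat_lit 7) (nat_lit 5) (nat_lit 4) L22702 (by decide +kernel)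
theorem L22704 : W_1 (nat_lit 2) (nat_lit 0x80014000b0000800000000000000000000000000) (nat_lit 0x0) (nat_lit 0x200000000000040002000000000000000000) := D_1 (nat_lit 90) (nat_lit 73) (nat_lit 141) (nat_lit 7) (nat_lit 5) (nat_lit 4) (nat_lit 7) (nat_lit 5) (nat_lit 5) (by decide +kernel)
theorem L22705 : W_1 (nat_lit 3) (nat_lit 0x14000b0000800000000000000000000000000) (nat_lit 0x0) (nat_lit 0x100008000200000000000040002000000000000000000) := T_1 (nat_lit 159) (nat_lit 176) (nat_lit 4) (nat_lit 6) (nat_lit 10) L22704 (by decide +kernel)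
theorem L22706 : W_1 (nat_lit 2) (nat_lit 0x1c0014000b0003800000000000000000000000000) (nat_lit 0x0) (nat_lit 0xc004000000000000000000000000000) := D_1 (nat_lit 123) (nat_lit 122) (nat_lit 110) (nat_lit 2) (nat_lit 3) (nat_lit 7) (nat_lit 1) (nat_lit 8) (nat_lit 6) (by decide +kernel)
theorem L22707 : W_1 (nat_lit 3) (nat_lit 0x1c0014000b0001800000000000000000000000000) (nat_lit 0x0) (nat_lit 0xc006000100000000000000000000000) := T_1 (nat_lit 109) (nat_lit 92) (nat_lit 6) (nat_lit 6) (nat_lit 9) L22706 (by decide +kernel)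
theorem L22708 : W_1 (nat_lit 4) (nat_lit 0xc0014000b0001800000000000000000000000000) (nat_lit 0x0) (nat_lit 0x20001000000000c006000100000000000000000000000) := T_1 (nat_lit 160) (nat_lit 177) (nat_lit 7) (nat_lit 6) (nat_lit 6) L22707 (by decide +kernel)
theorem L22709 : W_1 (nat_lit 5) (nat_lit 0x80014000b0001800000000000000000000000000) (nat_lit 0x0) (nat_lit 0x28001400000000c006000100000000000000000000000) := T_1 (nat_lit 158) (nat_lit 175) (nat_lit 5) (nat_lit 6) (nat_lit 6) L22708 (by decide +kernel)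
theorem L22710 : W_1 (nat_lit 6) (nat_lit 0x14000b0001800000000000000000000000000) (nat_lit 0x0) (nat_lit 0x38001c00000000c006000100000000000000000000000) := T_1 (nat_lit 159) (nat_lit 176) (nat_lit 4) (nat_lit 6) (nat_lit 10) L22709 (by decide +kernel)
theorem L22711 : W_1 (nat_lit 5) (nat_lit 0x14000b0001800000000000000000000000000) (nat_lit 0x0) (nat_lit 0x20000000260078000c000200000000000000) := Q_1 (nat_lit 91) (C_1 L22679 (C_1 L22590 N_1)) (by decide +kernel)
theorem L22712 : W_1 (nat_lit 2) (nat_lit 0xc0014000b0001800080004000000000000000000) (nat_lit 0x0) (nat_lit 0x100008000400000000000000) := D_1 (nat_lit 75) (nat_lit 92) (nat_lit 58) (nat_lit 6) (nat_lit 6) (nat_lit 8) (nat_lit 6) (nat_lit 6) (nat_lit 7) (by decide +kernel)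
theorem L22713 : W_1 (nat_lit 3) (nat_lit 0xc0014000b0001800080000000000000000000000) (nat_lit 0x0) (nat_lit 0x10000c000600000000000000) := T_1 (nat_lit 74) (nat_lit 57) (nat_lit 5) (nat_lit 6) (nat_lit 3) L22712 (by decide +kernel)
theorem L22714 : W_1 (nat_lit 4) (nat_lit 0xc0014000b0001800000000000000000000000000) (nat_lit 0x0) (nat_lit 0x20000000000018000c000600000000000000) := T_1 (nat_lit 91) (nat_lit 141) (nat_lit 6) (nat_lit 5) (nat_lit 9) L22713 (by decide +kernel)
theorem L22715 : W_1 (nat_lit 5) (nat_lit 0x80014000b0001800000000000000000000000000) (nat_lit 0x0) (nat_lit 0x8000400020000000000018000c000600000000000000) := T_1 (nat_lit 158) (nat_lit 175) (nat_lit 5) (nat_lit 6) (nat_lit 6) L22714 (by decide +kernel)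
theorem L22716 : W_1 (nat_lit 6) (nat_lit 0x14000b0001800000000000000000000000000) (nat_lit 0x0) (nat_lit 0x18000c00020000000000018000c000600000000000000) := T_1 (nat_lit 159) (nat_lit 176) (nat_lit 4) (nat_lit 6) (nat_lit 10) L22715 (by decide +kernel)
theorem L22717 : W_1 (nat_lit 2) (nat_lit 0x1e0016800b0001800000000000000000000000000) (nat_lit 0x0) (nat_lit 0x1800040000000000000000000000000000000000) := D_1 (nat_lit 156) (nat_lit 155) (nat_lit 138) (nat_lit 2) (nat_lit 2) (nat_lit 9) (nat_lit 0) (nat_lit 6) (nat_lit 9) (by decide +kernel)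
theorem L22718 : W_1 (nat_lit 3) (nat_lit 0x1c0016800b0001800000000000000000000000000) (nat_lit 0x0) (nat_lit 0x40003800040000000000000000000000000000000000) := T_1 (nat_lit 157) (nat_lit 174) (nat_lit 5) (nat_lit 5) (nat_lit 6) L22717 (by decide +kernel)
theorem L22719 : W_1 (nat_lit 4) (nat_lit 0x1c0016000b0001800000000000000000000000000) (nat_lit 0x0) (nat_lit 0x400038001c0000000000000000000000000000000000) := T_1 (nat_lit 139) (nat_lit 140) (nat_lit 3) (nat_lit 3) (nat_lit 8) L22718 (by decide +kernel)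
theorem L22720 : W_1 (nat_lit 5) (nat_lit 0xc0016000b0001800000000000000000000000000) (nat_lit 0x0) (nat_lit 0x2400138001c0000000000000000000000000000000000) := T_1 (nat_lit 160) (nat_lit 177) (nat_lit 7) (nat_lit 6) (nat_lit 6) L22719 (by decide +kernel)
theorem L22721 : W_1 (nat_lit 6) (nat_lit 0xc0014000b0001800000000000000000000000000) (nat_lit 0x0) (nat_lit 0x2400138003c0000000000080000000000000000000000) := T_1 (nat_lit 141) (nat_lit 91) (nat_lit 6) (nat_lit 5) (nat_lit 9) L22720 (by decide +kernel)
theorem L22722 : W_1 (nat_lit 7) (nat_lit 0x80014000b0001800000000000000000000000000) (nat_lit 0x0) (nat_lit 0x2c00178003c0000000000080000000000000000000000) := T_1 (nat_lit 158) (nat_lit 175) (nat_lit 5) (nat_lit 6) (nat_lit 6) L22721 (by decide +kernel)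
theorem L22723 : W_1 (nat_lit 8) (nat_lit 0x14000b0001800000000000000000000000000) (nat_lit 0x0) (nat_lit 0x3c001f8003c0000000000080000000000000000000000) := T_1 (nat_lit 159) (nat_lit 176) (nat_lit 4) (nat_lit 6) (nat_lit 10) L22722 (by decide +kernel)
theorem L22724 : W_1 (nat_lit 9) (nat_lit 0x14000b0000800000000000000000000000000) (nat_lit 0x0) (nat_lit 0x3c001f8003c000c00760078000c000600000000000000) := Q_1 (nat_lit 108) (C_1 L22710 (C_1 L22711 (C_1 L22716 (C_1 L22723 N_1)))) (by decide +kernel)
theorem L22725 : W_1 (nat_lit 10) (nat_lit 0x14000b0000000000000000000000000000000) (nat_lit 0x0) (nat_lit 0x3c001f8003c000c007f007f800f000700000000000000) := Q_1 (nat_lit 107) (C_1 L22701 (C_1 L22703 (C_1 L22705 (C_1 L22724 N_1)))) (by decide +kernel)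
theorem L22726 : W_1 (nat_lit 2) (nat_lit 0x1800080034000b0001000000000000000000000000000) (nat_lit 0x0) (nat_lit 0x4000200010000000000000000000000000000000000000000) := D_1 (nat_lit 177) (nat_lit 194) (nat_lit 160) (nat_lit 7) (nat_lit 6) (nat_lit 7) (nat_lit 7) (nat_lit 6) (nat_lit 6) (by decide +kernel)
theorem L22727 : W_1 (nat_lit 3) (nat_lit 0x1800080034000b0000000000000000000000000000000) (nat_lit 0x0) (nat_lit 0x4000200014000000000001000000000000000000000000000) := T_1 (nat_lit 108) (nat_lit 158) (nat_lit 5) (nat_lit 6) (nat_lit 6) L22726 (by decide +kernel)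
theorem L22728 : W_1 (nat_lit 4) (nat_lit 0x1000080034000b0000000000000000000000000000000) (nat_lit 0x0) (nat_lit 0x5000280014000000000001000000000000000000000000000) := T_1 (nat_lit 175) (nat_lit 192) (nat_lit 5) (nat_lit 6) (nat_lit 7) L22727 (by decide +kernel)
theorem L22729 : W_1 (nat_lit 5) (nat_lit 0x80034000b0000000000000000000000000000000) (nat_lit 0x0) (nat_lit 0x5000380014000000000001800000000000000000000000000) := T_1 (nat_lit 176) (nat_lit 107) (nat_lit 4) (nat_lit 6) (nat_lit 10) L22728 (by decide +kernel)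
theorem L22730 : W_1 (nat_lit 6) (nat_lit 0x80014000b0000000000000000000000000000000) (nat_lit 0x0) (nat_lit 0x5000380014002800000001800000000000000000000000000) := T_1 (nat_lit 145) (nat_lit 143) (nat_lit 0) (nat_lit 9) (nat_lit 8) L22729 (by decide +kernel)
theorem L22731 : W_1 (nat_lit 2) (nat_lit 0x180008001c000b4001000080000000000000000000000) (nat_lit 0x0) (nat_lit 0x2000100008000000000000000000) := D_1 (nat_lit 92) (nat_lit 75) (nat_lit 109) (nat_lit 6) (nat_lit 6) (nat_lit 8) (nat_lit 6) (nat_lit 6) (nat_lit 9) (by decide +kernel)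
theorem L22732 : W_1 (nat_lit 3) (nat_lit 0x180008001c000b4001000000000000000000000000000) (nat_lit 0x0) (nat_lit 0x10000000000002000180008000000000000000000) := T_1 (nat_lit 91) (nat_lit 160) (nat_lit 7) (nat_lit 6) (nat_lit 5) L22731 (by decide +kernel)
theorem L22733 : W_1 (nat_lit 4) (nat_lit 0x180008001c000b0001000000000000000000000000000) (nat_lit 0x0) (nat_lit 0x1000000000c002000180008000000000000000000) := T_1 (nat_lit 122) (nat_lit 123) (nat_lit 3) (nat_lit 3) (nat_lit 7) L22732 (by decide +kernel)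
theorem L22734 : W_1 (nat_lit 5) (nat_lit 0x180008001c000b0000000000000000000000000000000) (nat_lit 0x0) (nat_lit 0x1400000000c003000180008000000000000000000) := T_1 (nat_lit 108) (nat_lit 158) (nat_lit 5) (nat_lit 6) (nat_lit 6) L22733 (by decide +kernel)
theorem L22735 : W_1 (nat_lit 6) (nat_lit 0x100008001c000b0000000000000000000000000000000) (nat_lit 0x0) (nat_lit 0x100008001400000000c003000180008000000000000000000) := T_1 (nat_lit 175) (nat_lit 192) (nat_lit 5) (nat_lit 6) (nat_lit 7) L22734 (by decide +kernel)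
theorem L22736 : W_1 (nat_lit 7) (nat_lit 0x1000080014000b0000000000000000000000000000000) (nat_lit 0x0) (nat_lit 0x100008001400280000c003000180008000000000000000000) := T_1 (nat_lit 143) (nat_lit 145) (nat_lit 0) (nat_lit 9) (nat_lit 8) L22735 (by decide +kernel)
theorem L22737 : W_1 (nat_lit 8) (nat_lit 0x80014000b0000000000000000000000000000000) (nat_lit 0x0) (nat_lit 0x100018001400280000c003800180008000000000000000000) := T_1 (nat_lit 176) (nat_lit 107) (nat_lit 4) (nat_lit 6) (nat_lit 10) L22736 (by decide +kernel)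
theorem L22738 : W_1 (nat_lit 2) (nat_lit 0x50001000080034000b0000000000000000000000000000000) (nat_lit 0x0) (nat_lit 0xa0002000000000000000000000000000000000000000000000000) := D_1 (nat_lit 193) (nat_lit 209) (nat_lit 211) (nat_lit 5) (nat_lit 6) (nat_lit 8) (nat_lit 7) (nat_lit 6) (nat_lit 8) (by decide +kernel)
theorem L22739 : W_1 (nat_lit 3) (nat_lit 0x10001000080034000b0000000000000000000000000000000) (nat_lit 0x0) (nat_lit 0xa0006000200000000000000000000000000000000000000000000) := T_1 (nat_lit 194) (nat_lit 177) (nat_lit 7) (nat_lit 6) (nat_lit 7) L22738 (by decide +kernel)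
theorem L22740 : W_1 (nat_lit 4) (nat_lit 0x1000080034000b0000000000000000000000000000000) (nat_lit 0x0) (nat_lit 0xa0007000280000000000000000000000000000000000000000000) := T_1 (nat_lit 192) (nat_lit 175) (nat_lit 5) (nat_lit 6) (nat_lit 7) L22739 (by decide +kernel)
theorem L22741 : W_1 (nat_lit 5) (nat_lit 0x80034000b0000000000000000000000000000000) (nat_lit 0x0) (nat_lit 0xa0007000380000000000000000800000000000000000000000000) := T_1 (nat_lit 176) (nat_lit 107) (nat_lit 4) (nat_lit 6) (nat_lit 10) L22740 (by decide +kernel)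
theorem L22742 : W_1 (nat_lit 6) (nat_lit 0x80014000b0000000000000000000000000000000) (nat_lit 0x0) (nat_lit 0xa0007000380000002800000000800000000000000000000000000) := T_1 (nat_lit 145) (nat_lit 143) (nat_lit 0) (nat_lit 9) (nat_lit 8) L22741 (by decide +kernel)
theorem L22743 : W_1 (nat_lit 2) (nat_lit 0x1800080014000b0001000000000000000000000000000) (nat_lit 0x0) (nat_lit 0x4000200010000000000000000000000000000000000000000) := D_1 (nat_lit 177) (nat_lit 194) (nat_lit 160) (nat_lit 7) (nat_lit 6) (nat_lit 7) (nat_lit 7) (nat_lit 6) (nat_lit 6) (by decide +kernel)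
theorem L22744 : W_1 (nat_lit 3) (nat_lit 0x1800080014000b0000000000000000000000000000000) (nat_lit 0x0) (nat_lit 0x4000200014000000000001000000000000000000000000000) := T_1 (nat_lit 108) (nat_lit 158) (nat_lit 5) (nat_lit 6) (nat_lit 6) L22743 (by decide +kernel)
theorem L22745 : W_1 (nat_lit 4) (nat_lit 0x1000080014000b0000000000000000000000000000000) (nat_lit 0x0) (nat_lit 0x5000280014000000000001000000000000000000000000000) := T_1 (nat_lit 175) (nat_lit 192) (nat_lit 5) (nat_lit 6) (nat_lit 7) L22744 (by decide +kernel)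
theorem L22746 : W_1 (nat_lit 5) (nat_lit 0x80014000b0000000000000000000000000000000) (nat_lit 0x0) (nat_lit 0x5000380014000000000001800000000000000000000000000) := T_1 (nat_lit 176) (nat_lit 107) (nat_lit 4) (nat_lit 6) (nat_lit 10) L22745 (by decide +kernel)
theorem L22747 : W_1 (nat_lit 2) (nat_lit 0xc0034000b4007000200000000000000000000000) (nat_lit 0x0) (nat_lit 0x800400020000000000000000000) := D_1 (nat_lit 94) (nat_lit 77) (nat_lit 107) (nat_lit 6) (nat_lit 8) (nat_lit 8) (nat_lit 2) (nat_lit 5) (nat_lit 6) (by decide +kernel)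
theorem L22748 : W_1 (nat_lit 3) (nat_lit 0xc0034000b4007000000000000000000000000000) (nat_lit 0x0) (nat_lit 0x40000000000000800600020000000000000000000) := T_1 (nat_lit 93) (nat_lit 162) (nat_lit 7) (nat_lit 8) (nat_lit 5) L22747 (by decide +kernel)
theorem L22749 : W_1 (nat_lit 4) (nat_lit 0x80034000b4007000000000000000000000000000) (nat_lit 0x0) (nat_lit 0x80044000000000000800600020000000000000000000) := T_1 (nat_lit 158) (nat_lit 175) (nat_lit 5) (nat_lit 6) (nat_lit 6) L22748 (by decide +kernel)
theorem L22750 : W_1 (nat_lit 5) (nat_lit 0x80034000b4003000000000000000000000000000) (nat_lit 0x0) (nat_lit 0x8004400000000000c800600020000000000000000000) := T_1 (nat_lit 110) (nat_lit 111) (nat_lit 1) (nat_lit 9) (nat_lit 6) L22749 (by decide +kernel)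
theorem L22751 : W_1 (nat_lit 6) (nat_lit 0x80034000b0003000000000000000000000000000) (nat_lit 0x0) (nat_lit 0x8004400000000c00c800600020000000000000000000) := T_1 (nat_lit 122) (nat_lit 123) (nat_lit 2) (nat_lit 3) (nat_lit 7) L22750 (by decide +kernel)
theorem L22752 : W_1 (nat_lit 7) (nat_lit 0x80034000b0001000000000000000000000000000) (nat_lit 0x0) (nat_lit 0x8004400000000c00e800700020000000000000000000) := T_1 (nat_lit 109) (nat_lit 92) (nat_lit 6) (nat_lit 6) (nat_lit 9) L22751 (by decide +kernel)
theorem L22753 : W_1 (nat_lit 8) (nat_lit 0x80014000b0001000000000000000000000000000) (nat_lit 0x0) (nat_lit 0x8004400280000c00e800700020000000000000000000) := T_1 (nat_lit 145) (nat_lit 143) (nat_lit 0) (nat_lit 9) (nat_lit 8) L22752 (by decide +kernel)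
theorem L22754 : W_1 (nat_lit 2) (nat_lit 0x180014000b0001000000000000000000000000000) (nat_lit 0x0) (nat_lit 0x2800000000000080000000000000000000000) := D_1 (nat_lit 143) (nat_lit 91) (nat_lit 145) (nat_lit 7) (nat_lit 6) (nat_lit 5) (nat_lit 0) (nat_lit 9) (nat_lit 8) (by decide +kernel)
theorem L22755 : W_1 (nat_lit 3) (nat_lit 0x80014000b0001000000000000000000000000000) (nat_lit 0x0) (nat_lit 0x200010002800000000000080000000000000000000000) := T_1 (nat_lit 160) (nat_lit 177) (nat_lit 7) (nat_lit 6) (nat_lit 6) L22754 (by decide +kernel)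
theorem L22756 : W_1 (nat_lit 6) (nat_lit 0x80014000b0001000000000000000000000000000) (nat_lit 0x0) (nat_lit 0x28001400000000c006800140000000000000000000000) := T_1 (nat_lit 107) (nat_lit 90) (nat_lit 4) (nat_lit 6) (nat_lit 9) L22709 (by decide +kernel)
theorem L22757 : W_1 (nat_lit 9) (nat_lit 0x80014000b0000000000000000000000000000000) (nat_lit 0x0) (nat_lit 0x28005400280000c00f8007c0020000000000000000000) := Q_1 (nat_lit 108) (C_1 L22753 (C_1 L22755 (C_1 L22756 N_1))) (by decide +kernel)
theorem L22758 : W_1 (nat_lit 2) (nat_lit 0x80034000b0000800000000000000000000000000) (nat_lit 0x0) (nat_lit 0x1000040002000000000000000000) := D_1 (nat_lit 90) (nat_lit 108) (nat_lit 73) (nat_lit 4) (nat_lit 6) (nat_lit 9) (nat_lit 7) (nat_lit 5) (nat_lit 4) (by decide +kernel)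
theorem L22759 : W_1 (nat_lit 3) (nat_lit 0x80034000b0000000000000000000000000000000) (nat_lit 0x0) (nat_lit 0x100000000000000001800040002000000000000000000) := T_1 (nat_lit 107) (nat_lit 176) (nat_lit 4) (nat_lit 6) (nat_lit 10) L22758 (by decide +kernel)
theorem L22760 : W_1 (nat_lit 4) (nat_lit 0x80014000b0000000000000000000000000000000) (nat_lit 0x0) (nat_lit 0x100000002800000001800040002000000000000000000) := T_1 (nat_lit 145) (nat_lit 143) (nat_lit 0) (nat_lit 9) (nat_lit 8) L22759 (by decide +kernel)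
theorem L22761 : W_1 (nat_lit 2) (nat_lit 0x8000c0034000b0000000000000000000000000000000) (nat_lit 0x0) (nat_lit 0x20001000100000000000000000000000000000000000000000000) := D_1 (nat_lit 192) (nat_lit 176) (nat_lit 209) (nat_lit 5) (nat_lit 6) (nat_lit 7) (nat_lit 6) (nat_lit 5) (nat_lit 12) (by decide +kernel)
theorem L22762 : W_1 (nat_lit 3) (nat_lit 0xc0034000b0000000000000000000000000000000) (nat_lit 0x0) (nat_lit 0x20001000180000000000000001000000000000000000000000000) := T_1 (nat_lit 175) (nat_lit 108) (nat_lit 5) (nat_lit 6) (nat_lit 6) L22761 (by decide +kernel)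
theorem L22763 : W_1 (nat_lit 4) (nat_lit 0xc0014000b0000000000000000000000000000000) (nat_lit 0x0) (nat_lit 0x20001000180000002800000001000000000000000000000000000) := T_1 (nat_lit 145) (nat_lit 143) (nat_lit 1) (nat_lit 9) (nat_lit 8) L22762 (by decide +kernel)
theorem L22764 : W_1 (nat_lit 2) (nat_lit 0xc001c000b0000000000000000000000000000000) (nat_lit 0x0) (nat_lit 0x13000000000000000000000000000000000000000) := D_1 (nat_lit 157) (nat_lit 156) (nat_lit 160) (nat_lit 2) (nat_lit 3) (nat_lit 9) (nat_lit 2) (nat_lit 4) (nat_lit 9) (by decide +kernel)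
theorem L22765 : W_1 (nat_lit 3) (nat_lit 0xc0014000b0000000000000000000000000000000) (nat_lit 0x0) (nat_lit 0x13002800000000000000000000000000000000000) := T_1 (nat_lit 143) (nat_lit 145) (nat_lit 1) (nat_lit 9) (nat_lit 8) L22764 (by decide +kernel)
theorem L22766 : W_1 (nat_lit 2) (nat_lit 0x8000c0014000b0000000000000000000000000000000) (nat_lit 0x0) (nat_lit 0x20001000100000000000000000000000000000000000000000000) := D_1 (nat_lit 192) (nat_lit 176) (nat_lit 209) (nat_lit 5) (nat_lit 6) (nat_lit 7) (nat_lit 6) (nat_lit 5) (nat_lit 12) (by decide +kernel)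
theorem L22767 : W_1 (nat_lit 3) (nat_lit 0xc0014000b0000000000000000000000000000000) (nat_lit 0x0) (nat_lit 0x20001000180000000000000001000000000000000000000000000) := T_1 (nat_lit 175) (nat_lit 108) (nat_lit 5) (nat_lit 6) (nat_lit 6) L22766 (by decide +kernel)
theorem L22768 : W_1 (nat_lit 5) (nat_lit 0x80014000b0000000000000000000000000000000) (nat_lit 0x0) (nat_lit 0x20001000180017002800000001000000000000000000000000000) := Q_1 (nat_lit 158) (C_1 L22763 (C_1 L22765 (C_1 L22767 N_1))) (by decide +kernel)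
theorem L22769 : W_1 (nat_lit 10) (nat_lit 0x14000b0000000000000000000000000000000) (nat_lit 0x0) (nat_lit 0xa000700038005f00280000c00f8007c002a000000000000000000) := Q_1 (nat_lit 159) (C_1 L22730 (C_1 L22737 (C_1 L22742 (C_1 L22746 (C_1 L22757 (C_1 L22760 (C_1 L22768 N_1))))))) (by decide +kernel)
theorem L22770 : W_1 (nat_lit 2) (nat_lit 0x80034000b0007800000000000000000000000000) (nat_lit 0x0) (nat_lit 0x40000000000000000600000000000000000000000) := D_1 (nat_lit 93) (nat_lit 94) (nat_lit 162) (nat_lit 2) (nat_lit 5) (nat_lit 6) (nat_lit 7) (nat_lit 8) (nat_lit 5) (by decide +kernel)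
theorem L22771 : W_1 (nat_lit 3) (nat_lit 0x80034000b0003800000000000000000000000000) (nat_lit 0x0) (nat_lit 0x4000000000000c000600000000000000000000000) := T_1 (nat_lit 110) (nat_lit 111) (nat_lit 1) (nat_lit 9) (nat_lit 6) L22770 (by decide +kernel)
theorem L22772 : W_1 (nat_lit 4) (nat_lit 0x80034000b0001800000000000000000000000000) (nat_lit 0x0) (nat_lit 0x4000000000000e000700000000000000000000000) := T_1 (nat_lit 109) (nat_lit 92) (nat_lit 6) (nat_lit 6) (nat_lit 9) L22771 (by decide +kernel)
theorem L22773 : W_1 (nat_lit 5) (nat_lit 0x80034000b0001000000000000000000000000000) (nat_lit 0x0) (nat_lit 0x4000000000000e800740000000000000000000000) := T_1 (nat_lit 107) (nat_lit 90) (nat_lit 4) (nat_lit 6) (nat_lit 9) L22772 (by decide +kernel)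
theorem L22774 : W_1 (nat_lit 6) (nat_lit 0x80014000b0001000000000000000000000000000) (nat_lit 0x0) (nat_lit 0x4000280000000e800740000000000000000000000) := T_1 (nat_lit 145) (nat_lit 143) (nat_lit 0) (nat_lit 9) (nat_lit 8) L22773 (by decide +kernel)
theorem L22775 : W_1 (nat_lit 2) (nat_lit 0xc0014000b0001000080000000000000000000000) (nat_lit 0x0) (nat_lit 0x2000100008000000000000000000) := D_1 (nat_lit 92) (nat_lit 75) (nat_lit 109) (nat_lit 6) (nat_lit 6) (nat_lit 8) (nat_lit 6) (nat_lit 6) (nat_lit 9) (by decide +kernel)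
theorem L22776 : W_1 (nat_lit 3) (nat_lit 0xc0014000b0001000000000000000000000000000) (nat_lit 0x0) (nat_lit 0x200000002000180008000000000000000000) := T_1 (nat_lit 91) (nat_lit 141) (nat_lit 5) (nat_lit 6) (nat_lit 5) L22775 (by decide +kernel)
theorem L22777 : W_1 (nat_lit 4) (nat_lit 0x80014000b0001000000000000000000000000000) (nat_lit 0x0) (nat_lit 0x80004000200000002000180008000000000000000000) := T_1 (nat_lit 158) (nat_lit 175) (nat_lit 5) (nat_lit 6) (nat_lit 6) L22776 (by decide +kernel)
theorem L22778 : W_1 (nat_lit 7) (nat_lit 0x80014000b0000000000000000000000000000000) (nat_lit 0x0) (nat_lit 0x280054002a0000000f8007c0008000000000000000000) := Q_1 (nat_lit 108) (C_1 L22755 (C_1 L22774 (C_1 L22777 N_1))) (by decide +kernel)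
theorem L22779 : W_1 (nat_lit 8) (nat_lit 0x14000b0000000000000000000000000000000) (nat_lit 0x0) (nat_lit 0xa000700038005f002a0000000f8007c000a000000000000000000) := Q_1 (nat_lit 159) (C_1 L22768 (C_1 L22760 (C_1 L22742 (C_1 L22746 (C_1 L22778 N_1))))) (by decide +kernel)
theorem L22780 : W_1 (nat_lit 11) (nat_lit 0x10000b0000000000000000000000000000000) (nat_lit 0x0) (nat_lit 0xa00078003c005f802fc000e00ff007f802f000700000000000000) := Q_1 (nat_lit 142) (C_1 L22587 (C_1 L22589 (C_1 L22725 (C_1 L22769 (C_1 L22779 N_1))))) (by decide +kernel)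
theorem L22781 : W_1 (nat_lit 5) (nat_lit 0x10000b0000000000000000000000000000000) (nat_lit 0x0) (nat_lit 0x238004800e000000000000000000000000000) := T_1 (nat_lit 126) (nat_lit 145) (nat_lit 3) (nat_lit 5) (nat_lit 7) L22470 (by decide +kernel)
theorem L22782 : W_1 (nat_lit 2) (nat_lit 0x12000f000b800000008000000000000000000) (nat_lit 0x0) (nat_lit 0x4000000000000000080004000000000000000000) := D_1 (nat_lit 91) (nat_lit 74) (nat_lit 158) (nat_lit 5) (nat_lit 6) (nat_lit 4) (nat_lit 6) (nat_lit 5) (nat_lit 9) (by decide +kernel)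
theorem L22783 : W_1 (nat_lit 3) (nat_lit 0x10000f000b800000008000000000000000000) (nat_lit 0x0) (nat_lit 0x4000300000000000080004000000000000000000) := T_1 (nat_lit 141) (nat_lit 140) (nat_lit 1) (nat_lit 8) (nat_lit 7) L22782 (by decide +kernel)
theorem L22784 : W_1 (nat_lit 4) (nat_lit 0x10000f000b800000000000000000000000000) (nat_lit 0x0) (nat_lit 0x400030000000000018000c000000000000000000) := T_1 (nat_lit 75) (nat_lit 92) (nat_lit 7) (nat_lit 7) (nat_lit 4) L22783 (by decide +kernel)
theorem L22785 : W_1 (nat_lit 5) (nat_lit 0x10000f0003800000000000000000000000000) (nat_lit 0x0) (nat_lit 0x400030000000c00018000c000000000000000000) := T_1 (nat_lit 111) (nat_lit 110) (nat_lit 2) (nat_lit 5) (nat_lit 7) L22784 (by decide +kernel)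
theorem L22786 : W_1 (nat_lit 6) (nat_lit 0x10000f0003000000000000000000000000000) (nat_lit 0x0) (nat_lit 0x400030000000cc0018000c000000000000000000) := T_1 (nat_lit 107) (nat_lit 106) (nat_lit 3) (nat_lit 4) (nat_lit 6) L22785 (by decide +kernel)
theorem L22787 : W_1 (nat_lit 2) (nat_lit 0x800000012000f0007800200000000000000000000000) (nat_lit 0x0) (nat_lit 0x800000000000000010000800000000000000) := D_1 (nat_lit 76) (nat_lit 59) (nat_lit 143) (nat_lit 5) (nat_lit 8) (nat_lit 3) (nat_lit 5) (nat_lit 8) (nat_lit 4) (by decide +kernel)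
theorem L22788 : W_1 (nat_lit 3) (nat_lit 0x800000012000f0007800000000000000000000000000) (nat_lit 0x0) (nat_lit 0x800000000000600010000800000000000000) := T_1 (nat_lit 93) (nat_lit 94) (nat_lit 2) (nat_lit 5) (nat_lit 6) L22787 (by decide +kernel)
theorem L22789 : W_1 (nat_lit 4) (nat_lit 0x800000012000f0003800000000000000000000000000) (nat_lit 0x0) (nat_lit 0x80000000c000600010000800000000000000) := T_1 (nat_lit 110) (nat_lit 111) (nat_lit 2) (nat_lit 5) (nat_lit 7) L22788 (by decide +kernel)
theorem L22790 : W_1 (nat_lit 5) (nat_lit 0x12000f0003800000000000000000000000000) (nat_lit 0x0) (nat_lit 0x8000400080000000c000600010000800000000000000) := T_1 (nat_lit 175) (nat_lit 158) (nat_lit 6) (nat_lit 5) (nat_lit 10) L22789 (by decide +kernel)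
theorem L22791 : W_1 (nat_lit 6) (nat_lit 0x12000f0003000000000000000000000000000) (nat_lit 0x0) (nat_lit 0x8000400080000000cc00600010000800000000000000) := T_1 (nat_lit 107) (nat_lit 106) (nat_lit 3) (nat_lit 4) (nat_lit 6) L22790 (by decide +kernel)
theorem L22792 : W_1 (nat_lit 7) (nat_lit 0x10000f0003000000000000000000000000000) (nat_lit 0x0) (nat_lit 0x80004000b0000000cc00600010000800000000000000) := T_1 (nat_lit 141) (nat_lit 140) (nat_lit 1) (nat_lit 8) (nat_lit 7) L22791 (by decide +kernel)
theorem L22793 : W_1 (nat_lit 2) (nat_lit 0x1a000f000b800180000000000000000000000) (nat_lit 0x0) (nat_lit 0x600010000000000000000000) := D_1 (nat_lit 93) (nat_lit 94) (nat_lit 76) (nat_lit 1) (nat_lit 9) (nat_lit 5) (nat_lit 6) (nat_lit 7) (nat_lit 8) (by decide +kernel)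
theorem L22794 : W_1 (nat_lit 3) (nat_lit 0x12000f000b800180000000000000000000000) (nat_lit 0x0) (nat_lit 0x10000800000000000600010000000000000000000) := T_1 (nat_lit 143) (nat_lit 160) (nat_lit 4) (nat_lit 7) (nat_lit 9) L22793 (by decide +kernel)
theorem L22795 : W_1 (nat_lit 4) (nat_lit 0x12000f000b800100000000000000000000000) (nat_lit 0x0) (nat_lit 0x10000800000000000680014000000000000000000) := T_1 (nat_lit 91) (nat_lit 74) (nat_lit 5) (nat_lit 6) (nat_lit 4) L22794 (by decide +kernel)
theorem L22796 : W_1 (nat_lit 5) (nat_lit 0x12000f000b800000000000000000000000000) (nat_lit 0x0) (nat_lit 0x1000080000000000078001c000000000000000000) := T_1 (nat_lit 92) (nat_lit 75) (nat_lit 7) (nat_lit 7) (nat_lit 4) L22795 (by decide +kernel)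
theorem L22797 : W_1 (nat_lit 6) (nat_lit 0x10000f000b800000000000000000000000000) (nat_lit 0x0) (nat_lit 0x10000b0000000000078001c000000000000000000) := T_1 (nat_lit 141) (nat_lit 140) (nat_lit 1) (nat_lit 8) (nat_lit 7) L22796 (by decide +kernel)
theorem L22798 : W_1 (nat_lit 7) (nat_lit 0x10000f000b000000000000000000000000000) (nat_lit 0x0) (nat_lit 0x10000b00000000c0078001c000000000000000000) := T_1 (nat_lit 107) (nat_lit 106) (nat_lit 3) (nat_lit 4) (nat_lit 6) L22797 (by decide +kernel)
theorem L22799 : W_1 (nat_lit 8) (nat_lit 0x10000f0003000000000000000000000000000) (nat_lit 0x0) (nat_lit 0x10000b0000000cc0078001c000000000000000000) := T_1 (nat_lit 111) (nat_lit 110) (nat_lit 2) (nat_lit 5) (nat_lit 7) L22798 (by decide +kernel)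
theorem L22800 : W_1 (nat_lit 2) (nat_lit 0x12000f0003400080000000000000000000000) (nat_lit 0x0) (nat_lit 0x80004000400000000000000000000000000000000000) := D_1 (nat_lit 158) (nat_lit 175) (nat_lit 142) (nat_lit 6) (nat_lit 5) (nat_lit 10) (nat_lit 5) (nat_lit 6) (nat_lit 5) (by decide +kernel)
theorem L22801 : W_1 (nat_lit 3) (nat_lit 0x12000f0003400000000000000000000000000) (nat_lit 0x0) (nat_lit 0x80004000400000000000080004000000000000000000) := T_1 (nat_lit 91) (nat_lit 74) (nat_lit 5) (nat_lit 6) (nat_lit 4) L22800 (by decide +kernel)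
theorem L22802 : W_1 (nat_lit 4) (nat_lit 0x12000f0003000000000000000000000000000) (nat_lit 0x0) (nat_lit 0x80004000400000000c00080004000000000000000000) := T_1 (nat_lit 106) (nat_lit 107) (nat_lit 3) (nat_lit 4) (nat_lit 6) L22801 (by decide +kernel)
theorem L22803 : W_1 (nat_lit 5) (nat_lit 0x10000f0003000000000000000000000000000) (nat_lit 0x0) (nat_lit 0x80004000700000000c00080004000000000000000000) := T_1 (nat_lit 141) (nat_lit 140) (nat_lit 1) (nat_lit 8) (nat_lit 7) L22802 (by decide +kernel)
theorem L22804 : W_1 (nat_lit 2) (nat_lit 0x10000f0007800200000000000000000000000) (nat_lit 0x0) (nat_lit 0x800000000000000010000800000000000000) := D_1 (nat_lit 76) (nat_lit 59) (nat_lit 143) (nat_lit 5) (nat_lit 8) (nat_lit 3) (nat_lit 5) (nat_lit 8) (nat_lit 4) (by decide +kernel)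
theorem L22805 : W_1 (nat_lit 3) (nat_lit 0x10000f0007800000000000000000000000000) (nat_lit 0x0) (nat_lit 0x800000000000600010000800000000000000) := T_1 (nat_lit 93) (nat_lit 94) (nat_lit 2) (nat_lit 5) (nat_lit 6) L22804 (by decide +kernel)
theorem L22806 : W_1 (nat_lit 4) (nat_lit 0x10000f0003800000000000000000000000000) (nat_lit 0x0) (nat_lit 0x80000000c000600010000800000000000000) := T_1 (nat_lit 110) (nat_lit 111) (nat_lit 2) (nat_lit 5) (nat_lit 7) L22805 (by decide +kernel)
theorem L22807 : W_1 (nat_lit 5) (nat_lit 0x10000f0003000000000000000000000000000) (nat_lit 0x0) (nat_lit 0x80000000cc00600010000800000000000000) := T_1 (nat_lit 107) (nat_lit 106) (nat_lit 3) (nat_lit 4) (nat_lit 6) L22806 (by decide +kernel)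
theorem L22808 : W_1 (nat_lit 2) (nat_lit 0x12000f0007000080008000000000000000000) (nat_lit 0x0) (nat_lit 0x80004000400000000000000000000000000000000000) := D_1 (nat_lit 158) (nat_lit 175) (nat_lit 142) (nat_lit 6) (nat_lit 5) (nat_lit 10) (nat_lit 5) (nat_lit 6) (nat_lit 5) (by decide +kernel)
theorem L22809 : W_1 (nat_lit 3) (nat_lit 0x12000f0007000000008000000000000000000) (nat_lit 0x0) (nat_lit 0x80004000400000000000080004000000000000000000) := T_1 (nat_lit 91) (nat_lit 74) (nat_lit 5) (nat_lit 6) (nat_lit 4) L22808 (by decide +kernel)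
theorem L22810 : W_1 (nat_lit 4) (nat_lit 0x12000f0003000000008000000000000000000) (nat_lit 0x0) (nat_lit 0x8000400040000000c000080004000000000000000000) := T_1 (nat_lit 110) (nat_lit 111) (nat_lit 2) (nat_lit 5) (nat_lit 7) L22809 (by decide +kernel)
theorem L22811 : W_1 (nat_lit 5) (nat_lit 0x10000f0003000000008000000000000000000) (nat_lit 0x0) (nat_lit 0x8000400070000000c000080004000000000000000000) := T_1 (nat_lit 141) (nat_lit 140) (nat_lit 1) (nat_lit 8) (nat_lit 7) L22810 (by decide +kernel)
theorem L22812 : W_1 (nat_lit 6) (nat_lit 0x10000f0003000000000000000000000000000) (nat_lit 0x0) (nat_lit 0x8000400070000000c00018000c000000000000000000) := T_1 (nat_lit 75) (nat_lit 92) (nat_lit 7) (nat_lit 7) (nat_lit 4) L22811 (by decide +kernel)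
theorem L22813 : W_1 (nat_lit 9) (nat_lit 0x10000f0002000000000000000000000000000) (nat_lit 0x0) (nat_lit 0x80014000f0000000dc0078001c000800000000000000) := Q_1 (nat_lit 108) (C_1 L22786 (C_1 L22792 (C_1 L22799 (C_1 L22803 (C_1 L22807 (C_1 L22812 N_1)))))) (by decide +kernel)
theorem L22814 : W_1 (nat_lit 2) (nat_lit 0x12000f0003800000008000000000000000000) (nat_lit 0x0) (nat_lit 0x4000000000000000080004000000000000000000) := D_1 (nat_lit 91) (nat_lit 74) (nat_lit 158) (nat_lit 5) (nat_lit 6) (nat_lit 4) (nat_lit 6) (nat_lit 5) (nat_lit 9) (by decide +kernel)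
theorem L22815 : W_1 (nat_lit 3) (nat_lit 0x10000f0003800000008000000000000000000) (nat_lit 0x0) (nat_lit 0x4000300000000000080004000000000000000000) := T_1 (nat_lit 141) (nat_lit 140) (nat_lit 1) (nat_lit 8) (nat_lit 7) L22814 (by decide +kernel)
theorem L22816 : W_1 (nat_lit 4) (nat_lit 0x10000f0003800000000000000000000000000) (nat_lit 0x0) (nat_lit 0x400030000000000018000c000000000000000000) := T_1 (nat_lit 75) (nat_lit 92) (nat_lit 7) (nat_lit 7) (nat_lit 4) L22815 (by decide +kernel)
theorem L22817 : W_1 (nat_lit 5) (nat_lit 0x10000f0003000000000000000000000000000) (nat_lit 0x0) (nat_lit 0x4000300000000c0018000c000000000000000000) := T_1 (nat_lit 107) (nat_lit 106) (nat_lit 3) (nat_lit 4) (nat_lit 6) L22816 (by decide +kernel)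
theorem L22818 : W_1 (nat_lit 2) (nat_lit 0x1a000f000b000380000000000000000000000) (nat_lit 0x0) (nat_lit 0x10000c00000000000000000000000) := D_1 (nat_lit 94) (nat_lit 112) (nat_lit 95) (nat_lit 3) (nat_lit 6) (nat_lit 5) (nat_lit 1) (nat_lit 10) (nat_lit 5) (by decide +kernel)
theorem L22819 : W_1 (nat_lit 3) (nat_lit 0x1a000f000b000180000000000000000000000) (nat_lit 0x0) (nat_lit 0x10000e00010000000000000000000) := T_1 (nat_lit 93) (nat_lit 76) (nat_lit 6) (nat_lit 7) (nat_lit 8) L22818 (by decide +kernel)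
theorem L22820 : W_1 (nat_lit 4) (nat_lit 0x12000f000b000180000000000000000000000) (nat_lit 0x0) (nat_lit 0x10000800000010000e00010000000000000000000) := T_1 (nat_lit 143) (nat_lit 160) (nat_lit 4) (nat_lit 7) (nat_lit 9) L22819 (by decide +kernel)
theorem L22821 : W_1 (nat_lit 5) (nat_lit 0x12000f000b000100000000000000000000000) (nat_lit 0x0) (nat_lit 0x10000800000010000e80014000000000000000000) := T_1 (nat_lit 91) (nat_lit 74) (nat_lit 5) (nat_lit 6) (nat_lit 4) L22820 (by decide +kernel)
theorem L22822 : W_1 (nat_lit 6) (nat_lit 0x12000f000b000000000000000000000000000) (nat_lit 0x0) (nat_lit 0x10000800000010000f8001c000000000000000000) := T_1 (nat_lit 92) (nat_lit 75) (nat_lit 7) (nat_lit 7) (nat_lit 4) L22821 (by decide +kernel)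
theorem L22823 : W_1 (nat_lit 7) (nat_lit 0x12000f0003000000000000000000000000000) (nat_lit 0x0) (nat_lit 0x1000080000001c000f8001c000000000000000000) := T_1 (nat_lit 111) (nat_lit 110) (nat_lit 2) (nat_lit 5) (nat_lit 7) L22822 (by decide +kernel)
theorem L22824 : W_1 (nat_lit 8) (nat_lit 0x10000f0003000000000000000000000000000) (nat_lit 0x0) (nat_lit 0x10000b0000001c000f8001c000000000000000000) := T_1 (nat_lit 141) (nat_lit 140) (nat_lit 1) (nat_lit 8) (nat_lit 7) L22823 (by decide +kernel)
theorem L22825 : W_1 (nat_lit 9) (nat_lit 0x10000f0002000000000000000000000000000) (nat_lit 0x0) (nat_lit 0x14000b0000001dc00f8001c000800000000000000) := Q_1 (nat_lit 108) (C_1 L22807 (C_1 L22786 (C_1 L22817 (C_1 L22824 N_1)))) (by decide +kernel)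
theorem L22826 : W_1 (nat_lit 2) (nat_lit 0x80014000f0006000000000000000000000000000) (nat_lit 0x0) (nat_lit 0x1000100008000000000000000000) := D_1 (nat_lit 92) (nat_lit 75) (nat_lit 108) (nat_lit 7) (nat_lit 7) (nat_lit 4) (nat_lit 6) (nat_lit 6) (nat_lit 9) (by decide +kernel)
theorem L22827 : W_1 (nat_lit 3) (nat_lit 0x14000f0006000000000000000000000000000) (nat_lit 0x0) (nat_lit 0x100008000000000001000100008000000000000000000) := T_1 (nat_lit 159) (nat_lit 176) (nat_lit 6) (nat_lit 6) (nat_lit 10) L22826 (by decide +kernel)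
theorem L22828 : W_1 (nat_lit 4) (nat_lit 0x14000f0002000000000000000000000000000) (nat_lit 0x0) (nat_lit 0x10000800000000000d000100008000000000000000000) := T_1 (nat_lit 110) (nat_lit 111) (nat_lit 2) (nat_lit 5) (nat_lit 7) L22827 (by decide +kernel)
theorem L22829 : W_1 (nat_lit 2) (nat_lit 0x16000f0006800040008000000000000000000) (nat_lit 0x0) (nat_lit 0x1000020001000000000000000000) := D_1 (nat_lit 89) (nat_lit 108) (nat_lit 72) (nat_lit 0) (nat_lit 8) (nat_lit 6) (nat_lit 4) (nat_lit 5) (nat_lit 8) (by decide +kernel)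
theorem L22830 : W_1 (nat_lit 3) (nat_lit 0x16000f0006800000008000000000000000000) (nat_lit 0x0) (nat_lit 0x1000060003000000000000000000) := T_1 (nat_lit 90) (nat_lit 73) (nat_lit 7) (nat_lit 5) (nat_lit 4) L22829 (by decide +kernel)
theorem L22831 : W_1 (nat_lit 4) (nat_lit 0x16000f0006000000008000000000000000000) (nat_lit 0x0) (nat_lit 0x1c00060003000000000000000000) := T_1 (nat_lit 107) (nat_lit 106) (nat_lit 0) (nat_lit 8) (nat_lit 7) L22830 (by decide +kernel)
theorem L22832 : W_1 (nat_lit 5) (nat_lit 0x14000f0006000000008000000000000000000) (nat_lit 0x0) (nat_lit 0x300000001c00060003000000000000000000) := T_1 (nat_lit 141) (nat_lit 140) (nat_lit 1) (nat_lit 8) (nat_lit 7) L22831 (by decide +kernel)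
theorem L22833 : W_1 (nat_lit 6) (nat_lit 0x14000f0002000000008000000000000000000) (nat_lit 0x0) (nat_lit 0x30000000dc00060003000000000000000000) := T_1 (nat_lit 110) (nat_lit 111) (nat_lit 2) (nat_lit 5) (nat_lit 7) L22832 (by decide +kernel)
theorem L22834 : W_1 (nat_lit 7) (nat_lit 0x14000f0002000000000000000000000000000) (nat_lit 0x0) (nat_lit 0x30000000dc0016000b000000000000000000) := T_1 (nat_lit 75) (nat_lit 92) (nat_lit 7) (nat_lit 7) (nat_lit 4) L22833 (by decide +kernel)
theorem L22835 : W_1 (nat_lit 2) (nat_lit 0x1000000014000f0006800160000000000000000000000) (nat_lit 0x0) (nat_lit 0x300000000000000001000000000000000000) := D_1 (nat_lit 141) (nat_lit 140) (nat_lit 72) (nat_lit 1) (nat_lit 8) (nat_lit 7) (nat_lit 4) (nat_lit 5) (nat_lit 8) (by decide +kernel)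
theorem L22836 : W_1 (nat_lit 3) (nat_lit 0x1000000014000f0006800140000000000000000000000) (nat_lit 0x0) (nat_lit 0x3000000000000a0001000000000000000000) := T_1 (nat_lit 89) (nat_lit 91) (nat_lit 3) (nat_lit 4) (nat_lit 5) L22835 (by decide +kernel)
theorem L22837 : W_1 (nat_lit 4) (nat_lit 0x1000000014000f0002800140000000000000000000000) (nat_lit 0x0) (nat_lit 0x30000000c0000a0001000000000000000000) := T_1 (nat_lit 110) (nat_lit 111) (nat_lit 2) (nat_lit 5) (nat_lit 7) L22836 (by decide +kernel)
theorem L22838 : W_1 (nat_lit 5) (nat_lit 0x1000000014000f0002800040000000000000000000000) (nat_lit 0x0) (nat_lit 0x30000000c0001a0009000000000000000000) := T_1 (nat_lit 92) (nat_lit 75) (nat_lit 7) (nat_lit 7) (nat_lit 4) L22837 (by decide +kernel)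
theorem L22839 : W_1 (nat_lit 6) (nat_lit 0x1000000014000f0002800000000000000000000000000) (nat_lit 0x0) (nat_lit 0x30000000c0001e000b000000000000000000) := T_1 (nat_lit 90) (nat_lit 73) (nat_lit 7) (nat_lit 5) (nat_lit 4) L22838 (by decide +kernel)
theorem L22840 : W_1 (nat_lit 7) (nat_lit 0x14000f0002800000000000000000000000000) (nat_lit 0x0) (nat_lit 0x10000800030000000c0001e000b000000000000000000) := T_1 (nat_lit 176) (nat_lit 159) (nat_lit 6) (nat_lit 6) (nat_lit 10) L22839 (by decide +kernel)
theorem L22841 : W_1 (nat_lit 8) (nat_lit 0x14000f0002000000000000000000000000000) (nat_lit 0x0) (nat_lit 0x10000800030000000cc001e000b000000000000000000) := T_1 (nat_lit 107) (nat_lit 106) (nat_lit 0) (nat_lit 8) (nat_lit 7) L22840 (by decide +kernel)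
theorem L22842 : W_1 (nat_lit 2) (nat_lit 0x1000000016000f00028001c0000000000000000000000) (nat_lit 0x0) (nat_lit 0x4000020001000000000000000000) := D_1 (nat_lit 89) (nat_lit 110) (nat_lit 72) (nat_lit 3) (nat_lit 4) (nat_lit 5) (nat_lit 4) (nat_lit 5) (nat_lit 8) (by decide +kernel)
theorem L22843 : W_1 (nat_lit 3) (nat_lit 0x1000000016000f0002800140000000000000000000000) (nat_lit 0x0) (nat_lit 0x40000a0005000000000000000000) := T_1 (nat_lit 91) (nat_lit 74) (nat_lit 6) (nat_lit 5) (nat_lit 8) L22842 (by decide +kernel)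
theorem L22844 : W_1 (nat_lit 4) (nat_lit 0x1000000016000f0002800100000000000000000000000) (nat_lit 0x0) (nat_lit 0x40000e0007000000000000000000) := T_1 (nat_lit 90) (nat_lit 73) (nat_lit 7) (nat_lit 5) (nat_lit 4) L22843 (by decide +kernel)
theorem L22845 : W_1 (nat_lit 5) (nat_lit 0x1000000016000f0002000100000000000000000000000) (nat_lit 0x0) (nat_lit 0x4c000e0007000000000000000000) := T_1 (nat_lit 107) (nat_lit 106) (nat_lit 0) (nat_lit 8) (nat_lit 7) L22844 (by decide +kernel)
theorem L22846 : W_1 (nat_lit 6) (nat_lit 0x1000000016000f0002000000000000000000000000000) (nat_lit 0x0) (nat_lit 0x4c001e000f000000000000000000) := T_1 (nat_lit 92) (nat_lit 75) (nat_lit 7) (nat_lit 7) (nat_lit 4) L22845 (by decide +kernel)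
theorem L22847 : W_1 (nat_lit 7) (nat_lit 0x16000f0002000000000000000000000000000) (nat_lit 0x0) (nat_lit 0x100008000000000004c001e000f000000000000000000) := T_1 (nat_lit 176) (nat_lit 159) (nat_lit 6) (nat_lit 6) (nat_lit 10) L22846 (by decide +kernel)
theorem L22848 : W_1 (nat_lit 8) (nat_lit 0x14000f0002000000000000000000000000000) (nat_lit 0x0) (nat_lit 0x100008000300000004c001e000f000000000000000000) := T_1 (nat_lit 141) (nat_lit 140) (nat_lit 1) (nat_lit 8) (nat_lit 7) L22847 (by decide +kernel)
theorem L22849 : W_1 (nat_lit 2) (nat_lit 0x1000000016000f0006800040000000000000000000000) (nat_lit 0x0) (nat_lit 0x1000020001000000000000000000) := D_1 (nat_lit 89) (nat_lit 108) (nat_lit 72) (nat_lit 0) (nat_lit 8) (nat_lit 6) (nat_lit 4) (nat_lit 5) (nat_lit 8) (by decide +kernel)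
theorem L22850 : W_1 (nat_lit 3) (nat_lit 0x1000000016000f0002800040000000000000000000000) (nat_lit 0x0) (nat_lit 0xd000020001000000000000000000) := T_1 (nat_lit 110) (nat_lit 111) (nat_lit 2) (nat_lit 5) (nat_lit 7) L22849 (by decide +kernel)
theorem L22851 : W_1 (nat_lit 4) (nat_lit 0x1000000014000f0002800040000000000000000000000) (nat_lit 0x0) (nat_lit 0x30000000d000020001000000000000000000) := T_1 (nat_lit 141) (nat_lit 140) (nat_lit 1) (nat_lit 8) (nat_lit 7) L22850 (by decide +kernel)
theorem L22852 : W_1 (nat_lit 5) (nat_lit 0x1000000014000f0002800000000000000000000000000) (nat_lit 0x0) (nat_lit 0x30000000d000060003000000000000000000) := T_1 (nat_lit 90) (nat_lit 73) (nat_lit 7) (nat_lit 5) (nat_lit 4) L22851 (by decide +kernel)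
theorem L22853 : W_1 (nat_lit 6) (nat_lit 0x14000f0002800000000000000000000000000) (nat_lit 0x0) (nat_lit 0x10000800030000000d000060003000000000000000000) := T_1 (nat_lit 176) (nat_lit 159) (nat_lit 6) (nat_lit 6) (nat_lit 10) L22852 (by decide +kernel)
theorem L22854 : W_1 (nat_lit 7) (nat_lit 0x14000f0002000000000000000000000000000) (nat_lit 0x0) (nat_lit 0x10000800030000000dc00060003000000000000000000) := T_1 (nat_lit 107) (nat_lit 106) (nat_lit 0) (nat_lit 8) (nat_lit 7) L22853 (by decide +kernel)
theorem L22855 : W_1 (nat_lit 2) (nat_lit 0x16000f0002800000008000000000000000000) (nat_lit 0x0) (nat_lit 0x100008000000000000000040000000000000000000000) := D_1 (nat_lit 159) (nat_lit 176) (nat_lit 90) (nat_lit 6) (nat_lit 6) (nat_lit 10) (nat_lit 7) (nat_lit 5) (nat_lit 5) (by decide +kernel)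
theorem L22856 : W_1 (nat_lit 3) (nat_lit 0x16000f0002000000008000000000000000000) (nat_lit 0x0) (nat_lit 0x100008000000000000c00040000000000000000000000) := T_1 (nat_lit 107) (nat_lit 106) (nat_lit 0) (nat_lit 8) (nat_lit 7) L22855 (by decide +kernel)
theorem L22857 : W_1 (nat_lit 4) (nat_lit 0x16000f0002000000000000000000000000000) (nat_lit 0x0) (nat_lit 0x100008000000000000c00140008000000000000000000) := T_1 (nat_lit 75) (nat_lit 92) (nat_lit 7) (nat_lit 7) (nat_lit 4) L22856 (by decide +kernel)
theorem L22858 : W_1 (nat_lit 5) (nat_lit 0x14000f0002000000000000000000000000000) (nat_lit 0x0) (nat_lit 0x100008000300000000c00140008000000000000000000) := T_1 (nat_lit 141) (nat_lit 140) (nat_lit 1) (nat_lit 8) (nat_lit 7) L22857 (by decide +kernel)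
theorem L22859 : W_1 (nat_lit 9) (nat_lit 0x10000f0002000000000000000000000000000) (nat_lit 0x0) (nat_lit 0x10000800070000000dc001e000f000000000000000000) := Q_1 (nat_lit 142) (C_1 L22828 (C_1 L22834 (C_1 L22841 (C_1 L22848 (C_1 L22854 (C_1 L22858 N_1)))))) (by decide +kernel)
theorem L22860 : W_1 (nat_lit 2) (nat_lit 0x80016000f0002000000000000000000000000000) (nat_lit 0x0) (nat_lit 0x800000000000100008000000000000000000) := D_1 (nat_lit 92) (nat_lit 75) (nat_lit 143) (nat_lit 7) (nat_lit 7) (nat_lit 4) (nat_lit 5) (nat_lit 7) (nat_lit 5) (by decide +kernel)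
theorem L22861 : W_1 (nat_lit 3) (nat_lit 0x16000f0002000000000000000000000000000) (nat_lit 0x0) (nat_lit 0x100008000800000000000100008000000000000000000) := T_1 (nat_lit 159) (nat_lit 176) (nat_lit 6) (nat_lit 6) (nat_lit 10) L22860 (by decide +kernel)
theorem L22862 : W_1 (nat_lit 4) (nat_lit 0x14000f0002000000000000000000000000000) (nat_lit 0x0) (nat_lit 0x100008000b00000000000100008000000000000000000) := T_1 (nat_lit 141) (nat_lit 140) (nat_lit 1) (nat_lit 8) (nat_lit 7) L22861 (by decide +kernel)
theorem L22863 : W_1 (nat_lit 2) (nat_lit 0x16000f0006800140000000000000000000000) (nat_lit 0x0) (nat_lit 0xa0004000000000000000000) := D_1 (nat_lit 91) (nat_lit 74) (nat_lit 89) (nat_lit 6) (nat_lit 5) (nat_lit 8) (nat_lit 3) (nat_lit 4) (nat_lit 5) (by decide +kernel)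
theorem L22864 : W_1 (nat_lit 3) (nat_lit 0x16000f0006800100000000000000000000000) (nat_lit 0x0) (nat_lit 0xe0006000000000000000000) := T_1 (nat_lit 90) (nat_lit 73) (nat_lit 7) (nat_lit 5) (nat_lit 4) L22863 (by decide +kernel)
theorem L22865 : W_1 (nat_lit 4) (nat_lit 0x16000f0002800100000000000000000000000) (nat_lit 0x0) (nat_lit 0xc0000e0006000000000000000000) := T_1 (nat_lit 110) (nat_lit 111) (nat_lit 2) (nat_lit 5) (nat_lit 7) L22864 (by decide +kernel)
theorem L22866 : W_1 (nat_lit 5) (nat_lit 0x16000f0002000100000000000000000000000) (nat_lit 0x0) (nat_lit 0xcc000e0006000000000000000000) := T_1 (nat_lit 107) (nat_lit 106) (nat_lit 0) (nat_lit 8) (nat_lit 7) L22865 (by decide +kernel)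
theorem L22867 : W_1 (nat_lit 6) (nat_lit 0x14000f0002000100000000000000000000000) (nat_lit 0x0) (nat_lit 0x30000000cc000e0006000000000000000000) := T_1 (nat_lit 141) (nat_lit 140) (nat_lit 1) (nat_lit 8) (nat_lit 7) L22866 (by decide +kernel)
theorem L22868 : W_1 (nat_lit 7) (nat_lit 0x14000f0002000000000000000000000000000) (nat_lit 0x0) (nat_lit 0x30000000cc001e000e000000000000000000) := T_1 (nat_lit 92) (nat_lit 75) (nat_lit 7) (nat_lit 7) (nat_lit 4) L22867 (by decide +kernel)
theorem L22869 : W_1 (nat_lit 2) (nat_lit 0x80014000f0002800000000000000000000000000) (nat_lit 0x0) (nat_lit 0x200000000000040002000000000000000000) := D_1 (nat_lit 90) (nat_lit 73) (nat_lit 141) (nat_lit 7) (nat_lit 5) (nat_lit 4) (nat_lit 7) (nat_lit 5) (nat_lit 5) (by decide +kernel)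
theorem L22870 : W_1 (nat_lit 3) (nat_lit 0x14000f0002800000000000000000000000000) (nat_lit 0x0) (nat_lit 0x100008000200000000000040002000000000000000000) := T_1 (nat_lit 159) (nat_lit 176) (nat_lit 6) (nat_lit 6) (nat_lit 10) L22869 (by decide +kernel)
theorem L22871 : W_1 (nat_lit 4) (nat_lit 0x14000f0002000000000000000000000000000) (nat_lit 0x0) (nat_lit 0x100008000200000000c00040002000000000000000000) := T_1 (nat_lit 107) (nat_lit 106) (nat_lit 0) (nat_lit 8) (nat_lit 7) L22870 (by decide +kernel)
theorem L22872 : W_1 (nat_lit 2) (nat_lit 0x14000f0002800100000000000000000000000) (nat_lit 0x0) (nat_lit 0x100008000800000000000000000000000000000000000) := D_1 (nat_lit 159) (nat_lit 176) (nat_lit 143) (nat_lit 6) (nat_lit 6) (nat_lit 10) (nat_lit 5) (nat_lit 7) (nat_lit 5) (by decide +kernel)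
theorem L22873 : W_1 (nat_lit 3) (nat_lit 0x14000f0002800000000000000000000000000) (nat_lit 0x0) (nat_lit 0x100008000800000000000100008000000000000000000) := T_1 (nat_lit 92) (nat_lit 75) (nat_lit 7) (nat_lit 7) (nat_lit 4) L22872 (by decide +kernel)
theorem L22874 : W_1 (nat_lit 4) (nat_lit 0x14000f0002000000000000000000000000000) (nat_lit 0x0) (nat_lit 0x100008000800000000c00100008000000000000000000) := T_1 (nat_lit 107) (nat_lit 106) (nat_lit 0) (nat_lit 8) (nat_lit 7) L22873 (by decide +kernel)
theorem L22875 : W_1 (nat_lit 8) (nat_lit 0x10000f0002000000000000000000000000000) (nat_lit 0x0) (nat_lit 0x100008000f0000000cc001e000e000000000000000000) := Q_1 (nat_lit 142) (C_1 L22862 (C_1 L22868 (C_1 L22871 (C_1 L22874 N_1)))) (by decide +kernel)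
theorem L22876 : W_1 (nat_lit 2) (nat_lit 0x16000f00038000c0008000000000000000000) (nat_lit 0x0) (nat_lit 0x30001000000000000000000) := D_1 (nat_lit 89) (nat_lit 72) (nat_lit 88) (nat_lit 4) (nat_lit 5) (nat_lit 8) (nat_lit 3) (nat_lit 3) (nat_lit 5) (by decide +kernel)
theorem L22877 : W_1 (nat_lit 3) (nat_lit 0x16000f00028000c0008000000000000000000) (nat_lit 0x0) (nat_lit 0x4000000000001000030001000000000000000000) := T_1 (nat_lit 108) (nat_lit 158) (nat_lit 6) (nat_lit 5) (nat_lit 9) L22876 (by decide +kernel)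
theorem L22878 : W_1 (nat_lit 4) (nat_lit 0x16000f0002800040008000000000000000000) (nat_lit 0x0) (nat_lit 0x40000000000010000b0005000000000000000000) := T_1 (nat_lit 91) (nat_lit 74) (nat_lit 6) (nat_lit 5) (nat_lit 8) L22877 (by decide +kernel)
theorem L22879 : W_1 (nat_lit 5) (nat_lit 0x16000f0002800000008000000000000000000) (nat_lit 0x0) (nat_lit 0x40000000000010000f0007000000000000000000) := T_1 (nat_lit 90) (nat_lit 73) (nat_lit 7) (nat_lit 5) (nat_lit 4) L22878 (by decide +kernel)
theorem L22880 : W_1 (nat_lit 6) (nat_lit 0x14000f0002800000008000000000000000000) (nat_lit 0x0) (nat_lit 0x40003000000010000f0007000000000000000000) := T_1 (nat_lit 141) (nat_lit 140) (nat_lit 1) (nat_lit 8) (nat_lit 7) L22879 (by decide +kernel)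
theorem L22881 : W_1 (nat_lit 7) (nat_lit 0x14000f0002000000008000000000000000000) (nat_lit 0x0) (nat_lit 0x4000300000001c000f0007000000000000000000) := T_1 (nat_lit 107) (nat_lit 106) (nat_lit 0) (nat_lit 8) (nat_lit 7) L22880 (by decide +kernel)
theorem L22882 : W_1 (nat_lit 8) (nat_lit 0x14000f0002000000000000000000000000000) (nat_lit 0x0) (nat_lit 0x4000300000001c001f000f000000000000000000) := T_1 (nat_lit 75) (nat_lit 92) (nat_lit 7) (nat_lit 7) (nat_lit 4) L22881 (by decide +kernel)
theorem L22883 : W_1 (nat_lit 9) (nat_lit 0x10000f0002000000000000000000000000000) (nat_lit 0x0) (nat_lit 0x10000c000f00000001c001f000f000000000000000000) := Q_1 (nat_lit 142) (C_1 L22874 (C_1 L22882 (C_1 L22871 (C_1 L22862 N_1)))) (by decide +kernel)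
theorem L22884 : W_1 (nat_lit 2) (nat_lit 0x12000f0007000080000000000000000000000) (nat_lit 0x0) (nat_lit 0x80004000400000000000000000000000000000000000) := D_1 (nat_lit 158) (nat_lit 175) (nat_lit 142) (nat_lit 6) (nat_lit 5) (nat_lit 10) (nat_lit 5) (nat_lit 6) (nat_lit 5) (by decide +kernel)
theorem L22885 : W_1 (nat_lit 3) (nat_lit 0x12000f0007000000000000000000000000000) (nat_lit 0x0) (nat_lit 0x80004000400000000000080004000000000000000000) := T_1 (nat_lit 91) (nat_lit 74) (nat_lit 5) (nat_lit 6) (nat_lit 4) L22884 (by decide +kernel)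
theorem L22886 : W_1 (nat_lit 4) (nat_lit 0x10000f0007000000000000000000000000000) (nat_lit 0x0) (nat_lit 0x80004000700000000000080004000000000000000000) := T_1 (nat_lit 141) (nat_lit 140) (nat_lit 1) (nat_lit 8) (nat_lit 7) L22885 (by decide +kernel)
theorem L22887 : W_1 (nat_lit 5) (nat_lit 0x10000f0003000000000000000000000000000) (nat_lit 0x0) (nat_lit 0x8000400070000000c000080004000000000000000000) := T_1 (nat_lit 110) (nat_lit 111) (nat_lit 2) (nat_lit 5) (nat_lit 7) L22886 (by decide +kernel)
theorem L22888 : W_1 (nat_lit 6) (nat_lit 0x10000f0002000000000000000000000000000) (nat_lit 0x0) (nat_lit 0x80004000f0000000dc00680014000800000000000000) := Q_1 (nat_lit 108) (C_1 L22807 (C_1 L22803 (C_1 L22887 N_1))) (by decide +kernel)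
theorem L22889 : W_1 (nat_lit 8) (nat_lit 0x10000f0002000000000000000000000000000) (nat_lit 0x0) (nat_lit 0x100008000f0000000dc0016000b000000000000000000) := Q_1 (nat_lit 142) (C_1 L22874 (C_1 L22834 (C_1 L22871 (C_1 L22862 N_1)))) (by decide +kernel)
theorem L22890 : W_1 (nat_lit 2) (nat_lit 0x14000f0007800240008000000000000000000) (nat_lit 0x0) (nat_lit 0x10000c00000000000000) := D_1 (nat_lit 76) (nat_lit 58) (nat_lit 59) (nat_lit 4) (nat_lit 8) (nat_lit 7) (nat_lit 5) (nat_lit 8) (nat_lit 3) (by decide +kernel)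
theorem L22891 : W_1 (nat_lit 3) (nat_lit 0x14000f0007800040008000000000000000000) (nat_lit 0x0) (nat_lit 0x600010000c00000000000000) := T_1 (nat_lit 93) (nat_lit 94) (nat_lit 2) (nat_lit 5) (nat_lit 6) L22890 (by decide +kernel)
theorem L22892 : W_1 (nat_lit 4) (nat_lit 0x14000f0006800040008000000000000000000) (nat_lit 0x0) (nat_lit 0x1000620010000c00000000000000) := T_1 (nat_lit 108) (nat_lit 89) (nat_lit 0) (nat_lit 8) (nat_lit 6) L22891 (by decide +kernel)
theorem L22893 : W_1 (nat_lit 5) (nat_lit 0x14000f0002800040008000000000000000000) (nat_lit 0x0) (nat_lit 0xd000620010000c00000000000000) := T_1 (nat_lit 110) (nat_lit 111) (nat_lit 2) (nat_lit 5) (nat_lit 7) L22892 (by decide +kernel)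
theorem L22894 : W_1 (nat_lit 6) (nat_lit 0x14000f0002800000008000000000000000000) (nat_lit 0x0) (nat_lit 0xd000660012000c00000000000000) := T_1 (nat_lit 90) (nat_lit 73) (nat_lit 7) (nat_lit 5) (nat_lit 4) L22893 (by decide +kernel)
theorem L22895 : W_1 (nat_lit 7) (nat_lit 0x14000f0002800000000000000000000000000) (nat_lit 0x0) (nat_lit 0xd00076001a000c00000000000000) := T_1 (nat_lit 75) (nat_lit 92) (nat_lit 7) (nat_lit 7) (nat_lit 4) L22894 (by decide +kernel)
theorem L22896 : W_1 (nat_lit 8) (nat_lit 0x14000f0002000000000000000000000000000) (nat_lit 0x0) (nat_lit 0xdc0076001a000c00000000000000) := T_1 (nat_lit 107) (nat_lit 106) (nat_lit 0) (nat_lit 8) (nat_lit 7) L22895 (by decide +kernel)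
theorem L22897 : W_1 (nat_lit 2) (nat_lit 0x1000000014000f0007800240000000000000000000000) (nat_lit 0x0) (nat_lit 0x800000000000000010000800000000000000) := D_1 (nat_lit 76) (nat_lit 59) (nat_lit 143) (nat_lit 5) (nat_lit 8) (nat_lit 3) (nat_lit 5) (nat_lit 8) (nat_lit 4) (by decide +kernel)
theorem L22898 : W_1 (nat_lit 3) (nat_lit 0x1000000014000f0007800040000000000000000000000) (nat_lit 0x0) (nat_lit 0x800000000000600010000800000000000000) := T_1 (nat_lit 93) (nat_lit 94) (nat_lit 2) (nat_lit 5) (nat_lit 6) L22897 (by decide +kernel)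
theorem L22899 : W_1 (nat_lit 4) (nat_lit 0x1000000014000f0006800040000000000000000000000) (nat_lit 0x0) (nat_lit 0x800000001000620010000800000000000000) := T_1 (nat_lit 108) (nat_lit 89) (nat_lit 0) (nat_lit 8) (nat_lit 6) L22898 (by decide +kernel)
theorem L22900 : W_1 (nat_lit 5) (nat_lit 0x1000000014000f0006800000000000000000000000000) (nat_lit 0x0) (nat_lit 0x800000001000660012000800000000000000) := T_1 (nat_lit 90) (nat_lit 73) (nat_lit 7) (nat_lit 5) (nat_lit 4) L22899 (by decide +kernel)
theorem L22901 : W_1 (nat_lit 6) (nat_lit 0x1000000014000f0006000000000000000000000000000) (nat_lit 0x0) (nat_lit 0x800000001c00660012000800000000000000) := T_1 (nat_lit 107) (nat_lit 106) (nat_lit 0) (nat_lit 8) (nat_lit 7) L22900 (by decide +kernel)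
theorem L22902 : W_1 (nat_lit 7) (nat_lit 0x14000f0006000000000000000000000000000) (nat_lit 0x0) (nat_lit 0x100008000800000001c00660012000800000000000000) := T_1 (nat_lit 176) (nat_lit 159) (nat_lit 6) (nat_lit 6) (nat_lit 10) L22901 (by decide +kernel)
theorem L22903 : W_1 (nat_lit 8) (nat_lit 0x14000f0002000000000000000000000000000) (nat_lit 0x0) (nat_lit 0x10000800080000000dc00660012000800000000000000) := T_1 (nat_lit 110) (nat_lit 111) (nat_lit 2) (nat_lit 5) (nat_lit 7) L22902 (by decide +kernel)
theorem L22904 : W_1 (nat_lit 9) (nat_lit 0x10000f0002000000000000000000000000000) (nat_lit 0x0) (nat_lit 0x100008000c0000000dc0076001a000c00000000000000) := Q_1 (nat_lit 142) (C_1 L22874 (C_1 L22896 (C_1 L22903 (C_1 L22828 N_1)))) (by decide +kernel)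
theorem L22905 : W_1 (nat_lit 2) (nat_lit 0x18000f0006000000008000000000000000000) (nat_lit 0x0) (nat_lit 0x200010000000000000000200000000000000000000000) := D_1 (nat_lit 160) (nat_lit 93) (nat_lit 177) (nat_lit 6) (nat_lit 7) (nat_lit 9) (nat_lit 6) (nat_lit 7) (nat_lit 10) (by decide +kernel)
theorem L22906 : W_1 (nat_lit 3) (nat_lit 0x18000f0002000000008000000000000000000) (nat_lit 0x0) (nat_lit 0x20001000000000000c000200000000000000000000000) := T_1 (nat_lit 110) (nat_lit 111) (nat_lit 2) (nat_lit 5) (nat_lit 7) L22905 (by decide +kernel)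
theorem L22907 : W_1 (nat_lit 4) (nat_lit 0x18000f0002000000000000000000000000000) (nat_lit 0x0) (nat_lit 0x20001000000000000c000300008000000000000000000) := T_1 (nat_lit 75) (nat_lit 92) (nat_lit 7) (nat_lit 7) (nat_lit 4) L22906 (by decide +kernel)
theorem L22908 : W_1 (nat_lit 2) (nat_lit 0x18000f0006000000000000000000000000000) (nat_lit 0x0) (nat_lit 0x10000000000000000200010000000000000000000) := D_1 (nat_lit 93) (nat_lit 160) (nat_lit 76) (nat_lit 6) (nat_lit 7) (nat_lit 9) (nat_lit 5) (nat_lit 8) (nat_lit 4) (by decide +kernel)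
theorem L22909 : W_1 (nat_lit 3) (nat_lit 0x18000f0002000000000000000000000000000) (nat_lit 0x0) (nat_lit 0x1000000000000c000200010000000000000000000) := T_1 (nat_lit 110) (nat_lit 111) (nat_lit 2) (nat_lit 5) (nat_lit 7) L22908 (by decide +kernel)
theorem L22910 : W_1 (nat_lit 2) (nat_lit 0x1e000f0006000180010000000000000000000) (nat_lit 0x0) (nat_lit 0x6000000000001000000000000000000000000000) := D_1 (nat_lit 158) (nat_lit 108) (nat_lit 157) (nat_lit 5) (nat_lit 6) (nat_lit 5) (nat_lit 1) (nat_lit 8) (nat_lit 8) (by decide +kernel)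
theorem L22911 : W_1 (nat_lit 3) (nat_lit 0x1a000f0006000180010000000000000000000) (nat_lit 0x0) (nat_lit 0xe000400000001000000000000000000000000000) := T_1 (nat_lit 142) (nat_lit 159) (nat_lit 5) (nat_lit 7) (nat_lit 5) L22910 (by decide +kernel)
theorem L22912 : W_1 (nat_lit 4) (nat_lit 0x1a000f0006000100010000000000000000000) (nat_lit 0x0) (nat_lit 0xe000400000001000080004000000000000000000) := T_1 (nat_lit 91) (nat_lit 74) (nat_lit 4) (nat_lit 7) (nat_lit 8) L22911 (by decide +kernel)
theorem L22913 : W_1 (nat_lit 5) (nat_lit 0x18000f0006000100010000000000000000000) (nat_lit 0x0) (nat_lit 0xe000700000001000080004000000000000000000) := T_1 (nat_lit 141) (nat_lit 140) (nat_lit 1) (nat_lit 8) (nat_lit 7) L22912 (by decide +kernel)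
theorem L22914 : W_1 (nat_lit 6) (nat_lit 0x18000f0006000000010000000000000000000) (nat_lit 0x0) (nat_lit 0xe00070000000100018000c000000000000000000) := T_1 (nat_lit 92) (nat_lit 75) (nat_lit 7) (nat_lit 7) (nat_lit 4) L22913 (by decide +kernel)
theorem L22915 : W_1 (nat_lit 7) (nat_lit 0x18000f0006000000000000000000000000000) (nat_lit 0x0) (nat_lit 0xe00070000000100038001c000000000000000000) := T_1 (nat_lit 76) (nat_lit 93) (nat_lit 5) (nat_lit 8) (nat_lit 4) L22914 (by decide +kernel)
theorem L22916 : W_1 (nat_lit 8) (nat_lit 0x18000f0002000000000000000000000000000) (nat_lit 0x0) (nat_lit 0xe00070000000d00038001c000000000000000000) := T_1 (nat_lit 110) (nat_lit 111) (nat_lit 2) (nat_lit 5) (nat_lit 7) L22915 (by decide +kernel)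
theorem L22917 : W_1 (nat_lit 2) (nat_lit 0x1e000f0006000380000000000000000000000) (nat_lit 0x0) (nat_lit 0x6000000000001000000000000000000000000000) := D_1 (nat_lit 158) (nat_lit 108) (nat_lit 157) (nat_lit 5) (nat_lit 6) (nat_lit 5) (nat_lit 1) (nat_lit 8) (nat_lit 8) (by decide +kernel)
theorem L22918 : W_1 (nat_lit 3) (nat_lit 0x1a000f0006000380000000000000000000000) (nat_lit 0x0) (nat_lit 0xe000400000001000000000000000000000000000) := T_1 (nat_lit 142) (nat_lit 159) (nat_lit 5) (nat_lit 7) (nat_lit 5) L22917 (by decide +kernel)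
theorem L22919 : W_1 (nat_lit 4) (nat_lit 0x1a000f0006000300000000000000000000000) (nat_lit 0x0) (nat_lit 0xe000400000001000080004000000000000000000) := T_1 (nat_lit 91) (nat_lit 74) (nat_lit 4) (nat_lit 7) (nat_lit 8) L22918 (by decide +kernel)
theorem L22920 : W_1 (nat_lit 5) (nat_lit 0x1a000f0002000300000000000000000000000) (nat_lit 0x0) (nat_lit 0x1e000400000005000080004000000000000000000) := T_1 (nat_lit 110) (nat_lit 160) (nat_lit 6) (nat_lit 7) (nat_lit 9) L22919 (by decide +kernel)
theorem L22921 : W_1 (nat_lit 6) (nat_lit 0x1a000f0002000100000000000000000000000) (nat_lit 0x0) (nat_lit 0x1e000400000005000280014000000000000000000) := T_1 (nat_lit 93) (nat_lit 76) (nat_lit 6) (nat_lit 7) (nat_lit 8) L22920 (by decide +kernel)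
theorem L22922 : W_1 (nat_lit 7) (nat_lit 0x1a000f0002000000000000000000000000000) (nat_lit 0x0) (nat_lit 0x1e00040000000500038001c000000000000000000) := T_1 (nat_lit 92) (nat_lit 75) (nat_lit 7) (nat_lit 7) (nat_lit 4) L22921 (by decide +kernel)
theorem L22923 : W_1 (nat_lit 8) (nat_lit 0x18000f0002000000000000000000000000000) (nat_lit 0x0) (nat_lit 0x1e00070000000500038001c000000000000000000) := T_1 (nat_lit 141) (nat_lit 140) (nat_lit 1) (nat_lit 8) (nat_lit 7) L22922 (by decide +kernel)
theorem L22924 : W_1 (nat_lit 2) (nat_lit 0x4001e000f0002000100000000000000000000000) (nat_lit 0x0) (nat_lit 0x1000080004000000000000000000) := D_1 (nat_lit 91) (nat_lit 74) (nat_lit 108) (nat_lit 4) (nat_lit 7) (nat_lit 8) (nat_lit 5) (nat_lit 6) (nat_lit 5) (by decide +kernel)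
theorem L22925 : W_1 (nat_lit 3) (nat_lit 0x1e000f0002000100000000000000000000000) (nat_lit 0x0) (nat_lit 0x6000000000001000080004000000000000000000) := T_1 (nat_lit 158) (nat_lit 157) (nat_lit 1) (nat_lit 8) (nat_lit 8) L22924 (by decide +kernel)
theorem L22926 : W_1 (nat_lit 4) (nat_lit 0x1a000f0002000100000000000000000000000) (nat_lit 0x0) (nat_lit 0xe000400000001000080004000000000000000000) := T_1 (nat_lit 142) (nat_lit 159) (nat_lit 5) (nat_lit 7) (nat_lit 5) L22925 (by decide +kernel)
theorem L22927 : W_1 (nat_lit 5) (nat_lit 0x18000f0002000100000000000000000000000) (nat_lit 0x0) (nat_lit 0xe000700000001000080004000000000000000000) := T_1 (nat_lit 141) (nat_lit 140) (nat_lit 1) (nat_lit 8) (nat_lit 7) L22926 (by decide +kernel)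
theorem L22928 : W_1 (nat_lit 6) (nat_lit 0x18000f0002000000000000000000000000000) (nat_lit 0x0) (nat_lit 0xe00070000000100018000c000000000000000000) := T_1 (nat_lit 92) (nat_lit 75) (nat_lit 7) (nat_lit 7) (nat_lit 4) L22927 (by decide +kernel)
theorem L22929 : W_1 (nat_lit 9) (nat_lit 0x10000f0002000000000000000000000000000) (nat_lit 0x0) (nat_lit 0x20001e000f0000000d00038001c000000000000000000) := Q_1 (nat_lit 143) (C_1 L22907 (C_1 L22909 (C_1 L22916 (C_1 L22923 (C_1 L22928 N_1))))) (by decide +kernel)
theorem L22930 : W_1 (nat_lit 10) (nat_lit 0x10000f0000000000000000000000000000000) (nat_lit 0x0) (nat_lit 0x38001e000f0000001fc00ff001f000c00000000000000) := Q_1 (nat_lit 109) (C_1 L22813 (C_1 L22825 (C_1 L22859 (C_1 L22875 (C_1 L22883 (C_1 L22888 (C_1 L22889 (C_1 L22904 (C_1 L22929 N_1))))))))) (by decide +kernel)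
theorem L22931 : W_1 (nat_lit 11) (nat_lit 0x10000b0000000000000000000000000000000) (nat_lit 0x0) (nat_lit 0x38001e000f8004801fc00ff001f000c00000000000000) := Q_1 (nat_lit 126) (C_1 L22474 (C_1 L22466 (C_1 L22470 (C_1 L22930 N_1)))) (by decide +kernel)
theorem L22932 : W_1 (nat_lit 5) (nat_lit 0x10000b0000000000000000000000000000000) (nat_lit 0x0) (nat_lit 0x280004800ec00000000000000000000000000) := T_1 (nat_lit 126) (nat_lit 145) (nat_lit 3) (nat_lit 5) (nat_lit 7) L22474 (by decide +kernel)
theorem L22933 : W_1 (nat_lit 2) (nat_lit 0x12000b0000800000000000000000000000000) (nat_lit 0x0) (nat_lit 0x100040000400000000000000000000000000) := D_1 (nat_lit 126) (nat_lit 140) (nat_lit 106) (nat_lit 1) (nat_lit 8) (nat_lit 7) (nat_lit 0) (nat_lit 8) (nat_lit 7) (by decide +kernel)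
theorem L22934 : W_1 (nat_lit 2) (nat_lit 0x12000b0000800040000000000000000000000) (nat_lit 0x0) (nat_lit 0x8000400000000000000002000000000000000000) := D_1 (nat_lit 142) (nat_lit 159) (nat_lit 73) (nat_lit 7) (nat_lit 5) (nat_lit 5) (nat_lit 7) (nat_lit 5) (nat_lit 4) (by decide +kernel)
theorem L22935 : W_1 (nat_lit 2) (nat_lit 0x12000b0000800060002000000000000000000) (nat_lit 0x0) (nat_lit 0x80004000200000000000000) := D_1 (nat_lit 74) (nat_lit 91) (nat_lit 57) (nat_lit 6) (nat_lit 5) (nat_lit 8) (nat_lit 6) (nat_lit 5) (nat_lit 7) (by decide +kernel)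
theorem L22936 : W_1 (nat_lit 3) (nat_lit 0x12000b0000800060000000000000000000000) (nat_lit 0x0) (nat_lit 0x400000000000080006000200000000000000) := T_1 (nat_lit 73) (nat_lit 142) (nat_lit 7) (nat_lit 5) (nat_lit 4) L22935 (by decide +kernel)
theorem L22937 : W_1 (nat_lit 4) (nat_lit 0x12000b0000800040000000000000000000000) (nat_lit 0x0) (nat_lit 0x4000000000000a0007000200000000000000) := T_1 (nat_lit 89) (nat_lit 72) (nat_lit 4) (nat_lit 5) (nat_lit 8) L22936 (by decide +kernel)
theorem L22938 : W_1 (nat_lit 2) (nat_lit 0x12000b00008000e0000000000000000000000) (nat_lit 0x0) (nat_lit 0x4000000000001400000000000000000000000000) := D_1 (nat_lit 158) (nat_lit 108) (nat_lit 106) (nat_lit 6) (nat_lit 5) (nat_lit 9) (nat_lit 4) (nat_lit 5) (nat_lit 9) (by decide +kernel)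
theorem L22939 : W_1 (nat_lit 3) (nat_lit 0x12000b0000800060000000000000000000000) (nat_lit 0x0) (nat_lit 0x4000000000001400080004000000000000000000) := T_1 (nat_lit 91) (nat_lit 74) (nat_lit 6) (nat_lit 5) (nat_lit 8) L22938 (by decide +kernel)
theorem L22940 : W_1 (nat_lit 4) (nat_lit 0x12000b0000800040000000000000000000000) (nat_lit 0x0) (nat_lit 0x40000000000014000a0005000000000000000000) := T_1 (nat_lit 89) (nat_lit 72) (nat_lit 4) (nat_lit 5) (nat_lit 8) L22939 (by decide +kernel)
theorem L22941 : W_1 (nat_lit 5) (nat_lit 0x12000b0000800000000000000000000000000) (nat_lit 0x0) (nat_lit 0xc0004000000014000e0007000200000000000000) := Q_1 (nat_lit 90) (C_1 L22934 (C_1 L22937 (C_1 L22940 N_1))) (by decide +kernel)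
theorem L22942 : W_1 (nat_lit 2) (nat_lit 0x13400b0000800040000000000000000000000) (nat_lit 0x0) (nat_lit 0x8000400000000000000002000000000000000000) := D_1 (nat_lit 142) (nat_lit 73) (nat_lit 159) (nat_lit 7) (nat_lit 5) (nat_lit 4) (nat_lit 7) (nat_lit 5) (nat_lit 5) (by decide +kernel)
theorem L22943 : W_1 (nat_lit 3) (nat_lit 0x13400b0000800000000000000000000000000) (nat_lit 0x0) (nat_lit 0xa000400000000000040002000000000000000000) := T_1 (nat_lit 90) (nat_lit 157) (nat_lit 5) (nat_lit 5) (nat_lit 5) L22942 (by decide +kernel)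
theorem L22944 : W_1 (nat_lit 4) (nat_lit 0x13000b0000800000000000000000000000000) (nat_lit 0x0) (nat_lit 0xa0004c0000000000040002000000000000000000) := T_1 (nat_lit 138) (nat_lit 139) (nat_lit 2) (nat_lit 2) (nat_lit 8) L22943 (by decide +kernel)
theorem L22945 : W_1 (nat_lit 5) (nat_lit 0x12000b0000800000000000000000000000000) (nat_lit 0x0) (nat_lit 0xa0005c0040000000040002000000000000000000) := T_1 (nat_lit 140) (nat_lit 126) (nat_lit 1) (nat_lit 8) (nat_lit 7) L22944 (by decide +kernel)
theorem L22946 : W_1 (nat_lit 6) (nat_lit 0x12000b0000000000000000000000000000000) (nat_lit 0x0) (nat_lit 0xe0005c0040001c000e0007000200000000000000) := Q_1 (nat_lit 107) (C_1 L22933 (C_1 L22941 (C_1 L22945 N_1))) (by decide +kernel)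
theorem L22947 : W_1 (nat_lit 2) (nat_lit 0x12000b0000000000000000000000000000000) (nat_lit 0x0) (nat_lit 0x2100040000000000000000000000000000000) := D_1 (nat_lit 126) (nat_lit 140) (nat_lit 145) (nat_lit 1) (nat_lit 8) (nat_lit 7) (nat_lit 3) (nat_lit 5) (nat_lit 7) (by decide +kernel)
theorem L22948 : W_1 (nat_lit 6) (nat_lit 0xc0016000b0000800000000000000000000000000) (nat_lit 0x0) (nat_lit 0x2400138001c0000001000080000000000000000000000) := T_1 (nat_lit 108) (nat_lit 91) (nat_lit 6) (nat_lit 5) (nat_lit 9) L22720 (by decide +kernel)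
theorem L22949 : W_1 (nat_lit 7) (nat_lit 0x40016000b0000800000000000000000000000000) (nat_lit 0x0) (nat_lit 0x34001b8001c0000001000080000000000000000000000) := T_1 (nat_lit 159) (nat_lit 176) (nat_lit 7) (nat_lit 5) (nat_lit 6) L22948 (by decide +kernel)
theorem L22950 : W_1 (nat_lit 8) (nat_lit 0x16000b0000800000000000000000000000000) (nat_lit 0x0) (nat_lit 0x30003c001f8001c0000001000080000000000000000000000) := Q_1 (nat_lit 158) (C_1 L22570 (C_1 L22568 (C_1 L22949 N_1))) (by decide +kernel)
theorem L22951 : W_1 (nat_lit 9) (nat_lit 0x16000b0000000000000000000000000000000) (nat_lit 0x0) (nat_lit 0x30003c001f8001c0000001c000e0003000000000000000000) := Q_1 (nat_lit 107) (C_1 L22950 (C_1 L22641 (C_1 L22567 N_1))) (by decide +kernel)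
theorem L22952 : W_1 (nat_lit 4) (nat_lit 0x16000b0000000000000000000000000000000) (nat_lit 0x0) (nat_lit 0x80006002800000001000080000000000000000000000) := T_1 (nat_lit 143) (nat_lit 145) (nat_lit 0) (nat_lit 9) (nat_lit 8) L22544 (by decide +kernel)
theorem L22953 : W_1 (nat_lit 2) (nat_lit 0x80016000b0000000000000000000000000000000) (nat_lit 0x0) (nat_lit 0x2000100000000000000000800000000000000000000000000) := D_1 (nat_lit 176) (nat_lit 107) (nat_lit 193) (nat_lit 4) (nat_lit 6) (nat_lit 10) (nat_lit 4) (nat_lit 6) (nat_lit 11) (by decide +kernel)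
theorem L22954 : W_1 (nat_lit 2) (nat_lit 0x180036800b0003000040000000000000000000000) (nat_lit 0x0) (nat_lit 0x80006000000000000000000) := D_1 (nat_lit 91) (nat_lit 74) (nat_lit 73) (nat_lit 5) (nat_lit 6) (nat_lit 4) (nat_lit 4) (nat_lit 6) (nat_lit 8) (by decide +kernel)
theorem L22955 : W_1 (nat_lit 3) (nat_lit 0x180036800b0003000000000000000000000000000) (nat_lit 0x0) (nat_lit 0x8000c0006000000000000000000) := T_1 (nat_lit 90) (nat_lit 107) (nat_lit 7) (nat_lit 5) (nat_lit 5) L22954 (by decide +kernel)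
theorem L22956 : W_1 (nat_lit 4) (nat_lit 0x180036800b0001000000000000000000000000000) (nat_lit 0x0) (nat_lit 0x28001c0006000000000000000000) := T_1 (nat_lit 109) (nat_lit 92) (nat_lit 6) (nat_lit 6) (nat_lit 9) L22955 (by decide +kernel)
theorem L22957 : W_1 (nat_lit 5) (nat_lit 0x180036000b0001000000000000000000000000000) (nat_lit 0x0) (nat_lit 0x1800000028001c0006000000000000000000) := T_1 (nat_lit 139) (nat_lit 140) (nat_lit 3) (nat_lit 3) (nat_lit 8) L22956 (by decide +kernel)
theorem L22958 : W_1 (nat_lit 6) (nat_lit 0x80036000b0001000000000000000000000000000) (nat_lit 0x0) (nat_lit 0x2000100001800000028001c0006000000000000000000) := T_1 (nat_lit 160) (nat_lit 177) (nat_lit 7) (nat_lit 6) (nat_lit 6) L22957 (by decide +kernel)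
theorem L22959 : W_1 (nat_lit 7) (nat_lit 0x80016000b0001000000000000000000000000000) (nat_lit 0x0) (nat_lit 0x2000100029800000028001c0006000000000000000000) := T_1 (nat_lit 145) (nat_lit 143) (nat_lit 0) (nat_lit 9) (nat_lit 8) L22958 (by decide +kernel)
theorem L22960 : W_1 (nat_lit 2) (nat_lit 0x80036000b0007800000004000000000000000000) (nat_lit 0x0) (nat_lit 0x40000000000000000600000000000000000000000) := D_1 (nat_lit 93) (nat_lit 94) (nat_lit 162) (nat_lit 2) (nat_lit 5) (nat_lit 6) (nat_lit 7) (nat_lit 8) (nat_lit 5) (by decide +kernel)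
theorem L22961 : W_1 (nat_lit 3) (nat_lit 0x80036000b0007000000004000000000000000000) (nat_lit 0x0) (nat_lit 0x40000000000000800640000000000000000000000) := T_1 (nat_lit 107) (nat_lit 90) (nat_lit 7) (nat_lit 5) (nat_lit 5) L22960 (by decide +kernel)
theorem L22962 : W_1 (nat_lit 4) (nat_lit 0x80036000b0003000000004000000000000000000) (nat_lit 0x0) (nat_lit 0x4000000000000c800640000000000000000000000) := T_1 (nat_lit 110) (nat_lit 111) (nat_lit 1) (nat_lit 9) (nat_lit 6) L22961 (by decide +kernel)
theorem L22963 : W_1 (nat_lit 5) (nat_lit 0x80036000b0001000000004000000000000000000) (nat_lit 0x0) (nat_lit 0x4000000000000e800740000000000000000000000) := T_1 (nat_lit 109) (nat_lit 92) (nat_lit 6) (nat_lit 6) (nat_lit 9) L22962 (by decide +kernel)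
theorem L22964 : W_1 (nat_lit 6) (nat_lit 0x80016000b0001000000004000000000000000000) (nat_lit 0x0) (nat_lit 0x4000280000000e800740000000000000000000000) := T_1 (nat_lit 145) (nat_lit 143) (nat_lit 0) (nat_lit 9) (nat_lit 8) L22963 (by decide +kernel)
theorem L22965 : W_1 (nat_lit 7) (nat_lit 0x80016000b0001000000000000000000000000000) (nat_lit 0x0) (nat_lit 0x4000280000000e8007c0004000000000000000000) := T_1 (nat_lit 74) (nat_lit 91) (nat_lit 5) (nat_lit 6) (nat_lit 4) L22964 (by decide +kernel)
theorem L22966 : W_1 (nat_lit 2) (nat_lit 0x80016000b0001800080000000000000000000000) (nat_lit 0x0) (nat_lit 0x200010000800000000000000000000000000000000000) := D_1 (nat_lit 160) (nat_lit 177) (nat_lit 143) (nat_lit 7) (nat_lit 6) (nat_lit 6) (nat_lit 7) (nat_lit 6) (nat_lit 5) (by decide +kernel)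
theorem L22967 : W_1 (nat_lit 3) (nat_lit 0x80016000b0001800000000000000000000000000) (nat_lit 0x0) (nat_lit 0x200010000800000000000080004000000000000000000) := T_1 (nat_lit 91) (nat_lit 74) (nat_lit 5) (nat_lit 6) (nat_lit 4) L22966 (by decide +kernel)
theorem L22968 : W_1 (nat_lit 4) (nat_lit 0x80016000b0001000000000000000000000000000) (nat_lit 0x0) (nat_lit 0x2000100008000000008000c0004000000000000000000) := T_1 (nat_lit 107) (nat_lit 90) (nat_lit 7) (nat_lit 5) (nat_lit 5) L22967 (by decide +kernel)
theorem L22969 : W_1 (nat_lit 2) (nat_lit 0x180016800b0001000040000000000000000000000) (nat_lit 0x0) (nat_lit 0x80006000000000000000000) := D_1 (nat_lit 91) (nat_lit 73) (nat_lit 74) (nat_lit 4) (nat_lit 6) (nat_lit 8) (nat_lit 5) (nat_lit 6) (nat_lit 4) (by decide +kernel)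
theorem L22970 : W_1 (nat_lit 3) (nat_lit 0x180016800b0001000000000000000000000000000) (nat_lit 0x0) (nat_lit 0x8000c0006000000000000000000) := T_1 (nat_lit 90) (nat_lit 107) (nat_lit 7) (nat_lit 5) (nat_lit 5) L22969 (by decide +kernel)
theorem L22971 : W_1 (nat_lit 4) (nat_lit 0x180016000b0001000000000000000000000000000) (nat_lit 0x0) (nat_lit 0x1800000008000c0006000000000000000000) := T_1 (nat_lit 139) (nat_lit 140) (nat_lit 3) (nat_lit 3) (nat_lit 8) L22970 (by decide +kernel)
theorem L22972 : W_1 (nat_lit 5) (nat_lit 0x80016000b0001000000000000000000000000000) (nat_lit 0x0) (nat_lit 0x2000100001800000008000c0006000000000000000000) := T_1 (nat_lit 160) (nat_lit 177) (nat_lit 7) (nat_lit 6) (nat_lit 6) L22971 (by decide +kernel)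
theorem L22973 : W_1 (nat_lit 2) (nat_lit 0x18001e800b0003800000000000000000000000000) (nat_lit 0x0) (nat_lit 0xc000200000000000000000000000) := D_1 (nat_lit 110) (nat_lit 111) (nat_lit 93) (nat_lit 1) (nat_lit 9) (nat_lit 6) (nat_lit 5) (nat_lit 8) (nat_lit 5) (by decide +kernel)
theorem L22974 : W_1 (nat_lit 3) (nat_lit 0x18001e800b0001800000000000000000000000000) (nat_lit 0x0) (nat_lit 0xe000300000000000000000000000) := T_1 (nat_lit 109) (nat_lit 92) (nat_lit 6) (nat_lit 6) (nat_lit 9) L22973 (by decide +kernel)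
theorem L22975 : W_1 (nat_lit 4) (nat_lit 0x180016800b0001800000000000000000000000000) (nat_lit 0x0) (nat_lit 0x280000000e000300000000000000000000000) := T_1 (nat_lit 143) (nat_lit 145) (nat_lit 0) (nat_lit 9) (nat_lit 8) L22974 (by decide +kernel)
theorem L22976 : W_1 (nat_lit 5) (nat_lit 0x180016000b0001800000000000000000000000000) (nat_lit 0x0) (nat_lit 0x298000000e000300000000000000000000000) := T_1 (nat_lit 139) (nat_lit 140) (nat_lit 3) (nat_lit 3) (nat_lit 8) L22975 (by decide +kernel)
theorem L22977 : W_1 (nat_lit 6) (nat_lit 0x80016000b0001800000000000000000000000000) (nat_lit 0x0) (nat_lit 0x20001000298000000e000300000000000000000000000) := T_1 (nat_lit 160) (nat_lit 177) (nat_lit 7) (nat_lit 6) (nat_lit 6) L22976 (by decide +kernel)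
theorem L22978 : W_1 (nat_lit 7) (nat_lit 0x80016000b0001000000000000000000000000000) (nat_lit 0x0) (nat_lit 0x20001000298000000e800340000000000000000000000) := T_1 (nat_lit 107) (nat_lit 90) (nat_lit 7) (nat_lit 5) (nat_lit 5) L22977 (by decide +kernel)
theorem L22979 : W_1 (nat_lit 2) (nat_lit 0x80036000b0001000080000000000000000000000) (nat_lit 0x0) (nat_lit 0x2000100008000000000000000000) := D_1 (nat_lit 92) (nat_lit 109) (nat_lit 75) (nat_lit 6) (nat_lit 6) (nat_lit 9) (nat_lit 6) (nat_lit 6) (nat_lit 8) (by decide +kernel)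
theorem L22980 : W_1 (nat_lit 3) (nat_lit 0x80036000b0001000000000000000000000000000) (nat_lit 0x0) (nat_lit 0x200018000c000000000000000000) := T_1 (nat_lit 91) (nat_lit 74) (nat_lit 5) (nat_lit 6) (nat_lit 4) L22979 (by decide +kernel)
theorem L22981 : W_1 (nat_lit 4) (nat_lit 0x80016000b0001000000000000000000000000000) (nat_lit 0x0) (nat_lit 0x280000000200018000c000000000000000000) := T_1 (nat_lit 145) (nat_lit 143) (nat_lit 0) (nat_lit 9) (nat_lit 8) L22980 (by decide +kernel)
theorem L22982 : W_1 (nat_lit 8) (nat_lit 0x80016000b0000000000000000000000000000000) (nat_lit 0x0) (nat_lit 0x20005000298000000f8007c000e000000000000000000) := Q_1 (nat_lit 108) (C_1 L22959 (C_1 L22965 (C_1 L22968 (C_1 L22972 (C_1 L22978 (C_1 L22981 N_1)))))) (by decide +kernel)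
theorem L22983 : W_1 (nat_lit 2) (nat_lit 0x3000080036000b0001000100000000000000000000000) (nat_lit 0x0) (nat_lit 0x8000c000000000000000000) := D_1 (nat_lit 91) (nat_lit 74) (nat_lit 75) (nat_lit 5) (nat_lit 6) (nat_lit 4) (nat_lit 6) (nat_lit 6) (nat_lit 8) (by decide +kernel)
theorem L22984 : W_1 (nat_lit 3) (nat_lit 0x3000080036000b0001000000000000000000000000000) (nat_lit 0x0) (nat_lit 0x200018000c000000000000000000) := T_1 (nat_lit 92) (nat_lit 109) (nat_lit 6) (nat_lit 6) (nat_lit 9) L22983 (by decide +kernel)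
theorem L22985 : W_1 (nat_lit 4) (nat_lit 0x3000080036000b0000000000000000000000000000000) (nat_lit 0x0) (nat_lit 0x1000000000000300018000c000000000000000000) := T_1 (nat_lit 108) (nat_lit 160) (nat_lit 7) (nat_lit 6) (nat_lit 6) L22984 (by decide +kernel)
theorem L22986 : W_1 (nat_lit 5) (nat_lit 0x1000080036000b0000000000000000000000000000000) (nat_lit 0x0) (nat_lit 0x400020001000000000000300018000c000000000000000000) := T_1 (nat_lit 177) (nat_lit 194) (nat_lit 7) (nat_lit 6) (nat_lit 7) L22985 (by decide +kernel)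
theorem L22987 : W_1 (nat_lit 6) (nat_lit 0x1000080016000b0000000000000000000000000000000) (nat_lit 0x0) (nat_lit 0x400020001000280000000300018000c000000000000000000) := T_1 (nat_lit 145) (nat_lit 143) (nat_lit 0) (nat_lit 9) (nat_lit 8) L22986 (by decide +kernel)
theorem L22988 : W_1 (nat_lit 7) (nat_lit 0x80016000b0000000000000000000000000000000) (nat_lit 0x0) (nat_lit 0x600030001000280000000300018000c000000000000000000) := T_1 (nat_lit 176) (nat_lit 193) (nat_lit 4) (nat_lit 6) (nat_lit 11) L22987 (by decide +kernel)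
theorem L22989 : W_1 (nat_lit 9) (nat_lit 0x16000b0000000000000000000000000000000) (nat_lit 0x0) (nat_lit 0x600030005800298000000f8007c000e000000000000000000) := Q_1 (nat_lit 159) (C_1 L22953 (C_1 L22982 (C_1 L22988 N_1))) (by decide +kernel)
theorem L22990 : W_1 (nat_lit 9) (nat_lit 0x16000b0000000000000000000000000000000) (nat_lit 0x0) (nat_lit 0x38001c000e002800000000c00060003000000000000000000) := T_1 (nat_lit 143) (nat_lit 145) (nat_lit 0) (nat_lit 9) (nat_lit 8) L22560 (by decide +kernel)
theorem L22991 : W_1 (nat_lit 10) (nat_lit 0x12000b0000000000000000000000000000000) (nat_lit 0x0) (nat_lit 0x78003c005f802dc000000fc007e000f000000000000000000) := Q_1 (nat_lit 142) (C_1 L22951 (C_1 L22952 (C_1 L22989 (C_1 L22990 N_1)))) (by decide +kernel)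
theorem L22992 : W_1 (nat_lit 2) (nat_lit 0x12000b0000800000000000000000000000000) (nat_lit 0x0) (nat_lit 0x2000040000400000000000000000000000000) := D_1 (nat_lit 126) (nat_lit 145) (nat_lit 106) (nat_lit 3) (nat_lit 5) (nat_lit 7) (nat_lit 0) (nat_lit 8) (nat_lit 7) (by decide +kernel)
theorem L22993 : W_1 (nat_lit 2) (nat_lit 0x36000b0000800000000000000000000000000) (nat_lit 0x0) (nat_lit 0x100008000000000000000040000000000000000000000) := D_1 (nat_lit 159) (nat_lit 176) (nat_lit 90) (nat_lit 4) (nat_lit 6) (nat_lit 10) (nat_lit 7) (nat_lit 5) (nat_lit 5) (by decide +kernel)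
theorem L22994 : W_1 (nat_lit 3) (nat_lit 0x32000b0000800000000000000000000000000) (nat_lit 0x0) (nat_lit 0x100008000c00000000000040000000000000000000000) := T_1 (nat_lit 142) (nat_lit 143) (nat_lit 0) (nat_lit 9) (nat_lit 8) L22993 (by decide +kernel)
theorem L22995 : W_1 (nat_lit 4) (nat_lit 0x12000b0000800000000000000000000000000) (nat_lit 0x0) (nat_lit 0x100008002c00040000000040000000000000000000000) := T_1 (nat_lit 145) (nat_lit 126) (nat_lit 3) (nat_lit 5) (nat_lit 7) L22994 (by decide +kernel)
theorem L22996 : W_1 (nat_lit 6) (nat_lit 0x12000b0000000000000000000000000000000) (nat_lit 0x0) (nat_lit 0x10000c002c00040001c000e0007000200000000000000) := Q_1 (nat_lit 107) (C_1 L22992 (C_1 L22941 (C_1 L22995 N_1))) (by decide +kernel)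
theorem L22997 : W_1 (nat_lit 11) (nat_lit 0x10000b0000000000000000000000000000000) (nat_lit 0x0) (nat_lit 0x78003c005f802fc004000fc007e000f000200000000000000) := Q_1 (nat_lit 141) (C_1 L22946 (C_1 L22947 (C_1 L22991 (C_1 L22996 N_1)))) (by decide +kernel)
theorem L22998 : W_1 (nat_lit 12) (nat_lit 0x10000a0000000000000000000000000000000) (nat_lit 0x0) (nat_lit 0xa00078003c005f802fc005e01ff00ff803f000f00000000000000) := Q_1 (nat_lit 124) (C_1 L22542 (C_1 L22780 (C_1 L22781 (C_1 L22931 (C_1 L22932 (C_1 L22997 N_1)))))) (by decide +kernel)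
theorem L22999 : W_1 (nat_lit 11) (nat_lit 0x10000e0000000000000000000000000000000) (nat_lit 0x0) (nat_lit 0x10000800040006e0030001f800f8007c000000000000000000) := Q_1 (nat_lit 128) (C_1 L22519 (C_1 L22539 (C_1 L22526 (C_1 L22535 N_1)))) (by decide +kernel)
theorem L23000 : W_1 (nat_lit 12) (nat_lit 0x10000a0000000000000000000000000000000) (nat_lit 0x0) (nat_lit 0x10000800040006f8035e01fc00f8007c000000000000000000) := Q_1 (nat_lit 126) (C_1 L22999 (C_1 L22537 (C_1 L22480 (C_1 L22485 (C_1 L22495 (C_1 L22471 N_1)))))) (by decide +kernel)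
theorem L23001 : W_1 (nat_lit 2) (nat_lit 0x1c001e0009000000020000000000000000000) (nat_lit 0x0) (nat_lit 0x200010000000000000000080000000000000000000000) := D_1 (nat_lit 160) (nat_lit 177) (nat_lit 91) (nat_lit 4) (nat_lit 7) (nat_lit 10) (nat_lit 7) (nat_lit 6) (nat_lit 5) (by decide +kernel)
theorem L23002 : W_1 (nat_lit 3) (nat_lit 0x14001e0009000000020000000000000000000) (nat_lit 0x0) (nat_lit 0x200010000800200000000080000000000000000000000) := T_1 (nat_lit 143) (nat_lit 129) (nat_lit 1) (nat_lit 10) (nat_lit 7) L23001 (by decide +kernel)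
theorem L23003 : W_1 (nat_lit 4) (nat_lit 0x14001e0009000000000000000000000000000) (nat_lit 0x0) (nat_lit 0x200010000800200000000480020000000000000000000) := T_1 (nat_lit 77) (nat_lit 94) (nat_lit 5) (nat_lit 9) (nat_lit 4) L23002 (by decide +kernel)
theorem L23004 : W_1 (nat_lit 5) (nat_lit 0x10001e0009000000000000000000000000000) (nat_lit 0x0) (nat_lit 0x200010000e00200000000480020000000000000000000) := T_1 (nat_lit 142) (nat_lit 141) (nat_lit 1) (nat_lit 9) (nat_lit 7) L23003 (by decide +kernel)
theorem L23005 : W_1 (nat_lit 6) (nat_lit 0x10001e0001000000000000000000000000000) (nat_lit 0x0) (nat_lit 0x200010000e00200018000480020000000000000000000) := T_1 (nat_lit 111) (nat_lit 112) (nat_lit 2) (nat_lit 6) (nat_lit 7) L23004 (by decide +kernel)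
theorem L23006 : W_1 (nat_lit 7) (nat_lit 0x10001e0000000000000000000000000000000) (nat_lit 0x0) (nat_lit 0x200010000e00200019800480020000000000000000000) := T_1 (nat_lit 108) (nat_lit 107) (nat_lit 0) (nat_lit 9) (nat_lit 7) L23005 (by decide +kernel)
theorem L23007 : W_1 (nat_lit 2) (nat_lit 0x1c001e0001000000000000000000000000000) (nat_lit 0x0) (nat_lit 0x10000000000000000080004000000000000000000) := D_1 (nat_lit 91) (nat_lit 160) (nat_lit 74) (nat_lit 7) (nat_lit 6) (nat_lit 5) (nat_lit 7) (nat_lit 6) (nat_lit 4) (by decide +kernel)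
theorem L23008 : W_1 (nat_lit 3) (nat_lit 0x14001e0001000000000000000000000000000) (nat_lit 0x0) (nat_lit 0x10000800200000000080004000000000000000000) := T_1 (nat_lit 143) (nat_lit 129) (nat_lit 1) (nat_lit 10) (nat_lit 7) L23007 (by decide +kernel)
theorem L23009 : W_1 (nat_lit 4) (nat_lit 0x14001e0000000000000000000000000000000) (nat_lit 0x0) (nat_lit 0x10000800200001800080004000000000000000000) := T_1 (nat_lit 108) (nat_lit 107) (nat_lit 0) (nat_lit 9) (nat_lit 7) L23008 (by decide +kernel)
theorem L23010 : W_1 (nat_lit 5) (nat_lit 0x10001e0000000000000000000000000000000) (nat_lit 0x0) (nat_lit 0x10000e00200001800080004000000000000000000) := T_1 (nat_lit 142) (nat_lit 141) (nat_lit 1) (nat_lit 9) (nat_lit 7) L23009 (by decide +kernel)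
theorem L23011 : W_1 (nat_lit 2) (nat_lit 0x30001e000d000780000000000000000000000) (nat_lit 0x0) (nat_lit 0x800000000000000006000000000000000000) := D_1 (nat_lit 74) (nat_lit 73) (nat_lit 143) (nat_lit 0) (nat_lit 9) (nat_lit 5) (nat_lit 7) (nat_lit 6) (nat_lit 4) (by decide +kernel)
theorem L23012 : W_1 (nat_lit 3) (nat_lit 0x30001e000d000700000000000000000000000) (nat_lit 0x0) (nat_lit 0x8000000000000c0006000000000000000000) := T_1 (nat_lit 91) (nat_lit 90) (nat_lit 3) (nat_lit 5) (nat_lit 5) L23011 (by decide +kernel)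
theorem L23013 : W_1 (nat_lit 4) (nat_lit 0x30001e000d000600000000000000000000000) (nat_lit 0x0) (nat_lit 0x8000000000001c000e000000000000000000) := T_1 (nat_lit 92) (nat_lit 75) (nat_lit 4) (nat_lit 8) (nat_lit 8) L23012 (by decide +kernel)
theorem L23014 : W_1 (nat_lit 5) (nat_lit 0x30001e0009000600000000000000000000000) (nat_lit 0x0) (nat_lit 0x400008000000040001c000e000000000000000000) := T_1 (nat_lit 110) (nat_lit 162) (nat_lit 7) (nat_lit 8) (nat_lit 5) L23013 (by decide +kernel)
theorem L23015 : W_1 (nat_lit 6) (nat_lit 0x30001e0009000400000000000000000000000) (nat_lit 0x0) (nat_lit 0x400008000000040003c001e000000000000000000) := T_1 (nat_lit 93) (nat_lit 76) (nat_lit 4) (nat_lit 9) (nat_lit 8) L23014 (by decide +kernel)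
theorem L23016 : W_1 (nat_lit 7) (nat_lit 0x10001e0009000400000000000000000000000) (nat_lit 0x0) (nat_lit 0x400068000000040003c001e000000000000000000) := T_1 (nat_lit 145) (nat_lit 146) (nat_lit 3) (nat_lit 6) (nat_lit 7) L23015 (by decide +kernel)
theorem L23017 : W_1 (nat_lit 8) (nat_lit 0x10001e0009000000000000000000000000000) (nat_lit 0x0) (nat_lit 0x400068000000040007c003e000000000000000000) := T_1 (nat_lit 94) (nat_lit 77) (nat_lit 5) (nat_lit 9) (nat_lit 4) L23016 (by decide +kernel)
theorem L23018 : W_1 (nat_lit 9) (nat_lit 0x10001e0008000000000000000000000000000) (nat_lit 0x0) (nat_lit 0x400068000000058007c003e000000000000000000) := T_1 (nat_lit 108) (nat_lit 107) (nat_lit 0) (nat_lit 9) (nat_lit 7) L23017 (by decide +kernel)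
theorem L23019 : W_1 (nat_lit 10) (nat_lit 0x10001e0000000000000000000000000000000) (nat_lit 0x0) (nat_lit 0x4000680000001d8007c003e000000000000000000) := T_1 (nat_lit 111) (nat_lit 112) (nat_lit 2) (nat_lit 6) (nat_lit 7) L23018 (by decide +kernel)
theorem L23020 : W_1 (nat_lit 11) (nat_lit 0x10000e0000000000000000000000000000000) (nat_lit 0x0) (nat_lit 0x10000a00050006e0030001d8007c003e000000000000000000) := Q_1 (nat_lit 128) (C_1 L23006 (C_1 L22539 (C_1 L23010 (C_1 L23019 N_1)))) (by decide +kernel)
theorem L23021 : W_1 (nat_lit 2) (nat_lit 0x18001f0004800000000000000000000000000) (nat_lit 0x0) (nat_lit 0x10000000000000000200010000000000000000000) := D_1 (nat_lit 93) (nat_lit 76) (nat_lit 160) (nat_lit 5) (nat_lit 8) (nat_lit 4) (nat_lit 5) (nat_lit 8) (nat_lit 5) (by decide +kernel)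
theorem L23022 : W_1 (nat_lit 3) (nat_lit 0x10001f0004800000000000000000000000000) (nat_lit 0x0) (nat_lit 0x10000800008000000200010000000000000000000) := T_1 (nat_lit 143) (nat_lit 123) (nat_lit 3) (nat_lit 4) (nat_lit 7) L23021 (by decide +kernel)
theorem L23023 : W_1 (nat_lit 4) (nat_lit 0x10000f0004800000000000000000000000000) (nat_lit 0x0) (nat_lit 0x10000800108001000200010000000000000000000) := T_1 (nat_lit 128) (nat_lit 108) (nat_lit 0) (nat_lit 9) (nat_lit 7) L23022 (by decide +kernel)
theorem L23024 : W_1 (nat_lit 5) (nat_lit 0x10000f0000800000000000000000000000000) (nat_lit 0x0) (nat_lit 0x1000080010800d000200010000000000000000000) := T_1 (nat_lit 110) (nat_lit 111) (nat_lit 2) (nat_lit 5) (nat_lit 7) L23023 (by decide +kernel)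
theorem L23025 : W_1 (nat_lit 6) (nat_lit 0x10000f0000000000000000000000000000000) (nat_lit 0x0) (nat_lit 0x1000080010800dc00200010000000000000000000) := T_1 (nat_lit 107) (nat_lit 106) (nat_lit 0) (nat_lit 8) (nat_lit 7) L23024 (by decide +kernel)
theorem L23026 : W_1 (nat_lit 7) (nat_lit 0x10000e0000000000000000000000000000000) (nat_lit 0x0) (nat_lit 0x10000f8011800dc00200010000000000000000000) := Q_1 (nat_lit 124) (C_1 L22466 (C_1 L22484 (C_1 L23025 N_1))) (by decide +kernel)
theorem L23027 : W_1 (nat_lit 7) (nat_lit 0x10000e0000000000000000000000000000000) (nat_lit 0x0) (nat_lit 0x1000280011800dc00200010000000000000000000) := T_1 (nat_lit 124) (nat_lit 145) (nat_lit 3) (nat_lit 5) (nat_lit 7) L23025 (by decide +kernel)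
theorem L23028 : W_1 (nat_lit 12) (nat_lit 0x10000a0000000000000000000000000000000) (nat_lit 0x0) (nat_lit 0x10000a00050006f8035801dc007c003e000000000000000000) := Q_1 (nat_lit 126) (C_1 L23020 (C_1 L22485 (C_1 L22467 (C_1 L23026 (C_1 L23027 N_1))))) (by decide +kernel)
theorem L23029 : W_1 (nat_lit 2) (nat_lit 0x18003c000a0000000000000000000000000000000) (nat_lit 0x0) (nat_lit 0x4000200000000000000001000000000000000000000000000) := D_1 (nat_lit 177) (nat_lit 194) (nat_lit 108) (nat_lit 6) (nat_lit 7) (nat_lit 11) (nat_lit 7) (nat_lit 6) (nat_lit 6) (by decide +kernel)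
theorem L23030 : W_1 (nat_lit 3) (nat_lit 0x8003c000a0000000000000000000000000000000) (nat_lit 0x0) (nat_lit 0x4000200010004000000001000000000000000000000000000) := T_1 (nat_lit 160) (nat_lit 146) (nat_lit 1) (nat_lit 10) (nat_lit 8) L23029 (by decide +kernel)
theorem L23031 : W_1 (nat_lit 4) (nat_lit 0x8001c000a0000000000000000000000000000000) (nat_lit 0x0) (nat_lit 0x4000200014006000000001000000000000000000000000000) := T_1 (nat_lit 145) (nat_lit 158) (nat_lit 1) (nat_lit 9) (nat_lit 8) L23030 (by decide +kernel)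
theorem L23032 : W_1 (nat_lit 2) (nat_lit 0xc001c000a0000000000000000000000000000000) (nat_lit 0x0) (nat_lit 0x3000200000000000000000000000000000000000) := D_1 (nat_lit 157) (nat_lit 141) (nat_lit 156) (nat_lit 1) (nat_lit 8) (nat_lit 8) (nat_lit 2) (nat_lit 3) (nat_lit 9) (by decide +kernel)
theorem L23033 : W_1 (nat_lit 3) (nat_lit 0x8001c000a0000000000000000000000000000000) (nat_lit 0x0) (nat_lit 0x7002200000000000000000000000000000000000) := T_1 (nat_lit 158) (nat_lit 145) (nat_lit 1) (nat_lit 9) (nat_lit 8) L23032 (by decide +kernel)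
theorem L23042 : W_1 (nat_lit 2) (nat_lit 0x2000100018001c000a0000000000000000000000000000000) (nat_lit 0x0) (nat_lit 0x80004000200000000000000000000000000000000000000000000) := D_1 (nat_lit 194) (nat_lit 177) (nat_lit 211) (nat_lit 7) (nat_lit 6) (nat_lit 7) (nat_lit 7) (nat_lit 6) (nat_lit 8) (by decide +kernel)
theorem L23043 : W_1 (nat_lit 3) (nat_lit 0x100018001c000a0000000000000000000000000000000) (nat_lit 0x0) (nat_lit 0xc0006000200000000000000000000000000000000000000000000) := T_1 (nat_lit 193) (nat_lit 210) (nat_lit 6) (nat_lit 6) (nat_lit 12) L23042 (by decide +kernel)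
theorem L23054 : W_1 (nat_lit 2) (nat_lit 0x100008001c000a0001000000000000000000000000000) (nat_lit 0x0) (nat_lit 0x4000200010000000000000000000000000000000000000000) := D_1 (nat_lit 177) (nat_lit 160) (nat_lit 194) (nat_lit 7) (nat_lit 6) (nat_lit 6) (nat_lit 7) (nat_lit 6) (nat_lit 7) (by decide +kernel)
theorem L23055 : W_1 (nat_lit 2) (nat_lit 0x40003000100008001c000a0003800000000000000000000000000) (nat_lit 0x0) (nat_lit 0x1000080004000000000000000000000000000000000000000000000000) := D_1 (nat_lit 211) (nat_lit 194) (nat_lit 228) (nat_lit 7) (nat_lit 6) (nat_lit 8) (nat_lit 7) (nat_lit 6) (nat_lit 9) (by decide +kernel)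
theorem L23056 : W_1 (nat_lit 3) (nat_lit 0x3000100008001c000a0003800000000000000000000000000) (nat_lit 0x0) (nat_lit 0x10000c0004000000010000000000000000000000000000000000000000) := T_1 (nat_lit 210) (nat_lit 160) (nat_lit 6) (nat_lit 6) (nat_lit 12) L23055 (by decide +kernel)
theorem L23057 : W_1 (nat_lit 4) (nat_lit 0x1000100008001c000a0003800000000000000000000000000) (nat_lit 0x0) (nat_lit 0x10000e0006000000010000000000000000000000000000000000000000) := T_1 (nat_lit 193) (nat_lit 209) (nat_lit 5) (nat_lit 6) (nat_lit 8) L23056 (by decide +kernel)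
theorem L23058 : W_1 (nat_lit 5) (nat_lit 0x1000100008001c000a0001800000000000000000000000000) (nat_lit 0x0) (nat_lit 0x10000e0006000000010000000000002000100000000000000000000000) := T_1 (nat_lit 109) (nat_lit 92) (nat_lit 6) (nat_lit 6) (nat_lit 9) L23057 (by decide +kernel)
theorem L23059 : W_1 (nat_lit 6) (nat_lit 0x100008001c000a0001800000000000000000000000000) (nat_lit 0x0) (nat_lit 0x10000e0007000080010000000000002000100000000000000000000000) := T_1 (nat_lit 192) (nat_lit 175) (nat_lit 5) (nat_lit 6) (nat_lit 7) L23058 (by decide +kernel)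
theorem L23060 : W_1 (nat_lit 7) (nat_lit 0x100008001c000a0001000000000000000000000000000) (nat_lit 0x0) (nat_lit 0x10000e0007000080010000000000002800140000000000000000000000) := T_1 (nat_lit 107) (nat_lit 90) (nat_lit 4) (nat_lit 6) (nat_lit 9) L23059 (by decide +kernel)
theorem L23061 : W_1 (nat_lit 2) (nat_lit 0x5000100008001c000a0001000000000000000000000000000) (nat_lit 0x0) (nat_lit 0xa0002000000000000000000000000000000000000000000000000) := D_1 (nat_lit 193) (nat_lit 209) (nat_lit 211) (nat_lit 5) (nat_lit 6) (nat_lit 8) (nat_lit 7) (nat_lit 6) (nat_lit 8) (by decide +kernel)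
theorem L23062 : W_1 (nat_lit 3) (nat_lit 0x1000100008001c000a0001000000000000000000000000000) (nat_lit 0x0) (nat_lit 0xa0006000200000000000000000000000000000000000000000000) := T_1 (nat_lit 194) (nat_lit 177) (nat_lit 7) (nat_lit 6) (nat_lit 7) L23061 (by decide +kernel)
theorem L23063 : W_1 (nat_lit 4) (nat_lit 0x100008001c000a0001000000000000000000000000000) (nat_lit 0x0) (nat_lit 0xa0007000280000000000000000000000000000000000000000000) := T_1 (nat_lit 192) (nat_lit 175) (nat_lit 5) (nat_lit 6) (nat_lit 7) L23062 (by decide +kernel)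
theorem L23064 : W_1 (nat_lit 2) (nat_lit 0x1000100018001c000a0001000000000000000000000000000) (nat_lit 0x0) (nat_lit 0x60002000000000000000000000000000000000000000000000000) := D_1 (nat_lit 193) (nat_lit 210) (nat_lit 209) (nat_lit 6) (nat_lit 6) (nat_lit 12) (nat_lit 5) (nat_lit 6) (nat_lit 8) (by decide +kernel)
theorem L23065 : W_1 (nat_lit 3) (nat_lit 0x1000100008001c000a0001000000000000000000000000000) (nat_lit 0x0) (nat_lit 0x60002000200010000000000000000000000000000000000000000) := T_1 (nat_lit 160) (nat_lit 177) (nat_lit 7) (nat_lit 6) (nat_lit 6) L23064 (by decide +kernel)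
theorem L23066 : W_1 (nat_lit 4) (nat_lit 0x100008001c000a0001000000000000000000000000000) (nat_lit 0x0) (nat_lit 0x60003000280010000000000000000000000000000000000000000) := T_1 (nat_lit 192) (nat_lit 175) (nat_lit 5) (nat_lit 6) (nat_lit 7) L23065 (by decide +kernel)
theorem L23067 : W_1 (nat_lit 8) (nat_lit 0x8001c000a0001000000000000000000000000000) (nat_lit 0x0) (nat_lit 0x10000e0007000380010000000000002800140000000000000000000000) := Q_1 (nat_lit 176) (C_1 L23054 (C_1 L23060 (C_1 L23063 (C_1 L23066 N_1)))) (by decide +kernel)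
theorem L23068 : W_1 (nat_lit 2) (nat_lit 0x8001c000a0001000000000000000000000000000) (nat_lit 0x0) (nat_lit 0x200010000000000000000080000000000000000000000) := D_1 (nat_lit 160) (nat_lit 177) (nat_lit 91) (nat_lit 7) (nat_lit 6) (nat_lit 6) (nat_lit 7) (nat_lit 6) (nat_lit 5) (by decide +kernel)
theorem L23069 : W_1 (nat_lit 2) (nat_lit 0x8001c000a0001800080000000000000000000000) (nat_lit 0x0) (nat_lit 0x2000100008000000000000000000) := D_1 (nat_lit 92) (nat_lit 75) (nat_lit 109) (nat_lit 6) (nat_lit 6) (nat_lit 8) (nat_lit 6) (nat_lit 6) (nat_lit 9) (by decide +kernel)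
theorem L23070 : W_1 (nat_lit 3) (nat_lit 0x8001c000a0001800000000000000000000000000) (nat_lit 0x0) (nat_lit 0x10000000000002000180008000000000000000000) := T_1 (nat_lit 91) (nat_lit 160) (nat_lit 7) (nat_lit 6) (nat_lit 5) L23069 (by decide +kernel)
theorem L23071 : W_1 (nat_lit 4) (nat_lit 0x8001c000a0001000000000000000000000000000) (nat_lit 0x0) (nat_lit 0x100000000000028001c0008000000000000000000) := T_1 (nat_lit 107) (nat_lit 90) (nat_lit 4) (nat_lit 6) (nat_lit 9) L23070 (by decide +kernel)
theorem L23072 : W_1 (nat_lit 2) (nat_lit 0x8001c000a0001000140000000000000000000000) (nat_lit 0x0) (nat_lit 0x8000a000000000000000000) := D_1 (nat_lit 91) (nat_lit 75) (nat_lit 73) (nat_lit 6) (nat_lit 6) (nat_lit 8) (nat_lit 4) (nat_lit 6) (nat_lit 8) (by decide +kernel)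
theorem L23073 : W_1 (nat_lit 3) (nat_lit 0x8001c000a0001000100000000000000000000000) (nat_lit 0x0) (nat_lit 0x8000c000a000000000000000000) := T_1 (nat_lit 90) (nat_lit 107) (nat_lit 4) (nat_lit 6) (nat_lit 9) L23072 (by decide +kernel)
theorem L23074 : W_1 (nat_lit 4) (nat_lit 0x8001c000a0001000000000000000000000000000) (nat_lit 0x0) (nat_lit 0x28001c000a000000000000000000) := T_1 (nat_lit 92) (nat_lit 109) (nat_lit 6) (nat_lit 6) (nat_lit 9) L23073 (by decide +kernel)
theorem L23075 : W_1 (nat_lit 9) (nat_lit 0x8001c000a0000000000000000000000000000000) (nat_lit 0x0) (nat_lit 0x10000e00070003800100000000000038001c000a000000000000000000) := Q_1 (nat_lit 108) (C_1 L23067 (C_1 L23068 (C_1 L23071 (C_1 L23074 N_1)))) (by decide +kernel)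
theorem L23076 : W_1 (nat_lit 10) (nat_lit 0x1c000a0000000000000000000000000000000) (nat_lit 0x0) (nat_lit 0x10000e000700038001f0062000000038001c000a000000000000000000) := Q_1 (nat_lit 159) (C_1 L23031 (C_1 L23033 (C_1 L23075 N_1))) (by decide +kernel)
theorem L23077 : W_1 (nat_lit 2) (nat_lit 0x4001e000a0001000000000000000000000000000) (nat_lit 0x0) (nat_lit 0x1000080008000000000000000000000000000000000000000) := D_1 (nat_lit 175) (nat_lit 192) (nat_lit 159) (nat_lit 6) (nat_lit 5) (nat_lit 11) (nat_lit 5) (nat_lit 6) (nat_lit 6) (by decide +kernel)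
theorem L23078 : W_1 (nat_lit 3) (nat_lit 0x4001e000a0000000000000000000000000000000) (nat_lit 0x0) (nat_lit 0x1000080008000000000001000080000000000000000000000) := T_1 (nat_lit 108) (nat_lit 91) (nat_lit 5) (nat_lit 6) (nat_lit 5) L23077 (by decide +kernel)
theorem L23079 : W_1 (nat_lit 4) (nat_lit 0x1e000a0000000000000000000000000000000) (nat_lit 0x0) (nat_lit 0x100008000e000000000001000080000000000000000000000) := T_1 (nat_lit 158) (nat_lit 157) (nat_lit 1) (nat_lit 8) (nat_lit 8) L23078 (by decide +kernel)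
theorem L23080 : W_1 (nat_lit 5) (nat_lit 0x1c000a0000000000000000000000000000000) (nat_lit 0x0) (nat_lit 0x100008000e000200100001000080000000000000000000000) := T_1 (nat_lit 141) (nat_lit 128) (nat_lit 2) (nat_lit 5) (nat_lit 8) L23079 (by decide +kernel)
theorem L23081 : W_1 (nat_lit 2) (nat_lit 0x40003c001a0000000000000000000000000000000) (nat_lit 0x0) (nat_lit 0x10000800000000000000004000000000000000000000000000) := D_1 (nat_lit 179) (nat_lit 110) (nat_lit 196) (nat_lit 4) (nat_lit 9) (nat_lit 10) (nat_lit 4) (nat_lit 9) (nat_lit 11) (by decide +kernel)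
theorem L23082 : W_1 (nat_lit 3) (nat_lit 0x3c001a0000000000000000000000000000000) (nat_lit 0x0) (nat_lit 0x100008000c0000000000004000000000000000000000000000) := T_1 (nat_lit 162) (nat_lit 163) (nat_lit 3) (nat_lit 6) (nat_lit 8) L23081 (by decide +kernel)
theorem L23083 : W_1 (nat_lit 4) (nat_lit 0x1c001a0000000000000000000000000000000) (nat_lit 0x0) (nat_lit 0x100008000c0002000200004000000000000000000000000000) := T_1 (nat_lit 145) (nat_lit 129) (nat_lit 2) (nat_lit 6) (nat_lit 8) L23082 (by decide +kernel)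
theorem L23084 : W_1 (nat_lit 5) (nat_lit 0x1c000a0000000000000000000000000000000) (nat_lit 0x0) (nat_lit 0x100008000c0002200300004000000000000000000000000000) := T_1 (nat_lit 128) (nat_lit 141) (nat_lit 2) (nat_lit 5) (nat_lit 8) L23083 (by decide +kernel)
theorem L23085 : W_1 (nat_lit 3) (nat_lit 0x40003c000a0000000000000000000000000000000) (nat_lit 0x0) (nat_lit 0x10000800000000000300004000000000000000000000000000) := T_1 (nat_lit 128) (nat_lit 129) (nat_lit 2) (nat_lit 6) (nat_lit 8) L23081 (by decide +kernel)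
theorem L23086 : W_1 (nat_lit 4) (nat_lit 0x3c000a0000000000000000000000000000000) (nat_lit 0x0) (nat_lit 0x100008000c0000000300004000000000000000000000000000) := T_1 (nat_lit 162) (nat_lit 163) (nat_lit 3) (nat_lit 6) (nat_lit 8) L23085 (by decide +kernel)
theorem L23087 : W_1 (nat_lit 2) (nat_lit 0x18003c001a0000000000000000000000000000000) (nat_lit 0x0) (nat_lit 0x4000200000000000000001000000000000000000000000000) := D_1 (nat_lit 177) (nat_lit 194) (nat_lit 108) (nat_lit 6) (nat_lit 7) (nat_lit 11) (nat_lit 7) (nat_lit 6) (nat_lit 6) (by decide +kernel)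
theorem L23088 : W_1 (nat_lit 3) (nat_lit 0x8003c001a0000000000000000000000000000000) (nat_lit 0x0) (nat_lit 0x4000200010004000000001000000000000000000000000000) := T_1 (nat_lit 160) (nat_lit 146) (nat_lit 1) (nat_lit 10) (nat_lit 8) L23087 (by decide +kernel)
theorem L23089 : W_1 (nat_lit 4) (nat_lit 0x3c001a0000000000000000000000000000000) (nat_lit 0x0) (nat_lit 0x400020001c004000000001000000000000000000000000000) := T_1 (nat_lit 159) (nat_lit 158) (nat_lit 1) (nat_lit 9) (nat_lit 8) L23088 (by decide +kernel)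
theorem L23090 : W_1 (nat_lit 5) (nat_lit 0x3c000a0000000000000000000000000000000) (nat_lit 0x0) (nat_lit 0x400020001c004000300001000000000000000000000000000) := T_1 (nat_lit 128) (nat_lit 129) (nat_lit 2) (nat_lit 6) (nat_lit 8) L23089 (by decide +kernel)
theorem L23091 : W_1 (nat_lit 4) (nat_lit 0x3c000a0000000000000000000000000000000) (nat_lit 0x0) (nat_lit 0x400020001c004000000001000000000000000000000000000) := T_1 (nat_lit 159) (nat_lit 158) (nat_lit 1) (nat_lit 9) (nat_lit 8) L23030 (by decide +kernel)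
theorem L23092 : W_1 (nat_lit 6) (nat_lit 0x1c000a0000000000000000000000000000000) (nat_lit 0x0) (nat_lit 0x14000a000dc006000300005000000000000000000000000000) := Q_1 (nat_lit 145) (C_1 L23086 (C_1 L23090 (C_1 L23091 N_1))) (by decide +kernel)
theorem L23093 : W_1 (nat_lit 11) (nat_lit 0x14000a0000000000000000000000000000000) (nat_lit 0x0) (nat_lit 0x10000e0017000b800df006a003000078001c000a000000000000000000) := Q_1 (nat_lit 143) (C_1 L23076 (C_1 L23080 (C_1 L23084 (C_1 L23092 N_1)))) (by decide +kernel)
theorem L23094 : W_1 (nat_lit 2) (nat_lit 0x1e000a0000000000000000000000000000000) (nat_lit 0x0) (nat_lit 0x2000018000000000000000000000000000000) := D_1 (nat_lit 124) (nat_lit 145) (nat_lit 123) (nat_lit 0) (nat_lit 9) (nat_lit 8) (nat_lit 0) (nat_lit 8) (nat_lit 8) (by decide +kernel)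
theorem L23095 : W_1 (nat_lit 3) (nat_lit 0x1c000a0000000000000000000000000000000) (nat_lit 0x0) (nat_lit 0x2200118000000000000000000000000000000) := T_1 (nat_lit 141) (nat_lit 128) (nat_lit 2) (nat_lit 5) (nat_lit 8) L23094 (by decide +kernel)
theorem L23096 : W_1 (nat_lit 5) (nat_lit 0x1c000a0000000000000000000000000000000) (nat_lit 0x0) (nat_lit 0x400020001c006000010001000000000000000000000000000) := T_1 (nat_lit 145) (nat_lit 124) (nat_lit 0) (nat_lit 9) (nat_lit 8) L23091 (by decide +kernel)
theorem L23097 : W_1 (nat_lit 11) (nat_lit 0x14000a0000000000000000000000000000000) (nat_lit 0x0) (nat_lit 0x10000e000700038001f006a001180038001c000a000000000000000000) := Q_1 (nat_lit 143) (C_1 L23076 (C_1 L23080 (C_1 L23095 (C_1 L23096 N_1)))) (by decide +kernel)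
theorem L23098 : W_1 (nat_lit 3) (nat_lit 0x1c000a0000000000000000000000000000000) (nat_lit 0x0) (nat_lit 0x220001c000000000000000000000000000000) := T_1 (nat_lit 124) (nat_lit 145) (nat_lit 0) (nat_lit 9) (nat_lit 8) L22588 (by decide +kernel)
theorem L23099 : W_1 (nat_lit 3) (nat_lit 0x4001e000a0000000000000000000000000000000) (nat_lit 0x0) (nat_lit 0x80000000000018001000080000000000000000000000) := T_1 (nat_lit 124) (nat_lit 123) (nat_lit 0) (nat_lit 8) (nat_lit 8) L22543 (by decide +kernel)
theorem L23100 : W_1 (nat_lit 4) (nat_lit 0x1e000a0000000000000000000000000000000) (nat_lit 0x0) (nat_lit 0x80006000000018001000080000000000000000000000) := T_1 (nat_lit 158) (nat_lit 157) (nat_lit 1) (nat_lit 8) (nat_lit 8) L23099 (by decide +kernel)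
theorem L23101 : W_1 (nat_lit 5) (nat_lit 0x1c000a0000000000000000000000000000000) (nat_lit 0x0) (nat_lit 0x80006000200118001000080000000000000000000000) := T_1 (nat_lit 141) (nat_lit 128) (nat_lit 2) (nat_lit 5) (nat_lit 8) L23100 (by decide +kernel)
theorem L23102 : W_1 (nat_lit 5) (nat_lit 0x1c000a0000000000000000000000000000000) (nat_lit 0x0) (nat_lit 0x100008000c0002000310004000000000000000000000000000) := T_1 (nat_lit 145) (nat_lit 124) (nat_lit 0) (nat_lit 9) (nat_lit 8) L23086 (by decide +kernel)
theorem L23103 : W_1 (nat_lit 6) (nat_lit 0x14000a0000000000000000000000000000000) (nat_lit 0x0) (nat_lit 0x100008800c6002a0031c005000080000000000000000000000) := Q_1 (nat_lit 143) (C_1 L23098 (C_1 L23101 (C_1 L23084 (C_1 L23102 N_1)))) (by decide +kernel)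
theorem L23104 : W_1 (nat_lit 2) (nat_lit 0x18001e000b0005000000000000000000000000000) (nat_lit 0x0) (nat_lit 0xa000100000000000000000000000) := D_1 (nat_lit 109) (nat_lit 92) (nat_lit 111) (nat_lit 6) (nat_lit 6) (nat_lit 9) (nat_lit 1) (nat_lit 9) (nat_lit 6) (by decide +kernel)
theorem L23105 : W_1 (nat_lit 3) (nat_lit 0x18001e000b0001000000000000000000000000000) (nat_lit 0x0) (nat_lit 0xe000300000000000000000000000) := T_1 (nat_lit 110) (nat_lit 93) (nat_lit 5) (nat_lit 8) (nat_lit 5) L23104 (by decide +kernel)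
theorem L23106 : W_1 (nat_lit 4) (nat_lit 0x8001e000b0001000000000000000000000000000) (nat_lit 0x0) (nat_lit 0x20001000000000000e000300000000000000000000000) := T_1 (nat_lit 160) (nat_lit 177) (nat_lit 7) (nat_lit 6) (nat_lit 6) L23105 (by decide +kernel)
theorem L23107 : W_1 (nat_lit 5) (nat_lit 0x8001e000a0001000000000000000000000000000) (nat_lit 0x0) (nat_lit 0x20001000000001800e000300000000000000000000000) := T_1 (nat_lit 124) (nat_lit 123) (nat_lit 0) (nat_lit 8) (nat_lit 8) L23106 (by decide +kernel)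
theorem L23108 : W_1 (nat_lit 2) (nat_lit 0xc001e000a0003800000000000000000000000000) (nat_lit 0x0) (nat_lit 0x100000000000018000000000000000000000000000000) := D_1 (nat_lit 124) (nat_lit 123) (nat_lit 176) (nat_lit 0) (nat_lit 8) (nat_lit 8) (nat_lit 7) (nat_lit 5) (nat_lit 6) (by decide +kernel)
theorem L23109 : W_1 (nat_lit 3) (nat_lit 0xc001e000a0003000000000000000000000000000) (nat_lit 0x0) (nat_lit 0x100000000000018000800040000000000000000000000) := T_1 (nat_lit 107) (nat_lit 90) (nat_lit 4) (nat_lit 6) (nat_lit 9) L23108 (by decide +kernel)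
theorem L23110 : W_1 (nat_lit 4) (nat_lit 0x8001e000a0003000000000000000000000000000) (nat_lit 0x0) (nat_lit 0x180004000000018000800040000000000000000000000) := T_1 (nat_lit 158) (nat_lit 175) (nat_lit 5) (nat_lit 6) (nat_lit 6) L23109 (by decide +kernel)
theorem L23111 : W_1 (nat_lit 5) (nat_lit 0x8001e000a0001000000000000000000000000000) (nat_lit 0x0) (nat_lit 0x180004000000018002800140000000000000000000000) := T_1 (nat_lit 109) (nat_lit 92) (nat_lit 6) (nat_lit 6) (nat_lit 9) L23110 (by decide +kernel)
theorem L23112 : W_1 (nat_lit 2) (nat_lit 0x8001e000b0001000000000000000000000000000) (nat_lit 0x0) (nat_lit 0x100000000000000000800040000000000000000000000) := D_1 (nat_lit 107) (nat_lit 90) (nat_lit 176) (nat_lit 7) (nat_lit 5) (nat_lit 5) (nat_lit 4) (nat_lit 6) (nat_lit 10) (by decide +kernel)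
theorem L23113 : W_1 (nat_lit 3) (nat_lit 0x8001e000a0001000000000000000000000000000) (nat_lit 0x0) (nat_lit 0x100000000000018000800040000000000000000000000) := T_1 (nat_lit 124) (nat_lit 123) (nat_lit 0) (nat_lit 8) (nat_lit 8) L23112 (by decide +kernel)
theorem L23114 : W_1 (nat_lit 2) (nat_lit 0x300008001e000a0001000000000000000000000000000) (nat_lit 0x0) (nat_lit 0x1000080004000000000000000000000000000000000000000) := D_1 (nat_lit 175) (nat_lit 192) (nat_lit 158) (nat_lit 5) (nat_lit 6) (nat_lit 7) (nat_lit 5) (nat_lit 6) (nat_lit 6) (by decide +kernel)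
theorem L23115 : W_1 (nat_lit 3) (nat_lit 0x200008001e000a0001000000000000000000000000000) (nat_lit 0x0) (nat_lit 0x5000180004000000000000000000000000000000000000000) := T_1 (nat_lit 176) (nat_lit 194) (nat_lit 7) (nat_lit 6) (nat_lit 7) L23114 (by decide +kernel)
theorem L23116 : W_1 (nat_lit 4) (nat_lit 0x8001e000a0001000000000000000000000000000) (nat_lit 0x0) (nat_lit 0x5000380014000000000000000000000000000000000000000) := T_1 (nat_lit 177) (nat_lit 160) (nat_lit 7) (nat_lit 6) (nat_lit 6) L23115 (by decide +kernel)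
theorem L23117 : W_1 (nat_lit 6) (nat_lit 0x1e000a0001000000000000000000000000000) (nat_lit 0x0) (nat_lit 0x500038001c00000001800e800340000000000000000000000) := Q_1 (nat_lit 159) (C_1 L23107 (C_1 L23111 (C_1 L23113 (C_1 L23116 N_1)))) (by decide +kernel)
theorem L23118 : W_1 (nat_lit 2) (nat_lit 0x1e000a0001000000000000000000000000000) (nat_lit 0x0) (nat_lit 0x14000000000000000080000000000000000000000) := D_1 (nat_lit 91) (nat_lit 158) (nat_lit 160) (nat_lit 5) (nat_lit 6) (nat_lit 5) (nat_lit 7) (nat_lit 6) (nat_lit 5) (by decide +kernel)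
theorem L23119 : W_1 (nat_lit 2) (nat_lit 0x1e000b0001000000000000000000000000000) (nat_lit 0x0) (nat_lit 0x10000000000000000080004000000000000000000) := D_1 (nat_lit 91) (nat_lit 160) (nat_lit 74) (nat_lit 7) (nat_lit 6) (nat_lit 5) (nat_lit 5) (nat_lit 6) (nat_lit 4) (by decide +kernel)
theorem L23120 : W_1 (nat_lit 3) (nat_lit 0x1e000a0001000000000000000000000000000) (nat_lit 0x0) (nat_lit 0x10000000018000000080004000000000000000000) := T_1 (nat_lit 124) (nat_lit 123) (nat_lit 0) (nat_lit 8) (nat_lit 8) L23119 (by decide +kernel)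
theorem L23121 : W_1 (nat_lit 2) (nat_lit 0x1e000a0001000080000000000000000000000) (nat_lit 0x0) (nat_lit 0x18000000000004000000000000000000) := D_1 (nat_lit 124) (nat_lit 74) (nat_lit 123) (nat_lit 5) (nat_lit 6) (nat_lit 4) (nat_lit 0) (nat_lit 8) (nat_lit 8) (by decide +kernel)
theorem L23122 : W_1 (nat_lit 3) (nat_lit 0x1e000a0001000000000000000000000000000) (nat_lit 0x0) (nat_lit 0x4000000018000000080004000000000000000000) := T_1 (nat_lit 91) (nat_lit 158) (nat_lit 5) (nat_lit 6) (nat_lit 5) L23121 (by decide +kernel)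
theorem L23123 : W_1 (nat_lit 7) (nat_lit 0x1e000a0000000000000000000000000000000) (nat_lit 0x0) (nat_lit 0x500038001c00000001800f8003c0004000000000000000000) := Q_1 (nat_lit 108) (C_1 L23117 (C_1 L23118 (C_1 L23120 (C_1 L23122 N_1)))) (by decide +kernel)
theorem L23124 : W_1 (nat_lit 2) (nat_lit 0x1f000a0000000000000000000000000000000) (nat_lit 0x0) (nat_lit 0x1c000000000000000000000000000000) := D_1 (nat_lit 123) (nat_lit 124) (nat_lit 122) (nat_lit 0) (nat_lit 8) (nat_lit 8) (nat_lit 0) (nat_lit 7) (nat_lit 8) (by decide +kernel)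
theorem L23125 : W_1 (nat_lit 2) (nat_lit 0x1001f800a0000000000000000000000000000000) (nat_lit 0x0) (nat_lit 0xe000000000000000000000000000000) := D_1 (nat_lit 122) (nat_lit 121) (nat_lit 123) (nat_lit 0) (nat_lit 6) (nat_lit 8) (nat_lit 0) (nat_lit 7) (nat_lit 8) (by decide +kernel)
theorem L23126 : W_1 (nat_lit 3) (nat_lit 0x1001f000a0000000000000000000000000000000) (nat_lit 0x0) (nat_lit 0x80008000e000000000000000000000000000000) := T_1 (nat_lit 139) (nat_lit 155) (nat_lit 1) (nat_lit 6) (nat_lit 8) L23125 (by decide +kernel)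
theorem L23127 : W_1 (nat_lit 4) (nat_lit 0x1f000a0000000000000000000000000000000) (nat_lit 0x0) (nat_lit 0x380008000e000000000000000000000000000000) := T_1 (nat_lit 156) (nat_lit 157) (nat_lit 1) (nat_lit 7) (nat_lit 8) L23126 (by decide +kernel)
theorem L23128 : W_1 (nat_lit 2) (nat_lit 0x9001f800b4000000000000000000000000000000) (nat_lit 0x0) (nat_lit 0x2000100000000000000000800000000000000000000000000) := D_1 (nat_lit 176) (nat_lit 107) (nat_lit 193) (nat_lit 4) (nat_lit 6) (nat_lit 10) (nat_lit 4) (nat_lit 6) (nat_lit 11) (by decide +kernel)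
theorem L23129 : W_1 (nat_lit 3) (nat_lit 0x9001f800a4000000000000000000000000000000) (nat_lit 0x0) (nat_lit 0x2000100000000040010000800000000000000000000000000) := T_1 (nat_lit 124) (nat_lit 138) (nat_lit 2) (nat_lit 2) (nat_lit 8) L23128 (by decide +kernel)
theorem L23130 : W_1 (nat_lit 4) (nat_lit 0x1001f800a4000000000000000000000000000000) (nat_lit 0x0) (nat_lit 0x2000100018000040010000800000000000000000000000000) := T_1 (nat_lit 159) (nat_lit 160) (nat_lit 3) (nat_lit 3) (nat_lit 8) L23129 (by decide +kernel)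
theorem L23131 : W_1 (nat_lit 5) (nat_lit 0x1001f800a0000000000000000000000000000000) (nat_lit 0x0) (nat_lit 0x2000100018000040016000800000000000000000000000000) := T_1 (nat_lit 122) (nat_lit 121) (nat_lit 0) (nat_lit 6) (nat_lit 8) L23130 (by decide +kernel)
theorem L23132 : W_1 (nat_lit 6) (nat_lit 0x1001f000a0000000000000000000000000000000) (nat_lit 0x0) (nat_lit 0x20001000188000c0016000800000000000000000000000000) := T_1 (nat_lit 139) (nat_lit 155) (nat_lit 1) (nat_lit 6) (nat_lit 8) L23131 (by decide +kernel)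
theorem L23133 : W_1 (nat_lit 7) (nat_lit 0x1f000a0000000000000000000000000000000) (nat_lit 0x0) (nat_lit 0x200010001b8000c0016000800000000000000000000000000) := T_1 (nat_lit 156) (nat_lit 157) (nat_lit 1) (nat_lit 7) (nat_lit 8) L23132 (by decide +kernel)
theorem L23134 : W_1 (nat_lit 2) (nat_lit 0x80000000a001f800b0000000000000000000000000000000) (nat_lit 0x0) (nat_lit 0x100000000000000000800040000000000000000000000) := D_1 (nat_lit 107) (nat_lit 90) (nat_lit 176) (nat_lit 7) (nat_lit 5) (nat_lit 5) (nat_lit 4) (nat_lit 6) (nat_lit 10) (by decide +kernel)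
theorem L23135 : W_1 (nat_lit 3) (nat_lit 0x800000002001f800b0000000000000000000000000000000) (nat_lit 0x0) (nat_lit 0x100018000000000000800040000000000000000000000) := T_1 (nat_lit 159) (nat_lit 160) (nat_lit 3) (nat_lit 3) (nat_lit 8) L23134 (by decide +kernel)
theorem L23136 : W_1 (nat_lit 4) (nat_lit 0x2001f800b0000000000000000000000000000000) (nat_lit 0x0) (nat_lit 0x800140018000000000000800040000000000000000000000) := T_1 (nat_lit 191) (nat_lit 174) (nat_lit 6) (nat_lit 4) (nat_lit 11) L23135 (by decide +kernel)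
theorem L23137 : W_1 (nat_lit 5) (nat_lit 0x2001f000b0000000000000000000000000000000) (nat_lit 0x0) (nat_lit 0x8001400180000c0000000800040000000000000000000000) := T_1 (nat_lit 139) (nat_lit 138) (nat_lit 2) (nat_lit 2) (nat_lit 8) L23136 (by decide +kernel)
theorem L23138 : W_1 (nat_lit 6) (nat_lit 0x2001f000a0000000000000000000000000000000) (nat_lit 0x0) (nat_lit 0x8001400180000c0018000800040000000000000000000000) := T_1 (nat_lit 124) (nat_lit 123) (nat_lit 0) (nat_lit 8) (nat_lit 8) L23137 (by decide +kernel)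
theorem L23139 : W_1 (nat_lit 7) (nat_lit 0x1f000a0000000000000000000000000000000) (nat_lit 0x0) (nat_lit 0x80014001b0000c0018000800040000000000000000000000) := T_1 (nat_lit 157) (nat_lit 156) (nat_lit 1) (nat_lit 7) (nat_lit 8) L23138 (by decide +kernel)
theorem L23140 : W_1 (nat_lit 8) (nat_lit 0x1e000a0000000000000000000000000000000) (nat_lit 0x0) (nat_lit 0x280014001b8001c001e000800040000000000000000000000) := Q_1 (nat_lit 140) (C_1 L23124 (C_1 L23127 (C_1 L23133 (C_1 L23139 N_1)))) (by decide +kernel)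
theorem L23141 : W_1 (nat_lit 9) (nat_lit 0x1c000a0000000000000000000000000000000) (nat_lit 0x0) (nat_lit 0x78003c001f8003c001e00f8003c0004000000000000000000) := Q_1 (nat_lit 141) (C_1 L23123 (C_1 L23100 (C_1 L23140 (C_1 L23079 N_1)))) (by decide +kernel)
theorem L23142 : W_1 (nat_lit 11) (nat_lit 0x14000a0000000000000000000000000000000) (nat_lit 0x0) (nat_lit 0x10000e00078003c001f806bc001e00f8003c000e000000000000000000) := Q_1 (nat_lit 143) (C_1 L23141 (C_1 L23098 (C_1 L23076 (C_1 L23096 N_1)))) (by decide +kernel)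
theorem L23143 : W_1 (nat_lit 2) (nat_lit 0x4000000010001c001a0007000000000000000000000000000) (nat_lit 0x0) (nat_lit 0x210008000000000000000000000000000) := D_1 (nat_lit 111) (nat_lit 124) (nat_lit 129) (nat_lit 1) (nat_lit 9) (nat_lit 6) (nat_lit 3) (nat_lit 6) (nat_lit 6) (by decide +kernel)
theorem L23144 : W_1 (nat_lit 3) (nat_lit 0x4000000010001c001a0005000000000000000000000000000) (nat_lit 0x0) (nat_lit 0x21000a800000000000000000000000000) := T_1 (nat_lit 109) (nat_lit 107) (nat_lit 3) (nat_lit 5) (nat_lit 6) L23143 (by decide +kernel)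
theorem L23145 : W_1 (nat_lit 4) (nat_lit 0x4000000010001c001a0001000000000000000000000000000) (nat_lit 0x0) (nat_lit 0x21000e800200000000000000000000000) := T_1 (nat_lit 110) (nat_lit 93) (nat_lit 5) (nat_lit 8) (nat_lit 5) L23144 (by decide +kernel)
theorem L23146 : W_1 (nat_lit 5) (nat_lit 0x10001c001a0001000000000000000000000000000) (nat_lit 0x0) (nat_lit 0x400020000000000021000e800200000000000000000000000) := T_1 (nat_lit 194) (nat_lit 177) (nat_lit 6) (nat_lit 7) (nat_lit 11) L23145 (by decide +kernel)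
theorem L23147 : W_1 (nat_lit 6) (nat_lit 0x10001c001a0000000000000000000000000000000) (nat_lit 0x0) (nat_lit 0x400020000000000021000f800280000000000000000000000) := T_1 (nat_lit 108) (nat_lit 91) (nat_lit 7) (nat_lit 6) (nat_lit 5) L23146 (by decide +kernel)
theorem L23148 : W_1 (nat_lit 7) (nat_lit 0x10001c000a0000000000000000000000000000000) (nat_lit 0x0) (nat_lit 0x400020000000020031000f800280000000000000000000000) := T_1 (nat_lit 128) (nat_lit 141) (nat_lit 2) (nat_lit 5) (nat_lit 8) L23147 (by decide +kernel)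
theorem L23149 : W_1 (nat_lit 2) (nat_lit 0x10001c000a0001000200000000000000000000000) (nat_lit 0x0) (nat_lit 0x4000200008000000000000000000000000000000000000000) := D_1 (nat_lit 177) (nat_lit 194) (nat_lit 159) (nat_lit 6) (nat_lit 7) (nat_lit 11) (nat_lit 7) (nat_lit 6) (nat_lit 6) (by decide +kernel)
theorem L23150 : W_1 (nat_lit 3) (nat_lit 0x10001c000a0000000200000000000000000000000) (nat_lit 0x0) (nat_lit 0x4000200008000000000001000080000000000000000000000) := T_1 (nat_lit 108) (nat_lit 91) (nat_lit 7) (nat_lit 6) (nat_lit 5) L23149 (by decide +kernel)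
theorem L23151 : W_1 (nat_lit 4) (nat_lit 0x10001c000a0000000000000000000000000000000) (nat_lit 0x0) (nat_lit 0x4000200008000000000005000280000000000000000000000) := T_1 (nat_lit 93) (nat_lit 110) (nat_lit 5) (nat_lit 8) (nat_lit 5) L23150 (by decide +kernel)
theorem L23152 : W_1 (nat_lit 2) (nat_lit 0x11001f000a8000000280000000000000000000000) (nat_lit 0x0) (nat_lit 0x8800080000000000000000000000000000000000) := D_1 (nat_lit 139) (nat_lit 155) (nat_lit 159) (nat_lit 1) (nat_lit 6) (nat_lit 8) (nat_lit 3) (nat_lit 3) (nat_lit 8) (by decide +kernel)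
theorem L23153 : W_1 (nat_lit 3) (nat_lit 0x10001f000a8000000280000000000000000000000) (nat_lit 0x0) (nat_lit 0xb800080000000000000000000000000000000000) := T_1 (nat_lit 156) (nat_lit 157) (nat_lit 1) (nat_lit 7) (nat_lit 8) L23152 (by decide +kernel)
theorem L23154 : W_1 (nat_lit 4) (nat_lit 0x10001e000a8000000280000000000000000000000) (nat_lit 0x0) (nat_lit 0xb800180004000000000000000000000000000000) := T_1 (nat_lit 140) (nat_lit 122) (nat_lit 0) (nat_lit 7) (nat_lit 8) L23153 (by decide +kernel)
theorem L23155 : W_1 (nat_lit 5) (nat_lit 0x10001e000a0000000280000000000000000000000) (nat_lit 0x0) (nat_lit 0xb80018001c000000000000000000000000000000) := T_1 (nat_lit 123) (nat_lit 124) (nat_lit 0) (nat_lit 8) (nat_lit 8) L23154 (by decide +kernel)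
theorem L23156 : W_1 (nat_lit 6) (nat_lit 0x10001c000a0000000280000000000000000000000) (nat_lit 0x0) (nat_lit 0xb80038011c000000000000000000000000000000) := T_1 (nat_lit 141) (nat_lit 128) (nat_lit 2) (nat_lit 5) (nat_lit 8) L23155 (by decide +kernel)
theorem L23157 : W_1 (nat_lit 7) (nat_lit 0x10001c000a0000000200000000000000000000000) (nat_lit 0x0) (nat_lit 0xb80038011c001000080000000000000000000000) := T_1 (nat_lit 91) (nat_lit 108) (nat_lit 7) (nat_lit 6) (nat_lit 5) L23156 (by decide +kernel)
theorem L23158 : W_1 (nat_lit 8) (nat_lit 0x10001c000a0000000000000000000000000000000) (nat_lit 0x0) (nat_lit 0xb80038011c005000280000000000000000000000) := T_1 (nat_lit 93) (nat_lit 110) (nat_lit 5) (nat_lit 8) (nat_lit 5) L23157 (by decide +kernel)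
theorem L23159 : W_1 (nat_lit 2) (nat_lit 0x4000000010001f800a8000000000000000000000000000000) (nat_lit 0x0) (nat_lit 0x3800000000000000000000000000000000000000) := D_1 (nat_lit 156) (nat_lit 155) (nat_lit 157) (nat_lit 1) (nat_lit 6) (nat_lit 8) (nat_lit 1) (nat_lit 7) (nat_lit 8) (by decide +kernel)
theorem L23160 : W_1 (nat_lit 3) (nat_lit 0x4000000010001f000a8000000000000000000000000000000) (nat_lit 0x0) (nat_lit 0xb800080000000000000000000000000000000000) := T_1 (nat_lit 139) (nat_lit 159) (nat_lit 3) (nat_lit 3) (nat_lit 8) L23159 (by decide +kernel)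
theorem L23161 : W_1 (nat_lit 4) (nat_lit 0x10001f000a8000000000000000000000000000000) (nat_lit 0x0) (nat_lit 0x400020000b800080000000000000000000000000000000000) := T_1 (nat_lit 194) (nat_lit 177) (nat_lit 6) (nat_lit 7) (nat_lit 11) L23160 (by decide +kernel)
theorem L23162 : W_1 (nat_lit 5) (nat_lit 0x10001e000a8000000000000000000000000000000) (nat_lit 0x0) (nat_lit 0x400020000b800180004000000000000000000000000000000) := T_1 (nat_lit 140) (nat_lit 122) (nat_lit 0) (nat_lit 7) (nat_lit 8) L23161 (by decide +kernel)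
theorem L23163 : W_1 (nat_lit 6) (nat_lit 0x10001e000a0000000000000000000000000000000) (nat_lit 0x0) (nat_lit 0x400020000b80018001c000000000000000000000000000000) := T_1 (nat_lit 123) (nat_lit 124) (nat_lit 0) (nat_lit 8) (nat_lit 8) L23162 (by decide +kernel)
theorem L23164 : W_1 (nat_lit 7) (nat_lit 0x10001c000a0000000000000000000000000000000) (nat_lit 0x0) (nat_lit 0x400020000b80038011c000000000000000000000000000000) := T_1 (nat_lit 141) (nat_lit 128) (nat_lit 2) (nat_lit 5) (nat_lit 8) L23163 (by decide +kernel)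
theorem L23165 : W_1 (nat_lit 9) (nat_lit 0x1c000a0000000000000000000000000000000) (nat_lit 0x0) (nat_lit 0x400020001b80038031c00f800280000000000000000000000) := Q_1 (nat_lit 160) (C_1 L23148 (C_1 L23151 (C_1 L23158 (C_1 L23164 N_1)))) (by decide +kernel)
theorem L23166 : W_1 (nat_lit 10) (nat_lit 0x14000a0000000000000000000000000000000) (nat_lit 0x0) (nat_lit 0x14000a000db802b8031c00f800280000000000000000000000) := Q_1 (nat_lit 143) (C_1 L23098 (C_1 L23165 (C_1 L23084 (C_1 L23102 N_1)))) (by decide +kernel)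
theorem L23167 : W_1 (nat_lit 9) (nat_lit 0x1c000a0000000000000000000000000000000) (nat_lit 0x0) (nat_lit 0x280014001b8003c011e000800040000000000000000000000) := T_1 (nat_lit 141) (nat_lit 128) (nat_lit 2) (nat_lit 5) (nat_lit 8) L23140 (by decide +kernel)
theorem L23168 : W_1 (nat_lit 10) (nat_lit 0x14000a0000000000000000000000000000000) (nat_lit 0x0) (nat_lit 0x128009400db802bc031e004800040000000000000000000000) := Q_1 (nat_lit 143) (C_1 L23098 (C_1 L23167 (C_1 L23084 (C_1 L23102 N_1)))) (by decide +kernel)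
theorem L23169 : W_1 (nat_lit 2) (nat_lit 0x16000a00010000c0008000000000000000000) (nat_lit 0x0) (nat_lit 0x10000000000004000400000000000000) := D_1 (nat_lit 74) (nat_lit 124) (nat_lit 58) (nat_lit 5) (nat_lit 6) (nat_lit 4) (nat_lit 6) (nat_lit 6) (nat_lit 7) (by decide +kernel)
theorem L23170 : W_1 (nat_lit 3) (nat_lit 0x14000a00010000c0008000000000000000000) (nat_lit 0x0) (nat_lit 0x4000200010000000000004000400000000000000) := T_1 (nat_lit 141) (nat_lit 158) (nat_lit 5) (nat_lit 6) (nat_lit 5) L23169 (by decide +kernel)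
theorem L23171 : W_1 (nat_lit 4) (nat_lit 0x14000a00010000c0000000000000000000000) (nat_lit 0x0) (nat_lit 0x400020001000000010000c000400000000000000) := T_1 (nat_lit 75) (nat_lit 92) (nat_lit 6) (nat_lit 6) (nat_lit 8) L23170 (by decide +kernel)
theorem L23172 : W_1 (nat_lit 5) (nat_lit 0x14000a0001000080000000000000000000000) (nat_lit 0x0) (nat_lit 0x400020001000000014000e000400000000000000) := T_1 (nat_lit 90) (nat_lit 73) (nat_lit 4) (nat_lit 6) (nat_lit 8) L23171 (by decide +kernel)
theorem L23173 : W_1 (nat_lit 2) (nat_lit 0x14000a0001000080006000000000000000000) (nat_lit 0x0) (nat_lit 0x100008000400000000000000) := D_1 (nat_lit 75) (nat_lit 92) (nat_lit 58) (nat_lit 6) (nat_lit 6) (nat_lit 8) (nat_lit 6) (nat_lit 6) (nat_lit 7) (by decide +kernel)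
theorem L23174 : W_1 (nat_lit 3) (nat_lit 0x14000a0001000080002000000000000000000) (nat_lit 0x0) (nat_lit 0x10000c000500000000000000) := T_1 (nat_lit 74) (nat_lit 56) (nat_lit 4) (nat_lit 6) (nat_lit 7) L23173 (by decide +kernel)
theorem L23175 : W_1 (nat_lit 4) (nat_lit 0x14000a0001000080000000000000000000000) (nat_lit 0x0) (nat_lit 0x14000e000500000000000000) := T_1 (nat_lit 73) (nat_lit 90) (nat_lit 4) (nat_lit 6) (nat_lit 8) L23174 (by decide +kernel)
theorem L23176 : W_1 (nat_lit 2) (nat_lit 0x16000a0001000080004000000000000000000) (nat_lit 0x0) (nat_lit 0x40002000100000000000000) := D_1 (nat_lit 73) (nat_lit 56) (nat_lit 90) (nat_lit 4) (nat_lit 6) (nat_lit 7) (nat_lit 4) (nat_lit 6) (nat_lit 8) (by decide +kernel)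
theorem L23177 : W_1 (nat_lit 3) (nat_lit 0x16000a0001000080000000000000000000000) (nat_lit 0x0) (nat_lit 0x10000000040006000100000000000000) := T_1 (nat_lit 74) (nat_lit 124) (nat_lit 5) (nat_lit 6) (nat_lit 4) L23176 (by decide +kernel)
theorem L23178 : W_1 (nat_lit 4) (nat_lit 0x14000a0001000080000000000000000000000) (nat_lit 0x0) (nat_lit 0x4000200010000000040006000100000000000000) := T_1 (nat_lit 141) (nat_lit 158) (nat_lit 5) (nat_lit 6) (nat_lit 5) L23177 (by decide +kernel)
theorem L23179 : W_1 (nat_lit 2) (nat_lit 0x16000a0001000180004000300020000000000) (nat_lit 0x0) (nat_lit 0x2000000000000000010001000000) := D_1 (nat_lit 40) (nat_lit 109) (nat_lit 24) (nat_lit 7) (nat_lit 6) (nat_lit 2) (nat_lit 6) (nat_lit 6) (nat_lit 5) (by decide +kernel)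
theorem L23180 : W_1 (nat_lit 3) (nat_lit 0x16000a0001000180004000300000000000000) (nat_lit 0x0) (nat_lit 0x2000000000000400030001000000) := T_1 (nat_lit 41) (nat_lit 58) (nat_lit 6) (nat_lit 6) (nat_lit 6) L23179 (by decide +kernel)
theorem L23181 : W_1 (nat_lit 4) (nat_lit 0x16000a0001000180004000100000000000000) (nat_lit 0x0) (nat_lit 0x2000000000000600038001000000) := T_1 (nat_lit 57) (nat_lit 39) (nat_lit 4) (nat_lit 6) (nat_lit 6) L23180 (by decide +kernel)
theorem L23182 : W_1 (nat_lit 5) (nat_lit 0x16000a0001000180004000000000000000000) (nat_lit 0x0) (nat_lit 0x2000000002000700038001000000) := T_1 (nat_lit 56) (nat_lit 73) (nat_lit 4) (nat_lit 6) (nat_lit 7) L23181 (by decide +kernel)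
theorem L23183 : W_1 (nat_lit 6) (nat_lit 0x16000a0001000180000000000000000000000) (nat_lit 0x0) (nat_lit 0x10002000000006000700038001000000) := T_1 (nat_lit 74) (nat_lit 124) (nat_lit 5) (nat_lit 6) (nat_lit 4) L23182 (by decide +kernel)
theorem L23184 : W_1 (nat_lit 7) (nat_lit 0x14000a0001000180000000000000000000000) (nat_lit 0x0) (nat_lit 0x4000200010002000000006000700038001000000) := T_1 (nat_lit 141) (nat_lit 158) (nat_lit 5) (nat_lit 6) (nat_lit 5) L23183 (by decide +kernel)
theorem L23185 : W_1 (nat_lit 8) (nat_lit 0x14000a0001000080000000000000000000000) (nat_lit 0x0) (nat_lit 0x400020001000200010000e000700038001000000) := T_1 (nat_lit 92) (nat_lit 75) (nat_lit 6) (nat_lit 6) (nat_lit 8) L23184 (by decide +kernel)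
theorem L23186 : W_1 (nat_lit 2) (nat_lit 0x16000a0001000080004000000000000000000) (nat_lit 0x0) (nat_lit 0x100008000400000000000000) := D_1 (nat_lit 75) (nat_lit 92) (nat_lit 58) (nat_lit 6) (nat_lit 6) (nat_lit 8) (nat_lit 6) (nat_lit 6) (nat_lit 7) (by decide +kernel)
theorem L23187 : W_1 (nat_lit 3) (nat_lit 0x16000a0001000080000000000000000000000) (nat_lit 0x0) (nat_lit 0x1000000010000c000400000000000000) := T_1 (nat_lit 74) (nat_lit 124) (nat_lit 5) (nat_lit 6) (nat_lit 4) L23186 (by decide +kernel)
theorem L23188 : W_1 (nat_lit 4) (nat_lit 0x14000a0001000080000000000000000000000) (nat_lit 0x0) (nat_lit 0x400020001000000010000c000400000000000000) := T_1 (nat_lit 141) (nat_lit 158) (nat_lit 5) (nat_lit 6) (nat_lit 5) L23187 (by decide +kernel)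
theorem L23189 : W_1 (nat_lit 2) (nat_lit 0x14000a0005000380000000000000000000000) (nat_lit 0x0) (nat_lit 0x800400020000000000000000000) := D_1 (nat_lit 94) (nat_lit 107) (nat_lit 77) (nat_lit 1) (nat_lit 9) (nat_lit 5) (nat_lit 6) (nat_lit 8) (nat_lit 8) (by decide +kernel)
theorem L23190 : W_1 (nat_lit 3) (nat_lit 0x14000a0005000280000000000000000000000) (nat_lit 0x0) (nat_lit 0x800500028000000000000000000) := T_1 (nat_lit 92) (nat_lit 75) (nat_lit 6) (nat_lit 6) (nat_lit 8) L23189 (by decide +kernel)
theorem L23191 : W_1 (nat_lit 2) (nat_lit 0x34000a0005000280010000000000000000000) (nat_lit 0x0) (nat_lit 0x100008000400000000000000) := D_1 (nat_lit 75) (nat_lit 92) (nat_lit 58) (nat_lit 6) (nat_lit 6) (nat_lit 8) (nat_lit 4) (nat_lit 8) (nat_lit 7) (by decide +kernel)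
theorem L23192 : W_1 (nat_lit 3) (nat_lit 0x34000a0005000280000000000000000000000) (nat_lit 0x0) (nat_lit 0x100000000100018000400000000000000) := T_1 (nat_lit 76) (nat_lit 128) (nat_lit 7) (nat_lit 8) (nat_lit 4) L23191 (by decide +kernel)
theorem L23193 : W_1 (nat_lit 4) (nat_lit 0x14000a0005000280000000000000000000000) (nat_lit 0x0) (nat_lit 0x40002000100000000100018000400000000000000) := T_1 (nat_lit 145) (nat_lit 162) (nat_lit 7) (nat_lit 8) (nat_lit 5) L23192 (by decide +kernel)
theorem L23194 : W_1 (nat_lit 2) (nat_lit 0x14000a0007000680000000000000000000000) (nat_lit 0x0) (nat_lit 0x10008000800000000000000000000000) := D_1 (nat_lit 111) (nat_lit 124) (nat_lit 95) (nat_lit 1) (nat_lit 9) (nat_lit 6) (nat_lit 2) (nat_lit 6) (nat_lit 6) (by decide +kernel)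
theorem L23195 : W_1 (nat_lit 3) (nat_lit 0x14000a0005000680000000000000000000000) (nat_lit 0x0) (nat_lit 0x1000a800800000000000000000000000) := T_1 (nat_lit 109) (nat_lit 107) (nat_lit 2) (nat_lit 5) (nat_lit 6) L23194 (by decide +kernel)
theorem L23196 : W_1 (nat_lit 4) (nat_lit 0x14000a0005000280000000000000000000000) (nat_lit 0x0) (nat_lit 0x1000a800c00020000000000000000000) := T_1 (nat_lit 94) (nat_lit 77) (nat_lit 6) (nat_lit 8) (nat_lit 8) L23195 (by decide +kernel)
theorem L23197 : W_1 (nat_lit 5) (nat_lit 0x14000a0005000080000000000000000000000) (nat_lit 0x0) (nat_lit 0x4000200011000a800f00038000400000000000000) := Q_1 (nat_lit 93) (C_1 L23190 (C_1 L23193 (C_1 L23196 N_1))) (by decide +kernel)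
theorem L23198 : W_1 (nat_lit 2) (nat_lit 0x14000a00050001c0000000000000000000000) (nat_lit 0x0) (nat_lit 0xa000200000000000000000000000) := D_1 (nat_lit 111) (nat_lit 93) (nat_lit 109) (nat_lit 3) (nat_lit 5) (nat_lit 5) (nat_lit 0) (nat_lit 9) (nat_lit 6) (by decide +kernel)
theorem L23199 : W_1 (nat_lit 3) (nat_lit 0x14000a0005000180000000000000000000000) (nat_lit 0x0) (nat_lit 0xa000240002000000000000000000) := T_1 (nat_lit 90) (nat_lit 73) (nat_lit 4) (nat_lit 6) (nat_lit 8) L23198 (by decide +kernel)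
theorem L23200 : W_1 (nat_lit 4) (nat_lit 0x14000a0005000080000000000000000000000) (nat_lit 0x0) (nat_lit 0xa00034000a000000000000000000) := T_1 (nat_lit 92) (nat_lit 75) (nat_lit 6) (nat_lit 6) (nat_lit 8) L23199 (by decide +kernel)
theorem L23201 : W_1 (nat_lit 2) (nat_lit 0x16000a00050003c0000000000000000000000) (nat_lit 0x0) (nat_lit 0x400030000000000000000000) := D_1 (nat_lit 77) (nat_lit 76) (nat_lit 94) (nat_lit 2) (nat_lit 5) (nat_lit 5) (nat_lit 6) (nat_lit 8) (nat_lit 8) (by decide +kernel)
theorem L23202 : W_1 (nat_lit 3) (nat_lit 0x16000a00050001c0000000000000000000000) (nat_lit 0x0) (nat_lit 0x8000600030000000000000000000) := T_1 (nat_lit 93) (nat_lit 111) (nat_lit 3) (nat_lit 5) (nat_lit 5) L23201 (by decide +kernel)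
theorem L23203 : W_1 (nat_lit 4) (nat_lit 0x16000a0005000180000000000000000000000) (nat_lit 0x0) (nat_lit 0x8000640032000000000000000000) := T_1 (nat_lit 90) (nat_lit 73) (nat_lit 4) (nat_lit 6) (nat_lit 8) L23202 (by decide +kernel)
theorem L23204 : W_1 (nat_lit 5) (nat_lit 0x16000a0005000080000000000000000000000) (nat_lit 0x0) (nat_lit 0x800074003a000000000000000000) := T_1 (nat_lit 92) (nat_lit 75) (nat_lit 6) (nat_lit 6) (nat_lit 8) L23203 (by decide +kernel)
theorem L23205 : W_1 (nat_lit 6) (nat_lit 0x14000a0005000080000000000000000000000) (nat_lit 0x0) (nat_lit 0x400020000000800074003a000000000000000000) := T_1 (nat_lit 141) (nat_lit 158) (nat_lit 5) (nat_lit 6) (nat_lit 5) L23204 (by decide +kernel)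
theorem L23206 : W_1 (nat_lit 2) (nat_lit 0x16000a00054001e0001000000000000000000) (nat_lit 0x0) (nat_lit 0x10000800200000000000000000000000) := D_1 (nat_lit 107) (nat_lit 93) (nat_lit 124) (nat_lit 1) (nat_lit 8) (nat_lit 5) (nat_lit 4) (nat_lit 5) (nat_lit 8) (by decide +kernel)
theorem L23207 : W_1 (nat_lit 3) (nat_lit 0x16000a00054001e0000000000000000000000) (nat_lit 0x0) (nat_lit 0x10000800200001800000000000000000) := T_1 (nat_lit 72) (nat_lit 71) (nat_lit 0) (nat_lit 7) (nat_lit 5) L23206 (by decide +kernel)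
theorem L23208 : W_1 (nat_lit 4) (nat_lit 0x16000a00050001e0000000000000000000000) (nat_lit 0x0) (nat_lit 0x10000e00200001800000000000000000) := T_1 (nat_lit 106) (nat_lit 105) (nat_lit 1) (nat_lit 7) (nat_lit 5) L23207 (by decide +kernel)
theorem L23209 : W_1 (nat_lit 5) (nat_lit 0x16000a00050001c0000000000000000000000) (nat_lit 0x0) (nat_lit 0x10002e00220001800000000000000000) := T_1 (nat_lit 89) (nat_lit 109) (nat_lit 3) (nat_lit 4) (nat_lit 5) L23208 (by decide +kernel)
theorem L23210 : W_1 (nat_lit 6) (nat_lit 0x16000a00050000c0000000000000000000000) (nat_lit 0x0) (nat_lit 0x10002e00320009800000000000000000) := T_1 (nat_lit 92) (nat_lit 75) (nat_lit 6) (nat_lit 6) (nat_lit 8) L23209 (by decide +kernel)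
theorem L23211 : W_1 (nat_lit 7) (nat_lit 0x14000a00050000c0000000000000000000000) (nat_lit 0x0) (nat_lit 0x4000200010002e00320009800000000000000000) := T_1 (nat_lit 141) (nat_lit 158) (nat_lit 5) (nat_lit 6) (nat_lit 5) L23210 (by decide +kernel)
theorem L23212 : W_1 (nat_lit 8) (nat_lit 0x14000a0005000080000000000000000000000) (nat_lit 0x0) (nat_lit 0x4000200010002e0036000b800000000000000000) := T_1 (nat_lit 90) (nat_lit 73) (nat_lit 4) (nat_lit 6) (nat_lit 8) L23211 (by decide +kernel)
theorem L23213 : W_1 (nat_lit 2) (nat_lit 0x14000a00070000c0000000000000000000000) (nat_lit 0x0) (nat_lit 0x100000800020000000000000000000000) := D_1 (nat_lit 107) (nat_lit 89) (nat_lit 128) (nat_lit 0) (nat_lit 8) (nat_lit 6) (nat_lit 3) (nat_lit 5) (nat_lit 6) (by decide +kernel)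
theorem L23214 : W_1 (nat_lit 3) (nat_lit 0x14000a00050000c0000000000000000000000) (nat_lit 0x0) (nat_lit 0x10000a800020000000000000000000000) := T_1 (nat_lit 109) (nat_lit 111) (nat_lit 0) (nat_lit 9) (nat_lit 6) L23213 (by decide +kernel)
theorem L23215 : W_1 (nat_lit 4) (nat_lit 0x14000a0005000080000000000000000000000) (nat_lit 0x0) (nat_lit 0x10000a800060002000000000000000000) := T_1 (nat_lit 90) (nat_lit 73) (nat_lit 4) (nat_lit 6) (nat_lit 8) L23214 (by decide +kernel)
theorem L23216 : W_1 (nat_lit 9) (nat_lit 0x14000a0001000080000000000000000000000) (nat_lit 0x0) (nat_lit 0x4400220011000ee00f6003b800400000000000000) := Q_1 (nat_lit 110) (C_1 L23197 (C_1 L23200 (C_1 L23205 (C_1 L23212 (C_1 L23215 N_1))))) (by decide +kernel)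
theorem L23217 : W_1 (nat_lit 10) (nat_lit 0x14000a0001000000000000000000000000000) (nat_lit 0x0) (nat_lit 0x4400220011000ee00fe003f800700038001000000) := Q_1 (nat_lit 91) (C_1 L23172 (C_1 L23175 (C_1 L23178 (C_1 L23185 (C_1 L23188 (C_1 L23216 N_1)))))) (by decide +kernel)
theorem L23218 : W_1 (nat_lit 2) (nat_lit 0x1000180014000a0001800000000000000000000000000) (nat_lit 0x0) (nat_lit 0x1000080004000000000000000000000000000000000000000) := D_1 (nat_lit 175) (nat_lit 158) (nat_lit 192) (nat_lit 5) (nat_lit 6) (nat_lit 6) (nat_lit 5) (nat_lit 6) (nat_lit 7) (by decide +kernel)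
theorem L23219 : W_1 (nat_lit 3) (nat_lit 0x180014000a0001800000000000000000000000000) (nat_lit 0x0) (nat_lit 0x1000180004000000010000000000000000000000000000000) := T_1 (nat_lit 176) (nat_lit 124) (nat_lit 4) (nat_lit 6) (nat_lit 10) L23218 (by decide +kernel)
theorem L23220 : W_1 (nat_lit 4) (nat_lit 0x80014000a0001800000000000000000000000000) (nat_lit 0x0) (nat_lit 0x1000380014000000010000000000000000000000000000000) := T_1 (nat_lit 160) (nat_lit 177) (nat_lit 7) (nat_lit 6) (nat_lit 6) L23219 (by decide +kernel)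
theorem L23221 : W_1 (nat_lit 5) (nat_lit 0x80014000a0001000000000000000000000000000) (nat_lit 0x0) (nat_lit 0x1000380014000000010000800040000000000000000000000) := T_1 (nat_lit 107) (nat_lit 90) (nat_lit 4) (nat_lit 6) (nat_lit 9) L23220 (by decide +kernel)
theorem L23222 : W_1 (nat_lit 2) (nat_lit 0xc0014000b0003800080000000000000000000000) (nat_lit 0x0) (nat_lit 0xc004000000000000000000000000000) := D_1 (nat_lit 123) (nat_lit 122) (nat_lit 110) (nat_lit 2) (nat_lit 3) (nat_lit 7) (nat_lit 1) (nat_lit 8) (nat_lit 6) (by decide +kernel)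
theorem L23223 : W_1 (nat_lit 3) (nat_lit 0xc0014000a0003800080000000000000000000000) (nat_lit 0x0) (nat_lit 0x10000000000001c004000000000000000000000000000) := T_1 (nat_lit 124) (nat_lit 176) (nat_lit 4) (nat_lit 6) (nat_lit 10) L23222 (by decide +kernel)
theorem L23224 : W_1 (nat_lit 4) (nat_lit 0xc0014000a0003800000000000000000000000000) (nat_lit 0x0) (nat_lit 0x10000000020001c004000080000000000000000000000) := T_1 (nat_lit 91) (nat_lit 141) (nat_lit 5) (nat_lit 6) (nat_lit 5) L23223 (by decide +kernel)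
theorem L23225 : W_1 (nat_lit 5) (nat_lit 0x80014000a0003800000000000000000000000000) (nat_lit 0x0) (nat_lit 0x18000400020001c004000080000000000000000000000) := T_1 (nat_lit 158) (nat_lit 175) (nat_lit 5) (nat_lit 6) (nat_lit 6) L23224 (by decide +kernel)
theorem L23226 : W_1 (nat_lit 6) (nat_lit 0x80014000a0003000000000000000000000000000) (nat_lit 0x0) (nat_lit 0x18000400020001c0048000c0000000000000000000000) := T_1 (nat_lit 107) (nat_lit 90) (nat_lit 4) (nat_lit 6) (nat_lit 9) L23225 (by decide +kernel)
theorem L23227 : W_1 (nat_lit 7) (nat_lit 0x80014000a0001000000000000000000000000000) (nat_lit 0x0) (nat_lit 0x18000400020001c0068001c0000000000000000000000) := T_1 (nat_lit 109) (nat_lit 92) (nat_lit 6) (nat_lit 6) (nat_lit 9) L23226 (by decide +kernel)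
theorem L23228 : W_1 (nat_lit 2) (nat_lit 0x1000080014000a0003800000000000000000000000000) (nat_lit 0x0) (nat_lit 0x4000200010000000000000000000000000000000000000000) := D_1 (nat_lit 177) (nat_lit 160) (nat_lit 194) (nat_lit 7) (nat_lit 6) (nat_lit 6) (nat_lit 7) (nat_lit 6) (nat_lit 7) (by decide +kernel)
theorem L23229 : W_1 (nat_lit 3) (nat_lit 0x80014000a0003800000000000000000000000000) (nat_lit 0x0) (nat_lit 0x4000300010000000010000000000000000000000000000000) := T_1 (nat_lit 176) (nat_lit 124) (nat_lit 4) (nat_lit 6) (nat_lit 10) L23228 (by decide +kernel)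
theorem L23230 : W_1 (nat_lit 4) (nat_lit 0x80014000a0001800000000000000000000000000) (nat_lit 0x0) (nat_lit 0x4000300010000000010002000100000000000000000000000) := T_1 (nat_lit 109) (nat_lit 92) (nat_lit 6) (nat_lit 6) (nat_lit 9) L23229 (by decide +kernel)
theorem L23231 : W_1 (nat_lit 5) (nat_lit 0x80014000a0001000000000000000000000000000) (nat_lit 0x0) (nat_lit 0x4000300010000000010002800140000000000000000000000) := T_1 (nat_lit 107) (nat_lit 90) (nat_lit 4) (nat_lit 6) (nat_lit 9) L23230 (by decide +kernel)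
theorem L23232 : W_1 (nat_lit 2) (nat_lit 0x1c0014000a0001000080000000000000000000000) (nat_lit 0x0) (nat_lit 0x800040002000000000000000000) := D_1 (nat_lit 90) (nat_lit 73) (nat_lit 107) (nat_lit 4) (nat_lit 6) (nat_lit 8) (nat_lit 4) (nat_lit 6) (nat_lit 9) (by decide +kernel)
theorem L23233 : W_1 (nat_lit 3) (nat_lit 0x1c0014000a0001000000000000000000000000000) (nat_lit 0x0) (nat_lit 0x2000000008000c0002000000000000000000) := T_1 (nat_lit 91) (nat_lit 141) (nat_lit 5) (nat_lit 6) (nat_lit 5) L23232 (by decide +kernel)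
theorem L23234 : W_1 (nat_lit 4) (nat_lit 0x180014000a0001000000000000000000000000000) (nat_lit 0x0) (nat_lit 0x800040002000000008000c0002000000000000000000) := T_1 (nat_lit 158) (nat_lit 175) (nat_lit 5) (nat_lit 6) (nat_lit 6) L23233 (by decide +kernel)
theorem L23235 : W_1 (nat_lit 5) (nat_lit 0x80014000a0001000000000000000000000000000) (nat_lit 0x0) (nat_lit 0x2800140002000000008000c0002000000000000000000) := T_1 (nat_lit 160) (nat_lit 177) (nat_lit 7) (nat_lit 6) (nat_lit 6) L23234 (by decide +kernel)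
theorem L23236 : W_1 (nat_lit 2) (nat_lit 0x30000c0016000a0003000000000000000000000000000) (nat_lit 0x0) (nat_lit 0x40002000000000000000010000000000000000000000000000000) := D_1 (nat_lit 193) (nat_lit 210) (nat_lit 124) (nat_lit 4) (nat_lit 6) (nat_lit 12) (nat_lit 4) (nat_lit 6) (nat_lit 11) (by decide +kernel)
theorem L23237 : W_1 (nat_lit 3) (nat_lit 0x20000c0016000a0003000000000000000000000000000) (nat_lit 0x0) (nat_lit 0x40006000100000000000010000000000000000000000000000000) := T_1 (nat_lit 176) (nat_lit 194) (nat_lit 7) (nat_lit 6) (nat_lit 7) L23236 (by decide +kernel)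
theorem L23238 : W_1 (nat_lit 4) (nat_lit 0xc0016000a0003000000000000000000000000000) (nat_lit 0x0) (nat_lit 0x40006000300010000000010000000000000000000000000000000) := T_1 (nat_lit 177) (nat_lit 160) (nat_lit 7) (nat_lit 6) (nat_lit 6) L23237 (by decide +kernel)
theorem L23239 : W_1 (nat_lit 5) (nat_lit 0xc0014000a0003000000000000000000000000000) (nat_lit 0x0) (nat_lit 0x40006000300010000200010000000080000000000000000000000) := T_1 (nat_lit 141) (nat_lit 91) (nat_lit 5) (nat_lit 6) (nat_lit 5) L23238 (by decide +kernel)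
theorem L23240 : W_1 (nat_lit 6) (nat_lit 0x80014000a0003000000000000000000000000000) (nat_lit 0x0) (nat_lit 0x40006000380014000200010000000080000000000000000000000) := T_1 (nat_lit 158) (nat_lit 175) (nat_lit 5) (nat_lit 6) (nat_lit 6) L23239 (by decide +kernel)
theorem L23241 : W_1 (nat_lit 7) (nat_lit 0x80014000a0001000000000000000000000000000) (nat_lit 0x0) (nat_lit 0x40006000380014000200010002000180000000000000000000000) := T_1 (nat_lit 109) (nat_lit 92) (nat_lit 6) (nat_lit 6) (nat_lit 9) L23240 (by decide +kernel)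
theorem L23242 : W_1 (nat_lit 8) (nat_lit 0x14000a0001000000000000000000000000000) (nat_lit 0x0) (nat_lit 0x4000700038001c00020001c0068001c0002000000000000000000) := Q_1 (nat_lit 159) (C_1 L23221 (C_1 L23227 (C_1 L23231 (C_1 L23235 (C_1 L23241 N_1))))) (by decide +kernel)
theorem L23243 : W_1 (nat_lit 2) (nat_lit 0x80014000a00010001c0000000000000000000000) (nat_lit 0x0) (nat_lit 0x80004000200000000000000000000000000000000000) := D_1 (nat_lit 158) (nat_lit 141) (nat_lit 175) (nat_lit 5) (nat_lit 6) (nat_lit 5) (nat_lit 5) (nat_lit 6) (nat_lit 6) (by decide +kernel)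
theorem L23244 : W_1 (nat_lit 3) (nat_lit 0x14000a00010001c0000000000000000000000) (nat_lit 0x0) (nat_lit 0x8000c000200000000800000000000000000000000000) := T_1 (nat_lit 159) (nat_lit 107) (nat_lit 4) (nat_lit 6) (nat_lit 9) L23243 (by decide +kernel)
theorem L23245 : W_1 (nat_lit 4) (nat_lit 0x14000a00010000c0000000000000000000000) (nat_lit 0x0) (nat_lit 0x8000c000200000000800100008000000000000000000) := T_1 (nat_lit 92) (nat_lit 75) (nat_lit 6) (nat_lit 6) (nat_lit 8) L23244 (by decide +kernel)
theorem L23246 : W_1 (nat_lit 5) (nat_lit 0x14000a0001000080000000000000000000000) (nat_lit 0x0) (nat_lit 0x8000c00020000000080014000a000000000000000000) := T_1 (nat_lit 90) (nat_lit 73) (nat_lit 4) (nat_lit 6) (nat_lit 8) L23245 (by decide +kernel)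
theorem L23247 : W_1 (nat_lit 6) (nat_lit 0x14000a0001000000000000000000000000000) (nat_lit 0x0) (nat_lit 0x8000c0002000100008001c000e000500000000000000) := Q_1 (nat_lit 91) (C_1 L23188 (C_1 L23175 (C_1 L23178 (C_1 L23246 N_1)))) (by decide +kernel)
theorem L23248 : W_1 (nat_lit 2) (nat_lit 0x14000b0001000080006000200000000000000) (nat_lit 0x0) (nat_lit 0x8000400020000000000) := D_1 (nat_lit 58) (nat_lit 75) (nat_lit 41) (nat_lit 6) (nat_lit 6) (nat_lit 7) (nat_lit 6) (nat_lit 6) (nat_lit 6) (by decide +kernel)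
theorem L23249 : W_1 (nat_lit 3) (nat_lit 0x14000b0001000080006000000000000000000) (nat_lit 0x0) (nat_lit 0x800000008000600020000000000) := T_1 (nat_lit 57) (nat_lit 107) (nat_lit 5) (nat_lit 6) (nat_lit 3) L23248 (by decide +kernel)
theorem L23250 : W_1 (nat_lit 4) (nat_lit 0x14000a0001000080006000000000000000000) (nat_lit 0x0) (nat_lit 0x200010000800000008000600020000000000) := T_1 (nat_lit 124) (nat_lit 141) (nat_lit 5) (nat_lit 6) (nat_lit 4) L23249 (by decide +kernel)
theorem L23251 : W_1 (nat_lit 5) (nat_lit 0x14000a0001000080002000000000000000000) (nat_lit 0x0) (nat_lit 0x20001000080000000c000700020000000000) := T_1 (nat_lit 74) (nat_lit 56) (nat_lit 4) (nat_lit 6) (nat_lit 7) L23250 (by decide +kernel)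
theorem L23252 : W_1 (nat_lit 6) (nat_lit 0x14000a0001000080000000000000000000000) (nat_lit 0x0) (nat_lit 0x20001000080004000e000700020000000000) := T_1 (nat_lit 73) (nat_lit 90) (nat_lit 4) (nat_lit 6) (nat_lit 8) L23251 (by decide +kernel)
theorem L23253 : W_1 (nat_lit 2) (nat_lit 0x3800080014000b0001000180000000000000000000000) (nat_lit 0x0) (nat_lit 0x2000000000000200000000000000004000000000000000000) := D_1 (nat_lit 141) (nat_lit 193) (nat_lit 74) (nat_lit 4) (nat_lit 6) (nat_lit 11) (nat_lit 5) (nat_lit 6) (nat_lit 4) (by decide +kernel)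
theorem L23254 : W_1 (nat_lit 3) (nat_lit 0x3800080014000a0001000180000000000000000000000) (nat_lit 0x0) (nat_lit 0x2000000000000200010000800000004000000000000000000) := T_1 (nat_lit 124) (nat_lit 107) (nat_lit 4) (nat_lit 6) (nat_lit 10) L23253 (by decide +kernel)
theorem L23255 : W_1 (nat_lit 4) (nat_lit 0x3000080014000a0001000180000000000000000000000) (nat_lit 0x0) (nat_lit 0x3000080000000200010000800000004000000000000000000) := T_1 (nat_lit 175) (nat_lit 192) (nat_lit 5) (nat_lit 6) (nat_lit 7) L23254 (by decide +kernel)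
theorem L23256 : W_1 (nat_lit 5) (nat_lit 0x2000080014000a0001000180000000000000000000000) (nat_lit 0x0) (nat_lit 0x7000180000000200010000800000004000000000000000000) := T_1 (nat_lit 176) (nat_lit 194) (nat_lit 7) (nat_lit 6) (nat_lit 7) L23255 (by decide +kernel)
theorem L23257 : W_1 (nat_lit 6) (nat_lit 0x80014000a0001000180000000000000000000000) (nat_lit 0x0) (nat_lit 0x7000380010000200010000800000004000000000000000000) := T_1 (nat_lit 177) (nat_lit 160) (nat_lit 7) (nat_lit 6) (nat_lit 6) L23256 (by decide +kernel)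
theorem L23258 : W_1 (nat_lit 7) (nat_lit 0x14000a0001000180000000000000000000000) (nat_lit 0x0) (nat_lit 0x7000380018000200010002800000004000000000000000000) := T_1 (nat_lit 159) (nat_lit 109) (nat_lit 6) (nat_lit 6) (nat_lit 9) L23257 (by decide +kernel)
theorem L23259 : W_1 (nat_lit 8) (nat_lit 0x14000a0001000080000000000000000000000) (nat_lit 0x0) (nat_lit 0x700038001800020001000280010000c000000000000000000) := T_1 (nat_lit 92) (nat_lit 75) (nat_lit 6) (nat_lit 6) (nat_lit 8) L23258 (by decide +kernel)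
theorem L23260 : W_1 (nat_lit 2) (nat_lit 0x14000a00010001c0000000000000000000000) (nat_lit 0x0) (nat_lit 0x8000000000002800000000000000000000000000) := D_1 (nat_lit 159) (nat_lit 109) (nat_lit 107) (nat_lit 6) (nat_lit 6) (nat_lit 9) (nat_lit 4) (nat_lit 6) (nat_lit 9) (by decide +kernel)
theorem L23261 : W_1 (nat_lit 3) (nat_lit 0x14000a0001000180000000000000000000000) (nat_lit 0x0) (nat_lit 0x8000000000002800040002000000000000000000) := T_1 (nat_lit 90) (nat_lit 73) (nat_lit 4) (nat_lit 6) (nat_lit 8) L23260 (by decide +kernel)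
theorem L23262 : W_1 (nat_lit 4) (nat_lit 0x14000a0001000080000000000000000000000) (nat_lit 0x0) (nat_lit 0x800000000000280014000a000000000000000000) := T_1 (nat_lit 92) (nat_lit 75) (nat_lit 6) (nat_lit 6) (nat_lit 8) L23261 (by decide +kernel)
theorem L23263 : W_1 (nat_lit 2) (nat_lit 0x80014000b0003800080006000000000000000000) (nat_lit 0x0) (nat_lit 0x108004000000000000000000000000000) := D_1 (nat_lit 110) (nat_lit 128) (nat_lit 123) (nat_lit 3) (nat_lit 5) (nat_lit 6) (nat_lit 1) (nat_lit 8) (nat_lit 6) (by decide +kernel)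
theorem L23264 : W_1 (nat_lit 3) (nat_lit 0x80014000b0001800080006000000000000000000) (nat_lit 0x0) (nat_lit 0x108006000100000000000000000000000) := T_1 (nat_lit 109) (nat_lit 92) (nat_lit 6) (nat_lit 6) (nat_lit 9) L23263 (by decide +kernel)
theorem L23265 : W_1 (nat_lit 4) (nat_lit 0x14000b0001800080006000000000000000000) (nat_lit 0x0) (nat_lit 0x100008000000108006000100000000000000000000000) := T_1 (nat_lit 159) (nat_lit 176) (nat_lit 4) (nat_lit 6) (nat_lit 10) L23264 (by decide +kernel)
theorem L23266 : W_1 (nat_lit 5) (nat_lit 0x14000b0001000080006000000000000000000) (nat_lit 0x0) (nat_lit 0x100008000000108006800100000000200000000000000) := T_1 (nat_lit 107) (nat_lit 57) (nat_lit 5) (nat_lit 6) (nat_lit 3) L23265 (by decide +kernel)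
theorem L23267 : W_1 (nat_lit 6) (nat_lit 0x14000a0001000080006000000000000000000) (nat_lit 0x0) (nat_lit 0x100008000200118006800100000000200000000000000) := T_1 (nat_lit 124) (nat_lit 141) (nat_lit 5) (nat_lit 6) (nat_lit 4) L23266 (by decide +kernel)
theorem L23268 : W_1 (nat_lit 7) (nat_lit 0x14000a0001000080002000000000000000000) (nat_lit 0x0) (nat_lit 0x100008000200118006800100004000300000000000000) := T_1 (nat_lit 74) (nat_lit 56) (nat_lit 4) (nat_lit 6) (nat_lit 7) L23267 (by decide +kernel)
theorem L23269 : W_1 (nat_lit 8) (nat_lit 0x14000a0001000080000000000000000000000) (nat_lit 0x0) (nat_lit 0x100008000200118006800140006000300000000000000) := T_1 (nat_lit 73) (nat_lit 90) (nat_lit 4) (nat_lit 6) (nat_lit 8) L23268 (by decide +kernel)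
theorem L23270 : W_1 (nat_lit 9) (nat_lit 0x14000a0001000000000000000000000000000) (nat_lit 0x0) (nat_lit 0x70003800180002001180068001c000e000700020000000000) := Q_1 (nat_lit 91) (C_1 L23175 (C_1 L23252 (C_1 L23259 (C_1 L23262 (C_1 L23269 N_1))))) (by decide +kernel)
theorem L23271 : W_1 (nat_lit 2) (nat_lit 0x30000c0016000a0001000000000000000000000000000) (nat_lit 0x0) (nat_lit 0x40002000000000000000010000000000000000000000000000000) := D_1 (nat_lit 193) (nat_lit 210) (nat_lit 124) (nat_lit 4) (nat_lit 6) (nat_lit 12) (nat_lit 4) (nat_lit 6) (nat_lit 11) (by decide +kernel)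
theorem L23272 : W_1 (nat_lit 3) (nat_lit 0x20000c0016000a0001000000000000000000000000000) (nat_lit 0x0) (nat_lit 0x40006000100000000000010000000000000000000000000000000) := T_1 (nat_lit 176) (nat_lit 194) (nat_lit 7) (nat_lit 6) (nat_lit 7) L23271 (by decide +kernel)
theorem L23273 : W_1 (nat_lit 4) (nat_lit 0x20000c0014000a0001000000000000000000000000000) (nat_lit 0x0) (nat_lit 0x40006000100000000200010000000080000000000000000000000) := T_1 (nat_lit 141) (nat_lit 91) (nat_lit 5) (nat_lit 6) (nat_lit 5) L23272 (by decide +kernel)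
theorem L23274 : W_1 (nat_lit 5) (nat_lit 0x2000080014000a0001000000000000000000000000000) (nat_lit 0x0) (nat_lit 0x40006000180004000200010000000080000000000000000000000) := T_1 (nat_lit 158) (nat_lit 175) (nat_lit 5) (nat_lit 6) (nat_lit 6) L23273 (by decide +kernel)
theorem L23275 : W_1 (nat_lit 6) (nat_lit 0x80014000a0001000000000000000000000000000) (nat_lit 0x0) (nat_lit 0x40006000380014000200010000000080000000000000000000000) := T_1 (nat_lit 177) (nat_lit 160) (nat_lit 7) (nat_lit 6) (nat_lit 6) L23274 (by decide +kernel)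
theorem L23276 : W_1 (nat_lit 2) (nat_lit 0x800080014000a0001800000000000000000000000000) (nat_lit 0x0) (nat_lit 0x1000100000000000010000000000000000000000000000000) := D_1 (nat_lit 176) (nat_lit 124) (nat_lit 192) (nat_lit 4) (nat_lit 6) (nat_lit 10) (nat_lit 5) (nat_lit 6) (nat_lit 7) (by decide +kernel)
theorem L23277 : W_1 (nat_lit 3) (nat_lit 0x80014000a0001800000000000000000000000000) (nat_lit 0x0) (nat_lit 0x1000180004000000010000000000000000000000000000000) := T_1 (nat_lit 175) (nat_lit 158) (nat_lit 5) (nat_lit 6) (nat_lit 6) L23276 (by decide +kernel)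
theorem L23278 : W_1 (nat_lit 4) (nat_lit 0x80014000a0001000000000000000000000000000) (nat_lit 0x0) (nat_lit 0x1000180004000000010000800040000000000000000000000) := T_1 (nat_lit 107) (nat_lit 90) (nat_lit 4) (nat_lit 6) (nat_lit 9) L23277 (by decide +kernel)
theorem L23279 : W_1 (nat_lit 2) (nat_lit 0x2000080014000a0001800000000000000000000000000) (nat_lit 0x0) (nat_lit 0x4000100000000000010000000000000000000000000000000) := D_1 (nat_lit 176) (nat_lit 124) (nat_lit 194) (nat_lit 4) (nat_lit 6) (nat_lit 10) (nat_lit 7) (nat_lit 6) (nat_lit 7) (by decide +kernel)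
theorem L23280 : W_1 (nat_lit 3) (nat_lit 0x80014000a0001800000000000000000000000000) (nat_lit 0x0) (nat_lit 0x4000300010000000010000000000000000000000000000000) := T_1 (nat_lit 177) (nat_lit 160) (nat_lit 7) (nat_lit 6) (nat_lit 6) L23279 (by decide +kernel)
theorem L23281 : W_1 (nat_lit 4) (nat_lit 0x80014000a0001000000000000000000000000000) (nat_lit 0x0) (nat_lit 0x4000300010000000010000800040000000000000000000000) := T_1 (nat_lit 107) (nat_lit 90) (nat_lit 4) (nat_lit 6) (nat_lit 9) L23280 (by decide +kernel)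
theorem L23282 : W_1 (nat_lit 7) (nat_lit 0x14000a0001000000000000000000000000000) (nat_lit 0x0) (nat_lit 0x4000700038001c0002000100008000c0002000000000000000000) := Q_1 (nat_lit 159) (C_1 L23275 (C_1 L23278 (C_1 L23281 (C_1 L23235 N_1)))) (by decide +kernel)
theorem L23283 : W_1 (nat_lit 2) (nat_lit 0x1c0014000a0001000100000000000000000000000) (nat_lit 0x0) (nat_lit 0x200000000000080008000000000000000000) := D_1 (nat_lit 91) (nat_lit 141) (nat_lit 75) (nat_lit 5) (nat_lit 6) (nat_lit 5) (nat_lit 6) (nat_lit 6) (nat_lit 8) (by decide +kernel)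
theorem L23284 : W_1 (nat_lit 3) (nat_lit 0x180014000a0001000100000000000000000000000) (nat_lit 0x0) (nat_lit 0x80004000200000000000080008000000000000000000) := T_1 (nat_lit 158) (nat_lit 175) (nat_lit 5) (nat_lit 6) (nat_lit 6) L23283 (by decide +kernel)
theorem L23285 : W_1 (nat_lit 4) (nat_lit 0x180014000a0001000000000000000000000000000) (nat_lit 0x0) (nat_lit 0x80004000200000002000180008000000000000000000) := T_1 (nat_lit 92) (nat_lit 109) (nat_lit 6) (nat_lit 6) (nat_lit 9) L23284 (by decide +kernel)
theorem L23286 : W_1 (nat_lit 5) (nat_lit 0x80014000a0001000000000000000000000000000) (nat_lit 0x0) (nat_lit 0x280014000200000002000180008000000000000000000) := T_1 (nat_lit 160) (nat_lit 177) (nat_lit 7) (nat_lit 6) (nat_lit 6) L23285 (by decide +kernel)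
theorem L23287 : W_1 (nat_lit 2) (nat_lit 0xc0014000a0001000080000000000000000000000) (nat_lit 0x0) (nat_lit 0x800040002000000000000000000) := D_1 (nat_lit 90) (nat_lit 73) (nat_lit 107) (nat_lit 4) (nat_lit 6) (nat_lit 8) (nat_lit 4) (nat_lit 6) (nat_lit 9) (by decide +kernel)
theorem L23288 : W_1 (nat_lit 3) (nat_lit 0xc0014000a0001000000000000000000000000000) (nat_lit 0x0) (nat_lit 0x2000000008000c0002000000000000000000) := T_1 (nat_lit 91) (nat_lit 141) (nat_lit 5) (nat_lit 6) (nat_lit 5) L23287 (by decide +kernel)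
theorem L23289 : W_1 (nat_lit 4) (nat_lit 0x80014000a0001000000000000000000000000000) (nat_lit 0x0) (nat_lit 0x800040002000000008000c0002000000000000000000) := T_1 (nat_lit 158) (nat_lit 175) (nat_lit 5) (nat_lit 6) (nat_lit 6) L23288 (by decide +kernel)
theorem L23290 : W_1 (nat_lit 2) (nat_lit 0x180014000a00010000c0000000000000000000000) (nat_lit 0x0) (nat_lit 0x2000100008000000000000000000) := D_1 (nat_lit 92) (nat_lit 109) (nat_lit 75) (nat_lit 6) (nat_lit 6) (nat_lit 9) (nat_lit 6) (nat_lit 6) (nat_lit 8) (by decide +kernel)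
theorem L23291 : W_1 (nat_lit 3) (nat_lit 0x180014000a0001000040000000000000000000000) (nat_lit 0x0) (nat_lit 0x200018000a000000000000000000) := T_1 (nat_lit 91) (nat_lit 73) (nat_lit 4) (nat_lit 6) (nat_lit 8) L23290 (by decide +kernel)
theorem L23292 : W_1 (nat_lit 4) (nat_lit 0x80014000a0001000040000000000000000000000) (nat_lit 0x0) (nat_lit 0x20001000000000000200018000a000000000000000000) := T_1 (nat_lit 160) (nat_lit 177) (nat_lit 7) (nat_lit 6) (nat_lit 6) L23291 (by decide +kernel)
theorem L23293 : W_1 (nat_lit 5) (nat_lit 0x80014000a0001000000000000000000000000000) (nat_lit 0x0) (nat_lit 0x2000100000000000028001c000a000000000000000000) := T_1 (nat_lit 90) (nat_lit 107) (nat_lit 4) (nat_lit 6) (nat_lit 9) L23292 (by decide +kernel)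
theorem L23294 : W_1 (nat_lit 2) (nat_lit 0x1800080014000a0007800200000000000000000000000) (nat_lit 0x0) (nat_lit 0x4000200010000000000000000000000000000000000000000) := D_1 (nat_lit 177) (nat_lit 160) (nat_lit 194) (nat_lit 7) (nat_lit 6) (nat_lit 6) (nat_lit 7) (nat_lit 6) (nat_lit 7) (by decide +kernel)
theorem L23295 : W_1 (nat_lit 3) (nat_lit 0x800080014000a0007800200000000000000000000000) (nat_lit 0x0) (nat_lit 0x5000300010000000000000000000000000000000000000000) := T_1 (nat_lit 176) (nat_lit 192) (nat_lit 5) (nat_lit 6) (nat_lit 7) L23294 (by decide +kernel)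
theorem L23296 : W_1 (nat_lit 4) (nat_lit 0x800080014000a0007800000000000000000000000000) (nat_lit 0x0) (nat_lit 0x5000300010000000000000000600000000000000000000000) := T_1 (nat_lit 93) (nat_lit 94) (nat_lit 2) (nat_lit 5) (nat_lit 6) L23295 (by decide +kernel)
theorem L23297 : W_1 (nat_lit 5) (nat_lit 0x800080014000a0003800000000000000000000000000) (nat_lit 0x0) (nat_lit 0x5000300010000000100004000600000000000000000000000) := T_1 (nat_lit 110) (nat_lit 128) (nat_lit 3) (nat_lit 5) (nat_lit 6) L23296 (by decide +kernel)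
theorem L23298 : W_1 (nat_lit 6) (nat_lit 0x800080014000a0003000000000000000000000000000) (nat_lit 0x0) (nat_lit 0x5000300010000000100004800640000000000000000000000) := T_1 (nat_lit 107) (nat_lit 90) (nat_lit 4) (nat_lit 6) (nat_lit 9) L23297 (by decide +kernel)
theorem L23299 : W_1 (nat_lit 7) (nat_lit 0x80014000a0003000000000000000000000000000) (nat_lit 0x0) (nat_lit 0x5000380014000000100004800640000000000000000000000) := T_1 (nat_lit 175) (nat_lit 158) (nat_lit 5) (nat_lit 6) (nat_lit 6) L23298 (by decide +kernel)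
theorem L23300 : W_1 (nat_lit 8) (nat_lit 0x80014000a0001000000000000000000000000000) (nat_lit 0x0) (nat_lit 0x5000380014000000100006800740000000000000000000000) := T_1 (nat_lit 109) (nat_lit 92) (nat_lit 6) (nat_lit 6) (nat_lit 9) L23299 (by decide +kernel)
theorem L23301 : W_1 (nat_lit 9) (nat_lit 0x14000a0001000000000000000000000000000) (nat_lit 0x0) (nat_lit 0x500038001c0002001000068007c000a000000000000000000) := Q_1 (nat_lit 159) (C_1 L23286 (C_1 L23289 (C_1 L23293 (C_1 L23300 N_1)))) (by decide +kernel)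
theorem L23302 : W_1 (nat_lit 2) (nat_lit 0x3000080014000a0003000000000000000000000000000) (nat_lit 0x0) (nat_lit 0x1000080004000000000000000000000000000000000000000) := D_1 (nat_lit 175) (nat_lit 192) (nat_lit 158) (nat_lit 5) (nat_lit 6) (nat_lit 7) (nat_lit 5) (nat_lit 6) (nat_lit 6) (by decide +kernel)
theorem L23303 : W_1 (nat_lit 3) (nat_lit 0x2000080014000a0003000000000000000000000000000) (nat_lit 0x0) (nat_lit 0x5000180004000000000000000000000000000000000000000) := T_1 (nat_lit 176) (nat_lit 194) (nat_lit 7) (nat_lit 6) (nat_lit 7) L23302 (by decide +kernel)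
theorem L23304 : W_1 (nat_lit 4) (nat_lit 0x2000080014000a0001000000000000000000000000000) (nat_lit 0x0) (nat_lit 0x5000180004000000000002000100000000000000000000000) := T_1 (nat_lit 109) (nat_lit 92) (nat_lit 6) (nat_lit 6) (nat_lit 9) L23303 (by decide +kernel)
theorem L23305 : W_1 (nat_lit 5) (nat_lit 0x80014000a0001000000000000000000000000000) (nat_lit 0x0) (nat_lit 0x5000380014000000000002000100000000000000000000000) := T_1 (nat_lit 177) (nat_lit 160) (nat_lit 7) (nat_lit 6) (nat_lit 6) L23304 (by decide +kernel)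
theorem L23306 : W_1 (nat_lit 2) (nat_lit 0x1c0014000a0007800000000000000000000000000) (nat_lit 0x0) (nat_lit 0x18008000000000000000000000000000) := D_1 (nat_lit 124) (nat_lit 123) (nat_lit 111) (nat_lit 1) (nat_lit 8) (nat_lit 6) (nat_lit 1) (nat_lit 9) (nat_lit 6) (by decide +kernel)
theorem L23307 : W_1 (nat_lit 3) (nat_lit 0x1c0014000a0003800000000000000000000000000) (nat_lit 0x0) (nat_lit 0x11800c000000000000000000000000000) := T_1 (nat_lit 110) (nat_lit 128) (nat_lit 3) (nat_lit 5) (nat_lit 6) L23306 (by decide +kernel)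
theorem L23308 : W_1 (nat_lit 4) (nat_lit 0x1c0014000a0003000000000000000000000000000) (nat_lit 0x0) (nat_lit 0x11800c800040000000000000000000000) := T_1 (nat_lit 107) (nat_lit 90) (nat_lit 4) (nat_lit 6) (nat_lit 9) L23307 (by decide +kernel)
theorem L23309 : W_1 (nat_lit 5) (nat_lit 0x1c0014000a0001000000000000000000000000000) (nat_lit 0x0) (nat_lit 0x11800e800140000000000000000000000) := T_1 (nat_lit 109) (nat_lit 92) (nat_lit 6) (nat_lit 6) (nat_lit 9) L23308 (by decide +kernel)
theorem L23310 : W_1 (nat_lit 6) (nat_lit 0x180014000a0001000000000000000000000000000) (nat_lit 0x0) (nat_lit 0x8000400000011800e800140000000000000000000000) := T_1 (nat_lit 158) (nat_lit 175) (nat_lit 5) (nat_lit 6) (nat_lit 6) L23309 (by decide +kernel)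
theorem L23311 : W_1 (nat_lit 7) (nat_lit 0x80014000a0001000000000000000000000000000) (nat_lit 0x0) (nat_lit 0x28001400000011800e800140000000000000000000000) := T_1 (nat_lit 160) (nat_lit 177) (nat_lit 7) (nat_lit 6) (nat_lit 6) L23310 (by decide +kernel)
theorem L23312 : W_1 (nat_lit 8) (nat_lit 0x14000a0001000000000000000000000000000) (nat_lit 0x0) (nat_lit 0x500038001c00000011800e800140000000000000000000000) := Q_1 (nat_lit 159) (C_1 L23305 (C_1 L23278 (C_1 L23281 (C_1 L23311 N_1)))) (by decide +kernel)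
theorem L23313 : W_1 (nat_lit 2) (nat_lit 0x10003000080016000a00010001c0000000000000000000000) (nat_lit 0x0) (nat_lit 0x20002000000000000000010000000000000000000000000000000) := D_1 (nat_lit 193) (nat_lit 124) (nat_lit 209) (nat_lit 4) (nat_lit 6) (nat_lit 11) (nat_lit 5) (nat_lit 6) (nat_lit 8) (by decide +kernel)
theorem L23314 : W_1 (nat_lit 3) (nat_lit 0x3000080016000a00010001c0000000000000000000000) (nat_lit 0x0) (nat_lit 0x20003000080000000000010000000000000000000000000000000) := T_1 (nat_lit 192) (nat_lit 175) (nat_lit 5) (nat_lit 6) (nat_lit 7) L23313 (by decide +kernel)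
theorem L23315 : W_1 (nat_lit 4) (nat_lit 0x2000080016000a00010001c0000000000000000000000) (nat_lit 0x0) (nat_lit 0x20007000180000000000010000000000000000000000000000000) := T_1 (nat_lit 176) (nat_lit 194) (nat_lit 7) (nat_lit 6) (nat_lit 7) L23314 (by decide +kernel)
theorem L23316 : W_1 (nat_lit 5) (nat_lit 0x80016000a00010001c0000000000000000000000) (nat_lit 0x0) (nat_lit 0x20007000380010000000010000000000000000000000000000000) := T_1 (nat_lit 177) (nat_lit 160) (nat_lit 7) (nat_lit 6) (nat_lit 6) L23315 (by decide +kernel)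
theorem L23317 : W_1 (nat_lit 6) (nat_lit 0x16000a00010001c0000000000000000000000) (nat_lit 0x0) (nat_lit 0x20007000380018000000010002000000000000000000000000000) := T_1 (nat_lit 159) (nat_lit 109) (nat_lit 6) (nat_lit 6) (nat_lit 9) L23316 (by decide +kernel)
theorem L23318 : W_1 (nat_lit 7) (nat_lit 0x14000a00010001c0000000000000000000000) (nat_lit 0x0) (nat_lit 0x2000700038001c000200010002000000000000000000000000000) := T_1 (nat_lit 141) (nat_lit 158) (nat_lit 5) (nat_lit 6) (nat_lit 5) L23317 (by decide +kernel)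
theorem L23319 : W_1 (nat_lit 8) (nat_lit 0x14000a00010000c0000000000000000000000) (nat_lit 0x0) (nat_lit 0x2000700038001c000200010002000100008000000000000000000) := T_1 (nat_lit 92) (nat_lit 75) (nat_lit 6) (nat_lit 6) (nat_lit 8) L23318 (by decide +kernel)
theorem L23320 : W_1 (nat_lit 9) (nat_lit 0x14000a0001000080000000000000000000000) (nat_lit 0x0) (nat_lit 0x2000700038001c00020001000200014000a000000000000000000) := T_1 (nat_lit 90) (nat_lit 73) (nat_lit 4) (nat_lit 6) (nat_lit 8) L23319 (by decide +kernel)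
theorem L23321 : W_1 (nat_lit 10) (nat_lit 0x14000a0001000000000000000000000000000) (nat_lit 0x0) (nat_lit 0x2000700038001c0002000100020001c000e000500000000000000) := Q_1 (nat_lit 91) (C_1 L23188 (C_1 L23175 (C_1 L23178 (C_1 L23320 N_1)))) (by decide +kernel)
theorem L23322 : W_1 (nat_lit 2) (nat_lit 0xc0014000a0001000080000000000000000000000) (nat_lit 0x0) (nat_lit 0x2000100008000000000000000000) := D_1 (nat_lit 92) (nat_lit 109) (nat_lit 75) (nat_lit 6) (nat_lit 6) (nat_lit 9) (nat_lit 6) (nat_lit 6) (nat_lit 8) (by decide +kernel)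
theorem L23323 : W_1 (nat_lit 3) (nat_lit 0xc0014000a0001000000000000000000000000000) (nat_lit 0x0) (nat_lit 0x200000002000180008000000000000000000) := T_1 (nat_lit 91) (nat_lit 141) (nat_lit 5) (nat_lit 6) (nat_lit 5) L23322 (by decide +kernel)
theorem L23324 : W_1 (nat_lit 4) (nat_lit 0x80014000a0001000000000000000000000000000) (nat_lit 0x0) (nat_lit 0x80004000200000002000180008000000000000000000) := T_1 (nat_lit 158) (nat_lit 175) (nat_lit 5) (nat_lit 6) (nat_lit 6) L23323 (by decide +kernel)
theorem L23325 : W_1 (nat_lit 2) (nat_lit 0x10003000080014000b0003000000000000000000000000000) (nat_lit 0x0) (nat_lit 0x20002000000000000200000000000000000000000000000000000) := D_1 (nat_lit 193) (nat_lit 209) (nat_lit 141) (nat_lit 5) (nat_lit 6) (nat_lit 8) (nat_lit 4) (nat_lit 6) (nat_lit 11) (by decide +kernel)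
theorem L23326 : W_1 (nat_lit 3) (nat_lit 0x10003000080014000a0003000000000000000000000000000) (nat_lit 0x0) (nat_lit 0x20002000000000000200010000800000000000000000000000000) := T_1 (nat_lit 124) (nat_lit 107) (nat_lit 4) (nat_lit 6) (nat_lit 10) L23325 (by decide +kernel)
theorem L23327 : W_1 (nat_lit 4) (nat_lit 0x3000080014000a0003000000000000000000000000000) (nat_lit 0x0) (nat_lit 0x20003000080000000200010000800000000000000000000000000) := T_1 (nat_lit 192) (nat_lit 175) (nat_lit 5) (nat_lit 6) (nat_lit 7) L23326 (by decide +kernel)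
theorem L23328 : W_1 (nat_lit 5) (nat_lit 0x2000080014000a0003000000000000000000000000000) (nat_lit 0x0) (nat_lit 0x20007000180000000200010000800000000000000000000000000) := T_1 (nat_lit 176) (nat_lit 194) (nat_lit 7) (nat_lit 6) (nat_lit 7) L23327 (by decide +kernel)
theorem L23329 : W_1 (nat_lit 6) (nat_lit 0x2000080014000a0001000000000000000000000000000) (nat_lit 0x0) (nat_lit 0x20007000180000000200010002800100000000000000000000000) := T_1 (nat_lit 109) (nat_lit 92) (nat_lit 6) (nat_lit 6) (nat_lit 9) L23328 (by decide +kernel)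
theorem L23330 : W_1 (nat_lit 7) (nat_lit 0x80014000a0001000000000000000000000000000) (nat_lit 0x0) (nat_lit 0x20007000380010000200010002800100000000000000000000000) := T_1 (nat_lit 177) (nat_lit 160) (nat_lit 7) (nat_lit 6) (nat_lit 6) L23329 (by decide +kernel)
theorem L23331 : W_1 (nat_lit 2) (nat_lit 0x180016000b0001000180000000000000000000000) (nat_lit 0x0) (nat_lit 0x2000100000000000000000800000000000000000000000000) := D_1 (nat_lit 176) (nat_lit 193) (nat_lit 107) (nat_lit 4) (nat_lit 6) (nat_lit 11) (nat_lit 4) (nat_lit 6) (nat_lit 10) (by decide +kernel)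
theorem L23332 : W_1 (nat_lit 3) (nat_lit 0x180016000a0001000180000000000000000000000) (nat_lit 0x0) (nat_lit 0x2000100000000000010000800000004000000000000000000) := T_1 (nat_lit 124) (nat_lit 74) (nat_lit 5) (nat_lit 6) (nat_lit 4) L23331 (by decide +kernel)
theorem L23333 : W_1 (nat_lit 4) (nat_lit 0x180014000a0001000180000000000000000000000) (nat_lit 0x0) (nat_lit 0x2000100004000200010000800000004000000000000000000) := T_1 (nat_lit 141) (nat_lit 158) (nat_lit 5) (nat_lit 6) (nat_lit 5) L23332 (by decide +kernel)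
theorem L23334 : W_1 (nat_lit 5) (nat_lit 0x180014000a0001000100000000000000000000000) (nat_lit 0x0) (nat_lit 0x200010000400020001000080008000c000000000000000000) := T_1 (nat_lit 91) (nat_lit 75) (nat_lit 6) (nat_lit 6) (nat_lit 8) L23333 (by decide +kernel)
theorem L23335 : W_1 (nat_lit 6) (nat_lit 0x180014000a0001000000000000000000000000000) (nat_lit 0x0) (nat_lit 0x200010000400020001000280018000c000000000000000000) := T_1 (nat_lit 92) (nat_lit 109) (nat_lit 6) (nat_lit 6) (nat_lit 9) L23334 (by decide +kernel)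
theorem L23336 : W_1 (nat_lit 7) (nat_lit 0x80014000a0001000000000000000000000000000) (nat_lit 0x0) (nat_lit 0x200030001400020001000280018000c000000000000000000) := T_1 (nat_lit 160) (nat_lit 177) (nat_lit 7) (nat_lit 6) (nat_lit 6) L23335 (by decide +kernel)
theorem L23337 : W_1 (nat_lit 8) (nat_lit 0x14000a0001000000000000000000000000000) (nat_lit 0x0) (nat_lit 0x6000700038001c00020001000280018000c000000000000000000) := Q_1 (nat_lit 159) (C_1 L23305 (C_1 L23324 (C_1 L23275 (C_1 L23330 (C_1 L23336 N_1))))) (by decide +kernel)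
theorem L23338 : W_1 (nat_lit 11) (nat_lit 0x14000a0000000000000000000000000000000) (nat_lit 0x0) (nat_lit 0x6000700038005c00220011c00fe00fe003f800700038001000000) := Q_1 (nat_lit 108) (C_1 L23217 (C_1 L23242 (C_1 L23247 (C_1 L23270 (C_1 L23282 (C_1 L23301 (C_1 L23312 (C_1 L23321 (C_1 L23337 N_1))))))))) (by decide +kernel)
theorem L23339 : W_1 (nat_lit 2) (nat_lit 0x1c000a00030001c0000000000000000000000) (nat_lit 0x0) (nat_lit 0x4000030000000000000000000000) := D_1 (nat_lit 89) (nat_lit 110) (nat_lit 88) (nat_lit 3) (nat_lit 4) (nat_lit 5) (nat_lit 3) (nat_lit 3) (nat_lit 5) (by decide +kernel)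
theorem L23340 : W_1 (nat_lit 3) (nat_lit 0x1c000a00010001c0000000000000000000000) (nat_lit 0x0) (nat_lit 0x8000000000006000030000000000000000000000) := T_1 (nat_lit 109) (nat_lit 159) (nat_lit 6) (nat_lit 6) (nat_lit 9) L23339 (by decide +kernel)
theorem L23341 : W_1 (nat_lit 4) (nat_lit 0x1c000a0001000180000000000000000000000) (nat_lit 0x0) (nat_lit 0x8000000000006000070002000000000000000000) := T_1 (nat_lit 90) (nat_lit 73) (nat_lit 4) (nat_lit 6) (nat_lit 8) L23340 (by decide +kernel)
theorem L23342 : W_1 (nat_lit 5) (nat_lit 0x1c000a0001000080000000000000000000000) (nat_lit 0x0) (nat_lit 0x800000000000600017000a000000000000000000) := T_1 (nat_lit 92) (nat_lit 75) (nat_lit 6) (nat_lit 6) (nat_lit 8) L23341 (by decide +kernel)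
theorem L23343 : W_1 (nat_lit 6) (nat_lit 0x1c000a0001000000000000000000000000000) (nat_lit 0x0) (nat_lit 0x180000000000060001f000a000000000000000000) := T_1 (nat_lit 91) (nat_lit 160) (nat_lit 7) (nat_lit 6) (nat_lit 5) L23342 (by decide +kernel)
theorem L23344 : W_1 (nat_lit 2) (nat_lit 0x1c000a000100008000c000000000000000000) (nat_lit 0x0) (nat_lit 0x40002000100000000000000) := D_1 (nat_lit 73) (nat_lit 56) (nat_lit 90) (nat_lit 4) (nat_lit 6) (nat_lit 7) (nat_lit 4) (nat_lit 6) (nat_lit 8) (by decide +kernel)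
theorem L23345 : W_1 (nat_lit 3) (nat_lit 0x1c000a0001000080008000000000000000000) (nat_lit 0x0) (nat_lit 0x40006000500000000000000) := T_1 (nat_lit 74) (nat_lit 58) (nat_lit 6) (nat_lit 6) (nat_lit 7) L23344 (by decide +kernel)
theorem L23346 : W_1 (nat_lit 4) (nat_lit 0x1c000a0001000080000000000000000000000) (nat_lit 0x0) (nat_lit 0x14000e000500000000000000) := T_1 (nat_lit 75) (nat_lit 92) (nat_lit 6) (nat_lit 6) (nat_lit 8) L23345 (by decide +kernel)
theorem L23347 : W_1 (nat_lit 5) (nat_lit 0x1c000a0001000000000000000000000000000) (nat_lit 0x0) (nat_lit 0x100000000000000001c000e000500000000000000) := T_1 (nat_lit 91) (nat_lit 160) (nat_lit 7) (nat_lit 6) (nat_lit 5) L23346 (by decide +kernel)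
theorem L23362 : W_1 (nat_lit 2) (nat_lit 0x1c000a0001000080004000000000000000000) (nat_lit 0x0) (nat_lit 0x40002000100000000000000) := D_1 (nat_lit 73) (nat_lit 90) (nat_lit 56) (nat_lit 4) (nat_lit 6) (nat_lit 8) (nat_lit 4) (nat_lit 6) (nat_lit 7) (by decide +kernel)
theorem L23371 : W_1 (nat_lit 2) (nat_lit 0x1c000a0001000080004000000000000000000) (nat_lit 0x0) (nat_lit 0x100008000400000000000000) := D_1 (nat_lit 75) (nat_lit 92) (nat_lit 58) (nat_lit 6) (nat_lit 6) (nat_lit 8) (nat_lit 6) (nat_lit 6) (nat_lit 7) (by decide +kernel)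
theorem L23372 : W_1 (nat_lit 2) (nat_lit 0x1c000a0001000100008000000000000000000) (nat_lit 0x0) (nat_lit 0x8000000000002000000000000400000000000000) := D_1 (nat_lit 109) (nat_lit 58) (nat_lit 159) (nat_lit 5) (nat_lit 7) (nat_lit 3) (nat_lit 6) (nat_lit 6) (nat_lit 9) (by decide +kernel)
theorem L23373 : W_1 (nat_lit 3) (nat_lit 0x1c000a0001000100000000000000000000000) (nat_lit 0x0) (nat_lit 0x8000000000002000080008000400000000000000) := T_1 (nat_lit 75) (nat_lit 91) (nat_lit 6) (nat_lit 6) (nat_lit 8) L23372 (by decide +kernel)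
theorem L23374 : W_1 (nat_lit 2) (nat_lit 0x1c000a0007800100008000000000000000000) (nat_lit 0x0) (nat_lit 0x18008000000000000000000000000000) := D_1 (nat_lit 124) (nat_lit 123) (nat_lit 111) (nat_lit 1) (nat_lit 8) (nat_lit 6) (nat_lit 1) (nat_lit 9) (nat_lit 6) (by decide +kernel)
theorem L23375 : W_1 (nat_lit 3) (nat_lit 0x1c000a0007000100008000000000000000000) (nat_lit 0x0) (nat_lit 0x118008800000000000000000000000000) := T_1 (nat_lit 107) (nat_lit 128) (nat_lit 3) (nat_lit 5) (nat_lit 6) L23374 (by decide +kernel)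
theorem L23376 : W_1 (nat_lit 4) (nat_lit 0x1c000a0003000100008000000000000000000) (nat_lit 0x0) (nat_lit 0x11800c800200000000000000000000000) := T_1 (nat_lit 110) (nat_lit 93) (nat_lit 4) (nat_lit 8) (nat_lit 8) L23375 (by decide +kernel)
theorem L23377 : W_1 (nat_lit 5) (nat_lit 0x1c000a0001000100008000000000000000000) (nat_lit 0x0) (nat_lit 0x11800e800200000000400000000000000) := T_1 (nat_lit 109) (nat_lit 58) (nat_lit 5) (nat_lit 7) (nat_lit 3) L23376 (by decide +kernel)
theorem L23378 : W_1 (nat_lit 6) (nat_lit 0x1c000a0001000100000000000000000000000) (nat_lit 0x0) (nat_lit 0x11800e800280008000400000000000000) := T_1 (nat_lit 75) (nat_lit 91) (nat_lit 6) (nat_lit 6) (nat_lit 8) L23377 (by decide +kernel)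
theorem L23379 : W_1 (nat_lit 2) (nat_lit 0x1c000a00018001c0000000000000000000000) (nat_lit 0x0) (nat_lit 0x600200000000000000000000000) := D_1 (nat_lit 106) (nat_lit 105) (nat_lit 93) (nat_lit 2) (nat_lit 3) (nat_lit 6) (nat_lit 1) (nat_lit 8) (nat_lit 5) (by decide +kernel)
theorem L23380 : W_1 (nat_lit 3) (nat_lit 0x1c000a00010001c0000000000000000000000) (nat_lit 0x0) (nat_lit 0x8000000000000e00200000000000000000000000) := T_1 (nat_lit 107) (nat_lit 159) (nat_lit 4) (nat_lit 6) (nat_lit 9) L23379 (by decide +kernel)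
theorem L23381 : W_1 (nat_lit 4) (nat_lit 0x1c000a0001000180000000000000000000000) (nat_lit 0x0) (nat_lit 0x8000000000000e00240002000000000000000000) := T_1 (nat_lit 90) (nat_lit 73) (nat_lit 4) (nat_lit 6) (nat_lit 8) L23380 (by decide +kernel)
theorem L23382 : W_1 (nat_lit 5) (nat_lit 0x1c000a0001000100000000000000000000000) (nat_lit 0x0) (nat_lit 0x8000000000000e002c000a000000000000000000) := T_1 (nat_lit 91) (nat_lit 75) (nat_lit 6) (nat_lit 6) (nat_lit 8) L23381 (by decide +kernel)
theorem L23383 : W_1 (nat_lit 2) (nat_lit 0x80008001c000a0001800100000000000000000000000) (nat_lit 0x0) (nat_lit 0x1000100000000000010000000000000000000000000000000) := D_1 (nat_lit 176) (nat_lit 192) (nat_lit 124) (nat_lit 5) (nat_lit 6) (nat_lit 7) (nat_lit 4) (nat_lit 6) (nat_lit 10) (by decide +kernel)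
theorem L23384 : W_1 (nat_lit 3) (nat_lit 0x80008001c000a0001000100000000000000000000000) (nat_lit 0x0) (nat_lit 0x1000100000000000010000800040000000000000000000000) := T_1 (nat_lit 107) (nat_lit 90) (nat_lit 4) (nat_lit 6) (nat_lit 9) L23383 (by decide +kernel)
theorem L23385 : W_1 (nat_lit 4) (nat_lit 0x8001c000a0001000100000000000000000000000) (nat_lit 0x0) (nat_lit 0x1000180004000000010000800040000000000000000000000) := T_1 (nat_lit 175) (nat_lit 158) (nat_lit 5) (nat_lit 6) (nat_lit 6) L23384 (by decide +kernel)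
theorem L23386 : W_1 (nat_lit 5) (nat_lit 0x1c000a0001000100000000000000000000000) (nat_lit 0x0) (nat_lit 0x100018000c000000010002800040000000000000000000000) := T_1 (nat_lit 159) (nat_lit 109) (nat_lit 6) (nat_lit 6) (nat_lit 9) L23385 (by decide +kernel)
theorem L23387 : W_1 (nat_lit 7) (nat_lit 0x1c000a0001000000000000000000000000000) (nat_lit 0x0) (nat_lit 0x100018000c00000011800ee003c000a000400000000000000) := Q_1 (nat_lit 92) (C_1 L23373 (C_1 L23378 (C_1 L23382 (C_1 L23386 N_1)))) (by decide +kernel)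
theorem L23388 : W_1 (nat_lit 2) (nat_lit 0x10001c000a0001000000000000000000000000000) (nat_lit 0x0) (nat_lit 0x4000200008000000000000000000000000000000000000000) := D_1 (nat_lit 177) (nat_lit 194) (nat_lit 159) (nat_lit 6) (nat_lit 7) (nat_lit 11) (nat_lit 7) (nat_lit 6) (nat_lit 6) (by decide +kernel)
theorem L23389 : W_1 (nat_lit 3) (nat_lit 0x1c000a0001000000000000000000000000000) (nat_lit 0x0) (nat_lit 0x4000200018000000000000000080000000000000000000000) := T_1 (nat_lit 160) (nat_lit 91) (nat_lit 7) (nat_lit 6) (nat_lit 5) L23388 (by decide +kernel)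
theorem L23390 : W_1 (nat_lit 2) (nat_lit 0x18001c000a0001000000000000000000000000000) (nat_lit 0x0) (nat_lit 0x80006000000000000000000000000000000000000000) := D_1 (nat_lit 158) (nat_lit 175) (nat_lit 157) (nat_lit 5) (nat_lit 6) (nat_lit 6) (nat_lit 2) (nat_lit 4) (nat_lit 9) (by decide +kernel)
theorem L23391 : W_1 (nat_lit 3) (nat_lit 0x8001c000a0001000000000000000000000000000) (nat_lit 0x0) (nat_lit 0x280016000000000000000000000000000000000000000) := T_1 (nat_lit 160) (nat_lit 177) (nat_lit 7) (nat_lit 6) (nat_lit 6) L23390 (by decide +kernel)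
theorem L23392 : W_1 (nat_lit 2) (nat_lit 0x8001c000a0007800000000000000000000000000) (nat_lit 0x0) (nat_lit 0x10000000000000000600000000000000000000000) := D_1 (nat_lit 93) (nat_lit 94) (nat_lit 160) (nat_lit 2) (nat_lit 5) (nat_lit 6) (nat_lit 5) (nat_lit 8) (nat_lit 5) (by decide +kernel)
theorem L23393 : W_1 (nat_lit 3) (nat_lit 0x8001c000a0003800000000000000000000000000) (nat_lit 0x0) (nat_lit 0x10000000100004000600000000000000000000000) := T_1 (nat_lit 110) (nat_lit 128) (nat_lit 3) (nat_lit 5) (nat_lit 6) L23392 (by decide +kernel)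
theorem L23394 : W_1 (nat_lit 4) (nat_lit 0x8001c000a0003000000000000000000000000000) (nat_lit 0x0) (nat_lit 0x10000000100004800640000000000000000000000) := T_1 (nat_lit 107) (nat_lit 90) (nat_lit 4) (nat_lit 6) (nat_lit 9) L23393 (by decide +kernel)
theorem L23395 : W_1 (nat_lit 5) (nat_lit 0x8001c000a0001000000000000000000000000000) (nat_lit 0x0) (nat_lit 0x10000000100006800740000000000000000000000) := T_1 (nat_lit 109) (nat_lit 92) (nat_lit 6) (nat_lit 6) (nat_lit 9) L23394 (by decide +kernel)
theorem L23396 : W_1 (nat_lit 2) (nat_lit 0x8001c000a0007800000000000000000000000000) (nat_lit 0x0) (nat_lit 0x100000000000018000000000000000000000000000000) := D_1 (nat_lit 124) (nat_lit 176) (nat_lit 123) (nat_lit 4) (nat_lit 6) (nat_lit 10) (nat_lit 1) (nat_lit 8) (nat_lit 6) (by decide +kernel)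
theorem L23397 : W_1 (nat_lit 3) (nat_lit 0x8001c000a0003800000000000000000000000000) (nat_lit 0x0) (nat_lit 0x100000000000118004000000000000000000000000000) := T_1 (nat_lit 110) (nat_lit 128) (nat_lit 3) (nat_lit 5) (nat_lit 6) L23396 (by decide +kernel)
theorem L23398 : W_1 (nat_lit 4) (nat_lit 0x8001c000a0001800000000000000000000000000) (nat_lit 0x0) (nat_lit 0x100000000000118006000100000000000000000000000) := T_1 (nat_lit 109) (nat_lit 92) (nat_lit 6) (nat_lit 6) (nat_lit 9) L23397 (by decide +kernel)
theorem L23399 : W_1 (nat_lit 5) (nat_lit 0x8001c000a0001000000000000000000000000000) (nat_lit 0x0) (nat_lit 0x100000000000118006800140000000000000000000000) := T_1 (nat_lit 107) (nat_lit 90) (nat_lit 4) (nat_lit 6) (nat_lit 9) L23398 (by decide +kernel)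
theorem L23400 : W_1 (nat_lit 6) (nat_lit 0x1c000a0001000000000000000000000000000) (nat_lit 0x0) (nat_lit 0x38001e000000118006800740000000000000000000000) := Q_1 (nat_lit 159) (C_1 L23391 (C_1 L23395 (C_1 L23399 N_1))) (by decide +kernel)
theorem L23401 : W_1 (nat_lit 8) (nat_lit 0x1c000a0000000000000000000000000000000) (nat_lit 0x0) (nat_lit 0x500038001e00000011800fe007f000e000500000000000000) := Q_1 (nat_lit 108) (C_1 L23343 (C_1 L23347 (C_1 L23387 (C_1 L23389 (C_1 L23400 N_1))))) (by decide +kernel)
theorem L23432 : W_1 (nat_lit 2) (nat_lit 0x10001f000a0000000000000000000000000000000) (nat_lit 0x0) (nat_lit 0x1c000000000000000000000000000000) := D_1 (nat_lit 123) (nat_lit 124) (nat_lit 122) (nat_lit 0) (nat_lit 8) (nat_lit 8) (nat_lit 0) (nat_lit 7) (nat_lit 8) (by decide +kernel)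
theorem L23433 : W_1 (nat_lit 2) (nat_lit 0x10001f000a4000000200000000000000000000000) (nat_lit 0x0) (nat_lit 0x8000080002000000000000000000000000000000) := D_1 (nat_lit 139) (nat_lit 121) (nat_lit 159) (nat_lit 0) (nat_lit 6) (nat_lit 8) (nat_lit 3) (nat_lit 3) (nat_lit 8) (by decide +kernel)
theorem L23434 : W_1 (nat_lit 3) (nat_lit 0x10001f000a0000000200000000000000000000000) (nat_lit 0x0) (nat_lit 0x800008000e000000000000000000000000000000) := T_1 (nat_lit 122) (nat_lit 123) (nat_lit 0) (nat_lit 7) (nat_lit 8) L23433 (by decide +kernel)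
theorem L23435 : W_1 (nat_lit 4) (nat_lit 0x10001f000a0000000000000000000000000000000) (nat_lit 0x0) (nat_lit 0x800008000e004000200000000000000000000000) := T_1 (nat_lit 93) (nat_lit 110) (nat_lit 5) (nat_lit 8) (nat_lit 5) L23434 (by decide +kernel)
theorem L23436 : W_1 (nat_lit 2) (nat_lit 0x10001fc00a0000000000000000000000000000000) (nat_lit 0x0) (nat_lit 0x1c00000000000000000000000000000000000000) := D_1 (nat_lit 155) (nat_lit 154) (nat_lit 156) (nat_lit 1) (nat_lit 5) (nat_lit 8) (nat_lit 1) (nat_lit 6) (nat_lit 8) (by decide +kernel)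
theorem L23437 : W_1 (nat_lit 3) (nat_lit 0x10001f800a0000000000000000000000000000000) (nat_lit 0x0) (nat_lit 0x1c00040010000000000000000000000000000000) := T_1 (nat_lit 138) (nat_lit 124) (nat_lit 2) (nat_lit 2) (nat_lit 8) L23436 (by decide +kernel)
theorem L23438 : W_1 (nat_lit 4) (nat_lit 0x10001f000a0000000000000000000000000000000) (nat_lit 0x0) (nat_lit 0x9c000c0010000000000000000000000000000000) := T_1 (nat_lit 139) (nat_lit 159) (nat_lit 3) (nat_lit 3) (nat_lit 8) L23437 (by decide +kernel)
theorem L23439 : W_1 (nat_lit 5) (nat_lit 0x10001e000a0000000000000000000000000000000) (nat_lit 0x0) (nat_lit 0x9c001c001e004000200000000000000000000000) := Q_1 (nat_lit 140) (C_1 L23432 (C_1 L23435 (C_1 L23438 N_1))) (by decide +kernel)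
theorem L23440 : W_1 (nat_lit 6) (nat_lit 0x10001c000a0000000000000000000000000000000) (nat_lit 0x0) (nat_lit 0x9c003c011e004000200000000000000000000000) := T_1 (nat_lit 141) (nat_lit 128) (nat_lit 2) (nat_lit 5) (nat_lit 8) L23439 (by decide +kernel)
theorem L23441 : W_1 (nat_lit 2) (nat_lit 0x10001e000b0001000000000000000000000000000) (nat_lit 0x0) (nat_lit 0x4000200008000000000000000000000000000000000000000) := D_1 (nat_lit 177) (nat_lit 194) (nat_lit 159) (nat_lit 6) (nat_lit 7) (nat_lit 11) (nat_lit 7) (nat_lit 6) (nat_lit 6) (by decide +kernel)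
theorem L23442 : W_1 (nat_lit 3) (nat_lit 0x10001e000b0000000000000000000000000000000) (nat_lit 0x0) (nat_lit 0x4000200008000000000001000080000000000000000000000) := T_1 (nat_lit 108) (nat_lit 91) (nat_lit 7) (nat_lit 6) (nat_lit 5) L23441 (by decide +kernel)
theorem L23443 : W_1 (nat_lit 4) (nat_lit 0x10001e000a0000000000000000000000000000000) (nat_lit 0x0) (nat_lit 0x4000200008000000018001000080000000000000000000000) := T_1 (nat_lit 124) (nat_lit 123) (nat_lit 0) (nat_lit 8) (nat_lit 8) L23442 (by decide +kernel)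
theorem L23444 : W_1 (nat_lit 5) (nat_lit 0x10001c000a0000000000000000000000000000000) (nat_lit 0x0) (nat_lit 0x4000200008000200118001000080000000000000000000000) := T_1 (nat_lit 141) (nat_lit 128) (nat_lit 2) (nat_lit 5) (nat_lit 8) L23443 (by decide +kernel)
theorem L23445 : W_1 (nat_lit 8) (nat_lit 0x1c000a0000000000000000000000000000000) (nat_lit 0x0) (nat_lit 0x4000200019c003c031e00f800280000000000000000000000) := Q_1 (nat_lit 160) (C_1 L23440 (C_1 L23148 (C_1 L23151 (C_1 L23444 N_1)))) (by decide +kernel)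
theorem L23446 : W_1 (nat_lit 10) (nat_lit 0x14000a0000000000000000000000000000000) (nat_lit 0x0) (nat_lit 0x78003c001fc00bc031e00fe007f000e000500000000000000) := Q_1 (nat_lit 143) (C_1 L23401 (C_1 L23141 (C_1 L23101 (C_1 L23167 (C_1 L23080 (C_1 L23445 N_1)))))) (by decide +kernel)
theorem L23447 : W_1 (nat_lit 9) (nat_lit 0x14000a0000000000000000000000000000000) (nat_lit 0x0) (nat_lit 0x15000b800de00680031800fe007f000e000500000000000000) := Q_1 (nat_lit 143) (C_1 L23096 (C_1 L23401 (C_1 L23102 (C_1 L23092 N_1)))) (by decide +kernel)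
theorem L23448 : W_1 (nat_lit 12) (nat_lit 0x10000a0000000000000000000000000000000) (nat_lit 0x0) (nat_lit 0x10000e0017800bc00dfc06fc031e00fe00ff003f800700038001000000) := Q_1 (nat_lit 142) (C_1 L23093 (C_1 L23097 (C_1 L23103 (C_1 L23142 (C_1 L23166 (C_1 L23168 (C_1 L23338 (C_1 L23446 (C_1 L23447 N_1))))))))) (by decide +kernel)
theorem L23449 : W_1 (nat_lit 2) (nat_lit 0x34001e0003000000000000000000000000000) (nat_lit 0x0) (nat_lit 0x8000000000000000100008000000000000000000) := D_1 (nat_lit 92) (nat_lit 75) (nat_lit 159) (nat_lit 7) (nat_lit 7) (nat_lit 4) (nat_lit 6) (nat_lit 6) (nat_lit 9) (by decide +kernel)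
theorem L23450 : W_1 (nat_lit 3) (nat_lit 0x30001e0003000000000000000000000000000) (nat_lit 0x0) (nat_lit 0x8000600000000000100008000000000000000000) := T_1 (nat_lit 142) (nat_lit 141) (nat_lit 1) (nat_lit 9) (nat_lit 7) L23449 (by decide +kernel)
theorem L23451 : W_1 (nat_lit 4) (nat_lit 0x30001e0001000000000000000000000000000) (nat_lit 0x0) (nat_lit 0x8000600200002000100008000000000000000000) := T_1 (nat_lit 109) (nat_lit 129) (nat_lit 0) (nat_lit 10) (nat_lit 7) L23450 (by decide +kernel)
theorem L23452 : W_1 (nat_lit 5) (nat_lit 0x10001e0001000000000000000000000000000) (nat_lit 0x0) (nat_lit 0x8006600200002000100008000000000000000000) := T_1 (nat_lit 145) (nat_lit 146) (nat_lit 3) (nat_lit 6) (nat_lit 7) L23451 (by decide +kernel)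
theorem L23453 : W_1 (nat_lit 6) (nat_lit 0x10001e0000000000000000000000000000000) (nat_lit 0x0) (nat_lit 0x8006600200003800100008000000000000000000) := T_1 (nat_lit 108) (nat_lit 107) (nat_lit 0) (nat_lit 9) (nat_lit 7) L23452 (by decide +kernel)
theorem L23454 : W_1 (nat_lit 11) (nat_lit 0x10000e0000000000000000000000000000000) (nat_lit 0x0) (nat_lit 0x1000080004800660030001f800f8007c000000000000000000) := Q_1 (nat_lit 128) (C_1 L22539 (C_1 L22516 (C_1 L23453 (C_1 L22526 (C_1 L22535 N_1))))) (by decide +kernel)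
theorem L23455 : W_1 (nat_lit 2) (nat_lit 0x10800fc004800000000000000000000000000) (nat_lit 0x0) (nat_lit 0x102001000000000000000000000000000) := D_1 (nat_lit 108) (nat_lit 128) (nat_lit 121) (nat_lit 0) (nat_lit 9) (nat_lit 7) (nat_lit 2) (nat_lit 2) (nat_lit 7) (by decide +kernel)
theorem L23456 : W_1 (nat_lit 3) (nat_lit 0x10800f8004800000000000000000000000000) (nat_lit 0x0) (nat_lit 0x40106001000000000000000000000000000) := T_1 (nat_lit 122) (nat_lit 138) (nat_lit 1) (nat_lit 6) (nat_lit 7) L23455 (by decide +kernel)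
theorem L23457 : W_1 (nat_lit 4) (nat_lit 0x10000f8004800000000000000000000000000) (nat_lit 0x0) (nat_lit 0x1c0106001000000000000000000000000000) := T_1 (nat_lit 139) (nat_lit 140) (nat_lit 1) (nat_lit 7) (nat_lit 7) L23456 (by decide +kernel)
theorem L23458 : W_1 (nat_lit 5) (nat_lit 0x10000f0004800000000000000000000000000) (nat_lit 0x0) (nat_lit 0x1c010e003000000000000000000000000000) := T_1 (nat_lit 123) (nat_lit 109) (nat_lit 2) (nat_lit 4) (nat_lit 7) L23457 (by decide +kernel)
theorem L23459 : W_1 (nat_lit 6) (nat_lit 0x10000f0000800000000000000000000000000) (nat_lit 0x0) (nat_lit 0x1c010e00f000000000000000000000000000) := T_1 (nat_lit 110) (nat_lit 111) (nat_lit 2) (nat_lit 5) (nat_lit 7) L23458 (by decide +kernel)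
theorem L23460 : W_1 (nat_lit 7) (nat_lit 0x10000f0000000000000000000000000000000) (nat_lit 0x0) (nat_lit 0x1c010e00fc00000000000000000000000000) := T_1 (nat_lit 107) (nat_lit 106) (nat_lit 0) (nat_lit 8) (nat_lit 7) L23459 (by decide +kernel)
theorem L23461 : W_1 (nat_lit 2) (nat_lit 0x10000f0007800200008000000000000000000) (nat_lit 0x0) (nat_lit 0x10000c00000000000000) := D_1 (nat_lit 76) (nat_lit 58) (nat_lit 59) (nat_lit 4) (nat_lit 8) (nat_lit 7) (nat_lit 5) (nat_lit 8) (nat_lit 3) (by decide +kernel)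
theorem L23462 : W_1 (nat_lit 3) (nat_lit 0x10000f0007800000008000000000000000000) (nat_lit 0x0) (nat_lit 0x600010000c00000000000000) := T_1 (nat_lit 93) (nat_lit 94) (nat_lit 2) (nat_lit 5) (nat_lit 6) L23461 (by decide +kernel)
theorem L23463 : W_1 (nat_lit 4) (nat_lit 0x10000f0006800000008000000000000000000) (nat_lit 0x0) (nat_lit 0x100001000600010000c00000000000000) := T_1 (nat_lit 108) (nat_lit 128) (nat_lit 3) (nat_lit 5) (nat_lit 6) L23462 (by decide +kernel)
theorem L23464 : W_1 (nat_lit 5) (nat_lit 0x10000f0006800000000000000000000000000) (nat_lit 0x0) (nat_lit 0x100001000700018000c00000000000000) := T_1 (nat_lit 75) (nat_lit 92) (nat_lit 7) (nat_lit 7) (nat_lit 4) L23463 (by decide +kernel)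
theorem L23465 : W_1 (nat_lit 6) (nat_lit 0x10000f0004800000000000000000000000000) (nat_lit 0x0) (nat_lit 0x108003000700018000c00000000000000) := T_1 (nat_lit 109) (nat_lit 123) (nat_lit 2) (nat_lit 4) (nat_lit 7) L23464 (by decide +kernel)
theorem L23466 : W_1 (nat_lit 7) (nat_lit 0x10000f0000800000000000000000000000000) (nat_lit 0x0) (nat_lit 0x10800f000700018000c00000000000000) := T_1 (nat_lit 110) (nat_lit 111) (nat_lit 2) (nat_lit 5) (nat_lit 7) L23465 (by decide +kernel)
theorem L23467 : W_1 (nat_lit 8) (nat_lit 0x10000f0000000000000000000000000000000) (nat_lit 0x0) (nat_lit 0x10800fc00700018000c00000000000000) := T_1 (nat_lit 107) (nat_lit 106) (nat_lit 0) (nat_lit 8) (nat_lit 7) L23466 (by decide +kernel)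
theorem L23468 : W_1 (nat_lit 9) (nat_lit 0x10000e0000000000000000000000000000000) (nat_lit 0x0) (nat_lit 0x7c011e00fc00700018000c00000000000000) := Q_1 (nat_lit 124) (C_1 L22470 (C_1 L22484 (C_1 L23460 (C_1 L23467 N_1)))) (by decide +kernel)
theorem L23469 : W_1 (nat_lit 9) (nat_lit 0x10000e0000000000000000000000000000000) (nat_lit 0x0) (nat_lit 0x200011800fc00700018000c00000000000000) := T_1 (nat_lit 124) (nat_lit 145) (nat_lit 3) (nat_lit 5) (nat_lit 7) L23467 (by decide +kernel)
theorem L23470 : W_1 (nat_lit 12) (nat_lit 0x10000a0000000000000000000000000000000) (nat_lit 0x0) (nat_lit 0x100008000480067c035e01fc00f8007c000c00000000000000) := Q_1 (nat_lit 126) (C_1 L23454 (C_1 L22485 (C_1 L22471 (C_1 L23468 (C_1 L23469 N_1))))) (by decide +kernel)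
theorem L23471 : W_1 (nat_lit 2) (nat_lit 0x100018000e0000000000000000000000000000000) (nat_lit 0x0) (nat_lit 0x4000200000000000000004000000000000000000000000000) := D_1 (nat_lit 177) (nat_lit 194) (nat_lit 110) (nat_lit 6) (nat_lit 7) (nat_lit 11) (nat_lit 6) (nat_lit 7) (nat_lit 10) (by decide +kernel)
theorem L23472 : W_1 (nat_lit 2) (nat_lit 0x180058000e0007800000008000000000000000000) (nat_lit 0x0) (nat_lit 0x400000000000060000000000000000000000) := D_1 (nat_lit 90) (nat_lit 142) (nat_lit 89) (nat_lit 4) (nat_lit 6) (nat_lit 9) (nat_lit 0) (nat_lit 8) (nat_lit 6) (by decide +kernel)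
theorem L23473 : W_1 (nat_lit 3) (nat_lit 0x180058000e0007000000008000000000000000000) (nat_lit 0x0) (nat_lit 0x400000000c00060000000000000000000000) := T_1 (nat_lit 107) (nat_lit 106) (nat_lit 3) (nat_lit 4) (nat_lit 6) L23472 (by decide +kernel)
theorem L23474 : W_1 (nat_lit 4) (nat_lit 0x180058000e0006000000008000000000000000000) (nat_lit 0x0) (nat_lit 0x400000001c000e0000000000000000000000) := T_1 (nat_lit 108) (nat_lit 91) (nat_lit 4) (nat_lit 7) (nat_lit 9) L23473 (by decide +kernel)
theorem L23475 : W_1 (nat_lit 5) (nat_lit 0x100058000e0006000000008000000000000000000) (nat_lit 0x0) (nat_lit 0x100008000400000001c000e0000000000000000000000) := T_1 (nat_lit 159) (nat_lit 176) (nat_lit 5) (nat_lit 7) (nat_lit 6) L23474 (by decide +kernel)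
theorem L23476 : W_1 (nat_lit 6) (nat_lit 0x100058000e0002000000008000000000000000000) (nat_lit 0x0) (nat_lit 0x100008000400000005c002e0000000000000000000000) := T_1 (nat_lit 110) (nat_lit 93) (nat_lit 6) (nat_lit 7) (nat_lit 9) L23475 (by decide +kernel)
theorem L23477 : W_1 (nat_lit 7) (nat_lit 0x100058000e0002000000000000000000000000000) (nat_lit 0x0) (nat_lit 0x100008000400000005c003e0008000000000000000000) := T_1 (nat_lit 75) (nat_lit 92) (nat_lit 7) (nat_lit 7) (nat_lit 4) L23476 (by decide +kernel)
theorem L23478 : W_1 (nat_lit 8) (nat_lit 0x100018000e0002000000000000000000000000000) (nat_lit 0x0) (nat_lit 0x100008006400000005c003e0008000000000000000000) := T_1 (nat_lit 146) (nat_lit 145) (nat_lit 0) (nat_lit 10) (nat_lit 8) L23477 (by decide +kernel)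
theorem L23479 : W_1 (nat_lit 2) (nat_lit 0x180018000e0002000000000000000000000000000) (nat_lit 0x0) (nat_lit 0x400000000000100008000000000000000000) := D_1 (nat_lit 92) (nat_lit 142) (nat_lit 75) (nat_lit 5) (nat_lit 7) (nat_lit 5) (nat_lit 7) (nat_lit 7) (nat_lit 4) (by decide +kernel)
theorem L23480 : W_1 (nat_lit 3) (nat_lit 0x100018000e0002000000000000000000000000000) (nat_lit 0x0) (nat_lit 0x100008000400000000000100008000000000000000000) := T_1 (nat_lit 159) (nat_lit 176) (nat_lit 5) (nat_lit 7) (nat_lit 6) L23479 (by decide +kernel)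
theorem L23481 : W_1 (nat_lit 2) (nat_lit 0x100058000e0002000100000000000000000000000) (nat_lit 0x0) (nat_lit 0x4000200010000000000000000000) := D_1 (nat_lit 93) (nat_lit 110) (nat_lit 76) (nat_lit 6) (nat_lit 7) (nat_lit 9) (nat_lit 6) (nat_lit 7) (nat_lit 8) (by decide +kernel)
theorem L23482 : W_1 (nat_lit 3) (nat_lit 0x100058000e0002000000000000000000000000000) (nat_lit 0x0) (nat_lit 0x4000300018000000000000000000) := T_1 (nat_lit 92) (nat_lit 75) (nat_lit 7) (nat_lit 7) (nat_lit 4) L23481 (by decide +kernel)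
theorem L23483 : W_1 (nat_lit 4) (nat_lit 0x100018000e0002000000000000000000000000000) (nat_lit 0x0) (nat_lit 0x6000000004000300018000000000000000000) := T_1 (nat_lit 146) (nat_lit 145) (nat_lit 0) (nat_lit 10) (nat_lit 8) L23482 (by decide +kernel)
theorem L23484 : W_1 (nat_lit 2) (nat_lit 0x180058000e0007800000000000000000000000000) (nat_lit 0x0) (nat_lit 0x400000000000060000000000000000000000) := D_1 (nat_lit 90) (nat_lit 142) (nat_lit 89) (nat_lit 4) (nat_lit 6) (nat_lit 9) (nat_lit 0) (nat_lit 8) (nat_lit 6) (by decide +kernel)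
theorem L23485 : W_1 (nat_lit 3) (nat_lit 0x100058000e0007800000000000000000000000000) (nat_lit 0x0) (nat_lit 0x100008000400000000000060000000000000000000000) := T_1 (nat_lit 159) (nat_lit 176) (nat_lit 5) (nat_lit 7) (nat_lit 6) L23484 (by decide +kernel)
theorem L23486 : W_1 (nat_lit 4) (nat_lit 0x100058000e0007000000000000000000000000000) (nat_lit 0x0) (nat_lit 0x100008000400000000c00060000000000000000000000) := T_1 (nat_lit 107) (nat_lit 106) (nat_lit 3) (nat_lit 4) (nat_lit 6) L23485 (by decide +kernel)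
theorem L23487 : W_1 (nat_lit 5) (nat_lit 0x100058000e0006000000000000000000000000000) (nat_lit 0x0) (nat_lit 0x100008000400000001c000e0000000000000000000000) := T_1 (nat_lit 108) (nat_lit 91) (nat_lit 4) (nat_lit 7) (nat_lit 9) L23486 (by decide +kernel)
theorem L23488 : W_1 (nat_lit 6) (nat_lit 0x100018000e0006000000000000000000000000000) (nat_lit 0x0) (nat_lit 0x100008006400000001c000e0000000000000000000000) := T_1 (nat_lit 146) (nat_lit 145) (nat_lit 0) (nat_lit 10) (nat_lit 8) L23487 (by decide +kernel)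
theorem L23489 : W_1 (nat_lit 7) (nat_lit 0x100018000e0002000000000000000000000000000) (nat_lit 0x0) (nat_lit 0x100008006400000005c002e0000000000000000000000) := T_1 (nat_lit 110) (nat_lit 93) (nat_lit 6) (nat_lit 7) (nat_lit 9) L23488 (by decide +kernel)
theorem L23490 : W_1 (nat_lit 9) (nat_lit 0x100018000e0000000000000000000000000000000) (nat_lit 0x0) (nat_lit 0x100008006400000007c003e0018000000000000000000) := Q_1 (nat_lit 109) (C_1 L23478 (C_1 L23480 (C_1 L23483 (C_1 L23489 N_1)))) (by decide +kernel)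
theorem L23491 : W_1 (nat_lit 2) (nat_lit 0x100018000e0000000000000000000000000000000) (nat_lit 0x0) (nat_lit 0x4000200000000000000001000000000000000000000000000) := D_1 (nat_lit 177) (nat_lit 194) (nat_lit 108) (nat_lit 6) (nat_lit 7) (nat_lit 11) (nat_lit 4) (nat_lit 7) (nat_lit 10) (by decide +kernel)
theorem L23492 : W_1 (nat_lit 10) (nat_lit 0x18000e0000000000000000000000000000000) (nat_lit 0x0) (nat_lit 0x4000300018006400000007c003e0018000000000000000000) := Q_1 (nat_lit 160) (C_1 L23471 (C_1 L23490 (C_1 L23491 N_1))) (by decide +kernel)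
theorem L23493 : W_1 (nat_lit 2) (nat_lit 0x1c000e0000000000000000000000000000000) (nat_lit 0x0) (nat_lit 0x200300000000000000000000000000000000) := D_1 (nat_lit 128) (nat_lit 141) (nat_lit 129) (nat_lit 2) (nat_lit 5) (nat_lit 8) (nat_lit 1) (nat_lit 10) (nat_lit 7) (by decide +kernel)
theorem L23494 : W_1 (nat_lit 2) (nat_lit 0x4001e000e0001000000000000000000000000000) (nat_lit 0x0) (nat_lit 0x1000080008000000000000000000000000000000000000000) := D_1 (nat_lit 175) (nat_lit 192) (nat_lit 159) (nat_lit 6) (nat_lit 5) (nat_lit 11) (nat_lit 5) (nat_lit 6) (nat_lit 6) (by decide +kernel)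
theorem L23495 : W_1 (nat_lit 3) (nat_lit 0x4001e000e0000000000000000000000000000000) (nat_lit 0x0) (nat_lit 0x1000080008000000000001000080000000000000000000000) := T_1 (nat_lit 108) (nat_lit 91) (nat_lit 5) (nat_lit 6) (nat_lit 5) L23494 (by decide +kernel)
theorem L23496 : W_1 (nat_lit 4) (nat_lit 0x1e000e0000000000000000000000000000000) (nat_lit 0x0) (nat_lit 0x100008000e000000000001000080000000000000000000000) := T_1 (nat_lit 158) (nat_lit 157) (nat_lit 1) (nat_lit 8) (nat_lit 8) L23495 (by decide +kernel)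
theorem L23497 : W_1 (nat_lit 5) (nat_lit 0x1c000e0000000000000000000000000000000) (nat_lit 0x0) (nat_lit 0x100008000e000300000001000080000000000000000000000) := T_1 (nat_lit 141) (nat_lit 140) (nat_lit 2) (nat_lit 4) (nat_lit 8) L23496 (by decide +kernel)
theorem L23498 : W_1 (nat_lit 3) (nat_lit 0x1c001e0000000000000000000000000000000) (nat_lit 0x0) (nat_lit 0x10000000000001800080004000000000000000000) := T_1 (nat_lit 108) (nat_lit 107) (nat_lit 0) (nat_lit 9) (nat_lit 7) L23007 (by decide +kernel)
theorem L23499 : W_1 (nat_lit 4) (nat_lit 0x1c000e0000000000000000000000000000000) (nat_lit 0x0) (nat_lit 0x10000000300001800080004000000000000000000) := T_1 (nat_lit 128) (nat_lit 129) (nat_lit 1) (nat_lit 10) (nat_lit 7) L23498 (by decide +kernel)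
theorem L23500 : W_1 (nat_lit 6) (nat_lit 0x18000e0000000000000000000000000000000) (nat_lit 0x0) (nat_lit 0x100008001e000700300001800080004000000000000000000) := Q_1 (nat_lit 142) (C_1 L23493 (C_1 L23497 (C_1 L23499 N_1))) (by decide +kernel)
theorem L23501 : W_1 (nat_lit 2) (nat_lit 0x18001e0000000000000000000000000000000) (nat_lit 0x0) (nat_lit 0x600200000000000000000000000000000000) := D_1 (nat_lit 142) (nat_lit 141) (nat_lit 129) (nat_lit 2) (nat_lit 5) (nat_lit 8) (nat_lit 1) (nat_lit 10) (nat_lit 7) (by decide +kernel)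
theorem L23502 : W_1 (nat_lit 2) (nat_lit 0x58001e0003000000000000000000000000000) (nat_lit 0x0) (nat_lit 0x10000000000000000080004000000000000000000) := D_1 (nat_lit 91) (nat_lit 74) (nat_lit 160) (nat_lit 7) (nat_lit 6) (nat_lit 4) (nat_lit 4) (nat_lit 7) (nat_lit 9) (by decide +kernel)
theorem L23503 : W_1 (nat_lit 3) (nat_lit 0x58001e0001000000000000000000000000000) (nat_lit 0x0) (nat_lit 0x10000000200002000080004000000000000000000) := T_1 (nat_lit 109) (nat_lit 129) (nat_lit 0) (nat_lit 10) (nat_lit 7) L23502 (by decide +kernel)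
theorem L23504 : W_1 (nat_lit 4) (nat_lit 0x58001e0000000000000000000000000000000) (nat_lit 0x0) (nat_lit 0x10000000200003800080004000000000000000000) := T_1 (nat_lit 108) (nat_lit 107) (nat_lit 0) (nat_lit 9) (nat_lit 7) L23503 (by decide +kernel)
theorem L23505 : W_1 (nat_lit 5) (nat_lit 0x18001e0000000000000000000000000000000) (nat_lit 0x0) (nat_lit 0x10006000200003800080004000000000000000000) := T_1 (nat_lit 146) (nat_lit 145) (nat_lit 3) (nat_lit 6) (nat_lit 7) L23504 (by decide +kernel)
theorem L23506 : W_1 (nat_lit 2) (nat_lit 0x10001a001e0001000000000000000000000000000) (nat_lit 0x0) (nat_lit 0x2000080004000000000000000000) := D_1 (nat_lit 91) (nat_lit 109) (nat_lit 74) (nat_lit 4) (nat_lit 7) (nat_lit 9) (nat_lit 7) (nat_lit 6) (nat_lit 4) (by decide +kernel)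
theorem L23507 : W_1 (nat_lit 3) (nat_lit 0x1a001e0001000000000000000000000000000) (nat_lit 0x0) (nat_lit 0x200010000000000002000080004000000000000000000) := T_1 (nat_lit 160) (nat_lit 177) (nat_lit 4) (nat_lit 7) (nat_lit 10) L23506 (by decide +kernel)
theorem L23508 : W_1 (nat_lit 4) (nat_lit 0x18001e0001000000000000000000000000000) (nat_lit 0x0) (nat_lit 0x200010000600000002000080004000000000000000000) := T_1 (nat_lit 141) (nat_lit 142) (nat_lit 2) (nat_lit 5) (nat_lit 8) L23507 (by decide +kernel)
theorem L23509 : W_1 (nat_lit 5) (nat_lit 0x18001e0000000000000000000000000000000) (nat_lit 0x0) (nat_lit 0x200010000600000003800080004000000000000000000) := T_1 (nat_lit 108) (nat_lit 107) (nat_lit 0) (nat_lit 9) (nat_lit 7) L23508 (by decide +kernel)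
theorem L23510 : W_1 (nat_lit 6) (nat_lit 0x18000e0000000000000000000000000000000) (nat_lit 0x0) (nat_lit 0x200010006600300003800080004000000000000000000) := Q_1 (nat_lit 128) (C_1 L23501 (C_1 L23505 (C_1 L23509 N_1))) (by decide +kernel)
theorem L23511 : W_1 (nat_lit 2) (nat_lit 0x5c001e00030001c0000000000000000000000) (nat_lit 0x0) (nat_lit 0x4000030000000000000000000000) := D_1 (nat_lit 89) (nat_lit 110) (nat_lit 88) (nat_lit 3) (nat_lit 4) (nat_lit 5) (nat_lit 3) (nat_lit 3) (nat_lit 5) (by decide +kernel)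
theorem L23512 : W_1 (nat_lit 3) (nat_lit 0x5c001e0003000180000000000000000000000) (nat_lit 0x0) (nat_lit 0x4000070002000000000000000000) := T_1 (nat_lit 90) (nat_lit 73) (nat_lit 4) (nat_lit 6) (nat_lit 8) L23511 (by decide +kernel)
theorem L23513 : W_1 (nat_lit 4) (nat_lit 0x5c001e0001000180000000000000000000000) (nat_lit 0x0) (nat_lit 0x8000000000006000070002000000000000000000) := T_1 (nat_lit 109) (nat_lit 159) (nat_lit 6) (nat_lit 6) (nat_lit 9) L23512 (by decide +kernel)
theorem L23514 : W_1 (nat_lit 5) (nat_lit 0x5c001e0001000080000000000000000000000) (nat_lit 0x0) (nat_lit 0x800000000000600017000a000000000000000000) := T_1 (nat_lit 92) (nat_lit 75) (nat_lit 6) (nat_lit 6) (nat_lit 8) L23513 (by decide +kernel)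
theorem L23515 : W_1 (nat_lit 6) (nat_lit 0x5c001e0001000000000000000000000000000) (nat_lit 0x0) (nat_lit 0x80000000000060001f000e000000000000000000) := T_1 (nat_lit 91) (nat_lit 74) (nat_lit 7) (nat_lit 6) (nat_lit 4) L23514 (by decide +kernel)
theorem L23516 : W_1 (nat_lit 7) (nat_lit 0x5c001e0000000000000000000000000000000) (nat_lit 0x0) (nat_lit 0x80000000000078001f000e000000000000000000) := T_1 (nat_lit 108) (nat_lit 107) (nat_lit 0) (nat_lit 9) (nat_lit 7) L23515 (by decide +kernel)
theorem L23517 : W_1 (nat_lit 8) (nat_lit 0x5c000e0000000000000000000000000000000) (nat_lit 0x0) (nat_lit 0x80000003000078001f000e000000000000000000) := T_1 (nat_lit 128) (nat_lit 129) (nat_lit 1) (nat_lit 10) (nat_lit 7) L23516 (by decide +kernel)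
theorem L23518 : W_1 (nat_lit 9) (nat_lit 0x1c000e0000000000000000000000000000000) (nat_lit 0x0) (nat_lit 0x80060003000078001f000e000000000000000000) := T_1 (nat_lit 146) (nat_lit 145) (nat_lit 0) (nat_lit 10) (nat_lit 8) L23517 (by decide +kernel)
theorem L23519 : W_1 (nat_lit 10) (nat_lit 0x18000e0000000000000000000000000000000) (nat_lit 0x0) (nat_lit 0x100008000e0067003000078001f000e000000000000000000) := Q_1 (nat_lit 142) (C_1 L23497 (C_1 L23493 (C_1 L23518 N_1))) (by decide +kernel)
theorem L23520 : W_1 (nat_lit 2) (nat_lit 0x48003d000e0000000000000000000000000000000) (nat_lit 0x0) (nat_lit 0x100000000000000002000100000000000000000000000) := D_1 (nat_lit 109) (nat_lit 92) (nat_lit 176) (nat_lit 5) (nat_lit 7) (nat_lit 5) (nat_lit 6) (nat_lit 6) (nat_lit 10) (by decide +kernel)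
theorem L23521 : W_1 (nat_lit 3) (nat_lit 0x40003d000e0000000000000000000000000000000) (nat_lit 0x0) (nat_lit 0x10000c000000000002000100000000000000000000000) := T_1 (nat_lit 159) (nat_lit 158) (nat_lit 1) (nat_lit 9) (nat_lit 8) L23520 (by decide +kernel)
theorem L23522 : W_1 (nat_lit 4) (nat_lit 0x3d000e0000000000000000000000000000000) (nat_lit 0x0) (nat_lit 0x1000cc000000000002000100000000000000000000000) := T_1 (nat_lit 162) (nat_lit 163) (nat_lit 3) (nat_lit 6) (nat_lit 8) L23521 (by decide +kernel)
theorem L23523 : W_1 (nat_lit 5) (nat_lit 0x3c000e0000000000000000000000000000000) (nat_lit 0x0) (nat_lit 0x1000cc000300000002000100000000000000000000000) := T_1 (nat_lit 140) (nat_lit 141) (nat_lit 2) (nat_lit 4) (nat_lit 8) L23522 (by decide +kernel)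
theorem L23524 : W_1 (nat_lit 6) (nat_lit 0x1c000e0000000000000000000000000000000) (nat_lit 0x0) (nat_lit 0x1000cc006300000002000100000000000000000000000) := T_1 (nat_lit 145) (nat_lit 146) (nat_lit 0) (nat_lit 10) (nat_lit 8) L23523 (by decide +kernel)
theorem L23525 : W_1 (nat_lit 2) (nat_lit 0x48003c002e0000000000000000000000000000000) (nat_lit 0x0) (nat_lit 0x100000000000000002000100000000000000000000000) := D_1 (nat_lit 109) (nat_lit 92) (nat_lit 176) (nat_lit 5) (nat_lit 7) (nat_lit 5) (nat_lit 6) (nat_lit 6) (nat_lit 10) (by decide +kernel)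
theorem L23526 : W_1 (nat_lit 3) (nat_lit 0x40003c002e0000000000000000000000000000000) (nat_lit 0x0) (nat_lit 0x10000c000000000002000100000000000000000000000) := T_1 (nat_lit 159) (nat_lit 158) (nat_lit 1) (nat_lit 9) (nat_lit 8) L23525 (by decide +kernel)
theorem L23527 : W_1 (nat_lit 4) (nat_lit 0x3c002e0000000000000000000000000000000) (nat_lit 0x0) (nat_lit 0x1000cc000000000002000100000000000000000000000) := T_1 (nat_lit 162) (nat_lit 163) (nat_lit 3) (nat_lit 6) (nat_lit 8) L23526 (by decide +kernel)
theorem L23528 : W_1 (nat_lit 5) (nat_lit 0x3c000e0000000000000000000000000000000) (nat_lit 0x0) (nat_lit 0x1000cc000000300002000100000000000000000000000) := T_1 (nat_lit 129) (nat_lit 128) (nat_lit 2) (nat_lit 6) (nat_lit 8) L23527 (by decide +kernel)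
theorem L23529 : W_1 (nat_lit 6) (nat_lit 0x1c000e0000000000000000000000000000000) (nat_lit 0x0) (nat_lit 0x1000cc006000300002000100000000000000000000000) := T_1 (nat_lit 145) (nat_lit 146) (nat_lit 0) (nat_lit 10) (nat_lit 8) L23528 (by decide +kernel)
theorem L23530 : W_1 (nat_lit 7) (nat_lit 0x18000e0000000000000000000000000000000) (nat_lit 0x0) (nat_lit 0x1000cc006700300002000100000000000000000000000) := Q_1 (nat_lit 142) (C_1 L23524 (C_1 L23493 (C_1 L23529 N_1))) (by decide +kernel)
theorem L23531 : W_1 (nat_lit 2) (nat_lit 0x1a0018000e0007000000008000000000000000000) (nat_lit 0x0) (nat_lit 0x100000c00000000000000000000000000) := D_1 (nat_lit 107) (nat_lit 128) (nat_lit 106) (nat_lit 3) (nat_lit 5) (nat_lit 6) (nat_lit 3) (nat_lit 4) (nat_lit 6) (by decide +kernel)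
theorem L23532 : W_1 (nat_lit 3) (nat_lit 0x1a0018000e0006000000008000000000000000000) (nat_lit 0x0) (nat_lit 0x100001c00080000000000000000000000) := T_1 (nat_lit 108) (nat_lit 91) (nat_lit 4) (nat_lit 7) (nat_lit 9) L23531 (by decide +kernel)
theorem L23533 : W_1 (nat_lit 4) (nat_lit 0x180018000e0006000000008000000000000000000) (nat_lit 0x0) (nat_lit 0x6000000100001c00080000000000000000000000) := T_1 (nat_lit 157) (nat_lit 158) (nat_lit 2) (nat_lit 4) (nat_lit 9) L23532 (by decide +kernel)
theorem L23534 : W_1 (nat_lit 5) (nat_lit 0x100018000e0006000000008000000000000000000) (nat_lit 0x0) (nat_lit 0x10000e000000100001c00080000000000000000000000) := T_1 (nat_lit 159) (nat_lit 176) (nat_lit 5) (nat_lit 7) (nat_lit 6) L23533 (by decide +kernel)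
theorem L23535 : W_1 (nat_lit 6) (nat_lit 0x100018000e0002000000008000000000000000000) (nat_lit 0x0) (nat_lit 0x10000e000000100005c00280000000000000000000000) := T_1 (nat_lit 110) (nat_lit 93) (nat_lit 6) (nat_lit 7) (nat_lit 9) L23534 (by decide +kernel)
theorem L23536 : W_1 (nat_lit 7) (nat_lit 0x100018000e0002000000000000000000000000000) (nat_lit 0x0) (nat_lit 0x10000e000000100005c00380008000000000000000000) := T_1 (nat_lit 75) (nat_lit 92) (nat_lit 7) (nat_lit 7) (nat_lit 4) L23535 (by decide +kernel)
theorem L23537 : W_1 (nat_lit 2) (nat_lit 0x100018000e0003000000000000000000000000000) (nat_lit 0x0) (nat_lit 0x100000c00000000000000000000000000) := D_1 (nat_lit 107) (nat_lit 106) (nat_lit 128) (nat_lit 3) (nat_lit 4) (nat_lit 6) (nat_lit 0) (nat_lit 9) (nat_lit 7) (by decide +kernel)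
theorem L23538 : W_1 (nat_lit 3) (nat_lit 0x100018000e0002000000000000000000000000000) (nat_lit 0x0) (nat_lit 0x100001c00080000000000000000000000) := T_1 (nat_lit 108) (nat_lit 91) (nat_lit 4) (nat_lit 7) (nat_lit 9) L23537 (by decide +kernel)
theorem L23539 : W_1 (nat_lit 8) (nat_lit 0x100018000e0000000000000000000000000000000) (nat_lit 0x0) (nat_lit 0x10000e006000100007c00380018000000000000000000) := Q_1 (nat_lit 109) (C_1 L23483 (C_1 L23536 (C_1 L23538 N_1))) (by decide +kernel)
theorem L23540 : W_1 (nat_lit 9) (nat_lit 0x18000e0000000000000000000000000000000) (nat_lit 0x0) (nat_lit 0x400030001e006000100007c00380018000000000000000000) := Q_1 (nat_lit 160) (C_1 L23491 (C_1 L23471 (C_1 L23539 N_1))) (by decide +kernel)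
theorem L23541 : W_1 (nat_lit 11) (nat_lit 0x10000e0000000000000000000000000000000) (nat_lit 0x0) (nat_lit 0x50003800de006f00300007c003f001e000000000000000000) := Q_1 (nat_lit 143) (C_1 L23492 (C_1 L23500 (C_1 L23510 (C_1 L23519 (C_1 L23530 (C_1 L23540 N_1)))))) (by decide +kernel)
theorem L23542 : W_1 (nat_lit 12) (nat_lit 0x10000a0000000000000000000000000000000) (nat_lit 0x0) (nat_lit 0x50003800de006f8035e007c003f001e000000000000000000) := Q_1 (nat_lit 126) (C_1 L23541 (C_1 L22537 (C_1 L22467 (C_1 L22485 (C_1 L22495 N_1))))) (by decide +kernel)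
theorem L23543 : W_1 (nat_lit 2) (nat_lit 0x16000e0000000000000000000000000000000) (nat_lit 0x0) (nat_lit 0x980000000000000000000000000000000000) := D_1 (nat_lit 140) (nat_lit 139) (nat_lit 143) (nat_lit 2) (nat_lit 3) (nat_lit 8) (nat_lit 2) (nat_lit 4) (nat_lit 8) (by decide +kernel)
theorem L23544 : W_1 (nat_lit 3) (nat_lit 0x14000e0000000000000000000000000000000) (nat_lit 0x0) (nat_lit 0xb80100000000000000000000000000000000) := T_1 (nat_lit 141) (nat_lit 128) (nat_lit 1) (nat_lit 9) (nat_lit 7) L23543 (by decide +kernel)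
theorem L23545 : W_1 (nat_lit 2) (nat_lit 0x14000e0002000100000000000000000000000) (nat_lit 0x0) (nat_lit 0x100008000800000000000000000000000000000000000) := D_1 (nat_lit 159) (nat_lit 176) (nat_lit 143) (nat_lit 6) (nat_lit 6) (nat_lit 10) (nat_lit 5) (nat_lit 7) (nat_lit 5) (by decide +kernel)
theorem L23546 : W_1 (nat_lit 3) (nat_lit 0x14000e0002000000000000000000000000000) (nat_lit 0x0) (nat_lit 0x100008000800000000000100008000000000000000000) := T_1 (nat_lit 92) (nat_lit 75) (nat_lit 7) (nat_lit 7) (nat_lit 4) L23545 (by decide +kernel)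
theorem L23547 : W_1 (nat_lit 2) (nat_lit 0x14000e0003000080008000000000000000000) (nat_lit 0x0) (nat_lit 0x4000600000000000000) := D_1 (nat_lit 74) (nat_lit 57) (nat_lit 58) (nat_lit 7) (nat_lit 6) (nat_lit 3) (nat_lit 6) (nat_lit 6) (nat_lit 7) (by decide +kernel)
theorem L23548 : W_1 (nat_lit 3) (nat_lit 0x14000e0003000080000000000000000000000) (nat_lit 0x0) (nat_lit 0x10000c000600000000000000) := T_1 (nat_lit 75) (nat_lit 92) (nat_lit 7) (nat_lit 7) (nat_lit 4) L23547 (by decide +kernel)
theorem L23549 : W_1 (nat_lit 2) (nat_lit 0x14000e00030000e0000000200000000000000) (nat_lit 0x0) (nat_lit 0xc800000000000000000000000000) := D_1 (nat_lit 110) (nat_lit 111) (nat_lit 107) (nat_lit 0) (nat_lit 9) (nat_lit 6) (nat_lit 0) (nat_lit 8) (nat_lit 6) (by decide +kernel)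
theorem L23550 : W_1 (nat_lit 3) (nat_lit 0x14000e00030000c0000000200000000000000) (nat_lit 0x0) (nat_lit 0xc800030000000000000000000000) := T_1 (nat_lit 89) (nat_lit 88) (nat_lit 3) (nat_lit 3) (nat_lit 5) L23549 (by decide +kernel)
theorem L23551 : W_1 (nat_lit 4) (nat_lit 0x14000e0003000080000000200000000000000) (nat_lit 0x0) (nat_lit 0xc800070002000000000000000000) := T_1 (nat_lit 90) (nat_lit 73) (nat_lit 4) (nat_lit 6) (nat_lit 8) L23550 (by decide +kernel)
theorem L23552 : W_1 (nat_lit 5) (nat_lit 0x14000e0003000080000000000000000000000) (nat_lit 0x0) (nat_lit 0xc800070006000200000000000000) := T_1 (nat_lit 57) (nat_lit 74) (nat_lit 7) (nat_lit 6) (nat_lit 3) L23551 (by decide +kernel)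
theorem L23553 : W_1 (nat_lit 2) (nat_lit 0x14000e00034001c0000000000000000000000) (nat_lit 0x0) (nat_lit 0x4200020000000000000000000000) := D_1 (nat_lit 89) (nat_lit 110) (nat_lit 105) (nat_lit 3) (nat_lit 4) (nat_lit 5) (nat_lit 1) (nat_lit 7) (nat_lit 5) (by decide +kernel)
theorem L23554 : W_1 (nat_lit 3) (nat_lit 0x14000e0003400180000000000000000000000) (nat_lit 0x0) (nat_lit 0x4200060002000000000000000000) := T_1 (nat_lit 90) (nat_lit 73) (nat_lit 4) (nat_lit 6) (nat_lit 8) L23553 (by decide +kernel)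
theorem L23555 : W_1 (nat_lit 4) (nat_lit 0x14000e0003400080000000000000000000000) (nat_lit 0x0) (nat_lit 0x420016000a000000000000000000) := T_1 (nat_lit 92) (nat_lit 75) (nat_lit 7) (nat_lit 7) (nat_lit 4) L23554 (by decide +kernel)
theorem L23556 : W_1 (nat_lit 5) (nat_lit 0x14000e0003000080000000000000000000000) (nat_lit 0x0) (nat_lit 0x4e0016000a000000000000000000) := T_1 (nat_lit 106) (nat_lit 107) (nat_lit 3) (nat_lit 4) (nat_lit 6) L23555 (by decide +kernel)
theorem L23557 : W_1 (nat_lit 6) (nat_lit 0x14000e0002000080000000000000000000000) (nat_lit 0x0) (nat_lit 0xde0017000e000600000000000000) := Q_1 (nat_lit 108) (C_1 L23548 (C_1 L23552 (C_1 L23556 N_1))) (by decide +kernel)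
theorem L23558 : W_1 (nat_lit 2) (nat_lit 0x1d000e0006000380000000000000000000000) (nat_lit 0x0) (nat_lit 0x8000060000000000000000000000) := D_1 (nat_lit 90) (nat_lit 111) (nat_lit 89) (nat_lit 3) (nat_lit 5) (nat_lit 5) (nat_lit 3) (nat_lit 4) (nat_lit 5) (by decide +kernel)
theorem L23559 : W_1 (nat_lit 3) (nat_lit 0x1d000e0002000380000000000000000000000) (nat_lit 0x0) (nat_lit 0x1000000000000c000060000000000000000000000) := T_1 (nat_lit 110) (nat_lit 160) (nat_lit 6) (nat_lit 7) (nat_lit 9) L23558 (by decide +kernel)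
theorem L23560 : W_1 (nat_lit 4) (nat_lit 0x1d000e0002000180000000000000000000000) (nat_lit 0x0) (nat_lit 0x1000000000000c000260010000000000000000000) := T_1 (nat_lit 93) (nat_lit 76) (nat_lit 6) (nat_lit 7) (nat_lit 8) L23559 (by decide +kernel)
theorem L23561 : W_1 (nat_lit 5) (nat_lit 0x1c000e0002000180000000000000000000000) (nat_lit 0x0) (nat_lit 0x1000030000000c000260010000000000000000000) := T_1 (nat_lit 140) (nat_lit 141) (nat_lit 2) (nat_lit 4) (nat_lit 8) L23560 (by decide +kernel)
theorem L23562 : W_1 (nat_lit 6) (nat_lit 0x14000e0002000180000000000000000000000) (nat_lit 0x0) (nat_lit 0x10000b0000000c000260014000000000000000000) := T_1 (nat_lit 143) (nat_lit 74) (nat_lit 4) (nat_lit 7) (nat_lit 8) L23561 (by decide +kernel)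
theorem L23563 : W_1 (nat_lit 7) (nat_lit 0x14000e0002000080000000000000000000000) (nat_lit 0x0) (nat_lit 0x10000b0000000c00036001c000000000000000000) := T_1 (nat_lit 92) (nat_lit 75) (nat_lit 7) (nat_lit 7) (nat_lit 4) L23562 (by decide +kernel)
theorem L23564 : W_1 (nat_lit 2) (nat_lit 0x1d000e00034001c0000000000000000000000) (nat_lit 0x0) (nat_lit 0x4200020000000000000000000000) := D_1 (nat_lit 89) (nat_lit 110) (nat_lit 105) (nat_lit 3) (nat_lit 4) (nat_lit 5) (nat_lit 1) (nat_lit 7) (nat_lit 5) (by decide +kernel)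
theorem L23565 : W_1 (nat_lit 3) (nat_lit 0x1d000e0003400180000000000000000000000) (nat_lit 0x0) (nat_lit 0x4200060002000000000000000000) := T_1 (nat_lit 90) (nat_lit 73) (nat_lit 4) (nat_lit 6) (nat_lit 8) L23564 (by decide +kernel)
theorem L23566 : W_1 (nat_lit 4) (nat_lit 0x1d000e0003000180000000000000000000000) (nat_lit 0x0) (nat_lit 0x4e00060002000000000000000000) := T_1 (nat_lit 106) (nat_lit 107) (nat_lit 3) (nat_lit 4) (nat_lit 6) L23565 (by decide +kernel)
theorem L23567 : W_1 (nat_lit 5) (nat_lit 0x1d000e0002000180000000000000000000000) (nat_lit 0x0) (nat_lit 0x10000000000005e00060002000000000000000000) := T_1 (nat_lit 108) (nat_lit 160) (nat_lit 7) (nat_lit 6) (nat_lit 5) L23566 (by decide +kernel)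
theorem L23568 : W_1 (nat_lit 6) (nat_lit 0x1c000e0002000180000000000000000000000) (nat_lit 0x0) (nat_lit 0x10000300000005e00060002000000000000000000) := T_1 (nat_lit 140) (nat_lit 141) (nat_lit 2) (nat_lit 4) (nat_lit 8) L23567 (by decide +kernel)
theorem L23569 : W_1 (nat_lit 7) (nat_lit 0x14000e0002000180000000000000000000000) (nat_lit 0x0) (nat_lit 0x10000b00000005e00060006000000000000000000) := T_1 (nat_lit 143) (nat_lit 74) (nat_lit 4) (nat_lit 7) (nat_lit 8) L23568 (by decide +kernel)
theorem L23570 : W_1 (nat_lit 8) (nat_lit 0x14000e0002000080000000000000000000000) (nat_lit 0x0) (nat_lit 0x10000b00000005e0016000e000000000000000000) := T_1 (nat_lit 92) (nat_lit 75) (nat_lit 7) (nat_lit 7) (nat_lit 4) L23569 (by decide +kernel)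
theorem L23571 : W_1 (nat_lit 2) (nat_lit 0x14000e0003000080000000000000000000000) (nat_lit 0x0) (nat_lit 0x800000000000000004000200000000000000) := D_1 (nat_lit 74) (nat_lit 57) (nat_lit 143) (nat_lit 7) (nat_lit 6) (nat_lit 3) (nat_lit 7) (nat_lit 6) (nat_lit 4) (by decide +kernel)
theorem L23572 : W_1 (nat_lit 2) (nat_lit 0x1c000e0003400080000000000000000000000) (nat_lit 0x0) (nat_lit 0x4000300000000000000000000000000000000000) := D_1 (nat_lit 141) (nat_lit 158) (nat_lit 140) (nat_lit 5) (nat_lit 6) (nat_lit 5) (nat_lit 2) (nat_lit 4) (nat_lit 8) (by decide +kernel)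
theorem L23573 : W_1 (nat_lit 3) (nat_lit 0x14000e0003400080000000000000000000000) (nat_lit 0x0) (nat_lit 0x14000b00000000000000000000000000000000000) := T_1 (nat_lit 143) (nat_lit 160) (nat_lit 7) (nat_lit 6) (nat_lit 5) L23572 (by decide +kernel)
theorem L23574 : W_1 (nat_lit 4) (nat_lit 0x14000e0003000080000000000000000000000) (nat_lit 0x0) (nat_lit 0x14000b00000000c00000000000000000000000000) := T_1 (nat_lit 106) (nat_lit 107) (nat_lit 3) (nat_lit 4) (nat_lit 6) L23573 (by decide +kernel)
theorem L23575 : W_1 (nat_lit 6) (nat_lit 0x14000e0002000080000000000000000000000) (nat_lit 0x0) (nat_lit 0x14000b0000000dc00070006000200000000000000) := Q_1 (nat_lit 108) (C_1 L23552 (C_1 L23571 (C_1 L23574 N_1))) (by decide +kernel)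
theorem L23576 : W_1 (nat_lit 2) (nat_lit 0x1d000e00034001c0000000000000000000000) (nat_lit 0x0) (nat_lit 0x200030000000000000000000000) := D_1 (nat_lit 89) (nat_lit 88) (nat_lit 105) (nat_lit 3) (nat_lit 3) (nat_lit 5) (nat_lit 1) (nat_lit 7) (nat_lit 5) (by decide +kernel)
theorem L23577 : W_1 (nat_lit 3) (nat_lit 0x1d000e0003400180000000000000000000000) (nat_lit 0x0) (nat_lit 0x200070002000000000000000000) := T_1 (nat_lit 90) (nat_lit 73) (nat_lit 4) (nat_lit 6) (nat_lit 8) L23576 (by decide +kernel)
theorem L23578 : W_1 (nat_lit 4) (nat_lit 0x1d000e0003000180000000000000000000000) (nat_lit 0x0) (nat_lit 0xe00070002000000000000000000) := T_1 (nat_lit 106) (nat_lit 107) (nat_lit 3) (nat_lit 4) (nat_lit 6) L23577 (by decide +kernel)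
theorem L23579 : W_1 (nat_lit 5) (nat_lit 0x1d000e0002000180000000000000000000000) (nat_lit 0x0) (nat_lit 0x10000000000001e00070002000000000000000000) := T_1 (nat_lit 108) (nat_lit 160) (nat_lit 7) (nat_lit 6) (nat_lit 5) L23578 (by decide +kernel)
theorem L23580 : W_1 (nat_lit 6) (nat_lit 0x1c000e0002000180000000000000000000000) (nat_lit 0x0) (nat_lit 0x10000300000001e00070002000000000000000000) := T_1 (nat_lit 140) (nat_lit 141) (nat_lit 2) (nat_lit 4) (nat_lit 8) L23579 (by decide +kernel)
theorem L23581 : W_1 (nat_lit 7) (nat_lit 0x14000e0002000180000000000000000000000) (nat_lit 0x0) (nat_lit 0x10000b00000001e00070006000000000000000000) := T_1 (nat_lit 143) (nat_lit 74) (nat_lit 4) (nat_lit 7) (nat_lit 8) L23580 (by decide +kernel)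
theorem L23582 : W_1 (nat_lit 8) (nat_lit 0x14000e0002000080000000000000000000000) (nat_lit 0x0) (nat_lit 0x10000b00000001e0017000e000000000000000000) := T_1 (nat_lit 92) (nat_lit 75) (nat_lit 7) (nat_lit 7) (nat_lit 4) L23581 (by decide +kernel)
theorem L23583 : W_1 (nat_lit 2) (nat_lit 0x1d000e0003000380000000000000000000000) (nat_lit 0x0) (nat_lit 0xc00400000000000000000000000) := D_1 (nat_lit 107) (nat_lit 106) (nat_lit 94) (nat_lit 3) (nat_lit 4) (nat_lit 6) (nat_lit 1) (nat_lit 9) (nat_lit 5) (by decide +kernel)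
theorem L23584 : W_1 (nat_lit 3) (nat_lit 0x1d000e0003000180000000000000000000000) (nat_lit 0x0) (nat_lit 0xc00600010000000000000000000) := T_1 (nat_lit 93) (nat_lit 76) (nat_lit 6) (nat_lit 7) (nat_lit 8) L23583 (by decide +kernel)
theorem L23585 : W_1 (nat_lit 4) (nat_lit 0x1d000e0002000180000000000000000000000) (nat_lit 0x0) (nat_lit 0x10000000000001c00600010000000000000000000) := T_1 (nat_lit 108) (nat_lit 160) (nat_lit 7) (nat_lit 6) (nat_lit 5) L23584 (by decide +kernel)
theorem L23586 : W_1 (nat_lit 5) (nat_lit 0x1c000e0002000180000000000000000000000) (nat_lit 0x0) (nat_lit 0x10000300000001c00600010000000000000000000) := T_1 (nat_lit 140) (nat_lit 141) (nat_lit 2) (nat_lit 4) (nat_lit 8) L23585 (by decide +kernel)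
theorem L23587 : W_1 (nat_lit 6) (nat_lit 0x14000e0002000180000000000000000000000) (nat_lit 0x0) (nat_lit 0x10000b00000001c00600014000000000000000000) := T_1 (nat_lit 143) (nat_lit 74) (nat_lit 4) (nat_lit 7) (nat_lit 8) L23586 (by decide +kernel)
theorem L23588 : W_1 (nat_lit 7) (nat_lit 0x14000e0002000080000000000000000000000) (nat_lit 0x0) (nat_lit 0x10000b00000001c0070001c000000000000000000) := T_1 (nat_lit 92) (nat_lit 75) (nat_lit 7) (nat_lit 7) (nat_lit 4) L23587 (by decide +kernel)
theorem L23589 : W_1 (nat_lit 2) (nat_lit 0x1c000e0003000080008000000000000000000) (nat_lit 0x0) (nat_lit 0x4000300000000000000000000000000000000000) := D_1 (nat_lit 141) (nat_lit 158) (nat_lit 140) (nat_lit 5) (nat_lit 6) (nat_lit 5) (nat_lit 2) (nat_lit 4) (nat_lit 8) (by decide +kernel)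
theorem L23590 : W_1 (nat_lit 3) (nat_lit 0x14000e0003000080008000000000000000000) (nat_lit 0x0) (nat_lit 0x14000b00000000000000000000000000000000000) := T_1 (nat_lit 143) (nat_lit 160) (nat_lit 7) (nat_lit 6) (nat_lit 5) L23589 (by decide +kernel)
theorem L23591 : W_1 (nat_lit 4) (nat_lit 0x14000e0003000080000000000000000000000) (nat_lit 0x0) (nat_lit 0x14000b00000000000100008000000000000000000) := T_1 (nat_lit 75) (nat_lit 92) (nat_lit 7) (nat_lit 7) (nat_lit 4) L23590 (by decide +kernel)
theorem L23592 : W_1 (nat_lit 6) (nat_lit 0x14000e0002000080000000000000000000000) (nat_lit 0x0) (nat_lit 0x14000b00000005e0016000a000000000000000000) := Q_1 (nat_lit 108) (C_1 L23556 (C_1 L23574 (C_1 L23591 N_1))) (by decide +kernel)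
theorem L23593 : W_1 (nat_lit 9) (nat_lit 0x14000e0002000000000000000000000000000) (nat_lit 0x0) (nat_lit 0x14000b0000000de007f001e000600000000000000) := Q_1 (nat_lit 91) (C_1 L23557 (C_1 L23563 (C_1 L23570 (C_1 L23575 (C_1 L23582 (C_1 L23588 (C_1 L23592 N_1))))))) (by decide +kernel)
theorem L23594 : W_1 (nat_lit 2) (nat_lit 0x14000e0002000100000000000000000000000) (nat_lit 0x0) (nat_lit 0x100008000000000001000000000000000000000000000) := D_1 (nat_lit 159) (nat_lit 176) (nat_lit 108) (nat_lit 6) (nat_lit 6) (nat_lit 10) (nat_lit 6) (nat_lit 6) (nat_lit 9) (by decide +kernel)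
theorem L23595 : W_1 (nat_lit 3) (nat_lit 0x14000e0002000000000000000000000000000) (nat_lit 0x0) (nat_lit 0x100008000000000001000100008000000000000000000) := T_1 (nat_lit 92) (nat_lit 75) (nat_lit 7) (nat_lit 7) (nat_lit 4) L23594 (by decide +kernel)
theorem L23596 : W_1 (nat_lit 2) (nat_lit 0x14000e000f400480000000000000000000000) (nat_lit 0x0) (nat_lit 0x200020001000000000000000) := D_1 (nat_lit 77) (nat_lit 60) (nat_lit 93) (nat_lit 5) (nat_lit 9) (nat_lit 3) (nat_lit 6) (nat_lit 8) (nat_lit 8) (by decide +kernel)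
theorem L23597 : W_1 (nat_lit 3) (nat_lit 0x14000e000f400080000000000000000000000) (nat_lit 0x0) (nat_lit 0xe00020001000000000000000) := T_1 (nat_lit 94) (nat_lit 95) (nat_lit 2) (nat_lit 6) (nat_lit 6) L23596 (by decide +kernel)
theorem L23598 : W_1 (nat_lit 4) (nat_lit 0x14000e000f400000000000000000000000000) (nat_lit 0x0) (nat_lit 0xec0020001000000000000000) := T_1 (nat_lit 91) (nat_lit 90) (nat_lit 0) (nat_lit 9) (nat_lit 6) L23597 (by decide +kernel)
theorem L23599 : W_1 (nat_lit 5) (nat_lit 0x14000e0007400000000000000000000000000) (nat_lit 0x0) (nat_lit 0x18000ec0020001000000000000000) := T_1 (nat_lit 111) (nat_lit 112) (nat_lit 1) (nat_lit 10) (nat_lit 6) L23598 (by decide +kernel)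
theorem L23600 : W_1 (nat_lit 6) (nat_lit 0x14000e0007000000000000000000000000000) (nat_lit 0x0) (nat_lit 0x18c00ec0020001000000000000000) := T_1 (nat_lit 106) (nat_lit 107) (nat_lit 3) (nat_lit 4) (nat_lit 6) L23599 (by decide +kernel)
theorem L23601 : W_1 (nat_lit 2) (nat_lit 0x14000e0007800200000000000000000000000) (nat_lit 0x0) (nat_lit 0x800000000000000010000800000000000000) := D_1 (nat_lit 76) (nat_lit 59) (nat_lit 143) (nat_lit 5) (nat_lit 8) (nat_lit 3) (nat_lit 5) (nat_lit 8) (nat_lit 4) (by decide +kernel)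
theorem L23602 : W_1 (nat_lit 3) (nat_lit 0x14000e0007800000000000000000000000000) (nat_lit 0x0) (nat_lit 0x800000000000600010000800000000000000) := T_1 (nat_lit 93) (nat_lit 94) (nat_lit 2) (nat_lit 5) (nat_lit 6) L23601 (by decide +kernel)
theorem L23603 : W_1 (nat_lit 4) (nat_lit 0x14000e0007000000000000000000000000000) (nat_lit 0x0) (nat_lit 0x800000000c00600010000800000000000000) := T_1 (nat_lit 107) (nat_lit 106) (nat_lit 3) (nat_lit 4) (nat_lit 6) L23602 (by decide +kernel)
theorem L23604 : W_1 (nat_lit 2) (nat_lit 0x14000e000f400080000000000000000000000) (nat_lit 0x0) (nat_lit 0x10000800000000000000004000000000000000000) := D_1 (nat_lit 143) (nat_lit 160) (nat_lit 74) (nat_lit 7) (nat_lit 6) (nat_lit 5) (nat_lit 7) (nat_lit 6) (nat_lit 4) (by decide +kernel)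
theorem L23605 : W_1 (nat_lit 3) (nat_lit 0x14000e000f400000000000000000000000000) (nat_lit 0x0) (nat_lit 0x100008000000000000c0004000000000000000000) := T_1 (nat_lit 91) (nat_lit 90) (nat_lit 0) (nat_lit 9) (nat_lit 6) L23604 (by decide +kernel)
theorem L23606 : W_1 (nat_lit 4) (nat_lit 0x14000e0007400000000000000000000000000) (nat_lit 0x0) (nat_lit 0x100008000000180000c0004000000000000000000) := T_1 (nat_lit 111) (nat_lit 112) (nat_lit 1) (nat_lit 10) (nat_lit 6) L23605 (by decide +kernel)
theorem L23607 : W_1 (nat_lit 5) (nat_lit 0x14000e0007000000000000000000000000000) (nat_lit 0x0) (nat_lit 0x10000800000018c000c0004000000000000000000) := T_1 (nat_lit 106) (nat_lit 107) (nat_lit 3) (nat_lit 4) (nat_lit 6) L23606 (by decide +kernel)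
theorem L23608 : W_1 (nat_lit 2) (nat_lit 0x14000e000f000080000000000000000000000) (nat_lit 0x0) (nat_lit 0x10000800000000000000004000000000000000000) := D_1 (nat_lit 143) (nat_lit 160) (nat_lit 74) (nat_lit 7) (nat_lit 6) (nat_lit 5) (nat_lit 7) (nat_lit 6) (nat_lit 4) (by decide +kernel)
theorem L23609 : W_1 (nat_lit 3) (nat_lit 0x14000e000f000000000000000000000000000) (nat_lit 0x0) (nat_lit 0x100008000000000000c0004000000000000000000) := T_1 (nat_lit 91) (nat_lit 90) (nat_lit 0) (nat_lit 9) (nat_lit 6) L23608 (by decide +kernel)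
theorem L23610 : W_1 (nat_lit 4) (nat_lit 0x14000e0007000000000000000000000000000) (nat_lit 0x0) (nat_lit 0x100008000000180000c0004000000000000000000) := T_1 (nat_lit 111) (nat_lit 112) (nat_lit 1) (nat_lit 10) (nat_lit 6) L23609 (by decide +kernel)
theorem L23611 : W_1 (nat_lit 7) (nat_lit 0x14000e0003000000000000000000000000000) (nat_lit 0x0) (nat_lit 0x1000080000001cc00ec0034001800000000000000) := Q_1 (nat_lit 110) (C_1 L23600 (C_1 L23603 (C_1 L23607 (C_1 L23610 N_1)))) (by decide +kernel)
theorem L23612 : W_1 (nat_lit 2) (nat_lit 0xc0014000e0003400080002000000000000000000) (nat_lit 0x0) (nat_lit 0x4000300000000000000) := D_1 (nat_lit 74) (nat_lit 57) (nat_lit 56) (nat_lit 7) (nat_lit 6) (nat_lit 3) (nat_lit 4) (nat_lit 6) (nat_lit 7) (by decide +kernel)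
theorem L23613 : W_1 (nat_lit 3) (nat_lit 0xc0014000e0003400080000000000000000000000) (nat_lit 0x0) (nat_lit 0x40006000300000000000000) := T_1 (nat_lit 73) (nat_lit 90) (nat_lit 4) (nat_lit 6) (nat_lit 8) L23612 (by decide +kernel)
theorem L23614 : W_1 (nat_lit 4) (nat_lit 0xc0014000e0003400000000000000000000000000) (nat_lit 0x0) (nat_lit 0x2000000000000c0006000300000000000000) := T_1 (nat_lit 91) (nat_lit 141) (nat_lit 5) (nat_lit 6) (nat_lit 5) L23613 (by decide +kernel)
theorem L23615 : W_1 (nat_lit 5) (nat_lit 0x80014000e0003400000000000000000000000000) (nat_lit 0x0) (nat_lit 0x800040002000000000000c0006000300000000000000) := T_1 (nat_lit 158) (nat_lit 175) (nat_lit 5) (nat_lit 6) (nat_lit 6) L23614 (by decide +kernel)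
theorem L23616 : W_1 (nat_lit 6) (nat_lit 0x14000e0003400000000000000000000000000) (nat_lit 0x0) (nat_lit 0x18000c0002000000000000c0006000300000000000000) := T_1 (nat_lit 159) (nat_lit 176) (nat_lit 6) (nat_lit 6) (nat_lit 10) L23615 (by decide +kernel)
theorem L23617 : W_1 (nat_lit 7) (nat_lit 0x14000e0003000000000000000000000000000) (nat_lit 0x0) (nat_lit 0x18000c000200000000c000c0006000300000000000000) := T_1 (nat_lit 106) (nat_lit 107) (nat_lit 3) (nat_lit 4) (nat_lit 6) L23616 (by decide +kernel)
theorem L23618 : W_1 (nat_lit 2) (nat_lit 0x80014000e0003000000000000000000000000000) (nat_lit 0x0) (nat_lit 0xc00040000000000000000000000) := D_1 (nat_lit 107) (nat_lit 106) (nat_lit 90) (nat_lit 3) (nat_lit 4) (nat_lit 6) (nat_lit 4) (nat_lit 6) (nat_lit 9) (by decide +kernel)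
theorem L23619 : W_1 (nat_lit 3) (nat_lit 0x14000e0003000000000000000000000000000) (nat_lit 0x0) (nat_lit 0x100008000000000000c00040000000000000000000000) := T_1 (nat_lit 159) (nat_lit 176) (nat_lit 6) (nat_lit 6) (nat_lit 10) L23618 (by decide +kernel)
theorem L23620 : W_1 (nat_lit 2) (nat_lit 0xc0014000e0003000080000000000000000000000) (nat_lit 0x0) (nat_lit 0x200010000800000000000000000000000000000000000) := D_1 (nat_lit 160) (nat_lit 143) (nat_lit 177) (nat_lit 7) (nat_lit 6) (nat_lit 5) (nat_lit 7) (nat_lit 6) (nat_lit 6) (by decide +kernel)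
theorem L23621 : W_1 (nat_lit 3) (nat_lit 0xc0014000e0003000000000000000000000000000) (nat_lit 0x0) (nat_lit 0x200010000a00000000000080000000000000000000000) := T_1 (nat_lit 91) (nat_lit 141) (nat_lit 5) (nat_lit 6) (nat_lit 5) L23620 (by decide +kernel)
theorem L23622 : W_1 (nat_lit 4) (nat_lit 0x80014000e0003000000000000000000000000000) (nat_lit 0x0) (nat_lit 0x280014000a00000000000080000000000000000000000) := T_1 (nat_lit 158) (nat_lit 175) (nat_lit 5) (nat_lit 6) (nat_lit 6) L23621 (by decide +kernel)
theorem L23623 : W_1 (nat_lit 5) (nat_lit 0x14000e0003000000000000000000000000000) (nat_lit 0x0) (nat_lit 0x38001c000a00000000000080000000000000000000000) := T_1 (nat_lit 159) (nat_lit 176) (nat_lit 6) (nat_lit 6) (nat_lit 10) L23622 (by decide +kernel)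
theorem L23624 : W_1 (nat_lit 8) (nat_lit 0x14000e0002000000000000000000000000000) (nat_lit 0x0) (nat_lit 0x38001c000a0000001dc00ec0036001b00000000000000) := Q_1 (nat_lit 108) (C_1 L23611 (C_1 L23617 (C_1 L23619 (C_1 L23623 N_1)))) (by decide +kernel)
theorem L23625 : W_1 (nat_lit 10) (nat_lit 0x14000e0000000000000000000000000000000) (nat_lit 0x0) (nat_lit 0x38001c000b0000001fe00ff003e001f00000000000000) := Q_1 (nat_lit 109) (C_1 L23546 (C_1 L23593 (C_1 L23595 (C_1 L23624 N_1)))) (by decide +kernel)
theorem L23626 : W_1 (nat_lit 6) (nat_lit 0x14000e0000000000000000000000000000000) (nat_lit 0x0) (nat_lit 0x800020030001b800100008000000000000000000) := T_1 (nat_lit 128) (nat_lit 141) (nat_lit 1) (nat_lit 9) (nat_lit 7) L22515 (by decide +kernel)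
theorem L23627 : W_1 (nat_lit 2) (nat_lit 0x14000e0003000000000000000000000000000) (nat_lit 0x0) (nat_lit 0x300000800000000000000000000000000) := D_1 (nat_lit 128) (nat_lit 107) (nat_lit 129) (nat_lit 0) (nat_lit 9) (nat_lit 7) (nat_lit 0) (nat_lit 10) (nat_lit 7) (by decide +kernel)
theorem L23628 : W_1 (nat_lit 2) (nat_lit 0x14001e000f000480008000000000000000000) (nat_lit 0x0) (nat_lit 0x10000800000000000000004000000000000000000) := D_1 (nat_lit 143) (nat_lit 160) (nat_lit 74) (nat_lit 7) (nat_lit 6) (nat_lit 5) (nat_lit 7) (nat_lit 6) (nat_lit 4) (by decide +kernel)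
theorem L23629 : W_1 (nat_lit 3) (nat_lit 0x14001e000f000400008000000000000000000) (nat_lit 0x0) (nat_lit 0x100008000000000000c0004000000000000000000) := T_1 (nat_lit 91) (nat_lit 90) (nat_lit 0) (nat_lit 9) (nat_lit 6) L23628 (by decide +kernel)
theorem L23630 : W_1 (nat_lit 4) (nat_lit 0x14001e000b000400008000000000000000000) (nat_lit 0x0) (nat_lit 0x100008000000040008c0004000000000000000000) := T_1 (nat_lit 110) (nat_lit 95) (nat_lit 2) (nat_lit 6) (nat_lit 6) L23629 (by decide +kernel)
theorem L23631 : W_1 (nat_lit 5) (nat_lit 0x14001e000b000000008000000000000000000) (nat_lit 0x0) (nat_lit 0x10000800000004000cc0024000000000000000000) := T_1 (nat_lit 94) (nat_lit 77) (nat_lit 5) (nat_lit 9) (nat_lit 4) L23630 (by decide +kernel)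
theorem L23632 : W_1 (nat_lit 6) (nat_lit 0x14001e0003000000008000000000000000000) (nat_lit 0x0) (nat_lit 0x1000080000001c000cc0024000000000000000000) := T_1 (nat_lit 111) (nat_lit 112) (nat_lit 2) (nat_lit 6) (nat_lit 7) L23631 (by decide +kernel)
theorem L23633 : W_1 (nat_lit 7) (nat_lit 0x14000e0003000000008000000000000000000) (nat_lit 0x0) (nat_lit 0x1000080030001c000cc0024000000000000000000) := T_1 (nat_lit 128) (nat_lit 129) (nat_lit 0) (nat_lit 10) (nat_lit 7) L23632 (by decide +kernel)
theorem L23634 : W_1 (nat_lit 8) (nat_lit 0x14000e0003000000000000000000000000000) (nat_lit 0x0) (nat_lit 0x1000080030001c000dc002c000000000000000000) := T_1 (nat_lit 75) (nat_lit 92) (nat_lit 7) (nat_lit 7) (nat_lit 4) L23633 (by decide +kernel)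
theorem L23635 : W_1 (nat_lit 9) (nat_lit 0x14000e0002000000000000000000000000000) (nat_lit 0x0) (nat_lit 0x1000080030001dc00fc003c001800000000000000) := Q_1 (nat_lit 108) (C_1 L23627 (C_1 L23611 (C_1 L23634 N_1))) (by decide +kernel)
theorem L23636 : W_1 (nat_lit 2) (nat_lit 0x1c0014002e0003000000000000000000000000000) (nat_lit 0x0) (nat_lit 0x2000800000000000080000000000000000000000) := D_1 (nat_lit 143) (nat_lit 91) (nat_lit 157) (nat_lit 7) (nat_lit 6) (nat_lit 5) (nat_lit 2) (nat_lit 4) (nat_lit 9) (by decide +kernel)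
theorem L23637 : W_1 (nat_lit 3) (nat_lit 0xc0014002e0003000000000000000000000000000) (nat_lit 0x0) (nat_lit 0x200012000800000000000080000000000000000000000) := T_1 (nat_lit 160) (nat_lit 177) (nat_lit 7) (nat_lit 6) (nat_lit 6) L23636 (by decide +kernel)
theorem L23638 : W_1 (nat_lit 4) (nat_lit 0x80014002e0003000000000000000000000000000) (nat_lit 0x0) (nat_lit 0x280016000800000000000080000000000000000000000) := T_1 (nat_lit 158) (nat_lit 175) (nat_lit 5) (nat_lit 6) (nat_lit 6) L23637 (by decide +kernel)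
theorem L23639 : W_1 (nat_lit 5) (nat_lit 0x14002e0003000000000000000000000000000) (nat_lit 0x0) (nat_lit 0x38001e000800000000000080000000000000000000000) := T_1 (nat_lit 159) (nat_lit 176) (nat_lit 6) (nat_lit 6) (nat_lit 10) L23638 (by decide +kernel)
theorem L23640 : W_1 (nat_lit 6) (nat_lit 0x14000e0003000000000000000000000000000) (nat_lit 0x0) (nat_lit 0x38001e000800300000000080000000000000000000000) := T_1 (nat_lit 129) (nat_lit 128) (nat_lit 0) (nat_lit 10) (nat_lit 7) L23639 (by decide +kernel)
theorem L23641 : W_1 (nat_lit 7) (nat_lit 0x14000e0002000000000000000000000000000) (nat_lit 0x0) (nat_lit 0x38001e000800300001c000c0000000000000000000000) := Q_1 (nat_lit 108) (C_1 L23627 (C_1 L23619 (C_1 L23640 N_1))) (by decide +kernel)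
theorem L23642 : W_1 (nat_lit 10) (nat_lit 0x14000e0000000000000000000000000000000) (nat_lit 0x0) (nat_lit 0x38001e00080030001fc00fc003c001800000000000000) := Q_1 (nat_lit 109) (C_1 L23595 (C_1 L23546 (C_1 L23635 (C_1 L23641 N_1)))) (by decide +kernel)
theorem L23643 : W_1 (nat_lit 11) (nat_lit 0x10000e0000000000000000000000000000000) (nat_lit 0x0) (nat_lit 0x38001e000f8030001fe00ff003e001f00000000000000) := Q_1 (nat_lit 142) (C_1 L23544 (C_1 L23625 (C_1 L23626 (C_1 L23642 N_1)))) (by decide +kernel)
theorem L23644 : W_1 (nat_lit 11) (nat_lit 0x10000e0000000000000000000000000000000) (nat_lit 0x0) (nat_lit 0x38001e000f8001801fc00ff001f000c00000000000000) := Q_1 (nat_lit 124) (C_1 L22474 (C_1 L22930 (C_1 L22466 (C_1 L22470 N_1)))) (by decide +kernel)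
theorem L23645 : W_1 (nat_lit 2) (nat_lit 0x12000f0005800000000000000000000000000) (nat_lit 0x0) (nat_lit 0x80004000000000000000080000000000000000000000) := D_1 (nat_lit 158) (nat_lit 175) (nat_lit 91) (nat_lit 6) (nat_lit 5) (nat_lit 10) (nat_lit 6) (nat_lit 5) (nat_lit 9) (by decide +kernel)
theorem L23646 : W_1 (nat_lit 3) (nat_lit 0x12000f0004800000000000000000000000000) (nat_lit 0x0) (nat_lit 0x80004000000100001000080000000000000000000000) := T_1 (nat_lit 108) (nat_lit 128) (nat_lit 0) (nat_lit 9) (nat_lit 7) L23645 (by decide +kernel)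
theorem L23647 : W_1 (nat_lit 4) (nat_lit 0x10000f0004800000000000000000000000000) (nat_lit 0x0) (nat_lit 0x80004000300100001000080000000000000000000000) := T_1 (nat_lit 141) (nat_lit 140) (nat_lit 1) (nat_lit 8) (nat_lit 7) L23646 (by decide +kernel)
theorem L23648 : W_1 (nat_lit 5) (nat_lit 0x10000f0004000000000000000000000000000) (nat_lit 0x0) (nat_lit 0x80004000300100001c00080000000000000000000000) := T_1 (nat_lit 107) (nat_lit 106) (nat_lit 0) (nat_lit 8) (nat_lit 7) L23647 (by decide +kernel)
theorem L23649 : W_1 (nat_lit 6) (nat_lit 0x10000f0000000000000000000000000000000) (nat_lit 0x0) (nat_lit 0x8000400030010000dc00080000000000000000000000) := T_1 (nat_lit 110) (nat_lit 111) (nat_lit 2) (nat_lit 5) (nat_lit 7) L23648 (by decide +kernel)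
theorem L23650 : W_1 (nat_lit 9) (nat_lit 0x10000e0000000000000000000000000000000) (nat_lit 0x0) (nat_lit 0x80014000b8011e00fc00780018000c00000000000000) := Q_1 (nat_lit 124) (C_1 L22474 (C_1 L23467 (C_1 L23025 (C_1 L22494 (C_1 L22470 (C_1 L23649 N_1)))))) (by decide +kernel)
theorem L23651 : W_1 (nat_lit 2) (nat_lit 0x10000f0004000000000000000000000000000) (nat_lit 0x0) (nat_lit 0x800008002000000000000000000000000000) := D_1 (nat_lit 123) (nat_lit 109) (nat_lit 143) (nat_lit 2) (nat_lit 4) (nat_lit 7) (nat_lit 3) (nat_lit 4) (nat_lit 7) (by decide +kernel)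
theorem L23652 : W_1 (nat_lit 3) (nat_lit 0x10000f0000000000000000000000000000000) (nat_lit 0x0) (nat_lit 0x80000800e000000000000000000000000000) := T_1 (nat_lit 110) (nat_lit 111) (nat_lit 2) (nat_lit 5) (nat_lit 7) L23651 (by decide +kernel)
theorem L23653 : W_1 (nat_lit 2) (nat_lit 0x10000f0008800000000000000000000000000) (nat_lit 0x0) (nat_lit 0x100011000000000000000000000000000) := D_1 (nat_lit 128) (nat_lit 108) (nat_lit 112) (nat_lit 0) (nat_lit 9) (nat_lit 7) (nat_lit 2) (nat_lit 6) (nat_lit 7) (by decide +kernel)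
theorem L23654 : W_1 (nat_lit 3) (nat_lit 0x10000f0000800000000000000000000000000) (nat_lit 0x0) (nat_lit 0x10001d000000000000000000000000000) := T_1 (nat_lit 111) (nat_lit 110) (nat_lit 2) (nat_lit 5) (nat_lit 7) L23653 (by decide +kernel)
theorem L23655 : W_1 (nat_lit 4) (nat_lit 0x10000f0000000000000000000000000000000) (nat_lit 0x0) (nat_lit 0x10001dc00000000000000000000000000) := T_1 (nat_lit 107) (nat_lit 106) (nat_lit 0) (nat_lit 8) (nat_lit 7) L23654 (by decide +kernel)
theorem L23656 : W_1 (nat_lit 9) (nat_lit 0x10000e0000000000000000000000000000000) (nat_lit 0x0) (nat_lit 0x1000080011e01fc00700018000c00000000000000) := Q_1 (nat_lit 124) (C_1 L22474 (C_1 L23467 (C_1 L23025 (C_1 L22494 (C_1 L23652 (C_1 L23655 N_1)))))) (by decide +kernel)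
theorem L23657 : W_1 (nat_lit 2) (nat_lit 0x12000f0008000000000000000000000000000) (nat_lit 0x0) (nat_lit 0x400100010000000000000000000000000000) := D_1 (nat_lit 128) (nat_lit 142) (nat_lit 112) (nat_lit 1) (nat_lit 9) (nat_lit 7) (nat_lit 2) (nat_lit 6) (nat_lit 7) (by decide +kernel)
theorem L23658 : W_1 (nat_lit 3) (nat_lit 0x12000f0000000000000000000000000000000) (nat_lit 0x0) (nat_lit 0x40010001c000000000000000000000000000) := T_1 (nat_lit 111) (nat_lit 110) (nat_lit 2) (nat_lit 5) (nat_lit 7) L23657 (by decide +kernel)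
theorem L23659 : W_1 (nat_lit 4) (nat_lit 0x10000f0000000000000000000000000000000) (nat_lit 0x0) (nat_lit 0x70010001c000000000000000000000000000) := T_1 (nat_lit 141) (nat_lit 140) (nat_lit 1) (nat_lit 8) (nat_lit 7) L23658 (by decide +kernel)
theorem L23660 : W_1 (nat_lit 5) (nat_lit 0x10000e0000000000000000000000000000000) (nat_lit 0x0) (nat_lit 0xf8011801e000000000000000000000000000) := Q_1 (nat_lit 124) (C_1 L23652 (C_1 L22466 (C_1 L22470 (C_1 L23659 N_1)))) (by decide +kernel)
theorem L23661 : W_1 (nat_lit 12) (nat_lit 0x10000a0000000000000000000000000000000) (nat_lit 0x0) (nat_lit 0x38001e000fc035e01fe00ff003f001f00000000000000) := Q_1 (nat_lit 126) (C_1 L23643 (C_1 L22495 (C_1 L23644 (C_1 L23026 (C_1 L22479 (C_1 L23468 (C_1 L23650 (C_1 L23656 (C_1 L23660 N_1))))))))) (by decide +kernel)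
theorem L23662 : W_1 (nat_lit 10) (nat_lit 0x10001e0000000000000000000000000000000) (nat_lit 0x0) (nat_lit 0x5000680000001e0007c003e000000000000000000) := T_1 (nat_lit 145) (nat_lit 146) (nat_lit 3) (nat_lit 6) (nat_lit 7) L22444 (by decide +kernel)
theorem L23782 : W_1 (nat_lit 3) (nat_lit 0x10001e0000000200000000000000000000000) (nat_lit 0x0) (nat_lit 0x40006000000004000000010000000000000000000) := T_1 (nat_lit 145) (nat_lit 146) (nat_lit 3) (nat_lit 6) (nat_lit 7) L22409 (by decide +kernel)
theorem L23783 : W_1 (nat_lit 2) (nat_lit 0x30001e0003000200010000000000000000000) (nat_lit 0x0) (nat_lit 0x800000000000100008000000000000000000) := D_1 (nat_lit 92) (nat_lit 143) (nat_lit 75) (nat_lit 6) (nat_lit 7) (nat_lit 8) (nat_lit 7) (nat_lit 7) (nat_lit 4) (by decide +kernel)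
theorem L23784 : W_1 (nat_lit 3) (nat_lit 0x30001e0001000200010000000000000000000) (nat_lit 0x0) (nat_lit 0x800200002000100008000000000000000000) := T_1 (nat_lit 109) (nat_lit 129) (nat_lit 0) (nat_lit 10) (nat_lit 7) L23783 (by decide +kernel)
theorem L23785 : W_1 (nat_lit 4) (nat_lit 0x30001e0000000200010000000000000000000) (nat_lit 0x0) (nat_lit 0x800200003800100008000000000000000000) := T_1 (nat_lit 108) (nat_lit 107) (nat_lit 0) (nat_lit 9) (nat_lit 7) L23784 (by decide +kernel)
theorem L23786 : W_1 (nat_lit 5) (nat_lit 0x30001e0000000200000000000000000000000) (nat_lit 0x0) (nat_lit 0x800200007800100018000000000000000000) := T_1 (nat_lit 76) (nat_lit 110) (nat_lit 7) (nat_lit 8) (nat_lit 4) L23785 (by decide +kernel)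
theorem L23787 : W_1 (nat_lit 6) (nat_lit 0x10001e0000000200000000000000000000000) (nat_lit 0x0) (nat_lit 0x6800200007800100018000000000000000000) := T_1 (nat_lit 145) (nat_lit 146) (nat_lit 3) (nat_lit 6) (nat_lit 7) L23786 (by decide +kernel)
theorem L23788 : W_1 (nat_lit 2) (nat_lit 0x18001e0003000300000000000000000000000) (nat_lit 0x0) (nat_lit 0x10000000000004000080000000000000000000000) := D_1 (nat_lit 160) (nat_lit 110) (nat_lit 91) (nat_lit 6) (nat_lit 7) (nat_lit 9) (nat_lit 4) (nat_lit 7) (nat_lit 9) (by decide +kernel)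
theorem L23789 : W_1 (nat_lit 3) (nat_lit 0x10001e0003000300000000000000000000000) (nat_lit 0x0) (nat_lit 0x10000800000004000080010000000000000000000) := T_1 (nat_lit 143) (nat_lit 76) (nat_lit 6) (nat_lit 7) (nat_lit 8) L23788 (by decide +kernel)
theorem L23790 : W_1 (nat_lit 4) (nat_lit 0x10001e0003000200000000000000000000000) (nat_lit 0x0) (nat_lit 0x10000800000004000180018000000000000000000) := T_1 (nat_lit 92) (nat_lit 75) (nat_lit 7) (nat_lit 7) (nat_lit 4) L23789 (by decide +kernel)
theorem L23791 : W_1 (nat_lit 5) (nat_lit 0x10001e0001000200000000000000000000000) (nat_lit 0x0) (nat_lit 0x10000800200006000180018000000000000000000) := T_1 (nat_lit 109) (nat_lit 129) (nat_lit 0) (nat_lit 10) (nat_lit 7) L23790 (by decide +kernel)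
theorem L23792 : W_1 (nat_lit 6) (nat_lit 0x10001e0000000200000000000000000000000) (nat_lit 0x0) (nat_lit 0x10000800200007800180018000000000000000000) := T_1 (nat_lit 108) (nat_lit 107) (nat_lit 0) (nat_lit 9) (nat_lit 7) L23791 (by decide +kernel)
theorem L23793 : W_1 (nat_lit 2) (nat_lit 0x38001e0003000300000000000000000000000) (nat_lit 0x0) (nat_lit 0x200010000000000000000080000000000000000000000) := D_1 (nat_lit 160) (nat_lit 177) (nat_lit 91) (nat_lit 4) (nat_lit 7) (nat_lit 10) (nat_lit 4) (nat_lit 7) (nat_lit 9) (by decide +kernel)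
theorem L23794 : W_1 (nat_lit 3) (nat_lit 0x30001e0003000300000000000000000000000) (nat_lit 0x0) (nat_lit 0x200010000800000000000080010000000000000000000) := T_1 (nat_lit 143) (nat_lit 76) (nat_lit 6) (nat_lit 7) (nat_lit 8) L23793 (by decide +kernel)
theorem L23795 : W_1 (nat_lit 4) (nat_lit 0x30001e0003000200000000000000000000000) (nat_lit 0x0) (nat_lit 0x200010000800000000000180018000000000000000000) := T_1 (nat_lit 92) (nat_lit 75) (nat_lit 7) (nat_lit 7) (nat_lit 4) L23794 (by decide +kernel)
theorem L23796 : W_1 (nat_lit 5) (nat_lit 0x30001e0001000200000000000000000000000) (nat_lit 0x0) (nat_lit 0x200010000800200002000180018000000000000000000) := T_1 (nat_lit 109) (nat_lit 129) (nat_lit 0) (nat_lit 10) (nat_lit 7) L23795 (by decide +kernel)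
theorem L23797 : W_1 (nat_lit 6) (nat_lit 0x10001e0001000200000000000000000000000) (nat_lit 0x0) (nat_lit 0x200010006800200002000180018000000000000000000) := T_1 (nat_lit 145) (nat_lit 146) (nat_lit 3) (nat_lit 6) (nat_lit 7) L23796 (by decide +kernel)
theorem L23798 : W_1 (nat_lit 7) (nat_lit 0x10001e0000000200000000000000000000000) (nat_lit 0x0) (nat_lit 0x200010006800200003800180018000000000000000000) := T_1 (nat_lit 108) (nat_lit 107) (nat_lit 0) (nat_lit 9) (nat_lit 7) L23797 (by decide +kernel)
theorem L23799 : W_1 (nat_lit 2) (nat_lit 0x38001e0005000700004000000000000000000) (nat_lit 0x0) (nat_lit 0x200002000800000000000000000000000) := D_1 (nat_lit 109) (nat_lit 95) (nat_lit 129) (nat_lit 1) (nat_lit 10) (nat_lit 5) (nat_lit 0) (nat_lit 10) (nat_lit 7) (by decide +kernel)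
theorem L23800 : W_1 (nat_lit 3) (nat_lit 0x38001e0005000600004000000000000000000) (nat_lit 0x0) (nat_lit 0x200002000900008000000000000000000) := T_1 (nat_lit 92) (nat_lit 75) (nat_lit 4) (nat_lit 8) (nat_lit 8) L23799 (by decide +kernel)
theorem L23801 : W_1 (nat_lit 4) (nat_lit 0x38001e0005000600000000000000000000000) (nat_lit 0x0) (nat_lit 0x20000200098000c000000000000000000) := T_1 (nat_lit 74) (nat_lit 91) (nat_lit 7) (nat_lit 6) (nat_lit 4) L23800 (by decide +kernel)
theorem L23802 : W_1 (nat_lit 5) (nat_lit 0x30001e0005000600000000000000000000000) (nat_lit 0x0) (nat_lit 0x1000080020000200098000c000000000000000000) := T_1 (nat_lit 143) (nat_lit 160) (nat_lit 5) (nat_lit 8) (nat_lit 5) L23801 (by decide +kernel)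
theorem L23803 : W_1 (nat_lit 6) (nat_lit 0x30001e0005000200000000000000000000000) (nat_lit 0x0) (nat_lit 0x10000800200002000d8002c000000000000000000) := T_1 (nat_lit 94) (nat_lit 77) (nat_lit 6) (nat_lit 8) (nat_lit 8) L23802 (by decide +kernel)
theorem L23804 : W_1 (nat_lit 7) (nat_lit 0x30001e0001000200000000000000000000000) (nat_lit 0x0) (nat_lit 0x50000800200006000d8002c000000000000000000) := T_1 (nat_lit 110) (nat_lit 162) (nat_lit 7) (nat_lit 8) (nat_lit 5) L23803 (by decide +kernel)
theorem L23805 : W_1 (nat_lit 8) (nat_lit 0x10001e0001000200000000000000000000000) (nat_lit 0x0) (nat_lit 0x50006800200006000d8002c000000000000000000) := T_1 (nat_lit 145) (nat_lit 146) (nat_lit 3) (nat_lit 6) (nat_lit 7) L23804 (by decide +kernel)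
theorem L23806 : W_1 (nat_lit 9) (nat_lit 0x10001e0000000200000000000000000000000) (nat_lit 0x0) (nat_lit 0x50006800200007800d8002c000000000000000000) := T_1 (nat_lit 108) (nat_lit 107) (nat_lit 0) (nat_lit 9) (nat_lit 7) L23805 (by decide +kernel)
theorem L23807 : W_1 (nat_lit 10) (nat_lit 0x10001e0000000000000000000000000000000) (nat_lit 0x0) (nat_lit 0x200050006800200007800f8003c000000000000000000) := Q_1 (nat_lit 93) (C_1 L23782 (C_1 L23787 (C_1 L23792 (C_1 L23798 (C_1 L23806 N_1))))) (by decide +kernel)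
theorem L23808 : W_1 (nat_lit 2) (nat_lit 0x10001e000f000480000000000000000000000) (nat_lit 0x0) (nat_lit 0x10000800000000000000004000000000000000000) := D_1 (nat_lit 143) (nat_lit 160) (nat_lit 74) (nat_lit 4) (nat_lit 7) (nat_lit 9) (nat_lit 7) (nat_lit 6) (nat_lit 4) (by decide +kernel)
theorem L23809 : W_1 (nat_lit 3) (nat_lit 0x10001e000f000400000000000000000000000) (nat_lit 0x0) (nat_lit 0x100008000000000000c0004000000000000000000) := T_1 (nat_lit 91) (nat_lit 90) (nat_lit 0) (nat_lit 9) (nat_lit 6) L23808 (by decide +kernel)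
theorem L23810 : W_1 (nat_lit 4) (nat_lit 0x10001e000b000400000000000000000000000) (nat_lit 0x0) (nat_lit 0x100008000000040008c0004000000000000000000) := T_1 (nat_lit 110) (nat_lit 95) (nat_lit 2) (nat_lit 6) (nat_lit 6) L23809 (by decide +kernel)
theorem L23811 : W_1 (nat_lit 5) (nat_lit 0x10001e000b000000000000000000000000000) (nat_lit 0x0) (nat_lit 0x10000800000004000cc0024000000000000000000) := T_1 (nat_lit 94) (nat_lit 77) (nat_lit 5) (nat_lit 9) (nat_lit 4) L23810 (by decide +kernel)
theorem L23812 : W_1 (nat_lit 6) (nat_lit 0x10001e0009000000000000000000000000000) (nat_lit 0x0) (nat_lit 0x10000800200006000cc0024000000000000000000) := T_1 (nat_lit 109) (nat_lit 129) (nat_lit 0) (nat_lit 10) (nat_lit 7) L23811 (by decide +kernel)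
theorem L23813 : W_1 (nat_lit 7) (nat_lit 0x10001e0001000000000000000000000000000) (nat_lit 0x0) (nat_lit 0x1000080020001e000cc0024000000000000000000) := T_1 (nat_lit 111) (nat_lit 112) (nat_lit 2) (nat_lit 6) (nat_lit 7) L23812 (by decide +kernel)
theorem L23814 : W_1 (nat_lit 8) (nat_lit 0x10001e0000000000000000000000000000000) (nat_lit 0x0) (nat_lit 0x1000080020001f800cc0024000000000000000000) := T_1 (nat_lit 108) (nat_lit 107) (nat_lit 0) (nat_lit 9) (nat_lit 7) L23813 (by decide +kernel)
theorem L23971 : W_1 (nat_lit 2) (nat_lit 0x30001e000c000000000000000000000000000) (nat_lit 0x0) (nat_lit 0x40000000000000000200010000000000000000000) := D_1 (nat_lit 93) (nat_lit 162) (nat_lit 76) (nat_lit 7) (nat_lit 8) (nat_lit 5) (nat_lit 7) (nat_lit 8) (nat_lit 4) (by decide +kernel)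
theorem L23972 : W_1 (nat_lit 3) (nat_lit 0x10001e000c000000000000000000000000000) (nat_lit 0x0) (nat_lit 0x40006000000000000200010000000000000000000) := T_1 (nat_lit 145) (nat_lit 146) (nat_lit 3) (nat_lit 6) (nat_lit 7) L23971 (by decide +kernel)
theorem L23973 : W_1 (nat_lit 4) (nat_lit 0x10001e0004000000000000000000000000000) (nat_lit 0x0) (nat_lit 0x40006000000018000200010000000000000000000) := T_1 (nat_lit 111) (nat_lit 112) (nat_lit 2) (nat_lit 6) (nat_lit 7) L23972 (by decide +kernel)
theorem L23974 : W_1 (nat_lit 2) (nat_lit 0x8000000030001e000f000080000000000000000000000) (nat_lit 0x0) (nat_lit 0x10000800000000000000004000000000000000000) := D_1 (nat_lit 143) (nat_lit 160) (nat_lit 74) (nat_lit 4) (nat_lit 7) (nat_lit 9) (nat_lit 7) (nat_lit 6) (nat_lit 4) (by decide +kernel)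
theorem L23975 : W_1 (nat_lit 3) (nat_lit 0x8000000030001e000f000000000000000000000000000) (nat_lit 0x0) (nat_lit 0x100008000000000000c0004000000000000000000) := T_1 (nat_lit 91) (nat_lit 90) (nat_lit 0) (nat_lit 9) (nat_lit 6) L23974 (by decide +kernel)
theorem L23976 : W_1 (nat_lit 4) (nat_lit 0x8000000030001e000d000000000000000000000000000) (nat_lit 0x0) (nat_lit 0x100008002000020000c0004000000000000000000) := T_1 (nat_lit 109) (nat_lit 129) (nat_lit 3) (nat_lit 6) (nat_lit 6) L23975 (by decide +kernel)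
theorem L23977 : W_1 (nat_lit 5) (nat_lit 0x8000000030001e0005000000000000000000000000000) (nat_lit 0x0) (nat_lit 0x1000080020001a0000c0004000000000000000000) := T_1 (nat_lit 111) (nat_lit 112) (nat_lit 2) (nat_lit 6) (nat_lit 7) L23976 (by decide +kernel)
theorem L23978 : W_1 (nat_lit 6) (nat_lit 0x8000000030001e0004000000000000000000000000000) (nat_lit 0x0) (nat_lit 0x1000080020001b8000c0004000000000000000000) := T_1 (nat_lit 108) (nat_lit 107) (nat_lit 0) (nat_lit 9) (nat_lit 7) L23977 (by decide +kernel)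
theorem L23979 : W_1 (nat_lit 7) (nat_lit 0x30001e0004000000000000000000000000000) (nat_lit 0x0) (nat_lit 0x80005000080020001b8000c0004000000000000000000) := T_1 (nat_lit 179) (nat_lit 162) (nat_lit 4) (nat_lit 9) (nat_lit 10) L23978 (by decide +kernel)
theorem L23980 : W_1 (nat_lit 8) (nat_lit 0x10001e0004000000000000000000000000000) (nat_lit 0x0) (nat_lit 0x80005000680020001b8000c0004000000000000000000) := T_1 (nat_lit 145) (nat_lit 146) (nat_lit 3) (nat_lit 6) (nat_lit 7) L23979 (by decide +kernel)
theorem L23981 : W_1 (nat_lit 2) (nat_lit 0x30001e000f000080010000000000000000000) (nat_lit 0x0) (nat_lit 0x10000800000000000000004000000000000000000) := D_1 (nat_lit 143) (nat_lit 160) (nat_lit 74) (nat_lit 4) (nat_lit 7) (nat_lit 9) (nat_lit 7) (nat_lit 6) (nat_lit 4) (by decide +kernel)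
theorem L23982 : W_1 (nat_lit 3) (nat_lit 0x30001e000f000000010000000000000000000) (nat_lit 0x0) (nat_lit 0x100008000000000000c0004000000000000000000) := T_1 (nat_lit 91) (nat_lit 90) (nat_lit 0) (nat_lit 9) (nat_lit 6) L23981 (by decide +kernel)
theorem L23983 : W_1 (nat_lit 4) (nat_lit 0x30001e000d000000010000000000000000000) (nat_lit 0x0) (nat_lit 0x100008002000020000c0004000000000000000000) := T_1 (nat_lit 109) (nat_lit 129) (nat_lit 3) (nat_lit 6) (nat_lit 6) L23982 (by decide +kernel)
theorem L23984 : W_1 (nat_lit 5) (nat_lit 0x30001e000c000000010000000000000000000) (nat_lit 0x0) (nat_lit 0x100008002000038000c0004000000000000000000) := T_1 (nat_lit 108) (nat_lit 107) (nat_lit 0) (nat_lit 9) (nat_lit 7) L23983 (by decide +kernel)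
theorem L23985 : W_1 (nat_lit 6) (nat_lit 0x30001e000c000000000000000000000000000) (nat_lit 0x0) (nat_lit 0x100008002000038002c0014000000000000000000) := T_1 (nat_lit 76) (nat_lit 93) (nat_lit 7) (nat_lit 8) (nat_lit 4) L23984 (by decide +kernel)
theorem L23986 : W_1 (nat_lit 7) (nat_lit 0x10001e000c000000000000000000000000000) (nat_lit 0x0) (nat_lit 0x100068002000038002c0014000000000000000000) := T_1 (nat_lit 145) (nat_lit 146) (nat_lit 3) (nat_lit 6) (nat_lit 7) L23985 (by decide +kernel)
theorem L23987 : W_1 (nat_lit 8) (nat_lit 0x10001e0004000000000000000000000000000) (nat_lit 0x0) (nat_lit 0x1000680020001b8002c0014000000000000000000) := T_1 (nat_lit 111) (nat_lit 112) (nat_lit 2) (nat_lit 6) (nat_lit 7) L23986 (by decide +kernel)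
theorem L23988 : W_1 (nat_lit 2) (nat_lit 0x30001e0005000000000000000000000000000) (nat_lit 0x0) (nat_lit 0x40000000000000000200010000000000000000000) := D_1 (nat_lit 93) (nat_lit 162) (nat_lit 76) (nat_lit 7) (nat_lit 8) (nat_lit 5) (nat_lit 7) (nat_lit 8) (nat_lit 4) (by decide +kernel)
theorem L23989 : W_1 (nat_lit 3) (nat_lit 0x10001e0005000000000000000000000000000) (nat_lit 0x0) (nat_lit 0x40006000000000000200010000000000000000000) := T_1 (nat_lit 145) (nat_lit 146) (nat_lit 3) (nat_lit 6) (nat_lit 7) L23988 (by decide +kernel)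
theorem L23990 : W_1 (nat_lit 4) (nat_lit 0x10001e0004000000000000000000000000000) (nat_lit 0x0) (nat_lit 0x40006000000001800200010000000000000000000) := T_1 (nat_lit 108) (nat_lit 107) (nat_lit 0) (nat_lit 9) (nat_lit 7) L23989 (by decide +kernel)
theorem L23991 : W_1 (nat_lit 2) (nat_lit 0x10001e000f000080000000000000000000000) (nat_lit 0x0) (nat_lit 0x10000800000000000000004000000000000000000) := D_1 (nat_lit 143) (nat_lit 160) (nat_lit 74) (nat_lit 4) (nat_lit 7) (nat_lit 9) (nat_lit 7) (nat_lit 6) (nat_lit 4) (by decide +kernel)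
theorem L23992 : W_1 (nat_lit 3) (nat_lit 0x10001e000f000000000000000000000000000) (nat_lit 0x0) (nat_lit 0x100008000000000000c0004000000000000000000) := T_1 (nat_lit 91) (nat_lit 90) (nat_lit 0) (nat_lit 9) (nat_lit 6) L23991 (by decide +kernel)
theorem L23993 : W_1 (nat_lit 4) (nat_lit 0x10001e000d000000000000000000000000000) (nat_lit 0x0) (nat_lit 0x100008002000020000c0004000000000000000000) := T_1 (nat_lit 109) (nat_lit 129) (nat_lit 3) (nat_lit 6) (nat_lit 6) L23992 (by decide +kernel)
theorem L23994 : W_1 (nat_lit 5) (nat_lit 0x10001e000c000000000000000000000000000) (nat_lit 0x0) (nat_lit 0x100008002000038000c0004000000000000000000) := T_1 (nat_lit 108) (nat_lit 107) (nat_lit 0) (nat_lit 9) (nat_lit 7) L23993 (by decide +kernel)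
theorem L23995 : W_1 (nat_lit 6) (nat_lit 0x10001e0004000000000000000000000000000) (nat_lit 0x0) (nat_lit 0x1000080020001b8000c0004000000000000000000) := T_1 (nat_lit 111) (nat_lit 112) (nat_lit 2) (nat_lit 6) (nat_lit 7) L23994 (by decide +kernel)
theorem L23996 : W_1 (nat_lit 9) (nat_lit 0x10001e0000000000000000000000000000000) (nat_lit 0x0) (nat_lit 0x80005000680020001f8002c0014000000000000000000) := Q_1 (nat_lit 110) (C_1 L23973 (C_1 L23980 (C_1 L23987 (C_1 L23990 (C_1 L23995 N_1))))) (by decide +kernel)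
theorem L23997 : W_1 (nat_lit 11) (nat_lit 0x10000e0000000000000000000000000000000) (nat_lit 0x0) (nat_lit 0xa0005000680030001f800fc007e000000000000000000) := Q_1 (nat_lit 128) (C_1 L23662 (C_1 L22526 (C_1 L23019 (C_1 L23807 (C_1 L23814 (C_1 L23996 N_1)))))) (by decide +kernel)
theorem L23998 : W_1 (nat_lit 12) (nat_lit 0x10000a0000000000000000000000000000000) (nat_lit 0x0) (nat_lit 0xa00050006b8035e01fc00fc007e000c00000000000000) := Q_1 (nat_lit 126) (C_1 L23997 (C_1 L22537 (C_1 L22480 (C_1 L23027 (C_1 L23469 (C_1 L23656 (C_1 L22471 N_1))))))) (by decide +kernel)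
theorem L23999 : W_1 (nat_lit 2) (nat_lit 0x80034001e000b000c00000000000000000000000) (nat_lit 0x0) (nat_lit 0x80004000800000000000000000000000000000000000) := D_1 (nat_lit 158) (nat_lit 175) (nat_lit 143) (nat_lit 5) (nat_lit 6) (nat_lit 6) (nat_lit 1) (nat_lit 9) (nat_lit 8) (by decide +kernel)
theorem L24000 : W_1 (nat_lit 3) (nat_lit 0x34001e000b000c00000000000000000000000) (nat_lit 0x0) (nat_lit 0x18000c000800000000000000000000000000000000000) := T_1 (nat_lit 159) (nat_lit 176) (nat_lit 6) (nat_lit 6) (nat_lit 10) L23999 (by decide +kernel)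
theorem L24001 : W_1 (nat_lit 4) (nat_lit 0x34001e0009000c00000000000000000000000) (nat_lit 0x0) (nat_lit 0x18000c000800000006000000000000000000000000000) := T_1 (nat_lit 109) (nat_lit 110) (nat_lit 2) (nat_lit 6) (nat_lit 6) L24000 (by decide +kernel)
theorem L24002 : W_1 (nat_lit 5) (nat_lit 0x34001e0009000400000000000000000000000) (nat_lit 0x0) (nat_lit 0x18000c000800000006000800040000000000000000000) := T_1 (nat_lit 95) (nat_lit 78) (nat_lit 6) (nat_lit 9) (nat_lit 8) L24001 (by decide +kernel)
theorem L24003 : W_1 (nat_lit 6) (nat_lit 0x30001e0009000400000000000000000000000) (nat_lit 0x0) (nat_lit 0x18000c000e00000006000800040000000000000000000) := T_1 (nat_lit 142) (nat_lit 141) (nat_lit 1) (nat_lit 9) (nat_lit 7) L24002 (by decide +kernel)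
theorem L24004 : W_1 (nat_lit 7) (nat_lit 0x30001e0009000000000000000000000000000) (nat_lit 0x0) (nat_lit 0x18000c000e00000006000c00060000000000000000000) := T_1 (nat_lit 94) (nat_lit 77) (nat_lit 5) (nat_lit 9) (nat_lit 4) L24003 (by decide +kernel)
theorem L24005 : W_1 (nat_lit 8) (nat_lit 0x30001e0008000000000000000000000000000) (nat_lit 0x0) (nat_lit 0x18000c000e00000007800c00060000000000000000000) := T_1 (nat_lit 108) (nat_lit 107) (nat_lit 0) (nat_lit 9) (nat_lit 7) L24004 (by decide +kernel)
theorem L24006 : W_1 (nat_lit 9) (nat_lit 0x30001e0000000000000000000000000000000) (nat_lit 0x0) (nat_lit 0x18000c000e0000001f800c00060000000000000000000) := T_1 (nat_lit 111) (nat_lit 112) (nat_lit 2) (nat_lit 6) (nat_lit 7) L24005 (by decide +kernel)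
theorem L24007 : W_1 (nat_lit 10) (nat_lit 0x10001e0000000000000000000000000000000) (nat_lit 0x0) (nat_lit 0x18000c006e0000001f800c00060000000000000000000) := T_1 (nat_lit 145) (nat_lit 146) (nat_lit 3) (nat_lit 6) (nat_lit 7) L24006 (by decide +kernel)
theorem L24008 : W_1 (nat_lit 11) (nat_lit 0x10000e0000000000000000000000000000000) (nat_lit 0x0) (nat_lit 0x1000098005c006e0030001f800ec0074000000000000000000) := Q_1 (nat_lit 128) (C_1 L22539 (C_1 L23996 (C_1 L23814 (C_1 L23010 (C_1 L24007 N_1))))) (by decide +kernel)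
theorem L24009 : W_1 (nat_lit 12) (nat_lit 0x10000a0000000000000000000000000000000) (nat_lit 0x0) (nat_lit 0x1000098005c006f8035e01fc00ec0074000000000000000000) := Q_1 (nat_lit 126) (C_1 L24008 (C_1 L22537 (C_1 L22480 (C_1 L23027 (C_1 L22485 (C_1 L23660 N_1)))))) (by decide +kernel)
theorem L24010 : W_1 (nat_lit 11) (nat_lit 0x10001a0000000000000000000000000000000) (nat_lit 0x0) (nat_lit 0x10001c006e0024001b800f8007c000000000000000000) := Q_1 (nat_lit 126) (C_1 L22511 (C_1 L23453 (C_1 L23010 (C_1 L22526 (C_1 L22535 N_1))))) (by decide +kernel)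
theorem L24011 : W_1 (nat_lit 11) (nat_lit 0x10001a0000000000000000000000000000000) (nat_lit 0x0) (nat_lit 0x10000a00050006e0024001f800fc003e000000000000000000) := Q_1 (nat_lit 126) (C_1 L23662 (C_1 L23996 (C_1 L23814 (C_1 L23019 (C_1 L22539 (C_1 L23807 (C_1 L23010 N_1))))))) (by decide +kernel)
theorem L24012 : W_1 (nat_lit 11) (nat_lit 0x10001a0000000000000000000000000000000) (nat_lit 0x0) (nat_lit 0x10000800050006e0024001d8007c003e000000000000000000) := Q_1 (nat_lit 126) (C_1 L22539 (C_1 L23019 (C_1 L23010 N_1))) (by decide +kernel)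
theorem L24013 : W_1 (nat_lit 11) (nat_lit 0x10001a0000000000000000000000000000000) (nat_lit 0x0) (nat_lit 0x1000098004c006e0024001f800fc007e000000000000000000) := Q_1 (nat_lit 126) (C_1 L22539 (C_1 L24007 (C_1 L23453 (C_1 L22519 (C_1 L23019 N_1))))) (by decide +kernel)
theorem L24014 : W_1 (nat_lit 2) (nat_lit 0x16001a00010001c0000000000000000000000) (nat_lit 0x0) (nat_lit 0x8000000000002800000000000000000000000000) := D_1 (nat_lit 159) (nat_lit 107) (nat_lit 109) (nat_lit 4) (nat_lit 6) (nat_lit 9) (nat_lit 6) (nat_lit 6) (nat_lit 9) (by decide +kernel)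
theorem L24015 : W_1 (nat_lit 3) (nat_lit 0x16001a00010000c0000000000000000000000) (nat_lit 0x0) (nat_lit 0x8000000000002800100008000000000000000000) := T_1 (nat_lit 92) (nat_lit 75) (nat_lit 6) (nat_lit 6) (nat_lit 8) L24014 (by decide +kernel)
theorem L24016 : W_1 (nat_lit 4) (nat_lit 0x16001a0001000080000000000000000000000) (nat_lit 0x0) (nat_lit 0x800000000000280014000a000000000000000000) := T_1 (nat_lit 90) (nat_lit 73) (nat_lit 4) (nat_lit 6) (nat_lit 8) L24015 (by decide +kernel)
theorem L24017 : W_1 (nat_lit 5) (nat_lit 0x16001a0001000000000000000000000000000) (nat_lit 0x0) (nat_lit 0xc0000000000028001c000a000000000000000000) := T_1 (nat_lit 91) (nat_lit 158) (nat_lit 5) (nat_lit 6) (nat_lit 5) L24016 (by decide +kernel)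
theorem L24018 : W_1 (nat_lit 6) (nat_lit 0x14001a0001000000000000000000000000000) (nat_lit 0x0) (nat_lit 0xc000a000000028001c000a000000000000000000) := T_1 (nat_lit 141) (nat_lit 143) (nat_lit 2) (nat_lit 5) (nat_lit 8) L24017 (by decide +kernel)
theorem L24019 : W_1 (nat_lit 2) (nat_lit 0x16001a0001000080006000000000000000000) (nat_lit 0x0) (nat_lit 0x100008000400000000000000) := D_1 (nat_lit 75) (nat_lit 92) (nat_lit 58) (nat_lit 6) (nat_lit 6) (nat_lit 8) (nat_lit 6) (nat_lit 6) (nat_lit 7) (by decide +kernel)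
theorem L24020 : W_1 (nat_lit 3) (nat_lit 0x16001a0001000080002000000000000000000) (nat_lit 0x0) (nat_lit 0x10000c000500000000000000) := T_1 (nat_lit 74) (nat_lit 56) (nat_lit 4) (nat_lit 6) (nat_lit 7) L24019 (by decide +kernel)
theorem L24021 : W_1 (nat_lit 4) (nat_lit 0x16001a0001000080000000000000000000000) (nat_lit 0x0) (nat_lit 0x14000e000500000000000000) := T_1 (nat_lit 73) (nat_lit 90) (nat_lit 4) (nat_lit 6) (nat_lit 8) L24020 (by decide +kernel)
theorem L24022 : W_1 (nat_lit 5) (nat_lit 0x16001a0001000000000000000000000000000) (nat_lit 0x0) (nat_lit 0x40000000000000001c000e000500000000000000) := T_1 (nat_lit 91) (nat_lit 158) (nat_lit 5) (nat_lit 6) (nat_lit 5) L24021 (by decide +kernel)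
theorem L24023 : W_1 (nat_lit 6) (nat_lit 0x14001a0001000000000000000000000000000) (nat_lit 0x0) (nat_lit 0x4000a000000000001c000e000500000000000000) := T_1 (nat_lit 141) (nat_lit 143) (nat_lit 2) (nat_lit 5) (nat_lit 8) L24022 (by decide +kernel)
theorem L24024 : W_1 (nat_lit 2) (nat_lit 0x3c001a00010001c0000000000000000000000) (nat_lit 0x0) (nat_lit 0x8000000000002800000000000000000000000000) := D_1 (nat_lit 159) (nat_lit 109) (nat_lit 107) (nat_lit 6) (nat_lit 6) (nat_lit 9) (nat_lit 4) (nat_lit 6) (nat_lit 9) (by decide +kernel)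
theorem L24025 : W_1 (nat_lit 3) (nat_lit 0x3c001a0001000180000000000000000000000) (nat_lit 0x0) (nat_lit 0x8000000000002800040002000000000000000000) := T_1 (nat_lit 90) (nat_lit 73) (nat_lit 4) (nat_lit 6) (nat_lit 8) L24024 (by decide +kernel)
theorem L24026 : W_1 (nat_lit 4) (nat_lit 0x3c001a0001000080000000000000000000000) (nat_lit 0x0) (nat_lit 0x800000000000280014000a000000000000000000) := T_1 (nat_lit 92) (nat_lit 75) (nat_lit 6) (nat_lit 6) (nat_lit 8) L24025 (by decide +kernel)
theorem L24027 : W_1 (nat_lit 5) (nat_lit 0x3c001a0001000000000000000000000000000) (nat_lit 0x0) (nat_lit 0x180000000000028001c000a000000000000000000) := T_1 (nat_lit 91) (nat_lit 160) (nat_lit 7) (nat_lit 6) (nat_lit 5) L24026 (by decide +kernel)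
theorem L24028 : W_1 (nat_lit 6) (nat_lit 0x1c001a0001000000000000000000000000000) (nat_lit 0x0) (nat_lit 0x180020002000028001c000a000000000000000000) := T_1 (nat_lit 145) (nat_lit 129) (nat_lit 2) (nat_lit 6) (nat_lit 8) L24027 (by decide +kernel)
theorem L24029 : W_1 (nat_lit 7) (nat_lit 0x14001a0001000000000000000000000000000) (nat_lit 0x0) (nat_lit 0x18002a002000028001c000a000000000000000000) := T_1 (nat_lit 143) (nat_lit 141) (nat_lit 2) (nat_lit 5) (nat_lit 8) L24028 (by decide +kernel)
theorem L24030 : W_1 (nat_lit 2) (nat_lit 0x1c0014001a0001800100000000000000000000000) (nat_lit 0x0) (nat_lit 0x200000000000080008000000000000000000) := D_1 (nat_lit 91) (nat_lit 141) (nat_lit 75) (nat_lit 5) (nat_lit 6) (nat_lit 5) (nat_lit 6) (nat_lit 6) (nat_lit 8) (by decide +kernel)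
theorem L24031 : W_1 (nat_lit 3) (nat_lit 0x180014001a0001800100000000000000000000000) (nat_lit 0x0) (nat_lit 0x80004000200000000000080008000000000000000000) := T_1 (nat_lit 158) (nat_lit 175) (nat_lit 5) (nat_lit 6) (nat_lit 6) L24030 (by decide +kernel)
theorem L24032 : W_1 (nat_lit 4) (nat_lit 0x180014001a0001800000000000000000000000000) (nat_lit 0x0) (nat_lit 0x80004000200000002000180008000000000000000000) := T_1 (nat_lit 92) (nat_lit 109) (nat_lit 6) (nat_lit 6) (nat_lit 9) L24031 (by decide +kernel)
theorem L24033 : W_1 (nat_lit 5) (nat_lit 0x80014001a0001800000000000000000000000000) (nat_lit 0x0) (nat_lit 0x280014000200000002000180008000000000000000000) := T_1 (nat_lit 160) (nat_lit 177) (nat_lit 7) (nat_lit 6) (nat_lit 6) L24032 (by decide +kernel)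
theorem L24034 : W_1 (nat_lit 6) (nat_lit 0x80014001a0001000000000000000000000000000) (nat_lit 0x0) (nat_lit 0x2800140002000000028001c0008000000000000000000) := T_1 (nat_lit 107) (nat_lit 90) (nat_lit 4) (nat_lit 6) (nat_lit 9) L24033 (by decide +kernel)
theorem L24035 : W_1 (nat_lit 2) (nat_lit 0xc0014001a0001000080000000000000000000000) (nat_lit 0x0) (nat_lit 0x800040002000000000000000000) := D_1 (nat_lit 90) (nat_lit 73) (nat_lit 107) (nat_lit 4) (nat_lit 6) (nat_lit 8) (nat_lit 4) (nat_lit 6) (nat_lit 9) (by decide +kernel)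
theorem L24036 : W_1 (nat_lit 3) (nat_lit 0xc0014001a0001000000000000000000000000000) (nat_lit 0x0) (nat_lit 0x2000000008000c0002000000000000000000) := T_1 (nat_lit 91) (nat_lit 141) (nat_lit 5) (nat_lit 6) (nat_lit 5) L24035 (by decide +kernel)
theorem L24037 : W_1 (nat_lit 4) (nat_lit 0x80014001a0001000000000000000000000000000) (nat_lit 0x0) (nat_lit 0x800040002000000008000c0002000000000000000000) := T_1 (nat_lit 158) (nat_lit 175) (nat_lit 5) (nat_lit 6) (nat_lit 6) L24036 (by decide +kernel)
theorem L24038 : W_1 (nat_lit 2) (nat_lit 0x80014001a00010000c0000000000000000000000) (nat_lit 0x0) (nat_lit 0x2000100008000000000000000000) := D_1 (nat_lit 92) (nat_lit 109) (nat_lit 75) (nat_lit 6) (nat_lit 6) (nat_lit 9) (nat_lit 6) (nat_lit 6) (nat_lit 8) (by decide +kernel)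
theorem L24039 : W_1 (nat_lit 3) (nat_lit 0x80014001a0001000040000000000000000000000) (nat_lit 0x0) (nat_lit 0x200018000a000000000000000000) := T_1 (nat_lit 91) (nat_lit 73) (nat_lit 4) (nat_lit 6) (nat_lit 8) L24038 (by decide +kernel)
theorem L24040 : W_1 (nat_lit 4) (nat_lit 0x80014001a0001000000000000000000000000000) (nat_lit 0x0) (nat_lit 0x28001c000a000000000000000000) := T_1 (nat_lit 90) (nat_lit 107) (nat_lit 4) (nat_lit 6) (nat_lit 9) L24039 (by decide +kernel)
theorem L24041 : W_1 (nat_lit 2) (nat_lit 0x2800080014001a0001000000000000000000000000000) (nat_lit 0x0) (nat_lit 0x5000100000000000000000000000000000000000000000000) := D_1 (nat_lit 176) (nat_lit 194) (nat_lit 192) (nat_lit 7) (nat_lit 6) (nat_lit 7) (nat_lit 5) (nat_lit 6) (nat_lit 7) (by decide +kernel)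
theorem L24042 : W_1 (nat_lit 3) (nat_lit 0x2000080014001a0001000000000000000000000000000) (nat_lit 0x0) (nat_lit 0x5000180004000000000000000000000000000000000000000) := T_1 (nat_lit 175) (nat_lit 158) (nat_lit 5) (nat_lit 6) (nat_lit 6) L24041 (by decide +kernel)
theorem L24043 : W_1 (nat_lit 4) (nat_lit 0x80014001a0001000000000000000000000000000) (nat_lit 0x0) (nat_lit 0x5000380014000000000000000000000000000000000000000) := T_1 (nat_lit 177) (nat_lit 160) (nat_lit 7) (nat_lit 6) (nat_lit 6) L24042 (by decide +kernel)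
theorem L24044 : W_1 (nat_lit 7) (nat_lit 0x14001a0001000000000000000000000000000) (nat_lit 0x0) (nat_lit 0x500038001c0002000000028001c000a000000000000000000) := Q_1 (nat_lit 159) (C_1 L24034 (C_1 L24037 (C_1 L24040 (C_1 L24043 N_1)))) (by decide +kernel)
theorem L24045 : W_1 (nat_lit 2) (nat_lit 0x40016001a0001000000000000000000000000000) (nat_lit 0x0) (nat_lit 0x1000080008000000000000000000000000000000000000000) := D_1 (nat_lit 175) (nat_lit 159) (nat_lit 192) (nat_lit 5) (nat_lit 6) (nat_lit 6) (nat_lit 6) (nat_lit 5) (nat_lit 11) (by decide +kernel)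
theorem L24046 : W_1 (nat_lit 3) (nat_lit 0x16001a0001000000000000000000000000000) (nat_lit 0x0) (nat_lit 0x100008000c000000000000000080000000000000000000000) := T_1 (nat_lit 158) (nat_lit 91) (nat_lit 5) (nat_lit 6) (nat_lit 5) L24045 (by decide +kernel)
theorem L24047 : W_1 (nat_lit 4) (nat_lit 0x14001a0001000000000000000000000000000) (nat_lit 0x0) (nat_lit 0x100008000c000a00000000000080000000000000000000000) := T_1 (nat_lit 141) (nat_lit 143) (nat_lit 2) (nat_lit 5) (nat_lit 8) L24046 (by decide +kernel)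
theorem L24048 : W_1 (nat_lit 2) (nat_lit 0x8003c001a0001000000000000000000000000000) (nat_lit 0x0) (nat_lit 0x200010004000000000000000000000000000000000000) := D_1 (nat_lit 160) (nat_lit 146) (nat_lit 177) (nat_lit 1) (nat_lit 10) (nat_lit 8) (nat_lit 7) (nat_lit 6) (nat_lit 6) (by decide +kernel)
theorem L24049 : W_1 (nat_lit 3) (nat_lit 0x3c001a0001000000000000000000000000000) (nat_lit 0x0) (nat_lit 0x20001c004000000000000000000000000000000000000) := T_1 (nat_lit 159) (nat_lit 158) (nat_lit 1) (nat_lit 9) (nat_lit 8) L24048 (by decide +kernel)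
theorem L24050 : W_1 (nat_lit 4) (nat_lit 0x1c001a0001000000000000000000000000000) (nat_lit 0x0) (nat_lit 0x20001c006000200000000000000000000000000000000) := T_1 (nat_lit 145) (nat_lit 129) (nat_lit 2) (nat_lit 6) (nat_lit 8) L24049 (by decide +kernel)
theorem L24051 : W_1 (nat_lit 5) (nat_lit 0x14001a0001000000000000000000000000000) (nat_lit 0x0) (nat_lit 0x20001c006a00200000000000000000000000000000000) := T_1 (nat_lit 143) (nat_lit 141) (nat_lit 2) (nat_lit 5) (nat_lit 8) L24050 (by decide +kernel)
theorem L24052 : W_1 (nat_lit 5) (nat_lit 0x14001a0001000000000000000000000000000) (nat_lit 0x0) (nat_lit 0x500038001c0000000000028001c000a000000000000000000) := Q_1 (nat_lit 159) (C_1 L24043 (C_1 L24040 N_1)) (by decide +kernel)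
theorem L24053 : W_1 (nat_lit 8) (nat_lit 0x10001a0001000000000000000000000000000) (nat_lit 0x0) (nat_lit 0x500038001c006e002000028001c000e000500000000000000) := Q_1 (nat_lit 142) (C_1 L24018 (C_1 L24023 (C_1 L24029 (C_1 L24044 (C_1 L24047 (C_1 L24051 (C_1 L24052 N_1))))))) (by decide +kernel)
theorem L24054 : W_1 (nat_lit 2) (nat_lit 0x10001a000f000000000000000000000000000) (nat_lit 0x0) (nat_lit 0xc00020000000000000000000) := D_1 (nat_lit 94) (nat_lit 95) (nat_lit 77) (nat_lit 2) (nat_lit 6) (nat_lit 6) (nat_lit 5) (nat_lit 9) (nat_lit 4) (by decide +kernel)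
theorem L24055 : W_1 (nat_lit 3) (nat_lit 0x10001a0007000000000000000000000000000) (nat_lit 0x0) (nat_lit 0x200008000c00020000000000000000000) := T_1 (nat_lit 111) (nat_lit 129) (nat_lit 3) (nat_lit 6) (nat_lit 6) L24054 (by decide +kernel)
theorem L24056 : W_1 (nat_lit 4) (nat_lit 0x10001a0005000000000000000000000000000) (nat_lit 0x0) (nat_lit 0x20000a800c00020000000000000000000) := T_1 (nat_lit 109) (nat_lit 107) (nat_lit 3) (nat_lit 5) (nat_lit 6) L24055 (by decide +kernel)
theorem L24057 : W_1 (nat_lit 2) (nat_lit 0x10001a0005000780000000000000000000000) (nat_lit 0x0) (nat_lit 0x18000040000000000000000000000) := D_1 (nat_lit 111) (nat_lit 90) (nat_lit 112) (nat_lit 3) (nat_lit 5) (nat_lit 5) (nat_lit 3) (nat_lit 6) (nat_lit 5) (by decide +kernel)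
theorem L24058 : W_1 (nat_lit 3) (nat_lit 0x10001a0005000700000000000000000000000) (nat_lit 0x0) (nat_lit 0x188000c0000000000000000000000) := T_1 (nat_lit 91) (nat_lit 107) (nat_lit 1) (nat_lit 9) (nat_lit 5) L24057 (by decide +kernel)
theorem L24059 : W_1 (nat_lit 4) (nat_lit 0x10001a0005000300000000000000000000000) (nat_lit 0x0) (nat_lit 0x188004c0020000000000000000000) := T_1 (nat_lit 94) (nat_lit 77) (nat_lit 6) (nat_lit 8) (nat_lit 8) L24058 (by decide +kernel)
theorem L24060 : W_1 (nat_lit 5) (nat_lit 0x10001a0005000200000000000000000000000) (nat_lit 0x0) (nat_lit 0x188005c0028000000000000000000) := T_1 (nat_lit 92) (nat_lit 75) (nat_lit 4) (nat_lit 8) (nat_lit 8) L24059 (by decide +kernel)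
theorem L24061 : W_1 (nat_lit 2) (nat_lit 0x10001a0005000200000000000000000000000) (nat_lit 0x0) (nat_lit 0x40002000000000000000010000000000000000000) := D_1 (nat_lit 145) (nat_lit 76) (nat_lit 162) (nat_lit 7) (nat_lit 8) (nat_lit 4) (nat_lit 7) (nat_lit 8) (nat_lit 5) (by decide +kernel)
theorem L24062 : W_1 (nat_lit 6) (nat_lit 0x10001a0005000000000000000000000000000) (nat_lit 0x0) (nat_lit 0x400020000000188007c0038000000000000000000) := Q_1 (nat_lit 93) (C_1 L24060 (C_1 L24061 N_1)) (by decide +kernel)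
theorem L24063 : W_1 (nat_lit 2) (nat_lit 0x10001a0005800600000000000000000000000) (nat_lit 0x0) (nat_lit 0x180008000000000000000000) := D_1 (nat_lit 92) (nat_lit 91) (nat_lit 75) (nat_lit 1) (nat_lit 9) (nat_lit 5) (nat_lit 4) (nat_lit 8) (nat_lit 8) (by decide +kernel)
theorem L24064 : W_1 (nat_lit 3) (nat_lit 0x10001a0005800200000000000000000000000) (nat_lit 0x0) (nat_lit 0x580028000000000000000000) := T_1 (nat_lit 94) (nat_lit 77) (nat_lit 6) (nat_lit 8) (nat_lit 8) L24063 (by decide +kernel)
theorem L24065 : W_1 (nat_lit 4) (nat_lit 0x10001a0005000200000000000000000000000) (nat_lit 0x0) (nat_lit 0x2800580028000000000000000000) := T_1 (nat_lit 107) (nat_lit 109) (nat_lit 3) (nat_lit 5) (nat_lit 6) L24064 (by decide +kernel)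
theorem L24066 : W_1 (nat_lit 5) (nat_lit 0x10001a0005000000000000000000000000000) (nat_lit 0x0) (nat_lit 0x40002000000002800780038000000000000000000) := Q_1 (nat_lit 93) (C_1 L24065 (C_1 L24061 N_1)) (by decide +kernel)
theorem L24067 : W_1 (nat_lit 2) (nat_lit 0x10001a000f000180000000000000000000000) (nat_lit 0x0) (nat_lit 0x200008000400000000000000) := D_1 (nat_lit 75) (nat_lit 93) (nat_lit 58) (nat_lit 4) (nat_lit 8) (nat_lit 8) (nat_lit 7) (nat_lit 7) (nat_lit 3) (by decide +kernel)
theorem L24068 : W_1 (nat_lit 3) (nat_lit 0x10001a000f000080000000000000000000000) (nat_lit 0x0) (nat_lit 0x10000300008000400000000000000) := T_1 (nat_lit 92) (nat_lit 112) (nat_lit 0) (nat_lit 10) (nat_lit 6) L24067 (by decide +kernel)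
theorem L24069 : W_1 (nat_lit 4) (nat_lit 0x10001a000f000000000000000000000000000) (nat_lit 0x0) (nat_lit 0x100003c0008000400000000000000) := T_1 (nat_lit 91) (nat_lit 90) (nat_lit 0) (nat_lit 9) (nat_lit 6) L24068 (by decide +kernel)
theorem L24070 : W_1 (nat_lit 5) (nat_lit 0x10001a0007000000000000000000000000000) (nat_lit 0x0) (nat_lit 0x2000180003c0008000400000000000000) := T_1 (nat_lit 111) (nat_lit 129) (nat_lit 3) (nat_lit 6) (nat_lit 6) L24069 (by decide +kernel)
theorem L24071 : W_1 (nat_lit 6) (nat_lit 0x10001a0005000000000000000000000000000) (nat_lit 0x0) (nat_lit 0x20001a8003c0008000400000000000000) := T_1 (nat_lit 109) (nat_lit 107) (nat_lit 3) (nat_lit 5) (nat_lit 6) L24070 (by decide +kernel)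
theorem L24072 : W_1 (nat_lit 2) (nat_lit 0x18001a000f000700000000000000000000000) (nat_lit 0x0) (nat_lit 0x100000c0000000000000000000000) := D_1 (nat_lit 91) (nat_lit 112) (nat_lit 90) (nat_lit 3) (nat_lit 6) (nat_lit 5) (nat_lit 3) (nat_lit 5) (nat_lit 5) (by decide +kernel)
theorem L24073 : W_1 (nat_lit 3) (nat_lit 0x18001a0007000700000000000000000000000) (nat_lit 0x0) (nat_lit 0x2000180000c0000000000000000000000) := T_1 (nat_lit 111) (nat_lit 129) (nat_lit 3) (nat_lit 6) (nat_lit 6) L24072 (by decide +kernel)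
theorem L24074 : W_1 (nat_lit 4) (nat_lit 0x10001a0007000700000000000000000000000) (nat_lit 0x0) (nat_lit 0x100008002000180000c0000000000000000000000) := T_1 (nat_lit 143) (nat_lit 160) (nat_lit 5) (nat_lit 8) (nat_lit 5) L24073 (by decide +kernel)
theorem L24075 : W_1 (nat_lit 5) (nat_lit 0x10001a0005000700000000000000000000000) (nat_lit 0x0) (nat_lit 0x1000080020001a0008c0000000000000000000000) := T_1 (nat_lit 109) (nat_lit 95) (nat_lit 1) (nat_lit 10) (nat_lit 5) L24074 (by decide +kernel)
theorem L24076 : W_1 (nat_lit 6) (nat_lit 0x10001a0005000300000000000000000000000) (nat_lit 0x0) (nat_lit 0x1000080020001a000cc0020000000000000000000) := T_1 (nat_lit 94) (nat_lit 77) (nat_lit 6) (nat_lit 8) (nat_lit 8) L24075 (by decide +kernel)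
theorem L24077 : W_1 (nat_lit 7) (nat_lit 0x10001a0005000200000000000000000000000) (nat_lit 0x0) (nat_lit 0x1000080020001a000dc0028000000000000000000) := T_1 (nat_lit 92) (nat_lit 75) (nat_lit 4) (nat_lit 8) (nat_lit 8) L24076 (by decide +kernel)
theorem L24078 : W_1 (nat_lit 8) (nat_lit 0x10001a0005000000000000000000000000000) (nat_lit 0x0) (nat_lit 0x5000280020001a000fc0038000000000000000000) := Q_1 (nat_lit 93) (C_1 L24077 (C_1 L24061 N_1)) (by decide +kernel)
theorem L24079 : W_1 (nat_lit 9) (nat_lit 0x10001a0001000000000000000000000000000) (nat_lit 0x0) (nat_lit 0x5000280020001e800fc0038000400000000000000) := Q_1 (nat_lit 110) (C_1 L24056 (C_1 L24062 (C_1 L24066 (C_1 L24071 (C_1 L24078 N_1))))) (by decide +kernel)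
theorem L24093 : W_1 (nat_lit 2) (nat_lit 0x10001a0005000200010000000000000000000) (nat_lit 0x0) (nat_lit 0x100008000400000000000000) := D_1 (nat_lit 75) (nat_lit 92) (nat_lit 58) (nat_lit 4) (nat_lit 8) (nat_lit 8) (nat_lit 4) (nat_lit 8) (nat_lit 7) (by decide +kernel)
theorem L24094 : W_1 (nat_lit 3) (nat_lit 0x10001a0005000200000000000000000000000) (nat_lit 0x0) (nat_lit 0x2000000000000100018000400000000000000) := T_1 (nat_lit 76) (nat_lit 145) (nat_lit 7) (nat_lit 8) (nat_lit 4) L24093 (by decide +kernel)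
theorem L24095 : W_1 (nat_lit 2) (nat_lit 0x1a001a0005000200010000000000000000000) (nat_lit 0x0) (nat_lit 0x400020001000000000000000) := D_1 (nat_lit 77) (nat_lit 94) (nat_lit 60) (nat_lit 6) (nat_lit 8) (nat_lit 8) (nat_lit 6) (nat_lit 8) (nat_lit 7) (by decide +kernel)
theorem L24096 : W_1 (nat_lit 3) (nat_lit 0x1a001a0005000200000000000000000000000) (nat_lit 0x0) (nat_lit 0x2000000000000400030001000000000000000) := T_1 (nat_lit 76) (nat_lit 145) (nat_lit 7) (nat_lit 8) (nat_lit 4) L24095 (by decide +kernel)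
theorem L24097 : W_1 (nat_lit 4) (nat_lit 0x18001a0005000200000000000000000000000) (nat_lit 0x0) (nat_lit 0x2600000000000400030001000000000000000) := T_1 (nat_lit 141) (nat_lit 142) (nat_lit 2) (nat_lit 5) (nat_lit 8) L24096 (by decide +kernel)
theorem L24098 : W_1 (nat_lit 5) (nat_lit 0x10001a0005000200000000000000000000000) (nat_lit 0x0) (nat_lit 0x10002e00000000000400030001000000000000000) := T_1 (nat_lit 143) (nat_lit 160) (nat_lit 5) (nat_lit 8) (nat_lit 5) L24097 (by decide +kernel)
theorem L24100 : W_1 (nat_lit 2) (nat_lit 0x10001a0005000780002000000000000000000) (nat_lit 0x0) (nat_lit 0x400000000000040001000000000000000000) := D_1 (nat_lit 90) (nat_lit 72) (nat_lit 142) (nat_lit 0) (nat_lit 8) (nat_lit 5) (nat_lit 4) (nat_lit 6) (nat_lit 8) (by decide +kernel)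
theorem L24101 : W_1 (nat_lit 3) (nat_lit 0x10001a0005000780000000000000000000000) (nat_lit 0x0) (nat_lit 0x400000000000040007000000000000000000) := T_1 (nat_lit 73) (nat_lit 74) (nat_lit 0) (nat_lit 9) (nat_lit 5) L24100 (by decide +kernel)
theorem L24102 : W_1 (nat_lit 4) (nat_lit 0x10001a0005000700000000000000000000000) (nat_lit 0x0) (nat_lit 0x4000000008000c0007000000000000000000) := T_1 (nat_lit 91) (nat_lit 107) (nat_lit 1) (nat_lit 9) (nat_lit 5) L24101 (by decide +kernel)
theorem L24103 : W_1 (nat_lit 5) (nat_lit 0x10001a0005000300000000000000000000000) (nat_lit 0x0) (nat_lit 0x4000000008004c0027000000000000000000) := T_1 (nat_lit 94) (nat_lit 77) (nat_lit 6) (nat_lit 8) (nat_lit 8) L24102 (by decide +kernel)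
theorem L24104 : W_1 (nat_lit 6) (nat_lit 0x10001a0005000200000000000000000000000) (nat_lit 0x0) (nat_lit 0x4000000008005c002f000000000000000000) := T_1 (nat_lit 92) (nat_lit 75) (nat_lit 4) (nat_lit 8) (nat_lit 8) L24103 (by decide +kernel)
theorem L24106 : W_1 (nat_lit 2) (nat_lit 0x40016001a0005000000000000000000000000000) (nat_lit 0x0) (nat_lit 0x1000080008000000000000000000000000000000000000000) := D_1 (nat_lit 175) (nat_lit 159) (nat_lit 192) (nat_lit 5) (nat_lit 6) (nat_lit 6) (nat_lit 6) (nat_lit 5) (nat_lit 11) (by decide +kernel)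
theorem L24107 : W_1 (nat_lit 3) (nat_lit 0x16001a0005000000000000000000000000000) (nat_lit 0x0) (nat_lit 0x100008000c000000000000000080000000000000000000000) := T_1 (nat_lit 158) (nat_lit 91) (nat_lit 5) (nat_lit 6) (nat_lit 5) L24106 (by decide +kernel)
theorem L24108 : W_1 (nat_lit 4) (nat_lit 0x14001a0005000000000000000000000000000) (nat_lit 0x0) (nat_lit 0x100008000c000a00000000000080000000000000000000000) := T_1 (nat_lit 141) (nat_lit 143) (nat_lit 2) (nat_lit 5) (nat_lit 8) L24107 (by decide +kernel)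
theorem L24115 : W_1 (nat_lit 2) (nat_lit 0x1c001a0005000000000000000000000000000) (nat_lit 0x0) (nat_lit 0x10000000000000000280000000000000000000000) := D_1 (nat_lit 160) (nat_lit 93) (nat_lit 91) (nat_lit 5) (nat_lit 8) (nat_lit 5) (nat_lit 7) (nat_lit 6) (nat_lit 5) (by decide +kernel)
theorem L24116 : W_1 (nat_lit 3) (nat_lit 0x14001a0005000000000000000000000000000) (nat_lit 0x0) (nat_lit 0x10000a00000000000280000000000000000000000) := T_1 (nat_lit 143) (nat_lit 141) (nat_lit 2) (nat_lit 5) (nat_lit 8) L24115 (by decide +kernel)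
theorem L24150 : W_1 (nat_lit 2) (nat_lit 0x1c001a0005000200018001000000000000000) (nat_lit 0x0) (nat_lit 0x8000000000000800080000000000) := D_1 (nat_lit 59) (nat_lit 43) (nat_lit 111) (nat_lit 6) (nat_lit 8) (nat_lit 6) (nat_lit 7) (nat_lit 8) (nat_lit 3) (by decide +kernel)
theorem L24151 : W_1 (nat_lit 3) (nat_lit 0x1c001a0005000200018000000000000000000) (nat_lit 0x0) (nat_lit 0x8000000020001800080000000000) := T_1 (nat_lit 60) (nat_lit 77) (nat_lit 6) (nat_lit 8) (nat_lit 7) L24150 (by decide +kernel)
theorem L24152 : W_1 (nat_lit 4) (nat_lit 0x1c001a0005000200008000000000000000000) (nat_lit 0x0) (nat_lit 0x8000000030001c00080000000000) := T_1 (nat_lit 76) (nat_lit 58) (nat_lit 4) (nat_lit 8) (nat_lit 7) L24151 (by decide +kernel)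
theorem L24153 : W_1 (nat_lit 5) (nat_lit 0x1c001a0005000200000000000000000000000) (nat_lit 0x0) (nat_lit 0x8000100038001c00080000000000) := T_1 (nat_lit 75) (nat_lit 92) (nat_lit 4) (nat_lit 8) (nat_lit 8) L24152 (by decide +kernel)
theorem L24173 : W_1 (nat_lit 2) (nat_lit 0x1a001a0005000200018000800000000000000) (nat_lit 0x0) (nat_lit 0x20001000080000000000) := D_1 (nat_lit 60) (nat_lit 43) (nat_lit 77) (nat_lit 6) (nat_lit 8) (nat_lit 6) (nat_lit 6) (nat_lit 8) (nat_lit 7) (by decide +kernel)
theorem L24174 : W_1 (nat_lit 3) (nat_lit 0x1a001a0005000200018000000000000000000) (nat_lit 0x0) (nat_lit 0x8000000020001800080000000000) := T_1 (nat_lit 59) (nat_lit 111) (nat_lit 7) (nat_lit 8) (nat_lit 3) L24173 (by decide +kernel)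
theorem L24175 : W_1 (nat_lit 4) (nat_lit 0x18001a0005000200018000000000000000000) (nat_lit 0x0) (nat_lit 0x600000008000000020001800080000000000) := T_1 (nat_lit 141) (nat_lit 142) (nat_lit 2) (nat_lit 5) (nat_lit 8) L24174 (by decide +kernel)
theorem L24176 : W_1 (nat_lit 5) (nat_lit 0x10001a0005000200018000000000000000000) (nat_lit 0x0) (nat_lit 0x10000e00000008000000020001800080000000000) := T_1 (nat_lit 143) (nat_lit 160) (nat_lit 5) (nat_lit 8) (nat_lit 5) L24175 (by decide +kernel)
theorem L24177 : W_1 (nat_lit 6) (nat_lit 0x10001a0005000200008000000000000000000) (nat_lit 0x0) (nat_lit 0x10000e00000008000000030001c00080000000000) := T_1 (nat_lit 76) (nat_lit 58) (nat_lit 4) (nat_lit 8) (nat_lit 7) L24176 (by decide +kernel)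
theorem L24178 : W_1 (nat_lit 7) (nat_lit 0x10001a0005000200000000000000000000000) (nat_lit 0x0) (nat_lit 0x10000e00000008000100038001c00080000000000) := T_1 (nat_lit 75) (nat_lit 92) (nat_lit 4) (nat_lit 8) (nat_lit 8) L24177 (by decide +kernel)
theorem L24179 : W_1 (nat_lit 2) (nat_lit 0x1c001a0005000200000000000000000000000) (nat_lit 0x0) (nat_lit 0x40002000200000000000000000000000000000000) := D_1 (nat_lit 145) (nat_lit 162) (nat_lit 129) (nat_lit 7) (nat_lit 8) (nat_lit 5) (nat_lit 2) (nat_lit 6) (nat_lit 8) (by decide +kernel)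
theorem L24180 : W_1 (nat_lit 3) (nat_lit 0x18001a0005000200000000000000000000000) (nat_lit 0x0) (nat_lit 0x40002600200000000000000000000000000000000) := T_1 (nat_lit 142) (nat_lit 141) (nat_lit 2) (nat_lit 5) (nat_lit 8) L24179 (by decide +kernel)
theorem L24181 : W_1 (nat_lit 4) (nat_lit 0x10001a0005000200000000000000000000000) (nat_lit 0x0) (nat_lit 0x50002e00200000000000000000000000000000000) := T_1 (nat_lit 143) (nat_lit 160) (nat_lit 5) (nat_lit 8) (nat_lit 5) L24180 (by decide +kernel)
theorem L24182 : W_1 (nat_lit 8) (nat_lit 0x10001a0005000000000000000000000000000) (nat_lit 0x0) (nat_lit 0x50002e00200008000300038001c00080000000000) := Q_1 (nat_lit 93) (C_1 L24061 (C_1 L24178 (C_1 L24181 N_1))) (by decide +kernel)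
theorem L24183 : W_1 (nat_lit 2) (nat_lit 0x1a001a0005000200030000400000000000000) (nat_lit 0x0) (nat_lit 0x8000000000000800020000000000) := D_1 (nat_lit 59) (nat_lit 41) (nat_lit 111) (nat_lit 4) (nat_lit 8) (nat_lit 6) (nat_lit 7) (nat_lit 8) (nat_lit 3) (by decide +kernel)
theorem L24184 : W_1 (nat_lit 3) (nat_lit 0x1a001a0005000200030000000000000000000) (nat_lit 0x0) (nat_lit 0x8000000008000c00020000000000) := T_1 (nat_lit 58) (nat_lit 75) (nat_lit 4) (nat_lit 8) (nat_lit 7) L24183 (by decide +kernel)
theorem L24185 : W_1 (nat_lit 4) (nat_lit 0x1a001a0005000200020000000000000000000) (nat_lit 0x0) (nat_lit 0x8000000018001c00020000000000) := T_1 (nat_lit 76) (nat_lit 60) (nat_lit 6) (nat_lit 8) (nat_lit 7) L24184 (by decide +kernel)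
theorem L24186 : W_1 (nat_lit 5) (nat_lit 0x1a001a0005000200000000000000000000000) (nat_lit 0x0) (nat_lit 0x8000400038001c00020000000000) := T_1 (nat_lit 77) (nat_lit 94) (nat_lit 6) (nat_lit 8) (nat_lit 8) L24185 (by decide +kernel)
theorem L24187 : W_1 (nat_lit 6) (nat_lit 0x18001a0005000200000000000000000000000) (nat_lit 0x0) (nat_lit 0x600000008000400038001c00020000000000) := T_1 (nat_lit 141) (nat_lit 142) (nat_lit 2) (nat_lit 5) (nat_lit 8) L24186 (by decide +kernel)
theorem L24188 : W_1 (nat_lit 7) (nat_lit 0x10001a0005000200000000000000000000000) (nat_lit 0x0) (nat_lit 0x10000e00000008000400038001c00020000000000) := T_1 (nat_lit 143) (nat_lit 160) (nat_lit 5) (nat_lit 8) (nat_lit 5) L24187 (by decide +kernel)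
theorem L24189 : W_1 (nat_lit 8) (nat_lit 0x10001a0005000000000000000000000000000) (nat_lit 0x0) (nat_lit 0x50002e00200008000600038001c00020000000000) := Q_1 (nat_lit 93) (C_1 L24181 (C_1 L24188 (C_1 L24061 N_1))) (by decide +kernel)
theorem L24190 : W_1 (nat_lit 6) (nat_lit 0x10001a0001000200000000000000000000000) (nat_lit 0x0) (nat_lit 0x4000200000001c8005c0038000400000000000000) := Q_1 (nat_lit 110) (C_1 L24061 (C_1 L24060 (C_1 L24094 N_1))) (by decide +kernel)
theorem L24191 : W_1 (nat_lit 8) (nat_lit 0x10001a0001000200000000000000000000000) (nat_lit 0x0) (nat_lit 0x10002e0000000c8005c003f001c00020000000000) := Q_1 (nat_lit 110) (C_1 L24098 (C_1 L24188 (C_1 L24104 (C_1 L24094 N_1)))) (by decide +kernel)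
theorem L24192 : W_1 (nat_lit 4) (nat_lit 0x1a001a0001000200000000000000000000000) (nat_lit 0x0) (nat_lit 0x10002000000004000400030001000000000000000) := T_1 (nat_lit 110) (nat_lit 160) (nat_lit 5) (nat_lit 8) (nat_lit 5) L24096 (by decide +kernel)
theorem L24193 : W_1 (nat_lit 5) (nat_lit 0x18001a0001000200000000000000000000000) (nat_lit 0x0) (nat_lit 0x10002600000004000400030001000000000000000) := T_1 (nat_lit 141) (nat_lit 142) (nat_lit 2) (nat_lit 5) (nat_lit 8) L24192 (by decide +kernel)
theorem L24194 : W_1 (nat_lit 2) (nat_lit 0x18001a0005000780002000000000000000000) (nat_lit 0x0) (nat_lit 0x400000000000040001000000000000000000) := D_1 (nat_lit 90) (nat_lit 72) (nat_lit 142) (nat_lit 0) (nat_lit 8) (nat_lit 5) (nat_lit 4) (nat_lit 6) (nat_lit 8) (by decide +kernel)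
theorem L24195 : W_1 (nat_lit 3) (nat_lit 0x18001a0005000780000000000000000000000) (nat_lit 0x0) (nat_lit 0x400000000000040007000000000000000000) := T_1 (nat_lit 73) (nat_lit 74) (nat_lit 0) (nat_lit 9) (nat_lit 5) L24194 (by decide +kernel)
theorem L24196 : W_1 (nat_lit 4) (nat_lit 0x18001a0005000700000000000000000000000) (nat_lit 0x0) (nat_lit 0x4000000008000c0007000000000000000000) := T_1 (nat_lit 91) (nat_lit 107) (nat_lit 1) (nat_lit 9) (nat_lit 5) L24195 (by decide +kernel)
theorem L24197 : W_1 (nat_lit 5) (nat_lit 0x18001a0005000300000000000000000000000) (nat_lit 0x0) (nat_lit 0x4000000008004c0027000000000000000000) := T_1 (nat_lit 94) (nat_lit 77) (nat_lit 6) (nat_lit 8) (nat_lit 8) L24196 (by decide +kernel)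
theorem L24198 : W_1 (nat_lit 6) (nat_lit 0x18001a0005000200000000000000000000000) (nat_lit 0x0) (nat_lit 0x4000000008005c002f000000000000000000) := T_1 (nat_lit 92) (nat_lit 75) (nat_lit 4) (nat_lit 8) (nat_lit 8) L24197 (by decide +kernel)
theorem L24199 : W_1 (nat_lit 7) (nat_lit 0x18001a0001000200000000000000000000000) (nat_lit 0x0) (nat_lit 0x100004000000048005c002f000000000000000000) := T_1 (nat_lit 110) (nat_lit 160) (nat_lit 5) (nat_lit 8) (nat_lit 5) L24198 (by decide +kernel)
theorem L24200 : W_1 (nat_lit 2) (nat_lit 0x3c001a0001000200000000000000000000000) (nat_lit 0x0) (nat_lit 0xc0000000000004000000000000000000000000000) := D_1 (nat_lit 162) (nat_lit 163) (nat_lit 110) (nat_lit 3) (nat_lit 6) (nat_lit 8) (nat_lit 7) (nat_lit 8) (nat_lit 5) (by decide +kernel)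
theorem L24201 : W_1 (nat_lit 3) (nat_lit 0x1c001a0001000200000000000000000000000) (nat_lit 0x0) (nat_lit 0xc0002000200004000000000000000000000000000) := T_1 (nat_lit 145) (nat_lit 129) (nat_lit 2) (nat_lit 6) (nat_lit 8) L24200 (by decide +kernel)
theorem L24202 : W_1 (nat_lit 4) (nat_lit 0x18001a0001000200000000000000000000000) (nat_lit 0x0) (nat_lit 0xc0002600200004000000000000000000000000000) := T_1 (nat_lit 142) (nat_lit 141) (nat_lit 2) (nat_lit 5) (nat_lit 8) L24201 (by decide +kernel)
theorem L24203 : W_1 (nat_lit 2) (nat_lit 0x18001a0005000200000000000000000000000) (nat_lit 0x0) (nat_lit 0x40002000000000000000010000000000000000000) := D_1 (nat_lit 145) (nat_lit 76) (nat_lit 162) (nat_lit 7) (nat_lit 8) (nat_lit 4) (nat_lit 7) (nat_lit 8) (nat_lit 5) (by decide +kernel)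
theorem L24204 : W_1 (nat_lit 3) (nat_lit 0x18001a0001000200000000000000000000000) (nat_lit 0x0) (nat_lit 0x50002000000004000000010000000000000000000) := T_1 (nat_lit 110) (nat_lit 160) (nat_lit 5) (nat_lit 8) (nat_lit 5) L24203 (by decide +kernel)
theorem L24205 : W_1 (nat_lit 2) (nat_lit 0x8003c001a0001000200000000000000000000000) (nat_lit 0x0) (nat_lit 0x10004000000000000080000000000000000000000) := D_1 (nat_lit 160) (nat_lit 91) (nat_lit 146) (nat_lit 7) (nat_lit 6) (nat_lit 5) (nat_lit 1) (nat_lit 10) (nat_lit 8) (by decide +kernel)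
theorem L24206 : W_1 (nat_lit 3) (nat_lit 0x3c001a0001000200000000000000000000000) (nat_lit 0x0) (nat_lit 0x1c004000000000000080000000000000000000000) := T_1 (nat_lit 159) (nat_lit 158) (nat_lit 1) (nat_lit 9) (nat_lit 8) L24205 (by decide +kernel)
theorem L24207 : W_1 (nat_lit 4) (nat_lit 0x1c001a0001000200000000000000000000000) (nat_lit 0x0) (nat_lit 0x1c006000200000000080000000000000000000000) := T_1 (nat_lit 145) (nat_lit 129) (nat_lit 2) (nat_lit 6) (nat_lit 8) L24206 (by decide +kernel)
theorem L24208 : W_1 (nat_lit 5) (nat_lit 0x18001a0001000200000000000000000000000) (nat_lit 0x0) (nat_lit 0x1c006600200000000080000000000000000000000) := T_1 (nat_lit 142) (nat_lit 141) (nat_lit 2) (nat_lit 5) (nat_lit 8) L24207 (by decide +kernel)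
theorem L24209 : W_1 (nat_lit 8) (nat_lit 0x10001a0001000200000000000000000000000) (nat_lit 0x0) (nat_lit 0xdc006e002000048005c003f001000000000000000) := Q_1 (nat_lit 143) (C_1 L24193 (C_1 L24199 (C_1 L24202 (C_1 L24204 (C_1 L24208 N_1))))) (by decide +kernel)
theorem L24210 : W_1 (nat_lit 2) (nat_lit 0x16001a00018002c0000000000000000000000) (nat_lit 0x0) (nat_lit 0x400500000000000000000000000) := D_1 (nat_lit 92) (nat_lit 94) (nat_lit 106) (nat_lit 1) (nat_lit 9) (nat_lit 5) (nat_lit 1) (nat_lit 8) (nat_lit 5) (by decide +kernel)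
theorem L24211 : W_1 (nat_lit 3) (nat_lit 0x16001a00010002c0000000000000000000000) (nat_lit 0x0) (nat_lit 0x8000000000000c00500000000000000000000000) := T_1 (nat_lit 107) (nat_lit 159) (nat_lit 4) (nat_lit 6) (nat_lit 9) L24210 (by decide +kernel)
theorem L24212 : W_1 (nat_lit 4) (nat_lit 0x16001a0001000280000000000000000000000) (nat_lit 0x0) (nat_lit 0x8000000000000c00540002000000000000000000) := T_1 (nat_lit 90) (nat_lit 73) (nat_lit 4) (nat_lit 6) (nat_lit 8) L24211 (by decide +kernel)
theorem L24213 : W_1 (nat_lit 5) (nat_lit 0x16001a0001000200000000000000000000000) (nat_lit 0x0) (nat_lit 0xc000000000000c005c0002000000000000000000) := T_1 (nat_lit 91) (nat_lit 158) (nat_lit 5) (nat_lit 6) (nat_lit 5) L24212 (by decide +kernel)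
theorem L24214 : W_1 (nat_lit 6) (nat_lit 0x14001a0001000200000000000000000000000) (nat_lit 0x0) (nat_lit 0xc000a00000000c005c0002000000000000000000) := T_1 (nat_lit 141) (nat_lit 143) (nat_lit 2) (nat_lit 5) (nat_lit 8) L24213 (by decide +kernel)
theorem L24215 : W_1 (nat_lit 2) (nat_lit 0x16001a00010003c0000000000000000000000) (nat_lit 0x0) (nat_lit 0xc00400000000000000000000000) := D_1 (nat_lit 107) (nat_lit 106) (nat_lit 94) (nat_lit 1) (nat_lit 8) (nat_lit 5) (nat_lit 1) (nat_lit 9) (nat_lit 5) (by decide +kernel)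
theorem L24216 : W_1 (nat_lit 3) (nat_lit 0x16001a00010002c0000000000000000000000) (nat_lit 0x0) (nat_lit 0xc00500008000000000000000000) := T_1 (nat_lit 92) (nat_lit 75) (nat_lit 6) (nat_lit 6) (nat_lit 8) L24215 (by decide +kernel)
theorem L24217 : W_1 (nat_lit 4) (nat_lit 0x16001a0001000280000000000000000000000) (nat_lit 0x0) (nat_lit 0xc0054000a000000000000000000) := T_1 (nat_lit 90) (nat_lit 73) (nat_lit 4) (nat_lit 6) (nat_lit 8) L24216 (by decide +kernel)
theorem L24218 : W_1 (nat_lit 5) (nat_lit 0x16001a0001000200000000000000000000000) (nat_lit 0x0) (nat_lit 0x4000000000000c005c000a000000000000000000) := T_1 (nat_lit 91) (nat_lit 158) (nat_lit 5) (nat_lit 6) (nat_lit 5) L24217 (by decide +kernel)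
theorem L24219 : W_1 (nat_lit 6) (nat_lit 0x14001a0001000200000000000000000000000) (nat_lit 0x0) (nat_lit 0x4000a00000000c005c000a000000000000000000) := T_1 (nat_lit 141) (nat_lit 143) (nat_lit 2) (nat_lit 5) (nat_lit 8) L24218 (by decide +kernel)
theorem L24220 : W_1 (nat_lit 2) (nat_lit 0x1c001a0001000200000000000000000000000) (nat_lit 0x0) (nat_lit 0x10000000000004000080000000000000000000000) := D_1 (nat_lit 160) (nat_lit 110) (nat_lit 91) (nat_lit 5) (nat_lit 8) (nat_lit 5) (nat_lit 7) (nat_lit 6) (nat_lit 5) (by decide +kernel)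
theorem L24221 : W_1 (nat_lit 3) (nat_lit 0x14001a0001000200000000000000000000000) (nat_lit 0x0) (nat_lit 0x10000a00000004000080000000000000000000000) := T_1 (nat_lit 143) (nat_lit 141) (nat_lit 2) (nat_lit 5) (nat_lit 8) L24220 (by decide +kernel)
theorem L24222 : W_1 (nat_lit 2) (nat_lit 0x14001a00010003c0000000000000000000000) (nat_lit 0x0) (nat_lit 0x8000000000000c00000000000000000000000000) := D_1 (nat_lit 107) (nat_lit 159) (nat_lit 106) (nat_lit 4) (nat_lit 6) (nat_lit 9) (nat_lit 1) (nat_lit 8) (nat_lit 5) (by decide +kernel)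
theorem L24223 : W_1 (nat_lit 3) (nat_lit 0x14001a00010002c0000000000000000000000) (nat_lit 0x0) (nat_lit 0x8000000000000c00100008000000000000000000) := T_1 (nat_lit 92) (nat_lit 75) (nat_lit 6) (nat_lit 6) (nat_lit 8) L24222 (by decide +kernel)
theorem L24224 : W_1 (nat_lit 4) (nat_lit 0x14001a0001000280000000000000000000000) (nat_lit 0x0) (nat_lit 0x8000000000000c0014000a000000000000000000) := T_1 (nat_lit 90) (nat_lit 73) (nat_lit 4) (nat_lit 6) (nat_lit 8) L24223 (by decide +kernel)
theorem L24225 : W_1 (nat_lit 2) (nat_lit 0x14001a00010003c0000000000000000000000) (nat_lit 0x0) (nat_lit 0xc00400000000000000000000000) := D_1 (nat_lit 107) (nat_lit 106) (nat_lit 94) (nat_lit 1) (nat_lit 8) (nat_lit 5) (nat_lit 1) (nat_lit 9) (nat_lit 5) (by decide +kernel)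
theorem L24226 : W_1 (nat_lit 3) (nat_lit 0x14001a00010002c0000000000000000000000) (nat_lit 0x0) (nat_lit 0xc00500008000000000000000000) := T_1 (nat_lit 92) (nat_lit 75) (nat_lit 6) (nat_lit 6) (nat_lit 8) L24225 (by decide +kernel)
theorem L24227 : W_1 (nat_lit 4) (nat_lit 0x14001a0001000280000000000000000000000) (nat_lit 0x0) (nat_lit 0xc0054000a000000000000000000) := T_1 (nat_lit 90) (nat_lit 73) (nat_lit 4) (nat_lit 6) (nat_lit 8) L24226 (by decide +kernel)
theorem L24228 : W_1 (nat_lit 2) (nat_lit 0x16001a000100068000e000000000000000000) (nat_lit 0x0) (nat_lit 0xc000000020000000000000000000) := D_1 (nat_lit 77) (nat_lit 111) (nat_lit 110) (nat_lit 5) (nat_lit 9) (nat_lit 4) (nat_lit 6) (nat_lit 8) (nat_lit 8) (by decide +kernel)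
theorem L24229 : W_1 (nat_lit 3) (nat_lit 0x16001a000100028000e000000000000000000) (nat_lit 0x0) (nat_lit 0xc000400030000000000000000000) := T_1 (nat_lit 94) (nat_lit 76) (nat_lit 3) (nat_lit 5) (nat_lit 4) L24228 (by decide +kernel)
theorem L24230 : W_1 (nat_lit 4) (nat_lit 0x16001a0001000280006000000000000000000) (nat_lit 0x0) (nat_lit 0xc000400038000400000000000000) := T_1 (nat_lit 75) (nat_lit 58) (nat_lit 6) (nat_lit 6) (nat_lit 7) L24229 (by decide +kernel)
theorem L24231 : W_1 (nat_lit 5) (nat_lit 0x16001a0001000280002000000000000000000) (nat_lit 0x0) (nat_lit 0xc00040003c000500000000000000) := T_1 (nat_lit 74) (nat_lit 56) (nat_lit 4) (nat_lit 6) (nat_lit 7) L24230 (by decide +kernel)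
theorem L24232 : W_1 (nat_lit 6) (nat_lit 0x16001a0001000280000000000000000000000) (nat_lit 0x0) (nat_lit 0xc00044003e000500000000000000) := T_1 (nat_lit 73) (nat_lit 90) (nat_lit 4) (nat_lit 6) (nat_lit 8) L24231 (by decide +kernel)
theorem L24233 : W_1 (nat_lit 7) (nat_lit 0x14001a0001000280000000000000000000000) (nat_lit 0x0) (nat_lit 0x400020000000c00044003e000500000000000000) := T_1 (nat_lit 141) (nat_lit 158) (nat_lit 5) (nat_lit 6) (nat_lit 5) L24232 (by decide +kernel)
theorem L24234 : W_1 (nat_lit 2) (nat_lit 0x14001a0001000780000000000000000000000) (nat_lit 0x0) (nat_lit 0x8000000060000000000000000000) := D_1 (nat_lit 77) (nat_lit 78) (nat_lit 111) (nat_lit 2) (nat_lit 6) (nat_lit 5) (nat_lit 5) (nat_lit 9) (nat_lit 4) (by decide +kernel)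
theorem L24235 : W_1 (nat_lit 3) (nat_lit 0x14001a0001000380000000000000000000000) (nat_lit 0x0) (nat_lit 0x8800400060000000000000000000) := T_1 (nat_lit 94) (nat_lit 107) (nat_lit 1) (nat_lit 9) (nat_lit 5) L24234 (by decide +kernel)
theorem L24236 : W_1 (nat_lit 4) (nat_lit 0x14001a0001000280000000000000000000000) (nat_lit 0x0) (nat_lit 0x8800500068000000000000000000) := T_1 (nat_lit 92) (nat_lit 75) (nat_lit 6) (nat_lit 6) (nat_lit 8) L24235 (by decide +kernel)
theorem L24237 : W_1 (nat_lit 5) (nat_lit 0x14001a0001000280000000000000000000000) (nat_lit 0x0) (nat_lit 0xc000200000000c00540002000000000000000000) := T_1 (nat_lit 141) (nat_lit 158) (nat_lit 5) (nat_lit 6) (nat_lit 5) L24212 (by decide +kernel)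
theorem L24238 : W_1 (nat_lit 8) (nat_lit 0x14001a0001000200000000000000000000000) (nat_lit 0x0) (nat_lit 0xc00020000000cc005c007e000500000000000000) := Q_1 (nat_lit 91) (C_1 L24224 (C_1 L24227 (C_1 L24233 (C_1 L24236 (C_1 L24237 N_1))))) (by decide +kernel)
theorem L24239 : W_1 (nat_lit 6) (nat_lit 0x1c001a0001000200000000000000000000000) (nat_lit 0x0) (nat_lit 0x1000000000000c000100038001c00080000000000) := T_1 (nat_lit 110) (nat_lit 160) (nat_lit 5) (nat_lit 8) (nat_lit 5) L24153 (by decide +kernel)
theorem L24240 : W_1 (nat_lit 7) (nat_lit 0x14001a0001000200000000000000000000000) (nat_lit 0x0) (nat_lit 0x10000a0000000c000100038001c00080000000000) := T_1 (nat_lit 143) (nat_lit 141) (nat_lit 2) (nat_lit 5) (nat_lit 8) L24239 (by decide +kernel)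
theorem L24241 : W_1 (nat_lit 2) (nat_lit 0x100014001a00010002c0000000000000000000000) (nat_lit 0x0) (nat_lit 0x200008000000000000800000000000000000000000000) := D_1 (nat_lit 159) (nat_lit 177) (nat_lit 107) (nat_lit 7) (nat_lit 6) (nat_lit 6) (nat_lit 4) (nat_lit 6) (nat_lit 9) (by decide +kernel)
theorem L24242 : W_1 (nat_lit 3) (nat_lit 0x14001a00010002c0000000000000000000000) (nat_lit 0x0) (nat_lit 0x200018000800000000800000000000000000000000000) := T_1 (nat_lit 160) (nat_lit 143) (nat_lit 7) (nat_lit 6) (nat_lit 5) L24241 (by decide +kernel)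
theorem L24243 : W_1 (nat_lit 4) (nat_lit 0x14001a0001000280000000000000000000000) (nat_lit 0x0) (nat_lit 0x200018000800000000800040002000000000000000000) := T_1 (nat_lit 90) (nat_lit 73) (nat_lit 4) (nat_lit 6) (nat_lit 8) L24242 (by decide +kernel)
theorem L24244 : W_1 (nat_lit 2) (nat_lit 0x1c001a00050003c0000000000000000000000) (nat_lit 0x0) (nat_lit 0x400030000000000000000000) := D_1 (nat_lit 77) (nat_lit 76) (nat_lit 94) (nat_lit 2) (nat_lit 5) (nat_lit 5) (nat_lit 6) (nat_lit 8) (nat_lit 8) (by decide +kernel)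
theorem L24245 : W_1 (nat_lit 3) (nat_lit 0x1c001a00010003c0000000000000000000000) (nat_lit 0x0) (nat_lit 0xc000400030000000000000000000) := T_1 (nat_lit 110) (nat_lit 111) (nat_lit 3) (nat_lit 5) (nat_lit 5) L24244 (by decide +kernel)
theorem L24246 : W_1 (nat_lit 4) (nat_lit 0x1c001a0001000380000000000000000000000) (nat_lit 0x0) (nat_lit 0xc000440032000000000000000000) := T_1 (nat_lit 90) (nat_lit 73) (nat_lit 4) (nat_lit 6) (nat_lit 8) L24245 (by decide +kernel)
theorem L24247 : W_1 (nat_lit 5) (nat_lit 0x1c001a0001000280000000000000000000000) (nat_lit 0x0) (nat_lit 0xc00054003a000000000000000000) := T_1 (nat_lit 92) (nat_lit 75) (nat_lit 6) (nat_lit 6) (nat_lit 8) L24246 (by decide +kernel)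
theorem L24248 : W_1 (nat_lit 6) (nat_lit 0x14001a0001000280000000000000000000000) (nat_lit 0x0) (nat_lit 0x1000080000000c00054003a000000000000000000) := T_1 (nat_lit 143) (nat_lit 160) (nat_lit 7) (nat_lit 6) (nat_lit 5) L24247 (by decide +kernel)
theorem L24249 : W_1 (nat_lit 7) (nat_lit 0x14001a0001000200000000000000000000000) (nat_lit 0x0) (nat_lit 0x20001800080000000cc005c007a000000000000000000) := Q_1 (nat_lit 91) (C_1 L24236 (C_1 L24227 (C_1 L24224 (C_1 L24243 (C_1 L24248 N_1))))) (by decide +kernel)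
theorem L24250 : W_1 (nat_lit 9) (nat_lit 0x10001a0001000200000000000000000000000) (nat_lit 0x0) (nat_lit 0x20001c000e0000000cc005c007e001d00080000000000) := Q_1 (nat_lit 142) (C_1 L24214 (C_1 L24219 (C_1 L24221 (C_1 L24238 (C_1 L24240 (C_1 L24249 N_1)))))) (by decide +kernel)
theorem L24251 : W_1 (nat_lit 4) (nat_lit 0x1a001a0005000200008000000000000000000) (nat_lit 0x0) (nat_lit 0x8000000030001c00080000000000) := T_1 (nat_lit 76) (nat_lit 58) (nat_lit 4) (nat_lit 8) (nat_lit 7) L24174 (by decide +kernel)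
theorem L24252 : W_1 (nat_lit 5) (nat_lit 0x1a001a0005000200000000000000000000000) (nat_lit 0x0) (nat_lit 0x8000100038001c00080000000000) := T_1 (nat_lit 75) (nat_lit 92) (nat_lit 4) (nat_lit 8) (nat_lit 8) L24251 (by decide +kernel)
theorem L24253 : W_1 (nat_lit 6) (nat_lit 0x1a001a0001000200000000000000000000000) (nat_lit 0x0) (nat_lit 0x1000000000000c000100038001c00080000000000) := T_1 (nat_lit 110) (nat_lit 160) (nat_lit 5) (nat_lit 8) (nat_lit 5) L24252 (by decide +kernel)
theorem L24254 : W_1 (nat_lit 7) (nat_lit 0x18001a0001000200000000000000000000000) (nat_lit 0x0) (nat_lit 0x1000060000000c000100038001c00080000000000) := T_1 (nat_lit 141) (nat_lit 142) (nat_lit 2) (nat_lit 5) (nat_lit 8) L24253 (by decide +kernel)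
theorem L24255 : W_1 (nat_lit 8) (nat_lit 0x10001a0001000200000000000000000000000) (nat_lit 0x0) (nat_lit 0xdc006e0020000c000180038001c00080000000000) := Q_1 (nat_lit 143) (C_1 L24208 (C_1 L24254 (C_1 L24202 (C_1 L24204 N_1)))) (by decide +kernel)
theorem L24256 : W_1 (nat_lit 6) (nat_lit 0x1a001a0001000200000000000000000000000) (nat_lit 0x0) (nat_lit 0x1000000000000c000400038001c00020000000000) := T_1 (nat_lit 110) (nat_lit 160) (nat_lit 5) (nat_lit 8) (nat_lit 5) L24186 (by decide +kernel)
theorem L24257 : W_1 (nat_lit 7) (nat_lit 0x18001a0001000200000000000000000000000) (nat_lit 0x0) (nat_lit 0x1000060000000c000400038001c00020000000000) := T_1 (nat_lit 141) (nat_lit 142) (nat_lit 2) (nat_lit 5) (nat_lit 8) L24256 (by decide +kernel)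
theorem L24258 : W_1 (nat_lit 8) (nat_lit 0x10001a0001000200000000000000000000000) (nat_lit 0x0) (nat_lit 0xdc006e0020000c000480038001c00020000000000) := Q_1 (nat_lit 143) (C_1 L24208 (C_1 L24257 (C_1 L24202 (C_1 L24204 N_1)))) (by decide +kernel)
theorem L24259 : W_1 (nat_lit 2) (nat_lit 0x3c001a0001000780000000000000000000000) (nat_lit 0x0) (nat_lit 0x40006000000000000000000) := D_1 (nat_lit 73) (nat_lit 74) (nat_lit 90) (nat_lit 0) (nat_lit 9) (nat_lit 5) (nat_lit 4) (nat_lit 6) (nat_lit 8) (by decide +kernel)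
theorem L24260 : W_1 (nat_lit 3) (nat_lit 0x3c001a0001000380000000000000000000000) (nat_lit 0x0) (nat_lit 0x800440006000000000000000000) := T_1 (nat_lit 94) (nat_lit 107) (nat_lit 1) (nat_lit 9) (nat_lit 5) L24259 (by decide +kernel)
theorem L24261 : W_1 (nat_lit 4) (nat_lit 0x3c001a0001000280000000000000000000000) (nat_lit 0x0) (nat_lit 0x80054000e000000000000000000) := T_1 (nat_lit 92) (nat_lit 75) (nat_lit 6) (nat_lit 6) (nat_lit 8) L24260 (by decide +kernel)
theorem L24262 : W_1 (nat_lit 5) (nat_lit 0x3c001a0001000200000000000000000000000) (nat_lit 0x0) (nat_lit 0x100000000000008005c000e000000000000000000) := T_1 (nat_lit 91) (nat_lit 160) (nat_lit 7) (nat_lit 6) (nat_lit 5) L24261 (by decide +kernel)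
theorem L24263 : W_1 (nat_lit 6) (nat_lit 0x1c001a0001000200000000000000000000000) (nat_lit 0x0) (nat_lit 0x100020002000008005c000e000000000000000000) := T_1 (nat_lit 145) (nat_lit 129) (nat_lit 2) (nat_lit 6) (nat_lit 8) L24262 (by decide +kernel)
theorem L24264 : W_1 (nat_lit 7) (nat_lit 0x14001a0001000200000000000000000000000) (nat_lit 0x0) (nat_lit 0x10002a002000008005c000e000000000000000000) := T_1 (nat_lit 143) (nat_lit 141) (nat_lit 2) (nat_lit 5) (nat_lit 8) L24263 (by decide +kernel)
theorem L24265 : W_1 (nat_lit 2) (nat_lit 0x40014001a00010002c0000000000000000000000) (nat_lit 0x0) (nat_lit 0x80008000000000000800000000000000000000000000) := D_1 (nat_lit 159) (nat_lit 107) (nat_lit 175) (nat_lit 4) (nat_lit 6) (nat_lit 9) (nat_lit 5) (nat_lit 6) (nat_lit 6) (by decide +kernel)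
theorem L24266 : W_1 (nat_lit 3) (nat_lit 0x14001a00010002c0000000000000000000000) (nat_lit 0x0) (nat_lit 0x8000c000200000000800000000000000000000000000) := T_1 (nat_lit 158) (nat_lit 141) (nat_lit 5) (nat_lit 6) (nat_lit 5) L24265 (by decide +kernel)
theorem L24267 : W_1 (nat_lit 4) (nat_lit 0x14001a0001000280000000000000000000000) (nat_lit 0x0) (nat_lit 0x8000c000200000000800040002000000000000000000) := T_1 (nat_lit 90) (nat_lit 73) (nat_lit 4) (nat_lit 6) (nat_lit 8) L24266 (by decide +kernel)
theorem L24268 : W_1 (nat_lit 2) (nat_lit 0x14001a00010003c0020000000000000000000) (nat_lit 0x0) (nat_lit 0x8000400040000000000000000000) := D_1 (nat_lit 94) (nat_lit 78) (nat_lit 111) (nat_lit 2) (nat_lit 6) (nat_lit 5) (nat_lit 5) (nat_lit 9) (nat_lit 4) (by decide +kernel)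
theorem L24269 : W_1 (nat_lit 3) (nat_lit 0x14001a00010003c0000000000000000000000) (nat_lit 0x0) (nat_lit 0x8000400070000000000000000000) := T_1 (nat_lit 77) (nat_lit 76) (nat_lit 2) (nat_lit 5) (nat_lit 5) L24268 (by decide +kernel)
theorem L24270 : W_1 (nat_lit 4) (nat_lit 0x14001a00010002c0000000000000000000000) (nat_lit 0x0) (nat_lit 0x8000500078000000000000000000) := T_1 (nat_lit 92) (nat_lit 75) (nat_lit 6) (nat_lit 6) (nat_lit 8) L24269 (by decide +kernel)
theorem L24271 : W_1 (nat_lit 5) (nat_lit 0x14001a0001000280000000000000000000000) (nat_lit 0x0) (nat_lit 0x800054007a000000000000000000) := T_1 (nat_lit 90) (nat_lit 73) (nat_lit 4) (nat_lit 6) (nat_lit 8) L24270 (by decide +kernel)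
theorem L24272 : W_1 (nat_lit 6) (nat_lit 0x14001a0001000200000000000000000000000) (nat_lit 0x0) (nat_lit 0x8000c000200000008c005c007a000000000000000000) := Q_1 (nat_lit 91) (C_1 L24237 (C_1 L24236 (C_1 L24224 (C_1 L24267 (C_1 L24271 N_1))))) (by decide +kernel)
theorem L24273 : W_1 (nat_lit 2) (nat_lit 0x16001a00010003c0000000000000000000000) (nat_lit 0x0) (nat_lit 0x8000000000000c00000000000000000000000000) := D_1 (nat_lit 107) (nat_lit 159) (nat_lit 106) (nat_lit 4) (nat_lit 6) (nat_lit 9) (nat_lit 1) (nat_lit 8) (nat_lit 5) (by decide +kernel)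
theorem L24274 : W_1 (nat_lit 3) (nat_lit 0x16001a00010002c0000000000000000000000) (nat_lit 0x0) (nat_lit 0x8000000000000c00100008000000000000000000) := T_1 (nat_lit 92) (nat_lit 75) (nat_lit 6) (nat_lit 6) (nat_lit 8) L24273 (by decide +kernel)
theorem L24275 : W_1 (nat_lit 4) (nat_lit 0x16001a0001000280000000000000000000000) (nat_lit 0x0) (nat_lit 0x8000000000000c0014000a000000000000000000) := T_1 (nat_lit 90) (nat_lit 73) (nat_lit 4) (nat_lit 6) (nat_lit 8) L24274 (by decide +kernel)
theorem L24276 : W_1 (nat_lit 5) (nat_lit 0x16001a0001000200000000000000000000000) (nat_lit 0x0) (nat_lit 0xc000000000000c001c000a000000000000000000) := T_1 (nat_lit 91) (nat_lit 158) (nat_lit 5) (nat_lit 6) (nat_lit 5) L24275 (by decide +kernel)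
theorem L24277 : W_1 (nat_lit 6) (nat_lit 0x14001a0001000200000000000000000000000) (nat_lit 0x0) (nat_lit 0xc000a00000000c001c000a000000000000000000) := T_1 (nat_lit 141) (nat_lit 143) (nat_lit 2) (nat_lit 5) (nat_lit 8) L24276 (by decide +kernel)
theorem L24278 : W_1 (nat_lit 2) (nat_lit 0x40016001a0001000200000000000000000000000) (nat_lit 0x0) (nat_lit 0x1000080008000000000000000000000000000000000000000) := D_1 (nat_lit 175) (nat_lit 159) (nat_lit 192) (nat_lit 5) (nat_lit 6) (nat_lit 6) (nat_lit 6) (nat_lit 5) (nat_lit 11) (by decide +kernel)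
theorem L24279 : W_1 (nat_lit 3) (nat_lit 0x16001a0001000200000000000000000000000) (nat_lit 0x0) (nat_lit 0x100008000c000000000000000080000000000000000000000) := T_1 (nat_lit 158) (nat_lit 91) (nat_lit 5) (nat_lit 6) (nat_lit 5) L24278 (by decide +kernel)
theorem L24280 : W_1 (nat_lit 4) (nat_lit 0x14001a0001000200000000000000000000000) (nat_lit 0x0) (nat_lit 0x100008000c000a00000000000080000000000000000000000) := T_1 (nat_lit 141) (nat_lit 143) (nat_lit 2) (nat_lit 5) (nat_lit 8) L24279 (by decide +kernel)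
theorem L24281 : W_1 (nat_lit 2) (nat_lit 0x8003c001a0001000200000000000000000000000) (nat_lit 0x0) (nat_lit 0x200010004000000000000000000000000000000000000) := D_1 (nat_lit 160) (nat_lit 146) (nat_lit 177) (nat_lit 1) (nat_lit 10) (nat_lit 8) (nat_lit 7) (nat_lit 6) (nat_lit 6) (by decide +kernel)
theorem L24282 : W_1 (nat_lit 3) (nat_lit 0x3c001a0001000200000000000000000000000) (nat_lit 0x0) (nat_lit 0x20001c004000000000000000000000000000000000000) := T_1 (nat_lit 159) (nat_lit 158) (nat_lit 1) (nat_lit 9) (nat_lit 8) L24281 (by decide +kernel)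
theorem L24283 : W_1 (nat_lit 4) (nat_lit 0x1c001a0001000200000000000000000000000) (nat_lit 0x0) (nat_lit 0x20001c006000200000000000000000000000000000000) := T_1 (nat_lit 145) (nat_lit 129) (nat_lit 2) (nat_lit 6) (nat_lit 8) L24282 (by decide +kernel)
theorem L24284 : W_1 (nat_lit 5) (nat_lit 0x14001a0001000200000000000000000000000) (nat_lit 0x0) (nat_lit 0x20001c006a00200000000000000000000000000000000) := T_1 (nat_lit 143) (nat_lit 141) (nat_lit 2) (nat_lit 5) (nat_lit 8) L24283 (by decide +kernel)
theorem L24285 : W_1 (nat_lit 6) (nat_lit 0x14001a0001000200000000000000000000000) (nat_lit 0x0) (nat_lit 0x2000180008000000088005c007a000000000000000000) := Q_1 (nat_lit 91) (C_1 L24271 (C_1 L24243 (C_1 L24236 N_1))) (by decide +kernel)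
theorem L24286 : W_1 (nat_lit 8) (nat_lit 0x10001a0001000200000000000000000000000) (nat_lit 0x0) (nat_lit 0x100028001c006e00200008c005c007e000000000000000000) := Q_1 (nat_lit 142) (C_1 L24214 (C_1 L24219 (C_1 L24264 (C_1 L24272 (C_1 L24277 (C_1 L24280 (C_1 L24284 (C_1 L24285 N_1)))))))) (by decide +kernel)
theorem L24287 : W_1 (nat_lit 8) (nat_lit 0x10001a0001000200000000000000000000000) (nat_lit 0x0) (nat_lit 0x50002e0020000c000500038001c00020000000000) := Q_1 (nat_lit 110) (C_1 L24181 (C_1 L24188 (C_1 L24094 N_1))) (by decide +kernel)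
theorem L24288 : W_1 (nat_lit 3) (nat_lit 0x18001a0001000200000000000000000000000) (nat_lit 0x0) (nat_lit 0x10000600000004000080000000000000000000000) := T_1 (nat_lit 142) (nat_lit 141) (nat_lit 2) (nat_lit 5) (nat_lit 8) L24220 (by decide +kernel)
theorem L24289 : W_1 (nat_lit 6) (nat_lit 0x10001a0001000200000000000000000000000) (nat_lit 0x0) (nat_lit 0xdc006e00200004000080010000000000000000000) := Q_1 (nat_lit 143) (C_1 L24208 (C_1 L24288 (C_1 L24202 (C_1 L24204 N_1)))) (by decide +kernel)
theorem L24290 : W_1 (nat_lit 7) (nat_lit 0x10001a0001000200000000000000000000000) (nat_lit 0x0) (nat_lit 0x50002e0020001c8005c002f000000000000000000) := Q_1 (nat_lit 110) (C_1 L24181 (C_1 L24104 (C_1 L24060 N_1))) (by decide +kernel)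
theorem L24291 : W_1 (nat_lit 10) (nat_lit 0x10001a0001000000000000000000000000000) (nat_lit 0x0) (nat_lit 0x10002800dc006e0020001cc007c007f001d000a0000000000) := Q_1 (nat_lit 93) (C_1 L24190 (C_1 L24191 (C_1 L24209 (C_1 L24250 (C_1 L24255 (C_1 L24258 (C_1 L24286 (C_1 L24287 (C_1 L24289 (C_1 L24290 N_1)))))))))) (by decide +kernel)
theorem L24292 : W_1 (nat_lit 2) (nat_lit 0x80010001a000f000700000000000000000000000) (nat_lit 0x0) (nat_lit 0x100000c0000000000000000000000) := D_1 (nat_lit 91) (nat_lit 112) (nat_lit 90) (nat_lit 3) (nat_lit 6) (nat_lit 5) (nat_lit 3) (nat_lit 5) (nat_lit 5) (by decide +kernel)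
theorem L24293 : W_1 (nat_lit 3) (nat_lit 0x80010001a0007000700000000000000000000000) (nat_lit 0x0) (nat_lit 0x2000180000c0000000000000000000000) := T_1 (nat_lit 111) (nat_lit 129) (nat_lit 3) (nat_lit 6) (nat_lit 6) L24292 (by decide +kernel)
theorem L24294 : W_1 (nat_lit 4) (nat_lit 0x10001a0007000700000000000000000000000) (nat_lit 0x0) (nat_lit 0x80004002000180000c0000000000000000000000) := T_1 (nat_lit 159) (nat_lit 142) (nat_lit 6) (nat_lit 6) (nat_lit 9) L24293 (by decide +kernel)
theorem L24295 : W_1 (nat_lit 5) (nat_lit 0x10001a0005000700000000000000000000000) (nat_lit 0x0) (nat_lit 0x800040020001a0008c0000000000000000000000) := T_1 (nat_lit 109) (nat_lit 95) (nat_lit 1) (nat_lit 10) (nat_lit 5) L24294 (by decide +kernel)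
theorem L24296 : W_1 (nat_lit 6) (nat_lit 0x10001a0005000300000000000000000000000) (nat_lit 0x0) (nat_lit 0x800040020001a000cc0020000000000000000000) := T_1 (nat_lit 94) (nat_lit 77) (nat_lit 6) (nat_lit 8) (nat_lit 8) L24295 (by decide +kernel)
theorem L24297 : W_1 (nat_lit 7) (nat_lit 0x10001a0005000200000000000000000000000) (nat_lit 0x0) (nat_lit 0x800040020001a000dc0028000000000000000000) := T_1 (nat_lit 92) (nat_lit 75) (nat_lit 4) (nat_lit 8) (nat_lit 8) L24296 (by decide +kernel)
theorem L24298 : W_1 (nat_lit 8) (nat_lit 0x10001a0005000000000000000000000000000) (nat_lit 0x0) (nat_lit 0x4800240020001a000fc0038000000000000000000) := Q_1 (nat_lit 93) (C_1 L24061 (C_1 L24297 N_1)) (by decide +kernel)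
theorem L24299 : W_1 (nat_lit 9) (nat_lit 0x10001a0001000000000000000000000000000) (nat_lit 0x0) (nat_lit 0x4800240020001e800fc0038000400000000000000) := Q_1 (nat_lit 110) (C_1 L24071 (C_1 L24056 (C_1 L24062 (C_1 L24066 (C_1 L24298 N_1))))) (by decide +kernel)
theorem L24300 : W_1 (nat_lit 2) (nat_lit 0x1c001a00010001c0000000000000000000000) (nat_lit 0x0) (nat_lit 0x8000000000002800000000000000000000000000) := D_1 (nat_lit 159) (nat_lit 109) (nat_lit 107) (nat_lit 6) (nat_lit 6) (nat_lit 9) (nat_lit 4) (nat_lit 6) (nat_lit 9) (by decide +kernel)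
theorem L24301 : W_1 (nat_lit 3) (nat_lit 0x1c001a0001000180000000000000000000000) (nat_lit 0x0) (nat_lit 0x8000000000002800040002000000000000000000) := T_1 (nat_lit 90) (nat_lit 73) (nat_lit 4) (nat_lit 6) (nat_lit 8) L24300 (by decide +kernel)
theorem L24302 : W_1 (nat_lit 4) (nat_lit 0x1c001a0001000080000000000000000000000) (nat_lit 0x0) (nat_lit 0x800000000000280014000a000000000000000000) := T_1 (nat_lit 92) (nat_lit 75) (nat_lit 6) (nat_lit 6) (nat_lit 8) L24301 (by decide +kernel)
theorem L24303 : W_1 (nat_lit 5) (nat_lit 0x1c001a0001000000000000000000000000000) (nat_lit 0x0) (nat_lit 0x180000000000028001c000a000000000000000000) := T_1 (nat_lit 91) (nat_lit 160) (nat_lit 7) (nat_lit 6) (nat_lit 5) L24302 (by decide +kernel)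
theorem L24304 : W_1 (nat_lit 6) (nat_lit 0x14001a0001000000000000000000000000000) (nat_lit 0x0) (nat_lit 0x18000a000000028001c000a000000000000000000) := T_1 (nat_lit 143) (nat_lit 141) (nat_lit 2) (nat_lit 5) (nat_lit 8) L24303 (by decide +kernel)
theorem L24305 : W_1 (nat_lit 2) (nat_lit 0x80016001a0003000000000000000000000000000) (nat_lit 0x0) (nat_lit 0x4800040000000000000000000000) := D_1 (nat_lit 107) (nat_lit 110) (nat_lit 90) (nat_lit 3) (nat_lit 5) (nat_lit 6) (nat_lit 4) (nat_lit 6) (nat_lit 9) (by decide +kernel)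
theorem L24306 : W_1 (nat_lit 3) (nat_lit 0x80016001a0001000000000000000000000000000) (nat_lit 0x0) (nat_lit 0x6800140000000000000000000000) := T_1 (nat_lit 109) (nat_lit 92) (nat_lit 6) (nat_lit 6) (nat_lit 9) L24305 (by decide +kernel)
theorem L24307 : W_1 (nat_lit 4) (nat_lit 0x80014001a0001000000000000000000000000000) (nat_lit 0x0) (nat_lit 0xa00000006800140000000000000000000000) := T_1 (nat_lit 141) (nat_lit 143) (nat_lit 2) (nat_lit 5) (nat_lit 8) L24306 (by decide +kernel)
theorem L24308 : W_1 (nat_lit 5) (nat_lit 0x14001a0001000000000000000000000000000) (nat_lit 0x0) (nat_lit 0x500038001c000a00000006800140000000000000000000000) := Q_1 (nat_lit 159) (C_1 L24043 (C_1 L24307 N_1)) (by decide +kernel)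
theorem L24309 : W_1 (nat_lit 7) (nat_lit 0x10001a0001000000000000000000000000000) (nat_lit 0x0) (nat_lit 0x500038001c000e000000068001c000e000500000000000000) := Q_1 (nat_lit 142) (C_1 L24052 (C_1 L24023 (C_1 L24304 (C_1 L24047 (C_1 L24308 N_1))))) (by decide +kernel)
theorem L24310 : W_1 (nat_lit 2) (nat_lit 0x1c001a0005800640000000000000000000000) (nat_lit 0x0) (nat_lit 0x80002000100000000000000) := D_1 (nat_lit 73) (nat_lit 91) (nat_lit 56) (nat_lit 4) (nat_lit 6) (nat_lit 8) (nat_lit 7) (nat_lit 5) (nat_lit 3) (by decide +kernel)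
theorem L24311 : W_1 (nat_lit 3) (nat_lit 0x1c001a0005800600000000000000000000000) (nat_lit 0x0) (nat_lit 0x80000000000000000c0002000100000000000000) := T_1 (nat_lit 90) (nat_lit 159) (nat_lit 4) (nat_lit 6) (nat_lit 9) L24310 (by decide +kernel)
theorem L24312 : W_1 (nat_lit 4) (nat_lit 0x18001a0005800600000000000000000000000) (nat_lit 0x0) (nat_lit 0x80006000000000000c0002000100000000000000) := T_1 (nat_lit 142) (nat_lit 141) (nat_lit 2) (nat_lit 5) (nat_lit 8) L24311 (by decide +kernel)
theorem L24313 : W_1 (nat_lit 5) (nat_lit 0x10001a0005800600000000000000000000000) (nat_lit 0x0) (nat_lit 0x18000e000000000000c0002000100000000000000) := T_1 (nat_lit 143) (nat_lit 160) (nat_lit 5) (nat_lit 8) (nat_lit 5) L24312 (by decide +kernel)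
theorem L24314 : W_1 (nat_lit 6) (nat_lit 0x10001a0005800200000000000000000000000) (nat_lit 0x0) (nat_lit 0x18000e000000000004c0022000100000000000000) := T_1 (nat_lit 94) (nat_lit 77) (nat_lit 6) (nat_lit 8) (nat_lit 8) L24313 (by decide +kernel)
theorem L24315 : W_1 (nat_lit 7) (nat_lit 0x10001a0005000200000000000000000000000) (nat_lit 0x0) (nat_lit 0x18000e000000028004c0022000100000000000000) := T_1 (nat_lit 107) (nat_lit 109) (nat_lit 3) (nat_lit 5) (nat_lit 6) L24314 (by decide +kernel)
theorem L24316 : W_1 (nat_lit 8) (nat_lit 0x10001a0005000000000000000000000000000) (nat_lit 0x0) (nat_lit 0x58002e002000028006c0032000100000000000000) := Q_1 (nat_lit 93) (C_1 L24181 (C_1 L24315 (C_1 L24061 N_1))) (by decide +kernel)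
theorem L24317 : W_1 (nat_lit 2) (nat_lit 0x30001a0005000000000000000000000000000) (nat_lit 0x0) (nat_lit 0x800040000000000000000200000000000000000000000) := D_1 (nat_lit 162) (nat_lit 179) (nat_lit 93) (nat_lit 4) (nat_lit 9) (nat_lit 10) (nat_lit 7) (nat_lit 8) (nat_lit 5) (by decide +kernel)
theorem L24318 : W_1 (nat_lit 2) (nat_lit 0x38001a0005800200000000000000000000000) (nat_lit 0x0) (nat_lit 0x600200000000000000000000000000000000) := D_1 (nat_lit 142) (nat_lit 129) (nat_lit 141) (nat_lit 2) (nat_lit 6) (nat_lit 8) (nat_lit 2) (nat_lit 5) (nat_lit 8) (by decide +kernel)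
theorem L24319 : W_1 (nat_lit 3) (nat_lit 0x30001a0005800200000000000000000000000) (nat_lit 0x0) (nat_lit 0x10000e00200000000000000000000000000000000) := T_1 (nat_lit 143) (nat_lit 160) (nat_lit 5) (nat_lit 8) (nat_lit 5) L24318 (by decide +kernel)
theorem L24320 : W_1 (nat_lit 4) (nat_lit 0x30001a0005800000000000000000000000000) (nat_lit 0x0) (nat_lit 0x10000e00200000000200010000000000000000000) := T_1 (nat_lit 93) (nat_lit 76) (nat_lit 7) (nat_lit 8) (nat_lit 4) L24319 (by decide +kernel)
theorem L24321 : W_1 (nat_lit 5) (nat_lit 0x30001a0005000000000000000000000000000) (nat_lit 0x0) (nat_lit 0x10000e00200002800200010000000000000000000) := T_1 (nat_lit 107) (nat_lit 109) (nat_lit 3) (nat_lit 5) (nat_lit 6) L24320 (by decide +kernel)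
theorem L24322 : W_1 (nat_lit 2) (nat_lit 0x34001a0005000000000000000000000000000) (nat_lit 0x0) (nat_lit 0xa00200000000000000000000000000000000) := D_1 (nat_lit 143) (nat_lit 129) (nat_lit 141) (nat_lit 2) (nat_lit 6) (nat_lit 8) (nat_lit 2) (nat_lit 5) (nat_lit 8) (by decide +kernel)
theorem L24323 : W_1 (nat_lit 2) (nat_lit 0xa0000c0034001a0005800000000000000000000000000) (nat_lit 0x0) (nat_lit 0x4000500000000000000000000000000000000000000000000) := D_1 (nat_lit 176) (nat_lit 178) (nat_lit 194) (nat_lit 0) (nat_lit 9) (nat_lit 10) (nat_lit 7) (nat_lit 6) (nat_lit 7) (by decide +kernel)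
theorem L24324 : W_1 (nat_lit 3) (nat_lit 0x80000c0034001a0005800000000000000000000000000) (nat_lit 0x0) (nat_lit 0x4000700010000000000000000000000000000000000000000) := T_1 (nat_lit 177) (nat_lit 160) (nat_lit 7) (nat_lit 6) (nat_lit 6) L24323 (by decide +kernel)
theorem L24325 : W_1 (nat_lit 4) (nat_lit 0x8000080034001a0005800000000000000000000000000) (nat_lit 0x0) (nat_lit 0x4000780014000000000000000000000000000000000000000) := T_1 (nat_lit 158) (nat_lit 175) (nat_lit 5) (nat_lit 6) (nat_lit 6) L24324 (by decide +kernel)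
theorem L24326 : W_1 (nat_lit 5) (nat_lit 0x8000000034001a0005800000000000000000000000000) (nat_lit 0x0) (nat_lit 0x400078001c000000000000000040000000000000000000000) := T_1 (nat_lit 159) (nat_lit 90) (nat_lit 4) (nat_lit 6) (nat_lit 9) L24325 (by decide +kernel)
theorem L24327 : W_1 (nat_lit 6) (nat_lit 0x8000000034001a0005000000000000000000000000000) (nat_lit 0x0) (nat_lit 0x400078001c000000000002800040000000000000000000000) := T_1 (nat_lit 107) (nat_lit 109) (nat_lit 3) (nat_lit 5) (nat_lit 6) L24326 (by decide +kernel)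
theorem L24328 : W_1 (nat_lit 7) (nat_lit 0x34001a0005000000000000000000000000000) (nat_lit 0x0) (nat_lit 0x4000f8005c000000000002800040000000000000000000000) := T_1 (nat_lit 179) (nat_lit 162) (nat_lit 4) (nat_lit 9) (nat_lit 10) L24327 (by decide +kernel)
theorem L24329 : W_1 (nat_lit 8) (nat_lit 0x30001a0005000000000000000000000000000) (nat_lit 0x0) (nat_lit 0x4000f8005c000e00200002800040000000000000000000000) := Q_1 (nat_lit 142) (C_1 L24322 (C_1 L24328 N_1)) (by decide +kernel)
theorem L24330 : W_1 (nat_lit 9) (nat_lit 0x10001a0005000000000000000000000000000) (nat_lit 0x0) (nat_lit 0x4000f8005c002e00200002800240010000000000000000000) := Q_1 (nat_lit 145) (C_1 L24317 (C_1 L24321 (C_1 L24329 N_1))) (by decide +kernel)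
theorem L24331 : W_1 (nat_lit 8) (nat_lit 0x10001a0005000000000000000000000000000) (nat_lit 0x0) (nat_lit 0x58002e0000000a8006c003a001d00020000000000) := Q_1 (nat_lit 93) (C_1 L24315 (C_1 L24188 (C_1 L24061 N_1))) (by decide +kernel)
theorem L24332 : W_1 (nat_lit 10) (nat_lit 0x10001a0001000000000000000000000000000) (nat_lit 0x0) (nat_lit 0x4000f8005c002e0020000e800ec003a001d00020000000000) := Q_1 (nat_lit 110) (C_1 L24056 (C_1 L24189 (C_1 L24316 (C_1 L24330 (C_1 L24331 N_1))))) (by decide +kernel)
theorem L24333 : W_1 (nat_lit 2) (nat_lit 0x8001c001a0005800600000000000000000000000) (nat_lit 0x0) (nat_lit 0x44002000000000000000000000000000000000000) := D_1 (nat_lit 145) (nat_lit 158) (nat_lit 162) (nat_lit 1) (nat_lit 9) (nat_lit 8) (nat_lit 7) (nat_lit 8) (nat_lit 5) (by decide +kernel)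
theorem L24334 : W_1 (nat_lit 3) (nat_lit 0x1c001a0005800600000000000000000000000) (nat_lit 0x0) (nat_lit 0x4c002000000000000040000000000000000000000) := T_1 (nat_lit 159) (nat_lit 90) (nat_lit 4) (nat_lit 6) (nat_lit 9) L24333 (by decide +kernel)
theorem L24335 : W_1 (nat_lit 4) (nat_lit 0x1c001a0005800200000000000000000000000) (nat_lit 0x0) (nat_lit 0x4c002000000000000440020000000000000000000) := T_1 (nat_lit 94) (nat_lit 77) (nat_lit 6) (nat_lit 8) (nat_lit 8) L24334 (by decide +kernel)
theorem L24336 : W_1 (nat_lit 5) (nat_lit 0x18001a0005800200000000000000000000000) (nat_lit 0x0) (nat_lit 0x4c002600000000000440020000000000000000000) := T_1 (nat_lit 142) (nat_lit 141) (nat_lit 2) (nat_lit 5) (nat_lit 8) L24335 (by decide +kernel)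
theorem L24337 : W_1 (nat_lit 6) (nat_lit 0x10001a0005800200000000000000000000000) (nat_lit 0x0) (nat_lit 0x5c002e00000000000440020000000000000000000) := T_1 (nat_lit 143) (nat_lit 160) (nat_lit 5) (nat_lit 8) (nat_lit 5) L24336 (by decide +kernel)
theorem L24338 : W_1 (nat_lit 7) (nat_lit 0x10001a0005000200000000000000000000000) (nat_lit 0x0) (nat_lit 0x5c002e00000002800440020000000000000000000) := T_1 (nat_lit 107) (nat_lit 109) (nat_lit 3) (nat_lit 5) (nat_lit 6) L24337 (by decide +kernel)
theorem L24339 : W_1 (nat_lit 8) (nat_lit 0x10001a0005000000000000000000000000000) (nat_lit 0x0) (nat_lit 0x5c002e0000000a800740038001c00020000000000) := Q_1 (nat_lit 93) (C_1 L24098 (C_1 L24188 (C_1 L24094 (C_1 L24338 N_1)))) (by decide +kernel)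
theorem L24340 : W_1 (nat_lit 10) (nat_lit 0x10001a0001000000000000000000000000000) (nat_lit 0x0) (nat_lit 0x4000f8005c002e0020000e800f40038001c00020000000000) := Q_1 (nat_lit 110) (C_1 L24056 (C_1 L24330 (C_1 L24189 (C_1 L24339 N_1)))) (by decide +kernel)
theorem L24341 : W_1 (nat_lit 8) (nat_lit 0x10001a0005000000000000000000000000000) (nat_lit 0x0) (nat_lit 0x18002e0020001a000fc0038001400000000000000) := Q_1 (nat_lit 93) (C_1 L24098 (C_1 L24297 (C_1 L24094 N_1))) (by decide +kernel)
theorem L24342 : W_1 (nat_lit 2) (nat_lit 0x18001a0007000700000000000000000000000) (nat_lit 0x0) (nat_lit 0x8000600000000000000000000000000000000000) := D_1 (nat_lit 142) (nat_lit 141) (nat_lit 159) (nat_lit 2) (nat_lit 5) (nat_lit 8) (nat_lit 6) (nat_lit 6) (nat_lit 9) (by decide +kernel)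
theorem L24343 : W_1 (nat_lit 3) (nat_lit 0x10001a0007000700000000000000000000000) (nat_lit 0x0) (nat_lit 0x18000e00000000000000000000000000000000000) := T_1 (nat_lit 143) (nat_lit 160) (nat_lit 5) (nat_lit 8) (nat_lit 5) L24342 (by decide +kernel)
theorem L24344 : W_1 (nat_lit 4) (nat_lit 0x10001a0005000700000000000000000000000) (nat_lit 0x0) (nat_lit 0x18000e00000002000800000000000000000000000) := T_1 (nat_lit 109) (nat_lit 95) (nat_lit 1) (nat_lit 10) (nat_lit 5) L24343 (by decide +kernel)
theorem L24345 : W_1 (nat_lit 5) (nat_lit 0x10001a0005000300000000000000000000000) (nat_lit 0x0) (nat_lit 0x18000e00000002000c00020000000000000000000) := T_1 (nat_lit 94) (nat_lit 77) (nat_lit 6) (nat_lit 8) (nat_lit 8) L24344 (by decide +kernel)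
theorem L24346 : W_1 (nat_lit 6) (nat_lit 0x10001a0005000200000000000000000000000) (nat_lit 0x0) (nat_lit 0x18000e00000002000d00028000000000000000000) := T_1 (nat_lit 92) (nat_lit 75) (nat_lit 4) (nat_lit 8) (nat_lit 8) L24345 (by decide +kernel)
theorem L24347 : W_1 (nat_lit 7) (nat_lit 0x10001a0005000000000000000000000000000) (nat_lit 0x0) (nat_lit 0x58002e00200002000f00038000400000000000000) := Q_1 (nat_lit 93) (C_1 L24181 (C_1 L24346 (C_1 L24094 N_1))) (by decide +kernel)
theorem L24348 : W_1 (nat_lit 2) (nat_lit 0x10001a000d000600000000000000000000000) (nat_lit 0x0) (nat_lit 0x200002000800000000000000000000000) := D_1 (nat_lit 109) (nat_lit 95) (nat_lit 129) (nat_lit 2) (nat_lit 6) (nat_lit 6) (nat_lit 3) (nat_lit 6) (nat_lit 6) (by decide +kernel)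
theorem L24349 : W_1 (nat_lit 3) (nat_lit 0x10001a000d000200000000000000000000000) (nat_lit 0x0) (nat_lit 0x200002000c00020000000000000000000) := T_1 (nat_lit 94) (nat_lit 77) (nat_lit 6) (nat_lit 8) (nat_lit 8) L24348 (by decide +kernel)
theorem L24350 : W_1 (nat_lit 2) (nat_lit 0x10001a000d000200010000000000000000000) (nat_lit 0x0) (nat_lit 0x400020001000000000000000) := D_1 (nat_lit 77) (nat_lit 94) (nat_lit 60) (nat_lit 6) (nat_lit 8) (nat_lit 8) (nat_lit 6) (nat_lit 8) (nat_lit 7) (by decide +kernel)
theorem L24351 : W_1 (nat_lit 3) (nat_lit 0x10001a000d000200000000000000000000000) (nat_lit 0x0) (nat_lit 0x400030001800000000000000) := T_1 (nat_lit 76) (nat_lit 59) (nat_lit 7) (nat_lit 8) (nat_lit 3) L24350 (by decide +kernel)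
theorem L24352 : W_1 (nat_lit 2) (nat_lit 0x1c001a000f000280000000800000000000000) (nat_lit 0x0) (nat_lit 0x8000000000010000100000000000000000000000) := D_1 (nat_lit 92) (nat_lit 159) (nat_lit 112) (nat_lit 6) (nat_lit 6) (nat_lit 9) (nat_lit 0) (nat_lit 10) (nat_lit 6) (by decide +kernel)
theorem L24353 : W_1 (nat_lit 3) (nat_lit 0x1c001a000f000200000000800000000000000) (nat_lit 0x0) (nat_lit 0x80000000000100001c0000000000000000000000) := T_1 (nat_lit 91) (nat_lit 90) (nat_lit 0) (nat_lit 9) (nat_lit 6) L24352 (by decide +kernel)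
theorem L24354 : W_1 (nat_lit 4) (nat_lit 0x1c001a000d000200000000800000000000000) (nat_lit 0x0) (nat_lit 0x80000002000120001c0000000000000000000000) := T_1 (nat_lit 109) (nat_lit 129) (nat_lit 3) (nat_lit 6) (nat_lit 6) L24353 (by decide +kernel)
theorem L24355 : W_1 (nat_lit 5) (nat_lit 0x18001a000d000200000000800000000000000) (nat_lit 0x0) (nat_lit 0x80006002000120001c0000000000000000000000) := T_1 (nat_lit 142) (nat_lit 141) (nat_lit 2) (nat_lit 5) (nat_lit 8) L24354 (by decide +kernel)
theorem L24356 : W_1 (nat_lit 6) (nat_lit 0x10001a000d000200000000800000000000000) (nat_lit 0x0) (nat_lit 0x18000e002000120001c0000000000000000000000) := T_1 (nat_lit 143) (nat_lit 160) (nat_lit 5) (nat_lit 8) (nat_lit 5) L24355 (by decide +kernel)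
theorem L24357 : W_1 (nat_lit 7) (nat_lit 0x10001a000d000200000000000000000000000) (nat_lit 0x0) (nat_lit 0x18000e002000120001c0010000800000000000000) := T_1 (nat_lit 59) (nat_lit 76) (nat_lit 7) (nat_lit 8) (nat_lit 3) L24356 (by decide +kernel)
theorem L24358 : W_1 (nat_lit 8) (nat_lit 0x10001a0005000200000000000000000000000) (nat_lit 0x0) (nat_lit 0x18000e0020001a000dc0030001800000000000000) := Q_1 (nat_lit 111) (C_1 L24349 (C_1 L24351 (C_1 L24357 N_1))) (by decide +kernel)
theorem L24359 : W_1 (nat_lit 2) (nat_lit 0x1c001a000f000300000000000000000000000) (nat_lit 0x0) (nat_lit 0x100000c0000000000000000000000) := D_1 (nat_lit 91) (nat_lit 90) (nat_lit 112) (nat_lit 3) (nat_lit 5) (nat_lit 5) (nat_lit 0) (nat_lit 10) (nat_lit 6) (by decide +kernel)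
theorem L24360 : W_1 (nat_lit 3) (nat_lit 0x1c001a0007000300000000000000000000000) (nat_lit 0x0) (nat_lit 0x2000180000c0000000000000000000000) := T_1 (nat_lit 111) (nat_lit 129) (nat_lit 3) (nat_lit 6) (nat_lit 6) L24359 (by decide +kernel)
theorem L24361 : W_1 (nat_lit 4) (nat_lit 0x1c001a0005000300000000000000000000000) (nat_lit 0x0) (nat_lit 0x800000020001a0000c0000000000000000000000) := T_1 (nat_lit 109) (nat_lit 159) (nat_lit 6) (nat_lit 6) (nat_lit 9) L24360 (by decide +kernel)
theorem L24362 : W_1 (nat_lit 5) (nat_lit 0x1c001a0005000200000000000000000000000) (nat_lit 0x0) (nat_lit 0x800000020001a0001c0008000000000000000000) := T_1 (nat_lit 92) (nat_lit 75) (nat_lit 4) (nat_lit 8) (nat_lit 8) L24361 (by decide +kernel)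
theorem L24363 : W_1 (nat_lit 6) (nat_lit 0x18001a0005000200000000000000000000000) (nat_lit 0x0) (nat_lit 0x800060020001a0001c0008000000000000000000) := T_1 (nat_lit 142) (nat_lit 141) (nat_lit 2) (nat_lit 5) (nat_lit 8) L24362 (by decide +kernel)
theorem L24364 : W_1 (nat_lit 7) (nat_lit 0x10001a0005000200000000000000000000000) (nat_lit 0x0) (nat_lit 0x18000e0020001a0001c0008000000000000000000) := T_1 (nat_lit 143) (nat_lit 160) (nat_lit 5) (nat_lit 8) (nat_lit 5) L24363 (by decide +kernel)
theorem L24365 : W_1 (nat_lit 9) (nat_lit 0x10001a0005000000000000000000000000000) (nat_lit 0x0) (nat_lit 0x18000e0020001a000fc0038001c000a0000000000) := Q_1 (nat_lit 93) (C_1 L24358 (C_1 L24188 (C_1 L24297 (C_1 L24346 (C_1 L24077 (C_1 L24178 (C_1 L24364 N_1))))))) (by decide +kernel)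
theorem L24366 : W_1 (nat_lit 2) (nat_lit 0x16001a000d0000c0028000000000000000000) (nat_lit 0x0) (nat_lit 0x14000400000000000000) := D_1 (nat_lit 74) (nat_lit 76) (nat_lit 58) (nat_lit 1) (nat_lit 9) (nat_lit 4) (nat_lit 6) (nat_lit 6) (nat_lit 7) (by decide +kernel)
theorem L24367 : W_1 (nat_lit 3) (nat_lit 0x16001a000d0000c0008000000000000000000) (nat_lit 0x0) (nat_lit 0x400034000400000000000000) := T_1 (nat_lit 77) (nat_lit 94) (nat_lit 5) (nat_lit 9) (nat_lit 4) L24366 (by decide +kernel)
theorem L24368 : W_1 (nat_lit 4) (nat_lit 0x16001a000d0000c0000000000000000000000) (nat_lit 0x0) (nat_lit 0x50003c000400000000000000) := T_1 (nat_lit 75) (nat_lit 92) (nat_lit 6) (nat_lit 6) (nat_lit 8) L24367 (by decide +kernel)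
theorem L24369 : W_1 (nat_lit 5) (nat_lit 0x16001a00050000c0000000000000000000000) (nat_lit 0x0) (nat_lit 0xa00050003c000400000000000000) := T_1 (nat_lit 111) (nat_lit 109) (nat_lit 0) (nat_lit 9) (nat_lit 6) L24368 (by decide +kernel)
theorem L24370 : W_1 (nat_lit 6) (nat_lit 0x16001a0005000080000000000000000000000) (nat_lit 0x0) (nat_lit 0xa00054003e000400000000000000) := T_1 (nat_lit 90) (nat_lit 73) (nat_lit 4) (nat_lit 6) (nat_lit 8) L24369 (by decide +kernel)
theorem L24371 : W_1 (nat_lit 7) (nat_lit 0x16001a0005000000000000000000000000000) (nat_lit 0x0) (nat_lit 0x400000000000a0005c003e000400000000000000) := T_1 (nat_lit 91) (nat_lit 158) (nat_lit 5) (nat_lit 6) (nat_lit 5) L24370 (by decide +kernel)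
theorem L24372 : W_1 (nat_lit 8) (nat_lit 0x14001a0005000000000000000000000000000) (nat_lit 0x0) (nat_lit 0x4000a0000000a0005c003e000400000000000000) := T_1 (nat_lit 141) (nat_lit 143) (nat_lit 2) (nat_lit 5) (nat_lit 8) L24371 (by decide +kernel)
theorem L24373 : W_1 (nat_lit 2) (nat_lit 0x3c001a0005000000000000000000000000000) (nat_lit 0x0) (nat_lit 0x8000c0000000000000000000000000000000000000000) := D_1 (nat_lit 162) (nat_lit 163) (nat_lit 179) (nat_lit 3) (nat_lit 6) (nat_lit 8) (nat_lit 4) (nat_lit 9) (nat_lit 10) (by decide +kernel)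
theorem L24374 : W_1 (nat_lit 3) (nat_lit 0x1c001a0005000000000000000000000000000) (nat_lit 0x0) (nat_lit 0x8000c0002000200000000000000000000000000000000) := T_1 (nat_lit 145) (nat_lit 129) (nat_lit 2) (nat_lit 6) (nat_lit 8) L24373 (by decide +kernel)
theorem L24375 : W_1 (nat_lit 4) (nat_lit 0x14001a0005000000000000000000000000000) (nat_lit 0x0) (nat_lit 0x8000c0002a00200000000000000000000000000000000) := T_1 (nat_lit 143) (nat_lit 141) (nat_lit 2) (nat_lit 5) (nat_lit 8) L24374 (by decide +kernel)
theorem L24376 : W_1 (nat_lit 2) (nat_lit 0xc0014001a0005000080000000000000000000000) (nat_lit 0x0) (nat_lit 0x2000100008000000000000000000) := D_1 (nat_lit 92) (nat_lit 109) (nat_lit 75) (nat_lit 6) (nat_lit 6) (nat_lit 9) (nat_lit 6) (nat_lit 6) (nat_lit 8) (by decide +kernel)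
theorem L24377 : W_1 (nat_lit 3) (nat_lit 0xc0014001a0005000000000000000000000000000) (nat_lit 0x0) (nat_lit 0x200000002000180008000000000000000000) := T_1 (nat_lit 91) (nat_lit 141) (nat_lit 5) (nat_lit 6) (nat_lit 5) L24376 (by decide +kernel)
theorem L24378 : W_1 (nat_lit 4) (nat_lit 0x80014001a0005000000000000000000000000000) (nat_lit 0x0) (nat_lit 0x80004000200000002000180008000000000000000000) := T_1 (nat_lit 158) (nat_lit 175) (nat_lit 5) (nat_lit 6) (nat_lit 6) L24377 (by decide +kernel)
theorem L24379 : W_1 (nat_lit 2) (nat_lit 0x1c0014001a0005000080006000000000000000000) (nat_lit 0x0) (nat_lit 0x100008000400000000000000) := D_1 (nat_lit 75) (nat_lit 92) (nat_lit 58) (nat_lit 6) (nat_lit 6) (nat_lit 8) (nat_lit 6) (nat_lit 6) (nat_lit 7) (by decide +kernel)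
theorem L24380 : W_1 (nat_lit 3) (nat_lit 0x1c0014001a0005000080002000000000000000000) (nat_lit 0x0) (nat_lit 0x10000c000500000000000000) := T_1 (nat_lit 74) (nat_lit 56) (nat_lit 4) (nat_lit 6) (nat_lit 7) L24379 (by decide +kernel)
theorem L24381 : W_1 (nat_lit 4) (nat_lit 0x1c0014001a0005000080000000000000000000000) (nat_lit 0x0) (nat_lit 0x14000e000500000000000000) := T_1 (nat_lit 73) (nat_lit 90) (nat_lit 4) (nat_lit 6) (nat_lit 8) L24380 (by decide +kernel)
theorem L24382 : W_1 (nat_lit 5) (nat_lit 0x1c0014001a0005000000000000000000000000000) (nat_lit 0x0) (nat_lit 0x2000000000001c000e000500000000000000) := T_1 (nat_lit 91) (nat_lit 141) (nat_lit 5) (nat_lit 6) (nat_lit 5) L24381 (by decide +kernel)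
theorem L24383 : W_1 (nat_lit 6) (nat_lit 0x180014001a0005000000000000000000000000000) (nat_lit 0x0) (nat_lit 0x800040002000000000001c000e000500000000000000) := T_1 (nat_lit 158) (nat_lit 175) (nat_lit 5) (nat_lit 6) (nat_lit 6) L24382 (by decide +kernel)
theorem L24384 : W_1 (nat_lit 7) (nat_lit 0x80014001a0005000000000000000000000000000) (nat_lit 0x0) (nat_lit 0x2800140002000000000001c000e000500000000000000) := T_1 (nat_lit 160) (nat_lit 177) (nat_lit 7) (nat_lit 6) (nat_lit 6) L24383 (by decide +kernel)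
theorem L24385 : W_1 (nat_lit 2) (nat_lit 0x80014001a000f000000000000000000000000000) (nat_lit 0x0) (nat_lit 0xc00020000000000000000000) := D_1 (nat_lit 94) (nat_lit 95) (nat_lit 77) (nat_lit 2) (nat_lit 6) (nat_lit 6) (nat_lit 5) (nat_lit 9) (nat_lit 4) (by decide +kernel)
theorem L24386 : W_1 (nat_lit 3) (nat_lit 0x80014001a0007000000000000000000000000000) (nat_lit 0x0) (nat_lit 0x200008000c00020000000000000000000) := T_1 (nat_lit 111) (nat_lit 129) (nat_lit 3) (nat_lit 6) (nat_lit 6) L24385 (by decide +kernel)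
theorem L24387 : W_1 (nat_lit 4) (nat_lit 0x80014001a0005000000000000000000000000000) (nat_lit 0x0) (nat_lit 0x20000a000d00020000000000000000000) := T_1 (nat_lit 109) (nat_lit 92) (nat_lit 6) (nat_lit 6) (nat_lit 9) L24386 (by decide +kernel)
theorem L24388 : W_1 (nat_lit 2) (nat_lit 0x2800080014001a0005000000000000000000000000000) (nat_lit 0x0) (nat_lit 0x5000100000000000000000000000000000000000000000000) := D_1 (nat_lit 176) (nat_lit 194) (nat_lit 192) (nat_lit 7) (nat_lit 6) (nat_lit 7) (nat_lit 5) (nat_lit 6) (nat_lit 7) (by decide +kernel)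
theorem L24389 : W_1 (nat_lit 3) (nat_lit 0x2000080014001a0005000000000000000000000000000) (nat_lit 0x0) (nat_lit 0x5000180004000000000000000000000000000000000000000) := T_1 (nat_lit 175) (nat_lit 158) (nat_lit 5) (nat_lit 6) (nat_lit 6) L24388 (by decide +kernel)
theorem L24390 : W_1 (nat_lit 4) (nat_lit 0x80014001a0005000000000000000000000000000) (nat_lit 0x0) (nat_lit 0x5000380014000000000000000000000000000000000000000) := T_1 (nat_lit 177) (nat_lit 160) (nat_lit 7) (nat_lit 6) (nat_lit 6) L24389 (by decide +kernel)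
theorem L24391 : W_1 (nat_lit 8) (nat_lit 0x14001a0005000000000000000000000000000) (nat_lit 0x0) (nat_lit 0x500038001c00020020000a000dc002e000500000000000000) := Q_1 (nat_lit 159) (C_1 L24378 (C_1 L24384 (C_1 L24387 (C_1 L24390 N_1)))) (by decide +kernel)
theorem L24392 : W_1 (nat_lit 2) (nat_lit 0x1c001a000d0000c0028000000000000000000) (nat_lit 0x0) (nat_lit 0x14000400000000000000) := D_1 (nat_lit 74) (nat_lit 76) (nat_lit 58) (nat_lit 1) (nat_lit 9) (nat_lit 4) (nat_lit 6) (nat_lit 6) (nat_lit 7) (by decide +kernel)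
theorem L24393 : W_1 (nat_lit 3) (nat_lit 0x1c001a000d0000c0008000000000000000000) (nat_lit 0x0) (nat_lit 0x400034000400000000000000) := T_1 (nat_lit 77) (nat_lit 94) (nat_lit 5) (nat_lit 9) (nat_lit 4) L24392 (by decide +kernel)
theorem L24394 : W_1 (nat_lit 4) (nat_lit 0x1c001a000d0000c0000000000000000000000) (nat_lit 0x0) (nat_lit 0x50003c000400000000000000) := T_1 (nat_lit 75) (nat_lit 92) (nat_lit 6) (nat_lit 6) (nat_lit 8) L24393 (by decide +kernel)
theorem L24395 : W_1 (nat_lit 5) (nat_lit 0x14001a000d0000c0000000000000000000000) (nat_lit 0x0) (nat_lit 0x1000080000000000050003c000400000000000000) := T_1 (nat_lit 143) (nat_lit 160) (nat_lit 7) (nat_lit 6) (nat_lit 5) L24394 (by decide +kernel)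
theorem L24396 : W_1 (nat_lit 6) (nat_lit 0x14001a00050000c0000000000000000000000) (nat_lit 0x0) (nat_lit 0x1000080000000a00050003c000400000000000000) := T_1 (nat_lit 111) (nat_lit 109) (nat_lit 0) (nat_lit 9) (nat_lit 6) L24395 (by decide +kernel)
theorem L24397 : W_1 (nat_lit 7) (nat_lit 0x14001a0005000080000000000000000000000) (nat_lit 0x0) (nat_lit 0x1000080000000a00054003e000400000000000000) := T_1 (nat_lit 90) (nat_lit 73) (nat_lit 4) (nat_lit 6) (nat_lit 8) L24396 (by decide +kernel)
theorem L24398 : W_1 (nat_lit 2) (nat_lit 0x3c001a00050001c0000000000000000000000) (nat_lit 0x0) (nat_lit 0x8000c0000000000000000000000000000000000000000) := D_1 (nat_lit 162) (nat_lit 163) (nat_lit 179) (nat_lit 3) (nat_lit 6) (nat_lit 8) (nat_lit 4) (nat_lit 9) (nat_lit 10) (by decide +kernel)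
theorem L24399 : W_1 (nat_lit 3) (nat_lit 0x1c001a00050001c0000000000000000000000) (nat_lit 0x0) (nat_lit 0x8000c0002000200000000000000000000000000000000) := T_1 (nat_lit 145) (nat_lit 129) (nat_lit 2) (nat_lit 6) (nat_lit 8) L24398 (by decide +kernel)
theorem L24400 : W_1 (nat_lit 4) (nat_lit 0x14001a00050001c0000000000000000000000) (nat_lit 0x0) (nat_lit 0x8000d0002800200000000000000000000000000000000) := T_1 (nat_lit 143) (nat_lit 160) (nat_lit 7) (nat_lit 6) (nat_lit 5) L24399 (by decide +kernel)
theorem L24401 : W_1 (nat_lit 5) (nat_lit 0x14001a0005000180000000000000000000000) (nat_lit 0x0) (nat_lit 0x8000d0002800200000000040002000000000000000000) := T_1 (nat_lit 90) (nat_lit 73) (nat_lit 4) (nat_lit 6) (nat_lit 8) L24400 (by decide +kernel)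
theorem L24402 : W_1 (nat_lit 6) (nat_lit 0x14001a0005000080000000000000000000000) (nat_lit 0x0) (nat_lit 0x8000d000280020000000014000a000000000000000000) := T_1 (nat_lit 92) (nat_lit 75) (nat_lit 6) (nat_lit 6) (nat_lit 8) L24401 (by decide +kernel)
theorem L24403 : W_1 (nat_lit 2) (nat_lit 0x14001a00050001c0000000000000000000000) (nat_lit 0x0) (nat_lit 0x8000000000002000020000000000000000000000) := D_1 (nat_lit 109) (nat_lit 89) (nat_lit 159) (nat_lit 3) (nat_lit 4) (nat_lit 5) (nat_lit 6) (nat_lit 6) (nat_lit 9) (by decide +kernel)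
theorem L24404 : W_1 (nat_lit 3) (nat_lit 0x14001a0005000180000000000000000000000) (nat_lit 0x0) (nat_lit 0x8000000000002000060002000000000000000000) := T_1 (nat_lit 90) (nat_lit 73) (nat_lit 4) (nat_lit 6) (nat_lit 8) L24403 (by decide +kernel)
theorem L24405 : W_1 (nat_lit 4) (nat_lit 0x14001a0005000080000000000000000000000) (nat_lit 0x0) (nat_lit 0x800000000000200016000a000000000000000000) := T_1 (nat_lit 92) (nat_lit 75) (nat_lit 6) (nat_lit 6) (nat_lit 8) L24404 (by decide +kernel)
theorem L24406 : W_1 (nat_lit 2) (nat_lit 0x3c001a0005000080000000000000000000000) (nat_lit 0x0) (nat_lit 0x8000c0000000000000000000000000000000000000000) := D_1 (nat_lit 162) (nat_lit 163) (nat_lit 179) (nat_lit 3) (nat_lit 6) (nat_lit 8) (nat_lit 4) (nat_lit 9) (nat_lit 10) (by decide +kernel)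
theorem L24407 : W_1 (nat_lit 3) (nat_lit 0x1c001a0005000080000000000000000000000) (nat_lit 0x0) (nat_lit 0x8000c0002000200000000000000000000000000000000) := T_1 (nat_lit 145) (nat_lit 129) (nat_lit 2) (nat_lit 6) (nat_lit 8) L24406 (by decide +kernel)
theorem L24408 : W_1 (nat_lit 4) (nat_lit 0x14001a0005000080000000000000000000000) (nat_lit 0x0) (nat_lit 0x8000d0002800200000000000000000000000000000000) := T_1 (nat_lit 143) (nat_lit 160) (nat_lit 7) (nat_lit 6) (nat_lit 5) L24407 (by decide +kernel)
theorem L24409 : W_1 (nat_lit 8) (nat_lit 0x14001a0005000000000000000000000000000) (nat_lit 0x0) (nat_lit 0x8000d800280020000a0005e003e000400000000000000) := Q_1 (nat_lit 91) (C_1 L24397 (C_1 L24402 (C_1 L24405 (C_1 L24408 N_1)))) (by decide +kernel)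
theorem L24410 : W_1 (nat_lit 9) (nat_lit 0x10001a0005000000000000000000000000000) (nat_lit 0x0) (nat_lit 0x5000b800dc002e0020000a000de003e000500000000000000) := Q_1 (nat_lit 142) (C_1 L24108 (C_1 L24372 (C_1 L24375 (C_1 L24391 (C_1 L24409 N_1))))) (by decide +kernel)
theorem L24411 : W_1 (nat_lit 8) (nat_lit 0x10001a0005000000000000000000000000000) (nat_lit 0x0) (nat_lit 0x58002e0020001a0003c0018000400000000000000) := Q_1 (nat_lit 93) (C_1 L24181 (C_1 L24364 (C_1 L24094 N_1))) (by decide +kernel)
theorem L24412 : W_1 (nat_lit 5) (nat_lit 0x14001a0005000000000000000000000000000) (nat_lit 0x0) (nat_lit 0x8000d80028002000020001e000a000000000000000000) := Q_1 (nat_lit 91) (C_1 L24405 (C_1 L24408 N_1)) (by decide +kernel)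
theorem L24413 : W_1 (nat_lit 9) (nat_lit 0x10001a0005000000000000000000000000000) (nat_lit 0x0) (nat_lit 0x5000b800dc002e0020000a000fe002e000500000000000000) := Q_1 (nat_lit 142) (C_1 L24375 (C_1 L24391 (C_1 L24412 (C_1 L24116 N_1)))) (by decide +kernel)
theorem L24414 : W_1 (nat_lit 7) (nat_lit 0x10001a0005000000000000000000000000000) (nat_lit 0x0) (nat_lit 0x18002e00000002000f00038001400000000000000) := Q_1 (nat_lit 93) (C_1 L24098 (C_1 L24346 (C_1 L24094 N_1))) (by decide +kernel)
theorem L24415 : W_1 (nat_lit 9) (nat_lit 0x10001a0005000000000000000000000000000) (nat_lit 0x0) (nat_lit 0x58002e0020001a000fc0030001800000000000000) := Q_1 (nat_lit 93) (C_1 L24358 (C_1 L24181 (C_1 L24061 N_1))) (by decide +kernel)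
theorem L24416 : W_1 (nat_lit 10) (nat_lit 0x10001a0001000000000000000000000000000) (nat_lit 0x0) (nat_lit 0x5000b800dc002e0020001e000fe003e001d000a0000000000) := Q_1 (nat_lit 110) (C_1 L24298 (C_1 L24078 (C_1 L24341 (C_1 L24189 (C_1 L24347 (C_1 L24365 (C_1 L24182 (C_1 L24410 (C_1 L24411 (C_1 L24413 (C_1 L24414 (C_1 L24415 N_1)))))))))))) (by decide +kernel)
theorem L24417 : W_1 (nat_lit 2) (nat_lit 0x1c001a000f000600000000800000000000000) (nat_lit 0x0) (nat_lit 0x8000000000000000100008000000000000000000) := D_1 (nat_lit 92) (nat_lit 75) (nat_lit 159) (nat_lit 4) (nat_lit 8) (nat_lit 8) (nat_lit 6) (nat_lit 6) (nat_lit 9) (by decide +kernel)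
theorem L24418 : W_1 (nat_lit 3) (nat_lit 0x18001a000f000600000000800000000000000) (nat_lit 0x0) (nat_lit 0x8000600000000000100008000000000000000000) := T_1 (nat_lit 142) (nat_lit 141) (nat_lit 2) (nat_lit 5) (nat_lit 8) L24417 (by decide +kernel)
theorem L24419 : W_1 (nat_lit 4) (nat_lit 0x10001a000f000600000000800000000000000) (nat_lit 0x0) (nat_lit 0x18000e00000000000100008000000000000000000) := T_1 (nat_lit 143) (nat_lit 160) (nat_lit 5) (nat_lit 8) (nat_lit 5) L24418 (by decide +kernel)
theorem L24420 : W_1 (nat_lit 5) (nat_lit 0x10001a000f000600000000000000000000000) (nat_lit 0x0) (nat_lit 0x18000e00000000000100018000800000000000000) := T_1 (nat_lit 59) (nat_lit 76) (nat_lit 7) (nat_lit 8) (nat_lit 3) L24419 (by decide +kernel)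
theorem L24421 : W_1 (nat_lit 6) (nat_lit 0x10001a000f000200000000000000000000000) (nat_lit 0x0) (nat_lit 0x18000e00000000000d00018000800000000000000) := T_1 (nat_lit 94) (nat_lit 95) (nat_lit 2) (nat_lit 6) (nat_lit 6) L24420 (by decide +kernel)
theorem L24422 : W_1 (nat_lit 7) (nat_lit 0x10001a0007000200000000000000000000000) (nat_lit 0x0) (nat_lit 0x18000e00200008000d00018000800000000000000) := T_1 (nat_lit 111) (nat_lit 129) (nat_lit 3) (nat_lit 6) (nat_lit 6) L24421 (by decide +kernel)
theorem L24423 : W_1 (nat_lit 8) (nat_lit 0x10001a0005000200000000000000000000000) (nat_lit 0x0) (nat_lit 0x18000e0020000a800d00018000800000000000000) := T_1 (nat_lit 109) (nat_lit 107) (nat_lit 3) (nat_lit 5) (nat_lit 6) L24422 (by decide +kernel)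
theorem L24424 : W_1 (nat_lit 9) (nat_lit 0x10001a0005000000000000000000000000000) (nat_lit 0x0) (nat_lit 0x58002e0020000a800f00018000c00000000000000) := Q_1 (nat_lit 93) (C_1 L24181 (C_1 L24423 (C_1 L24094 N_1))) (by decide +kernel)
theorem L24425 : W_1 (nat_lit 10) (nat_lit 0x10001a0001000000000000000000000000000) (nat_lit 0x0) (nat_lit 0x58002e0020000e800f80038001c000a0000000000) := Q_1 (nat_lit 110) (C_1 L24066 (C_1 L24414 (C_1 L24189 (C_1 L24056 (C_1 L24182 (C_1 L24424 N_1)))))) (by decide +kernel)
theorem L24426 : W_1 (nat_lit 2) (nat_lit 0x80014001a0001800000000000000000000000000) (nat_lit 0x0) (nat_lit 0x6000100000000000000000000000) := D_1 (nat_lit 109) (nat_lit 110) (nat_lit 92) (nat_lit 3) (nat_lit 5) (nat_lit 6) (nat_lit 6) (nat_lit 6) (nat_lit 9) (by decide +kernel)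
theorem L24427 : W_1 (nat_lit 3) (nat_lit 0x80014001a0001000000000000000000000000000) (nat_lit 0x0) (nat_lit 0x6800140000000000000000000000) := T_1 (nat_lit 107) (nat_lit 90) (nat_lit 4) (nat_lit 6) (nat_lit 9) L24426 (by decide +kernel)
theorem L24428 : W_1 (nat_lit 5) (nat_lit 0x14001a0001000000000000000000000000000) (nat_lit 0x0) (nat_lit 0x500038001c0002000000068001c0002000000000000000000) := Q_1 (nat_lit 159) (C_1 L24043 (C_1 L24037 (C_1 L24427 N_1))) (by decide +kernel)
theorem L24429 : W_1 (nat_lit 2) (nat_lit 0x40003c001a00010000c0000000000000000000000) (nat_lit 0x0) (nat_lit 0x10000800000000000000004000000000000000000000000000) := D_1 (nat_lit 179) (nat_lit 110) (nat_lit 196) (nat_lit 4) (nat_lit 9) (nat_lit 10) (nat_lit 4) (nat_lit 9) (nat_lit 11) (by decide +kernel)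
theorem L24430 : W_1 (nat_lit 3) (nat_lit 0x3c001a00010000c0000000000000000000000) (nat_lit 0x0) (nat_lit 0x100008000c0000000000004000000000000000000000000000) := T_1 (nat_lit 162) (nat_lit 163) (nat_lit 3) (nat_lit 6) (nat_lit 8) L24429 (by decide +kernel)
theorem L24431 : W_1 (nat_lit 4) (nat_lit 0x3c001a0001000080000000000000000000000) (nat_lit 0x0) (nat_lit 0x100008000c0000000000004000040002000000000000000000) := T_1 (nat_lit 90) (nat_lit 73) (nat_lit 4) (nat_lit 6) (nat_lit 8) L24430 (by decide +kernel)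
theorem L24432 : W_1 (nat_lit 5) (nat_lit 0x3c001a0001000000000000000000000000000) (nat_lit 0x0) (nat_lit 0x100008000d00000000000040000c0002000000000000000000) := T_1 (nat_lit 91) (nat_lit 160) (nat_lit 7) (nat_lit 6) (nat_lit 5) L24431 (by decide +kernel)
theorem L24433 : W_1 (nat_lit 6) (nat_lit 0x1c001a0001000000000000000000000000000) (nat_lit 0x0) (nat_lit 0x100008000d00020002000040000c0002000000000000000000) := T_1 (nat_lit 145) (nat_lit 129) (nat_lit 2) (nat_lit 6) (nat_lit 8) L24432 (by decide +kernel)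
theorem L24434 : W_1 (nat_lit 7) (nat_lit 0x14001a0001000000000000000000000000000) (nat_lit 0x0) (nat_lit 0x100008000d0002a002000040000c0002000000000000000000) := T_1 (nat_lit 143) (nat_lit 141) (nat_lit 2) (nat_lit 5) (nat_lit 8) L24433 (by decide +kernel)
theorem L24435 : W_1 (nat_lit 5) (nat_lit 0x14001a0001000000000000000000000000000) (nat_lit 0x0) (nat_lit 0x500038001c000000000006800140000000000000000000000) := Q_1 (nat_lit 159) (C_1 L24427 (C_1 L24043 N_1)) (by decide +kernel)
theorem L24436 : W_1 (nat_lit 8) (nat_lit 0x10001a0001000000000000000000000000000) (nat_lit 0x0) (nat_lit 0x15000b800dc002e002000068001c0002000000000000000000) := Q_1 (nat_lit 142) (C_1 L24428 (C_1 L24434 (C_1 L24047 (C_1 L24308 (C_1 L24435 N_1))))) (by decide +kernel)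
theorem L24437 : W_1 (nat_lit 11) (nat_lit 0x10001a0000000000000000000000000000000) (nat_lit 0x0) (nat_lit 0x15000f800dc006e0020001fc00fe007f001d000a0000000000) := Q_1 (nat_lit 108) (C_1 L24053 (C_1 L24079 (C_1 L24291 (C_1 L24299 (C_1 L24309 (C_1 L24332 (C_1 L24340 (C_1 L24416 (C_1 L24425 (C_1 L24436 N_1)))))))))) (by decide +kernel)
theorem L24438 : W_1 (nat_lit 2) (nat_lit 0x14001a0000000000000000000000000000000) (nat_lit 0x0) (nat_lit 0xa00040000000000000000000000000000000) := D_1 (nat_lit 141) (nat_lit 126) (nat_lit 143) (nat_lit 1) (nat_lit 9) (nat_lit 7) (nat_lit 2) (nat_lit 5) (nat_lit 8) (by decide +kernel)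
theorem L24439 : W_1 (nat_lit 5) (nat_lit 0x14001a0000000000000000000000000000000) (nat_lit 0x0) (nat_lit 0x100008000c0002a00200004000000000000000000000000000) := T_1 (nat_lit 143) (nat_lit 141) (nat_lit 2) (nat_lit 5) (nat_lit 8) L23083 (by decide +kernel)
theorem L24440 : W_1 (nat_lit 2) (nat_lit 0x400034001e0010000000000000000000000000000) (nat_lit 0x0) (nat_lit 0x10000800000000000200000000000000000000000000000000) := D_1 (nat_lit 179) (nat_lit 196) (nat_lit 129) (nat_lit 4) (nat_lit 9) (nat_lit 11) (nat_lit 6) (nat_lit 9) (nat_lit 10) (by decide +kernel)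
theorem L24441 : W_1 (nat_lit 3) (nat_lit 0x400034001e0000000000000000000000000000000) (nat_lit 0x0) (nat_lit 0x10000800000000000200018000000000000000000000000000) := T_1 (nat_lit 112) (nat_lit 111) (nat_lit 2) (nat_lit 6) (nat_lit 7) L24440 (by decide +kernel)
theorem L24442 : W_1 (nat_lit 2) (nat_lit 0x400034001e0000000000000000000000000000000) (nat_lit 0x0) (nat_lit 0x10000800000000000000004000000000000000000000000000) := D_1 (nat_lit 179) (nat_lit 196) (nat_lit 110) (nat_lit 4) (nat_lit 9) (nat_lit 11) (nat_lit 4) (nat_lit 9) (nat_lit 10) (by decide +kernel)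
theorem L24443 : W_1 (nat_lit 5) (nat_lit 0x34001e0000000000000000000000000000000) (nat_lit 0x0) (nat_lit 0x1000080004000000020001c000600030000000000000000000) := Q_1 (nat_lit 162) (C_1 L24441 (C_1 L24442 (C_1 L22454 N_1))) (by decide +kernel)
theorem L24444 : W_1 (nat_lit 6) (nat_lit 0x14001e0000000000000000000000000000000) (nat_lit 0x0) (nat_lit 0x1000080004000600020001c000600030000000000000000000) := T_1 (nat_lit 145) (nat_lit 146) (nat_lit 3) (nat_lit 6) (nat_lit 7) L24443 (by decide +kernel)
theorem L24445 : W_1 (nat_lit 7) (nat_lit 0x14001a0000000000000000000000000000000) (nat_lit 0x0) (nat_lit 0x1000080004000620024001c000600030000000000000000000) := T_1 (nat_lit 126) (nat_lit 141) (nat_lit 1) (nat_lit 9) (nat_lit 7) L24444 (by decide +kernel)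
theorem L24446 : W_1 (nat_lit 2) (nat_lit 0x400034001a0000000000000000000000000000000) (nat_lit 0x0) (nat_lit 0x10000800000000000000004000000000000000000000000000) := D_1 (nat_lit 179) (nat_lit 110) (nat_lit 196) (nat_lit 4) (nat_lit 9) (nat_lit 10) (nat_lit 4) (nat_lit 9) (nat_lit 11) (by decide +kernel)
theorem L24447 : W_1 (nat_lit 5) (nat_lit 0x400034001a0000000000000000000000000000000) (nat_lit 0x0) (nat_lit 0x400004001c000600030000000000000000000) := T_1 (nat_lit 126) (nat_lit 146) (nat_lit 3) (nat_lit 6) (nat_lit 7) L22454 (by decide +kernel)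
theorem L24448 : W_1 (nat_lit 2) (nat_lit 0x8000400034001e0000000000000000000000000000000) (nat_lit 0x0) (nat_lit 0x200018000000000000000000000000000) := D_1 (nat_lit 112) (nat_lit 111) (nat_lit 129) (nat_lit 2) (nat_lit 6) (nat_lit 7) (nat_lit 6) (nat_lit 9) (nat_lit 10) (by decide +kernel)
theorem L24449 : W_1 (nat_lit 3) (nat_lit 0x8000400034001a0000000000000000000000000000000) (nat_lit 0x0) (nat_lit 0x4000240018000000000000000000000000000) := T_1 (nat_lit 126) (nat_lit 146) (nat_lit 3) (nat_lit 6) (nat_lit 7) L24448 (by decide +kernel)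
theorem L24450 : W_1 (nat_lit 4) (nat_lit 0x400034001a0000000000000000000000000000000) (nat_lit 0x0) (nat_lit 0x10000800000004000240018000000000000000000000000000) := T_1 (nat_lit 179) (nat_lit 196) (nat_lit 4) (nat_lit 9) (nat_lit 11) L24449 (by decide +kernel)
theorem L24451 : W_1 (nat_lit 6) (nat_lit 0x34001a0000000000000000000000000000000) (nat_lit 0x0) (nat_lit 0x1000080004000400024001c000600030000000000000000000) := Q_1 (nat_lit 162) (C_1 L24446 (C_1 L24447 (C_1 L24450 N_1))) (by decide +kernel)
theorem L24452 : W_1 (nat_lit 5) (nat_lit 0x34001a0000000000000000000000000000000) (nat_lit 0x0) (nat_lit 0x10000c004800240002000100000000000000000000000) := T_1 (nat_lit 126) (nat_lit 146) (nat_lit 3) (nat_lit 6) (nat_lit 7) L22461 (by decide +kernel)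
theorem L24453 : W_1 (nat_lit 4) (nat_lit 0x34001a0000000000000000000000000000000) (nat_lit 0x0) (nat_lit 0x100008000c0000800200004000000000000000000000000000) := T_1 (nat_lit 143) (nat_lit 129) (nat_lit 2) (nat_lit 6) (nat_lit 8) L23082 (by decide +kernel)
theorem L24454 : W_1 (nat_lit 2) (nat_lit 0x48003c001e0008000600000000000000000000000) (nat_lit 0x0) (nat_lit 0x100000000000000002000100000000000000000000000) := D_1 (nat_lit 109) (nat_lit 92) (nat_lit 176) (nat_lit 5) (nat_lit 7) (nat_lit 5) (nat_lit 6) (nat_lit 6) (nat_lit 10) (by decide +kernel)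
theorem L24455 : W_1 (nat_lit 3) (nat_lit 0x40003c001e0008000600000000000000000000000) (nat_lit 0x0) (nat_lit 0x10000c000000000002000100000000000000000000000) := T_1 (nat_lit 159) (nat_lit 158) (nat_lit 1) (nat_lit 9) (nat_lit 8) L24454 (by decide +kernel)
theorem L24456 : W_1 (nat_lit 4) (nat_lit 0x400034001e0008000600000000000000000000000) (nat_lit 0x0) (nat_lit 0x10008c000800000002000100000000000000000000000) := T_1 (nat_lit 143) (nat_lit 163) (nat_lit 3) (nat_lit 6) (nat_lit 8) L24455 (by decide +kernel)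
theorem L24457 : W_1 (nat_lit 5) (nat_lit 0x34001e0008000600000000000000000000000) (nat_lit 0x0) (nat_lit 0x1000cc000800000006000100000000000000000000000) := T_1 (nat_lit 162) (nat_lit 110) (nat_lit 7) (nat_lit 8) (nat_lit 5) L24456 (by decide +kernel)
theorem L24458 : W_1 (nat_lit 6) (nat_lit 0x34001e0008000400000000000000000000000) (nat_lit 0x0) (nat_lit 0x1000cc000800000006000300010000000000000000000) := T_1 (nat_lit 93) (nat_lit 76) (nat_lit 4) (nat_lit 9) (nat_lit 8) L24457 (by decide +kernel)
theorem L24459 : W_1 (nat_lit 7) (nat_lit 0x34001e0008000000000000000000000000000) (nat_lit 0x0) (nat_lit 0x1000cc000800000006000700030000000000000000000) := T_1 (nat_lit 94) (nat_lit 77) (nat_lit 5) (nat_lit 9) (nat_lit 4) L24458 (by decide +kernel)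
theorem L24460 : W_1 (nat_lit 8) (nat_lit 0x34001e0000000000000000000000000000000) (nat_lit 0x0) (nat_lit 0x1000cc00080000001e000700030000000000000000000) := T_1 (nat_lit 111) (nat_lit 112) (nat_lit 2) (nat_lit 6) (nat_lit 7) L24459 (by decide +kernel)
theorem L24461 : W_1 (nat_lit 9) (nat_lit 0x34001a0000000000000000000000000000000) (nat_lit 0x0) (nat_lit 0x1000cc00480004001e000700030000000000000000000) := T_1 (nat_lit 126) (nat_lit 146) (nat_lit 3) (nat_lit 6) (nat_lit 7) L24460 (by decide +kernel)
theorem L24462 : W_1 (nat_lit 10) (nat_lit 0x14001a0000000000000000000000000000000) (nat_lit 0x0) (nat_lit 0x100009000cc00680024001e000700030000000000000000000) := Q_1 (nat_lit 145) (C_1 L24451 (C_1 L24452 (C_1 L24453 (C_1 L24461 N_1)))) (by decide +kernel)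
theorem L24463 : W_1 (nat_lit 11) (nat_lit 0x10001a0000000000000000000000000000000) (nat_lit 0x0) (nat_lit 0x100009000cc006e0024001e000700030000000000000000000) := Q_1 (nat_lit 142) (C_1 L24438 (C_1 L24439 (C_1 L24445 (C_1 L24462 N_1)))) (by decide +kernel)
theorem L24464 : W_1 (nat_lit 11) (nat_lit 0x10001a0000000000000000000000000000000) (nat_lit 0x0) (nat_lit 0x1000080004800660024001f800f8007c000000000000000000) := Q_1 (nat_lit 126) (C_1 L22539 (C_1 L22516 (C_1 L23453 (C_1 L22526 (C_1 L22535 N_1))))) (by decide +kernel)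
theorem L24465 : W_1 (nat_lit 6) (nat_lit 0x10001e0000000000000000000000000000000) (nat_lit 0x0) (nat_lit 0x10000c006e00200002000100000000000000000000000) := T_1 (nat_lit 145) (nat_lit 146) (nat_lit 3) (nat_lit 6) (nat_lit 7) L22462 (by decide +kernel)
theorem L24466 : W_1 (nat_lit 2) (nat_lit 0x100058001e0001000000000000000000000000000) (nat_lit 0x0) (nat_lit 0x2000080004000000000000000000) := D_1 (nat_lit 91) (nat_lit 74) (nat_lit 109) (nat_lit 7) (nat_lit 6) (nat_lit 4) (nat_lit 4) (nat_lit 7) (nat_lit 9) (by decide +kernel)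
theorem L24467 : W_1 (nat_lit 3) (nat_lit 0x58001e0001000000000000000000000000000) (nat_lit 0x0) (nat_lit 0x200010000000000002000080004000000000000000000) := T_1 (nat_lit 160) (nat_lit 177) (nat_lit 4) (nat_lit 7) (nat_lit 10) L24466 (by decide +kernel)
theorem L24468 : W_1 (nat_lit 4) (nat_lit 0x58001e0000000000000000000000000000000) (nat_lit 0x0) (nat_lit 0x200010000000000003800080004000000000000000000) := T_1 (nat_lit 108) (nat_lit 107) (nat_lit 0) (nat_lit 9) (nat_lit 7) L24467 (by decide +kernel)
theorem L24469 : W_1 (nat_lit 5) (nat_lit 0x18001e0000000000000000000000000000000) (nat_lit 0x0) (nat_lit 0x200010006000000003800080004000000000000000000) := T_1 (nat_lit 146) (nat_lit 145) (nat_lit 3) (nat_lit 6) (nat_lit 7) L24468 (by decide +kernel)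
theorem L24470 : W_1 (nat_lit 2) (nat_lit 0x1a001e0003000780000000000000000000000) (nat_lit 0x0) (nat_lit 0x4000000060000000000000000000) := D_1 (nat_lit 77) (nat_lit 78) (nat_lit 110) (nat_lit 2) (nat_lit 6) (nat_lit 5) (nat_lit 6) (nat_lit 8) (nat_lit 8) (by decide +kernel)
theorem L24471 : W_1 (nat_lit 3) (nat_lit 0x1a001e0003000380000000000000000000000) (nat_lit 0x0) (nat_lit 0x4000c00060000000000000000000) := T_1 (nat_lit 94) (nat_lit 95) (nat_lit 1) (nat_lit 10) (nat_lit 5) L24470 (by decide +kernel)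
theorem L24472 : W_1 (nat_lit 4) (nat_lit 0x1a001e0003000180000000000000000000000) (nat_lit 0x0) (nat_lit 0x4000e00070000000000000000000) := T_1 (nat_lit 93) (nat_lit 76) (nat_lit 6) (nat_lit 7) (nat_lit 8) L24471 (by decide +kernel)
theorem L24473 : W_1 (nat_lit 5) (nat_lit 0x1a001e0003000080000000000000000000000) (nat_lit 0x0) (nat_lit 0x4000f00078000000000000000000) := T_1 (nat_lit 92) (nat_lit 75) (nat_lit 7) (nat_lit 7) (nat_lit 4) L24472 (by decide +kernel)
theorem L24474 : W_1 (nat_lit 6) (nat_lit 0x1a001e0001000080000000000000000000000) (nat_lit 0x0) (nat_lit 0x10000000000006000f00078000000000000000000) := T_1 (nat_lit 109) (nat_lit 160) (nat_lit 4) (nat_lit 7) (nat_lit 9) L24473 (by decide +kernel)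
theorem L24475 : W_1 (nat_lit 7) (nat_lit 0x1a001e0001000000000000000000000000000) (nat_lit 0x0) (nat_lit 0x10000000000006000f8007c000000000000000000) := T_1 (nat_lit 91) (nat_lit 74) (nat_lit 7) (nat_lit 6) (nat_lit 4) L24474 (by decide +kernel)
theorem L24476 : W_1 (nat_lit 8) (nat_lit 0x18001e0001000000000000000000000000000) (nat_lit 0x0) (nat_lit 0x10000600000006000f8007c000000000000000000) := T_1 (nat_lit 141) (nat_lit 142) (nat_lit 2) (nat_lit 5) (nat_lit 8) L24475 (by decide +kernel)
theorem L24477 : W_1 (nat_lit 9) (nat_lit 0x18001e0000000000000000000000000000000) (nat_lit 0x0) (nat_lit 0x10000600000007800f8007c000000000000000000) := T_1 (nat_lit 108) (nat_lit 107) (nat_lit 0) (nat_lit 9) (nat_lit 7) L24476 (by decide +kernel)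
theorem L24478 : W_1 (nat_lit 2) (nat_lit 0x3c001e0001000000000000000000000000000) (nat_lit 0x0) (nat_lit 0x200010000000000000000080000000000000000000000) := D_1 (nat_lit 160) (nat_lit 177) (nat_lit 91) (nat_lit 4) (nat_lit 7) (nat_lit 10) (nat_lit 7) (nat_lit 6) (nat_lit 5) (by decide +kernel)
theorem L24479 : W_1 (nat_lit 3) (nat_lit 0x3c001e0000000000000000000000000000000) (nat_lit 0x0) (nat_lit 0x200010000000000001800080000000000000000000000) := T_1 (nat_lit 108) (nat_lit 107) (nat_lit 0) (nat_lit 9) (nat_lit 7) L24478 (by decide +kernel)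
theorem L24480 : W_1 (nat_lit 4) (nat_lit 0x38001e0000000000000000000000000000000) (nat_lit 0x0) (nat_lit 0x200010000600000001800080000000000000000000000) := T_1 (nat_lit 142) (nat_lit 141) (nat_lit 2) (nat_lit 5) (nat_lit 8) L24479 (by decide +kernel)
theorem L24481 : W_1 (nat_lit 5) (nat_lit 0x18001e0000000000000000000000000000000) (nat_lit 0x0) (nat_lit 0x200010006600000001800080000000000000000000000) := T_1 (nat_lit 145) (nat_lit 146) (nat_lit 3) (nat_lit 6) (nat_lit 7) L24480 (by decide +kernel)
theorem L24482 : W_1 (nat_lit 4) (nat_lit 0x1c001e0000000000000000000000000000000) (nat_lit 0x0) (nat_lit 0x10000c006000000002000100000000000000000000000) := T_1 (nat_lit 145) (nat_lit 146) (nat_lit 3) (nat_lit 6) (nat_lit 7) L22460 (by decide +kernel)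
theorem L24483 : W_1 (nat_lit 5) (nat_lit 0x18001e0000000000000000000000000000000) (nat_lit 0x0) (nat_lit 0x10000c006600000002000100000000000000000000000) := T_1 (nat_lit 142) (nat_lit 141) (nat_lit 2) (nat_lit 5) (nat_lit 8) L24482 (by decide +kernel)
theorem L24484 : W_1 (nat_lit 10) (nat_lit 0x10001e0000000000000000000000000000000) (nat_lit 0x0) (nat_lit 0x30001c006e00000007800f8007c000000000000000000) := Q_1 (nat_lit 143) (C_1 L24469 (C_1 L24477 (C_1 L24481 (C_1 L24483 N_1)))) (by decide +kernel)
theorem L24485 : W_1 (nat_lit 11) (nat_lit 0x10001a0000000000000000000000000000000) (nat_lit 0x0) (nat_lit 0x30005c006e00240007800f8007c000000000000000000) := Q_1 (nat_lit 126) (C_1 L23010 (C_1 L23807 (C_1 L23453 (C_1 L24465 (C_1 L24484 N_1))))) (by decide +kernel)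
theorem L24486 : W_1 (nat_lit 7) (nat_lit 0x14001a0000000000000000000000000000000) (nat_lit 0x0) (nat_lit 0x500038001c000a000000078001c000e000500000000000000) := Q_1 (nat_lit 108) (C_1 L24435 (C_1 L24023 (C_1 L24304 (C_1 L24047 N_1)))) (by decide +kernel)
theorem L24487 : W_1 (nat_lit 6) (nat_lit 0x14001a0000000000000000000000000000000) (nat_lit 0x0) (nat_lit 0x800020024001b800100008000000000000000000) := T_1 (nat_lit 126) (nat_lit 141) (nat_lit 1) (nat_lit 9) (nat_lit 7) L22515 (by decide +kernel)
theorem L24488 : W_1 (nat_lit 4) (nat_lit 0x14001a0001000000000000000000000000000) (nat_lit 0x0) (nat_lit 0x10000800240000800080004000000000000000000) := T_1 (nat_lit 126) (nat_lit 107) (nat_lit 0) (nat_lit 9) (nat_lit 7) L23008 (by decide +kernel)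
theorem L24489 : W_1 (nat_lit 3) (nat_lit 0x14001a0001000000000000000000000000000) (nat_lit 0x0) (nat_lit 0x800240002800000000000000000000000000) := T_1 (nat_lit 126) (nat_lit 107) (nat_lit 0) (nat_lit 9) (nat_lit 7) L22517 (by decide +kernel)
theorem L24490 : W_1 (nat_lit 2) (nat_lit 0x14001e0003000000000000000000000000000) (nat_lit 0x0) (nat_lit 0x8000000000000000100008000000000000000000) := D_1 (nat_lit 92) (nat_lit 75) (nat_lit 159) (nat_lit 7) (nat_lit 7) (nat_lit 4) (nat_lit 6) (nat_lit 6) (nat_lit 9) (by decide +kernel)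
theorem L24491 : W_1 (nat_lit 2) (nat_lit 0x14001e000f000480000000000000000000000) (nat_lit 0x0) (nat_lit 0x10000800000000000000004000000000000000000) := D_1 (nat_lit 143) (nat_lit 160) (nat_lit 74) (nat_lit 7) (nat_lit 6) (nat_lit 5) (nat_lit 7) (nat_lit 6) (nat_lit 4) (by decide +kernel)
theorem L24492 : W_1 (nat_lit 3) (nat_lit 0x14001e000f000400000000000000000000000) (nat_lit 0x0) (nat_lit 0x100008000000000000c0004000000000000000000) := T_1 (nat_lit 91) (nat_lit 90) (nat_lit 0) (nat_lit 9) (nat_lit 6) L24491 (by decide +kernel)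
theorem L24493 : W_1 (nat_lit 4) (nat_lit 0x14001e000b000400000000000000000000000) (nat_lit 0x0) (nat_lit 0x100008000000040008c0004000000000000000000) := T_1 (nat_lit 110) (nat_lit 95) (nat_lit 2) (nat_lit 6) (nat_lit 6) L24492 (by decide +kernel)
theorem L24494 : W_1 (nat_lit 5) (nat_lit 0x14001e000b000000000000000000000000000) (nat_lit 0x0) (nat_lit 0x10000800000004000cc0024000000000000000000) := T_1 (nat_lit 94) (nat_lit 77) (nat_lit 5) (nat_lit 9) (nat_lit 4) L24493 (by decide +kernel)
theorem L24495 : W_1 (nat_lit 6) (nat_lit 0x14001e0003000000000000000000000000000) (nat_lit 0x0) (nat_lit 0x1000080000001c000cc0024000000000000000000) := T_1 (nat_lit 111) (nat_lit 112) (nat_lit 2) (nat_lit 6) (nat_lit 7) L24494 (by decide +kernel)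
theorem L24496 : W_1 (nat_lit 7) (nat_lit 0x14001e0001000000000000000000000000000) (nat_lit 0x0) (nat_lit 0x1800080000001e000dc002c000000000000000000) := Q_1 (nat_lit 109) (C_1 L24490 (C_1 L24495 N_1)) (by decide +kernel)
theorem L24497 : W_1 (nat_lit 8) (nat_lit 0x14001a0001000000000000000000000000000) (nat_lit 0x0) (nat_lit 0x1800080024001e000dc002c000000000000000000) := Q_1 (nat_lit 126) (C_1 L23008 (C_1 L22517 (C_1 L22514 (C_1 L24496 N_1)))) (by decide +kernel)
theorem L24498 : W_1 (nat_lit 9) (nat_lit 0x14001a0000000000000000000000000000000) (nat_lit 0x0) (nat_lit 0x500038001c00080024001f800dc002c000000000000000000) := Q_1 (nat_lit 108) (C_1 L24435 (C_1 L24488 (C_1 L24489 (C_1 L24497 N_1)))) (by decide +kernel)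
theorem L24499 : W_1 (nat_lit 10) (nat_lit 0x10001a0000000000000000000000000000000) (nat_lit 0x0) (nat_lit 0x500038001c000e0024001f800dc002e000500000000000000) := Q_1 (nat_lit 142) (C_1 L24438 (C_1 L24486 (C_1 L24487 (C_1 L24498 N_1)))) (by decide +kernel)
theorem L24500 : W_1 (nat_lit 11) (nat_lit 0x10001a0000000000000000000000000000000) (nat_lit 0x0) (nat_lit 0xa0005000680024001f800fc007e000000000000000000) := Q_1 (nat_lit 126) (C_1 L23662 (C_1 L23814 (C_1 L23996 (C_1 L23019 (C_1 L22526 (C_1 L23807 N_1)))))) (by decide +kernel)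
theorem L24501 : W_1 (nat_lit 6) (nat_lit 0x10001e0000000000000000000000000000000) (nat_lit 0x0) (nat_lit 0x30001c006e00000003800180004000000000000000000) := Q_1 (nat_lit 143) (C_1 L24469 (C_1 L24483 (C_1 L24481 (C_1 L23509 N_1)))) (by decide +kernel)
theorem L24502 : W_1 (nat_lit 10) (nat_lit 0x10001a0000000000000000000000000000000) (nat_lit 0x0) (nat_lit 0xb0005c006e0024001f8003c001c000000000000000000) := Q_1 (nat_lit 126) (C_1 L24465 (C_1 L23010 (C_1 L23453 (C_1 L23996 (C_1 L24501 N_1))))) (by decide +kernel)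
theorem L24503 : W_1 (nat_lit 11) (nat_lit 0x10001a0000000000000000000000000000000) (nat_lit 0x0) (nat_lit 0x1000098005c006e0024001f800ec0074000000000000000000) := Q_1 (nat_lit 126) (C_1 L22539 (C_1 L23814 (C_1 L24007 (C_1 L23010 N_1)))) (by decide +kernel)
theorem L24504 : W_1 (nat_lit 2) (nat_lit 0x14001e000f000480008000000000000000000) (nat_lit 0x0) (nat_lit 0x4000600000000000000) := D_1 (nat_lit 74) (nat_lit 57) (nat_lit 58) (nat_lit 7) (nat_lit 6) (nat_lit 3) (nat_lit 6) (nat_lit 6) (nat_lit 7) (by decide +kernel)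
theorem L24505 : W_1 (nat_lit 3) (nat_lit 0x14001e000f000400008000000000000000000) (nat_lit 0x0) (nat_lit 0xc0004000600000000000000) := T_1 (nat_lit 91) (nat_lit 90) (nat_lit 0) (nat_lit 9) (nat_lit 6) L24504 (by decide +kernel)
theorem L24506 : W_1 (nat_lit 4) (nat_lit 0x14001e000b000400008000000000000000000) (nat_lit 0x0) (nat_lit 0x40008c0004000600000000000000) := T_1 (nat_lit 110) (nat_lit 95) (nat_lit 2) (nat_lit 6) (nat_lit 6) L24505 (by decide +kernel)
theorem L24507 : W_1 (nat_lit 5) (nat_lit 0x10001e000b000400008000000000000000000) (nat_lit 0x0) (nat_lit 0x6000000040008c0004000600000000000000) := T_1 (nat_lit 142) (nat_lit 141) (nat_lit 1) (nat_lit 9) (nat_lit 7) L24506 (by decide +kernel)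
theorem L24508 : W_1 (nat_lit 6) (nat_lit 0x10001e000b000000008000000000000000000) (nat_lit 0x0) (nat_lit 0x600000004000cc0024000600000000000000) := T_1 (nat_lit 94) (nat_lit 77) (nat_lit 5) (nat_lit 9) (nat_lit 4) L24507 (by decide +kernel)
theorem L24509 : W_1 (nat_lit 7) (nat_lit 0x10001e0003000000008000000000000000000) (nat_lit 0x0) (nat_lit 0x60000001c000cc0024000600000000000000) := T_1 (nat_lit 111) (nat_lit 112) (nat_lit 2) (nat_lit 6) (nat_lit 7) L24508 (by decide +kernel)
theorem L24510 : W_1 (nat_lit 8) (nat_lit 0x10001e0003000000000000000000000000000) (nat_lit 0x0) (nat_lit 0x60000001c000dc002c000600000000000000) := T_1 (nat_lit 75) (nat_lit 92) (nat_lit 7) (nat_lit 7) (nat_lit 4) L24509 (by decide +kernel)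
theorem L24511 : W_1 (nat_lit 9) (nat_lit 0x10001e0002000000000000000000000000000) (nat_lit 0x0) (nat_lit 0x60000001d800dc002c000600000000000000) := T_1 (nat_lit 108) (nat_lit 107) (nat_lit 0) (nat_lit 9) (nat_lit 7) L24510 (by decide +kernel)
theorem L24512 : W_1 (nat_lit 2) (nat_lit 0x10001e000f000480008000000000000000000) (nat_lit 0x0) (nat_lit 0x10000800000000000000004000000000000000000) := D_1 (nat_lit 143) (nat_lit 160) (nat_lit 74) (nat_lit 4) (nat_lit 7) (nat_lit 9) (nat_lit 7) (nat_lit 6) (nat_lit 4) (by decide +kernel)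
theorem L24513 : W_1 (nat_lit 3) (nat_lit 0x10001e000f000400008000000000000000000) (nat_lit 0x0) (nat_lit 0x100008000000000000c0004000000000000000000) := T_1 (nat_lit 91) (nat_lit 90) (nat_lit 0) (nat_lit 9) (nat_lit 6) L24512 (by decide +kernel)
theorem L24514 : W_1 (nat_lit 4) (nat_lit 0x10001e000b000400008000000000000000000) (nat_lit 0x0) (nat_lit 0x100008000000040008c0004000000000000000000) := T_1 (nat_lit 110) (nat_lit 95) (nat_lit 2) (nat_lit 6) (nat_lit 6) L24513 (by decide +kernel)
theorem L24515 : W_1 (nat_lit 5) (nat_lit 0x10001e000b000000008000000000000000000) (nat_lit 0x0) (nat_lit 0x10000800000004000cc0024000000000000000000) := T_1 (nat_lit 94) (nat_lit 77) (nat_lit 5) (nat_lit 9) (nat_lit 4) L24514 (by decide +kernel)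
theorem L24516 : W_1 (nat_lit 6) (nat_lit 0x10001e0003000000008000000000000000000) (nat_lit 0x0) (nat_lit 0x1000080000001c000cc0024000000000000000000) := T_1 (nat_lit 111) (nat_lit 112) (nat_lit 2) (nat_lit 6) (nat_lit 7) L24515 (by decide +kernel)
theorem L24517 : W_1 (nat_lit 7) (nat_lit 0x10001e0003000000000000000000000000000) (nat_lit 0x0) (nat_lit 0x1000080000001c000dc002c000000000000000000) := T_1 (nat_lit 75) (nat_lit 92) (nat_lit 7) (nat_lit 7) (nat_lit 4) L24516 (by decide +kernel)
theorem L24518 : W_1 (nat_lit 8) (nat_lit 0x10001e0002000000000000000000000000000) (nat_lit 0x0) (nat_lit 0x1000080000001d800dc002c000000000000000000) := T_1 (nat_lit 108) (nat_lit 107) (nat_lit 0) (nat_lit 9) (nat_lit 7) L24517 (by decide +kernel)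
theorem L24519 : W_1 (nat_lit 2) (nat_lit 0x14001e000a000100020000000000000000000) (nat_lit 0x0) (nat_lit 0x100008000800000000000000000000000000000000000) := D_1 (nat_lit 159) (nat_lit 143) (nat_lit 176) (nat_lit 5) (nat_lit 7) (nat_lit 5) (nat_lit 6) (nat_lit 6) (nat_lit 10) (by decide +kernel)
theorem L24520 : W_1 (nat_lit 3) (nat_lit 0x14001e000a000000020000000000000000000) (nat_lit 0x0) (nat_lit 0x100008000800000000000100008000000000000000000) := T_1 (nat_lit 92) (nat_lit 75) (nat_lit 7) (nat_lit 7) (nat_lit 4) L24519 (by decide +kernel)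
theorem L24521 : W_1 (nat_lit 4) (nat_lit 0x10001e000a000000020000000000000000000) (nat_lit 0x0) (nat_lit 0x100008000e00000000000100008000000000000000000) := T_1 (nat_lit 142) (nat_lit 141) (nat_lit 1) (nat_lit 9) (nat_lit 7) L24520 (by decide +kernel)
theorem L24522 : W_1 (nat_lit 5) (nat_lit 0x10001e000a000000000000000000000000000) (nat_lit 0x0) (nat_lit 0x100008000e00000000000500028000000000000000000) := T_1 (nat_lit 77) (nat_lit 94) (nat_lit 5) (nat_lit 9) (nat_lit 4) L24521 (by decide +kernel)
theorem L24523 : W_1 (nat_lit 6) (nat_lit 0x10001e0002000000000000000000000000000) (nat_lit 0x0) (nat_lit 0x100008000e00000018000500028000000000000000000) := T_1 (nat_lit 111) (nat_lit 112) (nat_lit 2) (nat_lit 6) (nat_lit 7) L24522 (by decide +kernel)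
theorem L24524 : W_1 (nat_lit 3) (nat_lit 0x14001e0002000000000000000000000000000) (nat_lit 0x0) (nat_lit 0x8000000000001800100008000000000000000000) := T_1 (nat_lit 108) (nat_lit 107) (nat_lit 0) (nat_lit 9) (nat_lit 7) L24490 (by decide +kernel)
theorem L24525 : W_1 (nat_lit 4) (nat_lit 0x10001e0002000000000000000000000000000) (nat_lit 0x0) (nat_lit 0x8000600000001800100008000000000000000000) := T_1 (nat_lit 142) (nat_lit 141) (nat_lit 1) (nat_lit 9) (nat_lit 7) L24524 (by decide +kernel)
theorem L24526 : W_1 (nat_lit 7) (nat_lit 0x14001e0002000000000000000000000000000) (nat_lit 0x0) (nat_lit 0x1000080000001d800cc0024000000000000000000) := T_1 (nat_lit 108) (nat_lit 107) (nat_lit 0) (nat_lit 9) (nat_lit 7) L24495 (by decide +kernel)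
theorem L24527 : W_1 (nat_lit 8) (nat_lit 0x10001e0002000000000000000000000000000) (nat_lit 0x0) (nat_lit 0x10000e0000001d800cc0024000000000000000000) := T_1 (nat_lit 142) (nat_lit 141) (nat_lit 1) (nat_lit 9) (nat_lit 7) L24526 (by decide +kernel)
theorem L24528 : W_1 (nat_lit 10) (nat_lit 0x10001e0000000000000000000000000000000) (nat_lit 0x0) (nat_lit 0x100018000e0000001f800dc002c000600000000000000) := Q_1 (nat_lit 109) (C_1 L24511 (C_1 L24518 (C_1 L24523 (C_1 L24525 (C_1 L24527 N_1))))) (by decide +kernel)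
theorem L24529 : W_1 (nat_lit 11) (nat_lit 0x10001a0000000000000000000000000000000) (nat_lit 0x0) (nat_lit 0x38005c006e0004001f800fc007e000600000000000000) := Q_1 (nat_lit 126) (C_1 L23662 (C_1 L24528 (C_1 L23019 (C_1 L22535 (C_1 L24501 (C_1 L24007 N_1)))))) (by decide +kernel)
theorem L24530 : W_1 (nat_lit 12) (nat_lit 0x10000a0000000000000000000000000000000) (nat_lit 0x0) (nat_lit 0x15000f800dc006e0034001fc00fe007f001f000a0000000000) := Q_1 (nat_lit 128) (C_1 L24010 (C_1 L24011 (C_1 L24012 (C_1 L24013 (C_1 L24437 (C_1 L24463 (C_1 L24464 (C_1 L24485 (C_1 L24499 (C_1 L24500 (C_1 L24502 (C_1 L24503 (C_1 L24529 N_1))))))))))))) (by decide +kernel)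
theorem L24531 : W_1 (nat_lit 11) (nat_lit 0x10000e0000000000000000000000000000000) (nat_lit 0x0) (nat_lit 0x1000098004c006e0030001f800f00070000000000000000000) := Q_1 (nat_lit 128) (C_1 L24465 (C_1 L22519 (C_1 L22539 (C_1 L22526 (C_1 L24007 N_1))))) (by decide +kernel)
theorem L24532 : W_1 (nat_lit 12) (nat_lit 0x10000a0000000000000000000000000000000) (nat_lit 0x0) (nat_lit 0x1000098005c006f8035e01fc00f00078000c00000000000000) := Q_1 (nat_lit 126) (C_1 L24531 (C_1 L22537 (C_1 L22480 (C_1 L23027 (C_1 L23469 (C_1 L23660 N_1)))))) (by decide +kernel)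
theorem L24533 : W_1 (nat_lit 4) (nat_lit 0x10000e0000000000000000000000000000000) (nat_lit 0x0) (nat_lit 0x280001800e000000000000000000000000000) := T_1 (nat_lit 124) (nat_lit 145) (nat_lit 3) (nat_lit 5) (nat_lit 7) L23652 (by decide +kernel)
theorem L24534 : W_1 (nat_lit 12) (nat_lit 0x10000a0000000000000000000000000000000) (nat_lit 0x0) (nat_lit 0xa0005000680035e01fc00fc007e000c00000000000000) := Q_1 (nat_lit 126) (C_1 L23997 (C_1 L22537 (C_1 L22480 (C_1 L23027 (C_1 L23469 (C_1 L23656 (C_1 L24533 N_1))))))) (by decide +kernel)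
theorem L24535 : W_1 (nat_lit 11) (nat_lit 0x10000e0000000000000000000000000000000) (nat_lit 0x0) (nat_lit 0x10001c006e0030001f800dc002c000600000000000000) := Q_1 (nat_lit 128) (C_1 L24465 (C_1 L24528 (C_1 L23814 (C_1 L23010 (C_1 L23453 N_1))))) (by decide +kernel)
theorem L24536 : W_1 (nat_lit 12) (nat_lit 0x10000a0000000000000000000000000000000) (nat_lit 0x0) (nat_lit 0x10001c006f8035e01fc00dc002c000600000000000000) := Q_1 (nat_lit 126) (C_1 L24535 (C_1 L22537 (C_1 L24533 (C_1 L22485 (C_1 L23660 N_1))))) (by decide +kernel)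
theorem L24537 : W_1 (nat_lit 12) (nat_lit 0x10000a0000000000000000000000000000000) (nat_lit 0x0) (nat_lit 0x16000b000de006f8035801e0007c003e001c000c0004000000) := Q_1 (nat_lit 126) (C_1 L22464 (C_1 L22467 (C_1 L24533 (C_1 L22471 (C_1 L23660 N_1))))) (by decide +kernel)
theorem L24538 : W_1 (nat_lit 13) (nat_lit 0x1000080000000000000000000000000000000) (nat_lit 0x0) (nat_lit 0x10000e0017800fc00dfc06fc037e01ff00ff807f801f000f8005000000) := Q_1 (nat_lit 125) (C_1 L22481 (C_1 L22538 (C_1 L22541 (C_1 L22998 (C_1 L23000 (C_1 L23028 (C_1 L23448 (C_1 L23470 (C_1 L23542 (C_1 L23661 (C_1 L23998 (C_1 L24009 (C_1 L24530 (C_1 L24532 (C_1 L24534 (C_1 L24536 (C_1 L24537 N_1))))))))))))))))) (by decide +kernel)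
theorem L24539 : W_1 (nat_lit 2) (nat_lit 0xe000280034001e0001000000000000000000000000000) (nat_lit 0x0) (nat_lit 0x180004000000000000000000000000000000000000000) := D_1 (nat_lit 158) (nat_lit 175) (nat_lit 176) (nat_lit 5) (nat_lit 6) (nat_lit 6) (nat_lit 0) (nat_lit 9) (nat_lit 10) (by decide +kernel)
theorem L24540 : W_1 (nat_lit 3) (nat_lit 0xe000200034001e0001000000000000000000000000000) (nat_lit 0x0) (nat_lit 0x18001c000000000000000000000000000000000000000) := T_1 (nat_lit 159) (nat_lit 160) (nat_lit 7) (nat_lit 6) (nat_lit 6) L24539 (by decide +kernel)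
theorem L24541 : W_1 (nat_lit 4) (nat_lit 0xe000200034001e0000000000000000000000000000000) (nat_lit 0x0) (nat_lit 0x18001c000000000001800000000000000000000000000) := T_1 (nat_lit 108) (nat_lit 107) (nat_lit 0) (nat_lit 9) (nat_lit 7) L24540 (by decide +kernel)
theorem L24542 : W_1 (nat_lit 5) (nat_lit 0xe000200030001e0000000000000000000000000000000) (nat_lit 0x0) (nat_lit 0x18001c000600000001800000000000000000000000000) := T_1 (nat_lit 142) (nat_lit 141) (nat_lit 1) (nat_lit 9) (nat_lit 7) L24541 (by decide +kernel)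
theorem L24543 : W_1 (nat_lit 6) (nat_lit 0xe000200030001c0000000000000000000000000000000) (nat_lit 0x0) (nat_lit 0x18001c004600020001800000000000000000000000000) := T_1 (nat_lit 125) (nat_lit 146) (nat_lit 3) (nat_lit 6) (nat_lit 7) L24542 (by decide +kernel)
theorem L24544 : W_1 (nat_lit 7) (nat_lit 0xe000200010001c0000000000000000000000000000000) (nat_lit 0x0) (nat_lit 0x800018001c006600020001800000000000000000000000000) := T_1 (nat_lit 145) (nat_lit 195) (nat_lit 6) (nat_lit 8) (nat_lit 11) L24543 (by decide +kernel)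
theorem L24545 : W_1 (nat_lit 8) (nat_lit 0xc000200010001c0000000000000000000000000000000) (nat_lit 0x0) (nat_lit 0xc00038001c006600020001800000000000000000000000000) := T_1 (nat_lit 177) (nat_lit 194) (nat_lit 5) (nat_lit 8) (nat_lit 7) L24544 (by decide +kernel)
theorem L24546 : W_1 (nat_lit 9) (nat_lit 0xc000200010000c0000000000000000000000000000000) (nat_lit 0x0) (nat_lit 0xc00038001c006600120009800000000000000000000000000) := T_1 (nat_lit 128) (nat_lit 111) (nat_lit 6) (nat_lit 8) (nat_lit 10) L24545 (by decide +kernel)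
theorem L24547 : W_1 (nat_lit 10) (nat_lit 0x4000200010000c0000000000000000000000000000000) (nat_lit 0x0) (nat_lit 0x1c000b8001c006600120009800000000000000000000000000) := T_1 (nat_lit 179) (nat_lit 196) (nat_lit 7) (nat_lit 8) (nat_lit 7) L24546 (by decide +kernel)
theorem L24548 : W_1 (nat_lit 11) (nat_lit 0x400020001000080000000000000000000000000000000) (nat_lit 0x0) (nat_lit 0x1c000b8001c00660016000b800000000000000000000000000) := T_1 (nat_lit 126) (nat_lit 109) (nat_lit 4) (nat_lit 8) (nat_lit 10) L24547 (by decide +kernel)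
theorem L24549 : W_1 (nat_lit 2) (nat_lit 0x80004000200010001c0000000000000000000000000000000) (nat_lit 0x0) (nat_lit 0x80004000200000000000000000000000000000000000000000000) := D_1 (nat_lit 194) (nat_lit 211) (nat_lit 177) (nat_lit 5) (nat_lit 8) (nat_lit 8) (nat_lit 5) (nat_lit 8) (nat_lit 7) (by decide +kernel)
theorem L24550 : W_1 (nat_lit 3) (nat_lit 0x4000200010001c0000000000000000000000000000000) (nat_lit 0x0) (nat_lit 0x8000c000200000002000000000000000000000000000000000000) := T_1 (nat_lit 195) (nat_lit 145) (nat_lit 6) (nat_lit 8) (nat_lit 11) L24549 (by decide +kernel)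
theorem L24551 : W_1 (nat_lit 4) (nat_lit 0x400020001000180000000000000000000000000000000) (nat_lit 0x0) (nat_lit 0x8000c000200000002000040002000000000000000000000000000) := T_1 (nat_lit 126) (nat_lit 109) (nat_lit 4) (nat_lit 8) (nat_lit 10) L24550 (by decide +kernel)
theorem L24552 : W_1 (nat_lit 5) (nat_lit 0x400020001000080000000000000000000000000000000) (nat_lit 0x0) (nat_lit 0x8000c00020000000200014000a000000000000000000000000000) := T_1 (nat_lit 128) (nat_lit 111) (nat_lit 6) (nat_lit 8) (nat_lit 10) L24551 (by decide +kernel)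
theorem L24553 : W_1 (nat_lit 2) (nat_lit 0x140004000200010000c0000000000000000000000000000000) (nat_lit 0x0) (nat_lit 0x280008000000000000000000000000000000000000000000000000) := D_1 (nat_lit 195) (nat_lit 213) (nat_lit 211) (nat_lit 7) (nat_lit 8) (nat_lit 8) (nat_lit 5) (nat_lit 8) (nat_lit 8) (by decide +kernel)
theorem L24554 : W_1 (nat_lit 3) (nat_lit 0x100004000200010000c0000000000000000000000000000000) (nat_lit 0x0) (nat_lit 0x28000c000200000000000000000000000000000000000000000000) := T_1 (nat_lit 194) (nat_lit 177) (nat_lit 5) (nat_lit 8) (nat_lit 7) L24553 (by decide +kernel)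
theorem L24555 : W_1 (nat_lit 4) (nat_lit 0x4000200010000c0000000000000000000000000000000) (nat_lit 0x0) (nat_lit 0x28001c000a00000000000000000000000000000000000000000000) := T_1 (nat_lit 196) (nat_lit 179) (nat_lit 7) (nat_lit 8) (nat_lit 7) L24554 (by decide +kernel)
theorem L24556 : W_1 (nat_lit 5) (nat_lit 0x400020001000080000000000000000000000000000000) (nat_lit 0x0) (nat_lit 0x28001c000a00000000000040002000000000000000000000000000) := T_1 (nat_lit 126) (nat_lit 109) (nat_lit 4) (nat_lit 8) (nat_lit 10) L24555 (by decide +kernel)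
theorem L24557 : W_1 (nat_lit 2) (nat_lit 0x2000180008000c000200010001c0000000000000000000000000000000) (nat_lit 0x0) (nat_lit 0x80004000200000000000000000000000000000000000000000000000000000) := D_1 (nat_lit 230) (nat_lit 213) (nat_lit 247) (nat_lit 7) (nat_lit 8) (nat_lit 9) (nat_lit 7) (nat_lit 8) (nat_lit 10) (by decide +kernel)
theorem L24558 : W_1 (nat_lit 3) (nat_lit 0x180008000c000200010001c0000000000000000000000000000000) (nat_lit 0x0) (nat_lit 0x80006000200000000000040000000000000000000000000000000000000000) := T_1 (nat_lit 229) (nat_lit 162) (nat_lit 6) (nat_lit 8) (nat_lit 13) L24557 (by decide +kernel)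
theorem L24559 : W_1 (nat_lit 4) (nat_lit 0x80008000c000200010001c0000000000000000000000000000000) (nat_lit 0x0) (nat_lit 0x80007000300000000000040000000000000000000000000000000000000000) := T_1 (nat_lit 212) (nat_lit 228) (nat_lit 5) (nat_lit 8) (nat_lit 9) L24558 (by decide +kernel)
theorem L24560 : W_1 (nat_lit 5) (nat_lit 0x8000c000200010001c0000000000000000000000000000000) (nat_lit 0x0) (nat_lit 0x80007000380004000000040000000000000000000000000000000000000000) := T_1 (nat_lit 211) (nat_lit 194) (nat_lit 5) (nat_lit 8) (nat_lit 8) L24559 (by decide +kernel)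
theorem L24561 : W_1 (nat_lit 6) (nat_lit 0xc000200010001c0000000000000000000000000000000) (nat_lit 0x0) (nat_lit 0x8000700038000c000000040002000000000000000000000000000000000000) := T_1 (nat_lit 195) (nat_lit 145) (nat_lit 6) (nat_lit 8) (nat_lit 11) L24560 (by decide +kernel)
theorem L24562 : W_1 (nat_lit 7) (nat_lit 0xc000200010000c0000000000000000000000000000000) (nat_lit 0x0) (nat_lit 0x8000700038000c000000040002000100008000000000000000000000000000) := T_1 (nat_lit 128) (nat_lit 111) (nat_lit 6) (nat_lit 8) (nat_lit 10) L24561 (by decide +kernel)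
theorem L24563 : W_1 (nat_lit 8) (nat_lit 0xc00020001000080000000000000000000000000000000) (nat_lit 0x0) (nat_lit 0x8000700038000c00000004000200014000a000000000000000000000000000) := T_1 (nat_lit 126) (nat_lit 109) (nat_lit 4) (nat_lit 8) (nat_lit 10) L24562 (by decide +kernel)
theorem L24564 : W_1 (nat_lit 9) (nat_lit 0x400020001000080000000000000000000000000000000) (nat_lit 0x0) (nat_lit 0x8000700038001c00080004000200014000a000000000000000000000000000) := T_1 (nat_lit 179) (nat_lit 196) (nat_lit 7) (nat_lit 8) (nat_lit 7) L24563 (by decide +kernel)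
theorem L24565 : W_1 (nat_lit 2) (nat_lit 0x8000c00020001000180000000000000000000000000000000) (nat_lit 0x0) (nat_lit 0x80004000200000000000000000000000000000000000000000000) := D_1 (nat_lit 194) (nat_lit 211) (nat_lit 177) (nat_lit 5) (nat_lit 8) (nat_lit 8) (nat_lit 5) (nat_lit 8) (nat_lit 7) (by decide +kernel)
theorem L24566 : W_1 (nat_lit 3) (nat_lit 0xc00020001000180000000000000000000000000000000) (nat_lit 0x0) (nat_lit 0x8000c000200000002000000000000000000000000000000000000) := T_1 (nat_lit 195) (nat_lit 145) (nat_lit 6) (nat_lit 8) (nat_lit 11) L24565 (by decide +kernel)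
theorem L24567 : W_1 (nat_lit 4) (nat_lit 0x400020001000180000000000000000000000000000000) (nat_lit 0x0) (nat_lit 0x8001c000a00000002000000000000000000000000000000000000) := T_1 (nat_lit 179) (nat_lit 196) (nat_lit 7) (nat_lit 8) (nat_lit 7) L24566 (by decide +kernel)
theorem L24568 : W_1 (nat_lit 5) (nat_lit 0x400020001000080000000000000000000000000000000) (nat_lit 0x0) (nat_lit 0x8001c000a00000002000100008000000000000000000000000000) := T_1 (nat_lit 128) (nat_lit 111) (nat_lit 6) (nat_lit 8) (nat_lit 10) L24567 (by decide +kernel)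
theorem L24569 : W_1 (nat_lit 2) (nat_lit 0x6000200012000f0000800000000000000000000000000) (nat_lit 0x0) (nat_lit 0x100009000000000000000000000000000) := D_1 (nat_lit 128) (nat_lit 111) (nat_lit 108) (nat_lit 6) (nat_lit 8) (nat_lit 10) (nat_lit 0) (nat_lit 9) (nat_lit 7) (by decide +kernel)
theorem L24570 : W_1 (nat_lit 3) (nat_lit 0x6000200012000f0000000000000000000000000000000) (nat_lit 0x0) (nat_lit 0x100009c00000000000000000000000000) := T_1 (nat_lit 107) (nat_lit 106) (nat_lit 0) (nat_lit 8) (nat_lit 7) L24569 (by decide +kernel)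
theorem L24571 : W_1 (nat_lit 4) (nat_lit 0x6000200010000f0000000000000000000000000000000) (nat_lit 0x0) (nat_lit 0x300100009c00000000000000000000000000) := T_1 (nat_lit 141) (nat_lit 140) (nat_lit 1) (nat_lit 8) (nat_lit 7) L24570 (by decide +kernel)
theorem L24572 : W_1 (nat_lit 5) (nat_lit 0x6000200010000e0000000000000000000000000000000) (nat_lit 0x0) (nat_lit 0x2300110009c00000000000000000000000000) := T_1 (nat_lit 124) (nat_lit 145) (nat_lit 3) (nat_lit 5) (nat_lit 7) L24571 (by decide +kernel)
theorem L24573 : W_1 (nat_lit 6) (nat_lit 0x4000200010000e0000000000000000000000000000000) (nat_lit 0x0) (nat_lit 0x4000200000002300110009c00000000000000000000000000) := T_1 (nat_lit 177) (nat_lit 194) (nat_lit 5) (nat_lit 8) (nat_lit 7) L24572 (by decide +kernel)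
theorem L24574 : W_1 (nat_lit 2) (nat_lit 0xe000240012000f8000400000000000000000000000000) (nat_lit 0x0) (nat_lit 0x100018000000000000000000000000000000000000000) := D_1 (nat_lit 159) (nat_lit 160) (nat_lit 176) (nat_lit 3) (nat_lit 5) (nat_lit 9) (nat_lit 0) (nat_lit 9) (nat_lit 10) (by decide +kernel)
theorem L24575 : W_1 (nat_lit 3) (nat_lit 0xe000200012000f8000400000000000000000000000000) (nat_lit 0x0) (nat_lit 0x18001c000000000000000000000000000000000000000) := T_1 (nat_lit 158) (nat_lit 175) (nat_lit 4) (nat_lit 5) (nat_lit 10) L24574 (by decide +kernel)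
theorem L24576 : W_1 (nat_lit 4) (nat_lit 0xe000200012000f0000400000000000000000000000000) (nat_lit 0x0) (nat_lit 0x18001c000000008000200000000000000000000000000) := T_1 (nat_lit 123) (nat_lit 105) (nat_lit 0) (nat_lit 7) (nat_lit 7) L24575 (by decide +kernel)
theorem L24577 : W_1 (nat_lit 5) (nat_lit 0xc000200012000f0000400000000000000000000000000) (nat_lit 0x0) (nat_lit 0x400038001c000000008000200000000000000000000000000) := T_1 (nat_lit 177) (nat_lit 194) (nat_lit 5) (nat_lit 8) (nat_lit 7) L24576 (by decide +kernel)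
theorem L24578 : W_1 (nat_lit 6) (nat_lit 0xc000200012000f0000000000000000000000000000000) (nat_lit 0x0) (nat_lit 0x400038001c000000008000e00000000000000000000000000) := T_1 (nat_lit 106) (nat_lit 107) (nat_lit 0) (nat_lit 8) (nat_lit 7) L24577 (by decide +kernel)
theorem L24579 : W_1 (nat_lit 7) (nat_lit 0xc000200010000f0000000000000000000000000000000) (nat_lit 0x0) (nat_lit 0x400038001c000300008000e00000000000000000000000000) := T_1 (nat_lit 141) (nat_lit 140) (nat_lit 1) (nat_lit 8) (nat_lit 7) L24578 (by decide +kernel)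
theorem L24580 : W_1 (nat_lit 8) (nat_lit 0xc000200010000e0000000000000000000000000000000) (nat_lit 0x0) (nat_lit 0x400038001c002300018000e00000000000000000000000000) := T_1 (nat_lit 124) (nat_lit 145) (nat_lit 3) (nat_lit 5) (nat_lit 7) L24579 (by decide +kernel)
theorem L24581 : W_1 (nat_lit 9) (nat_lit 0x4000200010000e0000000000000000000000000000000) (nat_lit 0x0) (nat_lit 0x14000b8001c002300018000e00000000000000000000000000) := T_1 (nat_lit 179) (nat_lit 196) (nat_lit 7) (nat_lit 8) (nat_lit 7) L24580 (by decide +kernel)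
theorem L24582 : W_1 (nat_lit 2) (nat_lit 0x4000200010001e0000000000000000000000000000000) (nat_lit 0x0) (nat_lit 0x6000010000000000000000000000000000000) := D_1 (nat_lit 145) (nat_lit 146) (nat_lit 124) (nat_lit 3) (nat_lit 6) (nat_lit 7) (nat_lit 3) (nat_lit 5) (nat_lit 7) (by decide +kernel)
theorem L24583 : W_1 (nat_lit 3) (nat_lit 0x4000200010000e0000000000000000000000000000000) (nat_lit 0x0) (nat_lit 0x6000110008000000000000000000000000000) := T_1 (nat_lit 128) (nat_lit 111) (nat_lit 6) (nat_lit 8) (nat_lit 10) L24582 (by decide +kernel)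
theorem L24584 : W_1 (nat_lit 2) (nat_lit 0xe000280014001e0001000000000000000000000000000) (nat_lit 0x0) (nat_lit 0x180004000000000000000000000000000000000000000) := D_1 (nat_lit 158) (nat_lit 175) (nat_lit 176) (nat_lit 5) (nat_lit 6) (nat_lit 6) (nat_lit 0) (nat_lit 9) (nat_lit 10) (by decide +kernel)
theorem L24585 : W_1 (nat_lit 3) (nat_lit 0xe000200014001e0001000000000000000000000000000) (nat_lit 0x0) (nat_lit 0x18001c000000000000000000000000000000000000000) := T_1 (nat_lit 159) (nat_lit 160) (nat_lit 7) (nat_lit 6) (nat_lit 6) L24584 (by decide +kernel)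
theorem L24586 : W_1 (nat_lit 4) (nat_lit 0xc000200014001e0001000000000000000000000000000) (nat_lit 0x0) (nat_lit 0x400038001c000000000000000000000000000000000000000) := T_1 (nat_lit 177) (nat_lit 194) (nat_lit 5) (nat_lit 8) (nat_lit 7) L24585 (by decide +kernel)
theorem L24587 : W_1 (nat_lit 5) (nat_lit 0xc000200014001e0000000000000000000000000000000) (nat_lit 0x0) (nat_lit 0x400038001c000000000001800000000000000000000000000) := T_1 (nat_lit 108) (nat_lit 107) (nat_lit 0) (nat_lit 9) (nat_lit 7) L24586 (by decide +kernel)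
theorem L24588 : W_1 (nat_lit 6) (nat_lit 0xc000200010001e0000000000000000000000000000000) (nat_lit 0x0) (nat_lit 0x400038001c000600000001800000000000000000000000000) := T_1 (nat_lit 142) (nat_lit 141) (nat_lit 1) (nat_lit 9) (nat_lit 7) L24587 (by decide +kernel)
theorem L24589 : W_1 (nat_lit 7) (nat_lit 0xc000200010000e0000000000000000000000000000000) (nat_lit 0x0) (nat_lit 0x400038001c000600100009800000000000000000000000000) := T_1 (nat_lit 128) (nat_lit 111) (nat_lit 6) (nat_lit 8) (nat_lit 10) L24588 (by decide +kernel)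
theorem L24590 : W_1 (nat_lit 8) (nat_lit 0x4000200010000e0000000000000000000000000000000) (nat_lit 0x0) (nat_lit 0x14000b8001c000600100009800000000000000000000000000) := T_1 (nat_lit 179) (nat_lit 196) (nat_lit 7) (nat_lit 8) (nat_lit 7) L24589 (by decide +kernel)
theorem L24591 : W_1 (nat_lit 10) (nat_lit 0x4000200010000c0000000000000000000000000000000) (nat_lit 0x0) (nat_lit 0x14000b8001c006700138009e00000000000000000000000000) := Q_1 (nat_lit 125) (C_1 L24573 (C_1 L24581 (C_1 L24583 (C_1 L24590 N_1)))) (by decide +kernel)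
theorem L24592 : W_1 (nat_lit 11) (nat_lit 0x400020001000080000000000000000000000000000000) (nat_lit 0x0) (nat_lit 0x14000b8001c00670017800be00000000000000000000000000) := T_1 (nat_lit 126) (nat_lit 109) (nat_lit 4) (nat_lit 8) (nat_lit 10) L24591 (by decide +kernel)
theorem L24593 : W_1 (nat_lit 2) (nat_lit 0xc000200030001c0000000000000000000000000000000) (nat_lit 0x0) (nat_lit 0x4000030000000000000000000000000000000) := D_1 (nat_lit 125) (nat_lit 146) (nat_lit 124) (nat_lit 3) (nat_lit 6) (nat_lit 7) (nat_lit 3) (nat_lit 5) (nat_lit 7) (by decide +kernel)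
theorem L24594 : W_1 (nat_lit 3) (nat_lit 0xc000200010001c0000000000000000000000000000000) (nat_lit 0x0) (nat_lit 0x8000000000006000030000000000000000000000000000000) := T_1 (nat_lit 145) (nat_lit 195) (nat_lit 6) (nat_lit 8) (nat_lit 11) L24593 (by decide +kernel)
theorem L24595 : W_1 (nat_lit 4) (nat_lit 0xc000200010000c0000000000000000000000000000000) (nat_lit 0x0) (nat_lit 0x8000000000006000130008000000000000000000000000000) := T_1 (nat_lit 128) (nat_lit 111) (nat_lit 6) (nat_lit 8) (nat_lit 10) L24594 (by decide +kernel)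
theorem L24596 : W_1 (nat_lit 5) (nat_lit 0x4000200010000c0000000000000000000000000000000) (nat_lit 0x0) (nat_lit 0x18000800000006000130008000000000000000000000000000) := T_1 (nat_lit 179) (nat_lit 196) (nat_lit 7) (nat_lit 8) (nat_lit 7) L24595 (by decide +kernel)
theorem L24597 : W_1 (nat_lit 6) (nat_lit 0x400020001000080000000000000000000000000000000) (nat_lit 0x0) (nat_lit 0x1800080000000600017000a000000000000000000000000000) := T_1 (nat_lit 126) (nat_lit 109) (nat_lit 4) (nat_lit 8) (nat_lit 10) L24596 (by decide +kernel)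
theorem L24598 : W_1 (nat_lit 12) (nat_lit 0x20001000080000000000000000000000000000000) (nat_lit 0x0) (nat_lit 0x8000700038001c000f8005c00670017800be00000000000000000000000000) := Q_1 (nat_lit 178) (C_1 L24548 (C_1 L24552 (C_1 L24556 (C_1 L24564 (C_1 L24568 (C_1 L24592 (C_1 L24597 N_1))))))) (by decide +kernel)
theorem L24599 : W_1 (nat_lit 2) (nat_lit 0xc000200010000c0004000000000000000000000000000) (nat_lit 0x0) (nat_lit 0x100008000400000000000000000000000) := D_1 (nat_lit 111) (nat_lit 94) (nat_lit 128) (nat_lit 6) (nat_lit 8) (nat_lit 9) (nat_lit 6) (nat_lit 8) (nat_lit 10) (by decide +kernel)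
theorem L24600 : W_1 (nat_lit 3) (nat_lit 0xc000200010000c0000000000000000000000000000000) (nat_lit 0x0) (nat_lit 0x4000000010000c000400000000000000000000000) := T_1 (nat_lit 110) (nat_lit 162) (nat_lit 7) (nat_lit 8) (nat_lit 6) L24599 (by decide +kernel)
theorem L24601 : W_1 (nat_lit 4) (nat_lit 0x4000200010000c0000000000000000000000000000000) (nat_lit 0x0) (nat_lit 0x1000080004000000010000c000400000000000000000000000) := T_1 (nat_lit 179) (nat_lit 196) (nat_lit 7) (nat_lit 8) (nat_lit 7) L24600 (by decide +kernel)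
theorem L24602 : W_1 (nat_lit 5) (nat_lit 0x400020001000080000000000000000000000000000000) (nat_lit 0x0) (nat_lit 0x1000080004000000014000e000400000000000000000000000) := T_1 (nat_lit 126) (nat_lit 109) (nat_lit 4) (nat_lit 8) (nat_lit 10) L24601 (by decide +kernel)
theorem L24603 : W_1 (nat_lit 10) (nat_lit 0x20001000080000000000000000000000000000000) (nat_lit 0x0) (nat_lit 0x8000700038001c000e0004000200014000e000400000000000000000000000) := Q_1 (nat_lit 178) (C_1 L24568 (C_1 L24556 (C_1 L24564 (C_1 L24552 (C_1 L24602 N_1))))) (by decide +kernel)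
theorem L24604 : W_1 (nat_lit 12) (nat_lit 0x20001000080000000000000000000000000000000) (nat_lit 0x0) (nat_lit 0x28001c000f8001c00670017800be00000000000000000000000000) := Q_1 (nat_lit 178) (C_1 L24568 (C_1 L24597 (C_1 L24556 (C_1 L24552 (C_1 L24592 N_1))))) (by decide +kernel)
theorem L24605 : W_1 (nat_lit 2) (nat_lit 0x60001000080006000200000000000000000000000) (nat_lit 0x0) (nat_lit 0x8000400020000000000000000000) := D_1 (nat_lit 94) (nat_lit 77) (nat_lit 111) (nat_lit 6) (nat_lit 8) (nat_lit 8) (nat_lit 6) (nat_lit 8) (nat_lit 9) (by decide +kernel)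
theorem L24606 : W_1 (nat_lit 3) (nat_lit 0x60001000080006000000000000000000000000000) (nat_lit 0x0) (nat_lit 0x2000000008000600020000000000000000000) := T_1 (nat_lit 93) (nat_lit 145) (nat_lit 7) (nat_lit 8) (nat_lit 5) L24605 (by decide +kernel)
theorem L24607 : W_1 (nat_lit 4) (nat_lit 0x20001000080006000000000000000000000000000) (nat_lit 0x0) (nat_lit 0x800040002000000008000600020000000000000000000) := T_1 (nat_lit 162) (nat_lit 179) (nat_lit 7) (nat_lit 8) (nat_lit 6) L24606 (by decide +kernel)
theorem L24608 : W_1 (nat_lit 5) (nat_lit 0x20001000080004000000000000000000000000000) (nat_lit 0x0) (nat_lit 0x80004000200000000a000700020000000000000000000) := T_1 (nat_lit 109) (nat_lit 92) (nat_lit 4) (nat_lit 8) (nat_lit 9) L24607 (by decide +kernel)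
theorem L24609 : W_1 (nat_lit 2) (nat_lit 0x40002000100008000e000000000000000000000000000) (nat_lit 0x0) (nat_lit 0x4000200010000000000000000000000000000000000000000) := D_1 (nat_lit 177) (nat_lit 160) (nat_lit 194) (nat_lit 5) (nat_lit 8) (nat_lit 6) (nat_lit 5) (nat_lit 8) (nat_lit 7) (by decide +kernel)
theorem L24610 : W_1 (nat_lit 3) (nat_lit 0x2000100008000e000000000000000000000000000) (nat_lit 0x0) (nat_lit 0x4000600010000000040000000000000000000000000000000) := T_1 (nat_lit 178) (nat_lit 126) (nat_lit 4) (nat_lit 8) (nat_lit 10) L24609 (by decide +kernel)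
theorem L24611 : W_1 (nat_lit 4) (nat_lit 0x20001000080006000000000000000000000000000) (nat_lit 0x0) (nat_lit 0x4000600010000000040008000400000000000000000000000) := T_1 (nat_lit 111) (nat_lit 94) (nat_lit 6) (nat_lit 8) (nat_lit 9) L24610 (by decide +kernel)
theorem L24612 : W_1 (nat_lit 5) (nat_lit 0x20001000080004000000000000000000000000000) (nat_lit 0x0) (nat_lit 0x400060001000000004000a000500000000000000000000000) := T_1 (nat_lit 109) (nat_lit 92) (nat_lit 4) (nat_lit 8) (nat_lit 9) L24611 (by decide +kernel)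
theorem L24613 : W_1 (nat_lit 2) (nat_lit 0x7000300008000c000000000000000000000000000) (nat_lit 0x0) (nat_lit 0xc004000000000000000000000000000000000000) := D_1 (nat_lit 159) (nat_lit 146) (nat_lit 158) (nat_lit 2) (nat_lit 6) (nat_lit 9) (nat_lit 2) (nat_lit 5) (nat_lit 9) (by decide +kernel)
theorem L24614 : W_1 (nat_lit 3) (nat_lit 0x7000100008000c000000000000000000000000000) (nat_lit 0x0) (nat_lit 0xc006000000000000200000000000000000000000) := T_1 (nat_lit 145) (nat_lit 93) (nat_lit 7) (nat_lit 8) (nat_lit 5) L24613 (by decide +kernel)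
theorem L24615 : W_1 (nat_lit 4) (nat_lit 0x3000100008000c000000000000000000000000000) (nat_lit 0x0) (nat_lit 0x80004c006000000000000200000000000000000000000) := T_1 (nat_lit 162) (nat_lit 179) (nat_lit 7) (nat_lit 8) (nat_lit 6) L24614 (by decide +kernel)
theorem L24616 : W_1 (nat_lit 5) (nat_lit 0x30001000080004000000000000000000000000000) (nat_lit 0x0) (nat_lit 0x80004c006000000008000600000000000000000000000) := T_1 (nat_lit 111) (nat_lit 94) (nat_lit 6) (nat_lit 8) (nat_lit 9) L24615 (by decide +kernel)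
theorem L24617 : W_1 (nat_lit 6) (nat_lit 0x20001000080004000000000000000000000000000) (nat_lit 0x0) (nat_lit 0xa0005c006000000008000600000000000000000000000) := T_1 (nat_lit 160) (nat_lit 177) (nat_lit 5) (nat_lit 8) (nat_lit 6) L24616 (by decide +kernel)
theorem L24618 : W_1 (nat_lit 2) (nat_lit 0x60001000080004000200000000000000000000000) (nat_lit 0x0) (nat_lit 0x2000100008000000000000000000) := D_1 (nat_lit 92) (nat_lit 109) (nat_lit 75) (nat_lit 4) (nat_lit 8) (nat_lit 9) (nat_lit 4) (nat_lit 8) (nat_lit 8) (by decide +kernel)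
theorem L24619 : W_1 (nat_lit 3) (nat_lit 0x60001000080004000000000000000000000000000) (nat_lit 0x0) (nat_lit 0x2000000002000300008000000000000000000) := T_1 (nat_lit 93) (nat_lit 145) (nat_lit 7) (nat_lit 8) (nat_lit 5) L24618 (by decide +kernel)
theorem L24620 : W_1 (nat_lit 4) (nat_lit 0x20001000080004000000000000000000000000000) (nat_lit 0x0) (nat_lit 0x800040002000000002000300008000000000000000000) := T_1 (nat_lit 162) (nat_lit 179) (nat_lit 7) (nat_lit 8) (nat_lit 6) L24619 (by decide +kernel)
theorem L24621 : W_1 (nat_lit 7) (nat_lit 0x20001000080000000000000000000000000000000) (nat_lit 0x0) (nat_lit 0x4000e0005c00600004000e000700028000000000000000000) := Q_1 (nat_lit 110) (C_1 L24608 (C_1 L24612 (C_1 L24617 (C_1 L24620 N_1)))) (by decide +kernel)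
theorem L24622 : W_1 (nat_lit 2) (nat_lit 0x2000100008000e000000000000000000000000000) (nat_lit 0x0) (nat_lit 0x400000000000140000000000000000000000000000000) := D_1 (nat_lit 178) (nat_lit 126) (nat_lit 128) (nat_lit 4) (nat_lit 8) (nat_lit 10) (nat_lit 6) (nat_lit 8) (nat_lit 10) (by decide +kernel)
theorem L24623 : W_1 (nat_lit 3) (nat_lit 0x20001000080006000000000000000000000000000) (nat_lit 0x0) (nat_lit 0x400000000000140008000400000000000000000000000) := T_1 (nat_lit 111) (nat_lit 94) (nat_lit 6) (nat_lit 8) (nat_lit 9) L24622 (by decide +kernel)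
theorem L24624 : W_1 (nat_lit 4) (nat_lit 0x20001000080004000000000000000000000000000) (nat_lit 0x0) (nat_lit 0x40000000000014000a000500000000000000000000000) := T_1 (nat_lit 109) (nat_lit 92) (nat_lit 4) (nat_lit 8) (nat_lit 9) L24623 (by decide +kernel)
theorem L24625 : W_1 (nat_lit 2) (nat_lit 0x60001000080004000200000000000000000000000) (nat_lit 0x0) (nat_lit 0x8000400020000000000000000000) := D_1 (nat_lit 94) (nat_lit 77) (nat_lit 111) (nat_lit 6) (nat_lit 8) (nat_lit 8) (nat_lit 6) (nat_lit 8) (nat_lit 9) (by decide +kernel)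
theorem L24626 : W_1 (nat_lit 3) (nat_lit 0x60001000080004000000000000000000000000000) (nat_lit 0x0) (nat_lit 0x2000000008000600020000000000000000000) := T_1 (nat_lit 93) (nat_lit 145) (nat_lit 7) (nat_lit 8) (nat_lit 5) L24625 (by decide +kernel)
theorem L24627 : W_1 (nat_lit 4) (nat_lit 0x20001000080004000000000000000000000000000) (nat_lit 0x0) (nat_lit 0x800040002000000008000600020000000000000000000) := T_1 (nat_lit 162) (nat_lit 179) (nat_lit 7) (nat_lit 8) (nat_lit 6) L24626 (by decide +kernel)
theorem L24628 : W_1 (nat_lit 5) (nat_lit 0x20001000080000000000000000000000000000000) (nat_lit 0x0) (nat_lit 0xc0004000200014000e000700028000000000000000000) := Q_1 (nat_lit 110) (C_1 L24620 (C_1 L24624 (C_1 L24627 N_1))) (by decide +kernel)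
theorem L24629 : W_1 (nat_lit 2) (nat_lit 0x600020001000080004000000000000000000000000000) (nat_lit 0x0) (nat_lit 0x10000800040000000000000000000000000000000000000000) := D_1 (nat_lit 179) (nat_lit 196) (nat_lit 162) (nat_lit 7) (nat_lit 8) (nat_lit 7) (nat_lit 7) (nat_lit 8) (nat_lit 6) (by decide +kernel)
theorem L24630 : W_1 (nat_lit 3) (nat_lit 0x600020001000080000000000000000000000000000000) (nat_lit 0x0) (nat_lit 0x10000800050000000000004000000000000000000000000000) := T_1 (nat_lit 110) (nat_lit 160) (nat_lit 5) (nat_lit 8) (nat_lit 6) L24629 (by decide +kernel)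
theorem L24631 : W_1 (nat_lit 4) (nat_lit 0x400020001000080000000000000000000000000000000) (nat_lit 0x0) (nat_lit 0x14000a00050000000000004000000000000000000000000000) := T_1 (nat_lit 177) (nat_lit 194) (nat_lit 5) (nat_lit 8) (nat_lit 7) L24630 (by decide +kernel)
theorem L24632 : W_1 (nat_lit 2) (nat_lit 0xc00020001000080004000000000000000000000000000) (nat_lit 0x0) (nat_lit 0x100008000400000000000000000000000) := D_1 (nat_lit 111) (nat_lit 94) (nat_lit 128) (nat_lit 6) (nat_lit 8) (nat_lit 9) (nat_lit 6) (nat_lit 8) (nat_lit 10) (by decide +kernel)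
theorem L24633 : W_1 (nat_lit 3) (nat_lit 0xc00020001000080000000000000000000000000000000) (nat_lit 0x0) (nat_lit 0x4000000010000c000400000000000000000000000) := T_1 (nat_lit 110) (nat_lit 162) (nat_lit 7) (nat_lit 8) (nat_lit 6) L24632 (by decide +kernel)
theorem L24634 : W_1 (nat_lit 4) (nat_lit 0x400020001000080000000000000000000000000000000) (nat_lit 0x0) (nat_lit 0x1000080004000000010000c000400000000000000000000000) := T_1 (nat_lit 179) (nat_lit 196) (nat_lit 7) (nat_lit 8) (nat_lit 7) L24633 (by decide +kernel)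
theorem L24635 : W_1 (nat_lit 2) (nat_lit 0x600020003000180004000000000000000000000000000) (nat_lit 0x0) (nat_lit 0x40000000000000000200010000000000000000000) := D_1 (nat_lit 93) (nat_lit 76) (nat_lit 162) (nat_lit 7) (nat_lit 8) (nat_lit 4) (nat_lit 7) (nat_lit 8) (nat_lit 5) (by decide +kernel)
theorem L24636 : W_1 (nat_lit 3) (nat_lit 0x600020001000180004000000000000000000000000000) (nat_lit 0x0) (nat_lit 0x8000000040002000000000000200010000000000000000000) := T_1 (nat_lit 145) (nat_lit 195) (nat_lit 6) (nat_lit 8) (nat_lit 11) L24635 (by decide +kernel)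
theorem L24637 : W_1 (nat_lit 4) (nat_lit 0x600020001000180000000000000000000000000000000) (nat_lit 0x0) (nat_lit 0x8000000050002000000004000200010000000000000000000) := T_1 (nat_lit 110) (nat_lit 160) (nat_lit 5) (nat_lit 8) (nat_lit 6) L24636 (by decide +kernel)
theorem L24638 : W_1 (nat_lit 5) (nat_lit 0x400020001000180000000000000000000000000000000) (nat_lit 0x0) (nat_lit 0xc000200050002000000004000200010000000000000000000) := T_1 (nat_lit 177) (nat_lit 194) (nat_lit 5) (nat_lit 8) (nat_lit 7) L24637 (by decide +kernel)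
theorem L24639 : W_1 (nat_lit 6) (nat_lit 0x400020001000080000000000000000000000000000000) (nat_lit 0x0) (nat_lit 0xc00020005000200010000c000200010000000000000000000) := T_1 (nat_lit 128) (nat_lit 111) (nat_lit 6) (nat_lit 8) (nat_lit 10) L24638 (by decide +kernel)
theorem L24640 : W_1 (nat_lit 7) (nat_lit 0x20001000080000000000000000000000000000000) (nat_lit 0x0) (nat_lit 0x8001c000e0005000200010000c000600010000000000000000000) := Q_1 (nat_lit 178) (C_1 L24568 (C_1 L24631 (C_1 L24634 (C_1 L24639 N_1)))) (by decide +kernel)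
theorem L24641 : W_1 (nat_lit 2) (nat_lit 0x1000180004000200030000d0000000000000000000000000000000) (nat_lit 0x0) (nat_lit 0x1000080004000000000000000000000000000000000000000000000000) := D_1 (nat_lit 211) (nat_lit 228) (nat_lit 194) (nat_lit 5) (nat_lit 8) (nat_lit 9) (nat_lit 5) (nat_lit 8) (nat_lit 8) (by decide +kernel)
theorem L24642 : W_1 (nat_lit 3) (nat_lit 0x180004000200030000d0000000000000000000000000000000) (nat_lit 0x0) (nat_lit 0x1000180004000000040000000000000000000000000000000000000000) := T_1 (nat_lit 212) (nat_lit 162) (nat_lit 6) (nat_lit 8) (nat_lit 12) L24641 (by decide +kernel)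
theorem L24643 : W_1 (nat_lit 4) (nat_lit 0x180004000200030000c0000000000000000000000000000000) (nat_lit 0x0) (nat_lit 0x1000180004000000040000000030000000000000000000000000000000) := T_1 (nat_lit 124) (nat_lit 125) (nat_lit 3) (nat_lit 5) (nat_lit 7) L24642 (by decide +kernel)
theorem L24644 : W_1 (nat_lit 5) (nat_lit 0x180004000200010000c0000000000000000000000000000000) (nat_lit 0x0) (nat_lit 0x1000180004000000040002000130000000000000000000000000000000) := T_1 (nat_lit 145) (nat_lit 128) (nat_lit 6) (nat_lit 8) (nat_lit 11) L24643 (by decide +kernel)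
theorem L24645 : W_1 (nat_lit 6) (nat_lit 0x100004000200010000c0000000000000000000000000000000) (nat_lit 0x0) (nat_lit 0x100038000c000000040002000130000000000000000000000000000000) := T_1 (nat_lit 195) (nat_lit 213) (nat_lit 7) (nat_lit 8) (nat_lit 8) L24644 (by decide +kernel)
theorem L24646 : W_1 (nat_lit 7) (nat_lit 0x4000200010000c0000000000000000000000000000000) (nat_lit 0x0) (nat_lit 0x100038001c000800040002000130000000000000000000000000000000) := T_1 (nat_lit 196) (nat_lit 179) (nat_lit 7) (nat_lit 8) (nat_lit 7) L24645 (by decide +kernel)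
theorem L24647 : W_1 (nat_lit 8) (nat_lit 0x400020001000080000000000000000000000000000000) (nat_lit 0x0) (nat_lit 0x100038001c000800040002000170002000000000000000000000000000) := T_1 (nat_lit 126) (nat_lit 109) (nat_lit 4) (nat_lit 8) (nat_lit 10) L24646 (by decide +kernel)
theorem L24648 : W_1 (nat_lit 2) (nat_lit 0x600020001000080004000000000000000000000000000) (nat_lit 0x0) (nat_lit 0x40002000100000000000000000000000) := D_1 (nat_lit 109) (nat_lit 92) (nat_lit 126) (nat_lit 4) (nat_lit 8) (nat_lit 9) (nat_lit 4) (nat_lit 8) (nat_lit 10) (by decide +kernel)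
theorem L24649 : W_1 (nat_lit 3) (nat_lit 0x600020001000080000000000000000000000000000000) (nat_lit 0x0) (nat_lit 0x10000000040006000100000000000000000000000) := T_1 (nat_lit 110) (nat_lit 160) (nat_lit 5) (nat_lit 8) (nat_lit 6) L24648 (by decide +kernel)
theorem L24650 : W_1 (nat_lit 4) (nat_lit 0x400020001000080000000000000000000000000000000) (nat_lit 0x0) (nat_lit 0x4000200010000000040006000100000000000000000000000) := T_1 (nat_lit 177) (nat_lit 194) (nat_lit 5) (nat_lit 8) (nat_lit 7) L24649 (by decide +kernel)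
theorem L24651 : W_1 (nat_lit 2) (nat_lit 0x180004000700030000d0004000000000000000000000000000) (nat_lit 0x0) (nat_lit 0xc004000000000000000000000000000000000000) := D_1 (nat_lit 159) (nat_lit 146) (nat_lit 158) (nat_lit 2) (nat_lit 6) (nat_lit 9) (nat_lit 2) (nat_lit 5) (nat_lit 9) (by decide +kernel)
theorem L24652 : W_1 (nat_lit 3) (nat_lit 0x180004000600030000d0004000000000000000000000000000) (nat_lit 0x0) (nat_lit 0x20001c004000000000000000000000000000000000000) := T_1 (nat_lit 160) (nat_lit 177) (nat_lit 5) (nat_lit 8) (nat_lit 6) L24651 (by decide +kernel)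
theorem L24653 : W_1 (nat_lit 4) (nat_lit 0x180004000600030000d0000000000000000000000000000000) (nat_lit 0x0) (nat_lit 0x20001c004000000004000200000000000000000000000) := T_1 (nat_lit 110) (nat_lit 93) (nat_lit 7) (nat_lit 8) (nat_lit 5) L24652 (by decide +kernel)
theorem L24654 : W_1 (nat_lit 5) (nat_lit 0x180004000200030000d0000000000000000000000000000000) (nat_lit 0x0) (nat_lit 0x10000000020005c004000000004000200000000000000000000000) := T_1 (nat_lit 162) (nat_lit 212) (nat_lit 6) (nat_lit 8) (nat_lit 12) L24653 (by decide +kernel)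
theorem L24655 : W_1 (nat_lit 6) (nat_lit 0x180004000200030000c0000000000000000000000000000000) (nat_lit 0x0) (nat_lit 0x10000000020005c004000030004000200000000000000000000000) := T_1 (nat_lit 124) (nat_lit 125) (nat_lit 3) (nat_lit 5) (nat_lit 7) L24654 (by decide +kernel)
theorem L24656 : W_1 (nat_lit 7) (nat_lit 0x180004000200010000c0000000000000000000000000000000) (nat_lit 0x0) (nat_lit 0x10000000020005c006000130004000200000000000000000000000) := T_1 (nat_lit 145) (nat_lit 128) (nat_lit 6) (nat_lit 8) (nat_lit 11) L24655 (by decide +kernel)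
theorem L24657 : W_1 (nat_lit 8) (nat_lit 0x100004000200010000c0000000000000000000000000000000) (nat_lit 0x0) (nat_lit 0x30000800020005c006000130004000200000000000000000000000) := T_1 (nat_lit 195) (nat_lit 213) (nat_lit 7) (nat_lit 8) (nat_lit 8) L24656 (by decide +kernel)
theorem L24658 : W_1 (nat_lit 9) (nat_lit 0x4000200010000c0000000000000000000000000000000) (nat_lit 0x0) (nat_lit 0x300018000a0005c006000130004000200000000000000000000000) := T_1 (nat_lit 196) (nat_lit 179) (nat_lit 7) (nat_lit 8) (nat_lit 7) L24657 (by decide +kernel)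
theorem L24659 : W_1 (nat_lit 10) (nat_lit 0x400020001000080000000000000000000000000000000) (nat_lit 0x0) (nat_lit 0x300018000a0005c006000170006000200000000000000000000000) := T_1 (nat_lit 126) (nat_lit 109) (nat_lit 4) (nat_lit 8) (nat_lit 10) L24658 (by decide +kernel)
theorem L24660 : W_1 (nat_lit 11) (nat_lit 0x20001000080000000000000000000000000000000) (nat_lit 0x0) (nat_lit 0x100038001c000e0005c006000170006000300000000000000000000000) := Q_1 (nat_lit 178) (C_1 L24631 (C_1 L24556 (C_1 L24647 (C_1 L24650 (C_1 L24659 N_1))))) (by decide +kernel)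
theorem L24661 : W_1 (nat_lit 2) (nat_lit 0x20006000100008000c000000000000000000000000000) (nat_lit 0x0) (nat_lit 0x4000400000000000100000000000000000000000000000000) := D_1 (nat_lit 178) (nat_lit 128) (nat_lit 194) (nat_lit 6) (nat_lit 8) (nat_lit 10) (nat_lit 5) (nat_lit 8) (nat_lit 7) (by decide +kernel)
theorem L24662 : W_1 (nat_lit 3) (nat_lit 0x6000100008000c000000000000000000000000000) (nat_lit 0x0) (nat_lit 0x4000600010000000100000000000000000000000000000000) := T_1 (nat_lit 177) (nat_lit 160) (nat_lit 5) (nat_lit 8) (nat_lit 6) L24661 (by decide +kernel)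
theorem L24663 : W_1 (nat_lit 4) (nat_lit 0x60001000080004000000000000000000000000000) (nat_lit 0x0) (nat_lit 0x4000600010000000100008000400000000000000000000000) := T_1 (nat_lit 111) (nat_lit 94) (nat_lit 6) (nat_lit 8) (nat_lit 9) L24662 (by decide +kernel)
theorem L24664 : W_1 (nat_lit 5) (nat_lit 0x20001000080004000000000000000000000000000) (nat_lit 0x0) (nat_lit 0x4000e00050000000100008000400000000000000000000000) := T_1 (nat_lit 162) (nat_lit 179) (nat_lit 7) (nat_lit 8) (nat_lit 6) L24663 (by decide +kernel)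
theorem L24665 : W_1 (nat_lit 2) (nat_lit 0x400060001000080006000000000000000000000000000) (nat_lit 0x0) (nat_lit 0x4000200010000000000000000000000000000000000000000) := D_1 (nat_lit 177) (nat_lit 160) (nat_lit 194) (nat_lit 5) (nat_lit 8) (nat_lit 6) (nat_lit 5) (nat_lit 8) (nat_lit 7) (by decide +kernel)
theorem L24666 : W_1 (nat_lit 3) (nat_lit 0x60001000080006000000000000000000000000000) (nat_lit 0x0) (nat_lit 0x4000600010000000040000000000000000000000000000000) := T_1 (nat_lit 178) (nat_lit 126) (nat_lit 4) (nat_lit 8) (nat_lit 10) L24665 (by decide +kernel)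
theorem L24667 : W_1 (nat_lit 4) (nat_lit 0x20001000080006000000000000000000000000000) (nat_lit 0x0) (nat_lit 0x4000e00050000000040000000000000000000000000000000) := T_1 (nat_lit 162) (nat_lit 179) (nat_lit 7) (nat_lit 8) (nat_lit 6) L24666 (by decide +kernel)
theorem L24668 : W_1 (nat_lit 5) (nat_lit 0x20001000080004000000000000000000000000000) (nat_lit 0x0) (nat_lit 0x4000e00050000000040002000100000000000000000000000) := T_1 (nat_lit 109) (nat_lit 92) (nat_lit 4) (nat_lit 8) (nat_lit 9) L24667 (by decide +kernel)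
theorem L24669 : W_1 (nat_lit 2) (nat_lit 0x30001000080004000600000000000000000000000) (nat_lit 0x0) (nat_lit 0x2000100008000000000000000000) := D_1 (nat_lit 92) (nat_lit 75) (nat_lit 109) (nat_lit 4) (nat_lit 8) (nat_lit 8) (nat_lit 4) (nat_lit 8) (nat_lit 9) (by decide +kernel)
theorem L24670 : W_1 (nat_lit 3) (nat_lit 0x30001000080004000400000000000000000000000) (nat_lit 0x0) (nat_lit 0x2000300028000000000000000000) := T_1 (nat_lit 93) (nat_lit 77) (nat_lit 6) (nat_lit 8) (nat_lit 8) L24669 (by decide +kernel)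
theorem L24671 : W_1 (nat_lit 4) (nat_lit 0x30001000080004000000000000000000000000000) (nat_lit 0x0) (nat_lit 0xa000700028000000000000000000) := T_1 (nat_lit 94) (nat_lit 111) (nat_lit 6) (nat_lit 8) (nat_lit 9) L24670 (by decide +kernel)
theorem L24672 : W_1 (nat_lit 5) (nat_lit 0x20001000080004000000000000000000000000000) (nat_lit 0x0) (nat_lit 0x20001000000000000a000700028000000000000000000) := T_1 (nat_lit 160) (nat_lit 177) (nat_lit 5) (nat_lit 8) (nat_lit 6) L24671 (by decide +kernel)
theorem L24673 : W_1 (nat_lit 6) (nat_lit 0x20001000080000000000000000000000000000000) (nat_lit 0x0) (nat_lit 0x4000e0005000000014000e000700028000000000000000000) := Q_1 (nat_lit 110) (C_1 L24624 (C_1 L24612 (C_1 L24664 (C_1 L24668 (C_1 L24672 N_1))))) (by decide +kernel)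
theorem L24674 : W_1 (nat_lit 2) (nat_lit 0x3800300008000e000000000000000000000000000) (nat_lit 0x0) (nat_lit 0x800040004000000000000000000000000000000000000) := D_1 (nat_lit 162) (nat_lit 179) (nat_lit 146) (nat_lit 7) (nat_lit 8) (nat_lit 6) (nat_lit 2) (nat_lit 6) (nat_lit 9) (by decide +kernel)
theorem L24675 : W_1 (nat_lit 3) (nat_lit 0x3000300008000e000000000000000000000000000) (nat_lit 0x0) (nat_lit 0x80004c004000000000000000000000000000000000000) := T_1 (nat_lit 159) (nat_lit 158) (nat_lit 2) (nat_lit 5) (nat_lit 9) L24674 (by decide +kernel)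
theorem L24676 : W_1 (nat_lit 4) (nat_lit 0x2000300008000e000000000000000000000000000) (nat_lit 0x0) (nat_lit 0xa0005c004000000000000000000000000000000000000) := T_1 (nat_lit 160) (nat_lit 177) (nat_lit 5) (nat_lit 8) (nat_lit 6) L24675 (by decide +kernel)
theorem L24677 : W_1 (nat_lit 5) (nat_lit 0x20003000080006000000000000000000000000000) (nat_lit 0x0) (nat_lit 0xa0005c004000000008000400000000000000000000000) := T_1 (nat_lit 111) (nat_lit 94) (nat_lit 6) (nat_lit 8) (nat_lit 9) L24676 (by decide +kernel)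
theorem L24678 : W_1 (nat_lit 6) (nat_lit 0x20003000080004000000000000000000000000000) (nat_lit 0x0) (nat_lit 0xa0005c00400000000a000500000000000000000000000) := T_1 (nat_lit 109) (nat_lit 92) (nat_lit 4) (nat_lit 8) (nat_lit 9) L24677 (by decide +kernel)
theorem L24679 : W_1 (nat_lit 2) (nat_lit 0x600030000b0006000000000000000000000000000) (nat_lit 0x0) (nat_lit 0x9000400000000000000000000000) := D_1 (nat_lit 111) (nat_lit 108) (nat_lit 94) (nat_lit 1) (nat_lit 9) (nat_lit 6) (nat_lit 6) (nat_lit 8) (nat_lit 9) (by decide +kernel)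
theorem L24680 : W_1 (nat_lit 3) (nat_lit 0x600030000b0004000000000000000000000000000) (nat_lit 0x0) (nat_lit 0xb000500000000000000000000000) := T_1 (nat_lit 109) (nat_lit 92) (nat_lit 4) (nat_lit 8) (nat_lit 9) L24679 (by decide +kernel)
theorem L24681 : W_1 (nat_lit 4) (nat_lit 0x600030000a0004000000000000000000000000000) (nat_lit 0x0) (nat_lit 0x5000b000500000000000000000000000) := T_1 (nat_lit 124) (nat_lit 126) (nat_lit 3) (nat_lit 5) (nat_lit 7) L24680 (by decide +kernel)
theorem L24682 : W_1 (nat_lit 5) (nat_lit 0x200030000a0004000000000000000000000000000) (nat_lit 0x0) (nat_lit 0x80004000000005000b000500000000000000000000000) := T_1 (nat_lit 162) (nat_lit 179) (nat_lit 7) (nat_lit 8) (nat_lit 6) L24681 (by decide +kernel)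
theorem L24683 : W_1 (nat_lit 2) (nat_lit 0x200030000b000c000000000000000000000000000) (nat_lit 0x0) (nat_lit 0x3000100000000000000000000000) := D_1 (nat_lit 109) (nat_lit 108) (nat_lit 92) (nat_lit 1) (nat_lit 9) (nat_lit 6) (nat_lit 4) (nat_lit 8) (nat_lit 9) (by decide +kernel)
theorem L24684 : W_1 (nat_lit 3) (nat_lit 0x200030000a000c000000000000000000000000000) (nat_lit 0x0) (nat_lit 0x50003000100000000000000000000000) := T_1 (nat_lit 124) (nat_lit 126) (nat_lit 3) (nat_lit 5) (nat_lit 7) L24683 (by decide +kernel)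
theorem L24685 : W_1 (nat_lit 4) (nat_lit 0x200030000a0004000000000000000000000000000) (nat_lit 0x0) (nat_lit 0x5000b000500000000000000000000000) := T_1 (nat_lit 111) (nat_lit 94) (nat_lit 6) (nat_lit 8) (nat_lit 9) L24684 (by decide +kernel)
theorem L24686 : W_1 (nat_lit 2) (nat_lit 0x600030000e000c000000000000000000000000000) (nat_lit 0x0) (nat_lit 0x4000100010000000000000000000000000000) := D_1 (nat_lit 128) (nat_lit 112) (nat_lit 146) (nat_lit 2) (nat_lit 6) (nat_lit 7) (nat_lit 3) (nat_lit 6) (nat_lit 7) (by decide +kernel)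
theorem L24687 : W_1 (nat_lit 3) (nat_lit 0x600030000a000c000000000000000000000000000) (nat_lit 0x0) (nat_lit 0x4000150010000000000000000000000000000) := T_1 (nat_lit 126) (nat_lit 124) (nat_lit 3) (nat_lit 5) (nat_lit 7) L24686 (by decide +kernel)
theorem L24688 : W_1 (nat_lit 4) (nat_lit 0x600030000a0004000000000000000000000000000) (nat_lit 0x0) (nat_lit 0x4000150018000400000000000000000000000) := T_1 (nat_lit 111) (nat_lit 94) (nat_lit 6) (nat_lit 8) (nat_lit 9) L24687 (by decide +kernel)
theorem L24689 : W_1 (nat_lit 5) (nat_lit 0x200030000a0004000000000000000000000000000) (nat_lit 0x0) (nat_lit 0x800040004000150018000400000000000000000000000) := T_1 (nat_lit 162) (nat_lit 179) (nat_lit 7) (nat_lit 8) (nat_lit 6) L24688 (by decide +kernel)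
theorem L24690 : W_1 (nat_lit 2) (nat_lit 0x700030000a000f000000000000000000000000000) (nat_lit 0x0) (nat_lit 0x300000800000000000000000000000000) := D_1 (nat_lit 128) (nat_lit 107) (nat_lit 129) (nat_lit 3) (nat_lit 5) (nat_lit 6) (nat_lit 3) (nat_lit 6) (nat_lit 6) (by decide +kernel)
theorem L24691 : W_1 (nat_lit 3) (nat_lit 0x700030000a000e000000000000000000000000000) (nat_lit 0x0) (nat_lit 0x310001800000000000000000000000000) := T_1 (nat_lit 108) (nat_lit 124) (nat_lit 1) (nat_lit 9) (nat_lit 6) L24690 (by decide +kernel)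
theorem L24692 : W_1 (nat_lit 4) (nat_lit 0x700030000a000c000000000000000000000000000) (nat_lit 0x0) (nat_lit 0x310003800100000000000000000000000) := T_1 (nat_lit 109) (nat_lit 92) (nat_lit 4) (nat_lit 8) (nat_lit 9) L24691 (by decide +kernel)
theorem L24693 : W_1 (nat_lit 5) (nat_lit 0x700030000a0004000000000000000000000000000) (nat_lit 0x0) (nat_lit 0x31000b800500000000000000000000000) := T_1 (nat_lit 111) (nat_lit 94) (nat_lit 6) (nat_lit 8) (nat_lit 9) L24692 (by decide +kernel)
theorem L24694 : W_1 (nat_lit 6) (nat_lit 0x300030000a0004000000000000000000000000000) (nat_lit 0x0) (nat_lit 0x80004000000031000b800500000000000000000000000) := T_1 (nat_lit 162) (nat_lit 179) (nat_lit 7) (nat_lit 8) (nat_lit 6) L24693 (by decide +kernel)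
theorem L24695 : W_1 (nat_lit 7) (nat_lit 0x200030000a0004000000000000000000000000000) (nat_lit 0x0) (nat_lit 0xa0005000000031000b800500000000000000000000000) := T_1 (nat_lit 160) (nat_lit 177) (nat_lit 5) (nat_lit 8) (nat_lit 6) L24694 (by decide +kernel)
theorem L24696 : W_1 (nat_lit 2) (nat_lit 0x700030001e0006000000000000000000000000000) (nat_lit 0x0) (nat_lit 0x200001800000000000000000000000000) := D_1 (nat_lit 108) (nat_lit 107) (nat_lit 129) (nat_lit 3) (nat_lit 5) (nat_lit 6) (nat_lit 0) (nat_lit 10) (nat_lit 7) (by decide +kernel)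
theorem L24697 : W_1 (nat_lit 3) (nat_lit 0x700030000e0006000000000000000000000000000) (nat_lit 0x0) (nat_lit 0x4000300001800000000000000000000000000) := T_1 (nat_lit 128) (nat_lit 146) (nat_lit 3) (nat_lit 6) (nat_lit 7) L24696 (by decide +kernel)
theorem L24698 : W_1 (nat_lit 4) (nat_lit 0x700030000a0006000000000000000000000000000) (nat_lit 0x0) (nat_lit 0x4000350001800000000000000000000000000) := T_1 (nat_lit 126) (nat_lit 124) (nat_lit 3) (nat_lit 5) (nat_lit 7) L24697 (by decide +kernel)
theorem L24699 : W_1 (nat_lit 5) (nat_lit 0x300030000a0006000000000000000000000000000) (nat_lit 0x0) (nat_lit 0x800040004000350001800000000000000000000000000) := T_1 (nat_lit 162) (nat_lit 179) (nat_lit 7) (nat_lit 8) (nat_lit 6) L24698 (by decide +kernel)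
theorem L24700 : W_1 (nat_lit 6) (nat_lit 0x200030000a0006000000000000000000000000000) (nat_lit 0x0) (nat_lit 0xa00050004000350001800000000000000000000000000) := T_1 (nat_lit 160) (nat_lit 177) (nat_lit 5) (nat_lit 8) (nat_lit 6) L24699 (by decide +kernel)
theorem L24701 : W_1 (nat_lit 7) (nat_lit 0x200030000a0004000000000000000000000000000) (nat_lit 0x0) (nat_lit 0xa00050004000350003800100000000000000000000000) := T_1 (nat_lit 109) (nat_lit 92) (nat_lit 4) (nat_lit 8) (nat_lit 9) L24700 (by decide +kernel)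
theorem L24702 : W_1 (nat_lit 2) (nat_lit 0x700030001a001e000000000000000000000000000) (nat_lit 0x0) (nat_lit 0x200001800000000000000000000000000) := D_1 (nat_lit 108) (nat_lit 129) (nat_lit 107) (nat_lit 3) (nat_lit 6) (nat_lit 6) (nat_lit 3) (nat_lit 5) (nat_lit 6) (by decide +kernel)
theorem L24703 : W_1 (nat_lit 3) (nat_lit 0x700030000a001e000000000000000000000000000) (nat_lit 0x0) (nat_lit 0x300001800800000000000000000000000) := T_1 (nat_lit 128) (nat_lit 95) (nat_lit 6) (nat_lit 9) (nat_lit 9) L24702 (by decide +kernel)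
theorem L24704 : W_1 (nat_lit 4) (nat_lit 0x300030000a001e000000000000000000000000000) (nat_lit 0x0) (nat_lit 0x800040000000300001800800000000000000000000000) := T_1 (nat_lit 162) (nat_lit 179) (nat_lit 7) (nat_lit 8) (nat_lit 6) L24703 (by decide +kernel)
theorem L24705 : W_1 (nat_lit 5) (nat_lit 0x200030000a001e000000000000000000000000000) (nat_lit 0x0) (nat_lit 0xa00050000000300001800800000000000000000000000) := T_1 (nat_lit 160) (nat_lit 177) (nat_lit 5) (nat_lit 8) (nat_lit 6) L24704 (by decide +kernel)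
theorem L24706 : W_1 (nat_lit 6) (nat_lit 0x200030000a000e000000000000000000000000000) (nat_lit 0x0) (nat_lit 0xa00050000000340011800800000000000000000000000) := T_1 (nat_lit 112) (nat_lit 126) (nat_lit 1) (nat_lit 10) (nat_lit 6) L24705 (by decide +kernel)
theorem L24707 : W_1 (nat_lit 7) (nat_lit 0x200030000a000c000000000000000000000000000) (nat_lit 0x0) (nat_lit 0xa00050000000340013800900000000000000000000000) := T_1 (nat_lit 109) (nat_lit 92) (nat_lit 4) (nat_lit 8) (nat_lit 9) L24706 (by decide +kernel)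
theorem L24708 : W_1 (nat_lit 8) (nat_lit 0x200030000a0004000000000000000000000000000) (nat_lit 0x0) (nat_lit 0xa0005000000034001b800d00000000000000000000000) := T_1 (nat_lit 111) (nat_lit 94) (nat_lit 6) (nat_lit 8) (nat_lit 9) L24707 (by decide +kernel)
theorem L24709 : W_1 (nat_lit 9) (nat_lit 0x20003000080004000000000000000000000000000) (nat_lit 0x0) (nat_lit 0xa0005000400037001b800d00000000000000000000000) := Q_1 (nat_lit 125) (C_1 L24682 (C_1 L24685 (C_1 L24689 (C_1 L24695 (C_1 L24701 (C_1 L24708 N_1)))))) (by decide +kernel)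
theorem L24710 : W_1 (nat_lit 2) (nat_lit 0x200030000e000c000000000000000000000000000) (nat_lit 0x0) (nat_lit 0x4000100010000000000000000000000000000) := D_1 (nat_lit 128) (nat_lit 112) (nat_lit 146) (nat_lit 2) (nat_lit 6) (nat_lit 7) (nat_lit 3) (nat_lit 6) (nat_lit 7) (by decide +kernel)
theorem L24711 : W_1 (nat_lit 3) (nat_lit 0x200030000a000c000000000000000000000000000) (nat_lit 0x0) (nat_lit 0x4000150010000000000000000000000000000) := T_1 (nat_lit 126) (nat_lit 124) (nat_lit 3) (nat_lit 5) (nat_lit 7) L24710 (by decide +kernel)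
theorem L24712 : W_1 (nat_lit 4) (nat_lit 0x200030000a0004000000000000000000000000000) (nat_lit 0x0) (nat_lit 0x4000150018000400000000000000000000000) := T_1 (nat_lit 111) (nat_lit 94) (nat_lit 6) (nat_lit 8) (nat_lit 9) L24711 (by decide +kernel)
theorem L24713 : W_1 (nat_lit 2) (nat_lit 0x340030000a000f000000000000000000000000000) (nat_lit 0x0) (nat_lit 0x300000800000000000000000000000000) := D_1 (nat_lit 128) (nat_lit 107) (nat_lit 129) (nat_lit 3) (nat_lit 5) (nat_lit 6) (nat_lit 3) (nat_lit 6) (nat_lit 6) (by decide +kernel)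
theorem L24714 : W_1 (nat_lit 3) (nat_lit 0x340030000a000e000000000000000000000000000) (nat_lit 0x0) (nat_lit 0x310001800000000000000000000000000) := T_1 (nat_lit 108) (nat_lit 124) (nat_lit 1) (nat_lit 9) (nat_lit 6) L24713 (by decide +kernel)
theorem L24715 : W_1 (nat_lit 4) (nat_lit 0x340030000a000c000000000000000000000000000) (nat_lit 0x0) (nat_lit 0x310003800100000000000000000000000) := T_1 (nat_lit 109) (nat_lit 92) (nat_lit 4) (nat_lit 8) (nat_lit 9) L24714 (by decide +kernel)
theorem L24716 : W_1 (nat_lit 5) (nat_lit 0x340030000a0004000000000000000000000000000) (nat_lit 0x0) (nat_lit 0x31000b800500000000000000000000000) := T_1 (nat_lit 111) (nat_lit 94) (nat_lit 6) (nat_lit 8) (nat_lit 9) L24715 (by decide +kernel)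
theorem L24717 : W_1 (nat_lit 6) (nat_lit 0x300030000a0004000000000000000000000000000) (nat_lit 0x0) (nat_lit 0xc00000031000b800500000000000000000000000) := T_1 (nat_lit 158) (nat_lit 159) (nat_lit 2) (nat_lit 5) (nat_lit 9) L24716 (by decide +kernel)
theorem L24718 : W_1 (nat_lit 7) (nat_lit 0x200030000a0004000000000000000000000000000) (nat_lit 0x0) (nat_lit 0x20001c00000031000b800500000000000000000000000) := T_1 (nat_lit 160) (nat_lit 177) (nat_lit 5) (nat_lit 8) (nat_lit 6) L24717 (by decide +kernel)
theorem L24719 : W_1 (nat_lit 2) (nat_lit 0x340030001e0006000000000000000000000000000) (nat_lit 0x0) (nat_lit 0x200001800000000000000000000000000) := D_1 (nat_lit 108) (nat_lit 107) (nat_lit 129) (nat_lit 3) (nat_lit 5) (nat_lit 6) (nat_lit 0) (nat_lit 10) (nat_lit 7) (by decide +kernel)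
theorem L24720 : W_1 (nat_lit 3) (nat_lit 0x340030000e0006000000000000000000000000000) (nat_lit 0x0) (nat_lit 0x4000300001800000000000000000000000000) := T_1 (nat_lit 128) (nat_lit 146) (nat_lit 3) (nat_lit 6) (nat_lit 7) L24719 (by decide +kernel)
theorem L24721 : W_1 (nat_lit 4) (nat_lit 0x340030000a0006000000000000000000000000000) (nat_lit 0x0) (nat_lit 0x4000350001800000000000000000000000000) := T_1 (nat_lit 126) (nat_lit 124) (nat_lit 3) (nat_lit 5) (nat_lit 7) L24720 (by decide +kernel)
theorem L24722 : W_1 (nat_lit 5) (nat_lit 0x300030000a0006000000000000000000000000000) (nat_lit 0x0) (nat_lit 0xc004000350001800000000000000000000000000) := T_1 (nat_lit 158) (nat_lit 159) (nat_lit 2) (nat_lit 5) (nat_lit 9) L24721 (by decide +kernel)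
theorem L24723 : W_1 (nat_lit 6) (nat_lit 0x200030000a0006000000000000000000000000000) (nat_lit 0x0) (nat_lit 0x20001c004000350001800000000000000000000000000) := T_1 (nat_lit 160) (nat_lit 177) (nat_lit 5) (nat_lit 8) (nat_lit 6) L24722 (by decide +kernel)
theorem L24724 : W_1 (nat_lit 7) (nat_lit 0x200030000a0004000000000000000000000000000) (nat_lit 0x0) (nat_lit 0x20001c004000350003800100000000000000000000000) := T_1 (nat_lit 109) (nat_lit 92) (nat_lit 4) (nat_lit 8) (nat_lit 9) L24723 (by decide +kernel)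
theorem L24725 : W_1 (nat_lit 2) (nat_lit 0x340030001e000e000000000000000000000000000) (nat_lit 0x0) (nat_lit 0x200001800000000000000000000000000) := D_1 (nat_lit 108) (nat_lit 129) (nat_lit 107) (nat_lit 3) (nat_lit 6) (nat_lit 6) (nat_lit 3) (nat_lit 5) (nat_lit 6) (by decide +kernel)
theorem L24726 : W_1 (nat_lit 3) (nat_lit 0x340030000e000e000000000000000000000000000) (nat_lit 0x0) (nat_lit 0x4000300001800000000000000000000000000) := T_1 (nat_lit 128) (nat_lit 146) (nat_lit 3) (nat_lit 6) (nat_lit 7) L24725 (by decide +kernel)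
theorem L24727 : W_1 (nat_lit 4) (nat_lit 0x300030000e000e000000000000000000000000000) (nat_lit 0x0) (nat_lit 0xc004000300001800000000000000000000000000) := T_1 (nat_lit 158) (nat_lit 159) (nat_lit 2) (nat_lit 5) (nat_lit 9) L24726 (by decide +kernel)
theorem L24728 : W_1 (nat_lit 5) (nat_lit 0x200030000e000e000000000000000000000000000) (nat_lit 0x0) (nat_lit 0x20001c004000300001800000000000000000000000000) := T_1 (nat_lit 160) (nat_lit 177) (nat_lit 5) (nat_lit 8) (nat_lit 6) L24727 (by decide +kernel)
theorem L24729 : W_1 (nat_lit 6) (nat_lit 0x200030000a000e000000000000000000000000000) (nat_lit 0x0) (nat_lit 0x20001c004000340011800000000000000000000000000) := T_1 (nat_lit 126) (nat_lit 112) (nat_lit 1) (nat_lit 10) (nat_lit 6) L24728 (by decide +kernel)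
theorem L24730 : W_1 (nat_lit 7) (nat_lit 0x200030000a000c000000000000000000000000000) (nat_lit 0x0) (nat_lit 0x20001c004000340013800100000000000000000000000) := T_1 (nat_lit 109) (nat_lit 92) (nat_lit 4) (nat_lit 8) (nat_lit 9) L24729 (by decide +kernel)
theorem L24731 : W_1 (nat_lit 8) (nat_lit 0x200030000a0004000000000000000000000000000) (nat_lit 0x0) (nat_lit 0x20001c00400034001b800500000000000000000000000) := T_1 (nat_lit 111) (nat_lit 94) (nat_lit 6) (nat_lit 8) (nat_lit 9) L24730 (by decide +kernel)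
theorem L24732 : W_1 (nat_lit 9) (nat_lit 0x20003000080004000000000000000000000000000) (nat_lit 0x0) (nat_lit 0x20001c00400037001b800500000000000000000000000) := Q_1 (nat_lit 125) (C_1 L24685 (C_1 L24712 (C_1 L24718 (C_1 L24724 (C_1 L24731 N_1))))) (by decide +kernel)
theorem L24733 : W_1 (nat_lit 2) (nat_lit 0x600030000a000f000000000000000000000000000) (nat_lit 0x0) (nat_lit 0x300000800000000000000000000000000) := D_1 (nat_lit 128) (nat_lit 107) (nat_lit 129) (nat_lit 3) (nat_lit 5) (nat_lit 6) (nat_lit 3) (nat_lit 6) (nat_lit 6) (by decide +kernel)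
theorem L24734 : W_1 (nat_lit 3) (nat_lit 0x600030000a000e000000000000000000000000000) (nat_lit 0x0) (nat_lit 0x310001800000000000000000000000000) := T_1 (nat_lit 108) (nat_lit 124) (nat_lit 1) (nat_lit 9) (nat_lit 6) L24733 (by decide +kernel)
theorem L24735 : W_1 (nat_lit 4) (nat_lit 0x600030000a000c000000000000000000000000000) (nat_lit 0x0) (nat_lit 0x310003800100000000000000000000000) := T_1 (nat_lit 109) (nat_lit 92) (nat_lit 4) (nat_lit 8) (nat_lit 9) L24734 (by decide +kernel)
theorem L24736 : W_1 (nat_lit 5) (nat_lit 0x600030000a0004000000000000000000000000000) (nat_lit 0x0) (nat_lit 0x31000b800500000000000000000000000) := T_1 (nat_lit 111) (nat_lit 94) (nat_lit 6) (nat_lit 8) (nat_lit 9) L24735 (by decide +kernel)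
theorem L24737 : W_1 (nat_lit 6) (nat_lit 0x200030000a0004000000000000000000000000000) (nat_lit 0x0) (nat_lit 0x80004000000031000b800500000000000000000000000) := T_1 (nat_lit 162) (nat_lit 179) (nat_lit 7) (nat_lit 8) (nat_lit 6) L24736 (by decide +kernel)
theorem L24738 : W_1 (nat_lit 2) (nat_lit 0x600030001e0006000000000000000000000000000) (nat_lit 0x0) (nat_lit 0x200001800000000000000000000000000) := D_1 (nat_lit 108) (nat_lit 107) (nat_lit 129) (nat_lit 3) (nat_lit 5) (nat_lit 6) (nat_lit 0) (nat_lit 10) (nat_lit 7) (by decide +kernel)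
theorem L24739 : W_1 (nat_lit 3) (nat_lit 0x600030000e0006000000000000000000000000000) (nat_lit 0x0) (nat_lit 0x4000300001800000000000000000000000000) := T_1 (nat_lit 128) (nat_lit 146) (nat_lit 3) (nat_lit 6) (nat_lit 7) L24738 (by decide +kernel)
theorem L24740 : W_1 (nat_lit 4) (nat_lit 0x600030000a0006000000000000000000000000000) (nat_lit 0x0) (nat_lit 0x4000350001800000000000000000000000000) := T_1 (nat_lit 126) (nat_lit 124) (nat_lit 3) (nat_lit 5) (nat_lit 7) L24739 (by decide +kernel)
theorem L24741 : W_1 (nat_lit 5) (nat_lit 0x200030000a0006000000000000000000000000000) (nat_lit 0x0) (nat_lit 0x800040004000350001800000000000000000000000000) := T_1 (nat_lit 162) (nat_lit 179) (nat_lit 7) (nat_lit 8) (nat_lit 6) L24740 (by decide +kernel)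
theorem L24742 : W_1 (nat_lit 6) (nat_lit 0x200030000a0004000000000000000000000000000) (nat_lit 0x0) (nat_lit 0x800040004000350003800100000000000000000000000) := T_1 (nat_lit 109) (nat_lit 92) (nat_lit 4) (nat_lit 8) (nat_lit 9) L24741 (by decide +kernel)
theorem L24743 : W_1 (nat_lit 2) (nat_lit 0x600030001a001e000000000000000000000000000) (nat_lit 0x0) (nat_lit 0x200001800000000000000000000000000) := D_1 (nat_lit 108) (nat_lit 129) (nat_lit 107) (nat_lit 3) (nat_lit 6) (nat_lit 6) (nat_lit 3) (nat_lit 5) (nat_lit 6) (by decide +kernel)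
theorem L24744 : W_1 (nat_lit 3) (nat_lit 0x600030000a001e000000000000000000000000000) (nat_lit 0x0) (nat_lit 0x300001800800000000000000000000000) := T_1 (nat_lit 128) (nat_lit 95) (nat_lit 6) (nat_lit 9) (nat_lit 9) L24743 (by decide +kernel)
theorem L24745 : W_1 (nat_lit 4) (nat_lit 0x200030000a001e000000000000000000000000000) (nat_lit 0x0) (nat_lit 0x800040000000300001800800000000000000000000000) := T_1 (nat_lit 162) (nat_lit 179) (nat_lit 7) (nat_lit 8) (nat_lit 6) L24744 (by decide +kernel)
theorem L24746 : W_1 (nat_lit 5) (nat_lit 0x200030000a000e000000000000000000000000000) (nat_lit 0x0) (nat_lit 0x800040000000340011800800000000000000000000000) := T_1 (nat_lit 112) (nat_lit 126) (nat_lit 1) (nat_lit 10) (nat_lit 6) L24745 (by decide +kernel)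
theorem L24747 : W_1 (nat_lit 6) (nat_lit 0x200030000a000c000000000000000000000000000) (nat_lit 0x0) (nat_lit 0x800040000000340013800900000000000000000000000) := T_1 (nat_lit 109) (nat_lit 92) (nat_lit 4) (nat_lit 8) (nat_lit 9) L24746 (by decide +kernel)
theorem L24748 : W_1 (nat_lit 7) (nat_lit 0x200030000a0004000000000000000000000000000) (nat_lit 0x0) (nat_lit 0x80004000000034001b800d00000000000000000000000) := T_1 (nat_lit 111) (nat_lit 94) (nat_lit 6) (nat_lit 8) (nat_lit 9) L24747 (by decide +kernel)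
theorem L24749 : W_1 (nat_lit 8) (nat_lit 0x20003000080004000000000000000000000000000) (nat_lit 0x0) (nat_lit 0x80004000400037001b800d00000000000000000000000) := Q_1 (nat_lit 125) (C_1 L24712 (C_1 L24685 (C_1 L24737 (C_1 L24742 (C_1 L24748 N_1))))) (by decide +kernel)
theorem L24750 : W_1 (nat_lit 3) (nat_lit 0x6000300008000c000000000000000000000000000) (nat_lit 0x0) (nat_lit 0x20001c004000000000000000000000000000000000000) := T_1 (nat_lit 160) (nat_lit 177) (nat_lit 5) (nat_lit 8) (nat_lit 6) L24613 (by decide +kernel)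
theorem L24751 : W_1 (nat_lit 4) (nat_lit 0x60003000080004000000000000000000000000000) (nat_lit 0x0) (nat_lit 0x20001c004000000008000400000000000000000000000) := T_1 (nat_lit 111) (nat_lit 94) (nat_lit 6) (nat_lit 8) (nat_lit 9) L24750 (by decide +kernel)
theorem L24752 : W_1 (nat_lit 5) (nat_lit 0x20003000080004000000000000000000000000000) (nat_lit 0x0) (nat_lit 0xa0005c004000000008000400000000000000000000000) := T_1 (nat_lit 162) (nat_lit 179) (nat_lit 7) (nat_lit 8) (nat_lit 6) L24751 (by decide +kernel)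
theorem L24753 : W_1 (nat_lit 2) (nat_lit 0x38003000080004000000000000000000000000000) (nat_lit 0x0) (nat_lit 0x800040004000000000000000000000000000000000000) := D_1 (nat_lit 162) (nat_lit 179) (nat_lit 146) (nat_lit 7) (nat_lit 8) (nat_lit 6) (nat_lit 2) (nat_lit 6) (nat_lit 9) (by decide +kernel)
theorem L24754 : W_1 (nat_lit 3) (nat_lit 0x30003000080004000000000000000000000000000) (nat_lit 0x0) (nat_lit 0x80004c004000000000000000000000000000000000000) := T_1 (nat_lit 159) (nat_lit 158) (nat_lit 2) (nat_lit 5) (nat_lit 9) L24753 (by decide +kernel)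
theorem L24755 : W_1 (nat_lit 4) (nat_lit 0x20003000080004000000000000000000000000000) (nat_lit 0x0) (nat_lit 0xa0005c004000000000000000000000000000000000000) := T_1 (nat_lit 160) (nat_lit 177) (nat_lit 5) (nat_lit 8) (nat_lit 6) L24754 (by decide +kernel)
theorem L24756 : W_1 (nat_lit 2) (nat_lit 0x1000780034000a000e000000000000000000000000000) (nat_lit 0x0) (nat_lit 0x10001800000000000000000000000000) := D_1 (nat_lit 124) (nat_lit 107) (nat_lit 108) (nat_lit 4) (nat_lit 6) (nat_lit 10) (nat_lit 1) (nat_lit 9) (nat_lit 6) (by decide +kernel)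
theorem L24757 : W_1 (nat_lit 3) (nat_lit 0x10007800340008000e000000000000000000000000000) (nat_lit 0x0) (nat_lit 0x70001800000000000000000000000000) := T_1 (nat_lit 125) (nat_lit 126) (nat_lit 6) (nat_lit 6) (nat_lit 10) L24756 (by decide +kernel)
theorem L24758 : W_1 (nat_lit 4) (nat_lit 0x7800340008000e000000000000000000000000000) (nat_lit 0x0) (nat_lit 0x180000000000070001800000000000000000000000000) := T_1 (nat_lit 176) (nat_lit 175) (nat_lit 1) (nat_lit 9) (nat_lit 9) L24757 (by decide +kernel)
theorem L24759 : W_1 (nat_lit 5) (nat_lit 0x7800300008000e000000000000000000000000000) (nat_lit 0x0) (nat_lit 0x180000000600070001800000000000000000000000000) := T_1 (nat_lit 142) (nat_lit 141) (nat_lit 0) (nat_lit 9) (nat_lit 9) L24758 (by decide +kernel)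
theorem L24760 : W_1 (nat_lit 6) (nat_lit 0x7800300008000c000000000000000000000000000) (nat_lit 0x0) (nat_lit 0x180000000600070003800100000000000000000000000) := T_1 (nat_lit 109) (nat_lit 92) (nat_lit 4) (nat_lit 8) (nat_lit 9) L24759 (by decide +kernel)
theorem L24761 : W_1 (nat_lit 7) (nat_lit 0x7000300008000c000000000000000000000000000) (nat_lit 0x0) (nat_lit 0x18000c000600070003800100000000000000000000000) := T_1 (nat_lit 159) (nat_lit 158) (nat_lit 2) (nat_lit 5) (nat_lit 9) L24760 (by decide +kernel)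
theorem L24762 : W_1 (nat_lit 8) (nat_lit 0x6000300008000c000000000000000000000000000) (nat_lit 0x0) (nat_lit 0x38001c000600070003800100000000000000000000000) := T_1 (nat_lit 160) (nat_lit 177) (nat_lit 5) (nat_lit 8) (nat_lit 6) L24761 (by decide +kernel)
theorem L24763 : W_1 (nat_lit 9) (nat_lit 0x60003000080004000000000000000000000000000) (nat_lit 0x0) (nat_lit 0x38001c00060007000b800500000000000000000000000) := T_1 (nat_lit 111) (nat_lit 94) (nat_lit 6) (nat_lit 8) (nat_lit 9) L24762 (by decide +kernel)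
theorem L24764 : W_1 (nat_lit 10) (nat_lit 0x20003000080004000000000000000000000000000) (nat_lit 0x0) (nat_lit 0xb8005c00060007000b800500000000000000000000000) := T_1 (nat_lit 162) (nat_lit 179) (nat_lit 7) (nat_lit 8) (nat_lit 6) L24763 (by decide +kernel)
theorem L24765 : W_1 (nat_lit 11) (nat_lit 0x20001000080004000000000000000000000000000) (nat_lit 0x0) (nat_lit 0xb8005c00660037001b800d00000000000000000000000) := Q_1 (nat_lit 145) (C_1 L24678 (C_1 L24709 (C_1 L24732 (C_1 L24749 (C_1 L24752 (C_1 L24755 (C_1 L24764 N_1))))))) (by decide +kernel)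
theorem L24766 : W_1 (nat_lit 12) (nat_lit 0x20001000080000000000000000000000000000000) (nat_lit 0x0) (nat_lit 0xb8005c00660037001f800f00028000000000000000000) := Q_1 (nat_lit 110) (C_1 L24672 (C_1 L24627 (C_1 L24620 (C_1 L24765 N_1)))) (by decide +kernel)
theorem L24767 : W_1 (nat_lit 2) (nat_lit 0x30003000080004000600008000000000000000000) (nat_lit 0x0) (nat_lit 0x100000000000010000400000000000000) := D_1 (nat_lit 76) (nat_lit 128) (nat_lit 58) (nat_lit 7) (nat_lit 8) (nat_lit 4) (nat_lit 4) (nat_lit 8) (nat_lit 7) (by decide +kernel)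
theorem L24768 : W_1 (nat_lit 3) (nat_lit 0x30001000080004000600008000000000000000000) (nat_lit 0x0) (nat_lit 0x40002000100000000000010000400000000000000) := T_1 (nat_lit 145) (nat_lit 162) (nat_lit 7) (nat_lit 8) (nat_lit 5) L24767 (by decide +kernel)
theorem L24769 : W_1 (nat_lit 4) (nat_lit 0x30001000080004000600000000000000000000000) (nat_lit 0x0) (nat_lit 0x40002000100000000100018000400000000000000) := T_1 (nat_lit 75) (nat_lit 92) (nat_lit 4) (nat_lit 8) (nat_lit 8) L24768 (by decide +kernel)
theorem L24770 : W_1 (nat_lit 5) (nat_lit 0x30001000080004000400000000000000000000000) (nat_lit 0x0) (nat_lit 0x40002000100000000300038000400000000000000) := T_1 (nat_lit 93) (nat_lit 77) (nat_lit 6) (nat_lit 8) (nat_lit 8) L24769 (by decide +kernel)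
theorem L24771 : W_1 (nat_lit 6) (nat_lit 0x30001000080004000000000000000000000000000) (nat_lit 0x0) (nat_lit 0x40002000100008000700038000400000000000000) := T_1 (nat_lit 94) (nat_lit 111) (nat_lit 6) (nat_lit 8) (nat_lit 9) L24770 (by decide +kernel)
theorem L24772 : W_1 (nat_lit 7) (nat_lit 0x20001000080004000000000000000000000000000) (nat_lit 0x0) (nat_lit 0x200050002000100008000700038000400000000000000) := T_1 (nat_lit 160) (nat_lit 177) (nat_lit 5) (nat_lit 8) (nat_lit 6) L24771 (by decide +kernel)
theorem L24773 : W_1 (nat_lit 2) (nat_lit 0x200020001000080006000000000000000000000000000) (nat_lit 0x0) (nat_lit 0x4000400000000000040000000000000000000000000000000) := D_1 (nat_lit 178) (nat_lit 126) (nat_lit 194) (nat_lit 4) (nat_lit 8) (nat_lit 10) (nat_lit 5) (nat_lit 8) (nat_lit 7) (by decide +kernel)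
theorem L24774 : W_1 (nat_lit 3) (nat_lit 0x20001000080006000000000000000000000000000) (nat_lit 0x0) (nat_lit 0x4000600010000000040000000000000000000000000000000) := T_1 (nat_lit 177) (nat_lit 160) (nat_lit 5) (nat_lit 8) (nat_lit 6) L24773 (by decide +kernel)
theorem L24775 : W_1 (nat_lit 4) (nat_lit 0x20001000080004000000000000000000000000000) (nat_lit 0x0) (nat_lit 0x4000600010000000040002000100000000000000000000000) := T_1 (nat_lit 109) (nat_lit 92) (nat_lit 4) (nat_lit 8) (nat_lit 9) L24774 (by decide +kernel)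
theorem L24776 : W_1 (nat_lit 2) (nat_lit 0x20002000100008000c000000000000000000000000000) (nat_lit 0x0) (nat_lit 0x4000400000000000100000000000000000000000000000000) := D_1 (nat_lit 178) (nat_lit 128) (nat_lit 194) (nat_lit 6) (nat_lit 8) (nat_lit 10) (nat_lit 5) (nat_lit 8) (nat_lit 7) (by decide +kernel)
theorem L24777 : W_1 (nat_lit 3) (nat_lit 0x2000100008000c000000000000000000000000000) (nat_lit 0x0) (nat_lit 0x4000600010000000100000000000000000000000000000000) := T_1 (nat_lit 177) (nat_lit 160) (nat_lit 5) (nat_lit 8) (nat_lit 6) L24776 (by decide +kernel)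
theorem L24778 : W_1 (nat_lit 4) (nat_lit 0x20001000080004000000000000000000000000000) (nat_lit 0x0) (nat_lit 0x4000600010000000100008000400000000000000000000000) := T_1 (nat_lit 111) (nat_lit 94) (nat_lit 6) (nat_lit 8) (nat_lit 9) L24777 (by decide +kernel)
theorem L24779 : W_1 (nat_lit 8) (nat_lit 0x20001000080000000000000000000000000000000) (nat_lit 0x0) (nat_lit 0x400060005000200014000e000700038000400000000000000) := Q_1 (nat_lit 110) (C_1 L24672 (C_1 L24624 (C_1 L24772 (C_1 L24775 (C_1 L24778 N_1))))) (by decide +kernel)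
theorem L24780 : W_1 (nat_lit 13) (nat_lit 0x1000080000000000000000000000000000000) (nat_lit 0x0) (nat_lit 0x8000700038001c000f8007c00670037801fe00f00038000400000000000000) := Q_1 (nat_lit 161) (C_1 L24598 (C_1 L24603 (C_1 L24604 (C_1 L24621 (C_1 L24628 (C_1 L24640 (C_1 L24660 (C_1 L24673 (C_1 L24766 (C_1 L24779 N_1)))))))))) (by decide +kernel)
theorem L24781 : W_1 (nat_lit 8) (nat_lit 0x1000080004000300000000000000000000000) (nat_lit 0x0) (nat_lit 0x4000280014000a0004000300018000c0004000000) := T_1 (nat_lit 145) (nat_lit 162) (nat_lit 7) (nat_lit 8) (nat_lit 5) L5593 (by decide +kernel)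
theorem L24782 : W_1 (nat_lit 9) (nat_lit 0x1000080004000200000000000000000000000) (nat_lit 0x0) (nat_lit 0x4000280014000a0005000380018000c0004000000) := T_1 (nat_lit 92) (nat_lit 75) (nat_lit 4) (nat_lit 8) (nat_lit 8) L24781 (by decide +kernel)
theorem L24783 : W_1 (nat_lit 2) (nat_lit 0x1000080004000700000000000000000000000) (nat_lit 0x0) (nat_lit 0x2000000000000a000000000000000000000000000) := D_1 (nat_lit 161) (nat_lit 109) (nat_lit 111) (nat_lit 4) (nat_lit 8) (nat_lit 9) (nat_lit 6) (nat_lit 8) (nat_lit 9) (by decide +kernel)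
theorem L24784 : W_1 (nat_lit 3) (nat_lit 0x1000080004000300000000000000000000000) (nat_lit 0x0) (nat_lit 0x2000000000000a000400020000000000000000000) := T_1 (nat_lit 94) (nat_lit 77) (nat_lit 6) (nat_lit 8) (nat_lit 8) L24783 (by decide +kernel)
theorem L24785 : W_1 (nat_lit 4) (nat_lit 0x1000080004000200000000000000000000000) (nat_lit 0x0) (nat_lit 0x2000000000000a000500028000000000000000000) := T_1 (nat_lit 92) (nat_lit 75) (nat_lit 4) (nat_lit 8) (nat_lit 8) L24784 (by decide +kernel)
theorem L24786 : W_1 (nat_lit 2) (nat_lit 0x3000080004000300010000000000000000000) (nat_lit 0x0) (nat_lit 0x400020001000000000000000) := D_1 (nat_lit 77) (nat_lit 60) (nat_lit 94) (nat_lit 6) (nat_lit 8) (nat_lit 7) (nat_lit 6) (nat_lit 8) (nat_lit 8) (by decide +kernel)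
theorem L24787 : W_1 (nat_lit 3) (nat_lit 0x3000080004000300000000000000000000000) (nat_lit 0x0) (nat_lit 0x100000000400030001000000000000000) := T_1 (nat_lit 76) (nat_lit 128) (nat_lit 7) (nat_lit 8) (nat_lit 4) L24786 (by decide +kernel)
theorem L24788 : W_1 (nat_lit 4) (nat_lit 0x1000080004000300000000000000000000000) (nat_lit 0x0) (nat_lit 0x40002000100000000400030001000000000000000) := T_1 (nat_lit 145) (nat_lit 162) (nat_lit 7) (nat_lit 8) (nat_lit 5) L24787 (by decide +kernel)
theorem L24789 : W_1 (nat_lit 5) (nat_lit 0x1000080004000200000000000000000000000) (nat_lit 0x0) (nat_lit 0x40002000100000000500038001000000000000000) := T_1 (nat_lit 92) (nat_lit 75) (nat_lit 4) (nat_lit 8) (nat_lit 8) L24788 (by decide +kernel)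
theorem L24790 : W_1 (nat_lit 2) (nat_lit 0x3000080004000300010000000000000000000) (nat_lit 0x0) (nat_lit 0x10000800040000000000000000000000000000000) := D_1 (nat_lit 143) (nat_lit 160) (nat_lit 126) (nat_lit 5) (nat_lit 8) (nat_lit 5) (nat_lit 5) (nat_lit 8) (nat_lit 4) (by decide +kernel)
theorem L24791 : W_1 (nat_lit 3) (nat_lit 0x3000080004000300000000000000000000000) (nat_lit 0x0) (nat_lit 0x10000800140000000000010000000000000000000) := T_1 (nat_lit 76) (nat_lit 128) (nat_lit 7) (nat_lit 8) (nat_lit 4) L24790 (by decide +kernel)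
theorem L24792 : W_1 (nat_lit 4) (nat_lit 0x1000080004000300000000000000000000000) (nat_lit 0x0) (nat_lit 0x50002800140000000000010000000000000000000) := T_1 (nat_lit 145) (nat_lit 162) (nat_lit 7) (nat_lit 8) (nat_lit 5) L24791 (by decide +kernel)
theorem L24793 : W_1 (nat_lit 5) (nat_lit 0x1000080004000200000000000000000000000) (nat_lit 0x0) (nat_lit 0x50002800140000000100018000000000000000000) := T_1 (nat_lit 92) (nat_lit 75) (nat_lit 4) (nat_lit 8) (nat_lit 8) L24792 (by decide +kernel)
theorem L24794 : W_1 (nat_lit 2) (nat_lit 0x3000080004000600010000000000000000000) (nat_lit 0x0) (nat_lit 0x10000800040000000000000000000000000000000) := D_1 (nat_lit 143) (nat_lit 126) (nat_lit 160) (nat_lit 5) (nat_lit 8) (nat_lit 4) (nat_lit 5) (nat_lit 8) (nat_lit 5) (by decide +kernel)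
theorem L24795 : W_1 (nat_lit 3) (nat_lit 0x3000080004000600000000000000000000000) (nat_lit 0x0) (nat_lit 0x10000800140000000000010000000000000000000) := T_1 (nat_lit 76) (nat_lit 128) (nat_lit 7) (nat_lit 8) (nat_lit 4) L24794 (by decide +kernel)
theorem L24796 : W_1 (nat_lit 4) (nat_lit 0x1000080004000600000000000000000000000) (nat_lit 0x0) (nat_lit 0x50002800140000000000010000000000000000000) := T_1 (nat_lit 145) (nat_lit 162) (nat_lit 7) (nat_lit 8) (nat_lit 5) L24795 (by decide +kernel)
theorem L24797 : W_1 (nat_lit 5) (nat_lit 0x1000080004000200000000000000000000000) (nat_lit 0x0) (nat_lit 0x50002800140000000400030000000000000000000) := T_1 (nat_lit 94) (nat_lit 77) (nat_lit 6) (nat_lit 8) (nat_lit 8) L24796 (by decide +kernel)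
theorem L24798 : W_1 (nat_lit 10) (nat_lit 0x1000080004000000000000000000000000000) (nat_lit 0x0) (nat_lit 0x7000280014000a0007000380018000c0004000000) := Q_1 (nat_lit 93) (C_1 L24782 (C_1 L24785 (C_1 L24789 (C_1 L24793 (C_1 L24797 N_1))))) (by decide +kernel)
theorem L24799 : W_1 (nat_lit 2) (nat_lit 0x180008000c000700010000000000000000000) (nat_lit 0x0) (nat_lit 0x2000100000000000000000800000000000000) := D_1 (nat_lit 128) (nat_lit 145) (nat_lit 59) (nat_lit 7) (nat_lit 8) (nat_lit 4) (nat_lit 7) (nat_lit 8) (nat_lit 3) (by decide +kernel)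
theorem L24800 : W_1 (nat_lit 3) (nat_lit 0x1800080004000700010000000000000000000) (nat_lit 0x0) (nat_lit 0x20002000100008000000000000800000000000000) := T_1 (nat_lit 111) (nat_lit 161) (nat_lit 6) (nat_lit 8) (nat_lit 9) L24799 (by decide +kernel)
theorem L24801 : W_1 (nat_lit 4) (nat_lit 0x1800080004000700000000000000000000000) (nat_lit 0x0) (nat_lit 0x20002000140008000000010000800000000000000) := T_1 (nat_lit 76) (nat_lit 126) (nat_lit 5) (nat_lit 8) (nat_lit 4) L24800 (by decide +kernel)
theorem L24802 : W_1 (nat_lit 5) (nat_lit 0x1000080004000700000000000000000000000) (nat_lit 0x0) (nat_lit 0x30002800140008000000010000800000000000000) := T_1 (nat_lit 143) (nat_lit 160) (nat_lit 5) (nat_lit 8) (nat_lit 5) L24801 (by decide +kernel)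
theorem L24803 : W_1 (nat_lit 6) (nat_lit 0x1000080004000300000000000000000000000) (nat_lit 0x0) (nat_lit 0x30002800140008000400030000800000000000000) := T_1 (nat_lit 94) (nat_lit 77) (nat_lit 6) (nat_lit 8) (nat_lit 8) L24802 (by decide +kernel)
theorem L24804 : W_1 (nat_lit 7) (nat_lit 0x1000080004000200000000000000000000000) (nat_lit 0x0) (nat_lit 0x30002800140008000500038000800000000000000) := T_1 (nat_lit 92) (nat_lit 75) (nat_lit 4) (nat_lit 8) (nat_lit 8) L24803 (by decide +kernel)
theorem L24805 : W_1 (nat_lit 2) (nat_lit 0x1800080006000700010000000000000000000) (nat_lit 0x0) (nat_lit 0x1800800000000000000000000000) := D_1 (nat_lit 108) (nat_lit 107) (nat_lit 95) (nat_lit 2) (nat_lit 5) (nat_lit 6) (nat_lit 1) (nat_lit 10) (nat_lit 5) (by decide +kernel)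
theorem L24806 : W_1 (nat_lit 3) (nat_lit 0x1800080004000700010000000000000000000) (nat_lit 0x0) (nat_lit 0x20000000000003800800000000000000000000000) := T_1 (nat_lit 109) (nat_lit 161) (nat_lit 4) (nat_lit 8) (nat_lit 9) L24805 (by decide +kernel)
theorem L24807 : W_1 (nat_lit 4) (nat_lit 0x1800080004000700000000000000000000000) (nat_lit 0x0) (nat_lit 0x20000000040003800800010000000000000000000) := T_1 (nat_lit 76) (nat_lit 126) (nat_lit 5) (nat_lit 8) (nat_lit 4) L24806 (by decide +kernel)
theorem L24808 : W_1 (nat_lit 5) (nat_lit 0x1000080004000700000000000000000000000) (nat_lit 0x0) (nat_lit 0x30000800040003800800010000000000000000000) := T_1 (nat_lit 143) (nat_lit 160) (nat_lit 5) (nat_lit 8) (nat_lit 5) L24807 (by decide +kernel)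
theorem L24809 : W_1 (nat_lit 6) (nat_lit 0x1000080004000600000000000000000000000) (nat_lit 0x0) (nat_lit 0x30000800040003800900018000000000000000000) := T_1 (nat_lit 92) (nat_lit 75) (nat_lit 4) (nat_lit 8) (nat_lit 8) L24808 (by decide +kernel)
theorem L24810 : W_1 (nat_lit 7) (nat_lit 0x1000080004000200000000000000000000000) (nat_lit 0x0) (nat_lit 0x30000800040003800d00038000000000000000000) := T_1 (nat_lit 94) (nat_lit 77) (nat_lit 6) (nat_lit 8) (nat_lit 8) L24809 (by decide +kernel)
theorem L24811 : W_1 (nat_lit 2) (nat_lit 0x20001800180004000300010000000000000000000) (nat_lit 0x0) (nat_lit 0x400000000000000008000000000000800000000000000) := D_1 (nat_lit 111) (nat_lit 59) (nat_lit 178) (nat_lit 7) (nat_lit 8) (nat_lit 3) (nat_lit 6) (nat_lit 8) (nat_lit 10) (by decide +kernel)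
theorem L24812 : W_1 (nat_lit 3) (nat_lit 0x20001800080004000300010000000000000000000) (nat_lit 0x0) (nat_lit 0x400000002000100008000000000000800000000000000) := T_1 (nat_lit 128) (nat_lit 145) (nat_lit 7) (nat_lit 8) (nat_lit 4) L24811 (by decide +kernel)
theorem L24813 : W_1 (nat_lit 4) (nat_lit 0x1800080004000300010000000000000000000) (nat_lit 0x0) (nat_lit 0x40002000200010000a000000000000800000000000000) := T_1 (nat_lit 161) (nat_lit 109) (nat_lit 4) (nat_lit 8) (nat_lit 9) L24812 (by decide +kernel)
theorem L24814 : W_1 (nat_lit 5) (nat_lit 0x1800080004000300000000000000000000000) (nat_lit 0x0) (nat_lit 0x40002000200014000a000000010000800000000000000) := T_1 (nat_lit 76) (nat_lit 126) (nat_lit 5) (nat_lit 8) (nat_lit 4) L24813 (by decide +kernel)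
theorem L24815 : W_1 (nat_lit 6) (nat_lit 0x1000080004000300000000000000000000000) (nat_lit 0x0) (nat_lit 0x40003000280014000a000000010000800000000000000) := T_1 (nat_lit 143) (nat_lit 160) (nat_lit 5) (nat_lit 8) (nat_lit 5) L24814 (by decide +kernel)
theorem L24816 : W_1 (nat_lit 7) (nat_lit 0x1000080004000200000000000000000000000) (nat_lit 0x0) (nat_lit 0x40003000280014000a000100018000800000000000000) := T_1 (nat_lit 92) (nat_lit 75) (nat_lit 4) (nat_lit 8) (nat_lit 8) L24815 (by decide +kernel)
theorem L24817 : W_1 (nat_lit 2) (nat_lit 0x180018000400060001a000000000000000000) (nat_lit 0x0) (nat_lit 0x20000000000008000000000000800000000000000) := D_1 (nat_lit 111) (nat_lit 59) (nat_lit 161) (nat_lit 7) (nat_lit 8) (nat_lit 3) (nat_lit 6) (nat_lit 8) (nat_lit 9) (by decide +kernel)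
theorem L24818 : W_1 (nat_lit 3) (nat_lit 0x180008000400060001a000000000000000000) (nat_lit 0x0) (nat_lit 0x20002000100008000000000000800000000000000) := T_1 (nat_lit 128) (nat_lit 145) (nat_lit 7) (nat_lit 8) (nat_lit 4) L24817 (by decide +kernel)
theorem L24819 : W_1 (nat_lit 4) (nat_lit 0x1800080004000600018000000000000000000) (nat_lit 0x0) (nat_lit 0x20002000100008000000006000800000000000000) := T_1 (nat_lit 73) (nat_lit 74) (nat_lit 3) (nat_lit 5) (nat_lit 4) L24818 (by decide +kernel)
theorem L24820 : W_1 (nat_lit 5) (nat_lit 0x1800080004000600010000000000000000000) (nat_lit 0x0) (nat_lit 0x2000200010000800000000e000c00000000000000) := T_1 (nat_lit 75) (nat_lit 58) (nat_lit 4) (nat_lit 8) (nat_lit 7) L24819 (by decide +kernel)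
theorem L24821 : W_1 (nat_lit 6) (nat_lit 0x1800080004000600000000000000000000000) (nat_lit 0x0) (nat_lit 0x2000200014000800000001e000c00000000000000) := T_1 (nat_lit 76) (nat_lit 126) (nat_lit 5) (nat_lit 8) (nat_lit 4) L24820 (by decide +kernel)
theorem L24822 : W_1 (nat_lit 7) (nat_lit 0x1000080004000600000000000000000000000) (nat_lit 0x0) (nat_lit 0x3000280014000800000001e000c00000000000000) := T_1 (nat_lit 143) (nat_lit 160) (nat_lit 5) (nat_lit 8) (nat_lit 5) L24821 (by decide +kernel)
theorem L24823 : W_1 (nat_lit 8) (nat_lit 0x1000080004000200000000000000000000000) (nat_lit 0x0) (nat_lit 0x3000280014000800040003e000c00000000000000) := T_1 (nat_lit 94) (nat_lit 77) (nat_lit 6) (nat_lit 8) (nat_lit 8) L24822 (by decide +kernel)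
theorem L24824 : W_1 (nat_lit 2) (nat_lit 0x1800180004000700010001800040000000000) (nat_lit 0x0) (nat_lit 0x400020001000000) := D_1 (nat_lit 41) (nat_lit 24) (nat_lit 58) (nat_lit 4) (nat_lit 8) (nat_lit 5) (nat_lit 4) (nat_lit 8) (nat_lit 6) (by decide +kernel)
theorem L24825 : W_1 (nat_lit 3) (nat_lit 0x1800180004000700010001800000000000000) (nat_lit 0x0) (nat_lit 0x2000000000000400060001000000) := T_1 (nat_lit 42) (nat_lit 109) (nat_lit 5) (nat_lit 8) (nat_lit 2) L24824 (by decide +kernel)
theorem L24826 : W_1 (nat_lit 4) (nat_lit 0x1800180004000700010000800000000000000) (nat_lit 0x0) (nat_lit 0x20000000000014000e0001000000) := T_1 (nat_lit 60) (nat_lit 43) (nat_lit 6) (nat_lit 8) (nat_lit 6) L24825 (by decide +kernel)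
theorem L24827 : W_1 (nat_lit 5) (nat_lit 0x1800180004000700010000000000000000000) (nat_lit 0x0) (nat_lit 0xa000000000001c000e0001000000) := T_1 (nat_lit 59) (nat_lit 111) (nat_lit 7) (nat_lit 8) (nat_lit 3) L24826 (by decide +kernel)
theorem L24828 : W_1 (nat_lit 6) (nat_lit 0x1800080004000700010000000000000000000) (nat_lit 0x0) (nat_lit 0x200010000a000000000001c000e0001000000) := T_1 (nat_lit 128) (nat_lit 145) (nat_lit 7) (nat_lit 8) (nat_lit 4) L24827 (by decide +kernel)
theorem L24829 : W_1 (nat_lit 7) (nat_lit 0x1800080004000700000000000000000000000) (nat_lit 0x0) (nat_lit 0x200014000a000000010001c000e0001000000) := T_1 (nat_lit 76) (nat_lit 126) (nat_lit 5) (nat_lit 8) (nat_lit 4) L24828 (by decide +kernel)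
theorem L24830 : W_1 (nat_lit 8) (nat_lit 0x1000080004000700000000000000000000000) (nat_lit 0x0) (nat_lit 0x1000280014000a000000010001c000e0001000000) := T_1 (nat_lit 143) (nat_lit 160) (nat_lit 5) (nat_lit 8) (nat_lit 5) L24829 (by decide +kernel)
theorem L24831 : W_1 (nat_lit 9) (nat_lit 0x1000080004000600000000000000000000000) (nat_lit 0x0) (nat_lit 0x1000280014000a000100018001c000e0001000000) := T_1 (nat_lit 92) (nat_lit 75) (nat_lit 4) (nat_lit 8) (nat_lit 8) L24830 (by decide +kernel)
theorem L24832 : W_1 (nat_lit 10) (nat_lit 0x1000080004000200000000000000000000000) (nat_lit 0x0) (nat_lit 0x1000280014000a000500038001c000e0001000000) := T_1 (nat_lit 94) (nat_lit 77) (nat_lit 6) (nat_lit 8) (nat_lit 8) L24831 (by decide +kernel)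
theorem L24833 : W_1 (nat_lit 2) (nat_lit 0x1800080004000200010000000000000000000) (nat_lit 0x0) (nat_lit 0x400020001000000000000000) := D_1 (nat_lit 77) (nat_lit 94) (nat_lit 60) (nat_lit 6) (nat_lit 8) (nat_lit 8) (nat_lit 6) (nat_lit 8) (nat_lit 7) (by decide +kernel)
theorem L24834 : W_1 (nat_lit 3) (nat_lit 0x1800080004000200000000000000000000000) (nat_lit 0x0) (nat_lit 0x40000000400030001000000000000000) := T_1 (nat_lit 76) (nat_lit 126) (nat_lit 5) (nat_lit 8) (nat_lit 4) L24833 (by decide +kernel)
theorem L24835 : W_1 (nat_lit 4) (nat_lit 0x1000080004000200000000000000000000000) (nat_lit 0x0) (nat_lit 0x10000800040000000400030001000000000000000) := T_1 (nat_lit 143) (nat_lit 160) (nat_lit 5) (nat_lit 8) (nat_lit 5) L24834 (by decide +kernel)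
theorem L24836 : W_1 (nat_lit 11) (nat_lit 0x1000080004000000000000000000000000000) (nat_lit 0x0) (nat_lit 0x40003000280014000b800f0003e001c000e0001000000) := Q_1 (nat_lit 93) (C_1 L24785 (C_1 L24804 (C_1 L24810 (C_1 L24816 (C_1 L24823 (C_1 L24832 (C_1 L24835 N_1))))))) (by decide +kernel)
theorem L24837 : W_1 (nat_lit 2) (nat_lit 0x20001800080004000300010000000000000000000) (nat_lit 0x0) (nat_lit 0x800040002000000000000000000000000000000000000) := D_1 (nat_lit 162) (nat_lit 145) (nat_lit 179) (nat_lit 7) (nat_lit 8) (nat_lit 5) (nat_lit 7) (nat_lit 8) (nat_lit 6) (by decide +kernel)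
theorem L24838 : W_1 (nat_lit 3) (nat_lit 0x1800080004000300010000000000000000000) (nat_lit 0x0) (nat_lit 0x800060002000000002000000000000000000000000000) := T_1 (nat_lit 161) (nat_lit 109) (nat_lit 4) (nat_lit 8) (nat_lit 9) L24837 (by decide +kernel)
theorem L24839 : W_1 (nat_lit 4) (nat_lit 0x1800080004000300000000000000000000000) (nat_lit 0x0) (nat_lit 0x800060002000040002000000010000000000000000000) := T_1 (nat_lit 76) (nat_lit 126) (nat_lit 5) (nat_lit 8) (nat_lit 4) L24838 (by decide +kernel)
theorem L24840 : W_1 (nat_lit 5) (nat_lit 0x1000080004000300000000000000000000000) (nat_lit 0x0) (nat_lit 0x800070002800040002000000010000000000000000000) := T_1 (nat_lit 143) (nat_lit 160) (nat_lit 5) (nat_lit 8) (nat_lit 5) L24839 (by decide +kernel)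
theorem L24841 : W_1 (nat_lit 6) (nat_lit 0x1000080004000200000000000000000000000) (nat_lit 0x0) (nat_lit 0x800070002800040002000100018000000000000000000) := T_1 (nat_lit 92) (nat_lit 75) (nat_lit 4) (nat_lit 8) (nat_lit 8) L24840 (by decide +kernel)
theorem L24842 : W_1 (nat_lit 7) (nat_lit 0x1000080004000000000000000000000000000) (nat_lit 0x0) (nat_lit 0x80007000280004000a000700038001000000000000000) := Q_1 (nat_lit 93) (C_1 L24835 (C_1 L24785 (C_1 L24841 N_1))) (by decide +kernel)
theorem L24843 : W_1 (nat_lit 2) (nat_lit 0x20001800080004000700000000000000000000000) (nat_lit 0x0) (nat_lit 0x800040002000000000000000000000000000000000000) := D_1 (nat_lit 162) (nat_lit 145) (nat_lit 179) (nat_lit 7) (nat_lit 8) (nat_lit 5) (nat_lit 7) (nat_lit 8) (nat_lit 6) (by decide +kernel)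
theorem L24844 : W_1 (nat_lit 3) (nat_lit 0x1800080004000700000000000000000000000) (nat_lit 0x0) (nat_lit 0x800060002000000008000000000000000000000000000) := T_1 (nat_lit 161) (nat_lit 111) (nat_lit 6) (nat_lit 8) (nat_lit 9) L24843 (by decide +kernel)
theorem L24845 : W_1 (nat_lit 4) (nat_lit 0x1000080004000700000000000000000000000) (nat_lit 0x0) (nat_lit 0x800070002800000008000000000000000000000000000) := T_1 (nat_lit 143) (nat_lit 160) (nat_lit 5) (nat_lit 8) (nat_lit 5) L24844 (by decide +kernel)
theorem L24846 : W_1 (nat_lit 5) (nat_lit 0x1000080004000300000000000000000000000) (nat_lit 0x0) (nat_lit 0x800070002800000008000400020000000000000000000) := T_1 (nat_lit 94) (nat_lit 77) (nat_lit 6) (nat_lit 8) (nat_lit 8) L24845 (by decide +kernel)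
theorem L24847 : W_1 (nat_lit 6) (nat_lit 0x1000080004000200000000000000000000000) (nat_lit 0x0) (nat_lit 0x800070002800000008000500028000000000000000000) := T_1 (nat_lit 92) (nat_lit 75) (nat_lit 4) (nat_lit 8) (nat_lit 8) L24846 (by decide +kernel)
theorem L24848 : W_1 (nat_lit 7) (nat_lit 0x1000080004000000000000000000000000000) (nat_lit 0x0) (nat_lit 0x800070002800140008000700038001000000000000000) := Q_1 (nat_lit 93) (C_1 L24835 (C_1 L24789 (C_1 L24793 (C_1 L24847 N_1)))) (by decide +kernel)
theorem L24849 : W_1 (nat_lit 2) (nat_lit 0x30000c0004000340030000000000000000000) (nat_lit 0x0) (nat_lit 0x20000000000002000000000000800000000000000) := D_1 (nat_lit 109) (nat_lit 59) (nat_lit 161) (nat_lit 5) (nat_lit 8) (nat_lit 3) (nat_lit 4) (nat_lit 8) (nat_lit 9) (by decide +kernel)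
theorem L24850 : W_1 (nat_lit 3) (nat_lit 0x3000080004000340030000000000000000000) (nat_lit 0x0) (nat_lit 0x20000800040002000000000000800000000000000) := T_1 (nat_lit 126) (nat_lit 143) (nat_lit 5) (nat_lit 8) (nat_lit 4) L24849 (by decide +kernel)
theorem L24851 : W_1 (nat_lit 4) (nat_lit 0x3000080004000300030000000000000000000) (nat_lit 0x0) (nat_lit 0x200008000400020000c0000000800000000000000) := T_1 (nat_lit 90) (nat_lit 91) (nat_lit 2) (nat_lit 5) (nat_lit 5) L24850 (by decide +kernel)
theorem L24852 : W_1 (nat_lit 5) (nat_lit 0x3000080004000300010000000000000000000) (nat_lit 0x0) (nat_lit 0x200008000400020000c0020001800000000000000) := T_1 (nat_lit 77) (nat_lit 60) (nat_lit 6) (nat_lit 8) (nat_lit 7) L24851 (by decide +kernel)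
theorem L24853 : W_1 (nat_lit 6) (nat_lit 0x3000080004000300000000000000000000000) (nat_lit 0x0) (nat_lit 0x200008001400020000c0030001800000000000000) := T_1 (nat_lit 76) (nat_lit 128) (nat_lit 7) (nat_lit 8) (nat_lit 4) L24852 (by decide +kernel)
theorem L24854 : W_1 (nat_lit 7) (nat_lit 0x1000080004000300000000000000000000000) (nat_lit 0x0) (nat_lit 0x600028001400020000c0030001800000000000000) := T_1 (nat_lit 145) (nat_lit 162) (nat_lit 7) (nat_lit 8) (nat_lit 5) L24853 (by decide +kernel)
theorem L24855 : W_1 (nat_lit 8) (nat_lit 0x1000080004000200000000000000000000000) (nat_lit 0x0) (nat_lit 0x600028001400020001c0038001800000000000000) := T_1 (nat_lit 92) (nat_lit 75) (nat_lit 4) (nat_lit 8) (nat_lit 8) L24854 (by decide +kernel)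
theorem L24856 : W_1 (nat_lit 2) (nat_lit 0x30000c0004000600010000800000000000000) (nat_lit 0x0) (nat_lit 0x8000400020000000000) := D_1 (nat_lit 58) (nat_lit 41) (nat_lit 75) (nat_lit 4) (nat_lit 8) (nat_lit 6) (nat_lit 4) (nat_lit 8) (nat_lit 7) (by decide +kernel)
theorem L24857 : W_1 (nat_lit 3) (nat_lit 0x30000c0004000600010000000000000000000) (nat_lit 0x0) (nat_lit 0x2000000008000c00020000000000) := T_1 (nat_lit 59) (nat_lit 109) (nat_lit 5) (nat_lit 8) (nat_lit 3) L24856 (by decide +kernel)
theorem L24858 : W_1 (nat_lit 4) (nat_lit 0x3000080004000600010000000000000000000) (nat_lit 0x0) (nat_lit 0x800040002000000008000c00020000000000) := T_1 (nat_lit 126) (nat_lit 143) (nat_lit 5) (nat_lit 8) (nat_lit 4) L24857 (by decide +kernel)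
theorem L24859 : W_1 (nat_lit 5) (nat_lit 0x3000080004000600000000000000000000000) (nat_lit 0x0) (nat_lit 0x800140002000000018000c00020000000000) := T_1 (nat_lit 76) (nat_lit 128) (nat_lit 7) (nat_lit 8) (nat_lit 4) L24858 (by decide +kernel)
theorem L24860 : W_1 (nat_lit 6) (nat_lit 0x1000080004000600000000000000000000000) (nat_lit 0x0) (nat_lit 0x40002800140002000000018000c00020000000000) := T_1 (nat_lit 145) (nat_lit 162) (nat_lit 7) (nat_lit 8) (nat_lit 5) L24859 (by decide +kernel)
theorem L24861 : W_1 (nat_lit 7) (nat_lit 0x1000080004000200000000000000000000000) (nat_lit 0x0) (nat_lit 0x40002800140002000400038000c00020000000000) := T_1 (nat_lit 94) (nat_lit 77) (nat_lit 6) (nat_lit 8) (nat_lit 8) L24860 (by decide +kernel)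
theorem L24862 : W_1 (nat_lit 2) (nat_lit 0x30000c0004000300010000000000000000000) (nat_lit 0x0) (nat_lit 0x20000000000002000000000000800000000000000) := D_1 (nat_lit 109) (nat_lit 59) (nat_lit 161) (nat_lit 5) (nat_lit 8) (nat_lit 3) (nat_lit 4) (nat_lit 8) (nat_lit 9) (by decide +kernel)
theorem L24863 : W_1 (nat_lit 3) (nat_lit 0x3000080004000300010000000000000000000) (nat_lit 0x0) (nat_lit 0x20000800040002000000000000800000000000000) := T_1 (nat_lit 126) (nat_lit 143) (nat_lit 5) (nat_lit 8) (nat_lit 4) L24862 (by decide +kernel)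
theorem L24864 : W_1 (nat_lit 4) (nat_lit 0x3000080004000300000000000000000000000) (nat_lit 0x0) (nat_lit 0x20000800140002000000010000800000000000000) := T_1 (nat_lit 76) (nat_lit 128) (nat_lit 7) (nat_lit 8) (nat_lit 4) L24863 (by decide +kernel)
theorem L24865 : W_1 (nat_lit 5) (nat_lit 0x1000080004000300000000000000000000000) (nat_lit 0x0) (nat_lit 0x60002800140002000000010000800000000000000) := T_1 (nat_lit 145) (nat_lit 162) (nat_lit 7) (nat_lit 8) (nat_lit 5) L24864 (by decide +kernel)
theorem L24866 : W_1 (nat_lit 6) (nat_lit 0x1000080004000200000000000000000000000) (nat_lit 0x0) (nat_lit 0x60002800140002000100018000800000000000000) := T_1 (nat_lit 92) (nat_lit 75) (nat_lit 4) (nat_lit 8) (nat_lit 8) L24865 (by decide +kernel)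
theorem L24867 : W_1 (nat_lit 2) (nat_lit 0x30000c0004000600010000800000000000000) (nat_lit 0x0) (nat_lit 0x20000000000008000000000000000040000000000) := D_1 (nat_lit 111) (nat_lit 161) (nat_lit 42) (nat_lit 6) (nat_lit 8) (nat_lit 9) (nat_lit 7) (nat_lit 8) (nat_lit 2) (by decide +kernel)
theorem L24868 : W_1 (nat_lit 3) (nat_lit 0x30000c0004000600010000000000000000000) (nat_lit 0x0) (nat_lit 0x2000000000000a000000000000800040000000000) := T_1 (nat_lit 59) (nat_lit 109) (nat_lit 5) (nat_lit 8) (nat_lit 3) L24867 (by decide +kernel)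
theorem L24869 : W_1 (nat_lit 4) (nat_lit 0x3000080004000600010000000000000000000) (nat_lit 0x0) (nat_lit 0x2000080004000a000000000000800040000000000) := T_1 (nat_lit 126) (nat_lit 143) (nat_lit 5) (nat_lit 8) (nat_lit 4) L24868 (by decide +kernel)
theorem L24870 : W_1 (nat_lit 5) (nat_lit 0x3000080004000600000000000000000000000) (nat_lit 0x0) (nat_lit 0x2000080014000a000000010000800040000000000) := T_1 (nat_lit 76) (nat_lit 128) (nat_lit 7) (nat_lit 8) (nat_lit 4) L24869 (by decide +kernel)
theorem L24871 : W_1 (nat_lit 6) (nat_lit 0x1000080004000600000000000000000000000) (nat_lit 0x0) (nat_lit 0x6000280014000a000000010000800040000000000) := T_1 (nat_lit 145) (nat_lit 162) (nat_lit 7) (nat_lit 8) (nat_lit 5) L24870 (by decide +kernel)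
theorem L24872 : W_1 (nat_lit 7) (nat_lit 0x1000080004000200000000000000000000000) (nat_lit 0x0) (nat_lit 0x6000280014000a000400030000800040000000000) := T_1 (nat_lit 94) (nat_lit 77) (nat_lit 6) (nat_lit 8) (nat_lit 8) L24871 (by decide +kernel)
theorem L24873 : W_1 (nat_lit 9) (nat_lit 0x1000080004000000000000000000000000000) (nat_lit 0x0) (nat_lit 0x6000280014000a0007c0038001c00060000000000) := Q_1 (nat_lit 93) (C_1 L24789 (C_1 L24785 (C_1 L24855 (C_1 L24861 (C_1 L24866 (C_1 L24872 N_1)))))) (by decide +kernel)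
theorem L24874 : W_1 (nat_lit 2) (nat_lit 0x20003000080004000340030000000000000000000) (nat_lit 0x0) (nat_lit 0x200010000800000000000000000000000000000000000) := D_1 (nat_lit 160) (nat_lit 143) (nat_lit 177) (nat_lit 5) (nat_lit 8) (nat_lit 5) (nat_lit 5) (nat_lit 8) (nat_lit 6) (by decide +kernel)
theorem L24875 : W_1 (nat_lit 3) (nat_lit 0x3000080004000340030000000000000000000) (nat_lit 0x0) (nat_lit 0x200030000800000002000000000000000000000000000) := T_1 (nat_lit 161) (nat_lit 109) (nat_lit 4) (nat_lit 8) (nat_lit 9) L24874 (by decide +kernel)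
theorem L24876 : W_1 (nat_lit 4) (nat_lit 0x3000080004000300030000000000000000000) (nat_lit 0x0) (nat_lit 0x2000300008000000020000c0000000000000000000000) := T_1 (nat_lit 90) (nat_lit 91) (nat_lit 2) (nat_lit 5) (nat_lit 5) L24875 (by decide +kernel)
theorem L24877 : W_1 (nat_lit 5) (nat_lit 0x3000080004000300010000000000000000000) (nat_lit 0x0) (nat_lit 0x2000300008000000020000c0020001000000000000000) := T_1 (nat_lit 77) (nat_lit 60) (nat_lit 6) (nat_lit 8) (nat_lit 7) L24876 (by decide +kernel)
theorem L24878 : W_1 (nat_lit 6) (nat_lit 0x3000080004000300000000000000000000000) (nat_lit 0x0) (nat_lit 0x2000300008001000020000c0030001000000000000000) := T_1 (nat_lit 76) (nat_lit 128) (nat_lit 7) (nat_lit 8) (nat_lit 4) L24877 (by decide +kernel)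
theorem L24879 : W_1 (nat_lit 7) (nat_lit 0x1000080004000300000000000000000000000) (nat_lit 0x0) (nat_lit 0x2000700028001000020000c0030001000000000000000) := T_1 (nat_lit 145) (nat_lit 162) (nat_lit 7) (nat_lit 8) (nat_lit 5) L24878 (by decide +kernel)
theorem L24880 : W_1 (nat_lit 8) (nat_lit 0x1000080004000200000000000000000000000) (nat_lit 0x0) (nat_lit 0x2000700028001000020001c0038001000000000000000) := T_1 (nat_lit 92) (nat_lit 75) (nat_lit 4) (nat_lit 8) (nat_lit 8) L24879 (by decide +kernel)
theorem L24881 : W_1 (nat_lit 2) (nat_lit 0x3800080004000200010000000000000000000) (nat_lit 0x0) (nat_lit 0x400020001000000000000000) := D_1 (nat_lit 77) (nat_lit 60) (nat_lit 94) (nat_lit 6) (nat_lit 8) (nat_lit 7) (nat_lit 6) (nat_lit 8) (nat_lit 8) (by decide +kernel)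
theorem L24882 : W_1 (nat_lit 3) (nat_lit 0x3800080004000200000000000000000000000) (nat_lit 0x0) (nat_lit 0x100000000400030001000000000000000) := T_1 (nat_lit 76) (nat_lit 128) (nat_lit 7) (nat_lit 8) (nat_lit 4) L24881 (by decide +kernel)
theorem L24883 : W_1 (nat_lit 4) (nat_lit 0x1800080004000200000000000000000000000) (nat_lit 0x0) (nat_lit 0x40002000100000000400030001000000000000000) := T_1 (nat_lit 145) (nat_lit 162) (nat_lit 7) (nat_lit 8) (nat_lit 5) L24882 (by decide +kernel)
theorem L24884 : W_1 (nat_lit 5) (nat_lit 0x1000080004000200000000000000000000000) (nat_lit 0x0) (nat_lit 0x50002800100000000400030001000000000000000) := T_1 (nat_lit 143) (nat_lit 160) (nat_lit 5) (nat_lit 8) (nat_lit 5) L24883 (by decide +kernel)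
theorem L24885 : W_1 (nat_lit 2) (nat_lit 0x20001800080004000300000000000000000000000) (nat_lit 0x0) (nat_lit 0x800040002000000000000000000000000000000000000) := D_1 (nat_lit 162) (nat_lit 145) (nat_lit 179) (nat_lit 7) (nat_lit 8) (nat_lit 5) (nat_lit 7) (nat_lit 8) (nat_lit 6) (by decide +kernel)
theorem L24886 : W_1 (nat_lit 3) (nat_lit 0x1800080004000300000000000000000000000) (nat_lit 0x0) (nat_lit 0x800060002000000002000000000000000000000000000) := T_1 (nat_lit 161) (nat_lit 109) (nat_lit 4) (nat_lit 8) (nat_lit 9) L24885 (by decide +kernel)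
theorem L24887 : W_1 (nat_lit 4) (nat_lit 0x1000080004000300000000000000000000000) (nat_lit 0x0) (nat_lit 0x800070002800000002000000000000000000000000000) := T_1 (nat_lit 143) (nat_lit 160) (nat_lit 5) (nat_lit 8) (nat_lit 5) L24886 (by decide +kernel)
theorem L24888 : W_1 (nat_lit 5) (nat_lit 0x1000080004000200000000000000000000000) (nat_lit 0x0) (nat_lit 0x800070002800000002000100008000000000000000000) := T_1 (nat_lit 92) (nat_lit 75) (nat_lit 4) (nat_lit 8) (nat_lit 8) L24887 (by decide +kernel)
theorem L24889 : W_1 (nat_lit 9) (nat_lit 0x1000080004000000000000000000000000000) (nat_lit 0x0) (nat_lit 0xa0007000280010000a0007c0038001000000000000000) := Q_1 (nat_lit 93) (C_1 L24847 (C_1 L24785 (C_1 L24789 (C_1 L24880 (C_1 L24884 (C_1 L24888 N_1)))))) (by decide +kernel)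
theorem L24890 : W_1 (nat_lit 2) (nat_lit 0x3000080006000340030000000000000000000) (nat_lit 0x0) (nat_lit 0x40000000000000000800040000000000) := D_1 (nat_lit 59) (nat_lit 42) (nat_lit 126) (nat_lit 5) (nat_lit 8) (nat_lit 2) (nat_lit 5) (nat_lit 8) (nat_lit 3) (by decide +kernel)
theorem L24891 : W_1 (nat_lit 3) (nat_lit 0x3000080004000340030000000000000000000) (nat_lit 0x0) (nat_lit 0x20000000040002000000000000800040000000000) := T_1 (nat_lit 109) (nat_lit 161) (nat_lit 4) (nat_lit 8) (nat_lit 9) L24890 (by decide +kernel)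
theorem L24892 : W_1 (nat_lit 4) (nat_lit 0x3000080004000300030000000000000000000) (nat_lit 0x0) (nat_lit 0x200000000400020000c0000000800040000000000) := T_1 (nat_lit 90) (nat_lit 91) (nat_lit 2) (nat_lit 5) (nat_lit 5) L24891 (by decide +kernel)
theorem L24893 : W_1 (nat_lit 5) (nat_lit 0x3000080004000300010000000000000000000) (nat_lit 0x0) (nat_lit 0x200000000400020000c0020001800040000000000) := T_1 (nat_lit 77) (nat_lit 60) (nat_lit 6) (nat_lit 8) (nat_lit 7) L24892 (by decide +kernel)
theorem L24894 : W_1 (nat_lit 6) (nat_lit 0x3000080004000300000000000000000000000) (nat_lit 0x0) (nat_lit 0x200000001400020000c0030001800040000000000) := T_1 (nat_lit 76) (nat_lit 128) (nat_lit 7) (nat_lit 8) (nat_lit 4) L24893 (by decide +kernel)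
theorem L24895 : W_1 (nat_lit 7) (nat_lit 0x1000080004000300000000000000000000000) (nat_lit 0x0) (nat_lit 0x600020001400020000c0030001800040000000000) := T_1 (nat_lit 145) (nat_lit 162) (nat_lit 7) (nat_lit 8) (nat_lit 5) L24894 (by decide +kernel)
theorem L24896 : W_1 (nat_lit 8) (nat_lit 0x1000080004000200000000000000000000000) (nat_lit 0x0) (nat_lit 0x600020001400020001c0038001800040000000000) := T_1 (nat_lit 92) (nat_lit 75) (nat_lit 4) (nat_lit 8) (nat_lit 8) L24895 (by decide +kernel)
theorem L24897 : W_1 (nat_lit 2) (nat_lit 0x300008000e00060001a001800000000000000) (nat_lit 0x0) (nat_lit 0x1800800000000000000000000000) := D_1 (nat_lit 108) (nat_lit 95) (nat_lit 107) (nat_lit 2) (nat_lit 6) (nat_lit 6) (nat_lit 2) (nat_lit 5) (nat_lit 6) (by decide +kernel)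
theorem L24898 : W_1 (nat_lit 3) (nat_lit 0x300008000c00060001a001800000000000000) (nat_lit 0x0) (nat_lit 0x40003800800000000000000000000000) := T_1 (nat_lit 109) (nat_lit 126) (nat_lit 5) (nat_lit 8) (nat_lit 3) L24897 (by decide +kernel)
theorem L24899 : W_1 (nat_lit 4) (nat_lit 0x300008000c00060001a000800000000000000) (nat_lit 0x0) (nat_lit 0x40003800800000001000080000000000) := T_1 (nat_lit 60) (nat_lit 43) (nat_lit 6) (nat_lit 8) (nat_lit 6) L24898 (by decide +kernel)
theorem L24900 : W_1 (nat_lit 5) (nat_lit 0x300008000c00060001a000000000000000000) (nat_lit 0x0) (nat_lit 0x400038008000000018000c0000000000) := T_1 (nat_lit 59) (nat_lit 42) (nat_lit 7) (nat_lit 8) (nat_lit 2) L24899 (by decide +kernel)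
theorem L24901 : W_1 (nat_lit 6) (nat_lit 0x300008000400060001a000000000000000000) (nat_lit 0x0) (nat_lit 0x2000000004000b8008000000018000c0000000000) := T_1 (nat_lit 111) (nat_lit 161) (nat_lit 6) (nat_lit 8) (nat_lit 9) L24900 (by decide +kernel)
theorem L24902 : W_1 (nat_lit 7) (nat_lit 0x3000080004000600018000000000000000000) (nat_lit 0x0) (nat_lit 0x2000000004000b8008000060018000c0000000000) := T_1 (nat_lit 73) (nat_lit 74) (nat_lit 3) (nat_lit 5) (nat_lit 4) L24901 (by decide +kernel)
theorem L24903 : W_1 (nat_lit 8) (nat_lit 0x3000080004000600010000000000000000000) (nat_lit 0x0) (nat_lit 0x2000000004000b80080000e001c000c0000000000) := T_1 (nat_lit 75) (nat_lit 58) (nat_lit 4) (nat_lit 8) (nat_lit 7) L24902 (by decide +kernel)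
theorem L24904 : W_1 (nat_lit 9) (nat_lit 0x3000080004000600000000000000000000000) (nat_lit 0x0) (nat_lit 0x2000000014000b80080001e001c000c0000000000) := T_1 (nat_lit 76) (nat_lit 128) (nat_lit 7) (nat_lit 8) (nat_lit 4) L24903 (by decide +kernel)
theorem L24905 : W_1 (nat_lit 10) (nat_lit 0x1000080004000600000000000000000000000) (nat_lit 0x0) (nat_lit 0x6000200014000b80080001e001c000c0000000000) := T_1 (nat_lit 145) (nat_lit 162) (nat_lit 7) (nat_lit 8) (nat_lit 5) L24904 (by decide +kernel)
theorem L24906 : W_1 (nat_lit 11) (nat_lit 0x1000080004000200000000000000000000000) (nat_lit 0x0) (nat_lit 0x6000200014000b800c0003e001c000c0000000000) := T_1 (nat_lit 94) (nat_lit 77) (nat_lit 6) (nat_lit 8) (nat_lit 8) L24905 (by decide +kernel)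
theorem L24907 : W_1 (nat_lit 2) (nat_lit 0x3000080006000300010000000000000000000) (nat_lit 0x0) (nat_lit 0x40000000000000000800040000000000) := D_1 (nat_lit 59) (nat_lit 42) (nat_lit 126) (nat_lit 5) (nat_lit 8) (nat_lit 2) (nat_lit 5) (nat_lit 8) (nat_lit 3) (by decide +kernel)
theorem L24908 : W_1 (nat_lit 3) (nat_lit 0x3000080004000300010000000000000000000) (nat_lit 0x0) (nat_lit 0x20000000040002000000000000800040000000000) := T_1 (nat_lit 109) (nat_lit 161) (nat_lit 4) (nat_lit 8) (nat_lit 9) L24907 (by decide +kernel)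
theorem L24909 : W_1 (nat_lit 4) (nat_lit 0x3000080004000300000000000000000000000) (nat_lit 0x0) (nat_lit 0x20000000140002000000010000800040000000000) := T_1 (nat_lit 76) (nat_lit 128) (nat_lit 7) (nat_lit 8) (nat_lit 4) L24908 (by decide +kernel)
theorem L24910 : W_1 (nat_lit 5) (nat_lit 0x1000080004000300000000000000000000000) (nat_lit 0x0) (nat_lit 0x60002000140002000000010000800040000000000) := T_1 (nat_lit 145) (nat_lit 162) (nat_lit 7) (nat_lit 8) (nat_lit 5) L24909 (by decide +kernel)
theorem L24911 : W_1 (nat_lit 6) (nat_lit 0x1000080004000200000000000000000000000) (nat_lit 0x0) (nat_lit 0x60002000140002000100018000800040000000000) := T_1 (nat_lit 92) (nat_lit 75) (nat_lit 4) (nat_lit 8) (nat_lit 8) L24910 (by decide +kernel)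
theorem L24912 : W_1 (nat_lit 2) (nat_lit 0x30003000080006000600010000000000000000000) (nat_lit 0x0) (nat_lit 0x400000000000040000000000000000800000000000000) := D_1 (nat_lit 126) (nat_lit 178) (nat_lit 59) (nat_lit 4) (nat_lit 8) (nat_lit 10) (nat_lit 5) (nat_lit 8) (nat_lit 3) (by decide +kernel)
theorem L24913 : W_1 (nat_lit 3) (nat_lit 0x30003000080004000600010000000000000000000) (nat_lit 0x0) (nat_lit 0x400000000000040002000100000000800000000000000) := T_1 (nat_lit 109) (nat_lit 92) (nat_lit 4) (nat_lit 8) (nat_lit 9) L24912 (by decide +kernel)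
theorem L24914 : W_1 (nat_lit 4) (nat_lit 0x20003000080004000600010000000000000000000) (nat_lit 0x0) (nat_lit 0x600010000000040002000100000000800000000000000) := T_1 (nat_lit 160) (nat_lit 177) (nat_lit 5) (nat_lit 8) (nat_lit 6) L24913 (by decide +kernel)
theorem L24915 : W_1 (nat_lit 5) (nat_lit 0x3000080004000600010000000000000000000) (nat_lit 0x0) (nat_lit 0x60003000000004000a000100000000800000000000000) := T_1 (nat_lit 161) (nat_lit 111) (nat_lit 6) (nat_lit 8) (nat_lit 9) L24914 (by decide +kernel)
theorem L24916 : W_1 (nat_lit 6) (nat_lit 0x3000080004000600000000000000000000000) (nat_lit 0x0) (nat_lit 0x60003000000014000a000100010000800000000000000) := T_1 (nat_lit 76) (nat_lit 128) (nat_lit 7) (nat_lit 8) (nat_lit 4) L24915 (by decide +kernel)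
theorem L24917 : W_1 (nat_lit 7) (nat_lit 0x1000080004000600000000000000000000000) (nat_lit 0x0) (nat_lit 0x60007000200014000a000100010000800000000000000) := T_1 (nat_lit 145) (nat_lit 162) (nat_lit 7) (nat_lit 8) (nat_lit 5) L24916 (by decide +kernel)
theorem L24918 : W_1 (nat_lit 8) (nat_lit 0x1000080004000200000000000000000000000) (nat_lit 0x0) (nat_lit 0x60007000200014000a000500030000800000000000000) := T_1 (nat_lit 94) (nat_lit 77) (nat_lit 6) (nat_lit 8) (nat_lit 8) L24917 (by decide +kernel)
theorem L24919 : W_1 (nat_lit 12) (nat_lit 0x1000080004000000000000000000000000000) (nat_lit 0x0) (nat_lit 0x60007000200014000b800fc003e001c000c0000000000) := Q_1 (nat_lit 93) (C_1 L24789 (C_1 L24785 (C_1 L24896 (C_1 L24906 (C_1 L24911 (C_1 L24918 N_1)))))) (by decide +kernel)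
theorem L24920 : W_1 (nat_lit 7) (nat_lit 0x1000080004000000000000000000000000000) (nat_lit 0x0) (nat_lit 0x800070002800140002000700038001800040000000000) := Q_1 (nat_lit 93) (C_1 L24911 (C_1 L24835 (C_1 L24888 N_1))) (by decide +kernel)
theorem L24921 : W_1 (nat_lit 6) (nat_lit 0x1000080004000000000000000000000000000) (nat_lit 0x0) (nat_lit 0x400060003000000014000a000700028000000000000000000) := Q_1 (nat_lit 161) (C_1 L24778 (C_1 L24775 (C_1 L24624 (C_1 L24672 N_1)))) (by decide +kernel)
theorem L24922 : W_1 (nat_lit 2) (nat_lit 0x1800080006000380030000800000000000000) (nat_lit 0x0) (nat_lit 0x100018000000000000000000000000000) := D_1 (nat_lit 111) (nat_lit 112) (nat_lit 128) (nat_lit 0) (nat_lit 10) (nat_lit 6) (nat_lit 7) (nat_lit 8) (nat_lit 3) (by decide +kernel)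
theorem L24923 : W_1 (nat_lit 3) (nat_lit 0x1800080006000380030000000000000000000) (nat_lit 0x0) (nat_lit 0x100018000000000000800040000000000) := T_1 (nat_lit 59) (nat_lit 42) (nat_lit 5) (nat_lit 8) (nat_lit 2) L24922 (by decide +kernel)
theorem L24924 : W_1 (nat_lit 4) (nat_lit 0x1800080006000300030000000000000000000) (nat_lit 0x0) (nat_lit 0x1000180000c0000000800040000000000) := T_1 (nat_lit 91) (nat_lit 90) (nat_lit 2) (nat_lit 5) (nat_lit 5) L24923 (by decide +kernel)
theorem L24925 : W_1 (nat_lit 5) (nat_lit 0x1800080006000300010000000000000000000) (nat_lit 0x0) (nat_lit 0x1000180000c0020001800040000000000) := T_1 (nat_lit 77) (nat_lit 60) (nat_lit 6) (nat_lit 8) (nat_lit 7) L24924 (by decide +kernel)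
theorem L24926 : W_1 (nat_lit 6) (nat_lit 0x1800080004000300010000000000000000000) (nat_lit 0x0) (nat_lit 0x2000000010001a0000c0020001800040000000000) := T_1 (nat_lit 109) (nat_lit 161) (nat_lit 4) (nat_lit 8) (nat_lit 9) L24925 (by decide +kernel)
theorem L24927 : W_1 (nat_lit 7) (nat_lit 0x1800080004000300000000000000000000000) (nat_lit 0x0) (nat_lit 0x2000000014001a0000c0030001800040000000000) := T_1 (nat_lit 76) (nat_lit 126) (nat_lit 5) (nat_lit 8) (nat_lit 4) L24926 (by decide +kernel)
theorem L24928 : W_1 (nat_lit 8) (nat_lit 0x1000080004000300000000000000000000000) (nat_lit 0x0) (nat_lit 0x3000080014001a0000c0030001800040000000000) := T_1 (nat_lit 143) (nat_lit 160) (nat_lit 5) (nat_lit 8) (nat_lit 5) L24927 (by decide +kernel)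
theorem L24929 : W_1 (nat_lit 9) (nat_lit 0x1000080004000200000000000000000000000) (nat_lit 0x0) (nat_lit 0x3000080014001a0001c0038001800040000000000) := T_1 (nat_lit 92) (nat_lit 75) (nat_lit 4) (nat_lit 8) (nat_lit 8) L24928 (by decide +kernel)
theorem L24930 : W_1 (nat_lit 4) (nat_lit 0x1000080004000200000000000000000000000) (nat_lit 0x0) (nat_lit 0x50002800140000000000010000000000000000000) := T_1 (nat_lit 145) (nat_lit 162) (nat_lit 7) (nat_lit 8) (nat_lit 5) L5598 (by decide +kernel)
theorem L24931 : W_1 (nat_lit 10) (nat_lit 0x1000080004000000000000000000000000000) (nat_lit 0x0) (nat_lit 0xc0007000280014001a0003c0038001800040000000000) := Q_1 (nat_lit 93) (C_1 L24911 (C_1 L24816 (C_1 L24888 (C_1 L24793 (C_1 L24929 (C_1 L24930 N_1)))))) (by decide +kernel)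
theorem L24932 : W_1 (nat_lit 2) (nat_lit 0x10003000080004000600000000000000000000000) (nat_lit 0x0) (nat_lit 0x200020000000000008000000000000000000000000000) := D_1 (nat_lit 161) (nat_lit 177) (nat_lit 111) (nat_lit 5) (nat_lit 8) (nat_lit 6) (nat_lit 6) (nat_lit 8) (nat_lit 9) (by decide +kernel)
theorem L24933 : W_1 (nat_lit 3) (nat_lit 0x10003000080004000200000000000000000000000) (nat_lit 0x0) (nat_lit 0x200020000000000008000400020000000000000000000) := T_1 (nat_lit 94) (nat_lit 77) (nat_lit 6) (nat_lit 8) (nat_lit 8) L24932 (by decide +kernel)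
theorem L24934 : W_1 (nat_lit 4) (nat_lit 0x3000080004000200000000000000000000000) (nat_lit 0x0) (nat_lit 0x200030000800000008000400020000000000000000000) := T_1 (nat_lit 160) (nat_lit 143) (nat_lit 5) (nat_lit 8) (nat_lit 5) L24933 (by decide +kernel)
theorem L24935 : W_1 (nat_lit 5) (nat_lit 0x1000080004000200000000000000000000000) (nat_lit 0x0) (nat_lit 0x200070002800000008000400020000000000000000000) := T_1 (nat_lit 145) (nat_lit 162) (nat_lit 7) (nat_lit 8) (nat_lit 5) L24934 (by decide +kernel)
theorem L24936 : W_1 (nat_lit 12) (nat_lit 0x1000080004000000000000000000000000000) (nat_lit 0x0) (nat_lit 0x20007000280014000b800e0003e001c000c0000000000) := Q_1 (nat_lit 93) (C_1 L24930 (C_1 L24835 (C_1 L24906 (C_1 L24884 (C_1 L24935 N_1))))) (by decide +kernel)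
theorem L24937 : W_1 (nat_lit 2) (nat_lit 0x100008000c000380000000000000000000000) (nat_lit 0x0) (nat_lit 0x10000400020000000000000000000) := D_1 (nat_lit 94) (nat_lit 77) (nat_lit 112) (nat_lit 6) (nat_lit 8) (nat_lit 8) (nat_lit 3) (nat_lit 6) (nat_lit 5) (by decide +kernel)
theorem L24938 : W_1 (nat_lit 3) (nat_lit 0x100008000c000300000000000000000000000) (nat_lit 0x0) (nat_lit 0x100004c0020000000000000000000) := T_1 (nat_lit 91) (nat_lit 90) (nat_lit 3) (nat_lit 5) (nat_lit 5) L24937 (by decide +kernel)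
theorem L24939 : W_1 (nat_lit 4) (nat_lit 0x100008000c000200000000000000000000000) (nat_lit 0x0) (nat_lit 0x100005c0028000000000000000000) := T_1 (nat_lit 92) (nat_lit 75) (nat_lit 4) (nat_lit 8) (nat_lit 8) L24938 (by decide +kernel)
theorem L24940 : W_1 (nat_lit 2) (nat_lit 0x38000c000e000380000000000000000000000) (nat_lit 0x0) (nat_lit 0x4000030000000000000000000000000000000) := D_1 (nat_lit 125) (nat_lit 124) (nat_lit 146) (nat_lit 3) (nat_lit 5) (nat_lit 7) (nat_lit 0) (nat_lit 10) (nat_lit 8) (by decide +kernel)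
theorem L24941 : W_1 (nat_lit 3) (nat_lit 0x380008000e000380000000000000000000000) (nat_lit 0x0) (nat_lit 0x4000070000000000004000000000000000000) := T_1 (nat_lit 126) (nat_lit 74) (nat_lit 4) (nat_lit 7) (nat_lit 8) L24940 (by decide +kernel)
theorem L24942 : W_1 (nat_lit 4) (nat_lit 0x380008000c000380000000000000000000000) (nat_lit 0x0) (nat_lit 0x4000070012000000004000000000000000000) := T_1 (nat_lit 109) (nat_lit 112) (nat_lit 0) (nat_lit 10) (nat_lit 6) L24941 (by decide +kernel)
theorem L24943 : W_1 (nat_lit 5) (nat_lit 0x180008000c000380000000000000000000000) (nat_lit 0x0) (nat_lit 0x40006000070012000000004000000000000000000) := T_1 (nat_lit 145) (nat_lit 162) (nat_lit 7) (nat_lit 8) (nat_lit 5) L24942 (by decide +kernel)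
theorem L24944 : W_1 (nat_lit 6) (nat_lit 0x180008000c000300000000000000000000000) (nat_lit 0x0) (nat_lit 0x400060000700120000c0004000000000000000000) := T_1 (nat_lit 91) (nat_lit 90) (nat_lit 3) (nat_lit 5) (nat_lit 5) L24943 (by decide +kernel)
theorem L24945 : W_1 (nat_lit 7) (nat_lit 0x180008000c000200000000000000000000000) (nat_lit 0x0) (nat_lit 0x400060000700120001c000c000000000000000000) := T_1 (nat_lit 92) (nat_lit 75) (nat_lit 4) (nat_lit 8) (nat_lit 8) L24944 (by decide +kernel)
theorem L24946 : W_1 (nat_lit 8) (nat_lit 0x100008000c000200000000000000000000000) (nat_lit 0x0) (nat_lit 0x500068000700120001c000c000000000000000000) := T_1 (nat_lit 143) (nat_lit 160) (nat_lit 5) (nat_lit 8) (nat_lit 5) L24945 (by decide +kernel)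
theorem L24947 : W_1 (nat_lit 2) (nat_lit 0x30000e000c000200000000000000000000000) (nat_lit 0x0) (nat_lit 0x100012000000000000000000000000000) := D_1 (nat_lit 112) (nat_lit 109) (nat_lit 128) (nat_lit 1) (nat_lit 10) (nat_lit 6) (nat_lit 2) (nat_lit 6) (nat_lit 7) (by decide +kernel)
theorem L24948 : W_1 (nat_lit 3) (nat_lit 0x30000a000c000200000000000000000000000) (nat_lit 0x0) (nat_lit 0x150012000000000000000000000000000) := T_1 (nat_lit 126) (nat_lit 124) (nat_lit 3) (nat_lit 5) (nat_lit 7) L24947 (by decide +kernel)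
theorem L24949 : W_1 (nat_lit 4) (nat_lit 0x10000a000c000200000000000000000000000) (nat_lit 0x0) (nat_lit 0x40002000150012000000000000000000000000000) := T_1 (nat_lit 145) (nat_lit 162) (nat_lit 7) (nat_lit 8) (nat_lit 5) L24948 (by decide +kernel)
theorem L24950 : W_1 (nat_lit 2) (nat_lit 0x1c000b000e000600000000000000000000000) (nat_lit 0x0) (nat_lit 0x200108000000000000000000000000000000) := D_1 (nat_lit 141) (nat_lit 123) (nat_lit 128) (nat_lit 0) (nat_lit 8) (nat_lit 8) (nat_lit 2) (nat_lit 5) (nat_lit 8) (by decide +kernel)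
theorem L24951 : W_1 (nat_lit 3) (nat_lit 0x18000b000e000600000000000000000000000) (nat_lit 0x0) (nat_lit 0x2600108000000000000000000000000000000) := T_1 (nat_lit 142) (nat_lit 145) (nat_lit 0) (nat_lit 9) (nat_lit 8) L24950 (by decide +kernel)
theorem L24952 : W_1 (nat_lit 4) (nat_lit 0x18000b000c000600000000000000000000000) (nat_lit 0x0) (nat_lit 0x2600108003000000000000000000000000000) := T_1 (nat_lit 109) (nat_lit 108) (nat_lit 1) (nat_lit 9) (nat_lit 6) L24951 (by decide +kernel)
theorem L24953 : W_1 (nat_lit 5) (nat_lit 0x18000a000c000600000000000000000000000) (nat_lit 0x0) (nat_lit 0x2600158003000000000000000000000000000) := T_1 (nat_lit 124) (nat_lit 126) (nat_lit 2) (nat_lit 5) (nat_lit 7) L24952 (by decide +kernel)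
theorem L24954 : W_1 (nat_lit 6) (nat_lit 0x10000a000c000600000000000000000000000) (nat_lit 0x0) (nat_lit 0x10002e00158003000000000000000000000000000) := T_1 (nat_lit 143) (nat_lit 160) (nat_lit 5) (nat_lit 8) (nat_lit 5) L24953 (by decide +kernel)
theorem L24955 : W_1 (nat_lit 7) (nat_lit 0x10000a000c000200000000000000000000000) (nat_lit 0x0) (nat_lit 0x10002e00158003000400020000000000000000000) := T_1 (nat_lit 94) (nat_lit 77) (nat_lit 6) (nat_lit 8) (nat_lit 8) L24954 (by decide +kernel)
theorem L24956 : W_1 (nat_lit 2) (nat_lit 0x30000b000e000200000000000000000000000) (nat_lit 0x0) (nat_lit 0x10000c00000000000000000000000000000000000) := D_1 (nat_lit 143) (nat_lit 142) (nat_lit 160) (nat_lit 0) (nat_lit 9) (nat_lit 8) (nat_lit 5) (nat_lit 8) (nat_lit 5) (by decide +kernel)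
theorem L24957 : W_1 (nat_lit 3) (nat_lit 0x10000b000e000200000000000000000000000) (nat_lit 0x0) (nat_lit 0x50002c00000000000000000000000000000000000) := T_1 (nat_lit 145) (nat_lit 162) (nat_lit 7) (nat_lit 8) (nat_lit 5) L24956 (by decide +kernel)
theorem L24958 : W_1 (nat_lit 4) (nat_lit 0x10000b000c000200000000000000000000000) (nat_lit 0x0) (nat_lit 0x50002c00000003000000000000000000000000000) := T_1 (nat_lit 109) (nat_lit 108) (nat_lit 1) (nat_lit 9) (nat_lit 6) L24957 (by decide +kernel)
theorem L24959 : W_1 (nat_lit 5) (nat_lit 0x10000a000c000200000000000000000000000) (nat_lit 0x0) (nat_lit 0x50002c00050003000000000000000000000000000) := T_1 (nat_lit 124) (nat_lit 126) (nat_lit 2) (nat_lit 5) (nat_lit 7) L24958 (by decide +kernel)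
theorem L24960 : W_1 (nat_lit 2) (nat_lit 0x30000b000c000600000000000000000000000) (nat_lit 0x0) (nat_lit 0x10000c00000000000000000000000000000000000) := D_1 (nat_lit 143) (nat_lit 142) (nat_lit 160) (nat_lit 0) (nat_lit 9) (nat_lit 8) (nat_lit 5) (nat_lit 8) (nat_lit 5) (by decide +kernel)
theorem L24961 : W_1 (nat_lit 3) (nat_lit 0x10000b000c000600000000000000000000000) (nat_lit 0x0) (nat_lit 0x50002c00000000000000000000000000000000000) := T_1 (nat_lit 145) (nat_lit 162) (nat_lit 7) (nat_lit 8) (nat_lit 5) L24960 (by decide +kernel)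
theorem L24962 : W_1 (nat_lit 4) (nat_lit 0x10000a000c000600000000000000000000000) (nat_lit 0x0) (nat_lit 0x50002c00050000000000000000000000000000000) := T_1 (nat_lit 124) (nat_lit 126) (nat_lit 2) (nat_lit 5) (nat_lit 7) L24961 (by decide +kernel)
theorem L24963 : W_1 (nat_lit 5) (nat_lit 0x10000a000c000200000000000000000000000) (nat_lit 0x0) (nat_lit 0x50002c00050000000400020000000000000000000) := T_1 (nat_lit 94) (nat_lit 77) (nat_lit 6) (nat_lit 8) (nat_lit 8) L24962 (by decide +kernel)
theorem L24964 : W_1 (nat_lit 2) (nat_lit 0x3c000a000c000600000000000000000000000) (nat_lit 0x0) (nat_lit 0x200300000000000000000000000000000000) := D_1 (nat_lit 128) (nat_lit 141) (nat_lit 129) (nat_lit 2) (nat_lit 5) (nat_lit 8) (nat_lit 2) (nat_lit 6) (nat_lit 8) (by decide +kernel)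
theorem L24965 : W_1 (nat_lit 3) (nat_lit 0x38000a000c000600000000000000000000000) (nat_lit 0x0) (nat_lit 0x600310000000000000000000000000000000) := T_1 (nat_lit 142) (nat_lit 124) (nat_lit 0) (nat_lit 9) (nat_lit 8) L24964 (by decide +kernel)
theorem L24966 : W_1 (nat_lit 4) (nat_lit 0x18000a000c000600000000000000000000000) (nat_lit 0x0) (nat_lit 0x40002600310000000000000000000000000000000) := T_1 (nat_lit 145) (nat_lit 162) (nat_lit 7) (nat_lit 8) (nat_lit 5) L24965 (by decide +kernel)
theorem L24967 : W_1 (nat_lit 5) (nat_lit 0x18000a000c000200000000000000000000000) (nat_lit 0x0) (nat_lit 0x40002600310000000400020000000000000000000) := T_1 (nat_lit 94) (nat_lit 77) (nat_lit 6) (nat_lit 8) (nat_lit 8) L24966 (by decide +kernel)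
theorem L24968 : W_1 (nat_lit 6) (nat_lit 0x10000a000c000200000000000000000000000) (nat_lit 0x0) (nat_lit 0x50002e00310000000400020000000000000000000) := T_1 (nat_lit 143) (nat_lit 160) (nat_lit 5) (nat_lit 8) (nat_lit 5) L24967 (by decide +kernel)
theorem L24969 : W_1 (nat_lit 2) (nat_lit 0x10000e000c000200000000000000000000000) (nat_lit 0x0) (nat_lit 0x100012000000000000000000000000000) := D_1 (nat_lit 112) (nat_lit 109) (nat_lit 128) (nat_lit 1) (nat_lit 10) (nat_lit 6) (nat_lit 2) (nat_lit 6) (nat_lit 7) (by decide +kernel)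
theorem L24970 : W_1 (nat_lit 3) (nat_lit 0x10000a000c000200000000000000000000000) (nat_lit 0x0) (nat_lit 0x150012000000000000000000000000000) := T_1 (nat_lit 126) (nat_lit 124) (nat_lit 2) (nat_lit 5) (nat_lit 7) L24969 (by decide +kernel)
theorem L24971 : W_1 (nat_lit 2) (nat_lit 0x78001a000c000600000000000000000000000) (nat_lit 0x0) (nat_lit 0x600200000000000000000000000000000000) := D_1 (nat_lit 142) (nat_lit 141) (nat_lit 129) (nat_lit 2) (nat_lit 5) (nat_lit 8) (nat_lit 2) (nat_lit 6) (nat_lit 8) (by decide +kernel)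
theorem L24972 : W_1 (nat_lit 3) (nat_lit 0x78000a000c000600000000000000000000000) (nat_lit 0x0) (nat_lit 0x80000600300000000000000000000000000000000) := T_1 (nat_lit 128) (nat_lit 163) (nat_lit 7) (nat_lit 9) (nat_lit 5) L24971 (by decide +kernel)
theorem L24973 : W_1 (nat_lit 4) (nat_lit 0x78000a000c000200000000000000000000000) (nat_lit 0x0) (nat_lit 0x80000600300000000400020000000000000000000) := T_1 (nat_lit 94) (nat_lit 77) (nat_lit 6) (nat_lit 8) (nat_lit 8) L24972 (by decide +kernel)
theorem L24974 : W_1 (nat_lit 5) (nat_lit 0x38000a000c000200000000000000000000000) (nat_lit 0x0) (nat_lit 0x80004600340000000400020000000000000000000) := T_1 (nat_lit 146) (nat_lit 126) (nat_lit 0) (nat_lit 10) (nat_lit 8) L24973 (by decide +kernel)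
theorem L24975 : W_1 (nat_lit 6) (nat_lit 0x18000a000c000200000000000000000000000) (nat_lit 0x0) (nat_lit 0xc0006600340000000400020000000000000000000) := T_1 (nat_lit 145) (nat_lit 162) (nat_lit 7) (nat_lit 8) (nat_lit 5) L24974 (by decide +kernel)
theorem L24976 : W_1 (nat_lit 7) (nat_lit 0x10000a000c000200000000000000000000000) (nat_lit 0x0) (nat_lit 0xd0006e00340000000400020000000000000000000) := T_1 (nat_lit 143) (nat_lit 160) (nat_lit 5) (nat_lit 8) (nat_lit 5) L24975 (by decide +kernel)
theorem L24977 : W_1 (nat_lit 8) (nat_lit 0x100008000c000200000000000000000000000) (nat_lit 0x0) (nat_lit 0xd0006e00378013000400020000000000000000000) := Q_1 (nat_lit 125) (C_1 L24949 (C_1 L24955 (C_1 L24959 (C_1 L24963 (C_1 L24968 (C_1 L24970 (C_1 L24976 N_1))))))) (by decide +kernel)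
theorem L24978 : W_1 (nat_lit 2) (nat_lit 0x180008000d000780004000000000000000000) (nat_lit 0x0) (nat_lit 0x60002000000000000000000000000000) := D_1 (nat_lit 126) (nat_lit 109) (nat_lit 125) (nat_lit 4) (nat_lit 7) (nat_lit 8) (nat_lit 7) (nat_lit 6) (nat_lit 4) (by decide +kernel)
theorem L24979 : W_1 (nat_lit 3) (nat_lit 0x180008000c000780004000000000000000000) (nat_lit 0x0) (nat_lit 0x60003800000000000000000000000000) := T_1 (nat_lit 108) (nat_lit 107) (nat_lit 1) (nat_lit 9) (nat_lit 5) L24978 (by decide +kernel)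
theorem L24980 : W_1 (nat_lit 4) (nat_lit 0x180008000c000780000000000000000000000) (nat_lit 0x0) (nat_lit 0x60003800000006000000000000000000) := T_1 (nat_lit 74) (nat_lit 73) (nat_lit 0) (nat_lit 9) (nat_lit 5) L24979 (by decide +kernel)
theorem L24981 : W_1 (nat_lit 5) (nat_lit 0x100008000c000780000000000000000000000) (nat_lit 0x0) (nat_lit 0x10000800060003800000006000000000000000000) := T_1 (nat_lit 143) (nat_lit 160) (nat_lit 5) (nat_lit 8) (nat_lit 5) L24980 (by decide +kernel)
theorem L24982 : W_1 (nat_lit 6) (nat_lit 0x100008000c000700000000000000000000000) (nat_lit 0x0) (nat_lit 0x100008000600038000c0006000000000000000000) := T_1 (nat_lit 91) (nat_lit 90) (nat_lit 3) (nat_lit 5) (nat_lit 5) L24981 (by decide +kernel)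
theorem L24983 : W_1 (nat_lit 7) (nat_lit 0x100008000c000600000000000000000000000) (nat_lit 0x0) (nat_lit 0x100008000600038001c000e000000000000000000) := T_1 (nat_lit 92) (nat_lit 75) (nat_lit 4) (nat_lit 8) (nat_lit 8) L24982 (by decide +kernel)
theorem L24984 : W_1 (nat_lit 8) (nat_lit 0x100008000c000200000000000000000000000) (nat_lit 0x0) (nat_lit 0x100008000600038005c002e000000000000000000) := T_1 (nat_lit 94) (nat_lit 77) (nat_lit 6) (nat_lit 8) (nat_lit 8) L24983 (by decide +kernel)
theorem L24985 : W_1 (nat_lit 9) (nat_lit 0x1000080004000200000000000000000000000) (nat_lit 0x0) (nat_lit 0xd0006e0037801b8005c002e000000000000000000) := Q_1 (nat_lit 111) (C_1 L24939 (C_1 L24946 (C_1 L24977 (C_1 L24984 N_1)))) (by decide +kernel)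
theorem L24986 : W_1 (nat_lit 10) (nat_lit 0x1000080004000000000000000000000000000) (nat_lit 0x0) (nat_lit 0xd0006e0037801b8007c003e001c00020000000000) := Q_1 (nat_lit 93) (C_1 L24930 (C_1 L24835 (C_1 L24861 (C_1 L24884 (C_1 L24789 (C_1 L24985 N_1)))))) (by decide +kernel)
theorem L24987 : W_1 (nat_lit 2) (nat_lit 0x300010000c000e000000000000000000000000000) (nat_lit 0x0) (nat_lit 0x30010000000000000000000000000000) := D_1 (nat_lit 125) (nat_lit 124) (nat_lit 112) (nat_lit 2) (nat_lit 5) (nat_lit 7) (nat_lit 1) (nat_lit 10) (nat_lit 6) (by decide +kernel)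
theorem L24988 : W_1 (nat_lit 3) (nat_lit 0x300010000c0006000000000000000000000000000) (nat_lit 0x0) (nat_lit 0x30018000400000000000000000000000) := T_1 (nat_lit 111) (nat_lit 94) (nat_lit 6) (nat_lit 8) (nat_lit 9) L24987 (by decide +kernel)
theorem L24989 : W_1 (nat_lit 4) (nat_lit 0x200010000c0006000000000000000000000000000) (nat_lit 0x0) (nat_lit 0x200010000000030018000400000000000000000000000) := T_1 (nat_lit 160) (nat_lit 177) (nat_lit 5) (nat_lit 8) (nat_lit 6) L24988 (by decide +kernel)
theorem L24990 : W_1 (nat_lit 5) (nat_lit 0x200010000c0004000000000000000000000000000) (nat_lit 0x0) (nat_lit 0x20001000000003001a000500000000000000000000000) := T_1 (nat_lit 109) (nat_lit 92) (nat_lit 4) (nat_lit 8) (nat_lit 9) L24989 (by decide +kernel)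
theorem L24991 : W_1 (nat_lit 2) (nat_lit 0x600010000c000e000000000000000000000000000) (nat_lit 0x0) (nat_lit 0x30010000000000000000000000000000) := D_1 (nat_lit 125) (nat_lit 124) (nat_lit 112) (nat_lit 2) (nat_lit 5) (nat_lit 7) (nat_lit 1) (nat_lit 10) (nat_lit 6) (by decide +kernel)
theorem L24992 : W_1 (nat_lit 3) (nat_lit 0x600010000c0006000000000000000000000000000) (nat_lit 0x0) (nat_lit 0x30018000400000000000000000000000) := T_1 (nat_lit 111) (nat_lit 94) (nat_lit 6) (nat_lit 8) (nat_lit 9) L24991 (by decide +kernel)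
theorem L24993 : W_1 (nat_lit 4) (nat_lit 0x600010000c0004000000000000000000000000000) (nat_lit 0x0) (nat_lit 0x3001a000500000000000000000000000) := T_1 (nat_lit 109) (nat_lit 92) (nat_lit 4) (nat_lit 8) (nat_lit 9) L24992 (by decide +kernel)
theorem L24994 : W_1 (nat_lit 5) (nat_lit 0x200010000c0004000000000000000000000000000) (nat_lit 0x0) (nat_lit 0x80004000000003001a000500000000000000000000000) := T_1 (nat_lit 162) (nat_lit 179) (nat_lit 7) (nat_lit 8) (nat_lit 6) L24993 (by decide +kernel)
theorem L24995 : W_1 (nat_lit 2) (nat_lit 0x600034001e000c000000000000000000000000000) (nat_lit 0x0) (nat_lit 0x80000800200000000000000000000000000000000) := D_1 (nat_lit 143) (nat_lit 129) (nat_lit 163) (nat_lit 2) (nat_lit 6) (nat_lit 8) (nat_lit 3) (nat_lit 6) (nat_lit 8) (by decide +kernel)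
theorem L24996 : W_1 (nat_lit 3) (nat_lit 0x600014001e000c000000000000000000000000000) (nat_lit 0x0) (nat_lit 0x80006800200000000000000000000000000000000) := T_1 (nat_lit 145) (nat_lit 146) (nat_lit 3) (nat_lit 6) (nat_lit 7) L24995 (by decide +kernel)
theorem L24997 : W_1 (nat_lit 4) (nat_lit 0x600010001e000c000000000000000000000000000) (nat_lit 0x0) (nat_lit 0x80006e00200000000000000000000000000000000) := T_1 (nat_lit 142) (nat_lit 141) (nat_lit 1) (nat_lit 9) (nat_lit 7) L24996 (by decide +kernel)
theorem L24998 : W_1 (nat_lit 5) (nat_lit 0x600010000e000c000000000000000000000000000) (nat_lit 0x0) (nat_lit 0x80006e00300010000000000000000000000000000) := T_1 (nat_lit 128) (nat_lit 112) (nat_lit 2) (nat_lit 6) (nat_lit 7) L24997 (by decide +kernel)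
theorem L24999 : W_1 (nat_lit 6) (nat_lit 0x200010000e000c000000000000000000000000000) (nat_lit 0x0) (nat_lit 0x8000c0006e00300010000000000000000000000000000) := T_1 (nat_lit 162) (nat_lit 179) (nat_lit 7) (nat_lit 8) (nat_lit 6) L24998 (by decide +kernel)
theorem L25000 : W_1 (nat_lit 7) (nat_lit 0x200010000c000c000000000000000000000000000) (nat_lit 0x0) (nat_lit 0x8000c0006e00330010000000000000000000000000000) := T_1 (nat_lit 125) (nat_lit 124) (nat_lit 2) (nat_lit 5) (nat_lit 7) L24999 (by decide +kernel)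
theorem L25001 : W_1 (nat_lit 8) (nat_lit 0x200010000c0004000000000000000000000000000) (nat_lit 0x0) (nat_lit 0x8000c0006e00330018000400000000000000000000000) := T_1 (nat_lit 111) (nat_lit 94) (nat_lit 6) (nat_lit 8) (nat_lit 9) L25000 (by decide +kernel)
theorem L25002 : W_1 (nat_lit 2) (nat_lit 0x200010000c0007000000000000000000000000000) (nat_lit 0x0) (nat_lit 0x300000800000000000000000000000000) := D_1 (nat_lit 128) (nat_lit 129) (nat_lit 107) (nat_lit 0) (nat_lit 10) (nat_lit 7) (nat_lit 3) (nat_lit 5) (nat_lit 6) (by decide +kernel)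
theorem L25003 : W_1 (nat_lit 2) (nat_lit 0x600010000c000f400080000000000000000000000) (nat_lit 0x0) (nat_lit 0x200010000800000000000000000000000000000000000) := D_1 (nat_lit 160) (nat_lit 177) (nat_lit 143) (nat_lit 5) (nat_lit 8) (nat_lit 6) (nat_lit 4) (nat_lit 7) (nat_lit 9) (by decide +kernel)
theorem L25004 : W_1 (nat_lit 3) (nat_lit 0x600010000c000f400000000000000000000000000) (nat_lit 0x0) (nat_lit 0x2000100008000000000000c0000000000000000000000) := T_1 (nat_lit 91) (nat_lit 90) (nat_lit 0) (nat_lit 9) (nat_lit 6) L25003 (by decide +kernel)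
theorem L25005 : W_1 (nat_lit 4) (nat_lit 0x600010000c0007400000000000000000000000000) (nat_lit 0x0) (nat_lit 0x2000100008000000080004c0000000000000000000000) := T_1 (nat_lit 111) (nat_lit 94) (nat_lit 6) (nat_lit 8) (nat_lit 9) L25004 (by decide +kernel)
theorem L25006 : W_1 (nat_lit 5) (nat_lit 0x600010000c0007000000000000000000000000000) (nat_lit 0x0) (nat_lit 0x200010000800000008c004c0000000000000000000000) := T_1 (nat_lit 106) (nat_lit 107) (nat_lit 3) (nat_lit 4) (nat_lit 6) L25005 (by decide +kernel)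
theorem L25007 : W_1 (nat_lit 6) (nat_lit 0x200010000c0007000000000000000000000000000) (nat_lit 0x0) (nat_lit 0xa00050000800000008c004c0000000000000000000000) := T_1 (nat_lit 162) (nat_lit 179) (nat_lit 7) (nat_lit 8) (nat_lit 6) L25006 (by decide +kernel)
theorem L25008 : W_1 (nat_lit 2) (nat_lit 0x700018000c0007000000000000000000000000000) (nat_lit 0x0) (nat_lit 0x80000600000000000000000000000000000000000) := D_1 (nat_lit 142) (nat_lit 141) (nat_lit 163) (nat_lit 3) (nat_lit 5) (nat_lit 8) (nat_lit 0) (nat_lit 10) (nat_lit 9) (by decide +kernel)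
theorem L25009 : W_1 (nat_lit 3) (nat_lit 0x300018000c0007000000000000000000000000000) (nat_lit 0x0) (nat_lit 0x8000c0000600000000000000000000000000000000000) := T_1 (nat_lit 162) (nat_lit 179) (nat_lit 7) (nat_lit 8) (nat_lit 6) L25008 (by decide +kernel)
theorem L25010 : W_1 (nat_lit 4) (nat_lit 0x300010000c0007000000000000000000000000000) (nat_lit 0x0) (nat_lit 0x8000c0000e00000000000080000000000000000000000) := T_1 (nat_lit 143) (nat_lit 91) (nat_lit 4) (nat_lit 7) (nat_lit 9) L25009 (by decide +kernel)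
theorem L25011 : W_1 (nat_lit 5) (nat_lit 0x200010000c0007000000000000000000000000000) (nat_lit 0x0) (nat_lit 0xa000d0000e00000000000080000000000000000000000) := T_1 (nat_lit 160) (nat_lit 177) (nat_lit 5) (nat_lit 8) (nat_lit 6) L25010 (by decide +kernel)
theorem L25012 : W_1 (nat_lit 7) (nat_lit 0x200010000c0006000000000000000000000000000) (nat_lit 0x0) (nat_lit 0xa000d0000e00300009c004c0000000000000000000000) := Q_1 (nat_lit 108) (C_1 L25002 (C_1 L25007 (C_1 L25011 N_1))) (by decide +kernel)
theorem L25013 : W_1 (nat_lit 8) (nat_lit 0x200010000c0004000000000000000000000000000) (nat_lit 0x0) (nat_lit 0xa000d0000e0030000bc005c0000000000000000000000) := T_1 (nat_lit 109) (nat_lit 92) (nat_lit 4) (nat_lit 8) (nat_lit 9) L25012 (by decide +kernel)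
theorem L25014 : W_1 (nat_lit 2) (nat_lit 0x700018000c0007000000000000000000000000000) (nat_lit 0x0) (nat_lit 0x100000c00000000000000000000000000) := D_1 (nat_lit 107) (nat_lit 128) (nat_lit 106) (nat_lit 3) (nat_lit 5) (nat_lit 6) (nat_lit 3) (nat_lit 4) (nat_lit 6) (by decide +kernel)
theorem L25015 : W_1 (nat_lit 3) (nat_lit 0x700018000c0006000000000000000000000000000) (nat_lit 0x0) (nat_lit 0x100001c00080000000000000000000000) := T_1 (nat_lit 108) (nat_lit 91) (nat_lit 4) (nat_lit 7) (nat_lit 9) L25014 (by decide +kernel)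
theorem L25016 : W_1 (nat_lit 4) (nat_lit 0x300018000c0006000000000000000000000000000) (nat_lit 0x0) (nat_lit 0x800040000000100001c00080000000000000000000000) := T_1 (nat_lit 162) (nat_lit 179) (nat_lit 7) (nat_lit 8) (nat_lit 6) L25015 (by decide +kernel)
theorem L25017 : W_1 (nat_lit 5) (nat_lit 0x300018000c0004000000000000000000000000000) (nat_lit 0x0) (nat_lit 0x800040000000100003c00180000000000000000000000) := T_1 (nat_lit 109) (nat_lit 92) (nat_lit 7) (nat_lit 7) (nat_lit 5) L25016 (by decide +kernel)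
theorem L25018 : W_1 (nat_lit 6) (nat_lit 0x200018000c0004000000000000000000000000000) (nat_lit 0x0) (nat_lit 0xa00050000000100003c00180000000000000000000000) := T_1 (nat_lit 160) (nat_lit 177) (nat_lit 6) (nat_lit 7) (nat_lit 10) L25017 (by decide +kernel)
theorem L25019 : W_1 (nat_lit 2) (nat_lit 0x300018000c0007000000000000000000000000000) (nat_lit 0x0) (nat_lit 0x100000c00000000000000000000000000) := D_1 (nat_lit 107) (nat_lit 128) (nat_lit 106) (nat_lit 3) (nat_lit 5) (nat_lit 6) (nat_lit 3) (nat_lit 4) (nat_lit 6) (by decide +kernel)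
theorem L25020 : W_1 (nat_lit 3) (nat_lit 0x300018000c0006000000000000000000000000000) (nat_lit 0x0) (nat_lit 0x100001c00080000000000000000000000) := T_1 (nat_lit 108) (nat_lit 91) (nat_lit 4) (nat_lit 7) (nat_lit 9) L25019 (by decide +kernel)
theorem L25021 : W_1 (nat_lit 4) (nat_lit 0x200018000c0006000000000000000000000000000) (nat_lit 0x0) (nat_lit 0x200010000000100001c00080000000000000000000000) := T_1 (nat_lit 160) (nat_lit 177) (nat_lit 6) (nat_lit 7) (nat_lit 10) L25020 (by decide +kernel)
theorem L25022 : W_1 (nat_lit 5) (nat_lit 0x200018000c0004000000000000000000000000000) (nat_lit 0x0) (nat_lit 0x200010000000100003c00180000000000000000000000) := T_1 (nat_lit 109) (nat_lit 92) (nat_lit 7) (nat_lit 7) (nat_lit 5) L25021 (by decide +kernel)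
theorem L25023 : W_1 (nat_lit 2) (nat_lit 0x200060003c000c0004000100000000000000000000000) (nat_lit 0x0) (nat_lit 0x4000030000000000000000000000000000000) := D_1 (nat_lit 125) (nat_lit 124) (nat_lit 146) (nat_lit 3) (nat_lit 5) (nat_lit 7) (nat_lit 0) (nat_lit 10) (nat_lit 8) (by decide +kernel)
theorem L25024 : W_1 (nat_lit 3) (nat_lit 0x200060001c000c0004000100000000000000000000000) (nat_lit 0x0) (nat_lit 0x80006000030000000000000000000000000000000) := T_1 (nat_lit 145) (nat_lit 163) (nat_lit 3) (nat_lit 6) (nat_lit 8) L25023 (by decide +kernel)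
theorem L25025 : W_1 (nat_lit 4) (nat_lit 0x2000600018000c0004000100000000000000000000000) (nat_lit 0x0) (nat_lit 0x80006600030000000000000000000000000000000) := T_1 (nat_lit 142) (nat_lit 141) (nat_lit 3) (nat_lit 5) (nat_lit 8) L25024 (by decide +kernel)
theorem L25026 : W_1 (nat_lit 5) (nat_lit 0x2000200018000c0004000100000000000000000000000) (nat_lit 0x0) (nat_lit 0x8000c0006600030000000000000000000000000000000) := T_1 (nat_lit 162) (nat_lit 179) (nat_lit 7) (nat_lit 8) (nat_lit 6) L25025 (by decide +kernel)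
theorem L25027 : W_1 (nat_lit 6) (nat_lit 0x2000200018000c0004000000000000000000000000000) (nat_lit 0x0) (nat_lit 0x8000c0006600030002000100000000000000000000000) := T_1 (nat_lit 92) (nat_lit 109) (nat_lit 7) (nat_lit 7) (nat_lit 5) L25026 (by decide +kernel)
theorem L25028 : W_1 (nat_lit 7) (nat_lit 0x200018000c0004000000000000000000000000000) (nat_lit 0x0) (nat_lit 0xa000d0006600030002000100000000000000000000000) := T_1 (nat_lit 177) (nat_lit 160) (nat_lit 6) (nat_lit 7) (nat_lit 10) L25027 (by decide +kernel)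
theorem L25029 : W_1 (nat_lit 2) (nat_lit 0x60001c000c0004000000000000000000000000000) (nat_lit 0x0) (nat_lit 0x90002000000000000000000000000000000000000) := D_1 (nat_lit 163) (nat_lit 145) (nat_lit 160) (nat_lit 3) (nat_lit 6) (nat_lit 8) (nat_lit 0) (nat_lit 10) (nat_lit 9) (by decide +kernel)
theorem L25030 : W_1 (nat_lit 3) (nat_lit 0x600018000c0004000000000000000000000000000) (nat_lit 0x0) (nat_lit 0x90002600000000000000000000000000000000000) := T_1 (nat_lit 142) (nat_lit 141) (nat_lit 3) (nat_lit 5) (nat_lit 8) L25029 (by decide +kernel)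
theorem L25031 : W_1 (nat_lit 4) (nat_lit 0x200018000c0004000000000000000000000000000) (nat_lit 0x0) (nat_lit 0x8000d0002600000000000000000000000000000000000) := T_1 (nat_lit 162) (nat_lit 179) (nat_lit 7) (nat_lit 8) (nat_lit 6) L25030 (by decide +kernel)
theorem L25032 : W_1 (nat_lit 2) (nat_lit 0x60003c000c0004000100000000000000000000000) (nat_lit 0x0) (nat_lit 0x4000030000000000000000000000000000000) := D_1 (nat_lit 125) (nat_lit 124) (nat_lit 146) (nat_lit 3) (nat_lit 5) (nat_lit 7) (nat_lit 0) (nat_lit 10) (nat_lit 8) (by decide +kernel)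
theorem L25033 : W_1 (nat_lit 3) (nat_lit 0x60001c000c0004000100000000000000000000000) (nat_lit 0x0) (nat_lit 0x80006000030000000000000000000000000000000) := T_1 (nat_lit 145) (nat_lit 163) (nat_lit 3) (nat_lit 6) (nat_lit 8) L25032 (by decide +kernel)
theorem L25034 : W_1 (nat_lit 4) (nat_lit 0x600018000c0004000100000000000000000000000) (nat_lit 0x0) (nat_lit 0x80006600030000000000000000000000000000000) := T_1 (nat_lit 142) (nat_lit 141) (nat_lit 3) (nat_lit 5) (nat_lit 8) L25033 (by decide +kernel)
theorem L25035 : W_1 (nat_lit 5) (nat_lit 0x200018000c0004000100000000000000000000000) (nat_lit 0x0) (nat_lit 0x8000c0006600030000000000000000000000000000000) := T_1 (nat_lit 162) (nat_lit 179) (nat_lit 7) (nat_lit 8) (nat_lit 6) L25034 (by decide +kernel)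
theorem L25036 : W_1 (nat_lit 6) (nat_lit 0x200018000c0004000000000000000000000000000) (nat_lit 0x0) (nat_lit 0x8000c0006600030002000100000000000000000000000) := T_1 (nat_lit 92) (nat_lit 109) (nat_lit 7) (nat_lit 7) (nat_lit 5) L25035 (by decide +kernel)
theorem L25037 : W_1 (nat_lit 8) (nat_lit 0x200010000c0004000000000000000000000000000) (nat_lit 0x0) (nat_lit 0xa000d0006e00130003c00180000000000000000000000) := Q_1 (nat_lit 143) (C_1 L25018 (C_1 L25022 (C_1 L25028 (C_1 L25031 (C_1 L25036 N_1))))) (by decide +kernel)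
theorem L25038 : W_1 (nat_lit 9) (nat_lit 0x20001000080004000000000000000000000000000) (nat_lit 0x0) (nat_lit 0xa000d0006e0037001bc005c0000000000000000000000) := Q_1 (nat_lit 126) (C_1 L24990 (C_1 L24994 (C_1 L25001 (C_1 L25013 (C_1 L25037 N_1))))) (by decide +kernel)
theorem L25039 : W_1 (nat_lit 10) (nat_lit 0x1000080004000000000000000000000000000) (nat_lit 0x0) (nat_lit 0x4000e000f0006e0037001bc005c0000000000000000000000) := Q_1 (nat_lit 161) (C_1 L24778 (C_1 L24775 (C_1 L24624 (C_1 L25038 N_1)))) (by decide +kernel)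
theorem L25040 : W_1 (nat_lit 13) (nat_lit 0x1000080000000000000000000000000000000) (nat_lit 0x0) (nat_lit 0x4000e000f0006e0037801fc00fc003e001c000e0005000000) := Q_1 (nat_lit 110) (C_1 L24798 (C_1 L24836 (C_1 L24842 (C_1 L24848 (C_1 L24873 (C_1 L24889 (C_1 L24919 (C_1 L24920 (C_1 L24921 (C_1 L24931 (C_1 L24936 (C_1 L24986 (C_1 L25039 N_1))))))))))))) (by decide +kernel)
theorem L25041 : W_1 (nat_lit 2) (nat_lit 0x4000200010001c0000000000000000000000000000000) (nat_lit 0x0) (nat_lit 0x8000000000002800000000000000000000000000000000000) := D_1 (nat_lit 195) (nat_lit 143) (nat_lit 145) (nat_lit 4) (nat_lit 8) (nat_lit 11) (nat_lit 6) (nat_lit 8) (nat_lit 11) (by decide +kernel)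
theorem L25042 : W_1 (nat_lit 3) (nat_lit 0x4000200010000c0000000000000000000000000000000) (nat_lit 0x0) (nat_lit 0x8000000000002800100008000000000000000000000000000) := T_1 (nat_lit 128) (nat_lit 111) (nat_lit 6) (nat_lit 8) (nat_lit 10) L25041 (by decide +kernel)
theorem L25043 : W_1 (nat_lit 4) (nat_lit 0x400020001000080000000000000000000000000000000) (nat_lit 0x0) (nat_lit 0x800000000000280014000a000000000000000000000000000) := T_1 (nat_lit 126) (nat_lit 109) (nat_lit 4) (nat_lit 8) (nat_lit 10) L25042 (by decide +kernel)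
theorem L25044 : W_1 (nat_lit 6) (nat_lit 0x20001000080000000000000000000000000000000) (nat_lit 0x0) (nat_lit 0x8001c000e0001000280014000e000100000000000000000000000) := Q_1 (nat_lit 178) (C_1 L24650 (C_1 L24568 (C_1 L25043 N_1))) (by decide +kernel)
theorem L25045 : W_1 (nat_lit 2) (nat_lit 0x200010000c000e000000000000000000000000000) (nat_lit 0x0) (nat_lit 0x30010000000000000000000000000000) := D_1 (nat_lit 125) (nat_lit 124) (nat_lit 112) (nat_lit 2) (nat_lit 5) (nat_lit 7) (nat_lit 1) (nat_lit 10) (nat_lit 6) (by decide +kernel)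
theorem L25046 : W_1 (nat_lit 3) (nat_lit 0x2000100008000e000000000000000000000000000) (nat_lit 0x0) (nat_lit 0x400000000000070010000000000000000000000000000) := T_1 (nat_lit 126) (nat_lit 178) (nat_lit 4) (nat_lit 8) (nat_lit 10) L25045 (by decide +kernel)
theorem L25047 : W_1 (nat_lit 4) (nat_lit 0x20001000080006000000000000000000000000000) (nat_lit 0x0) (nat_lit 0x400000000000070018000400000000000000000000000) := T_1 (nat_lit 111) (nat_lit 94) (nat_lit 6) (nat_lit 8) (nat_lit 9) L25046 (by decide +kernel)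
theorem L25048 : W_1 (nat_lit 5) (nat_lit 0x20001000080004000000000000000000000000000) (nat_lit 0x0) (nat_lit 0x40000000000007001a000500000000000000000000000) := T_1 (nat_lit 109) (nat_lit 92) (nat_lit 4) (nat_lit 8) (nat_lit 9) L25047 (by decide +kernel)
theorem L25049 : W_1 (nat_lit 2) (nat_lit 0x30001000080004000200000000000000000000000) (nat_lit 0x0) (nat_lit 0x8000400020000000000000000000) := D_1 (nat_lit 94) (nat_lit 111) (nat_lit 77) (nat_lit 6) (nat_lit 8) (nat_lit 9) (nat_lit 6) (nat_lit 8) (nat_lit 8) (by decide +kernel)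
theorem L25050 : W_1 (nat_lit 3) (nat_lit 0x30001000080004000000000000000000000000000) (nat_lit 0x0) (nat_lit 0x800000008000600020000000000000000000) := T_1 (nat_lit 93) (nat_lit 143) (nat_lit 5) (nat_lit 8) (nat_lit 5) L25049 (by decide +kernel)
theorem L25051 : W_1 (nat_lit 4) (nat_lit 0x20001000080004000000000000000000000000000) (nat_lit 0x0) (nat_lit 0x200010000800000008000600020000000000000000000) := T_1 (nat_lit 160) (nat_lit 177) (nat_lit 5) (nat_lit 8) (nat_lit 6) L25050 (by decide +kernel)
theorem L25052 : W_1 (nat_lit 6) (nat_lit 0x20001000080000000000000000000000000000000) (nat_lit 0x0) (nat_lit 0x400060001000080007001e000700020000000000000000000) := Q_1 (nat_lit 110) (C_1 L24775 (C_1 L25048 (C_1 L25051 N_1))) (by decide +kernel)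
theorem L25053 : W_1 (nat_lit 2) (nat_lit 0x100004000200010000c0000000000000000000000000000000) (nat_lit 0x0) (nat_lit 0x200008000000000000800000000000000000000000000000000000) := D_1 (nat_lit 195) (nat_lit 143) (nat_lit 213) (nat_lit 4) (nat_lit 8) (nat_lit 11) (nat_lit 7) (nat_lit 8) (nat_lit 8) (by decide +kernel)
theorem L25054 : W_1 (nat_lit 3) (nat_lit 0x4000200010000c0000000000000000000000000000000) (nat_lit 0x0) (nat_lit 0x200018000800000000800000000000000000000000000000000000) := T_1 (nat_lit 196) (nat_lit 179) (nat_lit 7) (nat_lit 8) (nat_lit 7) L25053 (by decide +kernel)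
theorem L25055 : W_1 (nat_lit 4) (nat_lit 0x400020001000080000000000000000000000000000000) (nat_lit 0x0) (nat_lit 0x200018000800000000800040002000000000000000000000000000) := T_1 (nat_lit 126) (nat_lit 109) (nat_lit 4) (nat_lit 8) (nat_lit 10) L25054 (by decide +kernel)
theorem L25056 : W_1 (nat_lit 2) (nat_lit 0x80008000c00020001800180000000000000000000000000000000) (nat_lit 0x0) (nat_lit 0x1000100000000000010000000000000000000000000000000000000000) := D_1 (nat_lit 212) (nat_lit 228) (nat_lit 160) (nat_lit 5) (nat_lit 8) (nat_lit 9) (nat_lit 4) (nat_lit 8) (nat_lit 12) (by decide +kernel)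
theorem L25057 : W_1 (nat_lit 3) (nat_lit 0x80008000c00020001000180000000000000000000000000000000) (nat_lit 0x0) (nat_lit 0x1000100000000000010000800040000000000000000000000000000000) := T_1 (nat_lit 143) (nat_lit 126) (nat_lit 4) (nat_lit 8) (nat_lit 11) L25056 (by decide +kernel)
theorem L25058 : W_1 (nat_lit 4) (nat_lit 0x8000c00020001000180000000000000000000000000000000) (nat_lit 0x0) (nat_lit 0x1000180004000000010000800040000000000000000000000000000000) := T_1 (nat_lit 211) (nat_lit 194) (nat_lit 5) (nat_lit 8) (nat_lit 8) L25057 (by decide +kernel)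
theorem L25059 : W_1 (nat_lit 5) (nat_lit 0xc00020001000180000000000000000000000000000000) (nat_lit 0x0) (nat_lit 0x100018000c000000010002800040000000000000000000000000000000) := T_1 (nat_lit 195) (nat_lit 145) (nat_lit 6) (nat_lit 8) (nat_lit 11) L25058 (by decide +kernel)
theorem L25060 : W_1 (nat_lit 6) (nat_lit 0x400020001000180000000000000000000000000000000) (nat_lit 0x0) (nat_lit 0x100018001c000800010002800040000000000000000000000000000000) := T_1 (nat_lit 179) (nat_lit 196) (nat_lit 7) (nat_lit 8) (nat_lit 7) L25059 (by decide +kernel)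
theorem L25061 : W_1 (nat_lit 7) (nat_lit 0x400020001000080000000000000000000000000000000) (nat_lit 0x0) (nat_lit 0x100018001c000800010002800140008000000000000000000000000000) := T_1 (nat_lit 128) (nat_lit 111) (nat_lit 6) (nat_lit 8) (nat_lit 10) L25060 (by decide +kernel)
theorem L25062 : W_1 (nat_lit 2) (nat_lit 0x10000400020001000180000000000000000000000000000000) (nat_lit 0x0) (nat_lit 0x200008000000000002000000000000000000000000000000000000) := D_1 (nat_lit 195) (nat_lit 145) (nat_lit 213) (nat_lit 6) (nat_lit 8) (nat_lit 11) (nat_lit 7) (nat_lit 8) (nat_lit 8) (by decide +kernel)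
theorem L25063 : W_1 (nat_lit 3) (nat_lit 0x400020001000180000000000000000000000000000000) (nat_lit 0x0) (nat_lit 0x200018000800000002000000000000000000000000000000000000) := T_1 (nat_lit 196) (nat_lit 179) (nat_lit 7) (nat_lit 8) (nat_lit 7) L25062 (by decide +kernel)
theorem L25064 : W_1 (nat_lit 4) (nat_lit 0x400020001000080000000000000000000000000000000) (nat_lit 0x0) (nat_lit 0x200018000800000002000100008000000000000000000000000000) := T_1 (nat_lit 128) (nat_lit 111) (nat_lit 6) (nat_lit 8) (nat_lit 10) L25063 (by decide +kernel)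
theorem L25065 : W_1 (nat_lit 2) (nat_lit 0x40002000100008000c000000000000000000000000000) (nat_lit 0x0) (nat_lit 0x40002000100000000000000000000000) := D_1 (nat_lit 109) (nat_lit 92) (nat_lit 126) (nat_lit 4) (nat_lit 8) (nat_lit 9) (nat_lit 4) (nat_lit 8) (nat_lit 10) (by decide +kernel)
theorem L25066 : W_1 (nat_lit 3) (nat_lit 0x400020001000080008000000000000000000000000000) (nat_lit 0x0) (nat_lit 0x40006000500000000000000000000000) := T_1 (nat_lit 110) (nat_lit 94) (nat_lit 6) (nat_lit 8) (nat_lit 9) L25065 (by decide +kernel)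
theorem L25067 : W_1 (nat_lit 4) (nat_lit 0x400020001000080000000000000000000000000000000) (nat_lit 0x0) (nat_lit 0x14000e000500000000000000000000000) := T_1 (nat_lit 111) (nat_lit 128) (nat_lit 6) (nat_lit 8) (nat_lit 10) L25066 (by decide +kernel)
theorem L25068 : W_1 (nat_lit 8) (nat_lit 0x20001000080000000000000000000000000000000) (nat_lit 0x0) (nat_lit 0x100038001c000c0001000280014000e000500000000000000000000000) := Q_1 (nat_lit 178) (C_1 L25043 (C_1 L25055 (C_1 L25061 (C_1 L25064 (C_1 L25067 N_1))))) (by decide +kernel)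
theorem L25069 : W_1 (nat_lit 2) (nat_lit 0x18000600030001000080000000000000000000000000000000) (nat_lit 0x0) (nat_lit 0x100000000000000000800040000000000000000000000000000000) := D_1 (nat_lit 143) (nat_lit 126) (nat_lit 212) (nat_lit 7) (nat_lit 7) (nat_lit 7) (nat_lit 4) (nat_lit 8) (nat_lit 12) (by decide +kernel)
theorem L25070 : W_1 (nat_lit 3) (nat_lit 0x10000600030001000080000000000000000000000000000000) (nat_lit 0x0) (nat_lit 0x300008000000000000800040000000000000000000000000000000) := T_1 (nat_lit 195) (nat_lit 213) (nat_lit 7) (nat_lit 8) (nat_lit 8) L25069 (by decide +kernel)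
theorem L25071 : W_1 (nat_lit 4) (nat_lit 0x600030001000080000000000000000000000000000000) (nat_lit 0x0) (nat_lit 0x300018000800000000800040000000000000000000000000000000) := T_1 (nat_lit 196) (nat_lit 179) (nat_lit 7) (nat_lit 8) (nat_lit 7) L25070 (by decide +kernel)
theorem L25072 : W_1 (nat_lit 5) (nat_lit 0x600020001000080000000000000000000000000000000) (nat_lit 0x0) (nat_lit 0x300018000800010000800040004000000000000000000000000000) := T_1 (nat_lit 160) (nat_lit 110) (nat_lit 5) (nat_lit 8) (nat_lit 6) L25071 (by decide +kernel)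
theorem L25073 : W_1 (nat_lit 6) (nat_lit 0x400020001000080000000000000000000000000000000) (nat_lit 0x0) (nat_lit 0x30001c000a00010000800040004000000000000000000000000000) := T_1 (nat_lit 177) (nat_lit 194) (nat_lit 5) (nat_lit 8) (nat_lit 7) L25072 (by decide +kernel)
theorem L25074 : W_1 (nat_lit 2) (nat_lit 0x8000600030001000180000000000000000000000000000000) (nat_lit 0x0) (nat_lit 0x2000100000000000000000800000000000000000000000000000000000) := D_1 (nat_lit 212) (nat_lit 229) (nat_lit 143) (nat_lit 4) (nat_lit 8) (nat_lit 13) (nat_lit 4) (nat_lit 8) (nat_lit 12) (by decide +kernel)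
theorem L25075 : W_1 (nat_lit 3) (nat_lit 0x600030001000180000000000000000000000000000000) (nat_lit 0x0) (nat_lit 0x2000100008000000000002800000000000000000000000000000000000) := T_1 (nat_lit 195) (nat_lit 145) (nat_lit 6) (nat_lit 8) (nat_lit 11) L25074 (by decide +kernel)
theorem L25076 : W_1 (nat_lit 4) (nat_lit 0x600020001000180000000000000000000000000000000) (nat_lit 0x0) (nat_lit 0x2000100008000000010002800000004000000000000000000000000000) := T_1 (nat_lit 160) (nat_lit 110) (nat_lit 5) (nat_lit 8) (nat_lit 6) L25075 (by decide +kernel)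
theorem L25077 : W_1 (nat_lit 5) (nat_lit 0x400020001000180000000000000000000000000000000) (nat_lit 0x0) (nat_lit 0x200010000c000200010002800000004000000000000000000000000000) := T_1 (nat_lit 177) (nat_lit 194) (nat_lit 5) (nat_lit 8) (nat_lit 7) L25076 (by decide +kernel)
theorem L25078 : W_1 (nat_lit 6) (nat_lit 0x400020001000080000000000000000000000000000000) (nat_lit 0x0) (nat_lit 0x200010000c00020001000280010000c000000000000000000000000000) := T_1 (nat_lit 128) (nat_lit 111) (nat_lit 6) (nat_lit 8) (nat_lit 10) L25077 (by decide +kernel)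
theorem L25079 : W_1 (nat_lit 2) (nat_lit 0xc0002000100008000c000000000000000000000000000) (nat_lit 0x0) (nat_lit 0x4000200010000000000000000000000000000000000000000) := D_1 (nat_lit 177) (nat_lit 160) (nat_lit 194) (nat_lit 5) (nat_lit 8) (nat_lit 6) (nat_lit 5) (nat_lit 8) (nat_lit 7) (by decide +kernel)
theorem L25080 : W_1 (nat_lit 3) (nat_lit 0xc00020001000080008000000000000000000000000000) (nat_lit 0x0) (nat_lit 0x4000200010000000000004000400000000000000000000000) := T_1 (nat_lit 110) (nat_lit 94) (nat_lit 6) (nat_lit 8) (nat_lit 9) L25079 (by decide +kernel)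
theorem L25081 : W_1 (nat_lit 4) (nat_lit 0x400020001000080008000000000000000000000000000) (nat_lit 0x0) (nat_lit 0x14000a00010000000000004000400000000000000000000000) := T_1 (nat_lit 179) (nat_lit 196) (nat_lit 7) (nat_lit 8) (nat_lit 7) L25080 (by decide +kernel)
theorem L25082 : W_1 (nat_lit 5) (nat_lit 0x400020001000080000000000000000000000000000000) (nat_lit 0x0) (nat_lit 0x14000a0001000000010000c000400000000000000000000000) := T_1 (nat_lit 111) (nat_lit 128) (nat_lit 6) (nat_lit 8) (nat_lit 10) L25081 (by decide +kernel)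
theorem L25083 : W_1 (nat_lit 7) (nat_lit 0x20001000080000000000000000000000000000000) (nat_lit 0x0) (nat_lit 0x200030001c000e0001000280014000c000400000000000000000000000) := Q_1 (nat_lit 178) (C_1 L25064 (C_1 L25073 (C_1 L25078 (C_1 L25082 N_1)))) (by decide +kernel)
theorem L25084 : W_1 (nat_lit 5) (nat_lit 0x20001000080000000000000000000000000000000) (nat_lit 0x0) (nat_lit 0x200018000c0000000280014000e000500000000000000000000000) := Q_1 (nat_lit 178) (C_1 L25067 (C_1 L25064 (C_1 L25055 N_1))) (by decide +kernel)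
theorem L25085 : W_1 (nat_lit 2) (nat_lit 0x2000100018000e000000000000000000000000000) (nat_lit 0x0) (nat_lit 0x200001800000000000000000000000000) := D_1 (nat_lit 108) (nat_lit 129) (nat_lit 107) (nat_lit 3) (nat_lit 6) (nat_lit 6) (nat_lit 3) (nat_lit 5) (nat_lit 6) (by decide +kernel)
theorem L25086 : W_1 (nat_lit 3) (nat_lit 0x2000100008000e000000000000000000000000000) (nat_lit 0x0) (nat_lit 0x400000000000300001800000000000000000000000000) := T_1 (nat_lit 128) (nat_lit 178) (nat_lit 6) (nat_lit 8) (nat_lit 10) L25085 (by decide +kernel)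
theorem L25087 : W_1 (nat_lit 4) (nat_lit 0x20001000080006000000000000000000000000000) (nat_lit 0x0) (nat_lit 0x400000000000300009800400000000000000000000000) := T_1 (nat_lit 111) (nat_lit 94) (nat_lit 6) (nat_lit 8) (nat_lit 9) L25086 (by decide +kernel)
theorem L25088 : W_1 (nat_lit 5) (nat_lit 0x20001000080004000000000000000000000000000) (nat_lit 0x0) (nat_lit 0x40000000000030000b800500000000000000000000000) := T_1 (nat_lit 109) (nat_lit 92) (nat_lit 4) (nat_lit 8) (nat_lit 9) L25087 (by decide +kernel)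
theorem L25089 : W_1 (nat_lit 2) (nat_lit 0x30001000080004000200000000000000000000000) (nat_lit 0x0) (nat_lit 0x2000100008000000000000000000) := D_1 (nat_lit 92) (nat_lit 75) (nat_lit 109) (nat_lit 4) (nat_lit 8) (nat_lit 8) (nat_lit 4) (nat_lit 8) (nat_lit 9) (by decide +kernel)
theorem L25090 : W_1 (nat_lit 3) (nat_lit 0x30001000080004000000000000000000000000000) (nat_lit 0x0) (nat_lit 0x800000002000300008000000000000000000) := T_1 (nat_lit 93) (nat_lit 143) (nat_lit 5) (nat_lit 8) (nat_lit 5) L25089 (by decide +kernel)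
theorem L25091 : W_1 (nat_lit 4) (nat_lit 0x20001000080004000000000000000000000000000) (nat_lit 0x0) (nat_lit 0x200010000800000002000300008000000000000000000) := T_1 (nat_lit 160) (nat_lit 177) (nat_lit 5) (nat_lit 8) (nat_lit 6) L25090 (by decide +kernel)
theorem L25092 : W_1 (nat_lit 6) (nat_lit 0x20001000080000000000000000000000000000000) (nat_lit 0x0) (nat_lit 0x60001000080030000f800700028000000000000000000) := Q_1 (nat_lit 110) (C_1 L25051 (C_1 L25088 (C_1 L25091 N_1))) (by decide +kernel)
theorem L25093 : W_1 (nat_lit 2) (nat_lit 0x18000600030001000080000000000000000000000000000000) (nat_lit 0x0) (nat_lit 0x2000100000000000000000800000000000000000000000000000000000) := D_1 (nat_lit 212) (nat_lit 143) (nat_lit 229) (nat_lit 4) (nat_lit 8) (nat_lit 12) (nat_lit 4) (nat_lit 8) (nat_lit 13) (by decide +kernel)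
theorem L25094 : W_1 (nat_lit 3) (nat_lit 0x10000600030001000080000000000000000000000000000000) (nat_lit 0x0) (nat_lit 0x2000300008000000000000800000000000000000000000000000000000) := T_1 (nat_lit 195) (nat_lit 213) (nat_lit 7) (nat_lit 8) (nat_lit 8) L25093 (by decide +kernel)
theorem L25095 : W_1 (nat_lit 4) (nat_lit 0x10000600020001000080000000000000000000000000000000) (nat_lit 0x0) (nat_lit 0x2000300008000000010000800000004000000000000000000000000000) := T_1 (nat_lit 160) (nat_lit 110) (nat_lit 5) (nat_lit 8) (nat_lit 6) L25094 (by decide +kernel)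
theorem L25096 : W_1 (nat_lit 5) (nat_lit 0x10000400020001000080000000000000000000000000000000) (nat_lit 0x0) (nat_lit 0x200030000c000200010000800000004000000000000000000000000000) := T_1 (nat_lit 177) (nat_lit 194) (nat_lit 5) (nat_lit 8) (nat_lit 7) L25095 (by decide +kernel)
theorem L25097 : W_1 (nat_lit 6) (nat_lit 0x400020001000080000000000000000000000000000000) (nat_lit 0x0) (nat_lit 0x200030001c000a00010000800000004000000000000000000000000000) := T_1 (nat_lit 196) (nat_lit 179) (nat_lit 7) (nat_lit 8) (nat_lit 7) L25096 (by decide +kernel)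
theorem L25098 : W_1 (nat_lit 7) (nat_lit 0x20001000080000000000000000000000000000000) (nat_lit 0x0) (nat_lit 0x200030001c000e00010000800040006000100000000000000000000000) := Q_1 (nat_lit 178) (C_1 L25073 (C_1 L25055 (C_1 L25097 (C_1 L24650 N_1)))) (by decide +kernel)
theorem L25099 : W_1 (nat_lit 2) (nat_lit 0x20001000080004000300000000000000000000000) (nat_lit 0x0) (nat_lit 0x8000400020000000000000000000) := D_1 (nat_lit 94) (nat_lit 111) (nat_lit 77) (nat_lit 6) (nat_lit 8) (nat_lit 9) (nat_lit 6) (nat_lit 8) (nat_lit 8) (by decide +kernel)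
theorem L25100 : W_1 (nat_lit 3) (nat_lit 0x20001000080004000100000000000000000000000) (nat_lit 0x0) (nat_lit 0x8000600028000000000000000000) := T_1 (nat_lit 93) (nat_lit 75) (nat_lit 4) (nat_lit 8) (nat_lit 8) L25099 (by decide +kernel)
theorem L25101 : W_1 (nat_lit 4) (nat_lit 0x20001000080004000000000000000000000000000) (nat_lit 0x0) (nat_lit 0xa000700028000000000000000000) := T_1 (nat_lit 92) (nat_lit 109) (nat_lit 4) (nat_lit 8) (nat_lit 9) L25100 (by decide +kernel)
theorem L25102 : W_1 (nat_lit 2) (nat_lit 0x200010000e000c000000000000000000000000000) (nat_lit 0x0) (nat_lit 0x12000100000000000000000000000) := D_1 (nat_lit 109) (nat_lit 92) (nat_lit 112) (nat_lit 4) (nat_lit 8) (nat_lit 9) (nat_lit 1) (nat_lit 10) (nat_lit 6) (by decide +kernel)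
theorem L25103 : W_1 (nat_lit 3) (nat_lit 0x200010000c000c000000000000000000000000000) (nat_lit 0x0) (nat_lit 0x30012000100000000000000000000000) := T_1 (nat_lit 125) (nat_lit 124) (nat_lit 2) (nat_lit 5) (nat_lit 7) L25102 (by decide +kernel)
theorem L25104 : W_1 (nat_lit 4) (nat_lit 0x200010000c0004000000000000000000000000000) (nat_lit 0x0) (nat_lit 0x3001a000500000000000000000000000) := T_1 (nat_lit 111) (nat_lit 94) (nat_lit 6) (nat_lit 8) (nat_lit 9) L25103 (by decide +kernel)
theorem L25105 : W_1 (nat_lit 2) (nat_lit 0x34003c001e000c000000000000000000000000000) (nat_lit 0x0) (nat_lit 0x1800080000000000000000000000) := D_1 (nat_lit 108) (nat_lit 107) (nat_lit 91) (nat_lit 0) (nat_lit 9) (nat_lit 7) (nat_lit 7) (nat_lit 6) (nat_lit 5) (by decide +kernel)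
theorem L25106 : W_1 (nat_lit 3) (nat_lit 0x340034001e000c000000000000000000000000000) (nat_lit 0x0) (nat_lit 0x800200001800080000000000000000000000) := T_1 (nat_lit 143) (nat_lit 129) (nat_lit 2) (nat_lit 6) (nat_lit 8) L25105 (by decide +kernel)
theorem L25107 : W_1 (nat_lit 4) (nat_lit 0x300034001e000c000000000000000000000000000) (nat_lit 0x0) (nat_lit 0xc000800200001800080000000000000000000000) := T_1 (nat_lit 158) (nat_lit 159) (nat_lit 2) (nat_lit 5) (nat_lit 9) L25106 (by decide +kernel)
theorem L25108 : W_1 (nat_lit 5) (nat_lit 0x300014001e000c000000000000000000000000000) (nat_lit 0x0) (nat_lit 0xc006800200001800080000000000000000000000) := T_1 (nat_lit 145) (nat_lit 146) (nat_lit 3) (nat_lit 6) (nat_lit 7) L25107 (by decide +kernel)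
theorem L25109 : W_1 (nat_lit 6) (nat_lit 0x300010001e000c000000000000000000000000000) (nat_lit 0x0) (nat_lit 0xc006e00200001800080000000000000000000000) := T_1 (nat_lit 142) (nat_lit 141) (nat_lit 1) (nat_lit 9) (nat_lit 7) L25108 (by decide +kernel)
theorem L25110 : W_1 (nat_lit 7) (nat_lit 0x300010000e000c000000000000000000000000000) (nat_lit 0x0) (nat_lit 0xc006e00300011800080000000000000000000000) := T_1 (nat_lit 128) (nat_lit 112) (nat_lit 2) (nat_lit 6) (nat_lit 7) L25109 (by decide +kernel)
theorem L25111 : W_1 (nat_lit 8) (nat_lit 0x300010000c000c000000000000000000000000000) (nat_lit 0x0) (nat_lit 0xc006e00330011800080000000000000000000000) := T_1 (nat_lit 125) (nat_lit 124) (nat_lit 2) (nat_lit 5) (nat_lit 7) L25110 (by decide +kernel)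
theorem L25112 : W_1 (nat_lit 9) (nat_lit 0x300010000c0004000000000000000000000000000) (nat_lit 0x0) (nat_lit 0xc006e00330019800480000000000000000000000) := T_1 (nat_lit 111) (nat_lit 94) (nat_lit 6) (nat_lit 8) (nat_lit 9) L25111 (by decide +kernel)
theorem L25113 : W_1 (nat_lit 10) (nat_lit 0x200010000c0004000000000000000000000000000) (nat_lit 0x0) (nat_lit 0x20001c006e00330019800480000000000000000000000) := T_1 (nat_lit 160) (nat_lit 177) (nat_lit 5) (nat_lit 8) (nat_lit 6) L25112 (by decide +kernel)
theorem L25114 : W_1 (nat_lit 2) (nat_lit 0x3c0010000c000e000000000000000000000000000) (nat_lit 0x0) (nat_lit 0x100002000800000000000000000000000000000000000) := D_1 (nat_lit 143) (nat_lit 157) (nat_lit 176) (nat_lit 2) (nat_lit 4) (nat_lit 9) (nat_lit 5) (nat_lit 7) (nat_lit 6) (by decide +kernel)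
theorem L25115 : W_1 (nat_lit 3) (nat_lit 0x380010000c000e000000000000000000000000000) (nat_lit 0x0) (nat_lit 0x100006002800000000000000000000000000000000000) := T_1 (nat_lit 158) (nat_lit 145) (nat_lit 2) (nat_lit 5) (nat_lit 9) L25114 (by decide +kernel)
theorem L25116 : W_1 (nat_lit 4) (nat_lit 0x380010000c000c000000000000000000000000000) (nat_lit 0x0) (nat_lit 0x100006002800000002000100000000000000000000000) := T_1 (nat_lit 109) (nat_lit 92) (nat_lit 4) (nat_lit 8) (nat_lit 9) L25115 (by decide +kernel)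
theorem L25117 : W_1 (nat_lit 2) (nat_lit 0x3e0010000c000c000000000000000000000000000) (nat_lit 0x0) (nat_lit 0xe0000000000000000000000000000000000000000000) := D_1 (nat_lit 174) (nat_lit 173) (nat_lit 175) (nat_lit 1) (nat_lit 7) (nat_lit 9) (nat_lit 1) (nat_lit 8) (nat_lit 9) (by decide +kernel)
theorem L25118 : W_1 (nat_lit 3) (nat_lit 0x3c0010000c000c000000000000000000000000000) (nat_lit 0x0) (nat_lit 0xe0002000800000000000000000000000000000000000) := T_1 (nat_lit 157) (nat_lit 143) (nat_lit 2) (nat_lit 4) (nat_lit 9) L25117 (by decide +kernel)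
theorem L25119 : W_1 (nat_lit 4) (nat_lit 0x380010000c000c000000000000000000000000000) (nat_lit 0x0) (nat_lit 0xe0006002800000000000000000000000000000000000) := T_1 (nat_lit 158) (nat_lit 145) (nat_lit 2) (nat_lit 5) (nat_lit 9) L25118 (by decide +kernel)
theorem L25120 : W_1 (nat_lit 2) (nat_lit 0x380018000c000f000000000000000000000000000) (nat_lit 0x0) (nat_lit 0x300000800000000000000000000000000) := D_1 (nat_lit 128) (nat_lit 129) (nat_lit 107) (nat_lit 3) (nat_lit 6) (nat_lit 6) (nat_lit 3) (nat_lit 5) (nat_lit 6) (by decide +kernel)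
theorem L25121 : W_1 (nat_lit 3) (nat_lit 0x380018000c000e000000000000000000000000000) (nat_lit 0x0) (nat_lit 0x300001800080000000000000000000000) := T_1 (nat_lit 108) (nat_lit 91) (nat_lit 4) (nat_lit 7) (nat_lit 9) L25120 (by decide +kernel)
theorem L25122 : W_1 (nat_lit 4) (nat_lit 0x380010000c000e000000000000000000000000000) (nat_lit 0x0) (nat_lit 0x100000000800300001800080000000000000000000000) := T_1 (nat_lit 143) (nat_lit 176) (nat_lit 5) (nat_lit 7) (nat_lit 6) L25121 (by decide +kernel)
theorem L25123 : W_1 (nat_lit 5) (nat_lit 0x380010000c000c000000000000000000000000000) (nat_lit 0x0) (nat_lit 0x100000000800300003800180000000000000000000000) := T_1 (nat_lit 109) (nat_lit 92) (nat_lit 4) (nat_lit 8) (nat_lit 9) L25122 (by decide +kernel)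
theorem L25124 : W_1 (nat_lit 2) (nat_lit 0x4003e0010000c000e000000000000000000000000000) (nat_lit 0x0) (nat_lit 0x380000000000000000000000000000000000) := D_1 (nat_lit 140) (nat_lit 139) (nat_lit 141) (nat_lit 0) (nat_lit 7) (nat_lit 9) (nat_lit 0) (nat_lit 8) (nat_lit 9) (by decide +kernel)
theorem L25125 : W_1 (nat_lit 3) (nat_lit 0x4003c0010000c000e000000000000000000000000000) (nat_lit 0x0) (nat_lit 0x20002000380000000000000000000000000000000000) := T_1 (nat_lit 157) (nat_lit 173) (nat_lit 1) (nat_lit 7) (nat_lit 9) L25124 (by decide +kernel)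
theorem L25126 : W_1 (nat_lit 4) (nat_lit 0x3c0010000c000e000000000000000000000000000) (nat_lit 0x0) (nat_lit 0xe0002000380000000000000000000000000000000000) := T_1 (nat_lit 174) (nat_lit 175) (nat_lit 1) (nat_lit 8) (nat_lit 9) L25125 (by decide +kernel)
theorem L25127 : W_1 (nat_lit 5) (nat_lit 0x380010000c000e000000000000000000000000000) (nat_lit 0x0) (nat_lit 0xe0006002380000000000000000000000000000000000) := T_1 (nat_lit 158) (nat_lit 145) (nat_lit 2) (nat_lit 5) (nat_lit 9) L25126 (by decide +kernel)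
theorem L25128 : W_1 (nat_lit 6) (nat_lit 0x380010000c000c000000000000000000000000000) (nat_lit 0x0) (nat_lit 0xe0006002380000002000100000000000000000000000) := T_1 (nat_lit 109) (nat_lit 92) (nat_lit 4) (nat_lit 8) (nat_lit 9) L25127 (by decide +kernel)
theorem L25129 : W_1 (nat_lit 7) (nat_lit 0x300010000c000c000000000000000000000000000) (nat_lit 0x0) (nat_lit 0x1e000e002b80300003800180000000000000000000000) := Q_1 (nat_lit 159) (C_1 L25116 (C_1 L25119 (C_1 L25123 (C_1 L25128 N_1)))) (by decide +kernel)
theorem L25130 : W_1 (nat_lit 8) (nat_lit 0x200010000c000c000000000000000000000000000) (nat_lit 0x0) (nat_lit 0x3e001e002b80300003800180000000000000000000000) := T_1 (nat_lit 160) (nat_lit 177) (nat_lit 5) (nat_lit 8) (nat_lit 6) L25129 (by decide +kernel)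
theorem L25131 : W_1 (nat_lit 9) (nat_lit 0x200010000c0004000000000000000000000000000) (nat_lit 0x0) (nat_lit 0x3e001e002b8030000b800580000000000000000000000) := T_1 (nat_lit 111) (nat_lit 94) (nat_lit 6) (nat_lit 8) (nat_lit 9) L25130 (by decide +kernel)
theorem L25132 : W_1 (nat_lit 2) (nat_lit 0x200018000e0004000000000000000000000000000) (nat_lit 0x0) (nat_lit 0x6000010000000000000000000000000000000) := D_1 (nat_lit 145) (nat_lit 146) (nat_lit 124) (nat_lit 0) (nat_lit 10) (nat_lit 8) (nat_lit 3) (nat_lit 5) (nat_lit 7) (by decide +kernel)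
theorem L25133 : W_1 (nat_lit 2) (nat_lit 0x200020001a000f0004800000000000000000000000000) (nat_lit 0x0) (nat_lit 0x400100001000000000000000000000000000) := D_1 (nat_lit 128) (nat_lit 142) (nat_lit 108) (nat_lit 2) (nat_lit 5) (nat_lit 8) (nat_lit 0) (nat_lit 9) (nat_lit 7) (by decide +kernel)
theorem L25134 : W_1 (nat_lit 3) (nat_lit 0x200020001a000f0004000000000000000000000000000) (nat_lit 0x0) (nat_lit 0x400100001c00000000000000000000000000) := T_1 (nat_lit 107) (nat_lit 106) (nat_lit 0) (nat_lit 8) (nat_lit 7) L25133 (by decide +kernel)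
theorem L25135 : W_1 (nat_lit 4) (nat_lit 0x2000200018000f0004000000000000000000000000000) (nat_lit 0x0) (nat_lit 0x700100001c00000000000000000000000000) := T_1 (nat_lit 141) (nat_lit 140) (nat_lit 1) (nat_lit 8) (nat_lit 7) L25134 (by decide +kernel)
theorem L25136 : W_1 (nat_lit 5) (nat_lit 0x2000200018000e0004000000000000000000000000000) (nat_lit 0x0) (nat_lit 0x700118001c00000000000000000000000000) := T_1 (nat_lit 124) (nat_lit 123) (nat_lit 3) (nat_lit 4) (nat_lit 7) L25135 (by decide +kernel)
theorem L25137 : W_1 (nat_lit 6) (nat_lit 0x200018000e0004000000000000000000000000000) (nat_lit 0x0) (nat_lit 0x200010000700118001c00000000000000000000000000) := T_1 (nat_lit 177) (nat_lit 160) (nat_lit 6) (nat_lit 7) (nat_lit 10) L25136 (by decide +kernel)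
theorem L25138 : W_1 (nat_lit 2) (nat_lit 0x20001c000e0004000000000000000000000000000) (nat_lit 0x0) (nat_lit 0x200300000000000000000000000000000000) := D_1 (nat_lit 128) (nat_lit 141) (nat_lit 129) (nat_lit 2) (nat_lit 5) (nat_lit 8) (nat_lit 1) (nat_lit 10) (nat_lit 7) (by decide +kernel)
theorem L25139 : W_1 (nat_lit 2) (nat_lit 0x34005e000e0005000000000000000000000000000) (nat_lit 0x0) (nat_lit 0x1000080008000000000000000000000000000000000000000) := D_1 (nat_lit 175) (nat_lit 192) (nat_lit 159) (nat_lit 6) (nat_lit 5) (nat_lit 11) (nat_lit 5) (nat_lit 6) (nat_lit 6) (by decide +kernel)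
theorem L25140 : W_1 (nat_lit 3) (nat_lit 0x34005e000e0004000000000000000000000000000) (nat_lit 0x0) (nat_lit 0x1000080008000000000001000080000000000000000000000) := T_1 (nat_lit 108) (nat_lit 91) (nat_lit 7) (nat_lit 6) (nat_lit 5) L25139 (by decide +kernel)
theorem L25141 : W_1 (nat_lit 4) (nat_lit 0x30005e000e0004000000000000000000000000000) (nat_lit 0x0) (nat_lit 0x100008000e000000000001000080000000000000000000000) := T_1 (nat_lit 158) (nat_lit 157) (nat_lit 1) (nat_lit 8) (nat_lit 8) L25140 (by decide +kernel)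
theorem L25142 : W_1 (nat_lit 5) (nat_lit 0x20005e000e0004000000000000000000000000000) (nat_lit 0x0) (nat_lit 0x100028001e000000000001000080000000000000000000000) := T_1 (nat_lit 160) (nat_lit 177) (nat_lit 6) (nat_lit 7) (nat_lit 10) L25141 (by decide +kernel)
theorem L25143 : W_1 (nat_lit 6) (nat_lit 0x20005c000e0004000000000000000000000000000) (nat_lit 0x0) (nat_lit 0x100028001e000300000001000080000000000000000000000) := T_1 (nat_lit 141) (nat_lit 140) (nat_lit 2) (nat_lit 4) (nat_lit 8) L25142 (by decide +kernel)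
theorem L25144 : W_1 (nat_lit 7) (nat_lit 0x20001c000e0004000000000000000000000000000) (nat_lit 0x0) (nat_lit 0x100028001e006300000001000080000000000000000000000) := T_1 (nat_lit 146) (nat_lit 145) (nat_lit 0) (nat_lit 10) (nat_lit 8) L25143 (by decide +kernel)
theorem L25145 : W_1 (nat_lit 2) (nat_lit 0x30005c000e0005000000000000000000000000000) (nat_lit 0x0) (nat_lit 0x300000800000000000000000000000000) := D_1 (nat_lit 128) (nat_lit 129) (nat_lit 107) (nat_lit 1) (nat_lit 10) (nat_lit 7) (nat_lit 0) (nat_lit 9) (nat_lit 7) (by decide +kernel)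
theorem L25146 : W_1 (nat_lit 3) (nat_lit 0x30005c000e0004000000000000000000000000000) (nat_lit 0x0) (nat_lit 0x300001800080000000000000000000000) := T_1 (nat_lit 108) (nat_lit 91) (nat_lit 7) (nat_lit 6) (nat_lit 5) L25145 (by decide +kernel)
theorem L25147 : W_1 (nat_lit 4) (nat_lit 0x30001c000e0004000000000000000000000000000) (nat_lit 0x0) (nat_lit 0x6000300001800080000000000000000000000) := T_1 (nat_lit 146) (nat_lit 145) (nat_lit 0) (nat_lit 10) (nat_lit 8) L25146 (by decide +kernel)
theorem L25148 : W_1 (nat_lit 5) (nat_lit 0x20001c000e0004000000000000000000000000000) (nat_lit 0x0) (nat_lit 0x200010006000300001800080000000000000000000000) := T_1 (nat_lit 160) (nat_lit 177) (nat_lit 6) (nat_lit 7) (nat_lit 10) L25147 (by decide +kernel)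
theorem L25149 : W_1 (nat_lit 8) (nat_lit 0x200018000e0004000000000000000000000000000) (nat_lit 0x0) (nat_lit 0x100028001e006700300001800080000000000000000000000) := Q_1 (nat_lit 142) (C_1 L25138 (C_1 L25144 (C_1 L25148 N_1))) (by decide +kernel)
theorem L25150 : W_1 (nat_lit 9) (nat_lit 0x200018000c0004000000000000000000000000000) (nat_lit 0x0) (nat_lit 0x100028001e006700338001c00080000000000000000000000) := Q_1 (nat_lit 125) (C_1 L25132 (C_1 L25137 (C_1 L25149 N_1))) (by decide +kernel)
theorem L25151 : W_1 (nat_lit 2) (nat_lit 0x20001a000f0006800000000000000000000000000) (nat_lit 0x0) (nat_lit 0x400100001000000000000000000000000000) := D_1 (nat_lit 128) (nat_lit 142) (nat_lit 108) (nat_lit 2) (nat_lit 5) (nat_lit 8) (nat_lit 3) (nat_lit 5) (nat_lit 6) (by decide +kernel)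
theorem L25152 : W_1 (nat_lit 3) (nat_lit 0x20001a000f0006000000000000000000000000000) (nat_lit 0x0) (nat_lit 0x400100001c00000000000000000000000000) := T_1 (nat_lit 107) (nat_lit 106) (nat_lit 0) (nat_lit 8) (nat_lit 7) L25151 (by decide +kernel)
theorem L25153 : W_1 (nat_lit 4) (nat_lit 0x200018000f0006000000000000000000000000000) (nat_lit 0x0) (nat_lit 0x700100001c00000000000000000000000000) := T_1 (nat_lit 141) (nat_lit 140) (nat_lit 1) (nat_lit 8) (nat_lit 7) L25152 (by decide +kernel)
theorem L25154 : W_1 (nat_lit 5) (nat_lit 0x200018000e0006000000000000000000000000000) (nat_lit 0x0) (nat_lit 0x700118001c00000000000000000000000000) := T_1 (nat_lit 124) (nat_lit 123) (nat_lit 3) (nat_lit 4) (nat_lit 7) L25153 (by decide +kernel)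
theorem L25155 : W_1 (nat_lit 6) (nat_lit 0x200018000e0004000000000000000000000000000) (nat_lit 0x0) (nat_lit 0x700118003c00100000000000000000000000) := T_1 (nat_lit 109) (nat_lit 92) (nat_lit 7) (nat_lit 7) (nat_lit 5) L25154 (by decide +kernel)
theorem L25156 : W_1 (nat_lit 2) (nat_lit 0x28001d000e0006000000000000000000000000000) (nat_lit 0x0) (nat_lit 0x4006000000000000000000000000000000000000) := D_1 (nat_lit 145) (nat_lit 146) (nat_lit 158) (nat_lit 0) (nat_lit 10) (nat_lit 8) (nat_lit 1) (nat_lit 9) (nat_lit 8) (by decide +kernel)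
theorem L25157 : W_1 (nat_lit 3) (nat_lit 0x20001d000e0006000000000000000000000000000) (nat_lit 0x0) (nat_lit 0x10000c006000000000000000000000000000000000000) := T_1 (nat_lit 159) (nat_lit 176) (nat_lit 6) (nat_lit 6) (nat_lit 10) L25156 (by decide +kernel)
theorem L25158 : W_1 (nat_lit 4) (nat_lit 0x20001c000e0006000000000000000000000000000) (nat_lit 0x0) (nat_lit 0x10000c006300000000000000000000000000000000000) := T_1 (nat_lit 140) (nat_lit 141) (nat_lit 2) (nat_lit 4) (nat_lit 8) L25157 (by decide +kernel)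
theorem L25159 : W_1 (nat_lit 5) (nat_lit 0x20001c000e0004000000000000000000000000000) (nat_lit 0x0) (nat_lit 0x10000c006300000002000100000000000000000000000) := T_1 (nat_lit 109) (nat_lit 92) (nat_lit 7) (nat_lit 7) (nat_lit 5) L25158 (by decide +kernel)
theorem L25160 : W_1 (nat_lit 2) (nat_lit 0x20005c001e0005000100000000000000000000000) (nat_lit 0x0) (nat_lit 0x8000c000000000000000000) := D_1 (nat_lit 91) (nat_lit 75) (nat_lit 74) (nat_lit 6) (nat_lit 6) (nat_lit 8) (nat_lit 7) (nat_lit 6) (nat_lit 4) (by decide +kernel)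
theorem L25161 : W_1 (nat_lit 3) (nat_lit 0x20005c001e0004000100000000000000000000000) (nat_lit 0x0) (nat_lit 0x180008000c000000000000000000) := T_1 (nat_lit 108) (nat_lit 107) (nat_lit 0) (nat_lit 9) (nat_lit 7) L25160 (by decide +kernel)
theorem L25162 : W_1 (nat_lit 4) (nat_lit 0x20005c000e0004000100000000000000000000000) (nat_lit 0x0) (nat_lit 0x30000180008000c000000000000000000) := T_1 (nat_lit 128) (nat_lit 129) (nat_lit 1) (nat_lit 10) (nat_lit 7) L25161 (by decide +kernel)
theorem L25163 : W_1 (nat_lit 5) (nat_lit 0x20005c000e0004000000000000000000000000000) (nat_lit 0x0) (nat_lit 0x30000380018000c000000000000000000) := T_1 (nat_lit 92) (nat_lit 109) (nat_lit 7) (nat_lit 7) (nat_lit 5) L25162 (by decide +kernel)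
theorem L25164 : W_1 (nat_lit 6) (nat_lit 0x20001c000e0004000000000000000000000000000) (nat_lit 0x0) (nat_lit 0x600030000380018000c000000000000000000) := T_1 (nat_lit 146) (nat_lit 145) (nat_lit 0) (nat_lit 10) (nat_lit 8) L25163 (by decide +kernel)
theorem L25165 : W_1 (nat_lit 7) (nat_lit 0x200018000e0004000000000000000000000000000) (nat_lit 0x0) (nat_lit 0x10000c00670030000380018000c000000000000000000) := Q_1 (nat_lit 142) (C_1 L25138 (C_1 L25159 (C_1 L25164 N_1))) (by decide +kernel)
theorem L25166 : W_1 (nat_lit 8) (nat_lit 0x200018000c0004000000000000000000000000000) (nat_lit 0x0) (nat_lit 0x10000c006700338003c0018000c000000000000000000) := Q_1 (nat_lit 125) (C_1 L25132 (C_1 L25155 (C_1 L25165 N_1))) (by decide +kernel)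
theorem L25167 : W_1 (nat_lit 2) (nat_lit 0x380018000c0006000000000000000000000000000) (nat_lit 0x0) (nat_lit 0x6002000000000000000000000000000000000000) := D_1 (nat_lit 158) (nat_lit 145) (nat_lit 157) (nat_lit 2) (nat_lit 5) (nat_lit 9) (nat_lit 2) (nat_lit 4) (nat_lit 9) (by decide +kernel)
theorem L25168 : W_1 (nat_lit 3) (nat_lit 0x300018000c0006000000000000000000000000000) (nat_lit 0x0) (nat_lit 0x10000e002000000000000000000000000000000000000) := T_1 (nat_lit 159) (nat_lit 176) (nat_lit 5) (nat_lit 7) (nat_lit 6) L25167 (by decide +kernel)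
theorem L25169 : W_1 (nat_lit 4) (nat_lit 0x200018000c0006000000000000000000000000000) (nat_lit 0x0) (nat_lit 0x30001e002000000000000000000000000000000000000) := T_1 (nat_lit 160) (nat_lit 177) (nat_lit 6) (nat_lit 7) (nat_lit 10) L25168 (by decide +kernel)
theorem L25170 : W_1 (nat_lit 5) (nat_lit 0x200018000c0004000000000000000000000000000) (nat_lit 0x0) (nat_lit 0x30001e002000000002000100000000000000000000000) := T_1 (nat_lit 109) (nat_lit 92) (nat_lit 7) (nat_lit 7) (nat_lit 5) L25169 (by decide +kernel)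
theorem L25171 : W_1 (nat_lit 10) (nat_lit 0x200010000c0004000000000000000000000000000) (nat_lit 0x0) (nat_lit 0x100038001e006f00338003c0018000c000000000000000000) := Q_1 (nat_lit 143) (C_1 L25150 (C_1 L25166 (C_1 L25022 (C_1 L25170 N_1)))) (by decide +kernel)
theorem L25172 : W_1 (nat_lit 11) (nat_lit 0x20001000080004000000000000000000000000000) (nat_lit 0x0) (nat_lit 0x10003e001e006f8037801bc0058000c000000000000000000) := Q_1 (nat_lit 126) (C_1 L24990 (C_1 L25104 (C_1 L25113 (C_1 L25131 (C_1 L25171 N_1))))) (by decide +kernel)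
theorem L25173 : W_1 (nat_lit 12) (nat_lit 0x20001000080000000000000000000000000000000) (nat_lit 0x0) (nat_lit 0x10003e001e006f8037801fc0078002c000000000000000000) := Q_1 (nat_lit 110) (C_1 L25091 (C_1 L25101 (C_1 L25051 (C_1 L25172 N_1)))) (by decide +kernel)
theorem L25174 : W_1 (nat_lit 13) (nat_lit 0x1000080000000000000000000000000000000) (nat_lit 0x0) (nat_lit 0x300038001d000fe003e006f8037801fe0078002c000000000000000000) := Q_1 (nat_lit 161) (C_1 L24604 (C_1 L25044 (C_1 L25052 (C_1 L25068 (C_1 L25083 (C_1 L25084 (C_1 L25092 (C_1 L25098 (C_1 L25173 N_1))))))))) (by decide +kernel)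
theorem L25175 : W_1 (nat_lit 2) (nat_lit 0x1800080006000300010001000000000000000) (nat_lit 0x0) (nat_lit 0x8000c0000000000) := D_1 (nat_lit 59) (nat_lit 42) (nat_lit 43) (nat_lit 5) (nat_lit 8) (nat_lit 2) (nat_lit 6) (nat_lit 8) (nat_lit 6) (by decide +kernel)
theorem L25176 : W_1 (nat_lit 3) (nat_lit 0x1800080006000300010000000000000000000) (nat_lit 0x0) (nat_lit 0x200018000c0000000000) := T_1 (nat_lit 60) (nat_lit 77) (nat_lit 6) (nat_lit 8) (nat_lit 7) L25175 (by decide +kernel)
theorem L25177 : W_1 (nat_lit 4) (nat_lit 0x1800080004000300010000000000000000000) (nat_lit 0x0) (nat_lit 0x200000000000020000000200018000c0000000000) := T_1 (nat_lit 109) (nat_lit 161) (nat_lit 4) (nat_lit 8) (nat_lit 9) L25176 (by decide +kernel)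
theorem L25178 : W_1 (nat_lit 5) (nat_lit 0x1800080004000300000000000000000000000) (nat_lit 0x0) (nat_lit 0x200000000400020000000300018000c0000000000) := T_1 (nat_lit 76) (nat_lit 126) (nat_lit 5) (nat_lit 8) (nat_lit 4) L25177 (by decide +kernel)
theorem L25179 : W_1 (nat_lit 6) (nat_lit 0x1000080004000300000000000000000000000) (nat_lit 0x0) (nat_lit 0x300008000400020000000300018000c0000000000) := T_1 (nat_lit 143) (nat_lit 160) (nat_lit 5) (nat_lit 8) (nat_lit 5) L25178 (by decide +kernel)
theorem L25180 : W_1 (nat_lit 7) (nat_lit 0x1000080004000200000000000000000000000) (nat_lit 0x0) (nat_lit 0x300008000400020001000380018000c0000000000) := T_1 (nat_lit 92) (nat_lit 75) (nat_lit 4) (nat_lit 8) (nat_lit 8) L25179 (by decide +kernel)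
theorem L25181 : W_1 (nat_lit 2) (nat_lit 0x18000c0006000380000000000000000000000) (nat_lit 0x0) (nat_lit 0x8000060000000000000000000000) := D_1 (nat_lit 90) (nat_lit 111) (nat_lit 89) (nat_lit 3) (nat_lit 5) (nat_lit 5) (nat_lit 3) (nat_lit 4) (nat_lit 5) (by decide +kernel)
theorem L25182 : W_1 (nat_lit 3) (nat_lit 0x18000c0006000300000000000000000000000) (nat_lit 0x0) (nat_lit 0x80000e0004000000000000000000) := T_1 (nat_lit 91) (nat_lit 74) (nat_lit 4) (nat_lit 7) (nat_lit 8) L25181 (by decide +kernel)
theorem L25183 : W_1 (nat_lit 4) (nat_lit 0x18000c0004000300000000000000000000000) (nat_lit 0x0) (nat_lit 0x2000000000000a0000e0004000000000000000000) := T_1 (nat_lit 109) (nat_lit 161) (nat_lit 7) (nat_lit 7) (nat_lit 5) L25182 (by decide +kernel)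
theorem L25184 : W_1 (nat_lit 5) (nat_lit 0x1800080004000300000000000000000000000) (nat_lit 0x0) (nat_lit 0x2000000004000a0000e0014000000000000000000) := T_1 (nat_lit 126) (nat_lit 76) (nat_lit 5) (nat_lit 8) (nat_lit 4) L25183 (by decide +kernel)
theorem L25185 : W_1 (nat_lit 6) (nat_lit 0x1000080004000300000000000000000000000) (nat_lit 0x0) (nat_lit 0x3000080004000a0000e0014000000000000000000) := T_1 (nat_lit 143) (nat_lit 160) (nat_lit 5) (nat_lit 8) (nat_lit 5) L25184 (by decide +kernel)
theorem L25186 : W_1 (nat_lit 7) (nat_lit 0x1000080004000200000000000000000000000) (nat_lit 0x0) (nat_lit 0x3000080004000a0001e001c000000000000000000) := T_1 (nat_lit 92) (nat_lit 75) (nat_lit 4) (nat_lit 8) (nat_lit 8) L25185 (by decide +kernel)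
theorem L25187 : W_1 (nat_lit 8) (nat_lit 0x1000080004000000000000000000000000000) (nat_lit 0x0) (nat_lit 0x3000080004000a0007e003c0018000c0000000000) := Q_1 (nat_lit 93) (C_1 L24835 (C_1 L24785 (C_1 L25180 (C_1 L25186 N_1)))) (by decide +kernel)
theorem L25188 : W_1 (nat_lit 2) (nat_lit 0x300008000c000700000000000000000000000) (nat_lit 0x0) (nat_lit 0x100000c0000000000000000000000) := D_1 (nat_lit 91) (nat_lit 112) (nat_lit 90) (nat_lit 3) (nat_lit 6) (nat_lit 5) (nat_lit 3) (nat_lit 5) (nat_lit 5) (by decide +kernel)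
theorem L25189 : W_1 (nat_lit 3) (nat_lit 0x3000080004000700000000000000000000000) (nat_lit 0x0) (nat_lit 0x200000000000180000c0000000000000000000000) := T_1 (nat_lit 111) (nat_lit 161) (nat_lit 6) (nat_lit 8) (nat_lit 9) L25188 (by decide +kernel)
theorem L25190 : W_1 (nat_lit 4) (nat_lit 0x1000080004000700000000000000000000000) (nat_lit 0x0) (nat_lit 0x600020000000180000c0000000000000000000000) := T_1 (nat_lit 145) (nat_lit 162) (nat_lit 7) (nat_lit 8) (nat_lit 5) L25189 (by decide +kernel)
theorem L25191 : W_1 (nat_lit 5) (nat_lit 0x1000080004000300000000000000000000000) (nat_lit 0x0) (nat_lit 0x600020000000180004c0020000000000000000000) := T_1 (nat_lit 94) (nat_lit 77) (nat_lit 6) (nat_lit 8) (nat_lit 8) L25190 (by decide +kernel)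
theorem L25192 : W_1 (nat_lit 6) (nat_lit 0x1000080004000200000000000000000000000) (nat_lit 0x0) (nat_lit 0x600020000000180005c0028000000000000000000) := T_1 (nat_lit 92) (nat_lit 75) (nat_lit 4) (nat_lit 8) (nat_lit 8) L25191 (by decide +kernel)
theorem L25193 : W_1 (nat_lit 2) (nat_lit 0x1800080004000200010000000000000000000) (nat_lit 0x0) (nat_lit 0x100008000400000000000000) := D_1 (nat_lit 75) (nat_lit 58) (nat_lit 92) (nat_lit 4) (nat_lit 8) (nat_lit 7) (nat_lit 4) (nat_lit 8) (nat_lit 8) (by decide +kernel)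
theorem L25194 : W_1 (nat_lit 3) (nat_lit 0x1800080004000200000000000000000000000) (nat_lit 0x0) (nat_lit 0x40000000100018000400000000000000) := T_1 (nat_lit 76) (nat_lit 126) (nat_lit 5) (nat_lit 8) (nat_lit 4) L25193 (by decide +kernel)
theorem L25195 : W_1 (nat_lit 4) (nat_lit 0x1000080004000200000000000000000000000) (nat_lit 0x0) (nat_lit 0x10000800040000000100018000400000000000000) := T_1 (nat_lit 143) (nat_lit 160) (nat_lit 5) (nat_lit 8) (nat_lit 5) L25194 (by decide +kernel)
theorem L25196 : W_1 (nat_lit 7) (nat_lit 0x1000080004000000000000000000000000000) (nat_lit 0x0) (nat_lit 0x2000700028000400180007c0038001400000000000000) := Q_1 (nat_lit 93) (C_1 L24935 (C_1 L24835 (C_1 L25192 (C_1 L25195 N_1)))) (by decide +kernel)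
theorem L25197 : W_1 (nat_lit 4) (nat_lit 0x3000080004000300000000000000000000000) (nat_lit 0x0) (nat_lit 0x20000000000003800c00020000000000000000000) := T_1 (nat_lit 109) (nat_lit 161) (nat_lit 4) (nat_lit 8) (nat_lit 9) L5600 (by decide +kernel)
theorem L25198 : W_1 (nat_lit 5) (nat_lit 0x1000080004000300000000000000000000000) (nat_lit 0x0) (nat_lit 0x60002000000003800c00020000000000000000000) := T_1 (nat_lit 145) (nat_lit 162) (nat_lit 7) (nat_lit 8) (nat_lit 5) L25197 (by decide +kernel)
theorem L25199 : W_1 (nat_lit 6) (nat_lit 0x1000080004000200000000000000000000000) (nat_lit 0x0) (nat_lit 0x60002000000003800d00028000000000000000000) := T_1 (nat_lit 92) (nat_lit 75) (nat_lit 4) (nat_lit 8) (nat_lit 8) L25198 (by decide +kernel)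
theorem L25200 : W_1 (nat_lit 2) (nat_lit 0x30000c0004000200018000800000000000000) (nat_lit 0x0) (nat_lit 0x20001000080000000000) := D_1 (nat_lit 60) (nat_lit 77) (nat_lit 43) (nat_lit 6) (nat_lit 8) (nat_lit 7) (nat_lit 6) (nat_lit 8) (nat_lit 6) (by decide +kernel)
theorem L25201 : W_1 (nat_lit 3) (nat_lit 0x30000c0004000200018000000000000000000) (nat_lit 0x0) (nat_lit 0x2000000020001800080000000000) := T_1 (nat_lit 59) (nat_lit 109) (nat_lit 5) (nat_lit 8) (nat_lit 3) L25200 (by decide +kernel)
theorem L25202 : W_1 (nat_lit 4) (nat_lit 0x3000080004000200018000000000000000000) (nat_lit 0x0) (nat_lit 0x800040002000000020001800080000000000) := T_1 (nat_lit 126) (nat_lit 143) (nat_lit 5) (nat_lit 8) (nat_lit 4) L25201 (by decide +kernel)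
theorem L25203 : W_1 (nat_lit 5) (nat_lit 0x3000080004000200008000000000000000000) (nat_lit 0x0) (nat_lit 0x800040002000000030001c00080000000000) := T_1 (nat_lit 76) (nat_lit 58) (nat_lit 4) (nat_lit 8) (nat_lit 7) L25202 (by decide +kernel)
theorem L25204 : W_1 (nat_lit 6) (nat_lit 0x3000080004000200000000000000000000000) (nat_lit 0x0) (nat_lit 0x800040002000100038001c00080000000000) := T_1 (nat_lit 75) (nat_lit 92) (nat_lit 4) (nat_lit 8) (nat_lit 8) L25203 (by decide +kernel)
theorem L25205 : W_1 (nat_lit 7) (nat_lit 0x1000080004000200000000000000000000000) (nat_lit 0x0) (nat_lit 0x40002800040002000100038001c00080000000000) := T_1 (nat_lit 145) (nat_lit 162) (nat_lit 7) (nat_lit 8) (nat_lit 5) L25204 (by decide +kernel)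
theorem L25206 : W_1 (nat_lit 2) (nat_lit 0x40001000080004000600000000000000000000000) (nat_lit 0x0) (nat_lit 0x800020000000000008000000000000000000000000000) := D_1 (nat_lit 161) (nat_lit 111) (nat_lit 179) (nat_lit 6) (nat_lit 8) (nat_lit 9) (nat_lit 7) (nat_lit 8) (nat_lit 6) (by decide +kernel)
theorem L25207 : W_1 (nat_lit 3) (nat_lit 0x1000080004000600000000000000000000000) (nat_lit 0x0) (nat_lit 0x800060002000000008000000000000000000000000000) := T_1 (nat_lit 162) (nat_lit 145) (nat_lit 7) (nat_lit 8) (nat_lit 5) L25206 (by decide +kernel)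
theorem L25208 : W_1 (nat_lit 4) (nat_lit 0x1000080004000200000000000000000000000) (nat_lit 0x0) (nat_lit 0x800060002000000008000400020000000000000000000) := T_1 (nat_lit 94) (nat_lit 77) (nat_lit 6) (nat_lit 8) (nat_lit 8) L25207 (by decide +kernel)
theorem L25209 : W_1 (nat_lit 2) (nat_lit 0x40001000080004000300000000000000000000000) (nat_lit 0x0) (nat_lit 0x800020000000000002000000000000000000000000000) := D_1 (nat_lit 161) (nat_lit 109) (nat_lit 179) (nat_lit 4) (nat_lit 8) (nat_lit 9) (nat_lit 7) (nat_lit 8) (nat_lit 6) (by decide +kernel)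
theorem L25210 : W_1 (nat_lit 3) (nat_lit 0x1000080004000300000000000000000000000) (nat_lit 0x0) (nat_lit 0x800060002000000002000000000000000000000000000) := T_1 (nat_lit 162) (nat_lit 145) (nat_lit 7) (nat_lit 8) (nat_lit 5) L25209 (by decide +kernel)
theorem L25211 : W_1 (nat_lit 4) (nat_lit 0x1000080004000200000000000000000000000) (nat_lit 0x0) (nat_lit 0x800060002000000002000100008000000000000000000) := T_1 (nat_lit 92) (nat_lit 75) (nat_lit 4) (nat_lit 8) (nat_lit 8) L25210 (by decide +kernel)
theorem L25212 : W_1 (nat_lit 8) (nat_lit 0x1000080004000000000000000000000000000) (nat_lit 0x0) (nat_lit 0x80006000280004001b800fc0038001c00080000000000) := Q_1 (nat_lit 93) (C_1 L25192 (C_1 L24785 (C_1 L25199 (C_1 L25205 (C_1 L25208 (C_1 L25211 N_1)))))) (by decide +kernel)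
theorem L25213 : W_1 (nat_lit 2) (nat_lit 0x1000080004000200018000000000000000000) (nat_lit 0x0) (nat_lit 0x400020001000000000000000) := D_1 (nat_lit 77) (nat_lit 94) (nat_lit 60) (nat_lit 6) (nat_lit 8) (nat_lit 8) (nat_lit 6) (nat_lit 8) (nat_lit 7) (by decide +kernel)
theorem L25214 : W_1 (nat_lit 3) (nat_lit 0x1000080004000200008000000000000000000) (nat_lit 0x0) (nat_lit 0x400030001400000000000000) := T_1 (nat_lit 76) (nat_lit 58) (nat_lit 4) (nat_lit 8) (nat_lit 7) L25213 (by decide +kernel)
theorem L25215 : W_1 (nat_lit 4) (nat_lit 0x1000080004000200000000000000000000000) (nat_lit 0x0) (nat_lit 0x500038001400000000000000) := T_1 (nat_lit 75) (nat_lit 92) (nat_lit 4) (nat_lit 8) (nat_lit 8) L25214 (by decide +kernel)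
theorem L25216 : W_1 (nat_lit 5) (nat_lit 0x1000080004000000000000000000000000000) (nat_lit 0x0) (nat_lit 0x80006000200000000a000700038001400000000000000) := Q_1 (nat_lit 93) (C_1 L25211 (C_1 L24785 (C_1 L25208 (C_1 L25215 N_1)))) (by decide +kernel)
theorem L25217 : W_1 (nat_lit 5) (nat_lit 0x1000080004000000000000000000000000000) (nat_lit 0x0) (nat_lit 0x800070002800040002000700038001400000000000000) := Q_1 (nat_lit 93) (C_1 L25215 (C_1 L25211 (C_1 L24835 N_1))) (by decide +kernel)
theorem L25218 : W_1 (nat_lit 2) (nat_lit 0x30001000080004000200000000000000000000000) (nat_lit 0x0) (nat_lit 0x800040002000000000000000000000000000000000000) := D_1 (nat_lit 162) (nat_lit 179) (nat_lit 145) (nat_lit 7) (nat_lit 8) (nat_lit 6) (nat_lit 7) (nat_lit 8) (nat_lit 5) (by decide +kernel)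
theorem L25219 : W_1 (nat_lit 3) (nat_lit 0x30001000080004000000000000000000000000000) (nat_lit 0x0) (nat_lit 0x800040002800000000000200000000000000000000000) := T_1 (nat_lit 93) (nat_lit 143) (nat_lit 5) (nat_lit 8) (nat_lit 5) L25218 (by decide +kernel)
theorem L25220 : W_1 (nat_lit 4) (nat_lit 0x20001000080004000000000000000000000000000) (nat_lit 0x0) (nat_lit 0xa00050002800000000000200000000000000000000000) := T_1 (nat_lit 160) (nat_lit 177) (nat_lit 5) (nat_lit 8) (nat_lit 6) L25219 (by decide +kernel)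
theorem L25221 : W_1 (nat_lit 5) (nat_lit 0x1000080004000000000000000000000000000) (nat_lit 0x0) (nat_lit 0x4000e00070002800040002000300008000000000000000000) := Q_1 (nat_lit 161) (C_1 L25091 (C_1 L24620 (C_1 L25220 (C_1 L24775 N_1)))) (by decide +kernel)
theorem L25222 : W_1 (nat_lit 2) (nat_lit 0x2000080006800600010000d000c000000000000000000000000000) (nat_lit 0x0) (nat_lit 0x4000100000000000000002000000000000000000000000000000000000) := D_1 (nat_lit 212) (nat_lit 145) (nat_lit 230) (nat_lit 6) (nat_lit 8) (nat_lit 12) (nat_lit 7) (nat_lit 8) (nat_lit 9) (by decide +kernel)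
theorem L25223 : W_1 (nat_lit 3) (nat_lit 0x80006800600010000d000c000000000000000000000000000) (nat_lit 0x0) (nat_lit 0x4000300010000000000002000000000000000000000000000000000000) := T_1 (nat_lit 213) (nat_lit 196) (nat_lit 7) (nat_lit 8) (nat_lit 8) L25222 (by decide +kernel)
theorem L25224 : W_1 (nat_lit 4) (nat_lit 0x80006000600010000d000c000000000000000000000000000) (nat_lit 0x0) (nat_lit 0x4000300010000180000002000000000000000000000000000000000000) := T_1 (nat_lit 175) (nat_lit 176) (nat_lit 2) (nat_lit 5) (nat_lit 10) L25223 (by decide +kernel)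
theorem L25225 : W_1 (nat_lit 5) (nat_lit 0x6000600010000d000c000000000000000000000000000) (nat_lit 0x0) (nat_lit 0x4000300018000180000002800000000000000000000000000000000000) := T_1 (nat_lit 195) (nat_lit 143) (nat_lit 4) (nat_lit 8) (nat_lit 11) L25224 (by decide +kernel)
theorem L25226 : W_1 (nat_lit 6) (nat_lit 0x6000600010000c000c000000000000000000000000000) (nat_lit 0x0) (nat_lit 0x4000300018000180000002800030000000000000000000000000000000) := T_1 (nat_lit 124) (nat_lit 125) (nat_lit 2) (nat_lit 5) (nat_lit 7) L25225 (by decide +kernel)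
theorem L25227 : W_1 (nat_lit 7) (nat_lit 0x60006000100008000c000000000000000000000000000) (nat_lit 0x0) (nat_lit 0x4000300018000180000002800070002000000000000000000000000000) := T_1 (nat_lit 126) (nat_lit 109) (nat_lit 4) (nat_lit 8) (nat_lit 10) L25226 (by decide +kernel)
theorem L25228 : W_1 (nat_lit 8) (nat_lit 0x20006000100008000c000000000000000000000000000) (nat_lit 0x0) (nat_lit 0x400030001c000580000002800070002000000000000000000000000000) := T_1 (nat_lit 178) (nat_lit 194) (nat_lit 5) (nat_lit 8) (nat_lit 7) L25227 (by decide +kernel)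
theorem L25229 : W_1 (nat_lit 9) (nat_lit 0x200060001000080004000000000000000000000000000) (nat_lit 0x0) (nat_lit 0x400030001c00058000000280007000a000400000000000000000000000) := T_1 (nat_lit 111) (nat_lit 94) (nat_lit 6) (nat_lit 8) (nat_lit 9) L25228 (by decide +kernel)
theorem L25230 : W_1 (nat_lit 10) (nat_lit 0x60001000080004000000000000000000000000000) (nat_lit 0x0) (nat_lit 0x400030001c00078001000280007000a000400000000000000000000000) := T_1 (nat_lit 177) (nat_lit 160) (nat_lit 5) (nat_lit 8) (nat_lit 6) L25229 (by decide +kernel)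
theorem L25231 : W_1 (nat_lit 11) (nat_lit 0x20001000080004000000000000000000000000000) (nat_lit 0x0) (nat_lit 0x400030001c000f8005000280007000a000400000000000000000000000) := T_1 (nat_lit 162) (nat_lit 179) (nat_lit 7) (nat_lit 8) (nat_lit 6) L25230 (by decide +kernel)
theorem L25232 : W_1 (nat_lit 12) (nat_lit 0x1000080004000000000000000000000000000) (nat_lit 0x0) (nat_lit 0x400030001c000f8007000280007000a000600020000000000000000000) := Q_1 (nat_lit 161) (C_1 L25220 (C_1 L25051 (C_1 L24627 (C_1 L25231 N_1)))) (by decide +kernel)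
theorem L25240 : W_1 (nat_lit 4) (nat_lit 0x18000c0006000200000000000000000000000) (nat_lit 0x0) (nat_lit 0x80001e000c000000000000000000) := T_1 (nat_lit 92) (nat_lit 75) (nat_lit 7) (nat_lit 7) (nat_lit 4) L25182 (by decide +kernel)
theorem L25241 : W_1 (nat_lit 5) (nat_lit 0x10000c0006000200000000000000000000000) (nat_lit 0x0) (nat_lit 0x100008000000080001e000c000000000000000000) := T_1 (nat_lit 143) (nat_lit 160) (nat_lit 6) (nat_lit 7) (nat_lit 9) L25240 (by decide +kernel)
theorem L26030 : W_1 (nat_lit 2) (nat_lit 0x38000c00060003a0000000000000000000000) (nat_lit 0x0) (nat_lit 0x4000030000000000000000000000000000000) := D_1 (nat_lit 125) (nat_lit 124) (nat_lit 146) (nat_lit 3) (nat_lit 5) (nat_lit 7) (nat_lit 0) (nat_lit 10) (nat_lit 8) (by decide +kernel)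
theorem L26031 : W_1 (nat_lit 3) (nat_lit 0x38000800060003a0000000000000000000000) (nat_lit 0x0) (nat_lit 0x4000070000000000004000000000000000000) := T_1 (nat_lit 126) (nat_lit 74) (nat_lit 4) (nat_lit 7) (nat_lit 8) L26030 (by decide +kernel)
theorem L26032 : W_1 (nat_lit 4) (nat_lit 0x30000800060003a0000000000000000000000) (nat_lit 0x0) (nat_lit 0x10004800070000000000004000000000000000000) := T_1 (nat_lit 143) (nat_lit 160) (nat_lit 5) (nat_lit 8) (nat_lit 5) L26031 (by decide +kernel)
theorem L26033 : W_1 (nat_lit 5) (nat_lit 0x3000080006000380000000000000000000000) (nat_lit 0x0) (nat_lit 0x10004800070000000060004000000000000000000) := T_1 (nat_lit 89) (nat_lit 90) (nat_lit 3) (nat_lit 4) (nat_lit 5) L26032 (by decide +kernel)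
theorem L26034 : W_1 (nat_lit 6) (nat_lit 0x1000080006000380000000000000000000000) (nat_lit 0x0) (nat_lit 0x50006800070000000060004000000000000000000) := T_1 (nat_lit 145) (nat_lit 162) (nat_lit 7) (nat_lit 8) (nat_lit 5) L26033 (by decide +kernel)
theorem L26035 : W_1 (nat_lit 2) (nat_lit 0x1000080006000380000000000000000000000) (nat_lit 0x0) (nat_lit 0x8000060000000000000000000000) := D_1 (nat_lit 90) (nat_lit 89) (nat_lit 111) (nat_lit 3) (nat_lit 4) (nat_lit 5) (nat_lit 3) (nat_lit 5) (nat_lit 5) (by decide +kernel)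
theorem L26036 : W_1 (nat_lit 2) (nat_lit 0x3d000c0016000380000000000000000000000) (nat_lit 0x0) (nat_lit 0x4000030000000000000000000000000000000) := D_1 (nat_lit 125) (nat_lit 124) (nat_lit 146) (nat_lit 3) (nat_lit 5) (nat_lit 7) (nat_lit 0) (nat_lit 10) (nat_lit 8) (by decide +kernel)
theorem L26037 : W_1 (nat_lit 3) (nat_lit 0x1d000c0016000380000000000000000000000) (nat_lit 0x0) (nat_lit 0x40006000030000000000000000000000000000000) := T_1 (nat_lit 145) (nat_lit 162) (nat_lit 7) (nat_lit 8) (nat_lit 5) L26036 (by decide +kernel)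
theorem L26038 : W_1 (nat_lit 4) (nat_lit 0x1c000c0016000380000000000000000000000) (nat_lit 0x0) (nat_lit 0x40006300030000000000000000000000000000000) := T_1 (nat_lit 140) (nat_lit 141) (nat_lit 2) (nat_lit 4) (nat_lit 8) L26037 (by decide +kernel)
theorem L26039 : W_1 (nat_lit 5) (nat_lit 0x18000c0016000380000000000000000000000) (nat_lit 0x0) (nat_lit 0x48006700030000000000000000000000000000000) := T_1 (nat_lit 142) (nat_lit 159) (nat_lit 5) (nat_lit 7) (nat_lit 5) L26038 (by decide +kernel)
theorem L26040 : W_1 (nat_lit 6) (nat_lit 0x18000c0006000380000000000000000000000) (nat_lit 0x0) (nat_lit 0x48006700030018000000000000000000000000000) := T_1 (nat_lit 112) (nat_lit 111) (nat_lit 0) (nat_lit 10) (nat_lit 6) L26039 (by decide +kernel)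
theorem L26041 : W_1 (nat_lit 7) (nat_lit 0x1800080006000380000000000000000000000) (nat_lit 0x0) (nat_lit 0x48006700070018000000004000000000000000000) := T_1 (nat_lit 126) (nat_lit 74) (nat_lit 4) (nat_lit 7) (nat_lit 8) L26040 (by decide +kernel)
theorem L26042 : W_1 (nat_lit 8) (nat_lit 0x1000080006000380000000000000000000000) (nat_lit 0x0) (nat_lit 0x58006f00070018000000004000000000000000000) := T_1 (nat_lit 143) (nat_lit 160) (nat_lit 5) (nat_lit 8) (nat_lit 5) L26041 (by decide +kernel)
theorem L26043 : W_1 (nat_lit 9) (nat_lit 0x1000080006000300000000000000000000000) (nat_lit 0x0) (nat_lit 0x58006f000700180000e0004000000000000000000) := Q_1 (nat_lit 91) (C_1 L26034 (C_1 L26035 (C_1 L26042 N_1))) (by decide +kernel)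
theorem L26044 : W_1 (nat_lit 10) (nat_lit 0x1000080006000200000000000000000000000) (nat_lit 0x0) (nat_lit 0x58006f000700180001e000c000000000000000000) := T_1 (nat_lit 92) (nat_lit 75) (nat_lit 4) (nat_lit 8) (nat_lit 8) L26043 (by decide +kernel)
theorem L26045 : W_1 (nat_lit 2) (nat_lit 0x1000080007000600000000000000000000000) (nat_lit 0x0) (nat_lit 0x900008000000000000000000) := D_1 (nat_lit 92) (nat_lit 75) (nat_lit 95) (nat_lit 4) (nat_lit 8) (nat_lit 8) (nat_lit 1) (nat_lit 10) (nat_lit 5) (by decide +kernel)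
theorem L26046 : W_1 (nat_lit 3) (nat_lit 0x1000080006000600000000000000000000000) (nat_lit 0x0) (nat_lit 0x1800900008000000000000000000) := T_1 (nat_lit 108) (nat_lit 107) (nat_lit 2) (nat_lit 5) (nat_lit 6) L26045 (by decide +kernel)
theorem L26047 : W_1 (nat_lit 4) (nat_lit 0x1000080006000200000000000000000000000) (nat_lit 0x0) (nat_lit 0x1800d00028000000000000000000) := T_1 (nat_lit 94) (nat_lit 77) (nat_lit 6) (nat_lit 8) (nat_lit 8) L26046 (by decide +kernel)
theorem L26048 : W_1 (nat_lit 2) (nat_lit 0x38000a000f000600000000000000000000000) (nat_lit 0x0) (nat_lit 0x4000040010000000000000000000000000000) := D_1 (nat_lit 126) (nat_lit 146) (nat_lit 112) (nat_lit 0) (nat_lit 10) (nat_lit 8) (nat_lit 1) (nat_lit 10) (nat_lit 6) (by decide +kernel)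
theorem L26049 : W_1 (nat_lit 3) (nat_lit 0x380008000f000600000000000000000000000) (nat_lit 0x0) (nat_lit 0x4000070010000000000000000000000000000) := T_1 (nat_lit 125) (nat_lit 124) (nat_lit 1) (nat_lit 9) (nat_lit 6) L26048 (by decide +kernel)
theorem L26050 : W_1 (nat_lit 4) (nat_lit 0x3800080007000600000000000000000000000) (nat_lit 0x0) (nat_lit 0x4000070018000800000000000000000000000) := T_1 (nat_lit 111) (nat_lit 95) (nat_lit 2) (nat_lit 6) (nat_lit 6) L26049 (by decide +kernel)
theorem L26051 : W_1 (nat_lit 5) (nat_lit 0x1800080007000600000000000000000000000) (nat_lit 0x0) (nat_lit 0x40006000070018000800000000000000000000000) := T_1 (nat_lit 145) (nat_lit 162) (nat_lit 7) (nat_lit 8) (nat_lit 5) L26050 (by decide +kernel)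
theorem L26052 : W_1 (nat_lit 6) (nat_lit 0x1800080006000600000000000000000000000) (nat_lit 0x0) (nat_lit 0x40006000070019800800000000000000000000000) := T_1 (nat_lit 108) (nat_lit 107) (nat_lit 2) (nat_lit 5) (nat_lit 6) L26051 (by decide +kernel)
theorem L26053 : W_1 (nat_lit 7) (nat_lit 0x1800080006000200000000000000000000000) (nat_lit 0x0) (nat_lit 0x40006000070019800c00020000000000000000000) := T_1 (nat_lit 94) (nat_lit 77) (nat_lit 6) (nat_lit 8) (nat_lit 8) L26052 (by decide +kernel)
theorem L26054 : W_1 (nat_lit 8) (nat_lit 0x1000080006000200000000000000000000000) (nat_lit 0x0) (nat_lit 0x50006800070019800c00020000000000000000000) := T_1 (nat_lit 143) (nat_lit 160) (nat_lit 5) (nat_lit 8) (nat_lit 5) L26053 (by decide +kernel)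
theorem L26055 : W_1 (nat_lit 11) (nat_lit 0x1000080004000200000000000000000000000) (nat_lit 0x0) (nat_lit 0x58006f0007001b800de002c000000000000000000) := Q_1 (nat_lit 109) (C_1 L26044 (C_1 L26047 (C_1 L26054 N_1))) (by decide +kernel)
theorem L26056 : W_1 (nat_lit 12) (nat_lit 0x1000080004000000000000000000000000000) (nat_lit 0x0) (nat_lit 0x58006f0007001b800fe003c001c00080000000000) := Q_1 (nat_lit 93) (C_1 L25215 (C_1 L25205 (C_1 L24835 (C_1 L25195 (C_1 L26055 N_1))))) (by decide +kernel)
theorem L26057 : W_1 (nat_lit 2) (nat_lit 0x60002000100008000c000000000000000000000000000) (nat_lit 0x0) (nat_lit 0x10000800040000000000000000000000000000000000000000) := D_1 (nat_lit 179) (nat_lit 162) (nat_lit 196) (nat_lit 7) (nat_lit 8) (nat_lit 6) (nat_lit 7) (nat_lit 8) (nat_lit 7) (by decide +kernel)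
theorem L26058 : W_1 (nat_lit 3) (nat_lit 0x20002000100008000c000000000000000000000000000) (nat_lit 0x0) (nat_lit 0x14000c00040000000000000000000000000000000000000000) := T_1 (nat_lit 178) (nat_lit 194) (nat_lit 5) (nat_lit 8) (nat_lit 7) L26057 (by decide +kernel)
theorem L26059 : W_1 (nat_lit 4) (nat_lit 0x200020001000080004000000000000000000000000000) (nat_lit 0x0) (nat_lit 0x14000c00040000000000008000400000000000000000000000) := T_1 (nat_lit 111) (nat_lit 94) (nat_lit 6) (nat_lit 8) (nat_lit 9) L26058 (by decide +kernel)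
theorem L26060 : W_1 (nat_lit 5) (nat_lit 0x20001000080004000000000000000000000000000) (nat_lit 0x0) (nat_lit 0x14000e00050000000000008000400000000000000000000000) := T_1 (nat_lit 177) (nat_lit 160) (nat_lit 5) (nat_lit 8) (nat_lit 6) L26059 (by decide +kernel)
theorem L26061 : W_1 (nat_lit 2) (nat_lit 0x200010000e0004000000000000000000000000000) (nat_lit 0x0) (nat_lit 0x10008000400000000000000000000000) := D_1 (nat_lit 111) (nat_lit 94) (nat_lit 124) (nat_lit 6) (nat_lit 8) (nat_lit 9) (nat_lit 2) (nat_lit 5) (nat_lit 7) (by decide +kernel)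
theorem L26062 : W_1 (nat_lit 2) (nat_lit 0x600010000f8004000000000000000000000000000) (nat_lit 0x0) (nat_lit 0x380000000000000000000000000000000000) := D_1 (nat_lit 140) (nat_lit 139) (nat_lit 141) (nat_lit 1) (nat_lit 7) (nat_lit 7) (nat_lit 1) (nat_lit 8) (nat_lit 7) (by decide +kernel)
theorem L26063 : W_1 (nat_lit 3) (nat_lit 0x600010000f0004000000000000000000000000000) (nat_lit 0x0) (nat_lit 0xb80008000000000000000000000000000000) := T_1 (nat_lit 123) (nat_lit 143) (nat_lit 3) (nat_lit 4) (nat_lit 7) L26062 (by decide +kernel)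
theorem L26064 : W_1 (nat_lit 4) (nat_lit 0x600010000e0004000000000000000000000000000) (nat_lit 0x0) (nat_lit 0x2b80018000000000000000000000000000000) := T_1 (nat_lit 124) (nat_lit 145) (nat_lit 3) (nat_lit 5) (nat_lit 7) L26063 (by decide +kernel)
theorem L26065 : W_1 (nat_lit 5) (nat_lit 0x200010000e0004000000000000000000000000000) (nat_lit 0x0) (nat_lit 0x800040002b80018000000000000000000000000000000) := T_1 (nat_lit 162) (nat_lit 179) (nat_lit 7) (nat_lit 8) (nat_lit 6) L26064 (by decide +kernel)
theorem L26066 : W_1 (nat_lit 2) (nat_lit 0x700014000e0004000000000000000000000000000) (nat_lit 0x0) (nat_lit 0x80000a00000000000000000000000000000000000) := D_1 (nat_lit 143) (nat_lit 163) (nat_lit 141) (nat_lit 0) (nat_lit 10) (nat_lit 9) (nat_lit 3) (nat_lit 5) (nat_lit 8) (by decide +kernel)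
theorem L26067 : W_1 (nat_lit 3) (nat_lit 0x600014000e0004000000000000000000000000000) (nat_lit 0x0) (nat_lit 0x200090000a00000000000000000000000000000000000) := T_1 (nat_lit 160) (nat_lit 177) (nat_lit 5) (nat_lit 8) (nat_lit 6) L26066 (by decide +kernel)
theorem L26068 : W_1 (nat_lit 2) (nat_lit 0x60001c000e0004000000000000000000000000000) (nat_lit 0x0) (nat_lit 0x80006000000000000000000000000000000000000) := D_1 (nat_lit 145) (nat_lit 163) (nat_lit 146) (nat_lit 3) (nat_lit 6) (nat_lit 8) (nat_lit 0) (nat_lit 10) (nat_lit 8) (by decide +kernel)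
theorem L26069 : W_1 (nat_lit 3) (nat_lit 0x600014000e0004000000000000000000000000000) (nat_lit 0x0) (nat_lit 0x80006a00000000000000000000000000000000000) := T_1 (nat_lit 143) (nat_lit 141) (nat_lit 3) (nat_lit 5) (nat_lit 8) L26068 (by decide +kernel)
theorem L26070 : W_1 (nat_lit 2) (nat_lit 0x780014000e000c000000000000000000000000000) (nat_lit 0x0) (nat_lit 0x4006000000000000000000000000000000000000) := D_1 (nat_lit 145) (nat_lit 158) (nat_lit 146) (nat_lit 2) (nat_lit 5) (nat_lit 9) (nat_lit 2) (nat_lit 6) (nat_lit 9) (by decide +kernel)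
theorem L26071 : W_1 (nat_lit 3) (nat_lit 0x700014000e000c000000000000000000000000000) (nat_lit 0x0) (nat_lit 0xc006200000000000000000000000000000000000) := T_1 (nat_lit 159) (nat_lit 141) (nat_lit 0) (nat_lit 9) (nat_lit 9) L26070 (by decide +kernel)
theorem L26072 : W_1 (nat_lit 4) (nat_lit 0x600014000e000c000000000000000000000000000) (nat_lit 0x0) (nat_lit 0x20001c006200000000000000000000000000000000000) := T_1 (nat_lit 160) (nat_lit 177) (nat_lit 5) (nat_lit 8) (nat_lit 6) L26071 (by decide +kernel)
theorem L26073 : W_1 (nat_lit 5) (nat_lit 0x600014000e0004000000000000000000000000000) (nat_lit 0x0) (nat_lit 0x20001c006200000008000400000000000000000000000) := T_1 (nat_lit 111) (nat_lit 94) (nat_lit 6) (nat_lit 8) (nat_lit 9) L26072 (by decide +kernel)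
theorem L26074 : W_1 (nat_lit 2) (nat_lit 0x78003c000e0004000080000000000000000000000) (nat_lit 0x0) (nat_lit 0x2000180000000000000000000000000000000000000000000) := D_1 (nat_lit 176) (nat_lit 193) (nat_lit 175) (nat_lit 6) (nat_lit 6) (nat_lit 11) (nat_lit 1) (nat_lit 9) (nat_lit 9) (by decide +kernel)
theorem L26075 : W_1 (nat_lit 3) (nat_lit 0x70003c000e0004000080000000000000000000000) (nat_lit 0x0) (nat_lit 0x200018000c000000000000000000000000000000000000000) := T_1 (nat_lit 159) (nat_lit 158) (nat_lit 2) (nat_lit 5) (nat_lit 9) L26074 (by decide +kernel)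
theorem L26076 : W_1 (nat_lit 4) (nat_lit 0x70003c000e0004000000000000000000000000000) (nat_lit 0x0) (nat_lit 0x200018000c000000000001000080000000000000000000000) := T_1 (nat_lit 91) (nat_lit 108) (nat_lit 7) (nat_lit 6) (nat_lit 5) L26075 (by decide +kernel)
theorem L26077 : W_1 (nat_lit 5) (nat_lit 0x70001c000e0004000000000000000000000000000) (nat_lit 0x0) (nat_lit 0x200018000c006000000001000080000000000000000000000) := T_1 (nat_lit 145) (nat_lit 146) (nat_lit 0) (nat_lit 10) (nat_lit 8) L26076 (by decide +kernel)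
theorem L26078 : W_1 (nat_lit 6) (nat_lit 0x700014000e0004000000000000000000000000000) (nat_lit 0x0) (nat_lit 0x200018008c006800000001000080000000000000000000000) := T_1 (nat_lit 143) (nat_lit 163) (nat_lit 0) (nat_lit 10) (nat_lit 9) L26077 (by decide +kernel)
theorem L26079 : W_1 (nat_lit 7) (nat_lit 0x600014000e0004000000000000000000000000000) (nat_lit 0x0) (nat_lit 0x200038009c006800000001000080000000000000000000000) := T_1 (nat_lit 160) (nat_lit 177) (nat_lit 5) (nat_lit 8) (nat_lit 6) L26078 (by decide +kernel)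
theorem L26080 : W_1 (nat_lit 8) (nat_lit 0x600010000e0004000000000000000000000000000) (nat_lit 0x0) (nat_lit 0x200038009c006e00000009000480000000000000000000000) := Q_1 (nat_lit 142) (C_1 L26067 (C_1 L26069 (C_1 L26073 (C_1 L26079 N_1)))) (by decide +kernel)
theorem L26081 : W_1 (nat_lit 9) (nat_lit 0x200010000e0004000000000000000000000000000) (nat_lit 0x0) (nat_lit 0x2000b800dc006e00000009000480000000000000000000000) := T_1 (nat_lit 162) (nat_lit 179) (nat_lit 7) (nat_lit 8) (nat_lit 6) L26080 (by decide +kernel)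
theorem L26082 : W_1 (nat_lit 10) (nat_lit 0x200010000c0004000000000000000000000000000) (nat_lit 0x0) (nat_lit 0x2000b800dc006f80038009000480000000000000000000000) := Q_1 (nat_lit 125) (C_1 L26061 (C_1 L26065 (C_1 L26081 N_1))) (by decide +kernel)
theorem L26083 : W_1 (nat_lit 2) (nat_lit 0x600010000c000f800000000000000000000000000) (nat_lit 0x0) (nat_lit 0xe0000000000000000000000) := D_1 (nat_lit 90) (nat_lit 91) (nat_lit 89) (nat_lit 0) (nat_lit 9) (nat_lit 6) (nat_lit 0) (nat_lit 8) (nat_lit 6) (by decide +kernel)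
theorem L26084 : W_1 (nat_lit 3) (nat_lit 0x600010000c000f000000000000000000000000000) (nat_lit 0x0) (nat_lit 0xc000e0000000000000000000000) := T_1 (nat_lit 107) (nat_lit 106) (nat_lit 3) (nat_lit 4) (nat_lit 6) L26083 (by decide +kernel)
theorem L26085 : W_1 (nat_lit 4) (nat_lit 0x600010000c000d000000000000000000000000000) (nat_lit 0x0) (nat_lit 0x2c001e0000000000000000000000) := T_1 (nat_lit 109) (nat_lit 92) (nat_lit 4) (nat_lit 8) (nat_lit 9) L26084 (by decide +kernel)
theorem L26086 : W_1 (nat_lit 5) (nat_lit 0x200010000c000d000000000000000000000000000) (nat_lit 0x0) (nat_lit 0x800040000000000002c001e0000000000000000000000) := T_1 (nat_lit 162) (nat_lit 179) (nat_lit 7) (nat_lit 8) (nat_lit 6) L26085 (by decide +kernel)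
theorem L26087 : W_1 (nat_lit 6) (nat_lit 0x200010000c0005000000000000000000000000000) (nat_lit 0x0) (nat_lit 0x80004000000000000ac005e0000000000000000000000) := T_1 (nat_lit 111) (nat_lit 94) (nat_lit 6) (nat_lit 8) (nat_lit 9) L26086 (by decide +kernel)
theorem L26088 : W_1 (nat_lit 2) (nat_lit 0x200010000c000f400080000000000000000000000) (nat_lit 0x0) (nat_lit 0x200010000800000000000000000000000000000000000) := D_1 (nat_lit 160) (nat_lit 177) (nat_lit 143) (nat_lit 5) (nat_lit 8) (nat_lit 6) (nat_lit 4) (nat_lit 7) (nat_lit 9) (by decide +kernel)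
theorem L26089 : W_1 (nat_lit 3) (nat_lit 0x200010000c000f400000000000000000000000000) (nat_lit 0x0) (nat_lit 0x2000100008000000000000c0000000000000000000000) := T_1 (nat_lit 91) (nat_lit 90) (nat_lit 0) (nat_lit 9) (nat_lit 6) L26088 (by decide +kernel)
theorem L26090 : W_1 (nat_lit 4) (nat_lit 0x200010000c0007400000000000000000000000000) (nat_lit 0x0) (nat_lit 0x2000100008000000080004c0000000000000000000000) := T_1 (nat_lit 111) (nat_lit 94) (nat_lit 6) (nat_lit 8) (nat_lit 9) L26089 (by decide +kernel)
theorem L26091 : W_1 (nat_lit 5) (nat_lit 0x200010000c0007000000000000000000000000000) (nat_lit 0x0) (nat_lit 0x200010000800000008c004c0000000000000000000000) := T_1 (nat_lit 106) (nat_lit 107) (nat_lit 3) (nat_lit 4) (nat_lit 6) L26090 (by decide +kernel)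
theorem L26092 : W_1 (nat_lit 6) (nat_lit 0x200010000c0005000000000000000000000000000) (nat_lit 0x0) (nat_lit 0x20001000080000000ac005c0000000000000000000000) := T_1 (nat_lit 109) (nat_lit 92) (nat_lit 4) (nat_lit 8) (nat_lit 9) L26091 (by decide +kernel)
theorem L26093 : W_1 (nat_lit 2) (nat_lit 0x780010000c0005000000000000000000000000000) (nat_lit 0x0) (nat_lit 0x4006000000000000000000000000000000000000) := D_1 (nat_lit 145) (nat_lit 146) (nat_lit 158) (nat_lit 2) (nat_lit 6) (nat_lit 9) (nat_lit 2) (nat_lit 5) (nat_lit 9) (by decide +kernel)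
theorem L26094 : W_1 (nat_lit 3) (nat_lit 0x380010000c0005000000000000000000000000000) (nat_lit 0x0) (nat_lit 0x800044006000000000000000000000000000000000000) := T_1 (nat_lit 162) (nat_lit 179) (nat_lit 7) (nat_lit 8) (nat_lit 6) L26093 (by decide +kernel)
theorem L26095 : W_1 (nat_lit 2) (nat_lit 0x3e0010000c0005000000000000000000000000000) (nat_lit 0x0) (nat_lit 0xe0000000000000000000000000000000000000000000) := D_1 (nat_lit 174) (nat_lit 173) (nat_lit 175) (nat_lit 1) (nat_lit 7) (nat_lit 9) (nat_lit 1) (nat_lit 8) (nat_lit 9) (by decide +kernel)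
theorem L26096 : W_1 (nat_lit 3) (nat_lit 0x3c0010000c0005000000000000000000000000000) (nat_lit 0x0) (nat_lit 0xe0002000800000000000000000000000000000000000) := T_1 (nat_lit 157) (nat_lit 143) (nat_lit 2) (nat_lit 4) (nat_lit 9) L26095 (by decide +kernel)
theorem L26097 : W_1 (nat_lit 4) (nat_lit 0x380010000c0005000000000000000000000000000) (nat_lit 0x0) (nat_lit 0xe0006002800000000000000000000000000000000000) := T_1 (nat_lit 158) (nat_lit 145) (nat_lit 2) (nat_lit 5) (nat_lit 9) L26096 (by decide +kernel)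
theorem L26098 : W_1 (nat_lit 2) (nat_lit 0x1000780034000c000d000000000000000000000000000) (nat_lit 0x0) (nat_lit 0x2000000080000800000000000000000000000000000000000) := D_1 (nat_lit 143) (nat_lit 163) (nat_lit 193) (nat_lit 3) (nat_lit 6) (nat_lit 8) (nat_lit 6) (nat_lit 6) (nat_lit 11) (by decide +kernel)
theorem L26099 : W_1 (nat_lit 3) (nat_lit 0x1000780030000c000d000000000000000000000000000) (nat_lit 0x0) (nat_lit 0x2000000080000e00000000000000000000000000000000000) := T_1 (nat_lit 142) (nat_lit 141) (nat_lit 0) (nat_lit 9) (nat_lit 9) L26098 (by decide +kernel)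
theorem L26100 : W_1 (nat_lit 4) (nat_lit 0x780030000c000d000000000000000000000000000) (nat_lit 0x0) (nat_lit 0x2000180080000e00000000000000000000000000000000000) := T_1 (nat_lit 176) (nat_lit 175) (nat_lit 1) (nat_lit 9) (nat_lit 9) L26099 (by decide +kernel)
theorem L26101 : W_1 (nat_lit 5) (nat_lit 0x780010000c000d000000000000000000000000000) (nat_lit 0x0) (nat_lit 0x2000180080006e00000000000000000000000000000000000) := T_1 (nat_lit 145) (nat_lit 146) (nat_lit 2) (nat_lit 6) (nat_lit 9) L26100 (by decide +kernel)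
theorem L26102 : W_1 (nat_lit 6) (nat_lit 0x380010000c000d000000000000000000000000000) (nat_lit 0x0) (nat_lit 0x20009800c0006e00000000000000000000000000000000000) := T_1 (nat_lit 162) (nat_lit 179) (nat_lit 7) (nat_lit 8) (nat_lit 6) L26101 (by decide +kernel)
theorem L26103 : W_1 (nat_lit 7) (nat_lit 0x380010000c0005000000000000000000000000000) (nat_lit 0x0) (nat_lit 0x20009800c0006e00000008000400000000000000000000000) := T_1 (nat_lit 111) (nat_lit 94) (nat_lit 6) (nat_lit 8) (nat_lit 9) L26102 (by decide +kernel)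
theorem L26104 : W_1 (nat_lit 2) (nat_lit 0x1000780014000c0005000000000000000000000000000) (nat_lit 0x0) (nat_lit 0x2000000080000800000000000000000000000000000000000) := D_1 (nat_lit 143) (nat_lit 163) (nat_lit 193) (nat_lit 0) (nat_lit 10) (nat_lit 9) (nat_lit 6) (nat_lit 6) (nat_lit 11) (by decide +kernel)
theorem L26105 : W_1 (nat_lit 3) (nat_lit 0x1000780010000c0005000000000000000000000000000) (nat_lit 0x0) (nat_lit 0x2000000080000e00000000000000000000000000000000000) := T_1 (nat_lit 142) (nat_lit 141) (nat_lit 0) (nat_lit 9) (nat_lit 9) L26104 (by decide +kernel)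
theorem L26106 : W_1 (nat_lit 4) (nat_lit 0x780010000c0005000000000000000000000000000) (nat_lit 0x0) (nat_lit 0x2000180080000e00000000000000000000000000000000000) := T_1 (nat_lit 176) (nat_lit 175) (nat_lit 1) (nat_lit 9) (nat_lit 9) L26105 (by decide +kernel)
theorem L26107 : W_1 (nat_lit 5) (nat_lit 0x380010000c0005000000000000000000000000000) (nat_lit 0x0) (nat_lit 0x20009800c0000e00000000000000000000000000000000000) := T_1 (nat_lit 162) (nat_lit 179) (nat_lit 7) (nat_lit 8) (nat_lit 6) L26106 (by decide +kernel)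
theorem L26108 : W_1 (nat_lit 8) (nat_lit 0x300010000c0005000000000000000000000000000) (nat_lit 0x0) (nat_lit 0x20009e00ce006e00000008000400000000000000000000000) := Q_1 (nat_lit 159) (C_1 L26094 (C_1 L26097 (C_1 L26103 (C_1 L26107 N_1)))) (by decide +kernel)
theorem L26109 : W_1 (nat_lit 9) (nat_lit 0x200010000c0005000000000000000000000000000) (nat_lit 0x0) (nat_lit 0x2000be00de006e00000008000400000000000000000000000) := T_1 (nat_lit 160) (nat_lit 177) (nat_lit 5) (nat_lit 8) (nat_lit 6) L26108 (by decide +kernel)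
theorem L26110 : W_1 (nat_lit 6) (nat_lit 0x200010000c0005000000000000000000000000000) (nat_lit 0x0) (nat_lit 0xa000d0000e00000002000180000000000000000000000) := T_1 (nat_lit 109) (nat_lit 92) (nat_lit 4) (nat_lit 8) (nat_lit 9) L25011 (by decide +kernel)
theorem L26111 : W_1 (nat_lit 10) (nat_lit 0x200010000c0004000000000000000000000000000) (nat_lit 0x0) (nat_lit 0x2000be00de006e0000000bc005e0000000000000000000000) := Q_1 (nat_lit 108) (C_1 L26087 (C_1 L26092 (C_1 L26109 (C_1 L26110 N_1)))) (by decide +kernel)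
theorem L26112 : W_1 (nat_lit 2) (nat_lit 0x700018000c0004000100000000000000000000000) (nat_lit 0x0) (nat_lit 0x80000600000000000000000000000000000000000) := D_1 (nat_lit 142) (nat_lit 141) (nat_lit 163) (nat_lit 3) (nat_lit 5) (nat_lit 8) (nat_lit 0) (nat_lit 10) (nat_lit 9) (by decide +kernel)
theorem L26113 : W_1 (nat_lit 3) (nat_lit 0x300018000c0004000100000000000000000000000) (nat_lit 0x0) (nat_lit 0x8000c0000600000000000000000000000000000000000) := T_1 (nat_lit 162) (nat_lit 179) (nat_lit 7) (nat_lit 8) (nat_lit 6) L26112 (by decide +kernel)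
theorem L26114 : W_1 (nat_lit 4) (nat_lit 0x300018000c0004000000000000000000000000000) (nat_lit 0x0) (nat_lit 0x8000c0000600000002000100000000000000000000000) := T_1 (nat_lit 92) (nat_lit 109) (nat_lit 7) (nat_lit 7) (nat_lit 5) L26113 (by decide +kernel)
theorem L26115 : W_1 (nat_lit 5) (nat_lit 0x200018000c0004000000000000000000000000000) (nat_lit 0x0) (nat_lit 0xa000d0000600000002000100000000000000000000000) := T_1 (nat_lit 160) (nat_lit 177) (nat_lit 6) (nat_lit 7) (nat_lit 10) L26114 (by decide +kernel)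
theorem L26116 : W_1 (nat_lit 7) (nat_lit 0x200010000c0004000000000000000000000000000) (nat_lit 0x0) (nat_lit 0xb000de006e00030002000100000000000000000000000) := Q_1 (nat_lit 143) (C_1 L25036 (C_1 L25170 (C_1 L25031 (C_1 L26115 N_1)))) (by decide +kernel)
theorem L26117 : W_1 (nat_lit 11) (nat_lit 0x20001000080004000000000000000000000000000) (nat_lit 0x0) (nat_lit 0x2000be00de006f8007801bc005e0000000000000000000000) := Q_1 (nat_lit 126) (C_1 L25104 (C_1 L26082 (C_1 L26111 (C_1 L26116 N_1)))) (by decide +kernel)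
theorem L26118 : W_1 (nat_lit 12) (nat_lit 0x1000080004000000000000000000000000000) (nat_lit 0x0) (nat_lit 0x400030001e000fe00fe006f8007801bc005e0000000000000000000000) := Q_1 (nat_lit 161) (C_1 L24775 (C_1 L25231 (C_1 L25048 (C_1 L26060 (C_1 L26117 N_1))))) (by decide +kernel)
theorem L26119 : W_1 (nat_lit 13) (nat_lit 0x1000080000000000000000000000000000000) (nat_lit 0x0) (nat_lit 0x400030001e000fe00fe006f8007801fc00fe003c001c000c0000000000) := Q_1 (nat_lit 110) (C_1 L24842 (C_1 L25187 (C_1 L25196 (C_1 L25212 (C_1 L25216 (C_1 L25217 (C_1 L25221 (C_1 L25232 (C_1 L26056 (C_1 L26118 N_1)))))))))) (by decide +kernel)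
theorem L26120 : W_1 (nat_lit 5) (nat_lit 0x1000080004000000000000000000000000000) (nat_lit 0x0) (nat_lit 0x800070002800140008000600030001000000000000000) := Q_1 (nat_lit 93) (C_1 L25208 (C_1 L24835 (C_1 L24930 N_1))) (by decide +kernel)
theorem L26121 : W_1 (nat_lit 2) (nat_lit 0x80002000100008000c000000000000000000000000000) (nat_lit 0x0) (nat_lit 0x10000400000000000100000000000000000000000000000000) := D_1 (nat_lit 178) (nat_lit 196) (nat_lit 128) (nat_lit 7) (nat_lit 8) (nat_lit 7) (nat_lit 6) (nat_lit 8) (nat_lit 10) (by decide +kernel)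
theorem L26122 : W_1 (nat_lit 3) (nat_lit 0x800020001000080004000000000000000000000000000) (nat_lit 0x0) (nat_lit 0x10000400000000000100008000400000000000000000000000) := T_1 (nat_lit 111) (nat_lit 94) (nat_lit 6) (nat_lit 8) (nat_lit 9) L26121 (by decide +kernel)
theorem L26123 : W_1 (nat_lit 4) (nat_lit 0x20001000080004000000000000000000000000000) (nat_lit 0x0) (nat_lit 0x10000c00040000000100008000400000000000000000000000) := T_1 (nat_lit 179) (nat_lit 162) (nat_lit 7) (nat_lit 8) (nat_lit 6) L26122 (by decide +kernel)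
theorem L26124 : W_1 (nat_lit 2) (nat_lit 0x800020001000080006000000000000000000000000000) (nat_lit 0x0) (nat_lit 0x10000400000000000040000000000000000000000000000000) := D_1 (nat_lit 178) (nat_lit 196) (nat_lit 126) (nat_lit 7) (nat_lit 8) (nat_lit 7) (nat_lit 4) (nat_lit 8) (nat_lit 10) (by decide +kernel)
theorem L26125 : W_1 (nat_lit 3) (nat_lit 0x800020001000080004000000000000000000000000000) (nat_lit 0x0) (nat_lit 0x10000400000000000040002000100000000000000000000000) := T_1 (nat_lit 109) (nat_lit 92) (nat_lit 4) (nat_lit 8) (nat_lit 9) L26124 (by decide +kernel)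
theorem L26126 : W_1 (nat_lit 4) (nat_lit 0x20001000080004000000000000000000000000000) (nat_lit 0x0) (nat_lit 0x10000c00040000000040002000100000000000000000000000) := T_1 (nat_lit 179) (nat_lit 162) (nat_lit 7) (nat_lit 8) (nat_lit 6) L26125 (by decide +kernel)
theorem L26127 : W_1 (nat_lit 6) (nat_lit 0x600010000a000c000000000000000000000000000) (nat_lit 0x0) (nat_lit 0x80006e00350010000000000000000000000000000) := T_1 (nat_lit 126) (nat_lit 124) (nat_lit 2) (nat_lit 5) (nat_lit 7) L24998 (by decide +kernel)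
theorem L26128 : W_1 (nat_lit 7) (nat_lit 0x600010000a0004000000000000000000000000000) (nat_lit 0x0) (nat_lit 0x80006e00350018000400000000000000000000000) := T_1 (nat_lit 111) (nat_lit 94) (nat_lit 6) (nat_lit 8) (nat_lit 9) L26127 (by decide +kernel)
theorem L26129 : W_1 (nat_lit 8) (nat_lit 0x200010000a0004000000000000000000000000000) (nat_lit 0x0) (nat_lit 0x8000c0006e00350018000400000000000000000000000) := T_1 (nat_lit 162) (nat_lit 179) (nat_lit 7) (nat_lit 8) (nat_lit 6) L26128 (by decide +kernel)
theorem L26130 : W_1 (nat_lit 2) (nat_lit 0x600010000a000e000000000000000000000000000) (nat_lit 0x0) (nat_lit 0x50001000000000000000000000000000) := D_1 (nat_lit 124) (nat_lit 126) (nat_lit 108) (nat_lit 2) (nat_lit 5) (nat_lit 7) (nat_lit 1) (nat_lit 9) (nat_lit 6) (by decide +kernel)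
theorem L26131 : W_1 (nat_lit 3) (nat_lit 0x600010000a0006000000000000000000000000000) (nat_lit 0x0) (nat_lit 0x50009000400000000000000000000000) := T_1 (nat_lit 111) (nat_lit 94) (nat_lit 6) (nat_lit 8) (nat_lit 9) L26130 (by decide +kernel)
theorem L26132 : W_1 (nat_lit 4) (nat_lit 0x200010000a0006000000000000000000000000000) (nat_lit 0x0) (nat_lit 0x800040000000050009000400000000000000000000000) := T_1 (nat_lit 162) (nat_lit 179) (nat_lit 7) (nat_lit 8) (nat_lit 6) L26131 (by decide +kernel)
theorem L26133 : W_1 (nat_lit 5) (nat_lit 0x200010000a0004000000000000000000000000000) (nat_lit 0x0) (nat_lit 0x80004000000005000b000500000000000000000000000) := T_1 (nat_lit 109) (nat_lit 92) (nat_lit 4) (nat_lit 8) (nat_lit 9) L26132 (by decide +kernel)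
theorem L26134 : W_1 (nat_lit 2) (nat_lit 0x200010000b000c000000000000000000000000000) (nat_lit 0x0) (nat_lit 0x3000100000000000000000000000) := D_1 (nat_lit 109) (nat_lit 108) (nat_lit 92) (nat_lit 1) (nat_lit 9) (nat_lit 6) (nat_lit 4) (nat_lit 8) (nat_lit 9) (by decide +kernel)
theorem L26135 : W_1 (nat_lit 3) (nat_lit 0x200010000a000c000000000000000000000000000) (nat_lit 0x0) (nat_lit 0x50003000100000000000000000000000) := T_1 (nat_lit 124) (nat_lit 126) (nat_lit 2) (nat_lit 5) (nat_lit 7) L26134 (by decide +kernel)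
theorem L26136 : W_1 (nat_lit 4) (nat_lit 0x200010000a0004000000000000000000000000000) (nat_lit 0x0) (nat_lit 0x5000b000500000000000000000000000) := T_1 (nat_lit 111) (nat_lit 94) (nat_lit 6) (nat_lit 8) (nat_lit 9) L26135 (by decide +kernel)
theorem L26137 : W_1 (nat_lit 2) (nat_lit 0x600010000a000f000000000000000000000000000) (nat_lit 0x0) (nat_lit 0x300000800000000000000000000000000) := D_1 (nat_lit 128) (nat_lit 107) (nat_lit 129) (nat_lit 3) (nat_lit 5) (nat_lit 6) (nat_lit 3) (nat_lit 6) (nat_lit 6) (by decide +kernel)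
theorem L26138 : W_1 (nat_lit 3) (nat_lit 0x600010000a000e000000000000000000000000000) (nat_lit 0x0) (nat_lit 0x310001800000000000000000000000000) := T_1 (nat_lit 108) (nat_lit 124) (nat_lit 1) (nat_lit 9) (nat_lit 6) L26137 (by decide +kernel)
theorem L26139 : W_1 (nat_lit 4) (nat_lit 0x600010000a0006000000000000000000000000000) (nat_lit 0x0) (nat_lit 0x310009800400000000000000000000000) := T_1 (nat_lit 111) (nat_lit 94) (nat_lit 6) (nat_lit 8) (nat_lit 9) L26138 (by decide +kernel)
theorem L26140 : W_1 (nat_lit 5) (nat_lit 0x200010000a0006000000000000000000000000000) (nat_lit 0x0) (nat_lit 0x800040000000310009800400000000000000000000000) := T_1 (nat_lit 162) (nat_lit 179) (nat_lit 7) (nat_lit 8) (nat_lit 6) L26139 (by decide +kernel)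
theorem L26141 : W_1 (nat_lit 6) (nat_lit 0x200010000a0004000000000000000000000000000) (nat_lit 0x0) (nat_lit 0x80004000000031000b800500000000000000000000000) := T_1 (nat_lit 109) (nat_lit 92) (nat_lit 4) (nat_lit 8) (nat_lit 9) L26140 (by decide +kernel)
theorem L26142 : W_1 (nat_lit 2) (nat_lit 0x200010000e0006000000000000000000000000000) (nat_lit 0x0) (nat_lit 0x2000018000000000000000000000000000000) := D_1 (nat_lit 124) (nat_lit 123) (nat_lit 145) (nat_lit 2) (nat_lit 4) (nat_lit 7) (nat_lit 3) (nat_lit 5) (nat_lit 7) (by decide +kernel)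
theorem L26143 : W_1 (nat_lit 3) (nat_lit 0x200010000e0004000000000000000000000000000) (nat_lit 0x0) (nat_lit 0x2000018002000100000000000000000000000) := T_1 (nat_lit 109) (nat_lit 92) (nat_lit 4) (nat_lit 8) (nat_lit 9) L26142 (by decide +kernel)
theorem L26144 : W_1 (nat_lit 2) (nat_lit 0x600012000f0006800000000000000000000000000) (nat_lit 0x0) (nat_lit 0x400100001000000000000000000000000000) := D_1 (nat_lit 128) (nat_lit 108) (nat_lit 142) (nat_lit 3) (nat_lit 5) (nat_lit 6) (nat_lit 1) (nat_lit 9) (nat_lit 7) (by decide +kernel)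
theorem L26145 : W_1 (nat_lit 3) (nat_lit 0x600010000f0006800000000000000000000000000) (nat_lit 0x0) (nat_lit 0x700100001000000000000000000000000000) := T_1 (nat_lit 141) (nat_lit 140) (nat_lit 1) (nat_lit 8) (nat_lit 7) L26144 (by decide +kernel)
theorem L26146 : W_1 (nat_lit 4) (nat_lit 0x600010000f0006000000000000000000000000000) (nat_lit 0x0) (nat_lit 0x700100001c00000000000000000000000000) := T_1 (nat_lit 107) (nat_lit 106) (nat_lit 0) (nat_lit 8) (nat_lit 7) L26145 (by decide +kernel)
theorem L26147 : W_1 (nat_lit 5) (nat_lit 0x200010000f0006000000000000000000000000000) (nat_lit 0x0) (nat_lit 0x800040000700100001c00000000000000000000000000) := T_1 (nat_lit 162) (nat_lit 179) (nat_lit 7) (nat_lit 8) (nat_lit 6) L26146 (by decide +kernel)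
theorem L26148 : W_1 (nat_lit 6) (nat_lit 0x200010000e0006000000000000000000000000000) (nat_lit 0x0) (nat_lit 0x800040000700118001c00000000000000000000000000) := T_1 (nat_lit 124) (nat_lit 123) (nat_lit 2) (nat_lit 4) (nat_lit 7) L26147 (by decide +kernel)
theorem L26149 : W_1 (nat_lit 7) (nat_lit 0x200010000e0004000000000000000000000000000) (nat_lit 0x0) (nat_lit 0x800040000700118003c00100000000000000000000000) := T_1 (nat_lit 109) (nat_lit 92) (nat_lit 4) (nat_lit 8) (nat_lit 9) L26148 (by decide +kernel)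
theorem L26150 : W_1 (nat_lit 2) (nat_lit 0x600014001e0005000000000000000000000000000) (nat_lit 0x0) (nat_lit 0x800200002000000000000000000000000000) := D_1 (nat_lit 129) (nat_lit 143) (nat_lit 109) (nat_lit 1) (nat_lit 10) (nat_lit 7) (nat_lit 0) (nat_lit 10) (nat_lit 7) (by decide +kernel)
theorem L26151 : W_1 (nat_lit 3) (nat_lit 0x600014001e0004000000000000000000000000000) (nat_lit 0x0) (nat_lit 0x800200003800000000000000000000000000) := T_1 (nat_lit 108) (nat_lit 107) (nat_lit 0) (nat_lit 9) (nat_lit 7) L26150 (by decide +kernel)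
theorem L26152 : W_1 (nat_lit 4) (nat_lit 0x600010001e0004000000000000000000000000000) (nat_lit 0x0) (nat_lit 0xe00200003800000000000000000000000000) := T_1 (nat_lit 142) (nat_lit 141) (nat_lit 1) (nat_lit 9) (nat_lit 7) L26151 (by decide +kernel)
theorem L26153 : W_1 (nat_lit 5) (nat_lit 0x200010001e0004000000000000000000000000000) (nat_lit 0x0) (nat_lit 0x800040000e00200003800000000000000000000000000) := T_1 (nat_lit 162) (nat_lit 179) (nat_lit 7) (nat_lit 8) (nat_lit 6) L26152 (by decide +kernel)
theorem L26154 : W_1 (nat_lit 2) (nat_lit 0x200014001e0006000000000000000000000000000) (nat_lit 0x0) (nat_lit 0x200001800000000000000000000000000) := D_1 (nat_lit 108) (nat_lit 107) (nat_lit 129) (nat_lit 3) (nat_lit 5) (nat_lit 6) (nat_lit 0) (nat_lit 10) (nat_lit 7) (by decide +kernel)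
theorem L26155 : W_1 (nat_lit 3) (nat_lit 0x200014001e0004000000000000000000000000000) (nat_lit 0x0) (nat_lit 0x200003800100000000000000000000000) := T_1 (nat_lit 109) (nat_lit 92) (nat_lit 4) (nat_lit 8) (nat_lit 9) L26154 (by decide +kernel)
theorem L26156 : W_1 (nat_lit 4) (nat_lit 0x200010001e0004000000000000000000000000000) (nat_lit 0x0) (nat_lit 0x600200003800100000000000000000000000) := T_1 (nat_lit 142) (nat_lit 141) (nat_lit 1) (nat_lit 9) (nat_lit 7) L26155 (by decide +kernel)
theorem L26157 : W_1 (nat_lit 2) (nat_lit 0x60001c001e0005000000000000000000000000000) (nat_lit 0x0) (nat_lit 0x80006000000000000000000000000000000000000) := D_1 (nat_lit 145) (nat_lit 146) (nat_lit 163) (nat_lit 3) (nat_lit 6) (nat_lit 7) (nat_lit 3) (nat_lit 6) (nat_lit 8) (by decide +kernel)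
theorem L26158 : W_1 (nat_lit 3) (nat_lit 0x600014001e0005000000000000000000000000000) (nat_lit 0x0) (nat_lit 0x80006800200000000000000000000000000000000) := T_1 (nat_lit 143) (nat_lit 129) (nat_lit 1) (nat_lit 10) (nat_lit 7) L26157 (by decide +kernel)
theorem L26159 : W_1 (nat_lit 4) (nat_lit 0x600014001e0004000000000000000000000000000) (nat_lit 0x0) (nat_lit 0x80006800200001800000000000000000000000000) := T_1 (nat_lit 108) (nat_lit 107) (nat_lit 0) (nat_lit 9) (nat_lit 7) L26158 (by decide +kernel)
theorem L26160 : W_1 (nat_lit 5) (nat_lit 0x600010001e0004000000000000000000000000000) (nat_lit 0x0) (nat_lit 0x80006e00200001800000000000000000000000000) := T_1 (nat_lit 142) (nat_lit 141) (nat_lit 1) (nat_lit 9) (nat_lit 7) L26159 (by decide +kernel)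
theorem L26161 : W_1 (nat_lit 6) (nat_lit 0x200010001e0004000000000000000000000000000) (nat_lit 0x0) (nat_lit 0x8000c0006e00200001800000000000000000000000000) := T_1 (nat_lit 162) (nat_lit 179) (nat_lit 7) (nat_lit 8) (nat_lit 6) L26160 (by decide +kernel)
theorem L26162 : W_1 (nat_lit 2) (nat_lit 0x800020003c001e0006000000000000000000000000000) (nat_lit 0x0) (nat_lit 0x10000c000000000000000000000000000000000000000) := D_1 (nat_lit 159) (nat_lit 176) (nat_lit 158) (nat_lit 6) (nat_lit 6) (nat_lit 10) (nat_lit 1) (nat_lit 9) (nat_lit 8) (by decide +kernel)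
theorem L26163 : W_1 (nat_lit 3) (nat_lit 0x8000200034001e0006000000000000000000000000000) (nat_lit 0x0) (nat_lit 0x10000c000800200000000000000000000000000000000) := T_1 (nat_lit 143) (nat_lit 129) (nat_lit 2) (nat_lit 6) (nat_lit 8) L26162 (by decide +kernel)
theorem L26164 : W_1 (nat_lit 4) (nat_lit 0x8000200030001e0006000000000000000000000000000) (nat_lit 0x0) (nat_lit 0x10000c000e00200000000000000000000000000000000) := T_1 (nat_lit 142) (nat_lit 141) (nat_lit 1) (nat_lit 9) (nat_lit 7) L26163 (by decide +kernel)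
theorem L26165 : W_1 (nat_lit 5) (nat_lit 0x8000200030001e0004000000000000000000000000000) (nat_lit 0x0) (nat_lit 0x10000c000e00200002000100000000000000000000000) := T_1 (nat_lit 109) (nat_lit 92) (nat_lit 4) (nat_lit 8) (nat_lit 9) L26164 (by decide +kernel)
theorem L26166 : W_1 (nat_lit 6) (nat_lit 0x200030001e0004000000000000000000000000000) (nat_lit 0x0) (nat_lit 0x90004c000e00200002000100000000000000000000000) := T_1 (nat_lit 179) (nat_lit 162) (nat_lit 7) (nat_lit 8) (nat_lit 6) L26165 (by decide +kernel)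
theorem L26167 : W_1 (nat_lit 7) (nat_lit 0x200010001e0004000000000000000000000000000) (nat_lit 0x0) (nat_lit 0x90004c006e00200002000100000000000000000000000) := T_1 (nat_lit 145) (nat_lit 146) (nat_lit 3) (nat_lit 6) (nat_lit 7) L26166 (by decide +kernel)
theorem L26168 : W_1 (nat_lit 2) (nat_lit 0x200010001e0005000000000000000000000000000) (nat_lit 0x0) (nat_lit 0x200002000100000000000000000000000) := D_1 (nat_lit 109) (nat_lit 92) (nat_lit 129) (nat_lit 4) (nat_lit 8) (nat_lit 9) (nat_lit 0) (nat_lit 10) (nat_lit 7) (by decide +kernel)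
theorem L26169 : W_1 (nat_lit 3) (nat_lit 0x200010001e0004000000000000000000000000000) (nat_lit 0x0) (nat_lit 0x200003800100000000000000000000000) := T_1 (nat_lit 108) (nat_lit 107) (nat_lit 0) (nat_lit 9) (nat_lit 7) L26168 (by decide +kernel)
theorem L26170 : W_1 (nat_lit 2) (nat_lit 0x60003c001e0005000000000000000000000000000) (nat_lit 0x0) (nat_lit 0x10000000000000000080004000000000000000000) := D_1 (nat_lit 91) (nat_lit 74) (nat_lit 160) (nat_lit 7) (nat_lit 6) (nat_lit 4) (nat_lit 7) (nat_lit 6) (nat_lit 5) (by decide +kernel)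
theorem L26171 : W_1 (nat_lit 3) (nat_lit 0x600034001e0005000000000000000000000000000) (nat_lit 0x0) (nat_lit 0x90000800000000000080004000000000000000000) := T_1 (nat_lit 143) (nat_lit 163) (nat_lit 3) (nat_lit 6) (nat_lit 8) L26170 (by decide +kernel)
theorem L26172 : W_1 (nat_lit 4) (nat_lit 0x600014001e0005000000000000000000000000000) (nat_lit 0x0) (nat_lit 0x90006800000000000080004000000000000000000) := T_1 (nat_lit 145) (nat_lit 146) (nat_lit 3) (nat_lit 6) (nat_lit 7) L26171 (by decide +kernel)
theorem L26173 : W_1 (nat_lit 5) (nat_lit 0x600014001e0004000000000000000000000000000) (nat_lit 0x0) (nat_lit 0x90006800000001800080004000000000000000000) := T_1 (nat_lit 108) (nat_lit 107) (nat_lit 0) (nat_lit 9) (nat_lit 7) L26172 (by decide +kernel)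
theorem L26174 : W_1 (nat_lit 6) (nat_lit 0x600010001e0004000000000000000000000000000) (nat_lit 0x0) (nat_lit 0x90006e00000001800080004000000000000000000) := T_1 (nat_lit 142) (nat_lit 141) (nat_lit 1) (nat_lit 9) (nat_lit 7) L26173 (by decide +kernel)
theorem L26175 : W_1 (nat_lit 7) (nat_lit 0x200010001e0004000000000000000000000000000) (nat_lit 0x0) (nat_lit 0x8000d0006e00000001800080004000000000000000000) := T_1 (nat_lit 162) (nat_lit 179) (nat_lit 7) (nat_lit 8) (nat_lit 6) L26174 (by decide +kernel)
theorem L26176 : W_1 (nat_lit 8) (nat_lit 0x200010000e0004000000000000000000000000000) (nat_lit 0x0) (nat_lit 0x9000dc006e00300003800180004000000000000000000) := Q_1 (nat_lit 128) (C_1 L26153 (C_1 L26156 (C_1 L26161 (C_1 L26167 (C_1 L26169 (C_1 L26175 N_1)))))) (by decide +kernel)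
theorem L26177 : W_1 (nat_lit 9) (nat_lit 0x200010000a0004000000000000000000000000000) (nat_lit 0x0) (nat_lit 0x9000dc006f80358003c00180004000000000000000000) := Q_1 (nat_lit 126) (C_1 L26065 (C_1 L26143 (C_1 L26149 (C_1 L26176 N_1)))) (by decide +kernel)
theorem L26178 : W_1 (nat_lit 6) (nat_lit 0x600010000e0004000000000000000000000000000) (nat_lit 0x0) (nat_lit 0x80006e00300018000400000000000000000000000) := T_1 (nat_lit 111) (nat_lit 94) (nat_lit 6) (nat_lit 8) (nat_lit 9) L24998 (by decide +kernel)
theorem L26179 : W_1 (nat_lit 7) (nat_lit 0x200010000e0004000000000000000000000000000) (nat_lit 0x0) (nat_lit 0x8000c0006e00300018000400000000000000000000000) := T_1 (nat_lit 162) (nat_lit 179) (nat_lit 7) (nat_lit 8) (nat_lit 6) L26178 (by decide +kernel)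
theorem L26180 : W_1 (nat_lit 2) (nat_lit 0x200010000e0006000000000000000000000000000) (nat_lit 0x0) (nat_lit 0x18000400000000000000000000000) := D_1 (nat_lit 111) (nat_lit 112) (nat_lit 94) (nat_lit 1) (nat_lit 10) (nat_lit 6) (nat_lit 6) (nat_lit 8) (nat_lit 9) (by decide +kernel)
theorem L26181 : W_1 (nat_lit 3) (nat_lit 0x200010000e0004000000000000000000000000000) (nat_lit 0x0) (nat_lit 0x1a000500000000000000000000000) := T_1 (nat_lit 109) (nat_lit 92) (nat_lit 4) (nat_lit 8) (nat_lit 9) L26180 (by decide +kernel)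
theorem L26182 : W_1 (nat_lit 9) (nat_lit 0x200010000a0004000000000000000000000000000) (nat_lit 0x0) (nat_lit 0x9000dc006e0034001b800580004000000000000000000) := Q_1 (nat_lit 126) (C_1 L26179 (C_1 L26181 (C_1 L26176 N_1))) (by decide +kernel)
theorem L26183 : W_1 (nat_lit 10) (nat_lit 0x20001000080004000000000000000000000000000) (nat_lit 0x0) (nat_lit 0x9000dc006f8037801bc00580004000000000000000000) := Q_1 (nat_lit 125) (C_1 L26129 (C_1 L26133 (C_1 L26136 (C_1 L26141 (C_1 L26177 (C_1 L26182 N_1)))))) (by decide +kernel)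
theorem L26184 : W_1 (nat_lit 11) (nat_lit 0x1000080004000000000000000000000000000) (nat_lit 0x0) (nat_lit 0x10000d000fc006f8037801bc00580004000000000000000000) := Q_1 (nat_lit 161) (C_1 L25088 (C_1 L25048 (C_1 L26123 (C_1 L26126 (C_1 L26183 N_1))))) (by decide +kernel)
theorem L26185 : W_1 (nat_lit 13) (nat_lit 0x1000080000000000000000000000000000000) (nat_lit 0x0) (nat_lit 0x10000d000fc006f8037801fc00fe003c001c000c0000000000) := Q_1 (nat_lit 110) (C_1 L25217 (C_1 L26056 (C_1 L25187 (C_1 L24848 (C_1 L25216 (C_1 L24931 (C_1 L26120 (C_1 L26184 N_1)))))))) (by decide +kernel)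
theorem L26186 : W_1 (nat_lit 2) (nat_lit 0x20001000080004000700000000000000000000000) (nat_lit 0x0) (nat_lit 0x200010000800000000000000000000000000000000000) := D_1 (nat_lit 160) (nat_lit 177) (nat_lit 143) (nat_lit 5) (nat_lit 8) (nat_lit 6) (nat_lit 5) (nat_lit 8) (nat_lit 5) (by decide +kernel)
theorem L26187 : W_1 (nat_lit 3) (nat_lit 0x1000080004000700000000000000000000000) (nat_lit 0x0) (nat_lit 0x200030000800000008000000000000000000000000000) := T_1 (nat_lit 161) (nat_lit 111) (nat_lit 6) (nat_lit 8) (nat_lit 9) L26186 (by decide +kernel)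
theorem L26188 : W_1 (nat_lit 4) (nat_lit 0x1000080004000600000000000000000000000) (nat_lit 0x0) (nat_lit 0x200030000800000008000100008000000000000000000) := T_1 (nat_lit 92) (nat_lit 75) (nat_lit 4) (nat_lit 8) (nat_lit 8) L26187 (by decide +kernel)
theorem L26189 : W_1 (nat_lit 5) (nat_lit 0x1000080004000200000000000000000000000) (nat_lit 0x0) (nat_lit 0x200030000800000008000500028000000000000000000) := T_1 (nat_lit 94) (nat_lit 77) (nat_lit 6) (nat_lit 8) (nat_lit 8) L26188 (by decide +kernel)
theorem L26190 : W_1 (nat_lit 6) (nat_lit 0x1000080004000000000000000000000000000) (nat_lit 0x0) (nat_lit 0x200030000800040008000700038001400000000000000) := Q_1 (nat_lit 93) (C_1 L25215 (C_1 L25195 (C_1 L24835 (C_1 L26189 N_1)))) (by decide +kernel)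
theorem L26191 : W_1 (nat_lit 2) (nat_lit 0x1000080004000200018000000000000000000) (nat_lit 0x0) (nat_lit 0x40002000100000000000000000000000000000000) := D_1 (nat_lit 145) (nat_lit 162) (nat_lit 128) (nat_lit 7) (nat_lit 8) (nat_lit 5) (nat_lit 7) (nat_lit 8) (nat_lit 4) (by decide +kernel)
theorem L26192 : W_1 (nat_lit 3) (nat_lit 0x1000080004000200008000000000000000000) (nat_lit 0x0) (nat_lit 0x40002000100000000000010000400000000000000) := T_1 (nat_lit 76) (nat_lit 58) (nat_lit 4) (nat_lit 8) (nat_lit 7) L26191 (by decide +kernel)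
theorem L26193 : W_1 (nat_lit 4) (nat_lit 0x1000080004000200000000000000000000000) (nat_lit 0x0) (nat_lit 0x40002000100000000100018000400000000000000) := T_1 (nat_lit 75) (nat_lit 92) (nat_lit 4) (nat_lit 8) (nat_lit 8) L26192 (by decide +kernel)
theorem L26194 : W_1 (nat_lit 5) (nat_lit 0x1000080004000000000000000000000000000) (nat_lit 0x0) (nat_lit 0x800060002000100008000700038001400000000000000) := Q_1 (nat_lit 93) (C_1 L25215 (C_1 L26193 (C_1 L25208 N_1))) (by decide +kernel)
theorem L26195 : W_1 (nat_lit 2) (nat_lit 0x60001000080004000300000000000000000000000) (nat_lit 0x0) (nat_lit 0x200010000800000000000000000000000000000000000) := D_1 (nat_lit 160) (nat_lit 177) (nat_lit 143) (nat_lit 5) (nat_lit 8) (nat_lit 6) (nat_lit 5) (nat_lit 8) (nat_lit 5) (by decide +kernel)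
theorem L26196 : W_1 (nat_lit 3) (nat_lit 0x40001000080004000300000000000000000000000) (nat_lit 0x0) (nat_lit 0xa00030000800000000000000000000000000000000000) := T_1 (nat_lit 161) (nat_lit 179) (nat_lit 7) (nat_lit 8) (nat_lit 6) L26195 (by decide +kernel)
theorem L26197 : W_1 (nat_lit 4) (nat_lit 0x40001000080004000200000000000000000000000) (nat_lit 0x0) (nat_lit 0xa00030000800000000000100008000000000000000000) := T_1 (nat_lit 92) (nat_lit 75) (nat_lit 4) (nat_lit 8) (nat_lit 8) L26196 (by decide +kernel)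
theorem L26198 : W_1 (nat_lit 5) (nat_lit 0x1000080004000200000000000000000000000) (nat_lit 0x0) (nat_lit 0xa00070002800000000000100008000000000000000000) := T_1 (nat_lit 162) (nat_lit 145) (nat_lit 7) (nat_lit 8) (nat_lit 5) L26197 (by decide +kernel)
theorem L26199 : W_1 (nat_lit 6) (nat_lit 0x1000080004000000000000000000000000000) (nat_lit 0x0) (nat_lit 0xa00070002800140000000700038001400000000000000) := Q_1 (nat_lit 93) (C_1 L26193 (C_1 L25215 (C_1 L24930 (C_1 L26198 N_1)))) (by decide +kernel)
theorem L26200 : W_1 (nat_lit 6) (nat_lit 0x1000080004000000000000000000000000000) (nat_lit 0x0) (nat_lit 0xa00070002800140000000300018000400000000000000) := Q_1 (nat_lit 93) (C_1 L26198 (C_1 L25195 (C_1 L26193 (C_1 L24930 N_1)))) (by decide +kernel)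
theorem L26201 : W_1 (nat_lit 2) (nat_lit 0x34000b000c800340000000000000000000000) (nat_lit 0x0) (nat_lit 0x100008000000000001000000000000000000000000000) := D_1 (nat_lit 159) (nat_lit 176) (nat_lit 108) (nat_lit 4) (nat_lit 6) (nat_lit 10) (nat_lit 4) (nat_lit 6) (nat_lit 9) (by decide +kernel)
theorem L26202 : W_1 (nat_lit 3) (nat_lit 0x34000b000c000340000000000000000000000) (nat_lit 0x0) (nat_lit 0x100008000000000001800000002000000000000000000) := T_1 (nat_lit 107) (nat_lit 73) (nat_lit 7) (nat_lit 5) (nat_lit 4) L26201 (by decide +kernel)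
theorem L26203 : W_1 (nat_lit 4) (nat_lit 0x30000b000c000340000000000000000000000) (nat_lit 0x0) (nat_lit 0x100008000c00000001800000002000000000000000000) := T_1 (nat_lit 142) (nat_lit 143) (nat_lit 0) (nat_lit 9) (nat_lit 8) L26202 (by decide +kernel)
theorem L26204 : W_1 (nat_lit 5) (nat_lit 0x30000b000c000300000000000000000000000) (nat_lit 0x0) (nat_lit 0x100008000c000000018000c0002000000000000000000) := T_1 (nat_lit 90) (nat_lit 91) (nat_lit 3) (nat_lit 5) (nat_lit 5) L26203 (by decide +kernel)
theorem L26205 : W_1 (nat_lit 6) (nat_lit 0x30000b000c000200000000000000000000000) (nat_lit 0x0) (nat_lit 0x100008000c000000018001c000a000000000000000000) := T_1 (nat_lit 92) (nat_lit 75) (nat_lit 4) (nat_lit 8) (nat_lit 8) L26204 (by decide +kernel)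
theorem L26206 : W_1 (nat_lit 7) (nat_lit 0x30000a000c000200000000000000000000000) (nat_lit 0x0) (nat_lit 0x100008000c000500018001c000a000000000000000000) := T_1 (nat_lit 124) (nat_lit 126) (nat_lit 3) (nat_lit 5) (nat_lit 7) L26205 (by decide +kernel)
theorem L26207 : W_1 (nat_lit 8) (nat_lit 0x10000a000c000200000000000000000000000) (nat_lit 0x0) (nat_lit 0x100048002c000500018001c000a000000000000000000) := T_1 (nat_lit 145) (nat_lit 162) (nat_lit 7) (nat_lit 8) (nat_lit 5) L26206 (by decide +kernel)
theorem L26208 : W_1 (nat_lit 2) (nat_lit 0x30000e000c000340000000000000000000000) (nat_lit 0x0) (nat_lit 0x4000100010000000000000000000000000000) := D_1 (nat_lit 128) (nat_lit 112) (nat_lit 146) (nat_lit 2) (nat_lit 6) (nat_lit 7) (nat_lit 3) (nat_lit 6) (nat_lit 7) (by decide +kernel)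
theorem L26209 : W_1 (nat_lit 3) (nat_lit 0x30000a000c000340000000000000000000000) (nat_lit 0x0) (nat_lit 0x4000150010000000000000000000000000000) := T_1 (nat_lit 126) (nat_lit 124) (nat_lit 3) (nat_lit 5) (nat_lit 7) L26208 (by decide +kernel)
theorem L26210 : W_1 (nat_lit 4) (nat_lit 0x10000a000c000340000000000000000000000) (nat_lit 0x0) (nat_lit 0x40006000150010000000000000000000000000000) := T_1 (nat_lit 145) (nat_lit 162) (nat_lit 7) (nat_lit 8) (nat_lit 5) L26209 (by decide +kernel)
theorem L26211 : W_1 (nat_lit 5) (nat_lit 0x10000a000c000300000000000000000000000) (nat_lit 0x0) (nat_lit 0x400060001500100000c0000000000000000000000) := T_1 (nat_lit 90) (nat_lit 91) (nat_lit 3) (nat_lit 5) (nat_lit 5) L26210 (by decide +kernel)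
theorem L26212 : W_1 (nat_lit 6) (nat_lit 0x10000a000c000200000000000000000000000) (nat_lit 0x0) (nat_lit 0x400060001500100001c0008000000000000000000) := T_1 (nat_lit 92) (nat_lit 75) (nat_lit 4) (nat_lit 8) (nat_lit 8) L26211 (by decide +kernel)
theorem L26213 : W_1 (nat_lit 2) (nat_lit 0x1c000b000c000340000000000000000000000) (nat_lit 0x0) (nat_lit 0x200108000000000000000000000000000000) := D_1 (nat_lit 141) (nat_lit 123) (nat_lit 128) (nat_lit 0) (nat_lit 8) (nat_lit 8) (nat_lit 2) (nat_lit 5) (nat_lit 8) (by decide +kernel)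
theorem L26214 : W_1 (nat_lit 3) (nat_lit 0x18000b000c000340000000000000000000000) (nat_lit 0x0) (nat_lit 0x2600108000000000000000000000000000000) := T_1 (nat_lit 142) (nat_lit 145) (nat_lit 0) (nat_lit 9) (nat_lit 8) L26213 (by decide +kernel)
theorem L26215 : W_1 (nat_lit 4) (nat_lit 0x10000b000c000340000000000000000000000) (nat_lit 0x0) (nat_lit 0x10002e00108000000000000000000000000000000) := T_1 (nat_lit 143) (nat_lit 160) (nat_lit 5) (nat_lit 8) (nat_lit 5) L26214 (by decide +kernel)
theorem L26216 : W_1 (nat_lit 5) (nat_lit 0x10000b000c000300000000000000000000000) (nat_lit 0x0) (nat_lit 0x10002e001080000000c0000000000000000000000) := T_1 (nat_lit 90) (nat_lit 91) (nat_lit 3) (nat_lit 5) (nat_lit 5) L26215 (by decide +kernel)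
theorem L26217 : W_1 (nat_lit 6) (nat_lit 0x10000b000c000200000000000000000000000) (nat_lit 0x0) (nat_lit 0x10002e001080000001c0008000000000000000000) := T_1 (nat_lit 92) (nat_lit 75) (nat_lit 4) (nat_lit 8) (nat_lit 8) L26216 (by decide +kernel)
theorem L26218 : W_1 (nat_lit 7) (nat_lit 0x10000a000c000200000000000000000000000) (nat_lit 0x0) (nat_lit 0x10002e001580000001c0008000000000000000000) := T_1 (nat_lit 124) (nat_lit 126) (nat_lit 2) (nat_lit 5) (nat_lit 7) L26217 (by decide +kernel)
theorem L26219 : W_1 (nat_lit 2) (nat_lit 0x3c000a000c000200000000000000000000000) (nat_lit 0x0) (nat_lit 0x200300000000000000000000000000000000) := D_1 (nat_lit 128) (nat_lit 141) (nat_lit 129) (nat_lit 2) (nat_lit 5) (nat_lit 8) (nat_lit 2) (nat_lit 6) (nat_lit 8) (by decide +kernel)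
theorem L26220 : W_1 (nat_lit 3) (nat_lit 0x38000a000c000200000000000000000000000) (nat_lit 0x0) (nat_lit 0x600310000000000000000000000000000000) := T_1 (nat_lit 142) (nat_lit 124) (nat_lit 0) (nat_lit 9) (nat_lit 8) L26219 (by decide +kernel)
theorem L26221 : W_1 (nat_lit 4) (nat_lit 0x18000a000c000200000000000000000000000) (nat_lit 0x0) (nat_lit 0x40002600310000000000000000000000000000000) := T_1 (nat_lit 145) (nat_lit 162) (nat_lit 7) (nat_lit 8) (nat_lit 5) L26220 (by decide +kernel)
theorem L26222 : W_1 (nat_lit 5) (nat_lit 0x10000a000c000200000000000000000000000) (nat_lit 0x0) (nat_lit 0x50002e00310000000000000000000000000000000) := T_1 (nat_lit 143) (nat_lit 160) (nat_lit 5) (nat_lit 8) (nat_lit 5) L26221 (by decide +kernel)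
theorem L26223 : W_1 (nat_lit 2) (nat_lit 0x18001e000c000340000000000000000000000) (nat_lit 0x0) (nat_lit 0x600200000000000000000000000000000000) := D_1 (nat_lit 142) (nat_lit 129) (nat_lit 141) (nat_lit 1) (nat_lit 10) (nat_lit 7) (nat_lit 2) (nat_lit 5) (nat_lit 8) (by decide +kernel)
theorem L26224 : W_1 (nat_lit 3) (nat_lit 0x18000e000c000340000000000000000000000) (nat_lit 0x0) (nat_lit 0x600300010000000000000000000000000000) := T_1 (nat_lit 128) (nat_lit 112) (nat_lit 2) (nat_lit 6) (nat_lit 7) L26223 (by decide +kernel)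
theorem L26225 : W_1 (nat_lit 4) (nat_lit 0x18000a000c000340000000000000000000000) (nat_lit 0x0) (nat_lit 0x600350010000000000000000000000000000) := T_1 (nat_lit 126) (nat_lit 124) (nat_lit 2) (nat_lit 5) (nat_lit 7) L26224 (by decide +kernel)
theorem L26226 : W_1 (nat_lit 5) (nat_lit 0x10000a000c000340000000000000000000000) (nat_lit 0x0) (nat_lit 0x10000e00350010000000000000000000000000000) := T_1 (nat_lit 143) (nat_lit 160) (nat_lit 5) (nat_lit 8) (nat_lit 5) L26225 (by decide +kernel)
theorem L26227 : W_1 (nat_lit 6) (nat_lit 0x10000a000c000300000000000000000000000) (nat_lit 0x0) (nat_lit 0x10000e003500100000c0000000000000000000000) := T_1 (nat_lit 90) (nat_lit 91) (nat_lit 3) (nat_lit 5) (nat_lit 5) L26226 (by decide +kernel)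
theorem L26228 : W_1 (nat_lit 7) (nat_lit 0x10000a000c000200000000000000000000000) (nat_lit 0x0) (nat_lit 0x10000e003500100001c0008000000000000000000) := T_1 (nat_lit 92) (nat_lit 75) (nat_lit 4) (nat_lit 8) (nat_lit 8) L26227 (by decide +kernel)
theorem L26229 : W_1 (nat_lit 2) (nat_lit 0x38001e000c000340000000000000000000000) (nat_lit 0x0) (nat_lit 0x600200000000000000000000000000000000) := D_1 (nat_lit 142) (nat_lit 129) (nat_lit 141) (nat_lit 2) (nat_lit 6) (nat_lit 8) (nat_lit 2) (nat_lit 5) (nat_lit 8) (by decide +kernel)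
theorem L26230 : W_1 (nat_lit 3) (nat_lit 0x38000e000c000340000000000000000000000) (nat_lit 0x0) (nat_lit 0x600300010000000000000000000000000000) := T_1 (nat_lit 128) (nat_lit 112) (nat_lit 2) (nat_lit 6) (nat_lit 7) L26229 (by decide +kernel)
theorem L26231 : W_1 (nat_lit 4) (nat_lit 0x38000a000c000340000000000000000000000) (nat_lit 0x0) (nat_lit 0x4600340010000000000000000000000000000) := T_1 (nat_lit 126) (nat_lit 146) (nat_lit 0) (nat_lit 10) (nat_lit 8) L26230 (by decide +kernel)
theorem L26232 : W_1 (nat_lit 5) (nat_lit 0x30000a000c000340000000000000000000000) (nat_lit 0x0) (nat_lit 0x10004e00340010000000000000000000000000000) := T_1 (nat_lit 143) (nat_lit 160) (nat_lit 5) (nat_lit 8) (nat_lit 5) L26231 (by decide +kernel)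
theorem L26233 : W_1 (nat_lit 6) (nat_lit 0x30000a000c000300000000000000000000000) (nat_lit 0x0) (nat_lit 0x10004e003400100000c0000000000000000000000) := T_1 (nat_lit 90) (nat_lit 91) (nat_lit 3) (nat_lit 5) (nat_lit 5) L26232 (by decide +kernel)
theorem L26234 : W_1 (nat_lit 7) (nat_lit 0x30000a000c000200000000000000000000000) (nat_lit 0x0) (nat_lit 0x10004e003400100001c0008000000000000000000) := T_1 (nat_lit 92) (nat_lit 75) (nat_lit 4) (nat_lit 8) (nat_lit 8) L26233 (by decide +kernel)
theorem L26235 : W_1 (nat_lit 8) (nat_lit 0x10000a000c000200000000000000000000000) (nat_lit 0x0) (nat_lit 0x50006e003400100001c0008000000000000000000) := T_1 (nat_lit 145) (nat_lit 162) (nat_lit 7) (nat_lit 8) (nat_lit 5) L26234 (by decide +kernel)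
theorem L26236 : W_1 (nat_lit 9) (nat_lit 0x100008000c000200000000000000000000000) (nat_lit 0x0) (nat_lit 0x100058006e003780118001c000a000000000000000000) := Q_1 (nat_lit 125) (C_1 L26207 (C_1 L26212 (C_1 L26218 (C_1 L26222 (C_1 L26228 (C_1 L26235 N_1)))))) (by decide +kernel)
theorem L26237 : W_1 (nat_lit 2) (nat_lit 0x30000e000c000200000000000000000000000) (nat_lit 0x0) (nat_lit 0x4000100010000000000000000000000000000) := D_1 (nat_lit 128) (nat_lit 146) (nat_lit 112) (nat_lit 3) (nat_lit 6) (nat_lit 7) (nat_lit 2) (nat_lit 6) (nat_lit 7) (by decide +kernel)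
theorem L26238 : W_1 (nat_lit 3) (nat_lit 0x10000e000c000200000000000000000000000) (nat_lit 0x0) (nat_lit 0x40006000100010000000000000000000000000000) := T_1 (nat_lit 145) (nat_lit 162) (nat_lit 7) (nat_lit 8) (nat_lit 5) L26237 (by decide +kernel)
theorem L26239 : W_1 (nat_lit 4) (nat_lit 0x10000a000c000200000000000000000000000) (nat_lit 0x0) (nat_lit 0x40006000150010000000000000000000000000000) := T_1 (nat_lit 126) (nat_lit 124) (nat_lit 2) (nat_lit 5) (nat_lit 7) L26238 (by decide +kernel)
theorem L26240 : W_1 (nat_lit 2) (nat_lit 0x1c000b000c000200000000000000000000000) (nat_lit 0x0) (nat_lit 0x200108000000000000000000000000000000) := D_1 (nat_lit 141) (nat_lit 123) (nat_lit 128) (nat_lit 0) (nat_lit 8) (nat_lit 8) (nat_lit 2) (nat_lit 5) (nat_lit 8) (by decide +kernel)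
theorem L26241 : W_1 (nat_lit 3) (nat_lit 0x18000b000c000200000000000000000000000) (nat_lit 0x0) (nat_lit 0x2600108000000000000000000000000000000) := T_1 (nat_lit 142) (nat_lit 145) (nat_lit 0) (nat_lit 9) (nat_lit 8) L26240 (by decide +kernel)
theorem L26242 : W_1 (nat_lit 4) (nat_lit 0x10000b000c000200000000000000000000000) (nat_lit 0x0) (nat_lit 0x10002e00108000000000000000000000000000000) := T_1 (nat_lit 143) (nat_lit 160) (nat_lit 5) (nat_lit 8) (nat_lit 5) L26241 (by decide +kernel)
theorem L26243 : W_1 (nat_lit 5) (nat_lit 0x10000a000c000200000000000000000000000) (nat_lit 0x0) (nat_lit 0x10002e00158000000000000000000000000000000) := T_1 (nat_lit 124) (nat_lit 126) (nat_lit 2) (nat_lit 5) (nat_lit 7) L26242 (by decide +kernel)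
theorem L26244 : W_1 (nat_lit 2) (nat_lit 0x18001e000c000600000000000000000000000) (nat_lit 0x0) (nat_lit 0x600200000000000000000000000000000000) := D_1 (nat_lit 142) (nat_lit 129) (nat_lit 141) (nat_lit 1) (nat_lit 10) (nat_lit 7) (nat_lit 2) (nat_lit 5) (nat_lit 8) (by decide +kernel)
theorem L26245 : W_1 (nat_lit 3) (nat_lit 0x18000e000c000600000000000000000000000) (nat_lit 0x0) (nat_lit 0x600300010000000000000000000000000000) := T_1 (nat_lit 128) (nat_lit 112) (nat_lit 2) (nat_lit 6) (nat_lit 7) L26244 (by decide +kernel)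
theorem L26246 : W_1 (nat_lit 4) (nat_lit 0x10000e000c000600000000000000000000000) (nat_lit 0x0) (nat_lit 0x10000e00300010000000000000000000000000000) := T_1 (nat_lit 143) (nat_lit 160) (nat_lit 5) (nat_lit 8) (nat_lit 5) L26245 (by decide +kernel)
theorem L26247 : W_1 (nat_lit 5) (nat_lit 0x10000a000c000600000000000000000000000) (nat_lit 0x0) (nat_lit 0x10000e00350010000000000000000000000000000) := T_1 (nat_lit 126) (nat_lit 124) (nat_lit 2) (nat_lit 5) (nat_lit 7) L26246 (by decide +kernel)
theorem L26248 : W_1 (nat_lit 6) (nat_lit 0x10000a000c000200000000000000000000000) (nat_lit 0x0) (nat_lit 0x10000e00350010000400020000000000000000000) := T_1 (nat_lit 94) (nat_lit 77) (nat_lit 6) (nat_lit 8) (nat_lit 8) L26247 (by decide +kernel)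
theorem L26249 : W_1 (nat_lit 8) (nat_lit 0x100008000c000200000000000000000000000) (nat_lit 0x0) (nat_lit 0xd0006e00378010000400020000000000000000000) := Q_1 (nat_lit 125) (C_1 L26239 (C_1 L26243 (C_1 L24963 (C_1 L26222 (C_1 L26248 (C_1 L24976 N_1)))))) (by decide +kernel)
theorem L26250 : W_1 (nat_lit 2) (nat_lit 0x38000a000d000780004000000000000000000) (nat_lit 0x0) (nat_lit 0x600010000000000000000000000000000000) := D_1 (nat_lit 124) (nat_lit 141) (nat_lit 142) (nat_lit 5) (nat_lit 6) (nat_lit 4) (nat_lit 0) (nat_lit 9) (nat_lit 8) (by decide +kernel)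
theorem L26251 : W_1 (nat_lit 3) (nat_lit 0x380008000d000780004000000000000000000) (nat_lit 0x0) (nat_lit 0x600070000000000000000000000000000000) := T_1 (nat_lit 125) (nat_lit 126) (nat_lit 7) (nat_lit 6) (nat_lit 4) L26250 (by decide +kernel)
theorem L26252 : W_1 (nat_lit 4) (nat_lit 0x300008000d000780004000000000000000000) (nat_lit 0x0) (nat_lit 0x10000e00070000000000000000000000000000000) := T_1 (nat_lit 143) (nat_lit 160) (nat_lit 5) (nat_lit 8) (nat_lit 5) L26251 (by decide +kernel)
theorem L26253 : W_1 (nat_lit 5) (nat_lit 0x300008000d000780000000000000000000000) (nat_lit 0x0) (nat_lit 0x10000e00070000000000006000000000000000000) := T_1 (nat_lit 74) (nat_lit 73) (nat_lit 0) (nat_lit 9) (nat_lit 5) L26252 (by decide +kernel)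
theorem L26254 : W_1 (nat_lit 6) (nat_lit 0x300008000c000780000000000000000000000) (nat_lit 0x0) (nat_lit 0x10000e00070001800000006000000000000000000) := T_1 (nat_lit 108) (nat_lit 107) (nat_lit 1) (nat_lit 9) (nat_lit 5) L26253 (by decide +kernel)
theorem L26255 : W_1 (nat_lit 7) (nat_lit 0x300008000c000380000000000000000000000) (nat_lit 0x0) (nat_lit 0x10000e00070001800400026000000000000000000) := T_1 (nat_lit 94) (nat_lit 77) (nat_lit 6) (nat_lit 8) (nat_lit 8) L26254 (by decide +kernel)
theorem L26256 : W_1 (nat_lit 8) (nat_lit 0x300008000c000300000000000000000000000) (nat_lit 0x0) (nat_lit 0x10000e000700018004c0026000000000000000000) := T_1 (nat_lit 91) (nat_lit 90) (nat_lit 3) (nat_lit 5) (nat_lit 5) L26255 (by decide +kernel)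
theorem L26257 : W_1 (nat_lit 9) (nat_lit 0x300008000c000200000000000000000000000) (nat_lit 0x0) (nat_lit 0x10000e000700018005c002e000000000000000000) := T_1 (nat_lit 92) (nat_lit 75) (nat_lit 4) (nat_lit 8) (nat_lit 8) L26256 (by decide +kernel)
theorem L26258 : W_1 (nat_lit 10) (nat_lit 0x100008000c000200000000000000000000000) (nat_lit 0x0) (nat_lit 0x50002e000700018005c002e000000000000000000) := T_1 (nat_lit 145) (nat_lit 162) (nat_lit 7) (nat_lit 8) (nat_lit 5) L26257 (by decide +kernel)
theorem L26259 : W_1 (nat_lit 11) (nat_lit 0x1000080004000200000000000000000000000) (nat_lit 0x0) (nat_lit 0x1000d8006e003780198005c002e000000000000000000) := Q_1 (nat_lit 111) (C_1 L24939 (C_1 L26236 (C_1 L26249 (C_1 L26258 N_1)))) (by decide +kernel)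
theorem L26260 : W_1 (nat_lit 12) (nat_lit 0x1000080004000000000000000000000000000) (nat_lit 0x0) (nat_lit 0x1000d8006e003780198007c003e001400000000000000) := Q_1 (nat_lit 93) (C_1 L26193 (C_1 L25215 (C_1 L24930 (C_1 L26259 N_1)))) (by decide +kernel)
theorem L26261 : W_1 (nat_lit 2) (nat_lit 0xa00020001000080004000000000000000000000000000) (nat_lit 0x0) (nat_lit 0x14000400000000000000000000000000000000000000000000) := D_1 (nat_lit 178) (nat_lit 194) (nat_lit 196) (nat_lit 5) (nat_lit 8) (nat_lit 7) (nat_lit 7) (nat_lit 8) (nat_lit 7) (by decide +kernel)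
theorem L26262 : W_1 (nat_lit 3) (nat_lit 0x200020001000080004000000000000000000000000000) (nat_lit 0x0) (nat_lit 0x14000c00040000000000000000000000000000000000000000) := T_1 (nat_lit 179) (nat_lit 162) (nat_lit 7) (nat_lit 8) (nat_lit 6) L26261 (by decide +kernel)
theorem L26263 : W_1 (nat_lit 4) (nat_lit 0x20001000080004000000000000000000000000000) (nat_lit 0x0) (nat_lit 0x14000e00050000000000000000000000000000000000000000) := T_1 (nat_lit 177) (nat_lit 160) (nat_lit 5) (nat_lit 8) (nat_lit 6) L26262 (by decide +kernel)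
theorem L26264 : W_1 (nat_lit 2) (nat_lit 0x7000140008000c000000000000000000000000000) (nat_lit 0x0) (nat_lit 0x80000a00000000000000000000000000000000000) := D_1 (nat_lit 143) (nat_lit 141) (nat_lit 163) (nat_lit 3) (nat_lit 5) (nat_lit 8) (nat_lit 0) (nat_lit 10) (nat_lit 9) (by decide +kernel)
theorem L26265 : W_1 (nat_lit 3) (nat_lit 0x3000140008000c000000000000000000000000000) (nat_lit 0x0) (nat_lit 0x8000c0000a00000000000000000000000000000000000) := T_1 (nat_lit 162) (nat_lit 179) (nat_lit 7) (nat_lit 8) (nat_lit 6) L26264 (by decide +kernel)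
theorem L26266 : W_1 (nat_lit 4) (nat_lit 0x30001400080004000000000000000000000000000) (nat_lit 0x0) (nat_lit 0x8000c0000a00000008000400000000000000000000000) := T_1 (nat_lit 111) (nat_lit 94) (nat_lit 6) (nat_lit 8) (nat_lit 9) L26265 (by decide +kernel)
theorem L26267 : W_1 (nat_lit 5) (nat_lit 0x20001400080004000000000000000000000000000) (nat_lit 0x0) (nat_lit 0xa000d0000a00000008000400000000000000000000000) := T_1 (nat_lit 160) (nat_lit 177) (nat_lit 5) (nat_lit 8) (nat_lit 6) L26266 (by decide +kernel)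
theorem L26268 : W_1 (nat_lit 2) (nat_lit 0x20001f00080004000000000000000000000000000) (nat_lit 0x0) (nat_lit 0x7000000000000000000000000000000000000000) := D_1 (nat_lit 157) (nat_lit 156) (nat_lit 158) (nat_lit 1) (nat_lit 7) (nat_lit 8) (nat_lit 1) (nat_lit 8) (nat_lit 8) (by decide +kernel)
theorem L26269 : W_1 (nat_lit 3) (nat_lit 0x20001e00080004000000000000000000000000000) (nat_lit 0x0) (nat_lit 0x7000100040000000000000000000000000000000) := T_1 (nat_lit 140) (nat_lit 126) (nat_lit 2) (nat_lit 4) (nat_lit 8) L26268 (by decide +kernel)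
theorem L26270 : W_1 (nat_lit 4) (nat_lit 0x20001c00080004000000000000000000000000000) (nat_lit 0x0) (nat_lit 0x7000300140000000000000000000000000000000) := T_1 (nat_lit 141) (nat_lit 128) (nat_lit 2) (nat_lit 5) (nat_lit 8) L26269 (by decide +kernel)
theorem L26271 : W_1 (nat_lit 2) (nat_lit 0x34001e0009000c000000000000000000000000000) (nat_lit 0x0) (nat_lit 0x8002000020000000000000000000000000000000) := D_1 (nat_lit 145) (nat_lit 159) (nat_lit 125) (nat_lit 2) (nat_lit 5) (nat_lit 9) (nat_lit 0) (nat_lit 9) (nat_lit 8) (by decide +kernel)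
theorem L26272 : W_1 (nat_lit 3) (nat_lit 0x34001e0008000c000000000000000000000000000) (nat_lit 0x0) (nat_lit 0x8002000038000000000000000000000000000000) := T_1 (nat_lit 124) (nat_lit 123) (nat_lit 0) (nat_lit 8) (nat_lit 8) L26271 (by decide +kernel)
theorem L26273 : W_1 (nat_lit 4) (nat_lit 0x30001e0008000c000000000000000000000000000) (nat_lit 0x0) (nat_lit 0xe002000038000000000000000000000000000000) := T_1 (nat_lit 158) (nat_lit 157) (nat_lit 1) (nat_lit 8) (nat_lit 8) L26272 (by decide +kernel)
theorem L26274 : W_1 (nat_lit 5) (nat_lit 0x30001c0008000c000000000000000000000000000) (nat_lit 0x0) (nat_lit 0xe002300038000000000000000000000000000000) := T_1 (nat_lit 141) (nat_lit 140) (nat_lit 3) (nat_lit 4) (nat_lit 8) L26273 (by decide +kernel)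
theorem L26275 : W_1 (nat_lit 6) (nat_lit 0x20001c0008000c000000000000000000000000000) (nat_lit 0x0) (nat_lit 0x20001e002300038000000000000000000000000000000) := T_1 (nat_lit 160) (nat_lit 177) (nat_lit 5) (nat_lit 8) (nat_lit 6) L26274 (by decide +kernel)
theorem L26276 : W_1 (nat_lit 7) (nat_lit 0x20001c00080004000000000000000000000000000) (nat_lit 0x0) (nat_lit 0x20001e002300038008000400000000000000000000000) := T_1 (nat_lit 111) (nat_lit 94) (nat_lit 6) (nat_lit 8) (nat_lit 9) L26275 (by decide +kernel)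
theorem L26277 : W_1 (nat_lit 2) (nat_lit 0x30001c00080004000000000000000000000000000) (nat_lit 0x0) (nat_lit 0x300100000000000000000000000000000000) := D_1 (nat_lit 141) (nat_lit 140) (nat_lit 128) (nat_lit 3) (nat_lit 4) (nat_lit 8) (nat_lit 2) (nat_lit 5) (nat_lit 8) (by decide +kernel)
theorem L26278 : W_1 (nat_lit 3) (nat_lit 0x20001c00080004000000000000000000000000000) (nat_lit 0x0) (nat_lit 0x200010000300100000000000000000000000000000000) := T_1 (nat_lit 160) (nat_lit 177) (nat_lit 5) (nat_lit 8) (nat_lit 6) L26277 (by decide +kernel)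
theorem L26279 : W_1 (nat_lit 2) (nat_lit 0x30003c00080004000000000000000000000000000) (nat_lit 0x0) (nat_lit 0xc004000000000000000000000000000000000000) := D_1 (nat_lit 159) (nat_lit 158) (nat_lit 146) (nat_lit 2) (nat_lit 5) (nat_lit 9) (nat_lit 1) (nat_lit 10) (nat_lit 8) (by decide +kernel)
theorem L26280 : W_1 (nat_lit 3) (nat_lit 0x20003c00080004000000000000000000000000000) (nat_lit 0x0) (nat_lit 0x20001c004000000000000000000000000000000000000) := T_1 (nat_lit 160) (nat_lit 177) (nat_lit 5) (nat_lit 8) (nat_lit 6) L26279 (by decide +kernel)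
theorem L26281 : W_1 (nat_lit 2) (nat_lit 0x30003c001e0004000400000000000000000000000) (nat_lit 0x0) (nat_lit 0x1800080000000000000000000000) := D_1 (nat_lit 108) (nat_lit 107) (nat_lit 91) (nat_lit 0) (nat_lit 9) (nat_lit 7) (nat_lit 7) (nat_lit 6) (nat_lit 5) (by decide +kernel)
theorem L26282 : W_1 (nat_lit 3) (nat_lit 0x30003c001a0004000400000000000000000000000) (nat_lit 0x0) (nat_lit 0x4000040001800080000000000000000000000) := T_1 (nat_lit 126) (nat_lit 146) (nat_lit 3) (nat_lit 6) (nat_lit 7) L26281 (by decide +kernel)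
theorem L26283 : W_1 (nat_lit 4) (nat_lit 0x30003c00180004000400000000000000000000000) (nat_lit 0x0) (nat_lit 0x4000070001800080000000000000000000000) := T_1 (nat_lit 125) (nat_lit 124) (nat_lit 0) (nat_lit 9) (nat_lit 8) L26282 (by decide +kernel)
theorem L26284 : W_1 (nat_lit 5) (nat_lit 0x30003c00180004000000000000000000000000000) (nat_lit 0x0) (nat_lit 0x4000070009800480000000000000000000000) := T_1 (nat_lit 94) (nat_lit 111) (nat_lit 6) (nat_lit 8) (nat_lit 9) L26283 (by decide +kernel)
theorem L26285 : W_1 (nat_lit 6) (nat_lit 0x30003c00080004000000000000000000000000000) (nat_lit 0x0) (nat_lit 0x4000370009800480000000000000000000000) := T_1 (nat_lit 128) (nat_lit 129) (nat_lit 2) (nat_lit 6) (nat_lit 8) L26284 (by decide +kernel)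
theorem L26286 : W_1 (nat_lit 7) (nat_lit 0x20003c00080004000000000000000000000000000) (nat_lit 0x0) (nat_lit 0x200010004000370009800480000000000000000000000) := T_1 (nat_lit 160) (nat_lit 177) (nat_lit 5) (nat_lit 8) (nat_lit 6) L26285 (by decide +kernel)
theorem L26287 : W_1 (nat_lit 2) (nat_lit 0x28003c000a0004000000000000000000000000000) (nat_lit 0x0) (nat_lit 0x10004000040000000000000000000000000000000) := D_1 (nat_lit 146) (nat_lit 126) (nat_lit 160) (nat_lit 0) (nat_lit 10) (nat_lit 8) (nat_lit 1) (nat_lit 10) (nat_lit 8) (by decide +kernel)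
theorem L26288 : W_1 (nat_lit 3) (nat_lit 0x20003c000a0004000000000000000000000000000) (nat_lit 0x0) (nat_lit 0x1c004000040000000000000000000000000000000) := T_1 (nat_lit 159) (nat_lit 158) (nat_lit 1) (nat_lit 9) (nat_lit 8) L26287 (by decide +kernel)
theorem L26289 : W_1 (nat_lit 4) (nat_lit 0x20003c00080004000000000000000000000000000) (nat_lit 0x0) (nat_lit 0x1c004000070000000000000000000000000000000) := T_1 (nat_lit 125) (nat_lit 124) (nat_lit 0) (nat_lit 9) (nat_lit 8) L26288 (by decide +kernel)
theorem L26290 : W_1 (nat_lit 2) (nat_lit 0x28003c000e000c000000000000000000000000000) (nat_lit 0x0) (nat_lit 0x300010000000000000000000000000000) := D_1 (nat_lit 128) (nat_lit 112) (nat_lit 129) (nat_lit 2) (nat_lit 6) (nat_lit 7) (nat_lit 2) (nat_lit 6) (nat_lit 8) (by decide +kernel)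
theorem L26291 : W_1 (nat_lit 3) (nat_lit 0x28003c000e0004000000000000000000000000000) (nat_lit 0x0) (nat_lit 0x300018000400000000000000000000000) := T_1 (nat_lit 111) (nat_lit 94) (nat_lit 6) (nat_lit 8) (nat_lit 9) L26290 (by decide +kernel)
theorem L26292 : W_1 (nat_lit 4) (nat_lit 0x28003c000a0004000000000000000000000000000) (nat_lit 0x0) (nat_lit 0x4000340018000400000000000000000000000) := T_1 (nat_lit 126) (nat_lit 146) (nat_lit 0) (nat_lit 10) (nat_lit 8) L26291 (by decide +kernel)
theorem L26293 : W_1 (nat_lit 5) (nat_lit 0x20003c000a0004000000000000000000000000000) (nat_lit 0x0) (nat_lit 0xc004000340018000400000000000000000000000) := T_1 (nat_lit 159) (nat_lit 158) (nat_lit 1) (nat_lit 9) (nat_lit 8) L26292 (by decide +kernel)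
theorem L26294 : W_1 (nat_lit 6) (nat_lit 0x20003c00080004000000000000000000000000000) (nat_lit 0x0) (nat_lit 0xc004000370018000400000000000000000000000) := T_1 (nat_lit 125) (nat_lit 124) (nat_lit 0) (nat_lit 9) (nat_lit 8) L26293 (by decide +kernel)
theorem L26295 : W_1 (nat_lit 3) (nat_lit 0x34003c001a000c000000000000000000000000000) (nat_lit 0x0) (nat_lit 0x40011800080000000000000000000000) := T_1 (nat_lit 126) (nat_lit 112) (nat_lit 2) (nat_lit 6) (nat_lit 7) L25105 (by decide +kernel)
theorem L26296 : W_1 (nat_lit 4) (nat_lit 0x34003c000a000c000000000000000000000000000) (nat_lit 0x0) (nat_lit 0x340011800080000000000000000000000) := T_1 (nat_lit 128) (nat_lit 129) (nat_lit 2) (nat_lit 6) (nat_lit 8) L26295 (by decide +kernel)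
theorem L26297 : W_1 (nat_lit 5) (nat_lit 0x34003c0008000c000000000000000000000000000) (nat_lit 0x0) (nat_lit 0x370011800080000000000000000000000) := T_1 (nat_lit 125) (nat_lit 124) (nat_lit 0) (nat_lit 9) (nat_lit 8) L26296 (by decide +kernel)
theorem L26298 : W_1 (nat_lit 6) (nat_lit 0x30003c0008000c000000000000000000000000000) (nat_lit 0x0) (nat_lit 0xc000000370011800080000000000000000000000) := T_1 (nat_lit 158) (nat_lit 159) (nat_lit 2) (nat_lit 5) (nat_lit 9) L26297 (by decide +kernel)
theorem L26299 : W_1 (nat_lit 7) (nat_lit 0x20003c0008000c000000000000000000000000000) (nat_lit 0x0) (nat_lit 0x20001c000000370011800080000000000000000000000) := T_1 (nat_lit 160) (nat_lit 177) (nat_lit 5) (nat_lit 8) (nat_lit 6) L26298 (by decide +kernel)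
theorem L26300 : W_1 (nat_lit 8) (nat_lit 0x20003c00080004000000000000000000000000000) (nat_lit 0x0) (nat_lit 0x20001c000000370019800480000000000000000000000) := T_1 (nat_lit 111) (nat_lit 94) (nat_lit 6) (nat_lit 8) (nat_lit 9) L26299 (by decide +kernel)
theorem L26301 : W_1 (nat_lit 9) (nat_lit 0x20001c00080004000000000000000000000000000) (nat_lit 0x0) (nat_lit 0x20001c006000370019800480000000000000000000000) := Q_1 (nat_lit 145) (C_1 L26280 (C_1 L26286 (C_1 L26289 (C_1 L26294 (C_1 L26300 N_1))))) (by decide +kernel)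
theorem L26302 : W_1 (nat_lit 10) (nat_lit 0x20001400080004000000000000000000000000000) (nat_lit 0x0) (nat_lit 0x20001f006b00378019800480000000000000000000000) := Q_1 (nat_lit 143) (C_1 L26270 (C_1 L26276 (C_1 L26278 (C_1 L26301 N_1)))) (by decide +kernel)
theorem L26303 : W_1 (nat_lit 2) (nat_lit 0x60001c0008000c000000000000000000000000000) (nat_lit 0x0) (nat_lit 0x90002000000000000000000000000000000000000) := D_1 (nat_lit 163) (nat_lit 145) (nat_lit 160) (nat_lit 3) (nat_lit 6) (nat_lit 8) (nat_lit 0) (nat_lit 10) (nat_lit 9) (by decide +kernel)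
theorem L26304 : W_1 (nat_lit 3) (nat_lit 0x6000140008000c000000000000000000000000000) (nat_lit 0x0) (nat_lit 0x90002a00000000000000000000000000000000000) := T_1 (nat_lit 143) (nat_lit 141) (nat_lit 3) (nat_lit 5) (nat_lit 8) L26303 (by decide +kernel)
theorem L26305 : W_1 (nat_lit 4) (nat_lit 0x2000140008000c000000000000000000000000000) (nat_lit 0x0) (nat_lit 0x8000d0002a00000000000000000000000000000000000) := T_1 (nat_lit 162) (nat_lit 179) (nat_lit 7) (nat_lit 8) (nat_lit 6) L26304 (by decide +kernel)
theorem L26306 : W_1 (nat_lit 5) (nat_lit 0x20001400080004000000000000000000000000000) (nat_lit 0x0) (nat_lit 0x8000d0002a00000008000400000000000000000000000) := T_1 (nat_lit 111) (nat_lit 94) (nat_lit 6) (nat_lit 8) (nat_lit 9) L26305 (by decide +kernel)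
theorem L26307 : W_1 (nat_lit 2) (nat_lit 0x60003c0018001c000000000000000000000000000) (nat_lit 0x0) (nat_lit 0x70000000000000000000000000000000) := D_1 (nat_lit 125) (nat_lit 126) (nat_lit 124) (nat_lit 2) (nat_lit 6) (nat_lit 7) (nat_lit 0) (nat_lit 9) (nat_lit 8) (by decide +kernel)
theorem L26308 : W_1 (nat_lit 3) (nat_lit 0x60003c0018000c000000000000000000000000000) (nat_lit 0x0) (nat_lit 0x70010000800000000000000000000000) := T_1 (nat_lit 112) (nat_lit 95) (nat_lit 6) (nat_lit 9) (nat_lit 9) L26307 (by decide +kernel)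
theorem L26309 : W_1 (nat_lit 4) (nat_lit 0x60003c0008000c000000000000000000000000000) (nat_lit 0x0) (nat_lit 0x370010000800000000000000000000000) := T_1 (nat_lit 128) (nat_lit 129) (nat_lit 2) (nat_lit 6) (nat_lit 8) L26308 (by decide +kernel)
theorem L26310 : W_1 (nat_lit 5) (nat_lit 0x60001c0008000c000000000000000000000000000) (nat_lit 0x0) (nat_lit 0x80002000370010000800000000000000000000000) := T_1 (nat_lit 145) (nat_lit 163) (nat_lit 3) (nat_lit 6) (nat_lit 8) L26309 (by decide +kernel)
theorem L26311 : W_1 (nat_lit 6) (nat_lit 0x60001c00080004000000000000000000000000000) (nat_lit 0x0) (nat_lit 0x80002000370018000c00000000000000000000000) := T_1 (nat_lit 111) (nat_lit 94) (nat_lit 6) (nat_lit 8) (nat_lit 9) L26310 (by decide +kernel)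
theorem L26312 : W_1 (nat_lit 7) (nat_lit 0x60001400080004000000000000000000000000000) (nat_lit 0x0) (nat_lit 0x80002a00370018000c00000000000000000000000) := T_1 (nat_lit 143) (nat_lit 141) (nat_lit 3) (nat_lit 5) (nat_lit 8) L26311 (by decide +kernel)
theorem L26313 : W_1 (nat_lit 8) (nat_lit 0x20001400080004000000000000000000000000000) (nat_lit 0x0) (nat_lit 0x8000c0002a00370018000c00000000000000000000000) := T_1 (nat_lit 162) (nat_lit 179) (nat_lit 7) (nat_lit 8) (nat_lit 6) L26312 (by decide +kernel)
theorem L26314 : W_1 (nat_lit 2) (nat_lit 0x7800140008000c000000000000000000000000000) (nat_lit 0x0) (nat_lit 0x4006000000000000000000000000000000000000) := D_1 (nat_lit 145) (nat_lit 158) (nat_lit 146) (nat_lit 2) (nat_lit 5) (nat_lit 9) (nat_lit 2) (nat_lit 6) (nat_lit 9) (by decide +kernel)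
theorem L26315 : W_1 (nat_lit 3) (nat_lit 0x7000140008000c000000000000000000000000000) (nat_lit 0x0) (nat_lit 0xc006200000000000000000000000000000000000) := T_1 (nat_lit 159) (nat_lit 141) (nat_lit 0) (nat_lit 9) (nat_lit 9) L26314 (by decide +kernel)
theorem L26316 : W_1 (nat_lit 4) (nat_lit 0x3000140008000c000000000000000000000000000) (nat_lit 0x0) (nat_lit 0x80004c006200000000000000000000000000000000000) := T_1 (nat_lit 162) (nat_lit 179) (nat_lit 7) (nat_lit 8) (nat_lit 6) L26315 (by decide +kernel)
theorem L26317 : W_1 (nat_lit 5) (nat_lit 0x2000140008000c000000000000000000000000000) (nat_lit 0x0) (nat_lit 0xa0005c006200000000000000000000000000000000000) := T_1 (nat_lit 160) (nat_lit 177) (nat_lit 5) (nat_lit 8) (nat_lit 6) L26316 (by decide +kernel)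
theorem L26318 : W_1 (nat_lit 6) (nat_lit 0x20001400080004000000000000000000000000000) (nat_lit 0x0) (nat_lit 0xa0005c006200000008000400000000000000000000000) := T_1 (nat_lit 111) (nat_lit 94) (nat_lit 6) (nat_lit 8) (nat_lit 9) L26317 (by decide +kernel)
theorem L26319 : W_1 (nat_lit 2) (nat_lit 0x60001600080004000000000000000000000000000) (nat_lit 0x0) (nat_lit 0x200018000000000000000000000000000000000000000) := D_1 (nat_lit 160) (nat_lit 159) (nat_lit 177) (nat_lit 0) (nat_lit 9) (nat_lit 9) (nat_lit 5) (nat_lit 8) (nat_lit 6) (by decide +kernel)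
theorem L26320 : W_1 (nat_lit 3) (nat_lit 0x60001400080004000000000000000000000000000) (nat_lit 0x0) (nat_lit 0x200018000a00000000000000000000000000000000000) := T_1 (nat_lit 141) (nat_lit 143) (nat_lit 3) (nat_lit 5) (nat_lit 8) L26319 (by decide +kernel)
theorem L26321 : W_1 (nat_lit 4) (nat_lit 0x20001400080004000000000000000000000000000) (nat_lit 0x0) (nat_lit 0xa00058000a00000000000000000000000000000000000) := T_1 (nat_lit 162) (nat_lit 179) (nat_lit 7) (nat_lit 8) (nat_lit 6) L26320 (by decide +kernel)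
theorem L26322 : W_1 (nat_lit 6) (nat_lit 0x20001c0008000c000000000000000000000000000) (nat_lit 0x0) (nat_lit 0x8000c0002000370010000800000000000000000000000) := T_1 (nat_lit 162) (nat_lit 179) (nat_lit 7) (nat_lit 8) (nat_lit 6) L26310 (by decide +kernel)
theorem L26323 : W_1 (nat_lit 7) (nat_lit 0x20001c00080004000000000000000000000000000) (nat_lit 0x0) (nat_lit 0x8000c0002000370018000c00000000000000000000000) := T_1 (nat_lit 111) (nat_lit 94) (nat_lit 6) (nat_lit 8) (nat_lit 9) L26322 (by decide +kernel)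
theorem L26324 : W_1 (nat_lit 2) (nat_lit 0x30001c00080004000000000000000000000000000) (nat_lit 0x0) (nat_lit 0x8000c0000000000000000000000000000000000000000) := D_1 (nat_lit 162) (nat_lit 163) (nat_lit 179) (nat_lit 0) (nat_lit 10) (nat_lit 9) (nat_lit 7) (nat_lit 8) (nat_lit 6) (by decide +kernel)
theorem L26325 : W_1 (nat_lit 3) (nat_lit 0x20001c00080004000000000000000000000000000) (nat_lit 0x0) (nat_lit 0xa000d0000000000000000000000000000000000000000) := T_1 (nat_lit 160) (nat_lit 177) (nat_lit 5) (nat_lit 8) (nat_lit 6) L26324 (by decide +kernel)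
theorem L26326 : W_1 (nat_lit 10) (nat_lit 0x20001400080004000000000000000000000000000) (nat_lit 0x0) (nat_lit 0xa000dc006800370019800c80000000000000000000000) := Q_1 (nat_lit 143) (C_1 L26323 (C_1 L26301 (C_1 L26325 N_1))) (by decide +kernel)
theorem L26327 : W_1 (nat_lit 11) (nat_lit 0x20001000080004000000000000000000000000000) (nat_lit 0x0) (nat_lit 0xa000df006f00378019800c80000000000000000000000) := Q_1 (nat_lit 142) (C_1 L26267 (C_1 L26302 (C_1 L26306 (C_1 L26313 (C_1 L26318 (C_1 L26321 (C_1 L26326 N_1))))))) (by decide +kernel)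
theorem L26328 : W_1 (nat_lit 12) (nat_lit 0x1000080004000000000000000000000000000) (nat_lit 0x0) (nat_lit 0x14000e000ff006f00378019800c80000000000000000000000) := Q_1 (nat_lit 161) (C_1 L26123 (C_1 L24778 (C_1 L26060 (C_1 L26263 (C_1 L26327 N_1))))) (by decide +kernel)
theorem L26329 : W_1 (nat_lit 13) (nat_lit 0x1000080000000000000000000000000000000) (nat_lit 0x0) (nat_lit 0x14000f000ff006f0037801d800fc003e001400000000000000) := Q_1 (nat_lit 110) (C_1 L26120 (C_1 L26190 (C_1 L26194 (C_1 L26199 (C_1 L26200 (C_1 L26260 (C_1 L26328 N_1))))))) (by decide +kernel)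
theorem L26330 : W_1 (nat_lit 2) (nat_lit 0x10007800200010000c0000000000000000000000000000000) (nat_lit 0x0) (nat_lit 0x12000800000000000000000000000000000000000000000000) := D_1 (nat_lit 179) (nat_lit 196) (nat_lit 193) (nat_lit 7) (nat_lit 8) (nat_lit 7) (nat_lit 1) (nat_lit 9) (nat_lit 10) (by decide +kernel)
theorem L26331 : W_1 (nat_lit 3) (nat_lit 0x7800200010000c0000000000000000000000000000000) (nat_lit 0x0) (nat_lit 0x13800800000000000000000000000000000000000000000000) := T_1 (nat_lit 192) (nat_lit 191) (nat_lit 1) (nat_lit 8) (nat_lit 10) L26330 (by decide +kernel)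
theorem L26332 : W_1 (nat_lit 4) (nat_lit 0x7000200010000c0000000000000000000000000000000) (nat_lit 0x0) (nat_lit 0x13800880040000000000000000000000000000000000000000) := T_1 (nat_lit 175) (nat_lit 162) (nat_lit 2) (nat_lit 5) (nat_lit 10) L26331 (by decide +kernel)
theorem L26333 : W_1 (nat_lit 5) (nat_lit 0x700020001000080000000000000000000000000000000) (nat_lit 0x0) (nat_lit 0x13800880040000000040002000000000000000000000000000) := T_1 (nat_lit 126) (nat_lit 109) (nat_lit 4) (nat_lit 8) (nat_lit 10) L26332 (by decide +kernel)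
theorem L26334 : W_1 (nat_lit 2) (nat_lit 0x2000f000280010001c0000000000000000000000000000000) (nat_lit 0x0) (nat_lit 0x10000c00000000000000000000000000000000000) := D_1 (nat_lit 143) (nat_lit 160) (nat_lit 142) (nat_lit 5) (nat_lit 7) (nat_lit 7) (nat_lit 6) (nat_lit 6) (nat_lit 11) (by decide +kernel)
theorem L26335 : W_1 (nat_lit 3) (nat_lit 0x2000f000200010001c0000000000000000000000000000000) (nat_lit 0x0) (nat_lit 0x1c000c00000000000000000000000000000000000) := T_1 (nat_lit 159) (nat_lit 158) (nat_lit 0) (nat_lit 9) (nat_lit 10) L26334 (by decide +kernel)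
theorem L26336 : W_1 (nat_lit 4) (nat_lit 0xf000200010001c0000000000000000000000000000000) (nat_lit 0x0) (nat_lit 0x300000001c000c00000000000000000000000000000000000) := T_1 (nat_lit 193) (nat_lit 192) (nat_lit 1) (nat_lit 9) (nat_lit 10) L26335 (by decide +kernel)
theorem L26337 : W_1 (nat_lit 5) (nat_lit 0x7000200010001c0000000000000000000000000000000) (nat_lit 0x0) (nat_lit 0x1300080001c000c00000000000000000000000000000000000) := T_1 (nat_lit 179) (nat_lit 196) (nat_lit 7) (nat_lit 8) (nat_lit 7) L26336 (by decide +kernel)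
theorem L26338 : W_1 (nat_lit 6) (nat_lit 0x700020001000180000000000000000000000000000000) (nat_lit 0x0) (nat_lit 0x1300080001c000c00040002000000000000000000000000000) := T_1 (nat_lit 126) (nat_lit 109) (nat_lit 4) (nat_lit 8) (nat_lit 10) L26337 (by decide +kernel)
theorem L26339 : W_1 (nat_lit 7) (nat_lit 0x700020001000080000000000000000000000000000000) (nat_lit 0x0) (nat_lit 0x1300080001c000c0014000a000000000000000000000000000) := T_1 (nat_lit 128) (nat_lit 111) (nat_lit 6) (nat_lit 8) (nat_lit 10) L26338 (by decide +kernel)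
theorem L26340 : W_1 (nat_lit 2) (nat_lit 0xf00020001000080000000000000000000000000000000) (nat_lit 0x0) (nat_lit 0x800c0000000000000000000000000000000000000000) := D_1 (nat_lit 162) (nat_lit 163) (nat_lit 175) (nat_lit 2) (nat_lit 6) (nat_lit 10) (nat_lit 2) (nat_lit 5) (nat_lit 10) (by decide +kernel)
theorem L26341 : W_1 (nat_lit 3) (nat_lit 0x700020001000080000000000000000000000000000000) (nat_lit 0x0) (nat_lit 0x100008800c0000000000000000000000000000000000000000) := T_1 (nat_lit 179) (nat_lit 196) (nat_lit 7) (nat_lit 8) (nat_lit 7) L26340 (by decide +kernel)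
theorem L26342 : W_1 (nat_lit 2) (nat_lit 0x7c00200010001c0000000000000000000000000000000) (nat_lit 0x0) (nat_lit 0x1c00000000000000000000000000000000000000000000000) := D_1 (nat_lit 191) (nat_lit 190) (nat_lit 192) (nat_lit 1) (nat_lit 7) (nat_lit 10) (nat_lit 1) (nat_lit 8) (nat_lit 10) (by decide +kernel)
theorem L26343 : W_1 (nat_lit 3) (nat_lit 0x7800200010001c0000000000000000000000000000000) (nat_lit 0x0) (nat_lit 0x1c00040010000000000000000000000000000000000000000) := T_1 (nat_lit 174) (nat_lit 160) (nat_lit 2) (nat_lit 4) (nat_lit 10) L26342 (by decide +kernel)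
theorem L26344 : W_1 (nat_lit 4) (nat_lit 0x7000200010001c0000000000000000000000000000000) (nat_lit 0x0) (nat_lit 0x1c000c0050000000000000000000000000000000000000000) := T_1 (nat_lit 175) (nat_lit 162) (nat_lit 2) (nat_lit 5) (nat_lit 10) L26343 (by decide +kernel)
theorem L26345 : W_1 (nat_lit 5) (nat_lit 0x700020001000180000000000000000000000000000000) (nat_lit 0x0) (nat_lit 0x1c000c0050000000040002000000000000000000000000000) := T_1 (nat_lit 126) (nat_lit 109) (nat_lit 4) (nat_lit 8) (nat_lit 10) L26344 (by decide +kernel)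
theorem L26346 : W_1 (nat_lit 6) (nat_lit 0x700020001000080000000000000000000000000000000) (nat_lit 0x0) (nat_lit 0x1c000c005000000014000a000000000000000000000000000) := T_1 (nat_lit 128) (nat_lit 111) (nat_lit 6) (nat_lit 8) (nat_lit 10) L26345 (by decide +kernel)
theorem L26347 : W_1 (nat_lit 8) (nat_lit 0x600020001000080000000000000000000000000000000) (nat_lit 0x0) (nat_lit 0x13c009c00dc000c0014000a000000000000000000000000000) := Q_1 (nat_lit 176) (C_1 L26333 (C_1 L26339 (C_1 L26341 (C_1 L26346 N_1)))) (by decide +kernel)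
theorem L26348 : W_1 (nat_lit 9) (nat_lit 0x400020001000080000000000000000000000000000000) (nat_lit 0x0) (nat_lit 0x17c00bc00dc000c0014000a000000000000000000000000000) := T_1 (nat_lit 177) (nat_lit 194) (nat_lit 5) (nat_lit 8) (nat_lit 7) L26347 (by decide +kernel)
theorem L26349 : W_1 (nat_lit 10) (nat_lit 0x20001000080000000000000000000000000000000) (nat_lit 0x0) (nat_lit 0x20001fc00fc00dc002c0014000a000000000000000000000000000) := Q_1 (nat_lit 178) (C_1 L25064 (C_1 L25055 (C_1 L25043 (C_1 L26348 N_1)))) (by decide +kernel)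
theorem L26350 : W_1 (nat_lit 2) (nat_lit 0x20001000180007000000000000000000000000000) (nat_lit 0x0) (nat_lit 0x200008000400000000000000000000000) := D_1 (nat_lit 111) (nat_lit 94) (nat_lit 129) (nat_lit 6) (nat_lit 8) (nat_lit 9) (nat_lit 3) (nat_lit 6) (nat_lit 6) (by decide +kernel)
theorem L26351 : W_1 (nat_lit 3) (nat_lit 0x20001000180006000000000000000000000000000) (nat_lit 0x0) (nat_lit 0x200009800400000000000000000000000) := T_1 (nat_lit 108) (nat_lit 107) (nat_lit 3) (nat_lit 5) (nat_lit 6) L26350 (by decide +kernel)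
theorem L26352 : W_1 (nat_lit 4) (nat_lit 0x20001000180004000000000000000000000000000) (nat_lit 0x0) (nat_lit 0x20000b800500000000000000000000000) := T_1 (nat_lit 109) (nat_lit 92) (nat_lit 4) (nat_lit 8) (nat_lit 9) L26351 (by decide +kernel)
theorem L26353 : W_1 (nat_lit 2) (nat_lit 0x20001c0018000c000000000000000000000000000) (nat_lit 0x0) (nat_lit 0x2000240000000000000000000000000000000) := D_1 (nat_lit 129) (nat_lit 126) (nat_lit 145) (nat_lit 1) (nat_lit 10) (nat_lit 7) (nat_lit 2) (nat_lit 6) (nat_lit 8) (by decide +kernel)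
theorem L26354 : W_1 (nat_lit 3) (nat_lit 0x2000140018000c000000000000000000000000000) (nat_lit 0x0) (nat_lit 0x2a00240000000000000000000000000000000) := T_1 (nat_lit 143) (nat_lit 141) (nat_lit 2) (nat_lit 5) (nat_lit 8) L26353 (by decide +kernel)
theorem L26355 : W_1 (nat_lit 4) (nat_lit 0x20001400180004000000000000000000000000000) (nat_lit 0x0) (nat_lit 0x2a00240008000400000000000000000000000) := T_1 (nat_lit 111) (nat_lit 94) (nat_lit 6) (nat_lit 8) (nat_lit 9) L26354 (by decide +kernel)
theorem L26356 : W_1 (nat_lit 2) (nat_lit 0x7800140018000c000000000000000000000000000) (nat_lit 0x0) (nat_lit 0x4006000000000000000000000000000000000000) := D_1 (nat_lit 145) (nat_lit 158) (nat_lit 146) (nat_lit 2) (nat_lit 5) (nat_lit 9) (nat_lit 2) (nat_lit 6) (nat_lit 9) (by decide +kernel)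
theorem L26357 : W_1 (nat_lit 3) (nat_lit 0x7000140018000c000000000000000000000000000) (nat_lit 0x0) (nat_lit 0xc006200000000000000000000000000000000000) := T_1 (nat_lit 159) (nat_lit 141) (nat_lit 0) (nat_lit 9) (nat_lit 9) L26356 (by decide +kernel)
theorem L26358 : W_1 (nat_lit 4) (nat_lit 0x3000140018000c000000000000000000000000000) (nat_lit 0x0) (nat_lit 0x80004c006200000000000000000000000000000000000) := T_1 (nat_lit 162) (nat_lit 179) (nat_lit 7) (nat_lit 8) (nat_lit 6) L26357 (by decide +kernel)
theorem L26359 : W_1 (nat_lit 5) (nat_lit 0x30001400180004000000000000000000000000000) (nat_lit 0x0) (nat_lit 0x80004c006200000008000400000000000000000000000) := T_1 (nat_lit 111) (nat_lit 94) (nat_lit 6) (nat_lit 8) (nat_lit 9) L26358 (by decide +kernel)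
theorem L26360 : W_1 (nat_lit 6) (nat_lit 0x20001400180004000000000000000000000000000) (nat_lit 0x0) (nat_lit 0xa0005c006200000008000400000000000000000000000) := T_1 (nat_lit 160) (nat_lit 177) (nat_lit 5) (nat_lit 8) (nat_lit 6) L26359 (by decide +kernel)
theorem L26361 : W_1 (nat_lit 2) (nat_lit 0x60001600180004000000000000000000000000000) (nat_lit 0x0) (nat_lit 0x200018000000000000000000000000000000000000000) := D_1 (nat_lit 160) (nat_lit 177) (nat_lit 159) (nat_lit 5) (nat_lit 8) (nat_lit 6) (nat_lit 0) (nat_lit 9) (nat_lit 9) (by decide +kernel)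
theorem L26362 : W_1 (nat_lit 3) (nat_lit 0x60001400180004000000000000000000000000000) (nat_lit 0x0) (nat_lit 0x200018000a00000000000000000000000000000000000) := T_1 (nat_lit 141) (nat_lit 143) (nat_lit 3) (nat_lit 5) (nat_lit 8) L26361 (by decide +kernel)
theorem L26363 : W_1 (nat_lit 4) (nat_lit 0x20001400180004000000000000000000000000000) (nat_lit 0x0) (nat_lit 0xa00058000a00000000000000000000000000000000000) := T_1 (nat_lit 162) (nat_lit 179) (nat_lit 7) (nat_lit 8) (nat_lit 6) L26362 (by decide +kernel)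
theorem L26364 : W_1 (nat_lit 2) (nat_lit 0x70001c00180004000000000000000000000000000) (nat_lit 0x0) (nat_lit 0x2000240000000000000000000000000000000) := D_1 (nat_lit 129) (nat_lit 126) (nat_lit 145) (nat_lit 1) (nat_lit 10) (nat_lit 7) (nat_lit 2) (nat_lit 6) (nat_lit 8) (by decide +kernel)
theorem L26365 : W_1 (nat_lit 3) (nat_lit 0x70001400180004000000000000000000000000000) (nat_lit 0x0) (nat_lit 0x80002800240000000000000000000000000000000) := T_1 (nat_lit 143) (nat_lit 163) (nat_lit 0) (nat_lit 10) (nat_lit 9) L26364 (by decide +kernel)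
theorem L26366 : W_1 (nat_lit 4) (nat_lit 0x30001400180004000000000000000000000000000) (nat_lit 0x0) (nat_lit 0x8000c0002800240000000000000000000000000000000) := T_1 (nat_lit 162) (nat_lit 179) (nat_lit 7) (nat_lit 8) (nat_lit 6) L26365 (by decide +kernel)
theorem L26367 : W_1 (nat_lit 5) (nat_lit 0x20001400180004000000000000000000000000000) (nat_lit 0x0) (nat_lit 0xa000d0002800240000000000000000000000000000000) := T_1 (nat_lit 160) (nat_lit 177) (nat_lit 5) (nat_lit 8) (nat_lit 6) L26366 (by decide +kernel)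
theorem L26368 : W_1 (nat_lit 7) (nat_lit 0x20001000180004000000000000000000000000000) (nat_lit 0x0) (nat_lit 0xa000dc006e00240008000400000000000000000000000) := Q_1 (nat_lit 142) (C_1 L26355 (C_1 L26360 (C_1 L26363 (C_1 L26367 N_1)))) (by decide +kernel)
theorem L26369 : W_1 (nat_lit 2) (nat_lit 0x38001a001c0007000000000000000000000000000) (nat_lit 0x0) (nat_lit 0x4002100000000000000000000000000000000000) := D_1 (nat_lit 158) (nat_lit 145) (nat_lit 140) (nat_lit 2) (nat_lit 5) (nat_lit 9) (nat_lit 0) (nat_lit 8) (nat_lit 9) (by decide +kernel)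
theorem L26370 : W_1 (nat_lit 3) (nat_lit 0x30001a001c0007000000000000000000000000000) (nat_lit 0x0) (nat_lit 0x10000c002100000000000000000000000000000000000) := T_1 (nat_lit 159) (nat_lit 176) (nat_lit 5) (nat_lit 7) (nat_lit 6) L26369 (by decide +kernel)
theorem L26371 : W_1 (nat_lit 4) (nat_lit 0x300018001c0007000000000000000000000000000) (nat_lit 0x0) (nat_lit 0x10000c002700000000000000000000000000000000000) := T_1 (nat_lit 141) (nat_lit 142) (nat_lit 2) (nat_lit 5) (nat_lit 8) L26370 (by decide +kernel)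
theorem L26372 : W_1 (nat_lit 5) (nat_lit 0x300010001c0007000000000000000000000000000) (nat_lit 0x0) (nat_lit 0x10000c002f00000000000080000000000000000000000) := T_1 (nat_lit 143) (nat_lit 91) (nat_lit 4) (nat_lit 7) (nat_lit 9) L26371 (by decide +kernel)
theorem L26373 : W_1 (nat_lit 6) (nat_lit 0x200010001c0007000000000000000000000000000) (nat_lit 0x0) (nat_lit 0x30001c002f00000000000080000000000000000000000) := T_1 (nat_lit 160) (nat_lit 177) (nat_lit 5) (nat_lit 8) (nat_lit 6) L26372 (by decide +kernel)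
theorem L26374 : W_1 (nat_lit 7) (nat_lit 0x20001000180007000000000000000000000000000) (nat_lit 0x0) (nat_lit 0x30001c002f00240000000080000000000000000000000) := T_1 (nat_lit 126) (nat_lit 129) (nat_lit 0) (nat_lit 10) (nat_lit 7) L26373 (by decide +kernel)
theorem L26375 : W_1 (nat_lit 8) (nat_lit 0x20001000180006000000000000000000000000000) (nat_lit 0x0) (nat_lit 0x30001c002f00240001800080000000000000000000000) := T_1 (nat_lit 108) (nat_lit 107) (nat_lit 3) (nat_lit 5) (nat_lit 6) L26374 (by decide +kernel)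
theorem L26376 : W_1 (nat_lit 9) (nat_lit 0x20001000180004000000000000000000000000000) (nat_lit 0x0) (nat_lit 0x30001c002f00240003800180000000000000000000000) := T_1 (nat_lit 109) (nat_lit 92) (nat_lit 4) (nat_lit 8) (nat_lit 9) L26375 (by decide +kernel)
theorem L26377 : W_1 (nat_lit 2) (nat_lit 0x7000180018000f000080000000000000000000000) (nat_lit 0x0) (nat_lit 0x80000600000000000000000000000000000000000) := D_1 (nat_lit 142) (nat_lit 141) (nat_lit 163) (nat_lit 3) (nat_lit 5) (nat_lit 8) (nat_lit 0) (nat_lit 10) (nat_lit 9) (by decide +kernel)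
theorem L26378 : W_1 (nat_lit 3) (nat_lit 0x7000100018000f000080000000000000000000000) (nat_lit 0x0) (nat_lit 0x80000e00040000000000000000000000000000000) := T_1 (nat_lit 143) (nat_lit 126) (nat_lit 4) (nat_lit 7) (nat_lit 9) L26377 (by decide +kernel)
theorem L26379 : W_1 (nat_lit 4) (nat_lit 0x7000100018000f000000000000000000000000000) (nat_lit 0x0) (nat_lit 0x80000e000400000000c0000000000000000000000) := T_1 (nat_lit 91) (nat_lit 90) (nat_lit 0) (nat_lit 9) (nat_lit 6) L26378 (by decide +kernel)
theorem L26380 : W_1 (nat_lit 5) (nat_lit 0x6000100018000f000000000000000000000000000) (nat_lit 0x0) (nat_lit 0x200090000e000400000000c0000000000000000000000) := T_1 (nat_lit 160) (nat_lit 177) (nat_lit 5) (nat_lit 8) (nat_lit 6) L26379 (by decide +kernel)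
theorem L26381 : W_1 (nat_lit 6) (nat_lit 0x6000100018000e000000000000000000000000000) (nat_lit 0x0) (nat_lit 0x200090000e000400018000c0000000000000000000000) := T_1 (nat_lit 108) (nat_lit 107) (nat_lit 3) (nat_lit 5) (nat_lit 6) L26380 (by decide +kernel)
theorem L26382 : W_1 (nat_lit 7) (nat_lit 0x6000100018000c000000000000000000000000000) (nat_lit 0x0) (nat_lit 0x200090000e000400038001c0000000000000000000000) := T_1 (nat_lit 109) (nat_lit 92) (nat_lit 4) (nat_lit 8) (nat_lit 9) L26381 (by decide +kernel)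
theorem L26383 : W_1 (nat_lit 8) (nat_lit 0x60001000180004000000000000000000000000000) (nat_lit 0x0) (nat_lit 0x200090000e0004000b8005c0000000000000000000000) := T_1 (nat_lit 111) (nat_lit 94) (nat_lit 6) (nat_lit 8) (nat_lit 9) L26382 (by decide +kernel)
theorem L26384 : W_1 (nat_lit 9) (nat_lit 0x20001000180004000000000000000000000000000) (nat_lit 0x0) (nat_lit 0xa000d0000e0004000b8005c0000000000000000000000) := T_1 (nat_lit 162) (nat_lit 179) (nat_lit 7) (nat_lit 8) (nat_lit 6) L26383 (by decide +kernel)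
theorem L26385 : W_1 (nat_lit 10) (nat_lit 0x20001000080004000000000000000000000000000) (nat_lit 0x0) (nat_lit 0xb000dc006f0034000b8005c0000000000000000000000) := Q_1 (nat_lit 128) (C_1 L26352 (C_1 L26368 (C_1 L26376 (C_1 L26384 N_1)))) (by decide +kernel)
theorem L26386 : W_1 (nat_lit 11) (nat_lit 0x20001000080000000000000000000000000000000) (nat_lit 0x0) (nat_lit 0xb000dc006f0034000f8007c0028000000000000000000) := Q_1 (nat_lit 110) (C_1 L25220 (C_1 L25101 (C_1 L26385 N_1))) (by decide +kernel)
theorem L26387 : W_1 (nat_lit 12) (nat_lit 0x1000080000000000000000000000000000000) (nat_lit 0x0) (nat_lit 0x200030001fc00fc00fc006f0034000f8007c0038000400000000000000) := Q_1 (nat_lit 161) (C_1 L26349 (C_1 L25098 (C_1 L25084 (C_1 L25083 (C_1 L25092 (C_1 L24779 (C_1 L26386 N_1))))))) (by decide +kernel)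
theorem L26388 : W_1 (nat_lit 2) (nat_lit 0xe000600010001c0000000000000000000000000000000) (nat_lit 0x0) (nat_lit 0x180080000000000000000000000000000000000000000) := D_1 (nat_lit 176) (nat_lit 163) (nat_lit 175) (nat_lit 2) (nat_lit 6) (nat_lit 10) (nat_lit 2) (nat_lit 5) (nat_lit 10) (by decide +kernel)
theorem L26389 : W_1 (nat_lit 3) (nat_lit 0xc000600010001c0000000000000000000000000000000) (nat_lit 0x0) (nat_lit 0x4000380080000000000000000000000000000000000000000) := T_1 (nat_lit 177) (nat_lit 194) (nat_lit 5) (nat_lit 8) (nat_lit 7) L26388 (by decide +kernel)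
theorem L26390 : W_1 (nat_lit 4) (nat_lit 0xc000600010000c0000000000000000000000000000000) (nat_lit 0x0) (nat_lit 0x4000380080000000100008000000000000000000000000000) := T_1 (nat_lit 128) (nat_lit 111) (nat_lit 6) (nat_lit 8) (nat_lit 10) L26389 (by decide +kernel)
theorem L26391 : W_1 (nat_lit 5) (nat_lit 0x4000600010000c0000000000000000000000000000000) (nat_lit 0x0) (nat_lit 0x14000b80080000000100008000000000000000000000000000) := T_1 (nat_lit 179) (nat_lit 196) (nat_lit 7) (nat_lit 8) (nat_lit 7) L26390 (by decide +kernel)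
theorem L26392 : W_1 (nat_lit 6) (nat_lit 0x400060001000080000000000000000000000000000000) (nat_lit 0x0) (nat_lit 0x14000b8008000000014000a000000000000000000000000000) := T_1 (nat_lit 126) (nat_lit 109) (nat_lit 4) (nat_lit 8) (nat_lit 10) L26391 (by decide +kernel)
theorem L26393 : W_1 (nat_lit 2) (nat_lit 0x700060001000080000000000000000000000000000000) (nat_lit 0x0) (nat_lit 0x10000800080000000000000000000000000000000000000000) := D_1 (nat_lit 179) (nat_lit 196) (nat_lit 163) (nat_lit 7) (nat_lit 8) (nat_lit 7) (nat_lit 2) (nat_lit 6) (nat_lit 10) (by decide +kernel)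
theorem L26394 : W_1 (nat_lit 3) (nat_lit 0x600060001000080000000000000000000000000000000) (nat_lit 0x0) (nat_lit 0x10000980080000000000000000000000000000000000000000) := T_1 (nat_lit 176) (nat_lit 175) (nat_lit 2) (nat_lit 5) (nat_lit 10) L26393 (by decide +kernel)
theorem L26395 : W_1 (nat_lit 4) (nat_lit 0x400060001000080000000000000000000000000000000) (nat_lit 0x0) (nat_lit 0x14000b80080000000000000000000000000000000000000000) := T_1 (nat_lit 177) (nat_lit 194) (nat_lit 5) (nat_lit 8) (nat_lit 7) L26394 (by decide +kernel)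
theorem L26396 : W_1 (nat_lit 2) (nat_lit 0xc000600014001e0000000000000000000000000000000) (nat_lit 0x0) (nat_lit 0x6000010000000000000000000000000000000) := D_1 (nat_lit 145) (nat_lit 124) (nat_lit 146) (nat_lit 3) (nat_lit 5) (nat_lit 7) (nat_lit 3) (nat_lit 6) (nat_lit 7) (by decide +kernel)
theorem L26397 : W_1 (nat_lit 3) (nat_lit 0xc000600014001c0000000000000000000000000000000) (nat_lit 0x0) (nat_lit 0x6200030000000000000000000000000000000) := T_1 (nat_lit 125) (nat_lit 141) (nat_lit 1) (nat_lit 9) (nat_lit 7) L26396 (by decide +kernel)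
theorem L26398 : W_1 (nat_lit 4) (nat_lit 0xc00060001400180000000000000000000000000000000) (nat_lit 0x0) (nat_lit 0x6200070002000000000000000000000000000) := T_1 (nat_lit 126) (nat_lit 109) (nat_lit 4) (nat_lit 8) (nat_lit 10) L26397 (by decide +kernel)
theorem L26399 : W_1 (nat_lit 5) (nat_lit 0xc00060001400080000000000000000000000000000000) (nat_lit 0x0) (nat_lit 0x620017000a000000000000000000000000000) := T_1 (nat_lit 128) (nat_lit 111) (nat_lit 6) (nat_lit 8) (nat_lit 10) L26398 (by decide +kernel)
theorem L26400 : W_1 (nat_lit 6) (nat_lit 0x400060001400080000000000000000000000000000000) (nat_lit 0x0) (nat_lit 0x1000080000000620017000a000000000000000000000000000) := T_1 (nat_lit 179) (nat_lit 196) (nat_lit 7) (nat_lit 8) (nat_lit 7) L26399 (by decide +kernel)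
theorem L26401 : W_1 (nat_lit 2) (nat_lit 0xc00060003c000c0000000000000000000000000000000) (nat_lit 0x0) (nat_lit 0x4000030000000000000000000000000000000) := D_1 (nat_lit 125) (nat_lit 124) (nat_lit 146) (nat_lit 3) (nat_lit 5) (nat_lit 7) (nat_lit 0) (nat_lit 10) (nat_lit 8) (by decide +kernel)
theorem L26402 : W_1 (nat_lit 3) (nat_lit 0xc00060001c000c0000000000000000000000000000000) (nat_lit 0x0) (nat_lit 0x80006000030000000000000000000000000000000) := T_1 (nat_lit 145) (nat_lit 163) (nat_lit 3) (nat_lit 6) (nat_lit 8) L26401 (by decide +kernel)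
theorem L26403 : W_1 (nat_lit 4) (nat_lit 0xc000600014000c0000000000000000000000000000000) (nat_lit 0x0) (nat_lit 0x80006a00030000000000000000000000000000000) := T_1 (nat_lit 143) (nat_lit 141) (nat_lit 3) (nat_lit 5) (nat_lit 8) L26402 (by decide +kernel)
theorem L26404 : W_1 (nat_lit 5) (nat_lit 0x4000600014000c0000000000000000000000000000000) (nat_lit 0x0) (nat_lit 0x10000800080006a00030000000000000000000000000000000) := T_1 (nat_lit 179) (nat_lit 196) (nat_lit 7) (nat_lit 8) (nat_lit 7) L26403 (by decide +kernel)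
theorem L26405 : W_1 (nat_lit 6) (nat_lit 0x400060001400080000000000000000000000000000000) (nat_lit 0x0) (nat_lit 0x10000800080006a00070002000000000000000000000000000) := T_1 (nat_lit 126) (nat_lit 109) (nat_lit 4) (nat_lit 8) (nat_lit 10) L26404 (by decide +kernel)
theorem L26406 : W_1 (nat_lit 2) (nat_lit 0x400060001c00180000000000000000000000000000000) (nat_lit 0x0) (nat_lit 0x80002000200000000000000000000000000000000) := D_1 (nat_lit 145) (nat_lit 129) (nat_lit 163) (nat_lit 2) (nat_lit 6) (nat_lit 8) (nat_lit 3) (nat_lit 6) (nat_lit 8) (by decide +kernel)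
theorem L26407 : W_1 (nat_lit 3) (nat_lit 0x400060001c00080000000000000000000000000000000) (nat_lit 0x0) (nat_lit 0x80002000300008000000000000000000000000000) := T_1 (nat_lit 128) (nat_lit 111) (nat_lit 6) (nat_lit 8) (nat_lit 10) L26406 (by decide +kernel)
theorem L26408 : W_1 (nat_lit 4) (nat_lit 0x400060001400080000000000000000000000000000000) (nat_lit 0x0) (nat_lit 0x80002a00300008000000000000000000000000000) := T_1 (nat_lit 143) (nat_lit 141) (nat_lit 3) (nat_lit 5) (nat_lit 8) L26407 (by decide +kernel)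
theorem L26409 : W_1 (nat_lit 2) (nat_lit 0x4000600016000c0000000000000000000000000000000) (nat_lit 0x0) (nat_lit 0x120008000000000000000000000000000) := D_1 (nat_lit 128) (nat_lit 125) (nat_lit 111) (nat_lit 1) (nat_lit 9) (nat_lit 7) (nat_lit 6) (nat_lit 8) (nat_lit 10) (by decide +kernel)
theorem L26410 : W_1 (nat_lit 3) (nat_lit 0x400060001600080000000000000000000000000000000) (nat_lit 0x0) (nat_lit 0x16000a000000000000000000000000000) := T_1 (nat_lit 126) (nat_lit 109) (nat_lit 4) (nat_lit 8) (nat_lit 10) L26409 (by decide +kernel)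
theorem L26411 : W_1 (nat_lit 4) (nat_lit 0x400060001400080000000000000000000000000000000) (nat_lit 0x0) (nat_lit 0xa0016000a000000000000000000000000000) := T_1 (nat_lit 141) (nat_lit 143) (nat_lit 3) (nat_lit 5) (nat_lit 8) L26410 (by decide +kernel)
theorem L26412 : W_1 (nat_lit 2) (nat_lit 0xc000600034003c0000000000000000000000000000000) (nat_lit 0x0) (nat_lit 0x4000030000000000000000000000000000000) := D_1 (nat_lit 125) (nat_lit 146) (nat_lit 124) (nat_lit 3) (nat_lit 6) (nat_lit 7) (nat_lit 3) (nat_lit 5) (nat_lit 7) (by decide +kernel)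
theorem L26413 : W_1 (nat_lit 3) (nat_lit 0xc000600014003c0000000000000000000000000000000) (nat_lit 0x0) (nat_lit 0x6000030010000000000000000000000000000) := T_1 (nat_lit 145) (nat_lit 112) (nat_lit 6) (nat_lit 9) (nat_lit 10) L26412 (by decide +kernel)
theorem L26414 : W_1 (nat_lit 4) (nat_lit 0x4000600014003c0000000000000000000000000000000) (nat_lit 0x0) (nat_lit 0x10000800000006000030010000000000000000000000000000) := T_1 (nat_lit 179) (nat_lit 196) (nat_lit 7) (nat_lit 8) (nat_lit 7) L26413 (by decide +kernel)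
theorem L26415 : W_1 (nat_lit 5) (nat_lit 0x4000600014001c0000000000000000000000000000000) (nat_lit 0x0) (nat_lit 0x10000800000006800230010000000000000000000000000000) := T_1 (nat_lit 129) (nat_lit 143) (nat_lit 1) (nat_lit 10) (nat_lit 7) L26414 (by decide +kernel)
theorem L26416 : W_1 (nat_lit 6) (nat_lit 0x400060001400180000000000000000000000000000000) (nat_lit 0x0) (nat_lit 0x10000800000006800270012000000000000000000000000000) := T_1 (nat_lit 126) (nat_lit 109) (nat_lit 4) (nat_lit 8) (nat_lit 10) L26415 (by decide +kernel)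
theorem L26417 : W_1 (nat_lit 7) (nat_lit 0x400060001400080000000000000000000000000000000) (nat_lit 0x0) (nat_lit 0x1000080000000680037001a000000000000000000000000000) := T_1 (nat_lit 128) (nat_lit 111) (nat_lit 6) (nat_lit 8) (nat_lit 10) L26416 (by decide +kernel)
theorem L26418 : W_1 (nat_lit 8) (nat_lit 0x400060001000080000000000000000000000000000000) (nat_lit 0x0) (nat_lit 0x10000800080006e0037001a000000000000000000000000000) := Q_1 (nat_lit 142) (C_1 L26400 (C_1 L26405 (C_1 L26408 (C_1 L26411 (C_1 L26417 N_1))))) (by decide +kernel)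
theorem L26419 : W_1 (nat_lit 2) (nat_lit 0x6800600014001e0000000000000000000000000000000) (nat_lit 0x0) (nat_lit 0x6000010000000000000000000000000000000) := D_1 (nat_lit 145) (nat_lit 124) (nat_lit 146) (nat_lit 3) (nat_lit 5) (nat_lit 7) (nat_lit 3) (nat_lit 6) (nat_lit 7) (by decide +kernel)
theorem L26420 : W_1 (nat_lit 3) (nat_lit 0x6800600014001c0000000000000000000000000000000) (nat_lit 0x0) (nat_lit 0x6200030000000000000000000000000000000) := T_1 (nat_lit 125) (nat_lit 141) (nat_lit 1) (nat_lit 9) (nat_lit 7) L26419 (by decide +kernel)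
theorem L26421 : W_1 (nat_lit 4) (nat_lit 0x680060001400180000000000000000000000000000000) (nat_lit 0x0) (nat_lit 0x6200070002000000000000000000000000000) := T_1 (nat_lit 126) (nat_lit 109) (nat_lit 4) (nat_lit 8) (nat_lit 10) L26420 (by decide +kernel)
theorem L26422 : W_1 (nat_lit 5) (nat_lit 0x680060001400080000000000000000000000000000000) (nat_lit 0x0) (nat_lit 0x620017000a000000000000000000000000000) := T_1 (nat_lit 128) (nat_lit 111) (nat_lit 6) (nat_lit 8) (nat_lit 10) L26421 (by decide +kernel)
theorem L26423 : W_1 (nat_lit 6) (nat_lit 0x600060001400080000000000000000000000000000000) (nat_lit 0x0) (nat_lit 0x18000000620017000a000000000000000000000000000) := T_1 (nat_lit 175) (nat_lit 176) (nat_lit 2) (nat_lit 5) (nat_lit 10) L26422 (by decide +kernel)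
theorem L26424 : W_1 (nat_lit 7) (nat_lit 0x400060001400080000000000000000000000000000000) (nat_lit 0x0) (nat_lit 0x400038000000620017000a000000000000000000000000000) := T_1 (nat_lit 177) (nat_lit 194) (nat_lit 5) (nat_lit 8) (nat_lit 7) L26423 (by decide +kernel)
theorem L26425 : W_1 (nat_lit 2) (nat_lit 0x680060003c000c0000000000000000000000000000000) (nat_lit 0x0) (nat_lit 0x4000030000000000000000000000000000000) := D_1 (nat_lit 125) (nat_lit 124) (nat_lit 146) (nat_lit 3) (nat_lit 5) (nat_lit 7) (nat_lit 0) (nat_lit 10) (nat_lit 8) (by decide +kernel)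
theorem L26426 : W_1 (nat_lit 3) (nat_lit 0x680060001c000c0000000000000000000000000000000) (nat_lit 0x0) (nat_lit 0x80006000030000000000000000000000000000000) := T_1 (nat_lit 145) (nat_lit 163) (nat_lit 3) (nat_lit 6) (nat_lit 8) L26425 (by decide +kernel)
theorem L26427 : W_1 (nat_lit 4) (nat_lit 0x6800600014000c0000000000000000000000000000000) (nat_lit 0x0) (nat_lit 0x80006a00030000000000000000000000000000000) := T_1 (nat_lit 143) (nat_lit 141) (nat_lit 3) (nat_lit 5) (nat_lit 8) L26426 (by decide +kernel)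
theorem L26428 : W_1 (nat_lit 5) (nat_lit 0x6000600014000c0000000000000000000000000000000) (nat_lit 0x0) (nat_lit 0x180080006a00030000000000000000000000000000000) := T_1 (nat_lit 175) (nat_lit 176) (nat_lit 2) (nat_lit 5) (nat_lit 10) L26427 (by decide +kernel)
theorem L26429 : W_1 (nat_lit 6) (nat_lit 0x4000600014000c0000000000000000000000000000000) (nat_lit 0x0) (nat_lit 0x4000380080006a00030000000000000000000000000000000) := T_1 (nat_lit 177) (nat_lit 194) (nat_lit 5) (nat_lit 8) (nat_lit 7) L26428 (by decide +kernel)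
theorem L26430 : W_1 (nat_lit 7) (nat_lit 0x400060001400080000000000000000000000000000000) (nat_lit 0x0) (nat_lit 0x4000380080006a00070002000000000000000000000000000) := T_1 (nat_lit 126) (nat_lit 109) (nat_lit 4) (nat_lit 8) (nat_lit 10) L26429 (by decide +kernel)
theorem L26431 : W_1 (nat_lit 2) (nat_lit 0x680060003c001c0000000000000000000000000000000) (nat_lit 0x0) (nat_lit 0x4000030000000000000000000000000000000) := D_1 (nat_lit 125) (nat_lit 146) (nat_lit 124) (nat_lit 3) (nat_lit 6) (nat_lit 7) (nat_lit 3) (nat_lit 5) (nat_lit 7) (by decide +kernel)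
theorem L26432 : W_1 (nat_lit 3) (nat_lit 0x680060001c001c0000000000000000000000000000000) (nat_lit 0x0) (nat_lit 0x80006000030000000000000000000000000000000) := T_1 (nat_lit 145) (nat_lit 163) (nat_lit 3) (nat_lit 6) (nat_lit 8) L26431 (by decide +kernel)
theorem L26433 : W_1 (nat_lit 4) (nat_lit 0x6800600014001c0000000000000000000000000000000) (nat_lit 0x0) (nat_lit 0x80006800230000000000000000000000000000000) := T_1 (nat_lit 143) (nat_lit 129) (nat_lit 1) (nat_lit 10) (nat_lit 7) L26432 (by decide +kernel)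
theorem L26434 : W_1 (nat_lit 5) (nat_lit 0x6800600014000c0000000000000000000000000000000) (nat_lit 0x0) (nat_lit 0x80006800330008000000000000000000000000000) := T_1 (nat_lit 128) (nat_lit 111) (nat_lit 6) (nat_lit 8) (nat_lit 10) L26433 (by decide +kernel)
theorem L26435 : W_1 (nat_lit 6) (nat_lit 0x6000600014000c0000000000000000000000000000000) (nat_lit 0x0) (nat_lit 0x180080006800330008000000000000000000000000000) := T_1 (nat_lit 175) (nat_lit 176) (nat_lit 2) (nat_lit 5) (nat_lit 10) L26434 (by decide +kernel)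
theorem L26436 : W_1 (nat_lit 7) (nat_lit 0x4000600014000c0000000000000000000000000000000) (nat_lit 0x0) (nat_lit 0x4000380080006800330008000000000000000000000000000) := T_1 (nat_lit 177) (nat_lit 194) (nat_lit 5) (nat_lit 8) (nat_lit 7) L26435 (by decide +kernel)
theorem L26437 : W_1 (nat_lit 8) (nat_lit 0x400060001400080000000000000000000000000000000) (nat_lit 0x0) (nat_lit 0x400038008000680037000a000000000000000000000000000) := T_1 (nat_lit 126) (nat_lit 109) (nat_lit 4) (nat_lit 8) (nat_lit 10) L26436 (by decide +kernel)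
theorem L26438 : W_1 (nat_lit 9) (nat_lit 0x400060001000080000000000000000000000000000000) (nat_lit 0x0) (nat_lit 0x4000380080006e0037000a000000000000000000000000000) := Q_1 (nat_lit 142) (C_1 L26424 (C_1 L26430 (C_1 L26411 (C_1 L26408 (C_1 L26437 N_1))))) (by decide +kernel)
theorem L26439 : W_1 (nat_lit 2) (nat_lit 0x2000f000680014001c0000000000000000000000000000000) (nat_lit 0x0) (nat_lit 0x200030000000000000000000000000000000) := D_1 (nat_lit 141) (nat_lit 124) (nat_lit 125) (nat_lit 4) (nat_lit 6) (nat_lit 11) (nat_lit 1) (nat_lit 9) (nat_lit 7) (by decide +kernel)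
theorem L26440 : W_1 (nat_lit 3) (nat_lit 0x2000f000680010001c0000000000000000000000000000000) (nat_lit 0x0) (nat_lit 0xe00030000000000000000000000000000000) := T_1 (nat_lit 142) (nat_lit 143) (nat_lit 6) (nat_lit 6) (nat_lit 11) L26439 (by decide +kernel)
theorem L26441 : W_1 (nat_lit 4) (nat_lit 0x2000f000600010001c0000000000000000000000000000000) (nat_lit 0x0) (nat_lit 0xc000e00030000000000000000000000000000000) := T_1 (nat_lit 159) (nat_lit 158) (nat_lit 0) (nat_lit 9) (nat_lit 10) L26440 (by decide +kernel)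
theorem L26442 : W_1 (nat_lit 5) (nat_lit 0xf000600010001c0000000000000000000000000000000) (nat_lit 0x0) (nat_lit 0x300000000c000e00030000000000000000000000000000000) := T_1 (nat_lit 193) (nat_lit 192) (nat_lit 1) (nat_lit 9) (nat_lit 10) L26441 (by decide +kernel)
theorem L26443 : W_1 (nat_lit 6) (nat_lit 0xe000600010001c0000000000000000000000000000000) (nat_lit 0x0) (nat_lit 0x300018000c000e00030000000000000000000000000000000) := T_1 (nat_lit 176) (nat_lit 175) (nat_lit 2) (nat_lit 5) (nat_lit 10) L26442 (by decide +kernel)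
theorem L26444 : W_1 (nat_lit 7) (nat_lit 0xc000600010001c0000000000000000000000000000000) (nat_lit 0x0) (nat_lit 0x700038000c000e00030000000000000000000000000000000) := T_1 (nat_lit 177) (nat_lit 194) (nat_lit 5) (nat_lit 8) (nat_lit 7) L26443 (by decide +kernel)
theorem L26445 : W_1 (nat_lit 8) (nat_lit 0xc00060001000180000000000000000000000000000000) (nat_lit 0x0) (nat_lit 0x700038000c000e00070002000000000000000000000000000) := T_1 (nat_lit 126) (nat_lit 109) (nat_lit 4) (nat_lit 8) (nat_lit 10) L26444 (by decide +kernel)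
theorem L26446 : W_1 (nat_lit 9) (nat_lit 0x400060001000180000000000000000000000000000000) (nat_lit 0x0) (nat_lit 0x17000b8000c000e00070002000000000000000000000000000) := T_1 (nat_lit 179) (nat_lit 196) (nat_lit 7) (nat_lit 8) (nat_lit 7) L26445 (by decide +kernel)
theorem L26447 : W_1 (nat_lit 10) (nat_lit 0x400060001000080000000000000000000000000000000) (nat_lit 0x0) (nat_lit 0x17000b8000c000e0017000a000000000000000000000000000) := T_1 (nat_lit 128) (nat_lit 111) (nat_lit 6) (nat_lit 8) (nat_lit 10) L26446 (by decide +kernel)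
theorem L26448 : W_1 (nat_lit 11) (nat_lit 0x400020001000080000000000000000000000000000000) (nat_lit 0x0) (nat_lit 0x17000b800cc006e0037001a000000000000000000000000000) := Q_1 (nat_lit 162) (C_1 L26392 (C_1 L26395 (C_1 L26418 (C_1 L26438 (C_1 L26447 N_1))))) (by decide +kernel)
theorem L26449 : W_1 (nat_lit 12) (nat_lit 0x20001000080000000000000000000000000000000) (nat_lit 0x0) (nat_lit 0x20001f000f800cc006e0037001a000000000000000000000000000) := Q_1 (nat_lit 178) (C_1 L25064 (C_1 L25055 (C_1 L25043 (C_1 L26448 N_1)))) (by decide +kernel)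
theorem L26450 : W_1 (nat_lit 5) (nat_lit 0x20001000080000000000000000000000000000000) (nat_lit 0x0) (nat_lit 0x10000c0004000200004000e000700028000000000000000000) := Q_1 (nat_lit 110) (C_1 L26126 (C_1 L25101 (C_1 L24627 N_1))) (by decide +kernel)
theorem L26451 : W_1 (nat_lit 2) (nat_lit 0xe00060001000080000000000000000000000000000000) (nat_lit 0x0) (nat_lit 0x180080000000000000000000000000000000000000000) := D_1 (nat_lit 176) (nat_lit 163) (nat_lit 175) (nat_lit 2) (nat_lit 6) (nat_lit 10) (nat_lit 2) (nat_lit 5) (nat_lit 10) (by decide +kernel)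
theorem L26452 : W_1 (nat_lit 3) (nat_lit 0xe00020001000080000000000000000000000000000000) (nat_lit 0x0) (nat_lit 0x1800c0000000000004000000000000000000000000000) := T_1 (nat_lit 162) (nat_lit 110) (nat_lit 7) (nat_lit 8) (nat_lit 6) L26451 (by decide +kernel)
theorem L26453 : W_1 (nat_lit 4) (nat_lit 0x600020001000080000000000000000000000000000000) (nat_lit 0x0) (nat_lit 0x100009800c0000000000004000000000000000000000000000) := T_1 (nat_lit 179) (nat_lit 196) (nat_lit 7) (nat_lit 8) (nat_lit 7) L26452 (by decide +kernel)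
theorem L26454 : W_1 (nat_lit 5) (nat_lit 0x400020001000080000000000000000000000000000000) (nat_lit 0x0) (nat_lit 0x14000b800c0000000000004000000000000000000000000000) := T_1 (nat_lit 177) (nat_lit 194) (nat_lit 5) (nat_lit 8) (nat_lit 7) L26453 (by decide +kernel)
theorem L26455 : W_1 (nat_lit 2) (nat_lit 0x4000400020001000180000000000000000000000000000000) (nat_lit 0x0) (nat_lit 0x80008000000000002000000000000000000000000000000000000) := D_1 (nat_lit 195) (nat_lit 145) (nat_lit 211) (nat_lit 6) (nat_lit 8) (nat_lit 11) (nat_lit 5) (nat_lit 8) (nat_lit 8) (by decide +kernel)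
theorem L26456 : W_1 (nat_lit 3) (nat_lit 0x400020001000180000000000000000000000000000000) (nat_lit 0x0) (nat_lit 0x8000c000200000002000000000000000000000000000000000000) := T_1 (nat_lit 194) (nat_lit 177) (nat_lit 5) (nat_lit 8) (nat_lit 7) L26455 (by decide +kernel)
theorem L26457 : W_1 (nat_lit 4) (nat_lit 0x400020001000080000000000000000000000000000000) (nat_lit 0x0) (nat_lit 0x8000c000200000002000100008000000000000000000000000000) := T_1 (nat_lit 128) (nat_lit 111) (nat_lit 6) (nat_lit 8) (nat_lit 10) L26456 (by decide +kernel)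
theorem L26458 : W_1 (nat_lit 6) (nat_lit 0x20001000080000000000000000000000000000000) (nat_lit 0x0) (nat_lit 0x28001c000f800c000200010000c000000000000000000000000000) := Q_1 (nat_lit 178) (C_1 L25064 (C_1 L26454 (C_1 L26457 N_1))) (by decide +kernel)
theorem L26459 : W_1 (nat_lit 2) (nat_lit 0x1000080006000200030000d0000000000000000000000000000000) (nat_lit 0x0) (nat_lit 0x4000200010000000000000000000000000000000000000000000000000) := D_1 (nat_lit 213) (nat_lit 196) (nat_lit 230) (nat_lit 7) (nat_lit 8) (nat_lit 8) (nat_lit 7) (nat_lit 8) (nat_lit 9) (by decide +kernel)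
theorem L26460 : W_1 (nat_lit 3) (nat_lit 0x80006000200030000d0000000000000000000000000000000) (nat_lit 0x0) (nat_lit 0x4000300010000000040000000000000000000000000000000000000000) := T_1 (nat_lit 212) (nat_lit 162) (nat_lit 6) (nat_lit 8) (nat_lit 12) L26459 (by decide +kernel)
theorem L26461 : W_1 (nat_lit 4) (nat_lit 0x80006000200030000c0000000000000000000000000000000) (nat_lit 0x0) (nat_lit 0x4000300010000000040000000030000000000000000000000000000000) := T_1 (nat_lit 124) (nat_lit 125) (nat_lit 3) (nat_lit 5) (nat_lit 7) L26460 (by decide +kernel)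
theorem L26462 : W_1 (nat_lit 5) (nat_lit 0x80006000200010000c0000000000000000000000000000000) (nat_lit 0x0) (nat_lit 0x4000300010000000040002000130000000000000000000000000000000) := T_1 (nat_lit 145) (nat_lit 128) (nat_lit 6) (nat_lit 8) (nat_lit 11) L26461 (by decide +kernel)
theorem L26463 : W_1 (nat_lit 6) (nat_lit 0x6000200010000c0000000000000000000000000000000) (nat_lit 0x0) (nat_lit 0x4000300018000000040002800130000000000000000000000000000000) := T_1 (nat_lit 195) (nat_lit 143) (nat_lit 4) (nat_lit 8) (nat_lit 11) L26462 (by decide +kernel)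
theorem L26464 : W_1 (nat_lit 7) (nat_lit 0x4000200010000c0000000000000000000000000000000) (nat_lit 0x0) (nat_lit 0x400030001c000200040002800130000000000000000000000000000000) := T_1 (nat_lit 177) (nat_lit 194) (nat_lit 5) (nat_lit 8) (nat_lit 7) L26463 (by decide +kernel)
theorem L26465 : W_1 (nat_lit 8) (nat_lit 0x400020001000080000000000000000000000000000000) (nat_lit 0x0) (nat_lit 0x400030001c000200040002800170002000000000000000000000000000) := T_1 (nat_lit 126) (nat_lit 109) (nat_lit 4) (nat_lit 8) (nat_lit 10) L26464 (by decide +kernel)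
theorem L26466 : W_1 (nat_lit 2) (nat_lit 0x50001000080006000200030000d0000000000000000000000000000000) (nat_lit 0x0) (nat_lit 0xa0002000000000000000000000000000000000000000000000000000000000) := D_1 (nat_lit 229) (nat_lit 245) (nat_lit 247) (nat_lit 5) (nat_lit 8) (nat_lit 10) (nat_lit 7) (nat_lit 8) (nat_lit 10) (by decide +kernel)
theorem L26467 : W_1 (nat_lit 3) (nat_lit 0x10001000080006000200030000d0000000000000000000000000000000) (nat_lit 0x0) (nat_lit 0xa0006000200000000000000000000000000000000000000000000000000000) := T_1 (nat_lit 230) (nat_lit 213) (nat_lit 7) (nat_lit 8) (nat_lit 9) L26466 (by decide +kernel)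
theorem L26468 : W_1 (nat_lit 4) (nat_lit 0x1000080006000200030000d0000000000000000000000000000000) (nat_lit 0x0) (nat_lit 0xa0007000280000000000000000000000000000000000000000000000000000) := T_1 (nat_lit 228) (nat_lit 211) (nat_lit 5) (nat_lit 8) (nat_lit 9) L26467 (by decide +kernel)
theorem L26469 : W_1 (nat_lit 5) (nat_lit 0x80006000200030000d0000000000000000000000000000000) (nat_lit 0x0) (nat_lit 0xa0007000380000000000040000000000000000000000000000000000000000) := T_1 (nat_lit 212) (nat_lit 162) (nat_lit 6) (nat_lit 8) (nat_lit 12) L26468 (by decide +kernel)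
theorem L26470 : W_1 (nat_lit 6) (nat_lit 0x80006000200030000c0000000000000000000000000000000) (nat_lit 0x0) (nat_lit 0xa0007000380000000000040000000030000000000000000000000000000000) := T_1 (nat_lit 124) (nat_lit 125) (nat_lit 3) (nat_lit 5) (nat_lit 7) L26469 (by decide +kernel)
theorem L26471 : W_1 (nat_lit 7) (nat_lit 0x80006000200010000c0000000000000000000000000000000) (nat_lit 0x0) (nat_lit 0xa0007000380000000000040002000130000000000000000000000000000000) := T_1 (nat_lit 145) (nat_lit 128) (nat_lit 6) (nat_lit 8) (nat_lit 11) L26470 (by decide +kernel)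
theorem L26472 : W_1 (nat_lit 8) (nat_lit 0x6000200010000c0000000000000000000000000000000) (nat_lit 0x0) (nat_lit 0xa0007000380008000000040002800130000000000000000000000000000000) := T_1 (nat_lit 195) (nat_lit 143) (nat_lit 4) (nat_lit 8) (nat_lit 11) L26471 (by decide +kernel)
theorem L26473 : W_1 (nat_lit 9) (nat_lit 0x4000200010000c0000000000000000000000000000000) (nat_lit 0x0) (nat_lit 0xa000700038000c000200040002800130000000000000000000000000000000) := T_1 (nat_lit 177) (nat_lit 194) (nat_lit 5) (nat_lit 8) (nat_lit 7) L26472 (by decide +kernel)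
theorem L26474 : W_1 (nat_lit 10) (nat_lit 0x400020001000080000000000000000000000000000000) (nat_lit 0x0) (nat_lit 0xa000700038000c000200040002800170002000000000000000000000000000) := T_1 (nat_lit 126) (nat_lit 109) (nat_lit 4) (nat_lit 8) (nat_lit 10) L26473 (by decide +kernel)
theorem L26475 : W_1 (nat_lit 11) (nat_lit 0x20001000080000000000000000000000000000000) (nat_lit 0x0) (nat_lit 0xa000700038001c000f800c0002800170006000000000000000000000000000) := Q_1 (nat_lit 178) (C_1 L26454 (C_1 L25055 (C_1 L26465 (C_1 L26474 N_1)))) (by decide +kernel)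
theorem L26476 : W_1 (nat_lit 6) (nat_lit 0x20001000080000000000000000000000000000000) (nat_lit 0x0) (nat_lit 0x20001c000f800c000080014000e000500000000000000000000000) := Q_1 (nat_lit 178) (C_1 L26454 (C_1 L25055 (C_1 L25067 N_1))) (by decide +kernel)
theorem L26477 : W_1 (nat_lit 2) (nat_lit 0x60003c001e0007000000000000000000000000000) (nat_lit 0x0) (nat_lit 0x10000c000000000000000000000000000000000000000) := D_1 (nat_lit 159) (nat_lit 158) (nat_lit 176) (nat_lit 1) (nat_lit 9) (nat_lit 8) (nat_lit 6) (nat_lit 6) (nat_lit 10) (by decide +kernel)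
theorem L26478 : W_1 (nat_lit 3) (nat_lit 0x600034001e0007000000000000000000000000000) (nat_lit 0x0) (nat_lit 0x10008c000800000000000000000000000000000000000) := T_1 (nat_lit 143) (nat_lit 163) (nat_lit 3) (nat_lit 6) (nat_lit 8) L26477 (by decide +kernel)
theorem L26479 : W_1 (nat_lit 4) (nat_lit 0x600014001e0007000000000000000000000000000) (nat_lit 0x0) (nat_lit 0x10008c006800000000000000000000000000000000000) := T_1 (nat_lit 145) (nat_lit 146) (nat_lit 3) (nat_lit 6) (nat_lit 7) L26478 (by decide +kernel)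
theorem L26480 : W_1 (nat_lit 5) (nat_lit 0x600014001e0005000000000000000000000000000) (nat_lit 0x0) (nat_lit 0x10008c006800000002000100000000000000000000000) := T_1 (nat_lit 109) (nat_lit 92) (nat_lit 4) (nat_lit 8) (nat_lit 9) L26479 (by decide +kernel)
theorem L26481 : W_1 (nat_lit 6) (nat_lit 0x600010001e0005000000000000000000000000000) (nat_lit 0x0) (nat_lit 0x10008c006e00000002000100000000000000000000000) := T_1 (nat_lit 142) (nat_lit 141) (nat_lit 1) (nat_lit 9) (nat_lit 7) L26480 (by decide +kernel)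
theorem L26482 : W_1 (nat_lit 7) (nat_lit 0x600010001e0004000000000000000000000000000) (nat_lit 0x0) (nat_lit 0x10008c006e00000003800100000000000000000000000) := T_1 (nat_lit 108) (nat_lit 107) (nat_lit 0) (nat_lit 9) (nat_lit 7) L26481 (by decide +kernel)
theorem L26483 : W_1 (nat_lit 8) (nat_lit 0x200010001e0004000000000000000000000000000) (nat_lit 0x0) (nat_lit 0x9000cc006e00000003800100000000000000000000000) := T_1 (nat_lit 162) (nat_lit 179) (nat_lit 7) (nat_lit 8) (nat_lit 6) L26482 (by decide +kernel)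
theorem L26484 : W_1 (nat_lit 9) (nat_lit 0x200010000e0004000000000000000000000000000) (nat_lit 0x0) (nat_lit 0x9000cc006e00300003800100000000000000000000000) := Q_1 (nat_lit 128) (C_1 L26161 (C_1 L26169 (C_1 L26167 (C_1 L26483 N_1)))) (by decide +kernel)
theorem L26485 : W_1 (nat_lit 10) (nat_lit 0x200010000a0004000000000000000000000000000) (nat_lit 0x0) (nat_lit 0x9000cc006f80358003c00100000000000000000000000) := Q_1 (nat_lit 126) (C_1 L26149 (C_1 L26143 (C_1 L26065 (C_1 L26484 N_1)))) (by decide +kernel)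
theorem L26486 : W_1 (nat_lit 10) (nat_lit 0x200010000a0004000000000000000000000000000) (nat_lit 0x0) (nat_lit 0x9000cc006e0034001b800500000000000000000000000) := Q_1 (nat_lit 126) (C_1 L26181 (C_1 L26484 (C_1 L26179 N_1))) (by decide +kernel)
theorem L26487 : W_1 (nat_lit 11) (nat_lit 0x20001000080004000000000000000000000000000) (nat_lit 0x0) (nat_lit 0x9000cc006f8037801bc00500000000000000000000000) := Q_1 (nat_lit 125) (C_1 L26141 (C_1 L26136 (C_1 L26129 (C_1 L26485 (C_1 L26486 N_1))))) (by decide +kernel)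
theorem L26488 : W_1 (nat_lit 12) (nat_lit 0x20001000080000000000000000000000000000000) (nat_lit 0x0) (nat_lit 0x9000cc006f8037801fc00700028000000000000000000) := Q_1 (nat_lit 110) (C_1 L25101 (C_1 L24627 (C_1 L24620 (C_1 L26487 N_1)))) (by decide +kernel)
theorem L26489 : W_1 (nat_lit 2) (nat_lit 0x40004000200010000c0000000000000000000000000000000) (nat_lit 0x0) (nat_lit 0x80008000000000000800000000000000000000000000000000000) := D_1 (nat_lit 195) (nat_lit 143) (nat_lit 211) (nat_lit 4) (nat_lit 8) (nat_lit 11) (nat_lit 5) (nat_lit 8) (nat_lit 8) (by decide +kernel)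
theorem L26490 : W_1 (nat_lit 3) (nat_lit 0x4000200010000c0000000000000000000000000000000) (nat_lit 0x0) (nat_lit 0x8000c000200000000800000000000000000000000000000000000) := T_1 (nat_lit 194) (nat_lit 177) (nat_lit 5) (nat_lit 8) (nat_lit 7) L26489 (by decide +kernel)
theorem L26491 : W_1 (nat_lit 4) (nat_lit 0x400020001000080000000000000000000000000000000) (nat_lit 0x0) (nat_lit 0x8000c000200000000800040002000000000000000000000000000) := T_1 (nat_lit 126) (nat_lit 109) (nat_lit 4) (nat_lit 8) (nat_lit 10) L26490 (by decide +kernel)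
theorem L26492 : W_1 (nat_lit 11) (nat_lit 0x20001000080000000000000000000000000000000) (nat_lit 0x0) (nat_lit 0xa000700038000c00060004000280017000e000500000000000000000000000) := Q_1 (nat_lit 178) (C_1 L26457 (C_1 L26474 (C_1 L26491 (C_1 L25067 N_1)))) (by decide +kernel)
theorem L26493 : W_1 (nat_lit 13) (nat_lit 0x1000080000000000000000000000000000000) (nat_lit 0x0) (nat_lit 0xa000700038001f000f800ec006f8037801fc00700028000000000000000000) := Q_1 (nat_lit 161) (C_1 L26449 (C_1 L25084 (C_1 L26450 (C_1 L26458 (C_1 L26475 (C_1 L26476 (C_1 L26488 (C_1 L26492 N_1)))))))) (by decide +kernel)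
theorem L26494 : W_1 (nat_lit 2) (nat_lit 0x10001000080004000300000000000000000000000) (nat_lit 0x0) (nat_lit 0x200020000000000002000000000000000000000000000) := D_1 (nat_lit 161) (nat_lit 109) (nat_lit 177) (nat_lit 4) (nat_lit 8) (nat_lit 9) (nat_lit 5) (nat_lit 8) (nat_lit 6) (by decide +kernel)
theorem L26495 : W_1 (nat_lit 3) (nat_lit 0x1000080004000300000000000000000000000) (nat_lit 0x0) (nat_lit 0x200030000800000002000000000000000000000000000) := T_1 (nat_lit 160) (nat_lit 143) (nat_lit 5) (nat_lit 8) (nat_lit 5) L26494 (by decide +kernel)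
theorem L26496 : W_1 (nat_lit 4) (nat_lit 0x1000080004000200000000000000000000000) (nat_lit 0x0) (nat_lit 0x200030000800000002000100008000000000000000000) := T_1 (nat_lit 92) (nat_lit 75) (nat_lit 4) (nat_lit 8) (nat_lit 8) L26495 (by decide +kernel)
theorem L26497 : W_1 (nat_lit 2) (nat_lit 0x10001000080004000600000000000000000000000) (nat_lit 0x0) (nat_lit 0x200020000000000008000000000000000000000000000) := D_1 (nat_lit 161) (nat_lit 111) (nat_lit 177) (nat_lit 6) (nat_lit 8) (nat_lit 9) (nat_lit 5) (nat_lit 8) (nat_lit 6) (by decide +kernel)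
theorem L26498 : W_1 (nat_lit 3) (nat_lit 0x1000080004000600000000000000000000000) (nat_lit 0x0) (nat_lit 0x200030000800000008000000000000000000000000000) := T_1 (nat_lit 160) (nat_lit 143) (nat_lit 5) (nat_lit 8) (nat_lit 5) L26497 (by decide +kernel)
theorem L26499 : W_1 (nat_lit 4) (nat_lit 0x1000080004000200000000000000000000000) (nat_lit 0x0) (nat_lit 0x200030000800000008000400020000000000000000000) := T_1 (nat_lit 94) (nat_lit 77) (nat_lit 6) (nat_lit 8) (nat_lit 8) L26498 (by decide +kernel)
theorem L26500 : W_1 (nat_lit 6) (nat_lit 0x1000080004000000000000000000000000000) (nat_lit 0x0) (nat_lit 0x20003000080000000a000700038001400000000000000) := Q_1 (nat_lit 93) (C_1 L26189 (C_1 L25215 (C_1 L26496 (C_1 L26499 N_1)))) (by decide +kernel)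
theorem L26501 : W_1 (nat_lit 6) (nat_lit 0x1000080004000000000000000000000000000) (nat_lit 0x0) (nat_lit 0x200070002800100002000700038001400000000000000) := Q_1 (nat_lit 93) (C_1 L26496 (C_1 L26193 (C_1 L24884 N_1))) (by decide +kernel)
theorem L26502 : W_1 (nat_lit 5) (nat_lit 0x1000080004000000000000000000000000000) (nat_lit 0x0) (nat_lit 0x14000e00070002800000002000300008000000000000000000) := Q_1 (nat_lit 161) (C_1 L26263 (C_1 L25091 (C_1 L24620 N_1))) (by decide +kernel)
theorem L26503 : W_1 (nat_lit 5) (nat_lit 0x1000080004000000000000000000000000000) (nat_lit 0x0) (nat_lit 0x14000e00070000800100008000600020000000000000000000) := Q_1 (nat_lit 161) (C_1 L26263 (C_1 L25051 (C_1 L26123 N_1))) (by decide +kernel)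
theorem L26504 : W_1 (nat_lit 7) (nat_lit 0x1000180005000200000000000000000000000) (nat_lit 0x0) (nat_lit 0x4000200000001a000dc0068000000000000000000) := T_1 (nat_lit 145) (nat_lit 162) (nat_lit 7) (nat_lit 8) (nat_lit 5) L5921 (by decide +kernel)
theorem L26505 : W_1 (nat_lit 2) (nat_lit 0x1000180005800600000000000000000000000) (nat_lit 0x0) (nat_lit 0x180008000000000000000000) := D_1 (nat_lit 92) (nat_lit 91) (nat_lit 75) (nat_lit 1) (nat_lit 9) (nat_lit 5) (nat_lit 4) (nat_lit 8) (nat_lit 8) (by decide +kernel)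
theorem L26506 : W_1 (nat_lit 3) (nat_lit 0x1000180005800200000000000000000000000) (nat_lit 0x0) (nat_lit 0x580028000000000000000000) := T_1 (nat_lit 94) (nat_lit 77) (nat_lit 6) (nat_lit 8) (nat_lit 8) L26505 (by decide +kernel)
theorem L26507 : W_1 (nat_lit 4) (nat_lit 0x1000180005000200000000000000000000000) (nat_lit 0x0) (nat_lit 0x2800580028000000000000000000) := T_1 (nat_lit 107) (nat_lit 109) (nat_lit 3) (nat_lit 5) (nat_lit 6) L26506 (by decide +kernel)
theorem L26508 : W_1 (nat_lit 4) (nat_lit 0x3000180005000300000000000000000000000) (nat_lit 0x0) (nat_lit 0x188004c0020000000000000000000) := T_1 (nat_lit 94) (nat_lit 77) (nat_lit 6) (nat_lit 8) (nat_lit 8) L5911 (by decide +kernel)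
theorem L26509 : W_1 (nat_lit 5) (nat_lit 0x1000180005000300000000000000000000000) (nat_lit 0x0) (nat_lit 0x400020000000188004c0020000000000000000000) := T_1 (nat_lit 145) (nat_lit 162) (nat_lit 7) (nat_lit 8) (nat_lit 5) L26508 (by decide +kernel)
theorem L26510 : W_1 (nat_lit 6) (nat_lit 0x1000180005000200000000000000000000000) (nat_lit 0x0) (nat_lit 0x400020000000188005c0028000000000000000000) := T_1 (nat_lit 92) (nat_lit 75) (nat_lit 4) (nat_lit 8) (nat_lit 8) L26509 (by decide +kernel)
theorem L26511 : W_1 (nat_lit 2) (nat_lit 0x100018000f000300000000000000000000000) (nat_lit 0x0) (nat_lit 0x100000c0000000000000000000000) := D_1 (nat_lit 91) (nat_lit 90) (nat_lit 112) (nat_lit 3) (nat_lit 5) (nat_lit 5) (nat_lit 0) (nat_lit 10) (nat_lit 6) (by decide +kernel)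
theorem L26512 : W_1 (nat_lit 3) (nat_lit 0x1000180007000300000000000000000000000) (nat_lit 0x0) (nat_lit 0x2000180000c0000000000000000000000) := T_1 (nat_lit 111) (nat_lit 129) (nat_lit 3) (nat_lit 6) (nat_lit 6) L26511 (by decide +kernel)
theorem L26513 : W_1 (nat_lit 4) (nat_lit 0x1000180007000200000000000000000000000) (nat_lit 0x0) (nat_lit 0x2000180001c0008000000000000000000) := T_1 (nat_lit 92) (nat_lit 75) (nat_lit 4) (nat_lit 8) (nat_lit 8) L26512 (by decide +kernel)
theorem L26514 : W_1 (nat_lit 5) (nat_lit 0x1000180005000200000000000000000000000) (nat_lit 0x0) (nat_lit 0x20001a8001c0008000000000000000000) := T_1 (nat_lit 109) (nat_lit 107) (nat_lit 3) (nat_lit 5) (nat_lit 6) L26513 (by decide +kernel)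
theorem L26515 : W_1 (nat_lit 2) (nat_lit 0x1000180007000600000000000000000000000) (nat_lit 0x0) (nat_lit 0x200008000800000000000000000000000) := D_1 (nat_lit 111) (nat_lit 95) (nat_lit 129) (nat_lit 2) (nat_lit 6) (nat_lit 6) (nat_lit 3) (nat_lit 6) (nat_lit 6) (by decide +kernel)
theorem L26516 : W_1 (nat_lit 3) (nat_lit 0x1000180007000200000000000000000000000) (nat_lit 0x0) (nat_lit 0x200008000c00020000000000000000000) := T_1 (nat_lit 94) (nat_lit 77) (nat_lit 6) (nat_lit 8) (nat_lit 8) L26515 (by decide +kernel)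
theorem L26517 : W_1 (nat_lit 4) (nat_lit 0x1000180005000200000000000000000000000) (nat_lit 0x0) (nat_lit 0x20000a800c00020000000000000000000) := T_1 (nat_lit 109) (nat_lit 107) (nat_lit 3) (nat_lit 5) (nat_lit 6) L26516 (by decide +kernel)
theorem L26518 : W_1 (nat_lit 8) (nat_lit 0x1000180004000200000000000000000000000) (nat_lit 0x0) (nat_lit 0x4000200020001b800dc0068000000000000000000) := Q_1 (nat_lit 108) (C_1 L26504 (C_1 L26507 (C_1 L26510 (C_1 L26514 (C_1 L26517 N_1))))) (by decide +kernel)
theorem L26519 : W_1 (nat_lit 2) (nat_lit 0x8003c001a0005000700000000000000000000000) (nat_lit 0x0) (nat_lit 0x8000c0000000000000000000000) := D_1 (nat_lit 107) (nat_lit 90) (nat_lit 91) (nat_lit 4) (nat_lit 6) (nat_lit 9) (nat_lit 1) (nat_lit 9) (nat_lit 5) (by decide +kernel)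
theorem L26520 : W_1 (nat_lit 3) (nat_lit 0x8003c001a0004000700000000000000000000000) (nat_lit 0x0) (nat_lit 0x38000c0000000000000000000000) := T_1 (nat_lit 108) (nat_lit 109) (nat_lit 6) (nat_lit 6) (nat_lit 9) L26519 (by decide +kernel)
theorem L26521 : W_1 (nat_lit 4) (nat_lit 0x8003c00180004000700000000000000000000000) (nat_lit 0x0) (nat_lit 0x300038000c0000000000000000000000) := T_1 (nat_lit 125) (nat_lit 124) (nat_lit 0) (nat_lit 9) (nat_lit 8) L26520 (by decide +kernel)
theorem L26522 : W_1 (nat_lit 5) (nat_lit 0x3c00180004000700000000000000000000000) (nat_lit 0x0) (nat_lit 0xc0000000300038000c0000000000000000000000) := T_1 (nat_lit 159) (nat_lit 158) (nat_lit 1) (nat_lit 9) (nat_lit 8) L26521 (by decide +kernel)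
theorem L26523 : W_1 (nat_lit 6) (nat_lit 0x1c00180004000700000000000000000000000) (nat_lit 0x0) (nat_lit 0xc0020002300038000c0000000000000000000000) := T_1 (nat_lit 145) (nat_lit 129) (nat_lit 2) (nat_lit 6) (nat_lit 8) L26522 (by decide +kernel)
theorem L26524 : W_1 (nat_lit 7) (nat_lit 0x1800180004000700000000000000000000000) (nat_lit 0x0) (nat_lit 0xc0026002300038000c0000000000000000000000) := T_1 (nat_lit 142) (nat_lit 141) (nat_lit 2) (nat_lit 5) (nat_lit 8) L26523 (by decide +kernel)
theorem L26525 : W_1 (nat_lit 8) (nat_lit 0x1000180004000700000000000000000000000) (nat_lit 0x0) (nat_lit 0x1c002e002300038000c0000000000000000000000) := T_1 (nat_lit 143) (nat_lit 160) (nat_lit 5) (nat_lit 8) (nat_lit 5) L26524 (by decide +kernel)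
theorem L26526 : W_1 (nat_lit 9) (nat_lit 0x1000180004000300000000000000000000000) (nat_lit 0x0) (nat_lit 0x1c002e002300038004c0020000000000000000000) := T_1 (nat_lit 94) (nat_lit 77) (nat_lit 6) (nat_lit 8) (nat_lit 8) L26525 (by decide +kernel)
theorem L26527 : W_1 (nat_lit 10) (nat_lit 0x1000180004000200000000000000000000000) (nat_lit 0x0) (nat_lit 0x1c002e002300038005c0028000000000000000000) := T_1 (nat_lit 92) (nat_lit 75) (nat_lit 4) (nat_lit 8) (nat_lit 8) L26526 (by decide +kernel)
theorem L26528 : W_1 (nat_lit 2) (nat_lit 0x1c00180004000200000000000000000000000) (nat_lit 0x0) (nat_lit 0x40002000200000000000000000000000000000000) := D_1 (nat_lit 145) (nat_lit 162) (nat_lit 129) (nat_lit 7) (nat_lit 8) (nat_lit 5) (nat_lit 2) (nat_lit 6) (nat_lit 8) (by decide +kernel)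
theorem L26529 : W_1 (nat_lit 3) (nat_lit 0x1800180004000200000000000000000000000) (nat_lit 0x0) (nat_lit 0x40002600200000000000000000000000000000000) := T_1 (nat_lit 142) (nat_lit 141) (nat_lit 2) (nat_lit 5) (nat_lit 8) L26528 (by decide +kernel)
theorem L26530 : W_1 (nat_lit 4) (nat_lit 0x1000180004000200000000000000000000000) (nat_lit 0x0) (nat_lit 0x50002e00200000000000000000000000000000000) := T_1 (nat_lit 143) (nat_lit 160) (nat_lit 5) (nat_lit 8) (nat_lit 5) L26529 (by decide +kernel)
theorem L26531 : W_1 (nat_lit 2) (nat_lit 0x1a00180005000780000000000000000000000) (nat_lit 0x0) (nat_lit 0x18000040000000000000000000000) := D_1 (nat_lit 111) (nat_lit 90) (nat_lit 112) (nat_lit 3) (nat_lit 5) (nat_lit 5) (nat_lit 3) (nat_lit 6) (nat_lit 5) (by decide +kernel)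
theorem L26532 : W_1 (nat_lit 3) (nat_lit 0x1a00180005000700000000000000000000000) (nat_lit 0x0) (nat_lit 0x188000c0000000000000000000000) := T_1 (nat_lit 91) (nat_lit 107) (nat_lit 1) (nat_lit 9) (nat_lit 5) L26531 (by decide +kernel)
theorem L26533 : W_1 (nat_lit 4) (nat_lit 0x1a00180005000300000000000000000000000) (nat_lit 0x0) (nat_lit 0x188004c0020000000000000000000) := T_1 (nat_lit 94) (nat_lit 77) (nat_lit 6) (nat_lit 8) (nat_lit 8) L26532 (by decide +kernel)
theorem L26534 : W_1 (nat_lit 5) (nat_lit 0x1a00180005000200000000000000000000000) (nat_lit 0x0) (nat_lit 0x188005c0028000000000000000000) := T_1 (nat_lit 92) (nat_lit 75) (nat_lit 4) (nat_lit 8) (nat_lit 8) L26533 (by decide +kernel)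
theorem L26535 : W_1 (nat_lit 6) (nat_lit 0x1800180005000200000000000000000000000) (nat_lit 0x0) (nat_lit 0x6000000188005c0028000000000000000000) := T_1 (nat_lit 141) (nat_lit 142) (nat_lit 2) (nat_lit 5) (nat_lit 8) L26534 (by decide +kernel)
theorem L26536 : W_1 (nat_lit 7) (nat_lit 0x1000180005000200000000000000000000000) (nat_lit 0x0) (nat_lit 0x10000e000000188005c0028000000000000000000) := T_1 (nat_lit 143) (nat_lit 160) (nat_lit 5) (nat_lit 8) (nat_lit 5) L26535 (by decide +kernel)
theorem L26537 : W_1 (nat_lit 2) (nat_lit 0x1a0018000f000700000000000000000000000) (nat_lit 0x0) (nat_lit 0x100000c0000000000000000000000) := D_1 (nat_lit 91) (nat_lit 112) (nat_lit 90) (nat_lit 3) (nat_lit 6) (nat_lit 5) (nat_lit 3) (nat_lit 5) (nat_lit 5) (by decide +kernel)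
theorem L26538 : W_1 (nat_lit 3) (nat_lit 0x1a00180007000700000000000000000000000) (nat_lit 0x0) (nat_lit 0x2000180000c0000000000000000000000) := T_1 (nat_lit 111) (nat_lit 129) (nat_lit 3) (nat_lit 6) (nat_lit 6) L26537 (by decide +kernel)
theorem L26539 : W_1 (nat_lit 4) (nat_lit 0x1a00180005000700000000000000000000000) (nat_lit 0x0) (nat_lit 0x20001a0008c0000000000000000000000) := T_1 (nat_lit 109) (nat_lit 95) (nat_lit 1) (nat_lit 10) (nat_lit 5) L26538 (by decide +kernel)
theorem L26540 : W_1 (nat_lit 5) (nat_lit 0x1a00180005000600000000000000000000000) (nat_lit 0x0) (nat_lit 0x20001a0009c0008000000000000000000) := T_1 (nat_lit 92) (nat_lit 75) (nat_lit 4) (nat_lit 8) (nat_lit 8) L26539 (by decide +kernel)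
theorem L26541 : W_1 (nat_lit 6) (nat_lit 0x1800180005000600000000000000000000000) (nat_lit 0x0) (nat_lit 0x60020001a0009c0008000000000000000000) := T_1 (nat_lit 141) (nat_lit 142) (nat_lit 2) (nat_lit 5) (nat_lit 8) L26540 (by decide +kernel)
theorem L26542 : W_1 (nat_lit 7) (nat_lit 0x1000180005000600000000000000000000000) (nat_lit 0x0) (nat_lit 0x10000e0020001a0009c0008000000000000000000) := T_1 (nat_lit 143) (nat_lit 160) (nat_lit 5) (nat_lit 8) (nat_lit 5) L26541 (by decide +kernel)
theorem L26543 : W_1 (nat_lit 8) (nat_lit 0x1000180005000200000000000000000000000) (nat_lit 0x0) (nat_lit 0x10000e0020001a000dc0028000000000000000000) := T_1 (nat_lit 94) (nat_lit 77) (nat_lit 6) (nat_lit 8) (nat_lit 8) L26542 (by decide +kernel)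
theorem L26544 : W_1 (nat_lit 9) (nat_lit 0x1000180004000200000000000000000000000) (nat_lit 0x0) (nat_lit 0x10000e0020001b800dc0028000000000000000000) := Q_1 (nat_lit 108) (C_1 L26517 (C_1 L26536 (C_1 L26507 (C_1 L26514 (C_1 L26543 N_1))))) (by decide +kernel)
theorem L26545 : W_1 (nat_lit 6) (nat_lit 0x3800180004000700000000000000000000000) (nat_lit 0x0) (nat_lit 0xc0006000300038000c0000000000000000000000) := T_1 (nat_lit 142) (nat_lit 141) (nat_lit 2) (nat_lit 5) (nat_lit 8) L26522 (by decide +kernel)
theorem L26546 : W_1 (nat_lit 7) (nat_lit 0x3000180004000700000000000000000000000) (nat_lit 0x0) (nat_lit 0x1c000e000300038000c0000000000000000000000) := T_1 (nat_lit 143) (nat_lit 160) (nat_lit 5) (nat_lit 8) (nat_lit 5) L26545 (by decide +kernel)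
theorem L26547 : W_1 (nat_lit 8) (nat_lit 0x3000180004000300000000000000000000000) (nat_lit 0x0) (nat_lit 0x1c000e000300038004c0020000000000000000000) := T_1 (nat_lit 94) (nat_lit 77) (nat_lit 6) (nat_lit 8) (nat_lit 8) L26546 (by decide +kernel)
theorem L26548 : W_1 (nat_lit 9) (nat_lit 0x1000180004000300000000000000000000000) (nat_lit 0x0) (nat_lit 0x5c002e000300038004c0020000000000000000000) := T_1 (nat_lit 145) (nat_lit 162) (nat_lit 7) (nat_lit 8) (nat_lit 5) L26547 (by decide +kernel)
theorem L26549 : W_1 (nat_lit 10) (nat_lit 0x1000180004000200000000000000000000000) (nat_lit 0x0) (nat_lit 0x5c002e000300038005c0028000000000000000000) := T_1 (nat_lit 92) (nat_lit 75) (nat_lit 4) (nat_lit 8) (nat_lit 8) L26548 (by decide +kernel)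
theorem L26550 : W_1 (nat_lit 11) (nat_lit 0x1000080004000200000000000000000000000) (nat_lit 0x0) (nat_lit 0x5c002e0033001b800dc0068000000000000000000) := Q_1 (nat_lit 128) (C_1 L26518 (C_1 L26527 (C_1 L26530 (C_1 L26544 (C_1 L26549 N_1))))) (by decide +kernel)
theorem L26551 : W_1 (nat_lit 12) (nat_lit 0x1000080004000000000000000000000000000) (nat_lit 0x0) (nat_lit 0x5c002e0033001b800fc0078001400000000000000) := Q_1 (nat_lit 93) (C_1 L26193 (C_1 L25215 (C_1 L24884 (C_1 L26550 N_1)))) (by decide +kernel)
theorem L26552 : W_1 (nat_lit 2) (nat_lit 0x20003c0018000c000000000000000000000000000) (nat_lit 0x0) (nat_lit 0x8000c0000000000000000000000000000000000000000) := D_1 (nat_lit 162) (nat_lit 179) (nat_lit 163) (nat_lit 7) (nat_lit 8) (nat_lit 6) (nat_lit 3) (nat_lit 6) (nat_lit 8) (by decide +kernel)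
theorem L26553 : W_1 (nat_lit 3) (nat_lit 0x20001c0018000c000000000000000000000000000) (nat_lit 0x0) (nat_lit 0x8000c0002000200000000000000000000000000000000) := T_1 (nat_lit 145) (nat_lit 129) (nat_lit 2) (nat_lit 6) (nat_lit 8) L26552 (by decide +kernel)
theorem L26554 : W_1 (nat_lit 4) (nat_lit 0x20001c00180004000000000000000000000000000) (nat_lit 0x0) (nat_lit 0x8000c0002000200008000400000000000000000000000) := T_1 (nat_lit 111) (nat_lit 94) (nat_lit 6) (nat_lit 8) (nat_lit 9) L26553 (by decide +kernel)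
theorem L26555 : W_1 (nat_lit 5) (nat_lit 0x20001400180004000000000000000000000000000) (nat_lit 0x0) (nat_lit 0x8000c0002a00200008000400000000000000000000000) := T_1 (nat_lit 143) (nat_lit 141) (nat_lit 2) (nat_lit 5) (nat_lit 8) L26554 (by decide +kernel)
theorem L26556 : W_1 (nat_lit 2) (nat_lit 0x30003c0018000c000000000000000000000000000) (nat_lit 0x0) (nat_lit 0xc004000000000000000000000000000000000000) := D_1 (nat_lit 159) (nat_lit 146) (nat_lit 158) (nat_lit 1) (nat_lit 10) (nat_lit 8) (nat_lit 2) (nat_lit 5) (nat_lit 9) (by decide +kernel)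
theorem L26557 : W_1 (nat_lit 3) (nat_lit 0x30001c0018000c000000000000000000000000000) (nat_lit 0x0) (nat_lit 0xc006000200000000000000000000000000000000) := T_1 (nat_lit 145) (nat_lit 129) (nat_lit 2) (nat_lit 6) (nat_lit 8) L26556 (by decide +kernel)
theorem L26558 : W_1 (nat_lit 4) (nat_lit 0x3000140018000c000000000000000000000000000) (nat_lit 0x0) (nat_lit 0xc006a00200000000000000000000000000000000) := T_1 (nat_lit 143) (nat_lit 141) (nat_lit 2) (nat_lit 5) (nat_lit 8) L26557 (by decide +kernel)
theorem L26559 : W_1 (nat_lit 5) (nat_lit 0x30001400180004000000000000000000000000000) (nat_lit 0x0) (nat_lit 0xc006a00200008000400000000000000000000000) := T_1 (nat_lit 111) (nat_lit 94) (nat_lit 6) (nat_lit 8) (nat_lit 9) L26558 (by decide +kernel)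
theorem L26560 : W_1 (nat_lit 6) (nat_lit 0x20001400180004000000000000000000000000000) (nat_lit 0x0) (nat_lit 0x20001c006a00200008000400000000000000000000000) := T_1 (nat_lit 160) (nat_lit 177) (nat_lit 5) (nat_lit 8) (nat_lit 6) L26559 (by decide +kernel)
theorem L26561 : W_1 (nat_lit 2) (nat_lit 0x70003c0018000c000000000000000000000000000) (nat_lit 0x0) (nat_lit 0xc004000000000000000000000000000000000000) := D_1 (nat_lit 159) (nat_lit 146) (nat_lit 158) (nat_lit 2) (nat_lit 6) (nat_lit 9) (nat_lit 2) (nat_lit 5) (nat_lit 9) (by decide +kernel)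
theorem L26562 : W_1 (nat_lit 3) (nat_lit 0x70001c0018000c000000000000000000000000000) (nat_lit 0x0) (nat_lit 0xc006000200000000000000000000000000000000) := T_1 (nat_lit 145) (nat_lit 129) (nat_lit 2) (nat_lit 6) (nat_lit 8) L26561 (by decide +kernel)
theorem L26563 : W_1 (nat_lit 4) (nat_lit 0x7000140018000c000000000000000000000000000) (nat_lit 0x0) (nat_lit 0x8c006800200000000000000000000000000000000) := T_1 (nat_lit 143) (nat_lit 163) (nat_lit 0) (nat_lit 10) (nat_lit 9) L26562 (by decide +kernel)
theorem L26564 : W_1 (nat_lit 5) (nat_lit 0x3000140018000c000000000000000000000000000) (nat_lit 0x0) (nat_lit 0x8000cc006800200000000000000000000000000000000) := T_1 (nat_lit 162) (nat_lit 179) (nat_lit 7) (nat_lit 8) (nat_lit 6) L26563 (by decide +kernel)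
theorem L26565 : W_1 (nat_lit 6) (nat_lit 0x2000140018000c000000000000000000000000000) (nat_lit 0x0) (nat_lit 0xa000dc006800200000000000000000000000000000000) := T_1 (nat_lit 160) (nat_lit 177) (nat_lit 5) (nat_lit 8) (nat_lit 6) L26564 (by decide +kernel)
theorem L26566 : W_1 (nat_lit 7) (nat_lit 0x20001400180004000000000000000000000000000) (nat_lit 0x0) (nat_lit 0xa000dc006800200008000400000000000000000000000) := T_1 (nat_lit 111) (nat_lit 94) (nat_lit 6) (nat_lit 8) (nat_lit 9) L26565 (by decide +kernel)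
theorem L26567 : W_1 (nat_lit 8) (nat_lit 0x20001000180004000000000000000000000000000) (nat_lit 0x0) (nat_lit 0xa000dc006e00200008000400000000000000000000000) := Q_1 (nat_lit 142) (C_1 L26555 (C_1 L26360 (C_1 L26560 (C_1 L26363 (C_1 L26566 N_1))))) (by decide +kernel)
theorem L26568 : W_1 (nat_lit 2) (nat_lit 0x60001c00180004000000000000000000000000000) (nat_lit 0x0) (nat_lit 0x80002000200000000000000000000000000000000) := D_1 (nat_lit 145) (nat_lit 129) (nat_lit 163) (nat_lit 2) (nat_lit 6) (nat_lit 8) (nat_lit 3) (nat_lit 6) (nat_lit 8) (by decide +kernel)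
theorem L26569 : W_1 (nat_lit 3) (nat_lit 0x60001400180004000000000000000000000000000) (nat_lit 0x0) (nat_lit 0x80002a00200000000000000000000000000000000) := T_1 (nat_lit 143) (nat_lit 141) (nat_lit 3) (nat_lit 5) (nat_lit 8) L26568 (by decide +kernel)
theorem L26570 : W_1 (nat_lit 4) (nat_lit 0x20001400180004000000000000000000000000000) (nat_lit 0x0) (nat_lit 0x8000c0002a00200000000000000000000000000000000) := T_1 (nat_lit 162) (nat_lit 179) (nat_lit 7) (nat_lit 8) (nat_lit 6) L26569 (by decide +kernel)
theorem L26571 : W_1 (nat_lit 2) (nat_lit 0x78001400180006800000000000000000000000000) (nat_lit 0x0) (nat_lit 0x4006000000000000000000000000000000000000) := D_1 (nat_lit 145) (nat_lit 158) (nat_lit 146) (nat_lit 2) (nat_lit 5) (nat_lit 9) (nat_lit 2) (nat_lit 6) (nat_lit 9) (by decide +kernel)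
theorem L26572 : W_1 (nat_lit 3) (nat_lit 0x70001400180006800000000000000000000000000) (nat_lit 0x0) (nat_lit 0xc006200000000000000000000000000000000000) := T_1 (nat_lit 159) (nat_lit 141) (nat_lit 0) (nat_lit 9) (nat_lit 9) L26571 (by decide +kernel)
theorem L26573 : W_1 (nat_lit 4) (nat_lit 0x60001400180006800000000000000000000000000) (nat_lit 0x0) (nat_lit 0x20001c006200000000000000000000000000000000000) := T_1 (nat_lit 160) (nat_lit 177) (nat_lit 5) (nat_lit 8) (nat_lit 6) L26572 (by decide +kernel)
theorem L26574 : W_1 (nat_lit 5) (nat_lit 0x20001400180006800000000000000000000000000) (nat_lit 0x0) (nat_lit 0xa0005c006200000000000000000000000000000000000) := T_1 (nat_lit 162) (nat_lit 179) (nat_lit 7) (nat_lit 8) (nat_lit 6) L26573 (by decide +kernel)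
theorem L26575 : W_1 (nat_lit 6) (nat_lit 0x20001400180006000000000000000000000000000) (nat_lit 0x0) (nat_lit 0xa0005c006200000001800000000000000000000000000) := T_1 (nat_lit 107) (nat_lit 108) (nat_lit 3) (nat_lit 5) (nat_lit 6) L26574 (by decide +kernel)
theorem L26576 : W_1 (nat_lit 7) (nat_lit 0x20001400180004000000000000000000000000000) (nat_lit 0x0) (nat_lit 0xa0005c006200000003800100000000000000000000000) := T_1 (nat_lit 109) (nat_lit 92) (nat_lit 4) (nat_lit 8) (nat_lit 9) L26575 (by decide +kernel)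
theorem L26577 : W_1 (nat_lit 2) (nat_lit 0x30003c00180006800000000000000000000000000) (nat_lit 0x0) (nat_lit 0xc004000000000000000000000000000000000000) := D_1 (nat_lit 159) (nat_lit 146) (nat_lit 158) (nat_lit 1) (nat_lit 10) (nat_lit 8) (nat_lit 2) (nat_lit 5) (nat_lit 9) (by decide +kernel)
theorem L26578 : W_1 (nat_lit 3) (nat_lit 0x30001c00180006800000000000000000000000000) (nat_lit 0x0) (nat_lit 0xc006000200000000000000000000000000000000) := T_1 (nat_lit 145) (nat_lit 129) (nat_lit 2) (nat_lit 6) (nat_lit 8) L26577 (by decide +kernel)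
theorem L26579 : W_1 (nat_lit 4) (nat_lit 0x30001400180006800000000000000000000000000) (nat_lit 0x0) (nat_lit 0xc006a00200000000000000000000000000000000) := T_1 (nat_lit 143) (nat_lit 141) (nat_lit 2) (nat_lit 5) (nat_lit 8) L26578 (by decide +kernel)
theorem L26580 : W_1 (nat_lit 5) (nat_lit 0x30001400180006000000000000000000000000000) (nat_lit 0x0) (nat_lit 0xc006a00200001800000000000000000000000000) := T_1 (nat_lit 107) (nat_lit 108) (nat_lit 3) (nat_lit 5) (nat_lit 6) L26579 (by decide +kernel)
theorem L26581 : W_1 (nat_lit 6) (nat_lit 0x30001400180004000000000000000000000000000) (nat_lit 0x0) (nat_lit 0xc006a00200003800100000000000000000000000) := T_1 (nat_lit 109) (nat_lit 92) (nat_lit 4) (nat_lit 8) (nat_lit 9) L26580 (by decide +kernel)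
theorem L26582 : W_1 (nat_lit 7) (nat_lit 0x20001400180004000000000000000000000000000) (nat_lit 0x0) (nat_lit 0x20001c006a00200003800100000000000000000000000) := T_1 (nat_lit 160) (nat_lit 177) (nat_lit 5) (nat_lit 8) (nat_lit 6) L26581 (by decide +kernel)
theorem L26583 : W_1 (nat_lit 2) (nat_lit 0x70003c00180006800000000000000000000000000) (nat_lit 0x0) (nat_lit 0xc004000000000000000000000000000000000000) := D_1 (nat_lit 159) (nat_lit 146) (nat_lit 158) (nat_lit 2) (nat_lit 6) (nat_lit 9) (nat_lit 2) (nat_lit 5) (nat_lit 9) (by decide +kernel)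
theorem L26584 : W_1 (nat_lit 3) (nat_lit 0x70001c00180006800000000000000000000000000) (nat_lit 0x0) (nat_lit 0xc006000200000000000000000000000000000000) := T_1 (nat_lit 145) (nat_lit 129) (nat_lit 2) (nat_lit 6) (nat_lit 8) L26583 (by decide +kernel)
theorem L26585 : W_1 (nat_lit 4) (nat_lit 0x70001c00180006000000000000000000000000000) (nat_lit 0x0) (nat_lit 0xc006000200001800000000000000000000000000) := T_1 (nat_lit 107) (nat_lit 108) (nat_lit 3) (nat_lit 5) (nat_lit 6) L26584 (by decide +kernel)
theorem L26586 : W_1 (nat_lit 5) (nat_lit 0x70001c00180004000000000000000000000000000) (nat_lit 0x0) (nat_lit 0xc006000200003800100000000000000000000000) := T_1 (nat_lit 109) (nat_lit 92) (nat_lit 4) (nat_lit 8) (nat_lit 9) L26585 (by decide +kernel)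
theorem L26587 : W_1 (nat_lit 6) (nat_lit 0x70001400180004000000000000000000000000000) (nat_lit 0x0) (nat_lit 0x8c006800200003800100000000000000000000000) := T_1 (nat_lit 143) (nat_lit 163) (nat_lit 0) (nat_lit 10) (nat_lit 9) L26586 (by decide +kernel)
theorem L26588 : W_1 (nat_lit 7) (nat_lit 0x60001400180004000000000000000000000000000) (nat_lit 0x0) (nat_lit 0x20009c006800200003800100000000000000000000000) := T_1 (nat_lit 160) (nat_lit 177) (nat_lit 5) (nat_lit 8) (nat_lit 6) L26587 (by decide +kernel)
theorem L26589 : W_1 (nat_lit 8) (nat_lit 0x20001400180004000000000000000000000000000) (nat_lit 0x0) (nat_lit 0xa000dc006800200003800100000000000000000000000) := T_1 (nat_lit 162) (nat_lit 179) (nat_lit 7) (nat_lit 8) (nat_lit 6) L26588 (by decide +kernel)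
theorem L26590 : W_1 (nat_lit 9) (nat_lit 0x20001000180004000000000000000000000000000) (nat_lit 0x0) (nat_lit 0xa000dc006e00200003800100000000000000000000000) := Q_1 (nat_lit 142) (C_1 L26570 (C_1 L26576 (C_1 L26582 (C_1 L26363 (C_1 L26589 N_1))))) (by decide +kernel)
theorem L26591 : W_1 (nat_lit 2) (nat_lit 0x700014001a000f000080000000000000000000000) (nat_lit 0x0) (nat_lit 0xc000200000000000000000000000000000000000) := D_1 (nat_lit 141) (nat_lit 158) (nat_lit 159) (nat_lit 5) (nat_lit 6) (nat_lit 5) (nat_lit 0) (nat_lit 9) (nat_lit 9) (by decide +kernel)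
theorem L26592 : W_1 (nat_lit 3) (nat_lit 0x700010001a000f000080000000000000000000000) (nat_lit 0x0) (nat_lit 0xc000e00000000000000000000000000000000000) := T_1 (nat_lit 142) (nat_lit 143) (nat_lit 7) (nat_lit 6) (nat_lit 5) L26591 (by decide +kernel)
theorem L26593 : W_1 (nat_lit 4) (nat_lit 0x600010001a000f000080000000000000000000000) (nat_lit 0x0) (nat_lit 0x20001c000e00000000000000000000000000000000000) := T_1 (nat_lit 160) (nat_lit 177) (nat_lit 5) (nat_lit 8) (nat_lit 6) L26592 (by decide +kernel)
theorem L26594 : W_1 (nat_lit 5) (nat_lit 0x200010001a000f000080000000000000000000000) (nat_lit 0x0) (nat_lit 0xa0005c000e00000000000000000000000000000000000) := T_1 (nat_lit 162) (nat_lit 179) (nat_lit 7) (nat_lit 8) (nat_lit 6) L26593 (by decide +kernel)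
theorem L26595 : W_1 (nat_lit 6) (nat_lit 0x200010001a000f000000000000000000000000000) (nat_lit 0x0) (nat_lit 0xa0005c000e000000000000c0000000000000000000000) := T_1 (nat_lit 91) (nat_lit 90) (nat_lit 0) (nat_lit 9) (nat_lit 6) L26594 (by decide +kernel)
theorem L26596 : W_1 (nat_lit 7) (nat_lit 0x2000100018000f000000000000000000000000000) (nat_lit 0x0) (nat_lit 0xa0005c000e000300000000c0000000000000000000000) := T_1 (nat_lit 125) (nat_lit 124) (nat_lit 1) (nat_lit 9) (nat_lit 6) L26595 (by decide +kernel)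
theorem L26597 : W_1 (nat_lit 8) (nat_lit 0x20001000180007000000000000000000000000000) (nat_lit 0x0) (nat_lit 0xa0005c000e000300080004c0000000000000000000000) := T_1 (nat_lit 111) (nat_lit 94) (nat_lit 6) (nat_lit 8) (nat_lit 9) L26596 (by decide +kernel)
theorem L26598 : W_1 (nat_lit 9) (nat_lit 0x20001000180006000000000000000000000000000) (nat_lit 0x0) (nat_lit 0xa0005c000e000300098004c0000000000000000000000) := T_1 (nat_lit 108) (nat_lit 107) (nat_lit 3) (nat_lit 5) (nat_lit 6) L26597 (by decide +kernel)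
theorem L26599 : W_1 (nat_lit 10) (nat_lit 0x20001000180004000000000000000000000000000) (nat_lit 0x0) (nat_lit 0xa0005c000e0003000b8005c0000000000000000000000) := T_1 (nat_lit 109) (nat_lit 92) (nat_lit 4) (nat_lit 8) (nat_lit 9) L26598 (by decide +kernel)
theorem L26600 : W_1 (nat_lit 11) (nat_lit 0x20001000080004000000000000000000000000000) (nat_lit 0x0) (nat_lit 0xa000dc006e0033000b8005c0000000000000000000000) := Q_1 (nat_lit 128) (C_1 L26352 (C_1 L26567 (C_1 L26590 (C_1 L26599 N_1)))) (by decide +kernel)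
theorem L26601 : W_1 (nat_lit 12) (nat_lit 0x1000080004000000000000000000000000000) (nat_lit 0x0) (nat_lit 0x14000e000fc006e0033000b8005c0000000000000000000000) := Q_1 (nat_lit 161) (C_1 L26263 (C_1 L25088 (C_1 L26600 N_1))) (by decide +kernel)
theorem L26602 : W_1 (nat_lit 13) (nat_lit 0x1000080000000000000000000000000000000) (nat_lit 0x0) (nat_lit 0x14000e000fc006e0033001f800fc0078001400000000000000) := Q_1 (nat_lit 110) (C_1 L26194 (C_1 L26500 (C_1 L26501 (C_1 L26502 (C_1 L26503 (C_1 L26551 (C_1 L26601 N_1))))))) (by decide +kernel)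
theorem L26603 : W_1 (nat_lit 2) (nat_lit 0x60003c0018001e000000000000000000000000000) (nat_lit 0x0) (nat_lit 0x70000000000000000000000000000000) := D_1 (nat_lit 125) (nat_lit 126) (nat_lit 124) (nat_lit 2) (nat_lit 6) (nat_lit 7) (nat_lit 0) (nat_lit 9) (nat_lit 8) (by decide +kernel)
theorem L26604 : W_1 (nat_lit 3) (nat_lit 0x60003c0018000e000000000000000000000000000) (nat_lit 0x0) (nat_lit 0x70010000800000000000000000000000) := T_1 (nat_lit 112) (nat_lit 95) (nat_lit 6) (nat_lit 9) (nat_lit 9) L26603 (by decide +kernel)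
theorem L26605 : W_1 (nat_lit 4) (nat_lit 0x60003c0008000e000000000000000000000000000) (nat_lit 0x0) (nat_lit 0x370010000800000000000000000000000) := T_1 (nat_lit 128) (nat_lit 129) (nat_lit 2) (nat_lit 6) (nat_lit 8) L26604 (by decide +kernel)
theorem L26606 : W_1 (nat_lit 5) (nat_lit 0x60001c0008000e000000000000000000000000000) (nat_lit 0x0) (nat_lit 0x80002000370010000800000000000000000000000) := T_1 (nat_lit 145) (nat_lit 163) (nat_lit 3) (nat_lit 6) (nat_lit 8) L26605 (by decide +kernel)
theorem L26607 : W_1 (nat_lit 6) (nat_lit 0x6000180008000e000000000000000000000000000) (nat_lit 0x0) (nat_lit 0x80002600370010000800000000000000000000000) := T_1 (nat_lit 142) (nat_lit 141) (nat_lit 3) (nat_lit 5) (nat_lit 8) L26606 (by decide +kernel)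
theorem L26608 : W_1 (nat_lit 7) (nat_lit 0x2000180008000e000000000000000000000000000) (nat_lit 0x0) (nat_lit 0x8000c0002600370010000800000000000000000000000) := T_1 (nat_lit 162) (nat_lit 179) (nat_lit 7) (nat_lit 8) (nat_lit 6) L26607 (by decide +kernel)
theorem L26609 : W_1 (nat_lit 8) (nat_lit 0x20001800080006000000000000000000000000000) (nat_lit 0x0) (nat_lit 0x8000c0002600370018000c00000000000000000000000) := T_1 (nat_lit 111) (nat_lit 94) (nat_lit 6) (nat_lit 8) (nat_lit 9) L26608 (by decide +kernel)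
theorem L26610 : W_1 (nat_lit 9) (nat_lit 0x20001800080004000000000000000000000000000) (nat_lit 0x0) (nat_lit 0x8000c000260037001a000d00000000000000000000000) := T_1 (nat_lit 109) (nat_lit 92) (nat_lit 4) (nat_lit 8) (nat_lit 9) L26609 (by decide +kernel)
theorem L26611 : W_1 (nat_lit 2) (nat_lit 0x78001800080004000000000000000000000000000) (nat_lit 0x0) (nat_lit 0x4006000000000000000000000000000000000000) := D_1 (nat_lit 145) (nat_lit 146) (nat_lit 158) (nat_lit 2) (nat_lit 6) (nat_lit 9) (nat_lit 2) (nat_lit 5) (nat_lit 9) (by decide +kernel)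
theorem L26612 : W_1 (nat_lit 2) (nat_lit 0x10007800380008000c000000000000000000000000000) (nat_lit 0x0) (nat_lit 0x40002000100000000000000000000000) := D_1 (nat_lit 109) (nat_lit 92) (nat_lit 126) (nat_lit 4) (nat_lit 8) (nat_lit 9) (nat_lit 5) (nat_lit 7) (nat_lit 6) (by decide +kernel)
theorem L26613 : W_1 (nat_lit 3) (nat_lit 0x7800380008000c000000000000000000000000000) (nat_lit 0x0) (nat_lit 0x180000000000040002000100000000000000000000000) := T_1 (nat_lit 176) (nat_lit 175) (nat_lit 1) (nat_lit 9) (nat_lit 9) L26612 (by decide +kernel)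
theorem L26614 : W_1 (nat_lit 4) (nat_lit 0x7800180008000c000000000000000000000000000) (nat_lit 0x0) (nat_lit 0x180000006000040002000100000000000000000000000) := T_1 (nat_lit 145) (nat_lit 146) (nat_lit 2) (nat_lit 6) (nat_lit 9) L26613 (by decide +kernel)
theorem L26615 : W_1 (nat_lit 5) (nat_lit 0x78001800080004000000000000000000000000000) (nat_lit 0x0) (nat_lit 0x18000000600004000a000500000000000000000000000) := T_1 (nat_lit 111) (nat_lit 94) (nat_lit 6) (nat_lit 8) (nat_lit 9) L26614 (by decide +kernel)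
theorem L26616 : W_1 (nat_lit 2) (nat_lit 0x78001800080006000000000000000000000000000) (nat_lit 0x0) (nat_lit 0x180000000000040000000000000000000000000000000) := D_1 (nat_lit 176) (nat_lit 175) (nat_lit 126) (nat_lit 1) (nat_lit 9) (nat_lit 9) (nat_lit 5) (nat_lit 7) (nat_lit 6) (by decide +kernel)
theorem L26617 : W_1 (nat_lit 3) (nat_lit 0x78001800080004000000000000000000000000000) (nat_lit 0x0) (nat_lit 0x180000000000040002000100000000000000000000000) := T_1 (nat_lit 109) (nat_lit 92) (nat_lit 4) (nat_lit 8) (nat_lit 9) L26616 (by decide +kernel)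
theorem L26618 : W_1 (nat_lit 6) (nat_lit 0x70001800080004000000000000000000000000000) (nat_lit 0x0) (nat_lit 0x18000c00600004000a000500000000000000000000000) := Q_1 (nat_lit 159) (C_1 L26611 (C_1 L26615 (C_1 L26617 N_1))) (by decide +kernel)
theorem L26619 : W_1 (nat_lit 7) (nat_lit 0x60001800080004000000000000000000000000000) (nat_lit 0x0) (nat_lit 0x38001c00600004000a000500000000000000000000000) := T_1 (nat_lit 160) (nat_lit 177) (nat_lit 5) (nat_lit 8) (nat_lit 6) L26618 (by decide +kernel)
theorem L26620 : W_1 (nat_lit 8) (nat_lit 0x20001800080004000000000000000000000000000) (nat_lit 0x0) (nat_lit 0xb8005c00600004000a000500000000000000000000000) := T_1 (nat_lit 162) (nat_lit 179) (nat_lit 7) (nat_lit 8) (nat_lit 6) L26619 (by decide +kernel)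
theorem L26621 : W_1 (nat_lit 2) (nat_lit 0x200018000e000c000000000000000000000000000) (nat_lit 0x0) (nat_lit 0x12000100000000000000000000000) := D_1 (nat_lit 109) (nat_lit 92) (nat_lit 112) (nat_lit 7) (nat_lit 7) (nat_lit 5) (nat_lit 1) (nat_lit 10) (nat_lit 6) (by decide +kernel)
theorem L26622 : W_1 (nat_lit 3) (nat_lit 0x200018000c000c000000000000000000000000000) (nat_lit 0x0) (nat_lit 0x30012000100000000000000000000000) := T_1 (nat_lit 125) (nat_lit 124) (nat_lit 2) (nat_lit 5) (nat_lit 7) L26621 (by decide +kernel)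
theorem L26623 : W_1 (nat_lit 4) (nat_lit 0x200018000c0004000000000000000000000000000) (nat_lit 0x0) (nat_lit 0x3001a000500000000000000000000000) := T_1 (nat_lit 111) (nat_lit 94) (nat_lit 6) (nat_lit 8) (nat_lit 9) L26622 (by decide +kernel)
theorem L26624 : W_1 (nat_lit 2) (nat_lit 0x300058001e000c000000000000000000000000000) (nat_lit 0x0) (nat_lit 0x600200000000000000000000000000000000) := D_1 (nat_lit 142) (nat_lit 129) (nat_lit 141) (nat_lit 1) (nat_lit 10) (nat_lit 7) (nat_lit 2) (nat_lit 5) (nat_lit 8) (by decide +kernel)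
theorem L26625 : W_1 (nat_lit 3) (nat_lit 0x300058000e000c000000000000000000000000000) (nat_lit 0x0) (nat_lit 0x600300010000000000000000000000000000) := T_1 (nat_lit 128) (nat_lit 112) (nat_lit 2) (nat_lit 6) (nat_lit 7) L26624 (by decide +kernel)
theorem L26626 : W_1 (nat_lit 4) (nat_lit 0x300018000e000c000000000000000000000000000) (nat_lit 0x0) (nat_lit 0x6600300010000000000000000000000000000) := T_1 (nat_lit 146) (nat_lit 145) (nat_lit 0) (nat_lit 10) (nat_lit 8) L26625 (by decide +kernel)
theorem L26627 : W_1 (nat_lit 5) (nat_lit 0x300018000c000c000000000000000000000000000) (nat_lit 0x0) (nat_lit 0x6600330010000000000000000000000000000) := T_1 (nat_lit 125) (nat_lit 124) (nat_lit 2) (nat_lit 5) (nat_lit 7) L26626 (by decide +kernel)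
theorem L26628 : W_1 (nat_lit 6) (nat_lit 0x300018000c0004000000000000000000000000000) (nat_lit 0x0) (nat_lit 0x6600330018000400000000000000000000000) := T_1 (nat_lit 111) (nat_lit 94) (nat_lit 6) (nat_lit 8) (nat_lit 9) L26627 (by decide +kernel)
theorem L26629 : W_1 (nat_lit 7) (nat_lit 0x200018000c0004000000000000000000000000000) (nat_lit 0x0) (nat_lit 0x200010006600330018000400000000000000000000000) := T_1 (nat_lit 160) (nat_lit 177) (nat_lit 6) (nat_lit 7) (nat_lit 10) L26628 (by decide +kernel)
theorem L26630 : W_1 (nat_lit 8) (nat_lit 0x20001800080004000000000000000000000000000) (nat_lit 0x0) (nat_lit 0x30001e00660037001a000500000000000000000000000) := Q_1 (nat_lit 126) (C_1 L26623 (C_1 L26629 (C_1 L25170 N_1))) (by decide +kernel)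
theorem L26631 : W_1 (nat_lit 2) (nat_lit 0x7000180008000c000000000000000000000000000) (nat_lit 0x0) (nat_lit 0x80000600000000000000000000000000000000000) := D_1 (nat_lit 142) (nat_lit 141) (nat_lit 163) (nat_lit 3) (nat_lit 5) (nat_lit 8) (nat_lit 0) (nat_lit 10) (nat_lit 9) (by decide +kernel)
theorem L26632 : W_1 (nat_lit 3) (nat_lit 0x3000180008000c000000000000000000000000000) (nat_lit 0x0) (nat_lit 0x8000c0000600000000000000000000000000000000000) := T_1 (nat_lit 162) (nat_lit 179) (nat_lit 7) (nat_lit 8) (nat_lit 6) L26631 (by decide +kernel)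
theorem L26633 : W_1 (nat_lit 4) (nat_lit 0x2000180008000c000000000000000000000000000) (nat_lit 0x0) (nat_lit 0xa000d0000600000000000000000000000000000000000) := T_1 (nat_lit 160) (nat_lit 177) (nat_lit 5) (nat_lit 8) (nat_lit 6) L26632 (by decide +kernel)
theorem L26634 : W_1 (nat_lit 5) (nat_lit 0x20001800080004000000000000000000000000000) (nat_lit 0x0) (nat_lit 0xa000d0000600000008000400000000000000000000000) := T_1 (nat_lit 111) (nat_lit 94) (nat_lit 6) (nat_lit 8) (nat_lit 9) L26633 (by decide +kernel)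
theorem L26635 : W_1 (nat_lit 2) (nat_lit 0x60001c00080004000000000000000000000000000) (nat_lit 0x0) (nat_lit 0x200090000000000000000000000000000000000000000) := D_1 (nat_lit 160) (nat_lit 177) (nat_lit 163) (nat_lit 5) (nat_lit 8) (nat_lit 6) (nat_lit 0) (nat_lit 10) (nat_lit 9) (by decide +kernel)
theorem L26636 : W_1 (nat_lit 3) (nat_lit 0x60001800080004000000000000000000000000000) (nat_lit 0x0) (nat_lit 0x200090000600000000000000000000000000000000000) := T_1 (nat_lit 142) (nat_lit 141) (nat_lit 3) (nat_lit 5) (nat_lit 8) L26635 (by decide +kernel)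
theorem L26637 : W_1 (nat_lit 4) (nat_lit 0x20001800080004000000000000000000000000000) (nat_lit 0x0) (nat_lit 0xa000d0000600000000000000000000000000000000000) := T_1 (nat_lit 162) (nat_lit 179) (nat_lit 7) (nat_lit 8) (nat_lit 6) L26636 (by decide +kernel)
theorem L26638 : W_1 (nat_lit 10) (nat_lit 0x20001000080004000000000000000000000000000) (nat_lit 0x0) (nat_lit 0xb800de006e0037001a000d00000000000000000000000) := Q_1 (nat_lit 143) (C_1 L26610 (C_1 L26620 (C_1 L26630 (C_1 L26634 (C_1 L26637 N_1))))) (by decide +kernel)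
theorem L26639 : W_1 (nat_lit 11) (nat_lit 0x20001000080000000000000000000000000000000) (nat_lit 0x0) (nat_lit 0xb800de006e0037001e000f00028000000000000000000) := Q_1 (nat_lit 110) (C_1 L25220 (C_1 L25101 (C_1 L26638 N_1))) (by decide +kernel)
theorem L26640 : W_1 (nat_lit 13) (nat_lit 0x1000080000000000000000000000000000000) (nat_lit 0x0) (nat_lit 0xa000700038001f000f800fe006e0037001e000f00028000000000000000000) := Q_1 (nat_lit 161) (C_1 L26449 (C_1 L26476 (C_1 L26492 (C_1 L25098 (C_1 L26450 (C_1 L26458 (C_1 L26639 N_1))))))) (by decide +kernel)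
theorem L26641 : W_1 (nat_lit 5) (nat_lit 0x1000080004000000000000000000000000000) (nat_lit 0x0) (nat_lit 0x200030000800040002000700038001400000000000000) := Q_1 (nat_lit 93) (C_1 L26496 (C_1 L25215 (C_1 L24835 N_1))) (by decide +kernel)
theorem L26642 : W_1 (nat_lit 4) (nat_lit 0x1000080004000200000000000000000000000) (nat_lit 0x0) (nat_lit 0x40002000100000000400030001000000000000000) := T_1 (nat_lit 145) (nat_lit 162) (nat_lit 7) (nat_lit 8) (nat_lit 5) L5596 (by decide +kernel)
theorem L26643 : W_1 (nat_lit 8) (nat_lit 0x1000080004000000000000000000000000000) (nat_lit 0x0) (nat_lit 0x800060002800140002000700038001c00020000000000) := Q_1 (nat_lit 93) (C_1 L26193 (C_1 L25215 (C_1 L24861 (C_1 L25211 (C_1 L26642 N_1))))) (by decide +kernel)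
theorem L26644 : W_1 (nat_lit 5) (nat_lit 0x1000080004000000000000000000000000000) (nat_lit 0x0) (nat_lit 0x800060002000100002000700038001400000000000000) := Q_1 (nat_lit 93) (C_1 L26642 (C_1 L25215 (C_1 L26193 (C_1 L25211 N_1)))) (by decide +kernel)
theorem L26645 : W_1 (nat_lit 2) (nat_lit 0x30001000080004000600000000000000000000000) (nat_lit 0x0) (nat_lit 0x800040002000000000000000000000000000000000000) := D_1 (nat_lit 162) (nat_lit 145) (nat_lit 179) (nat_lit 7) (nat_lit 8) (nat_lit 5) (nat_lit 7) (nat_lit 8) (nat_lit 6) (by decide +kernel)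
theorem L26646 : W_1 (nat_lit 3) (nat_lit 0x10001000080004000600000000000000000000000) (nat_lit 0x0) (nat_lit 0xa00060002000000000000000000000000000000000000) := T_1 (nat_lit 161) (nat_lit 177) (nat_lit 5) (nat_lit 8) (nat_lit 6) L26645 (by decide +kernel)
theorem L26647 : W_1 (nat_lit 4) (nat_lit 0x10001000080004000200000000000000000000000) (nat_lit 0x0) (nat_lit 0xa00060002000000000000400020000000000000000000) := T_1 (nat_lit 94) (nat_lit 77) (nat_lit 6) (nat_lit 8) (nat_lit 8) L26646 (by decide +kernel)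
theorem L26648 : W_1 (nat_lit 5) (nat_lit 0x1000080004000200000000000000000000000) (nat_lit 0x0) (nat_lit 0xa00070002800000000000400020000000000000000000) := T_1 (nat_lit 160) (nat_lit 143) (nat_lit 5) (nat_lit 8) (nat_lit 5) L26647 (by decide +kernel)
theorem L26649 : W_1 (nat_lit 6) (nat_lit 0x1000080004000000000000000000000000000) (nat_lit 0x0) (nat_lit 0xa00070002800140000000600030001000000000000000) := Q_1 (nat_lit 93) (C_1 L26642 (C_1 L24835 (C_1 L24930 (C_1 L26648 N_1)))) (by decide +kernel)
theorem L26650 : W_1 (nat_lit 2) (nat_lit 0x1f00080004000300000000000000000000000) (nat_lit 0x0) (nat_lit 0x7000000000000000000000000000000000000000) := D_1 (nat_lit 157) (nat_lit 156) (nat_lit 158) (nat_lit 1) (nat_lit 7) (nat_lit 8) (nat_lit 1) (nat_lit 8) (nat_lit 8) (by decide +kernel)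
theorem L26651 : W_1 (nat_lit 3) (nat_lit 0x1e00080004000300000000000000000000000) (nat_lit 0x0) (nat_lit 0x7000100040000000000000000000000000000000) := T_1 (nat_lit 140) (nat_lit 126) (nat_lit 2) (nat_lit 4) (nat_lit 8) L26650 (by decide +kernel)
theorem L26652 : W_1 (nat_lit 4) (nat_lit 0x1c00080004000300000000000000000000000) (nat_lit 0x0) (nat_lit 0x7000300140000000000000000000000000000000) := T_1 (nat_lit 141) (nat_lit 128) (nat_lit 2) (nat_lit 5) (nat_lit 8) L26651 (by decide +kernel)
theorem L26653 : W_1 (nat_lit 5) (nat_lit 0x1c00080004000200000000000000000000000) (nat_lit 0x0) (nat_lit 0x7000300140000000100008000000000000000000) := T_1 (nat_lit 92) (nat_lit 75) (nat_lit 4) (nat_lit 8) (nat_lit 8) L26652 (by decide +kernel)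
theorem L26654 : W_1 (nat_lit 2) (nat_lit 0x8003c000a0004000300000000000000000000000) (nat_lit 0x0) (nat_lit 0x4000040002000000000000000000000000000) := D_1 (nat_lit 126) (nat_lit 146) (nat_lit 109) (nat_lit 0) (nat_lit 10) (nat_lit 8) (nat_lit 5) (nat_lit 7) (nat_lit 5) (by decide +kernel)
theorem L26655 : W_1 (nat_lit 3) (nat_lit 0x8003c000a0004000200000000000000000000000) (nat_lit 0x0) (nat_lit 0x4000040002000100008000000000000000000) := T_1 (nat_lit 92) (nat_lit 75) (nat_lit 4) (nat_lit 8) (nat_lit 8) L26654 (by decide +kernel)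
theorem L26656 : W_1 (nat_lit 4) (nat_lit 0x8003c00080004000200000000000000000000000) (nat_lit 0x0) (nat_lit 0x4000070002000100008000000000000000000) := T_1 (nat_lit 125) (nat_lit 124) (nat_lit 0) (nat_lit 9) (nat_lit 8) L26655 (by decide +kernel)
theorem L26657 : W_1 (nat_lit 5) (nat_lit 0x3c00080004000200000000000000000000000) (nat_lit 0x0) (nat_lit 0xc004000070002000100008000000000000000000) := T_1 (nat_lit 159) (nat_lit 158) (nat_lit 1) (nat_lit 9) (nat_lit 8) L26656 (by decide +kernel)
theorem L26658 : W_1 (nat_lit 6) (nat_lit 0x1c00080004000200000000000000000000000) (nat_lit 0x0) (nat_lit 0x4c006000070002000100008000000000000000000) := T_1 (nat_lit 145) (nat_lit 162) (nat_lit 7) (nat_lit 8) (nat_lit 5) L26657 (by decide +kernel)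
theorem L26659 : W_1 (nat_lit 2) (nat_lit 0x1f00080004000300000000000000000000000) (nat_lit 0x0) (nat_lit 0x1c000000000000000000000000000000) := D_1 (nat_lit 123) (nat_lit 124) (nat_lit 122) (nat_lit 0) (nat_lit 8) (nat_lit 8) (nat_lit 0) (nat_lit 7) (nat_lit 8) (by decide +kernel)
theorem L26660 : W_1 (nat_lit 3) (nat_lit 0x1e00080004000300000000000000000000000) (nat_lit 0x0) (nat_lit 0x10005c000000000000000000000000000000) := T_1 (nat_lit 140) (nat_lit 126) (nat_lit 2) (nat_lit 4) (nat_lit 8) L26659 (by decide +kernel)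
theorem L26661 : W_1 (nat_lit 4) (nat_lit 0x1c00080004000300000000000000000000000) (nat_lit 0x0) (nat_lit 0x30015c000000000000000000000000000000) := T_1 (nat_lit 141) (nat_lit 128) (nat_lit 2) (nat_lit 5) (nat_lit 8) L26660 (by decide +kernel)
theorem L26662 : W_1 (nat_lit 5) (nat_lit 0x1c00080004000200000000000000000000000) (nat_lit 0x0) (nat_lit 0x30015c000000100008000000000000000000) := T_1 (nat_lit 92) (nat_lit 75) (nat_lit 4) (nat_lit 8) (nat_lit 8) L26661 (by decide +kernel)
theorem L26663 : W_1 (nat_lit 2) (nat_lit 0x3c00080004000200000000000000000000000) (nat_lit 0x0) (nat_lit 0x200300000000000000000000000000000000) := D_1 (nat_lit 128) (nat_lit 129) (nat_lit 141) (nat_lit 2) (nat_lit 6) (nat_lit 8) (nat_lit 2) (nat_lit 5) (nat_lit 8) (by decide +kernel)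
theorem L26664 : W_1 (nat_lit 3) (nat_lit 0x1c00080004000200000000000000000000000) (nat_lit 0x0) (nat_lit 0x40002200300000000000000000000000000000000) := T_1 (nat_lit 145) (nat_lit 162) (nat_lit 7) (nat_lit 8) (nat_lit 5) L26663 (by decide +kernel)
theorem L26665 : W_1 (nat_lit 7) (nat_lit 0x1800080004000200000000000000000000000) (nat_lit 0x0) (nat_lit 0x4f00670037c002000100008000000000000000000) := Q_1 (nat_lit 142) (C_1 L26653 (C_1 L26658 (C_1 L26662 (C_1 L26664 N_1)))) (by decide +kernel)
theorem L26666 : W_1 (nat_lit 8) (nat_lit 0x1000080004000200000000000000000000000) (nat_lit 0x0) (nat_lit 0x5f006f0037c002000100008000000000000000000) := T_1 (nat_lit 143) (nat_lit 160) (nat_lit 5) (nat_lit 8) (nat_lit 5) L26665 (by decide +kernel)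
theorem L26667 : W_1 (nat_lit 9) (nat_lit 0x1000080004000000000000000000000000000) (nat_lit 0x0) (nat_lit 0x5f006f0037c002000700038001400000000000000) := Q_1 (nat_lit 93) (C_1 L26642 (C_1 L25215 (C_1 L26193 (C_1 L26666 N_1)))) (by decide +kernel)
theorem L26668 : W_1 (nat_lit 2) (nat_lit 0x68003c001a0006800000000000000000000000000) (nat_lit 0x0) (nat_lit 0x100000004000040000000000000000000000000000000) := D_1 (nat_lit 126) (nat_lit 146) (nat_lit 176) (nat_lit 3) (nat_lit 6) (nat_lit 7) (nat_lit 6) (nat_lit 6) (nat_lit 10) (by decide +kernel)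
theorem L26669 : W_1 (nat_lit 3) (nat_lit 0x68003c00180006800000000000000000000000000) (nat_lit 0x0) (nat_lit 0x100000004000070000000000000000000000000000000) := T_1 (nat_lit 125) (nat_lit 124) (nat_lit 0) (nat_lit 9) (nat_lit 8) L26668 (by decide +kernel)
theorem L26670 : W_1 (nat_lit 4) (nat_lit 0x60003c00180006800000000000000000000000000) (nat_lit 0x0) (nat_lit 0x10000c004000070000000000000000000000000000000) := T_1 (nat_lit 159) (nat_lit 158) (nat_lit 1) (nat_lit 9) (nat_lit 8) L26669 (by decide +kernel)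
theorem L26671 : W_1 (nat_lit 5) (nat_lit 0x60003c00180006000000000000000000000000000) (nat_lit 0x0) (nat_lit 0x10000c004000070001800000000000000000000000000) := T_1 (nat_lit 107) (nat_lit 108) (nat_lit 3) (nat_lit 5) (nat_lit 6) L26670 (by decide +kernel)
theorem L26672 : W_1 (nat_lit 6) (nat_lit 0x60003c00080006000000000000000000000000000) (nat_lit 0x0) (nat_lit 0x10000c004000370001800000000000000000000000000) := T_1 (nat_lit 128) (nat_lit 129) (nat_lit 2) (nat_lit 6) (nat_lit 8) L26671 (by decide +kernel)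
theorem L26673 : W_1 (nat_lit 7) (nat_lit 0x60001c00080006000000000000000000000000000) (nat_lit 0x0) (nat_lit 0x10008c006000370001800000000000000000000000000) := T_1 (nat_lit 145) (nat_lit 163) (nat_lit 3) (nat_lit 6) (nat_lit 8) L26672 (by decide +kernel)
theorem L26674 : W_1 (nat_lit 8) (nat_lit 0x60001800080006000000000000000000000000000) (nat_lit 0x0) (nat_lit 0x10008c006600370001800000000000000000000000000) := T_1 (nat_lit 142) (nat_lit 141) (nat_lit 3) (nat_lit 5) (nat_lit 8) L26673 (by decide +kernel)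
theorem L26675 : W_1 (nat_lit 9) (nat_lit 0x20001800080006000000000000000000000000000) (nat_lit 0x0) (nat_lit 0x9000cc006600370001800000000000000000000000000) := T_1 (nat_lit 162) (nat_lit 179) (nat_lit 7) (nat_lit 8) (nat_lit 6) L26674 (by decide +kernel)
theorem L26676 : W_1 (nat_lit 10) (nat_lit 0x20001800080004000000000000000000000000000) (nat_lit 0x0) (nat_lit 0x9000cc006600370003800100000000000000000000000) := T_1 (nat_lit 109) (nat_lit 92) (nat_lit 4) (nat_lit 8) (nat_lit 9) L26675 (by decide +kernel)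
theorem L26677 : W_1 (nat_lit 4) (nat_lit 0x70001800080004000000000000000000000000000) (nat_lit 0x0) (nat_lit 0x18000c006000040002000100000000000000000000000) := Q_1 (nat_lit 159) (C_1 L26617 (C_1 L26611 N_1)) (by decide +kernel)
theorem L26678 : W_1 (nat_lit 5) (nat_lit 0x60001800080004000000000000000000000000000) (nat_lit 0x0) (nat_lit 0x38001c006000040002000100000000000000000000000) := T_1 (nat_lit 160) (nat_lit 177) (nat_lit 5) (nat_lit 8) (nat_lit 6) L26677 (by decide +kernel)
theorem L26679 : W_1 (nat_lit 6) (nat_lit 0x20001800080004000000000000000000000000000) (nat_lit 0x0) (nat_lit 0xb8005c006000040002000100000000000000000000000) := T_1 (nat_lit 162) (nat_lit 179) (nat_lit 7) (nat_lit 8) (nat_lit 6) L26678 (by decide +kernel)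
theorem L26680 : W_1 (nat_lit 10) (nat_lit 0x20001800080004000000000000000000000000000) (nat_lit 0x0) (nat_lit 0x100038001e006700378003c0018000c000000000000000000) := Q_1 (nat_lit 126) (C_1 L25166 (C_1 L25170 (C_1 L25022 (C_1 L25150 N_1)))) (by decide +kernel)
theorem L26681 : W_1 (nat_lit 11) (nat_lit 0x20001000080004000000000000000000000000000) (nat_lit 0x0) (nat_lit 0x1000b800de006f00378003c0018000c000000000000000000) := Q_1 (nat_lit 143) (C_1 L26676 (C_1 L26679 (C_1 L26637 (C_1 L26680 N_1)))) (by decide +kernel)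
theorem L26682 : W_1 (nat_lit 12) (nat_lit 0x1000080004000000000000000000000000000) (nat_lit 0x0) (nat_lit 0x15000f800fe006f00378003c0018000c000000000000000000) := Q_1 (nat_lit 161) (C_1 L26263 (C_1 L24775 (C_1 L26126 (C_1 L26681 N_1)))) (by decide +kernel)
theorem L26683 : W_1 (nat_lit 13) (nat_lit 0x1000080000000000000000000000000000000) (nat_lit 0x0) (nat_lit 0x15000f800ff006f0037c007c0078003c001c00020000000000) := Q_1 (nat_lit 110) (C_1 L26502 (C_1 L26641 (C_1 L25217 (C_1 L26200 (C_1 L26643 (C_1 L26644 (C_1 L26649 (C_1 L26667 (C_1 L26682 N_1))))))))) (by decide +kernel)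
theorem L26684 : W_1 (nat_lit 2) (nat_lit 0xc000400020001000180000000000000000000000000000000) (nat_lit 0x0) (nat_lit 0x200010000800000000000000000000000000000000000000000000) := D_1 (nat_lit 196) (nat_lit 179) (nat_lit 213) (nat_lit 7) (nat_lit 8) (nat_lit 7) (nat_lit 7) (nat_lit 8) (nat_lit 8) (by decide +kernel)
theorem L26685 : W_1 (nat_lit 3) (nat_lit 0x4000400020001000180000000000000000000000000000000) (nat_lit 0x0) (nat_lit 0x280018000800000000000000000000000000000000000000000000) := T_1 (nat_lit 195) (nat_lit 211) (nat_lit 5) (nat_lit 8) (nat_lit 8) L26684 (by decide +kernel)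
theorem L26686 : W_1 (nat_lit 4) (nat_lit 0x4000400020001000080000000000000000000000000000000) (nat_lit 0x0) (nat_lit 0x280018000800000000000100008000000000000000000000000000) := T_1 (nat_lit 128) (nat_lit 111) (nat_lit 6) (nat_lit 8) (nat_lit 10) L26685 (by decide +kernel)
theorem L26687 : W_1 (nat_lit 5) (nat_lit 0x400020001000080000000000000000000000000000000) (nat_lit 0x0) (nat_lit 0x28001c000a00000000000100008000000000000000000000000000) := T_1 (nat_lit 194) (nat_lit 177) (nat_lit 5) (nat_lit 8) (nat_lit 7) L26686 (by decide +kernel)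
theorem L26688 : W_1 (nat_lit 10) (nat_lit 0x20001000080000000000000000000000000000000) (nat_lit 0x0) (nat_lit 0x28001fc00fc00dc000c0014000a000000000000000000000000000) := Q_1 (nat_lit 178) (C_1 L26491 (C_1 L25055 (C_1 L26687 (C_1 L26348 N_1)))) (by decide +kernel)
theorem L26689 : W_1 (nat_lit 5) (nat_lit 0x20001000080000000000000000000000000000000) (nat_lit 0x0) (nat_lit 0x10000c0004000000014000e000700028000000000000000000) := Q_1 (nat_lit 110) (C_1 L26126 (C_1 L25101 (C_1 L26123 N_1))) (by decide +kernel)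
theorem L26690 : W_1 (nat_lit 2) (nat_lit 0x10000c000400020001a00180000000000000000000000000000000) (nat_lit 0x0) (nat_lit 0x4000200010000000000000000000000000000000000000000000000000) := D_1 (nat_lit 213) (nat_lit 196) (nat_lit 230) (nat_lit 7) (nat_lit 8) (nat_lit 8) (nat_lit 7) (nat_lit 8) (nat_lit 9) (by decide +kernel)
theorem L26691 : W_1 (nat_lit 3) (nat_lit 0xc000400020001a00180000000000000000000000000000000) (nat_lit 0x0) (nat_lit 0x4000300010000000010000000000000000000000000000000000000000) := T_1 (nat_lit 212) (nat_lit 160) (nat_lit 4) (nat_lit 8) (nat_lit 12) L26690 (by decide +kernel)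
theorem L26692 : W_1 (nat_lit 4) (nat_lit 0xc000400020001800180000000000000000000000000000000) (nat_lit 0x0) (nat_lit 0x4000300010000000010000600000000000000000000000000000000000) := T_1 (nat_lit 141) (nat_lit 142) (nat_lit 2) (nat_lit 5) (nat_lit 8) L26691 (by decide +kernel)
theorem L26693 : W_1 (nat_lit 5) (nat_lit 0xc000400020001000180000000000000000000000000000000) (nat_lit 0x0) (nat_lit 0x4000300010000000010000e00040000000000000000000000000000000) := T_1 (nat_lit 143) (nat_lit 126) (nat_lit 4) (nat_lit 8) (nat_lit 11) L26692 (by decide +kernel)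
theorem L26694 : W_1 (nat_lit 6) (nat_lit 0x4000400020001000180000000000000000000000000000000) (nat_lit 0x0) (nat_lit 0x4000380018000000010000e00040000000000000000000000000000000) := T_1 (nat_lit 195) (nat_lit 211) (nat_lit 5) (nat_lit 8) (nat_lit 8) L26693 (by decide +kernel)
theorem L26695 : W_1 (nat_lit 7) (nat_lit 0x400020001000180000000000000000000000000000000) (nat_lit 0x0) (nat_lit 0x400038001c000200010000e00040000000000000000000000000000000) := T_1 (nat_lit 194) (nat_lit 177) (nat_lit 5) (nat_lit 8) (nat_lit 7) L26694 (by decide +kernel)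
theorem L26696 : W_1 (nat_lit 8) (nat_lit 0x400020001000080000000000000000000000000000000) (nat_lit 0x0) (nat_lit 0x400038001c000200010000e00140008000000000000000000000000000) := T_1 (nat_lit 128) (nat_lit 111) (nat_lit 6) (nat_lit 8) (nat_lit 10) L26695 (by decide +kernel)
theorem L26697 : W_1 (nat_lit 2) (nat_lit 0x600020001000080004000000000000000000000000000) (nat_lit 0x0) (nat_lit 0x100008000400000000000000000000000) := D_1 (nat_lit 111) (nat_lit 128) (nat_lit 94) (nat_lit 6) (nat_lit 8) (nat_lit 10) (nat_lit 6) (nat_lit 8) (nat_lit 9) (by decide +kernel)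
theorem L26698 : W_1 (nat_lit 3) (nat_lit 0x600020001000080000000000000000000000000000000) (nat_lit 0x0) (nat_lit 0x1000000010000c000400000000000000000000000) := T_1 (nat_lit 110) (nat_lit 160) (nat_lit 5) (nat_lit 8) (nat_lit 6) L26697 (by decide +kernel)
theorem L26699 : W_1 (nat_lit 4) (nat_lit 0x400020001000080000000000000000000000000000000) (nat_lit 0x0) (nat_lit 0x400020001000000010000c000400000000000000000000000) := T_1 (nat_lit 177) (nat_lit 194) (nat_lit 5) (nat_lit 8) (nat_lit 7) L26698 (by decide +kernel)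
theorem L26700 : W_1 (nat_lit 9) (nat_lit 0x20001000080000000000000000000000000000000) (nat_lit 0x0) (nat_lit 0x400038001c000f800d0000e0014000c000400000000000000000000000) := Q_1 (nat_lit 178) (C_1 L26687 (C_1 L26454 (C_1 L24634 (C_1 L26696 (C_1 L26699 N_1))))) (by decide +kernel)
theorem L26701 : W_1 (nat_lit 2) (nat_lit 0x700014001e000c000000000000000000000000000) (nat_lit 0x0) (nat_lit 0x80000800200000000000000000000000000000000) := D_1 (nat_lit 143) (nat_lit 163) (nat_lit 129) (nat_lit 0) (nat_lit 10) (nat_lit 9) (nat_lit 1) (nat_lit 10) (nat_lit 7) (by decide +kernel)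
theorem L26702 : W_1 (nat_lit 3) (nat_lit 0x700010001e000c000000000000000000000000000) (nat_lit 0x0) (nat_lit 0x80000e00200000000000000000000000000000000) := T_1 (nat_lit 142) (nat_lit 141) (nat_lit 1) (nat_lit 9) (nat_lit 7) L26701 (by decide +kernel)
theorem L26703 : W_1 (nat_lit 4) (nat_lit 0x700010000e000c000000000000000000000000000) (nat_lit 0x0) (nat_lit 0x80000e00300010000000000000000000000000000) := T_1 (nat_lit 128) (nat_lit 112) (nat_lit 2) (nat_lit 6) (nat_lit 7) L26702 (by decide +kernel)
theorem L26704 : W_1 (nat_lit 5) (nat_lit 0x700010000c000c000000000000000000000000000) (nat_lit 0x0) (nat_lit 0x80000e00330010000000000000000000000000000) := T_1 (nat_lit 125) (nat_lit 124) (nat_lit 2) (nat_lit 5) (nat_lit 7) L26703 (by decide +kernel)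
theorem L26705 : W_1 (nat_lit 6) (nat_lit 0x700010000c0004000000000000000000000000000) (nat_lit 0x0) (nat_lit 0x80000e00330018000400000000000000000000000) := T_1 (nat_lit 111) (nat_lit 94) (nat_lit 6) (nat_lit 8) (nat_lit 9) L26704 (by decide +kernel)
theorem L26706 : W_1 (nat_lit 7) (nat_lit 0x600010000c0004000000000000000000000000000) (nat_lit 0x0) (nat_lit 0x200090000e00330018000400000000000000000000000) := T_1 (nat_lit 160) (nat_lit 177) (nat_lit 5) (nat_lit 8) (nat_lit 6) L26705 (by decide +kernel)
theorem L26707 : W_1 (nat_lit 8) (nat_lit 0x200010000c0004000000000000000000000000000) (nat_lit 0x0) (nat_lit 0xa000d0000e00330018000400000000000000000000000) := T_1 (nat_lit 162) (nat_lit 179) (nat_lit 7) (nat_lit 8) (nat_lit 6) L26706 (by decide +kernel)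
theorem L26708 : W_1 (nat_lit 2) (nat_lit 0x200018001c0004000000000000000000000000000) (nat_lit 0x0) (nat_lit 0x600200000000000000000000000000000000) := D_1 (nat_lit 142) (nat_lit 141) (nat_lit 129) (nat_lit 2) (nat_lit 5) (nat_lit 8) (nat_lit 1) (nat_lit 10) (nat_lit 7) (by decide +kernel)
theorem L26709 : W_1 (nat_lit 2) (nat_lit 0x200018001c0006000000000000000000000000000) (nat_lit 0x0) (nat_lit 0x200001800000000000000000000000000) := D_1 (nat_lit 108) (nat_lit 107) (nat_lit 129) (nat_lit 3) (nat_lit 5) (nat_lit 6) (nat_lit 0) (nat_lit 10) (nat_lit 7) (by decide +kernel)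
theorem L26710 : W_1 (nat_lit 3) (nat_lit 0x200018001c0004000000000000000000000000000) (nat_lit 0x0) (nat_lit 0x200003800100000000000000000000000) := T_1 (nat_lit 109) (nat_lit 92) (nat_lit 7) (nat_lit 7) (nat_lit 5) L26709 (by decide +kernel)
theorem L26711 : W_1 (nat_lit 2) (nat_lit 0x60001a001e0004000000000000000000000000000) (nat_lit 0x0) (nat_lit 0x100018000000000000000000000000000000) := D_1 (nat_lit 124) (nat_lit 123) (nat_lit 140) (nat_lit 3) (nat_lit 4) (nat_lit 7) (nat_lit 1) (nat_lit 8) (nat_lit 7) (by decide +kernel)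
theorem L26712 : W_1 (nat_lit 3) (nat_lit 0x600018001e0004000000000000000000000000000) (nat_lit 0x0) (nat_lit 0x700018000000000000000000000000000000) := T_1 (nat_lit 141) (nat_lit 142) (nat_lit 3) (nat_lit 5) (nat_lit 8) L26711 (by decide +kernel)
theorem L26713 : W_1 (nat_lit 4) (nat_lit 0x200018001e0004000000000000000000000000000) (nat_lit 0x0) (nat_lit 0x800040000700018000000000000000000000000000000) := T_1 (nat_lit 162) (nat_lit 179) (nat_lit 7) (nat_lit 8) (nat_lit 6) L26712 (by decide +kernel)
theorem L26714 : W_1 (nat_lit 2) (nat_lit 0x20001c001e8005000100000000000000000000000) (nat_lit 0x0) (nat_lit 0x8000c000000000000000000) := D_1 (nat_lit 91) (nat_lit 75) (nat_lit 74) (nat_lit 6) (nat_lit 6) (nat_lit 8) (nat_lit 7) (nat_lit 6) (nat_lit 4) (by decide +kernel)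
theorem L26715 : W_1 (nat_lit 3) (nat_lit 0x20001c001e8005000000000000000000000000000) (nat_lit 0x0) (nat_lit 0x200018000c000000000000000000) := T_1 (nat_lit 92) (nat_lit 109) (nat_lit 7) (nat_lit 7) (nat_lit 5) L26714 (by decide +kernel)
theorem L26716 : W_1 (nat_lit 4) (nat_lit 0x20001c001e8004000000000000000000000000000) (nat_lit 0x0) (nat_lit 0x380018000c000000000000000000) := T_1 (nat_lit 108) (nat_lit 107) (nat_lit 0) (nat_lit 9) (nat_lit 7) L26715 (by decide +kernel)
theorem L26717 : W_1 (nat_lit 5) (nat_lit 0x200018001e8004000000000000000000000000000) (nat_lit 0x0) (nat_lit 0x60000000380018000c000000000000000000) := T_1 (nat_lit 142) (nat_lit 141) (nat_lit 2) (nat_lit 5) (nat_lit 8) L26716 (by decide +kernel)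
theorem L26718 : W_1 (nat_lit 6) (nat_lit 0x200018001e0004000000000000000000000000000) (nat_lit 0x0) (nat_lit 0x60001800380018000c000000000000000000) := T_1 (nat_lit 123) (nat_lit 124) (nat_lit 3) (nat_lit 4) (nat_lit 7) L26717 (by decide +kernel)
theorem L26719 : W_1 (nat_lit 2) (nat_lit 0x200018001e0006800000000000000000000000000) (nat_lit 0x0) (nat_lit 0x18000400000000000000000000000000) := D_1 (nat_lit 124) (nat_lit 123) (nat_lit 106) (nat_lit 3) (nat_lit 4) (nat_lit 7) (nat_lit 0) (nat_lit 8) (nat_lit 7) (by decide +kernel)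
theorem L26720 : W_1 (nat_lit 3) (nat_lit 0x200018001e0006000000000000000000000000000) (nat_lit 0x0) (nat_lit 0x18001c00000000000000000000000000) := T_1 (nat_lit 107) (nat_lit 108) (nat_lit 3) (nat_lit 5) (nat_lit 6) L26719 (by decide +kernel)
theorem L26721 : W_1 (nat_lit 4) (nat_lit 0x200018001e0004000000000000000000000000000) (nat_lit 0x0) (nat_lit 0x18003c00100000000000000000000000) := T_1 (nat_lit 109) (nat_lit 92) (nat_lit 7) (nat_lit 7) (nat_lit 5) L26720 (by decide +kernel)
theorem L26722 : W_1 (nat_lit 2) (nat_lit 0x20001c001e0005000100000000000000000000000) (nat_lit 0x0) (nat_lit 0x8000c000000000000000000) := D_1 (nat_lit 91) (nat_lit 75) (nat_lit 74) (nat_lit 6) (nat_lit 6) (nat_lit 8) (nat_lit 7) (nat_lit 6) (nat_lit 4) (by decide +kernel)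
theorem L26723 : W_1 (nat_lit 3) (nat_lit 0x20001c001e0004000100000000000000000000000) (nat_lit 0x0) (nat_lit 0x180008000c000000000000000000) := T_1 (nat_lit 108) (nat_lit 107) (nat_lit 0) (nat_lit 9) (nat_lit 7) L26722 (by decide +kernel)
theorem L26724 : W_1 (nat_lit 4) (nat_lit 0x20001c001e0004000000000000000000000000000) (nat_lit 0x0) (nat_lit 0x380018000c000000000000000000) := T_1 (nat_lit 92) (nat_lit 109) (nat_lit 7) (nat_lit 7) (nat_lit 5) L26723 (by decide +kernel)
theorem L26725 : W_1 (nat_lit 5) (nat_lit 0x200018001e0004000000000000000000000000000) (nat_lit 0x0) (nat_lit 0x60000000380018000c000000000000000000) := T_1 (nat_lit 142) (nat_lit 141) (nat_lit 2) (nat_lit 5) (nat_lit 8) L26724 (by decide +kernel)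
theorem L26726 : W_1 (nat_lit 7) (nat_lit 0x200018001c0004000000000000000000000000000) (nat_lit 0x0) (nat_lit 0x800040000700038003c0018000c000000000000000000) := Q_1 (nat_lit 125) (C_1 L26713 (C_1 L26718 (C_1 L26721 (C_1 L26725 N_1)))) (by decide +kernel)
theorem L26727 : W_1 (nat_lit 8) (nat_lit 0x200018000c0004000000000000000000000000000) (nat_lit 0x0) (nat_lit 0x800040000700338003c0018000c000000000000000000) := Q_1 (nat_lit 128) (C_1 L26708 (C_1 L26710 (C_1 L26726 N_1))) (by decide +kernel)
theorem L26728 : W_1 (nat_lit 2) (nat_lit 0x700018000c0004000000000000000000000000000) (nat_lit 0x0) (nat_lit 0x80000600000000000000000000000000000000000) := D_1 (nat_lit 142) (nat_lit 141) (nat_lit 163) (nat_lit 3) (nat_lit 5) (nat_lit 8) (nat_lit 0) (nat_lit 10) (nat_lit 9) (by decide +kernel)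
theorem L26729 : W_1 (nat_lit 3) (nat_lit 0x300018000c0004000000000000000000000000000) (nat_lit 0x0) (nat_lit 0x8000c0000600000000000000000000000000000000000) := T_1 (nat_lit 162) (nat_lit 179) (nat_lit 7) (nat_lit 8) (nat_lit 6) L26728 (by decide +kernel)
theorem L26730 : W_1 (nat_lit 4) (nat_lit 0x200018000c0004000000000000000000000000000) (nat_lit 0x0) (nat_lit 0xa000d0000600000000000000000000000000000000000) := T_1 (nat_lit 160) (nat_lit 177) (nat_lit 6) (nat_lit 7) (nat_lit 10) L26729 (by decide +kernel)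
theorem L26731 : W_1 (nat_lit 9) (nat_lit 0x200010000c0004000000000000000000000000000) (nat_lit 0x0) (nat_lit 0xa000d0000f00338003c0018000c000000000000000000) := Q_1 (nat_lit 143) (C_1 L26727 (C_1 L25022 (C_1 L26115 (C_1 L26730 N_1)))) (by decide +kernel)
theorem L26732 : W_1 (nat_lit 10) (nat_lit 0x20001000080004000000000000000000000000000) (nat_lit 0x0) (nat_lit 0xa000d0000f0037801bc005c000c000000000000000000) := Q_1 (nat_lit 126) (C_1 L25013 (C_1 L25104 (C_1 L26707 (C_1 L26731 N_1)))) (by decide +kernel)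
theorem L26733 : W_1 (nat_lit 11) (nat_lit 0x20001000080000000000000000000000000000000) (nat_lit 0x0) (nat_lit 0xa000d0000f0037801fc007c002c000000000000000000) := Q_1 (nat_lit 110) (C_1 L25101 (C_1 L25051 (C_1 L25091 (C_1 L26732 N_1)))) (by decide +kernel)
theorem L26734 : W_1 (nat_lit 12) (nat_lit 0x1000080000000000000000000000000000000) (nat_lit 0x0) (nat_lit 0x600038001fc00fc00fc000f0037801fc007c002c000000000000000000) := Q_1 (nat_lit 161) (C_1 L26688 (C_1 L26476 (C_1 L25098 (C_1 L26689 (C_1 L26700 (C_1 L25092 (C_1 L26733 N_1))))))) (by decide +kernel)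
theorem L26956 : W_1 (nat_lit 2) (nat_lit 0x38000c0016000780000000000000000000000) (nat_lit 0x0) (nat_lit 0x4000030000000000000000000000000000000) := D_1 (nat_lit 125) (nat_lit 124) (nat_lit 146) (nat_lit 3) (nat_lit 5) (nat_lit 7) (nat_lit 0) (nat_lit 10) (nat_lit 8) (by decide +kernel)
theorem L26957 : W_1 (nat_lit 3) (nat_lit 0x18000c0016000780000000000000000000000) (nat_lit 0x0) (nat_lit 0x40006000030000000000000000000000000000000) := T_1 (nat_lit 145) (nat_lit 162) (nat_lit 7) (nat_lit 8) (nat_lit 5) L26956 (by decide +kernel)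
theorem L26958 : W_1 (nat_lit 4) (nat_lit 0x18000c0016000380000000000000000000000) (nat_lit 0x0) (nat_lit 0x40006000030000000400020000000000000000000) := T_1 (nat_lit 94) (nat_lit 77) (nat_lit 6) (nat_lit 8) (nat_lit 8) L26957 (by decide +kernel)
theorem L26959 : W_1 (nat_lit 5) (nat_lit 0x18000c0006000380000000000000000000000) (nat_lit 0x0) (nat_lit 0x40006000030018000400020000000000000000000) := T_1 (nat_lit 112) (nat_lit 111) (nat_lit 0) (nat_lit 10) (nat_lit 6) L26958 (by decide +kernel)
theorem L26960 : W_1 (nat_lit 6) (nat_lit 0x1800080006000380000000000000000000000) (nat_lit 0x0) (nat_lit 0x40006000070018000400024000000000000000000) := T_1 (nat_lit 126) (nat_lit 74) (nat_lit 4) (nat_lit 7) (nat_lit 8) L26959 (by decide +kernel)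
theorem L26961 : W_1 (nat_lit 7) (nat_lit 0x1000080006000380000000000000000000000) (nat_lit 0x0) (nat_lit 0x50006800070018000400024000000000000000000) := T_1 (nat_lit 143) (nat_lit 160) (nat_lit 5) (nat_lit 8) (nat_lit 5) L26960 (by decide +kernel)
theorem L26962 : W_1 (nat_lit 8) (nat_lit 0x1000080006000300000000000000000000000) (nat_lit 0x0) (nat_lit 0x500068000700180004e0024000000000000000000) := Q_1 (nat_lit 91) (C_1 L26035 (C_1 L26034 (C_1 L26961 N_1))) (by decide +kernel)
theorem L26963 : W_1 (nat_lit 9) (nat_lit 0x1000080006000200000000000000000000000) (nat_lit 0x0) (nat_lit 0x500068000700180005e002c000000000000000000) := T_1 (nat_lit 92) (nat_lit 75) (nat_lit 4) (nat_lit 8) (nat_lit 8) L26962 (by decide +kernel)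
theorem L26964 : W_1 (nat_lit 2) (nat_lit 0x30000e0006000200000000000000000000000) (nat_lit 0x0) (nat_lit 0x10004800000000000000000000000000000000000) := D_1 (nat_lit 143) (nat_lit 160) (nat_lit 146) (nat_lit 6) (nat_lit 7) (nat_lit 9) (nat_lit 0) (nat_lit 10) (nat_lit 8) (by decide +kernel)
theorem L26965 : W_1 (nat_lit 3) (nat_lit 0x30000c0006000200000000000000000000000) (nat_lit 0x0) (nat_lit 0x10004800030000000000000000000000000000000) := T_1 (nat_lit 125) (nat_lit 124) (nat_lit 3) (nat_lit 5) (nat_lit 7) L26964 (by decide +kernel)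
theorem L26966 : W_1 (nat_lit 4) (nat_lit 0x10000c0006000200000000000000000000000) (nat_lit 0x0) (nat_lit 0x50006800030000000000000000000000000000000) := T_1 (nat_lit 145) (nat_lit 162) (nat_lit 7) (nat_lit 8) (nat_lit 5) L26965 (by decide +kernel)
theorem L26967 : W_1 (nat_lit 2) (nat_lit 0x30001e0006000200008000000000000000000) (nat_lit 0x0) (nat_lit 0x200001800000000000000000000000000) := D_1 (nat_lit 108) (nat_lit 107) (nat_lit 129) (nat_lit 3) (nat_lit 5) (nat_lit 6) (nat_lit 0) (nat_lit 10) (nat_lit 7) (by decide +kernel)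
theorem L26968 : W_1 (nat_lit 3) (nat_lit 0x30000e0006000200008000000000000000000) (nat_lit 0x0) (nat_lit 0x4000300001800000000000000000000000000) := T_1 (nat_lit 128) (nat_lit 146) (nat_lit 3) (nat_lit 6) (nat_lit 7) L26967 (by decide +kernel)
theorem L26969 : W_1 (nat_lit 4) (nat_lit 0x30000c0006000200008000000000000000000) (nat_lit 0x0) (nat_lit 0x4000330001800000000000000000000000000) := T_1 (nat_lit 125) (nat_lit 124) (nat_lit 3) (nat_lit 5) (nat_lit 7) L26968 (by decide +kernel)
theorem L26970 : W_1 (nat_lit 5) (nat_lit 0x10000c0006000200008000000000000000000) (nat_lit 0x0) (nat_lit 0x40006000330001800000000000000000000000000) := T_1 (nat_lit 145) (nat_lit 162) (nat_lit 7) (nat_lit 8) (nat_lit 5) L26969 (by decide +kernel)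
theorem L26971 : W_1 (nat_lit 6) (nat_lit 0x10000c0006000200000000000000000000000) (nat_lit 0x0) (nat_lit 0x40006000330001800100008000000000000000000) := T_1 (nat_lit 75) (nat_lit 92) (nat_lit 7) (nat_lit 7) (nat_lit 4) L26970 (by decide +kernel)
theorem L26972 : W_1 (nat_lit 7) (nat_lit 0x1000080006000200000000000000000000000) (nat_lit 0x0) (nat_lit 0x500068003700098001e000c000000000000000000) := Q_1 (nat_lit 126) (C_1 L26966 (C_1 L26971 (C_1 L25241 N_1))) (by decide +kernel)
theorem L26973 : W_1 (nat_lit 10) (nat_lit 0x1000080004000200000000000000000000000) (nat_lit 0x0) (nat_lit 0x5000680037001b800de002c000000000000000000) := Q_1 (nat_lit 109) (C_1 L26047 (C_1 L26054 (C_1 L26963 (C_1 L26972 N_1)))) (by decide +kernel)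
theorem L26974 : W_1 (nat_lit 11) (nat_lit 0x1000080004000000000000000000000000000) (nat_lit 0x0) (nat_lit 0x5000680037001b800fe003c001400000000000000) := Q_1 (nat_lit 93) (C_1 L26642 (C_1 L25215 (C_1 L26193 (C_1 L26973 N_1)))) (by decide +kernel)
theorem L26975 : W_1 (nat_lit 2) (nat_lit 0x1000780030000c000e000000000000000000000000000) (nat_lit 0x0) (nat_lit 0x30010000000000000000000000000000) := D_1 (nat_lit 125) (nat_lit 124) (nat_lit 112) (nat_lit 3) (nat_lit 5) (nat_lit 7) (nat_lit 1) (nat_lit 10) (nat_lit 6) (by decide +kernel)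
theorem L26976 : W_1 (nat_lit 3) (nat_lit 0x10007800300008000e000000000000000000000000000) (nat_lit 0x0) (nat_lit 0x800070010000000000000000000000000000) := T_1 (nat_lit 126) (nat_lit 143) (nat_lit 5) (nat_lit 7) (nat_lit 6) L26975 (by decide +kernel)
theorem L26977 : W_1 (nat_lit 4) (nat_lit 0x7800300008000e000000000000000000000000000) (nat_lit 0x0) (nat_lit 0x180000000800070010000000000000000000000000000) := T_1 (nat_lit 176) (nat_lit 175) (nat_lit 1) (nat_lit 9) (nat_lit 9) L26976 (by decide +kernel)
theorem L26978 : W_1 (nat_lit 5) (nat_lit 0x7000300008000e000000000000000000000000000) (nat_lit 0x0) (nat_lit 0x18000c000800070010000000000000000000000000000) := T_1 (nat_lit 159) (nat_lit 158) (nat_lit 2) (nat_lit 5) (nat_lit 9) L26977 (by decide +kernel)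
theorem L26979 : W_1 (nat_lit 6) (nat_lit 0x6000300008000e000000000000000000000000000) (nat_lit 0x0) (nat_lit 0x38001c000800070010000000000000000000000000000) := T_1 (nat_lit 160) (nat_lit 177) (nat_lit 5) (nat_lit 8) (nat_lit 6) L26978 (by decide +kernel)
theorem L26980 : W_1 (nat_lit 7) (nat_lit 0x60003000080006000000000000000000000000000) (nat_lit 0x0) (nat_lit 0x38001c000800070018000400000000000000000000000) := T_1 (nat_lit 111) (nat_lit 94) (nat_lit 6) (nat_lit 8) (nat_lit 9) L26979 (by decide +kernel)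
theorem L26981 : W_1 (nat_lit 8) (nat_lit 0x20003000080006000000000000000000000000000) (nat_lit 0x0) (nat_lit 0xb8005c000800070018000400000000000000000000000) := T_1 (nat_lit 162) (nat_lit 179) (nat_lit 7) (nat_lit 8) (nat_lit 6) L26980 (by decide +kernel)
theorem L26982 : W_1 (nat_lit 9) (nat_lit 0x20003000080004000000000000000000000000000) (nat_lit 0x0) (nat_lit 0xb8005c00080007001a000500000000000000000000000) := T_1 (nat_lit 109) (nat_lit 92) (nat_lit 4) (nat_lit 8) (nat_lit 9) L26981 (by decide +kernel)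
theorem L26983 : W_1 (nat_lit 10) (nat_lit 0x20001000080004000000000000000000000000000) (nat_lit 0x0) (nat_lit 0xb8005c00680037001b800d00000000000000000000000) := Q_1 (nat_lit 145) (C_1 L24749 (C_1 L24755 (C_1 L24732 (C_1 L26982 N_1)))) (by decide +kernel)
theorem L26984 : W_1 (nat_lit 11) (nat_lit 0x1000080004000000000000000000000000000) (nat_lit 0x0) (nat_lit 0x14000f8007c00680037001b800d00000000000000000000000) := Q_1 (nat_lit 161) (C_1 L26263 (C_1 L25088 (C_1 L26983 N_1))) (by decide +kernel)
theorem L26985 : W_1 (nat_lit 12) (nat_lit 0x1000080000000000000000000000000000000) (nat_lit 0x0) (nat_lit 0x14000f8007c00680037001f800fe003c001400000000000000) := Q_1 (nat_lit 110) (C_1 L26649 (C_1 L26641 (C_1 L26644 (C_1 L26502 (C_1 L26974 (C_1 L26984 N_1)))))) (by decide +kernel)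
theorem L26986 : W_1 (nat_lit 2) (nat_lit 0xc00020001000080002000000000000000000000000000) (nat_lit 0x0) (nat_lit 0x40000000000004000100000000000000000000000) := D_1 (nat_lit 110) (nat_lit 162) (nat_lit 92) (nat_lit 7) (nat_lit 8) (nat_lit 6) (nat_lit 4) (nat_lit 8) (nat_lit 9) (by decide +kernel)
theorem L26987 : W_1 (nat_lit 3) (nat_lit 0x400020001000080002000000000000000000000000000) (nat_lit 0x0) (nat_lit 0x10000800040000000000004000100000000000000000000000) := T_1 (nat_lit 179) (nat_lit 196) (nat_lit 7) (nat_lit 8) (nat_lit 7) L26986 (by decide +kernel)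
theorem L26988 : W_1 (nat_lit 4) (nat_lit 0x400020001000080000000000000000000000000000000) (nat_lit 0x0) (nat_lit 0x10000800040000000040006000100000000000000000000000) := T_1 (nat_lit 109) (nat_lit 126) (nat_lit 4) (nat_lit 8) (nat_lit 10) L26987 (by decide +kernel)
theorem L26989 : W_1 (nat_lit 5) (nat_lit 0x20001000080000000000000000000000000000000) (nat_lit 0x0) (nat_lit 0x200018000c0004000280014000e000100000000000000000000000) := Q_1 (nat_lit 178) (C_1 L25064 (C_1 L25055 (C_1 L25043 (C_1 L26988 N_1)))) (by decide +kernel)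
theorem L26990 : W_1 (nat_lit 12) (nat_lit 0x20001000080000000000000000000000000000000) (nat_lit 0x0) (nat_lit 0x1000b800de006f00378007c0038000c000000000000000000) := Q_1 (nat_lit 110) (C_1 L25220 (C_1 L26681 (C_1 L25091 (C_1 L24620 N_1)))) (by decide +kernel)
theorem L26991 : W_1 (nat_lit 9) (nat_lit 0x20001000080000000000000000000000000000000) (nat_lit 0x0) (nat_lit 0x400038001c000600010002e0014000e000100000000000000000000000) := Q_1 (nat_lit 178) (C_1 L26696 (C_1 L26491 (C_1 L25043 (C_1 L26457 (C_1 L24650 N_1))))) (by decide +kernel)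
theorem L26992 : W_1 (nat_lit 13) (nat_lit 0x1000080000000000000000000000000000000) (nat_lit 0x0) (nat_lit 0xa000700038001fc00fc00fe006f0037800fc0038000c000000000000000000) := Q_1 (nat_lit 161) (C_1 L26688 (C_1 L26475 (C_1 L25098 (C_1 L26989 (C_1 L26458 (C_1 L26990 (C_1 L26991 N_1))))))) (by decide +kernel)
theorem L26993 : W_1 (nat_lit 6) (nat_lit 0x20001000080000000000000000000000000000000) (nat_lit 0x0) (nat_lit 0x28001c000f800c0000800040006000000000000000000000000000) := Q_1 (nat_lit 178) (C_1 L26491 (C_1 L25055 (C_1 L26454 N_1))) (by decide +kernel)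
theorem L26994 : W_1 (nat_lit 5) (nat_lit 0x20001000080000000000000000000000000000000) (nat_lit 0x0) (nat_lit 0x200018000c0004000280014000e000400000000000000000000000) := Q_1 (nat_lit 178) (C_1 L25064 (C_1 L25055 (C_1 L25043 (C_1 L24634 N_1)))) (by decide +kernel)
theorem L26995 : W_1 (nat_lit 12) (nat_lit 0x20001000080000000000000000000000000000000) (nat_lit 0x0) (nat_lit 0xa000df006f0037801d800e80020000000000000000000) := Q_1 (nat_lit 110) (C_1 L25220 (C_1 L26327 (C_1 L25051 (C_1 L24627 N_1)))) (by decide +kernel)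
theorem L26996 : W_1 (nat_lit 9) (nat_lit 0x20001000080000000000000000000000000000000) (nat_lit 0x0) (nat_lit 0x400038001c000600010002e0014000e000400000000000000000000000) := Q_1 (nat_lit 178) (C_1 L26699 (C_1 L26696 (C_1 L26491 (C_1 L25043 N_1)))) (by decide +kernel)
theorem L26997 : W_1 (nat_lit 13) (nat_lit 0x1000080000000000000000000000000000000) (nat_lit 0x0) (nat_lit 0x600038001fc00fc00ff006f0037801f800e80020000000000000000000) := Q_1 (nat_lit 161) (C_1 L26688 (C_1 L26700 (C_1 L25083 (C_1 L26993 (C_1 L26994 (C_1 L26458 (C_1 L26995 (C_1 L26996 N_1)))))))) (by decide +kernel)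
theorem L26998 : W_1 (nat_lit 12) (nat_lit 0x1000080004000000000000000000000000000) (nat_lit 0x0) (nat_lit 0x3000be00ff006f8037801bc00de000c000000000000000000) := Q_1 (nat_lit 161) (C_1 L26385 (C_1 L26983 (C_1 L26732 (C_1 L25172 (C_1 L26117 (C_1 L26487 (C_1 L26327 (C_1 L26600 (C_1 L26638 (C_1 L24765 (C_1 L26681 N_1))))))))))) (by decide +kernel)
theorem L26999 : W_1 (nat_lit 13) (nat_lit 0x1000080000000000000000000000000000000) (nat_lit 0x0) (nat_lit 0x3000be00ff006f8037801fc00fe003c001400000000000000) := Q_1 (nat_lit 110) (C_1 L26649 (C_1 L26974 (C_1 L26641 (C_1 L26644 (C_1 L26200 (C_1 L26998 N_1)))))) (by decide +kernel)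
theorem L27000 : W_1 (nat_lit 9) (nat_lit 0x1000080004000000000000000000000000000) (nat_lit 0x0) (nat_lit 0x20007f006f0037c002000300018000400000000000000) := Q_1 (nat_lit 93) (C_1 L26496 (C_1 L26666 (C_1 L26193 (C_1 L24930 N_1)))) (by decide +kernel)
theorem L27001 : W_1 (nat_lit 12) (nat_lit 0x1000080004000000000000000000000000000) (nat_lit 0x0) (nat_lit 0x50007e003e006f8037801bc0058000c000000000000000000) := Q_1 (nat_lit 161) (C_1 L25088 (C_1 L25172 (C_1 L25048 (C_1 L24778 (C_1 L24775 N_1))))) (by decide +kernel)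
theorem L27002 : W_1 (nat_lit 6) (nat_lit 0x1000080004000000000000000000000000000) (nat_lit 0x0) (nat_lit 0x400060003000080034000b800700020000000000000000000) := Q_1 (nat_lit 161) (C_1 L25088 (C_1 L25051 (C_1 L24775 N_1))) (by decide +kernel)
theorem L27003 : W_1 (nat_lit 13) (nat_lit 0x1000080000000000000000000000000000000) (nat_lit 0x0) (nat_lit 0x50007e00ff006f8037c01fc00fe007e001c000e0000000000) := Q_1 (nat_lit 110) (C_1 L26641 (C_1 L26974 (C_1 L26260 (C_1 L24873 (C_1 L26551 (C_1 L24921 (C_1 L27000 (C_1 L24936 (C_1 L27001 (C_1 L27002 N_1)))))))))) (by decide +kernel)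
theorem L27004 : W_1 (nat_lit 2) (nat_lit 0x1f00080000000000000000000000000000000) (nat_lit 0x0) (nat_lit 0x7000000000000000000000000000000000000000) := D_1 (nat_lit 157) (nat_lit 156) (nat_lit 158) (nat_lit 1) (nat_lit 7) (nat_lit 8) (nat_lit 1) (nat_lit 8) (nat_lit 8) (by decide +kernel)
theorem L27005 : W_1 (nat_lit 3) (nat_lit 0x1e00080000000000000000000000000000000) (nat_lit 0x0) (nat_lit 0x7000100040000000000000000000000000000000) := T_1 (nat_lit 140) (nat_lit 126) (nat_lit 2) (nat_lit 4) (nat_lit 8) L27004 (by decide +kernel)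
theorem L27006 : W_1 (nat_lit 4) (nat_lit 0x1c00080000000000000000000000000000000) (nat_lit 0x0) (nat_lit 0x7000300140000000000000000000000000000000) := T_1 (nat_lit 141) (nat_lit 128) (nat_lit 2) (nat_lit 5) (nat_lit 8) L27005 (by decide +kernel)
theorem L27007 : W_1 (nat_lit 2) (nat_lit 0x1f00090000000000000000000000000000000) (nat_lit 0x0) (nat_lit 0x70000000000000000000000000000000000000000) := D_1 (nat_lit 161) (nat_lit 162) (nat_lit 160) (nat_lit 3) (nat_lit 5) (nat_lit 8) (nat_lit 3) (nat_lit 4) (nat_lit 8) (by decide +kernel)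
theorem L27008 : W_1 (nat_lit 3) (nat_lit 0x1e00090000000000000000000000000000000) (nat_lit 0x0) (nat_lit 0x70000100040000000000000000000000000000000) := T_1 (nat_lit 140) (nat_lit 126) (nat_lit 2) (nat_lit 4) (nat_lit 8) L27007 (by decide +kernel)
theorem L27009 : W_1 (nat_lit 4) (nat_lit 0x1e00080000000000000000000000000000000) (nat_lit 0x0) (nat_lit 0x70000100058000000000000000000000000000000) := T_1 (nat_lit 124) (nat_lit 123) (nat_lit 0) (nat_lit 8) (nat_lit 8) L27008 (by decide +kernel)
theorem L27010 : W_1 (nat_lit 2) (nat_lit 0x4003e00090000000000000000000000000000000) (nat_lit 0x0) (nat_lit 0xe0000000000000000000000000000000000000000) := D_1 (nat_lit 162) (nat_lit 161) (nat_lit 163) (nat_lit 3) (nat_lit 5) (nat_lit 8) (nat_lit 3) (nat_lit 6) (nat_lit 8) (by decide +kernel)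
theorem L27011 : W_1 (nat_lit 3) (nat_lit 0x4001e00090000000000000000000000000000000) (nat_lit 0x0) (nat_lit 0xe8002000000000000000000000000000000000000) := T_1 (nat_lit 145) (nat_lit 159) (nat_lit 1) (nat_lit 9) (nat_lit 8) L27010 (by decide +kernel)
theorem L27012 : W_1 (nat_lit 4) (nat_lit 0x4001e00080000000000000000000000000000000) (nat_lit 0x0) (nat_lit 0xe8002000018000000000000000000000000000000) := T_1 (nat_lit 124) (nat_lit 123) (nat_lit 0) (nat_lit 8) (nat_lit 8) L27011 (by decide +kernel)
theorem L27013 : W_1 (nat_lit 5) (nat_lit 0x1e00080000000000000000000000000000000) (nat_lit 0x0) (nat_lit 0xee002000018000000000000000000000000000000) := T_1 (nat_lit 158) (nat_lit 157) (nat_lit 1) (nat_lit 8) (nat_lit 8) L27012 (by decide +kernel)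
theorem L27014 : W_1 (nat_lit 6) (nat_lit 0x1c00080000000000000000000000000000000) (nat_lit 0x0) (nat_lit 0xff002300058000000000000000000000000000000) := Q_1 (nat_lit 141) (C_1 L27005 (C_1 L27009 (C_1 L27013 N_1))) (by decide +kernel)
theorem L27015 : W_1 (nat_lit 5) (nat_lit 0x1c00080000000000000000000000000000000) (nat_lit 0x0) (nat_lit 0x70000300158000000000000000000000000000000) := T_1 (nat_lit 141) (nat_lit 128) (nat_lit 2) (nat_lit 5) (nat_lit 8) L27009 (by decide +kernel)
theorem L27016 : W_1 (nat_lit 6) (nat_lit 0x1c00080000000000000000000000000000000) (nat_lit 0x0) (nat_lit 0xee002200118000000000000000000000000000000) := T_1 (nat_lit 141) (nat_lit 128) (nat_lit 2) (nat_lit 5) (nat_lit 8) L27013 (by decide +kernel)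
theorem L27017 : W_1 (nat_lit 2) (nat_lit 0x400020001c00080000000000000000000000000000000) (nat_lit 0x0) (nat_lit 0x8000000000000000040002000000000000000000000000000) := D_1 (nat_lit 126) (nat_lit 109) (nat_lit 195) (nat_lit 4) (nat_lit 8) (nat_lit 10) (nat_lit 4) (nat_lit 8) (nat_lit 11) (by decide +kernel)
theorem L27018 : W_1 (nat_lit 2) (nat_lit 0xc00020001c00180000000000000000000000000000000) (nat_lit 0x0) (nat_lit 0x8000000000002000200000000000000000000000000000000) := D_1 (nat_lit 145) (nat_lit 129) (nat_lit 195) (nat_lit 2) (nat_lit 6) (nat_lit 8) (nat_lit 6) (nat_lit 8) (nat_lit 11) (by decide +kernel)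
theorem L27019 : W_1 (nat_lit 3) (nat_lit 0xc00020001c00080000000000000000000000000000000) (nat_lit 0x0) (nat_lit 0x8000000000002000300008000000000000000000000000000) := T_1 (nat_lit 128) (nat_lit 111) (nat_lit 6) (nat_lit 8) (nat_lit 10) L27018 (by decide +kernel)
theorem L27020 : W_1 (nat_lit 4) (nat_lit 0x400020001c00080000000000000000000000000000000) (nat_lit 0x0) (nat_lit 0x18000800000002000300008000000000000000000000000000) := T_1 (nat_lit 179) (nat_lit 196) (nat_lit 7) (nat_lit 8) (nat_lit 7) L27019 (by decide +kernel)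
theorem L27021 : W_1 (nat_lit 2) (nat_lit 0x400020001c00180000000000000000000000000000000) (nat_lit 0x0) (nat_lit 0x2000240000000000000000000000000000000) := D_1 (nat_lit 129) (nat_lit 145) (nat_lit 126) (nat_lit 2) (nat_lit 6) (nat_lit 8) (nat_lit 1) (nat_lit 10) (nat_lit 7) (by decide +kernel)
theorem L27022 : W_1 (nat_lit 3) (nat_lit 0x400020001c00080000000000000000000000000000000) (nat_lit 0x0) (nat_lit 0x2000340008000000000000000000000000000) := T_1 (nat_lit 128) (nat_lit 111) (nat_lit 6) (nat_lit 8) (nat_lit 10) L27021 (by decide +kernel)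
theorem L27023 : W_1 (nat_lit 5) (nat_lit 0x400000001c00080000000000000000000000000000000) (nat_lit 0x0) (nat_lit 0x1800080002000200034000a000000000000000000000000000) := Q_1 (nat_lit 161) (C_1 L27017 (C_1 L27020 (C_1 L27022 N_1))) (by decide +kernel)
theorem L27024 : W_1 (nat_lit 2) (nat_lit 0xf00078003c00080000000000000000000000000000000) (nat_lit 0x0) (nat_lit 0x40003000000000000000000000000000000000000000000000000) := D_1 (nat_lit 193) (nat_lit 210) (nat_lit 192) (nat_lit 6) (nat_lit 6) (nat_lit 12) (nat_lit 1) (nat_lit 9) (nat_lit 10) (by decide +kernel)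
theorem L27025 : W_1 (nat_lit 3) (nat_lit 0x700078003c00080000000000000000000000000000000) (nat_lit 0x0) (nat_lit 0x40013000800000000000000000000000000000000000000000000) := T_1 (nat_lit 179) (nat_lit 196) (nat_lit 7) (nat_lit 8) (nat_lit 7) L27024 (by decide +kernel)
theorem L27026 : W_1 (nat_lit 4) (nat_lit 0x700068003c00080000000000000000000000000000000) (nat_lit 0x0) (nat_lit 0x40013000800010004000000000000000000000000000000000000) := T_1 (nat_lit 160) (nat_lit 146) (nat_lit 2) (nat_lit 6) (nat_lit 9) L27025 (by decide +kernel)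
theorem L27027 : W_1 (nat_lit 5) (nat_lit 0x600068003c00080000000000000000000000000000000) (nat_lit 0x0) (nat_lit 0x40013000980010004000000000000000000000000000000000000) := T_1 (nat_lit 176) (nat_lit 175) (nat_lit 2) (nat_lit 5) (nat_lit 10) L27026 (by decide +kernel)
theorem L27028 : W_1 (nat_lit 6) (nat_lit 0x600028003c00080000000000000000000000000000000) (nat_lit 0x0) (nat_lit 0x400130009800d0004000000000000000000000000000000000000) := T_1 (nat_lit 162) (nat_lit 163) (nat_lit 3) (nat_lit 6) (nat_lit 8) L27027 (by decide +kernel)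
theorem L27029 : W_1 (nat_lit 7) (nat_lit 0x400028003c00080000000000000000000000000000000) (nat_lit 0x0) (nat_lit 0x40017000b800d0004000000000000000000000000000000000000) := T_1 (nat_lit 177) (nat_lit 194) (nat_lit 5) (nat_lit 8) (nat_lit 7) L27028 (by decide +kernel)
theorem L27030 : W_1 (nat_lit 8) (nat_lit 0x400028001c00080000000000000000000000000000000) (nat_lit 0x0) (nat_lit 0x40017000b800d4006000000000000000000000000000000000000) := T_1 (nat_lit 145) (nat_lit 158) (nat_lit 1) (nat_lit 9) (nat_lit 8) L27029 (by decide +kernel)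
theorem L27031 : W_1 (nat_lit 2) (nat_lit 0x40002c001c00080000000000000000000000000000000) (nat_lit 0x0) (nat_lit 0x10000800010000000000000000000000000000000000000000) := D_1 (nat_lit 179) (nat_lit 196) (nat_lit 160) (nat_lit 7) (nat_lit 8) (nat_lit 7) (nat_lit 3) (nat_lit 5) (nat_lit 9) (by decide +kernel)
theorem L27032 : W_1 (nat_lit 3) (nat_lit 0x400028001c00080000000000000000000000000000000) (nat_lit 0x0) (nat_lit 0x10000800014002000000000000000000000000000000000000) := T_1 (nat_lit 158) (nat_lit 145) (nat_lit 1) (nat_lit 9) (nat_lit 8) L27031 (by decide +kernel)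
theorem L27033 : W_1 (nat_lit 2) (nat_lit 0xf00028001c000c0000000000000000000000000000000) (nat_lit 0x0) (nat_lit 0x800c0000000000000000000000000000000000000000) := D_1 (nat_lit 162) (nat_lit 163) (nat_lit 175) (nat_lit 2) (nat_lit 6) (nat_lit 10) (nat_lit 2) (nat_lit 5) (nat_lit 10) (by decide +kernel)
theorem L27034 : W_1 (nat_lit 3) (nat_lit 0xd00028001c000c0000000000000000000000000000000) (nat_lit 0x0) (nat_lit 0x40002800c0000000000000000000000000000000000000000) := T_1 (nat_lit 177) (nat_lit 194) (nat_lit 5) (nat_lit 8) (nat_lit 7) L27033 (by decide +kernel)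
theorem L27035 : W_1 (nat_lit 4) (nat_lit 0xc00028001c000c0000000000000000000000000000000) (nat_lit 0x0) (nat_lit 0x60003800c0000000000000000000000000000000000000000) := T_1 (nat_lit 176) (nat_lit 193) (nat_lit 6) (nat_lit 6) (nat_lit 11) L27034 (by decide +kernel)
theorem L27036 : W_1 (nat_lit 5) (nat_lit 0x400028001c000c0000000000000000000000000000000) (nat_lit 0x0) (nat_lit 0x16000b800c0000000000000000000000000000000000000000) := T_1 (nat_lit 179) (nat_lit 196) (nat_lit 7) (nat_lit 8) (nat_lit 7) L27035 (by decide +kernel)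
theorem L27037 : W_1 (nat_lit 6) (nat_lit 0x400028001c00080000000000000000000000000000000) (nat_lit 0x0) (nat_lit 0x16000b800c0000000040002000000000000000000000000000) := T_1 (nat_lit 126) (nat_lit 109) (nat_lit 4) (nat_lit 8) (nat_lit 10) L27036 (by decide +kernel)
theorem L27038 : W_1 (nat_lit 2) (nat_lit 0x600068003c000c0000000000000000000000000000000) (nat_lit 0x0) (nat_lit 0x2000180000000000000000000000000000000000000000000) := D_1 (nat_lit 176) (nat_lit 175) (nat_lit 193) (nat_lit 2) (nat_lit 5) (nat_lit 10) (nat_lit 6) (nat_lit 6) (nat_lit 11) (by decide +kernel)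
theorem L27039 : W_1 (nat_lit 3) (nat_lit 0x600028003c000c0000000000000000000000000000000) (nat_lit 0x0) (nat_lit 0x20001800c0000000000000000000000000000000000000000) := T_1 (nat_lit 162) (nat_lit 163) (nat_lit 3) (nat_lit 6) (nat_lit 8) L27038 (by decide +kernel)
theorem L27040 : W_1 (nat_lit 4) (nat_lit 0x600028003c00080000000000000000000000000000000) (nat_lit 0x0) (nat_lit 0x20001800c0000000040002000000000000000000000000000) := T_1 (nat_lit 126) (nat_lit 109) (nat_lit 4) (nat_lit 8) (nat_lit 10) L27039 (by decide +kernel)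
theorem L27041 : W_1 (nat_lit 5) (nat_lit 0x600028001c00080000000000000000000000000000000) (nat_lit 0x0) (nat_lit 0x20001800c4002000040002000000000000000000000000000) := T_1 (nat_lit 145) (nat_lit 158) (nat_lit 1) (nat_lit 9) (nat_lit 8) L27040 (by decide +kernel)
theorem L27042 : W_1 (nat_lit 6) (nat_lit 0x400028001c00080000000000000000000000000000000) (nat_lit 0x0) (nat_lit 0x60003800c4002000040002000000000000000000000000000) := T_1 (nat_lit 177) (nat_lit 194) (nat_lit 5) (nat_lit 8) (nat_lit 7) L27041 (by decide +kernel)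
theorem L27043 : W_1 (nat_lit 9) (nat_lit 0x400020001c00080000000000000000000000000000000) (nat_lit 0x0) (nat_lit 0x40017000b800dc006000040002000000000000000000000000000) := Q_1 (nat_lit 159) (C_1 L27030 (C_1 L27032 (C_1 L27037 (C_1 L27042 N_1)))) (by decide +kernel)
theorem L27044 : W_1 (nat_lit 2) (nat_lit 0x8000400020001c00080000000000000000000000000000000) (nat_lit 0x0) (nat_lit 0x80004000200000000000000000000000000000000000000000000) := D_1 (nat_lit 194) (nat_lit 177) (nat_lit 211) (nat_lit 5) (nat_lit 8) (nat_lit 7) (nat_lit 5) (nat_lit 8) (nat_lit 8) (by decide +kernel)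
theorem L27045 : W_1 (nat_lit 3) (nat_lit 0x400020001c00080000000000000000000000000000000) (nat_lit 0x0) (nat_lit 0x8000c000200000000000040000000000000000000000000000000) := T_1 (nat_lit 195) (nat_lit 126) (nat_lit 4) (nat_lit 8) (nat_lit 11) L27044 (by decide +kernel)
theorem L27046 : W_1 (nat_lit 2) (nat_lit 0x10000c000c00020001c00080000000000000000000000000000000) (nat_lit 0x0) (nat_lit 0x2000000000000000040002000000000000000000000000000000000000) := D_1 (nat_lit 162) (nat_lit 145) (nat_lit 229) (nat_lit 6) (nat_lit 8) (nat_lit 12) (nat_lit 6) (nat_lit 8) (nat_lit 13) (by decide +kernel)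
theorem L27047 : W_1 (nat_lit 3) (nat_lit 0xc000c00020001c00080000000000000000000000000000000) (nat_lit 0x0) (nat_lit 0x2000100000000000050002000000000000000000000000000000000000) := T_1 (nat_lit 212) (nat_lit 160) (nat_lit 4) (nat_lit 8) (nat_lit 12) L27046 (by decide +kernel)
theorem L27048 : W_1 (nat_lit 4) (nat_lit 0x4000c00020001c00080000000000000000000000000000000) (nat_lit 0x0) (nat_lit 0x2000180008000000050002000000000000000000000000000000000000) := T_1 (nat_lit 195) (nat_lit 211) (nat_lit 5) (nat_lit 8) (nat_lit 8) L27047 (by decide +kernel)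
theorem L27049 : W_1 (nat_lit 5) (nat_lit 0x4000400020001c00080000000000000000000000000000000) (nat_lit 0x0) (nat_lit 0x2000180018000800050002000000000000000000000000000000000000) := T_1 (nat_lit 179) (nat_lit 196) (nat_lit 7) (nat_lit 8) (nat_lit 7) L27048 (by decide +kernel)
theorem L27050 : W_1 (nat_lit 6) (nat_lit 0x400020001c00080000000000000000000000000000000) (nat_lit 0x0) (nat_lit 0x200018001c000a00050002000000000000000000000000000000000000) := T_1 (nat_lit 194) (nat_lit 177) (nat_lit 5) (nat_lit 8) (nat_lit 7) L27049 (by decide +kernel)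
theorem L27051 : W_1 (nat_lit 10) (nat_lit 0x400000001c00080000000000000000000000000000000) (nat_lit 0x0) (nat_lit 0x20001c001f000b800fc006000040002000000000000000000000000000) := Q_1 (nat_lit 161) (C_1 L27043 (C_1 L27017 (C_1 L27045 (C_1 L27050 N_1)))) (by decide +kernel)
theorem L27052 : W_1 (nat_lit 7) (nat_lit 0x400000001c00080000000000000000000000000000000) (nat_lit 0x0) (nat_lit 0x200018001c000a00070002000340008000000000000000000000000000) := Q_1 (nat_lit 161) (C_1 L27050 (C_1 L27045 (C_1 L27022 N_1))) (by decide +kernel)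
theorem L27053 : W_1 (nat_lit 2) (nat_lit 0x400010000d000c00020001c00080000000000000000000000000000000) (nat_lit 0x0) (nat_lit 0x80002000000000000000040000000000000000000000000000000000000000) := D_1 (nat_lit 229) (nat_lit 162) (nat_lit 247) (nat_lit 6) (nat_lit 8) (nat_lit 13) (nat_lit 7) (nat_lit 8) (nat_lit 10) (by decide +kernel)
theorem L27054 : W_1 (nat_lit 3) (nat_lit 0x10000d000c00020001c00080000000000000000000000000000000) (nat_lit 0x0) (nat_lit 0x80006000200000000000040000000000000000000000000000000000000000) := T_1 (nat_lit 230) (nat_lit 213) (nat_lit 7) (nat_lit 8) (nat_lit 9) L27053 (by decide +kernel)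
theorem L27055 : W_1 (nat_lit 4) (nat_lit 0x10000c000c00020001c00080000000000000000000000000000000) (nat_lit 0x0) (nat_lit 0x80006000200003000000040000000000000000000000000000000000000000) := T_1 (nat_lit 192) (nat_lit 193) (nat_lit 2) (nat_lit 5) (nat_lit 11) L27054 (by decide +kernel)
theorem L27056 : W_1 (nat_lit 5) (nat_lit 0xc000c00020001c00080000000000000000000000000000000) (nat_lit 0x0) (nat_lit 0x80006000300003000000050000000000000000000000000000000000000000) := T_1 (nat_lit 212) (nat_lit 160) (nat_lit 4) (nat_lit 8) (nat_lit 12) L27055 (by decide +kernel)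
theorem L27057 : W_1 (nat_lit 6) (nat_lit 0x4000c00020001c00080000000000000000000000000000000) (nat_lit 0x0) (nat_lit 0x8000600038000b000000050000000000000000000000000000000000000000) := T_1 (nat_lit 195) (nat_lit 211) (nat_lit 5) (nat_lit 8) (nat_lit 8) L27056 (by decide +kernel)
theorem L27058 : W_1 (nat_lit 7) (nat_lit 0x4000400020001c00080000000000000000000000000000000) (nat_lit 0x0) (nat_lit 0x8000600038001b000800050000000000000000000000000000000000000000) := T_1 (nat_lit 179) (nat_lit 196) (nat_lit 7) (nat_lit 8) (nat_lit 7) L27057 (by decide +kernel)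
theorem L27059 : W_1 (nat_lit 8) (nat_lit 0x400020001c00080000000000000000000000000000000) (nat_lit 0x0) (nat_lit 0x8000600038001f000a00050000000000000000000000000000000000000000) := T_1 (nat_lit 194) (nat_lit 177) (nat_lit 5) (nat_lit 8) (nat_lit 7) L27058 (by decide +kernel)
theorem L27060 : W_1 (nat_lit 2) (nat_lit 0x400020001c00180000000000000000000000000000000) (nat_lit 0x0) (nat_lit 0x8000000000002000200000000000000000000000000000000) := D_1 (nat_lit 145) (nat_lit 129) (nat_lit 195) (nat_lit 2) (nat_lit 6) (nat_lit 8) (nat_lit 6) (nat_lit 8) (nat_lit 11) (by decide +kernel)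
theorem L27061 : W_1 (nat_lit 3) (nat_lit 0x400020001c00080000000000000000000000000000000) (nat_lit 0x0) (nat_lit 0x8000000000002000300008000000000000000000000000000) := T_1 (nat_lit 128) (nat_lit 111) (nat_lit 6) (nat_lit 8) (nat_lit 10) L27060 (by decide +kernel)
theorem L27062 : W_1 (nat_lit 2) (nat_lit 0x4000500078003c00180000000000000000000000000000000) (nat_lit 0x0) (nat_lit 0xc0002000000000000000000000000000000000000000000000000) := D_1 (nat_lit 193) (nat_lit 210) (nat_lit 211) (nat_lit 6) (nat_lit 6) (nat_lit 12) (nat_lit 7) (nat_lit 6) (nat_lit 8) (by decide +kernel)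
theorem L27063 : W_1 (nat_lit 3) (nat_lit 0x500078003c00180000000000000000000000000000000) (nat_lit 0x0) (nat_lit 0xc0006000200000000000000000000000000000000000000000000) := T_1 (nat_lit 194) (nat_lit 177) (nat_lit 6) (nat_lit 7) (nat_lit 11) L27062 (by decide +kernel)
theorem L27064 : W_1 (nat_lit 4) (nat_lit 0x400078003c00180000000000000000000000000000000) (nat_lit 0x0) (nat_lit 0xc0006000380000000000000000000000000000000000000000000) := T_1 (nat_lit 176) (nat_lit 175) (nat_lit 1) (nat_lit 9) (nat_lit 9) L27063 (by decide +kernel)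
theorem L27065 : W_1 (nat_lit 5) (nat_lit 0x400068003c00180000000000000000000000000000000) (nat_lit 0x0) (nat_lit 0xc0006000380010004000000000000000000000000000000000000) := T_1 (nat_lit 160) (nat_lit 146) (nat_lit 2) (nat_lit 6) (nat_lit 9) L27064 (by decide +kernel)
theorem L27066 : W_1 (nat_lit 6) (nat_lit 0x400028003c00180000000000000000000000000000000) (nat_lit 0x0) (nat_lit 0xc00060003800d0004000000000000000000000000000000000000) := T_1 (nat_lit 162) (nat_lit 163) (nat_lit 3) (nat_lit 6) (nat_lit 8) L27065 (by decide +kernel)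
theorem L27067 : W_1 (nat_lit 7) (nat_lit 0x400020003c00180000000000000000000000000000000) (nat_lit 0x0) (nat_lit 0xc00060003800dc004000000000000000000000000000000000000) := T_1 (nat_lit 159) (nat_lit 158) (nat_lit 1) (nat_lit 9) (nat_lit 8) L27066 (by decide +kernel)
theorem L27068 : W_1 (nat_lit 8) (nat_lit 0x400020001c00180000000000000000000000000000000) (nat_lit 0x0) (nat_lit 0xc00060003800dc006000200000000000000000000000000000000) := T_1 (nat_lit 145) (nat_lit 129) (nat_lit 2) (nat_lit 6) (nat_lit 8) L27067 (by decide +kernel)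
theorem L27069 : W_1 (nat_lit 9) (nat_lit 0x400020001c00080000000000000000000000000000000) (nat_lit 0x0) (nat_lit 0xc00060003800dc006000300008000000000000000000000000000) := T_1 (nat_lit 128) (nat_lit 111) (nat_lit 6) (nat_lit 8) (nat_lit 10) L27068 (by decide +kernel)
theorem L27070 : W_1 (nat_lit 10) (nat_lit 0x400000001c00080000000000000000000000000000000) (nat_lit 0x0) (nat_lit 0x800060003c001f000b800fc006000300008000000000000000000000000000) := Q_1 (nat_lit 161) (C_1 L27050 (C_1 L27020 (C_1 L27059 (C_1 L27061 (C_1 L27069 N_1))))) (by decide +kernel)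
theorem L27071 : W_1 (nat_lit 2) (nat_lit 0x400020001c000c0000000000000000000000000000000) (nat_lit 0x0) (nat_lit 0x300008000000000000000000000000000) := D_1 (nat_lit 128) (nat_lit 129) (nat_lit 111) (nat_lit 1) (nat_lit 10) (nat_lit 7) (nat_lit 6) (nat_lit 8) (nat_lit 10) (by decide +kernel)
theorem L27072 : W_1 (nat_lit 3) (nat_lit 0x400020001c00080000000000000000000000000000000) (nat_lit 0x0) (nat_lit 0x34000a000000000000000000000000000) := T_1 (nat_lit 126) (nat_lit 109) (nat_lit 4) (nat_lit 8) (nat_lit 10) L27071 (by decide +kernel)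
theorem L27073 : W_1 (nat_lit 9) (nat_lit 0x400000001c00080000000000000000000000000000000) (nat_lit 0x0) (nat_lit 0x8000600038001f000a0007000000034000a000000000000000000000000000) := Q_1 (nat_lit 161) (C_1 L27059 (C_1 L27045 (C_1 L27017 (C_1 L27072 N_1)))) (by decide +kernel)
theorem L27074 : W_1 (nat_lit 10) (nat_lit 0x400000001c00080000000000000000000000000000000) (nat_lit 0x0) (nat_lit 0xc000e0003800fc00600034000a000000000000000000000000000) := Q_1 (nat_lit 161) (C_1 L27072 (C_1 L27045 (C_1 L27069 N_1))) (by decide +kernel)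
theorem L27075 : W_1 (nat_lit 10) (nat_lit 0x400000001c00080000000000000000000000000000000) (nat_lit 0x0) (nat_lit 0xc0017000b800fc00600034000a000000000000000000000000000) := Q_1 (nat_lit 161) (C_1 L27072 (C_1 L27043 (C_1 L27069 N_1))) (by decide +kernel)
theorem L27076 : W_1 (nat_lit 2) (nat_lit 0x700018001c000c0000000000000000000000000000000) (nat_lit 0x0) (nat_lit 0x800006000000000000000000000000000000000000000) := D_1 (nat_lit 158) (nat_lit 157) (nat_lit 179) (nat_lit 3) (nat_lit 4) (nat_lit 9) (nat_lit 0) (nat_lit 9) (nat_lit 10) (by decide +kernel)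
theorem L27077 : W_1 (nat_lit 3) (nat_lit 0x700010001c000c0000000000000000000000000000000) (nat_lit 0x0) (nat_lit 0x80000e000000000002000000000000000000000000000) := T_1 (nat_lit 159) (nat_lit 109) (nat_lit 5) (nat_lit 7) (nat_lit 6) L27076 (by decide +kernel)
theorem L27078 : W_1 (nat_lit 4) (nat_lit 0x600010001c000c0000000000000000000000000000000) (nat_lit 0x0) (nat_lit 0x200090000e000000000002000000000000000000000000000) := T_1 (nat_lit 176) (nat_lit 193) (nat_lit 5) (nat_lit 7) (nat_lit 7) L27077 (by decide +kernel)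
theorem L27079 : W_1 (nat_lit 5) (nat_lit 0x600010001c00080000000000000000000000000000000) (nat_lit 0x0) (nat_lit 0xa00090000e000000040002000000000000000000000000000) := T_1 (nat_lit 126) (nat_lit 195) (nat_lit 7) (nat_lit 7) (nat_lit 7) L27078 (by decide +kernel)
theorem L27080 : W_1 (nat_lit 6) (nat_lit 0x600000001c00080000000000000000000000000000000) (nat_lit 0x0) (nat_lit 0xe00090001e000000040002000000000000000000000000000) := T_1 (nat_lit 160) (nat_lit 194) (nat_lit 6) (nat_lit 7) (nat_lit 11) L27079 (by decide +kernel)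
theorem L27081 : W_1 (nat_lit 2) (nat_lit 0x700010001c00080000000000000000000000000000000) (nat_lit 0x0) (nat_lit 0xa000000000000000040000000000000000000000000000000) := D_1 (nat_lit 126) (nat_lit 193) (nat_lit 195) (nat_lit 5) (nat_lit 7) (nat_lit 7) (nat_lit 7) (nat_lit 7) (nat_lit 7) (by decide +kernel)
theorem L27082 : W_1 (nat_lit 3) (nat_lit 0x700000001c00080000000000000000000000000000000) (nat_lit 0x0) (nat_lit 0xe000000010000000040000000000000000000000000000000) := T_1 (nat_lit 160) (nat_lit 194) (nat_lit 6) (nat_lit 7) (nat_lit 11) L27081 (by decide +kernel)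
theorem L27083 : W_1 (nat_lit 2) (nat_lit 0x80007c0004001c00080000000000000000000000000000000) (nat_lit 0x0) (nat_lit 0x1c00000000000000000000000000000000000000000000000) := D_1 (nat_lit 191) (nat_lit 190) (nat_lit 192) (nat_lit 1) (nat_lit 7) (nat_lit 10) (nat_lit 1) (nat_lit 8) (nat_lit 10) (by decide +kernel)
theorem L27084 : W_1 (nat_lit 3) (nat_lit 0x8000780004001c00080000000000000000000000000000000) (nat_lit 0x0) (nat_lit 0x5c00040000000000000000000000000000000000000000000) := T_1 (nat_lit 174) (nat_lit 194) (nat_lit 3) (nat_lit 4) (nat_lit 10) L27083 (by decide +kernel)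
theorem L27085 : W_1 (nat_lit 4) (nat_lit 0x780004001c00080000000000000000000000000000000) (nat_lit 0x0) (nat_lit 0x1dc00040000000000000000000000000000000000000000000) := T_1 (nat_lit 195) (nat_lit 196) (nat_lit 3) (nat_lit 5) (nat_lit 10) L27084 (by decide +kernel)
theorem L27086 : W_1 (nat_lit 5) (nat_lit 0x780000001c00080000000000000000000000000000000) (nat_lit 0x0) (nat_lit 0x1dc00040006000000000000000000000000000000000000000) := T_1 (nat_lit 158) (nat_lit 157) (nat_lit 0) (nat_lit 8) (nat_lit 10) L27085 (by decide +kernel)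
theorem L27087 : W_1 (nat_lit 2) (nat_lit 0x90007e0001001c00080000000000000000000000000000000) (nat_lit 0x0) (nat_lit 0x2000810000000000000000000000000000000000000000000) := D_1 (nat_lit 193) (nat_lit 179) (nat_lit 172) (nat_lit 1) (nat_lit 9) (nat_lit 10) (nat_lit 3) (nat_lit 2) (nat_lit 10) (by decide +kernel)
theorem L27088 : W_1 (nat_lit 3) (nat_lit 0x90007c0001001c00080000000000000000000000000000000) (nat_lit 0x0) (nat_lit 0x2000830000800000000000000000000000000000000000000) := T_1 (nat_lit 173) (nat_lit 155) (nat_lit 0) (nat_lit 6) (nat_lit 10) L27087 (by decide +kernel)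
theorem L27089 : W_1 (nat_lit 4) (nat_lit 0x90007c0000001c00080000000000000000000000000000000) (nat_lit 0x0) (nat_lit 0x2000830003800000000000000000000000000000000000000) := T_1 (nat_lit 156) (nat_lit 157) (nat_lit 0) (nat_lit 7) (nat_lit 10) L27088 (by decide +kernel)
theorem L27090 : W_1 (nat_lit 5) (nat_lit 0x9000780000001c00080000000000000000000000000000000) (nat_lit 0x0) (nat_lit 0x6000870003800000000000000000000000000000000000000) := T_1 (nat_lit 174) (nat_lit 194) (nat_lit 3) (nat_lit 4) (nat_lit 10) L27089 (by decide +kernel)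
theorem L27091 : W_1 (nat_lit 6) (nat_lit 0x1000780000001c00080000000000000000000000000000000) (nat_lit 0x0) (nat_lit 0x1e000870003800000000000000000000000000000000000000) := T_1 (nat_lit 195) (nat_lit 196) (nat_lit 3) (nat_lit 5) (nat_lit 10) L27090 (by decide +kernel)
theorem L27092 : W_1 (nat_lit 7) (nat_lit 0x780000001c00080000000000000000000000000000000) (nat_lit 0x0) (nat_lit 0x1f800870003800000000000000000000000000000000000000) := T_1 (nat_lit 192) (nat_lit 191) (nat_lit 1) (nat_lit 8) (nat_lit 10) L27091 (by decide +kernel)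
theorem L27093 : W_1 (nat_lit 2) (nat_lit 0x1000f80044001c00080000000000000000000000000000000) (nat_lit 0x0) (nat_lit 0x30000000000002000000000000000000000000000000000000) := D_1 (nat_lit 196) (nat_lit 197) (nat_lit 145) (nat_lit 3) (nat_lit 6) (nat_lit 10) (nat_lit 4) (nat_lit 9) (nat_lit 11) (by decide +kernel)
theorem L27094 : W_1 (nat_lit 3) (nat_lit 0x1000f80004001c00080000000000000000000000000000000) (nat_lit 0x0) (nat_lit 0x300000000c0002000000000000000000000000000000000000) := T_1 (nat_lit 162) (nat_lit 163) (nat_lit 2) (nat_lit 6) (nat_lit 10) L27093 (by decide +kernel)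
theorem L27095 : W_1 (nat_lit 4) (nat_lit 0x1000780004001c00080000000000000000000000000000000) (nat_lit 0x0) (nat_lit 0x320008000c0002000000000000000000000000000000000000) := T_1 (nat_lit 179) (nat_lit 193) (nat_lit 1) (nat_lit 9) (nat_lit 10) L27094 (by decide +kernel)
theorem L27096 : W_1 (nat_lit 5) (nat_lit 0x1000780000001c00080000000000000000000000000000000) (nat_lit 0x0) (nat_lit 0x320008000c6002000000000000000000000000000000000000) := T_1 (nat_lit 158) (nat_lit 157) (nat_lit 0) (nat_lit 8) (nat_lit 10) L27095 (by decide +kernel)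
theorem L27097 : W_1 (nat_lit 6) (nat_lit 0x780000001c00080000000000000000000000000000000) (nat_lit 0x0) (nat_lit 0x338008000c6002000000000000000000000000000000000000) := T_1 (nat_lit 192) (nat_lit 191) (nat_lit 1) (nat_lit 8) (nat_lit 10) L27096 (by decide +kernel)
theorem L27098 : W_1 (nat_lit 2) (nat_lit 0x30007c0002001c00080000000000000000000000000000000) (nat_lit 0x0) (nat_lit 0xc000020000000000000000000000000000000000000000000) := D_1 (nat_lit 194) (nat_lit 195) (nat_lit 173) (nat_lit 3) (nat_lit 4) (nat_lit 10) (nat_lit 3) (nat_lit 3) (nat_lit 10) (by decide +kernel)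
theorem L27099 : W_1 (nat_lit 3) (nat_lit 0x10007c0002001c00080000000000000000000000000000000) (nat_lit 0x0) (nat_lit 0xe000820000000000000000000000000000000000000000000) := T_1 (nat_lit 193) (nat_lit 179) (nat_lit 1) (nat_lit 9) (nat_lit 10) L27098 (by decide +kernel)
theorem L27100 : W_1 (nat_lit 4) (nat_lit 0x1000780002001c00080000000000000000000000000000000) (nat_lit 0x0) (nat_lit 0xe000860001000000000000000000000000000000000000000) := T_1 (nat_lit 174) (nat_lit 156) (nat_lit 0) (nat_lit 7) (nat_lit 10) L27099 (by decide +kernel)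
theorem L27101 : W_1 (nat_lit 5) (nat_lit 0x1000780000001c00080000000000000000000000000000000) (nat_lit 0x0) (nat_lit 0xe000860007000000000000000000000000000000000000000) := T_1 (nat_lit 157) (nat_lit 158) (nat_lit 0) (nat_lit 8) (nat_lit 10) L27100 (by decide +kernel)
theorem L27102 : W_1 (nat_lit 6) (nat_lit 0x780000001c00080000000000000000000000000000000) (nat_lit 0x0) (nat_lit 0xf800860007000000000000000000000000000000000000000) := T_1 (nat_lit 192) (nat_lit 191) (nat_lit 1) (nat_lit 8) (nat_lit 10) L27101 (by decide +kernel)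
theorem L27103 : W_1 (nat_lit 2) (nat_lit 0x80007c0000001c00080000000000000000000000000000000) (nat_lit 0x0) (nat_lit 0x7000000000000000000000000000000000000000) := D_1 (nat_lit 157) (nat_lit 158) (nat_lit 156) (nat_lit 0) (nat_lit 8) (nat_lit 10) (nat_lit 0) (nat_lit 7) (nat_lit 10) (by decide +kernel)
theorem L27104 : W_1 (nat_lit 3) (nat_lit 0x8000780000001c00080000000000000000000000000000000) (nat_lit 0x0) (nat_lit 0x4000040007000000000000000000000000000000000000000) := T_1 (nat_lit 174) (nat_lit 194) (nat_lit 3) (nat_lit 4) (nat_lit 10) L27103 (by decide +kernel)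
theorem L27105 : W_1 (nat_lit 4) (nat_lit 0x780000001c00080000000000000000000000000000000) (nat_lit 0x0) (nat_lit 0x1c000040007000000000000000000000000000000000000000) := T_1 (nat_lit 195) (nat_lit 196) (nat_lit 3) (nat_lit 5) (nat_lit 10) L27104 (by decide +kernel)
theorem L27106 : W_1 (nat_lit 2) (nat_lit 0x11000780000001c00080000000000000000000000000000000) (nat_lit 0x0) (nat_lit 0x22000800000000000000000000000000000000000000000000) := D_1 (nat_lit 179) (nat_lit 193) (nat_lit 197) (nat_lit 1) (nat_lit 9) (nat_lit 10) (nat_lit 3) (nat_lit 6) (nat_lit 10) (by decide +kernel)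
theorem L27107 : W_1 (nat_lit 3) (nat_lit 0x1000780000001c00080000000000000000000000000000000) (nat_lit 0x0) (nat_lit 0x3a000800000000000000000000000000000000000000000000) := T_1 (nat_lit 196) (nat_lit 195) (nat_lit 3) (nat_lit 5) (nat_lit 10) L27106 (by decide +kernel)
theorem L27108 : W_1 (nat_lit 4) (nat_lit 0x780000001c00080000000000000000000000000000000) (nat_lit 0x0) (nat_lit 0x3b800800000000000000000000000000000000000000000000) := T_1 (nat_lit 192) (nat_lit 191) (nat_lit 1) (nat_lit 8) (nat_lit 10) L27107 (by decide +kernel)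
theorem L27109 : W_1 (nat_lit 8) (nat_lit 0x700000001c00080000000000000000000000000000000) (nat_lit 0x0) (nat_lit 0x3fc008f00c7802000000000000000000000000000000000000) := Q_1 (nat_lit 175) (C_1 L27086 (C_1 L27092 (C_1 L27097 (C_1 L27102 (C_1 L27105 (C_1 L27108 N_1)))))) (by decide +kernel)
theorem L27110 : W_1 (nat_lit 2) (nat_lit 0x800000012000f00010001c00080000000000000000000000000000000) (nat_lit 0x0) (nat_lit 0xc0002000000000000000000000000000000000000) := D_1 (nat_lit 162) (nat_lit 163) (nat_lit 145) (nat_lit 2) (nat_lit 6) (nat_lit 10) (nat_lit 4) (nat_lit 9) (nat_lit 11) (by decide +kernel)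
theorem L27111 : W_1 (nat_lit 3) (nat_lit 0x800000002000f00010001c00080000000000000000000000000000000) (nat_lit 0x0) (nat_lit 0x300000000c0002000000000000000000000000000000000000) := T_1 (nat_lit 196) (nat_lit 197) (nat_lit 3) (nat_lit 6) (nat_lit 10) L27110 (by decide +kernel)
theorem L27112 : W_1 (nat_lit 4) (nat_lit 0x2000f00010001c00080000000000000000000000000000000) (nat_lit 0x0) (nat_lit 0x8000400300000000c0002000000000000000000000000000000000000) := T_1 (nat_lit 227) (nat_lit 210) (nat_lit 6) (nat_lit 6) (nat_lit 13) L27111 (by decide +kernel)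
theorem L27113 : W_1 (nat_lit 5) (nat_lit 0x2000700010001c00080000000000000000000000000000000) (nat_lit 0x0) (nat_lit 0x8000400310008000c0002000000000000000000000000000000000000) := T_1 (nat_lit 179) (nat_lit 192) (nat_lit 1) (nat_lit 9) (nat_lit 10) L27112 (by decide +kernel)
theorem L27114 : W_1 (nat_lit 6) (nat_lit 0x700010001c00080000000000000000000000000000000) (nat_lit 0x0) (nat_lit 0x8000400330008000c0002000040000000000000000000000000000000) := T_1 (nat_lit 193) (nat_lit 126) (nat_lit 5) (nat_lit 7) (nat_lit 7) L27113 (by decide +kernel)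
theorem L27115 : W_1 (nat_lit 7) (nat_lit 0x700000001c00080000000000000000000000000000000) (nat_lit 0x0) (nat_lit 0x8000400370008000d0002000040000000000000000000000000000000) := T_1 (nat_lit 160) (nat_lit 194) (nat_lit 6) (nat_lit 7) (nat_lit 11) L27114 (by decide +kernel)
theorem L27116 : W_1 (nat_lit 2) (nat_lit 0x7c0002001c00080000000000000000000000000000000) (nat_lit 0x0) (nat_lit 0x1c00000000000000000000000000000000000000000000000) := D_1 (nat_lit 191) (nat_lit 192) (nat_lit 190) (nat_lit 1) (nat_lit 8) (nat_lit 10) (nat_lit 1) (nat_lit 7) (nat_lit 10) (by decide +kernel)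
theorem L27117 : W_1 (nat_lit 3) (nat_lit 0x780002001c00080000000000000000000000000000000) (nat_lit 0x0) (nat_lit 0x1c00040001000000000000000000000000000000000000000) := T_1 (nat_lit 174) (nat_lit 156) (nat_lit 0) (nat_lit 7) (nat_lit 10) L27116 (by decide +kernel)
theorem L27118 : W_1 (nat_lit 4) (nat_lit 0x780000001c00080000000000000000000000000000000) (nat_lit 0x0) (nat_lit 0x1c00040007000000000000000000000000000000000000000) := T_1 (nat_lit 157) (nat_lit 158) (nat_lit 0) (nat_lit 8) (nat_lit 10) L27117 (by decide +kernel)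
theorem L27119 : W_1 (nat_lit 2) (nat_lit 0x10000f80004001c00080000000000000000000000000000000) (nat_lit 0x0) (nat_lit 0xc0002000000000000000000000000000000000000) := D_1 (nat_lit 162) (nat_lit 163) (nat_lit 145) (nat_lit 2) (nat_lit 6) (nat_lit 10) (nat_lit 4) (nat_lit 9) (nat_lit 11) (by decide +kernel)
theorem L27120 : W_1 (nat_lit 3) (nat_lit 0x10000780004001c00080000000000000000000000000000000) (nat_lit 0x0) (nat_lit 0x200008000c0002000000000000000000000000000000000000) := T_1 (nat_lit 179) (nat_lit 197) (nat_lit 3) (nat_lit 6) (nat_lit 10) L27119 (by decide +kernel)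
theorem L27121 : W_1 (nat_lit 4) (nat_lit 0x10000780000001c00080000000000000000000000000000000) (nat_lit 0x0) (nat_lit 0x200008000c6002000000000000000000000000000000000000) := T_1 (nat_lit 158) (nat_lit 157) (nat_lit 0) (nat_lit 8) (nat_lit 10) L27120 (by decide +kernel)
theorem L27122 : W_1 (nat_lit 5) (nat_lit 0x780000001c00080000000000000000000000000000000) (nat_lit 0x0) (nat_lit 0x380008000c6002000000000000000000000000000000000000) := T_1 (nat_lit 196) (nat_lit 195) (nat_lit 3) (nat_lit 5) (nat_lit 10) L27121 (by decide +kernel)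
theorem L27123 : W_1 (nat_lit 6) (nat_lit 0x700000001c00080000000000000000000000000000000) (nat_lit 0x0) (nat_lit 0x3bc008c00c7002000000000000000000000000000000000000) := Q_1 (nat_lit 175) (C_1 L27108 (C_1 L27118 (C_1 L27122 N_1))) (by decide +kernel)
theorem L27124 : W_1 (nat_lit 2) (nat_lit 0x20000000088007c0010001c00080000000000000000000000000000000) (nat_lit 0x0) (nat_lit 0x7000000000000000000000000000000000000000) := D_1 (nat_lit 157) (nat_lit 156) (nat_lit 158) (nat_lit 0) (nat_lit 7) (nat_lit 10) (nat_lit 0) (nat_lit 8) (nat_lit 10) (by decide +kernel)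
theorem L27125 : W_1 (nat_lit 3) (nat_lit 0x2000000008800780010001c00080000000000000000000000000000000) (nat_lit 0x0) (nat_lit 0x400040007000000000000000000000000000000000000000) := T_1 (nat_lit 174) (nat_lit 190) (nat_lit 1) (nat_lit 7) (nat_lit 10) L27124 (by decide +kernel)
theorem L27126 : W_1 (nat_lit 4) (nat_lit 0x2000000008000780010001c00080000000000000000000000000000000) (nat_lit 0x0) (nat_lit 0x1c00040007000000000000000000000000000000000000000) := T_1 (nat_lit 191) (nat_lit 192) (nat_lit 1) (nat_lit 8) (nat_lit 10) L27125 (by decide +kernel)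
theorem L27127 : W_1 (nat_lit 5) (nat_lit 0x2000000008000700010001c00080000000000000000000000000000000) (nat_lit 0x0) (nat_lit 0x11c000c0007000000000000000000000000000000000000000) := T_1 (nat_lit 175) (nat_lit 196) (nat_lit 3) (nat_lit 5) (nat_lit 10) L27126 (by decide +kernel)
theorem L27128 : W_1 (nat_lit 6) (nat_lit 0x8000700010001c00080000000000000000000000000000000) (nat_lit 0x0) (nat_lit 0x2000100011c000c0007000000000000000000000000000000000000000) := T_1 (nat_lit 229) (nat_lit 212) (nat_lit 4) (nat_lit 8) (nat_lit 13) L27127 (by decide +kernel)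
theorem L27129 : W_1 (nat_lit 7) (nat_lit 0x700010001c00080000000000000000000000000000000) (nat_lit 0x0) (nat_lit 0x2000100019c000c0007000000040000000000000000000000000000000) := T_1 (nat_lit 195) (nat_lit 126) (nat_lit 7) (nat_lit 7) (nat_lit 7) L27128 (by decide +kernel)
theorem L27130 : W_1 (nat_lit 8) (nat_lit 0x700000001c00080000000000000000000000000000000) (nat_lit 0x0) (nat_lit 0x200010001dc000c0017000000040000000000000000000000000000000) := T_1 (nat_lit 160) (nat_lit 194) (nat_lit 6) (nat_lit 7) (nat_lit 11) L27129 (by decide +kernel)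
theorem L27131 : W_1 (nat_lit 9) (nat_lit 0x600000001c00080000000000000000000000000000000) (nat_lit 0x0) (nat_lit 0x280014003fc009f00d7802000040000000000000000000000000000000) := Q_1 (nat_lit 176) (C_1 L27082 (C_1 L27109 (C_1 L27115 (C_1 L27123 (C_1 L27130 N_1))))) (by decide +kernel)
theorem L27132 : W_1 (nat_lit 2) (nat_lit 0x700010001c000c0002000100000000000000000000000) (nat_lit 0x0) (nat_lit 0x1000080004000000000000000000) := D_1 (nat_lit 91) (nat_lit 108) (nat_lit 74) (nat_lit 4) (nat_lit 7) (nat_lit 9) (nat_lit 4) (nat_lit 7) (nat_lit 8) (by decide +kernel)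
theorem L27133 : W_1 (nat_lit 3) (nat_lit 0x700010001c000c0002000000000000000000000000000) (nat_lit 0x0) (nat_lit 0x100018000c000000000000000000) := T_1 (nat_lit 92) (nat_lit 75) (nat_lit 7) (nat_lit 7) (nat_lit 4) L27132 (by decide +kernel)
theorem L27134 : W_1 (nat_lit 4) (nat_lit 0x700010001c000c0000000000000000000000000000000) (nat_lit 0x0) (nat_lit 0x800000000000300018000c000000000000000000) := T_1 (nat_lit 109) (nat_lit 159) (nat_lit 5) (nat_lit 7) (nat_lit 6) L27133 (by decide +kernel)
theorem L27135 : W_1 (nat_lit 5) (nat_lit 0x600010001c000c0000000000000000000000000000000) (nat_lit 0x0) (nat_lit 0x200010000800000000000300018000c000000000000000000) := T_1 (nat_lit 176) (nat_lit 193) (nat_lit 5) (nat_lit 7) (nat_lit 7) L27134 (by decide +kernel)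
theorem L27136 : W_1 (nat_lit 6) (nat_lit 0x600010001c00080000000000000000000000000000000) (nat_lit 0x0) (nat_lit 0xa00010000800000004000300018000c000000000000000000) := T_1 (nat_lit 126) (nat_lit 195) (nat_lit 7) (nat_lit 7) (nat_lit 7) L27135 (by decide +kernel)
theorem L27137 : W_1 (nat_lit 7) (nat_lit 0x600000001c00080000000000000000000000000000000) (nat_lit 0x0) (nat_lit 0xe00010001800000004000300018000c000000000000000000) := T_1 (nat_lit 160) (nat_lit 194) (nat_lit 6) (nat_lit 7) (nat_lit 11) L27136 (by decide +kernel)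
theorem L27138 : W_1 (nat_lit 2) (nat_lit 0x700008001c00080000000000000000000000000000000) (nat_lit 0x0) (nat_lit 0x800004002000000000000000000000000000000000000) := D_1 (nat_lit 158) (nat_lit 179) (nat_lit 145) (nat_lit 0) (nat_lit 9) (nat_lit 10) (nat_lit 1) (nat_lit 9) (nat_lit 8) (by decide +kernel)
theorem L27139 : W_1 (nat_lit 2) (nat_lit 0x2000700008001c00080000000000000000000000000000000) (nat_lit 0x0) (nat_lit 0x20001000800000000000000000000000000000000000000000000) := D_1 (nat_lit 192) (nat_lit 209) (nat_lit 179) (nat_lit 5) (nat_lit 6) (nat_lit 8) (nat_lit 1) (nat_lit 9) (nat_lit 10) (by decide +kernel)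
theorem L27140 : W_1 (nat_lit 3) (nat_lit 0x700008001c00080000000000000000000000000000000) (nat_lit 0x0) (nat_lit 0x20003000800000000000040000000000000000000000000000000) := T_1 (nat_lit 193) (nat_lit 126) (nat_lit 6) (nat_lit 6) (nat_lit 11) L27139 (by decide +kernel)
theorem L27141 : W_1 (nat_lit 2) (nat_lit 0x3000700008001c00080000000000000000000000000000000) (nat_lit 0x0) (nat_lit 0x4800080000000000000000000000000000000000000000000) := D_1 (nat_lit 191) (nat_lit 194) (nat_lit 175) (nat_lit 2) (nat_lit 4) (nat_lit 11) (nat_lit 1) (nat_lit 8) (nat_lit 10) (by decide +kernel)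
theorem L27142 : W_1 (nat_lit 3) (nat_lit 0x2000700008001c00080000000000000000000000000000000) (nat_lit 0x0) (nat_lit 0x20005800080000000000000000000000000000000000000000000) := T_1 (nat_lit 192) (nat_lit 209) (nat_lit 5) (nat_lit 6) (nat_lit 8) L27141 (by decide +kernel)
theorem L27143 : W_1 (nat_lit 4) (nat_lit 0x700008001c00080000000000000000000000000000000) (nat_lit 0x0) (nat_lit 0x20007800080000000000040000000000000000000000000000000) := T_1 (nat_lit 193) (nat_lit 126) (nat_lit 6) (nat_lit 6) (nat_lit 11) L27142 (by decide +kernel)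
theorem L27144 : W_1 (nat_lit 5) (nat_lit 0x700000001c00080000000000000000000000000000000) (nat_lit 0x0) (nat_lit 0x2000780088000c002000040000000000000000000000000000000) := Q_1 (nat_lit 159) (C_1 L27138 (C_1 L27140 (C_1 L27143 N_1))) (by decide +kernel)
theorem L27145 : W_1 (nat_lit 2) (nat_lit 0x3000780000001c00080000000000000000000000000000000) (nat_lit 0x0) (nat_lit 0x20000000000008000000040000000000000000000000000000000) := D_1 (nat_lit 159) (nat_lit 209) (nat_lit 126) (nat_lit 5) (nat_lit 6) (nat_lit 8) (nat_lit 6) (nat_lit 6) (nat_lit 11) (by decide +kernel)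
theorem L27146 : W_1 (nat_lit 3) (nat_lit 0x1000780000001c00080000000000000000000000000000000) (nat_lit 0x0) (nat_lit 0x20002000800008000000040000000000000000000000000000000) := T_1 (nat_lit 193) (nat_lit 179) (nat_lit 1) (nat_lit 9) (nat_lit 10) L27145 (by decide +kernel)
theorem L27147 : W_1 (nat_lit 4) (nat_lit 0x780000001c00080000000000000000000000000000000) (nat_lit 0x0) (nat_lit 0x20003800800008000000040000000000000000000000000000000) := T_1 (nat_lit 192) (nat_lit 191) (nat_lit 1) (nat_lit 8) (nat_lit 10) L27146 (by decide +kernel)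
theorem L27148 : W_1 (nat_lit 2) (nat_lit 0x84007e0000001c00080000000000000000000000000000000) (nat_lit 0x0) (nat_lit 0x3800000000000000000000000000000000000000) := D_1 (nat_lit 156) (nat_lit 155) (nat_lit 157) (nat_lit 0) (nat_lit 6) (nat_lit 10) (nat_lit 0) (nat_lit 7) (nat_lit 10) (by decide +kernel)
theorem L27149 : W_1 (nat_lit 3) (nat_lit 0x84007c0000001c00080000000000000000000000000000000) (nat_lit 0x0) (nat_lit 0x200020003800000000000000000000000000000000000000) := T_1 (nat_lit 173) (nat_lit 189) (nat_lit 1) (nat_lit 6) (nat_lit 10) L27148 (by decide +kernel)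
theorem L27150 : W_1 (nat_lit 4) (nat_lit 0x80007c0000001c00080000000000000000000000000000000) (nat_lit 0x0) (nat_lit 0xe00020003800000000000000000000000000000000000000) := T_1 (nat_lit 190) (nat_lit 191) (nat_lit 1) (nat_lit 7) (nat_lit 10) L27149 (by decide +kernel)
theorem L27151 : W_1 (nat_lit 5) (nat_lit 0x8000780000001c00080000000000000000000000000000000) (nat_lit 0x0) (nat_lit 0x4e00060003800000000000000000000000000000000000000) := T_1 (nat_lit 174) (nat_lit 194) (nat_lit 3) (nat_lit 4) (nat_lit 10) L27150 (by decide +kernel)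
theorem L27152 : W_1 (nat_lit 6) (nat_lit 0x780000001c00080000000000000000000000000000000) (nat_lit 0x0) (nat_lit 0x1ce00060003800000000000000000000000000000000000000) := T_1 (nat_lit 195) (nat_lit 196) (nat_lit 3) (nat_lit 5) (nat_lit 10) L27151 (by decide +kernel)
theorem L27153 : W_1 (nat_lit 2) (nat_lit 0x10000f80000001c00080000000000000000000000000000000) (nat_lit 0x0) (nat_lit 0xc0002000000000000000000000000000000000000) := D_1 (nat_lit 162) (nat_lit 163) (nat_lit 145) (nat_lit 2) (nat_lit 6) (nat_lit 10) (nat_lit 4) (nat_lit 9) (nat_lit 11) (by decide +kernel)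
theorem L27154 : W_1 (nat_lit 3) (nat_lit 0x10000780000001c00080000000000000000000000000000000) (nat_lit 0x0) (nat_lit 0x200008000c0002000000000000000000000000000000000000) := T_1 (nat_lit 179) (nat_lit 197) (nat_lit 3) (nat_lit 6) (nat_lit 10) L27153 (by decide +kernel)
theorem L27155 : W_1 (nat_lit 4) (nat_lit 0x780000001c00080000000000000000000000000000000) (nat_lit 0x0) (nat_lit 0x380008000c0002000000000000000000000000000000000000) := T_1 (nat_lit 196) (nat_lit 195) (nat_lit 3) (nat_lit 5) (nat_lit 10) L27154 (by decide +kernel)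
theorem L27156 : W_1 (nat_lit 7) (nat_lit 0x700000001c00080000000000000000000000000000000) (nat_lit 0x0) (nat_lit 0x2003fe008e00cb802000040000000000000000000000000000000) := Q_1 (nat_lit 175) (C_1 L27147 (C_1 L27152 (C_1 L27155 N_1))) (by decide +kernel)
theorem L27157 : W_1 (nat_lit 7) (nat_lit 0x700000001c00080000000000000000000000000000000) (nat_lit 0x0) (nat_lit 0x2001fe008e000f800000040000000000000000000000000000000) := Q_1 (nat_lit 175) (C_1 L27147 (C_1 L27152 (C_1 L27105 N_1))) (by decide +kernel)
theorem L27158 : W_1 (nat_lit 2) (nat_lit 0x8007c0000001c00080000000000000000000000000000000) (nat_lit 0x0) (nat_lit 0x1c000000000000000000000000000000000000000000000000) := D_1 (nat_lit 195) (nat_lit 196) (nat_lit 194) (nat_lit 3) (nat_lit 5) (nat_lit 10) (nat_lit 3) (nat_lit 4) (nat_lit 10) (by decide +kernel)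
theorem L27159 : W_1 (nat_lit 3) (nat_lit 0x800780000001c00080000000000000000000000000000000) (nat_lit 0x0) (nat_lit 0x1c400040000000000000000000000000000000000000000000) := T_1 (nat_lit 174) (nat_lit 190) (nat_lit 1) (nat_lit 7) (nat_lit 10) L27158 (by decide +kernel)
theorem L27160 : W_1 (nat_lit 4) (nat_lit 0x780000001c00080000000000000000000000000000000) (nat_lit 0x0) (nat_lit 0x1dc00040000000000000000000000000000000000000000000) := T_1 (nat_lit 191) (nat_lit 192) (nat_lit 1) (nat_lit 8) (nat_lit 10) L27159 (by decide +kernel)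
theorem L27161 : W_1 (nat_lit 2) (nat_lit 0x9000780004001c00080000000000000000000000000000000) (nat_lit 0x0) (nat_lit 0x20000000000008002000000000000000000000000000000000000) := D_1 (nat_lit 159) (nat_lit 145) (nat_lit 209) (nat_lit 1) (nat_lit 9) (nat_lit 8) (nat_lit 6) (nat_lit 5) (nat_lit 12) (by decide +kernel)
theorem L27162 : W_1 (nat_lit 3) (nat_lit 0x8000780004001c00080000000000000000000000000000000) (nat_lit 0x0) (nat_lit 0x20001800000008002000000000000000000000000000000000000) := T_1 (nat_lit 192) (nat_lit 191) (nat_lit 1) (nat_lit 8) (nat_lit 10) L27161 (by decide +kernel)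
theorem L27163 : W_1 (nat_lit 4) (nat_lit 0x8000780000001c00080000000000000000000000000000000) (nat_lit 0x0) (nat_lit 0x2000180000000e002000000000000000000000000000000000000) := T_1 (nat_lit 158) (nat_lit 157) (nat_lit 0) (nat_lit 8) (nat_lit 10) L27162 (by decide +kernel)
theorem L27164 : W_1 (nat_lit 5) (nat_lit 0x780000001c00080000000000000000000000000000000) (nat_lit 0x0) (nat_lit 0x2001980000000e002000000000000000000000000000000000000) := T_1 (nat_lit 195) (nat_lit 196) (nat_lit 3) (nat_lit 5) (nat_lit 10) L27163 (by decide +kernel)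
theorem L27165 : W_1 (nat_lit 7) (nat_lit 0x700000001c00080000000000000000000000000000000) (nat_lit 0x0) (nat_lit 0x2001de000e000f802000000000000000000000000000000000000) := Q_1 (nat_lit 175) (C_1 L27118 (C_1 L27152 (C_1 L27160 (C_1 L27164 (C_1 L27105 N_1))))) (by decide +kernel)
theorem L27166 : W_1 (nat_lit 2) (nat_lit 0x3000700008001c00080000000000000000000000000000000) (nat_lit 0x0) (nat_lit 0x4c00000000000000000000000000000000000000000000000) := D_1 (nat_lit 191) (nat_lit 194) (nat_lit 190) (nat_lit 2) (nat_lit 4) (nat_lit 11) (nat_lit 2) (nat_lit 3) (nat_lit 11) (by decide +kernel)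
theorem L27167 : W_1 (nat_lit 3) (nat_lit 0x2000700008001c00080000000000000000000000000000000) (nat_lit 0x0) (nat_lit 0x20005c00000000000000000000000000000000000000000000000) := T_1 (nat_lit 192) (nat_lit 209) (nat_lit 5) (nat_lit 6) (nat_lit 8) L27166 (by decide +kernel)
theorem L27168 : W_1 (nat_lit 4) (nat_lit 0x700008001c00080000000000000000000000000000000) (nat_lit 0x0) (nat_lit 0x20007c00000000000000040000000000000000000000000000000) := T_1 (nat_lit 193) (nat_lit 126) (nat_lit 6) (nat_lit 6) (nat_lit 11) L27167 (by decide +kernel)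
theorem L27169 : W_1 (nat_lit 5) (nat_lit 0x700000001c00080000000000000000000000000000000) (nat_lit 0x0) (nat_lit 0x20007c0080000c002000040000000000000000000000000000000) := Q_1 (nat_lit 159) (C_1 L27140 (C_1 L27138 (C_1 L27168 N_1))) (by decide +kernel)
theorem L27170 : W_1 (nat_lit 2) (nat_lit 0x700004001c00080000000000000000000000000000000) (nat_lit 0x0) (nat_lit 0x800008002000000000000000000000000000000000000) := D_1 (nat_lit 159) (nat_lit 179) (nat_lit 145) (nat_lit 0) (nat_lit 9) (nat_lit 10) (nat_lit 1) (nat_lit 9) (nat_lit 8) (by decide +kernel)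
theorem L27171 : W_1 (nat_lit 4) (nat_lit 0x780004001c00080000000000000000000000000000000) (nat_lit 0x0) (nat_lit 0x380008000c0002000000000000000000000000000000000000) := T_1 (nat_lit 196) (nat_lit 195) (nat_lit 3) (nat_lit 5) (nat_lit 10) L27120 (by decide +kernel)
theorem L27172 : W_1 (nat_lit 5) (nat_lit 0x700004001c00080000000000000000000000000000000) (nat_lit 0x0) (nat_lit 0x380008800c2002000000000000000000000000000000000000) := T_1 (nat_lit 175) (nat_lit 157) (nat_lit 0) (nat_lit 8) (nat_lit 10) L27171 (by decide +kernel)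
theorem L27173 : W_1 (nat_lit 2) (nat_lit 0xf80004001c00080000000000000000000000000000000) (nat_lit 0x0) (nat_lit 0x38000000000000000000000000000000000000000000000000) := D_1 (nat_lit 196) (nat_lit 195) (nat_lit 197) (nat_lit 3) (nat_lit 5) (nat_lit 10) (nat_lit 3) (nat_lit 6) (nat_lit 10) (by decide +kernel)
theorem L27174 : W_1 (nat_lit 3) (nat_lit 0x780004001c00080000000000000000000000000000000) (nat_lit 0x0) (nat_lit 0x38000800008000000000000000000000000000000000000000) := T_1 (nat_lit 179) (nat_lit 159) (nat_lit 0) (nat_lit 9) (nat_lit 10) L27173 (by decide +kernel)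
theorem L27175 : W_1 (nat_lit 4) (nat_lit 0x700004001c00080000000000000000000000000000000) (nat_lit 0x0) (nat_lit 0x3800088000a000000000000000000000000000000000000000) := T_1 (nat_lit 175) (nat_lit 157) (nat_lit 0) (nat_lit 8) (nat_lit 10) L27174 (by decide +kernel)
theorem L27176 : W_1 (nat_lit 2) (nat_lit 0x80007e000c001c00080000000000000000000000000000000) (nat_lit 0x0) (nat_lit 0xe00000000000000000000000000000000000000000000000) := D_1 (nat_lit 190) (nat_lit 189) (nat_lit 191) (nat_lit 1) (nat_lit 6) (nat_lit 10) (nat_lit 1) (nat_lit 7) (nat_lit 10) (by decide +kernel)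
theorem L27177 : W_1 (nat_lit 3) (nat_lit 0x80007c000c001c00080000000000000000000000000000000) (nat_lit 0x0) (nat_lit 0xe00030000000000000000000000000000000000000000000) := T_1 (nat_lit 173) (nat_lit 172) (nat_lit 2) (nat_lit 2) (nat_lit 10) L27176 (by decide +kernel)
theorem L27178 : W_1 (nat_lit 4) (nat_lit 0x800078000c001c00080000000000000000000000000000000) (nat_lit 0x0) (nat_lit 0x4e00070000000000000000000000000000000000000000000) := T_1 (nat_lit 174) (nat_lit 194) (nat_lit 3) (nat_lit 4) (nat_lit 10) L27177 (by decide +kernel)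
theorem L27179 : W_1 (nat_lit 5) (nat_lit 0x78000c001c00080000000000000000000000000000000) (nat_lit 0x0) (nat_lit 0x1ce00070000000000000000000000000000000000000000000) := T_1 (nat_lit 195) (nat_lit 196) (nat_lit 3) (nat_lit 5) (nat_lit 10) L27178 (by decide +kernel)
theorem L27180 : W_1 (nat_lit 6) (nat_lit 0x780004001c00080000000000000000000000000000000) (nat_lit 0x0) (nat_lit 0x1ce00070008002000000000000000000000000000000000000) := T_1 (nat_lit 159) (nat_lit 145) (nat_lit 1) (nat_lit 9) (nat_lit 8) L27179 (by decide +kernel)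
theorem L27181 : W_1 (nat_lit 7) (nat_lit 0x700004001c00080000000000000000000000000000000) (nat_lit 0x0) (nat_lit 0x1ce000f000a002000000000000000000000000000000000000) := T_1 (nat_lit 175) (nat_lit 157) (nat_lit 0) (nat_lit 8) (nat_lit 10) L27180 (by decide +kernel)
theorem L27182 : W_1 (nat_lit 8) (nat_lit 0x700000001c00080000000000000000000000000000000) (nat_lit 0x0) (nat_lit 0x3ce008f00ce002000000000000000000000000000000000000) := Q_1 (nat_lit 158) (C_1 L27170 (C_1 L27172 (C_1 L27175 (C_1 L27181 N_1)))) (by decide +kernel)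
theorem L27183 : W_1 (nat_lit 2) (nat_lit 0xc00078000c001c00080000000000000000000000000000000) (nat_lit 0x0) (nat_lit 0x80002000000000000000040000000000000000000000000000000) := D_1 (nat_lit 193) (nat_lit 126) (nat_lit 211) (nat_lit 6) (nat_lit 6) (nat_lit 11) (nat_lit 7) (nat_lit 6) (nat_lit 8) (by decide +kernel)
theorem L27184 : W_1 (nat_lit 3) (nat_lit 0x800078000c001c00080000000000000000000000000000000) (nat_lit 0x0) (nat_lit 0x80006000040000000000040000000000000000000000000000000) := T_1 (nat_lit 194) (nat_lit 174) (nat_lit 3) (nat_lit 4) (nat_lit 10) L27183 (by decide +kernel)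
theorem L27185 : W_1 (nat_lit 4) (nat_lit 0x78000c001c00080000000000000000000000000000000) (nat_lit 0x0) (nat_lit 0x8001e000040000000000040000000000000000000000000000000) := T_1 (nat_lit 195) (nat_lit 196) (nat_lit 3) (nat_lit 5) (nat_lit 10) L27184 (by decide +kernel)
theorem L27186 : W_1 (nat_lit 5) (nat_lit 0x780004001c00080000000000000000000000000000000) (nat_lit 0x0) (nat_lit 0x8001e000040008002000040000000000000000000000000000000) := T_1 (nat_lit 159) (nat_lit 145) (nat_lit 1) (nat_lit 9) (nat_lit 8) L27185 (by decide +kernel)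
theorem L27187 : W_1 (nat_lit 6) (nat_lit 0x700004001c00080000000000000000000000000000000) (nat_lit 0x0) (nat_lit 0x8001e0000c000a002000040000000000000000000000000000000) := T_1 (nat_lit 175) (nat_lit 157) (nat_lit 0) (nat_lit 8) (nat_lit 10) L27186 (by decide +kernel)
theorem L27188 : W_1 (nat_lit 7) (nat_lit 0x700000001c00080000000000000000000000000000000) (nat_lit 0x0) (nat_lit 0x8003e0008c00ce002000040000000000000000000000000000000) := Q_1 (nat_lit 158) (C_1 L27170 (C_1 L27175 (C_1 L27172 (C_1 L27187 N_1)))) (by decide +kernel)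
theorem L27189 : W_1 (nat_lit 9) (nat_lit 0x600000001c00080000000000000000000000000000000) (nat_lit 0x0) (nat_lit 0xa003fe009f00cf802000040000000000000000000000000000000) := Q_1 (nat_lit 176) (C_1 L27144 (C_1 L27123 (C_1 L27156 (C_1 L27157 (C_1 L27165 (C_1 L27169 (C_1 L27182 (C_1 L27188 N_1)))))))) (by decide +kernel)
theorem L27190 : W_1 (nat_lit 2) (nat_lit 0x600010003c00080000000000000000000000000000000) (nat_lit 0x0) (nat_lit 0xc004000000000000000000000000000000000000) := D_1 (nat_lit 159) (nat_lit 158) (nat_lit 146) (nat_lit 1) (nat_lit 9) (nat_lit 8) (nat_lit 1) (nat_lit 10) (nat_lit 8) (by decide +kernel)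
theorem L27191 : W_1 (nat_lit 3) (nat_lit 0x600000003c00080000000000000000000000000000000) (nat_lit 0x0) (nat_lit 0x400000001c004000000000000000000000000000000000000) := T_1 (nat_lit 160) (nat_lit 194) (nat_lit 6) (nat_lit 7) (nat_lit 11) L27190 (by decide +kernel)
theorem L27192 : W_1 (nat_lit 2) (nat_lit 0x600040003c00180000000000000000000000000000000) (nat_lit 0x0) (nat_lit 0x18000800000000000000000000000000000000000000000000) := D_1 (nat_lit 179) (nat_lit 196) (nat_lit 195) (nat_lit 4) (nat_lit 9) (nat_lit 11) (nat_lit 5) (nat_lit 9) (nat_lit 7) (by decide +kernel)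
theorem L27193 : W_1 (nat_lit 3) (nat_lit 0x600000003c00180000000000000000000000000000000) (nat_lit 0x0) (nat_lit 0x180008000c0000000000000000000000000000000000000000) := T_1 (nat_lit 162) (nat_lit 163) (nat_lit 3) (nat_lit 6) (nat_lit 8) L27192 (by decide +kernel)
theorem L27194 : W_1 (nat_lit 4) (nat_lit 0x600000003c00080000000000000000000000000000000) (nat_lit 0x0) (nat_lit 0x180008000c0000000300000000000000000000000000000000) := T_1 (nat_lit 128) (nat_lit 129) (nat_lit 2) (nat_lit 6) (nat_lit 8) L27193 (by decide +kernel)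
theorem L27195 : W_1 (nat_lit 5) (nat_lit 0x600000001c00080000000000000000000000000000000) (nat_lit 0x0) (nat_lit 0x1c0008000dc006000300000000000000000000000000000000) := Q_1 (nat_lit 145) (C_1 L27191 (C_1 L27194 N_1)) (by decide +kernel)
theorem L27196 : W_1 (nat_lit 2) (nat_lit 0x4000700008001c00080000000000000000000000000000000) (nat_lit 0x0) (nat_lit 0x1000080002000000000000000000000000000000000000000000000000) := D_1 (nat_lit 211) (nat_lit 228) (nat_lit 193) (nat_lit 4) (nat_lit 7) (nat_lit 13) (nat_lit 7) (nat_lit 6) (nat_lit 8) (by decide +kernel)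
theorem L27197 : W_1 (nat_lit 3) (nat_lit 0x700008001c00080000000000000000000000000000000) (nat_lit 0x0) (nat_lit 0x1000080006000000010000000000000000000000000000000000000000) := T_1 (nat_lit 194) (nat_lit 160) (nat_lit 6) (nat_lit 7) (nat_lit 11) L27196 (by decide +kernel)
theorem L27198 : W_1 (nat_lit 4) (nat_lit 0x700000001c00080000000000000000000000000000000) (nat_lit 0x0) (nat_lit 0x100008000600080001c002000000000000000000000000000000000000) := Q_1 (nat_lit 159) (C_1 L27138 (C_1 L27197 N_1)) (by decide +kernel)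
theorem L27199 : W_1 (nat_lit 5) (nat_lit 0x700010001c00080000000000000000000000000000000) (nat_lit 0x0) (nat_lit 0x200000000800000004000300018000c000000000000000000) := T_1 (nat_lit 126) (nat_lit 193) (nat_lit 5) (nat_lit 7) (nat_lit 7) L27134 (by decide +kernel)
theorem L27200 : W_1 (nat_lit 6) (nat_lit 0x700000001c00080000000000000000000000000000000) (nat_lit 0x0) (nat_lit 0x600000001800000004000300018000c000000000000000000) := T_1 (nat_lit 160) (nat_lit 194) (nat_lit 6) (nat_lit 7) (nat_lit 11) L27199 (by decide +kernel)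
theorem L27201 : W_1 (nat_lit 2) (nat_lit 0x3000700008001c00080000000000000000000000000000000) (nat_lit 0x0) (nat_lit 0xc00080000000000000000000000000000000000000000000) := D_1 (nat_lit 191) (nat_lit 190) (nat_lit 175) (nat_lit 2) (nat_lit 3) (nat_lit 11) (nat_lit 1) (nat_lit 8) (nat_lit 10) (by decide +kernel)
theorem L27202 : W_1 (nat_lit 3) (nat_lit 0x2000700008001c00080000000000000000000000000000000) (nat_lit 0x0) (nat_lit 0x20001c00080000000000000000000000000000000000000000000) := T_1 (nat_lit 192) (nat_lit 209) (nat_lit 5) (nat_lit 6) (nat_lit 8) L27201 (by decide +kernel)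
theorem L27203 : W_1 (nat_lit 4) (nat_lit 0x700008001c00080000000000000000000000000000000) (nat_lit 0x0) (nat_lit 0x20003c00080000000000040000000000000000000000000000000) := T_1 (nat_lit 193) (nat_lit 126) (nat_lit 6) (nat_lit 6) (nat_lit 11) L27202 (by decide +kernel)
theorem L27204 : W_1 (nat_lit 5) (nat_lit 0x700000001c00080000000000000000000000000000000) (nat_lit 0x0) (nat_lit 0x20003c0088000c002000040000000000000000000000000000000) := Q_1 (nat_lit 159) (C_1 L27140 (C_1 L27138 (C_1 L27203 N_1))) (by decide +kernel)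
theorem L27205 : W_1 (nat_lit 2) (nat_lit 0x8007c0011001c00080000000000000000000000000000000) (nat_lit 0x0) (nat_lit 0x20008800000000000000000000000000000000000000) := D_1 (nat_lit 173) (nat_lit 155) (nat_lit 159) (nat_lit 0) (nat_lit 6) (nat_lit 10) (nat_lit 2) (nat_lit 3) (nat_lit 10) (by decide +kernel)
theorem L27206 : W_1 (nat_lit 3) (nat_lit 0x8007c0010001c00080000000000000000000000000000000) (nat_lit 0x0) (nat_lit 0x2000b800000000000000000000000000000000000000) := T_1 (nat_lit 156) (nat_lit 157) (nat_lit 0) (nat_lit 7) (nat_lit 10) L27205 (by decide +kernel)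
theorem L27207 : W_1 (nat_lit 4) (nat_lit 0x800780010001c00080000000000000000000000000000000) (nat_lit 0x0) (nat_lit 0x40006000b800000000000000000000000000000000000000) := T_1 (nat_lit 174) (nat_lit 190) (nat_lit 1) (nat_lit 7) (nat_lit 10) L27206 (by decide +kernel)
theorem L27208 : W_1 (nat_lit 5) (nat_lit 0x780010001c00080000000000000000000000000000000) (nat_lit 0x0) (nat_lit 0x1c0006000b800000000000000000000000000000000000000) := T_1 (nat_lit 191) (nat_lit 192) (nat_lit 1) (nat_lit 8) (nat_lit 10) L27207 (by decide +kernel)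
theorem L27209 : W_1 (nat_lit 6) (nat_lit 0x780000001c00080000000000000000000000000000000) (nat_lit 0x0) (nat_lit 0x5c0006001b800000000000000000000000000000000000000) := T_1 (nat_lit 160) (nat_lit 194) (nat_lit 6) (nat_lit 7) (nat_lit 11) L27208 (by decide +kernel)
theorem L27210 : W_1 (nat_lit 2) (nat_lit 0x780004001c00080000000000000000000000000000000) (nat_lit 0x0) (nat_lit 0x800008002000000000000000000000000000000000000) := D_1 (nat_lit 159) (nat_lit 179) (nat_lit 145) (nat_lit 0) (nat_lit 9) (nat_lit 10) (nat_lit 1) (nat_lit 9) (nat_lit 8) (by decide +kernel)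
theorem L27211 : W_1 (nat_lit 3) (nat_lit 0x780000001c00080000000000000000000000000000000) (nat_lit 0x0) (nat_lit 0x80000e002000000000000000000000000000000000000) := T_1 (nat_lit 158) (nat_lit 157) (nat_lit 0) (nat_lit 8) (nat_lit 10) L27210 (by decide +kernel)
theorem L27212 : W_1 (nat_lit 2) (nat_lit 0x8007c0018001c00080000000000000000000000000000000) (nat_lit 0x0) (nat_lit 0x4006000000000000000000000000000000000000) := D_1 (nat_lit 145) (nat_lit 146) (nat_lit 158) (nat_lit 1) (nat_lit 10) (nat_lit 8) (nat_lit 1) (nat_lit 9) (nat_lit 8) (by decide +kernel)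
theorem L27213 : W_1 (nat_lit 3) (nat_lit 0x8007c0010001c00080000000000000000000000000000000) (nat_lit 0x0) (nat_lit 0x2000c006000000000000000000000000000000000000) := T_1 (nat_lit 159) (nat_lit 173) (nat_lit 2) (nat_lit 3) (nat_lit 10) L27212 (by decide +kernel)
theorem L27214 : W_1 (nat_lit 4) (nat_lit 0x800780010001c00080000000000000000000000000000000) (nat_lit 0x0) (nat_lit 0x40006000c006000000000000000000000000000000000000) := T_1 (nat_lit 174) (nat_lit 190) (nat_lit 1) (nat_lit 7) (nat_lit 10) L27213 (by decide +kernel)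
theorem L27215 : W_1 (nat_lit 5) (nat_lit 0x780010001c00080000000000000000000000000000000) (nat_lit 0x0) (nat_lit 0x1c0006000c006000000000000000000000000000000000000) := T_1 (nat_lit 191) (nat_lit 192) (nat_lit 1) (nat_lit 8) (nat_lit 10) L27214 (by decide +kernel)
theorem L27216 : W_1 (nat_lit 6) (nat_lit 0x780000001c00080000000000000000000000000000000) (nat_lit 0x0) (nat_lit 0x5c0006001c006000000000000000000000000000000000000) := T_1 (nat_lit 160) (nat_lit 194) (nat_lit 6) (nat_lit 7) (nat_lit 11) L27215 (by decide +kernel)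
theorem L27217 : W_1 (nat_lit 7) (nat_lit 0x700000001c00080000000000000000000000000000000) (nat_lit 0x0) (nat_lit 0x5c008e001f806000000000000000000000000000000000000) := Q_1 (nat_lit 175) (C_1 L27118 (C_1 L27209 (C_1 L27211 (C_1 L27216 N_1)))) (by decide +kernel)
theorem L27218 : W_1 (nat_lit 8) (nat_lit 0x600000001c00080000000000000000000000000000000) (nat_lit 0x0) (nat_lit 0x18000e0037c009e00df80600004000300018000c000000000000000000) := Q_1 (nat_lit 176) (C_1 L27169 (C_1 L27115 (C_1 L27198 (C_1 L27200 (C_1 L27204 (C_1 L27217 N_1)))))) (by decide +kernel)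
theorem L27219 : W_1 (nat_lit 2) (nat_lit 0x700000001c000c0000000000000000000000000000000) (nat_lit 0x0) (nat_lit 0xa000000010000000000000000000000000000000000000000) := D_1 (nat_lit 160) (nat_lit 193) (nat_lit 195) (nat_lit 5) (nat_lit 7) (nat_lit 7) (nat_lit 7) (nat_lit 7) (nat_lit 7) (by decide +kernel)
theorem L27220 : W_1 (nat_lit 2) (nat_lit 0x2000f00040001c002c0000000000000000000000000000000) (nat_lit 0x0) (nat_lit 0x30000000000002000000000000000000000000000000000000) := D_1 (nat_lit 196) (nat_lit 197) (nat_lit 145) (nat_lit 3) (nat_lit 6) (nat_lit 10) (nat_lit 4) (nat_lit 9) (nat_lit 11) (by decide +kernel)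
theorem L27221 : W_1 (nat_lit 3) (nat_lit 0x2000f00000001c002c0000000000000000000000000000000) (nat_lit 0x0) (nat_lit 0x300000000c0002000000000000000000000000000000000000) := T_1 (nat_lit 162) (nat_lit 163) (nat_lit 2) (nat_lit 6) (nat_lit 10) L27220 (by decide +kernel)
theorem L27222 : W_1 (nat_lit 4) (nat_lit 0x2000700000001c002c0000000000000000000000000000000) (nat_lit 0x0) (nat_lit 0x310008000c0002000000000000000000000000000000000000) := T_1 (nat_lit 179) (nat_lit 192) (nat_lit 1) (nat_lit 9) (nat_lit 10) L27221 (by decide +kernel)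
theorem L27223 : W_1 (nat_lit 5) (nat_lit 0x700000001c002c0000000000000000000000000000000) (nat_lit 0x0) (nat_lit 0x330008000c8002000000000000000000000000000000000000) := T_1 (nat_lit 193) (nat_lit 159) (nat_lit 6) (nat_lit 6) (nat_lit 11) L27222 (by decide +kernel)
theorem L27224 : W_1 (nat_lit 6) (nat_lit 0x700000001c000c0000000000000000000000000000000) (nat_lit 0x0) (nat_lit 0x330008000c8002000300000000000000000000000000000000) := T_1 (nat_lit 129) (nat_lit 128) (nat_lit 1) (nat_lit 10) (nat_lit 7) L27223 (by decide +kernel)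
theorem L27225 : W_1 (nat_lit 5) (nat_lit 0x700000001c000c0000000000000000000000000000000) (nat_lit 0x0) (nat_lit 0x800000001800000000000300018000c000000000000000000) := T_1 (nat_lit 160) (nat_lit 195) (nat_lit 7) (nat_lit 7) (nat_lit 7) L27134 (by decide +kernel)
theorem L27226 : W_1 (nat_lit 7) (nat_lit 0x700000001c00080000000000000000000000000000000) (nat_lit 0x0) (nat_lit 0x3b0008000d800200034000300018000c000000000000000000) := Q_1 (nat_lit 126) (C_1 L27219 (C_1 L27224 (C_1 L27225 N_1))) (by decide +kernel)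
theorem L27227 : W_1 (nat_lit 2) (nat_lit 0x3000700000001c002c0000000000000000000000000000000) (nat_lit 0x0) (nat_lit 0xc00080000000000000000000000000000000000000000000) := D_1 (nat_lit 191) (nat_lit 175) (nat_lit 190) (nat_lit 1) (nat_lit 8) (nat_lit 10) (nat_lit 2) (nat_lit 3) (nat_lit 11) (by decide +kernel)
theorem L27228 : W_1 (nat_lit 3) (nat_lit 0x2000700000001c002c0000000000000000000000000000000) (nat_lit 0x0) (nat_lit 0x1c00880000000000000000000000000000000000000000000) := T_1 (nat_lit 192) (nat_lit 179) (nat_lit 1) (nat_lit 9) (nat_lit 10) L27227 (by decide +kernel)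
theorem L27229 : W_1 (nat_lit 4) (nat_lit 0x700000001c002c0000000000000000000000000000000) (nat_lit 0x0) (nat_lit 0x3c00880008000000000000000000000000000000000000000) := T_1 (nat_lit 193) (nat_lit 159) (nat_lit 6) (nat_lit 6) (nat_lit 11) L27228 (by decide +kernel)
theorem L27230 : W_1 (nat_lit 5) (nat_lit 0x700000001c000c0000000000000000000000000000000) (nat_lit 0x0) (nat_lit 0x3c00880008000000300000000000000000000000000000000) := T_1 (nat_lit 129) (nat_lit 128) (nat_lit 1) (nat_lit 10) (nat_lit 7) L27229 (by decide +kernel)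
theorem L27231 : W_1 (nat_lit 6) (nat_lit 0x700000001c00080000000000000000000000000000000) (nat_lit 0x0) (nat_lit 0xbc0088001800000034000300018000c000000000000000000) := Q_1 (nat_lit 126) (C_1 L27225 (C_1 L27219 (C_1 L27230 N_1))) (by decide +kernel)
theorem L27232 : W_1 (nat_lit 2) (nat_lit 0x70000c001c002c0000000100000000000000000000000) (nat_lit 0x0) (nat_lit 0x80003000000000000000000000000000000000000000) := D_1 (nat_lit 157) (nat_lit 175) (nat_lit 156) (nat_lit 0) (nat_lit 8) (nat_lit 10) (nat_lit 3) (nat_lit 3) (nat_lit 9) (by decide +kernel)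
theorem L27233 : W_1 (nat_lit 3) (nat_lit 0x700008001c002c0000000100000000000000000000000) (nat_lit 0x0) (nat_lit 0x80007002000000000000000000000000000000000000) := T_1 (nat_lit 158) (nat_lit 145) (nat_lit 1) (nat_lit 9) (nat_lit 8) L27232 (by decide +kernel)
theorem L27234 : W_1 (nat_lit 4) (nat_lit 0x700008001c002c0000000000000000000000000000000) (nat_lit 0x0) (nat_lit 0x80007002000000002000100000000000000000000000) := T_1 (nat_lit 92) (nat_lit 109) (nat_lit 5) (nat_lit 7) (nat_lit 5) L27233 (by decide +kernel)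
theorem L27235 : W_1 (nat_lit 5) (nat_lit 0x700000001c002c0000000000000000000000000000000) (nat_lit 0x0) (nat_lit 0x200008000f002000000002000100000000000000000000000) := T_1 (nat_lit 159) (nat_lit 193) (nat_lit 6) (nat_lit 6) (nat_lit 11) L27234 (by decide +kernel)
theorem L27236 : W_1 (nat_lit 6) (nat_lit 0x700000001c000c0000000000000000000000000000000) (nat_lit 0x0) (nat_lit 0x200008000f002000300002000100000000000000000000000) := T_1 (nat_lit 129) (nat_lit 128) (nat_lit 1) (nat_lit 10) (nat_lit 7) L27235 (by decide +kernel)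
theorem L27237 : W_1 (nat_lit 7) (nat_lit 0x700000001c00080000000000000000000000000000000) (nat_lit 0x0) (nat_lit 0xa00008001f00200034000300018000c000000000000000000) := Q_1 (nat_lit 126) (C_1 L27225 (C_1 L27219 (C_1 L27236 N_1))) (by decide +kernel)
theorem L27238 : W_1 (nat_lit 2) (nat_lit 0x78000c001c00080000000000000000000000000000000) (nat_lit 0x0) (nat_lit 0x20001800000000000000000000000000000000000000000000000) := D_1 (nat_lit 192) (nat_lit 191) (nat_lit 209) (nat_lit 1) (nat_lit 8) (nat_lit 10) (nat_lit 6) (nat_lit 5) (nat_lit 12) (by decide +kernel)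
theorem L27239 : W_1 (nat_lit 3) (nat_lit 0x780004001c00080000000000000000000000000000000) (nat_lit 0x0) (nat_lit 0x20001800000008002000000000000000000000000000000000000) := T_1 (nat_lit 159) (nat_lit 145) (nat_lit 1) (nat_lit 9) (nat_lit 8) L27238 (by decide +kernel)
theorem L27240 : W_1 (nat_lit 4) (nat_lit 0x700004001c00080000000000000000000000000000000) (nat_lit 0x0) (nat_lit 0x2000180008000a002000000000000000000000000000000000000) := T_1 (nat_lit 175) (nat_lit 157) (nat_lit 0) (nat_lit 8) (nat_lit 10) L27239 (by decide +kernel)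
theorem L27241 : W_1 (nat_lit 6) (nat_lit 0x700000001c00080000000000000000000000000000000) (nat_lit 0x0) (nat_lit 0x200398008800ce002000000000000000000000000000000000000) := Q_1 (nat_lit 158) (C_1 L27175 (C_1 L27172 (C_1 L27240 (C_1 L27170 N_1)))) (by decide +kernel)
theorem L27242 : W_1 (nat_lit 8) (nat_lit 0x600000001c00080000000000000000000000000000000) (nat_lit 0x0) (nat_lit 0x2003bc009c00df00200034000300018000c000000000000000000) := Q_1 (nat_lit 176) (C_1 L27204 (C_1 L27123 (C_1 L27226 (C_1 L27231 (C_1 L27237 (C_1 L27241 N_1)))))) (by decide +kernel)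
theorem L27243 : W_1 (nat_lit 10) (nat_lit 0x400000001c00080000000000000000000000000000000) (nat_lit 0x0) (nat_lit 0x38001e003fe00bf00df80600034000300018000c000000000000000000) := Q_1 (nat_lit 177) (C_1 L27080 (C_1 L27131 (C_1 L27137 (C_1 L27189 (C_1 L27195 (C_1 L27218 (C_1 L27242 N_1))))))) (by decide +kernel)
theorem L27244 : W_1 (nat_lit 11) (nat_lit 0x1c00080000000000000000000000000000000) (nat_lit 0x0) (nat_lit 0x800078003e003fe00ff00ff80600034000b00018000c000000000000000000) := Q_1 (nat_lit 178) (C_1 L27023 (C_1 L27051 (C_1 L27052 (C_1 L27070 (C_1 L27073 (C_1 L27074 (C_1 L27075 (C_1 L27243 N_1)))))))) (by decide +kernel)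
theorem L27245 : W_1 (nat_lit 12) (nat_lit 0x1400080000000000000000000000000000000) (nat_lit 0x0) (nat_lit 0x800078003e003fe00ff00ff806b0035800b00018000c000000000000000000) := Q_1 (nat_lit 143) (C_1 L27006 (C_1 L27014 (C_1 L27015 (C_1 L27016 (C_1 L27244 N_1))))) (by decide +kernel)
theorem L27246 : W_1 (nat_lit 2) (nat_lit 0x20001f00090000000000000000000000000000000) (nat_lit 0x0) (nat_lit 0x7000000000000000000000000000000000000000) := D_1 (nat_lit 157) (nat_lit 156) (nat_lit 158) (nat_lit 1) (nat_lit 7) (nat_lit 8) (nat_lit 1) (nat_lit 8) (nat_lit 8) (by decide +kernel)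
theorem L27247 : W_1 (nat_lit 3) (nat_lit 0x20001e00090000000000000000000000000000000) (nat_lit 0x0) (nat_lit 0x17000100000000000000000000000000000000000) := T_1 (nat_lit 140) (nat_lit 160) (nat_lit 3) (nat_lit 4) (nat_lit 8) L27246 (by decide +kernel)
theorem L27248 : W_1 (nat_lit 4) (nat_lit 0x1e00090000000000000000000000000000000) (nat_lit 0x0) (nat_lit 0x77000100000000000000000000000000000000000) := T_1 (nat_lit 161) (nat_lit 162) (nat_lit 3) (nat_lit 5) (nat_lit 8) L27247 (by decide +kernel)
theorem L27249 : W_1 (nat_lit 5) (nat_lit 0x1e00080000000000000000000000000000000) (nat_lit 0x0) (nat_lit 0x77000100018000000000000000000000000000000) := T_1 (nat_lit 124) (nat_lit 123) (nat_lit 0) (nat_lit 8) (nat_lit 8) L27248 (by decide +kernel)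
theorem L27250 : W_1 (nat_lit 2) (nat_lit 0x24001e000b0000000000000000000000000000000) (nat_lit 0x0) (nat_lit 0x80000000000000001000080000000000000000000000) := D_1 (nat_lit 108) (nat_lit 91) (nat_lit 175) (nat_lit 5) (nat_lit 6) (nat_lit 5) (nat_lit 6) (nat_lit 5) (nat_lit 10) (by decide +kernel)
theorem L27251 : W_1 (nat_lit 3) (nat_lit 0x20001e000b0000000000000000000000000000000) (nat_lit 0x0) (nat_lit 0x80006000000000001000080000000000000000000000) := T_1 (nat_lit 158) (nat_lit 157) (nat_lit 1) (nat_lit 8) (nat_lit 8) L27250 (by decide +kernel)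
theorem L27252 : W_1 (nat_lit 4) (nat_lit 0x20001e00090000000000000000000000000000000) (nat_lit 0x0) (nat_lit 0x80006002000020001000080000000000000000000000) := T_1 (nat_lit 125) (nat_lit 145) (nat_lit 0) (nat_lit 9) (nat_lit 8) L27251 (by decide +kernel)
theorem L27253 : W_1 (nat_lit 5) (nat_lit 0x1e00090000000000000000000000000000000) (nat_lit 0x0) (nat_lit 0x80066002000020001000080000000000000000000000) := T_1 (nat_lit 161) (nat_lit 162) (nat_lit 3) (nat_lit 5) (nat_lit 8) L27252 (by decide +kernel)
theorem L27254 : W_1 (nat_lit 6) (nat_lit 0x1e00080000000000000000000000000000000) (nat_lit 0x0) (nat_lit 0x80066002000038001000080000000000000000000000) := T_1 (nat_lit 124) (nat_lit 123) (nat_lit 0) (nat_lit 8) (nat_lit 8) L27253 (by decide +kernel)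
theorem L27255 : W_1 (nat_lit 7) (nat_lit 0x1c00080000000000000000000000000000000) (nat_lit 0x0) (nat_lit 0x80077002300078001000080000000000000000000000) := Q_1 (nat_lit 141) (C_1 L27005 (C_1 L27009 (C_1 L27249 (C_1 L27254 N_1)))) (by decide +kernel)
theorem L27256 : W_1 (nat_lit 7) (nat_lit 0x1c00080000000000000000000000000000000) (nat_lit 0x0) (nat_lit 0x80066002200138001000080000000000000000000000) := T_1 (nat_lit 141) (nat_lit 128) (nat_lit 2) (nat_lit 5) (nat_lit 8) L27254 (by decide +kernel)
theorem L27257 : W_1 (nat_lit 2) (nat_lit 0x1c001c0002000000000000000000000000000) (nat_lit 0x0) (nat_lit 0x400020000000000000000100000000000000000000000) := D_1 (nat_lit 161) (nat_lit 178) (nat_lit 92) (nat_lit 4) (nat_lit 8) (nat_lit 10) (nat_lit 7) (nat_lit 7) (nat_lit 5) (by decide +kernel)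
theorem L27258 : W_1 (nat_lit 2) (nat_lit 0x400010001c001c0002000000000000000000000000000) (nat_lit 0x0) (nat_lit 0xc000200000000000000000000000000000000000000000000) := D_1 (nat_lit 177) (nat_lit 195) (nat_lit 194) (nat_lit 7) (nat_lit 7) (nat_lit 7) (nat_lit 6) (nat_lit 7) (nat_lit 11) (by decide +kernel)
theorem L27259 : W_1 (nat_lit 3) (nat_lit 0x10001c001c0002000000000000000000000000000) (nat_lit 0x0) (nat_lit 0xc000600020000000000000000000000000000000000000000) := T_1 (nat_lit 178) (nat_lit 161) (nat_lit 7) (nat_lit 7) (nat_lit 6) L27258 (by decide +kernel)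
theorem L27260 : W_1 (nat_lit 2) (nat_lit 0xb0001c001c0003000000000000000000000000000) (nat_lit 0x0) (nat_lit 0x20000c00000000000000000000000000) := D_1 (nat_lit 107) (nat_lit 106) (nat_lit 125) (nat_lit 3) (nat_lit 4) (nat_lit 6) (nat_lit 0) (nat_lit 9) (nat_lit 7) (by decide +kernel)
theorem L27261 : W_1 (nat_lit 3) (nat_lit 0xb0001c001c0002000000000000000000000000000) (nat_lit 0x0) (nat_lit 0x20001c00080000000000000000000000) := T_1 (nat_lit 108) (nat_lit 91) (nat_lit 4) (nat_lit 7) (nat_lit 9) L27260 (by decide +kernel)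
theorem L27262 : W_1 (nat_lit 4) (nat_lit 0x30001c001c0002000000000000000000000000000) (nat_lit 0x0) (nat_lit 0xc0000000020001c00080000000000000000000000) := T_1 (nat_lit 163) (nat_lit 162) (nat_lit 0) (nat_lit 10) (nat_lit 9) L27261 (by decide +kernel)
theorem L27263 : W_1 (nat_lit 5) (nat_lit 0x10001c001c0002000000000000000000000000000) (nat_lit 0x0) (nat_lit 0x4000e0000000020001c00080000000000000000000000) := T_1 (nat_lit 161) (nat_lit 178) (nat_lit 7) (nat_lit 7) (nat_lit 6) L27262 (by decide +kernel)
theorem L27264 : W_1 (nat_lit 2) (nat_lit 0x10001c001c0003000000000000000000000000000) (nat_lit 0x0) (nat_lit 0x20000c00000000000000000000000000) := D_1 (nat_lit 107) (nat_lit 106) (nat_lit 125) (nat_lit 3) (nat_lit 4) (nat_lit 6) (nat_lit 0) (nat_lit 9) (nat_lit 7) (by decide +kernel)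
theorem L27265 : W_1 (nat_lit 3) (nat_lit 0x10001c001c0002000000000000000000000000000) (nat_lit 0x0) (nat_lit 0x20001c00080000000000000000000000) := T_1 (nat_lit 108) (nat_lit 91) (nat_lit 4) (nat_lit 7) (nat_lit 9) L27264 (by decide +kernel)
theorem L27266 : W_1 (nat_lit 6) (nat_lit 0x1c001c0002000000000000000000000000000) (nat_lit 0x0) (nat_lit 0xc0006000f0000000020001c00080000000000000000000000) := Q_1 (nat_lit 160) (C_1 L27259 (C_1 L27263 (C_1 L27265 N_1))) (by decide +kernel)
theorem L27267 : W_1 (nat_lit 2) (nat_lit 0x1c001c0002000000000000000000000000000) (nat_lit 0x0) (nat_lit 0x20000000000000000100008000000000000000000) := D_1 (nat_lit 92) (nat_lit 161) (nat_lit 75) (nat_lit 7) (nat_lit 7) (nat_lit 5) (nat_lit 7) (nat_lit 7) (nat_lit 4) (by decide +kernel)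
theorem L27268 : W_1 (nat_lit 2) (nat_lit 0x1c001c0003000380000000000000000000000) (nat_lit 0x0) (nat_lit 0x20000c00000000000000000000000000) := D_1 (nat_lit 107) (nat_lit 106) (nat_lit 125) (nat_lit 3) (nat_lit 4) (nat_lit 6) (nat_lit 0) (nat_lit 9) (nat_lit 7) (by decide +kernel)
theorem L27269 : W_1 (nat_lit 3) (nat_lit 0x1c001c0002000380000000000000000000000) (nat_lit 0x0) (nat_lit 0x10000000020001c00000000000000000000000000) := T_1 (nat_lit 108) (nat_lit 160) (nat_lit 4) (nat_lit 7) (nat_lit 9) L27268 (by decide +kernel)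
theorem L27270 : W_1 (nat_lit 4) (nat_lit 0x1c001c0002000300000000000000000000000) (nat_lit 0x0) (nat_lit 0x10000000020001c00080004000000000000000000) := T_1 (nat_lit 91) (nat_lit 74) (nat_lit 4) (nat_lit 7) (nat_lit 8) L27269 (by decide +kernel)
theorem L27271 : W_1 (nat_lit 5) (nat_lit 0x1c001c0002000100000000000000000000000) (nat_lit 0x0) (nat_lit 0x10000000020001c00280014000000000000000000) := T_1 (nat_lit 93) (nat_lit 76) (nat_lit 6) (nat_lit 7) (nat_lit 8) L27270 (by decide +kernel)
theorem L27272 : W_1 (nat_lit 6) (nat_lit 0x1c001c0002000000000000000000000000000) (nat_lit 0x0) (nat_lit 0x10000000020001c0038001c000000000000000000) := T_1 (nat_lit 92) (nat_lit 75) (nat_lit 7) (nat_lit 7) (nat_lit 4) L27271 (by decide +kernel)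
theorem L27273 : W_1 (nat_lit 7) (nat_lit 0x1c001c0000000000000000000000000000000) (nat_lit 0x0) (nat_lit 0xc0006000f0000000020003c0038001c000000000000000000) := Q_1 (nat_lit 109) (C_1 L27257 (C_1 L27266 (C_1 L27267 (C_1 L27272 N_1)))) (by decide +kernel)
theorem L27274 : W_1 (nat_lit 8) (nat_lit 0x1c00180000000000000000000000000000000) (nat_lit 0x0) (nat_lit 0xc0006000f0000000260003c0038001c000000000000000000) := T_1 (nat_lit 126) (nat_lit 129) (nat_lit 1) (nat_lit 10) (nat_lit 7) L27273 (by decide +kernel)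
theorem L27275 : W_1 (nat_lit 2) (nat_lit 0x1c00180000000000000000000000000000000) (nat_lit 0x0) (nat_lit 0x2000240000000000000000000000000000000) := D_1 (nat_lit 129) (nat_lit 126) (nat_lit 145) (nat_lit 1) (nat_lit 10) (nat_lit 7) (nat_lit 2) (nat_lit 6) (nat_lit 8) (by decide +kernel)
theorem L27276 : W_1 (nat_lit 2) (nat_lit 0xc00040003c001a0008000400000000000000000000000) (nat_lit 0x0) (nat_lit 0x10000800040000000000000000000) := D_1 (nat_lit 95) (nat_lit 112) (nat_lit 78) (nat_lit 6) (nat_lit 9) (nat_lit 9) (nat_lit 6) (nat_lit 9) (nat_lit 8) (by decide +kernel)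
theorem L27277 : W_1 (nat_lit 3) (nat_lit 0xc00040003c001a0008000000000000000000000000000) (nat_lit 0x0) (nat_lit 0x10000c00060000000000000000000) := T_1 (nat_lit 94) (nat_lit 77) (nat_lit 5) (nat_lit 9) (nat_lit 4) L27276 (by decide +kernel)
theorem L27278 : W_1 (nat_lit 4) (nat_lit 0xc00040003c001a0000000000000000000000000000000) (nat_lit 0x0) (nat_lit 0x20000000000018000c00060000000000000000000) := T_1 (nat_lit 111) (nat_lit 161) (nat_lit 6) (nat_lit 8) (nat_lit 10) L27277 (by decide +kernel)
theorem L27279 : W_1 (nat_lit 5) (nat_lit 0x800040003c001a0000000000000000000000000000000) (nat_lit 0x0) (nat_lit 0x8000400020000000000018000c00060000000000000000000) := T_1 (nat_lit 178) (nat_lit 195) (nat_lit 5) (nat_lit 9) (nat_lit 7) L27278 (by decide +kernel)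
theorem L27280 : W_1 (nat_lit 6) (nat_lit 0x40003c001a0000000000000000000000000000000) (nat_lit 0x0) (nat_lit 0x18000c00020000000000018000c00060000000000000000000) := T_1 (nat_lit 179) (nat_lit 196) (nat_lit 4) (nat_lit 9) (nat_lit 11) L27279 (by decide +kernel)
theorem L27281 : W_1 (nat_lit 7) (nat_lit 0x3c001a0000000000000000000000000000000) (nat_lit 0x0) (nat_lit 0x18000c000e0000000000018000c00060000000000000000000) := T_1 (nat_lit 162) (nat_lit 163) (nat_lit 3) (nat_lit 6) (nat_lit 8) L27280 (by decide +kernel)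
theorem L27282 : W_1 (nat_lit 8) (nat_lit 0x3c00180000000000000000000000000000000) (nat_lit 0x0) (nat_lit 0x18000c000e0000000030018000c00060000000000000000000) := T_1 (nat_lit 125) (nat_lit 124) (nat_lit 0) (nat_lit 9) (nat_lit 8) L27281 (by decide +kernel)
theorem L27283 : W_1 (nat_lit 9) (nat_lit 0x1c00180000000000000000000000000000000) (nat_lit 0x0) (nat_lit 0x18000c000e0002000230018000c00060000000000000000000) := T_1 (nat_lit 145) (nat_lit 129) (nat_lit 2) (nat_lit 6) (nat_lit 8) L27282 (by decide +kernel)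
theorem L27284 : W_1 (nat_lit 4) (nat_lit 0x3c001a0000000000000000000000000000000) (nat_lit 0x0) (nat_lit 0x200010004000040001800080000000000000000000000) := T_1 (nat_lit 126) (nat_lit 146) (nat_lit 3) (nat_lit 6) (nat_lit 7) L24479 (by decide +kernel)
theorem L27285 : W_1 (nat_lit 5) (nat_lit 0x3c00180000000000000000000000000000000) (nat_lit 0x0) (nat_lit 0x200010004000070001800080000000000000000000000) := T_1 (nat_lit 125) (nat_lit 124) (nat_lit 0) (nat_lit 9) (nat_lit 8) L27284 (by decide +kernel)
theorem L27286 : W_1 (nat_lit 2) (nat_lit 0xc00040003c00180008000400000000000000000000000) (nat_lit 0x0) (nat_lit 0x10000800040000000000000000000) := D_1 (nat_lit 95) (nat_lit 112) (nat_lit 78) (nat_lit 6) (nat_lit 9) (nat_lit 9) (nat_lit 6) (nat_lit 9) (nat_lit 8) (by decide +kernel)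
theorem L27287 : W_1 (nat_lit 3) (nat_lit 0xc00040003c00180008000000000000000000000000000) (nat_lit 0x0) (nat_lit 0x10000c00060000000000000000000) := T_1 (nat_lit 94) (nat_lit 77) (nat_lit 5) (nat_lit 9) (nat_lit 4) L27286 (by decide +kernel)
theorem L27288 : W_1 (nat_lit 4) (nat_lit 0xc00040003c00180000000000000000000000000000000) (nat_lit 0x0) (nat_lit 0x20000000000018000c00060000000000000000000) := T_1 (nat_lit 111) (nat_lit 161) (nat_lit 6) (nat_lit 8) (nat_lit 10) L27287 (by decide +kernel)
theorem L27289 : W_1 (nat_lit 5) (nat_lit 0x800040003c00180000000000000000000000000000000) (nat_lit 0x0) (nat_lit 0x8000400020000000000018000c00060000000000000000000) := T_1 (nat_lit 178) (nat_lit 195) (nat_lit 5) (nat_lit 9) (nat_lit 7) L27288 (by decide +kernel)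
theorem L27290 : W_1 (nat_lit 6) (nat_lit 0x40003c00180000000000000000000000000000000) (nat_lit 0x0) (nat_lit 0x18000c00020000000000018000c00060000000000000000000) := T_1 (nat_lit 179) (nat_lit 196) (nat_lit 4) (nat_lit 9) (nat_lit 11) L27289 (by decide +kernel)
theorem L27291 : W_1 (nat_lit 7) (nat_lit 0x3c00180000000000000000000000000000000) (nat_lit 0x0) (nat_lit 0x18000c000e0000000000018000c00060000000000000000000) := T_1 (nat_lit 162) (nat_lit 163) (nat_lit 3) (nat_lit 6) (nat_lit 8) L27290 (by decide +kernel)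
theorem L27292 : W_1 (nat_lit 9) (nat_lit 0x1c00180000000000000000000000000000000) (nat_lit 0x0) (nat_lit 0x18000e000f0006000070019800c80060000000000000000000) := Q_1 (nat_lit 145) (C_1 L27282 (C_1 L27285 (C_1 L27291 N_1))) (by decide +kernel)
theorem L27293 : W_1 (nat_lit 10) (nat_lit 0x1c00080000000000000000000000000000000) (nat_lit 0x0) (nat_lit 0x1c000e000f000600037001bc00f8007c000000000000000000) := Q_1 (nat_lit 128) (C_1 L27274 (C_1 L27275 (C_1 L27283 (C_1 L27292 N_1)))) (by decide +kernel)
theorem L27294 : W_1 (nat_lit 11) (nat_lit 0x1400080000000000000000000000000000000) (nat_lit 0x0) (nat_lit 0x1c000e800f7006b0037801bc00f8007c000000000000000000) := Q_1 (nat_lit 143) (C_1 L27006 (C_1 L27015 (C_1 L27255 (C_1 L27256 (C_1 L27293 N_1))))) (by decide +kernel)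
theorem L27295 : W_1 (nat_lit 2) (nat_lit 0x12001f80090000000000000000000000000000000) (nat_lit 0x0) (nat_lit 0x2040020000000000000000000000000000000) := D_1 (nat_lit 125) (nat_lit 138) (nat_lit 145) (nat_lit 2) (nat_lit 2) (nat_lit 8) (nat_lit 0) (nat_lit 9) (nat_lit 8) (by decide +kernel)
theorem L27296 : W_1 (nat_lit 3) (nat_lit 0x12001f00090000000000000000000000000000000) (nat_lit 0x0) (nat_lit 0x80020c0020000000000000000000000000000000) := T_1 (nat_lit 139) (nat_lit 159) (nat_lit 3) (nat_lit 3) (nat_lit 8) L27295 (by decide +kernel)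
theorem L27297 : W_1 (nat_lit 4) (nat_lit 0x2001f00090000000000000000000000000000000) (nat_lit 0x0) (nat_lit 0x380020c0020000000000000000000000000000000) := T_1 (nat_lit 160) (nat_lit 161) (nat_lit 3) (nat_lit 4) (nat_lit 8) L27296 (by decide +kernel)
theorem L27298 : W_1 (nat_lit 5) (nat_lit 0x1f00090000000000000000000000000000000) (nat_lit 0x0) (nat_lit 0x3b0020c0020000000000000000000000000000000) := T_1 (nat_lit 157) (nat_lit 156) (nat_lit 1) (nat_lit 7) (nat_lit 8) L27297 (by decide +kernel)
theorem L27299 : W_1 (nat_lit 6) (nat_lit 0x1e00090000000000000000000000000000000) (nat_lit 0x0) (nat_lit 0x3b0021c0060000000000000000000000000000000) := T_1 (nat_lit 140) (nat_lit 126) (nat_lit 2) (nat_lit 4) (nat_lit 8) L27298 (by decide +kernel)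
theorem L27300 : W_1 (nat_lit 7) (nat_lit 0x1e00080000000000000000000000000000000) (nat_lit 0x0) (nat_lit 0x3b0021c0078000000000000000000000000000000) := T_1 (nat_lit 124) (nat_lit 123) (nat_lit 0) (nat_lit 8) (nat_lit 8) L27299 (by decide +kernel)
theorem L27301 : W_1 (nat_lit 2) (nat_lit 0x4001e00090000000000000000000000000000000) (nat_lit 0x0) (nat_lit 0x8002000020000000000000000000000000000000) := D_1 (nat_lit 145) (nat_lit 159) (nat_lit 125) (nat_lit 1) (nat_lit 9) (nat_lit 8) (nat_lit 0) (nat_lit 9) (nat_lit 8) (by decide +kernel)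
theorem L27302 : W_1 (nat_lit 3) (nat_lit 0x4001e00080000000000000000000000000000000) (nat_lit 0x0) (nat_lit 0x8002000038000000000000000000000000000000) := T_1 (nat_lit 124) (nat_lit 123) (nat_lit 0) (nat_lit 8) (nat_lit 8) L27301 (by decide +kernel)
theorem L27303 : W_1 (nat_lit 4) (nat_lit 0x1e00080000000000000000000000000000000) (nat_lit 0x0) (nat_lit 0xe002000038000000000000000000000000000000) := T_1 (nat_lit 158) (nat_lit 157) (nat_lit 1) (nat_lit 8) (nat_lit 8) L27302 (by decide +kernel)
theorem L27304 : W_1 (nat_lit 2) (nat_lit 0x1f00080000000000000000000000000000000) (nat_lit 0x0) (nat_lit 0x1c000000000000000000000000000000) := D_1 (nat_lit 123) (nat_lit 122) (nat_lit 124) (nat_lit 0) (nat_lit 7) (nat_lit 8) (nat_lit 0) (nat_lit 8) (nat_lit 8) (by decide +kernel)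
theorem L27305 : W_1 (nat_lit 3) (nat_lit 0x1e00080000000000000000000000000000000) (nat_lit 0x0) (nat_lit 0x10005c000000000000000000000000000000) := T_1 (nat_lit 140) (nat_lit 126) (nat_lit 2) (nat_lit 4) (nat_lit 8) L27304 (by decide +kernel)
theorem L27306 : W_1 (nat_lit 8) (nat_lit 0x1c00080000000000000000000000000000000) (nat_lit 0x0) (nat_lit 0x3f0023c007c000000000000000000000000000000) := Q_1 (nat_lit 141) (C_1 L27005 (C_1 L27300 (C_1 L27303 (C_1 L27305 N_1)))) (by decide +kernel)
theorem L27307 : W_1 (nat_lit 4) (nat_lit 0x1c00080000000000000000000000000000000) (nat_lit 0x0) (nat_lit 0x30015c000000000000000000000000000000) := T_1 (nat_lit 141) (nat_lit 128) (nat_lit 2) (nat_lit 5) (nat_lit 8) L27305 (by decide +kernel)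
theorem L27308 : W_1 (nat_lit 5) (nat_lit 0x1c00080000000000000000000000000000000) (nat_lit 0x0) (nat_lit 0xe002200138000000000000000000000000000000) := T_1 (nat_lit 141) (nat_lit 128) (nat_lit 2) (nat_lit 5) (nat_lit 8) L27303 (by decide +kernel)
theorem L27309 : W_1 (nat_lit 2) (nat_lit 0x3a001c002c0003000000000000000000000000000) (nat_lit 0x0) (nat_lit 0x4000200000000000020000000000000000000000000000000) := D_1 (nat_lit 177) (nat_lit 194) (nat_lit 125) (nat_lit 6) (nat_lit 7) (nat_lit 11) (nat_lit 7) (nat_lit 6) (nat_lit 6) (by decide +kernel)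
theorem L27310 : W_1 (nat_lit 3) (nat_lit 0x3a001c002c0002000000000000000000000000000) (nat_lit 0x0) (nat_lit 0x4000200000000000020001000080000000000000000000000) := T_1 (nat_lit 108) (nat_lit 91) (nat_lit 4) (nat_lit 7) (nat_lit 9) L27309 (by decide +kernel)
theorem L27311 : W_1 (nat_lit 4) (nat_lit 0x38001c002c0002000000000000000000000000000) (nat_lit 0x0) (nat_lit 0x4000200006000000020001000080000000000000000000000) := T_1 (nat_lit 157) (nat_lit 158) (nat_lit 2) (nat_lit 4) (nat_lit 9) L27310 (by decide +kernel)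
theorem L27312 : W_1 (nat_lit 5) (nat_lit 0x30001c002c0002000000000000000000000000000) (nat_lit 0x0) (nat_lit 0x400030000e000000020001000080000000000000000000000) := T_1 (nat_lit 159) (nat_lit 176) (nat_lit 5) (nat_lit 7) (nat_lit 6) L27311 (by decide +kernel)
theorem L27313 : W_1 (nat_lit 6) (nat_lit 0x10001c002c0002000000000000000000000000000) (nat_lit 0x0) (nat_lit 0x400070002e000000020001000080000000000000000000000) := T_1 (nat_lit 161) (nat_lit 178) (nat_lit 7) (nat_lit 7) (nat_lit 6) L27312 (by decide +kernel)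
theorem L27314 : W_1 (nat_lit 7) (nat_lit 0x10001c000c0002000000000000000000000000000) (nat_lit 0x0) (nat_lit 0x400070002e000000320001000080000000000000000000000) := T_1 (nat_lit 129) (nat_lit 128) (nat_lit 1) (nat_lit 10) (nat_lit 7) L27313 (by decide +kernel)
theorem L27315 : W_1 (nat_lit 2) (nat_lit 0x10001c000c0003000000000000000000000000000) (nat_lit 0x0) (nat_lit 0x4000200000000000020000000000000000000000000000000) := D_1 (nat_lit 177) (nat_lit 194) (nat_lit 125) (nat_lit 6) (nat_lit 7) (nat_lit 11) (nat_lit 4) (nat_lit 7) (nat_lit 10) (by decide +kernel)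
theorem L27316 : W_1 (nat_lit 3) (nat_lit 0x10001c000c0002000000000000000000000000000) (nat_lit 0x0) (nat_lit 0x4000200000000000020001000080000000000000000000000) := T_1 (nat_lit 108) (nat_lit 91) (nat_lit 4) (nat_lit 7) (nat_lit 9) L27315 (by decide +kernel)
theorem L27317 : W_1 (nat_lit 2) (nat_lit 0x3c001c002c0003400000000000000000000000000) (nat_lit 0x0) (nat_lit 0xc0000000000020000000000000000000000000000000) := D_1 (nat_lit 175) (nat_lit 125) (nat_lit 174) (nat_lit 5) (nat_lit 6) (nat_lit 6) (nat_lit 1) (nat_lit 8) (nat_lit 9) (by decide +kernel)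
theorem L27318 : W_1 (nat_lit 3) (nat_lit 0x38001c002c0003400000000000000000000000000) (nat_lit 0x0) (nat_lit 0xc0006000000020000000000000000000000000000000) := T_1 (nat_lit 158) (nat_lit 157) (nat_lit 2) (nat_lit 4) (nat_lit 9) L27317 (by decide +kernel)
theorem L27319 : W_1 (nat_lit 4) (nat_lit 0x30001c002c0003400000000000000000000000000) (nat_lit 0x0) (nat_lit 0x1c000e000000020000000000000000000000000000000) := T_1 (nat_lit 159) (nat_lit 176) (nat_lit 5) (nat_lit 7) (nat_lit 6) L27318 (by decide +kernel)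
theorem L27320 : W_1 (nat_lit 5) (nat_lit 0x10001c002c0003400000000000000000000000000) (nat_lit 0x0) (nat_lit 0x5c002e000000020000000000000000000000000000000) := T_1 (nat_lit 161) (nat_lit 178) (nat_lit 7) (nat_lit 7) (nat_lit 6) L27319 (by decide +kernel)
theorem L27321 : W_1 (nat_lit 6) (nat_lit 0x10001c000c0003400000000000000000000000000) (nat_lit 0x0) (nat_lit 0x5c002e000000320000000000000000000000000000000) := T_1 (nat_lit 129) (nat_lit 128) (nat_lit 1) (nat_lit 10) (nat_lit 7) L27320 (by decide +kernel)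
theorem L27322 : W_1 (nat_lit 7) (nat_lit 0x10001c000c0003000000000000000000000000000) (nat_lit 0x0) (nat_lit 0x5c002e000000320000c00000000000000000000000000) := T_1 (nat_lit 106) (nat_lit 107) (nat_lit 3) (nat_lit 4) (nat_lit 6) L27321 (by decide +kernel)
theorem L27323 : W_1 (nat_lit 8) (nat_lit 0x10001c000c0002000000000000000000000000000) (nat_lit 0x0) (nat_lit 0x5c002e000000320001c00080000000000000000000000) := T_1 (nat_lit 108) (nat_lit 91) (nat_lit 4) (nat_lit 7) (nat_lit 9) L27322 (by decide +kernel)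
theorem L27324 : W_1 (nat_lit 2) (nat_lit 0x20001a001c000c0002000000000000000000000000000) (nat_lit 0x0) (nat_lit 0x8000400020000000000000000000000000000000000000000) := D_1 (nat_lit 178) (nat_lit 161) (nat_lit 195) (nat_lit 7) (nat_lit 7) (nat_lit 6) (nat_lit 7) (nat_lit 7) (nat_lit 7) (by decide +kernel)
theorem L27325 : W_1 (nat_lit 3) (nat_lit 0x1a001c000c0002000000000000000000000000000) (nat_lit 0x0) (nat_lit 0xc000600020000000000000000000000000000000000000000) := T_1 (nat_lit 177) (nat_lit 194) (nat_lit 6) (nat_lit 7) (nat_lit 11) L27324 (by decide +kernel)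
theorem L27326 : W_1 (nat_lit 4) (nat_lit 0x18001c000c0002000000000000000000000000000) (nat_lit 0x0) (nat_lit 0xc000600026000000000000000000000000000000000000000) := T_1 (nat_lit 157) (nat_lit 158) (nat_lit 2) (nat_lit 4) (nat_lit 9) L27325 (by decide +kernel)
theorem L27327 : W_1 (nat_lit 5) (nat_lit 0x10001c000c0002000000000000000000000000000) (nat_lit 0x0) (nat_lit 0xc00070002e000000000000000000000000000000000000000) := T_1 (nat_lit 159) (nat_lit 176) (nat_lit 5) (nat_lit 7) (nat_lit 6) L27326 (by decide +kernel)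
theorem L27328 : W_1 (nat_lit 9) (nat_lit 0x1c000c0002000000000000000000000000000) (nat_lit 0x0) (nat_lit 0xc0007c003e000000320001c00080000000000000000000000) := Q_1 (nat_lit 160) (C_1 L27314 (C_1 L27316 (C_1 L27323 (C_1 L27327 N_1)))) (by decide +kernel)
theorem L27329 : W_1 (nat_lit 2) (nat_lit 0x1c000c0002000000000000000000000000000) (nat_lit 0x0) (nat_lit 0x400020000000000000000100000000000000000000000) := D_1 (nat_lit 161) (nat_lit 178) (nat_lit 92) (nat_lit 4) (nat_lit 8) (nat_lit 10) (nat_lit 7) (nat_lit 7) (nat_lit 5) (by decide +kernel)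
theorem L27330 : W_1 (nat_lit 2) (nat_lit 0x1c000c0002000000000000000000000000000) (nat_lit 0x0) (nat_lit 0x28000000000000000100000000000000000000000) := D_1 (nat_lit 92) (nat_lit 159) (nat_lit 161) (nat_lit 5) (nat_lit 7) (nat_lit 5) (nat_lit 7) (nat_lit 7) (nat_lit 5) (by decide +kernel)
theorem L27331 : W_1 (nat_lit 2) (nat_lit 0x1c000c0002000000000000000000000000000) (nat_lit 0x0) (nat_lit 0x8000000000000000100008000000000000000000) := D_1 (nat_lit 92) (nat_lit 159) (nat_lit 75) (nat_lit 5) (nat_lit 7) (nat_lit 5) (nat_lit 7) (nat_lit 7) (nat_lit 4) (by decide +kernel)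
theorem L27332 : W_1 (nat_lit 10) (nat_lit 0x1c000c0000000000000000000000000000000) (nat_lit 0x0) (nat_lit 0xc0007c003e000000320003c00180008000000000000000000) := Q_1 (nat_lit 109) (C_1 L27328 (C_1 L27329 (C_1 L27330 (C_1 L27331 N_1)))) (by decide +kernel)
theorem L27333 : W_1 (nat_lit 2) (nat_lit 0x1c000e0000000000000000000000000000000) (nat_lit 0x0) (nat_lit 0x6000010000000000000000000000000000000) := D_1 (nat_lit 145) (nat_lit 124) (nat_lit 146) (nat_lit 3) (nat_lit 5) (nat_lit 7) (nat_lit 0) (nat_lit 10) (nat_lit 8) (by decide +kernel)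
theorem L27334 : W_1 (nat_lit 2) (nat_lit 0x8001c000f0000800000000000000000000000000) (nat_lit 0x0) (nat_lit 0x1000040002000000000000000000) := D_1 (nat_lit 90) (nat_lit 73) (nat_lit 108) (nat_lit 7) (nat_lit 5) (nat_lit 4) (nat_lit 4) (nat_lit 6) (nat_lit 9) (by decide +kernel)
theorem L27335 : W_1 (nat_lit 3) (nat_lit 0x1c000f0000800000000000000000000000000) (nat_lit 0x0) (nat_lit 0x100008000000000001000040002000000000000000000) := T_1 (nat_lit 159) (nat_lit 176) (nat_lit 4) (nat_lit 6) (nat_lit 10) L27334 (by decide +kernel)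
theorem L27336 : W_1 (nat_lit 4) (nat_lit 0x1c000f0000000000000000000000000000000) (nat_lit 0x0) (nat_lit 0x100008000000000001c00040002000000000000000000) := T_1 (nat_lit 107) (nat_lit 106) (nat_lit 0) (nat_lit 8) (nat_lit 7) L27335 (by decide +kernel)
theorem L27337 : W_1 (nat_lit 5) (nat_lit 0x1c000e0000000000000000000000000000000) (nat_lit 0x0) (nat_lit 0x100008000000018001c00040002000000000000000000) := T_1 (nat_lit 124) (nat_lit 123) (nat_lit 3) (nat_lit 4) (nat_lit 7) L27336 (by decide +kernel)
theorem L27338 : W_1 (nat_lit 2) (nat_lit 0x8003c000e0000000000000000000000000000000) (nat_lit 0x0) (nat_lit 0x100000000000000002000100000000000000000000000) := D_1 (nat_lit 109) (nat_lit 92) (nat_lit 176) (nat_lit 5) (nat_lit 7) (nat_lit 5) (nat_lit 6) (nat_lit 6) (nat_lit 10) (by decide +kernel)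
theorem L27339 : W_1 (nat_lit 3) (nat_lit 0x3c000e0000000000000000000000000000000) (nat_lit 0x0) (nat_lit 0x10000c000000000002000100000000000000000000000) := T_1 (nat_lit 159) (nat_lit 158) (nat_lit 1) (nat_lit 9) (nat_lit 8) L27338 (by decide +kernel)
theorem L27340 : W_1 (nat_lit 4) (nat_lit 0x1c000e0000000000000000000000000000000) (nat_lit 0x0) (nat_lit 0x10000c006000000002000100000000000000000000000) := T_1 (nat_lit 145) (nat_lit 146) (nat_lit 0) (nat_lit 10) (nat_lit 8) L27339 (by decide +kernel)
theorem L27341 : W_1 (nat_lit 6) (nat_lit 0x1c000c0000000000000000000000000000000) (nat_lit 0x0) (nat_lit 0x10000c006000038003c00140002000000000000000000) := Q_1 (nat_lit 125) (C_1 L27333 (C_1 L27337 (C_1 L27340 N_1))) (by decide +kernel)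
theorem L27342 : W_1 (nat_lit 5) (nat_lit 0x1c000c0000000000000000000000000000000) (nat_lit 0x0) (nat_lit 0x10006000330001800080004000000000000000000) := Q_1 (nat_lit 125) (C_1 L27333 (C_1 L23499 N_1)) (by decide +kernel)
theorem L27343 : W_1 (nat_lit 2) (nat_lit 0x200010001c002c0002000000000000000000000000000) (nat_lit 0x0) (nat_lit 0x8000400020000000000000000000000000000000000000000) := D_1 (nat_lit 178) (nat_lit 161) (nat_lit 195) (nat_lit 7) (nat_lit 7) (nat_lit 6) (nat_lit 7) (nat_lit 7) (nat_lit 7) (by decide +kernel)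
theorem L27344 : W_1 (nat_lit 3) (nat_lit 0x10001c002c0002000000000000000000000000000) (nat_lit 0x0) (nat_lit 0xc000600020000000000000000000000000000000000000000) := T_1 (nat_lit 177) (nat_lit 194) (nat_lit 6) (nat_lit 7) (nat_lit 11) L27343 (by decide +kernel)
theorem L27345 : W_1 (nat_lit 4) (nat_lit 0x10001c000c0002000000000000000000000000000) (nat_lit 0x0) (nat_lit 0xc000600020000000300000000000000000000000000000000) := T_1 (nat_lit 129) (nat_lit 128) (nat_lit 1) (nat_lit 10) (nat_lit 7) L27344 (by decide +kernel)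
theorem L27346 : W_1 (nat_lit 2) (nat_lit 0x18001c000c0002000000000000000000000000000) (nat_lit 0x0) (nat_lit 0x6002000000000000000000000000000000000000) := D_1 (nat_lit 158) (nat_lit 157) (nat_lit 145) (nat_lit 2) (nat_lit 4) (nat_lit 9) (nat_lit 1) (nat_lit 9) (nat_lit 8) (by decide +kernel)
theorem L27347 : W_1 (nat_lit 3) (nat_lit 0x10001c000c0002000000000000000000000000000) (nat_lit 0x0) (nat_lit 0x10000e002000000000000000000000000000000000000) := T_1 (nat_lit 159) (nat_lit 176) (nat_lit 5) (nat_lit 7) (nat_lit 6) L27346 (by decide +kernel)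
theorem L27348 : W_1 (nat_lit 6) (nat_lit 0x1c000c0002000000000000000000000000000) (nat_lit 0x0) (nat_lit 0xc00070003e002000300000000000000000000000000000000) := Q_1 (nat_lit 160) (C_1 L27327 (C_1 L27345 (C_1 L27347 N_1))) (by decide +kernel)
theorem L27349 : W_1 (nat_lit 7) (nat_lit 0x1c000c0000000000000000000000000000000) (nat_lit 0x0) (nat_lit 0xc00070003e002000300002000100008000000000000000000) := Q_1 (nat_lit 109) (C_1 L27348 (C_1 L27329 (C_1 L27331 N_1))) (by decide +kernel)
theorem L27350 : W_1 (nat_lit 11) (nat_lit 0x1c00080000000000000000000000000000000) (nat_lit 0x0) (nat_lit 0xc0007c003e006000378003c001c000e000000000000000000) := Q_1 (nat_lit 126) (C_1 L27332 (C_1 L27341 (C_1 L27342 (C_1 L27349 N_1)))) (by decide +kernel)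
theorem L27351 : W_1 (nat_lit 12) (nat_lit 0x1400080000000000000000000000000000000) (nat_lit 0x0) (nat_lit 0xc0007c003f006bc037c003c001c000e000000000000000000) := Q_1 (nat_lit 143) (C_1 L27006 (C_1 L27306 (C_1 L27307 (C_1 L27308 (C_1 L27350 N_1))))) (by decide +kernel)
theorem L27352 : W_1 (nat_lit 2) (nat_lit 0x20001e00080000000000000000000000000000000) (nat_lit 0x0) (nat_lit 0x10000100040000000000000000000000000000000) := D_1 (nat_lit 140) (nat_lit 160) (nat_lit 126) (nat_lit 3) (nat_lit 4) (nat_lit 8) (nat_lit 2) (nat_lit 4) (nat_lit 8) (by decide +kernel)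
theorem L27353 : W_1 (nat_lit 3) (nat_lit 0x1e00080000000000000000000000000000000) (nat_lit 0x0) (nat_lit 0x70000100040000000000000000000000000000000) := T_1 (nat_lit 161) (nat_lit 162) (nat_lit 3) (nat_lit 5) (nat_lit 8) L27352 (by decide +kernel)
theorem L27354 : W_1 (nat_lit 2) (nat_lit 0x2c001f00084000000000000000000000000000000) (nat_lit 0x0) (nat_lit 0xc0002000000000000000000000000000000) := D_1 (nat_lit 139) (nat_lit 121) (nat_lit 138) (nat_lit 0) (nat_lit 6) (nat_lit 8) (nat_lit 3) (nat_lit 2) (nat_lit 8) (by decide +kernel)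
theorem L27355 : W_1 (nat_lit 3) (nat_lit 0x24001f00084000000000000000000000000000000) (nat_lit 0x0) (nat_lit 0x80020c0002000000000000000000000000000000) := T_1 (nat_lit 159) (nat_lit 145) (nat_lit 1) (nat_lit 9) (nat_lit 8) L27354 (by decide +kernel)
theorem L27356 : W_1 (nat_lit 4) (nat_lit 0x24001f00080000000000000000000000000000000) (nat_lit 0x0) (nat_lit 0x80020c000e000000000000000000000000000000) := T_1 (nat_lit 122) (nat_lit 123) (nat_lit 0) (nat_lit 7) (nat_lit 8) L27355 (by decide +kernel)
theorem L27357 : W_1 (nat_lit 5) (nat_lit 0x24001e00080000000000000000000000000000000) (nat_lit 0x0) (nat_lit 0x180021c000e000000000000000000000000000000) := T_1 (nat_lit 140) (nat_lit 160) (nat_lit 3) (nat_lit 4) (nat_lit 8) L27356 (by decide +kernel)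
theorem L27358 : W_1 (nat_lit 6) (nat_lit 0x4001e00080000000000000000000000000000000) (nat_lit 0x0) (nat_lit 0x780021c000e000000000000000000000000000000) := T_1 (nat_lit 161) (nat_lit 162) (nat_lit 3) (nat_lit 5) (nat_lit 8) L27357 (by decide +kernel)
theorem L27359 : W_1 (nat_lit 7) (nat_lit 0x1e00080000000000000000000000000000000) (nat_lit 0x0) (nat_lit 0x7e0021c000e000000000000000000000000000000) := T_1 (nat_lit 158) (nat_lit 157) (nat_lit 1) (nat_lit 8) (nat_lit 8) L27358 (by decide +kernel)
theorem L27360 : W_1 (nat_lit 2) (nat_lit 0x44001e00080000000000000000000000000000000) (nat_lit 0x0) (nat_lit 0x88002000000000000000000000000000000000000) := D_1 (nat_lit 145) (nat_lit 159) (nat_lit 163) (nat_lit 1) (nat_lit 9) (nat_lit 8) (nat_lit 3) (nat_lit 6) (nat_lit 8) (by decide +kernel)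
theorem L27361 : W_1 (nat_lit 3) (nat_lit 0x4001e00080000000000000000000000000000000) (nat_lit 0x0) (nat_lit 0xe8002000000000000000000000000000000000000) := T_1 (nat_lit 162) (nat_lit 161) (nat_lit 3) (nat_lit 5) (nat_lit 8) L27360 (by decide +kernel)
theorem L27362 : W_1 (nat_lit 4) (nat_lit 0x1e00080000000000000000000000000000000) (nat_lit 0x0) (nat_lit 0xee002000000000000000000000000000000000000) := T_1 (nat_lit 158) (nat_lit 157) (nat_lit 1) (nat_lit 8) (nat_lit 8) L27361 (by decide +kernel)
theorem L27363 : W_1 (nat_lit 8) (nat_lit 0x1c00080000000000000000000000000000000) (nat_lit 0x0) (nat_lit 0xff0023c004e000000000000000000000000000000) := Q_1 (nat_lit 141) (C_1 L27005 (C_1 L27353 (C_1 L27359 (C_1 L27362 N_1)))) (by decide +kernel)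
theorem L27364 : W_1 (nat_lit 2) (nat_lit 0x21001f000b0000000000000000000000000000000) (nat_lit 0x0) (nat_lit 0x8000c0000000000000000000000000000000000) := D_1 (nat_lit 139) (nat_lit 155) (nat_lit 138) (nat_lit 1) (nat_lit 6) (nat_lit 8) (nat_lit 2) (nat_lit 2) (nat_lit 8) (by decide +kernel)
theorem L27365 : W_1 (nat_lit 3) (nat_lit 0x21001f00090000000000000000000000000000000) (nat_lit 0x0) (nat_lit 0x8020c0020000000000000000000000000000000) := T_1 (nat_lit 125) (nat_lit 145) (nat_lit 0) (nat_lit 9) (nat_lit 8) L27364 (by decide +kernel)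
theorem L27366 : W_1 (nat_lit 4) (nat_lit 0x20001f00090000000000000000000000000000000) (nat_lit 0x0) (nat_lit 0x38020c0020000000000000000000000000000000) := T_1 (nat_lit 156) (nat_lit 157) (nat_lit 1) (nat_lit 7) (nat_lit 8) L27365 (by decide +kernel)
theorem L27367 : W_1 (nat_lit 5) (nat_lit 0x20001e00090000000000000000000000000000000) (nat_lit 0x0) (nat_lit 0x138021c0020000000000000000000000000000000) := T_1 (nat_lit 140) (nat_lit 160) (nat_lit 3) (nat_lit 4) (nat_lit 8) L27366 (by decide +kernel)
theorem L27368 : W_1 (nat_lit 6) (nat_lit 0x1e00090000000000000000000000000000000) (nat_lit 0x0) (nat_lit 0x738021c0020000000000000000000000000000000) := T_1 (nat_lit 161) (nat_lit 162) (nat_lit 3) (nat_lit 5) (nat_lit 8) L27367 (by decide +kernel)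
theorem L27369 : W_1 (nat_lit 7) (nat_lit 0x1e00080000000000000000000000000000000) (nat_lit 0x0) (nat_lit 0x738021c0038000000000000000000000000000000) := T_1 (nat_lit 124) (nat_lit 123) (nat_lit 0) (nat_lit 8) (nat_lit 8) L27368 (by decide +kernel)
theorem L27370 : W_1 (nat_lit 2) (nat_lit 0x40001e00090000000000000000000000000000000) (nat_lit 0x0) (nat_lit 0x80002000020000000000000000000000000000000) := D_1 (nat_lit 145) (nat_lit 125) (nat_lit 163) (nat_lit 0) (nat_lit 9) (nat_lit 8) (nat_lit 3) (nat_lit 6) (nat_lit 8) (by decide +kernel)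
theorem L27371 : W_1 (nat_lit 3) (nat_lit 0x1e00090000000000000000000000000000000) (nat_lit 0x0) (nat_lit 0xe0002000020000000000000000000000000000000) := T_1 (nat_lit 162) (nat_lit 161) (nat_lit 3) (nat_lit 5) (nat_lit 8) L27370 (by decide +kernel)
theorem L27372 : W_1 (nat_lit 4) (nat_lit 0x1e00080000000000000000000000000000000) (nat_lit 0x0) (nat_lit 0xe0002000038000000000000000000000000000000) := T_1 (nat_lit 124) (nat_lit 123) (nat_lit 0) (nat_lit 8) (nat_lit 8) L27371 (by decide +kernel)
theorem L27373 : W_1 (nat_lit 8) (nat_lit 0x1c00080000000000000000000000000000000) (nat_lit 0x0) (nat_lit 0xf38023c007c000000000000000000000000000000) := Q_1 (nat_lit 141) (C_1 L27353 (C_1 L27305 (C_1 L27369 (C_1 L27372 N_1)))) (by decide +kernel)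
theorem L27374 : W_1 (nat_lit 5) (nat_lit 0x1c00080000000000000000000000000000000) (nat_lit 0x0) (nat_lit 0xee00230007c000000000000000000000000000000) := Q_1 (nat_lit 141) (C_1 L27305 (C_1 L27372 (C_1 L27362 N_1))) (by decide +kernel)
theorem L27375 : W_1 (nat_lit 6) (nat_lit 0x1c00080000000000000000000000000000000) (nat_lit 0x0) (nat_lit 0xff002300038000000000000000000000000000000) := Q_1 (nat_lit 141) (C_1 L27249 (C_1 L27372 (C_1 L27303 (C_1 L27362 N_1)))) (by decide +kernel)
theorem L27376 : W_1 (nat_lit 2) (nat_lit 0x4000000018001e00090000800000000000000000000000000) (nat_lit 0x0) (nat_lit 0x2000100000000000020000000000000000000000000000000) := D_1 (nat_lit 176) (nat_lit 193) (nat_lit 125) (nat_lit 4) (nat_lit 6) (nat_lit 11) (nat_lit 4) (nat_lit 6) (nat_lit 10) (by decide +kernel)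
theorem L27377 : W_1 (nat_lit 3) (nat_lit 0x4000000018001e00090000000000000000000000000000000) (nat_lit 0x0) (nat_lit 0x2000100000000000020000800040000000000000000000000) := T_1 (nat_lit 107) (nat_lit 90) (nat_lit 7) (nat_lit 5) (nat_lit 5) L27376 (by decide +kernel)
theorem L27378 : W_1 (nat_lit 4) (nat_lit 0x18001e00090000000000000000000000000000000) (nat_lit 0x0) (nat_lit 0x6000300000000000020000800040000000000000000000000) := T_1 (nat_lit 194) (nat_lit 177) (nat_lit 6) (nat_lit 7) (nat_lit 11) L27377 (by decide +kernel)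
theorem L27379 : W_1 (nat_lit 5) (nat_lit 0x18001e00080000000000000000000000000000000) (nat_lit 0x0) (nat_lit 0x6000300000000000038000800040000000000000000000000) := T_1 (nat_lit 124) (nat_lit 123) (nat_lit 0) (nat_lit 8) (nat_lit 8) L27378 (by decide +kernel)
theorem L27380 : W_1 (nat_lit 2) (nat_lit 0x58001e00090000800000000000000000000000000) (nat_lit 0x0) (nat_lit 0x2000100000000000020000000000000000000000000000000) := D_1 (nat_lit 176) (nat_lit 193) (nat_lit 125) (nat_lit 4) (nat_lit 6) (nat_lit 11) (nat_lit 4) (nat_lit 6) (nat_lit 10) (by decide +kernel)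
theorem L27381 : W_1 (nat_lit 3) (nat_lit 0x58001e00090000000000000000000000000000000) (nat_lit 0x0) (nat_lit 0x2000100000000000020000800040000000000000000000000) := T_1 (nat_lit 107) (nat_lit 90) (nat_lit 7) (nat_lit 5) (nat_lit 5) L27380 (by decide +kernel)
theorem L27382 : W_1 (nat_lit 4) (nat_lit 0x18001e00090000000000000000000000000000000) (nat_lit 0x0) (nat_lit 0x2000100060000000020000800040000000000000000000000) := T_1 (nat_lit 162) (nat_lit 161) (nat_lit 3) (nat_lit 5) (nat_lit 8) L27381 (by decide +kernel)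
theorem L27383 : W_1 (nat_lit 5) (nat_lit 0x18001e00080000000000000000000000000000000) (nat_lit 0x0) (nat_lit 0x2000100060000000038000800040000000000000000000000) := T_1 (nat_lit 124) (nat_lit 123) (nat_lit 0) (nat_lit 8) (nat_lit 8) L27382 (by decide +kernel)
theorem L27384 : W_1 (nat_lit 2) (nat_lit 0x400040003c001e00090000000040000000000000000000000) (nat_lit 0x0) (nat_lit 0x8000000000000000040002000000000000000000000000000) := D_1 (nat_lit 126) (nat_lit 109) (nat_lit 195) (nat_lit 7) (nat_lit 7) (nat_lit 6) (nat_lit 4) (nat_lit 8) (nat_lit 11) (by decide +kernel)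
theorem L27385 : W_1 (nat_lit 3) (nat_lit 0x400000003c001e00090000000040000000000000000000000) (nat_lit 0x0) (nat_lit 0x8000c00000000000040002000000000000000000000000000) := T_1 (nat_lit 178) (nat_lit 179) (nat_lit 3) (nat_lit 5) (nat_lit 9) L27384 (by decide +kernel)
theorem L27386 : W_1 (nat_lit 4) (nat_lit 0x400000001c001e00090000000040000000000000000000000) (nat_lit 0x0) (nat_lit 0x8000c00060000000040002000000000000000000000000000) := T_1 (nat_lit 161) (nat_lit 162) (nat_lit 3) (nat_lit 5) (nat_lit 8) L27385 (by decide +kernel)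
theorem L27387 : W_1 (nat_lit 5) (nat_lit 0x4000000018001e00090000000040000000000000000000000) (nat_lit 0x0) (nat_lit 0x8000c00066000000040002000000000000000000000000000) := T_1 (nat_lit 158) (nat_lit 157) (nat_lit 2) (nat_lit 4) (nat_lit 9) L27386 (by decide +kernel)
theorem L27388 : W_1 (nat_lit 6) (nat_lit 0x4000000018001e00090000000000000000000000000000000) (nat_lit 0x0) (nat_lit 0x8000c00066000000040002800040000000000000000000000) := T_1 (nat_lit 90) (nat_lit 107) (nat_lit 7) (nat_lit 5) (nat_lit 5) L27387 (by decide +kernel)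
theorem L27389 : W_1 (nat_lit 7) (nat_lit 0x18001e00090000000000000000000000000000000) (nat_lit 0x0) (nat_lit 0xc000e00066000000040002800040000000000000000000000) := T_1 (nat_lit 194) (nat_lit 177) (nat_lit 6) (nat_lit 7) (nat_lit 11) L27388 (by decide +kernel)
theorem L27390 : W_1 (nat_lit 8) (nat_lit 0x18001e00080000000000000000000000000000000) (nat_lit 0x0) (nat_lit 0xc000e00066000000058002800040000000000000000000000) := T_1 (nat_lit 124) (nat_lit 123) (nat_lit 0) (nat_lit 8) (nat_lit 8) L27389 (by decide +kernel)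
theorem L27391 : W_1 (nat_lit 2) (nat_lit 0x400008003c001e00080000000000000000000000000000000) (nat_lit 0x0) (nat_lit 0x1000000000000000020001000000000000000000000000000) := D_1 (nat_lit 125) (nat_lit 108) (nat_lit 192) (nat_lit 5) (nat_lit 6) (nat_lit 6) (nat_lit 6) (nat_lit 5) (nat_lit 11) (by decide +kernel)
theorem L27392 : W_1 (nat_lit 3) (nat_lit 0x400000003c001e00080000000000000000000000000000000) (nat_lit 0x0) (nat_lit 0x10000c0000000000020001000000000000000000000000000) := T_1 (nat_lit 175) (nat_lit 174) (nat_lit 1) (nat_lit 8) (nat_lit 9) L27391 (by decide +kernel)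
theorem L27393 : W_1 (nat_lit 4) (nat_lit 0x400000001c001e00080000000000000000000000000000000) (nat_lit 0x0) (nat_lit 0x10000c0060000000020001000000000000000000000000000) := T_1 (nat_lit 161) (nat_lit 162) (nat_lit 3) (nat_lit 5) (nat_lit 8) L27392 (by decide +kernel)
theorem L27394 : W_1 (nat_lit 5) (nat_lit 0x4000000018001e00080000000000000000000000000000000) (nat_lit 0x0) (nat_lit 0x10000c0066000000020001000000000000000000000000000) := T_1 (nat_lit 158) (nat_lit 157) (nat_lit 2) (nat_lit 4) (nat_lit 9) L27393 (by decide +kernel)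
theorem L27395 : W_1 (nat_lit 6) (nat_lit 0x18001e00080000000000000000000000000000000) (nat_lit 0x0) (nat_lit 0x50002c0066000000020001000000000000000000000000000) := T_1 (nat_lit 194) (nat_lit 177) (nat_lit 6) (nat_lit 7) (nat_lit 11) L27394 (by decide +kernel)
theorem L27396 : W_1 (nat_lit 9) (nat_lit 0x10001e00080000000000000000000000000000000) (nat_lit 0x0) (nat_lit 0xf000fc006e000000078003800040000000000000000000000) := Q_1 (nat_lit 159) (C_1 L27379 (C_1 L27383 (C_1 L27390 (C_1 L27395 N_1)))) (by decide +kernel)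
theorem L27397 : W_1 (nat_lit 2) (nat_lit 0x2c0014001e000b0000000080000000000000000000000) (nat_lit 0x0) (nat_lit 0x2000100020000000000000000000000000000000000000000) := D_1 (nat_lit 176) (nat_lit 161) (nat_lit 193) (nat_lit 2) (nat_lit 4) (nat_lit 10) (nat_lit 7) (nat_lit 5) (nat_lit 7) (by decide +kernel)
theorem L27398 : W_1 (nat_lit 3) (nat_lit 0x280014001e000b0000000080000000000000000000000) (nat_lit 0x0) (nat_lit 0x2800140020000000000000000000000000000000000000000) := T_1 (nat_lit 174) (nat_lit 191) (nat_lit 5) (nat_lit 5) (nat_lit 7) L27397 (by decide +kernel)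
theorem L27399 : W_1 (nat_lit 4) (nat_lit 0x200014001e000b0000000080000000000000000000000) (nat_lit 0x0) (nat_lit 0x38001c0020000000000000000000000000000000000000000) := T_1 (nat_lit 175) (nat_lit 192) (nat_lit 6) (nat_lit 5) (nat_lit 11) L27398 (by decide +kernel)
theorem L27400 : W_1 (nat_lit 5) (nat_lit 0x200014001e000a0000000080000000000000000000000) (nat_lit 0x0) (nat_lit 0x38001c0020000000018000000000000000000000000000000) := T_1 (nat_lit 124) (nat_lit 123) (nat_lit 0) (nat_lit 8) (nat_lit 8) L27399 (by decide +kernel)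
theorem L27401 : W_1 (nat_lit 6) (nat_lit 0x200010001e000a0000000080000000000000000000000) (nat_lit 0x0) (nat_lit 0x38001c0026000000018000000000000000000000000000000) := T_1 (nat_lit 158) (nat_lit 157) (nat_lit 1) (nat_lit 8) (nat_lit 8) L27400 (by decide +kernel)
theorem L27402 : W_1 (nat_lit 7) (nat_lit 0x10001e000a0000000080000000000000000000000) (nat_lit 0x0) (nat_lit 0x78003c0026000000018000000000000000000000000000000) := T_1 (nat_lit 177) (nat_lit 194) (nat_lit 6) (nat_lit 7) (nat_lit 11) L27401 (by decide +kernel)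
theorem L27403 : W_1 (nat_lit 8) (nat_lit 0x10001e000a0000000000000000000000000000000) (nat_lit 0x0) (nat_lit 0x78003c0026000000018001000080000000000000000000000) := T_1 (nat_lit 91) (nat_lit 108) (nat_lit 7) (nat_lit 6) (nat_lit 5) L27402 (by decide +kernel)
theorem L27404 : W_1 (nat_lit 2) (nat_lit 0x14001e000a0001000000000000000000000000000) (nat_lit 0x0) (nat_lit 0x1000080000000000010000000000000000000000000000000) := D_1 (nat_lit 175) (nat_lit 192) (nat_lit 124) (nat_lit 6) (nat_lit 5) (nat_lit 11) (nat_lit 6) (nat_lit 5) (nat_lit 10) (by decide +kernel)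
theorem L27405 : W_1 (nat_lit 3) (nat_lit 0x14001e000a0000000000000000000000000000000) (nat_lit 0x0) (nat_lit 0x1000080000000000010001000080000000000000000000000) := T_1 (nat_lit 108) (nat_lit 91) (nat_lit 7) (nat_lit 6) (nat_lit 5) L27404 (by decide +kernel)
theorem L27406 : W_1 (nat_lit 4) (nat_lit 0x10001e000a0000000000000000000000000000000) (nat_lit 0x0) (nat_lit 0x1000080006000000010001000080000000000000000000000) := T_1 (nat_lit 158) (nat_lit 157) (nat_lit 1) (nat_lit 8) (nat_lit 8) L27405 (by decide +kernel)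
theorem L27407 : W_1 (nat_lit 2) (nat_lit 0x10001e000a0001000000000000000000000000000) (nat_lit 0x0) (nat_lit 0x4000200000000000040000000000000000000000000000000) := D_1 (nat_lit 177) (nat_lit 194) (nat_lit 126) (nat_lit 6) (nat_lit 7) (nat_lit 11) (nat_lit 4) (nat_lit 7) (nat_lit 10) (by decide +kernel)
theorem L27408 : W_1 (nat_lit 3) (nat_lit 0x10001e000a0000000000000000000000000000000) (nat_lit 0x0) (nat_lit 0x4000200000000000040001000080000000000000000000000) := T_1 (nat_lit 108) (nat_lit 91) (nat_lit 7) (nat_lit 6) (nat_lit 5) L27407 (by decide +kernel)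
theorem L27409 : W_1 (nat_lit 2) (nat_lit 0x2c0014001e000b0000000000000000000000000000000) (nat_lit 0x0) (nat_lit 0x2000100020000000000000000000000000000000000000000) := D_1 (nat_lit 176) (nat_lit 161) (nat_lit 193) (nat_lit 2) (nat_lit 4) (nat_lit 10) (nat_lit 7) (nat_lit 5) (nat_lit 7) (by decide +kernel)
theorem L27410 : W_1 (nat_lit 3) (nat_lit 0x280014001e000b0000000000000000000000000000000) (nat_lit 0x0) (nat_lit 0x2800140020000000000000000000000000000000000000000) := T_1 (nat_lit 174) (nat_lit 191) (nat_lit 5) (nat_lit 5) (nat_lit 7) L27409 (by decide +kernel)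
theorem L27411 : W_1 (nat_lit 4) (nat_lit 0x200014001e000b0000000000000000000000000000000) (nat_lit 0x0) (nat_lit 0x38001c0020000000000000000000000000000000000000000) := T_1 (nat_lit 175) (nat_lit 192) (nat_lit 6) (nat_lit 5) (nat_lit 11) L27410 (by decide +kernel)
theorem L27412 : W_1 (nat_lit 5) (nat_lit 0x200014001e000a0000000000000000000000000000000) (nat_lit 0x0) (nat_lit 0x38001c0020000000018000000000000000000000000000000) := T_1 (nat_lit 124) (nat_lit 123) (nat_lit 0) (nat_lit 8) (nat_lit 8) L27411 (by decide +kernel)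
theorem L27413 : W_1 (nat_lit 6) (nat_lit 0x200010001e000a0000000000000000000000000000000) (nat_lit 0x0) (nat_lit 0x38001c0026000000018000000000000000000000000000000) := T_1 (nat_lit 158) (nat_lit 157) (nat_lit 1) (nat_lit 8) (nat_lit 8) L27412 (by decide +kernel)
theorem L27414 : W_1 (nat_lit 7) (nat_lit 0x10001e000a0000000000000000000000000000000) (nat_lit 0x0) (nat_lit 0x78003c0026000000018000000000000000000000000000000) := T_1 (nat_lit 177) (nat_lit 194) (nat_lit 6) (nat_lit 7) (nat_lit 11) L27413 (by decide +kernel)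
theorem L27415 : W_1 (nat_lit 9) (nat_lit 0x10001e00080000000000000000000000000000000) (nat_lit 0x0) (nat_lit 0x78003c0026000000078001000080000000000000000000000) := Q_1 (nat_lit 125) (C_1 L27403 (C_1 L27406 (C_1 L27408 (C_1 L27414 N_1)))) (by decide +kernel)
theorem L27416 : W_1 (nat_lit 2) (nat_lit 0x1c001e00090000000000000000000000000000000) (nat_lit 0x0) (nat_lit 0x2000100000000000000000800000000000000000000000000) := D_1 (nat_lit 176) (nat_lit 193) (nat_lit 107) (nat_lit 4) (nat_lit 6) (nat_lit 11) (nat_lit 7) (nat_lit 5) (nat_lit 6) (by decide +kernel)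
theorem L27417 : W_1 (nat_lit 3) (nat_lit 0x1c001e00080000000000000000000000000000000) (nat_lit 0x0) (nat_lit 0x2000100000000000018000800000000000000000000000000) := T_1 (nat_lit 124) (nat_lit 123) (nat_lit 0) (nat_lit 8) (nat_lit 8) L27416 (by decide +kernel)
theorem L27418 : W_1 (nat_lit 4) (nat_lit 0x18001e00080000000000000000000000000000000) (nat_lit 0x0) (nat_lit 0x2000100006000000018000800000000000000000000000000) := T_1 (nat_lit 158) (nat_lit 157) (nat_lit 2) (nat_lit 4) (nat_lit 9) L27417 (by decide +kernel)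
theorem L27419 : W_1 (nat_lit 2) (nat_lit 0x8003c001e00090000000040000000000000000000000) (nat_lit 0x0) (nat_lit 0x1000000000000000020001000000000000000000000000000) := D_1 (nat_lit 125) (nat_lit 108) (nat_lit 192) (nat_lit 6) (nat_lit 5) (nat_lit 10) (nat_lit 6) (nat_lit 5) (nat_lit 11) (by decide +kernel)
theorem L27420 : W_1 (nat_lit 3) (nat_lit 0x3c001e00090000000040000000000000000000000) (nat_lit 0x0) (nat_lit 0x10000c0000000000020001000000000000000000000000000) := T_1 (nat_lit 175) (nat_lit 174) (nat_lit 1) (nat_lit 8) (nat_lit 9) L27419 (by decide +kernel)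
theorem L27421 : W_1 (nat_lit 4) (nat_lit 0x1c001e00090000000040000000000000000000000) (nat_lit 0x0) (nat_lit 0x10000c0060000000020001000000000000000000000000000) := T_1 (nat_lit 161) (nat_lit 162) (nat_lit 3) (nat_lit 5) (nat_lit 8) L27420 (by decide +kernel)
theorem L27422 : W_1 (nat_lit 5) (nat_lit 0x1c001e00090000000000000000000000000000000) (nat_lit 0x0) (nat_lit 0x10000c0060000000020001800040000000000000000000000) := T_1 (nat_lit 90) (nat_lit 107) (nat_lit 7) (nat_lit 5) (nat_lit 5) L27421 (by decide +kernel)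
theorem L27423 : W_1 (nat_lit 6) (nat_lit 0x18001e00090000000000000000000000000000000) (nat_lit 0x0) (nat_lit 0x10000c0066000000020001800040000000000000000000000) := T_1 (nat_lit 158) (nat_lit 157) (nat_lit 2) (nat_lit 4) (nat_lit 9) L27422 (by decide +kernel)
theorem L27424 : W_1 (nat_lit 7) (nat_lit 0x18001e00080000000000000000000000000000000) (nat_lit 0x0) (nat_lit 0x10000c0066000000038001800040000000000000000000000) := T_1 (nat_lit 124) (nat_lit 123) (nat_lit 0) (nat_lit 8) (nat_lit 8) L27423 (by decide +kernel)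
theorem L27425 : W_1 (nat_lit 2) (nat_lit 0x40003c001e00080000000000000000000000000000000) (nat_lit 0x0) (nat_lit 0x8000000000000000040002000000000000000000000000000) := D_1 (nat_lit 126) (nat_lit 109) (nat_lit 195) (nat_lit 7) (nat_lit 7) (nat_lit 6) (nat_lit 4) (nat_lit 8) (nat_lit 11) (by decide +kernel)
theorem L27426 : W_1 (nat_lit 3) (nat_lit 0x3c001e00080000000000000000000000000000000) (nat_lit 0x0) (nat_lit 0x8000c00000000000040002000000000000000000000000000) := T_1 (nat_lit 178) (nat_lit 179) (nat_lit 3) (nat_lit 5) (nat_lit 9) L27425 (by decide +kernel)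
theorem L27427 : W_1 (nat_lit 4) (nat_lit 0x38001e00080000000000000000000000000000000) (nat_lit 0x0) (nat_lit 0x8000c00006000000040002000000000000000000000000000) := T_1 (nat_lit 158) (nat_lit 157) (nat_lit 2) (nat_lit 4) (nat_lit 9) L27426 (by decide +kernel)
theorem L27428 : W_1 (nat_lit 5) (nat_lit 0x18001e00080000000000000000000000000000000) (nat_lit 0x0) (nat_lit 0x8000c00066000000040002000000000000000000000000000) := T_1 (nat_lit 161) (nat_lit 162) (nat_lit 3) (nat_lit 5) (nat_lit 8) L27427 (by decide +kernel)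
theorem L27429 : W_1 (nat_lit 8) (nat_lit 0x10001e00080000000000000000000000000000000) (nat_lit 0x0) (nat_lit 0xb000dc006e000000078003800040000000000000000000000) := Q_1 (nat_lit 159) (C_1 L27418 (C_1 L27383 (C_1 L27424 (C_1 L27428 N_1)))) (by decide +kernel)
theorem L27430 : W_1 (nat_lit 2) (nat_lit 0x4000000030001e000d0000000000000000000000000000000) (nat_lit 0x0) (nat_lit 0x400000000000000002000100000000000000000000000) := D_1 (nat_lit 109) (nat_lit 92) (nat_lit 178) (nat_lit 7) (nat_lit 7) (nat_lit 5) (nat_lit 7) (nat_lit 7) (nat_lit 6) (by decide +kernel)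
theorem L27431 : W_1 (nat_lit 3) (nat_lit 0x4000000010001e000d0000000000000000000000000000000) (nat_lit 0x0) (nat_lit 0x400060000000000002000100000000000000000000000) := T_1 (nat_lit 161) (nat_lit 162) (nat_lit 3) (nat_lit 5) (nat_lit 8) L27430 (by decide +kernel)
theorem L27432 : W_1 (nat_lit 4) (nat_lit 0x4000000010001e000c0000000000000000000000000000000) (nat_lit 0x0) (nat_lit 0x400060000000018002000100000000000000000000000) := T_1 (nat_lit 124) (nat_lit 123) (nat_lit 0) (nat_lit 8) (nat_lit 8) L27431 (by decide +kernel)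
theorem L27433 : W_1 (nat_lit 5) (nat_lit 0x10001e000c0000000000000000000000000000000) (nat_lit 0x0) (nat_lit 0x4000600060000000018002000100000000000000000000000) := T_1 (nat_lit 194) (nat_lit 177) (nat_lit 6) (nat_lit 7) (nat_lit 11) L27432 (by decide +kernel)
theorem L27434 : W_1 (nat_lit 2) (nat_lit 0x300014001e000c0002000000000000000000000000000) (nat_lit 0x0) (nat_lit 0x400020000000000000000100000000000000000000000) := D_1 (nat_lit 161) (nat_lit 178) (nat_lit 92) (nat_lit 7) (nat_lit 7) (nat_lit 6) (nat_lit 7) (nat_lit 7) (nat_lit 5) (by decide +kernel)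
theorem L27435 : W_1 (nat_lit 3) (nat_lit 0x300014001e000c0000000000000000000000000000000) (nat_lit 0x0) (nat_lit 0x400028000000000002000100000000000000000000000) := T_1 (nat_lit 109) (nat_lit 159) (nat_lit 5) (nat_lit 7) (nat_lit 6) L27434 (by decide +kernel)
theorem L27436 : W_1 (nat_lit 4) (nat_lit 0x200014001e000c0000000000000000000000000000000) (nat_lit 0x0) (nat_lit 0x2000500028000000000002000100000000000000000000000) := T_1 (nat_lit 176) (nat_lit 193) (nat_lit 5) (nat_lit 7) (nat_lit 7) L27435 (by decide +kernel)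
theorem L27437 : W_1 (nat_lit 5) (nat_lit 0x14001e000c0000000000000000000000000000000) (nat_lit 0x0) (nat_lit 0x6000700028000000000002000100000000000000000000000) := T_1 (nat_lit 177) (nat_lit 194) (nat_lit 6) (nat_lit 7) (nat_lit 11) L27436 (by decide +kernel)
theorem L27438 : W_1 (nat_lit 6) (nat_lit 0x10001e000c0000000000000000000000000000000) (nat_lit 0x0) (nat_lit 0x600070002e000000000002000100000000000000000000000) := T_1 (nat_lit 158) (nat_lit 157) (nat_lit 1) (nat_lit 8) (nat_lit 8) L27437 (by decide +kernel)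
theorem L27439 : W_1 (nat_lit 2) (nat_lit 0x30001e000c0000000000000000000000000000000) (nat_lit 0x0) (nat_lit 0x400000000000000002000100000000000000000000000) := D_1 (nat_lit 109) (nat_lit 92) (nat_lit 178) (nat_lit 7) (nat_lit 7) (nat_lit 5) (nat_lit 7) (nat_lit 7) (nat_lit 6) (by decide +kernel)
theorem L27440 : W_1 (nat_lit 3) (nat_lit 0x10001e000c0000000000000000000000000000000) (nat_lit 0x0) (nat_lit 0x400060000000000002000100000000000000000000000) := T_1 (nat_lit 161) (nat_lit 162) (nat_lit 3) (nat_lit 5) (nat_lit 8) L27439 (by decide +kernel)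
theorem L27441 : W_1 (nat_lit 2) (nat_lit 0x4000c00030001e000c0000000000000000000000000000000) (nat_lit 0x0) (nat_lit 0xe000000000000000000000000000000000000000) := D_1 (nat_lit 158) (nat_lit 159) (nat_lit 157) (nat_lit 3) (nat_lit 5) (nat_lit 9) (nat_lit 1) (nat_lit 8) (nat_lit 8) (by decide +kernel)
theorem L27442 : W_1 (nat_lit 3) (nat_lit 0x4000400030001e000c0000000000000000000000000000000) (nat_lit 0x0) (nat_lit 0x1000080000e000000000000000000000000000000000000000) := T_1 (nat_lit 179) (nat_lit 196) (nat_lit 7) (nat_lit 8) (nat_lit 7) L27441 (by decide +kernel)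
theorem L27443 : W_1 (nat_lit 4) (nat_lit 0x400030001e000c0000000000000000000000000000000) (nat_lit 0x0) (nat_lit 0x14000a0000e000000000000000000000000000000000000000) := T_1 (nat_lit 194) (nat_lit 177) (nat_lit 6) (nat_lit 7) (nat_lit 11) L27442 (by decide +kernel)
theorem L27444 : W_1 (nat_lit 5) (nat_lit 0x30001e000c0000000000000000000000000000000) (nat_lit 0x0) (nat_lit 0x1c000e0000e000000000000000000000000000000000000000) := T_1 (nat_lit 178) (nat_lit 195) (nat_lit 4) (nat_lit 8) (nat_lit 11) L27443 (by decide +kernel)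
theorem L27445 : W_1 (nat_lit 6) (nat_lit 0x10001e000c0000000000000000000000000000000) (nat_lit 0x0) (nat_lit 0x1c000e0006e000000000000000000000000000000000000000) := T_1 (nat_lit 161) (nat_lit 162) (nat_lit 3) (nat_lit 5) (nat_lit 8) L27444 (by decide +kernel)
theorem L27446 : W_1 (nat_lit 2) (nat_lit 0x300014001e000c0002000000000000000000000000000) (nat_lit 0x0) (nat_lit 0x20000000000000000100008000000000000000000) := D_1 (nat_lit 92) (nat_lit 161) (nat_lit 75) (nat_lit 7) (nat_lit 7) (nat_lit 5) (nat_lit 7) (nat_lit 7) (nat_lit 4) (by decide +kernel)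
theorem L27447 : W_1 (nat_lit 3) (nat_lit 0x300014001e000c0000000000000000000000000000000) (nat_lit 0x0) (nat_lit 0x28000000000002000100008000000000000000000) := T_1 (nat_lit 109) (nat_lit 159) (nat_lit 5) (nat_lit 7) (nat_lit 6) L27446 (by decide +kernel)
theorem L27448 : W_1 (nat_lit 4) (nat_lit 0x200014001e000c0000000000000000000000000000000) (nat_lit 0x0) (nat_lit 0x2000100028000000000002000100008000000000000000000) := T_1 (nat_lit 176) (nat_lit 193) (nat_lit 5) (nat_lit 7) (nat_lit 7) L27447 (by decide +kernel)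
theorem L27449 : W_1 (nat_lit 5) (nat_lit 0x14001e000c0000000000000000000000000000000) (nat_lit 0x0) (nat_lit 0x6000300028000000000002000100008000000000000000000) := T_1 (nat_lit 177) (nat_lit 194) (nat_lit 6) (nat_lit 7) (nat_lit 11) L27448 (by decide +kernel)
theorem L27450 : W_1 (nat_lit 6) (nat_lit 0x10001e000c0000000000000000000000000000000) (nat_lit 0x0) (nat_lit 0x600030002e000000000002000100008000000000000000000) := T_1 (nat_lit 158) (nat_lit 157) (nat_lit 1) (nat_lit 8) (nat_lit 8) L27449 (by decide +kernel)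
theorem L27451 : W_1 (nat_lit 2) (nat_lit 0x300014001e000c0002000100000000000000000000000) (nat_lit 0x0) (nat_lit 0x1000080004000000000000000000) := D_1 (nat_lit 91) (nat_lit 108) (nat_lit 74) (nat_lit 4) (nat_lit 7) (nat_lit 9) (nat_lit 4) (nat_lit 7) (nat_lit 8) (by decide +kernel)
theorem L27452 : W_1 (nat_lit 3) (nat_lit 0x300014001e000c0002000000000000000000000000000) (nat_lit 0x0) (nat_lit 0x100018000c000000000000000000) := T_1 (nat_lit 92) (nat_lit 75) (nat_lit 7) (nat_lit 7) (nat_lit 4) L27451 (by decide +kernel)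
theorem L27453 : W_1 (nat_lit 4) (nat_lit 0x300014001e000c0000000000000000000000000000000) (nat_lit 0x0) (nat_lit 0x800000000000300018000c000000000000000000) := T_1 (nat_lit 109) (nat_lit 159) (nat_lit 5) (nat_lit 7) (nat_lit 6) L27452 (by decide +kernel)
theorem L27454 : W_1 (nat_lit 5) (nat_lit 0x200014001e000c0000000000000000000000000000000) (nat_lit 0x0) (nat_lit 0x200010000800000000000300018000c000000000000000000) := T_1 (nat_lit 176) (nat_lit 193) (nat_lit 5) (nat_lit 7) (nat_lit 7) L27453 (by decide +kernel)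
theorem L27455 : W_1 (nat_lit 6) (nat_lit 0x14001e000c0000000000000000000000000000000) (nat_lit 0x0) (nat_lit 0x600030000800000000000300018000c000000000000000000) := T_1 (nat_lit 177) (nat_lit 194) (nat_lit 6) (nat_lit 7) (nat_lit 11) L27454 (by decide +kernel)
theorem L27456 : W_1 (nat_lit 7) (nat_lit 0x10001e000c0000000000000000000000000000000) (nat_lit 0x0) (nat_lit 0x600030000e00000000000300018000c000000000000000000) := T_1 (nat_lit 158) (nat_lit 157) (nat_lit 1) (nat_lit 8) (nat_lit 8) L27455 (by decide +kernel)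
theorem L27457 : W_1 (nat_lit 8) (nat_lit 0x10001e00080000000000000000000000000000000) (nat_lit 0x0) (nat_lit 0x1e000f0006e00000005800300018000c000000000000000000) := Q_1 (nat_lit 126) (C_1 L27433 (C_1 L27438 (C_1 L27440 (C_1 L27445 (C_1 L27450 (C_1 L27456 N_1)))))) (by decide +kernel)
theorem L27458 : W_1 (nat_lit 2) (nat_lit 0x10001e000f0000800000000000000000000000000) (nat_lit 0x0) (nat_lit 0x100008000000000000000040000000000000000000000) := D_1 (nat_lit 159) (nat_lit 176) (nat_lit 90) (nat_lit 4) (nat_lit 6) (nat_lit 10) (nat_lit 7) (nat_lit 5) (nat_lit 5) (by decide +kernel)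
theorem L27459 : W_1 (nat_lit 3) (nat_lit 0x10001e000f0000000000000000000000000000000) (nat_lit 0x0) (nat_lit 0x100008000000000000c00040000000000000000000000) := T_1 (nat_lit 107) (nat_lit 106) (nat_lit 0) (nat_lit 8) (nat_lit 7) L27458 (by decide +kernel)
theorem L27460 : W_1 (nat_lit 4) (nat_lit 0x10001e000e0000000000000000000000000000000) (nat_lit 0x0) (nat_lit 0x100008000000018000c00040000000000000000000000) := T_1 (nat_lit 124) (nat_lit 123) (nat_lit 3) (nat_lit 4) (nat_lit 7) L27459 (by decide +kernel)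
theorem L27461 : W_1 (nat_lit 2) (nat_lit 0x30001e000e0000000080000000000000000000000) (nat_lit 0x0) (nat_lit 0x400000000000000002000100000000000000000000000) := D_1 (nat_lit 109) (nat_lit 178) (nat_lit 92) (nat_lit 7) (nat_lit 7) (nat_lit 6) (nat_lit 7) (nat_lit 7) (nat_lit 5) (by decide +kernel)
theorem L27462 : W_1 (nat_lit 3) (nat_lit 0x10001e000e0000000080000000000000000000000) (nat_lit 0x0) (nat_lit 0x400060000000000002000100000000000000000000000) := T_1 (nat_lit 161) (nat_lit 162) (nat_lit 3) (nat_lit 5) (nat_lit 8) L27461 (by decide +kernel)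
theorem L27463 : W_1 (nat_lit 4) (nat_lit 0x10001e000e0000000000000000000000000000000) (nat_lit 0x0) (nat_lit 0x400060000000000003000180000000000000000000000) := T_1 (nat_lit 91) (nat_lit 108) (nat_lit 7) (nat_lit 6) (nat_lit 5) L27462 (by decide +kernel)
theorem L27464 : W_1 (nat_lit 5) (nat_lit 0x10001e000a0000000000000000000000000000000) (nat_lit 0x0) (nat_lit 0x500068000000058003c001c0000000000000000000000) := Q_1 (nat_lit 126) (C_1 L27460 (C_1 L27463 N_1)) (by decide +kernel)
theorem L27465 : W_1 (nat_lit 2) (nat_lit 0x4000000030001e000e8000000000000000000000000000000) (nat_lit 0x0) (nat_lit 0x400000000000000002000100000000000000000000000) := D_1 (nat_lit 109) (nat_lit 178) (nat_lit 92) (nat_lit 7) (nat_lit 7) (nat_lit 6) (nat_lit 7) (nat_lit 7) (nat_lit 5) (by decide +kernel)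
theorem L27466 : W_1 (nat_lit 3) (nat_lit 0x4000000010001e000e8000000000000000000000000000000) (nat_lit 0x0) (nat_lit 0x400060000000000002000100000000000000000000000) := T_1 (nat_lit 161) (nat_lit 162) (nat_lit 3) (nat_lit 5) (nat_lit 8) L27465 (by decide +kernel)
theorem L27467 : W_1 (nat_lit 4) (nat_lit 0x10001e000e8000000000000000000000000000000) (nat_lit 0x0) (nat_lit 0x4000600060000000000002000100000000000000000000000) := T_1 (nat_lit 194) (nat_lit 177) (nat_lit 6) (nat_lit 7) (nat_lit 11) L27466 (by decide +kernel)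
theorem L27468 : W_1 (nat_lit 5) (nat_lit 0x10001e000e0000000000000000000000000000000) (nat_lit 0x0) (nat_lit 0x4000600060000000018002000100000000000000000000000) := T_1 (nat_lit 123) (nat_lit 124) (nat_lit 3) (nat_lit 4) (nat_lit 7) L27467 (by decide +kernel)
theorem L27469 : W_1 (nat_lit 2) (nat_lit 0x30001e000e0000000000000000000000000000000) (nat_lit 0x0) (nat_lit 0x400000000000000002000100000000000000000000000) := D_1 (nat_lit 109) (nat_lit 92) (nat_lit 178) (nat_lit 7) (nat_lit 7) (nat_lit 5) (nat_lit 7) (nat_lit 7) (nat_lit 6) (by decide +kernel)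
theorem L27470 : W_1 (nat_lit 3) (nat_lit 0x10001e000e0000000000000000000000000000000) (nat_lit 0x0) (nat_lit 0x400060000000000002000100000000000000000000000) := T_1 (nat_lit 161) (nat_lit 162) (nat_lit 3) (nat_lit 5) (nat_lit 8) L27469 (by decide +kernel)
theorem L27471 : W_1 (nat_lit 6) (nat_lit 0x10001e000a0000000000000000000000000000000) (nat_lit 0x0) (nat_lit 0x4000700068000000058002c00140000000000000000000000) := Q_1 (nat_lit 126) (C_1 L27460 (C_1 L27468 (C_1 L27470 N_1))) (by decide +kernel)
theorem L27472 : W_1 (nat_lit 7) (nat_lit 0x10001e00080000000000000000000000000000000) (nat_lit 0x0) (nat_lit 0x4000700068000000078003c001c0000000000000000000000) := Q_1 (nat_lit 125) (C_1 L27408 (C_1 L27464 (C_1 L23443 (C_1 L27471 N_1)))) (by decide +kernel)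
theorem L27473 : W_1 (nat_lit 8) (nat_lit 0x10001e00080000000000000000000000000000000) (nat_lit 0x0) (nat_lit 0x70003c006e000000038001800040000000000000000000000) := Q_1 (nat_lit 159) (C_1 L27383 (C_1 L27418 (C_1 L27424 (C_1 L27395 N_1)))) (by decide +kernel)
theorem L27474 : W_1 (nat_lit 6) (nat_lit 0x10001e00080000000000000000000000000000000) (nat_lit 0x0) (nat_lit 0xa000d0006e000000078002800040000000000000000000000) := Q_1 (nat_lit 159) (C_1 L27383 (C_1 L27418 (C_1 L27428 N_1))) (by decide +kernel)
theorem L27475 : W_1 (nat_lit 2) (nat_lit 0x4000080034001e000b0000000000000000000000000000000) (nat_lit 0x0) (nat_lit 0x800040008000000000000000000000000000000000000000) := D_1 (nat_lit 174) (nat_lit 191) (nat_lit 159) (nat_lit 5) (nat_lit 5) (nat_lit 7) (nat_lit 1) (nat_lit 8) (nat_lit 9) (by decide +kernel)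
theorem L27476 : W_1 (nat_lit 3) (nat_lit 0x4000000034001e000b0000000000000000000000000000000) (nat_lit 0x0) (nat_lit 0x18000c0008000000000000000000000000000000000000000) := T_1 (nat_lit 175) (nat_lit 192) (nat_lit 6) (nat_lit 5) (nat_lit 11) L27475 (by decide +kernel)
theorem L27477 : W_1 (nat_lit 4) (nat_lit 0x4000000030001e000b0000000000000000000000000000000) (nat_lit 0x0) (nat_lit 0x18000c000e000000000000000000000000000000000000000) := T_1 (nat_lit 158) (nat_lit 157) (nat_lit 1) (nat_lit 8) (nat_lit 8) L27476 (by decide +kernel)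
theorem L27478 : W_1 (nat_lit 5) (nat_lit 0x4000000030001e000a0000000000000000000000000000000) (nat_lit 0x0) (nat_lit 0x18000c000e000000018000000000000000000000000000000) := T_1 (nat_lit 124) (nat_lit 123) (nat_lit 0) (nat_lit 8) (nat_lit 8) L27477 (by decide +kernel)
theorem L27479 : W_1 (nat_lit 6) (nat_lit 0x30001e000a0000000000000000000000000000000) (nat_lit 0x0) (nat_lit 0x58002c000e000000018000000000000000000000000000000) := T_1 (nat_lit 194) (nat_lit 177) (nat_lit 6) (nat_lit 7) (nat_lit 11) L27478 (by decide +kernel)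
theorem L27480 : W_1 (nat_lit 7) (nat_lit 0x10001e000a0000000000000000000000000000000) (nat_lit 0x0) (nat_lit 0x58002c006e000000018000000000000000000000000000000) := T_1 (nat_lit 161) (nat_lit 162) (nat_lit 3) (nat_lit 5) (nat_lit 8) L27479 (by decide +kernel)
theorem L27481 : W_1 (nat_lit 8) (nat_lit 0x10001e00080000000000000000000000000000000) (nat_lit 0x0) (nat_lit 0x58002c006e000000078001000080000000000000000000000) := Q_1 (nat_lit 125) (C_1 L27408 (C_1 L27406 (C_1 L27480 N_1))) (by decide +kernel)
theorem L27482 : W_1 (nat_lit 2) (nat_lit 0x18001e000c0000000000000000000000000000000) (nat_lit 0x0) (nat_lit 0x2000100000000000000002000000000000000000000000000) := D_1 (nat_lit 176) (nat_lit 193) (nat_lit 109) (nat_lit 6) (nat_lit 6) (nat_lit 11) (nat_lit 5) (nat_lit 7) (nat_lit 6) (by decide +kernel)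
theorem L27483 : W_1 (nat_lit 2) (nat_lit 0x8000300038001e000e0000000000000000000000000000000) (nat_lit 0x0) (nat_lit 0x10000c0000000000000000000000000000000000000000000) := D_1 (nat_lit 175) (nat_lit 174) (nat_lit 192) (nat_lit 2) (nat_lit 4) (nat_lit 10) (nat_lit 5) (nat_lit 6) (nat_lit 7) (by decide +kernel)
theorem L27484 : W_1 (nat_lit 3) (nat_lit 0x8000300038001e000c0000000000000000000000000000000) (nat_lit 0x0) (nat_lit 0x10000c0000000000020001000000000000000000000000000) := T_1 (nat_lit 125) (nat_lit 108) (nat_lit 7) (nat_lit 6) (nat_lit 6) L27483 (by decide +kernel)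
theorem L27485 : W_1 (nat_lit 4) (nat_lit 0x8000100038001e000c0000000000000000000000000000000) (nat_lit 0x0) (nat_lit 0x50002c0000000000020001000000000000000000000000000) := T_1 (nat_lit 177) (nat_lit 194) (nat_lit 6) (nat_lit 7) (nat_lit 11) L27484 (by decide +kernel)
theorem L27486 : W_1 (nat_lit 5) (nat_lit 0x100038001e000c0000000000000000000000000000000) (nat_lit 0x0) (nat_lit 0xd0006c0000000000020001000000000000000000000000000) := T_1 (nat_lit 195) (nat_lit 178) (nat_lit 4) (nat_lit 8) (nat_lit 11) L27485 (by decide +kernel)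
theorem L27487 : W_1 (nat_lit 6) (nat_lit 0x100018001e000c0000000000000000000000000000000) (nat_lit 0x0) (nat_lit 0xd0006c0060000000020001000000000000000000000000000) := T_1 (nat_lit 161) (nat_lit 162) (nat_lit 3) (nat_lit 5) (nat_lit 8) L27486 (by decide +kernel)
theorem L27488 : W_1 (nat_lit 7) (nat_lit 0x18001e000c0000000000000000000000000000000) (nat_lit 0x0) (nat_lit 0xf0007c0060000000020001000000000000000000000000000) := T_1 (nat_lit 176) (nat_lit 193) (nat_lit 6) (nat_lit 6) (nat_lit 11) L27487 (by decide +kernel)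
theorem L27489 : W_1 (nat_lit 2) (nat_lit 0x4000000018001e000c0002000000000000000000000000000) (nat_lit 0x0) (nat_lit 0x400060000000000000000000000000000000000000000) := D_1 (nat_lit 161) (nat_lit 178) (nat_lit 162) (nat_lit 7) (nat_lit 7) (nat_lit 6) (nat_lit 3) (nat_lit 5) (nat_lit 8) (by decide +kernel)
theorem L27490 : W_1 (nat_lit 3) (nat_lit 0x4000000018001e000c0000000000000000000000000000000) (nat_lit 0x0) (nat_lit 0x400060000000000002000100000000000000000000000) := T_1 (nat_lit 109) (nat_lit 92) (nat_lit 5) (nat_lit 7) (nat_lit 5) L27489 (by decide +kernel)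
theorem L27491 : W_1 (nat_lit 4) (nat_lit 0x18001e000c0000000000000000000000000000000) (nat_lit 0x0) (nat_lit 0x4000600060000000000002000100000000000000000000000) := T_1 (nat_lit 194) (nat_lit 177) (nat_lit 6) (nat_lit 7) (nat_lit 11) L27490 (by decide +kernel)
theorem L27492 : W_1 (nat_lit 8) (nat_lit 0x18001e00080000000000000000000000000000000) (nat_lit 0x0) (nat_lit 0xf0007c0060000000060003000100000000000000000000000) := Q_1 (nat_lit 126) (C_1 L27482 (C_1 L27488 (C_1 L27491 N_1))) (by decide +kernel)
theorem L27493 : W_1 (nat_lit 2) (nat_lit 0x68003c001e000a0000000000000000000000000000000) (nat_lit 0x0) (nat_lit 0x8000000000000000040002000000000000000000000000000) := D_1 (nat_lit 126) (nat_lit 195) (nat_lit 109) (nat_lit 7) (nat_lit 7) (nat_lit 7) (nat_lit 7) (nat_lit 7) (nat_lit 6) (by decide +kernel)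
theorem L27494 : W_1 (nat_lit 3) (nat_lit 0x28003c001e000a0000000000000000000000000000000) (nat_lit 0x0) (nat_lit 0x8000c00000000000040002000000000000000000000000000) := T_1 (nat_lit 178) (nat_lit 179) (nat_lit 3) (nat_lit 5) (nat_lit 9) L27493 (by decide +kernel)
theorem L27495 : W_1 (nat_lit 4) (nat_lit 0x28001c001e000a0000000000000000000000000000000) (nat_lit 0x0) (nat_lit 0x8000c40020000000040002000000000000000000000000000) := T_1 (nat_lit 161) (nat_lit 174) (nat_lit 1) (nat_lit 8) (nat_lit 9) L27494 (by decide +kernel)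
theorem L27496 : W_1 (nat_lit 5) (nat_lit 0x20001c001e000a0000000000000000000000000000000) (nat_lit 0x0) (nat_lit 0x9000cc0020000000040002000000000000000000000000000) := T_1 (nat_lit 175) (nat_lit 192) (nat_lit 6) (nat_lit 5) (nat_lit 11) L27495 (by decide +kernel)
theorem L27497 : W_1 (nat_lit 6) (nat_lit 0x20001c001e00080000000000000000000000000000000) (nat_lit 0x0) (nat_lit 0x9000cc0020000000060003000000000000000000000000000) := T_1 (nat_lit 125) (nat_lit 108) (nat_lit 7) (nat_lit 6) (nat_lit 6) L27496 (by decide +kernel)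
theorem L27498 : W_1 (nat_lit 7) (nat_lit 0x200018001e00080000000000000000000000000000000) (nat_lit 0x0) (nat_lit 0x9000cc0026000000060003000000000000000000000000000) := T_1 (nat_lit 158) (nat_lit 157) (nat_lit 2) (nat_lit 4) (nat_lit 9) L27497 (by decide +kernel)
theorem L27499 : W_1 (nat_lit 8) (nat_lit 0x18001e00080000000000000000000000000000000) (nat_lit 0x0) (nat_lit 0xd000ec0026000000060003000000000000000000000000000) := T_1 (nat_lit 177) (nat_lit 194) (nat_lit 6) (nat_lit 7) (nat_lit 11) L27498 (by decide +kernel)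
theorem L27500 : W_1 (nat_lit 2) (nat_lit 0x100018001e00080000000000000000000000000000000) (nat_lit 0x0) (nat_lit 0x2000000000000000040002000000000000000000000000000) := D_1 (nat_lit 126) (nat_lit 109) (nat_lit 193) (nat_lit 5) (nat_lit 7) (nat_lit 6) (nat_lit 6) (nat_lit 6) (nat_lit 11) (by decide +kernel)
theorem L27501 : W_1 (nat_lit 2) (nat_lit 0x100018001e00080000000000000000000000000000000) (nat_lit 0x0) (nat_lit 0x40002000000000000000040000000000000000000000000000000) := D_1 (nat_lit 193) (nat_lit 210) (nat_lit 126) (nat_lit 6) (nat_lit 6) (nat_lit 12) (nat_lit 6) (nat_lit 6) (nat_lit 11) (by decide +kernel)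
theorem L27502 : W_1 (nat_lit 2) (nat_lit 0x4000100018001e00080000000000000000000000000000000) (nat_lit 0x0) (nat_lit 0xc0002000000000000000000000000000000000000000000000000) := D_1 (nat_lit 193) (nat_lit 211) (nat_lit 210) (nat_lit 7) (nat_lit 6) (nat_lit 8) (nat_lit 6) (nat_lit 6) (nat_lit 12) (by decide +kernel)
theorem L27503 : W_1 (nat_lit 3) (nat_lit 0x100018001e00080000000000000000000000000000000) (nat_lit 0x0) (nat_lit 0xc0006000200000000000000000000000000000000000000000000) := T_1 (nat_lit 194) (nat_lit 177) (nat_lit 6) (nat_lit 7) (nat_lit 11) L27502 (by decide +kernel)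
theorem L27504 : W_1 (nat_lit 2) (nat_lit 0x30001c001e000c0001000000000000000000000000000) (nat_lit 0x0) (nat_lit 0x8000c00000000000000000000000000000000000000000000) := D_1 (nat_lit 178) (nat_lit 195) (nat_lit 179) (nat_lit 7) (nat_lit 7) (nat_lit 7) (nat_lit 0) (nat_lit 9) (nat_lit 10) (by decide +kernel)
theorem L27505 : W_1 (nat_lit 3) (nat_lit 0x300018001e000c0001000000000000000000000000000) (nat_lit 0x0) (nat_lit 0x8000c00006000000000000000000000000000000000000000) := T_1 (nat_lit 158) (nat_lit 157) (nat_lit 2) (nat_lit 4) (nat_lit 9) L27504 (by decide +kernel)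
theorem L27506 : W_1 (nat_lit 4) (nat_lit 0x300018001e00080001000000000000000000000000000) (nat_lit 0x0) (nat_lit 0x8000c00006000000040002000000000000000000000000000) := T_1 (nat_lit 126) (nat_lit 109) (nat_lit 5) (nat_lit 7) (nat_lit 6) L27505 (by decide +kernel)
theorem L27507 : W_1 (nat_lit 5) (nat_lit 0x300018001e00080000000000000000000000000000000) (nat_lit 0x0) (nat_lit 0x8000c00006000000060003000000000000000000000000000) := T_1 (nat_lit 108) (nat_lit 125) (nat_lit 7) (nat_lit 6) (nat_lit 6) L27506 (by decide +kernel)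
theorem L27508 : W_1 (nat_lit 6) (nat_lit 0x100018001e00080000000000000000000000000000000) (nat_lit 0x0) (nat_lit 0xc000e00006000000060003000000000000000000000000000) := T_1 (nat_lit 177) (nat_lit 194) (nat_lit 6) (nat_lit 7) (nat_lit 11) L27507 (by decide +kernel)
theorem L27509 : W_1 (nat_lit 7) (nat_lit 0x18001e00080000000000000000000000000000000) (nat_lit 0x0) (nat_lit 0xc000e000f00006000000060003000000000000000000000000000) := Q_1 (nat_lit 176) (C_1 L27500 (C_1 L27501 (C_1 L27503 (C_1 L27508 N_1)))) (by decide +kernel)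
theorem L27510 : W_1 (nat_lit 9) (nat_lit 0x10001e00080000000000000000000000000000000) (nat_lit 0x0) (nat_lit 0xc000f000fc006e000000060003000100000000000000000000000) := Q_1 (nat_lit 159) (C_1 L27492 (C_1 L27499 (C_1 L27428 (C_1 L27395 (C_1 L27509 N_1))))) (by decide +kernel)
theorem L27511 : W_1 (nat_lit 2) (nat_lit 0x4000180014001e000b0000800000000000000000000000000) (nat_lit 0x0) (nat_lit 0x40000400020000000000000000000000) := D_1 (nat_lit 106) (nat_lit 89) (nat_lit 126) (nat_lit 4) (nat_lit 5) (nat_lit 9) (nat_lit 0) (nat_lit 8) (nat_lit 7) (by decide +kernel)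
theorem L27512 : W_1 (nat_lit 3) (nat_lit 0x4000180014001e000b0000000000000000000000000000000) (nat_lit 0x0) (nat_lit 0x8000000040000c00020000000000000000000000) := T_1 (nat_lit 107) (nat_lit 159) (nat_lit 7) (nat_lit 5) (nat_lit 6) L27511 (by decide +kernel)
theorem L27513 : W_1 (nat_lit 4) (nat_lit 0x4000080014001e000b0000000000000000000000000000000) (nat_lit 0x0) (nat_lit 0x2000100008000000040000c00020000000000000000000000) := T_1 (nat_lit 176) (nat_lit 193) (nat_lit 7) (nat_lit 5) (nat_lit 7) L27512 (by decide +kernel)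
theorem L27514 : W_1 (nat_lit 5) (nat_lit 0x4000080014001e000a0000000000000000000000000000000) (nat_lit 0x0) (nat_lit 0x2000100008000000058000c00020000000000000000000000) := T_1 (nat_lit 124) (nat_lit 123) (nat_lit 0) (nat_lit 8) (nat_lit 8) L27513 (by decide +kernel)
theorem L27515 : W_1 (nat_lit 6) (nat_lit 0x4000000014001e000a0000000000000000000000000000000) (nat_lit 0x0) (nat_lit 0x3000180008000000058000c00020000000000000000000000) := T_1 (nat_lit 175) (nat_lit 192) (nat_lit 6) (nat_lit 5) (nat_lit 11) L27514 (by decide +kernel)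
theorem L27516 : W_1 (nat_lit 7) (nat_lit 0x14001e000a0000000000000000000000000000000) (nat_lit 0x0) (nat_lit 0x7000380008000000058000c00020000000000000000000000) := T_1 (nat_lit 194) (nat_lit 177) (nat_lit 6) (nat_lit 7) (nat_lit 11) L27515 (by decide +kernel)
theorem L27517 : W_1 (nat_lit 8) (nat_lit 0x10001e000a0000000000000000000000000000000) (nat_lit 0x0) (nat_lit 0x700038000e000000058000c00020000000000000000000000) := T_1 (nat_lit 158) (nat_lit 157) (nat_lit 1) (nat_lit 8) (nat_lit 8) L27516 (by decide +kernel)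
theorem L27518 : W_1 (nat_lit 9) (nat_lit 0x10001e00080000000000000000000000000000000) (nat_lit 0x0) (nat_lit 0x700038000e000000078001c000a0000000000000000000000) := Q_1 (nat_lit 125) (C_1 L27408 (C_1 L27406 (C_1 L27517 N_1))) (by decide +kernel)
theorem L27519 : W_1 (nat_lit 10) (nat_lit 0x1e00080000000000000000000000000000000) (nat_lit 0x0) (nat_lit 0xc001f800fc007e000000078003c001e000c000000000000000000) := Q_1 (nat_lit 160) (C_1 L27396 (C_1 L27415 (C_1 L27429 (C_1 L27457 (C_1 L27472 (C_1 L27473 (C_1 L27474 (C_1 L27481 (C_1 L27510 (C_1 L27518 N_1)))))))))) (by decide +kernel)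
theorem L27520 : W_1 (nat_lit 11) (nat_lit 0x1c00080000000000000000000000000000000) (nat_lit 0x0) (nat_lit 0xc001f800fc007f00030007c003c001e000c000000000000000000) := Q_1 (nat_lit 141) (C_1 L27353 (C_1 L27305 (C_1 L27249 (C_1 L27519 N_1)))) (by decide +kernel)
theorem L27521 : W_1 (nat_lit 5) (nat_lit 0x1c00080000000000000000000000000000000) (nat_lit 0x0) (nat_lit 0xf00230007c000000000000000000000000000000) := Q_1 (nat_lit 141) (C_1 L27305 (C_1 L27303 (C_1 L27005 N_1))) (by decide +kernel)
theorem L27522 : W_1 (nat_lit 2) (nat_lit 0x1c000b0000000000000000000000000000000) (nat_lit 0x0) (nat_lit 0x4c000000000000000000000000000000) := D_1 (nat_lit 123) (nat_lit 122) (nat_lit 126) (nat_lit 3) (nat_lit 3) (nat_lit 7) (nat_lit 3) (nat_lit 4) (nat_lit 7) (by decide +kernel)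
theorem L27523 : W_1 (nat_lit 3) (nat_lit 0x1c000a0000000000000000000000000000000) (nat_lit 0x0) (nat_lit 0x200005c000000000000000000000000000000) := T_1 (nat_lit 124) (nat_lit 145) (nat_lit 0) (nat_lit 9) (nat_lit 8) L27522 (by decide +kernel)
theorem L27524 : W_1 (nat_lit 2) (nat_lit 0x200010001c000a0000000000000000000000000000000) (nat_lit 0x0) (nat_lit 0x40001000080000000000000000000000) := D_1 (nat_lit 108) (nat_lit 91) (nat_lit 126) (nat_lit 7) (nat_lit 6) (nat_lit 5) (nat_lit 4) (nat_lit 7) (nat_lit 10) (by decide +kernel)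
theorem L27525 : W_1 (nat_lit 3) (nat_lit 0x10001c000a0000000000000000000000000000000) (nat_lit 0x0) (nat_lit 0x4000200000000000040001000080000000000000000000000) := T_1 (nat_lit 177) (nat_lit 194) (nat_lit 6) (nat_lit 7) (nat_lit 11) L27524 (by decide +kernel)
theorem L27526 : W_1 (nat_lit 2) (nat_lit 0x100018001c000a0000000000000000000000000000000) (nat_lit 0x0) (nat_lit 0x2000000000000000040002000000000000000000000000000) := D_1 (nat_lit 126) (nat_lit 109) (nat_lit 193) (nat_lit 6) (nat_lit 6) (nat_lit 10) (nat_lit 6) (nat_lit 6) (nat_lit 11) (by decide +kernel)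
theorem L27527 : W_1 (nat_lit 2) (nat_lit 0x100018001c000a0000000000000000000000000000000) (nat_lit 0x0) (nat_lit 0x40002000000000000000040000000000000000000000000000000) := D_1 (nat_lit 193) (nat_lit 210) (nat_lit 126) (nat_lit 6) (nat_lit 6) (nat_lit 12) (nat_lit 6) (nat_lit 6) (nat_lit 11) (by decide +kernel)
theorem L27528 : W_1 (nat_lit 2) (nat_lit 0x100010001a001c000a0000000000000000000000000000000) (nat_lit 0x0) (nat_lit 0x60002000000000000000000000000000000000000000000000000) := D_1 (nat_lit 193) (nat_lit 210) (nat_lit 209) (nat_lit 6) (nat_lit 6) (nat_lit 12) (nat_lit 5) (nat_lit 6) (nat_lit 8) (by decide +kernel)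
theorem L27529 : W_1 (nat_lit 3) (nat_lit 0x10001a001c000a0000000000000000000000000000000) (nat_lit 0x0) (nat_lit 0x60003000080000000000000000000000000000000000000000000) := T_1 (nat_lit 192) (nat_lit 175) (nat_lit 5) (nat_lit 6) (nat_lit 7) L27528 (by decide +kernel)
theorem L27530 : W_1 (nat_lit 4) (nat_lit 0x100018001c000a0000000000000000000000000000000) (nat_lit 0x0) (nat_lit 0x60003000080006000000000000000000000000000000000000000) := T_1 (nat_lit 157) (nat_lit 158) (nat_lit 2) (nat_lit 4) (nat_lit 9) L27529 (by decide +kernel)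
theorem L27531 : W_1 (nat_lit 2) (nat_lit 0x100018001c000e0000000000000000000000000000000) (nat_lit 0x0) (nat_lit 0x18000800000000000000000000000000) := D_1 (nat_lit 124) (nat_lit 123) (nat_lit 107) (nat_lit 3) (nat_lit 4) (nat_lit 7) (nat_lit 4) (nat_lit 6) (nat_lit 10) (by decide +kernel)
theorem L27532 : W_1 (nat_lit 3) (nat_lit 0x100018001c000a0000000000000000000000000000000) (nat_lit 0x0) (nat_lit 0x58002800000000000000000000000000) := T_1 (nat_lit 126) (nat_lit 109) (nat_lit 6) (nat_lit 6) (nat_lit 10) L27531 (by decide +kernel)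
theorem L27533 : W_1 (nat_lit 5) (nat_lit 0x18001c000a0000000000000000000000000000000) (nat_lit 0x0) (nat_lit 0x60003000180006000000058002800000000000000000000000000) := Q_1 (nat_lit 176) (C_1 L27526 (C_1 L27527 (C_1 L27530 (C_1 L27532 N_1)))) (by decide +kernel)
theorem L27534 : W_1 (nat_lit 2) (nat_lit 0x18001c000e0003000000000000000000000000000) (nat_lit 0x0) (nat_lit 0xc00040000000000000000000000) := D_1 (nat_lit 107) (nat_lit 90) (nat_lit 106) (nat_lit 4) (nat_lit 6) (nat_lit 9) (nat_lit 3) (nat_lit 4) (nat_lit 6) (by decide +kernel)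
theorem L27535 : W_1 (nat_lit 3) (nat_lit 0x18001c000a0003000000000000000000000000000) (nat_lit 0x0) (nat_lit 0x100000000000040000c00040000000000000000000000) := T_1 (nat_lit 126) (nat_lit 176) (nat_lit 6) (nat_lit 6) (nat_lit 10) L27534 (by decide +kernel)
theorem L27536 : W_1 (nat_lit 4) (nat_lit 0x18001c000a0001000000000000000000000000000) (nat_lit 0x0) (nat_lit 0x100000000000040002c00140000000000000000000000) := T_1 (nat_lit 109) (nat_lit 92) (nat_lit 6) (nat_lit 6) (nat_lit 9) L27535 (by decide +kernel)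
theorem L27537 : W_1 (nat_lit 5) (nat_lit 0x18001c000a0000000000000000000000000000000) (nat_lit 0x0) (nat_lit 0x100000000000040003c001c0000000000000000000000) := T_1 (nat_lit 108) (nat_lit 91) (nat_lit 7) (nat_lit 6) (nat_lit 5) L27536 (by decide +kernel)
theorem L27538 : W_1 (nat_lit 3) (nat_lit 0x18001c000a0000000000000000000000000000000) (nat_lit 0x0) (nat_lit 0x80006000000000001000080000000000000000000000) := T_1 (nat_lit 108) (nat_lit 91) (nat_lit 7) (nat_lit 6) (nat_lit 5) L23390 (by decide +kernel)
theorem L27539 : W_1 (nat_lit 6) (nat_lit 0x10001c000a0000000000000000000000000000000) (nat_lit 0x0) (nat_lit 0x6000300018000e000000058003c001c0000000000000000000000) := Q_1 (nat_lit 159) (C_1 L27533 (C_1 L27537 (C_1 L27538 N_1))) (by decide +kernel)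
theorem L27540 : W_1 (nat_lit 3) (nat_lit 0x10001c000a0000000000000000000000000000000) (nat_lit 0x0) (nat_lit 0x4000200008000000000001000080000000000000000000000) := T_1 (nat_lit 108) (nat_lit 91) (nat_lit 7) (nat_lit 6) (nat_lit 5) L23388 (by decide +kernel)
theorem L27541 : W_1 (nat_lit 2) (nat_lit 0x40001c0018001c000b4000000000000000000000000000000) (nat_lit 0x0) (nat_lit 0x64000000000000000000000000000000000000000) := D_1 (nat_lit 161) (nat_lit 158) (nat_lit 162) (nat_lit 1) (nat_lit 8) (nat_lit 9) (nat_lit 1) (nat_lit 9) (nat_lit 9) (by decide +kernel)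
theorem L27542 : W_1 (nat_lit 3) (nat_lit 0x4000180018001c000b4000000000000000000000000000000) (nat_lit 0x0) (nat_lit 0x60064000000000000000000000000000000000000000) := T_1 (nat_lit 174) (nat_lit 173) (nat_lit 2) (nat_lit 3) (nat_lit 10) L27541 (by decide +kernel)
theorem L27543 : W_1 (nat_lit 4) (nat_lit 0x4000100018001c000b4000000000000000000000000000000) (nat_lit 0x0) (nat_lit 0x10000e0064000000000000000000000000000000000000000) := T_1 (nat_lit 175) (nat_lit 192) (nat_lit 5) (nat_lit 6) (nat_lit 7) L27542 (by decide +kernel)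
theorem L27544 : W_1 (nat_lit 5) (nat_lit 0x4000100018001c000b0000000000000000000000000000000) (nat_lit 0x0) (nat_lit 0x10000e006400000000c000000000000000000000000000000) := T_1 (nat_lit 122) (nat_lit 123) (nat_lit 3) (nat_lit 3) (nat_lit 7) L27543 (by decide +kernel)
theorem L27545 : W_1 (nat_lit 6) (nat_lit 0x4000100018001c000a0000000000000000000000000000000) (nat_lit 0x0) (nat_lit 0x10000e006400000001c000800000000000000000000000000) := T_1 (nat_lit 124) (nat_lit 107) (nat_lit 4) (nat_lit 6) (nat_lit 10) L27544 (by decide +kernel)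
theorem L27546 : W_1 (nat_lit 7) (nat_lit 0x100018001c000a0000000000000000000000000000000) (nat_lit 0x0) (nat_lit 0x50002e006400000001c000800000000000000000000000000) := T_1 (nat_lit 194) (nat_lit 177) (nat_lit 7) (nat_lit 6) (nat_lit 7) L27545 (by decide +kernel)
theorem L27547 : W_1 (nat_lit 8) (nat_lit 0x100010001c000a0000000000000000000000000000000) (nat_lit 0x0) (nat_lit 0xe00070002e006e00000001c000800000000000000000000000000) := Q_1 (nat_lit 159) (C_1 L27530 (C_1 L23043 (C_1 L27546 N_1))) (by decide +kernel)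
theorem L27548 : W_1 (nat_lit 2) (nat_lit 0x700030001c000e8000000000000000000000000000000) (nat_lit 0x0) (nat_lit 0xc0040000000000000000000000000000000000000000) := D_1 (nat_lit 175) (nat_lit 162) (nat_lit 174) (nat_lit 2) (nat_lit 5) (nat_lit 10) (nat_lit 2) (nat_lit 4) (nat_lit 10) (by decide +kernel)
theorem L27549 : W_1 (nat_lit 3) (nat_lit 0x700010001c000e8000000000000000000000000000000) (nat_lit 0x0) (nat_lit 0xc0060000000000002000000000000000000000000000) := T_1 (nat_lit 161) (nat_lit 109) (nat_lit 7) (nat_lit 7) (nat_lit 6) L27548 (by decide +kernel)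
theorem L27550 : W_1 (nat_lit 4) (nat_lit 0x300010001c000e8000000000000000000000000000000) (nat_lit 0x0) (nat_lit 0x80004c0060000000000002000000000000000000000000000) := T_1 (nat_lit 178) (nat_lit 195) (nat_lit 7) (nat_lit 7) (nat_lit 7) L27549 (by decide +kernel)
theorem L27551 : W_1 (nat_lit 5) (nat_lit 0x300010001c000e0000000000000000000000000000000) (nat_lit 0x0) (nat_lit 0x80004c0060000000018002000000000000000000000000000) := T_1 (nat_lit 123) (nat_lit 124) (nat_lit 3) (nat_lit 4) (nat_lit 7) L27550 (by decide +kernel)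
theorem L27552 : W_1 (nat_lit 6) (nat_lit 0x300010001c000a0000000000000000000000000000000) (nat_lit 0x0) (nat_lit 0xa0004c0060000000058002000000000000000000000000000) := T_1 (nat_lit 126) (nat_lit 193) (nat_lit 5) (nat_lit 7) (nat_lit 7) L27551 (by decide +kernel)
theorem L27553 : W_1 (nat_lit 7) (nat_lit 0x100010001c000a0000000000000000000000000000000) (nat_lit 0x0) (nat_lit 0xe0006c0060000000058002000000000000000000000000000) := T_1 (nat_lit 177) (nat_lit 194) (nat_lit 6) (nat_lit 7) (nat_lit 11) L27552 (by decide +kernel)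
theorem L27554 : W_1 (nat_lit 2) (nat_lit 0x300010001c000e0002000000000000000000000000000) (nat_lit 0x0) (nat_lit 0x400020000000000000000100000000000000000000000) := D_1 (nat_lit 161) (nat_lit 178) (nat_lit 92) (nat_lit 7) (nat_lit 7) (nat_lit 6) (nat_lit 7) (nat_lit 7) (nat_lit 5) (by decide +kernel)
theorem L27555 : W_1 (nat_lit 3) (nat_lit 0x300010001c000e0000000000000000000000000000000) (nat_lit 0x0) (nat_lit 0x400028000000000002000100000000000000000000000) := T_1 (nat_lit 109) (nat_lit 159) (nat_lit 6) (nat_lit 6) (nat_lit 10) L27554 (by decide +kernel)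
theorem L27556 : W_1 (nat_lit 4) (nat_lit 0x300010001c000a0000000000000000000000000000000) (nat_lit 0x0) (nat_lit 0x2000400028000000040002000100000000000000000000000) := T_1 (nat_lit 126) (nat_lit 193) (nat_lit 5) (nat_lit 7) (nat_lit 7) L27555 (by decide +kernel)
theorem L27557 : W_1 (nat_lit 5) (nat_lit 0x100010001c000a0000000000000000000000000000000) (nat_lit 0x0) (nat_lit 0x6000600028000000040002000100000000000000000000000) := T_1 (nat_lit 177) (nat_lit 194) (nat_lit 6) (nat_lit 7) (nat_lit 11) L27556 (by decide +kernel)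
theorem L27558 : W_1 (nat_lit 5) (nat_lit 0x100010001c000a0000000000000000000000000000000) (nat_lit 0x0) (nat_lit 0x6000300008000e000000058002800000000000000000000000000) := Q_1 (nat_lit 159) (C_1 L27532 (C_1 L27530 N_1)) (by decide +kernel)
theorem L27559 : W_1 (nat_lit 2) (nat_lit 0x40001c0018001c000e0000000000000000000000000000000) (nat_lit 0x0) (nat_lit 0x64000000000000000000000000000000000000000) := D_1 (nat_lit 161) (nat_lit 158) (nat_lit 162) (nat_lit 1) (nat_lit 8) (nat_lit 9) (nat_lit 1) (nat_lit 9) (nat_lit 9) (by decide +kernel)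
theorem L27560 : W_1 (nat_lit 3) (nat_lit 0x4000180018001c000e0000000000000000000000000000000) (nat_lit 0x0) (nat_lit 0x60064000000000000000000000000000000000000000) := T_1 (nat_lit 174) (nat_lit 173) (nat_lit 2) (nat_lit 3) (nat_lit 10) L27559 (by decide +kernel)
theorem L27561 : W_1 (nat_lit 4) (nat_lit 0x4000100018001c000e0000000000000000000000000000000) (nat_lit 0x0) (nat_lit 0x10000e0064000000000000000000000000000000000000000) := T_1 (nat_lit 175) (nat_lit 192) (nat_lit 5) (nat_lit 6) (nat_lit 7) L27560 (by decide +kernel)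
theorem L27562 : W_1 (nat_lit 5) (nat_lit 0x4000100018001c000a0000000000000000000000000000000) (nat_lit 0x0) (nat_lit 0x10000e0064000000040002000000000000000000000000000) := T_1 (nat_lit 126) (nat_lit 109) (nat_lit 6) (nat_lit 6) (nat_lit 10) L27561 (by decide +kernel)
theorem L27563 : W_1 (nat_lit 6) (nat_lit 0x100018001c000a0000000000000000000000000000000) (nat_lit 0x0) (nat_lit 0x50002e0064000000040002000000000000000000000000000) := T_1 (nat_lit 194) (nat_lit 177) (nat_lit 7) (nat_lit 6) (nat_lit 7) L27562 (by decide +kernel)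
theorem L27564 : W_1 (nat_lit 8) (nat_lit 0x100010001c000a0000000000000000000000000000000) (nat_lit 0x0) (nat_lit 0x50002e006c00000005c002800000000000000000000000000) := Q_1 (nat_lit 159) (C_1 L27532 (C_1 L27546 (C_1 L27563 N_1))) (by decide +kernel)
theorem L27565 : W_1 (nat_lit 9) (nat_lit 0x10001c000a0000000000000000000000000000000) (nat_lit 0x0) (nat_lit 0xe000f0007e006e00000005c002800100000000000000000000000) := Q_1 (nat_lit 176) (C_1 L27547 (C_1 L27553 (C_1 L27557 (C_1 L27558 (C_1 L27564 N_1))))) (by decide +kernel)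
theorem L27566 : W_1 (nat_lit 10) (nat_lit 0x1c000a0000000000000000000000000000000) (nat_lit 0x0) (nat_lit 0xe000f0007e007e00000005c003c001c0000000000000000000000) := Q_1 (nat_lit 160) (C_1 L27525 (C_1 L27539 (C_1 L27540 (C_1 L27565 N_1)))) (by decide +kernel)
theorem L27567 : W_1 (nat_lit 2) (nat_lit 0x18001c000a0000000000000000000000000000000) (nat_lit 0x0) (nat_lit 0x6002000000000000000000000000000000000000) := D_1 (nat_lit 158) (nat_lit 157) (nat_lit 145) (nat_lit 2) (nat_lit 4) (nat_lit 9) (nat_lit 1) (nat_lit 9) (nat_lit 8) (by decide +kernel)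
theorem L27568 : W_1 (nat_lit 6) (nat_lit 0x10001c000a0000000000000000000000000000000) (nat_lit 0x0) (nat_lit 0x18000e002000040003c001c0000000000000000000000) := Q_1 (nat_lit 159) (C_1 L27538 (C_1 L27537 (C_1 L27567 N_1))) (by decide +kernel)
theorem L27569 : W_1 (nat_lit 2) (nat_lit 0x40001a0058001c000a0000000000000000000000000000000) (nat_lit 0x0) (nat_lit 0x80006000000000000000000000000000000000000) := D_1 (nat_lit 145) (nat_lit 163) (nat_lit 146) (nat_lit 3) (nat_lit 6) (nat_lit 8) (nat_lit 1) (nat_lit 10) (nat_lit 8) (by decide +kernel)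
theorem L27570 : W_1 (nat_lit 3) (nat_lit 0x40001a0018001c000a0000000000000000000000000000000) (nat_lit 0x0) (nat_lit 0xe0006000000000000000000000000000000000000) := T_1 (nat_lit 162) (nat_lit 161) (nat_lit 1) (nat_lit 9) (nat_lit 9) L27569 (by decide +kernel)
theorem L27571 : W_1 (nat_lit 4) (nat_lit 0x4000180018001c000a0000000000000000000000000000000) (nat_lit 0x0) (nat_lit 0x600e0006000000000000000000000000000000000000) := T_1 (nat_lit 173) (nat_lit 174) (nat_lit 2) (nat_lit 3) (nat_lit 10) L27570 (by decide +kernel)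
theorem L27572 : W_1 (nat_lit 5) (nat_lit 0x4000100018001c000a0000000000000000000000000000000) (nat_lit 0x0) (nat_lit 0x10000e00e0006000000000000000000000000000000000000) := T_1 (nat_lit 175) (nat_lit 192) (nat_lit 5) (nat_lit 6) (nat_lit 7) L27571 (by decide +kernel)
theorem L27573 : W_1 (nat_lit 6) (nat_lit 0x100018001c000a0000000000000000000000000000000) (nat_lit 0x0) (nat_lit 0x50002e00e0006000000000000000000000000000000000000) := T_1 (nat_lit 194) (nat_lit 177) (nat_lit 7) (nat_lit 6) (nat_lit 7) L27572 (by decide +kernel)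
theorem L27574 : W_1 (nat_lit 7) (nat_lit 0x18001c000a0000000000000000000000000000000) (nat_lit 0x0) (nat_lit 0xc00070003e00e0006000040000000000000000000000000000000) := Q_1 (nat_lit 176) (C_1 L27527 (C_1 L23043 (C_1 L27573 N_1))) (by decide +kernel)
theorem L27575 : W_1 (nat_lit 7) (nat_lit 0x18001c000a0000000000000000000000000000000) (nat_lit 0x0) (nat_lit 0x600070003e0066000000040002000000000000000000000000000) := Q_1 (nat_lit 176) (C_1 L27530 (C_1 L27563 (C_1 L27527 N_1))) (by decide +kernel)
theorem L27576 : W_1 (nat_lit 8) (nat_lit 0x10001c000a0000000000000000000000000000000) (nat_lit 0x0) (nat_lit 0xe00070003e00ee006000040002000000000000000000000000000) := Q_1 (nat_lit 159) (C_1 L27567 (C_1 L27574 (C_1 L27575 N_1))) (by decide +kernel)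
theorem L27577 : W_1 (nat_lit 9) (nat_lit 0x1c000a0000000000000000000000000000000) (nat_lit 0x0) (nat_lit 0xe00070003e00fe006000040003c001c0000000000000000000000) := Q_1 (nat_lit 160) (C_1 L27540 (C_1 L27525 (C_1 L27568 (C_1 L27576 N_1)))) (by decide +kernel)
theorem L27578 : W_1 (nat_lit 11) (nat_lit 0x1c00080000000000000000000000000000000) (nat_lit 0x0) (nat_lit 0xe000f0007e00fe00600007c003c001c0000000000000000000000) := Q_1 (nat_lit 125) (C_1 L27523 (C_1 L27566 (C_1 L23096 (C_1 L27577 N_1)))) (by decide +kernel)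
theorem L27579 : W_1 (nat_lit 5) (nat_lit 0x1c00080000000000000000000000000000000) (nat_lit 0x0) (nat_lit 0xff002300040000000000000000000000000000000) := Q_1 (nat_lit 141) (C_1 L27353 (C_1 L27362 (C_1 L27005 N_1))) (by decide +kernel)
theorem L27580 : W_1 (nat_lit 2) (nat_lit 0x20001e000d0000000000000000000000000000000) (nat_lit 0x0) (nat_lit 0x8000400000000000000002000000000000000000000000000) := D_1 (nat_lit 178) (nat_lit 109) (nat_lit 195) (nat_lit 4) (nat_lit 8) (nat_lit 10) (nat_lit 4) (nat_lit 8) (nat_lit 11) (by decide +kernel)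
theorem L27581 : W_1 (nat_lit 3) (nat_lit 0x1e000d0000000000000000000000000000000) (nat_lit 0x0) (nat_lit 0x8000400060000000000002000000000000000000000000000) := T_1 (nat_lit 161) (nat_lit 162) (nat_lit 3) (nat_lit 5) (nat_lit 8) L27580 (by decide +kernel)
theorem L27582 : W_1 (nat_lit 4) (nat_lit 0x1e000c0000000000000000000000000000000) (nat_lit 0x0) (nat_lit 0x8000400060000000018002000000000000000000000000000) := T_1 (nat_lit 124) (nat_lit 123) (nat_lit 0) (nat_lit 8) (nat_lit 8) L27581 (by decide +kernel)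
theorem L27583 : W_1 (nat_lit 5) (nat_lit 0x1c000c0000000000000000000000000000000) (nat_lit 0x0) (nat_lit 0x8000400060000300018002000000000000000000000000000) := T_1 (nat_lit 141) (nat_lit 140) (nat_lit 2) (nat_lit 4) (nat_lit 8) L27582 (by decide +kernel)
theorem L27584 : W_1 (nat_lit 2) (nat_lit 0x8000000020001e000f0000800000000000000000000000000) (nat_lit 0x0) (nat_lit 0x100008000000000000000040000000000000000000000) := D_1 (nat_lit 159) (nat_lit 176) (nat_lit 90) (nat_lit 4) (nat_lit 6) (nat_lit 10) (nat_lit 7) (nat_lit 5) (nat_lit 5) (by decide +kernel)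
theorem L27585 : W_1 (nat_lit 3) (nat_lit 0x8000000020001e000f0000000000000000000000000000000) (nat_lit 0x0) (nat_lit 0x100008000000000000c00040000000000000000000000) := T_1 (nat_lit 107) (nat_lit 106) (nat_lit 0) (nat_lit 8) (nat_lit 7) L27584 (by decide +kernel)
theorem L27586 : W_1 (nat_lit 4) (nat_lit 0x20001e000f0000000000000000000000000000000) (nat_lit 0x0) (nat_lit 0x8000500008000000000000c00040000000000000000000000) := T_1 (nat_lit 195) (nat_lit 178) (nat_lit 4) (nat_lit 8) (nat_lit 11) L27585 (by decide +kernel)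
theorem L27587 : W_1 (nat_lit 5) (nat_lit 0x20001e000d0000000000000000000000000000000) (nat_lit 0x0) (nat_lit 0x8000500008002000020000c00040000000000000000000000) := T_1 (nat_lit 125) (nat_lit 145) (nat_lit 3) (nat_lit 5) (nat_lit 7) L27586 (by decide +kernel)
theorem L27588 : W_1 (nat_lit 6) (nat_lit 0x1e000d0000000000000000000000000000000) (nat_lit 0x0) (nat_lit 0x8000500068002000020000c00040000000000000000000000) := T_1 (nat_lit 161) (nat_lit 162) (nat_lit 3) (nat_lit 5) (nat_lit 8) L27587 (by decide +kernel)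
theorem L27589 : W_1 (nat_lit 7) (nat_lit 0x1e000c0000000000000000000000000000000) (nat_lit 0x0) (nat_lit 0x8000500068002000038000c00040000000000000000000000) := T_1 (nat_lit 124) (nat_lit 123) (nat_lit 0) (nat_lit 8) (nat_lit 8) L27588 (by decide +kernel)
theorem L27590 : W_1 (nat_lit 8) (nat_lit 0x1c000c0000000000000000000000000000000) (nat_lit 0x0) (nat_lit 0x8000500068002300038000c00040000000000000000000000) := T_1 (nat_lit 141) (nat_lit 140) (nat_lit 2) (nat_lit 4) (nat_lit 8) L27589 (by decide +kernel)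
theorem L27591 : W_1 (nat_lit 2) (nat_lit 0x20001e000c0000000000000000000000000000000) (nat_lit 0x0) (nat_lit 0x8000400000000000000002000000000000000000000000000) := D_1 (nat_lit 178) (nat_lit 109) (nat_lit 195) (nat_lit 4) (nat_lit 8) (nat_lit 10) (nat_lit 4) (nat_lit 8) (nat_lit 11) (by decide +kernel)
theorem L27592 : W_1 (nat_lit 3) (nat_lit 0x1e000c0000000000000000000000000000000) (nat_lit 0x0) (nat_lit 0x8000400060000000000002000000000000000000000000000) := T_1 (nat_lit 161) (nat_lit 162) (nat_lit 3) (nat_lit 5) (nat_lit 8) L27591 (by decide +kernel)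
theorem L27593 : W_1 (nat_lit 4) (nat_lit 0x1c000c0000000000000000000000000000000) (nat_lit 0x0) (nat_lit 0x8000400060000300000002000000000000000000000000000) := T_1 (nat_lit 141) (nat_lit 140) (nat_lit 2) (nat_lit 4) (nat_lit 8) L27592 (by decide +kernel)
theorem L27594 : W_1 (nat_lit 9) (nat_lit 0x1c00080000000000000000000000000000000) (nat_lit 0x0) (nat_lit 0x800050006c006300078003c00140002000000000000000000) := Q_1 (nat_lit 126) (C_1 L27583 (C_1 L27341 (C_1 L27590 (C_1 L27593 N_1)))) (by decide +kernel)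
theorem L27595 : W_1 (nat_lit 12) (nat_lit 0x1400080000000000000000000000000000000) (nat_lit 0x0) (nat_lit 0xe001f800fe00ff806bc007e003c001e000e000000000000000000) := Q_1 (nat_lit 143) (C_1 L27363 (C_1 L27255 (C_1 L27306 (C_1 L27373 (C_1 L27374 (C_1 L27375 (C_1 L27520 (C_1 L27521 (C_1 L27578 (C_1 L27579 (C_1 L27594 N_1))))))))))) (by decide +kernel)
theorem L27596 : W_1 (nat_lit 8) (nat_lit 0x3c000a0000000000000000000000000000000) (nat_lit 0x0) (nat_lit 0x18000c000e0000000300018000c00060000000000000000000) := T_1 (nat_lit 128) (nat_lit 129) (nat_lit 2) (nat_lit 6) (nat_lit 8) L27281 (by decide +kernel)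
theorem L27597 : W_1 (nat_lit 9) (nat_lit 0x3c00080000000000000000000000000000000) (nat_lit 0x0) (nat_lit 0x18000c000e0000000330018000c00060000000000000000000) := T_1 (nat_lit 125) (nat_lit 124) (nat_lit 0) (nat_lit 9) (nat_lit 8) L27596 (by decide +kernel)
theorem L27598 : W_1 (nat_lit 2) (nat_lit 0x8003c001a0000000000000000000000000000000) (nat_lit 0x0) (nat_lit 0x10004000040000000000000000000000000000000) := D_1 (nat_lit 146) (nat_lit 126) (nat_lit 160) (nat_lit 3) (nat_lit 6) (nat_lit 7) (nat_lit 1) (nat_lit 10) (nat_lit 8) (by decide +kernel)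
theorem L27599 : W_1 (nat_lit 3) (nat_lit 0x3c001a0000000000000000000000000000000) (nat_lit 0x0) (nat_lit 0x1c004000040000000000000000000000000000000) := T_1 (nat_lit 159) (nat_lit 158) (nat_lit 1) (nat_lit 9) (nat_lit 8) L27598 (by decide +kernel)
theorem L27600 : W_1 (nat_lit 4) (nat_lit 0x3c00180000000000000000000000000000000) (nat_lit 0x0) (nat_lit 0x1c004000070000000000000000000000000000000) := T_1 (nat_lit 125) (nat_lit 124) (nat_lit 0) (nat_lit 9) (nat_lit 8) L27599 (by decide +kernel)
theorem L27601 : W_1 (nat_lit 5) (nat_lit 0x3c00080000000000000000000000000000000) (nat_lit 0x0) (nat_lit 0x1c004000370000000000000000000000000000000) := T_1 (nat_lit 128) (nat_lit 129) (nat_lit 2) (nat_lit 6) (nat_lit 8) L27600 (by decide +kernel)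
theorem L27602 : W_1 (nat_lit 2) (nat_lit 0x48007c00080000000000000000000000000000000) (nat_lit 0x0) (nat_lit 0x70000000000000000000000000000000) := D_1 (nat_lit 125) (nat_lit 126) (nat_lit 124) (nat_lit 0) (nat_lit 10) (nat_lit 8) (nat_lit 0) (nat_lit 9) (nat_lit 8) (by decide +kernel)
theorem L27603 : W_1 (nat_lit 3) (nat_lit 0x48003c00080000000000000000000000000000000) (nat_lit 0x0) (nat_lit 0x10004000070000000000000000000000000000000) := T_1 (nat_lit 146) (nat_lit 160) (nat_lit 1) (nat_lit 10) (nat_lit 8) L27602 (by decide +kernel)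
theorem L27604 : W_1 (nat_lit 4) (nat_lit 0x8003c00080000000000000000000000000000000) (nat_lit 0x0) (nat_lit 0xd0004000070000000000000000000000000000000) := T_1 (nat_lit 162) (nat_lit 163) (nat_lit 3) (nat_lit 6) (nat_lit 8) L27603 (by decide +kernel)
theorem L27605 : W_1 (nat_lit 5) (nat_lit 0x3c00080000000000000000000000000000000) (nat_lit 0x0) (nat_lit 0xdc004000070000000000000000000000000000000) := T_1 (nat_lit 159) (nat_lit 158) (nat_lit 1) (nat_lit 9) (nat_lit 8) L27604 (by decide +kernel)
theorem L27606 : W_1 (nat_lit 2) (nat_lit 0xc00048007c00180008000400000000000000000000000) (nat_lit 0x0) (nat_lit 0x10000800040000000000000000000) := D_1 (nat_lit 95) (nat_lit 112) (nat_lit 78) (nat_lit 6) (nat_lit 9) (nat_lit 9) (nat_lit 6) (nat_lit 9) (nat_lit 8) (by decide +kernel)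
theorem L27607 : W_1 (nat_lit 3) (nat_lit 0xc00048007c00180008000000000000000000000000000) (nat_lit 0x0) (nat_lit 0x10000c00060000000000000000000) := T_1 (nat_lit 94) (nat_lit 77) (nat_lit 5) (nat_lit 9) (nat_lit 4) L27606 (by decide +kernel)
theorem L27608 : W_1 (nat_lit 4) (nat_lit 0xc00048007c00180000000000000000000000000000000) (nat_lit 0x0) (nat_lit 0x20000000000018000c00060000000000000000000) := T_1 (nat_lit 111) (nat_lit 161) (nat_lit 6) (nat_lit 8) (nat_lit 10) L27607 (by decide +kernel)
theorem L27609 : W_1 (nat_lit 5) (nat_lit 0x800048007c00180000000000000000000000000000000) (nat_lit 0x0) (nat_lit 0x8000400020000000000018000c00060000000000000000000) := T_1 (nat_lit 178) (nat_lit 195) (nat_lit 5) (nat_lit 9) (nat_lit 7) L27608 (by decide +kernel)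
theorem L27610 : W_1 (nat_lit 6) (nat_lit 0x800048007c00080000000000000000000000000000000) (nat_lit 0x0) (nat_lit 0x8000400020000000300018000c00060000000000000000000) := T_1 (nat_lit 128) (nat_lit 129) (nat_lit 2) (nat_lit 6) (nat_lit 8) L27609 (by decide +kernel)
theorem L27611 : W_1 (nat_lit 7) (nat_lit 0x48007c00080000000000000000000000000000000) (nat_lit 0x0) (nat_lit 0x18000c00020000000300018000c00060000000000000000000) := T_1 (nat_lit 179) (nat_lit 196) (nat_lit 4) (nat_lit 9) (nat_lit 11) L27610 (by decide +kernel)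
theorem L27612 : W_1 (nat_lit 8) (nat_lit 0x48003c00080000000000000000000000000000000) (nat_lit 0x0) (nat_lit 0x18000c00030004000300018000c00060000000000000000000) := T_1 (nat_lit 146) (nat_lit 160) (nat_lit 1) (nat_lit 10) (nat_lit 8) L27611 (by decide +kernel)
theorem L27613 : W_1 (nat_lit 9) (nat_lit 0x8003c00080000000000000000000000000000000) (nat_lit 0x0) (nat_lit 0x18000c000f0004000300018000c00060000000000000000000) := T_1 (nat_lit 162) (nat_lit 163) (nat_lit 3) (nat_lit 6) (nat_lit 8) L27612 (by decide +kernel)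
theorem L27614 : W_1 (nat_lit 10) (nat_lit 0x3c00080000000000000000000000000000000) (nat_lit 0x0) (nat_lit 0x18000c000fc004000300018000c00060000000000000000000) := T_1 (nat_lit 159) (nat_lit 158) (nat_lit 1) (nat_lit 9) (nat_lit 8) L27613 (by decide +kernel)
theorem L27615 : W_1 (nat_lit 11) (nat_lit 0x1c00080000000000000000000000000000000) (nat_lit 0x0) (nat_lit 0x18000c000fc006000370018000c00060000000000000000000) := Q_1 (nat_lit 145) (C_1 L27597 (C_1 L27601 (C_1 L27605 (C_1 L27614 N_1)))) (by decide +kernel)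
theorem L27616 : W_1 (nat_lit 12) (nat_lit 0x1400080000000000000000000000000000000) (nat_lit 0x0) (nat_lit 0x18000d000ff806bc037c01bc00d40062000000000000000000) := Q_1 (nat_lit 143) (C_1 L27579 (C_1 L27594 (C_1 L27373 (C_1 L27521 (C_1 L27375 (C_1 L27307 (C_1 L27615 N_1))))))) (by decide +kernel)
theorem L27617 : W_1 (nat_lit 12) (nat_lit 0x1400080000000000000000000000000000000) (nat_lit 0x0) (nat_lit 0x18000c000ff806bc037c018000c00060000000000000000000) := Q_1 (nat_lit 143) (C_1 L27579 (C_1 L27615 (C_1 L27373 (C_1 L27521 (C_1 L27375 (C_1 L27307 N_1)))))) (by decide +kernel)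
theorem L27618 : W_1 (nat_lit 4) (nat_lit 0x1c00080000000000000000000000000000000) (nat_lit 0x0) (nat_lit 0x70000300140000000000000000000000000000000) := T_1 (nat_lit 141) (nat_lit 128) (nat_lit 2) (nat_lit 5) (nat_lit 8) L27353 (by decide +kernel)
theorem L27619 : W_1 (nat_lit 5) (nat_lit 0x1c00080000000000000000000000000000000) (nat_lit 0x0) (nat_lit 0xe0002200138000000000000000000000000000000) := T_1 (nat_lit 141) (nat_lit 128) (nat_lit 2) (nat_lit 5) (nat_lit 8) L27372 (by decide +kernel)
theorem L27620 : W_1 (nat_lit 11) (nat_lit 0x1400080000000000000000000000000000000) (nat_lit 0x0) (nat_lit 0x1c000e000f3806bc037c01bc00f8007c000000000000000000) := Q_1 (nat_lit 143) (C_1 L27618 (C_1 L27307 (C_1 L27373 (C_1 L27619 (C_1 L27293 N_1))))) (by decide +kernel)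
theorem L27621 : W_1 (nat_lit 4) (nat_lit 0x3c001a0000000000000000000000000000000) (nat_lit 0x0) (nat_lit 0x10000c004000040002000100000000000000000000000) := T_1 (nat_lit 126) (nat_lit 146) (nat_lit 3) (nat_lit 6) (nat_lit 7) L22460 (by decide +kernel)
theorem L27622 : W_1 (nat_lit 5) (nat_lit 0x3c000a0000000000000000000000000000000) (nat_lit 0x0) (nat_lit 0x10000c004000340002000100000000000000000000000) := T_1 (nat_lit 128) (nat_lit 129) (nat_lit 2) (nat_lit 6) (nat_lit 8) L27621 (by decide +kernel)
theorem L27623 : W_1 (nat_lit 6) (nat_lit 0x3c00080000000000000000000000000000000) (nat_lit 0x0) (nat_lit 0x10000c004000370002000100000000000000000000000) := T_1 (nat_lit 125) (nat_lit 124) (nat_lit 0) (nat_lit 9) (nat_lit 8) L27622 (by decide +kernel)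
theorem L27624 : W_1 (nat_lit 2) (nat_lit 0x10000000048003c000e0000000000000000000000000000000) (nat_lit 0x0) (nat_lit 0x100000000000000002000100000000000000000000000) := D_1 (nat_lit 109) (nat_lit 92) (nat_lit 176) (nat_lit 5) (nat_lit 7) (nat_lit 5) (nat_lit 6) (nat_lit 6) (nat_lit 10) (by decide +kernel)
theorem L27625 : W_1 (nat_lit 3) (nat_lit 0x10000000040003c000e0000000000000000000000000000000) (nat_lit 0x0) (nat_lit 0x10000c000000000002000100000000000000000000000) := T_1 (nat_lit 159) (nat_lit 158) (nat_lit 1) (nat_lit 9) (nat_lit 8) L27624 (by decide +kernel)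
theorem L27626 : W_1 (nat_lit 4) (nat_lit 0x40003c000e0000000000000000000000000000000) (nat_lit 0x0) (nat_lit 0x1000090000c000000000002000100000000000000000000000) := T_1 (nat_lit 196) (nat_lit 179) (nat_lit 4) (nat_lit 9) (nat_lit 11) L27625 (by decide +kernel)
theorem L27627 : W_1 (nat_lit 5) (nat_lit 0x40003c000a0000000000000000000000000000000) (nat_lit 0x0) (nat_lit 0x1000090000c004000040002000100000000000000000000000) := T_1 (nat_lit 126) (nat_lit 146) (nat_lit 0) (nat_lit 10) (nat_lit 8) L27626 (by decide +kernel)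
theorem L27628 : W_1 (nat_lit 6) (nat_lit 0x3c000a0000000000000000000000000000000) (nat_lit 0x0) (nat_lit 0x100009000cc004000040002000100000000000000000000000) := T_1 (nat_lit 162) (nat_lit 163) (nat_lit 3) (nat_lit 6) (nat_lit 8) L27627 (by decide +kernel)
theorem L27629 : W_1 (nat_lit 7) (nat_lit 0x3c00080000000000000000000000000000000) (nat_lit 0x0) (nat_lit 0x100009000cc004000070002000100000000000000000000000) := T_1 (nat_lit 125) (nat_lit 124) (nat_lit 0) (nat_lit 9) (nat_lit 8) L27628 (by decide +kernel)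
theorem L27630 : W_1 (nat_lit 2) (nat_lit 0xc00048003c00180008000400000000000000000000000) (nat_lit 0x0) (nat_lit 0x10000800040000000000000000000) := D_1 (nat_lit 95) (nat_lit 112) (nat_lit 78) (nat_lit 6) (nat_lit 9) (nat_lit 9) (nat_lit 6) (nat_lit 9) (nat_lit 8) (by decide +kernel)
theorem L27631 : W_1 (nat_lit 3) (nat_lit 0xc00048003c00180008000000000000000000000000000) (nat_lit 0x0) (nat_lit 0x10000c00060000000000000000000) := T_1 (nat_lit 94) (nat_lit 77) (nat_lit 5) (nat_lit 9) (nat_lit 4) L27630 (by decide +kernel)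
theorem L27632 : W_1 (nat_lit 4) (nat_lit 0xc00048003c00180000000000000000000000000000000) (nat_lit 0x0) (nat_lit 0x20000000000018000c00060000000000000000000) := T_1 (nat_lit 111) (nat_lit 161) (nat_lit 6) (nat_lit 8) (nat_lit 10) L27631 (by decide +kernel)
theorem L27633 : W_1 (nat_lit 5) (nat_lit 0x800048003c00180000000000000000000000000000000) (nat_lit 0x0) (nat_lit 0x8000400020000000000018000c00060000000000000000000) := T_1 (nat_lit 178) (nat_lit 195) (nat_lit 5) (nat_lit 9) (nat_lit 7) L27632 (by decide +kernel)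
theorem L27634 : W_1 (nat_lit 6) (nat_lit 0x48003c00180000000000000000000000000000000) (nat_lit 0x0) (nat_lit 0x18000c00020000000000018000c00060000000000000000000) := T_1 (nat_lit 179) (nat_lit 196) (nat_lit 4) (nat_lit 9) (nat_lit 11) L27633 (by decide +kernel)
theorem L27635 : W_1 (nat_lit 7) (nat_lit 0x8003c00180000000000000000000000000000000) (nat_lit 0x0) (nat_lit 0x18000c000e0000000000018000c00060000000000000000000) := T_1 (nat_lit 162) (nat_lit 163) (nat_lit 3) (nat_lit 6) (nat_lit 8) L27634 (by decide +kernel)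
theorem L27636 : W_1 (nat_lit 8) (nat_lit 0x8003c00080000000000000000000000000000000) (nat_lit 0x0) (nat_lit 0x18000c000e0000000300018000c00060000000000000000000) := T_1 (nat_lit 128) (nat_lit 129) (nat_lit 2) (nat_lit 6) (nat_lit 8) L27635 (by decide +kernel)
theorem L27637 : W_1 (nat_lit 9) (nat_lit 0x3c00080000000000000000000000000000000) (nat_lit 0x0) (nat_lit 0x18000c000ec000000300018000c00060000000000000000000) := T_1 (nat_lit 159) (nat_lit 158) (nat_lit 1) (nat_lit 9) (nat_lit 8) L27636 (by decide +kernel)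
theorem L27638 : W_1 (nat_lit 10) (nat_lit 0x1c00080000000000000000000000000000000) (nat_lit 0x0) (nat_lit 0x18000d000ec00600037001a000d00060000000000000000000) := Q_1 (nat_lit 145) (C_1 L27597 (C_1 L27623 (C_1 L27629 (C_1 L27637 N_1)))) (by decide +kernel)
theorem L27639 : W_1 (nat_lit 11) (nat_lit 0x1400080000000000000000000000000000000) (nat_lit 0x0) (nat_lit 0x18000d000ef006b0037801bc00d40062000000000000000000) := Q_1 (nat_lit 143) (C_1 L27006 (C_1 L27619 (C_1 L27594 (C_1 L27638 N_1)))) (by decide +kernel)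
theorem L27640 : W_1 (nat_lit 5) (nat_lit 0x1c00080000000000000000000000000000000) (nat_lit 0x0) (nat_lit 0xee002200100000000000000000000000000000000) := T_1 (nat_lit 141) (nat_lit 128) (nat_lit 2) (nat_lit 5) (nat_lit 8) L27362 (by decide +kernel)
theorem L27641 : W_1 (nat_lit 6) (nat_lit 0x1c00080000000000000000000000000000000) (nat_lit 0x0) (nat_lit 0x77000300118000000000000000000000000000000) := T_1 (nat_lit 141) (nat_lit 128) (nat_lit 2) (nat_lit 5) (nat_lit 8) L27249 (by decide +kernel)
theorem L27642 : W_1 (nat_lit 5) (nat_lit 0x3c00080000000000000000000000000000000) (nat_lit 0x0) (nat_lit 0x400020001c004000030001000000000000000000000000000) := T_1 (nat_lit 125) (nat_lit 124) (nat_lit 0) (nat_lit 9) (nat_lit 8) L23091 (by decide +kernel)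
theorem L27643 : W_1 (nat_lit 10) (nat_lit 0x1c00080000000000000000000000000000000) (nat_lit 0x0) (nat_lit 0x1c000e000fc006000330019000c00060000000000000000000) := Q_1 (nat_lit 145) (C_1 L27597 (C_1 L27637 (C_1 L27642 N_1))) (by decide +kernel)
theorem L27644 : W_1 (nat_lit 11) (nat_lit 0x1400080000000000000000000000000000000) (nat_lit 0x0) (nat_lit 0x1c000e000ff006b00338019000c00060000000000000000000) := Q_1 (nat_lit 143) (C_1 L27640 (C_1 L27619 (C_1 L27308 (C_1 L27375 (C_1 L27641 (C_1 L27643 N_1)))))) (by decide +kernel)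
theorem L27645 : W_1 (nat_lit 5) (nat_lit 0x1000080014000a0000000000000000000000000000000) (nat_lit 0x0) (nat_lit 0x5000280014000000010001800000000000000000000000000) := T_1 (nat_lit 124) (nat_lit 107) (nat_lit 4) (nat_lit 6) (nat_lit 10) L22745 (by decide +kernel)
theorem L27646 : W_1 (nat_lit 2) (nat_lit 0x1800080016000b0001000100000000000000000000000) (nat_lit 0x0) (nat_lit 0x8000c000000000000000000) := D_1 (nat_lit 91) (nat_lit 74) (nat_lit 75) (nat_lit 5) (nat_lit 6) (nat_lit 4) (nat_lit 6) (nat_lit 6) (nat_lit 8) (by decide +kernel)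
theorem L27647 : W_1 (nat_lit 3) (nat_lit 0x1800080016000b0001000000000000000000000000000) (nat_lit 0x0) (nat_lit 0x200018000c000000000000000000) := T_1 (nat_lit 92) (nat_lit 109) (nat_lit 6) (nat_lit 6) (nat_lit 9) L27646 (by decide +kernel)
theorem L27648 : W_1 (nat_lit 4) (nat_lit 0x1800080014000b0001000000000000000000000000000) (nat_lit 0x0) (nat_lit 0x200000000000020000000200018000c000000000000000000) := T_1 (nat_lit 141) (nat_lit 193) (nat_lit 4) (nat_lit 6) (nat_lit 11) L27647 (by decide +kernel)
theorem L27649 : W_1 (nat_lit 5) (nat_lit 0x1800080014000b0000000000000000000000000000000) (nat_lit 0x0) (nat_lit 0x200000000400020000000300018000c000000000000000000) := T_1 (nat_lit 108) (nat_lit 158) (nat_lit 5) (nat_lit 6) (nat_lit 6) L27648 (by decide +kernel)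
theorem L27650 : W_1 (nat_lit 6) (nat_lit 0x1000080014000b0000000000000000000000000000000) (nat_lit 0x0) (nat_lit 0x300008000400020000000300018000c000000000000000000) := T_1 (nat_lit 175) (nat_lit 192) (nat_lit 5) (nat_lit 6) (nat_lit 7) L27649 (by decide +kernel)
theorem L27651 : W_1 (nat_lit 7) (nat_lit 0x1000080014000a0000000000000000000000000000000) (nat_lit 0x0) (nat_lit 0x300008000400020001000380018000c000000000000000000) := T_1 (nat_lit 124) (nat_lit 107) (nat_lit 4) (nat_lit 6) (nat_lit 10) L27650 (by decide +kernel)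
theorem L27652 : W_1 (nat_lit 2) (nat_lit 0x20003000080014000b4003000000000000000000000000000) (nat_lit 0x0) (nat_lit 0x20001000080000000000000000000000000000000000000000000) := D_1 (nat_lit 192) (nat_lit 175) (nat_lit 209) (nat_lit 5) (nat_lit 6) (nat_lit 7) (nat_lit 5) (nat_lit 6) (nat_lit 8) (by decide +kernel)
theorem L27653 : W_1 (nat_lit 3) (nat_lit 0x3000080014000b4003000000000000000000000000000) (nat_lit 0x0) (nat_lit 0x20003000080000000200000000000000000000000000000000000) := T_1 (nat_lit 193) (nat_lit 141) (nat_lit 4) (nat_lit 6) (nat_lit 11) L27652 (by decide +kernel)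
theorem L27654 : W_1 (nat_lit 4) (nat_lit 0x3000080014000b0003000000000000000000000000000) (nat_lit 0x0) (nat_lit 0x2000300008000000020000c000000000000000000000000000000) := T_1 (nat_lit 122) (nat_lit 123) (nat_lit 2) (nat_lit 3) (nat_lit 7) L27653 (by decide +kernel)
theorem L27655 : W_1 (nat_lit 5) (nat_lit 0x3000080014000b0001000000000000000000000000000) (nat_lit 0x0) (nat_lit 0x2000300008000000020000c002000100000000000000000000000) := T_1 (nat_lit 109) (nat_lit 92) (nat_lit 6) (nat_lit 6) (nat_lit 9) L27654 (by decide +kernel)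
theorem L27656 : W_1 (nat_lit 6) (nat_lit 0x3000080014000b0000000000000000000000000000000) (nat_lit 0x0) (nat_lit 0x2000300008001000020000c003000100000000000000000000000) := T_1 (nat_lit 108) (nat_lit 160) (nat_lit 7) (nat_lit 6) (nat_lit 6) L27655 (by decide +kernel)
theorem L27657 : W_1 (nat_lit 7) (nat_lit 0x1000080014000b0000000000000000000000000000000) (nat_lit 0x0) (nat_lit 0x2000700028001000020000c003000100000000000000000000000) := T_1 (nat_lit 177) (nat_lit 194) (nat_lit 7) (nat_lit 6) (nat_lit 7) L27656 (by decide +kernel)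
theorem L27658 : W_1 (nat_lit 8) (nat_lit 0x1000080014000a0000000000000000000000000000000) (nat_lit 0x0) (nat_lit 0x2000700028001000020001c003800100000000000000000000000) := T_1 (nat_lit 124) (nat_lit 107) (nat_lit 4) (nat_lit 6) (nat_lit 10) L27657 (by decide +kernel)
theorem L27659 : W_1 (nat_lit 2) (nat_lit 0x40001800080014000b0000000000000000000000000000000) (nat_lit 0x0) (nat_lit 0x80002000000000000200000000000000000000000000000000000) := D_1 (nat_lit 193) (nat_lit 211) (nat_lit 141) (nat_lit 7) (nat_lit 6) (nat_lit 8) (nat_lit 4) (nat_lit 6) (nat_lit 11) (by decide +kernel)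
theorem L27660 : W_1 (nat_lit 3) (nat_lit 0x40001800080014000a0000000000000000000000000000000) (nat_lit 0x0) (nat_lit 0x80002000000000000200010000800000000000000000000000000) := T_1 (nat_lit 124) (nat_lit 107) (nat_lit 4) (nat_lit 6) (nat_lit 10) L27659 (by decide +kernel)
theorem L27661 : W_1 (nat_lit 4) (nat_lit 0x1800080014000a0000000000000000000000000000000) (nat_lit 0x0) (nat_lit 0x80006000200000000200010000800000000000000000000000000) := T_1 (nat_lit 194) (nat_lit 177) (nat_lit 7) (nat_lit 6) (nat_lit 7) L27660 (by decide +kernel)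
theorem L27662 : W_1 (nat_lit 5) (nat_lit 0x1000080014000a0000000000000000000000000000000) (nat_lit 0x0) (nat_lit 0x80007000280000000200010000800000000000000000000000000) := T_1 (nat_lit 175) (nat_lit 192) (nat_lit 5) (nat_lit 6) (nat_lit 7) L27661 (by decide +kernel)
theorem L27663 : W_1 (nat_lit 2) (nat_lit 0x3000080014000a0001000000000000000000000000000) (nat_lit 0x0) (nat_lit 0x1000080004000000000000000000000000000000000000000) := D_1 (nat_lit 175) (nat_lit 192) (nat_lit 158) (nat_lit 5) (nat_lit 6) (nat_lit 7) (nat_lit 5) (nat_lit 6) (nat_lit 6) (by decide +kernel)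
theorem L27664 : W_1 (nat_lit 3) (nat_lit 0x3000080014000a0000000000000000000000000000000) (nat_lit 0x0) (nat_lit 0x1000080014000000000001000000000000000000000000000) := T_1 (nat_lit 108) (nat_lit 160) (nat_lit 7) (nat_lit 6) (nat_lit 6) L27663 (by decide +kernel)
theorem L27665 : W_1 (nat_lit 4) (nat_lit 0x1000080014000a0000000000000000000000000000000) (nat_lit 0x0) (nat_lit 0x5000280014000000000001000000000000000000000000000) := T_1 (nat_lit 177) (nat_lit 194) (nat_lit 7) (nat_lit 6) (nat_lit 7) L27664 (by decide +kernel)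
theorem L27666 : W_1 (nat_lit 2) (nat_lit 0x3000080016000b4003000000000000000000000000000) (nat_lit 0x0) (nat_lit 0x4000000000000000080004000000000000000000) := D_1 (nat_lit 91) (nat_lit 74) (nat_lit 158) (nat_lit 5) (nat_lit 6) (nat_lit 4) (nat_lit 5) (nat_lit 6) (nat_lit 5) (by decide +kernel)
theorem L27667 : W_1 (nat_lit 3) (nat_lit 0x3000080014000b4003000000000000000000000000000) (nat_lit 0x0) (nat_lit 0x2000000004000200000000000080004000000000000000000) := T_1 (nat_lit 141) (nat_lit 193) (nat_lit 4) (nat_lit 6) (nat_lit 11) L27666 (by decide +kernel)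
theorem L27668 : W_1 (nat_lit 4) (nat_lit 0x3000080014000b0003000000000000000000000000000) (nat_lit 0x0) (nat_lit 0x200000000400020000c000000080004000000000000000000) := T_1 (nat_lit 122) (nat_lit 123) (nat_lit 2) (nat_lit 3) (nat_lit 7) L27667 (by decide +kernel)
theorem L27669 : W_1 (nat_lit 5) (nat_lit 0x3000080014000b0001000000000000000000000000000) (nat_lit 0x0) (nat_lit 0x200000000400020000c002000180004000000000000000000) := T_1 (nat_lit 109) (nat_lit 92) (nat_lit 6) (nat_lit 6) (nat_lit 9) L27668 (by decide +kernel)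
theorem L27670 : W_1 (nat_lit 6) (nat_lit 0x3000080014000b0000000000000000000000000000000) (nat_lit 0x0) (nat_lit 0x200000001400020000c003000180004000000000000000000) := T_1 (nat_lit 108) (nat_lit 160) (nat_lit 7) (nat_lit 6) (nat_lit 6) L27669 (by decide +kernel)
theorem L27671 : W_1 (nat_lit 7) (nat_lit 0x1000080014000b0000000000000000000000000000000) (nat_lit 0x0) (nat_lit 0x600020001400020000c003000180004000000000000000000) := T_1 (nat_lit 177) (nat_lit 194) (nat_lit 7) (nat_lit 6) (nat_lit 7) L27670 (by decide +kernel)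
theorem L27672 : W_1 (nat_lit 8) (nat_lit 0x1000080014000a0000000000000000000000000000000) (nat_lit 0x0) (nat_lit 0x600020001400020001c003800180004000000000000000000) := T_1 (nat_lit 124) (nat_lit 107) (nat_lit 4) (nat_lit 6) (nat_lit 10) L27671 (by decide +kernel)
theorem L27673 : W_1 (nat_lit 9) (nat_lit 0x80014000a0000000000000000000000000000000) (nat_lit 0x0) (nat_lit 0xa000700038001400020001c00380018000c000000000000000000) := Q_1 (nat_lit 176) (C_1 L27645 (C_1 L27651 (C_1 L27658 (C_1 L27662 (C_1 L27665 (C_1 L27672 N_1)))))) (by decide +kernel)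
theorem L27674 : W_1 (nat_lit 2) (nat_lit 0x80014000b0001a00580000000000000000000000) (nat_lit 0x0) (nat_lit 0x200000000000000004000200000000000000) := D_1 (nat_lit 74) (nat_lit 57) (nat_lit 141) (nat_lit 5) (nat_lit 6) (nat_lit 3) (nat_lit 5) (nat_lit 6) (nat_lit 4) (by decide +kernel)
theorem L27675 : W_1 (nat_lit 3) (nat_lit 0x80014000a0001a00580000000000000000000000) (nat_lit 0x0) (nat_lit 0x100000000200010000000000004000200000000000000) := T_1 (nat_lit 124) (nat_lit 176) (nat_lit 4) (nat_lit 6) (nat_lit 10) L27674 (by decide +kernel)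
theorem L27676 : W_1 (nat_lit 4) (nat_lit 0x80014000a0001a00180000000000000000000000) (nat_lit 0x0) (nat_lit 0x100000000200010000000600004000200000000000000) := T_1 (nat_lit 94) (nat_lit 93) (nat_lit 1) (nat_lit 9) (nat_lit 5) L27675 (by decide +kernel)
theorem L27677 : W_1 (nat_lit 5) (nat_lit 0x80014000a0001800180000000000000000000000) (nat_lit 0x0) (nat_lit 0x100000000200010000600600004000200000000000000) := T_1 (nat_lit 105) (nat_lit 106) (nat_lit 2) (nat_lit 3) (nat_lit 6) L27676 (by decide +kernel)
theorem L27678 : W_1 (nat_lit 6) (nat_lit 0x80014000a0001800100000000000000000000000) (nat_lit 0x0) (nat_lit 0x10000000020001000060068000c000200000000000000) := T_1 (nat_lit 91) (nat_lit 75) (nat_lit 6) (nat_lit 6) (nat_lit 8) L27677 (by decide +kernel)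
theorem L27679 : W_1 (nat_lit 7) (nat_lit 0x80014000a0001800000000000000000000000000) (nat_lit 0x0) (nat_lit 0x10000000020001000260078000c000200000000000000) := T_1 (nat_lit 92) (nat_lit 109) (nat_lit 6) (nat_lit 6) (nat_lit 9) L27678 (by decide +kernel)
theorem L27680 : W_1 (nat_lit 8) (nat_lit 0x80014000a0001000000000000000000000000000) (nat_lit 0x0) (nat_lit 0x100000000200010002e007c000c000200000000000000) := T_1 (nat_lit 107) (nat_lit 90) (nat_lit 4) (nat_lit 6) (nat_lit 9) L27679 (by decide +kernel)
theorem L27681 : W_1 (nat_lit 9) (nat_lit 0x80014000a0000000000000000000000000000000) (nat_lit 0x0) (nat_lit 0x1000180004000200010003e007c000e000200000000000000) := Q_1 (nat_lit 108) (C_1 L23289 (C_1 L23324 (C_1 L27680 (C_1 L23278 N_1)))) (by decide +kernel)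
theorem L27682 : W_1 (nat_lit 2) (nat_lit 0x4000200018000c0014000b0000000000000000000000000000000) (nat_lit 0x0) (nat_lit 0x1000080004000000000000000000000000000000000000000000000000) := D_1 (nat_lit 211) (nat_lit 194) (nat_lit 228) (nat_lit 7) (nat_lit 6) (nat_lit 8) (nat_lit 7) (nat_lit 6) (nat_lit 9) (by decide +kernel)
theorem L27683 : W_1 (nat_lit 3) (nat_lit 0x200018000c0014000b0000000000000000000000000000000) (nat_lit 0x0) (nat_lit 0x18000c0004000000000000000000000000000000000000000000000000) := T_1 (nat_lit 210) (nat_lit 227) (nat_lit 4) (nat_lit 6) (nat_lit 13) L27682 (by decide +kernel)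
theorem L27684 : W_1 (nat_lit 4) (nat_lit 0x18000c0014000b0000000000000000000000000000000) (nat_lit 0x0) (nat_lit 0x18000c0006000000000000200000000000000000000000000000000000) := T_1 (nat_lit 193) (nat_lit 141) (nat_lit 7) (nat_lit 5) (nat_lit 7) L27683 (by decide +kernel)
theorem L27685 : W_1 (nat_lit 5) (nat_lit 0x1800080014000b0000000000000000000000000000000) (nat_lit 0x0) (nat_lit 0x18000c0006000000004000200000001000000000000000000000000000) := T_1 (nat_lit 158) (nat_lit 108) (nat_lit 5) (nat_lit 6) (nat_lit 6) L27684 (by decide +kernel)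
theorem L27686 : W_1 (nat_lit 6) (nat_lit 0x1000080014000b0000000000000000000000000000000) (nat_lit 0x0) (nat_lit 0x18000c0007000080004000200000001000000000000000000000000000) := T_1 (nat_lit 175) (nat_lit 192) (nat_lit 5) (nat_lit 6) (nat_lit 7) L27685 (by decide +kernel)
theorem L27687 : W_1 (nat_lit 7) (nat_lit 0x1000080014000a0000000000000000000000000000000) (nat_lit 0x0) (nat_lit 0x18000c0007000080004000200010001800000000000000000000000000) := T_1 (nat_lit 124) (nat_lit 107) (nat_lit 4) (nat_lit 6) (nat_lit 10) L27686 (by decide +kernel)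
theorem L27688 : W_1 (nat_lit 2) (nat_lit 0x1c000c0016000ba000000000000000000000000000000) (nat_lit 0x0) (nat_lit 0x30010000000000000000000000000000000000000000) := D_1 (nat_lit 173) (nat_lit 160) (nat_lit 172) (nat_lit 2) (nat_lit 3) (nat_lit 10) (nat_lit 2) (nat_lit 2) (nat_lit 10) (by decide +kernel)
theorem L27689 : W_1 (nat_lit 3) (nat_lit 0x18000c0016000ba000000000000000000000000000000) (nat_lit 0x0) (nat_lit 0x800070010000000000000000000000000000000000000000) := T_1 (nat_lit 174) (nat_lit 191) (nat_lit 5) (nat_lit 5) (nat_lit 7) L27688 (by decide +kernel)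
theorem L27690 : W_1 (nat_lit 4) (nat_lit 0x18000c0016000b8000000000000000000000000000000) (nat_lit 0x0) (nat_lit 0x800070010000000006000000000000000000000000000000) := T_1 (nat_lit 121) (nat_lit 122) (nat_lit 3) (nat_lit 2) (nat_lit 7) L27689 (by decide +kernel)
theorem L27691 : W_1 (nat_lit 5) (nat_lit 0x18000c0016000b0000000000000000000000000000000) (nat_lit 0x0) (nat_lit 0x80007001000000000e000400000000000000000000000000) := T_1 (nat_lit 123) (nat_lit 106) (nat_lit 4) (nat_lit 5) (nat_lit 10) L27690 (by decide +kernel)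
theorem L27692 : W_1 (nat_lit 6) (nat_lit 0x18000c0014000b0000000000000000000000000000000) (nat_lit 0x0) (nat_lit 0x280007001000020000e000400000000000000000000000000) := T_1 (nat_lit 141) (nat_lit 193) (nat_lit 7) (nat_lit 5) (nat_lit 7) L27691 (by decide +kernel)
theorem L27693 : W_1 (nat_lit 7) (nat_lit 0x1800080014000b0000000000000000000000000000000) (nat_lit 0x0) (nat_lit 0x280007001400020000e001400000000000000000000000000) := T_1 (nat_lit 158) (nat_lit 108) (nat_lit 5) (nat_lit 6) (nat_lit 6) L27692 (by decide +kernel)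
theorem L27694 : W_1 (nat_lit 8) (nat_lit 0x1000080014000b0000000000000000000000000000000) (nat_lit 0x0) (nat_lit 0x38000f001400020000e001400000000000000000000000000) := T_1 (nat_lit 175) (nat_lit 192) (nat_lit 5) (nat_lit 6) (nat_lit 7) L27693 (by decide +kernel)
theorem L27695 : W_1 (nat_lit 9) (nat_lit 0x1000080014000a0000000000000000000000000000000) (nat_lit 0x0) (nat_lit 0x38000f001400020001e001c00000000000000000000000000) := T_1 (nat_lit 124) (nat_lit 107) (nat_lit 4) (nat_lit 6) (nat_lit 10) L27694 (by decide +kernel)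
theorem L27696 : W_1 (nat_lit 2) (nat_lit 0x3000080016000b0001000000000000000000000000000) (nat_lit 0x0) (nat_lit 0x4000000000000000080004000000000000000000) := D_1 (nat_lit 91) (nat_lit 74) (nat_lit 158) (nat_lit 5) (nat_lit 6) (nat_lit 4) (nat_lit 5) (nat_lit 6) (nat_lit 5) (by decide +kernel)
theorem L27697 : W_1 (nat_lit 3) (nat_lit 0x3000080014000b0001000000000000000000000000000) (nat_lit 0x0) (nat_lit 0x2000000004000200000000000080004000000000000000000) := T_1 (nat_lit 141) (nat_lit 193) (nat_lit 4) (nat_lit 6) (nat_lit 11) L27696 (by decide +kernel)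
theorem L27698 : W_1 (nat_lit 4) (nat_lit 0x3000080014000b0000000000000000000000000000000) (nat_lit 0x0) (nat_lit 0x2000000014000200000001000080004000000000000000000) := T_1 (nat_lit 108) (nat_lit 160) (nat_lit 7) (nat_lit 6) (nat_lit 6) L27697 (by decide +kernel)
theorem L27699 : W_1 (nat_lit 5) (nat_lit 0x1000080014000b0000000000000000000000000000000) (nat_lit 0x0) (nat_lit 0x6000200014000200000001000080004000000000000000000) := T_1 (nat_lit 177) (nat_lit 194) (nat_lit 7) (nat_lit 6) (nat_lit 7) L27698 (by decide +kernel)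
theorem L27700 : W_1 (nat_lit 6) (nat_lit 0x1000080014000a0000000000000000000000000000000) (nat_lit 0x0) (nat_lit 0x6000200014000200010001800080004000000000000000000) := T_1 (nat_lit 124) (nat_lit 107) (nat_lit 4) (nat_lit 6) (nat_lit 10) L27699 (by decide +kernel)
theorem L27701 : W_1 (nat_lit 10) (nat_lit 0x80014000a0000000000000000000000000000000) (nat_lit 0x0) (nat_lit 0x18000c00078003f001400020001e001c00080004000000000000000000) := Q_1 (nat_lit 176) (C_1 L27665 (C_1 L27687 (C_1 L27662 (C_1 L27695 (C_1 L27700 N_1))))) (by decide +kernel)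
theorem L27702 : W_1 (nat_lit 2) (nat_lit 0x10001000080014000b0000000000000000000000000000000) (nat_lit 0x0) (nat_lit 0x20002000000000000200000000000000000000000000000000000) := D_1 (nat_lit 193) (nat_lit 141) (nat_lit 209) (nat_lit 4) (nat_lit 6) (nat_lit 11) (nat_lit 5) (nat_lit 6) (nat_lit 8) (by decide +kernel)
theorem L27703 : W_1 (nat_lit 3) (nat_lit 0x1000080014000b0000000000000000000000000000000) (nat_lit 0x0) (nat_lit 0x20003000080000000200000000000000000000000000000000000) := T_1 (nat_lit 192) (nat_lit 175) (nat_lit 5) (nat_lit 6) (nat_lit 7) L27702 (by decide +kernel)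
theorem L27704 : W_1 (nat_lit 4) (nat_lit 0x1000080014000a0000000000000000000000000000000) (nat_lit 0x0) (nat_lit 0x20003000080000000200010000800000000000000000000000000) := T_1 (nat_lit 124) (nat_lit 107) (nat_lit 4) (nat_lit 6) (nat_lit 10) L27703 (by decide +kernel)
theorem L27705 : W_1 (nat_lit 2) (nat_lit 0x3000080014000a0001000180000000000000000000000) (nat_lit 0x0) (nat_lit 0x800040002000000000000000000) := D_1 (nat_lit 90) (nat_lit 73) (nat_lit 107) (nat_lit 4) (nat_lit 6) (nat_lit 8) (nat_lit 4) (nat_lit 6) (nat_lit 9) (by decide +kernel)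
theorem L27706 : W_1 (nat_lit 3) (nat_lit 0x3000080014000a0001000100000000000000000000000) (nat_lit 0x0) (nat_lit 0x8000c000a000000000000000000) := T_1 (nat_lit 91) (nat_lit 75) (nat_lit 6) (nat_lit 6) (nat_lit 8) L27705 (by decide +kernel)
theorem L27707 : W_1 (nat_lit 4) (nat_lit 0x3000080014000a0001000000000000000000000000000) (nat_lit 0x0) (nat_lit 0x28001c000a000000000000000000) := T_1 (nat_lit 92) (nat_lit 109) (nat_lit 6) (nat_lit 6) (nat_lit 9) L27706 (by decide +kernel)
theorem L27708 : W_1 (nat_lit 5) (nat_lit 0x3000080014000a0000000000000000000000000000000) (nat_lit 0x0) (nat_lit 0x100000000000038001c000a000000000000000000) := T_1 (nat_lit 108) (nat_lit 160) (nat_lit 7) (nat_lit 6) (nat_lit 6) L27707 (by decide +kernel)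
theorem L27709 : W_1 (nat_lit 6) (nat_lit 0x1000080014000a0000000000000000000000000000000) (nat_lit 0x0) (nat_lit 0x40002000100000000000038001c000a000000000000000000) := T_1 (nat_lit 177) (nat_lit 194) (nat_lit 7) (nat_lit 6) (nat_lit 7) L27708 (by decide +kernel)
theorem L27710 : W_1 (nat_lit 2) (nat_lit 0x3800180014000a0000000000000000000000000000000) (nat_lit 0x0) (nat_lit 0x60020000000000000000000000000000000000000000) := D_1 (nat_lit 174) (nat_lit 161) (nat_lit 173) (nat_lit 2) (nat_lit 4) (nat_lit 10) (nat_lit 2) (nat_lit 3) (nat_lit 10) (by decide +kernel)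
theorem L27711 : W_1 (nat_lit 3) (nat_lit 0x3800080014000a0000000000000000000000000000000) (nat_lit 0x0) (nat_lit 0x60030000000000001000000000000000000000000000) := T_1 (nat_lit 160) (nat_lit 108) (nat_lit 7) (nat_lit 6) (nat_lit 6) L27710 (by decide +kernel)
theorem L27712 : W_1 (nat_lit 4) (nat_lit 0x1800080014000a0000000000000000000000000000000) (nat_lit 0x0) (nat_lit 0x4000260030000000000001000000000000000000000000000) := T_1 (nat_lit 177) (nat_lit 194) (nat_lit 7) (nat_lit 6) (nat_lit 7) L27711 (by decide +kernel)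
theorem L27713 : W_1 (nat_lit 5) (nat_lit 0x1000080014000a0000000000000000000000000000000) (nat_lit 0x0) (nat_lit 0x50002e0030000000000001000000000000000000000000000) := T_1 (nat_lit 175) (nat_lit 192) (nat_lit 5) (nat_lit 6) (nat_lit 7) L27712 (by decide +kernel)
theorem L27714 : W_1 (nat_lit 7) (nat_lit 0x80014000a0000000000000000000000000000000) (nat_lit 0x0) (nat_lit 0xa00070003e00300002000100038001c000a000000000000000000) := Q_1 (nat_lit 176) (C_1 L27662 (C_1 L27704 (C_1 L27709 (C_1 L27713 N_1)))) (by decide +kernel)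
theorem L27715 : W_1 (nat_lit 2) (nat_lit 0xd000280014000b0000000000000000000000000000000) (nat_lit 0x0) (nat_lit 0x200014000000000000000000000000000000000000000) := D_1 (nat_lit 158) (nat_lit 160) (nat_lit 177) (nat_lit 3) (nat_lit 5) (nat_lit 9) (nat_lit 0) (nat_lit 9) (nat_lit 10) (by decide +kernel)
theorem L27716 : W_1 (nat_lit 3) (nat_lit 0x5000280014000b0000000000000000000000000000000) (nat_lit 0x0) (nat_lit 0x10000a00014000000000000000000000000000000000000000) := T_1 (nat_lit 179) (nat_lit 196) (nat_lit 7) (nat_lit 8) (nat_lit 7) L27715 (by decide +kernel)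
theorem L27717 : W_1 (nat_lit 4) (nat_lit 0x5000280014000a0000000000000000000000000000000) (nat_lit 0x0) (nat_lit 0x10000a00014000000010000800000000000000000000000000) := T_1 (nat_lit 124) (nat_lit 107) (nat_lit 4) (nat_lit 6) (nat_lit 10) L27716 (by decide +kernel)
theorem L27718 : W_1 (nat_lit 2) (nat_lit 0x80005000280014001b0000000000000000000000000000000) (nat_lit 0x0) (nat_lit 0x200010000800000000000000000000000000000000000000000000) := D_1 (nat_lit 196) (nat_lit 179) (nat_lit 213) (nat_lit 7) (nat_lit 8) (nat_lit 7) (nat_lit 7) (nat_lit 8) (nat_lit 8) (by decide +kernel)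
theorem L27719 : W_1 (nat_lit 3) (nat_lit 0x5000280014001b0000000000000000000000000000000) (nat_lit 0x0) (nat_lit 0x200018000800000002000000000000000000000000000000000000) := T_1 (nat_lit 195) (nat_lit 145) (nat_lit 6) (nat_lit 8) (nat_lit 11) L27718 (by decide +kernel)
theorem L27720 : W_1 (nat_lit 4) (nat_lit 0x5000280014001a0000000000000000000000000000000) (nat_lit 0x0) (nat_lit 0x200018000800000002000010000800000000000000000000000000) := T_1 (nat_lit 124) (nat_lit 107) (nat_lit 4) (nat_lit 6) (nat_lit 10) L27719 (by decide +kernel)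
theorem L27721 : W_1 (nat_lit 5) (nat_lit 0x5000280014000a0000000000000000000000000000000) (nat_lit 0x0) (nat_lit 0x200018000800000002000110008800000000000000000000000000) := T_1 (nat_lit 128) (nat_lit 111) (nat_lit 6) (nat_lit 8) (nat_lit 10) L27720 (by decide +kernel)
theorem L27722 : W_1 (nat_lit 2) (nat_lit 0x7000380034001a0000000000000000000000000000000) (nat_lit 0x0) (nat_lit 0xc0000200000000000000000000000000000000000) := D_1 (nat_lit 162) (nat_lit 163) (nat_lit 141) (nat_lit 1) (nat_lit 10) (nat_lit 9) (nat_lit 0) (nat_lit 9) (nat_lit 9) (by decide +kernel)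
theorem L27723 : W_1 (nat_lit 3) (nat_lit 0x7000280034001a0000000000000000000000000000000) (nat_lit 0x0) (nat_lit 0xd4000200000000000000000000000000000000000) := T_1 (nat_lit 160) (nat_lit 158) (nat_lit 2) (nat_lit 5) (nat_lit 9) L27722 (by decide +kernel)
theorem L27724 : W_1 (nat_lit 4) (nat_lit 0x7000280014001a0000000000000000000000000000000) (nat_lit 0x0) (nat_lit 0x80000000d4002200000000000000000000000000000000000) := T_1 (nat_lit 145) (nat_lit 195) (nat_lit 6) (nat_lit 8) (nat_lit 11) L27723 (by decide +kernel)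
theorem L27725 : W_1 (nat_lit 5) (nat_lit 0x5000280014001a0000000000000000000000000000000) (nat_lit 0x0) (nat_lit 0xc0002000d4002200000000000000000000000000000000000) := T_1 (nat_lit 177) (nat_lit 194) (nat_lit 7) (nat_lit 6) (nat_lit 7) L27724 (by decide +kernel)
theorem L27726 : W_1 (nat_lit 6) (nat_lit 0x5000280014000a0000000000000000000000000000000) (nat_lit 0x0) (nat_lit 0xc0002000d4002200100008000000000000000000000000000) := T_1 (nat_lit 128) (nat_lit 111) (nat_lit 6) (nat_lit 8) (nat_lit 10) L27725 (by decide +kernel)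
theorem L27727 : W_1 (nat_lit 7) (nat_lit 0x1000280014000a0000000000000000000000000000000) (nat_lit 0x0) (nat_lit 0x20001c000e000d4002200110008800000000000000000000000000) := Q_1 (nat_lit 178) (C_1 L27717 (C_1 L27721 (C_1 L27726 N_1))) (by decide +kernel)
theorem L27728 : W_1 (nat_lit 2) (nat_lit 0x8003c002a0014000b0000000000000000000000000000000) (nat_lit 0x0) (nat_lit 0x4000300000000000000000000000000000000000) := D_1 (nat_lit 141) (nat_lit 158) (nat_lit 140) (nat_lit 5) (nat_lit 5) (nat_lit 7) (nat_lit 6) (nat_lit 4) (nat_lit 11) (by decide +kernel)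
theorem L27729 : W_1 (nat_lit 3) (nat_lit 0x8003c00280014000b0000000000000000000000000000000) (nat_lit 0x0) (nat_lit 0x7000300000000000000000000000000000000000) := T_1 (nat_lit 157) (nat_lit 156) (nat_lit 0) (nat_lit 7) (nat_lit 10) L27728 (by decide +kernel)
theorem L27730 : W_1 (nat_lit 4) (nat_lit 0x3c00280014000b0000000000000000000000000000000) (nat_lit 0x0) (nat_lit 0xc00000007000300000000000000000000000000000000000) := T_1 (nat_lit 191) (nat_lit 190) (nat_lit 1) (nat_lit 7) (nat_lit 10) L27729 (by decide +kernel)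
theorem L27731 : W_1 (nat_lit 5) (nat_lit 0x3800280014000b0000000000000000000000000000000) (nat_lit 0x0) (nat_lit 0xc00040017000300000000000000000000000000000000000) := T_1 (nat_lit 174) (nat_lit 160) (nat_lit 2) (nat_lit 4) (nat_lit 10) L27730 (by decide +kernel)
theorem L27732 : W_1 (nat_lit 6) (nat_lit 0x1800280014000b0000000000000000000000000000000) (nat_lit 0x0) (nat_lit 0x4c00240017000300000000000000000000000000000000000) := T_1 (nat_lit 177) (nat_lit 194) (nat_lit 7) (nat_lit 6) (nat_lit 7) L27731 (by decide +kernel)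
theorem L27733 : W_1 (nat_lit 7) (nat_lit 0x1000280014000b0000000000000000000000000000000) (nat_lit 0x0) (nat_lit 0x5c002c0017000300000000000000000000000000000000000) := T_1 (nat_lit 175) (nat_lit 192) (nat_lit 5) (nat_lit 6) (nat_lit 7) L27732 (by decide +kernel)
theorem L27734 : W_1 (nat_lit 8) (nat_lit 0x1000280014000a0000000000000000000000000000000) (nat_lit 0x0) (nat_lit 0x5c002c0017000300010000800000000000000000000000000) := T_1 (nat_lit 124) (nat_lit 107) (nat_lit 4) (nat_lit 6) (nat_lit 10) L27733 (by decide +kernel)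
theorem L27735 : W_1 (nat_lit 2) (nat_lit 0x1800380014000b0000000000000000000000000000000) (nat_lit 0x0) (nat_lit 0x40004002000000000000000000000000000000000000) := D_1 (nat_lit 158) (nat_lit 174) (nat_lit 145) (nat_lit 1) (nat_lit 8) (nat_lit 9) (nat_lit 2) (nat_lit 5) (nat_lit 9) (by decide +kernel)
theorem L27736 : W_1 (nat_lit 3) (nat_lit 0x1800280014000b0000000000000000000000000000000) (nat_lit 0x0) (nat_lit 0x40054002000000000000000000000000000000000000) := T_1 (nat_lit 160) (nat_lit 162) (nat_lit 1) (nat_lit 9) (nat_lit 9) L27735 (by decide +kernel)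
theorem L27737 : W_1 (nat_lit 4) (nat_lit 0x1000280014000b0000000000000000000000000000000) (nat_lit 0x0) (nat_lit 0x10000c0054002000000000000000000000000000000000000) := T_1 (nat_lit 175) (nat_lit 192) (nat_lit 5) (nat_lit 6) (nat_lit 7) L27736 (by decide +kernel)
theorem L27738 : W_1 (nat_lit 5) (nat_lit 0x1000280014000a0000000000000000000000000000000) (nat_lit 0x0) (nat_lit 0x10000c0054002000010000800000000000000000000000000) := T_1 (nat_lit 124) (nat_lit 107) (nat_lit 4) (nat_lit 6) (nat_lit 10) L27737 (by decide +kernel)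
theorem L27739 : W_1 (nat_lit 2) (nat_lit 0x1800680014000a0000000000000000000000000000000) (nat_lit 0x0) (nat_lit 0x4000600000000000000000000000000000000000000000000) := D_1 (nat_lit 177) (nat_lit 178) (nat_lit 194) (nat_lit 2) (nat_lit 5) (nat_lit 10) (nat_lit 7) (nat_lit 6) (nat_lit 7) (by decide +kernel)
theorem L27740 : W_1 (nat_lit 3) (nat_lit 0x1800280014000a0000000000000000000000000000000) (nat_lit 0x0) (nat_lit 0x4000600050000000000000000000000000000000000000000) := T_1 (nat_lit 162) (nat_lit 160) (nat_lit 1) (nat_lit 9) (nat_lit 9) L27739 (by decide +kernel)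
theorem L27741 : W_1 (nat_lit 4) (nat_lit 0x1000280014000a0000000000000000000000000000000) (nat_lit 0x0) (nat_lit 0x5000680050000000000000000000000000000000000000000) := T_1 (nat_lit 175) (nat_lit 192) (nat_lit 5) (nat_lit 6) (nat_lit 7) L27740 (by decide +kernel)
theorem L27742 : W_1 (nat_lit 2) (nat_lit 0x7800280014000a0000000000000000000000000000000) (nat_lit 0x0) (nat_lit 0x10000800004000000000000000000000000000000000000000) := D_1 (nat_lit 179) (nat_lit 158) (nat_lit 196) (nat_lit 0) (nat_lit 9) (nat_lit 10) (nat_lit 7) (nat_lit 8) (nat_lit 7) (by decide +kernel)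
theorem L27743 : W_1 (nat_lit 3) (nat_lit 0x3800280014000a0000000000000000000000000000000) (nat_lit 0x0) (nat_lit 0x10000c00044000000000000000000000000000000000000000) := T_1 (nat_lit 178) (nat_lit 162) (nat_lit 2) (nat_lit 5) (nat_lit 10) L27742 (by decide +kernel)
theorem L27744 : W_1 (nat_lit 4) (nat_lit 0x3000280014000a0000000000000000000000000000000) (nat_lit 0x0) (nat_lit 0x11000c80044000000000000000000000000000000000000000) := T_1 (nat_lit 175) (nat_lit 192) (nat_lit 5) (nat_lit 6) (nat_lit 7) L27743 (by decide +kernel)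
theorem L27745 : W_1 (nat_lit 5) (nat_lit 0x1000280014000a0000000000000000000000000000000) (nat_lit 0x0) (nat_lit 0x15000e80044000000000000000000000000000000000000000) := T_1 (nat_lit 177) (nat_lit 194) (nat_lit 7) (nat_lit 6) (nat_lit 7) L27744 (by decide +kernel)
theorem L27746 : W_1 (nat_lit 9) (nat_lit 0x1000080014000a0000000000000000000000000000000) (nat_lit 0x0) (nat_lit 0x20001dc00ec00f7002300110008800000000000000000000000000) := Q_1 (nat_lit 161) (C_1 L27727 (C_1 L27734 (C_1 L27738 (C_1 L27741 (C_1 L27745 N_1))))) (by decide +kernel)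
theorem L27747 : W_1 (nat_lit 2) (nat_lit 0x50001000080014000a0000000000000000000000000000000) (nat_lit 0x0) (nat_lit 0xa0002000000000000000000000000000000000000000000000000) := D_1 (nat_lit 193) (nat_lit 211) (nat_lit 209) (nat_lit 7) (nat_lit 6) (nat_lit 8) (nat_lit 5) (nat_lit 6) (nat_lit 8) (by decide +kernel)
theorem L27748 : W_1 (nat_lit 3) (nat_lit 0x40001000080014000a0000000000000000000000000000000) (nat_lit 0x0) (nat_lit 0xa0003000080000000000000000000000000000000000000000000) := T_1 (nat_lit 192) (nat_lit 175) (nat_lit 5) (nat_lit 6) (nat_lit 7) L27747 (by decide +kernel)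
theorem L27749 : W_1 (nat_lit 4) (nat_lit 0x1000080014000a0000000000000000000000000000000) (nat_lit 0x0) (nat_lit 0xa0007000280000000000000000000000000000000000000000000) := T_1 (nat_lit 194) (nat_lit 177) (nat_lit 7) (nat_lit 6) (nat_lit 7) L27748 (by decide +kernel)
theorem L27750 : W_1 (nat_lit 2) (nat_lit 0x8000600020003000080014000b0000000000000000000000000000000) (nat_lit 0x0) (nat_lit 0x20001000080000000000000000000000000000000000000000000000000000) := D_1 (nat_lit 228) (nat_lit 211) (nat_lit 245) (nat_lit 7) (nat_lit 6) (nat_lit 9) (nat_lit 7) (nat_lit 6) (nat_lit 10) (by decide +kernel)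
theorem L27751 : W_1 (nat_lit 3) (nat_lit 0x600020003000080014000b0000000000000000000000000000000) (nat_lit 0x0) (nat_lit 0x20001800080000000000010000000000000000000000000000000000000000) := T_1 (nat_lit 227) (nat_lit 160) (nat_lit 6) (nat_lit 6) (nat_lit 13) L27750 (by decide +kernel)
theorem L27752 : W_1 (nat_lit 4) (nat_lit 0x200020003000080014000b0000000000000000000000000000000) (nat_lit 0x0) (nat_lit 0x20001c000c0000000000010000000000000000000000000000000000000000) := T_1 (nat_lit 210) (nat_lit 226) (nat_lit 5) (nat_lit 6) (nat_lit 9) L27751 (by decide +kernel)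
theorem L27753 : W_1 (nat_lit 5) (nat_lit 0x20003000080014000b0000000000000000000000000000000) (nat_lit 0x0) (nat_lit 0x20001c000e0001000000010000000000000000000000000000000000000000) := T_1 (nat_lit 209) (nat_lit 192) (nat_lit 5) (nat_lit 6) (nat_lit 8) L27752 (by decide +kernel)
theorem L27754 : W_1 (nat_lit 6) (nat_lit 0x3000080014000b0000000000000000000000000000000) (nat_lit 0x0) (nat_lit 0x20001c000e0003000000010000200000000000000000000000000000000000) := T_1 (nat_lit 193) (nat_lit 141) (nat_lit 4) (nat_lit 6) (nat_lit 11) L27753 (by decide +kernel)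
theorem L27755 : W_1 (nat_lit 7) (nat_lit 0x3000080014000a0000000000000000000000000000000) (nat_lit 0x0) (nat_lit 0x20001c000e0003000000010000200010000800000000000000000000000000) := T_1 (nat_lit 124) (nat_lit 107) (nat_lit 4) (nat_lit 6) (nat_lit 10) L27754 (by decide +kernel)
theorem L27756 : W_1 (nat_lit 8) (nat_lit 0x1000080014000a0000000000000000000000000000000) (nat_lit 0x0) (nat_lit 0x20001c000e0007000200010000200010000800000000000000000000000000) := T_1 (nat_lit 177) (nat_lit 194) (nat_lit 7) (nat_lit 6) (nat_lit 7) L27755 (by decide +kernel)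
theorem L27757 : W_1 (nat_lit 2) (nat_lit 0x40001000080014000b0000000000000000000000000000000) (nat_lit 0x0) (nat_lit 0x80002000000000000200000000000000000000000000000000000) := D_1 (nat_lit 193) (nat_lit 141) (nat_lit 211) (nat_lit 4) (nat_lit 6) (nat_lit 11) (nat_lit 7) (nat_lit 6) (nat_lit 8) (by decide +kernel)
theorem L27758 : W_1 (nat_lit 3) (nat_lit 0x1000080014000b0000000000000000000000000000000) (nat_lit 0x0) (nat_lit 0x80006000200000000200000000000000000000000000000000000) := T_1 (nat_lit 194) (nat_lit 177) (nat_lit 7) (nat_lit 6) (nat_lit 7) L27757 (by decide +kernel)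
theorem L27759 : W_1 (nat_lit 4) (nat_lit 0x1000080014000a0000000000000000000000000000000) (nat_lit 0x0) (nat_lit 0x80006000200000000200010000800000000000000000000000000) := T_1 (nat_lit 124) (nat_lit 107) (nat_lit 4) (nat_lit 6) (nat_lit 10) L27758 (by decide +kernel)
theorem L27760 : W_1 (nat_lit 10) (nat_lit 0x80014000a0000000000000000000000000000000) (nat_lit 0x0) (nat_lit 0x20001c002e001fc00fc00f7002300110008800000000000000000000000000) := Q_1 (nat_lit 176) (C_1 L27746 (C_1 L27704 (C_1 L27749 (C_1 L27756 (C_1 L27759 N_1))))) (by decide +kernel)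
theorem L27761 : W_1 (nat_lit 2) (nat_lit 0x3c0014000a0001800000000000000000000000000) (nat_lit 0x0) (nat_lit 0x40000300000000000000000000000000000000000) := D_1 (nat_lit 141) (nat_lit 162) (nat_lit 140) (nat_lit 0) (nat_lit 9) (nat_lit 9) (nat_lit 0) (nat_lit 8) (nat_lit 9) (by decide +kernel)
theorem L27762 : W_1 (nat_lit 3) (nat_lit 0x1c0014000a0001800000000000000000000000000) (nat_lit 0x0) (nat_lit 0x60002300000000000000000000000000000000000) := T_1 (nat_lit 161) (nat_lit 145) (nat_lit 2) (nat_lit 5) (nat_lit 9) L27761 (by decide +kernel)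
theorem L27763 : W_1 (nat_lit 4) (nat_lit 0xc0014000a0001800000000000000000000000000) (nat_lit 0x0) (nat_lit 0x200070002300000000000000000000000000000000000) := T_1 (nat_lit 160) (nat_lit 177) (nat_lit 7) (nat_lit 6) (nat_lit 6) L27762 (by decide +kernel)
theorem L27764 : W_1 (nat_lit 5) (nat_lit 0x80014000a0001800000000000000000000000000) (nat_lit 0x0) (nat_lit 0x280074002300000000000000000000000000000000000) := T_1 (nat_lit 158) (nat_lit 175) (nat_lit 5) (nat_lit 6) (nat_lit 6) L27763 (by decide +kernel)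
theorem L27765 : W_1 (nat_lit 6) (nat_lit 0x80014000a0001000000000000000000000000000) (nat_lit 0x0) (nat_lit 0x280074002300000000800040000000000000000000000) := T_1 (nat_lit 107) (nat_lit 90) (nat_lit 4) (nat_lit 6) (nat_lit 9) L27764 (by decide +kernel)
theorem L27766 : W_1 (nat_lit 7) (nat_lit 0x80014000a0000000000000000000000000000000) (nat_lit 0x0) (nat_lit 0x2800740023000000038001c000a000000000000000000) := Q_1 (nat_lit 108) (C_1 L23289 (C_1 L23324 (C_1 L23293 (C_1 L27765 N_1)))) (by decide +kernel)
theorem L27767 : W_1 (nat_lit 6) (nat_lit 0x80014000a0000000000000000000000000000000) (nat_lit 0x0) (nat_lit 0x50003800140000000100038001c000a000000000000000000) := Q_1 (nat_lit 108) (C_1 L23281 (C_1 L23305 (C_1 L23278 (C_1 L23293 N_1)))) (by decide +kernel)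
theorem L27768 : W_1 (nat_lit 2) (nat_lit 0x180016000a0001000180004000000000000000000) (nat_lit 0x0) (nat_lit 0x40002000100000000000000) := D_1 (nat_lit 73) (nat_lit 56) (nat_lit 90) (nat_lit 4) (nat_lit 6) (nat_lit 7) (nat_lit 4) (nat_lit 6) (nat_lit 8) (by decide +kernel)
theorem L27769 : W_1 (nat_lit 3) (nat_lit 0x180016000a0001000180000000000000000000000) (nat_lit 0x0) (nat_lit 0x10000000040006000100000000000000) := T_1 (nat_lit 74) (nat_lit 124) (nat_lit 5) (nat_lit 6) (nat_lit 4) L27768 (by decide +kernel)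
theorem L27770 : W_1 (nat_lit 4) (nat_lit 0x180014000a0001000180000000000000000000000) (nat_lit 0x0) (nat_lit 0x4000200010000000040006000100000000000000) := T_1 (nat_lit 141) (nat_lit 158) (nat_lit 5) (nat_lit 6) (nat_lit 5) L27769 (by decide +kernel)
theorem L27771 : W_1 (nat_lit 5) (nat_lit 0x180014000a0001000100000000000000000000000) (nat_lit 0x0) (nat_lit 0x40002000100000000c000e000100000000000000) := T_1 (nat_lit 91) (nat_lit 75) (nat_lit 6) (nat_lit 6) (nat_lit 8) L27770 (by decide +kernel)
theorem L27772 : W_1 (nat_lit 6) (nat_lit 0x80014000a0001000100000000000000000000000) (nat_lit 0x0) (nat_lit 0x2000140002000100000000c000e000100000000000000) := T_1 (nat_lit 160) (nat_lit 177) (nat_lit 7) (nat_lit 6) (nat_lit 6) L27771 (by decide +kernel)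
theorem L27773 : W_1 (nat_lit 7) (nat_lit 0x80014000a0001000000000000000000000000000) (nat_lit 0x0) (nat_lit 0x2000140002000100020001c000e000100000000000000) := T_1 (nat_lit 92) (nat_lit 109) (nat_lit 6) (nat_lit 6) (nat_lit 9) L27772 (by decide +kernel)
theorem L27774 : W_1 (nat_lit 9) (nat_lit 0x80014000a0000000000000000000000000000000) (nat_lit 0x0) (nat_lit 0x6000300014000200010003e007c000e000300000000000000) := Q_1 (nat_lit 108) (C_1 L23281 (C_1 L27680 (C_1 L23293 (C_1 L27773 (C_1 L23336 N_1))))) (by decide +kernel)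
theorem L27775 : W_1 (nat_lit 2) (nat_lit 0x800030001000080016000a0000000000000000000000000000000) (nat_lit 0x0) (nat_lit 0x1000040000000000004000000000000000000000000000000000000000) := D_1 (nat_lit 210) (nat_lit 158) (nat_lit 228) (nat_lit 4) (nat_lit 6) (nat_lit 12) (nat_lit 7) (nat_lit 6) (nat_lit 9) (by decide +kernel)
theorem L27776 : W_1 (nat_lit 3) (nat_lit 0x30001000080016000a0000000000000000000000000000000) (nat_lit 0x0) (nat_lit 0x10000c0004000000004000000000000000000000000000000000000000) := T_1 (nat_lit 211) (nat_lit 194) (nat_lit 7) (nat_lit 6) (nat_lit 8) L27775 (by decide +kernel)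
theorem L27777 : W_1 (nat_lit 4) (nat_lit 0x30001000080014000a0000000000000000000000000000000) (nat_lit 0x0) (nat_lit 0x10000c0004000000004000200010000000000000000000000000000000) := T_1 (nat_lit 141) (nat_lit 124) (nat_lit 4) (nat_lit 6) (nat_lit 11) L27776 (by decide +kernel)
theorem L27778 : W_1 (nat_lit 5) (nat_lit 0x10001000080014000a0000000000000000000000000000000) (nat_lit 0x0) (nat_lit 0x10000e0006000000004000200010000000000000000000000000000000) := T_1 (nat_lit 193) (nat_lit 209) (nat_lit 5) (nat_lit 6) (nat_lit 8) L27777 (by decide +kernel)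
theorem L27779 : W_1 (nat_lit 6) (nat_lit 0x1000080014000a0000000000000000000000000000000) (nat_lit 0x0) (nat_lit 0x10000e0007000080004000200010000000000000000000000000000000) := T_1 (nat_lit 192) (nat_lit 175) (nat_lit 5) (nat_lit 6) (nat_lit 7) L27778 (by decide +kernel)
theorem L27780 : W_1 (nat_lit 2) (nat_lit 0x300010001c0016000a0003000000000000000000000000000) (nat_lit 0x0) (nat_lit 0x20000180000000000000000000000000000000000) := D_1 (nat_lit 140) (nat_lit 139) (nat_lit 161) (nat_lit 3) (nat_lit 3) (nat_lit 8) (nat_lit 0) (nat_lit 8) (nat_lit 9) (by decide +kernel)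
theorem L27781 : W_1 (nat_lit 3) (nat_lit 0x300010000c0016000a0003000000000000000000000000000) (nat_lit 0x0) (nat_lit 0x200030000180000000000000000000000000000000000) := T_1 (nat_lit 160) (nat_lit 177) (nat_lit 7) (nat_lit 6) (nat_lit 6) L27780 (by decide +kernel)
theorem L27782 : W_1 (nat_lit 4) (nat_lit 0x300010000c0016000a0001000000000000000000000000000) (nat_lit 0x0) (nat_lit 0x200030000180000002000100000000000000000000000) := T_1 (nat_lit 109) (nat_lit 92) (nat_lit 6) (nat_lit 6) (nat_lit 9) L27781 (by decide +kernel)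
theorem L27783 : W_1 (nat_lit 5) (nat_lit 0x300010000c0016000a0000000000000000000000000000000) (nat_lit 0x0) (nat_lit 0x200030000180000003000180000000000000000000000) := T_1 (nat_lit 108) (nat_lit 91) (nat_lit 5) (nat_lit 6) (nat_lit 5) L27782 (by decide +kernel)
theorem L27784 : W_1 (nat_lit 6) (nat_lit 0x30001000080016000a0000000000000000000000000000000) (nat_lit 0x0) (nat_lit 0x40000000200034000180000003000180000000000000000000000) := T_1 (nat_lit 158) (nat_lit 210) (nat_lit 4) (nat_lit 6) (nat_lit 12) L27783 (by decide +kernel)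
theorem L27785 : W_1 (nat_lit 7) (nat_lit 0x30001000080014000a0000000000000000000000000000000) (nat_lit 0x0) (nat_lit 0x40000000200034000380010003000180000000000000000000000) := T_1 (nat_lit 141) (nat_lit 124) (nat_lit 4) (nat_lit 6) (nat_lit 11) L27784 (by decide +kernel)
theorem L27786 : W_1 (nat_lit 8) (nat_lit 0x10001000080014000a0000000000000000000000000000000) (nat_lit 0x0) (nat_lit 0x60002000200034000380010003000180000000000000000000000) := T_1 (nat_lit 193) (nat_lit 209) (nat_lit 5) (nat_lit 6) (nat_lit 8) L27785 (by decide +kernel)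
theorem L27787 : W_1 (nat_lit 9) (nat_lit 0x1000080014000a0000000000000000000000000000000) (nat_lit 0x0) (nat_lit 0x60003000280034000380010003000180000000000000000000000) := T_1 (nat_lit 192) (nat_lit 175) (nat_lit 5) (nat_lit 6) (nat_lit 7) L27786 (by decide +kernel)
theorem L27788 : W_1 (nat_lit 2) (nat_lit 0x3000080016000a0001000180000000000000000000000) (nat_lit 0x0) (nat_lit 0x2000000000000000010000000000004000000000000000000) := D_1 (nat_lit 124) (nat_lit 74) (nat_lit 193) (nat_lit 5) (nat_lit 6) (nat_lit 4) (nat_lit 4) (nat_lit 6) (nat_lit 11) (by decide +kernel)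
theorem L27789 : W_1 (nat_lit 3) (nat_lit 0x3000080014000a0001000180000000000000000000000) (nat_lit 0x0) (nat_lit 0x2000000004000200010000000000004000000000000000000) := T_1 (nat_lit 141) (nat_lit 158) (nat_lit 5) (nat_lit 6) (nat_lit 5) L27788 (by decide +kernel)
theorem L27790 : W_1 (nat_lit 4) (nat_lit 0x3000080014000a0001000100000000000000000000000) (nat_lit 0x0) (nat_lit 0x200000000400020001000000008000c000000000000000000) := T_1 (nat_lit 91) (nat_lit 75) (nat_lit 6) (nat_lit 6) (nat_lit 8) L27789 (by decide +kernel)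
theorem L27791 : W_1 (nat_lit 5) (nat_lit 0x3000080014000a0001000000000000000000000000000) (nat_lit 0x0) (nat_lit 0x200000000400020001000200018000c000000000000000000) := T_1 (nat_lit 92) (nat_lit 109) (nat_lit 6) (nat_lit 6) (nat_lit 9) L27790 (by decide +kernel)
theorem L27792 : W_1 (nat_lit 6) (nat_lit 0x3000080014000a0000000000000000000000000000000) (nat_lit 0x0) (nat_lit 0x200000001400020001000300018000c000000000000000000) := T_1 (nat_lit 108) (nat_lit 160) (nat_lit 7) (nat_lit 6) (nat_lit 6) L27791 (by decide +kernel)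
theorem L27793 : W_1 (nat_lit 7) (nat_lit 0x1000080014000a0000000000000000000000000000000) (nat_lit 0x0) (nat_lit 0x600020001400020001000300018000c000000000000000000) := T_1 (nat_lit 177) (nat_lit 194) (nat_lit 7) (nat_lit 6) (nat_lit 7) L27792 (by decide +kernel)
theorem L27794 : W_1 (nat_lit 10) (nat_lit 0x80014000a0000000000000000000000000000000) (nat_lit 0x0) (nat_lit 0x10000e00070003e003400038001000300018000c000000000000000000) := Q_1 (nat_lit 176) (C_1 L27749 (C_1 L27779 (C_1 L27787 (C_1 L27793 (C_1 L27713 N_1))))) (by decide +kernel)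
theorem L27795 : W_1 (nat_lit 11) (nat_lit 0x14000a0000000000000000000000000000000) (nat_lit 0x0) (nat_lit 0x20001c002e001fc00ff00ff00238011e00be007c000e000300000000000000) := Q_1 (nat_lit 159) (C_1 L27673 (C_1 L27681 (C_1 L27701 (C_1 L27714 (C_1 L27760 (C_1 L27766 (C_1 L27767 (C_1 L27774 (C_1 L27794 N_1))))))))) (by decide +kernel)
theorem L27796 : W_1 (nat_lit 2) (nat_lit 0x34003e0009000000000000000000000000000) (nat_lit 0x0) (nat_lit 0x20000000000000000400020000000000000000000) := D_1 (nat_lit 94) (nat_lit 77) (nat_lit 161) (nat_lit 5) (nat_lit 9) (nat_lit 4) (nat_lit 5) (nat_lit 9) (nat_lit 5) (by decide +kernel)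
theorem L27797 : W_1 (nat_lit 3) (nat_lit 0x34003e0001000000000000000000000000000) (nat_lit 0x0) (nat_lit 0x20000000000018000400020000000000000000000) := T_1 (nat_lit 111) (nat_lit 112) (nat_lit 2) (nat_lit 6) (nat_lit 7) L27796 (by decide +kernel)
theorem L27798 : W_1 (nat_lit 4) (nat_lit 0x34001e0001000000000000000000000000000) (nat_lit 0x0) (nat_lit 0x2000000020001a000400020000000000000000000) := T_1 (nat_lit 129) (nat_lit 109) (nat_lit 0) (nat_lit 10) (nat_lit 7) L27797 (by decide +kernel)
theorem L27799 : W_1 (nat_lit 5) (nat_lit 0x14001e0001000000000000000000000000000) (nat_lit 0x0) (nat_lit 0x2000600020001a000400020000000000000000000) := T_1 (nat_lit 145) (nat_lit 146) (nat_lit 3) (nat_lit 6) (nat_lit 7) L27798 (by decide +kernel)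
theorem L27800 : W_1 (nat_lit 6) (nat_lit 0x14001e0000000000000000000000000000000) (nat_lit 0x0) (nat_lit 0x2000600020001b800400020000000000000000000) := T_1 (nat_lit 108) (nat_lit 107) (nat_lit 0) (nat_lit 9) (nat_lit 7) L27799 (by decide +kernel)
theorem L27801 : W_1 (nat_lit 7) (nat_lit 0x14000e0000000000000000000000000000000) (nat_lit 0x0) (nat_lit 0x2000620030001b800400020000000000000000000) := T_1 (nat_lit 128) (nat_lit 141) (nat_lit 1) (nat_lit 9) (nat_lit 7) L27800 (by decide +kernel)
theorem L27802 : W_1 (nat_lit 2) (nat_lit 0x1800080014000e0001000000000000000000000000000) (nat_lit 0x0) (nat_lit 0x4000200010000000000000000000000000000000000000000) := D_1 (nat_lit 177) (nat_lit 194) (nat_lit 160) (nat_lit 7) (nat_lit 6) (nat_lit 7) (nat_lit 7) (nat_lit 6) (nat_lit 6) (by decide +kernel)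
theorem L27803 : W_1 (nat_lit 3) (nat_lit 0x1800080014000e0000000000000000000000000000000) (nat_lit 0x0) (nat_lit 0x4000200014000000000001000000000000000000000000000) := T_1 (nat_lit 108) (nat_lit 158) (nat_lit 5) (nat_lit 6) (nat_lit 6) L27802 (by decide +kernel)
theorem L27804 : W_1 (nat_lit 4) (nat_lit 0x1000080014000e0000000000000000000000000000000) (nat_lit 0x0) (nat_lit 0x5000280014000000000001000000000000000000000000000) := T_1 (nat_lit 175) (nat_lit 192) (nat_lit 5) (nat_lit 6) (nat_lit 7) L27803 (by decide +kernel)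
theorem L27805 : W_1 (nat_lit 5) (nat_lit 0x80014000e0000000000000000000000000000000) (nat_lit 0x0) (nat_lit 0x5000380014000000000003000000000000000000000000000) := T_1 (nat_lit 176) (nat_lit 109) (nat_lit 6) (nat_lit 6) (nat_lit 10) L27804 (by decide +kernel)
theorem L27806 : W_1 (nat_lit 2) (nat_lit 0x80014000e0002000000000000000000000000000) (nat_lit 0x0) (nat_lit 0x1000100008000000000000000000) := D_1 (nat_lit 92) (nat_lit 108) (nat_lit 75) (nat_lit 6) (nat_lit 6) (nat_lit 9) (nat_lit 7) (nat_lit 7) (nat_lit 4) (by decide +kernel)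
theorem L27807 : W_1 (nat_lit 3) (nat_lit 0x80014000e0000000000000000000000000000000) (nat_lit 0x0) (nat_lit 0x100000000000000003000100008000000000000000000) := T_1 (nat_lit 109) (nat_lit 176) (nat_lit 6) (nat_lit 6) (nat_lit 10) L27806 (by decide +kernel)
theorem L27809 : W_1 (nat_lit 2) (nat_lit 0x80014000e000100008000a000000000000000000) (nat_lit 0x0) (nat_lit 0x4000500000000000000) := D_1 (nat_lit 74) (nat_lit 56) (nat_lit 58) (nat_lit 4) (nat_lit 6) (nat_lit 7) (nat_lit 6) (nat_lit 6) (nat_lit 7) (by decide +kernel)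
theorem L27810 : W_1 (nat_lit 3) (nat_lit 0x80014000e0001000080008000000000000000000) (nat_lit 0x0) (nat_lit 0x40006000500000000000000) := T_1 (nat_lit 73) (nat_lit 90) (nat_lit 4) (nat_lit 6) (nat_lit 8) L27809 (by decide +kernel)
theorem L27811 : W_1 (nat_lit 4) (nat_lit 0x80014000e0001000080000000000000000000000) (nat_lit 0x0) (nat_lit 0x14000e000500000000000000) := T_1 (nat_lit 75) (nat_lit 92) (nat_lit 6) (nat_lit 6) (nat_lit 8) L27810 (by decide +kernel)
theorem L27818 : W_1 (nat_lit 3) (nat_lit 0x800080014000e0001000000000000000000000000000) (nat_lit 0x0) (nat_lit 0x5000300010000000000000000000000000000000000000000) := T_1 (nat_lit 176) (nat_lit 192) (nat_lit 5) (nat_lit 6) (nat_lit 7) L27802 (by decide +kernel)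
theorem L27833 : W_1 (nat_lit 2) (nat_lit 0x3800180014000e0000000000000000000000000000000) (nat_lit 0x0) (nat_lit 0x60020000000000000000000000000000000000000000) := D_1 (nat_lit 174) (nat_lit 161) (nat_lit 173) (nat_lit 2) (nat_lit 4) (nat_lit 10) (nat_lit 2) (nat_lit 3) (nat_lit 10) (by decide +kernel)
theorem L27834 : W_1 (nat_lit 3) (nat_lit 0x3800080014000e0000000000000000000000000000000) (nat_lit 0x0) (nat_lit 0x60030000000000001000000000000000000000000000) := T_1 (nat_lit 160) (nat_lit 108) (nat_lit 7) (nat_lit 6) (nat_lit 6) L27833 (by decide +kernel)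
theorem L27835 : W_1 (nat_lit 4) (nat_lit 0x1800080014000e0000000000000000000000000000000) (nat_lit 0x0) (nat_lit 0x4000260030000000000001000000000000000000000000000) := T_1 (nat_lit 177) (nat_lit 194) (nat_lit 7) (nat_lit 6) (nat_lit 7) L27834 (by decide +kernel)
theorem L27837 : W_1 (nat_lit 2) (nat_lit 0x50001000080014000e0000000000000000000000000000000) (nat_lit 0x0) (nat_lit 0xa0002000000000000000000000000000000000000000000000000) := D_1 (nat_lit 193) (nat_lit 211) (nat_lit 209) (nat_lit 7) (nat_lit 6) (nat_lit 8) (nat_lit 5) (nat_lit 6) (nat_lit 8) (by decide +kernel)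
theorem L27838 : W_1 (nat_lit 3) (nat_lit 0x40001000080014000e0000000000000000000000000000000) (nat_lit 0x0) (nat_lit 0xa0003000080000000000000000000000000000000000000000000) := T_1 (nat_lit 192) (nat_lit 175) (nat_lit 5) (nat_lit 6) (nat_lit 7) L27837 (by decide +kernel)
theorem L27839 : W_1 (nat_lit 4) (nat_lit 0x1000080014000e0000000000000000000000000000000) (nat_lit 0x0) (nat_lit 0xa0007000280000000000000000000000000000000000000000000) := T_1 (nat_lit 194) (nat_lit 177) (nat_lit 7) (nat_lit 6) (nat_lit 7) L27838 (by decide +kernel)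
theorem L27859 : W_1 (nat_lit 2) (nat_lit 0x2800080014000e0000000000000000000000000000000) (nat_lit 0x0) (nat_lit 0x14000000000001000000000000000000000000000) := D_1 (nat_lit 108) (nat_lit 158) (nat_lit 160) (nat_lit 5) (nat_lit 6) (nat_lit 6) (nat_lit 7) (nat_lit 6) (nat_lit 6) (by decide +kernel)
theorem L27860 : W_1 (nat_lit 4) (nat_lit 0x2800080014000e0000000000000000000000000000000) (nat_lit 0x0) (nat_lit 0x4000160030000000000001000000000000000000000000000) := T_1 (nat_lit 176) (nat_lit 194) (nat_lit 7) (nat_lit 6) (nat_lit 7) L27834 (by decide +kernel)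
theorem L27861 : W_1 (nat_lit 2) (nat_lit 0x38000c0014000e0000000000000000000000000000000) (nat_lit 0x0) (nat_lit 0x400003000000000000000000000000000000000000000) := D_1 (nat_lit 157) (nat_lit 156) (nat_lit 178) (nat_lit 3) (nat_lit 3) (nat_lit 9) (nat_lit 0) (nat_lit 8) (nat_lit 10) (by decide +kernel)
theorem L27862 : W_1 (nat_lit 3) (nat_lit 0x28000c0014000e0000000000000000000000000000000) (nat_lit 0x0) (nat_lit 0x4000500003000000000000000000000000000000000000000) := T_1 (nat_lit 176) (nat_lit 194) (nat_lit 7) (nat_lit 6) (nat_lit 7) L27861 (by decide +kernel)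
theorem L27863 : W_1 (nat_lit 4) (nat_lit 0x2800080014000e0000000000000000000000000000000) (nat_lit 0x0) (nat_lit 0x4000500007000000000001000000000000000000000000000) := T_1 (nat_lit 158) (nat_lit 108) (nat_lit 5) (nat_lit 6) (nat_lit 6) L27862 (by decide +kernel)
theorem L27864 : W_1 (nat_lit 2) (nat_lit 0x40002800380014000e0000000000000000000000000000000) (nat_lit 0x0) (nat_lit 0x40004002000000000000000000000000000000000000) := D_1 (nat_lit 158) (nat_lit 145) (nat_lit 174) (nat_lit 2) (nat_lit 5) (nat_lit 9) (nat_lit 1) (nat_lit 8) (nat_lit 9) (by decide +kernel)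
theorem L27865 : W_1 (nat_lit 3) (nat_lit 0x40002800280014000e0000000000000000000000000000000) (nat_lit 0x0) (nat_lit 0x80000000040014002000000000000000000000000000000000000) := T_1 (nat_lit 160) (nat_lit 211) (nat_lit 6) (nat_lit 7) (nat_lit 12) L27864 (by decide +kernel)
theorem L27866 : W_1 (nat_lit 4) (nat_lit 0x40002800080014000e0000000000000000000000000000000) (nat_lit 0x0) (nat_lit 0x80000000440034002000000000000000000000000000000000000) := T_1 (nat_lit 161) (nat_lit 178) (nat_lit 5) (nat_lit 8) (nat_lit 7) L27865 (by decide +kernel)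
theorem L27867 : W_1 (nat_lit 5) (nat_lit 0x2800080014000e0000000000000000000000000000000) (nat_lit 0x0) (nat_lit 0x80004000540034002000000000000000000000000000000000000) := T_1 (nat_lit 194) (nat_lit 176) (nat_lit 7) (nat_lit 6) (nat_lit 7) L27866 (by decide +kernel)
theorem L27868 : W_1 (nat_lit 6) (nat_lit 0x800080014000e0000000000000000000000000000000) (nat_lit 0x0) (nat_lit 0x80004000760037002000000001000000000000000000000000000) := Q_1 (nat_lit 177) (C_1 L27859 (C_1 L27860 (C_1 L27863 (C_1 L27867 N_1)))) (by decide +kernel)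
theorem L27869 : W_1 (nat_lit 2) (nat_lit 0x10000800080014000e0000000000000000000000000000000) (nat_lit 0x0) (nat_lit 0x20000000000004000200000000000000000000000000000000000) := D_1 (nat_lit 158) (nat_lit 141) (nat_lit 209) (nat_lit 6) (nat_lit 5) (nat_lit 11) (nat_lit 6) (nat_lit 5) (nat_lit 12) (by decide +kernel)
theorem L27870 : W_1 (nat_lit 3) (nat_lit 0x800080014000e0000000000000000000000000000000) (nat_lit 0x0) (nat_lit 0x20001000100004000200000000000000000000000000000000000) := T_1 (nat_lit 192) (nat_lit 176) (nat_lit 5) (nat_lit 6) (nat_lit 7) L27869 (by decide +kernel)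
theorem L27871 : W_1 (nat_lit 5) (nat_lit 0x800080014000e0000000000000000000000000000000) (nat_lit 0x0) (nat_lit 0x5000360030000000000001000000000000000000000000000) := T_1 (nat_lit 176) (nat_lit 192) (nat_lit 5) (nat_lit 6) (nat_lit 7) L27835 (by decide +kernel)
theorem L27872 : W_1 (nat_lit 2) (nat_lit 0x8000c0014000e0000000000000000000000000000000) (nat_lit 0x0) (nat_lit 0x20001000000000000200000000000000000000000000000000000) := D_1 (nat_lit 192) (nat_lit 141) (nat_lit 209) (nat_lit 6) (nat_lit 5) (nat_lit 11) (nat_lit 6) (nat_lit 5) (nat_lit 12) (by decide +kernel)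
theorem L27873 : W_1 (nat_lit 3) (nat_lit 0x800080014000e0000000000000000000000000000000) (nat_lit 0x0) (nat_lit 0x20001000000004000200000001000000000000000000000000000) := T_1 (nat_lit 158) (nat_lit 108) (nat_lit 5) (nat_lit 6) (nat_lit 6) L27872 (by decide +kernel)
theorem L27874 : W_1 (nat_lit 7) (nat_lit 0x80014000e0000000000000000000000000000000) (nat_lit 0x0) (nat_lit 0xa00050007e0037002200000001000000000000000000000000000) := Q_1 (nat_lit 175) (C_1 L27868 (C_1 L27870 (C_1 L27871 (C_1 L27873 N_1)))) (by decide +kernel)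
theorem L27875 : W_1 (nat_lit 5) (nat_lit 0x80014000e0000000000000000000000000000000) (nat_lit 0x0) (nat_lit 0xa0007000380000000000000002000000000000000000000000000) := T_1 (nat_lit 176) (nat_lit 109) (nat_lit 6) (nat_lit 6) (nat_lit 10) L27839 (by decide +kernel)
theorem L27876 : W_1 (nat_lit 2) (nat_lit 0x80014000e0001800000000000000000000000000) (nat_lit 0x0) (nat_lit 0x2600000000000000000000000000) := D_1 (nat_lit 106) (nat_lit 109) (nat_lit 105) (nat_lit 3) (nat_lit 4) (nat_lit 6) (nat_lit 3) (nat_lit 3) (nat_lit 6) (by decide +kernel)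
theorem L27877 : W_1 (nat_lit 3) (nat_lit 0x80014000e0001000000000000000000000000000) (nat_lit 0x0) (nat_lit 0x2e00040000000000000000000000) := T_1 (nat_lit 107) (nat_lit 90) (nat_lit 4) (nat_lit 6) (nat_lit 9) L27876 (by decide +kernel)
theorem L27878 : W_1 (nat_lit 2) (nat_lit 0x1c0016000e0001a00000000000000000000000000) (nat_lit 0x0) (nat_lit 0x20002100000000000000000000000000000000000) := D_1 (nat_lit 161) (nat_lit 145) (nat_lit 140) (nat_lit 2) (nat_lit 5) (nat_lit 9) (nat_lit 0) (nat_lit 8) (nat_lit 9) (by decide +kernel)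
theorem L27879 : W_1 (nat_lit 3) (nat_lit 0x1c0014000e0001a00000000000000000000000000) (nat_lit 0x0) (nat_lit 0x20002300000000000080000000000000000000000) := T_1 (nat_lit 141) (nat_lit 91) (nat_lit 5) (nat_lit 6) (nat_lit 5) L27878 (by decide +kernel)
theorem L27880 : W_1 (nat_lit 4) (nat_lit 0x180014000e0001a00000000000000000000000000) (nat_lit 0x0) (nat_lit 0x80024002300000000000080000000000000000000000) := T_1 (nat_lit 158) (nat_lit 175) (nat_lit 5) (nat_lit 6) (nat_lit 6) L27879 (by decide +kernel)
theorem L27881 : W_1 (nat_lit 5) (nat_lit 0x180014000e0001800000000000000000000000000) (nat_lit 0x0) (nat_lit 0x80024002300000000600080000000000000000000000) := T_1 (nat_lit 105) (nat_lit 106) (nat_lit 3) (nat_lit 3) (nat_lit 6) L27880 (by decide +kernel)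
theorem L27882 : W_1 (nat_lit 6) (nat_lit 0x180014000e0001000000000000000000000000000) (nat_lit 0x0) (nat_lit 0x80024002300000000e000c0000000000000000000000) := T_1 (nat_lit 107) (nat_lit 90) (nat_lit 4) (nat_lit 6) (nat_lit 9) L27881 (by decide +kernel)
theorem L27883 : W_1 (nat_lit 7) (nat_lit 0x80014000e0001000000000000000000000000000) (nat_lit 0x0) (nat_lit 0x280034002300000000e000c0000000000000000000000) := T_1 (nat_lit 160) (nat_lit 177) (nat_lit 7) (nat_lit 6) (nat_lit 6) L27882 (by decide +kernel)
theorem L27884 : W_1 (nat_lit 2) (nat_lit 0xc0014000e0001000080000000000000000000000) (nat_lit 0x0) (nat_lit 0x2000100008000000000000000000) := D_1 (nat_lit 92) (nat_lit 109) (nat_lit 75) (nat_lit 6) (nat_lit 6) (nat_lit 9) (nat_lit 6) (nat_lit 6) (nat_lit 8) (by decide +kernel)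
theorem L27885 : W_1 (nat_lit 3) (nat_lit 0xc0014000e0001000000000000000000000000000) (nat_lit 0x0) (nat_lit 0x200000002000180008000000000000000000) := T_1 (nat_lit 91) (nat_lit 141) (nat_lit 5) (nat_lit 6) (nat_lit 5) L27884 (by decide +kernel)
theorem L27886 : W_1 (nat_lit 4) (nat_lit 0x80014000e0001000000000000000000000000000) (nat_lit 0x0) (nat_lit 0x80004000200000002000180008000000000000000000) := T_1 (nat_lit 158) (nat_lit 175) (nat_lit 5) (nat_lit 6) (nat_lit 6) L27885 (by decide +kernel)
theorem L27887 : W_1 (nat_lit 8) (nat_lit 0x80014000e0000000000000000000000000000000) (nat_lit 0x0) (nat_lit 0x280034002300000003e001c0008000000000000000000) := Q_1 (nat_lit 108) (C_1 L27877 (C_1 L27883 (C_1 L27886 N_1))) (by decide +kernel)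
theorem L27888 : W_1 (nat_lit 9) (nat_lit 0x14000e0000000000000000000000000000000) (nat_lit 0x0) (nat_lit 0xa00070007e003f002300000003e001c0008000000000000000000) := Q_1 (nat_lit 159) (C_1 L27805 (C_1 L27807 (C_1 L27874 (C_1 L27875 (C_1 L27887 N_1))))) (by decide +kernel)
theorem L27889 : W_1 (nat_lit 2) (nat_lit 0x34001e0009000000000000000000000000000) (nat_lit 0x0) (nat_lit 0x20000000000000000400020000000000000000000) := D_1 (nat_lit 94) (nat_lit 77) (nat_lit 161) (nat_lit 5) (nat_lit 9) (nat_lit 4) (nat_lit 5) (nat_lit 9) (nat_lit 5) (by decide +kernel)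
theorem L27890 : W_1 (nat_lit 3) (nat_lit 0x34001e0001000000000000000000000000000) (nat_lit 0x0) (nat_lit 0x20000000000018000400020000000000000000000) := T_1 (nat_lit 111) (nat_lit 112) (nat_lit 2) (nat_lit 6) (nat_lit 7) L27889 (by decide +kernel)
theorem L27891 : W_1 (nat_lit 4) (nat_lit 0x14001e0001000000000000000000000000000) (nat_lit 0x0) (nat_lit 0x20006000000018000400020000000000000000000) := T_1 (nat_lit 145) (nat_lit 146) (nat_lit 3) (nat_lit 6) (nat_lit 7) L27890 (by decide +kernel)
theorem L27892 : W_1 (nat_lit 5) (nat_lit 0x14001e0000000000000000000000000000000) (nat_lit 0x0) (nat_lit 0x20006000000019800400020000000000000000000) := T_1 (nat_lit 108) (nat_lit 107) (nat_lit 0) (nat_lit 9) (nat_lit 7) L27891 (by decide +kernel)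
theorem L27893 : W_1 (nat_lit 6) (nat_lit 0x14000e0000000000000000000000000000000) (nat_lit 0x0) (nat_lit 0x20006200100019800400020000000000000000000) := T_1 (nat_lit 128) (nat_lit 141) (nat_lit 1) (nat_lit 9) (nat_lit 7) L27892 (by decide +kernel)
theorem L27894 : W_1 (nat_lit 2) (nat_lit 0x34001e0008000000000000000000000000000) (nat_lit 0x0) (nat_lit 0x400020000000000000000400000000000000000000000) := D_1 (nat_lit 161) (nat_lit 178) (nat_lit 94) (nat_lit 6) (nat_lit 8) (nat_lit 10) (nat_lit 5) (nat_lit 9) (nat_lit 5) (by decide +kernel)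
theorem L27895 : W_1 (nat_lit 3) (nat_lit 0x14001e0008000000000000000000000000000) (nat_lit 0x0) (nat_lit 0x400020006000000000000400000000000000000000000) := T_1 (nat_lit 145) (nat_lit 146) (nat_lit 3) (nat_lit 6) (nat_lit 7) L27894 (by decide +kernel)
theorem L27896 : W_1 (nat_lit 4) (nat_lit 0x14001e0000000000000000000000000000000) (nat_lit 0x0) (nat_lit 0x400020006000000018000400000000000000000000000) := T_1 (nat_lit 111) (nat_lit 112) (nat_lit 2) (nat_lit 6) (nat_lit 7) L27895 (by decide +kernel)
theorem L27897 : W_1 (nat_lit 5) (nat_lit 0x14000e0000000000000000000000000000000) (nat_lit 0x0) (nat_lit 0x400020006200100018000400000000000000000000000) := T_1 (nat_lit 128) (nat_lit 141) (nat_lit 1) (nat_lit 9) (nat_lit 7) L27896 (by decide +kernel)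
theorem L27898 : W_1 (nat_lit 3) (nat_lit 0x34001e0001000000000000000000000000000) (nat_lit 0x0) (nat_lit 0x8000000200002000100008000000000000000000) := T_1 (nat_lit 109) (nat_lit 129) (nat_lit 0) (nat_lit 10) (nat_lit 7) L23449 (by decide +kernel)
theorem L27899 : W_1 (nat_lit 4) (nat_lit 0x34001e0000000000000000000000000000000) (nat_lit 0x0) (nat_lit 0x8000000200003800100008000000000000000000) := T_1 (nat_lit 108) (nat_lit 107) (nat_lit 0) (nat_lit 9) (nat_lit 7) L27898 (by decide +kernel)
theorem L27900 : W_1 (nat_lit 5) (nat_lit 0x14001e0000000000000000000000000000000) (nat_lit 0x0) (nat_lit 0x8006000200003800100008000000000000000000) := T_1 (nat_lit 145) (nat_lit 146) (nat_lit 3) (nat_lit 6) (nat_lit 7) L27899 (by decide +kernel)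
theorem L27901 : W_1 (nat_lit 6) (nat_lit 0x14000e0000000000000000000000000000000) (nat_lit 0x0) (nat_lit 0x40002800600030001b800500008000000000000000000) := Q_1 (nat_lit 128) (C_1 L27896 (C_1 L27900 (C_1 L22515 N_1))) (by decide +kernel)
theorem L27902 : W_1 (nat_lit 10) (nat_lit 0x14000a0000000000000000000000000000000) (nat_lit 0x0) (nat_lit 0xa00070007e003f00630034001be005c0028000000000000000000) := Q_1 (nat_lit 126) (C_1 L27801 (C_1 L23626 (C_1 L27888 (C_1 L27893 (C_1 L27897 (C_1 L27901 N_1)))))) (by decide +kernel)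
theorem L27903 : W_1 (nat_lit 2) (nat_lit 0x16000e0000000000000000000000000000000) (nat_lit 0x0) (nat_lit 0x180010000000000000000000000000000000) := D_1 (nat_lit 140) (nat_lit 124) (nat_lit 139) (nat_lit 1) (nat_lit 8) (nat_lit 7) (nat_lit 2) (nat_lit 3) (nat_lit 8) (by decide +kernel)
theorem L27904 : W_1 (nat_lit 3) (nat_lit 0x14000e0000000000000000000000000000000) (nat_lit 0x0) (nat_lit 0x380110000000000000000000000000000000) := T_1 (nat_lit 141) (nat_lit 128) (nat_lit 1) (nat_lit 9) (nat_lit 7) L27903 (by decide +kernel)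
theorem L27905 : W_1 (nat_lit 2) (nat_lit 0x16000f00018001e0000000000000000000000) (nat_lit 0x0) (nat_lit 0x2000018000000000000000000000) := D_1 (nat_lit 88) (nat_lit 109) (nat_lit 87) (nat_lit 3) (nat_lit 3) (nat_lit 5) (nat_lit 3) (nat_lit 2) (nat_lit 5) (by decide +kernel)
theorem L27906 : W_1 (nat_lit 3) (nat_lit 0x16000f00018001c0000000000000000000000) (nat_lit 0x0) (nat_lit 0x2000038001000000000000000000) := T_1 (nat_lit 89) (nat_lit 72) (nat_lit 4) (nat_lit 5) (nat_lit 8) L27905 (by decide +kernel)
theorem L27907 : W_1 (nat_lit 4) (nat_lit 0x16000f00018000c0000000000000000000000) (nat_lit 0x0) (nat_lit 0x2000138009000000000000000000) := T_1 (nat_lit 92) (nat_lit 75) (nat_lit 6) (nat_lit 6) (nat_lit 8) L27906 (by decide +kernel)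
theorem L27908 : W_1 (nat_lit 5) (nat_lit 0x16000f00008000c0000000000000000000000) (nat_lit 0x0) (nat_lit 0x4000000000003000138009000000000000000000) := T_1 (nat_lit 108) (nat_lit 158) (nat_lit 6) (nat_lit 5) (nat_lit 9) L27907 (by decide +kernel)
theorem L27909 : W_1 (nat_lit 6) (nat_lit 0x16000f0000800040000000000000000000000) (nat_lit 0x0) (nat_lit 0x40000000000030001b800d000000000000000000) := T_1 (nat_lit 91) (nat_lit 74) (nat_lit 6) (nat_lit 5) (nat_lit 8) L27908 (by decide +kernel)
theorem L27910 : W_1 (nat_lit 7) (nat_lit 0x16000f0000800000000000000000000000000) (nat_lit 0x0) (nat_lit 0x40000000000030001f800f000000000000000000) := T_1 (nat_lit 90) (nat_lit 73) (nat_lit 7) (nat_lit 5) (nat_lit 4) L27909 (by decide +kernel)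
theorem L27911 : W_1 (nat_lit 8) (nat_lit 0x16000f0000000000000000000000000000000) (nat_lit 0x0) (nat_lit 0x4000000000003c001f800f000000000000000000) := T_1 (nat_lit 107) (nat_lit 106) (nat_lit 0) (nat_lit 8) (nat_lit 7) L27910 (by decide +kernel)
theorem L27912 : W_1 (nat_lit 9) (nat_lit 0x14000f0000000000000000000000000000000) (nat_lit 0x0) (nat_lit 0x4000300000003c001f800f000000000000000000) := T_1 (nat_lit 141) (nat_lit 140) (nat_lit 1) (nat_lit 8) (nat_lit 7) L27911 (by decide +kernel)
theorem L27913 : W_1 (nat_lit 10) (nat_lit 0x14000e0000000000000000000000000000000) (nat_lit 0x0) (nat_lit 0x4002300010003c001f800f000000000000000000) := T_1 (nat_lit 124) (nat_lit 145) (nat_lit 3) (nat_lit 5) (nat_lit 7) L27912 (by decide +kernel)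
theorem L27914 : W_1 (nat_lit 9) (nat_lit 0x34000e0000000000000000000000000000000) (nat_lit 0x0) (nat_lit 0x400010001b800f8007c000000000000000000) := T_1 (nat_lit 128) (nat_lit 146) (nat_lit 3) (nat_lit 6) (nat_lit 7) L22533 (by decide +kernel)
theorem L27915 : W_1 (nat_lit 10) (nat_lit 0x14000e0000000000000000000000000000000) (nat_lit 0x0) (nat_lit 0x600011001b800f8007c000000000000000000) := T_1 (nat_lit 145) (nat_lit 124) (nat_lit 3) (nat_lit 5) (nat_lit 7) L27914 (by decide +kernel)
theorem L27916 : W_1 (nat_lit 11) (nat_lit 0x14000a0000000000000000000000000000000) (nat_lit 0x0) (nat_lit 0x40002400638015001bc00ff807f000000000000000000) := Q_1 (nat_lit 126) (C_1 L27904 (C_1 L27913 (C_1 L27897 (C_1 L27915 N_1)))) (by decide +kernel)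
theorem L27917 : W_1 (nat_lit 2) (nat_lit 0x80014000f0000000000000000000000000000000) (nat_lit 0x0) (nat_lit 0x100000000000000002800000000000000000000000000) := D_1 (nat_lit 176) (nat_lit 107) (nat_lit 109) (nat_lit 4) (nat_lit 6) (nat_lit 10) (nat_lit 6) (nat_lit 6) (nat_lit 10) (by decide +kernel)
theorem L27918 : W_1 (nat_lit 2) (nat_lit 0x80016000f0000000000000000000000000000000) (nat_lit 0x0) (nat_lit 0x2000100000000000000000800000000000000000000000000) := D_1 (nat_lit 176) (nat_lit 107) (nat_lit 193) (nat_lit 4) (nat_lit 6) (nat_lit 10) (nat_lit 4) (nat_lit 6) (nat_lit 11) (by decide +kernel)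
theorem L27919 : W_1 (nat_lit 3) (nat_lit 0x80014000f0000000000000000000000000000000) (nat_lit 0x0) (nat_lit 0x2000100000000300000000800000000000000000000000000) := T_1 (nat_lit 141) (nat_lit 140) (nat_lit 1) (nat_lit 8) (nat_lit 7) L27918 (by decide +kernel)
theorem L27920 : W_1 (nat_lit 2) (nat_lit 0x80016000f0001000000000000000000000000000) (nat_lit 0x0) (nat_lit 0x80004000000000000000080000000000000000000000) := D_1 (nat_lit 158) (nat_lit 175) (nat_lit 91) (nat_lit 6) (nat_lit 5) (nat_lit 10) (nat_lit 5) (nat_lit 6) (nat_lit 5) (by decide +kernel)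
theorem L27921 : W_1 (nat_lit 3) (nat_lit 0x80014000f0001000000000000000000000000000) (nat_lit 0x0) (nat_lit 0x80004000300000000000080000000000000000000000) := T_1 (nat_lit 141) (nat_lit 140) (nat_lit 1) (nat_lit 8) (nat_lit 7) L27920 (by decide +kernel)
theorem L27922 : W_1 (nat_lit 2) (nat_lit 0x4000180016000f4003000000000000000000000000000) (nat_lit 0x0) (nat_lit 0x4000000000000000080004000000000000000000) := D_1 (nat_lit 91) (nat_lit 158) (nat_lit 74) (nat_lit 5) (nat_lit 6) (nat_lit 5) (nat_lit 5) (nat_lit 6) (nat_lit 4) (by decide +kernel)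
theorem L27923 : W_1 (nat_lit 3) (nat_lit 0x4000180014000f4003000000000000000000000000000) (nat_lit 0x0) (nat_lit 0x4000300000000000080004000000000000000000) := T_1 (nat_lit 141) (nat_lit 140) (nat_lit 1) (nat_lit 8) (nat_lit 7) L27922 (by decide +kernel)
theorem L27924 : W_1 (nat_lit 4) (nat_lit 0x4000180014000f0003000000000000000000000000000) (nat_lit 0x0) (nat_lit 0x400030000c000000080004000000000000000000) := T_1 (nat_lit 122) (nat_lit 123) (nat_lit 2) (nat_lit 3) (nat_lit 7) L27923 (by decide +kernel)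
theorem L27925 : W_1 (nat_lit 5) (nat_lit 0x180014000f0003000000000000000000000000000) (nat_lit 0x0) (nat_lit 0x40002400030000c000000080004000000000000000000) := T_1 (nat_lit 178) (nat_lit 161) (nat_lit 4) (nat_lit 8) (nat_lit 10) L27924 (by decide +kernel)
theorem L27926 : W_1 (nat_lit 6) (nat_lit 0x180014000f0001000000000000000000000000000) (nat_lit 0x0) (nat_lit 0x40002400030000c002000180004000000000000000000) := T_1 (nat_lit 109) (nat_lit 92) (nat_lit 6) (nat_lit 6) (nat_lit 9) L27925 (by decide +kernel)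
theorem L27927 : W_1 (nat_lit 7) (nat_lit 0x80014000f0001000000000000000000000000000) (nat_lit 0x0) (nat_lit 0x60003400030000c002000180004000000000000000000) := T_1 (nat_lit 160) (nat_lit 177) (nat_lit 7) (nat_lit 6) (nat_lit 6) L27926 (by decide +kernel)
theorem L27928 : W_1 (nat_lit 2) (nat_lit 0x4000180014000f8003800000000000000000000000000) (nat_lit 0x0) (nat_lit 0x380000000000000000000000000000000000) := D_1 (nat_lit 140) (nat_lit 139) (nat_lit 141) (nat_lit 1) (nat_lit 7) (nat_lit 7) (nat_lit 1) (nat_lit 8) (nat_lit 7) (by decide +kernel)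
theorem L27929 : W_1 (nat_lit 3) (nat_lit 0x4000180014000f0003800000000000000000000000000) (nat_lit 0x0) (nat_lit 0x38000c000000000000000000000000000000) := T_1 (nat_lit 123) (nat_lit 122) (nat_lit 2) (nat_lit 3) (nat_lit 7) L27928 (by decide +kernel)
theorem L27930 : W_1 (nat_lit 4) (nat_lit 0x180014000f0003800000000000000000000000000) (nat_lit 0x0) (nat_lit 0x40002000038000c000000000000000000000000000000) := T_1 (nat_lit 178) (nat_lit 161) (nat_lit 4) (nat_lit 8) (nat_lit 10) L27929 (by decide +kernel)
theorem L27931 : W_1 (nat_lit 5) (nat_lit 0x180014000f0001800000000000000000000000000) (nat_lit 0x0) (nat_lit 0x40002000038000c002000100000000000000000000000) := T_1 (nat_lit 109) (nat_lit 92) (nat_lit 6) (nat_lit 6) (nat_lit 9) L27930 (by decide +kernel)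
theorem L27932 : W_1 (nat_lit 6) (nat_lit 0x80014000f0001800000000000000000000000000) (nat_lit 0x0) (nat_lit 0x60003000038000c002000100000000000000000000000) := T_1 (nat_lit 160) (nat_lit 177) (nat_lit 7) (nat_lit 6) (nat_lit 6) L27931 (by decide +kernel)
theorem L27933 : W_1 (nat_lit 7) (nat_lit 0x80014000f0001000000000000000000000000000) (nat_lit 0x0) (nat_lit 0x60003000038000c002800140000000000000000000000) := T_1 (nat_lit 107) (nat_lit 90) (nat_lit 4) (nat_lit 6) (nat_lit 9) L27932 (by decide +kernel)
theorem L27934 : W_1 (nat_lit 2) (nat_lit 0x1c0014000f00010000c0000000000000000000000) (nat_lit 0x0) (nat_lit 0x2000100008000000000000000000) := D_1 (nat_lit 92) (nat_lit 109) (nat_lit 75) (nat_lit 6) (nat_lit 6) (nat_lit 9) (nat_lit 6) (nat_lit 6) (nat_lit 8) (by decide +kernel)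
theorem L27935 : W_1 (nat_lit 3) (nat_lit 0x1c0014000f0001000040000000000000000000000) (nat_lit 0x0) (nat_lit 0x200018000a000000000000000000) := T_1 (nat_lit 91) (nat_lit 73) (nat_lit 4) (nat_lit 6) (nat_lit 8) L27934 (by decide +kernel)
theorem L27936 : W_1 (nat_lit 4) (nat_lit 0xc0014000f0001000040000000000000000000000) (nat_lit 0x0) (nat_lit 0x20001000000000000200018000a000000000000000000) := T_1 (nat_lit 160) (nat_lit 177) (nat_lit 7) (nat_lit 6) (nat_lit 6) L27935 (by decide +kernel)
theorem L27937 : W_1 (nat_lit 5) (nat_lit 0xc0014000f0001000000000000000000000000000) (nat_lit 0x0) (nat_lit 0x2000100000000000028001c000a000000000000000000) := T_1 (nat_lit 90) (nat_lit 107) (nat_lit 4) (nat_lit 6) (nat_lit 9) L27936 (by decide +kernel)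
theorem L27938 : W_1 (nat_lit 6) (nat_lit 0x80014000f0001000000000000000000000000000) (nat_lit 0x0) (nat_lit 0x2800140000000000028001c000a000000000000000000) := T_1 (nat_lit 158) (nat_lit 175) (nat_lit 5) (nat_lit 6) (nat_lit 6) L27937 (by decide +kernel)
theorem L27939 : W_1 (nat_lit 8) (nat_lit 0x80014000f0000000000000000000000000000000) (nat_lit 0x0) (nat_lit 0x68003400038000c0038001c000e000000000000000000) := Q_1 (nat_lit 108) (C_1 L27921 (C_1 L27927 (C_1 L27933 (C_1 L27938 N_1)))) (by decide +kernel)
theorem L27940 : W_1 (nat_lit 2) (nat_lit 0x80016000f0000000000000000000000000000000) (nat_lit 0x0) (nat_lit 0x2000100000000000000002000000000000000000000000000) := D_1 (nat_lit 176) (nat_lit 109) (nat_lit 193) (nat_lit 6) (nat_lit 6) (nat_lit 10) (nat_lit 4) (nat_lit 6) (nat_lit 11) (by decide +kernel)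
theorem L27941 : W_1 (nat_lit 3) (nat_lit 0x80014000f0000000000000000000000000000000) (nat_lit 0x0) (nat_lit 0x2000100000000300000002000000000000000000000000000) := T_1 (nat_lit 141) (nat_lit 140) (nat_lit 1) (nat_lit 8) (nat_lit 7) L27940 (by decide +kernel)
theorem L27942 : W_1 (nat_lit 9) (nat_lit 0x14000f0000000000000000000000000000000) (nat_lit 0x0) (nat_lit 0x200078003c00038000c0038001c000e000000000000000000) := Q_1 (nat_lit 159) (C_1 L27917 (C_1 L27919 (C_1 L27939 (C_1 L27941 N_1)))) (by decide +kernel)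
theorem L27943 : W_1 (nat_lit 2) (nat_lit 0x16000f0000800000000000000000000000000) (nat_lit 0x0) (nat_lit 0x100008000000000000000040000000000000000000000) := D_1 (nat_lit 159) (nat_lit 176) (nat_lit 90) (nat_lit 4) (nat_lit 6) (nat_lit 10) (nat_lit 7) (nat_lit 5) (nat_lit 5) (by decide +kernel)
theorem L27944 : W_1 (nat_lit 3) (nat_lit 0x16000f0000000000000000000000000000000) (nat_lit 0x0) (nat_lit 0x100008000000000000c00040000000000000000000000) := T_1 (nat_lit 107) (nat_lit 106) (nat_lit 0) (nat_lit 8) (nat_lit 7) L27943 (by decide +kernel)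
theorem L27945 : W_1 (nat_lit 4) (nat_lit 0x14000f0000000000000000000000000000000) (nat_lit 0x0) (nat_lit 0x100008000300000000c00040000000000000000000000) := T_1 (nat_lit 141) (nat_lit 140) (nat_lit 1) (nat_lit 8) (nat_lit 7) L27944 (by decide +kernel)
theorem L27946 : W_1 (nat_lit 2) (nat_lit 0x80014000f0000800000000000000000000000000) (nat_lit 0x0) (nat_lit 0x1000040002000000000000000000) := D_1 (nat_lit 90) (nat_lit 108) (nat_lit 73) (nat_lit 4) (nat_lit 6) (nat_lit 9) (nat_lit 7) (nat_lit 5) (nat_lit 4) (by decide +kernel)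
theorem L27947 : W_1 (nat_lit 3) (nat_lit 0x14000f0000800000000000000000000000000) (nat_lit 0x0) (nat_lit 0x100008000000000001000040002000000000000000000) := T_1 (nat_lit 159) (nat_lit 176) (nat_lit 4) (nat_lit 6) (nat_lit 10) L27946 (by decide +kernel)
theorem L27948 : W_1 (nat_lit 4) (nat_lit 0x14000f0000000000000000000000000000000) (nat_lit 0x0) (nat_lit 0x100008000000000001c00040002000000000000000000) := T_1 (nat_lit 107) (nat_lit 106) (nat_lit 0) (nat_lit 8) (nat_lit 7) L27947 (by decide +kernel)
theorem L27949 : W_1 (nat_lit 2) (nat_lit 0x14000f8000000000000000000000000000000) (nat_lit 0x0) (nat_lit 0x380000000000000000000000000000000000) := D_1 (nat_lit 140) (nat_lit 141) (nat_lit 139) (nat_lit 1) (nat_lit 8) (nat_lit 7) (nat_lit 1) (nat_lit 7) (nat_lit 7) (by decide +kernel)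
theorem L27950 : W_1 (nat_lit 2) (nat_lit 0x14800fc000000000000000000000000000000) (nat_lit 0x0) (nat_lit 0x700000000000000000000000000) := D_1 (nat_lit 105) (nat_lit 104) (nat_lit 106) (nat_lit 0) (nat_lit 6) (nat_lit 7) (nat_lit 0) (nat_lit 7) (nat_lit 7) (by decide +kernel)
theorem L27951 : W_1 (nat_lit 3) (nat_lit 0x14800f8000000000000000000000000000000) (nat_lit 0x0) (nat_lit 0x40004000700000000000000000000000000) := T_1 (nat_lit 122) (nat_lit 138) (nat_lit 1) (nat_lit 6) (nat_lit 7) L27950 (by decide +kernel)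
theorem L27952 : W_1 (nat_lit 4) (nat_lit 0x14000f8000000000000000000000000000000) (nat_lit 0x0) (nat_lit 0x1c0004000700000000000000000000000000) := T_1 (nat_lit 139) (nat_lit 140) (nat_lit 1) (nat_lit 7) (nat_lit 7) L27951 (by decide +kernel)
theorem L27953 : W_1 (nat_lit 2) (nat_lit 0x16800fc001200000000000000000000000000) (nat_lit 0x0) (nat_lit 0x4000000000000000080004000000000000000000) := D_1 (nat_lit 91) (nat_lit 74) (nat_lit 158) (nat_lit 5) (nat_lit 6) (nat_lit 4) (nat_lit 5) (nat_lit 6) (nat_lit 5) (by decide +kernel)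
theorem L27954 : W_1 (nat_lit 3) (nat_lit 0x16800fc000200000000000000000000000000) (nat_lit 0x0) (nat_lit 0x4000000000003000080004000000000000000000) := T_1 (nat_lit 108) (nat_lit 109) (nat_lit 2) (nat_lit 3) (nat_lit 7) L27953 (by decide +kernel)
theorem L27955 : W_1 (nat_lit 4) (nat_lit 0x14800fc000200000000000000000000000000) (nat_lit 0x0) (nat_lit 0x4000200002003000080004000000000000000000) := T_1 (nat_lit 141) (nat_lit 121) (nat_lit 3) (nat_lit 2) (nat_lit 7) L27954 (by decide +kernel)
theorem L27956 : W_1 (nat_lit 5) (nat_lit 0x14000fc000200000000000000000000000000) (nat_lit 0x0) (nat_lit 0x40002c0002003000080004000000000000000000) := T_1 (nat_lit 139) (nat_lit 138) (nat_lit 1) (nat_lit 6) (nat_lit 7) L27955 (by decide +kernel)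
theorem L27957 : W_1 (nat_lit 6) (nat_lit 0x14000f8000200000000000000000000000000) (nat_lit 0x0) (nat_lit 0x40002c0006003100080004000000000000000000) := T_1 (nat_lit 122) (nat_lit 104) (nat_lit 0) (nat_lit 6) (nat_lit 7) L27956 (by decide +kernel)
theorem L27958 : W_1 (nat_lit 7) (nat_lit 0x14000f8000000000000000000000000000000) (nat_lit 0x0) (nat_lit 0x40002c0006003700080004000000000000000000) := T_1 (nat_lit 105) (nat_lit 106) (nat_lit 0) (nat_lit 7) (nat_lit 7) L27957 (by decide +kernel)
theorem L27959 : W_1 (nat_lit 2) (nat_lit 0x16000fc001400000001000000000000000000) (nat_lit 0x0) (nat_lit 0x80004000000000000000080000000000000000000000) := D_1 (nat_lit 158) (nat_lit 175) (nat_lit 91) (nat_lit 6) (nat_lit 5) (nat_lit 10) (nat_lit 5) (nat_lit 6) (nat_lit 5) (by decide +kernel)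
theorem L27960 : W_1 (nat_lit 3) (nat_lit 0x16000fc000400000001000000000000000000) (nat_lit 0x0) (nat_lit 0x80004000000000003000080000000000000000000000) := T_1 (nat_lit 108) (nat_lit 109) (nat_lit 2) (nat_lit 3) (nat_lit 7) L27959 (by decide +kernel)
theorem L27961 : W_1 (nat_lit 4) (nat_lit 0x16000fc000400000000000000000000000000) (nat_lit 0x0) (nat_lit 0x800040000000000030000a0001000000000000000000) := T_1 (nat_lit 72) (nat_lit 89) (nat_lit 7) (nat_lit 4) (nat_lit 4) L27960 (by decide +kernel)
theorem L27962 : W_1 (nat_lit 5) (nat_lit 0x16000f8000400000000000000000000000000) (nat_lit 0x0) (nat_lit 0x800040000000060030000a0001000000000000000000) := T_1 (nat_lit 122) (nat_lit 121) (nat_lit 3) (nat_lit 2) (nat_lit 7) L27961 (by decide +kernel)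
theorem L27963 : W_1 (nat_lit 6) (nat_lit 0x14000f8000400000000000000000000000000) (nat_lit 0x0) (nat_lit 0x800040003000060030000a0001000000000000000000) := T_1 (nat_lit 141) (nat_lit 140) (nat_lit 1) (nat_lit 8) (nat_lit 7) L27962 (by decide +kernel)
theorem L27964 : W_1 (nat_lit 7) (nat_lit 0x14000f8000000000000000000000000000000) (nat_lit 0x0) (nat_lit 0x800040003000060036000a0001000000000000000000) := T_1 (nat_lit 106) (nat_lit 105) (nat_lit 0) (nat_lit 7) (nat_lit 7) L27963 (by decide +kernel)
theorem L27965 : W_1 (nat_lit 8) (nat_lit 0x14000f0000000000000000000000000000000) (nat_lit 0x0) (nat_lit 0x800040003c000e0037000a0005000000000000000000) := Q_1 (nat_lit 123) (C_1 L27949 (C_1 L27952 (C_1 L27958 (C_1 L27964 N_1)))) (by decide +kernel)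
theorem L27966 : W_1 (nat_lit 10) (nat_lit 0x14000e0000000000000000000000000000000) (nat_lit 0x0) (nat_lit 0x200078003c0003c001e003f001f800f000000000000000000) := Q_1 (nat_lit 124) (C_1 L27942 (C_1 L27945 (C_1 L27912 (C_1 L27948 (C_1 L27965 N_1))))) (by decide +kernel)
theorem L27967 : W_1 (nat_lit 5) (nat_lit 0x14000e0000000000000000000000000000000) (nat_lit 0x0) (nat_lit 0x100008002000010001c00040002000000000000000000) := T_1 (nat_lit 124) (nat_lit 145) (nat_lit 3) (nat_lit 5) (nat_lit 7) L27948 (by decide +kernel)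
theorem L27968 : W_1 (nat_lit 5) (nat_lit 0x14000e0000000000000000000000000000000) (nat_lit 0x0) (nat_lit 0x100008002300010000c00040000000000000000000000) := T_1 (nat_lit 124) (nat_lit 145) (nat_lit 3) (nat_lit 5) (nat_lit 7) L27945 (by decide +kernel)
theorem L27969 : W_1 (nat_lit 2) (nat_lit 0x380034000e0002000000008000000000000000000) (nat_lit 0x0) (nat_lit 0x40004200000000000000000000000000000000000) := D_1 (nat_lit 162) (nat_lit 141) (nat_lit 146) (nat_lit 0) (nat_lit 9) (nat_lit 9) (nat_lit 2) (nat_lit 6) (nat_lit 9) (by decide +kernel)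
theorem L27970 : W_1 (nat_lit 3) (nat_lit 0x280034000e0002000000008000000000000000000) (nat_lit 0x0) (nat_lit 0x54004200000000000000000000000000000000000) := T_1 (nat_lit 160) (nat_lit 158) (nat_lit 2) (nat_lit 5) (nat_lit 9) L27969 (by decide +kernel)
theorem L27971 : W_1 (nat_lit 4) (nat_lit 0x80034000e0002000000008000000000000000000) (nat_lit 0x0) (nat_lit 0x400074004200000000000000000000000000000000000) := T_1 (nat_lit 161) (nat_lit 178) (nat_lit 4) (nat_lit 8) (nat_lit 10) L27970 (by decide +kernel)
theorem L27972 : W_1 (nat_lit 5) (nat_lit 0x34000e0002000000008000000000000000000) (nat_lit 0x0) (nat_lit 0x50007c004200000000000000000000000000000000000) := T_1 (nat_lit 159) (nat_lit 176) (nat_lit 6) (nat_lit 6) (nat_lit 10) L27971 (by decide +kernel)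
theorem L27973 : W_1 (nat_lit 6) (nat_lit 0x34000e0002000000000000000000000000000) (nat_lit 0x0) (nat_lit 0x50007c004200000000000100008000000000000000000) := T_1 (nat_lit 75) (nat_lit 92) (nat_lit 7) (nat_lit 7) (nat_lit 4) L27972 (by decide +kernel)
theorem L27974 : W_1 (nat_lit 7) (nat_lit 0x14000e0002000000000000000000000000000) (nat_lit 0x0) (nat_lit 0x50007c006200010000000100008000000000000000000) := T_1 (nat_lit 145) (nat_lit 124) (nat_lit 3) (nat_lit 5) (nat_lit 7) L27973 (by decide +kernel)
theorem L27975 : W_1 (nat_lit 2) (nat_lit 0x4000000015000f8002200000008000000000000000000) (nat_lit 0x0) (nat_lit 0x4001100000000000000000000000000) := D_1 (nat_lit 122) (nat_lit 104) (nat_lit 108) (nat_lit 0) (nat_lit 6) (nat_lit 7) (nat_lit 2) (nat_lit 3) (nat_lit 7) (by decide +kernel)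
theorem L27976 : W_1 (nat_lit 3) (nat_lit 0x4000000015000f8002000000008000000000000000000) (nat_lit 0x0) (nat_lit 0x4001700000000000000000000000000) := T_1 (nat_lit 105) (nat_lit 106) (nat_lit 0) (nat_lit 7) (nat_lit 7) L27975 (by decide +kernel)
theorem L27977 : W_1 (nat_lit 4) (nat_lit 0x4000000015000f0002000000008000000000000000000) (nat_lit 0x0) (nat_lit 0x8000c001700000000000000000000000000) := T_1 (nat_lit 123) (nat_lit 139) (nat_lit 1) (nat_lit 7) (nat_lit 7) L27976 (by decide +kernel)
theorem L27978 : W_1 (nat_lit 5) (nat_lit 0x4000000014000f0002000000008000000000000000000) (nat_lit 0x0) (nat_lit 0x38000c001700000000000000000000000000) := T_1 (nat_lit 140) (nat_lit 141) (nat_lit 1) (nat_lit 8) (nat_lit 7) L27977 (by decide +kernel)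
theorem L27979 : W_1 (nat_lit 6) (nat_lit 0x4000000014000e0002000000008000000000000000000) (nat_lit 0x0) (nat_lit 0x238001c001700000000000000000000000000) := T_1 (nat_lit 124) (nat_lit 145) (nat_lit 3) (nat_lit 5) (nat_lit 7) L27978 (by decide +kernel)
theorem L27980 : W_1 (nat_lit 7) (nat_lit 0x4000000014000e0002000000000000000000000000000) (nat_lit 0x0) (nat_lit 0x238001c001700100008000000000000000000) := T_1 (nat_lit 75) (nat_lit 92) (nat_lit 7) (nat_lit 7) (nat_lit 4) L27979 (by decide +kernel)
theorem L27981 : W_1 (nat_lit 8) (nat_lit 0x14000e0002000000000000000000000000000) (nat_lit 0x0) (nat_lit 0x40002000238001c001700100008000000000000000000) := T_1 (nat_lit 178) (nat_lit 161) (nat_lit 4) (nat_lit 8) (nat_lit 10) L27980 (by decide +kernel)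
theorem L27982 : W_1 (nat_lit 2) (nat_lit 0x5000000015000f8002200000000000000000000000000) (nat_lit 0x0) (nat_lit 0x4001100000000000000000000000000) := D_1 (nat_lit 122) (nat_lit 108) (nat_lit 104) (nat_lit 2) (nat_lit 3) (nat_lit 7) (nat_lit 0) (nat_lit 6) (nat_lit 7) (by decide +kernel)
theorem L27983 : W_1 (nat_lit 3) (nat_lit 0x5000000015000f8002000000000000000000000000000) (nat_lit 0x0) (nat_lit 0x4001700000000000000000000000000) := T_1 (nat_lit 105) (nat_lit 106) (nat_lit 0) (nat_lit 7) (nat_lit 7) L27982 (by decide +kernel)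
theorem L27984 : W_1 (nat_lit 4) (nat_lit 0x5000000015000f0002000000000000000000000000000) (nat_lit 0x0) (nat_lit 0x8000c001700000000000000000000000000) := T_1 (nat_lit 123) (nat_lit 139) (nat_lit 1) (nat_lit 7) (nat_lit 7) L27983 (by decide +kernel)
theorem L27985 : W_1 (nat_lit 5) (nat_lit 0x5000000014000f0002000000000000000000000000000) (nat_lit 0x0) (nat_lit 0x38000c001700000000000000000000000000) := T_1 (nat_lit 140) (nat_lit 141) (nat_lit 1) (nat_lit 8) (nat_lit 7) L27984 (by decide +kernel)
theorem L27986 : W_1 (nat_lit 6) (nat_lit 0x5000000014000e0002000000000000000000000000000) (nat_lit 0x0) (nat_lit 0x238001c001700000000000000000000000000) := T_1 (nat_lit 124) (nat_lit 145) (nat_lit 3) (nat_lit 5) (nat_lit 7) L27985 (by decide +kernel)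
theorem L27987 : W_1 (nat_lit 7) (nat_lit 0x1000000014000e0002000000000000000000000000000) (nat_lit 0x0) (nat_lit 0x40002000238001c001700000000000000000000000000) := T_1 (nat_lit 178) (nat_lit 161) (nat_lit 4) (nat_lit 8) (nat_lit 10) L27986 (by decide +kernel)
theorem L27988 : W_1 (nat_lit 8) (nat_lit 0x14000e0002000000000000000000000000000) (nat_lit 0x0) (nat_lit 0x50002800238001c001700000000000000000000000000) := T_1 (nat_lit 176) (nat_lit 159) (nat_lit 6) (nat_lit 6) (nat_lit 10) L27987 (by decide +kernel)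
theorem L27989 : W_1 (nat_lit 9) (nat_lit 0x14000e0000000000000000000000000000000) (nat_lit 0x0) (nat_lit 0x50007c00638001c003700100008000000000000000000) := Q_1 (nat_lit 109) (C_1 L27974 (C_1 L27981 (C_1 L23595 (C_1 L27988 N_1)))) (by decide +kernel)
theorem L28022 : W_1 (nat_lit 2) (nat_lit 0x14000f8002000000000000000000000000000) (nat_lit 0x0) (nat_lit 0x380000000000000000000000000000000000) := D_1 (nat_lit 140) (nat_lit 141) (nat_lit 139) (nat_lit 1) (nat_lit 8) (nat_lit 7) (nat_lit 1) (nat_lit 7) (nat_lit 7) (by decide +kernel)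
theorem L28023 : W_1 (nat_lit 2) (nat_lit 0x4000000014800f8002000000000000000000000000000) (nat_lit 0x0) (nat_lit 0x40004001000000000000000000000000000) := D_1 (nat_lit 122) (nat_lit 138) (nat_lit 108) (nat_lit 1) (nat_lit 6) (nat_lit 7) (nat_lit 2) (nat_lit 3) (nat_lit 7) (by decide +kernel)
theorem L28024 : W_1 (nat_lit 3) (nat_lit 0x4000000014000f8002000000000000000000000000000) (nat_lit 0x0) (nat_lit 0x1c0004001000000000000000000000000000) := T_1 (nat_lit 139) (nat_lit 140) (nat_lit 1) (nat_lit 7) (nat_lit 7) L28023 (by decide +kernel)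
theorem L28025 : W_1 (nat_lit 4) (nat_lit 0x14000f8002000000000000000000000000000) (nat_lit 0x0) (nat_lit 0x4000200001c0004001000000000000000000000000000) := T_1 (nat_lit 178) (nat_lit 161) (nat_lit 4) (nat_lit 8) (nat_lit 10) L28024 (by decide +kernel)
theorem L28026 : W_1 (nat_lit 2) (nat_lit 0x14800fe002000000000000000000000000000) (nat_lit 0x0) (nat_lit 0x380000000000000000000000000) := D_1 (nat_lit 104) (nat_lit 103) (nat_lit 105) (nat_lit 0) (nat_lit 5) (nat_lit 7) (nat_lit 0) (nat_lit 6) (nat_lit 7) (by decide +kernel)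
theorem L28027 : W_1 (nat_lit 3) (nat_lit 0x14800fc002000000000000000000000000000) (nat_lit 0x0) (nat_lit 0x200002000380000000000000000000000000) := T_1 (nat_lit 121) (nat_lit 141) (nat_lit 3) (nat_lit 2) (nat_lit 7) L28026 (by decide +kernel)
theorem L28028 : W_1 (nat_lit 4) (nat_lit 0x14000fc002000000000000000000000000000) (nat_lit 0x0) (nat_lit 0x2c0002000380000000000000000000000000) := T_1 (nat_lit 139) (nat_lit 138) (nat_lit 1) (nat_lit 6) (nat_lit 7) L28027 (by decide +kernel)
theorem L28029 : W_1 (nat_lit 5) (nat_lit 0x14000f8002000000000000000000000000000) (nat_lit 0x0) (nat_lit 0x2c0006001380000000000000000000000000) := T_1 (nat_lit 122) (nat_lit 108) (nat_lit 2) (nat_lit 3) (nat_lit 7) L28028 (by decide +kernel)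
theorem L28030 : W_1 (nat_lit 2) (nat_lit 0x14000fc002000000000000000000000000000) (nat_lit 0x0) (nat_lit 0x300002000000000000000000000000000000) := D_1 (nat_lit 141) (nat_lit 140) (nat_lit 121) (nat_lit 1) (nat_lit 8) (nat_lit 7) (nat_lit 3) (nat_lit 2) (nat_lit 7) (by decide +kernel)
theorem L28031 : W_1 (nat_lit 3) (nat_lit 0x14000f8002000000000000000000000000000) (nat_lit 0x0) (nat_lit 0x300006001000000000000000000000000000) := T_1 (nat_lit 122) (nat_lit 108) (nat_lit 2) (nat_lit 3) (nat_lit 7) L28030 (by decide +kernel)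
theorem L28032 : W_1 (nat_lit 6) (nat_lit 0x14000f0002000000000000000000000000000) (nat_lit 0x0) (nat_lit 0x4000200003c000e001380000000000000000000000000) := Q_1 (nat_lit 123) (C_1 L28022 (C_1 L28025 (C_1 L28029 (C_1 L28031 N_1)))) (by decide +kernel)
theorem L28033 : W_1 (nat_lit 7) (nat_lit 0x14000e0002000000000000000000000000000) (nat_lit 0x0) (nat_lit 0x4000200023c001e001380000000000000000000000000) := T_1 (nat_lit 124) (nat_lit 145) (nat_lit 3) (nat_lit 5) (nat_lit 7) L28032 (by decide +kernel)
theorem L28034 : W_1 (nat_lit 8) (nat_lit 0x14000e0000000000000000000000000000000) (nat_lit 0x0) (nat_lit 0x50007c0063c001e003380100008000000000000000000) := Q_1 (nat_lit 109) (C_1 L28033 (C_1 L27974 (C_1 L23595 N_1))) (by decide +kernel)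
theorem L28035 : W_1 (nat_lit 11) (nat_lit 0x14000a0000000000000000000000000000000) (nat_lit 0x0) (nat_lit 0xa00070007e007f0063c005e003f801f800f000000000000000000) := Q_1 (nat_lit 126) (C_1 L27913 (C_1 L27966 (C_1 L27967 (C_1 L27968 (C_1 L27888 (C_1 L27989 (C_1 L28034 N_1))))))) (by decide +kernel)
theorem L28036 : W_1 (nat_lit 6) (nat_lit 0x14000a0000000000000000000000000000000) (nat_lit 0x0) (nat_lit 0x500028006380150019c00440002000000000000000000) := Q_1 (nat_lit 126) (C_1 L27904 (C_1 L27968 (C_1 L27897 (C_1 L27967 N_1)))) (by decide +kernel)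
theorem L28037 : W_1 (nat_lit 3) (nat_lit 0x34001e0000000000000000000000000000000) (nat_lit 0x0) (nat_lit 0x400020000000000018000400000000000000000000000) := T_1 (nat_lit 111) (nat_lit 112) (nat_lit 2) (nat_lit 6) (nat_lit 7) L27894 (by decide +kernel)
theorem L28038 : W_1 (nat_lit 4) (nat_lit 0x34000e0000000000000000000000000000000) (nat_lit 0x0) (nat_lit 0x400020004000100018000400000000000000000000000) := T_1 (nat_lit 128) (nat_lit 146) (nat_lit 3) (nat_lit 6) (nat_lit 7) L28037 (by decide +kernel)
theorem L28039 : W_1 (nat_lit 5) (nat_lit 0x14000e0000000000000000000000000000000) (nat_lit 0x0) (nat_lit 0x400020006000110018000400000000000000000000000) := T_1 (nat_lit 145) (nat_lit 124) (nat_lit 3) (nat_lit 5) (nat_lit 7) L28038 (by decide +kernel)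
theorem L28040 : W_1 (nat_lit 6) (nat_lit 0x14000a0000000000000000000000000000000) (nat_lit 0x0) (nat_lit 0x500028006380150018c00440000000000000000000000) := Q_1 (nat_lit 126) (C_1 L27904 (C_1 L27968 (C_1 L27897 (C_1 L28039 N_1)))) (by decide +kernel)
theorem L28041 : W_1 (nat_lit 2) (nat_lit 0x14000e0001800000000000000000000000000) (nat_lit 0x0) (nat_lit 0x10000600000000000000000000000000) := D_1 (nat_lit 106) (nat_lit 124) (nat_lit 105) (nat_lit 0) (nat_lit 8) (nat_lit 7) (nat_lit 3) (nat_lit 3) (nat_lit 6) (by decide +kernel)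
theorem L28042 : W_1 (nat_lit 3) (nat_lit 0x14000e0001000000000000000000000000000) (nat_lit 0x0) (nat_lit 0x110000e00000000000000000000000000) := T_1 (nat_lit 107) (nat_lit 128) (nat_lit 0) (nat_lit 9) (nat_lit 7) L28041 (by decide +kernel)
theorem L28043 : W_1 (nat_lit 2) (nat_lit 0x80014000e0001800000000000000000000000000) (nat_lit 0x0) (nat_lit 0x10000600000000000000000000000000) := D_1 (nat_lit 106) (nat_lit 105) (nat_lit 124) (nat_lit 3) (nat_lit 3) (nat_lit 6) (nat_lit 0) (nat_lit 8) (nat_lit 7) (by decide +kernel)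
theorem L28044 : W_1 (nat_lit 3) (nat_lit 0x80014000e0001000000000000000000000000000) (nat_lit 0x0) (nat_lit 0x10000e00040000000000000000000000) := T_1 (nat_lit 107) (nat_lit 90) (nat_lit 4) (nat_lit 6) (nat_lit 9) L28043 (by decide +kernel)
theorem L28045 : W_1 (nat_lit 2) (nat_lit 0x80014000e0001000000000000000000000000000) (nat_lit 0x0) (nat_lit 0x100000000000000002000100000000000000000000000) := D_1 (nat_lit 109) (nat_lit 176) (nat_lit 92) (nat_lit 6) (nat_lit 6) (nat_lit 10) (nat_lit 6) (nat_lit 6) (nat_lit 9) (by decide +kernel)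
theorem L28046 : W_1 (nat_lit 4) (nat_lit 0x14000e0001000000000000000000000000000) (nat_lit 0x0) (nat_lit 0x100008000000010002e00140000000000000000000000) := Q_1 (nat_lit 159) (C_1 L27877 (C_1 L28044 (C_1 L28045 N_1))) (by decide +kernel)
theorem L28047 : W_1 (nat_lit 5) (nat_lit 0x14000e0001000000000000000000000000000) (nat_lit 0x0) (nat_lit 0x800000030001a800100008000000000000000000) := T_1 (nat_lit 128) (nat_lit 107) (nat_lit 0) (nat_lit 9) (nat_lit 7) L22514 (by decide +kernel)
theorem L28048 : W_1 (nat_lit 4) (nat_lit 0x80014000e0001000000000000000000000000000) (nat_lit 0x0) (nat_lit 0x5000380014000000000000000000000000000000000000000) := T_1 (nat_lit 175) (nat_lit 158) (nat_lit 5) (nat_lit 6) (nat_lit 6) L27818 (by decide +kernel)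
theorem L28049 : W_1 (nat_lit 2) (nat_lit 0x1c0014000e0001000080006000200000000000000) (nat_lit 0x0) (nat_lit 0x8000400020000000000) := D_1 (nat_lit 58) (nat_lit 41) (nat_lit 75) (nat_lit 6) (nat_lit 6) (nat_lit 6) (nat_lit 6) (nat_lit 6) (nat_lit 7) (by decide +kernel)
theorem L28050 : W_1 (nat_lit 3) (nat_lit 0x1c0014000e0001000080006000000000000000000) (nat_lit 0x0) (nat_lit 0x2000000008000600020000000000) := T_1 (nat_lit 57) (nat_lit 109) (nat_lit 7) (nat_lit 6) (nat_lit 3) L28049 (by decide +kernel)
theorem L28051 : W_1 (nat_lit 4) (nat_lit 0x180014000e0001000080006000000000000000000) (nat_lit 0x0) (nat_lit 0x80004000000000002000000008000600020000000000) := T_1 (nat_lit 158) (nat_lit 175) (nat_lit 5) (nat_lit 6) (nat_lit 6) L28050 (by decide +kernel)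
theorem L28052 : W_1 (nat_lit 5) (nat_lit 0x180014000e0001000080002000000000000000000) (nat_lit 0x0) (nat_lit 0x8000400000000000200000000c000700020000000000) := T_1 (nat_lit 74) (nat_lit 56) (nat_lit 4) (nat_lit 6) (nat_lit 7) L28051 (by decide +kernel)
theorem L28053 : W_1 (nat_lit 6) (nat_lit 0x180014000e0001000080000000000000000000000) (nat_lit 0x0) (nat_lit 0x8000400000000000200004000e000700020000000000) := T_1 (nat_lit 73) (nat_lit 90) (nat_lit 4) (nat_lit 6) (nat_lit 8) L28052 (by decide +kernel)
theorem L28054 : W_1 (nat_lit 7) (nat_lit 0x80014000e0001000080000000000000000000000) (nat_lit 0x0) (nat_lit 0x28001400000000000200004000e000700020000000000) := T_1 (nat_lit 160) (nat_lit 177) (nat_lit 7) (nat_lit 6) (nat_lit 6) L28053 (by decide +kernel)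
theorem L28055 : W_1 (nat_lit 2) (nat_lit 0x80014000e0001000080000000000000000000000) (nat_lit 0x0) (nat_lit 0x2000100008000000000000000000) := D_1 (nat_lit 92) (nat_lit 109) (nat_lit 75) (nat_lit 6) (nat_lit 6) (nat_lit 9) (nat_lit 6) (nat_lit 6) (nat_lit 8) (by decide +kernel)
theorem L28056 : W_1 (nat_lit 2) (nat_lit 0xc0014000e0003000080002000000000000000000) (nat_lit 0x0) (nat_lit 0x4000300000000000000) := D_1 (nat_lit 74) (nat_lit 56) (nat_lit 57) (nat_lit 4) (nat_lit 6) (nat_lit 7) (nat_lit 7) (nat_lit 6) (nat_lit 3) (by decide +kernel)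
theorem L28057 : W_1 (nat_lit 3) (nat_lit 0xc0014000e0001000080002000000000000000000) (nat_lit 0x0) (nat_lit 0x2000100004000300000000000000) := T_1 (nat_lit 109) (nat_lit 92) (nat_lit 6) (nat_lit 6) (nat_lit 9) L28056 (by decide +kernel)
theorem L28058 : W_1 (nat_lit 4) (nat_lit 0xc0014000e0001000080000000000000000000000) (nat_lit 0x0) (nat_lit 0x2000140006000300000000000000) := T_1 (nat_lit 73) (nat_lit 90) (nat_lit 4) (nat_lit 6) (nat_lit 8) L28057 (by decide +kernel)
theorem L28059 : W_1 (nat_lit 5) (nat_lit 0x80014000e0001000080000000000000000000000) (nat_lit 0x0) (nat_lit 0x80004000000000002000140006000300000000000000) := T_1 (nat_lit 158) (nat_lit 175) (nat_lit 5) (nat_lit 6) (nat_lit 6) L28058 (by decide +kernel)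
theorem L28060 : W_1 (nat_lit 8) (nat_lit 0x80014000e0001000000000000000000000000000) (nat_lit 0x0) (nat_lit 0x2800140000000000020001c000e000700020000000000) := Q_1 (nat_lit 91) (C_1 L27811 (C_1 L28054 (C_1 L28055 (C_1 L28059 N_1)))) (by decide +kernel)
theorem L28061 : W_1 (nat_lit 9) (nat_lit 0x14000e0001000000000000000000000000000) (nat_lit 0x0) (nat_lit 0x500038001c0000000000020001c000e000700020000000000) := Q_1 (nat_lit 159) (C_1 L28045 (C_1 L28048 (C_1 L28060 N_1))) (by decide +kernel)
theorem L28062 : W_1 (nat_lit 10) (nat_lit 0x14000e0000000000000000000000000000000) (nat_lit 0x0) (nat_lit 0x500038001c00000031001be001c000e000700020000000000) := Q_1 (nat_lit 108) (C_1 L28042 (C_1 L28046 (C_1 L28047 (C_1 L28061 N_1)))) (by decide +kernel)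
theorem L28063 : W_1 (nat_lit 11) (nat_lit 0x14000a0000000000000000000000000000000) (nat_lit 0x0) (nat_lit 0x700078003c0003c035e01bf001f800f000700020000000000) := Q_1 (nat_lit 126) (C_1 L27904 (C_1 L27966 (C_1 L23626 (C_1 L28062 N_1)))) (by decide +kernel)
theorem L28064 : W_1 (nat_lit 11) (nat_lit 0x14000a0000000000000000000000000000000) (nat_lit 0x0) (nat_lit 0x500038003c00638035001be00fc007e000700020000000000) := Q_1 (nat_lit 126) (C_1 L27915 (C_1 L28062 (C_1 L27968 (C_1 L27893 (C_1 L27904 N_1))))) (by decide +kernel)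
theorem L28065 : W_1 (nat_lit 11) (nat_lit 0x14000a0000000000000000000000000000000) (nat_lit 0x0) (nat_lit 0x500038001c00638035001be00fc007e000700020000000000) := Q_1 (nat_lit 126) (C_1 L27915 (C_1 L28062 (C_1 L27968 (C_1 L23626 (C_1 L27904 N_1))))) (by decide +kernel)
theorem L28066 : W_1 (nat_lit 11) (nat_lit 0x14000a0000000000000000000000000000000) (nat_lit 0x0) (nat_lit 0x500078003c00600035001be005c000e000700020000000000) := Q_1 (nat_lit 126) (C_1 L28039 (C_1 L28062 (C_1 L27967 (C_1 L27901 N_1)))) (by decide +kernel)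
theorem L28067 : W_1 (nat_lit 9) (nat_lit 0x14000a0000000000000000000000000000000) (nat_lit 0x0) (nat_lit 0x50007c0063c015e01b380500008000000000000000000) := Q_1 (nat_lit 126) (C_1 L28039 (C_1 L27904 (C_1 L28034 (C_1 L27897 N_1)))) (by decide +kernel)
theorem L28068 : W_1 (nat_lit 12) (nat_lit 0x1400080000000000000000000000000000000) (nat_lit 0x0) (nat_lit 0x20001c002e001fc00ff00ff0063c037e01bf80ff807f000700020000000000) := Q_1 (nat_lit 125) (C_1 L27795 (C_1 L27902 (C_1 L27916 (C_1 L28035 (C_1 L28036 (C_1 L28040 (C_1 L28063 (C_1 L28064 (C_1 L28065 (C_1 L28066 (C_1 L28067 N_1))))))))))) (by decide +kernel)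
theorem L28069 : W_1 (nat_lit 4) (nat_lit 0x1600080000000000000000000000000000000) (nat_lit 0x0) (nat_lit 0x70000900140000000000000000000000000000000) := T_1 (nat_lit 143) (nat_lit 128) (nat_lit 2) (nat_lit 5) (nat_lit 8) L27353 (by decide +kernel)
theorem L28070 : W_1 (nat_lit 4) (nat_lit 0x1600080000000000000000000000000000000) (nat_lit 0x0) (nat_lit 0x90015c000000000000000000000000000000) := T_1 (nat_lit 143) (nat_lit 128) (nat_lit 2) (nat_lit 5) (nat_lit 8) L27305 (by decide +kernel)
theorem L28071 : W_1 (nat_lit 11) (nat_lit 0x1600080000000000000000000000000000000) (nat_lit 0x0) (nat_lit 0xc001f800fc007f00090007c003c001e000c000000000000000000) := Q_1 (nat_lit 143) (C_1 L27353 (C_1 L27519 (C_1 L27305 (C_1 L27249 N_1)))) (by decide +kernel)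
theorem L28072 : W_1 (nat_lit 6) (nat_lit 0x1600080000000000000000000000000000000) (nat_lit 0x0) (nat_lit 0x77000900118000000000000000000000000000000) := T_1 (nat_lit 143) (nat_lit 128) (nat_lit 2) (nat_lit 5) (nat_lit 8) L27249 (by decide +kernel)
theorem L28073 : W_1 (nat_lit 3) (nat_lit 0x16000a0000000000000000000000000000000) (nat_lit 0x0) (nat_lit 0x180150000000000000000000000000000000) := T_1 (nat_lit 126) (nat_lit 128) (nat_lit 1) (nat_lit 9) (nat_lit 7) L27903 (by decide +kernel)
theorem L28074 : W_1 (nat_lit 9) (nat_lit 0x16000b0000000000000000000000000000000) (nat_lit 0x0) (nat_lit 0x4000100040003c001f800f000000000000000000) := T_1 (nat_lit 126) (nat_lit 140) (nat_lit 1) (nat_lit 8) (nat_lit 7) L27911 (by decide +kernel)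
theorem L28075 : W_1 (nat_lit 4) (nat_lit 0x16000b0000000000000000000000000000000) (nat_lit 0x0) (nat_lit 0x100008000100040000c00040000000000000000000000) := T_1 (nat_lit 126) (nat_lit 140) (nat_lit 1) (nat_lit 8) (nat_lit 7) L27944 (by decide +kernel)
theorem L28076 : W_1 (nat_lit 2) (nat_lit 0x18000d0017800b0000000000000000000000000000000) (nat_lit 0x0) (nat_lit 0x4000200002000000000000000000000000000000000000000) := D_1 (nat_lit 177) (nat_lit 194) (nat_lit 157) (nat_lit 7) (nat_lit 6) (nat_lit 7) (nat_lit 3) (nat_lit 3) (nat_lit 9) (by decide +kernel)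
theorem L28077 : W_1 (nat_lit 3) (nat_lit 0x1800090017800b0000000000000000000000000000000) (nat_lit 0x0) (nat_lit 0x4000200006000000000001000000000000000000000000000) := T_1 (nat_lit 158) (nat_lit 108) (nat_lit 6) (nat_lit 5) (nat_lit 10) L28076 (by decide +kernel)
theorem L28078 : W_1 (nat_lit 4) (nat_lit 0x1000090017800b0000000000000000000000000000000) (nat_lit 0x0) (nat_lit 0x5000280006000000000001000000000000000000000000000) := T_1 (nat_lit 175) (nat_lit 192) (nat_lit 5) (nat_lit 6) (nat_lit 7) L28077 (by decide +kernel)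
theorem L28079 : W_1 (nat_lit 5) (nat_lit 0x90017800b0000000000000000000000000000000) (nat_lit 0x0) (nat_lit 0x7000380006000000000001000000000000000000000000000) := T_1 (nat_lit 176) (nat_lit 193) (nat_lit 4) (nat_lit 6) (nat_lit 11) L28078 (by decide +kernel)
theorem L28080 : W_1 (nat_lit 6) (nat_lit 0x10017800b0000000000000000000000000000000) (nat_lit 0x0) (nat_lit 0x700038001e000000000001000000000000000000000000000) := T_1 (nat_lit 159) (nat_lit 160) (nat_lit 3) (nat_lit 3) (nat_lit 8) L28079 (by decide +kernel)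
theorem L28081 : W_1 (nat_lit 7) (nat_lit 0x17800b0000000000000000000000000000000) (nat_lit 0x0) (nat_lit 0x700038001f800000000001000000000000000000000000000) := T_1 (nat_lit 156) (nat_lit 155) (nat_lit 1) (nat_lit 6) (nat_lit 8) L28080 (by decide +kernel)
theorem L28082 : W_1 (nat_lit 8) (nat_lit 0x17000b0000000000000000000000000000000) (nat_lit 0x0) (nat_lit 0x700038001f8000c0000001000000000000000000000000000) := T_1 (nat_lit 139) (nat_lit 138) (nat_lit 2) (nat_lit 2) (nat_lit 8) L28081 (by decide +kernel)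
theorem L28083 : W_1 (nat_lit 9) (nat_lit 0x16000b0000000000000000000000000000000) (nat_lit 0x0) (nat_lit 0x700038001f8001c0040001000000000000000000000000000) := T_1 (nat_lit 140) (nat_lit 126) (nat_lit 1) (nat_lit 8) (nat_lit 7) L28082 (by decide +kernel)
theorem L28084 : W_1 (nat_lit 4) (nat_lit 0x16000b0000800000000000000000000000000) (nat_lit 0x0) (nat_lit 0x4000000048000400020001000080000000000000) := T_1 (nat_lit 106) (nat_lit 126) (nat_lit 0) (nat_lit 8) (nat_lit 7) L22659 (by decide +kernel)
theorem L28085 : W_1 (nat_lit 7) (nat_lit 0x16000b0000000000000000000000000000000) (nat_lit 0x0) (nat_lit 0xc000000048001e003e000f000080000000000000) := Q_1 (nat_lit 107) (C_1 L22567 (C_1 L22566 (C_1 L28084 N_1))) (by decide +kernel)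
theorem L28086 : W_1 (nat_lit 10) (nat_lit 0x16000a0000000000000000000000000000000) (nat_lit 0x0) (nat_lit 0x70003c001f8001c0058003e003f800f000080000000000000) := Q_1 (nat_lit 124) (C_1 L28074 (C_1 L28075 (C_1 L22951 (C_1 L28083 (C_1 L28085 N_1))))) (by decide +kernel)
theorem L28087 : W_1 (nat_lit 2) (nat_lit 0x40016000a0001000000000000000000000000000) (nat_lit 0x0) (nat_lit 0x1000080000000000010000000000000000000000000000000) := D_1 (nat_lit 175) (nat_lit 192) (nat_lit 124) (nat_lit 6) (nat_lit 5) (nat_lit 11) (nat_lit 6) (nat_lit 5) (nat_lit 10) (by decide +kernel)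
theorem L28088 : W_1 (nat_lit 3) (nat_lit 0x40016000a0000000000000000000000000000000) (nat_lit 0x0) (nat_lit 0x1000080000000000010001000080000000000000000000000) := T_1 (nat_lit 108) (nat_lit 91) (nat_lit 5) (nat_lit 6) (nat_lit 5) L28087 (by decide +kernel)
theorem L28089 : W_1 (nat_lit 2) (nat_lit 0x100010000c0016000a0000000000000000000000000000000) (nat_lit 0x0) (nat_lit 0x60002000000000000000000000000000000000000000000000000) := D_1 (nat_lit 193) (nat_lit 209) (nat_lit 210) (nat_lit 5) (nat_lit 6) (nat_lit 8) (nat_lit 4) (nat_lit 6) (nat_lit 12) (by decide +kernel)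
theorem L28090 : W_1 (nat_lit 3) (nat_lit 0x10000c0016000a0000000000000000000000000000000) (nat_lit 0x0) (nat_lit 0x60003000080000000000000000000000000000000000000000000) := T_1 (nat_lit 192) (nat_lit 175) (nat_lit 6) (nat_lit 5) (nat_lit 11) L28089 (by decide +kernel)
theorem L28091 : W_1 (nat_lit 2) (nat_lit 0x30000e0016000a0000000000000000000000000000000) (nat_lit 0x0) (nat_lit 0xc00010000000000000000000000000000000000000000) := D_1 (nat_lit 178) (nat_lit 160) (nat_lit 179) (nat_lit 3) (nat_lit 4) (nat_lit 9) (nat_lit 0) (nat_lit 9) (nat_lit 10) (by decide +kernel)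
theorem L28092 : W_1 (nat_lit 3) (nat_lit 0x30000c0016000a0000000000000000000000000000000) (nat_lit 0x0) (nat_lit 0xc00013000000000000000000000000000000000000000) := T_1 (nat_lit 157) (nat_lit 156) (nat_lit 3) (nat_lit 3) (nat_lit 9) L28091 (by decide +kernel)
theorem L28093 : W_1 (nat_lit 4) (nat_lit 0x10000c0016000a0000000000000000000000000000000) (nat_lit 0x0) (nat_lit 0x4000e00013000000000000000000000000000000000000000) := T_1 (nat_lit 177) (nat_lit 194) (nat_lit 7) (nat_lit 6) (nat_lit 7) L28092 (by decide +kernel)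
theorem L28094 : W_1 (nat_lit 5) (nat_lit 0x1000040016000a0000000000000000000000000000000) (nat_lit 0x0) (nat_lit 0x60007000e8001b000000000000000000000000000000000000000) := Q_1 (nat_lit 159) (C_1 L28090 (C_1 L28093 N_1)) (by decide +kernel)
theorem L28095 : W_1 (nat_lit 2) (nat_lit 0x1c00040016000b0000800000000000000000000000000) (nat_lit 0x0) (nat_lit 0x8000400020000000000000000000000) := D_1 (nat_lit 106) (nat_lit 89) (nat_lit 123) (nat_lit 4) (nat_lit 5) (nat_lit 9) (nat_lit 4) (nat_lit 5) (nat_lit 10) (by decide +kernel)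
theorem L28096 : W_1 (nat_lit 3) (nat_lit 0x1c00040016000b0000000000000000000000000000000) (nat_lit 0x0) (nat_lit 0x2000000008000c00020000000000000000000000) := T_1 (nat_lit 107) (nat_lit 157) (nat_lit 5) (nat_lit 5) (nat_lit 6) L28095 (by decide +kernel)
theorem L28097 : W_1 (nat_lit 4) (nat_lit 0x1800040016000b0000000000000000000000000000000) (nat_lit 0x0) (nat_lit 0x800040002000000008000c00020000000000000000000000) := T_1 (nat_lit 174) (nat_lit 191) (nat_lit 5) (nat_lit 5) (nat_lit 7) L28096 (by decide +kernel)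
theorem L28098 : W_1 (nat_lit 5) (nat_lit 0x1800040016000a0000000000000000000000000000000) (nat_lit 0x0) (nat_lit 0x2800040002000000018000c00020000000000000000000000) := T_1 (nat_lit 124) (nat_lit 193) (nat_lit 7) (nat_lit 5) (nat_lit 7) L28097 (by decide +kernel)
theorem L28099 : W_1 (nat_lit 6) (nat_lit 0x1000040016000a0000000000000000000000000000000) (nat_lit 0x0) (nat_lit 0x38000c0002000000018000c00020000000000000000000000) := T_1 (nat_lit 175) (nat_lit 192) (nat_lit 6) (nat_lit 5) (nat_lit 11) L28098 (by decide +kernel)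
theorem L28100 : W_1 (nat_lit 2) (nat_lit 0x10000c0016000a0000000000000000000000000000000) (nat_lit 0x0) (nat_lit 0x2000000000000000010000800000000000000000000000000) := D_1 (nat_lit 124) (nat_lit 107) (nat_lit 193) (nat_lit 7) (nat_lit 5) (nat_lit 6) (nat_lit 4) (nat_lit 6) (nat_lit 11) (by decide +kernel)
theorem L28101 : W_1 (nat_lit 5) (nat_lit 0x1000040016000a0000000000000000000000000000000) (nat_lit 0x0) (nat_lit 0x6000e0001b000000010000800000000000000000000000000) := Q_1 (nat_lit 159) (C_1 L28100 (C_1 L28093 N_1)) (by decide +kernel)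
theorem L28102 : W_1 (nat_lit 6) (nat_lit 0x18000c0016000a0000000000000000000000000000000) (nat_lit 0x0) (nat_lit 0x80007001000000001e000c00000000000000000000000000) := T_1 (nat_lit 124) (nat_lit 107) (nat_lit 7) (nat_lit 5) (nat_lit 6) L27691 (by decide +kernel)
theorem L28103 : W_1 (nat_lit 7) (nat_lit 0x10000c0016000a0000000000000000000000000000000) (nat_lit 0x0) (nat_lit 0x18000f001000000001e000c00000000000000000000000000) := T_1 (nat_lit 175) (nat_lit 192) (nat_lit 6) (nat_lit 5) (nat_lit 11) L28102 (by decide +kernel)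
theorem L28104 : W_1 (nat_lit 2) (nat_lit 0x3c000d0016000b0000000000000000000000000000000) (nat_lit 0x0) (nat_lit 0x30000800000000000000000000000000000000000000) := D_1 (nat_lit 173) (nat_lit 172) (nat_lit 155) (nat_lit 2) (nat_lit 2) (nat_lit 10) (nat_lit 0) (nat_lit 6) (nat_lit 10) (by decide +kernel)
theorem L28105 : W_1 (nat_lit 3) (nat_lit 0x38000d0016000b0000000000000000000000000000000) (nat_lit 0x0) (nat_lit 0x800070000800000000000000000000000000000000000000) := T_1 (nat_lit 174) (nat_lit 191) (nat_lit 5) (nat_lit 5) (nat_lit 7) L28104 (by decide +kernel)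
theorem L28106 : W_1 (nat_lit 4) (nat_lit 0x30000d0016000b0000000000000000000000000000000) (nat_lit 0x0) (nat_lit 0x18000f0000800000000000000000000000000000000000000) := T_1 (nat_lit 175) (nat_lit 192) (nat_lit 6) (nat_lit 5) (nat_lit 11) L28105 (by decide +kernel)
theorem L28107 : W_1 (nat_lit 5) (nat_lit 0x30000c0016000b0000000000000000000000000000000) (nat_lit 0x0) (nat_lit 0x18000f0003800000000000000000000000000000000000000) := T_1 (nat_lit 156) (nat_lit 157) (nat_lit 3) (nat_lit 3) (nat_lit 9) L28106 (by decide +kernel)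
theorem L28108 : W_1 (nat_lit 6) (nat_lit 0x10000c0016000b0000000000000000000000000000000) (nat_lit 0x0) (nat_lit 0x58002f0003800000000000000000000000000000000000000) := T_1 (nat_lit 177) (nat_lit 194) (nat_lit 7) (nat_lit 6) (nat_lit 7) L28107 (by decide +kernel)
theorem L28109 : W_1 (nat_lit 7) (nat_lit 0x10000c0016000a0000000000000000000000000000000) (nat_lit 0x0) (nat_lit 0x58002f0003800000010000800000000000000000000000000) := T_1 (nat_lit 124) (nat_lit 107) (nat_lit 7) (nat_lit 5) (nat_lit 6) L28108 (by decide +kernel)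
theorem L28110 : W_1 (nat_lit 8) (nat_lit 0x1000040016000a0000000000000000000000000000000) (nat_lit 0x0) (nat_lit 0x5800ef001b80000001e000c00000000000000000000000000) := Q_1 (nat_lit 159) (C_1 L28103 (C_1 L28109 (C_1 L28093 N_1))) (by decide +kernel)
theorem L28111 : W_1 (nat_lit 2) (nat_lit 0x1800040016000b0000800000000000000000000000000) (nat_lit 0x0) (nat_lit 0x8000400020000000000000000000000) := D_1 (nat_lit 106) (nat_lit 123) (nat_lit 89) (nat_lit 4) (nat_lit 5) (nat_lit 10) (nat_lit 4) (nat_lit 5) (nat_lit 9) (by decide +kernel)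
theorem L28112 : W_1 (nat_lit 3) (nat_lit 0x1800040016000b0000000000000000000000000000000) (nat_lit 0x0) (nat_lit 0x8000000008000c00020000000000000000000000) := T_1 (nat_lit 107) (nat_lit 159) (nat_lit 7) (nat_lit 5) (nat_lit 6) L28111 (by decide +kernel)
theorem L28113 : W_1 (nat_lit 4) (nat_lit 0x1800040016000a0000000000000000000000000000000) (nat_lit 0x0) (nat_lit 0x2000000008000000018000c00020000000000000000000000) := T_1 (nat_lit 124) (nat_lit 193) (nat_lit 7) (nat_lit 5) (nat_lit 7) L28112 (by decide +kernel)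
theorem L28114 : W_1 (nat_lit 5) (nat_lit 0x1000040016000a0000000000000000000000000000000) (nat_lit 0x0) (nat_lit 0x3000080008000000018000c00020000000000000000000000) := T_1 (nat_lit 175) (nat_lit 192) (nat_lit 6) (nat_lit 5) (nat_lit 11) L28113 (by decide +kernel)
theorem L28115 : W_1 (nat_lit 9) (nat_lit 0x40016000a0000000000000000000000000000000) (nat_lit 0x0) (nat_lit 0x60007800ff001b80000001e000c00020000000000000000000000) := Q_1 (nat_lit 176) (C_1 L28094 (C_1 L28099 (C_1 L28101 (C_1 L28110 (C_1 L28114 N_1))))) (by decide +kernel)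
theorem L28116 : W_1 (nat_lit 2) (nat_lit 0x800040016000a0000000000000000000000000000000) (nat_lit 0x0) (nat_lit 0x8000000000001000080000000000000000000000) := D_1 (nat_lit 108) (nat_lit 91) (nat_lit 159) (nat_lit 5) (nat_lit 6) (nat_lit 5) (nat_lit 5) (nat_lit 6) (nat_lit 6) (by decide +kernel)
theorem L28117 : W_1 (nat_lit 3) (nat_lit 0x40016000a0000000000000000000000000000000) (nat_lit 0x0) (nat_lit 0x1000080008000000000001000080000000000000000000000) := T_1 (nat_lit 175) (nat_lit 192) (nat_lit 6) (nat_lit 5) (nat_lit 11) L28116 (by decide +kernel)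
theorem L28118 : W_1 (nat_lit 2) (nat_lit 0x1c0016000a0001800000000000000000000000000) (nat_lit 0x0) (nat_lit 0x20000180000000000000000000000000000000000) := D_1 (nat_lit 140) (nat_lit 139) (nat_lit 161) (nat_lit 3) (nat_lit 3) (nat_lit 8) (nat_lit 0) (nat_lit 8) (nat_lit 9) (by decide +kernel)
theorem L28119 : W_1 (nat_lit 3) (nat_lit 0xc0016000a0001800000000000000000000000000) (nat_lit 0x0) (nat_lit 0x200030000180000000000000000000000000000000000) := T_1 (nat_lit 160) (nat_lit 177) (nat_lit 7) (nat_lit 6) (nat_lit 6) L28118 (by decide +kernel)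
theorem L28120 : W_1 (nat_lit 4) (nat_lit 0xc0016000a0001000000000000000000000000000) (nat_lit 0x0) (nat_lit 0x200030000180000000800040000000000000000000000) := T_1 (nat_lit 107) (nat_lit 90) (nat_lit 4) (nat_lit 6) (nat_lit 9) L28119 (by decide +kernel)
theorem L28121 : W_1 (nat_lit 5) (nat_lit 0xc0016000a0000000000000000000000000000000) (nat_lit 0x0) (nat_lit 0x2000300001800000018000c0000000000000000000000) := T_1 (nat_lit 108) (nat_lit 91) (nat_lit 5) (nat_lit 6) (nat_lit 5) L28120 (by decide +kernel)
theorem L28122 : W_1 (nat_lit 5) (nat_lit 0xc0016000a0000000000000000000000000000000) (nat_lit 0x0) (nat_lit 0x6000f00013000000010000800000000000000000000000000) := Q_1 (nat_lit 176) (C_1 L28100 (C_1 L28093 N_1)) (by decide +kernel)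
theorem L28123 : W_1 (nat_lit 2) (nat_lit 0xc0016000b0003e00000000000000000000000000) (nat_lit 0x0) (nat_lit 0xe000000000000000000000000000000) := D_1 (nat_lit 122) (nat_lit 121) (nat_lit 123) (nat_lit 1) (nat_lit 6) (nat_lit 6) (nat_lit 2) (nat_lit 3) (nat_lit 7) (by decide +kernel)
theorem L28124 : W_1 (nat_lit 3) (nat_lit 0xc0016000b0003c00000000000000000000000000) (nat_lit 0x0) (nat_lit 0xe000300000000000000000000000000) := T_1 (nat_lit 105) (nat_lit 104) (nat_lit 3) (nat_lit 2) (nat_lit 6) L28123 (by decide +kernel)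
theorem L28125 : W_1 (nat_lit 4) (nat_lit 0xc0016000b0003800000000000000000000000000) (nat_lit 0x0) (nat_lit 0xe000700020000000000000000000000) := T_1 (nat_lit 106) (nat_lit 89) (nat_lit 4) (nat_lit 5) (nat_lit 9) L28124 (by decide +kernel)
theorem L28126 : W_1 (nat_lit 5) (nat_lit 0xc0016000a0003800000000000000000000000000) (nat_lit 0x0) (nat_lit 0x10000000000001e000700020000000000000000000000) := T_1 (nat_lit 124) (nat_lit 176) (nat_lit 7) (nat_lit 5) (nat_lit 6) L28125 (by decide +kernel)
theorem L28127 : W_1 (nat_lit 6) (nat_lit 0xc0016000a0001800000000000000000000000000) (nat_lit 0x0) (nat_lit 0x10000000000001e002700120000000000000000000000) := T_1 (nat_lit 109) (nat_lit 92) (nat_lit 6) (nat_lit 6) (nat_lit 9) L28126 (by decide +kernel)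
theorem L28128 : W_1 (nat_lit 7) (nat_lit 0xc0016000a0001000000000000000000000000000) (nat_lit 0x0) (nat_lit 0x10000000000001e002f00160000000000000000000000) := T_1 (nat_lit 107) (nat_lit 90) (nat_lit 4) (nat_lit 6) (nat_lit 9) L28127 (by decide +kernel)
theorem L28129 : W_1 (nat_lit 8) (nat_lit 0xc0016000a0000000000000000000000000000000) (nat_lit 0x0) (nat_lit 0x10000000000001e003f001e0000000000000000000000) := T_1 (nat_lit 108) (nat_lit 91) (nat_lit 5) (nat_lit 6) (nat_lit 5) L28128 (by decide +kernel)
theorem L28130 : W_1 (nat_lit 5) (nat_lit 0xc0016000a0001000000000000000000000000000) (nat_lit 0x0) (nat_lit 0x40006000300010000000010002000100000000000000000000000) := T_1 (nat_lit 109) (nat_lit 92) (nat_lit 6) (nat_lit 6) (nat_lit 9) L23238 (by decide +kernel)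
theorem L28131 : W_1 (nat_lit 6) (nat_lit 0xc0016000a0000000000000000000000000000000) (nat_lit 0x0) (nat_lit 0x40006000300010000000010003000180000000000000000000000) := T_1 (nat_lit 108) (nat_lit 91) (nat_lit 5) (nat_lit 6) (nat_lit 5) L28130 (by decide +kernel)
theorem L28132 : W_1 (nat_lit 9) (nat_lit 0x40016000a0000000000000000000000000000000) (nat_lit 0x0) (nat_lit 0x40006000f0003b00018001e003f001e0000000000000000000000) := Q_1 (nat_lit 159) (C_1 L28121 (C_1 L28122 (C_1 L28129 (C_1 L28131 N_1)))) (by decide +kernel)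
theorem L28133 : W_1 (nat_lit 10) (nat_lit 0x16000a0000000000000000000000000000000) (nat_lit 0x0) (nat_lit 0x60007800ff003f80018001e003f001e0000000000000000000000) := Q_1 (nat_lit 158) (C_1 L28088 (C_1 L28115 (C_1 L28117 (C_1 L28132 N_1)))) (by decide +kernel)
theorem L28134 : W_1 (nat_lit 6) (nat_lit 0x16000a0001000000000000000000000000000) (nat_lit 0x0) (nat_lit 0x40000001400000001c000e000500000000000000) := T_1 (nat_lit 128) (nat_lit 126) (nat_lit 1) (nat_lit 9) (nat_lit 7) L24022 (by decide +kernel)
theorem L28135 : W_1 (nat_lit 2) (nat_lit 0x16000a00010001c0000000000000000000000) (nat_lit 0x0) (nat_lit 0x8000000000002800000000000000000000000000) := D_1 (nat_lit 159) (nat_lit 107) (nat_lit 109) (nat_lit 4) (nat_lit 6) (nat_lit 9) (nat_lit 6) (nat_lit 6) (nat_lit 9) (by decide +kernel)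
theorem L28136 : W_1 (nat_lit 3) (nat_lit 0x16000a00010000c0000000000000000000000) (nat_lit 0x0) (nat_lit 0x8000000000002800100008000000000000000000) := T_1 (nat_lit 92) (nat_lit 75) (nat_lit 6) (nat_lit 6) (nat_lit 8) L28135 (by decide +kernel)
theorem L28137 : W_1 (nat_lit 4) (nat_lit 0x16000a0001000080000000000000000000000) (nat_lit 0x0) (nat_lit 0x800000000000280014000a000000000000000000) := T_1 (nat_lit 90) (nat_lit 73) (nat_lit 4) (nat_lit 6) (nat_lit 8) L28136 (by decide +kernel)
theorem L28138 : W_1 (nat_lit 5) (nat_lit 0x16000a0001000000000000000000000000000) (nat_lit 0x0) (nat_lit 0xc0000000000028001c000a000000000000000000) := T_1 (nat_lit 91) (nat_lit 158) (nat_lit 5) (nat_lit 6) (nat_lit 5) L28137 (by decide +kernel)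
theorem L28139 : W_1 (nat_lit 2) (nat_lit 0x16001a0001800040000000000000000000000) (nat_lit 0x0) (nat_lit 0x80002000100000000000000) := D_1 (nat_lit 73) (nat_lit 91) (nat_lit 56) (nat_lit 4) (nat_lit 6) (nat_lit 8) (nat_lit 7) (nat_lit 5) (nat_lit 3) (by decide +kernel)
theorem L28140 : W_1 (nat_lit 3) (nat_lit 0x16001a0001800000000000000000000000000) (nat_lit 0x0) (nat_lit 0x80000000000000000c0002000100000000000000) := T_1 (nat_lit 90) (nat_lit 159) (nat_lit 4) (nat_lit 6) (nat_lit 9) L28139 (by decide +kernel)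
theorem L28141 : W_1 (nat_lit 4) (nat_lit 0x16000a0001800000000000000000000000000) (nat_lit 0x0) (nat_lit 0x80000001400000000c0002000100000000000000) := T_1 (nat_lit 128) (nat_lit 126) (nat_lit 1) (nat_lit 9) (nat_lit 7) L28140 (by decide +kernel)
theorem L28142 : W_1 (nat_lit 2) (nat_lit 0x16000e0001800000000000000000000000000) (nat_lit 0x0) (nat_lit 0x2600000000000000000000000000) := D_1 (nat_lit 106) (nat_lit 105) (nat_lit 109) (nat_lit 3) (nat_lit 3) (nat_lit 6) (nat_lit 3) (nat_lit 4) (nat_lit 6) (by decide +kernel)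
theorem L28143 : W_1 (nat_lit 3) (nat_lit 0x16000a0001800000000000000000000000000) (nat_lit 0x0) (nat_lit 0x140002600000000000000000000000000) := T_1 (nat_lit 126) (nat_lit 128) (nat_lit 1) (nat_lit 9) (nat_lit 7) L28142 (by decide +kernel)
theorem L28144 : W_1 (nat_lit 2) (nat_lit 0x80016000a0003800000000000000000000000000) (nat_lit 0x0) (nat_lit 0x100000000000040000400000000000000000000000000) := D_1 (nat_lit 126) (nat_lit 106) (nat_lit 176) (nat_lit 3) (nat_lit 4) (nat_lit 6) (nat_lit 6) (nat_lit 6) (nat_lit 10) (by decide +kernel)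
theorem L28145 : W_1 (nat_lit 3) (nat_lit 0x80016000a0001800000000000000000000000000) (nat_lit 0x0) (nat_lit 0x100000000000040002400100000000000000000000000) := T_1 (nat_lit 109) (nat_lit 92) (nat_lit 6) (nat_lit 6) (nat_lit 9) L28144 (by decide +kernel)
theorem L28146 : W_1 (nat_lit 4) (nat_lit 0x16000a0001800000000000000000000000000) (nat_lit 0x0) (nat_lit 0x100008000000040002400140000000000000000000000) := T_1 (nat_lit 159) (nat_lit 90) (nat_lit 4) (nat_lit 6) (nat_lit 9) L28145 (by decide +kernel)
theorem L28147 : W_1 (nat_lit 2) (nat_lit 0x16000a0001800040000000000000000000000) (nat_lit 0x0) (nat_lit 0x80002000100000000000000) := D_1 (nat_lit 73) (nat_lit 91) (nat_lit 56) (nat_lit 4) (nat_lit 6) (nat_lit 8) (nat_lit 7) (nat_lit 5) (nat_lit 3) (by decide +kernel)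
theorem L28148 : W_1 (nat_lit 3) (nat_lit 0x16000a0001800000000000000000000000000) (nat_lit 0x0) (nat_lit 0x80000000000000000c0002000100000000000000) := T_1 (nat_lit 90) (nat_lit 159) (nat_lit 4) (nat_lit 6) (nat_lit 9) L28147 (by decide +kernel)
theorem L28149 : W_1 (nat_lit 5) (nat_lit 0x16000a0001000000000000000000000000000) (nat_lit 0x0) (nat_lit 0x100008000000140002e001c0002000100000000000000) := Q_1 (nat_lit 107) (C_1 L28141 (C_1 L28143 (C_1 L28146 (C_1 L28148 N_1)))) (by decide +kernel)
theorem L28150 : W_1 (nat_lit 4) (nat_lit 0x16000a0001000000000000000000000000000) (nat_lit 0x0) (nat_lit 0x100008000c000000140000000080000000000000000000000) := T_1 (nat_lit 128) (nat_lit 126) (nat_lit 1) (nat_lit 9) (nat_lit 7) L24046 (by decide +kernel)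
theorem L28151 : W_1 (nat_lit 2) (nat_lit 0x4000380016801a0003000000000000000000000000000) (nat_lit 0x0) (nat_lit 0x880004000000000000000000000000000000000000000) := D_1 (nat_lit 158) (nat_lit 179) (nat_lit 175) (nat_lit 3) (nat_lit 5) (nat_lit 9) (nat_lit 5) (nat_lit 6) (nat_lit 6) (by decide +kernel)
theorem L28152 : W_1 (nat_lit 3) (nat_lit 0x380016801a0003000000000000000000000000000) (nat_lit 0x0) (nat_lit 0xc80004000000000008000000000000000000000000000) := T_1 (nat_lit 178) (nat_lit 111) (nat_lit 6) (nat_lit 8) (nat_lit 10) L28151 (by decide +kernel)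
theorem L28153 : W_1 (nat_lit 4) (nat_lit 0x380016801a0001000000000000000000000000000) (nat_lit 0x0) (nat_lit 0xc8000400000000000a000100000000000000000000000) := T_1 (nat_lit 109) (nat_lit 92) (nat_lit 6) (nat_lit 6) (nat_lit 9) L28152 (by decide +kernel)
theorem L28154 : W_1 (nat_lit 5) (nat_lit 0x180016801a0001000000000000000000000000000) (nat_lit 0x0) (nat_lit 0xc8006400000000000a000100000000000000000000000) := T_1 (nat_lit 161) (nat_lit 162) (nat_lit 0) (nat_lit 9) (nat_lit 9) L28153 (by decide +kernel)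
theorem L28155 : W_1 (nat_lit 6) (nat_lit 0x180016001a0001000000000000000000000000000) (nat_lit 0x0) (nat_lit 0xc8006400018000000a000100000000000000000000000) := T_1 (nat_lit 139) (nat_lit 140) (nat_lit 3) (nat_lit 3) (nat_lit 8) L28154 (by decide +kernel)
theorem L28156 : W_1 (nat_lit 7) (nat_lit 0x80016001a0001000000000000000000000000000) (nat_lit 0x0) (nat_lit 0xe8007400018000000a000100000000000000000000000) := T_1 (nat_lit 160) (nat_lit 177) (nat_lit 7) (nat_lit 6) (nat_lit 6) L28155 (by decide +kernel)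
theorem L28157 : W_1 (nat_lit 8) (nat_lit 0x80016000a0001000000000000000000000000000) (nat_lit 0x0) (nat_lit 0xe8007400018014000a000100000000000000000000000) := T_1 (nat_lit 128) (nat_lit 126) (nat_lit 1) (nat_lit 9) (nat_lit 7) L28156 (by decide +kernel)
theorem L28158 : W_1 (nat_lit 2) (nat_lit 0x80016000a0003000000000000000000000000000) (nat_lit 0x0) (nat_lit 0x100000000000140000000000000000000000000000000) := D_1 (nat_lit 126) (nat_lit 128) (nat_lit 176) (nat_lit 1) (nat_lit 9) (nat_lit 7) (nat_lit 6) (nat_lit 6) (nat_lit 10) (by decide +kernel)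
theorem L28159 : W_1 (nat_lit 3) (nat_lit 0x80016000a0001000000000000000000000000000) (nat_lit 0x0) (nat_lit 0x100000000000140002000100000000000000000000000) := T_1 (nat_lit 109) (nat_lit 92) (nat_lit 6) (nat_lit 6) (nat_lit 9) L28158 (by decide +kernel)
theorem L28160 : W_1 (nat_lit 2) (nat_lit 0x1000580016800a0003000000000000000000000000000) (nat_lit 0x0) (nat_lit 0x1000080004000000000000000000000000000000000000000) := D_1 (nat_lit 175) (nat_lit 192) (nat_lit 158) (nat_lit 5) (nat_lit 6) (nat_lit 7) (nat_lit 5) (nat_lit 6) (nat_lit 6) (by decide +kernel)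
theorem L28161 : W_1 (nat_lit 3) (nat_lit 0x580016800a0003000000000000000000000000000) (nat_lit 0x0) (nat_lit 0x1000180004000000040000000000000000000000000000000) := T_1 (nat_lit 176) (nat_lit 126) (nat_lit 6) (nat_lit 6) (nat_lit 10) L28160 (by decide +kernel)
theorem L28162 : W_1 (nat_lit 4) (nat_lit 0x180016800a0003000000000000000000000000000) (nat_lit 0x0) (nat_lit 0x1000180064000000040000000000000000000000000000000) := T_1 (nat_lit 162) (nat_lit 161) (nat_lit 0) (nat_lit 9) (nat_lit 9) L28161 (by decide +kernel)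
theorem L28163 : W_1 (nat_lit 5) (nat_lit 0x180016000a0003000000000000000000000000000) (nat_lit 0x0) (nat_lit 0x1000180064000180040000000000000000000000000000000) := T_1 (nat_lit 139) (nat_lit 140) (nat_lit 3) (nat_lit 3) (nat_lit 8) L28162 (by decide +kernel)
theorem L28164 : W_1 (nat_lit 6) (nat_lit 0x80016000a0003000000000000000000000000000) (nat_lit 0x0) (nat_lit 0x1000380074000180040000000000000000000000000000000) := T_1 (nat_lit 160) (nat_lit 177) (nat_lit 7) (nat_lit 6) (nat_lit 6) L28163 (by decide +kernel)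
theorem L28165 : W_1 (nat_lit 7) (nat_lit 0x80016000a0001000000000000000000000000000) (nat_lit 0x0) (nat_lit 0x1000380074000180040002000100000000000000000000000) := T_1 (nat_lit 109) (nat_lit 92) (nat_lit 6) (nat_lit 6) (nat_lit 9) L28164 (by decide +kernel)
theorem L28166 : W_1 (nat_lit 5) (nat_lit 0x80016000a0001000000000000000000000000000) (nat_lit 0x0) (nat_lit 0x280034000180000000800040000000000000000000000) := T_1 (nat_lit 158) (nat_lit 175) (nat_lit 5) (nat_lit 6) (nat_lit 6) L28120 (by decide +kernel)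
theorem L28167 : W_1 (nat_lit 9) (nat_lit 0x16000a0001000000000000000000000000000) (nat_lit 0x0) (nat_lit 0x1000f8007c00018014000a800140000000000000000000000) := Q_1 (nat_lit 159) (C_1 L28157 (C_1 L28159 (C_1 L28165 (C_1 L28166 N_1)))) (by decide +kernel)
theorem L28168 : W_1 (nat_lit 10) (nat_lit 0x16000a0000000000000000000000000000000) (nat_lit 0x0) (nat_lit 0x1000f8007c00018014000be001c000e000500000000000000) := Q_1 (nat_lit 108) (C_1 L28134 (C_1 L28138 (C_1 L28149 (C_1 L28150 (C_1 L28167 N_1))))) (by decide +kernel)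
theorem L28169 : W_1 (nat_lit 2) (nat_lit 0x10005c0016000a0003000000000000000000000000000) (nat_lit 0x0) (nat_lit 0x40002000000000000000010000000000000000000000000000000) := D_1 (nat_lit 193) (nat_lit 210) (nat_lit 124) (nat_lit 4) (nat_lit 6) (nat_lit 12) (nat_lit 4) (nat_lit 6) (nat_lit 11) (by decide +kernel)
theorem L28170 : W_1 (nat_lit 3) (nat_lit 0x5c0016000a0003000000000000000000000000000) (nat_lit 0x0) (nat_lit 0x40002000100000000000050000000000000000000000000000000) := T_1 (nat_lit 176) (nat_lit 126) (nat_lit 6) (nat_lit 6) (nat_lit 10) L28169 (by decide +kernel)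
theorem L28171 : W_1 (nat_lit 4) (nat_lit 0x580016000a0003000000000000000000000000000) (nat_lit 0x0) (nat_lit 0x40002000180004000000050000000000000000000000000000000) := T_1 (nat_lit 158) (nat_lit 175) (nat_lit 5) (nat_lit 6) (nat_lit 6) L28170 (by decide +kernel)
theorem L28172 : W_1 (nat_lit 5) (nat_lit 0x580016000a0001000000000000000000000000000) (nat_lit 0x0) (nat_lit 0x40002000180004000000050002000100000000000000000000000) := T_1 (nat_lit 109) (nat_lit 92) (nat_lit 6) (nat_lit 6) (nat_lit 9) L28171 (by decide +kernel)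
theorem L28173 : W_1 (nat_lit 6) (nat_lit 0x180016000a0001000000000000000000000000000) (nat_lit 0x0) (nat_lit 0x40002000180064000000050002000100000000000000000000000) := T_1 (nat_lit 162) (nat_lit 161) (nat_lit 0) (nat_lit 9) (nat_lit 9) L28172 (by decide +kernel)
theorem L28174 : W_1 (nat_lit 7) (nat_lit 0x80016000a0001000000000000000000000000000) (nat_lit 0x0) (nat_lit 0x40002000380074000000050002000100000000000000000000000) := T_1 (nat_lit 160) (nat_lit 177) (nat_lit 7) (nat_lit 6) (nat_lit 6) L28173 (by decide +kernel)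
theorem L28175 : W_1 (nat_lit 2) (nat_lit 0x800580016001a0001800000000000000000000000000) (nat_lit 0x0) (nat_lit 0x1000100000000000010000000000000000000000000000000) := D_1 (nat_lit 176) (nat_lit 192) (nat_lit 124) (nat_lit 5) (nat_lit 6) (nat_lit 7) (nat_lit 4) (nat_lit 6) (nat_lit 10) (by decide +kernel)
theorem L28176 : W_1 (nat_lit 3) (nat_lit 0x800580016001a0001000000000000000000000000000) (nat_lit 0x0) (nat_lit 0x1000100000000000010000800040000000000000000000000) := T_1 (nat_lit 107) (nat_lit 90) (nat_lit 4) (nat_lit 6) (nat_lit 9) L28175 (by decide +kernel)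
theorem L28177 : W_1 (nat_lit 4) (nat_lit 0x580016001a0001000000000000000000000000000) (nat_lit 0x0) (nat_lit 0x1000180004000000010000800040000000000000000000000) := T_1 (nat_lit 175) (nat_lit 158) (nat_lit 5) (nat_lit 6) (nat_lit 6) L28176 (by decide +kernel)
theorem L28178 : W_1 (nat_lit 5) (nat_lit 0x180016001a0001000000000000000000000000000) (nat_lit 0x0) (nat_lit 0x1000180064000000010000800040000000000000000000000) := T_1 (nat_lit 162) (nat_lit 161) (nat_lit 0) (nat_lit 9) (nat_lit 9) L28177 (by decide +kernel)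
theorem L28179 : W_1 (nat_lit 6) (nat_lit 0x80016001a0001000000000000000000000000000) (nat_lit 0x0) (nat_lit 0x1000380074000000010000800040000000000000000000000) := T_1 (nat_lit 160) (nat_lit 177) (nat_lit 7) (nat_lit 6) (nat_lit 6) L28178 (by decide +kernel)
theorem L28180 : W_1 (nat_lit 7) (nat_lit 0x80016000a0001000000000000000000000000000) (nat_lit 0x0) (nat_lit 0x1000380074000000150000800040000000000000000000000) := T_1 (nat_lit 128) (nat_lit 126) (nat_lit 1) (nat_lit 9) (nat_lit 7) L28179 (by decide +kernel)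
theorem L28181 : W_1 (nat_lit 6) (nat_lit 0x80016000a0001000000000000000000000000000) (nat_lit 0x0) (nat_lit 0x40006000380014000000010002000100000000000000000000000) := T_1 (nat_lit 158) (nat_lit 175) (nat_lit 5) (nat_lit 6) (nat_lit 6) L28130 (by decide +kernel)
theorem L28182 : W_1 (nat_lit 2) (nat_lit 0x3c0016001a0003000000000000000000000000000) (nat_lit 0x0) (nat_lit 0xc00000000000000008000000000000000000000000000) := D_1 (nat_lit 178) (nat_lit 179) (nat_lit 111) (nat_lit 3) (nat_lit 5) (nat_lit 9) (nat_lit 6) (nat_lit 8) (nat_lit 10) (by decide +kernel)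
theorem L28183 : W_1 (nat_lit 3) (nat_lit 0x1c0016001a0003000000000000000000000000000) (nat_lit 0x0) (nat_lit 0xc00060000000000008000000000000000000000000000) := T_1 (nat_lit 161) (nat_lit 162) (nat_lit 0) (nat_lit 9) (nat_lit 9) L28182 (by decide +kernel)
theorem L28184 : W_1 (nat_lit 4) (nat_lit 0xc0016001a0003000000000000000000000000000) (nat_lit 0x0) (nat_lit 0xe00070000000000008000000000000000000000000000) := T_1 (nat_lit 160) (nat_lit 177) (nat_lit 7) (nat_lit 6) (nat_lit 6) L28183 (by decide +kernel)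
theorem L28185 : W_1 (nat_lit 5) (nat_lit 0x80016001a0003000000000000000000000000000) (nat_lit 0x0) (nat_lit 0xe80074000000000008000000000000000000000000000) := T_1 (nat_lit 158) (nat_lit 175) (nat_lit 5) (nat_lit 6) (nat_lit 6) L28184 (by decide +kernel)
theorem L28186 : W_1 (nat_lit 6) (nat_lit 0x80016000a0003000000000000000000000000000) (nat_lit 0x0) (nat_lit 0xe80074000000140008000000000000000000000000000) := T_1 (nat_lit 128) (nat_lit 126) (nat_lit 1) (nat_lit 9) (nat_lit 7) L28185 (by decide +kernel)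
theorem L28187 : W_1 (nat_lit 7) (nat_lit 0x80016000a0001000000000000000000000000000) (nat_lit 0x0) (nat_lit 0xe8007400000014000a000100000000000000000000000) := T_1 (nat_lit 109) (nat_lit 92) (nat_lit 6) (nat_lit 6) (nat_lit 9) L28186 (by decide +kernel)
theorem L28188 : W_1 (nat_lit 8) (nat_lit 0x16000a0001000000000000000000000000000) (nat_lit 0x0) (nat_lit 0x40007000f8007c00000015000a800140000000000000000000000) := Q_1 (nat_lit 159) (C_1 L28159 (C_1 L28174 (C_1 L28180 (C_1 L28181 (C_1 L28187 N_1))))) (by decide +kernel)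
theorem L28189 : W_1 (nat_lit 9) (nat_lit 0x16000a0000000000000000000000000000000) (nat_lit 0x0) (nat_lit 0x40007000f8007c00000015000be001c000e000500000000000000) := Q_1 (nat_lit 108) (C_1 L28134 (C_1 L28150 (C_1 L28138 (C_1 L28149 (C_1 L28188 N_1))))) (by decide +kernel)
theorem L28190 : W_1 (nat_lit 11) (nat_lit 0x1600080000000000000000000000000000000) (nat_lit 0x0) (nat_lit 0x60007800ff007f8001c017e00bf003f800f000580000000000000) := Q_1 (nat_lit 125) (C_1 L28073 (C_1 L28086 (C_1 L28133 (C_1 L28168 (C_1 L28189 N_1))))) (by decide +kernel)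
theorem L28191 : W_1 (nat_lit 2) (nat_lit 0x1600090000000000000000000000000000000) (nat_lit 0x0) (nat_lit 0x800108000000000000000000000000000000) := D_1 (nat_lit 143) (nat_lit 128) (nat_lit 123) (nat_lit 2) (nat_lit 5) (nat_lit 8) (nat_lit 0) (nat_lit 8) (nat_lit 8) (by decide +kernel)
theorem L28192 : W_1 (nat_lit 2) (nat_lit 0x4001600090000000000000000000000000000000) (nat_lit 0x0) (nat_lit 0x2000800008000000000000000000000000000000) := D_1 (nat_lit 143) (nat_lit 123) (nat_lit 157) (nat_lit 0) (nat_lit 8) (nat_lit 8) (nat_lit 1) (nat_lit 8) (nat_lit 8) (by decide +kernel)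
theorem L28193 : W_1 (nat_lit 2) (nat_lit 0x4001600090000800000000000000000000000000) (nat_lit 0x0) (nat_lit 0x100008000000000000000040000000000000000000000) := D_1 (nat_lit 159) (nat_lit 176) (nat_lit 90) (nat_lit 7) (nat_lit 5) (nat_lit 6) (nat_lit 7) (nat_lit 5) (nat_lit 5) (by decide +kernel)
theorem L28194 : W_1 (nat_lit 2) (nat_lit 0x40016000d0000c00000000000000000000000000) (nat_lit 0x0) (nat_lit 0x3000080000000000000000000000) := D_1 (nat_lit 108) (nat_lit 91) (nat_lit 109) (nat_lit 6) (nat_lit 5) (nat_lit 9) (nat_lit 3) (nat_lit 4) (nat_lit 6) (by decide +kernel)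
theorem L28195 : W_1 (nat_lit 3) (nat_lit 0x4001600090000c00000000000000000000000000) (nat_lit 0x0) (nat_lit 0x60003000080000000000000000000000) := T_1 (nat_lit 126) (nat_lit 125) (nat_lit 0) (nat_lit 8) (nat_lit 7) L28194 (by decide +kernel)
theorem L28196 : W_1 (nat_lit 4) (nat_lit 0x4001600090000800000000000000000000000000) (nat_lit 0x0) (nat_lit 0x600034000a0000000000000000000000) := T_1 (nat_lit 106) (nat_lit 89) (nat_lit 4) (nat_lit 5) (nat_lit 9) L28195 (by decide +kernel)
theorem L28197 : W_1 (nat_lit 5) (nat_lit 0x4001600090000000000000000000000000000000) (nat_lit 0x0) (nat_lit 0x100008000000060003c000e0000000000000000000000) := Q_1 (nat_lit 107) (C_1 L28193 (C_1 L28196 N_1)) (by decide +kernel)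
theorem L28198 : W_1 (nat_lit 6) (nat_lit 0x1600090000000000000000000000000000000) (nat_lit 0x0) (nat_lit 0x10000e000800068003c000e0000000000000000000000) := Q_1 (nat_lit 158) (C_1 L28192 (C_1 L28197 N_1)) (by decide +kernel)
theorem L28199 : W_1 (nat_lit 2) (nat_lit 0x16000b0000800000000000000000000000000) (nat_lit 0x0) (nat_lit 0x140000400000000000000000000000000) := D_1 (nat_lit 126) (nat_lit 106) (nat_lit 128) (nat_lit 0) (nat_lit 8) (nat_lit 7) (nat_lit 1) (nat_lit 9) (nat_lit 7) (by decide +kernel)
theorem L28200 : W_1 (nat_lit 2) (nat_lit 0x16001b00018001e0000000000000000000000) (nat_lit 0x0) (nat_lit 0x2000018000000000000000000000) := D_1 (nat_lit 88) (nat_lit 109) (nat_lit 87) (nat_lit 3) (nat_lit 3) (nat_lit 5) (nat_lit 3) (nat_lit 2) (nat_lit 5) (by decide +kernel)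
theorem L28201 : W_1 (nat_lit 3) (nat_lit 0x16001b00018001c0000000000000000000000) (nat_lit 0x0) (nat_lit 0x2000038001000000000000000000) := T_1 (nat_lit 89) (nat_lit 72) (nat_lit 4) (nat_lit 5) (nat_lit 8) L28200 (by decide +kernel)
theorem L28202 : W_1 (nat_lit 4) (nat_lit 0x16001b00018000c0000000000000000000000) (nat_lit 0x0) (nat_lit 0x2000138009000000000000000000) := T_1 (nat_lit 92) (nat_lit 75) (nat_lit 6) (nat_lit 6) (nat_lit 8) L28201 (by decide +kernel)
theorem L28203 : W_1 (nat_lit 5) (nat_lit 0x16000b00018000c0000000000000000000000) (nat_lit 0x0) (nat_lit 0x140002000138009000000000000000000) := T_1 (nat_lit 128) (nat_lit 126) (nat_lit 1) (nat_lit 9) (nat_lit 7) L28202 (by decide +kernel)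
theorem L28204 : W_1 (nat_lit 6) (nat_lit 0x16000b00008000c0000000000000000000000) (nat_lit 0x0) (nat_lit 0x4000000140003000138009000000000000000000) := T_1 (nat_lit 108) (nat_lit 158) (nat_lit 6) (nat_lit 5) (nat_lit 9) L28203 (by decide +kernel)
theorem L28205 : W_1 (nat_lit 7) (nat_lit 0x16000b0000800040000000000000000000000) (nat_lit 0x0) (nat_lit 0x40000001400030001b800d000000000000000000) := T_1 (nat_lit 91) (nat_lit 74) (nat_lit 6) (nat_lit 5) (nat_lit 8) L28204 (by decide +kernel)
theorem L28206 : W_1 (nat_lit 8) (nat_lit 0x16000b0000800000000000000000000000000) (nat_lit 0x0) (nat_lit 0x40000001400030001f800f000000000000000000) := T_1 (nat_lit 90) (nat_lit 73) (nat_lit 7) (nat_lit 5) (nat_lit 4) L28205 (by decide +kernel)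
theorem L28207 : W_1 (nat_lit 9) (nat_lit 0x1600090000800000000000000000000000000) (nat_lit 0x0) (nat_lit 0x40000001680036003f800f000080000000000000) := Q_1 (nat_lit 125) (C_1 L28084 (C_1 L28199 (C_1 L22566 (C_1 L28206 N_1)))) (by decide +kernel)
theorem L28208 : W_1 (nat_lit 2) (nat_lit 0x1600090000800040002000000000000000000) (nat_lit 0x0) (nat_lit 0x80004000200000000000000) := D_1 (nat_lit 74) (nat_lit 57) (nat_lit 91) (nat_lit 6) (nat_lit 5) (nat_lit 7) (nat_lit 6) (nat_lit 5) (nat_lit 8) (by decide +kernel)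
theorem L28209 : W_1 (nat_lit 3) (nat_lit 0x1600090000800040000000000000000000000) (nat_lit 0x0) (nat_lit 0x20000000080006000200000000000000) := T_1 (nat_lit 73) (nat_lit 125) (nat_lit 7) (nat_lit 5) (nat_lit 4) L28208 (by decide +kernel)
theorem L28210 : W_1 (nat_lit 4) (nat_lit 0x1600090000800000000000000000000000000) (nat_lit 0x0) (nat_lit 0x80000000200000000c0006000200000000000000) := T_1 (nat_lit 90) (nat_lit 159) (nat_lit 7) (nat_lit 5) (nat_lit 5) L28209 (by decide +kernel)
theorem L28211 : W_1 (nat_lit 2) (nat_lit 0x16000900008000e0000000000000000000000) (nat_lit 0x0) (nat_lit 0x4000000000001400000000000000000000000000) := D_1 (nat_lit 158) (nat_lit 108) (nat_lit 106) (nat_lit 6) (nat_lit 5) (nat_lit 9) (nat_lit 4) (nat_lit 5) (nat_lit 9) (by decide +kernel)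
theorem L28212 : W_1 (nat_lit 3) (nat_lit 0x16000900008000c0000000000000000000000) (nat_lit 0x0) (nat_lit 0x4000000000001400020001000000000000000000) := T_1 (nat_lit 89) (nat_lit 72) (nat_lit 4) (nat_lit 5) (nat_lit 8) L28211 (by decide +kernel)
theorem L28213 : W_1 (nat_lit 4) (nat_lit 0x1600090000800040000000000000000000000) (nat_lit 0x0) (nat_lit 0x40000000000014000a0005000000000000000000) := T_1 (nat_lit 91) (nat_lit 74) (nat_lit 6) (nat_lit 5) (nat_lit 8) L28212 (by decide +kernel)
theorem L28214 : W_1 (nat_lit 5) (nat_lit 0x1600090000800000000000000000000000000) (nat_lit 0x0) (nat_lit 0xc0000000000014000e0005000000000000000000) := T_1 (nat_lit 90) (nat_lit 159) (nat_lit 7) (nat_lit 5) (nat_lit 5) L28213 (by decide +kernel)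
theorem L28215 : W_1 (nat_lit 2) (nat_lit 0x1600090000800040002000000000000000000) (nat_lit 0x0) (nat_lit 0x20001000080000000000000) := D_1 (nat_lit 72) (nat_lit 89) (nat_lit 55) (nat_lit 4) (nat_lit 5) (nat_lit 8) (nat_lit 4) (nat_lit 5) (nat_lit 7) (by decide +kernel)
theorem L28216 : W_1 (nat_lit 3) (nat_lit 0x1600090000800040000000000000000000000) (nat_lit 0x0) (nat_lit 0x20000000020003000080000000000000) := T_1 (nat_lit 73) (nat_lit 125) (nat_lit 7) (nat_lit 5) (nat_lit 4) L28215 (by decide +kernel)
theorem L28217 : W_1 (nat_lit 4) (nat_lit 0x1600090000800000000000000000000000000) (nat_lit 0x0) (nat_lit 0x8000000020000000060003000080000000000000) := T_1 (nat_lit 90) (nat_lit 159) (nat_lit 7) (nat_lit 5) (nat_lit 5) L28216 (by decide +kernel)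
theorem L28218 : W_1 (nat_lit 2) (nat_lit 0x800040016000d0000c00000000000000000000000000) (nat_lit 0x0) (nat_lit 0x2000100008000000000000000000000000000000000000000) := D_1 (nat_lit 176) (nat_lit 159) (nat_lit 193) (nat_lit 7) (nat_lit 5) (nat_lit 6) (nat_lit 7) (nat_lit 5) (nat_lit 7) (by decide +kernel)
theorem L28219 : W_1 (nat_lit 3) (nat_lit 0x40016000d0000c00000000000000000000000000) (nat_lit 0x0) (nat_lit 0x2000180008000000008000000000000000000000000000000) := T_1 (nat_lit 175) (nat_lit 123) (nat_lit 4) (nat_lit 5) (nat_lit 10) L28218 (by decide +kernel)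
theorem L28220 : W_1 (nat_lit 4) (nat_lit 0x4001600090000c00000000000000000000000000) (nat_lit 0x0) (nat_lit 0x2000180008000000068000000000000000000000000000000) := T_1 (nat_lit 126) (nat_lit 125) (nat_lit 0) (nat_lit 8) (nat_lit 7) L28219 (by decide +kernel)
theorem L28221 : W_1 (nat_lit 5) (nat_lit 0x4001600090000800000000000000000000000000) (nat_lit 0x0) (nat_lit 0x2000180008000000068000400020000000000000000000000) := T_1 (nat_lit 106) (nat_lit 89) (nat_lit 4) (nat_lit 5) (nat_lit 9) L28220 (by decide +kernel)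
theorem L28222 : W_1 (nat_lit 2) (nat_lit 0xc001600090003c00000000000000000000000000) (nat_lit 0x0) (nat_lit 0x8000000000000c000000000000000000000000000000) := D_1 (nat_lit 123) (nat_lit 175) (nat_lit 122) (nat_lit 4) (nat_lit 5) (nat_lit 10) (nat_lit 1) (nat_lit 7) (nat_lit 6) (by decide +kernel)
theorem L28223 : W_1 (nat_lit 3) (nat_lit 0xc001600090001c00000000000000000000000000) (nat_lit 0x0) (nat_lit 0x8000000000004c002000000000000000000000000000) := T_1 (nat_lit 109) (nat_lit 126) (nat_lit 3) (nat_lit 4) (nat_lit 6) L28222 (by decide +kernel)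
theorem L28224 : W_1 (nat_lit 4) (nat_lit 0xc001600090001800000000000000000000000000) (nat_lit 0x0) (nat_lit 0x8000000000004c002400020000000000000000000000) := T_1 (nat_lit 106) (nat_lit 89) (nat_lit 4) (nat_lit 5) (nat_lit 9) L28223 (by decide +kernel)
theorem L28225 : W_1 (nat_lit 5) (nat_lit 0x4001600090001800000000000000000000000000) (nat_lit 0x0) (nat_lit 0x18000800000004c002400020000000000000000000000) := T_1 (nat_lit 159) (nat_lit 176) (nat_lit 7) (nat_lit 5) (nat_lit 6) L28224 (by decide +kernel)
theorem L28226 : W_1 (nat_lit 6) (nat_lit 0x4001600090000800000000000000000000000000) (nat_lit 0x0) (nat_lit 0x18000800000004c0034000a0000000000000000000000) := T_1 (nat_lit 108) (nat_lit 91) (nat_lit 6) (nat_lit 5) (nat_lit 9) L28225 (by decide +kernel)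
theorem L28227 : W_1 (nat_lit 2) (nat_lit 0x4001600090001c00000000000000000000000000) (nat_lit 0x0) (nat_lit 0x80000000000028000000000000000000000000000000) := D_1 (nat_lit 175) (nat_lit 125) (nat_lit 123) (nat_lit 6) (nat_lit 5) (nat_lit 10) (nat_lit 4) (nat_lit 5) (nat_lit 10) (by decide +kernel)
theorem L28228 : W_1 (nat_lit 3) (nat_lit 0x4001600090000c00000000000000000000000000) (nat_lit 0x0) (nat_lit 0x80000000000028001000080000000000000000000000) := T_1 (nat_lit 108) (nat_lit 91) (nat_lit 6) (nat_lit 5) (nat_lit 9) L28227 (by decide +kernel)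
theorem L28229 : W_1 (nat_lit 4) (nat_lit 0x4001600090000800000000000000000000000000) (nat_lit 0x0) (nat_lit 0x800000000000280014000a0000000000000000000000) := T_1 (nat_lit 106) (nat_lit 89) (nat_lit 4) (nat_lit 5) (nat_lit 9) L28228 (by decide +kernel)
theorem L28230 : W_1 (nat_lit 2) (nat_lit 0x80004001600090001800000000000000000000000000) (nat_lit 0x0) (nat_lit 0x800040002000000000000000000000000000000000000000) := D_1 (nat_lit 174) (nat_lit 191) (nat_lit 157) (nat_lit 5) (nat_lit 5) (nat_lit 7) (nat_lit 5) (nat_lit 5) (nat_lit 6) (by decide +kernel)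
theorem L28231 : W_1 (nat_lit 3) (nat_lit 0x4001600090001800000000000000000000000000) (nat_lit 0x0) (nat_lit 0x8000c0002000000020000000000000000000000000000000) := T_1 (nat_lit 175) (nat_lit 125) (nat_lit 6) (nat_lit 5) (nat_lit 10) L28230 (by decide +kernel)
theorem L28232 : W_1 (nat_lit 4) (nat_lit 0x4001600090000800000000000000000000000000) (nat_lit 0x0) (nat_lit 0x8000c0002000000020001000080000000000000000000000) := T_1 (nat_lit 108) (nat_lit 91) (nat_lit 6) (nat_lit 5) (nat_lit 9) L28231 (by decide +kernel)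
theorem L28233 : W_1 (nat_lit 7) (nat_lit 0x1600090000800000000000000000000000000) (nat_lit 0x0) (nat_lit 0x28001c000e00000006c0034000a0000000000000000000000) := Q_1 (nat_lit 158) (C_1 L28221 (C_1 L28196 (C_1 L28226 (C_1 L28229 (C_1 L28232 N_1))))) (by decide +kernel)
theorem L28234 : W_1 (nat_lit 10) (nat_lit 0x1600090000000000000000000000000000000) (nat_lit 0x0) (nat_lit 0x28001c000e00000016c003e003f800f000280000000000000) := Q_1 (nat_lit 107) (C_1 L28207 (C_1 L28210 (C_1 L28214 (C_1 L28217 (C_1 L28233 N_1))))) (by decide +kernel)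
theorem L28235 : W_1 (nat_lit 2) (nat_lit 0x4001600090000000000000000000000000000000) (nat_lit 0x0) (nat_lit 0x2000800100000000000000000000000000000000) := D_1 (nat_lit 143) (nat_lit 128) (nat_lit 157) (nat_lit 2) (nat_lit 5) (nat_lit 8) (nat_lit 1) (nat_lit 8) (nat_lit 8) (by decide +kernel)
theorem L28236 : W_1 (nat_lit 6) (nat_lit 0x1600090000000000000000000000000000000) (nat_lit 0x0) (nat_lit 0x10000e000800160003c000e0000000000000000000000) := Q_1 (nat_lit 158) (C_1 L28235 (C_1 L28197 N_1)) (by decide +kernel)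
theorem L28237 : W_1 (nat_lit 11) (nat_lit 0x1600080000000000000000000000000000000) (nat_lit 0x0) (nat_lit 0x28001c000e00080017c003e003f800f000280000000000000) := Q_1 (nat_lit 124) (C_1 L28191 (C_1 L28198 (C_1 L28234 (C_1 L28236 N_1)))) (by decide +kernel)
theorem L28238 : W_1 (nat_lit 12) (nat_lit 0x1400080000000000000000000000000000000) (nat_lit 0x0) (nat_lit 0xe001f800ff007f800bc017e00bf003f800f000780000000000000) := Q_1 (nat_lit 141) (C_1 L28069 (C_1 L28070 (C_1 L28071 (C_1 L28072 (C_1 L28190 (C_1 L28237 N_1)))))) (by decide +kernel)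
theorem L28239 : W_1 (nat_lit 2) (nat_lit 0x1c000e0001000000000000000000000000000) (nat_lit 0x0) (nat_lit 0x300000800000000000000000000000000) := D_1 (nat_lit 128) (nat_lit 107) (nat_lit 129) (nat_lit 0) (nat_lit 9) (nat_lit 7) (nat_lit 1) (nat_lit 10) (nat_lit 7) (by decide +kernel)
theorem L28240 : W_1 (nat_lit 2) (nat_lit 0x1c000e8001000180000000000000000000000) (nat_lit 0x0) (nat_lit 0x28000000000002000000000000000000000000000) := D_1 (nat_lit 109) (nat_lit 159) (nat_lit 161) (nat_lit 6) (nat_lit 6) (nat_lit 9) (nat_lit 7) (nat_lit 7) (nat_lit 5) (by decide +kernel)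
theorem L28241 : W_1 (nat_lit 3) (nat_lit 0x1c000e8001000080000000000000000000000) (nat_lit 0x0) (nat_lit 0x28000000000002000100008000000000000000000) := T_1 (nat_lit 92) (nat_lit 75) (nat_lit 6) (nat_lit 6) (nat_lit 8) L28240 (by decide +kernel)
theorem L28242 : W_1 (nat_lit 4) (nat_lit 0x1c000e8001000000000000000000000000000) (nat_lit 0x0) (nat_lit 0x2800000000000200018000c000000000000000000) := T_1 (nat_lit 91) (nat_lit 74) (nat_lit 7) (nat_lit 6) (nat_lit 4) L28241 (by decide +kernel)
theorem L28243 : W_1 (nat_lit 5) (nat_lit 0x1c000e0001000000000000000000000000000) (nat_lit 0x0) (nat_lit 0x2800000001800200018000c000000000000000000) := T_1 (nat_lit 123) (nat_lit 124) (nat_lit 3) (nat_lit 4) (nat_lit 7) L28242 (by decide +kernel)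
theorem L28244 : W_1 (nat_lit 6) (nat_lit 0x1c000a0001000000000000000000000000000) (nat_lit 0x0) (nat_lit 0x2800000035800280018000c000000000000000000) := Q_1 (nat_lit 126) (C_1 L28239 (C_1 L28243 N_1)) (by decide +kernel)
theorem L28245 : W_1 (nat_lit 2) (nat_lit 0x200000001c000f0001800000000000000000000000000) (nat_lit 0x0) (nat_lit 0x8000000000000000040002000000000000000000) := D_1 (nat_lit 90) (nat_lit 73) (nat_lit 159) (nat_lit 7) (nat_lit 5) (nat_lit 4) (nat_lit 4) (nat_lit 6) (nat_lit 9) (by decide +kernel)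
theorem L28246 : W_1 (nat_lit 3) (nat_lit 0x200000001c000f0001000000000000000000000000000) (nat_lit 0x0) (nat_lit 0x8000000000000c00040002000000000000000000) := T_1 (nat_lit 107) (nat_lit 106) (nat_lit 0) (nat_lit 8) (nat_lit 7) L28245 (by decide +kernel)
theorem L28247 : W_1 (nat_lit 4) (nat_lit 0x1c000f0001000000000000000000000000000) (nat_lit 0x0) (nat_lit 0x200018000000000000c00040002000000000000000000) := T_1 (nat_lit 177) (nat_lit 160) (nat_lit 4) (nat_lit 7) (nat_lit 10) L28246 (by decide +kernel)
theorem L28248 : W_1 (nat_lit 5) (nat_lit 0x1c000e0001000000000000000000000000000) (nat_lit 0x0) (nat_lit 0x200018000000018000c00040002000000000000000000) := T_1 (nat_lit 124) (nat_lit 123) (nat_lit 3) (nat_lit 4) (nat_lit 7) L28247 (by decide +kernel)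
theorem L28249 : W_1 (nat_lit 2) (nat_lit 0x1c000e0003000000000000000000000000000) (nat_lit 0x0) (nat_lit 0x8000000000000000100008000000000000000000) := D_1 (nat_lit 92) (nat_lit 75) (nat_lit 159) (nat_lit 7) (nat_lit 7) (nat_lit 4) (nat_lit 6) (nat_lit 6) (nat_lit 9) (by decide +kernel)
theorem L28250 : W_1 (nat_lit 2) (nat_lit 0x1c000e0003000000000000000000000000000) (nat_lit 0x0) (nat_lit 0x20000000000000000100008000000000000000000) := D_1 (nat_lit 92) (nat_lit 75) (nat_lit 161) (nat_lit 7) (nat_lit 7) (nat_lit 4) (nat_lit 7) (nat_lit 7) (nat_lit 5) (by decide +kernel)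
theorem L28251 : W_1 (nat_lit 2) (nat_lit 0x18001c000e0003000000000000000000000000000) (nat_lit 0x0) (nat_lit 0x80006000000000000000000000000000000000000000) := D_1 (nat_lit 158) (nat_lit 157) (nat_lit 175) (nat_lit 2) (nat_lit 4) (nat_lit 9) (nat_lit 5) (nat_lit 6) (nat_lit 6) (by decide +kernel)
theorem L28252 : W_1 (nat_lit 3) (nat_lit 0x10001c000e0003000000000000000000000000000) (nat_lit 0x0) (nat_lit 0x18000e000000000000000000000000000000000000000) := T_1 (nat_lit 159) (nat_lit 176) (nat_lit 6) (nat_lit 6) (nat_lit 10) L28251 (by decide +kernel)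
theorem L28253 : W_1 (nat_lit 4) (nat_lit 0x1c000e0003000000000000000000000000000) (nat_lit 0x0) (nat_lit 0x38001e000000000000000000000000000000000000000) := T_1 (nat_lit 160) (nat_lit 177) (nat_lit 4) (nat_lit 7) (nat_lit 10) L28252 (by decide +kernel)
theorem L28254 : W_1 (nat_lit 5) (nat_lit 0x1c000e0001000000000000000000000000000) (nat_lit 0x0) (nat_lit 0x38003e000000000002000100008000000000000000000) := Q_1 (nat_lit 109) (C_1 L28249 (C_1 L28250 (C_1 L28253 N_1))) (by decide +kernel)
theorem L28255 : W_1 (nat_lit 6) (nat_lit 0x1c000a0001000000000000000000000000000) (nat_lit 0x0) (nat_lit 0x38003e000000358002c0014000a000000000000000000) := Q_1 (nat_lit 126) (C_1 L28239 (C_1 L28248 (C_1 L28254 N_1))) (by decide +kernel)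
theorem L28256 : W_1 (nat_lit 7) (nat_lit 0x1c000a0000000000000000000000000000000) (nat_lit 0x0) (nat_lit 0x400038003e000000358003c001c000e000500000000000000) := Q_1 (nat_lit 108) (C_1 L23347 (C_1 L23389 (C_1 L28244 (C_1 L28255 N_1)))) (by decide +kernel)
theorem L28257 : W_1 (nat_lit 10) (nat_lit 0x1c00080000000000000000000000000000000) (nat_lit 0x0) (nat_lit 0xe00070003e00fe00600037c003c001c000e000500000000000000) := Q_1 (nat_lit 125) (C_1 L27523 (C_1 L27577 (C_1 L23096 (C_1 L28256 N_1)))) (by decide +kernel)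
theorem L28258 : W_1 (nat_lit 11) (nat_lit 0x1400080000000000000000000000000000000) (nat_lit 0x0) (nat_lit 0xe00070003e00ff006b0037c003c001c000e000500000000000000) := Q_1 (nat_lit 143) (C_1 L28257 (C_1 L27640 (C_1 L27641 (C_1 L27521 (C_1 L27619 N_1))))) (by decide +kernel)
theorem L28259 : W_1 (nat_lit 12) (nat_lit 0x1400080000000000000000000000000000000) (nat_lit 0x0) (nat_lit 0x800078003e003fe00ff00ff806b0034000b00018000c000000000000000000) := Q_1 (nat_lit 143) (C_1 L27244 (C_1 L27640 (C_1 L27618 (C_1 L27006 (C_1 L27579 N_1))))) (by decide +kernel)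
theorem L28260 : W_1 (nat_lit 2) (nat_lit 0x1c000e80034001c0000000000000000000000) (nat_lit 0x0) (nat_lit 0x200030000000000000000000000) := D_1 (nat_lit 89) (nat_lit 88) (nat_lit 105) (nat_lit 3) (nat_lit 3) (nat_lit 5) (nat_lit 1) (nat_lit 7) (nat_lit 5) (by decide +kernel)
theorem L28261 : W_1 (nat_lit 3) (nat_lit 0x1c000e8003400180000000000000000000000) (nat_lit 0x0) (nat_lit 0x200070002000000000000000000) := T_1 (nat_lit 90) (nat_lit 73) (nat_lit 4) (nat_lit 6) (nat_lit 8) L28260 (by decide +kernel)
theorem L28262 : W_1 (nat_lit 4) (nat_lit 0x1c000e8003000180000000000000000000000) (nat_lit 0x0) (nat_lit 0xe00070002000000000000000000) := T_1 (nat_lit 106) (nat_lit 107) (nat_lit 3) (nat_lit 4) (nat_lit 6) L28261 (by decide +kernel)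
theorem L28263 : W_1 (nat_lit 5) (nat_lit 0x1c000e8001000180000000000000000000000) (nat_lit 0x0) (nat_lit 0x8000000000002e00070002000000000000000000) := T_1 (nat_lit 109) (nat_lit 159) (nat_lit 6) (nat_lit 6) (nat_lit 9) L28262 (by decide +kernel)
theorem L28264 : W_1 (nat_lit 6) (nat_lit 0x1c000e8001000080000000000000000000000) (nat_lit 0x0) (nat_lit 0x8000000000002e0017000a000000000000000000) := T_1 (nat_lit 92) (nat_lit 75) (nat_lit 6) (nat_lit 6) (nat_lit 8) L28263 (by decide +kernel)
theorem L28265 : W_1 (nat_lit 7) (nat_lit 0x1c000e8001000000000000000000000000000) (nat_lit 0x0) (nat_lit 0x8000000000002e001f000e000000000000000000) := T_1 (nat_lit 91) (nat_lit 74) (nat_lit 7) (nat_lit 6) (nat_lit 4) L28264 (by decide +kernel)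
theorem L28266 : W_1 (nat_lit 8) (nat_lit 0x1c000e0001000000000000000000000000000) (nat_lit 0x0) (nat_lit 0x8000000018002e001f000e000000000000000000) := T_1 (nat_lit 123) (nat_lit 124) (nat_lit 3) (nat_lit 4) (nat_lit 7) L28265 (by decide +kernel)
theorem L28267 : W_1 (nat_lit 2) (nat_lit 0x80008001c002e00010001c0000000000000000000000) (nat_lit 0x0) (nat_lit 0x3000100000000000000000000000000000000000000000000) := D_1 (nat_lit 176) (nat_lit 193) (nat_lit 192) (nat_lit 6) (nat_lit 6) (nat_lit 11) (nat_lit 5) (nat_lit 6) (nat_lit 7) (by decide +kernel)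
theorem L28268 : W_1 (nat_lit 3) (nat_lit 0x8001c002e00010001c0000000000000000000000) (nat_lit 0x0) (nat_lit 0x3000180004000000000000000000000000000000000000000) := T_1 (nat_lit 175) (nat_lit 158) (nat_lit 5) (nat_lit 6) (nat_lit 6) L28267 (by decide +kernel)
theorem L28269 : W_1 (nat_lit 4) (nat_lit 0x1c002e00010001c0000000000000000000000) (nat_lit 0x0) (nat_lit 0x300018000c000000000002000000000000000000000000000) := T_1 (nat_lit 159) (nat_lit 109) (nat_lit 6) (nat_lit 6) (nat_lit 9) L28268 (by decide +kernel)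
theorem L28270 : W_1 (nat_lit 5) (nat_lit 0x1c002e00010000c0000000000000000000000) (nat_lit 0x0) (nat_lit 0x300018000c000000000002000100008000000000000000000) := T_1 (nat_lit 92) (nat_lit 75) (nat_lit 6) (nat_lit 6) (nat_lit 8) L28269 (by decide +kernel)
theorem L28271 : W_1 (nat_lit 6) (nat_lit 0x1c002e0001000080000000000000000000000) (nat_lit 0x0) (nat_lit 0x300018000c00000000000200014000a000000000000000000) := T_1 (nat_lit 90) (nat_lit 73) (nat_lit 4) (nat_lit 6) (nat_lit 8) L28270 (by decide +kernel)
theorem L28272 : W_1 (nat_lit 7) (nat_lit 0x1c000e0001000080000000000000000000000) (nat_lit 0x0) (nat_lit 0x300018000c00000030000200014000a000000000000000000) := T_1 (nat_lit 129) (nat_lit 128) (nat_lit 1) (nat_lit 10) (nat_lit 7) L28271 (by decide +kernel)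
theorem L28273 : W_1 (nat_lit 8) (nat_lit 0x1c000e0001000000000000000000000000000) (nat_lit 0x0) (nat_lit 0x300018000c0000003000020001c000e000000000000000000) := T_1 (nat_lit 91) (nat_lit 74) (nat_lit 7) (nat_lit 6) (nat_lit 4) L28272 (by decide +kernel)
theorem L28274 : W_1 (nat_lit 9) (nat_lit 0x1c000a0001000000000000000000000000000) (nat_lit 0x0) (nat_lit 0x300018000c000000358002e001f000e000000000000000000) := Q_1 (nat_lit 126) (C_1 L28239 (C_1 L28266 (C_1 L28273 N_1))) (by decide +kernel)
theorem L28275 : W_1 (nat_lit 2) (nat_lit 0x8001c000e0001000000000000000000000000000) (nat_lit 0x0) (nat_lit 0x100000000000000002000100000000000000000000000) := D_1 (nat_lit 109) (nat_lit 92) (nat_lit 176) (nat_lit 6) (nat_lit 6) (nat_lit 9) (nat_lit 6) (nat_lit 6) (nat_lit 10) (by decide +kernel)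
theorem L28276 : W_1 (nat_lit 2) (nat_lit 0x200008001c000e0001000000000000000000000000000) (nat_lit 0x0) (nat_lit 0x6000100000000000000000000000000000000000000000000) := D_1 (nat_lit 176) (nat_lit 193) (nat_lit 194) (nat_lit 6) (nat_lit 6) (nat_lit 11) (nat_lit 7) (nat_lit 6) (nat_lit 7) (by decide +kernel)
theorem L28277 : W_1 (nat_lit 3) (nat_lit 0x8001c000e0001000000000000000000000000000) (nat_lit 0x0) (nat_lit 0x6000300010000000000000000000000000000000000000000) := T_1 (nat_lit 177) (nat_lit 160) (nat_lit 7) (nat_lit 6) (nat_lit 6) L28276 (by decide +kernel)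
theorem L28278 : W_1 (nat_lit 2) (nat_lit 0x18001c002e0003000000000000000000000000000) (nat_lit 0x0) (nat_lit 0x80006000000000000000000000000000000000000000) := D_1 (nat_lit 158) (nat_lit 157) (nat_lit 175) (nat_lit 2) (nat_lit 4) (nat_lit 9) (nat_lit 5) (nat_lit 6) (nat_lit 6) (by decide +kernel)
theorem L28279 : W_1 (nat_lit 3) (nat_lit 0x8001c002e0003000000000000000000000000000) (nat_lit 0x0) (nat_lit 0x280016000000000000000000000000000000000000000) := T_1 (nat_lit 160) (nat_lit 177) (nat_lit 7) (nat_lit 6) (nat_lit 6) L28278 (by decide +kernel)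
theorem L28280 : W_1 (nat_lit 4) (nat_lit 0x8001c000e0003000000000000000000000000000) (nat_lit 0x0) (nat_lit 0x280016000000300000000000000000000000000000000) := T_1 (nat_lit 129) (nat_lit 128) (nat_lit 1) (nat_lit 10) (nat_lit 7) L28279 (by decide +kernel)
theorem L28281 : W_1 (nat_lit 5) (nat_lit 0x8001c000e0001000000000000000000000000000) (nat_lit 0x0) (nat_lit 0x280016000000300002000100000000000000000000000) := T_1 (nat_lit 109) (nat_lit 92) (nat_lit 6) (nat_lit 6) (nat_lit 9) L28280 (by decide +kernel)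
theorem L28282 : W_1 (nat_lit 6) (nat_lit 0x1c000e0001000000000000000000000000000) (nat_lit 0x0) (nat_lit 0x600038001e000000300002000100000000000000000000000) := Q_1 (nat_lit 159) (C_1 L28275 (C_1 L28277 (C_1 L28281 N_1))) (by decide +kernel)
theorem L28283 : W_1 (nat_lit 7) (nat_lit 0x1c000a0001000000000000000000000000000) (nat_lit 0x0) (nat_lit 0x600038001e000000358002c00140002000000000000000000) := Q_1 (nat_lit 126) (C_1 L28282 (C_1 L28239 (C_1 L28248 N_1))) (by decide +kernel)
theorem L28284 : W_1 (nat_lit 10) (nat_lit 0x1c000a0000000000000000000000000000000) (nat_lit 0x0) (nat_lit 0x700038001e000000358003e001f000e000500000000000000) := Q_1 (nat_lit 108) (C_1 L23347 (C_1 L23389 (C_1 L28274 (C_1 L28283 N_1)))) (by decide +kernel)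
theorem L28285 : W_1 (nat_lit 5) (nat_lit 0x1c000a0000000000000000000000000000000) (nat_lit 0x0) (nat_lit 0x10001c006000340003800180004000000000000000000) := Q_1 (nat_lit 126) (C_1 L27340 (C_1 L23499 N_1)) (by decide +kernel)
theorem L28286 : W_1 (nat_lit 11) (nat_lit 0x1c00080000000000000000000000000000000) (nat_lit 0x0) (nat_lit 0x700038001e00600037c003e001f000e000500000000000000) := Q_1 (nat_lit 125) (C_1 L27523 (C_1 L23096 (C_1 L28284 (C_1 L28285 N_1)))) (by decide +kernel)
theorem L28287 : W_1 (nat_lit 12) (nat_lit 0x1400080000000000000000000000000000000) (nat_lit 0x0) (nat_lit 0x700038001f006b0037c003e001f000e000500000000000000) := Q_1 (nat_lit 143) (C_1 L28286 (C_1 L27006 (C_1 L27521 (C_1 L27307 (C_1 L27308 N_1))))) (by decide +kernel)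
theorem L28288 : W_1 (nat_lit 5) (nat_lit 0x14000e0000000000000000000000000000000) (nat_lit 0x0) (nat_lit 0x400030006800300019800480004000000000000000000) := Q_1 (nat_lit 128) (C_1 L27896 (C_1 L23009 N_1)) (by decide +kernel)
theorem L28289 : W_1 (nat_lit 2) (nat_lit 0x200014000e0002000000000000000000000000000) (nat_lit 0x0) (nat_lit 0x800000000000100008000000000000000000) := D_1 (nat_lit 92) (nat_lit 75) (nat_lit 143) (nat_lit 7) (nat_lit 7) (nat_lit 4) (nat_lit 7) (nat_lit 7) (nat_lit 5) (by decide +kernel)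
theorem L28290 : W_1 (nat_lit 3) (nat_lit 0x14000e0002000000000000000000000000000) (nat_lit 0x0) (nat_lit 0x400020000800000000000100008000000000000000000) := T_1 (nat_lit 161) (nat_lit 178) (nat_lit 4) (nat_lit 8) (nat_lit 10) L28289 (by decide +kernel)
theorem L28291 : W_1 (nat_lit 2) (nat_lit 0x40000c001c000e0003000000000000000000000000000) (nat_lit 0x0) (nat_lit 0x10000000000000000080004000000000000000000) := D_1 (nat_lit 91) (nat_lit 160) (nat_lit 74) (nat_lit 7) (nat_lit 6) (nat_lit 5) (nat_lit 7) (nat_lit 6) (nat_lit 4) (by decide +kernel)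
theorem L28292 : W_1 (nat_lit 3) (nat_lit 0x40000c0014000e0003000000000000000000000000000) (nat_lit 0x0) (nat_lit 0x10002800000000000080004000000000000000000) := T_1 (nat_lit 143) (nat_lit 145) (nat_lit 1) (nat_lit 9) (nat_lit 8) L28291 (by decide +kernel)
theorem L28293 : W_1 (nat_lit 4) (nat_lit 0x4000080014000e0003000000000000000000000000000) (nat_lit 0x0) (nat_lit 0x80014002800000000000080004000000000000000000) := T_1 (nat_lit 158) (nat_lit 175) (nat_lit 5) (nat_lit 6) (nat_lit 6) L28292 (by decide +kernel)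
theorem L28294 : W_1 (nat_lit 5) (nat_lit 0x80014000e0003000000000000000000000000000) (nat_lit 0x0) (nat_lit 0x480034002800000000000080004000000000000000000) := T_1 (nat_lit 178) (nat_lit 161) (nat_lit 4) (nat_lit 8) (nat_lit 10) L28293 (by decide +kernel)
theorem L28295 : W_1 (nat_lit 6) (nat_lit 0x80014000e0002000000000000000000000000000) (nat_lit 0x0) (nat_lit 0x480034002800000001c000c0004000000000000000000) := Q_1 (nat_lit 108) (C_1 L23618 (C_1 L28294 N_1)) (by decide +kernel)
theorem L28296 : W_1 (nat_lit 7) (nat_lit 0x14000e0002000000000000000000000000000) (nat_lit 0x0) (nat_lit 0x58003c002800000001c000c0004000000000000000000) := T_1 (nat_lit 159) (nat_lit 176) (nat_lit 6) (nat_lit 6) (nat_lit 10) L28295 (by decide +kernel)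
theorem L28297 : W_1 (nat_lit 8) (nat_lit 0x14000e0000000000000000000000000000000) (nat_lit 0x0) (nat_lit 0x58003c002800000003c001c000c000000000000000000) := Q_1 (nat_lit 109) (C_1 L23546 (C_1 L28290 (C_1 L23595 (C_1 L28296 N_1)))) (by decide +kernel)
theorem L28298 : W_1 (nat_lit 4) (nat_lit 0x34000e0000000000000000000000000000000) (nat_lit 0x0) (nat_lit 0x10000c004800000002000100000000000000000000000) := T_1 (nat_lit 143) (nat_lit 146) (nat_lit 0) (nat_lit 10) (nat_lit 8) L27339 (by decide +kernel)
theorem L28299 : W_1 (nat_lit 2) (nat_lit 0x3c001e0008000000000000000000000000000) (nat_lit 0x0) (nat_lit 0x20000000000000000400020000000000000000000) := D_1 (nat_lit 94) (nat_lit 77) (nat_lit 161) (nat_lit 5) (nat_lit 9) (nat_lit 4) (nat_lit 5) (nat_lit 9) (nat_lit 5) (by decide +kernel)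
theorem L28300 : W_1 (nat_lit 3) (nat_lit 0x3c001e0000000000000000000000000000000) (nat_lit 0x0) (nat_lit 0x20000000000018000400020000000000000000000) := T_1 (nat_lit 111) (nat_lit 112) (nat_lit 2) (nat_lit 6) (nat_lit 7) L28299 (by decide +kernel)
theorem L28301 : W_1 (nat_lit 4) (nat_lit 0x3c000e0000000000000000000000000000000) (nat_lit 0x0) (nat_lit 0x20000000300018000400020000000000000000000) := T_1 (nat_lit 128) (nat_lit 129) (nat_lit 2) (nat_lit 6) (nat_lit 8) L28300 (by decide +kernel)
theorem L28302 : W_1 (nat_lit 5) (nat_lit 0x34000e0000000000000000000000000000000) (nat_lit 0x0) (nat_lit 0x10002c00080030001a000500020000000000000000000) := Q_1 (nat_lit 143) (C_1 L27339 (C_1 L28301 N_1)) (by decide +kernel)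
theorem L28303 : W_1 (nat_lit 6) (nat_lit 0x14000e0000000000000000000000000000000) (nat_lit 0x0) (nat_lit 0x50002c00680030001a000500020000000000000000000) := Q_1 (nat_lit 145) (C_1 L28038 (C_1 L28298 (C_1 L28302 N_1))) (by decide +kernel)
theorem L28304 : W_1 (nat_lit 8) (nat_lit 0x14000e0000000000000000000000000000000) (nat_lit 0x0) (nat_lit 0x78003e000800300003c001c0008000000000000000000) := Q_1 (nat_lit 109) (C_1 L28290 (C_1 L23595 (C_1 L23641 N_1))) (by decide +kernel)
theorem L28305 : W_1 (nat_lit 2) (nat_lit 0x1c002e0003000380000000000000000000000) (nat_lit 0x0) (nat_lit 0xc00400000000000000000000000) := D_1 (nat_lit 107) (nat_lit 106) (nat_lit 94) (nat_lit 3) (nat_lit 4) (nat_lit 6) (nat_lit 1) (nat_lit 9) (nat_lit 5) (by decide +kernel)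
theorem L28306 : W_1 (nat_lit 3) (nat_lit 0x1c002e0002000380000000000000000000000) (nat_lit 0x0) (nat_lit 0x10000000000001c00400000000000000000000000) := T_1 (nat_lit 108) (nat_lit 160) (nat_lit 7) (nat_lit 6) (nat_lit 5) L28305 (by decide +kernel)
theorem L28307 : W_1 (nat_lit 4) (nat_lit 0x1c000e0002000380000000000000000000000) (nat_lit 0x0) (nat_lit 0x10000000300001c00400000000000000000000000) := T_1 (nat_lit 129) (nat_lit 128) (nat_lit 1) (nat_lit 10) (nat_lit 7) L28306 (by decide +kernel)
theorem L28308 : W_1 (nat_lit 5) (nat_lit 0x1c000e0002000300000000000000000000000) (nat_lit 0x0) (nat_lit 0x10000000300001c00480004000000000000000000) := T_1 (nat_lit 91) (nat_lit 74) (nat_lit 4) (nat_lit 7) (nat_lit 8) L28307 (by decide +kernel)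
theorem L28309 : W_1 (nat_lit 6) (nat_lit 0x1c000e0002000100000000000000000000000) (nat_lit 0x0) (nat_lit 0x10000000300001c00680014000000000000000000) := T_1 (nat_lit 93) (nat_lit 76) (nat_lit 6) (nat_lit 7) (nat_lit 8) L28308 (by decide +kernel)
theorem L28310 : W_1 (nat_lit 7) (nat_lit 0x14000e0002000100000000000000000000000) (nat_lit 0x0) (nat_lit 0x30000800300001c00680014000000000000000000) := T_1 (nat_lit 143) (nat_lit 161) (nat_lit 7) (nat_lit 7) (nat_lit 5) L28309 (by decide +kernel)
theorem L28311 : W_1 (nat_lit 8) (nat_lit 0x14000e0002000000000000000000000000000) (nat_lit 0x0) (nat_lit 0x30000800300001c0078001c000000000000000000) := T_1 (nat_lit 92) (nat_lit 75) (nat_lit 7) (nat_lit 7) (nat_lit 4) L28310 (by decide +kernel)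
theorem L28312 : W_1 (nat_lit 9) (nat_lit 0x14000e0000000000000000000000000000000) (nat_lit 0x0) (nat_lit 0x38003e000800300003c007c001c000000000000000000) := Q_1 (nat_lit 109) (C_1 L23546 (C_1 L28311 (C_1 L23595 (C_1 L23641 N_1)))) (by decide +kernel)
theorem L28313 : W_1 (nat_lit 2) (nat_lit 0x100014000e00030001e0000000000000000000000) (nat_lit 0x0) (nat_lit 0xe00000000000000000000000000) := D_1 (nat_lit 106) (nat_lit 107) (nat_lit 105) (nat_lit 3) (nat_lit 4) (nat_lit 6) (nat_lit 1) (nat_lit 7) (nat_lit 5) (by decide +kernel)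
theorem L28314 : W_1 (nat_lit 3) (nat_lit 0x100014000e00030001c0000000000000000000000) (nat_lit 0x0) (nat_lit 0xe00030000000000000000000000) := T_1 (nat_lit 89) (nat_lit 88) (nat_lit 3) (nat_lit 3) (nat_lit 5) L28313 (by decide +kernel)
theorem L28315 : W_1 (nat_lit 4) (nat_lit 0x100014000e0003000180000000000000000000000) (nat_lit 0x0) (nat_lit 0xe00070002000000000000000000) := T_1 (nat_lit 90) (nat_lit 73) (nat_lit 4) (nat_lit 6) (nat_lit 8) L28314 (by decide +kernel)
theorem L28316 : W_1 (nat_lit 5) (nat_lit 0x14000e0003000180000000000000000000000) (nat_lit 0x0) (nat_lit 0x10000800000000e00070002000000000000000000) := T_1 (nat_lit 160) (nat_lit 143) (nat_lit 7) (nat_lit 6) (nat_lit 5) L28315 (by decide +kernel)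
theorem L28317 : W_1 (nat_lit 6) (nat_lit 0x14000e0003000080000000000000000000000) (nat_lit 0x0) (nat_lit 0x10000800000000e0017000a000000000000000000) := T_1 (nat_lit 92) (nat_lit 75) (nat_lit 7) (nat_lit 7) (nat_lit 4) L28316 (by decide +kernel)
theorem L28318 : W_1 (nat_lit 7) (nat_lit 0x14000e0003000000000000000000000000000) (nat_lit 0x0) (nat_lit 0x10000800000000e001f000e000600000000000000) := Q_1 (nat_lit 91) (C_1 L23571 (C_1 L23548 (C_1 L28317 N_1))) (by decide +kernel)
theorem L28319 : W_1 (nat_lit 2) (nat_lit 0x34001e000b000500000000000000000000000) (nat_lit 0x0) (nat_lit 0xa00010000000000000000000) := D_1 (nat_lit 93) (nat_lit 76) (nat_lit 95) (nat_lit 4) (nat_lit 9) (nat_lit 8) (nat_lit 1) (nat_lit 10) (nat_lit 5) (by decide +kernel)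
theorem L28320 : W_1 (nat_lit 3) (nat_lit 0x34001e000b000100000000000000000000000) (nat_lit 0x0) (nat_lit 0xe00030000000000000000000) := T_1 (nat_lit 94) (nat_lit 77) (nat_lit 5) (nat_lit 9) (nat_lit 4) L28319 (by decide +kernel)
theorem L28321 : W_1 (nat_lit 4) (nat_lit 0x34001e0003000100000000000000000000000) (nat_lit 0x0) (nat_lit 0x18000e00030000000000000000000) := T_1 (nat_lit 111) (nat_lit 112) (nat_lit 2) (nat_lit 6) (nat_lit 7) L28320 (by decide +kernel)
theorem L28322 : W_1 (nat_lit 5) (nat_lit 0x14001e0003000100000000000000000000000) (nat_lit 0x0) (nat_lit 0x6000000018000e00030000000000000000000) := T_1 (nat_lit 145) (nat_lit 146) (nat_lit 3) (nat_lit 6) (nat_lit 7) L28321 (by decide +kernel)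
theorem L28323 : W_1 (nat_lit 6) (nat_lit 0x14001e0003000000000000000000000000000) (nat_lit 0x0) (nat_lit 0x6000000018000f00038000000000000000000) := T_1 (nat_lit 92) (nat_lit 75) (nat_lit 7) (nat_lit 7) (nat_lit 4) L28322 (by decide +kernel)
theorem L28324 : W_1 (nat_lit 7) (nat_lit 0x14000e0003000000000000000000000000000) (nat_lit 0x0) (nat_lit 0x6000300018000f00038000000000000000000) := T_1 (nat_lit 128) (nat_lit 129) (nat_lit 0) (nat_lit 10) (nat_lit 7) L28323 (by decide +kernel)
theorem L28325 : W_1 (nat_lit 8) (nat_lit 0x14000e0002000000000000000000000000000) (nat_lit 0x0) (nat_lit 0x10006800300019e00ff003e000600000000000000) := Q_1 (nat_lit 108) (C_1 L23627 (C_1 L28318 (C_1 L28324 N_1))) (by decide +kernel)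
theorem L28326 : W_1 (nat_lit 9) (nat_lit 0x14000e0000000000000000000000000000000) (nat_lit 0x0) (nat_lit 0x38001e00680030001be00ff003e000600000000000000) := Q_1 (nat_lit 109) (C_1 L23546 (C_1 L28325 (C_1 L23595 (C_1 L23641 N_1)))) (by decide +kernel)
theorem L28327 : W_1 (nat_lit 10) (nat_lit 0x14000a0000000000000000000000000000000) (nat_lit 0x0) (nat_lit 0x78003e00680034001be00ff003e000600000000000000) := Q_1 (nat_lit 126) (C_1 L28288 (C_1 L28297 (C_1 L27901 (C_1 L28303 (C_1 L28304 (C_1 L28312 (C_1 L28326 N_1))))))) (by decide +kernel)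
theorem L28328 : W_1 (nat_lit 5) (nat_lit 0x14000f0000000000000000000000000000000) (nat_lit 0x0) (nat_lit 0x9c000c000700000000000000000000000000) := T_1 (nat_lit 123) (nat_lit 143) (nat_lit 3) (nat_lit 4) (nat_lit 7) L27952 (by decide +kernel)
theorem L28329 : W_1 (nat_lit 6) (nat_lit 0x14000e0000000000000000000000000000000) (nat_lit 0x0) (nat_lit 0x29c001c000700000000000000000000000000) := T_1 (nat_lit 124) (nat_lit 145) (nat_lit 3) (nat_lit 5) (nat_lit 7) L28328 (by decide +kernel)
theorem L28330 : W_1 (nat_lit 2) (nat_lit 0x14000e0001000080000000000000000000000) (nat_lit 0x0) (nat_lit 0x10000800000000000000004000000000000000000) := D_1 (nat_lit 143) (nat_lit 160) (nat_lit 74) (nat_lit 7) (nat_lit 6) (nat_lit 5) (nat_lit 7) (nat_lit 6) (nat_lit 4) (by decide +kernel)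
theorem L28331 : W_1 (nat_lit 2) (nat_lit 0x14000e00010000c0004000000000000000000) (nat_lit 0x0) (nat_lit 0x100008000400000000000000) := D_1 (nat_lit 75) (nat_lit 92) (nat_lit 58) (nat_lit 6) (nat_lit 6) (nat_lit 8) (nat_lit 6) (nat_lit 6) (nat_lit 7) (by decide +kernel)
theorem L28332 : W_1 (nat_lit 3) (nat_lit 0x14000e00010000c0000000000000000000000) (nat_lit 0x0) (nat_lit 0x80000000000010000c000400000000000000) := T_1 (nat_lit 74) (nat_lit 143) (nat_lit 7) (nat_lit 6) (nat_lit 4) L28331 (by decide +kernel)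
theorem L28333 : W_1 (nat_lit 4) (nat_lit 0x14000e0001000080000000000000000000000) (nat_lit 0x0) (nat_lit 0x80000000000014000e000400000000000000) := T_1 (nat_lit 90) (nat_lit 73) (nat_lit 4) (nat_lit 6) (nat_lit 8) L28332 (by decide +kernel)
theorem L28334 : W_1 (nat_lit 2) (nat_lit 0x14000e000100008000c000000000000000000) (nat_lit 0x0) (nat_lit 0x40002000100000000000000) := D_1 (nat_lit 73) (nat_lit 56) (nat_lit 90) (nat_lit 4) (nat_lit 6) (nat_lit 7) (nat_lit 4) (nat_lit 6) (nat_lit 8) (by decide +kernel)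
theorem L28335 : W_1 (nat_lit 3) (nat_lit 0x14000e0001000080008000000000000000000) (nat_lit 0x0) (nat_lit 0x40006000500000000000000) := T_1 (nat_lit 74) (nat_lit 58) (nat_lit 6) (nat_lit 6) (nat_lit 7) L28334 (by decide +kernel)
theorem L28336 : W_1 (nat_lit 4) (nat_lit 0x14000e0001000080000000000000000000000) (nat_lit 0x0) (nat_lit 0x14000e000500000000000000) := T_1 (nat_lit 75) (nat_lit 92) (nat_lit 6) (nat_lit 6) (nat_lit 8) L28335 (by decide +kernel)
theorem L28337 : W_1 (nat_lit 2) (nat_lit 0x1c000e0003000380000000000000000000000) (nat_lit 0x0) (nat_lit 0xc00400000000000000000000000) := D_1 (nat_lit 107) (nat_lit 106) (nat_lit 94) (nat_lit 3) (nat_lit 4) (nat_lit 6) (nat_lit 1) (nat_lit 9) (nat_lit 5) (by decide +kernel)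
theorem L28338 : W_1 (nat_lit 3) (nat_lit 0x1c000e0003000180000000000000000000000) (nat_lit 0x0) (nat_lit 0xc00600010000000000000000000) := T_1 (nat_lit 93) (nat_lit 76) (nat_lit 6) (nat_lit 7) (nat_lit 8) L28337 (by decide +kernel)
theorem L28339 : W_1 (nat_lit 4) (nat_lit 0x1c000e0001000180000000000000000000000) (nat_lit 0x0) (nat_lit 0x20000000000002c00600010000000000000000000) := T_1 (nat_lit 109) (nat_lit 161) (nat_lit 7) (nat_lit 7) (nat_lit 5) L28338 (by decide +kernel)
theorem L28340 : W_1 (nat_lit 5) (nat_lit 0x14000e0001000180000000000000000000000) (nat_lit 0x0) (nat_lit 0x30000800000002c00600010000000000000000000) := T_1 (nat_lit 143) (nat_lit 160) (nat_lit 7) (nat_lit 6) (nat_lit 5) L28339 (by decide +kernel)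
theorem L28341 : W_1 (nat_lit 6) (nat_lit 0x14000e0001000080000000000000000000000) (nat_lit 0x0) (nat_lit 0x30000800000002c00700018000000000000000000) := T_1 (nat_lit 92) (nat_lit 75) (nat_lit 6) (nat_lit 6) (nat_lit 8) L28340 (by decide +kernel)
theorem L28342 : W_1 (nat_lit 7) (nat_lit 0x14000e0001000000000000000000000000000) (nat_lit 0x0) (nat_lit 0x30000800000002c007c001e000500000000000000) := Q_1 (nat_lit 91) (C_1 L28330 (C_1 L28333 (C_1 L28336 (C_1 L28341 N_1)))) (by decide +kernel)
theorem L28343 : W_1 (nat_lit 2) (nat_lit 0x400020001c000e80010001c0000000000000000000000) (nat_lit 0x0) (nat_lit 0x300008000000000000000000000000000) := D_1 (nat_lit 128) (nat_lit 129) (nat_lit 111) (nat_lit 1) (nat_lit 10) (nat_lit 7) (nat_lit 6) (nat_lit 8) (nat_lit 10) (by decide +kernel)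
theorem L28344 : W_1 (nat_lit 3) (nat_lit 0x20001c000e80010001c0000000000000000000000) (nat_lit 0x0) (nat_lit 0x8000400000000000300008000000000000000000000000000) := T_1 (nat_lit 178) (nat_lit 195) (nat_lit 4) (nat_lit 8) (nat_lit 11) L28343 (by decide +kernel)
theorem L28345 : W_1 (nat_lit 4) (nat_lit 0x20001c000e00010001c0000000000000000000000) (nat_lit 0x0) (nat_lit 0x8000400000000000318008000000000000000000000000000) := T_1 (nat_lit 123) (nat_lit 124) (nat_lit 3) (nat_lit 4) (nat_lit 7) L28344 (by decide +kernel)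
theorem L28346 : W_1 (nat_lit 5) (nat_lit 0x1c000e00010001c0000000000000000000000) (nat_lit 0x0) (nat_lit 0x800040002000000031800a000000000000000000000000000) := T_1 (nat_lit 161) (nat_lit 109) (nat_lit 7) (nat_lit 7) (nat_lit 5) L28345 (by decide +kernel)
theorem L28347 : W_1 (nat_lit 6) (nat_lit 0x14000e00010001c0000000000000000000000) (nat_lit 0x0) (nat_lit 0x800040003000080031800a000000000000000000000000000) := T_1 (nat_lit 143) (nat_lit 160) (nat_lit 7) (nat_lit 6) (nat_lit 5) L28346 (by decide +kernel)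
theorem L28348 : W_1 (nat_lit 7) (nat_lit 0x14000e00010000c0000000000000000000000) (nat_lit 0x0) (nat_lit 0x800040003000080031800a000100008000000000000000000) := T_1 (nat_lit 92) (nat_lit 75) (nat_lit 6) (nat_lit 6) (nat_lit 8) L28347 (by decide +kernel)
theorem L28349 : W_1 (nat_lit 8) (nat_lit 0x14000e0001000080000000000000000000000) (nat_lit 0x0) (nat_lit 0x800040003000080031800a00014000a000000000000000000) := T_1 (nat_lit 90) (nat_lit 73) (nat_lit 4) (nat_lit 6) (nat_lit 8) L28348 (by decide +kernel)
theorem L28350 : W_1 (nat_lit 9) (nat_lit 0x14000e0001000000000000000000000000000) (nat_lit 0x0) (nat_lit 0x800040003000080031800a0001c000e000500000000000000) := Q_1 (nat_lit 91) (C_1 L28330 (C_1 L28336 (C_1 L28349 N_1))) (by decide +kernel)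
theorem L28351 : W_1 (nat_lit 10) (nat_lit 0x14000e0000000000000000000000000000000) (nat_lit 0x0) (nat_lit 0x800040003000080031800be007c001e000500000000000000) := Q_1 (nat_lit 108) (C_1 L28042 (C_1 L28342 (C_1 L28350 N_1))) (by decide +kernel)
theorem L28352 : W_1 (nat_lit 11) (nat_lit 0x14000a0000000000000000000000000000000) (nat_lit 0x0) (nat_lit 0x80004000300069c035c01bf007c001e000500000000000000) := Q_1 (nat_lit 126) (C_1 L28288 (C_1 L28329 (C_1 L28039 (C_1 L28351 N_1)))) (by decide +kernel)
theorem L28353 : W_1 (nat_lit 2) (nat_lit 0x14000b0000000000000000000000000000000) (nat_lit 0x0) (nat_lit 0x2800040000000000000000000000000000000) := D_1 (nat_lit 145) (nat_lit 143) (nat_lit 126) (nat_lit 0) (nat_lit 9) (nat_lit 8) (nat_lit 3) (nat_lit 5) (nat_lit 7) (by decide +kernel)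
theorem L28354 : W_1 (nat_lit 2) (nat_lit 0x180034000b4003000000000000000000000000000) (nat_lit 0x0) (nat_lit 0x80024000000000000000000000000000000000000000) := D_1 (nat_lit 158) (nat_lit 161) (nat_lit 175) (nat_lit 2) (nat_lit 5) (nat_lit 9) (nat_lit 5) (nat_lit 6) (nat_lit 6) (by decide +kernel)
theorem L28355 : W_1 (nat_lit 3) (nat_lit 0x80034000b4003000000000000000000000000000) (nat_lit 0x0) (nat_lit 0x280034000000000000000000000000000000000000000) := T_1 (nat_lit 160) (nat_lit 177) (nat_lit 7) (nat_lit 6) (nat_lit 6) L28354 (by decide +kernel)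
theorem L28356 : W_1 (nat_lit 4) (nat_lit 0x80034000b0003000000000000000000000000000) (nat_lit 0x0) (nat_lit 0x28003400000000c000000000000000000000000000000) := T_1 (nat_lit 122) (nat_lit 123) (nat_lit 2) (nat_lit 3) (nat_lit 7) L28355 (by decide +kernel)
theorem L28357 : W_1 (nat_lit 5) (nat_lit 0x80034000b0001000000000000000000000000000) (nat_lit 0x0) (nat_lit 0x28003400000000c002000100000000000000000000000) := T_1 (nat_lit 109) (nat_lit 92) (nat_lit 6) (nat_lit 6) (nat_lit 9) L28356 (by decide +kernel)
theorem L28358 : W_1 (nat_lit 6) (nat_lit 0x80014000b0001000000000000000000000000000) (nat_lit 0x0) (nat_lit 0x28003400280000c002000100000000000000000000000) := T_1 (nat_lit 145) (nat_lit 143) (nat_lit 0) (nat_lit 9) (nat_lit 8) L28357 (by decide +kernel)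
theorem L28359 : W_1 (nat_lit 2) (nat_lit 0xc0034000b0001000180000000000000000000000) (nat_lit 0x0) (nat_lit 0x800040002000000000000000000) := D_1 (nat_lit 90) (nat_lit 73) (nat_lit 107) (nat_lit 4) (nat_lit 6) (nat_lit 8) (nat_lit 4) (nat_lit 6) (nat_lit 9) (by decide +kernel)
theorem L28360 : W_1 (nat_lit 3) (nat_lit 0xc0034000b0001000100000000000000000000000) (nat_lit 0x0) (nat_lit 0x8000c000a000000000000000000) := T_1 (nat_lit 91) (nat_lit 75) (nat_lit 6) (nat_lit 6) (nat_lit 8) L28359 (by decide +kernel)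
theorem L28361 : W_1 (nat_lit 4) (nat_lit 0xc0034000b0001000000000000000000000000000) (nat_lit 0x0) (nat_lit 0x28001c000a000000000000000000) := T_1 (nat_lit 92) (nat_lit 109) (nat_lit 6) (nat_lit 6) (nat_lit 9) L28360 (by decide +kernel)
theorem L28362 : W_1 (nat_lit 5) (nat_lit 0xc0014000b0001000000000000000000000000000) (nat_lit 0x0) (nat_lit 0x28000000028001c000a000000000000000000) := T_1 (nat_lit 145) (nat_lit 143) (nat_lit 1) (nat_lit 9) (nat_lit 8) L28361 (by decide +kernel)
theorem L28363 : W_1 (nat_lit 6) (nat_lit 0x80014000b0001000000000000000000000000000) (nat_lit 0x0) (nat_lit 0x800040028000000028001c000a000000000000000000) := T_1 (nat_lit 158) (nat_lit 175) (nat_lit 5) (nat_lit 6) (nat_lit 6) L28362 (by decide +kernel)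
theorem L28364 : W_1 (nat_lit 2) (nat_lit 0x40003c0014000b0001000180000000000000000000000) (nat_lit 0x0) (nat_lit 0x800040002000000000000000000) := D_1 (nat_lit 90) (nat_lit 73) (nat_lit 107) (nat_lit 4) (nat_lit 6) (nat_lit 8) (nat_lit 4) (nat_lit 6) (nat_lit 9) (by decide +kernel)
theorem L28365 : W_1 (nat_lit 3) (nat_lit 0x40003c0014000b0001000100000000000000000000000) (nat_lit 0x0) (nat_lit 0x8000c000a000000000000000000) := T_1 (nat_lit 91) (nat_lit 75) (nat_lit 6) (nat_lit 6) (nat_lit 8) L28364 (by decide +kernel)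
theorem L28366 : W_1 (nat_lit 4) (nat_lit 0x3c0014000b0001000100000000000000000000000) (nat_lit 0x0) (nat_lit 0xc000000000000000008000c000a000000000000000000) := T_1 (nat_lit 178) (nat_lit 179) (nat_lit 3) (nat_lit 5) (nat_lit 9) L28365 (by decide +kernel)
theorem L28367 : W_1 (nat_lit 5) (nat_lit 0x3c0014000b0001000000000000000000000000000) (nat_lit 0x0) (nat_lit 0xc000000000000000028001c000a000000000000000000) := T_1 (nat_lit 92) (nat_lit 109) (nat_lit 6) (nat_lit 6) (nat_lit 9) L28366 (by decide +kernel)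
theorem L28368 : W_1 (nat_lit 6) (nat_lit 0x1c0014000b0001000000000000000000000000000) (nat_lit 0x0) (nat_lit 0xc000200020000000028001c000a000000000000000000) := T_1 (nat_lit 161) (nat_lit 145) (nat_lit 2) (nat_lit 5) (nat_lit 9) L28367 (by decide +kernel)
theorem L28369 : W_1 (nat_lit 7) (nat_lit 0x180014000b0001000000000000000000000000000) (nat_lit 0x0) (nat_lit 0xc800240020000000028001c000a000000000000000000) := T_1 (nat_lit 158) (nat_lit 175) (nat_lit 5) (nat_lit 6) (nat_lit 6) L28368 (by decide +kernel)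
theorem L28370 : W_1 (nat_lit 8) (nat_lit 0x80014000b0001000000000000000000000000000) (nat_lit 0x0) (nat_lit 0xe800340020000000028001c000a000000000000000000) := T_1 (nat_lit 160) (nat_lit 177) (nat_lit 7) (nat_lit 6) (nat_lit 6) L28369 (by decide +kernel)
theorem L28371 : W_1 (nat_lit 2) (nat_lit 0x180014000b0001800080000000000000000000000) (nat_lit 0x0) (nat_lit 0x2000100008000000000000000000) := D_1 (nat_lit 92) (nat_lit 75) (nat_lit 109) (nat_lit 6) (nat_lit 6) (nat_lit 8) (nat_lit 6) (nat_lit 6) (nat_lit 9) (by decide +kernel)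
theorem L28372 : W_1 (nat_lit 3) (nat_lit 0x180014000b0001800000000000000000000000000) (nat_lit 0x0) (nat_lit 0x800000002000180008000000000000000000) := T_1 (nat_lit 91) (nat_lit 143) (nat_lit 7) (nat_lit 6) (nat_lit 5) L28371 (by decide +kernel)
theorem L28373 : W_1 (nat_lit 4) (nat_lit 0x80014000b0001800000000000000000000000000) (nat_lit 0x0) (nat_lit 0x200010000800000002000180008000000000000000000) := T_1 (nat_lit 160) (nat_lit 177) (nat_lit 7) (nat_lit 6) (nat_lit 6) L28372 (by decide +kernel)
theorem L28374 : W_1 (nat_lit 5) (nat_lit 0x80014000b0001000000000000000000000000000) (nat_lit 0x0) (nat_lit 0x2000100008000000028001c0008000000000000000000) := T_1 (nat_lit 107) (nat_lit 90) (nat_lit 4) (nat_lit 6) (nat_lit 9) L28373 (by decide +kernel)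
theorem L28375 : W_1 (nat_lit 9) (nat_lit 0x80014000b0000000000000000000000000000000) (nat_lit 0x0) (nat_lit 0xe8003400280000c0038001c000a000000000000000000) := Q_1 (nat_lit 108) (C_1 L22755 (C_1 L28358 (C_1 L28363 (C_1 L28370 (C_1 L28374 N_1))))) (by decide +kernel)
theorem L28376 : W_1 (nat_lit 10) (nat_lit 0x14000b0000000000000000000000000000000) (nat_lit 0x0) (nat_lit 0xa0007000f8003f00280000c0038001c000a000000000000000000) := Q_1 (nat_lit 159) (C_1 L22746 (C_1 L22768 (C_1 L22760 (C_1 L22742 (C_1 L28375 N_1))))) (by decide +kernel)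
theorem L28377 : W_1 (nat_lit 5) (nat_lit 0x14000b0000000000000000000000000000000) (nat_lit 0x0) (nat_lit 0x100008002000040001c00040002000000000000000000) := T_1 (nat_lit 126) (nat_lit 145) (nat_lit 3) (nat_lit 5) (nat_lit 7) L27948 (by decide +kernel)
theorem L28378 : W_1 (nat_lit 2) (nat_lit 0x14800fc000800000002000000000000000000) (nat_lit 0x0) (nat_lit 0x2003000000000000000000000000000) := D_1 (nat_lit 108) (nat_lit 121) (nat_lit 109) (nat_lit 2) (nat_lit 2) (nat_lit 7) (nat_lit 2) (nat_lit 3) (nat_lit 7) (by decide +kernel)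
theorem L28379 : W_1 (nat_lit 3) (nat_lit 0x14800f8000800000002000000000000000000) (nat_lit 0x0) (nat_lit 0x40006003000000000000000000000000000) := T_1 (nat_lit 122) (nat_lit 138) (nat_lit 1) (nat_lit 6) (nat_lit 7) L28378 (by decide +kernel)
theorem L28380 : W_1 (nat_lit 4) (nat_lit 0x14000f8000800000002000000000000000000) (nat_lit 0x0) (nat_lit 0x1c0006003000000000000000000000000000) := T_1 (nat_lit 139) (nat_lit 140) (nat_lit 1) (nat_lit 7) (nat_lit 7) L28379 (by decide +kernel)
theorem L28381 : W_1 (nat_lit 5) (nat_lit 0x14000f0000800000002000000000000000000) (nat_lit 0x0) (nat_lit 0x9c000e003000000000000000000000000000) := T_1 (nat_lit 123) (nat_lit 143) (nat_lit 3) (nat_lit 4) (nat_lit 7) L28380 (by decide +kernel)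
theorem L28382 : W_1 (nat_lit 6) (nat_lit 0x14000f0000800000000000000000000000000) (nat_lit 0x0) (nat_lit 0x9c000e003000040002000000000000000000) := T_1 (nat_lit 73) (nat_lit 90) (nat_lit 7) (nat_lit 5) (nat_lit 4) L28381 (by decide +kernel)
theorem L28383 : W_1 (nat_lit 7) (nat_lit 0x14000b0000800000000000000000000000000) (nat_lit 0x0) (nat_lit 0x9c004e003400040002000000000000000000) := T_1 (nat_lit 126) (nat_lit 106) (nat_lit 0) (nat_lit 8) (nat_lit 7) L28382 (by decide +kernel)
theorem L28384 : W_1 (nat_lit 2) (nat_lit 0x14000b8000800000000000000000000000000) (nat_lit 0x0) (nat_lit 0x800040000400000000000000000000000000) := D_1 (nat_lit 126) (nat_lit 106) (nat_lit 143) (nat_lit 0) (nat_lit 8) (nat_lit 7) (nat_lit 3) (nat_lit 4) (nat_lit 7) (by decide +kernel)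
theorem L28385 : W_1 (nat_lit 2) (nat_lit 0x10014800be000d00000000000000000000000000) (nat_lit 0x0) (nat_lit 0x100000000000020001000000000000000000) := D_1 (nat_lit 89) (nat_lit 140) (nat_lit 72) (nat_lit 5) (nat_lit 4) (nat_lit 5) (nat_lit 5) (nat_lit 4) (nat_lit 4) (by decide +kernel)
theorem L28386 : W_1 (nat_lit 3) (nat_lit 0x14800be000d00000000000000000000000000) (nat_lit 0x0) (nat_lit 0x20001000100000000000020001000000000000000000) := T_1 (nat_lit 156) (nat_lit 173) (nat_lit 6) (nat_lit 3) (nat_lit 10) L28385 (by decide +kernel)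
theorem L28387 : W_1 (nat_lit 4) (nat_lit 0x14800be000900000000000000000000000000) (nat_lit 0x0) (nat_lit 0x20001000100001000400020001000000000000000000) := T_1 (nat_lit 106) (nat_lit 120) (nat_lit 2) (nat_lit 1) (nat_lit 7) L28386 (by decide +kernel)
theorem L28388 : W_1 (nat_lit 5) (nat_lit 0x14800bc000900000000000000000000000000) (nat_lit 0x0) (nat_lit 0x20001000100003000480020001000000000000000000) := T_1 (nat_lit 121) (nat_lit 103) (nat_lit 0) (nat_lit 5) (nat_lit 7) L28387 (by decide +kernel)
theorem L28389 : W_1 (nat_lit 6) (nat_lit 0x14800bc000800000000000000000000000000) (nat_lit 0x0) (nat_lit 0x20001000100003000780020001000000000000000000) := T_1 (nat_lit 104) (nat_lit 105) (nat_lit 0) (nat_lit 6) (nat_lit 7) L28388 (by decide +kernel)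
theorem L28390 : W_1 (nat_lit 7) (nat_lit 0x14000bc000800000000000000000000000000) (nat_lit 0x0) (nat_lit 0x200010001c0003000780020001000000000000000000) := T_1 (nat_lit 139) (nat_lit 138) (nat_lit 1) (nat_lit 6) (nat_lit 7) L28389 (by decide +kernel)
theorem L28391 : W_1 (nat_lit 8) (nat_lit 0x14000b8000800000000000000000000000000) (nat_lit 0x0) (nat_lit 0x200010009c0007000780020001000000000000000000) := T_1 (nat_lit 122) (nat_lit 143) (nat_lit 3) (nat_lit 3) (nat_lit 7) L28390 (by decide +kernel)
theorem L28392 : W_1 (nat_lit 2) (nat_lit 0x15000b8000800000000000000000000000000) (nat_lit 0x0) (nat_lit 0x80040000400000000000000000000000000) := D_1 (nat_lit 126) (nat_lit 106) (nat_lit 139) (nat_lit 0) (nat_lit 8) (nat_lit 7) (nat_lit 1) (nat_lit 7) (nat_lit 7) (by decide +kernel)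
theorem L28393 : W_1 (nat_lit 2) (nat_lit 0x1000000015000b8000800040000000000000000000000) (nat_lit 0x0) (nat_lit 0x40002000000000000400000000000000000000000000) := D_1 (nat_lit 157) (nat_lit 174) (nat_lit 106) (nat_lit 6) (nat_lit 4) (nat_lit 10) (nat_lit 6) (nat_lit 4) (nat_lit 9) (by decide +kernel)
theorem L28394 : W_1 (nat_lit 3) (nat_lit 0x1000000015000b8000800000000000000000000000000) (nat_lit 0x0) (nat_lit 0x40002000000000000400040002000000000000000000) := T_1 (nat_lit 90) (nat_lit 73) (nat_lit 7) (nat_lit 5) (nat_lit 4) L28393 (by decide +kernel)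
theorem L28395 : W_1 (nat_lit 4) (nat_lit 0x15000b8000800000000000000000000000000) (nat_lit 0x0) (nat_lit 0x14000a000000000000400040002000000000000000000) := T_1 (nat_lit 176) (nat_lit 159) (nat_lit 4) (nat_lit 6) (nat_lit 10) L28394 (by decide +kernel)
theorem L28396 : W_1 (nat_lit 2) (nat_lit 0x400000015800b8000800000000000000000000000000) (nat_lit 0x0) (nat_lit 0x60004000000000000000000000000000000) := D_1 (nat_lit 138) (nat_lit 122) (nat_lit 137) (nat_lit 1) (nat_lit 6) (nat_lit 7) (nat_lit 2) (nat_lit 1) (nat_lit 8) (by decide +kernel)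
theorem L28397 : W_1 (nat_lit 3) (nat_lit 0x400000015000b8000800000000000000000000000000) (nat_lit 0x0) (nat_lit 0xe0044000000000000000000000000000000) := T_1 (nat_lit 139) (nat_lit 126) (nat_lit 1) (nat_lit 7) (nat_lit 7) L28396 (by decide +kernel)
theorem L28398 : W_1 (nat_lit 4) (nat_lit 0x15000b8000800000000000000000000000000) (nat_lit 0x0) (nat_lit 0x400020000e0044000000000000000000000000000000) := T_1 (nat_lit 174) (nat_lit 157) (nat_lit 6) (nat_lit 4) (nat_lit 10) L28397 (by decide +kernel)
theorem L28399 : W_1 (nat_lit 5) (nat_lit 0x14000b8000800000000000000000000000000) (nat_lit 0x0) (nat_lit 0x14000a0001e0044000400040002000000000000000000) := Q_1 (nat_lit 140) (C_1 L28392 (C_1 L28395 (C_1 L28398 N_1))) (by decide +kernel)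
theorem L28400 : W_1 (nat_lit 2) (nat_lit 0x14000b8000800000000000000000000000000) (nat_lit 0x0) (nat_lit 0x800044000000000000000000000000000000) := D_1 (nat_lit 143) (nat_lit 126) (nat_lit 122) (nat_lit 3) (nat_lit 4) (nat_lit 7) (nat_lit 3) (nat_lit 3) (nat_lit 7) (by decide +kernel)
theorem L28401 : W_1 (nat_lit 9) (nat_lit 0x14000b0000800000000000000000000000000) (nat_lit 0x0) (nat_lit 0x16000b0009e004f000780060003000000000000000000) := Q_1 (nat_lit 123) (C_1 L28384 (C_1 L28391 (C_1 L28399 (C_1 L28400 N_1)))) (by decide +kernel)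
theorem L28402 : W_1 (nat_lit 2) (nat_lit 0x1000000014800fc000800000000000000000000000000) (nat_lit 0x0) (nat_lit 0x2003000000000000000000000000000) := D_1 (nat_lit 108) (nat_lit 121) (nat_lit 109) (nat_lit 2) (nat_lit 2) (nat_lit 7) (nat_lit 2) (nat_lit 3) (nat_lit 7) (by decide +kernel)
theorem L28403 : W_1 (nat_lit 3) (nat_lit 0x1000000014800f8000800000000000000000000000000) (nat_lit 0x0) (nat_lit 0x40006003000000000000000000000000000) := T_1 (nat_lit 122) (nat_lit 138) (nat_lit 1) (nat_lit 6) (nat_lit 7) L28402 (by decide +kernel)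
theorem L28404 : W_1 (nat_lit 4) (nat_lit 0x1000000014000f8000800000000000000000000000000) (nat_lit 0x0) (nat_lit 0x1c0006003000000000000000000000000000) := T_1 (nat_lit 139) (nat_lit 140) (nat_lit 1) (nat_lit 7) (nat_lit 7) L28403 (by decide +kernel)
theorem L28405 : W_1 (nat_lit 5) (nat_lit 0x1000000014000f0000800000000000000000000000000) (nat_lit 0x0) (nat_lit 0x9c000e003000000000000000000000000000) := T_1 (nat_lit 123) (nat_lit 143) (nat_lit 3) (nat_lit 4) (nat_lit 7) L28404 (by decide +kernel)
theorem L28406 : W_1 (nat_lit 6) (nat_lit 0x14000f0000800000000000000000000000000) (nat_lit 0x0) (nat_lit 0x1000080009c000e003000000000000000000000000000) := T_1 (nat_lit 176) (nat_lit 159) (nat_lit 4) (nat_lit 6) (nat_lit 10) L28405 (by decide +kernel)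
theorem L28407 : W_1 (nat_lit 7) (nat_lit 0x14000b0000800000000000000000000000000) (nat_lit 0x0) (nat_lit 0x1000080009c004e003400000000000000000000000000) := T_1 (nat_lit 126) (nat_lit 106) (nat_lit 0) (nat_lit 8) (nat_lit 7) L28406 (by decide +kernel)
theorem L28408 : W_1 (nat_lit 10) (nat_lit 0x14000b0000000000000000000000000000000) (nat_lit 0x0) (nat_lit 0x16000b0009e004f003f80060003000000000000000000) := Q_1 (nat_lit 107) (C_1 L22703 (C_1 L28383 (C_1 L28401 (C_1 L28407 N_1)))) (by decide +kernel)
theorem L28409 : W_1 (nat_lit 11) (nat_lit 0x14000a0000000000000000000000000000000) (nat_lit 0x0) (nat_lit 0xa0007000fe003f0029e005f003f801e000b000000000000000000) := Q_1 (nat_lit 124) (C_1 L28353 (C_1 L28376 (C_1 L28377 (C_1 L28408 N_1)))) (by decide +kernel)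
theorem L28410 : W_1 (nat_lit 2) (nat_lit 0x1c001c000e0001800000000000000000000000000) (nat_lit 0x0) (nat_lit 0x100000000000010000400000000000000000000000000) := D_1 (nat_lit 124) (nat_lit 106) (nat_lit 176) (nat_lit 0) (nat_lit 8) (nat_lit 7) (nat_lit 4) (nat_lit 6) (nat_lit 10) (by decide +kernel)
theorem L28411 : W_1 (nat_lit 3) (nat_lit 0x1c001c000a0001800000000000000000000000000) (nat_lit 0x0) (nat_lit 0x100000000000150000400000000000000000000000000) := T_1 (nat_lit 126) (nat_lit 128) (nat_lit 0) (nat_lit 9) (nat_lit 7) L28410 (by decide +kernel)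
theorem L28412 : W_1 (nat_lit 4) (nat_lit 0x1c001c000a0001000000000000000000000000000) (nat_lit 0x0) (nat_lit 0x100000000000150000c00040000000000000000000000) := T_1 (nat_lit 107) (nat_lit 90) (nat_lit 4) (nat_lit 6) (nat_lit 9) L28411 (by decide +kernel)
theorem L28413 : W_1 (nat_lit 5) (nat_lit 0x1c001c000a0000000000000000000000000000000) (nat_lit 0x0) (nat_lit 0x180000000000150001c00040000000000000000000000) := T_1 (nat_lit 108) (nat_lit 175) (nat_lit 5) (nat_lit 6) (nat_lit 6) L28412 (by decide +kernel)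
theorem L28414 : W_1 (nat_lit 6) (nat_lit 0x18001c000a0000000000000000000000000000000) (nat_lit 0x0) (nat_lit 0x180006000000150001c00040000000000000000000000) := T_1 (nat_lit 158) (nat_lit 157) (nat_lit 2) (nat_lit 4) (nat_lit 9) L28413 (by decide +kernel)
theorem L28415 : W_1 (nat_lit 2) (nat_lit 0x1000100018001c001a0001800000000000000000000000000) (nat_lit 0x0) (nat_lit 0x60002000000000000000000000000000000000000000000000000) := D_1 (nat_lit 193) (nat_lit 210) (nat_lit 209) (nat_lit 6) (nat_lit 6) (nat_lit 12) (nat_lit 5) (nat_lit 6) (nat_lit 8) (by decide +kernel)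
theorem L28416 : W_1 (nat_lit 3) (nat_lit 0x100018001c001a0001800000000000000000000000000) (nat_lit 0x0) (nat_lit 0x60003000080000000000000000000000000000000000000000000) := T_1 (nat_lit 192) (nat_lit 175) (nat_lit 5) (nat_lit 6) (nat_lit 7) L28415 (by decide +kernel)
theorem L28417 : W_1 (nat_lit 4) (nat_lit 0x18001c001a0001800000000000000000000000000) (nat_lit 0x0) (nat_lit 0x60003000180000000000010000000000000000000000000000000) := T_1 (nat_lit 176) (nat_lit 124) (nat_lit 4) (nat_lit 6) (nat_lit 10) L28416 (by decide +kernel)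
theorem L28418 : W_1 (nat_lit 5) (nat_lit 0x18001c000a0001800000000000000000000000000) (nat_lit 0x0) (nat_lit 0x60003000180000000000150000000000000000000000000000000) := T_1 (nat_lit 128) (nat_lit 126) (nat_lit 0) (nat_lit 9) (nat_lit 7) L28417 (by decide +kernel)
theorem L28419 : W_1 (nat_lit 6) (nat_lit 0x18001c000a0001000000000000000000000000000) (nat_lit 0x0) (nat_lit 0x60003000180000000000150000800040000000000000000000000) := T_1 (nat_lit 107) (nat_lit 90) (nat_lit 4) (nat_lit 6) (nat_lit 9) L28418 (by decide +kernel)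
theorem L28420 : W_1 (nat_lit 7) (nat_lit 0x18001c000a0000000000000000000000000000000) (nat_lit 0x0) (nat_lit 0x600030001800000000001500018000c0000000000000000000000) := T_1 (nat_lit 108) (nat_lit 91) (nat_lit 7) (nat_lit 6) (nat_lit 5) L28419 (by decide +kernel)
theorem L28421 : W_1 (nat_lit 2) (nat_lit 0x1a005a001c000b0000000000000000000000000000000) (nat_lit 0x0) (nat_lit 0x4c000000000000000000000000000000) := D_1 (nat_lit 123) (nat_lit 126) (nat_lit 122) (nat_lit 3) (nat_lit 4) (nat_lit 7) (nat_lit 3) (nat_lit 3) (nat_lit 7) (by decide +kernel)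
theorem L28422 : W_1 (nat_lit 3) (nat_lit 0x1a005a001c000a0000000000000000000000000000000) (nat_lit 0x0) (nat_lit 0x5c000800000000000000000000000000) := T_1 (nat_lit 124) (nat_lit 107) (nat_lit 4) (nat_lit 6) (nat_lit 10) L28421 (by decide +kernel)
theorem L28423 : W_1 (nat_lit 4) (nat_lit 0x1a001a001c000a0000000000000000000000000000000) (nat_lit 0x0) (nat_lit 0x6000000005c000800000000000000000000000000) := T_1 (nat_lit 162) (nat_lit 161) (nat_lit 1) (nat_lit 9) (nat_lit 9) L28422 (by decide +kernel)
theorem L28424 : W_1 (nat_lit 5) (nat_lit 0x18001a001c000a0000000000000000000000000000000) (nat_lit 0x0) (nat_lit 0x6006000000005c000800000000000000000000000000) := T_1 (nat_lit 173) (nat_lit 174) (nat_lit 2) (nat_lit 3) (nat_lit 10) L28423 (by decide +kernel)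
theorem L28425 : W_1 (nat_lit 6) (nat_lit 0x10001a001c000a0000000000000000000000000000000) (nat_lit 0x0) (nat_lit 0x10000e006000000005c000800000000000000000000000000) := T_1 (nat_lit 175) (nat_lit 192) (nat_lit 5) (nat_lit 6) (nat_lit 7) L28424 (by decide +kernel)
theorem L28426 : W_1 (nat_lit 7) (nat_lit 0x100018001c000a0000000000000000000000000000000) (nat_lit 0x0) (nat_lit 0x10000e006600000005c000800000000000000000000000000) := T_1 (nat_lit 157) (nat_lit 158) (nat_lit 2) (nat_lit 4) (nat_lit 9) L28425 (by decide +kernel)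
theorem L28427 : W_1 (nat_lit 8) (nat_lit 0x18001c000a0000000000000000000000000000000) (nat_lit 0x0) (nat_lit 0x600030001e006600000005c000800000000000000000000000000) := Q_1 (nat_lit 176) (C_1 L27530 (C_1 L27527 (C_1 L28426 N_1))) (by decide +kernel)
theorem L28428 : W_1 (nat_lit 2) (nat_lit 0x1a001c000e0001800000000000000000000000000) (nat_lit 0x0) (nat_lit 0x2000100000000000010000000000000000000000000000000) := D_1 (nat_lit 176) (nat_lit 124) (nat_lit 193) (nat_lit 4) (nat_lit 6) (nat_lit 10) (nat_lit 6) (nat_lit 6) (nat_lit 11) (by decide +kernel)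
theorem L28429 : W_1 (nat_lit 3) (nat_lit 0x1a001c000a0001800000000000000000000000000) (nat_lit 0x0) (nat_lit 0x2000100000000000150000000000000000000000000000000) := T_1 (nat_lit 126) (nat_lit 128) (nat_lit 0) (nat_lit 9) (nat_lit 7) L28428 (by decide +kernel)
theorem L28430 : W_1 (nat_lit 4) (nat_lit 0x1a001c000a0001000000000000000000000000000) (nat_lit 0x0) (nat_lit 0x2000100000000000150000800040000000000000000000000) := T_1 (nat_lit 107) (nat_lit 90) (nat_lit 4) (nat_lit 6) (nat_lit 9) L28429 (by decide +kernel)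
theorem L28431 : W_1 (nat_lit 5) (nat_lit 0x1a001c000a0000000000000000000000000000000) (nat_lit 0x0) (nat_lit 0x20001000000000001500018000c0000000000000000000000) := T_1 (nat_lit 108) (nat_lit 91) (nat_lit 7) (nat_lit 6) (nat_lit 5) L28430 (by decide +kernel)
theorem L28432 : W_1 (nat_lit 6) (nat_lit 0x18001c000a0000000000000000000000000000000) (nat_lit 0x0) (nat_lit 0x20001000060000001500018000c0000000000000000000000) := T_1 (nat_lit 157) (nat_lit 158) (nat_lit 2) (nat_lit 4) (nat_lit 9) L28431 (by decide +kernel)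
theorem L28433 : W_1 (nat_lit 9) (nat_lit 0x10001c000a0000000000000000000000000000000) (nat_lit 0x0) (nat_lit 0x600030001e006e00000015c001c000c0000000000000000000000) := Q_1 (nat_lit 159) (C_1 L27538 (C_1 L28414 (C_1 L28420 (C_1 L28427 (C_1 L28432 N_1))))) (by decide +kernel)
theorem L28434 : W_1 (nat_lit 2) (nat_lit 0x700010001c001e8000000000000000000000000000000) (nat_lit 0x0) (nat_lit 0x20000000000018000000000000000000000000000) := D_1 (nat_lit 111) (nat_lit 112) (nat_lit 161) (nat_lit 2) (nat_lit 6) (nat_lit 7) (nat_lit 6) (nat_lit 8) (nat_lit 10) (by decide +kernel)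
theorem L28435 : W_1 (nat_lit 3) (nat_lit 0x700010001c000e8000000000000000000000000000000) (nat_lit 0x0) (nat_lit 0x20000000300018000000000000000000000000000) := T_1 (nat_lit 128) (nat_lit 129) (nat_lit 1) (nat_lit 10) (nat_lit 7) L28434 (by decide +kernel)
theorem L28436 : W_1 (nat_lit 4) (nat_lit 0x300010001c000e8000000000000000000000000000000) (nat_lit 0x0) (nat_lit 0x8000400020000000300018000000000000000000000000000) := T_1 (nat_lit 178) (nat_lit 195) (nat_lit 7) (nat_lit 7) (nat_lit 7) L28435 (by decide +kernel)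
theorem L28437 : W_1 (nat_lit 5) (nat_lit 0x300010001c000e0000000000000000000000000000000) (nat_lit 0x0) (nat_lit 0x8000400020000000318018000000000000000000000000000) := T_1 (nat_lit 123) (nat_lit 124) (nat_lit 3) (nat_lit 4) (nat_lit 7) L28436 (by decide +kernel)
theorem L28438 : W_1 (nat_lit 6) (nat_lit 0x300010001c000a0000000000000000000000000000000) (nat_lit 0x0) (nat_lit 0xa000400020000000358018000000000000000000000000000) := T_1 (nat_lit 126) (nat_lit 193) (nat_lit 5) (nat_lit 7) (nat_lit 7) L28437 (by decide +kernel)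
theorem L28439 : W_1 (nat_lit 7) (nat_lit 0x100010001c000a0000000000000000000000000000000) (nat_lit 0x0) (nat_lit 0xe000600020000000358018000000000000000000000000000) := T_1 (nat_lit 177) (nat_lit 194) (nat_lit 6) (nat_lit 7) (nat_lit 11) L28438 (by decide +kernel)
theorem L28440 : W_1 (nat_lit 8) (nat_lit 0x100010001c000a0000000000000000000000000000000) (nat_lit 0x0) (nat_lit 0x600030000e006e00000005c000800000000000000000000000000) := Q_1 (nat_lit 159) (C_1 L28426 (C_1 L27530 (C_1 L27527 N_1))) (by decide +kernel)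
theorem L28441 : W_1 (nat_lit 2) (nat_lit 0x700010001c001e0000000000000000000000000000000) (nat_lit 0x0) (nat_lit 0x20000000000018000000000000000000000000000) := D_1 (nat_lit 111) (nat_lit 161) (nat_lit 112) (nat_lit 6) (nat_lit 8) (nat_lit 10) (nat_lit 2) (nat_lit 6) (nat_lit 7) (by decide +kernel)
theorem L28442 : W_1 (nat_lit 3) (nat_lit 0x300010001c001e0000000000000000000000000000000) (nat_lit 0x0) (nat_lit 0x8000400020000000000018000000000000000000000000000) := T_1 (nat_lit 178) (nat_lit 195) (nat_lit 7) (nat_lit 7) (nat_lit 7) L28441 (by decide +kernel)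
theorem L28443 : W_1 (nat_lit 4) (nat_lit 0x300010001c000e0000000000000000000000000000000) (nat_lit 0x0) (nat_lit 0x8000400020000000300018000000000000000000000000000) := T_1 (nat_lit 128) (nat_lit 129) (nat_lit 1) (nat_lit 10) (nat_lit 7) L28442 (by decide +kernel)
theorem L28444 : W_1 (nat_lit 5) (nat_lit 0x300010001c000a0000000000000000000000000000000) (nat_lit 0x0) (nat_lit 0xa000400020000000340018000000000000000000000000000) := T_1 (nat_lit 126) (nat_lit 193) (nat_lit 5) (nat_lit 7) (nat_lit 7) L28443 (by decide +kernel)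
theorem L28445 : W_1 (nat_lit 6) (nat_lit 0x100010001c000a0000000000000000000000000000000) (nat_lit 0x0) (nat_lit 0xe000600020000000340018000000000000000000000000000) := T_1 (nat_lit 177) (nat_lit 194) (nat_lit 6) (nat_lit 7) (nat_lit 11) L28444 (by decide +kernel)
theorem L28446 : W_1 (nat_lit 2) (nat_lit 0x300010001c000f0000000000000000000000000000000) (nat_lit 0x0) (nat_lit 0x8000000000000c00000000000000000000000000) := D_1 (nat_lit 107) (nat_lit 159) (nat_lit 106) (nat_lit 4) (nat_lit 6) (nat_lit 10) (nat_lit 0) (nat_lit 8) (nat_lit 7) (by decide +kernel)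
theorem L28447 : W_1 (nat_lit 3) (nat_lit 0x300010001c000e0000000000000000000000000000000) (nat_lit 0x0) (nat_lit 0x8000000018000c00000000000000000000000000) := T_1 (nat_lit 124) (nat_lit 123) (nat_lit 3) (nat_lit 4) (nat_lit 7) L28446 (by decide +kernel)
theorem L28448 : W_1 (nat_lit 4) (nat_lit 0x300010001c000a0000000000000000000000000000000) (nat_lit 0x0) (nat_lit 0x2000000008000000058000c00000000000000000000000000) := T_1 (nat_lit 126) (nat_lit 193) (nat_lit 5) (nat_lit 7) (nat_lit 7) L28447 (by decide +kernel)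
theorem L28449 : W_1 (nat_lit 5) (nat_lit 0x100010001c000a0000000000000000000000000000000) (nat_lit 0x0) (nat_lit 0x6000200008000000058000c00000000000000000000000000) := T_1 (nat_lit 177) (nat_lit 194) (nat_lit 6) (nat_lit 7) (nat_lit 11) L28448 (by decide +kernel)
theorem L28450 : W_1 (nat_lit 2) (nat_lit 0x100018001c000b0000000000000000000000000000000) (nat_lit 0x0) (nat_lit 0x4c000000000000000000000000000000) := D_1 (nat_lit 123) (nat_lit 126) (nat_lit 122) (nat_lit 3) (nat_lit 4) (nat_lit 7) (nat_lit 3) (nat_lit 3) (nat_lit 7) (by decide +kernel)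
theorem L28451 : W_1 (nat_lit 3) (nat_lit 0x100018001c000a0000000000000000000000000000000) (nat_lit 0x0) (nat_lit 0x5c000800000000000000000000000000) := T_1 (nat_lit 124) (nat_lit 107) (nat_lit 4) (nat_lit 6) (nat_lit 10) L28450 (by decide +kernel)
theorem L28452 : W_1 (nat_lit 2) (nat_lit 0x38001a001c000a0000000000000000000000000000000) (nat_lit 0x0) (nat_lit 0x40021000000000000000000000000000000000000000) := D_1 (nat_lit 174) (nat_lit 161) (nat_lit 156) (nat_lit 2) (nat_lit 4) (nat_lit 10) (nat_lit 0) (nat_lit 7) (nat_lit 10) (by decide +kernel)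
theorem L28453 : W_1 (nat_lit 3) (nat_lit 0x30001a001c000a0000000000000000000000000000000) (nat_lit 0x0) (nat_lit 0x10000c0021000000000000000000000000000000000000000) := T_1 (nat_lit 175) (nat_lit 192) (nat_lit 5) (nat_lit 6) (nat_lit 7) L28452 (by decide +kernel)
theorem L28454 : W_1 (nat_lit 4) (nat_lit 0x300018001c000a0000000000000000000000000000000) (nat_lit 0x0) (nat_lit 0x10000c0027000000000000000000000000000000000000000) := T_1 (nat_lit 157) (nat_lit 158) (nat_lit 2) (nat_lit 4) (nat_lit 9) L28453 (by decide +kernel)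
theorem L28455 : W_1 (nat_lit 5) (nat_lit 0x100018001c000a0000000000000000000000000000000) (nat_lit 0x0) (nat_lit 0x50002c0027000000000000000000000000000000000000000) := T_1 (nat_lit 177) (nat_lit 194) (nat_lit 7) (nat_lit 6) (nat_lit 7) L28454 (by decide +kernel)
theorem L28456 : W_1 (nat_lit 8) (nat_lit 0x100010001c000a0000000000000000000000000000000) (nat_lit 0x0) (nat_lit 0x50002e006f00000005c000800000000000000000000000000) := Q_1 (nat_lit 159) (C_1 L28426 (C_1 L28451 (C_1 L27546 (C_1 L28455 N_1)))) (by decide +kernel)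
theorem L28457 : W_1 (nat_lit 9) (nat_lit 0x10001c000a0000000000000000000000000000000) (nat_lit 0x0) (nat_lit 0xe000f0007e006f00000035c018c00000000000000000000000000) := Q_1 (nat_lit 176) (C_1 L27547 (C_1 L28439 (C_1 L28440 (C_1 L28445 (C_1 L28449 (C_1 L28456 N_1)))))) (by decide +kernel)
theorem L28458 : W_1 (nat_lit 10) (nat_lit 0x1c000a0000000000000000000000000000000) (nat_lit 0x0) (nat_lit 0xe000f0007e007f00000035c019c000c0000000000000000000000) := Q_1 (nat_lit 160) (C_1 L27540 (C_1 L27525 (C_1 L28433 (C_1 L28457 N_1)))) (by decide +kernel)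
theorem L28459 : W_1 (nat_lit 9) (nat_lit 0x1c000a0000000000000000000000000000000) (nat_lit 0x0) (nat_lit 0x1c000e000fc006000300019000c00060000000000000000000) := Q_1 (nat_lit 145) (C_1 L23091 (C_1 L27596 N_1)) (by decide +kernel)
theorem L28460 : W_1 (nat_lit 11) (nat_lit 0x14000a0000000000000000000000000000000) (nat_lit 0x0) (nat_lit 0xe001f000fe00ff00680035c019c00cc0060000000000000000000) := Q_1 (nat_lit 143) (C_1 L27523 (C_1 L23096 (C_1 L28458 (C_1 L28459 N_1)))) (by decide +kernel)
theorem L28466 : W_1 (nat_lit 2) (nat_lit 0x1000000014000f8002000000000000000000000000000) (nat_lit 0x0) (nat_lit 0xe00000000000000000000000000) := D_1 (nat_lit 106) (nat_lit 107) (nat_lit 105) (nat_lit 0) (nat_lit 8) (nat_lit 7) (nat_lit 0) (nat_lit 7) (nat_lit 7) (by decide +kernel)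
theorem L28467 : W_1 (nat_lit 3) (nat_lit 0x1000000014000f0002000000000000000000000000000) (nat_lit 0x0) (nat_lit 0x800008000e00000000000000000000000000) := T_1 (nat_lit 123) (nat_lit 143) (nat_lit 3) (nat_lit 4) (nat_lit 7) L28466 (by decide +kernel)
theorem L28468 : W_1 (nat_lit 4) (nat_lit 0x14000f0002000000000000000000000000000) (nat_lit 0x0) (nat_lit 0x100008000800008000e00000000000000000000000000) := T_1 (nat_lit 176) (nat_lit 159) (nat_lit 6) (nat_lit 6) (nat_lit 10) L28467 (by decide +kernel)
theorem L28469 : W_1 (nat_lit 2) (nat_lit 0x1000000014000fc002000000000000000000000000000) (nat_lit 0x0) (nat_lit 0x1c0000000000000000000000000000000000) := D_1 (nat_lit 139) (nat_lit 138) (nat_lit 140) (nat_lit 1) (nat_lit 6) (nat_lit 7) (nat_lit 1) (nat_lit 7) (nat_lit 7) (by decide +kernel)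
theorem L28470 : W_1 (nat_lit 3) (nat_lit 0x1000000014000f8002000000000000000000000000000) (nat_lit 0x0) (nat_lit 0x1c0004001000000000000000000000000000) := T_1 (nat_lit 122) (nat_lit 108) (nat_lit 2) (nat_lit 3) (nat_lit 7) L28469 (by decide +kernel)
theorem L28471 : W_1 (nat_lit 4) (nat_lit 0x1000000014000f0002000000000000000000000000000) (nat_lit 0x0) (nat_lit 0x9c000c001000000000000000000000000000) := T_1 (nat_lit 123) (nat_lit 143) (nat_lit 3) (nat_lit 4) (nat_lit 7) L28470 (by decide +kernel)
theorem L28472 : W_1 (nat_lit 5) (nat_lit 0x14000f0002000000000000000000000000000) (nat_lit 0x0) (nat_lit 0x1000080009c000c001000000000000000000000000000) := T_1 (nat_lit 176) (nat_lit 159) (nat_lit 6) (nat_lit 6) (nat_lit 10) L28471 (by decide +kernel)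
theorem L28473 : W_1 (nat_lit 2) (nat_lit 0x4000000014000f8002800000000000000000000000000) (nat_lit 0x0) (nat_lit 0x104001000000000000000000000000000) := D_1 (nat_lit 108) (nat_lit 122) (nat_lit 128) (nat_lit 2) (nat_lit 3) (nat_lit 7) (nat_lit 0) (nat_lit 9) (nat_lit 7) (by decide +kernel)
theorem L28474 : W_1 (nat_lit 3) (nat_lit 0x4000000014000f0002800000000000000000000000000) (nat_lit 0x0) (nat_lit 0x80010c001000000000000000000000000000) := T_1 (nat_lit 123) (nat_lit 143) (nat_lit 3) (nat_lit 4) (nat_lit 7) L28473 (by decide +kernel)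
theorem L28475 : W_1 (nat_lit 4) (nat_lit 0x4000000014000f0002000000000000000000000000000) (nat_lit 0x0) (nat_lit 0x80010c001c00000000000000000000000000) := T_1 (nat_lit 107) (nat_lit 106) (nat_lit 0) (nat_lit 8) (nat_lit 7) L28474 (by decide +kernel)
theorem L28476 : W_1 (nat_lit 5) (nat_lit 0x14000f0002000000000000000000000000000) (nat_lit 0x0) (nat_lit 0x40002000080010c001c00000000000000000000000000) := T_1 (nat_lit 178) (nat_lit 161) (nat_lit 4) (nat_lit 8) (nat_lit 10) L28475 (by decide +kernel)
theorem L28477 : W_1 (nat_lit 2) (nat_lit 0x5000000014800f8002400000000000000000000000000) (nat_lit 0x0) (nat_lit 0x40004001000000000000000000000000000) := D_1 (nat_lit 122) (nat_lit 108) (nat_lit 138) (nat_lit 2) (nat_lit 3) (nat_lit 7) (nat_lit 1) (nat_lit 6) (nat_lit 7) (by decide +kernel)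
theorem L28478 : W_1 (nat_lit 3) (nat_lit 0x5000000014000f8002400000000000000000000000000) (nat_lit 0x0) (nat_lit 0x1c0004001000000000000000000000000000) := T_1 (nat_lit 139) (nat_lit 140) (nat_lit 1) (nat_lit 7) (nat_lit 7) L28477 (by decide +kernel)
theorem L28479 : W_1 (nat_lit 4) (nat_lit 0x5000000014000f0002400000000000000000000000000) (nat_lit 0x0) (nat_lit 0x1c000c001200000000000000000000000000) := T_1 (nat_lit 123) (nat_lit 105) (nat_lit 0) (nat_lit 7) (nat_lit 7) L28478 (by decide +kernel)
theorem L28480 : W_1 (nat_lit 5) (nat_lit 0x5000000014000f0002000000000000000000000000000) (nat_lit 0x0) (nat_lit 0x1c000c001e00000000000000000000000000) := T_1 (nat_lit 106) (nat_lit 107) (nat_lit 0) (nat_lit 8) (nat_lit 7) L28479 (by decide +kernel)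
theorem L28481 : W_1 (nat_lit 6) (nat_lit 0x1000000014000f0002000000000000000000000000000) (nat_lit 0x0) (nat_lit 0x4000200001c000c001e00000000000000000000000000) := T_1 (nat_lit 178) (nat_lit 161) (nat_lit 4) (nat_lit 8) (nat_lit 10) L28480 (by decide +kernel)
theorem L28482 : W_1 (nat_lit 7) (nat_lit 0x14000f0002000000000000000000000000000) (nat_lit 0x0) (nat_lit 0x5000280001c000c001e00000000000000000000000000) := T_1 (nat_lit 176) (nat_lit 159) (nat_lit 6) (nat_lit 6) (nat_lit 10) L28481 (by decide +kernel)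
theorem L28483 : W_1 (nat_lit 2) (nat_lit 0x80014000f0002800000000000000000000000000) (nat_lit 0x0) (nat_lit 0x1000040002000000000000000000) := D_1 (nat_lit 90) (nat_lit 73) (nat_lit 108) (nat_lit 7) (nat_lit 5) (nat_lit 4) (nat_lit 4) (nat_lit 6) (nat_lit 9) (by decide +kernel)
theorem L28484 : W_1 (nat_lit 3) (nat_lit 0x14000f0002800000000000000000000000000) (nat_lit 0x0) (nat_lit 0x100008000000000001000040002000000000000000000) := T_1 (nat_lit 159) (nat_lit 176) (nat_lit 6) (nat_lit 6) (nat_lit 10) L28483 (by decide +kernel)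
theorem L28485 : W_1 (nat_lit 4) (nat_lit 0x14000f0002000000000000000000000000000) (nat_lit 0x0) (nat_lit 0x100008000000000001c00040002000000000000000000) := T_1 (nat_lit 107) (nat_lit 106) (nat_lit 0) (nat_lit 8) (nat_lit 7) L28484 (by decide +kernel)
theorem L28486 : W_1 (nat_lit 8) (nat_lit 0x14000e0002000000000000000000000000000) (nat_lit 0x0) (nat_lit 0x5000280009c011c001e00040002000000000000000000) := Q_1 (nat_lit 124) (C_1 L28468 (C_1 L28472 (C_1 L28476 (C_1 L28482 (C_1 L28485 N_1))))) (by decide +kernel)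
theorem L28487 : W_1 (nat_lit 9) (nat_lit 0x14000e0000000000000000000000000000000) (nat_lit 0x0) (nat_lit 0x5000280009c011c003e0014000a000000000000000000) := Q_1 (nat_lit 109) (C_1 L23595 (C_1 L28290 (C_1 L28486 N_1))) (by decide +kernel)
theorem L28488 : W_1 (nat_lit 10) (nat_lit 0x14000a0000000000000000000000000000000) (nat_lit 0x0) (nat_lit 0x50002c0069c035c01bf0054002a000000000000000000) := Q_1 (nat_lit 126) (C_1 L28329 (C_1 L28039 (C_1 L28487 (C_1 L28303 N_1)))) (by decide +kernel)
theorem L28489 : W_1 (nat_lit 2) (nat_lit 0xc00040003c001a0009000400000000000000000000000) (nat_lit 0x0) (nat_lit 0x10000800040000000000000000000) := D_1 (nat_lit 95) (nat_lit 112) (nat_lit 78) (nat_lit 6) (nat_lit 9) (nat_lit 9) (nat_lit 6) (nat_lit 9) (nat_lit 8) (by decide +kernel)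
theorem L28490 : W_1 (nat_lit 3) (nat_lit 0xc00040003c001a0009000000000000000000000000000) (nat_lit 0x0) (nat_lit 0x10000c00060000000000000000000) := T_1 (nat_lit 94) (nat_lit 77) (nat_lit 5) (nat_lit 9) (nat_lit 4) L28489 (by decide +kernel)
theorem L28491 : W_1 (nat_lit 4) (nat_lit 0xc00040003c001a0001000000000000000000000000000) (nat_lit 0x0) (nat_lit 0x20000000000018000c00060000000000000000000) := T_1 (nat_lit 111) (nat_lit 161) (nat_lit 6) (nat_lit 8) (nat_lit 10) L28490 (by decide +kernel)
theorem L28492 : W_1 (nat_lit 5) (nat_lit 0x800040003c001a0001000000000000000000000000000) (nat_lit 0x0) (nat_lit 0x8000400020000000000018000c00060000000000000000000) := T_1 (nat_lit 178) (nat_lit 195) (nat_lit 5) (nat_lit 9) (nat_lit 7) L28491 (by decide +kernel)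
theorem L28493 : W_1 (nat_lit 6) (nat_lit 0x40003c001a0001000000000000000000000000000) (nat_lit 0x0) (nat_lit 0x18000c00020000000000018000c00060000000000000000000) := T_1 (nat_lit 179) (nat_lit 196) (nat_lit 4) (nat_lit 9) (nat_lit 11) L28492 (by decide +kernel)
theorem L28494 : W_1 (nat_lit 7) (nat_lit 0x3c001a0001000000000000000000000000000) (nat_lit 0x0) (nat_lit 0x18000c000e0000000000018000c00060000000000000000000) := T_1 (nat_lit 162) (nat_lit 163) (nat_lit 3) (nat_lit 6) (nat_lit 8) L28493 (by decide +kernel)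
theorem L28495 : W_1 (nat_lit 8) (nat_lit 0x3c000a0001000000000000000000000000000) (nat_lit 0x0) (nat_lit 0x18000c000e0000000300018000c00060000000000000000000) := T_1 (nat_lit 128) (nat_lit 129) (nat_lit 2) (nat_lit 6) (nat_lit 8) L28494 (by decide +kernel)
theorem L28496 : W_1 (nat_lit 9) (nat_lit 0x1c000a0001000000000000000000000000000) (nat_lit 0x0) (nat_lit 0x18000c000e0002000310018000c00060000000000000000000) := T_1 (nat_lit 145) (nat_lit 124) (nat_lit 0) (nat_lit 9) (nat_lit 8) L28495 (by decide +kernel)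
theorem L28497 : W_1 (nat_lit 10) (nat_lit 0x14000a0001000000000000000000000000000) (nat_lit 0x0) (nat_lit 0x18000c000f0002800310018000dc006e000500000000000000) := Q_1 (nat_lit 143) (C_1 L28496 (C_1 L23347 N_1)) (by decide +kernel)
theorem L28498 : W_1 (nat_lit 6) (nat_lit 0x14000a0001000000000000000000000000000) (nat_lit 0x0) (nat_lit 0x500038001c0000000100028001c000a000000000000000000) := Q_1 (nat_lit 159) (C_1 L23305 (C_1 L23278 (C_1 L23293 N_1))) (by decide +kernel)
theorem L28499 : W_1 (nat_lit 2) (nat_lit 0x14000a0001000100008000000000000000000) (nat_lit 0x0) (nat_lit 0x8000000000002000000000000400000000000000) := D_1 (nat_lit 109) (nat_lit 58) (nat_lit 159) (nat_lit 5) (nat_lit 7) (nat_lit 3) (nat_lit 6) (nat_lit 6) (nat_lit 9) (by decide +kernel)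
theorem L28500 : W_1 (nat_lit 3) (nat_lit 0x14000a0001000100000000000000000000000) (nat_lit 0x0) (nat_lit 0x8000000000002000080008000400000000000000) := T_1 (nat_lit 75) (nat_lit 91) (nat_lit 6) (nat_lit 6) (nat_lit 8) L28499 (by decide +kernel)
theorem L28501 : W_1 (nat_lit 2) (nat_lit 0x14000a00018001c0000000000000000000000) (nat_lit 0x0) (nat_lit 0x400600000000000000000000000) := D_1 (nat_lit 93) (nat_lit 106) (nat_lit 94) (nat_lit 1) (nat_lit 8) (nat_lit 5) (nat_lit 1) (nat_lit 9) (nat_lit 5) (by decide +kernel)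
theorem L28502 : W_1 (nat_lit 3) (nat_lit 0x14000a0001800180000000000000000000000) (nat_lit 0x0) (nat_lit 0x400640002000000000000000000) := T_1 (nat_lit 90) (nat_lit 73) (nat_lit 4) (nat_lit 6) (nat_lit 8) L28501 (by decide +kernel)
theorem L28503 : W_1 (nat_lit 2) (nat_lit 0x14000a00018001c0000000000000000000000) (nat_lit 0x0) (nat_lit 0x600200000000000000000000000) := D_1 (nat_lit 106) (nat_lit 93) (nat_lit 105) (nat_lit 1) (nat_lit 8) (nat_lit 5) (nat_lit 2) (nat_lit 3) (nat_lit 6) (by decide +kernel)
theorem L28504 : W_1 (nat_lit 3) (nat_lit 0x14000a0001800180000000000000000000000) (nat_lit 0x0) (nat_lit 0x600240002000000000000000000) := T_1 (nat_lit 90) (nat_lit 73) (nat_lit 4) (nat_lit 6) (nat_lit 8) L28503 (by decide +kernel)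
theorem L28505 : W_1 (nat_lit 2) (nat_lit 0x14000a0001800180006800200020000000000) (nat_lit 0x0) (nat_lit 0x2000000000000000010001000000) := D_1 (nat_lit 40) (nat_lit 109) (nat_lit 24) (nat_lit 7) (nat_lit 6) (nat_lit 2) (nat_lit 6) (nat_lit 6) (nat_lit 5) (by decide +kernel)
theorem L28506 : W_1 (nat_lit 3) (nat_lit 0x14000a0001800180006800200000000000000) (nat_lit 0x0) (nat_lit 0x2000000000000400030001000000) := T_1 (nat_lit 41) (nat_lit 58) (nat_lit 6) (nat_lit 6) (nat_lit 6) L28505 (by decide +kernel)
theorem L28507 : W_1 (nat_lit 4) (nat_lit 0x14000a0001800180006800000000000000000) (nat_lit 0x0) (nat_lit 0x10002000000000000600030001000000) := T_1 (nat_lit 57) (nat_lit 124) (nat_lit 5) (nat_lit 6) (nat_lit 3) L28506 (by decide +kernel)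
theorem L28508 : W_1 (nat_lit 5) (nat_lit 0x14000a0001800180006000000000000000000) (nat_lit 0x0) (nat_lit 0x10002000000001800600030001000000) := T_1 (nat_lit 71) (nat_lit 72) (nat_lit 3) (nat_lit 3) (nat_lit 4) L28507 (by decide +kernel)
theorem L28509 : W_1 (nat_lit 6) (nat_lit 0x14000a0001800180002000000000000000000) (nat_lit 0x0) (nat_lit 0x10002000000005800700030001000000) := T_1 (nat_lit 74) (nat_lit 56) (nat_lit 4) (nat_lit 6) (nat_lit 7) L28508 (by decide +kernel)
theorem L28510 : W_1 (nat_lit 7) (nat_lit 0x14000a0001800180000000000000000000000) (nat_lit 0x0) (nat_lit 0x10002000040007800700030001000000) := T_1 (nat_lit 73) (nat_lit 90) (nat_lit 4) (nat_lit 6) (nat_lit 8) L28509 (by decide +kernel)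
theorem L28511 : W_1 (nat_lit 2) (nat_lit 0x14000a0001800380000000000000000000000) (nat_lit 0x0) (nat_lit 0x2600000000000000000000000000) := D_1 (nat_lit 106) (nat_lit 105) (nat_lit 109) (nat_lit 2) (nat_lit 3) (nat_lit 6) (nat_lit 2) (nat_lit 4) (nat_lit 6) (by decide +kernel)
theorem L28512 : W_1 (nat_lit 3) (nat_lit 0x14000a0001800180000000000000000000000) (nat_lit 0x0) (nat_lit 0x2600600000000000000000000000) := T_1 (nat_lit 93) (nat_lit 94) (nat_lit 1) (nat_lit 9) (nat_lit 5) L28511 (by decide +kernel)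
theorem L28513 : W_1 (nat_lit 8) (nat_lit 0x14000a0001000180000000000000000000000) (nat_lit 0x0) (nat_lit 0x10002e00640007800700030001000000) := Q_1 (nat_lit 107) (C_1 L28502 (C_1 L28504 (C_1 L28510 (C_1 L28512 N_1)))) (by decide +kernel)
theorem L28514 : W_1 (nat_lit 9) (nat_lit 0x14000a0001000100000000000000000000000) (nat_lit 0x0) (nat_lit 0x10002e006c000f800700030001000000) := T_1 (nat_lit 91) (nat_lit 75) (nat_lit 6) (nat_lit 6) (nat_lit 8) L28513 (by decide +kernel)
theorem L28515 : W_1 (nat_lit 3) (nat_lit 0x14000a00010001c0000000000000000000000) (nat_lit 0x0) (nat_lit 0x8000000000000e00200000000000000000000000) := T_1 (nat_lit 107) (nat_lit 159) (nat_lit 4) (nat_lit 6) (nat_lit 9) L28503 (by decide +kernel)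
theorem L28516 : W_1 (nat_lit 4) (nat_lit 0x14000a0001000180000000000000000000000) (nat_lit 0x0) (nat_lit 0x8000000000000e00240002000000000000000000) := T_1 (nat_lit 90) (nat_lit 73) (nat_lit 4) (nat_lit 6) (nat_lit 8) L28515 (by decide +kernel)
theorem L28517 : W_1 (nat_lit 5) (nat_lit 0x14000a0001000100000000000000000000000) (nat_lit 0x0) (nat_lit 0x8000000000000e002c000a000000000000000000) := T_1 (nat_lit 91) (nat_lit 75) (nat_lit 6) (nat_lit 6) (nat_lit 8) L28516 (by decide +kernel)
theorem L28518 : W_1 (nat_lit 2) (nat_lit 0x800080014000a0001800100000000000000000000000) (nat_lit 0x0) (nat_lit 0x1000100000000000010000000000000000000000000000000) := D_1 (nat_lit 176) (nat_lit 192) (nat_lit 124) (nat_lit 5) (nat_lit 6) (nat_lit 7) (nat_lit 4) (nat_lit 6) (nat_lit 10) (by decide +kernel)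
theorem L28519 : W_1 (nat_lit 3) (nat_lit 0x800080014000a0001000100000000000000000000000) (nat_lit 0x0) (nat_lit 0x1000100000000000010000800040000000000000000000000) := T_1 (nat_lit 107) (nat_lit 90) (nat_lit 4) (nat_lit 6) (nat_lit 9) L28518 (by decide +kernel)
theorem L28520 : W_1 (nat_lit 4) (nat_lit 0x80014000a0001000100000000000000000000000) (nat_lit 0x0) (nat_lit 0x1000180004000000010000800040000000000000000000000) := T_1 (nat_lit 175) (nat_lit 158) (nat_lit 5) (nat_lit 6) (nat_lit 6) L28519 (by decide +kernel)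
theorem L28521 : W_1 (nat_lit 5) (nat_lit 0x14000a0001000100000000000000000000000) (nat_lit 0x0) (nat_lit 0x100018000c000000010002800040000000000000000000000) := T_1 (nat_lit 159) (nat_lit 109) (nat_lit 6) (nat_lit 6) (nat_lit 9) L28520 (by decide +kernel)
theorem L28522 : W_1 (nat_lit 10) (nat_lit 0x14000a0001000000000000000000000000000) (nat_lit 0x0) (nat_lit 0x100018000c000000010002e007c000f800700030001000000) := Q_1 (nat_lit 92) (C_1 L28500 (C_1 L28514 (C_1 L28517 (C_1 L28521 N_1)))) (by decide +kernel)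
theorem L28523 : W_1 (nat_lit 3) (nat_lit 0x180014000a0001000000000000000000000000000) (nat_lit 0x0) (nat_lit 0x80006000800000000000080000000000000000000000) := T_1 (nat_lit 143) (nat_lit 91) (nat_lit 7) (nat_lit 6) (nat_lit 5) L23390 (by decide +kernel)
theorem L28524 : W_1 (nat_lit 4) (nat_lit 0x80014000a0001000000000000000000000000000) (nat_lit 0x0) (nat_lit 0x280016000800000000000080000000000000000000000) := T_1 (nat_lit 160) (nat_lit 177) (nat_lit 7) (nat_lit 6) (nat_lit 6) L28523 (by decide +kernel)
theorem L28525 : W_1 (nat_lit 5) (nat_lit 0x14000a0001000000000000000000000000000) (nat_lit 0x0) (nat_lit 0x500038001e0008000100008000c0000000000000000000000) := Q_1 (nat_lit 159) (C_1 L28524 (C_1 L23278 (C_1 L23281 N_1))) (by decide +kernel)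
theorem L28526 : W_1 (nat_lit 2) (nat_lit 0xc001c000a0003800000000000000000000000000) (nat_lit 0x0) (nat_lit 0x13000000000000000000000000000000000000000) := D_1 (nat_lit 157) (nat_lit 156) (nat_lit 160) (nat_lit 2) (nat_lit 3) (nat_lit 9) (nat_lit 2) (nat_lit 4) (nat_lit 9) (by decide +kernel)
theorem L28527 : W_1 (nat_lit 3) (nat_lit 0xc0014000a0003800000000000000000000000000) (nat_lit 0x0) (nat_lit 0x13002800000000000000000000000000000000000) := T_1 (nat_lit 143) (nat_lit 145) (nat_lit 1) (nat_lit 9) (nat_lit 8) L28526 (by decide +kernel)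
theorem L28528 : W_1 (nat_lit 4) (nat_lit 0x80014000a0003800000000000000000000000000) (nat_lit 0x0) (nat_lit 0x80017002800000000000000000000000000000000000) := T_1 (nat_lit 158) (nat_lit 175) (nat_lit 5) (nat_lit 6) (nat_lit 6) L28527 (by decide +kernel)
theorem L28529 : W_1 (nat_lit 5) (nat_lit 0x80014000a0001800000000000000000000000000) (nat_lit 0x0) (nat_lit 0x80017002800000002000100000000000000000000000) := T_1 (nat_lit 109) (nat_lit 92) (nat_lit 6) (nat_lit 6) (nat_lit 9) L28528 (by decide +kernel)
theorem L28530 : W_1 (nat_lit 6) (nat_lit 0x80014000a0001000000000000000000000000000) (nat_lit 0x0) (nat_lit 0x80017002800000002800140000000000000000000000) := T_1 (nat_lit 107) (nat_lit 90) (nat_lit 4) (nat_lit 6) (nat_lit 9) L28529 (by decide +kernel)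
theorem L28531 : W_1 (nat_lit 2) (nat_lit 0xc0034000a0001000140000000000000000000000) (nat_lit 0x0) (nat_lit 0x8000a000000000000000000) := D_1 (nat_lit 91) (nat_lit 73) (nat_lit 75) (nat_lit 4) (nat_lit 6) (nat_lit 8) (nat_lit 6) (nat_lit 6) (nat_lit 8) (by decide +kernel)
theorem L28532 : W_1 (nat_lit 3) (nat_lit 0xc0034000a0001000040000000000000000000000) (nat_lit 0x0) (nat_lit 0x200018000a000000000000000000) := T_1 (nat_lit 92) (nat_lit 109) (nat_lit 6) (nat_lit 6) (nat_lit 9) L28531 (by decide +kernel)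
theorem L28533 : W_1 (nat_lit 4) (nat_lit 0xc0034000a0001000000000000000000000000000) (nat_lit 0x0) (nat_lit 0x28001c000a000000000000000000) := T_1 (nat_lit 90) (nat_lit 107) (nat_lit 4) (nat_lit 6) (nat_lit 9) L28532 (by decide +kernel)
theorem L28534 : W_1 (nat_lit 5) (nat_lit 0xc0014000a0001000000000000000000000000000) (nat_lit 0x0) (nat_lit 0x28000000028001c000a000000000000000000) := T_1 (nat_lit 145) (nat_lit 143) (nat_lit 1) (nat_lit 9) (nat_lit 8) L28533 (by decide +kernel)
theorem L28535 : W_1 (nat_lit 6) (nat_lit 0x80014000a0001000000000000000000000000000) (nat_lit 0x0) (nat_lit 0x800040028000000028001c000a000000000000000000) := T_1 (nat_lit 158) (nat_lit 175) (nat_lit 5) (nat_lit 6) (nat_lit 6) L28534 (by decide +kernel)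
theorem L28536 : W_1 (nat_lit 7) (nat_lit 0x14000a0001000000000000000000000000000) (nat_lit 0x0) (nat_lit 0x28001f0028000000028001c000a000000000000000000) := Q_1 (nat_lit 159) (C_1 L28524 (C_1 L28530 (C_1 L23293 (C_1 L28535 N_1)))) (by decide +kernel)
theorem L28537 : W_1 (nat_lit 7) (nat_lit 0x14000a0001000000000000000000000000000) (nat_lit 0x0) (nat_lit 0x500038001f002800010002800140000000000000000000000) := Q_1 (nat_lit 159) (C_1 L23305 (C_1 L28530 (C_1 L23281 (C_1 L23278 N_1)))) (by decide +kernel)
theorem L28538 : W_1 (nat_lit 10) (nat_lit 0x14000a0001000000000000000000000000000) (nat_lit 0x0) (nat_lit 0x1c000e000f8002800310018000c80060000000000000000000) := Q_1 (nat_lit 143) (C_1 L28496 (C_1 L23389 N_1)) (by decide +kernel)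
theorem L28539 : W_1 (nat_lit 11) (nat_lit 0x14000a0000000000000000000000000000000) (nat_lit 0x0) (nat_lit 0x1d000f800ff00280031001be00fc006f800700030001000000) := Q_1 (nat_lit 108) (C_1 L28497 (C_1 L28498 (C_1 L28522 (C_1 L28525 (C_1 L28536 (C_1 L28537 (C_1 L28538 N_1))))))) (by decide +kernel)
theorem L28540 : W_1 (nat_lit 2) (nat_lit 0x34000a0000000000000000000000000000000) (nat_lit 0x0) (nat_lit 0x800050000000000000000000000000000000) := D_1 (nat_lit 124) (nat_lit 143) (nat_lit 126) (nat_lit 0) (nat_lit 9) (nat_lit 8) (nat_lit 3) (nat_lit 5) (nat_lit 7) (by decide +kernel)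
theorem L28541 : W_1 (nat_lit 9) (nat_lit 0x34000a0000000000000000000000000000000) (nat_lit 0x0) (nat_lit 0x18000c000e0000800310018000c00060000000000000000000) := T_1 (nat_lit 143) (nat_lit 124) (nat_lit 0) (nat_lit 9) (nat_lit 8) L27596 (by decide +kernel)
theorem L28542 : W_1 (nat_lit 5) (nat_lit 0x34000a0000000000000000000000000000000) (nat_lit 0x0) (nat_lit 0x400020004000150018000400000000000000000000000) := T_1 (nat_lit 126) (nat_lit 124) (nat_lit 3) (nat_lit 5) (nat_lit 7) L28038 (by decide +kernel)
theorem L28543 : W_1 (nat_lit 9) (nat_lit 0x34000a0000000000000000000000000000000) (nat_lit 0x0) (nat_lit 0x18000d000ec00480034001a000d00060000000000000000000) := Q_1 (nat_lit 143) (C_1 L27628 (C_1 L27596 (C_1 L27622 N_1))) (by decide +kernel)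
theorem L28544 : W_1 (nat_lit 10) (nat_lit 0x14000a0000000000000000000000000000000) (nat_lit 0x0) (nat_lit 0x18000d000ec00680035001a000d00060000000000000000000) := Q_1 (nat_lit 145) (C_1 L28540 (C_1 L28541 (C_1 L28542 (C_1 L28543 N_1)))) (by decide +kernel)
theorem L28545 : W_1 (nat_lit 3) (nat_lit 0x1c000a0001000080000000000000000000000) (nat_lit 0x0) (nat_lit 0x4000000010000c000400000000000000) := T_1 (nat_lit 74) (nat_lit 126) (nat_lit 7) (nat_lit 6) (nat_lit 4) L23371 (by decide +kernel)
theorem L28546 : W_1 (nat_lit 4) (nat_lit 0x14000a0001000080000000000000000000000) (nat_lit 0x0) (nat_lit 0x1000080004000000010000c000400000000000000) := T_1 (nat_lit 143) (nat_lit 160) (nat_lit 7) (nat_lit 6) (nat_lit 5) L28545 (by decide +kernel)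
theorem L28547 : W_1 (nat_lit 2) (nat_lit 0x1c000a00010000c0004000600000000000000) (nat_lit 0x0) (nat_lit 0x10000800000000000000010000000000) := D_1 (nat_lit 107) (nat_lit 124) (nat_lit 40) (nat_lit 5) (nat_lit 6) (nat_lit 3) (nat_lit 5) (nat_lit 6) (nat_lit 2) (by decide +kernel)
theorem L28548 : W_1 (nat_lit 3) (nat_lit 0x1c000a00010000c0004000400000000000000) (nat_lit 0x0) (nat_lit 0x10000800000000000200030000000000) := T_1 (nat_lit 57) (nat_lit 41) (nat_lit 6) (nat_lit 6) (nat_lit 6) L28547 (by decide +kernel)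
theorem L28549 : W_1 (nat_lit 4) (nat_lit 0x1c000a00010000c0004000000000000000000) (nat_lit 0x0) (nat_lit 0x10000800000008000600030000000000) := T_1 (nat_lit 58) (nat_lit 75) (nat_lit 6) (nat_lit 6) (nat_lit 7) L28548 (by decide +kernel)
theorem L28550 : W_1 (nat_lit 5) (nat_lit 0x1c000a00010000c0000000000000000000000) (nat_lit 0x0) (nat_lit 0x5000080000000c000600030000000000) := T_1 (nat_lit 74) (nat_lit 126) (nat_lit 7) (nat_lit 6) (nat_lit 4) L28549 (by decide +kernel)
theorem L28551 : W_1 (nat_lit 6) (nat_lit 0x14000a00010000c0000000000000000000000) (nat_lit 0x0) (nat_lit 0x1000080005000080000000c000600030000000000) := T_1 (nat_lit 143) (nat_lit 160) (nat_lit 7) (nat_lit 6) (nat_lit 5) L28550 (by decide +kernel)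
theorem L28552 : W_1 (nat_lit 7) (nat_lit 0x14000a0001000080000000000000000000000) (nat_lit 0x0) (nat_lit 0x1000080005000080004000e000600030000000000) := T_1 (nat_lit 90) (nat_lit 73) (nat_lit 4) (nat_lit 6) (nat_lit 8) L28551 (by decide +kernel)
theorem L28553 : W_1 (nat_lit 2) (nat_lit 0x1c000e0001000080000000000000000000000) (nat_lit 0x0) (nat_lit 0x300000800000000000000000000000000) := D_1 (nat_lit 128) (nat_lit 107) (nat_lit 129) (nat_lit 0) (nat_lit 9) (nat_lit 7) (nat_lit 1) (nat_lit 10) (nat_lit 7) (by decide +kernel)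
theorem L28554 : W_1 (nat_lit 3) (nat_lit 0x14000e0001000080000000000000000000000) (nat_lit 0x0) (nat_lit 0x10000800300000800000000000000000000000000) := T_1 (nat_lit 143) (nat_lit 160) (nat_lit 7) (nat_lit 6) (nat_lit 5) L28553 (by decide +kernel)
theorem L28555 : W_1 (nat_lit 2) (nat_lit 0x14001e0001000080000000000000000000000) (nat_lit 0x0) (nat_lit 0x800200002000000000000000000000000000) := D_1 (nat_lit 129) (nat_lit 109) (nat_lit 143) (nat_lit 0) (nat_lit 10) (nat_lit 7) (nat_lit 1) (nat_lit 10) (nat_lit 7) (by decide +kernel)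
theorem L28556 : W_1 (nat_lit 3) (nat_lit 0x14000e0001000080000000000000000000000) (nat_lit 0x0) (nat_lit 0x800300002800000000000000000000000000) := T_1 (nat_lit 128) (nat_lit 107) (nat_lit 0) (nat_lit 9) (nat_lit 7) L28555 (by decide +kernel)
theorem L28557 : W_1 (nat_lit 2) (nat_lit 0x14000e0001800180000000000000000000000) (nat_lit 0x0) (nat_lit 0x10000600000000000000000000000000) := D_1 (nat_lit 106) (nat_lit 124) (nat_lit 105) (nat_lit 0) (nat_lit 8) (nat_lit 7) (nat_lit 3) (nat_lit 3) (nat_lit 6) (by decide +kernel)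
theorem L28558 : W_1 (nat_lit 3) (nat_lit 0x14000e0001000180000000000000000000000) (nat_lit 0x0) (nat_lit 0x110000e00000000000000000000000000) := T_1 (nat_lit 107) (nat_lit 128) (nat_lit 0) (nat_lit 9) (nat_lit 7) L28557 (by decide +kernel)
theorem L28559 : W_1 (nat_lit 4) (nat_lit 0x14000e0001000080000000000000000000000) (nat_lit 0x0) (nat_lit 0x110000e00100008000000000000000000) := T_1 (nat_lit 92) (nat_lit 75) (nat_lit 6) (nat_lit 6) (nat_lit 8) L28558 (by decide +kernel)
theorem L28560 : W_1 (nat_lit 9) (nat_lit 0x14000a0001000080000000000000000000000) (nat_lit 0x0) (nat_lit 0x800040003000080035800ae0074001a000000000000000000) := Q_1 (nat_lit 126) (C_1 L28349 (C_1 L28341 (C_1 L28554 (C_1 L28556 (C_1 L28559 N_1))))) (by decide +kernel)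
theorem L28561 : W_1 (nat_lit 3) (nat_lit 0x1c000a0001000080000000000000000000000) (nat_lit 0x0) (nat_lit 0x40000000040006000100000000000000) := T_1 (nat_lit 74) (nat_lit 126) (nat_lit 7) (nat_lit 6) (nat_lit 4) L23362 (by decide +kernel)
theorem L28562 : W_1 (nat_lit 4) (nat_lit 0x14000a0001000080000000000000000000000) (nat_lit 0x0) (nat_lit 0x10000800040000000040006000100000000000000) := T_1 (nat_lit 143) (nat_lit 160) (nat_lit 7) (nat_lit 6) (nat_lit 5) L28561 (by decide +kernel)
theorem L28563 : W_1 (nat_lit 10) (nat_lit 0x14000a0001000000000000000000000000000) (nat_lit 0x0) (nat_lit 0x800040003000080035800ae007c001e000700030000000000) := Q_1 (nat_lit 91) (C_1 L23175 (C_1 L28546 (C_1 L28552 (C_1 L28560 (C_1 L28562 N_1))))) (by decide +kernel)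
theorem L28564 : W_1 (nat_lit 3) (nat_lit 0x80014000a0001800000000000000000000000000) (nat_lit 0x0) (nat_lit 0x140002600000000000000000000000000) := T_1 (nat_lit 126) (nat_lit 128) (nat_lit 0) (nat_lit 9) (nat_lit 7) L27876 (by decide +kernel)
theorem L28565 : W_1 (nat_lit 4) (nat_lit 0x80014000a0001000000000000000000000000000) (nat_lit 0x0) (nat_lit 0x140002e00040000000000000000000000) := T_1 (nat_lit 107) (nat_lit 90) (nat_lit 4) (nat_lit 6) (nat_lit 9) L28564 (by decide +kernel)
theorem L28566 : W_1 (nat_lit 5) (nat_lit 0x14000a0001000000000000000000000000000) (nat_lit 0x0) (nat_lit 0x28001e000800140002e000c0000000000000000000000) := Q_1 (nat_lit 159) (C_1 L28524 (C_1 L28565 N_1)) (by decide +kernel)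
theorem L28567 : W_1 (nat_lit 6) (nat_lit 0x14000a0001000000000000000000000000000) (nat_lit 0x0) (nat_lit 0x500038001c000000150002e00140000000000000000000000) := Q_1 (nat_lit 159) (C_1 L23305 (C_1 L28565 (C_1 L23281 N_1))) (by decide +kernel)
theorem L28568 : W_1 (nat_lit 2) (nat_lit 0xc0014000a0001000180006000000000000000000) (nat_lit 0x0) (nat_lit 0x10000800040000000000000000000000000000000) := D_1 (nat_lit 143) (nat_lit 160) (nat_lit 126) (nat_lit 7) (nat_lit 6) (nat_lit 5) (nat_lit 7) (nat_lit 6) (nat_lit 4) (by decide +kernel)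
theorem L28569 : W_1 (nat_lit 3) (nat_lit 0xc0014000a0001000180002000000000000000000) (nat_lit 0x0) (nat_lit 0x10000800040000000000004000100000000000000) := T_1 (nat_lit 74) (nat_lit 56) (nat_lit 4) (nat_lit 6) (nat_lit 7) L28568 (by decide +kernel)
theorem L28570 : W_1 (nat_lit 4) (nat_lit 0xc0014000a0001000180000000000000000000000) (nat_lit 0x0) (nat_lit 0x10000800040000000040006000100000000000000) := T_1 (nat_lit 73) (nat_lit 90) (nat_lit 4) (nat_lit 6) (nat_lit 8) L28569 (by decide +kernel)
theorem L28571 : W_1 (nat_lit 5) (nat_lit 0xc0014000a0001000100000000000000000000000) (nat_lit 0x0) (nat_lit 0x100008000400000000c000e000100000000000000) := T_1 (nat_lit 91) (nat_lit 75) (nat_lit 6) (nat_lit 6) (nat_lit 8) L28570 (by decide +kernel)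
theorem L28572 : W_1 (nat_lit 6) (nat_lit 0xc0014000a0001000000000000000000000000000) (nat_lit 0x0) (nat_lit 0x100008000400020001c000e000100000000000000) := T_1 (nat_lit 92) (nat_lit 109) (nat_lit 6) (nat_lit 6) (nat_lit 9) L28571 (by decide +kernel)
theorem L28573 : W_1 (nat_lit 7) (nat_lit 0x80014000a0001000000000000000000000000000) (nat_lit 0x0) (nat_lit 0x800140008000400020001c000e000100000000000000) := T_1 (nat_lit 158) (nat_lit 175) (nat_lit 5) (nat_lit 6) (nat_lit 6) L28572 (by decide +kernel)
theorem L28574 : W_1 (nat_lit 2) (nat_lit 0x180014000e0003000080002000000000000000000) (nat_lit 0x0) (nat_lit 0x4000300000000000000) := D_1 (nat_lit 74) (nat_lit 56) (nat_lit 57) (nat_lit 4) (nat_lit 6) (nat_lit 7) (nat_lit 7) (nat_lit 6) (nat_lit 3) (by decide +kernel)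
theorem L28575 : W_1 (nat_lit 3) (nat_lit 0x180014000a0003000080002000000000000000000) (nat_lit 0x0) (nat_lit 0x100000000000040000000000004000300000000000000) := T_1 (nat_lit 126) (nat_lit 176) (nat_lit 6) (nat_lit 6) (nat_lit 10) L28574 (by decide +kernel)
theorem L28576 : W_1 (nat_lit 4) (nat_lit 0x180014000a0003000080000000000000000000000) (nat_lit 0x0) (nat_lit 0x100000000000040000000040006000300000000000000) := T_1 (nat_lit 73) (nat_lit 90) (nat_lit 4) (nat_lit 6) (nat_lit 8) L28575 (by decide +kernel)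
theorem L28577 : W_1 (nat_lit 5) (nat_lit 0x180014000a0003000000000000000000000000000) (nat_lit 0x0) (nat_lit 0x1000000008000400000000c0006000300000000000000) := T_1 (nat_lit 91) (nat_lit 143) (nat_lit 7) (nat_lit 6) (nat_lit 5) L28576 (by decide +kernel)
theorem L28578 : W_1 (nat_lit 6) (nat_lit 0x80014000a0003000000000000000000000000000) (nat_lit 0x0) (nat_lit 0x3000100008000400000000c0006000300000000000000) := T_1 (nat_lit 160) (nat_lit 177) (nat_lit 7) (nat_lit 6) (nat_lit 6) L28577 (by decide +kernel)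
theorem L28579 : W_1 (nat_lit 7) (nat_lit 0x80014000a0001000000000000000000000000000) (nat_lit 0x0) (nat_lit 0x3000100008000400020001c0006000300000000000000) := T_1 (nat_lit 109) (nat_lit 92) (nat_lit 6) (nat_lit 6) (nat_lit 9) L28578 (by decide +kernel)
theorem L28580 : W_1 (nat_lit 2) (nat_lit 0x800080014000a0003000000000000000000000000000) (nat_lit 0x0) (nat_lit 0x1000100000000000040000000000000000000000000000000) := D_1 (nat_lit 176) (nat_lit 126) (nat_lit 192) (nat_lit 6) (nat_lit 6) (nat_lit 10) (nat_lit 5) (nat_lit 6) (nat_lit 7) (by decide +kernel)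
theorem L28581 : W_1 (nat_lit 3) (nat_lit 0x80014000a0003000000000000000000000000000) (nat_lit 0x0) (nat_lit 0x1000180004000000040000000000000000000000000000000) := T_1 (nat_lit 175) (nat_lit 158) (nat_lit 5) (nat_lit 6) (nat_lit 6) L28580 (by decide +kernel)
theorem L28582 : W_1 (nat_lit 4) (nat_lit 0x80014000a0001000000000000000000000000000) (nat_lit 0x0) (nat_lit 0x1000180004000000040002000100000000000000000000000) := T_1 (nat_lit 109) (nat_lit 92) (nat_lit 6) (nat_lit 6) (nat_lit 9) L28581 (by decide +kernel)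
theorem L28583 : W_1 (nat_lit 8) (nat_lit 0x14000a0001000000000000000000000000000) (nat_lit 0x0) (nat_lit 0x100038001e0008000400020001c000e000300000000000000) := Q_1 (nat_lit 159) (C_1 L28524 (C_1 L28573 (C_1 L28579 (C_1 L28582 N_1)))) (by decide +kernel)
theorem L28584 : W_1 (nat_lit 2) (nat_lit 0x14002e0003000100000000000000000000000) (nat_lit 0x0) (nat_lit 0x400020000800000000000000000000000000000000000) := D_1 (nat_lit 161) (nat_lit 178) (nat_lit 143) (nat_lit 4) (nat_lit 8) (nat_lit 10) (nat_lit 7) (nat_lit 7) (nat_lit 5) (by decide +kernel)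
theorem L28585 : W_1 (nat_lit 3) (nat_lit 0x14002e0003000000000000000000000000000) (nat_lit 0x0) (nat_lit 0x400020000800000000000100008000000000000000000) := T_1 (nat_lit 92) (nat_lit 75) (nat_lit 7) (nat_lit 7) (nat_lit 4) L28584 (by decide +kernel)
theorem L28586 : W_1 (nat_lit 4) (nat_lit 0x14000e0003000000000000000000000000000) (nat_lit 0x0) (nat_lit 0x400020000800300000000100008000000000000000000) := T_1 (nat_lit 129) (nat_lit 128) (nat_lit 0) (nat_lit 10) (nat_lit 7) L28585 (by decide +kernel)
theorem L28587 : W_1 (nat_lit 2) (nat_lit 0x14000e0003000000000000000000000000000) (nat_lit 0x0) (nat_lit 0x8000000000000000100008000000000000000000) := D_1 (nat_lit 92) (nat_lit 75) (nat_lit 159) (nat_lit 7) (nat_lit 7) (nat_lit 4) (nat_lit 6) (nat_lit 6) (nat_lit 9) (by decide +kernel)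
theorem L28588 : W_1 (nat_lit 7) (nat_lit 0x14000e0001000000000000000000000000000) (nat_lit 0x0) (nat_lit 0x78003e000800300002000180008000000000000000000) := Q_1 (nat_lit 109) (C_1 L23640 (C_1 L28586 (C_1 L28587 N_1))) (by decide +kernel)
theorem L28589 : W_1 (nat_lit 2) (nat_lit 0x14000e0003000100000000000000000000000) (nat_lit 0x0) (nat_lit 0x400020000800000000000000000000000000000000000) := D_1 (nat_lit 161) (nat_lit 178) (nat_lit 143) (nat_lit 4) (nat_lit 8) (nat_lit 10) (nat_lit 7) (nat_lit 7) (nat_lit 5) (by decide +kernel)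
theorem L28590 : W_1 (nat_lit 3) (nat_lit 0x14000e0003000000000000000000000000000) (nat_lit 0x0) (nat_lit 0x400020000800000000000100008000000000000000000) := T_1 (nat_lit 92) (nat_lit 75) (nat_lit 7) (nat_lit 7) (nat_lit 4) L28589 (by decide +kernel)
theorem L28591 : W_1 (nat_lit 2) (nat_lit 0x1c0014000e0003400000000000000000000000000) (nat_lit 0x0) (nat_lit 0x2000800000000000080000000000000000000000) := D_1 (nat_lit 143) (nat_lit 91) (nat_lit 157) (nat_lit 7) (nat_lit 6) (nat_lit 5) (nat_lit 2) (nat_lit 4) (nat_lit 9) (by decide +kernel)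
theorem L28592 : W_1 (nat_lit 3) (nat_lit 0xc0014000e0003400000000000000000000000000) (nat_lit 0x0) (nat_lit 0x200012000800000000000080000000000000000000000) := T_1 (nat_lit 160) (nat_lit 177) (nat_lit 7) (nat_lit 6) (nat_lit 6) L28591 (by decide +kernel)
theorem L28593 : W_1 (nat_lit 4) (nat_lit 0x80014000e0003400000000000000000000000000) (nat_lit 0x0) (nat_lit 0x280016000800000000000080000000000000000000000) := T_1 (nat_lit 158) (nat_lit 175) (nat_lit 5) (nat_lit 6) (nat_lit 6) L28592 (by decide +kernel)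
theorem L28594 : W_1 (nat_lit 5) (nat_lit 0x14000e0003400000000000000000000000000) (nat_lit 0x0) (nat_lit 0x38001e000800000000000080000000000000000000000) := T_1 (nat_lit 159) (nat_lit 176) (nat_lit 6) (nat_lit 6) (nat_lit 10) L28593 (by decide +kernel)
theorem L28595 : W_1 (nat_lit 6) (nat_lit 0x14000e0003000000000000000000000000000) (nat_lit 0x0) (nat_lit 0x38001e000800000000c00080000000000000000000000) := T_1 (nat_lit 106) (nat_lit 107) (nat_lit 3) (nat_lit 4) (nat_lit 6) L28594 (by decide +kernel)
theorem L28596 : W_1 (nat_lit 7) (nat_lit 0x14000e0001000000000000000000000000000) (nat_lit 0x0) (nat_lit 0x78003e000800000002c00180008000000000000000000) := Q_1 (nat_lit 109) (C_1 L28587 (C_1 L28590 (C_1 L28595 N_1))) (by decide +kernel)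
theorem L28597 : W_1 (nat_lit 8) (nat_lit 0x14000a0001000000000000000000000000000) (nat_lit 0x0) (nat_lit 0x78003e000800350002e00180008000000000000000000) := Q_1 (nat_lit 126) (C_1 L28588 (C_1 L28042 (C_1 L28596 N_1))) (by decide +kernel)
theorem L28598 : W_1 (nat_lit 11) (nat_lit 0x14000a0000000000000000000000000000000) (nat_lit 0x0) (nat_lit 0xd00078003e00080035800be007c001f800700030001000000) := Q_1 (nat_lit 108) (C_1 L28525 (C_1 L28563 (C_1 L28522 (C_1 L28566 (C_1 L28567 (C_1 L28583 (C_1 L28597 N_1))))))) (by decide +kernel)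
theorem L28599 : W_1 (nat_lit 11) (nat_lit 0x14000a0000000000000000000000000000000) (nat_lit 0x0) (nat_lit 0x500038003e0069c035c01bf00fc007e000700020000000000) := Q_1 (nat_lit 126) (C_1 L28329 (C_1 L28312 (C_1 L28062 (C_1 L27915 N_1)))) (by decide +kernel)
theorem L28600 : W_1 (nat_lit 11) (nat_lit 0x14000a0000000000000000000000000000000) (nat_lit 0x0) (nat_lit 0x500038001e0069c035c01bf00ff007e000700020000000000) := Q_1 (nat_lit 126) (C_1 L28329 (C_1 L28062 (C_1 L28326 (C_1 L27915 N_1)))) (by decide +kernel)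
theorem L28601 : W_1 (nat_lit 12) (nat_lit 0x1400080000000000000000000000000000000) (nat_lit 0x0) (nat_lit 0xe001f000fe00ff0069e037f01bf80ff007f800700030001000000) := Q_1 (nat_lit 125) (C_1 L28327 (C_1 L28352 (C_1 L28409 (C_1 L28460 (C_1 L28488 (C_1 L28539 (C_1 L28544 (C_1 L28066 (C_1 L28598 (C_1 L28599 (C_1 L28600 N_1))))))))))) (by decide +kernel)
theorem L28602 : W_1 (nat_lit 9) (nat_lit 0x1c00080000000000000000000000000000000) (nat_lit 0x0) (nat_lit 0xc0006000f0000200360003c0038001c000000000000000000) := T_1 (nat_lit 128) (nat_lit 141) (nat_lit 2) (nat_lit 5) (nat_lit 8) L27274 (by decide +kernel)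
theorem L28603 : W_1 (nat_lit 12) (nat_lit 0x1400080000000000000000000000000000000) (nat_lit 0x0) (nat_lit 0xe000f0007e00fe006a0037c003e003f001e000500000000000000) := Q_1 (nat_lit 143) (C_1 L28286 (C_1 L27640 (C_1 L27619 (C_1 L27578 (C_1 L28602 N_1))))) (by decide +kernel)
theorem L28604 : W_1 (nat_lit 11) (nat_lit 0x1400080000000000000000000000000000000) (nat_lit 0x0) (nat_lit 0x1c000f000fc006b0037c01bc00fc007e000000000000000000) := Q_1 (nat_lit 143) (C_1 L27643 (C_1 L28602 (C_1 L27307 (C_1 L27594 N_1)))) (by decide +kernel)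
theorem L28605 : W_1 (nat_lit 13) (nat_lit 0x1000080000000000000000000000000000000) (nat_lit 0x0) (nat_lit 0xa0007c003e003fe00ff00ff806fe037f01bf80ff807f800780030001000000) := Q_1 (nat_lit 142) (C_1 L27245 (C_1 L27294 (C_1 L27351 (C_1 L27595 (C_1 L27616 (C_1 L27617 (C_1 L27620 (C_1 L27639 (C_1 L27644 (C_1 L28068 (C_1 L28238 (C_1 L28258 (C_1 L28259 (C_1 L28287 (C_1 L28601 (C_1 L28603 (C_1 L28604 N_1))))))))))))))))) (by decide +kernel)
theorem L28606 : W_1 (nat_lit 12) (nat_lit 0x20001000080000000000000000000000000000000) (nat_lit 0x0) (nat_lit 0x3000be00df006f8037801fc00de000c000000000000000000) := Q_1 (nat_lit 110) (C_1 L26983 (C_1 L26385 (C_1 L26732 (C_1 L25172 (C_1 L26117 (C_1 L26487 (C_1 L26327 (C_1 L26600 (C_1 L26638 (C_1 L24765 (C_1 L26681 N_1))))))))))) (by decide +kernel)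
theorem L28607 : W_1 (nat_lit 13) (nat_lit 0x1000080000000000000000000000000000000) (nat_lit 0x0) (nat_lit 0x400038001fc00fe00ff006f8037801fc00de000c000000000000000000) := Q_1 (nat_lit 161) (C_1 L26994 (C_1 L26996 (C_1 L26993 (C_1 L26700 (C_1 L26458 (C_1 L28606 (C_1 L26688 N_1))))))) (by decide +kernel)
theorem L28608 : W_1 (nat_lit 14) (nat_lit 0x1000000000000000000000000000000000000) (nat_lit 0x0) (nat_lit 0xa0007c003e003fe00ff00ffc06fe03ff01ff80ff807f801f800f8005000000) := Q_1 (nat_lit 127) (C_1 L24538 (C_1 L24780 (C_1 L25040 (C_1 L25174 (C_1 L26119 (C_1 L26185 (C_1 L26329 (C_1 L26387 (C_1 L26493 (C_1 L26602 (C_1 L26640 (C_1 L26683 (C_1 L26734 (C_1 L26985 (C_1 L26992 (C_1 L26997 (C_1 L26999 (C_1 L27003 (C_1 L28605 (C_1 L28607 N_1)))))))))))))))))))) (by decide +kernel)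
theorem root : Crest.Agent.Helper32.Snaky.Wins (nat_lit 17) (nat_lit 14) (nat_lit 0x1000000000000000000000000000000000000) (nat_lit 0x0) (nat_lit 0xa0007c003e003fe00ff00ffc06fe03ff01ff80ff807f801f800f8005000000) := L28608
end Crest.Agent.Helper32.Snaky.Hc
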