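import Crest.Agent.Helper32.Snaky.Rules2
set_option autoImplicit false
set_option maxRecDepth 100000
set_option linter.all false
set_option Elab.async false
namespace Crest.Agent.Helper32.Snaky.R1_0
@[reducible] def W_1 (d M Bz Z : Nat) : Prop := Crest.Agent.Helper32.Snaky.Wins (nat_lit 17) d M Bz Z
theorem D_1 {d M Bz Z : Nat} (m t1 t2 o1 x1 y1 o2 x2 y2 : Nat) (h : Crest.Agent.Helper32.Snaky.chkDoubleC (nat_lit 17) d M Bz Z m t1 t2 o1 x1 y1 o2 x2 y2 = true) : W_1 d M Bz Z := Crest.Agent.Helper32.Snaky.doubleC m t1 t2 o1 x1 y1 o2 x2 y2 h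
theorem T_1 {d M Bz Z cd cM cBz cZ : Nat} (m t o x y : Nat) (child : W_1 cd cM cBz cZ) (h : Crest.Agent.Helper32.Snaky.chkThreatC (nat_lit 17) d M Bz Z cd cM cBz cZ m t o x y = true) : W_1 d M Bz Z := Crest.Agent.Helper32.Snaky.threatC m t o x y child h
theorem Q_1 {d M Bz Z : Nat} (m : Nat) {l : List Crest.Agent.Helper32.Snaky.Spec} (kids : Crest.Agent.Helper32.Snaky.AllWins (nat_lit 17) l) (h : Crest.Agent.Helper32.Snaky.chkQuiet d M Bz Z m l = true) : W_1 d M Bz Z := Crest.Agent.Helper32.Snaky.quiet m kids h
theorem C_1 {cd cM cBz cZ : Nat} {l : List Crest.Agent.Helper32.Snaky.Spec} (h : W_1 cd cM cBz cZ) (hl : Crest.Agent.Helper32.Snaky.AllWins (nat_lit 17) l) : Crest.Agent.Helper32.Snaky.AllWins (nat_lit 17) ((cd, cM, cBz, cZ) :: l) := Crest.Agent.Helper32.Snaky.AllWins.cons h hl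
theorem N_1 : Crest.Agent.Helper32.Snaky.AllWins (nat_lit 17) [] := Crest.Agent.Helper32.Snaky.AllWins.nil
theorem L1 : W_1 (nat_lit 2) (nat_lit 0x80038001600080000000000000000000000000000000) (nat_lit 0x0) (nat_lit 0x4000180000000000000000000000000000000000) := D_1 (nat_lit 140) (nat_lit 158) (nat_lit 139) (nat_lit 0) (nat_lit 8) (nat_lit 9) (nat_lit 3) (nat_lit 3) (nat_lit 8) (by decide +kernel)
theorem L2 : W_1 (nat_lit 3) (nat_lit 0x80038001400080000000000000000000000000000000) (nat_lit 0x0) (nat_lit 0x44000380000000000000000000000000000000000) := T_1 (nat_lit 141) (nat_lit 162) (nat_lit 0) (nat_lit 9) (nat_lit 9) L1 (by decide +kernel)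
theorem L3 : W_1 (nat_lit 2) (nat_lit 0x1800380014000a0000000000000000000000000000000) (nat_lit 0x0) (nat_lit 0x200004000000000001000000000000000000000000000) := D_1 (nat_lit 108) (nat_lit 158) (nat_lit 177) (nat_lit 5) (nat_lit 6) (nat_lit 6) (nat_lit 7) (nat_lit 6) (nat_lit 6) (by decide +kernel)
theorem L4 : W_1 (nat_lit 3) (nat_lit 0x180038001400080000000000000000000000000000000) (nat_lit 0x0) (nat_lit 0x1000200004000000020001000000000000000000000000000) := T_1 (nat_lit 125) (nat_lit 192) (nat_lit 5) (nat_lit 6) (nat_lit 7) L3 (by decide +kernel)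
theorem L5 : W_1 (nat_lit 4) (nat_lit 0x80038001400080000000000000000000000000000000) (nat_lit 0x0) (nat_lit 0x1000300044000000020001000000000000000000000000000) := T_1 (nat_lit 176) (nat_lit 162) (nat_lit 1) (nat_lit 9) (nat_lit 9) L4 (by decide +kernel)
theorem L6 : W_1 (nat_lit 2) (nat_lit 0x800380014000a0000000000000000000000000000000) (nat_lit 0x0) (nat_lit 0x200004000000000001000000000000000000000000000) := D_1 (nat_lit 108) (nat_lit 158) (nat_lit 177) (nat_lit 5) (nat_lit 6) (nat_lit 6) (nat_lit 7) (nat_lit 6) (nat_lit 6) (by decide +kernel)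
theorem L7 : W_1 (nat_lit 2) (nat_lit 0x800380014000a0001800000000000000000000000000) (nat_lit 0x0) (nat_lit 0x1000100000000000010000000000000000000000000000000) := D_1 (nat_lit 176) (nat_lit 192) (nat_lit 124) (nat_lit 5) (nat_lit 6) (nat_lit 7) (nat_lit 4) (nat_lit 6) (nat_lit 10) (by decide +kernel)
theorem L8 : W_1 (nat_lit 3) (nat_lit 0x800380014000a0001000000000000000000000000000) (nat_lit 0x0) (nat_lit 0x1000100000000000010000800040000000000000000000000) := T_1 (nat_lit 107) (nat_lit 90) (nat_lit 4) (nat_lit 6) (nat_lit 9) L7 (by decide +kernel)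
theorem L9 : W_1 (nat_lit 4) (nat_lit 0x800380014000a0000000000000000000000000000000) (nat_lit 0x0) (nat_lit 0x1000100004000000010001800040000000000000000000000) := T_1 (nat_lit 108) (nat_lit 158) (nat_lit 5) (nat_lit 6) (nat_lit 6) L8 (by decide +kernel)
theorem L10 : W_1 (nat_lit 2) (nat_lit 0x3800380016000b0000000000000000000000000000000) (nat_lit 0x0) (nat_lit 0x4000180000000000000000000000000000000000) := D_1 (nat_lit 140) (nat_lit 139) (nat_lit 158) (nat_lit 3) (nat_lit 3) (nat_lit 8) (nat_lit 0) (nat_lit 8) (nat_lit 9) (by decide +kernel)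
theorem L11 : W_1 (nat_lit 3) (nat_lit 0x3800380014000b0000000000000000000000000000000) (nat_lit 0x0) (nat_lit 0x2000000004000380000000000000000000000000000000000) := T_1 (nat_lit 141) (nat_lit 193) (nat_lit 4) (nat_lit 6) (nat_lit 11) L10 (by decide +kernel)
theorem L12 : W_1 (nat_lit 4) (nat_lit 0x1800380014000b0000000000000000000000000000000) (nat_lit 0x0) (nat_lit 0x6000200004000380000000000000000000000000000000000) := T_1 (nat_lit 177) (nat_lit 194) (nat_lit 7) (nat_lit 6) (nat_lit 7) L11 (by decide +kernel)
theorem L13 : W_1 (nat_lit 5) (nat_lit 0x1800380014000a0000000000000000000000000000000) (nat_lit 0x0) (nat_lit 0x6000200004000380010000800000000000000000000000000) := T_1 (nat_lit 124) (nat_lit 107) (nat_lit 4) (nat_lit 6) (nat_lit 10) L12 (by decide +kernel)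
theorem L14 : W_1 (nat_lit 6) (nat_lit 0x800380014000a0000000000000000000000000000000) (nat_lit 0x0) (nat_lit 0x7000300004000380010000800000000000000000000000000) := T_1 (nat_lit 176) (nat_lit 192) (nat_lit 5) (nat_lit 6) (nat_lit 7) L13 (by decide +kernel)
theorem L15 : W_1 (nat_lit 2) (nat_lit 0x1800380014000a0000000000000000000000000000000) (nat_lit 0x0) (nat_lit 0x4000200000000000000001000000000000000000000000000) := D_1 (nat_lit 177) (nat_lit 108) (nat_lit 194) (nat_lit 7) (nat_lit 6) (nat_lit 6) (nat_lit 7) (nat_lit 6) (nat_lit 7) (by decide +kernel)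
theorem L16 : W_1 (nat_lit 3) (nat_lit 0x800380014000a0000000000000000000000000000000) (nat_lit 0x0) (nat_lit 0x5000300000000000000001000000000000000000000000000) := T_1 (nat_lit 176) (nat_lit 192) (nat_lit 5) (nat_lit 6) (nat_lit 7) L15 (by decide +kernel)
theorem L19 : W_1 (nat_lit 2) (nat_lit 0x8003c001600080000000000000000000000000000000) (nat_lit 0x0) (nat_lit 0x1000000000000000020001000000000000000000000000000) := D_1 (nat_lit 125) (nat_lit 108) (nat_lit 192) (nat_lit 5) (nat_lit 6) (nat_lit 6) (nat_lit 6) (nat_lit 5) (nat_lit 11) (by decide +kernel)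
theorem L20 : W_1 (nat_lit 3) (nat_lit 0x8003c001200080000000000000000000000000000000) (nat_lit 0x0) (nat_lit 0x1000000040000400020001000000000000000000000000000) := T_1 (nat_lit 142) (nat_lit 162) (nat_lit 0) (nat_lit 9) (nat_lit 9) L19 (by decide +kernel)
theorem L21 : W_1 (nat_lit 4) (nat_lit 0x8003c001000080000000000000000000000000000000) (nat_lit 0x0) (nat_lit 0x1000000040000700020001000000000000000000000000000) := T_1 (nat_lit 141) (nat_lit 140) (nat_lit 0) (nat_lit 8) (nat_lit 9) L20 (by decide +kernel)
theorem L22 : W_1 (nat_lit 5) (nat_lit 0x80038001000080000000000000000000000000000000) (nat_lit 0x0) (nat_lit 0x1000040044000700020001000000000000000000000000000) := T_1 (nat_lit 158) (nat_lit 174) (nat_lit 1) (nat_lit 8) (nat_lit 9) L21 (by decide +kernel)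
theorem L26 : W_1 (nat_lit 2) (nat_lit 0x180038001000080000000000000000000000000000000) (nat_lit 0x0) (nat_lit 0x60004000000000000000000000000000000000000000) := D_1 (nat_lit 174) (nat_lit 158) (nat_lit 173) (nat_lit 1) (nat_lit 8) (nat_lit 9) (nat_lit 2) (nat_lit 3) (nat_lit 10) (by decide +kernel)
theorem L27 : W_1 (nat_lit 3) (nat_lit 0x80038001000080000000000000000000000000000000) (nat_lit 0x0) (nat_lit 0x160044000000000000000000000000000000000000000) := T_1 (nat_lit 176) (nat_lit 162) (nat_lit 1) (nat_lit 9) (nat_lit 9) L26 (by decide +kernel)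
theorem L28 : W_1 (nat_lit 2) (nat_lit 0xc0038001000080000000000000000000000000000000) (nat_lit 0x0) (nat_lit 0x320000000000000000000000000000000000000000000) := D_1 (nat_lit 176) (nat_lit 173) (nat_lit 177) (nat_lit 2) (nat_lit 3) (nat_lit 10) (nat_lit 2) (nat_lit 4) (nat_lit 10) (by decide +kernel)
theorem L29 : W_1 (nat_lit 3) (nat_lit 0x80038001000080000000000000000000000000000000) (nat_lit 0x0) (nat_lit 0x360004000000000000000000000000000000000000000) := T_1 (nat_lit 174) (nat_lit 158) (nat_lit 1) (nat_lit 8) (nat_lit 9) L28 (by decide +kernel)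
theorem L30 : W_1 (nat_lit 2) (nat_lit 0x180038001000080000000000000000000000000000000) (nat_lit 0x0) (nat_lit 0x260000000000000000000000000000000000000000000) := D_1 (nat_lit 174) (nat_lit 173) (nat_lit 177) (nat_lit 2) (nat_lit 3) (nat_lit 10) (nat_lit 2) (nat_lit 4) (nat_lit 10) (by decide +kernel)
theorem L31 : W_1 (nat_lit 3) (nat_lit 0x80038001000080000000000000000000000000000000) (nat_lit 0x0) (nat_lit 0x360040000000000000000000000000000000000000000) := T_1 (nat_lit 176) (nat_lit 162) (nat_lit 1) (nat_lit 9) (nat_lit 9) L30 (by decide +kernel)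
theorem L33 : W_1 (nat_lit 2) (nat_lit 0x1000078001400080000000000000000000000000000000) (nat_lit 0x0) (nat_lit 0x2000080000800000000000000000000000000000000000) := D_1 (nat_lit 163) (nat_lit 143) (nat_lit 181) (nat_lit 0) (nat_lit 10) (nat_lit 9) (nat_lit 3) (nat_lit 7) (nat_lit 9) (by decide +kernel)
theorem L34 : W_1 (nat_lit 3) (nat_lit 0x78001400080000000000000000000000000000000) (nat_lit 0x0) (nat_lit 0x3800080000800000000000000000000000000000000000) := T_1 (nat_lit 180) (nat_lit 179) (nat_lit 3) (nat_lit 6) (nat_lit 9) L33 (by decide +kernel)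
theorem L35 : W_1 (nat_lit 4) (nat_lit 0x78001000080000000000000000000000000000000) (nat_lit 0x0) (nat_lit 0x3800080000e00000000000000000000000000000000000) := T_1 (nat_lit 142) (nat_lit 141) (nat_lit 0) (nat_lit 9) (nat_lit 9) L34 (by decide +kernel)
theorem L40 : W_1 (nat_lit 2) (nat_lit 0x9001f8001000080000000000000000000000000000000) (nat_lit 0x0) (nat_lit 0x1c000000000000000000000000000000000000) := D_1 (nat_lit 147) (nat_lit 146) (nat_lit 148) (nat_lit 2) (nat_lit 7) (nat_lit 9) (nat_lit 2) (nat_lit 8) (nat_lit 9) (by decide +kernel)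
theorem L41 : W_1 (nat_lit 3) (nat_lit 0x9000f8001000080000000000000000000000000000000) (nat_lit 0x0) (nat_lit 0x10001c800000000000000000000000000000000000) := T_1 (nat_lit 164) (nat_lit 143) (nat_lit 0) (nat_lit 11) (nat_lit 9) L40 (by decide +kernel)
theorem L42 : W_1 (nat_lit 4) (nat_lit 0x900078001000080000000000000000000000000000000) (nat_lit 0x0) (nat_lit 0x20018001c800000000000000000000000000000000000) := T_1 (nat_lit 163) (nat_lit 177) (nat_lit 1) (nat_lit 10) (nat_lit 9) L41 (by decide +kernel)
theorem L43 : W_1 (nat_lit 5) (nat_lit 0x100078001000080000000000000000000000000000000) (nat_lit 0x0) (nat_lit 0x1a0018001c800000000000000000000000000000000000) := T_1 (nat_lit 179) (nat_lit 180) (nat_lit 3) (nat_lit 6) (nat_lit 9) L42 (by decide +kernel)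
theorem L44 : W_1 (nat_lit 6) (nat_lit 0x78001000080000000000000000000000000000000) (nat_lit 0x0) (nat_lit 0x1b8018001c800000000000000000000000000000000000) := T_1 (nat_lit 176) (nat_lit 175) (nat_lit 1) (nat_lit 9) (nat_lit 9) L43 (by decide +kernel)
theorem L45 : W_1 (nat_lit 2) (nat_lit 0x100078001400080000000000000000000000000000000) (nat_lit 0x0) (nat_lit 0x200080000800000000000000000000000000000000000) := D_1 (nat_lit 163) (nat_lit 177) (nat_lit 143) (nat_lit 1) (nat_lit 10) (nat_lit 9) (nat_lit 0) (nat_lit 10) (nat_lit 9) (by decide +kernel)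
theorem L46 : W_1 (nat_lit 3) (nat_lit 0x100078001000080000000000000000000000000000000) (nat_lit 0x0) (nat_lit 0x200080000e00000000000000000000000000000000000) := T_1 (nat_lit 142) (nat_lit 141) (nat_lit 0) (nat_lit 9) (nat_lit 9) L45 (by decide +kernel)
theorem L47 : W_1 (nat_lit 4) (nat_lit 0x78001000080000000000000000000000000000000) (nat_lit 0x0) (nat_lit 0x380080000e00000000000000000000000000000000000) := T_1 (nat_lit 176) (nat_lit 175) (nat_lit 1) (nat_lit 9) (nat_lit 9) L46 (by decide +kernel)
theorem L73 : W_1 (nat_lit 4) (nat_lit 0x3c001200080000000000000000000000000000000) (nat_lit 0x0) (nat_lit 0x10000c0040000400020001000000000000000000000000000) := T_1 (nat_lit 175) (nat_lit 174) (nat_lit 1) (nat_lit 8) (nat_lit 9) L20 (by decide +kernel)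
theorem L74 : W_1 (nat_lit 5) (nat_lit 0x3c001000080000000000000000000000000000000) (nat_lit 0x0) (nat_lit 0x10000c0040000700020001000000000000000000000000000) := T_1 (nat_lit 141) (nat_lit 140) (nat_lit 0) (nat_lit 8) (nat_lit 9) L73 (by decide +kernel)
theorem L75 : W_1 (nat_lit 2) (nat_lit 0x3e001000080000000000000000000000000000000) (nat_lit 0x0) (nat_lit 0xe0000000000000000000000000000000000000000000) := D_1 (nat_lit 174) (nat_lit 173) (nat_lit 175) (nat_lit 1) (nat_lit 7) (nat_lit 9) (nat_lit 1) (nat_lit 8) (nat_lit 9) (by decide +kernel)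
theorem L76 : W_1 (nat_lit 3) (nat_lit 0x3c001000080000000000000000000000000000000) (nat_lit 0x0) (nat_lit 0xe0002000800000000000000000000000000000000000) := T_1 (nat_lit 157) (nat_lit 143) (nat_lit 2) (nat_lit 4) (nat_lit 9) L75 (by decide +kernel)
theorem L78 : W_1 (nat_lit 2) (nat_lit 0x10000f8001000080000000000000000000000000000000) (nat_lit 0x0) (nat_lit 0x100000c00000000000000000000000000000000000) := D_1 (nat_lit 143) (nat_lit 142) (nat_lit 164) (nat_lit 0) (nat_lit 10) (nat_lit 9) (nat_lit 0) (nat_lit 11) (nat_lit 9) (by decide +kernel)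
theorem L79 : W_1 (nat_lit 3) (nat_lit 0x1000078001000080000000000000000000000000000000) (nat_lit 0x0) (nat_lit 0x2000180000c00000000000000000000000000000000000) := T_1 (nat_lit 163) (nat_lit 181) (nat_lit 3) (nat_lit 7) (nat_lit 9) L78 (by decide +kernel)
theorem L80 : W_1 (nat_lit 4) (nat_lit 0x78001000080000000000000000000000000000000) (nat_lit 0x0) (nat_lit 0x3800180000c00000000000000000000000000000000000) := T_1 (nat_lit 180) (nat_lit 179) (nat_lit 3) (nat_lit 6) (nat_lit 9) L79 (by decide +kernel)
theorem L81 : W_1 (nat_lit 2) (nat_lit 0x1100078001000080000000000000000000000000000000) (nat_lit 0x0) (nat_lit 0x2200080000000000000000000000000000000000000000) := D_1 (nat_lit 163) (nat_lit 181) (nat_lit 177) (nat_lit 3) (nat_lit 7) (nat_lit 9) (nat_lit 1) (nat_lit 10) (nat_lit 9) (by decide +kernel)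
theorem L82 : W_1 (nat_lit 3) (nat_lit 0x1000078001000080000000000000000000000000000000) (nat_lit 0x0) (nat_lit 0x2380080000000000000000000000000000000000000000) := T_1 (nat_lit 176) (nat_lit 175) (nat_lit 1) (nat_lit 9) (nat_lit 9) L81 (by decide +kernel)
theorem L83 : W_1 (nat_lit 4) (nat_lit 0x78001000080000000000000000000000000000000) (nat_lit 0x0) (nat_lit 0x3b80080000000000000000000000000000000000000000) := T_1 (nat_lit 180) (nat_lit 179) (nat_lit 3) (nat_lit 6) (nat_lit 9) L82 (by decide +kernel)
theorem L84 : W_1 (nat_lit 2) (nat_lit 0x1000f8001000080000000000000000000000000000000) (nat_lit 0x0) (nat_lit 0x100000c00000000000000000000000000000000000) := D_1 (nat_lit 143) (nat_lit 164) (nat_lit 142) (nat_lit 0) (nat_lit 11) (nat_lit 9) (nat_lit 0) (nat_lit 10) (nat_lit 9) (by decide +kernel)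
theorem L85 : W_1 (nat_lit 3) (nat_lit 0x100078001000080000000000000000000000000000000) (nat_lit 0x0) (nat_lit 0x200180000c00000000000000000000000000000000000) := T_1 (nat_lit 163) (nat_lit 177) (nat_lit 1) (nat_lit 10) (nat_lit 9) L84 (by decide +kernel)
theorem L86 : W_1 (nat_lit 4) (nat_lit 0x78001000080000000000000000000000000000000) (nat_lit 0x0) (nat_lit 0x380180000c00000000000000000000000000000000000) := T_1 (nat_lit 176) (nat_lit 175) (nat_lit 1) (nat_lit 9) (nat_lit 9) L85 (by decide +kernel)
theorem L87 : W_1 (nat_lit 2) (nat_lit 0x4000000078001000080000000000000000000000000000000) (nat_lit 0x0) (nat_lit 0x80000000200000000800000000000000000000000000000000000) := D_1 (nat_lit 177) (nat_lit 143) (nat_lit 211) (nat_lit 6) (nat_lit 7) (nat_lit 11) (nat_lit 6) (nat_lit 7) (nat_lit 12) (by decide +kernel)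
theorem L88 : W_1 (nat_lit 2) (nat_lit 0x80006000100078001000080000000000000000000000000000000) (nat_lit 0x0) (nat_lit 0x20001000040000000000000000000000000000000000000000000000000000) := D_1 (nat_lit 228) (nat_lit 245) (nat_lit 210) (nat_lit 4) (nat_lit 7) (nat_lit 14) (nat_lit 7) (nat_lit 6) (nat_lit 9) (by decide +kernel)
theorem L89 : W_1 (nat_lit 3) (nat_lit 0x80004000100078001000080000000000000000000000000000000) (nat_lit 0x0) (nat_lit 0x20001000040002000000000000400000000000000000000000000000000000) := T_1 (nat_lit 193) (nat_lit 142) (nat_lit 7) (nat_lit 6) (nat_lit 8) L88 (by decide +kernel)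
theorem L90 : W_1 (nat_lit 4) (nat_lit 0x4000100078001000080000000000000000000000000000000) (nat_lit 0x0) (nat_lit 0x200010000c0002000200000000400000000000000000000000000000000000) := T_1 (nat_lit 211) (nat_lit 177) (nat_lit 6) (nat_lit 7) (nat_lit 12) L89 (by decide +kernel)
theorem L91 : W_1 (nat_lit 5) (nat_lit 0x4000000078001000080000000000000000000000000000000) (nat_lit 0x0) (nat_lit 0x200010000c0002000380000000400000000000000000000000000000000000) := T_1 (nat_lit 176) (nat_lit 175) (nat_lit 1) (nat_lit 9) (nat_lit 9) L90 (by decide +kernel)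
theorem L92 : W_1 (nat_lit 2) (nat_lit 0x400082007e001080080000000000000000000000000000000) (nat_lit 0x0) (nat_lit 0x10001000040000000000000000000000000000000000) := D_1 (nat_lit 156) (nat_lit 172) (nat_lit 138) (nat_lit 1) (nat_lit 6) (nat_lit 9) (nat_lit 0) (nat_lit 6) (nat_lit 9) (by decide +kernel)
theorem L93 : W_1 (nat_lit 3) (nat_lit 0x400082007e001000080000000000000000000000000000000) (nat_lit 0x0) (nat_lit 0x100010001c0000000000000000000000000000000000) := T_1 (nat_lit 139) (nat_lit 140) (nat_lit 0) (nat_lit 7) (nat_lit 9) L92 (by decide +kernel)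
theorem L94 : W_1 (nat_lit 4) (nat_lit 0x400080007e001000080000000000000000000000000000000) (nat_lit 0x0) (nat_lit 0x700010001c0000000000000000000000000000000000) := T_1 (nat_lit 173) (nat_lit 174) (nat_lit 1) (nat_lit 7) (nat_lit 9) L93 (by decide +kernel)
theorem L95 : W_1 (nat_lit 5) (nat_lit 0x400080007c001000080000000000000000000000000000000) (nat_lit 0x0) (nat_lit 0x700030009c0000000000000000000000000000000000) := T_1 (nat_lit 157) (nat_lit 143) (nat_lit 2) (nat_lit 4) (nat_lit 9) L94 (by decide +kernel)
theorem L96 : W_1 (nat_lit 6) (nat_lit 0x400000007c001000080000000000000000000000000000000) (nat_lit 0x0) (nat_lit 0x18700030009c0000000000000000000000000000000000) := T_1 (nat_lit 179) (nat_lit 180) (nat_lit 3) (nat_lit 6) (nat_lit 9) L95 (by decide +kernel)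
theorem L97 : W_1 (nat_lit 2) (nat_lit 0x400000007c001000080000000000000000000000000000000) (nat_lit 0x0) (nat_lit 0x1c0000000000000000000000000000000000000000000) := D_1 (nat_lit 175) (nat_lit 176) (nat_lit 174) (nat_lit 1) (nat_lit 9) (nat_lit 9) (nat_lit 1) (nat_lit 8) (nat_lit 9) (by decide +kernel)
theorem L107 : W_1 (nat_lit 2) (nat_lit 0x4003c001100080000000000000000000000000000000) (nat_lit 0x0) (nat_lit 0x20002000080000000000000000000000000000000000) := D_1 (nat_lit 157) (nat_lit 139) (nat_lit 173) (nat_lit 0) (nat_lit 7) (nat_lit 9) (nat_lit 1) (nat_lit 7) (nat_lit 9) (by decide +kernel)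
theorem L108 : W_1 (nat_lit 3) (nat_lit 0x3c001100080000000000000000000000000000000) (nat_lit 0x0) (nat_lit 0xe0002000080000000000000000000000000000000000) := T_1 (nat_lit 174) (nat_lit 175) (nat_lit 1) (nat_lit 8) (nat_lit 9) L107 (by decide +kernel)
theorem L109 : W_1 (nat_lit 4) (nat_lit 0x3c001000080000000000000000000000000000000) (nat_lit 0x0) (nat_lit 0xe0002000380000000000000000000000000000000000) := T_1 (nat_lit 140) (nat_lit 141) (nat_lit 0) (nat_lit 8) (nat_lit 9) L108 (by decide +kernel)
theorem L110 : W_1 (nat_lit 2) (nat_lit 0x20003c001000080000000000000000000000000000000) (nat_lit 0x0) (nat_lit 0x80004000000000000800000000000000000000000000000000000) := D_1 (nat_lit 194) (nat_lit 143) (nat_lit 211) (nat_lit 6) (nat_lit 7) (nat_lit 11) (nat_lit 6) (nat_lit 7) (nat_lit 12) (by decide +kernel)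
theorem L111 : W_1 (nat_lit 2) (nat_lit 0x20003c0014000a0000000000000000000000000000000) (nat_lit 0x0) (nat_lit 0x80004000100000000000000000000000000000000000000000000) := D_1 (nat_lit 194) (nat_lit 211) (nat_lit 176) (nat_lit 6) (nat_lit 7) (nat_lit 12) (nat_lit 7) (nat_lit 6) (nat_lit 7) (by decide +kernel)
theorem L112 : W_1 (nat_lit 3) (nat_lit 0x20003c001400080000000000000000000000000000000) (nat_lit 0x0) (nat_lit 0x80004000100000000000020001000000000000000000000000000) := T_1 (nat_lit 125) (nat_lit 108) (nat_lit 7) (nat_lit 6) (nat_lit 6) L111 (by decide +kernel)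
theorem L113 : W_1 (nat_lit 2) (nat_lit 0x8000380028003c001600080000000000000000000000000000000) (nat_lit 0x0) (nat_lit 0x400100000000000010000000000000000000000000000000) := D_1 (nat_lit 176) (nat_lit 124) (nat_lit 190) (nat_lit 7) (nat_lit 5) (nat_lit 7) (nat_lit 2) (nat_lit 3) (nat_lit 11) (by decide +kernel)
theorem L114 : W_1 (nat_lit 3) (nat_lit 0x8000180028003c001600080000000000000000000000000000000) (nat_lit 0x0) (nat_lit 0x40002400100000000000010000000000000000000000000000000) := T_1 (nat_lit 193) (nat_lit 210) (nat_lit 7) (nat_lit 5) (nat_lit 8) L113 (by decide +kernel)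
theorem L115 : W_1 (nat_lit 4) (nat_lit 0x8000100028003c001600080000000000000000000000000000000) (nat_lit 0x0) (nat_lit 0x50002c00100000000000010000000000000000000000000000000) := T_1 (nat_lit 191) (nat_lit 208) (nat_lit 5) (nat_lit 5) (nat_lit 8) L114 (by decide +kernel)
theorem L116 : W_1 (nat_lit 5) (nat_lit 0x8000000028003c001600080000000000000000000000000000000) (nat_lit 0x0) (nat_lit 0x70003c00100000000000010000000000000000000000000000000) := T_1 (nat_lit 192) (nat_lit 209) (nat_lit 6) (nat_lit 5) (nat_lit 12) L115 (by decide +kernel)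
theorem L124 : W_1 (nat_lit 2) (nat_lit 0x28003c001e00080000000000000000000000000000000) (nat_lit 0x0) (nat_lit 0x1000000000000000020001000000000000000000000000000) := D_1 (nat_lit 125) (nat_lit 108) (nat_lit 192) (nat_lit 7) (nat_lit 6) (nat_lit 6) (nat_lit 6) (nat_lit 5) (nat_lit 11) (by decide +kernel)
theorem L125 : W_1 (nat_lit 3) (nat_lit 0x28003c001a00080000000000000000000000000000000) (nat_lit 0x0) (nat_lit 0x1000000000000400120001000000000000000000000000000) := T_1 (nat_lit 142) (nat_lit 128) (nat_lit 2) (nat_lit 5) (nat_lit 8) L124 (by decide +kernel)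
theorem L129 : W_1 (nat_lit 2) (nat_lit 0x20003c001e00090001000000000000000000000000000) (nat_lit 0x0) (nat_lit 0x2000100000000000000000800000000000000000000000000) := D_1 (nat_lit 176) (nat_lit 193) (nat_lit 107) (nat_lit 4) (nat_lit 6) (nat_lit 11) (nat_lit 7) (nat_lit 5) (nat_lit 6) (by decide +kernel)
theorem L130 : W_1 (nat_lit 3) (nat_lit 0x20003c001e00080001000000000000000000000000000) (nat_lit 0x0) (nat_lit 0x2000100000000000018000800000000000000000000000000) := T_1 (nat_lit 124) (nat_lit 123) (nat_lit 0) (nat_lit 8) (nat_lit 8) L129 (by decide +kernel)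
theorem L131 : W_1 (nat_lit 4) (nat_lit 0x20003c001600080001000000000000000000000000000) (nat_lit 0x0) (nat_lit 0x2000100000000800118000800000000000000000000000000) := T_1 (nat_lit 143) (nat_lit 128) (nat_lit 2) (nat_lit 5) (nat_lit 8) L130 (by decide +kernel)
theorem L132 : W_1 (nat_lit 5) (nat_lit 0x20003c001600080000000000000000000000000000000) (nat_lit 0x0) (nat_lit 0x2000100000000800138001800000000000000000000000000) := T_1 (nat_lit 108) (nat_lit 125) (nat_lit 7) (nat_lit 6) (nat_lit 6) L131 (by decide +kernel)
theorem L133 : W_1 (nat_lit 6) (nat_lit 0x20003c001400080000000000000000000000000000000) (nat_lit 0x0) (nat_lit 0x2000100000000b00138001800000000000000000000000000) := T_1 (nat_lit 141) (nat_lit 140) (nat_lit 0) (nat_lit 8) (nat_lit 9) L132 (by decide +kernel)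
theorem L134 : W_1 (nat_lit 2) (nat_lit 0x28003c001e00090000000000000000000000000000000) (nat_lit 0x0) (nat_lit 0x2000100000000000000000800000000000000000000000000) := D_1 (nat_lit 176) (nat_lit 193) (nat_lit 107) (nat_lit 7) (nat_lit 5) (nat_lit 7) (nat_lit 7) (nat_lit 5) (nat_lit 6) (by decide +kernel)
theorem L135 : W_1 (nat_lit 3) (nat_lit 0x28003c001e00080000000000000000000000000000000) (nat_lit 0x0) (nat_lit 0x2000100000000000018000800000000000000000000000000) := T_1 (nat_lit 124) (nat_lit 123) (nat_lit 0) (nat_lit 8) (nat_lit 8) L134 (by decide +kernel)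
theorem L136 : W_1 (nat_lit 4) (nat_lit 0x28003c001600080000000000000000000000000000000) (nat_lit 0x0) (nat_lit 0x2000100000000800118000800000000000000000000000000) := T_1 (nat_lit 143) (nat_lit 128) (nat_lit 2) (nat_lit 5) (nat_lit 8) L135 (by decide +kernel)
theorem L137 : W_1 (nat_lit 5) (nat_lit 0x20003c001600080000000000000000000000000000000) (nat_lit 0x0) (nat_lit 0x20001c0000000800118000800000000000000000000000000) := T_1 (nat_lit 175) (nat_lit 174) (nat_lit 1) (nat_lit 8) (nat_lit 9) L136 (by decide +kernel)
theorem L138 : W_1 (nat_lit 6) (nat_lit 0x20003c001400080000000000000000000000000000000) (nat_lit 0x0) (nat_lit 0x20001c0000000b00118000800000000000000000000000000) := T_1 (nat_lit 141) (nat_lit 140) (nat_lit 0) (nat_lit 8) (nat_lit 9) L137 (by decide +kernel)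
theorem L139 : W_1 (nat_lit 2) (nat_lit 0x28003c0014000a0000000000000000000000000000000) (nat_lit 0x0) (nat_lit 0x20001000100000000000000000000000000000000000000000000) := D_1 (nat_lit 192) (nat_lit 209) (nat_lit 176) (nat_lit 6) (nat_lit 5) (nat_lit 12) (nat_lit 5) (nat_lit 6) (nat_lit 7) (by decide +kernel)
theorem L140 : W_1 (nat_lit 3) (nat_lit 0x28003c001400080000000000000000000000000000000) (nat_lit 0x0) (nat_lit 0x20001000100000000000020001000000000000000000000000000) := T_1 (nat_lit 125) (nat_lit 108) (nat_lit 7) (nat_lit 6) (nat_lit 6) L139 (by decide +kernel)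
theorem L141 : W_1 (nat_lit 4) (nat_lit 0x20003c001400080000000000000000000000000000000) (nat_lit 0x0) (nat_lit 0x200010001c0000000000020001000000000000000000000000000) := T_1 (nat_lit 175) (nat_lit 174) (nat_lit 1) (nat_lit 8) (nat_lit 9) L140 (by decide +kernel)
theorem L145 : W_1 (nat_lit 2) (nat_lit 0x38001600080000000000000000000000000000000) (nat_lit 0x0) (nat_lit 0x4000180000000000000000000000000000000000) := D_1 (nat_lit 140) (nat_lit 158) (nat_lit 139) (nat_lit 0) (nat_lit 8) (nat_lit 9) (nat_lit 3) (nat_lit 3) (nat_lit 8) (by decide +kernel)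
theorem L227 : W_1 (nat_lit 2) (nat_lit 0x38001c00080000000000000000000000000000000) (nat_lit 0x0) (nat_lit 0x300100000000000000000000000000000000) := D_1 (nat_lit 141) (nat_lit 128) (nat_lit 140) (nat_lit 2) (nat_lit 5) (nat_lit 8) (nat_lit 3) (nat_lit 4) (nat_lit 8) (by decide +kernel)
theorem L260 : W_1 (nat_lit 2) (nat_lit 0x200000000b00078001c000e0000000000000000000000000000000) (nat_lit 0x0) (nat_lit 0x18000800000000000000000000000000) := D_1 (nat_lit 124) (nat_lit 123) (nat_lit 107) (nat_lit 3) (nat_lit 4) (nat_lit 7) (nat_lit 4) (nat_lit 6) (nat_lit 10) (by decide +kernel)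
theorem L261 : W_1 (nat_lit 3) (nat_lit 0x200000000b000780014000e0000000000000000000000000000000) (nat_lit 0x0) (nat_lit 0x2000000000000800018000800000000000000000000000000) := T_1 (nat_lit 143) (nat_lit 193) (nat_lit 6) (nat_lit 6) (nat_lit 11) L260 (by decide +kernel)
theorem L262 : W_1 (nat_lit 4) (nat_lit 0x200000000b000780014000a0000000000000000000000000000000) (nat_lit 0x0) (nat_lit 0x2000000000000800058002800000000000000000000000000) := T_1 (nat_lit 126) (nat_lit 109) (nat_lit 6) (nat_lit 6) (nat_lit 10) L261 (by decide +kernel)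
theorem L263 : W_1 (nat_lit 5) (nat_lit 0x200000000a000780014000a0000000000000000000000000000000) (nat_lit 0x0) (nat_lit 0x2000180000000800058002800000000000000000000000000) := T_1 (nat_lit 176) (nat_lit 175) (nat_lit 1) (nat_lit 9) (nat_lit 9) L262 (by decide +kernel)
theorem L264 : W_1 (nat_lit 6) (nat_lit 0xa000780014000a0000000000000000000000000000000) (nat_lit 0x0) (nat_lit 0x200012000180000000800058002800000000000000000000000000) := T_1 (nat_lit 213) (nat_lit 196) (nat_lit 4) (nat_lit 9) (nat_lit 12) L263 (by decide +kernel)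
theorem L265 : W_1 (nat_lit 7) (nat_lit 0xa00078001400080000000000000000000000000000000) (nat_lit 0x0) (nat_lit 0x200012000180000000800078003800000000000000000000000000) := T_1 (nat_lit 125) (nat_lit 108) (nat_lit 7) (nat_lit 6) (nat_lit 6) L264 (by decide +kernel)
theorem L266 : W_1 (nat_lit 8) (nat_lit 0x200078001400080000000000000000000000000000000) (nat_lit 0x0) (nat_lit 0x200012001980000000800078003800000000000000000000000000) := T_1 (nat_lit 179) (nat_lit 180) (nat_lit 3) (nat_lit 6) (nat_lit 9) L265 (by decide +kernel)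
theorem L267 : W_1 (nat_lit 9) (nat_lit 0x200078001000080000000000000000000000000000000) (nat_lit 0x0) (nat_lit 0x200012001980000000e00078003800000000000000000000000000) := T_1 (nat_lit 142) (nat_lit 141) (nat_lit 0) (nat_lit 9) (nat_lit 9) L266 (by decide +kernel)
theorem L271 : W_1 (nat_lit 2) (nat_lit 0x30001000080004000200000000000000000000000) (nat_lit 0x0) (nat_lit 0x8000400020000000000000000000) := D_1 (nat_lit 94) (nat_lit 111) (nat_lit 77) (nat_lit 6) (nat_lit 8) (nat_lit 9) (nat_lit 6) (nat_lit 8) (nat_lit 8) (by decide +kernel)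
theorem L272 : W_1 (nat_lit 3) (nat_lit 0x30001000080004000000000000000000000000000) (nat_lit 0x0) (nat_lit 0x800000008000600020000000000000000000) := T_1 (nat_lit 93) (nat_lit 143) (nat_lit 5) (nat_lit 8) (nat_lit 5) L271 (by decide +kernel)
theorem L273 : W_1 (nat_lit 4) (nat_lit 0x30001000080000000000000000000000000000000) (nat_lit 0x0) (nat_lit 0x20000000080000000c000600020000000000000000000) := T_1 (nat_lit 110) (nat_lit 177) (nat_lit 5) (nat_lit 8) (nat_lit 6) L272 (by decide +kernel)
theorem L280 : W_1 (nat_lit 2) (nat_lit 0x200078001000080000000000000000000000000000000) (nat_lit 0x0) (nat_lit 0x180080000000000000000000000000000000000000000) := D_1 (nat_lit 176) (nat_lit 175) (nat_lit 163) (nat_lit 1) (nat_lit 9) (nat_lit 9) (nat_lit 1) (nat_lit 10) (nat_lit 9) (by decide +kernel)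
theorem L281 : W_1 (nat_lit 3) (nat_lit 0x78001000080000000000000000000000000000000) (nat_lit 0x0) (nat_lit 0x380080000000000004000000000000000000000000000) := T_1 (nat_lit 177) (nat_lit 110) (nat_lit 5) (nat_lit 8) (nat_lit 6) L280 (by decide +kernel)
theorem L283 : W_1 (nat_lit 2) (nat_lit 0x78001000080000000000000000000000000000000) (nat_lit 0x0) (nat_lit 0x1800000000000000004000000000000000000000000000) := D_1 (nat_lit 179) (nat_lit 110) (nat_lit 180) (nat_lit 7) (nat_lit 8) (nat_lit 6) (nat_lit 3) (nat_lit 6) (nat_lit 9) (by decide +kernel)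
theorem L299 : W_1 (nat_lit 2) (nat_lit 0x38001200080004000000000000000000000000000) (nat_lit 0x0) (nat_lit 0x800040000400000000000000000000000000000000000) := D_1 (nat_lit 162) (nat_lit 142) (nat_lit 179) (nat_lit 0) (nat_lit 9) (nat_lit 9) (nat_lit 7) (nat_lit 8) (nat_lit 6) (by decide +kernel)
theorem L300 : W_1 (nat_lit 3) (nat_lit 0x38001200080000000000000000000000000000000) (nat_lit 0x0) (nat_lit 0xa00040000400000004000000000000000000000000000) := T_1 (nat_lit 110) (nat_lit 177) (nat_lit 5) (nat_lit 8) (nat_lit 6) L299 (by decide +kernel)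
theorem L301 : W_1 (nat_lit 3) (nat_lit 0x38001200080000000000000000000000000000000) (nat_lit 0x0) (nat_lit 0x44000580000000000000000000000000000000000) := T_1 (nat_lit 142) (nat_lit 162) (nat_lit 0) (nat_lit 9) (nat_lit 9) L145 (by decide +kernel)
theorem L313 : W_1 (nat_lit 2) (nat_lit 0x80078001200080000000000000000000000000000000) (nat_lit 0x0) (nat_lit 0x40004000100000000000000000000000000000000000) := D_1 (nat_lit 158) (nat_lit 140) (nat_lit 174) (nat_lit 0) (nat_lit 8) (nat_lit 9) (nat_lit 1) (nat_lit 8) (nat_lit 9) (by decide +kernel)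
theorem L314 : W_1 (nat_lit 3) (nat_lit 0x78001200080000000000000000000000000000000) (nat_lit 0x0) (nat_lit 0x1c0004000100000000000000000000000000000000000) := T_1 (nat_lit 175) (nat_lit 176) (nat_lit 1) (nat_lit 9) (nat_lit 9) L313 (by decide +kernel)
theorem L315 : W_1 (nat_lit 4) (nat_lit 0x78001000080000000000000000000000000000000) (nat_lit 0x0) (nat_lit 0x1c0004000700000000000000000000000000000000000) := T_1 (nat_lit 141) (nat_lit 142) (nat_lit 0) (nat_lit 9) (nat_lit 9) L314 (by decide +kernel)
theorem L317 : W_1 (nat_lit 2) (nat_lit 0x8000000024003e001080080000000000000000000000000000000) (nat_lit 0x0) (nat_lit 0x100001000040000000000000000000000000000000000) := D_1 (nat_lit 156) (nat_lit 176) (nat_lit 138) (nat_lit 3) (nat_lit 3) (nat_lit 9) (nat_lit 0) (nat_lit 6) (nat_lit 9) (by decide +kernel)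
theorem L318 : W_1 (nat_lit 3) (nat_lit 0x8000000024003e001000080000000000000000000000000000000) (nat_lit 0x0) (nat_lit 0x1000010001c0000000000000000000000000000000000) := T_1 (nat_lit 139) (nat_lit 140) (nat_lit 0) (nat_lit 7) (nat_lit 9) L317 (by decide +kernel)
theorem L319 : W_1 (nat_lit 4) (nat_lit 0x8000000024003c001000080000000000000000000000000000000) (nat_lit 0x0) (nat_lit 0x1200030001c0000000000000000000000000000000000) := T_1 (nat_lit 157) (nat_lit 173) (nat_lit 1) (nat_lit 7) (nat_lit 9) L318 (by decide +kernel)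
theorem L320 : W_1 (nat_lit 5) (nat_lit 0x24003c001000080000000000000000000000000000000) (nat_lit 0x0) (nat_lit 0x800040001200030001c0000000000000000000000000000000000) := T_1 (nat_lit 211) (nat_lit 194) (nat_lit 6) (nat_lit 7) (nat_lit 12) L319 (by decide +kernel)
theorem L321 : W_1 (nat_lit 6) (nat_lit 0x20003c001000080000000000000000000000000000000) (nat_lit 0x0) (nat_lit 0x800040001e00030001c0000000000000000000000000000000000) := T_1 (nat_lit 174) (nat_lit 175) (nat_lit 1) (nat_lit 8) (nat_lit 9) L320 (by decide +kernel)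
theorem L322 : W_1 (nat_lit 7) (nat_lit 0x3c001000080000000000000000000000000000000) (nat_lit 0x0) (nat_lit 0x800040003e00030001c0000004000000000000000000000000000) := T_1 (nat_lit 177) (nat_lit 110) (nat_lit 5) (nat_lit 8) (nat_lit 6) L321 (by decide +kernel)
theorem L323 : W_1 (nat_lit 2) (nat_lit 0x8000000020003f001100080000000000000000000000000000000) (nat_lit 0x0) (nat_lit 0x70000000000000000000000000000000000000000000) := D_1 (nat_lit 173) (nat_lit 172) (nat_lit 174) (nat_lit 1) (nat_lit 6) (nat_lit 9) (nat_lit 1) (nat_lit 7) (nat_lit 9) (by decide +kernel)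
theorem L324 : W_1 (nat_lit 3) (nat_lit 0x8000000020003e001100080000000000000000000000000000000) (nat_lit 0x0) (nat_lit 0x170001000000000000000000000000000000000000000) := T_1 (nat_lit 156) (nat_lit 176) (nat_lit 3) (nat_lit 3) (nat_lit 9) L323 (by decide +kernel)
theorem L325 : W_1 (nat_lit 4) (nat_lit 0x20003e001100080000000000000000000000000000000) (nat_lit 0x0) (nat_lit 0x80004000170001000000000000000000000000000000000000000) := T_1 (nat_lit 211) (nat_lit 194) (nat_lit 6) (nat_lit 7) (nat_lit 12) L324 (by decide +kernel)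
theorem L326 : W_1 (nat_lit 5) (nat_lit 0x20003c001100080000000000000000000000000000000) (nat_lit 0x0) (nat_lit 0x80004000170003000080000000000000000000000000000000000) := T_1 (nat_lit 157) (nat_lit 139) (nat_lit 0) (nat_lit 7) (nat_lit 9) L325 (by decide +kernel)
theorem L327 : W_1 (nat_lit 6) (nat_lit 0x3c001100080000000000000000000000000000000) (nat_lit 0x0) (nat_lit 0x80004000370003000080000004000000000000000000000000000) := T_1 (nat_lit 177) (nat_lit 110) (nat_lit 5) (nat_lit 8) (nat_lit 6) L326 (by decide +kernel)
theorem L328 : W_1 (nat_lit 7) (nat_lit 0x3c001000080000000000000000000000000000000) (nat_lit 0x0) (nat_lit 0x80004000370003000380000004000000000000000000000000000) := T_1 (nat_lit 140) (nat_lit 141) (nat_lit 0) (nat_lit 8) (nat_lit 9) L327 (by decide +kernel)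
theorem L329 : W_1 (nat_lit 2) (nat_lit 0x22003e001000080000000000000000000000000000000) (nat_lit 0x0) (nat_lit 0x110001000000000000000000000000000000000000000) := D_1 (nat_lit 156) (nat_lit 176) (nat_lit 172) (nat_lit 3) (nat_lit 3) (nat_lit 9) (nat_lit 1) (nat_lit 6) (nat_lit 9) (by decide +kernel)
theorem L330 : W_1 (nat_lit 3) (nat_lit 0x20003e001000080000000000000000000000000000000) (nat_lit 0x0) (nat_lit 0x170001000000000000000000000000000000000000000) := T_1 (nat_lit 173) (nat_lit 174) (nat_lit 1) (nat_lit 7) (nat_lit 9) L329 (by decide +kernel)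
theorem L331 : W_1 (nat_lit 4) (nat_lit 0x3e001000080000000000000000000000000000000) (nat_lit 0x0) (nat_lit 0x370001000000000004000000000000000000000000000) := T_1 (nat_lit 177) (nat_lit 110) (nat_lit 5) (nat_lit 8) (nat_lit 6) L330 (by decide +kernel)
theorem L332 : W_1 (nat_lit 2) (nat_lit 0x21003f001040080000000000000000000000000000000) (nat_lit 0x0) (nat_lit 0x8000800020000000000000000000000000000000000) := D_1 (nat_lit 155) (nat_lit 171) (nat_lit 137) (nat_lit 1) (nat_lit 5) (nat_lit 9) (nat_lit 0) (nat_lit 5) (nat_lit 9) (by decide +kernel)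
theorem L333 : W_1 (nat_lit 3) (nat_lit 0x21003f001000080000000000000000000000000000000) (nat_lit 0x0) (nat_lit 0x80008000e0000000000000000000000000000000000) := T_1 (nat_lit 138) (nat_lit 139) (nat_lit 0) (nat_lit 6) (nat_lit 9) L332 (by decide +kernel)
theorem L334 : W_1 (nat_lit 4) (nat_lit 0x20003f001000080000000000000000000000000000000) (nat_lit 0x0) (nat_lit 0x380008000e0000000000000000000000000000000000) := T_1 (nat_lit 172) (nat_lit 173) (nat_lit 1) (nat_lit 6) (nat_lit 9) L333 (by decide +kernel)
theorem L335 : W_1 (nat_lit 5) (nat_lit 0x20003e001000080000000000000000000000000000000) (nat_lit 0x0) (nat_lit 0x1380018000e0000000000000000000000000000000000) := T_1 (nat_lit 156) (nat_lit 176) (nat_lit 3) (nat_lit 3) (nat_lit 9) L334 (by decide +kernel)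
theorem L336 : W_1 (nat_lit 6) (nat_lit 0x3e001000080000000000000000000000000000000) (nat_lit 0x0) (nat_lit 0x3380018000e0000004000000000000000000000000000) := T_1 (nat_lit 177) (nat_lit 110) (nat_lit 5) (nat_lit 8) (nat_lit 6) L335 (by decide +kernel)
theorem L337 : W_1 (nat_lit 2) (nat_lit 0x3f001000080000000000000000000000000000000) (nat_lit 0x0) (nat_lit 0x300000000000000004000000000000000000000000000) := D_1 (nat_lit 177) (nat_lit 110) (nat_lit 176) (nat_lit 5) (nat_lit 8) (nat_lit 6) (nat_lit 3) (nat_lit 3) (nat_lit 9) (by decide +kernel)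
theorem L349 : W_1 (nat_lit 2) (nat_lit 0x8003f001040080000000000000000000000000000000) (nat_lit 0x0) (nat_lit 0x100000800020000000000000000000000000000000000) := D_1 (nat_lit 155) (nat_lit 137) (nat_lit 176) (nat_lit 0) (nat_lit 5) (nat_lit 9) (nat_lit 3) (nat_lit 2) (nat_lit 9) (by decide +kernel)
theorem L350 : W_1 (nat_lit 3) (nat_lit 0x3f001040080000000000000000000000000000000) (nat_lit 0x0) (nat_lit 0x1c0000800020000000000000000000000000000000000) := T_1 (nat_lit 175) (nat_lit 174) (nat_lit 1) (nat_lit 8) (nat_lit 9) L349 (by decide +kernel)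
theorem L351 : W_1 (nat_lit 4) (nat_lit 0x3f001000080000000000000000000000000000000) (nat_lit 0x0) (nat_lit 0x1c00008000e0000000000000000000000000000000000) := T_1 (nat_lit 138) (nat_lit 139) (nat_lit 0) (nat_lit 6) (nat_lit 9) L350 (by decide +kernel)
theorem L354 : W_1 (nat_lit 2) (nat_lit 0x3e001000080000000000000000000000000000000) (nat_lit 0x0) (nat_lit 0x380000000000000000000000000000000000) := D_1 (nat_lit 140) (nat_lit 141) (nat_lit 139) (nat_lit 0) (nat_lit 8) (nat_lit 9) (nat_lit 0) (nat_lit 7) (nat_lit 9) (by decide +kernel)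
theorem L355 : W_1 (nat_lit 2) (nat_lit 0x20003f801200080000000000000000000000000000000) (nat_lit 0x0) (nat_lit 0x38000000000000000000000000000000000000000000) := D_1 (nat_lit 172) (nat_lit 171) (nat_lit 173) (nat_lit 1) (nat_lit 5) (nat_lit 9) (nat_lit 1) (nat_lit 6) (nat_lit 9) (by decide +kernel)
theorem L356 : W_1 (nat_lit 3) (nat_lit 0x20003f001200080000000000000000000000000000000) (nat_lit 0x0) (nat_lit 0x38000800400000000000000000000000000000000000) := T_1 (nat_lit 155) (nat_lit 142) (nat_lit 2) (nat_lit 2) (nat_lit 9) L355 (by decide +kernel)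
theorem L357 : W_1 (nat_lit 4) (nat_lit 0x20003e001200080000000000000000000000000000000) (nat_lit 0x0) (nat_lit 0x138001800400000000000000000000000000000000000) := T_1 (nat_lit 156) (nat_lit 176) (nat_lit 3) (nat_lit 3) (nat_lit 9) L356 (by decide +kernel)
theorem L358 : W_1 (nat_lit 5) (nat_lit 0x3e001200080000000000000000000000000000000) (nat_lit 0x0) (nat_lit 0x338001800400000004000000000000000000000000000) := T_1 (nat_lit 177) (nat_lit 110) (nat_lit 5) (nat_lit 8) (nat_lit 6) L357 (by decide +kernel)
theorem L359 : W_1 (nat_lit 6) (nat_lit 0x3e001000080000000000000000000000000000000) (nat_lit 0x0) (nat_lit 0x338001800700000004000000000000000000000000000) := T_1 (nat_lit 141) (nat_lit 140) (nat_lit 0) (nat_lit 8) (nat_lit 9) L358 (by decide +kernel)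
theorem L368 : W_1 (nat_lit 2) (nat_lit 0x200000000880078001200080000000000000000000000000000000) (nat_lit 0x0) (nat_lit 0x40004000100000000000000000000000000000000000) := D_1 (nat_lit 158) (nat_lit 174) (nat_lit 140) (nat_lit 1) (nat_lit 8) (nat_lit 9) (nat_lit 0) (nat_lit 8) (nat_lit 9) (by decide +kernel)
theorem L369 : W_1 (nat_lit 3) (nat_lit 0x200000000880078001000080000000000000000000000000000000) (nat_lit 0x0) (nat_lit 0x40004000700000000000000000000000000000000000) := T_1 (nat_lit 141) (nat_lit 142) (nat_lit 0) (nat_lit 9) (nat_lit 9) L368 (by decide +kernel)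
theorem L370 : W_1 (nat_lit 4) (nat_lit 0x200000000800078001000080000000000000000000000000000000) (nat_lit 0x0) (nat_lit 0x1c0004000700000000000000000000000000000000000) := T_1 (nat_lit 175) (nat_lit 176) (nat_lit 1) (nat_lit 9) (nat_lit 9) L369 (by decide +kernel)
theorem L371 : W_1 (nat_lit 5) (nat_lit 0x200000000800070001000080000000000000000000000000000000) (nat_lit 0x0) (nat_lit 0x11c000c000700000000000000000000000000000000000) := T_1 (nat_lit 159) (nat_lit 180) (nat_lit 3) (nat_lit 6) (nat_lit 9) L370 (by decide +kernel)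
theorem L372 : W_1 (nat_lit 6) (nat_lit 0x800070001000080000000000000000000000000000000) (nat_lit 0x0) (nat_lit 0x2000100011c000c000700000000000000000000000000000000000) := T_1 (nat_lit 213) (nat_lit 196) (nat_lit 4) (nat_lit 9) (nat_lit 12) L371 (by decide +kernel)
theorem L373 : W_1 (nat_lit 7) (nat_lit 0x70001000080000000000000000000000000000000) (nat_lit 0x0) (nat_lit 0x2000100019c000c000700000004000000000000000000000000000) := T_1 (nat_lit 179) (nat_lit 110) (nat_lit 7) (nat_lit 8) (nat_lit 6) L372 (by decide +kernel)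
theorem L374 : W_1 (nat_lit 2) (nat_lit 0x11000f8009000080000000000000000000000000000000) (nat_lit 0x0) (nat_lit 0x100010800000000000000000000000000000000000) := D_1 (nat_lit 164) (nat_lit 143) (nat_lit 148) (nat_lit 0) (nat_lit 11) (nat_lit 9) (nat_lit 2) (nat_lit 8) (nat_lit 9) (by decide +kernel)
theorem L375 : W_1 (nat_lit 3) (nat_lit 0x11000f8001000080000000000000000000000000000000) (nat_lit 0x0) (nat_lit 0x10001c800000000000000000000000000000000000) := T_1 (nat_lit 147) (nat_lit 146) (nat_lit 2) (nat_lit 7) (nat_lit 9) L374 (by decide +kernel)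
theorem L376 : W_1 (nat_lit 4) (nat_lit 0x10000f8001000080000000000000000000000000000000) (nat_lit 0x0) (nat_lit 0x18010001c800000000000000000000000000000000000) := T_1 (nat_lit 176) (nat_lit 175) (nat_lit 1) (nat_lit 9) (nat_lit 9) L375 (by decide +kernel)
theorem L377 : W_1 (nat_lit 5) (nat_lit 0x10000f0001000080000000000000000000000000000000) (nat_lit 0x0) (nat_lit 0x98010801c800000000000000000000000000000000000) := T_1 (nat_lit 159) (nat_lit 179) (nat_lit 3) (nat_lit 6) (nat_lit 9) L376 (by decide +kernel)
theorem L378 : W_1 (nat_lit 6) (nat_lit 0xf0001000080000000000000000000000000000000) (nat_lit 0x0) (nat_lit 0x398010801c800000000000000000000000000000000000) := T_1 (nat_lit 180) (nat_lit 181) (nat_lit 3) (nat_lit 7) (nat_lit 9) L377 (by decide +kernel)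
theorem L379 : W_1 (nat_lit 2) (nat_lit 0x10800f8001200080000000000000000000000000000000) (nat_lit 0x0) (nat_lit 0x40004000100000000000000000000000000000000000) := D_1 (nat_lit 158) (nat_lit 174) (nat_lit 140) (nat_lit 1) (nat_lit 8) (nat_lit 9) (nat_lit 0) (nat_lit 8) (nat_lit 9) (by decide +kernel)
theorem L380 : W_1 (nat_lit 3) (nat_lit 0x10800f8001000080000000000000000000000000000000) (nat_lit 0x0) (nat_lit 0x40004000700000000000000000000000000000000000) := T_1 (nat_lit 141) (nat_lit 142) (nat_lit 0) (nat_lit 9) (nat_lit 9) L379 (by decide +kernel)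
theorem L381 : W_1 (nat_lit 4) (nat_lit 0x10000f8001000080000000000000000000000000000000) (nat_lit 0x0) (nat_lit 0x1c0004000700000000000000000000000000000000000) := T_1 (nat_lit 175) (nat_lit 176) (nat_lit 1) (nat_lit 9) (nat_lit 9) L380 (by decide +kernel)
theorem L382 : W_1 (nat_lit 5) (nat_lit 0x10000f0001000080000000000000000000000000000000) (nat_lit 0x0) (nat_lit 0x9c000c000700000000000000000000000000000000000) := T_1 (nat_lit 159) (nat_lit 179) (nat_lit 3) (nat_lit 6) (nat_lit 9) L381 (by decide +kernel)
theorem L383 : W_1 (nat_lit 6) (nat_lit 0xf0001000080000000000000000000000000000000) (nat_lit 0x0) (nat_lit 0x39c000c000700000000000000000000000000000000000) := T_1 (nat_lit 180) (nat_lit 181) (nat_lit 3) (nat_lit 7) (nat_lit 9) L382 (by decide +kernel)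
theorem L384 : W_1 (nat_lit 2) (nat_lit 0xf0001000080000000000000000000000000000000) (nat_lit 0x0) (nat_lit 0x100000c00000000000000000000000000000000000) := D_1 (nat_lit 143) (nat_lit 142) (nat_lit 164) (nat_lit 0) (nat_lit 10) (nat_lit 9) (nat_lit 0) (nat_lit 11) (nat_lit 9) (by decide +kernel)
theorem L386 : W_1 (nat_lit 2) (nat_lit 0x10000f000580028002c000000000000000000000000000) (nat_lit 0x0) (nat_lit 0x40010001000000000000000000000000) := D_1 (nat_lit 112) (nat_lit 96) (nat_lit 126) (nat_lit 6) (nat_lit 10) (nat_lit 9) (nat_lit 1) (nat_lit 11) (nat_lit 6) (by decide +kernel)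
theorem L387 : W_1 (nat_lit 3) (nat_lit 0x10000f000580028000c000000000000000000000000000) (nat_lit 0x0) (nat_lit 0x440030001000000000000000000000000) := T_1 (nat_lit 113) (nat_lit 130) (nat_lit 6) (nat_lit 10) (nat_lit 10) L386 (by decide +kernel)
theorem L388 : W_1 (nat_lit 4) (nat_lit 0x10000f000580008000c000000000000000000000000000) (nat_lit 0x0) (nat_lit 0x740030001000000000000000000000000) := T_1 (nat_lit 129) (nat_lit 128) (nat_lit 4) (nat_lit 10) (nat_lit 10) L387 (by decide +kernel)
theorem L395 : W_1 (nat_lit 2) (nat_lit 0x70001800080000000000000000000000000000000) (nat_lit 0x0) (nat_lit 0x180000400000000000000000000000000000000000) := D_1 (nat_lit 163) (nat_lit 142) (nat_lit 164) (nat_lit 0) (nat_lit 10) (nat_lit 9) (nat_lit 0) (nat_lit 11) (nat_lit 9) (by decide +kernel)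
theorem L422 : W_1 (nat_lit 2) (nat_lit 0x7000180008000c000000000000000000000000000) (nat_lit 0x0) (nat_lit 0x80000600000000000000000000000000000000000) := D_1 (nat_lit 142) (nat_lit 141) (nat_lit 163) (nat_lit 3) (nat_lit 5) (nat_lit 8) (nat_lit 0) (nat_lit 10) (nat_lit 9) (by decide +kernel)
theorem L423 : W_1 (nat_lit 3) (nat_lit 0x7000100008000c000000000000000000000000000) (nat_lit 0x0) (nat_lit 0x80000e00000000000200000000000000000000000) := T_1 (nat_lit 143) (nat_lit 93) (nat_lit 5) (nat_lit 8) (nat_lit 5) L422 (by decide +kernel)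
theorem L424 : W_1 (nat_lit 4) (nat_lit 0x70001000080004000000000000000000000000000) (nat_lit 0x0) (nat_lit 0x80000e00000008000600000000000000000000000) := T_1 (nat_lit 111) (nat_lit 94) (nat_lit 6) (nat_lit 8) (nat_lit 9) L423 (by decide +kernel)
theorem L425 : W_1 (nat_lit 5) (nat_lit 0x70001000080000000000000000000000000000000) (nat_lit 0x0) (nat_lit 0x800080000e0000000c000600000000000000000000000) := T_1 (nat_lit 110) (nat_lit 179) (nat_lit 7) (nat_lit 8) (nat_lit 6) L424 (by decide +kernel)
theorem L428 : W_1 (nat_lit 2) (nat_lit 0x4000c000380018000c0000000000000000000000000000000) (nat_lit 0x0) (nat_lit 0x3000040000000000000000000000000000000000000000) := D_1 (nat_lit 180) (nat_lit 181) (nat_lit 162) (nat_lit 0) (nat_lit 11) (nat_lit 10) (nat_lit 3) (nat_lit 6) (nat_lit 9) (by decide +kernel)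
theorem L429 : W_1 (nat_lit 3) (nat_lit 0x4000c000300018000c0000000000000000000000000000000) (nat_lit 0x0) (nat_lit 0x300004c000000000000000000000000000000000000000) := T_1 (nat_lit 159) (nat_lit 158) (nat_lit 3) (nat_lit 5) (nat_lit 9) L428 (by decide +kernel)
theorem L430 : W_1 (nat_lit 4) (nat_lit 0x40004000300018000c0000000000000000000000000000000) (nat_lit 0x0) (nat_lit 0x1000380004c000000000000000000000000000000000000000) := T_1 (nat_lit 179) (nat_lit 196) (nat_lit 7) (nat_lit 8) (nat_lit 7) L429 (by decide +kernel)
theorem L431 : W_1 (nat_lit 5) (nat_lit 0x4000300018000c0000000000000000000000000000000) (nat_lit 0x0) (nat_lit 0x14003a0004c000000000000000000000000000000000000000) := T_1 (nat_lit 194) (nat_lit 177) (nat_lit 6) (nat_lit 7) (nat_lit 11) L430 (by decide +kernel)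
theorem L432 : W_1 (nat_lit 6) (nat_lit 0x400030001800080000000000000000000000000000000) (nat_lit 0x0) (nat_lit 0x14003a0004c000000040002000000000000000000000000000) := T_1 (nat_lit 126) (nat_lit 109) (nat_lit 7) (nat_lit 7) (nat_lit 6) L431 (by decide +kernel)
theorem L433 : W_1 (nat_lit 2) (nat_lit 0x20001e000b4001800080000000000000000000000000000000) (nat_lit 0x0) (nat_lit 0x100040000400000000000000000000000000000000000) := D_1 (nat_lit 162) (nat_lit 176) (nat_lit 142) (nat_lit 2) (nat_lit 6) (nat_lit 10) (nat_lit 0) (nat_lit 10) (nat_lit 9) (by decide +kernel)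
theorem L434 : W_1 (nat_lit 3) (nat_lit 0x20001e00034001800080000000000000000000000000000000) (nat_lit 0x0) (nat_lit 0x1001c0000400000000000000000000000000000000000) := T_1 (nat_lit 163) (nat_lit 164) (nat_lit 2) (nat_lit 7) (nat_lit 10) L433 (by decide +kernel)
theorem L435 : W_1 (nat_lit 4) (nat_lit 0x1e00034001800080000000000000000000000000000000) (nat_lit 0x0) (nat_lit 0x600001001c0000400000000000000000000000000000000000) := T_1 (nat_lit 197) (nat_lit 198) (nat_lit 3) (nat_lit 7) (nat_lit 10) L434 (by decide +kernel)
theorem L436 : W_1 (nat_lit 5) (nat_lit 0x1c00034001800080000000000000000000000000000000) (nat_lit 0x0) (nat_lit 0x640003001c0000400000000000000000000000000000000000) := T_1 (nat_lit 177) (nat_lit 194) (nat_lit 6) (nat_lit 7) (nat_lit 11) L435 (by decide +kernel)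
theorem L437 : W_1 (nat_lit 6) (nat_lit 0xc00034001800080000000000000000000000000000000) (nat_lit 0x0) (nat_lit 0x640033001c0000400000000000000000000000000000000000) := T_1 (nat_lit 180) (nat_lit 181) (nat_lit 0) (nat_lit 11) (nat_lit 10) L436 (by decide +kernel)
theorem L438 : W_1 (nat_lit 7) (nat_lit 0xc00030001800080000000000000000000000000000000) (nat_lit 0x0) (nat_lit 0x640033001cc000400000000000000000000000000000000000) := T_1 (nat_lit 158) (nat_lit 159) (nat_lit 3) (nat_lit 5) (nat_lit 9) L437 (by decide +kernel)
theorem L439 : W_1 (nat_lit 8) (nat_lit 0x400030001800080000000000000000000000000000000) (nat_lit 0x0) (nat_lit 0x74003b001cc000400000000000000000000000000000000000) := T_1 (nat_lit 179) (nat_lit 196) (nat_lit 7) (nat_lit 8) (nat_lit 7) L438 (by decide +kernel)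
theorem L448 : W_1 (nat_lit 2) (nat_lit 0x7000300018000e8000000000000000000000000000000) (nat_lit 0x0) (nat_lit 0xc0040000000000000000000000000000000000000000) := D_1 (nat_lit 175) (nat_lit 162) (nat_lit 174) (nat_lit 2) (nat_lit 5) (nat_lit 10) (nat_lit 2) (nat_lit 4) (nat_lit 10) (by decide +kernel)
theorem L449 : W_1 (nat_lit 3) (nat_lit 0x6000300018000e8000000000000000000000000000000) (nat_lit 0x0) (nat_lit 0x20001c0040000000000000000000000000000000000000000) := T_1 (nat_lit 176) (nat_lit 193) (nat_lit 5) (nat_lit 7) (nat_lit 7) L448 (by decide +kernel)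
theorem L450 : W_1 (nat_lit 4) (nat_lit 0x6000300018000e0000000000000000000000000000000) (nat_lit 0x0) (nat_lit 0x20001c0040000000018000000000000000000000000000000) := T_1 (nat_lit 123) (nat_lit 124) (nat_lit 3) (nat_lit 4) (nat_lit 7) L449 (by decide +kernel)
theorem L451 : W_1 (nat_lit 5) (nat_lit 0x6000300018000c0000000000000000000000000000000) (nat_lit 0x0) (nat_lit 0x20001c0040000000038001000000000000000000000000000) := T_1 (nat_lit 125) (nat_lit 108) (nat_lit 4) (nat_lit 7) (nat_lit 10) L450 (by decide +kernel)
theorem L452 : W_1 (nat_lit 6) (nat_lit 0x4000300018000c0000000000000000000000000000000) (nat_lit 0x0) (nat_lit 0x60003c0040000000038001000000000000000000000000000) := T_1 (nat_lit 177) (nat_lit 194) (nat_lit 6) (nat_lit 7) (nat_lit 11) L451 (by decide +kernel)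
theorem L453 : W_1 (nat_lit 7) (nat_lit 0x400030001800080000000000000000000000000000000) (nat_lit 0x0) (nat_lit 0x60003c0040000000078003000000000000000000000000000) := T_1 (nat_lit 126) (nat_lit 109) (nat_lit 7) (nat_lit 7) (nat_lit 6) L452 (by decide +kernel)
theorem L454 : W_1 (nat_lit 2) (nat_lit 0xc00038001800080002000000000000000000000000000) (nat_lit 0x0) (nat_lit 0x3000040000000000000000000000000000000000000000) := D_1 (nat_lit 180) (nat_lit 181) (nat_lit 162) (nat_lit 0) (nat_lit 11) (nat_lit 10) (nat_lit 3) (nat_lit 6) (nat_lit 9) (by decide +kernel)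
theorem L455 : W_1 (nat_lit 3) (nat_lit 0xc00030001800080002000000000000000000000000000) (nat_lit 0x0) (nat_lit 0x300004c000000000000000000000000000000000000000) := T_1 (nat_lit 159) (nat_lit 158) (nat_lit 3) (nat_lit 5) (nat_lit 9) L454 (by decide +kernel)
theorem L456 : W_1 (nat_lit 4) (nat_lit 0x400030001800080002000000000000000000000000000) (nat_lit 0x0) (nat_lit 0x1000380004c000000000000000000000000000000000000000) := T_1 (nat_lit 179) (nat_lit 196) (nat_lit 7) (nat_lit 8) (nat_lit 7) L455 (by decide +kernel)
theorem L457 : W_1 (nat_lit 5) (nat_lit 0x400030001800080000000000000000000000000000000) (nat_lit 0x0) (nat_lit 0x1000380004c000000040002000000000000000000000000000) := T_1 (nat_lit 109) (nat_lit 126) (nat_lit 7) (nat_lit 7) (nat_lit 6) L456 (by decide +kernel)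
theorem L458 : W_1 (nat_lit 2) (nat_lit 0x2f000340018000e8000000000000000000000000000000) (nat_lit 0x0) (nat_lit 0xc0002000000000000000000000000000000000000000) := D_1 (nat_lit 175) (nat_lit 174) (nat_lit 157) (nat_lit 2) (nat_lit 4) (nat_lit 10) (nat_lit 0) (nat_lit 8) (nat_lit 10) (by decide +kernel)
theorem L459 : W_1 (nat_lit 3) (nat_lit 0x2e000340018000e8000000000000000000000000000000) (nat_lit 0x0) (nat_lit 0x20001c0002000000000000000000000000000000000000000) := T_1 (nat_lit 176) (nat_lit 193) (nat_lit 5) (nat_lit 7) (nat_lit 7) L458 (by decide +kernel)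
theorem L460 : W_1 (nat_lit 4) (nat_lit 0x2e000340018000e0000000000000000000000000000000) (nat_lit 0x0) (nat_lit 0x20001c0002000000018000000000000000000000000000000) := T_1 (nat_lit 123) (nat_lit 124) (nat_lit 3) (nat_lit 4) (nat_lit 7) L459 (by decide +kernel)
theorem L461 : W_1 (nat_lit 5) (nat_lit 0x2e000340018000c0000000000000000000000000000000) (nat_lit 0x0) (nat_lit 0x20001c0002000000038001000000000000000000000000000) := T_1 (nat_lit 125) (nat_lit 108) (nat_lit 4) (nat_lit 7) (nat_lit 10) L460 (by decide +kernel)
theorem L468 : W_1 (nat_lit 2) (nat_lit 0x2000f00168001800580000000000000000000000000000000) (nat_lit 0x0) (nat_lit 0x40000001000010000000000000000000000000000000000000000) := D_1 (nat_lit 160) (nat_lit 180) (nat_lit 210) (nat_lit 3) (nat_lit 6) (nat_lit 9) (nat_lit 6) (nat_lit 6) (nat_lit 12) (by decide +kernel)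
theorem L469 : W_1 (nat_lit 3) (nat_lit 0x2000f00160001800580000000000000000000000000000000) (nat_lit 0x0) (nat_lit 0x4000000100001c000000000000000000000000000000000000000) := T_1 (nat_lit 159) (nat_lit 158) (nat_lit 0) (nat_lit 9) (nat_lit 10) L468 (by decide +kernel)
theorem L470 : W_1 (nat_lit 4) (nat_lit 0xf00160001800580000000000000000000000000000000) (nat_lit 0x0) (nat_lit 0x4000300100001c000000000000000000000000000000000000000) := T_1 (nat_lit 193) (nat_lit 192) (nat_lit 1) (nat_lit 9) (nat_lit 10) L469 (by decide +kernel)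
theorem L471 : W_1 (nat_lit 5) (nat_lit 0xe00160001800580000000000000000000000000000000) (nat_lit 0x0) (nat_lit 0x4000300118001c000000000000000000000000000000000000000) := T_1 (nat_lit 176) (nat_lit 175) (nat_lit 2) (nat_lit 5) (nat_lit 10) L470 (by decide +kernel)
theorem L472 : W_1 (nat_lit 6) (nat_lit 0xc00160001800580000000000000000000000000000000) (nat_lit 0x0) (nat_lit 0x4000700138001c000000000000000000000000000000000000000) := T_1 (nat_lit 177) (nat_lit 194) (nat_lit 5) (nat_lit 8) (nat_lit 7) L471 (by decide +kernel)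
theorem L477 : W_1 (nat_lit 2) (nat_lit 0x6800e0001800080000000000000000000000000000000) (nat_lit 0x0) (nat_lit 0x10000600000000000000000000000000000000000) := D_1 (nat_lit 142) (nat_lit 141) (nat_lit 160) (nat_lit 3) (nat_lit 5) (nat_lit 8) (nat_lit 0) (nat_lit 10) (nat_lit 9) (by decide +kernel)
theorem L478 : W_1 (nat_lit 3) (nat_lit 0x680060001800080000000000000000000000000000000) (nat_lit 0x0) (nat_lit 0x190000600000000000000000000000000000000000) := T_1 (nat_lit 163) (nat_lit 164) (nat_lit 1) (nat_lit 11) (nat_lit 9) L477 (by decide +kernel)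
theorem L479 : W_1 (nat_lit 4) (nat_lit 0x600060001800080000000000000000000000000000000) (nat_lit 0x0) (nat_lit 0x180190000600000000000000000000000000000000000) := T_1 (nat_lit 175) (nat_lit 176) (nat_lit 2) (nat_lit 5) (nat_lit 10) L478 (by decide +kernel)
theorem L480 : W_1 (nat_lit 5) (nat_lit 0x400060001800080000000000000000000000000000000) (nat_lit 0x0) (nat_lit 0x4000380190000600000000000000000000000000000000000) := T_1 (nat_lit 177) (nat_lit 194) (nat_lit 5) (nat_lit 8) (nat_lit 7) L479 (by decide +kernel)
theorem L487 : W_1 (nat_lit 2) (nat_lit 0x4000e0001800080000000000000000000000000000000) (nat_lit 0x0) (nat_lit 0x10000600000000000000000000000000000000000) := D_1 (nat_lit 142) (nat_lit 141) (nat_lit 160) (nat_lit 3) (nat_lit 5) (nat_lit 8) (nat_lit 0) (nat_lit 10) (nat_lit 9) (by decide +kernel)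
theorem L488 : W_1 (nat_lit 3) (nat_lit 0x400060001800080000000000000000000000000000000) (nat_lit 0x0) (nat_lit 0x190000600000000000000000000000000000000000) := T_1 (nat_lit 163) (nat_lit 164) (nat_lit 0) (nat_lit 11) (nat_lit 9) L487 (by decide +kernel)
theorem L489 : W_1 (nat_lit 2) (nat_lit 0x2000f00068001a00580000000000000000000000000000000) (nat_lit 0x0) (nat_lit 0x40000001000010000000000000000000000000000000000000000) := D_1 (nat_lit 160) (nat_lit 180) (nat_lit 210) (nat_lit 3) (nat_lit 6) (nat_lit 9) (nat_lit 6) (nat_lit 6) (nat_lit 12) (by decide +kernel)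
theorem L490 : W_1 (nat_lit 3) (nat_lit 0x2000f00060001a00580000000000000000000000000000000) (nat_lit 0x0) (nat_lit 0x4000000100001c000000000000000000000000000000000000000) := T_1 (nat_lit 159) (nat_lit 158) (nat_lit 0) (nat_lit 9) (nat_lit 10) L489 (by decide +kernel)
theorem L491 : W_1 (nat_lit 4) (nat_lit 0xf00060001a00580000000000000000000000000000000) (nat_lit 0x0) (nat_lit 0x4000300100001c000000000000000000000000000000000000000) := T_1 (nat_lit 193) (nat_lit 192) (nat_lit 1) (nat_lit 9) (nat_lit 10) L490 (by decide +kernel)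
theorem L492 : W_1 (nat_lit 5) (nat_lit 0x700060001a00580000000000000000000000000000000) (nat_lit 0x0) (nat_lit 0x4001300180001c000000000000000000000000000000000000000) := T_1 (nat_lit 179) (nat_lit 196) (nat_lit 7) (nat_lit 8) (nat_lit 7) L491 (by decide +kernel)
theorem L493 : W_1 (nat_lit 6) (nat_lit 0x700060001a00180000000000000000000000000000000) (nat_lit 0x0) (nat_lit 0x4001300180001c000000600000000000000000000000000000000) := T_1 (nat_lit 130) (nat_lit 129) (nat_lit 1) (nat_lit 11) (nat_lit 7) L492 (by decide +kernel)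
theorem L494 : W_1 (nat_lit 7) (nat_lit 0x700060001800180000000000000000000000000000000) (nat_lit 0x0) (nat_lit 0x4001300180001c000600600000000000000000000000000000000) := T_1 (nat_lit 141) (nat_lit 142) (nat_lit 3) (nat_lit 5) (nat_lit 8) L493 (by decide +kernel)
theorem L495 : W_1 (nat_lit 8) (nat_lit 0x700060001800080000000000000000000000000000000) (nat_lit 0x0) (nat_lit 0x4001300180001c000600700008000000000000000000000000000) := T_1 (nat_lit 128) (nat_lit 111) (nat_lit 6) (nat_lit 8) (nat_lit 10) L494 (by decide +kernel)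
theorem L496 : W_1 (nat_lit 9) (nat_lit 0x600060001800080000000000000000000000000000000) (nat_lit 0x0) (nat_lit 0x4001300198001c000600700008000000000000000000000000000) := T_1 (nat_lit 176) (nat_lit 175) (nat_lit 2) (nat_lit 5) (nat_lit 10) L495 (by decide +kernel)
theorem L497 : W_1 (nat_lit 10) (nat_lit 0x400060001800080000000000000000000000000000000) (nat_lit 0x0) (nat_lit 0x40017001b8001c000600700008000000000000000000000000000) := T_1 (nat_lit 177) (nat_lit 194) (nat_lit 5) (nat_lit 8) (nat_lit 7) L496 (by decide +kernel)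
theorem L499 : W_1 (nat_lit 2) (nat_lit 0xc000200018001c0000000000000000000000000000000) (nat_lit 0x0) (nat_lit 0x600200000000000000000000000000000000) := D_1 (nat_lit 142) (nat_lit 141) (nat_lit 129) (nat_lit 2) (nat_lit 5) (nat_lit 8) (nat_lit 1) (nat_lit 10) (nat_lit 7) (by decide +kernel)
theorem L500 : W_1 (nat_lit 3) (nat_lit 0xc000200018000c0000000000000000000000000000000) (nat_lit 0x0) (nat_lit 0x600300008000000000000000000000000000) := T_1 (nat_lit 128) (nat_lit 111) (nat_lit 6) (nat_lit 8) (nat_lit 10) L499 (by decide +kernel)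
theorem L503 : W_1 (nat_lit 2) (nat_lit 0xe000a00058003c0010000000000000000000000000000) (nat_lit 0x0) (nat_lit 0x3000100000000000000000000000000000000000000000) := D_1 (nat_lit 164) (nat_lit 180) (nat_lit 181) (nat_lit 2) (nat_lit 7) (nat_lit 10) (nat_lit 7) (nat_lit 10) (nat_lit 6) (by decide +kernel)
theorem L504 : W_1 (nat_lit 3) (nat_lit 0xe000200058003c0010000000000000000000000000000) (nat_lit 0x0) (nat_lit 0x30001c0000000000000000000000000000000000000000) := T_1 (nat_lit 163) (nat_lit 162) (nat_lit 5) (nat_lit 10) (nat_lit 6) L503 (by decide +kernel)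
theorem L505 : W_1 (nat_lit 4) (nat_lit 0xe000200018003c0010000000000000000000000000000) (nat_lit 0x0) (nat_lit 0x30001c000c000000000000000000000000000000000000) := T_1 (nat_lit 146) (nat_lit 147) (nat_lit 3) (nat_lit 7) (nat_lit 7) L504 (by decide +kernel)
theorem L506 : W_1 (nat_lit 5) (nat_lit 0xe000200018003c0000000000000000000000000000000) (nat_lit 0x0) (nat_lit 0x30001c000c000000030000000000000000000000000000) := T_1 (nat_lit 112) (nat_lit 113) (nat_lit 2) (nat_lit 7) (nat_lit 7) L505 (by decide +kernel)
theorem L507 : W_1 (nat_lit 6) (nat_lit 0xe000200018001c0000000000000000000000000000000) (nat_lit 0x0) (nat_lit 0x30001c000c000600030000000000000000000000000000) := T_1 (nat_lit 129) (nat_lit 130) (nat_lit 1) (nat_lit 11) (nat_lit 7) L506 (by decide +kernel)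
theorem L508 : W_1 (nat_lit 7) (nat_lit 0xe000200018000c0000000000000000000000000000000) (nat_lit 0x0) (nat_lit 0x30001c000c000700038000000000000000000000000000) := T_1 (nat_lit 128) (nat_lit 111) (nat_lit 6) (nat_lit 8) (nat_lit 10) L507 (by decide +kernel)
theorem L509 : W_1 (nat_lit 8) (nat_lit 0xe00020001800080000000000000000000000000000000) (nat_lit 0x0) (nat_lit 0x30001c000c00074003a000000000000000000000000000) := T_1 (nat_lit 126) (nat_lit 109) (nat_lit 4) (nat_lit 8) (nat_lit 10) L508 (by decide +kernel)
theorem L510 : W_1 (nat_lit 9) (nat_lit 0x600020001800080000000000000000000000000000000) (nat_lit 0x0) (nat_lit 0x100038001c000c00074003a000000000000000000000000000) := T_1 (nat_lit 179) (nat_lit 196) (nat_lit 7) (nat_lit 8) (nat_lit 7) L509 (by decide +kernel)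
theorem L511 : W_1 (nat_lit 10) (nat_lit 0x400020001800080000000000000000000000000000000) (nat_lit 0x0) (nat_lit 0x14003a001c000c00074003a000000000000000000000000000) := T_1 (nat_lit 177) (nat_lit 194) (nat_lit 5) (nat_lit 8) (nat_lit 7) L510 (by decide +kernel)
theorem L512 : W_1 (nat_lit 2) (nat_lit 0x400020001c00180000000000000000000000000000000) (nat_lit 0x0) (nat_lit 0x640000000000000000000000000000000) := D_1 (nat_lit 129) (nat_lit 130) (nat_lit 126) (nat_lit 1) (nat_lit 11) (nat_lit 7) (nat_lit 1) (nat_lit 10) (nat_lit 7) (by decide +kernel)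
theorem L513 : W_1 (nat_lit 3) (nat_lit 0x400020001800180000000000000000000000000000000) (nat_lit 0x0) (nat_lit 0x600640000000000000000000000000000000) := T_1 (nat_lit 142) (nat_lit 141) (nat_lit 2) (nat_lit 5) (nat_lit 8) L512 (by decide +kernel)
theorem L514 : W_1 (nat_lit 4) (nat_lit 0x400020001800080000000000000000000000000000000) (nat_lit 0x0) (nat_lit 0x600740008000000000000000000000000000) := T_1 (nat_lit 128) (nat_lit 111) (nat_lit 6) (nat_lit 8) (nat_lit 10) L513 (by decide +kernel)
theorem L516 : W_1 (nat_lit 7) (nat_lit 0xe000200010001c0000000000000000000000000000000) (nat_lit 0x0) (nat_lit 0x80030001c000c800600030000000000000000000000000000) := T_1 (nat_lit 143) (nat_lit 195) (nat_lit 4) (nat_lit 8) (nat_lit 11) L507 (by decide +kernel)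
theorem L517 : W_1 (nat_lit 8) (nat_lit 0xe00020001000180000000000000000000000000000000) (nat_lit 0x0) (nat_lit 0x80030001c000c800640032000000000000000000000000000) := T_1 (nat_lit 126) (nat_lit 109) (nat_lit 4) (nat_lit 8) (nat_lit 10) L516 (by decide +kernel)
theorem L521 : W_1 (nat_lit 2) (nat_lit 0x8000c000200010000c0000000000000000000000000000000) (nat_lit 0x0) (nat_lit 0x80004000200000000000000000000000000000000000000000000) := D_1 (nat_lit 194) (nat_lit 177) (nat_lit 211) (nat_lit 5) (nat_lit 8) (nat_lit 7) (nat_lit 5) (nat_lit 8) (nat_lit 8) (by decide +kernel)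
theorem L522 : W_1 (nat_lit 3) (nat_lit 0xc000200010000c0000000000000000000000000000000) (nat_lit 0x0) (nat_lit 0x8000c000200000000800000000000000000000000000000000000) := T_1 (nat_lit 195) (nat_lit 143) (nat_lit 4) (nat_lit 8) (nat_lit 11) L521 (by decide +kernel)
theorem L523 : W_1 (nat_lit 4) (nat_lit 0x4000200010000c0000000000000000000000000000000) (nat_lit 0x0) (nat_lit 0x8001c000a00000000800000000000000000000000000000000000) := T_1 (nat_lit 179) (nat_lit 196) (nat_lit 7) (nat_lit 8) (nat_lit 7) L522 (by decide +kernel)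
theorem L524 : W_1 (nat_lit 5) (nat_lit 0x400020001000080000000000000000000000000000000) (nat_lit 0x0) (nat_lit 0x8001c000a00000000800040002000000000000000000000000000) := T_1 (nat_lit 126) (nat_lit 109) (nat_lit 4) (nat_lit 8) (nat_lit 10) L523 (by decide +kernel)
theorem L525 : W_1 (nat_lit 2) (nat_lit 0x14000400020001000080000000000000000000000000000000) (nat_lit 0x0) (nat_lit 0x280008000000000000000000000000000000000000000000000000) := D_1 (nat_lit 195) (nat_lit 211) (nat_lit 213) (nat_lit 5) (nat_lit 8) (nat_lit 8) (nat_lit 7) (nat_lit 8) (nat_lit 8) (by decide +kernel)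
theorem L526 : W_1 (nat_lit 3) (nat_lit 0x4000400020001000080000000000000000000000000000000) (nat_lit 0x0) (nat_lit 0x280018000800000000000000000000000000000000000000000000) := T_1 (nat_lit 196) (nat_lit 179) (nat_lit 7) (nat_lit 8) (nat_lit 7) L525 (by decide +kernel)
theorem L527 : W_1 (nat_lit 4) (nat_lit 0x400020001000080000000000000000000000000000000) (nat_lit 0x0) (nat_lit 0x28001c000a00000000000000000000000000000000000000000000) := T_1 (nat_lit 194) (nat_lit 177) (nat_lit 5) (nat_lit 8) (nat_lit 7) L526 (by decide +kernel)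
theorem L528 : W_1 (nat_lit 2) (nat_lit 0x10003000080006000200010001c0000000000000000000000000000000) (nat_lit 0x0) (nat_lit 0x20002000000000000000010000000000000000000000000000000000000000) := D_1 (nat_lit 229) (nat_lit 160) (nat_lit 245) (nat_lit 4) (nat_lit 8) (nat_lit 13) (nat_lit 5) (nat_lit 8) (nat_lit 10) (by decide +kernel)
theorem L529 : W_1 (nat_lit 3) (nat_lit 0x3000080006000200010001c0000000000000000000000000000000) (nat_lit 0x0) (nat_lit 0x20003000080000000000010000000000000000000000000000000000000000) := T_1 (nat_lit 228) (nat_lit 211) (nat_lit 5) (nat_lit 8) (nat_lit 9) L528 (by decide +kernel)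
theorem L530 : W_1 (nat_lit 4) (nat_lit 0x2000080006000200010001c0000000000000000000000000000000) (nat_lit 0x0) (nat_lit 0x20007000180000000000010000000000000000000000000000000000000000) := T_1 (nat_lit 212) (nat_lit 230) (nat_lit 7) (nat_lit 8) (nat_lit 9) L529 (by decide +kernel)
theorem L531 : W_1 (nat_lit 5) (nat_lit 0x80006000200010001c0000000000000000000000000000000) (nat_lit 0x0) (nat_lit 0x20007000380010000000010000000000000000000000000000000000000000) := T_1 (nat_lit 213) (nat_lit 196) (nat_lit 7) (nat_lit 8) (nat_lit 8) L530 (by decide +kernel)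
theorem L532 : W_1 (nat_lit 6) (nat_lit 0x6000200010001c0000000000000000000000000000000) (nat_lit 0x0) (nat_lit 0x20007000380018000000010000800000000000000000000000000000000000) := T_1 (nat_lit 195) (nat_lit 143) (nat_lit 4) (nat_lit 8) (nat_lit 11) L531 (by decide +kernel)
theorem L533 : W_1 (nat_lit 7) (nat_lit 0x6000200010000c0000000000000000000000000000000) (nat_lit 0x0) (nat_lit 0x20007000380018000000010000800100008000000000000000000000000000) := T_1 (nat_lit 128) (nat_lit 111) (nat_lit 6) (nat_lit 8) (nat_lit 10) L532 (by decide +kernel)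
theorem L534 : W_1 (nat_lit 8) (nat_lit 0x600020001000080000000000000000000000000000000) (nat_lit 0x0) (nat_lit 0x2000700038001800000001000080014000a000000000000000000000000000) := T_1 (nat_lit 126) (nat_lit 109) (nat_lit 4) (nat_lit 8) (nat_lit 10) L533 (by decide +kernel)
theorem L536 : W_1 (nat_lit 2) (nat_lit 0x2000180008000c000200010001c0000000000000000000000000000000) (nat_lit 0x0) (nat_lit 0x80004000200000000000000000000000000000000000000000000000000000) := D_1 (nat_lit 230) (nat_lit 213) (nat_lit 247) (nat_lit 7) (nat_lit 8) (nat_lit 9) (nat_lit 7) (nat_lit 8) (nat_lit 10) (by decide +kernel)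
theorem L537 : W_1 (nat_lit 3) (nat_lit 0x180008000c000200010001c0000000000000000000000000000000) (nat_lit 0x0) (nat_lit 0x80006000200000000000040000000000000000000000000000000000000000) := T_1 (nat_lit 229) (nat_lit 162) (nat_lit 6) (nat_lit 8) (nat_lit 13) L536 (by decide +kernel)
theorem L538 : W_1 (nat_lit 4) (nat_lit 0x80008000c000200010001c0000000000000000000000000000000) (nat_lit 0x0) (nat_lit 0x80007000300000000000040000000000000000000000000000000000000000) := T_1 (nat_lit 212) (nat_lit 228) (nat_lit 5) (nat_lit 8) (nat_lit 9) L537 (by decide +kernel)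
theorem L539 : W_1 (nat_lit 5) (nat_lit 0x8000c000200010001c0000000000000000000000000000000) (nat_lit 0x0) (nat_lit 0x80007000380004000000040000000000000000000000000000000000000000) := T_1 (nat_lit 211) (nat_lit 194) (nat_lit 5) (nat_lit 8) (nat_lit 8) L538 (by decide +kernel)
theorem L540 : W_1 (nat_lit 6) (nat_lit 0x8000c000200010000c0000000000000000000000000000000) (nat_lit 0x0) (nat_lit 0x80007000380004000000040000000100008000000000000000000000000000) := T_1 (nat_lit 128) (nat_lit 111) (nat_lit 6) (nat_lit 8) (nat_lit 10) L539 (by decide +kernel)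
theorem L541 : W_1 (nat_lit 7) (nat_lit 0xc000200010000c0000000000000000000000000000000) (nat_lit 0x0) (nat_lit 0x8000700038000c000000040000800100008000000000000000000000000000) := T_1 (nat_lit 195) (nat_lit 143) (nat_lit 4) (nat_lit 8) (nat_lit 11) L540 (by decide +kernel)
theorem L542 : W_1 (nat_lit 8) (nat_lit 0x4000200010000c0000000000000000000000000000000) (nat_lit 0x0) (nat_lit 0x8000700038001c000800040000800100008000000000000000000000000000) := T_1 (nat_lit 179) (nat_lit 196) (nat_lit 7) (nat_lit 8) (nat_lit 7) L541 (by decide +kernel)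
theorem L543 : W_1 (nat_lit 9) (nat_lit 0x400020001000080000000000000000000000000000000) (nat_lit 0x0) (nat_lit 0x8000700038001c00080004000080014000a000000000000000000000000000) := T_1 (nat_lit 126) (nat_lit 109) (nat_lit 4) (nat_lit 8) (nat_lit 10) L542 (by decide +kernel)
theorem L544 : W_1 (nat_lit 2) (nat_lit 0x6000200018001c0000000000000000000000000000000) (nat_lit 0x0) (nat_lit 0x600200000000000000000000000000000000) := D_1 (nat_lit 142) (nat_lit 141) (nat_lit 129) (nat_lit 2) (nat_lit 5) (nat_lit 8) (nat_lit 1) (nat_lit 10) (nat_lit 7) (by decide +kernel)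
theorem L554 : W_1 (nat_lit 2) (nat_lit 0xc000200010000c0004000000000000000000000000000) (nat_lit 0x0) (nat_lit 0x4000200010000000000000000000000000000000000000000) := D_1 (nat_lit 177) (nat_lit 194) (nat_lit 160) (nat_lit 5) (nat_lit 8) (nat_lit 7) (nat_lit 5) (nat_lit 8) (nat_lit 6) (by decide +kernel)
theorem L555 : W_1 (nat_lit 3) (nat_lit 0xc000200010000c0000000000000000000000000000000) (nat_lit 0x0) (nat_lit 0x4000200050000000000004000000000000000000000000000) := T_1 (nat_lit 110) (nat_lit 162) (nat_lit 7) (nat_lit 8) (nat_lit 6) L554 (by decide +kernel)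
theorem L556 : W_1 (nat_lit 4) (nat_lit 0x4000200010000c0000000000000000000000000000000) (nat_lit 0x0) (nat_lit 0x14000a00050000000000004000000000000000000000000000) := T_1 (nat_lit 179) (nat_lit 196) (nat_lit 7) (nat_lit 8) (nat_lit 7) L555 (by decide +kernel)
theorem L557 : W_1 (nat_lit 5) (nat_lit 0x400020001000080000000000000000000000000000000) (nat_lit 0x0) (nat_lit 0x14000a00050000000040006000000000000000000000000000) := T_1 (nat_lit 126) (nat_lit 109) (nat_lit 4) (nat_lit 8) (nat_lit 10) L556 (by decide +kernel)
theorem L573 : W_1 (nat_lit 2) (nat_lit 0x600020001000080004000000000000000000000000000) (nat_lit 0x0) (nat_lit 0x10000800040000000000000000000000000000000000000000) := D_1 (nat_lit 179) (nat_lit 196) (nat_lit 162) (nat_lit 7) (nat_lit 8) (nat_lit 7) (nat_lit 7) (nat_lit 8) (nat_lit 6) (by decide +kernel)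
theorem L574 : W_1 (nat_lit 3) (nat_lit 0x600020001000080000000000000000000000000000000) (nat_lit 0x0) (nat_lit 0x10000800050000000000004000000000000000000000000000) := T_1 (nat_lit 110) (nat_lit 160) (nat_lit 5) (nat_lit 8) (nat_lit 6) L573 (by decide +kernel)
theorem L575 : W_1 (nat_lit 4) (nat_lit 0x400020001000080000000000000000000000000000000) (nat_lit 0x0) (nat_lit 0x14000a00050000000000004000000000000000000000000000) := T_1 (nat_lit 177) (nat_lit 194) (nat_lit 5) (nat_lit 8) (nat_lit 7) L574 (by decide +kernel)
theorem L576 : W_1 (nat_lit 2) (nat_lit 0x600020001000080004000000000000000000000000000) (nat_lit 0x0) (nat_lit 0x100008000400000000000000000000000) := D_1 (nat_lit 111) (nat_lit 128) (nat_lit 94) (nat_lit 6) (nat_lit 8) (nat_lit 10) (nat_lit 6) (nat_lit 8) (nat_lit 9) (by decide +kernel)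
theorem L577 : W_1 (nat_lit 3) (nat_lit 0x600020001000080000000000000000000000000000000) (nat_lit 0x0) (nat_lit 0x1000000010000c000400000000000000000000000) := T_1 (nat_lit 110) (nat_lit 160) (nat_lit 5) (nat_lit 8) (nat_lit 6) L576 (by decide +kernel)
theorem L578 : W_1 (nat_lit 4) (nat_lit 0x400020001000080000000000000000000000000000000) (nat_lit 0x0) (nat_lit 0x400020001000000010000c000400000000000000000000000) := T_1 (nat_lit 177) (nat_lit 194) (nat_lit 5) (nat_lit 8) (nat_lit 7) L577 (by decide +kernel)
theorem L579 : W_1 (nat_lit 2) (nat_lit 0xc00020001000080008000000000000000000000000000) (nat_lit 0x0) (nat_lit 0x40000000000004000400000000000000000000000) := D_1 (nat_lit 110) (nat_lit 162) (nat_lit 94) (nat_lit 7) (nat_lit 8) (nat_lit 6) (nat_lit 6) (nat_lit 8) (nat_lit 9) (by decide +kernel)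
theorem L580 : W_1 (nat_lit 3) (nat_lit 0x400020001000080008000000000000000000000000000) (nat_lit 0x0) (nat_lit 0x10000800040000000000004000400000000000000000000000) := T_1 (nat_lit 179) (nat_lit 196) (nat_lit 7) (nat_lit 8) (nat_lit 7) L579 (by decide +kernel)
theorem L581 : W_1 (nat_lit 4) (nat_lit 0x400020001000080000000000000000000000000000000) (nat_lit 0x0) (nat_lit 0x1000080004000000010000c000400000000000000000000000) := T_1 (nat_lit 111) (nat_lit 128) (nat_lit 6) (nat_lit 8) (nat_lit 10) L580 (by decide +kernel)
theorem L584 : W_1 (nat_lit 2) (nat_lit 0x1000080006000300010000c0000000000000000000000000000000) (nat_lit 0x0) (nat_lit 0x4000200010000000000000000000000000000000000000000000000000) := D_1 (nat_lit 213) (nat_lit 196) (nat_lit 230) (nat_lit 7) (nat_lit 8) (nat_lit 8) (nat_lit 7) (nat_lit 8) (nat_lit 9) (by decide +kernel)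
theorem L585 : W_1 (nat_lit 3) (nat_lit 0x80006000300010000c0000000000000000000000000000000) (nat_lit 0x0) (nat_lit 0x6000300010000000000000000000000000000000000000000000000000) := T_1 (nat_lit 212) (nat_lit 229) (nat_lit 4) (nat_lit 8) (nat_lit 13) L584 (by decide +kernel)
theorem L586 : W_1 (nat_lit 4) (nat_lit 0x6000300010000c0000000000000000000000000000000) (nat_lit 0x0) (nat_lit 0x6000300018000000000000800000000000000000000000000000000000) := T_1 (nat_lit 195) (nat_lit 143) (nat_lit 7) (nat_lit 7) (nat_lit 7) L585 (by decide +kernel)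
theorem L587 : W_1 (nat_lit 5) (nat_lit 0x6000200010000c0000000000000000000000000000000) (nat_lit 0x0) (nat_lit 0x6000300018000000010000800000004000000000000000000000000000) := T_1 (nat_lit 160) (nat_lit 110) (nat_lit 5) (nat_lit 8) (nat_lit 6) L586 (by decide +kernel)
theorem L588 : W_1 (nat_lit 6) (nat_lit 0x4000200010000c0000000000000000000000000000000) (nat_lit 0x0) (nat_lit 0x600030001c000200010000800000004000000000000000000000000000) := T_1 (nat_lit 177) (nat_lit 194) (nat_lit 5) (nat_lit 8) (nat_lit 7) L587 (by decide +kernel)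
theorem L589 : W_1 (nat_lit 7) (nat_lit 0x400020001000080000000000000000000000000000000) (nat_lit 0x0) (nat_lit 0x600030001c000200010000800040006000000000000000000000000000) := T_1 (nat_lit 126) (nat_lit 109) (nat_lit 4) (nat_lit 8) (nat_lit 10) L588 (by decide +kernel)
theorem L590 : W_1 (nat_lit 2) (nat_lit 0xc000200018000c0004000000000000000000000000000) (nat_lit 0x0) (nat_lit 0x10000000000000000200010000000000000000000) := D_1 (nat_lit 93) (nat_lit 76) (nat_lit 160) (nat_lit 5) (nat_lit 8) (nat_lit 4) (nat_lit 5) (nat_lit 8) (nat_lit 5) (by decide +kernel)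
theorem L591 : W_1 (nat_lit 3) (nat_lit 0xc000200010000c0004000000000000000000000000000) (nat_lit 0x0) (nat_lit 0x8000000010000800000000000200010000000000000000000) := T_1 (nat_lit 143) (nat_lit 195) (nat_lit 4) (nat_lit 8) (nat_lit 11) L590 (by decide +kernel)
theorem L592 : W_1 (nat_lit 4) (nat_lit 0xc000200010000c0000000000000000000000000000000) (nat_lit 0x0) (nat_lit 0x8000000050000800000004000200010000000000000000000) := T_1 (nat_lit 110) (nat_lit 162) (nat_lit 7) (nat_lit 8) (nat_lit 6) L591 (by decide +kernel)
theorem L593 : W_1 (nat_lit 5) (nat_lit 0x4000200010000c0000000000000000000000000000000) (nat_lit 0x0) (nat_lit 0x18000800050000800000004000200010000000000000000000) := T_1 (nat_lit 179) (nat_lit 196) (nat_lit 7) (nat_lit 8) (nat_lit 7) L592 (by decide +kernel)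
theorem L594 : W_1 (nat_lit 6) (nat_lit 0x400020001000080000000000000000000000000000000) (nat_lit 0x0) (nat_lit 0x18000800050000800040006000200010000000000000000000) := T_1 (nat_lit 126) (nat_lit 109) (nat_lit 4) (nat_lit 8) (nat_lit 10) L593 (by decide +kernel)
theorem L595 : W_1 (nat_lit 6) (nat_lit 0x6000300010000c0000000000000000000000000000000) (nat_lit 0x0) (nat_lit 0xa0001c0040000800038001000000000000000000000000000) := T_1 (nat_lit 143) (nat_lit 195) (nat_lit 7) (nat_lit 7) (nat_lit 7) L451 (by decide +kernel)
theorem L596 : W_1 (nat_lit 7) (nat_lit 0x6000200010000c0000000000000000000000000000000) (nat_lit 0x0) (nat_lit 0xa0001c0050000800038005000000000000000000000000000) := T_1 (nat_lit 160) (nat_lit 110) (nat_lit 5) (nat_lit 8) (nat_lit 6) L595 (by decide +kernel)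
theorem L597 : W_1 (nat_lit 8) (nat_lit 0x4000200010000c0000000000000000000000000000000) (nat_lit 0x0) (nat_lit 0xe0003c0050000800038005000000000000000000000000000) := T_1 (nat_lit 177) (nat_lit 194) (nat_lit 5) (nat_lit 8) (nat_lit 7) L596 (by decide +kernel)
theorem L598 : W_1 (nat_lit 9) (nat_lit 0x400020001000080000000000000000000000000000000) (nat_lit 0x0) (nat_lit 0xe0003c0050000800078007000000000000000000000000000) := T_1 (nat_lit 126) (nat_lit 109) (nat_lit 4) (nat_lit 8) (nat_lit 10) L597 (by decide +kernel)
theorem L600 : W_1 (nat_lit 2) (nat_lit 0x2800080004000200010001c0000000000000000000000000000000) (nat_lit 0x0) (nat_lit 0x5000100000000000000000000000000000000000000000000000000000) := D_1 (nat_lit 212) (nat_lit 228) (nat_lit 230) (nat_lit 5) (nat_lit 8) (nat_lit 9) (nat_lit 7) (nat_lit 8) (nat_lit 9) (by decide +kernel)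
theorem L601 : W_1 (nat_lit 3) (nat_lit 0x800080004000200010001c0000000000000000000000000000000) (nat_lit 0x0) (nat_lit 0x5000300010000000000000000000000000000000000000000000000000) := T_1 (nat_lit 213) (nat_lit 196) (nat_lit 7) (nat_lit 8) (nat_lit 8) L600 (by decide +kernel)
theorem L602 : W_1 (nat_lit 4) (nat_lit 0x80004000200010001c0000000000000000000000000000000) (nat_lit 0x0) (nat_lit 0x5000380014000000000000000000000000000000000000000000000000) := T_1 (nat_lit 211) (nat_lit 194) (nat_lit 5) (nat_lit 8) (nat_lit 8) L601 (by decide +kernel)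
theorem L603 : W_1 (nat_lit 5) (nat_lit 0x4000200010001c0000000000000000000000000000000) (nat_lit 0x0) (nat_lit 0x500038001c000000000000800000000000000000000000000000000000) := T_1 (nat_lit 195) (nat_lit 143) (nat_lit 4) (nat_lit 8) (nat_lit 11) L602 (by decide +kernel)
theorem L604 : W_1 (nat_lit 6) (nat_lit 0x4000200010000c0000000000000000000000000000000) (nat_lit 0x0) (nat_lit 0x500038001c000000000000800100008000000000000000000000000000) := T_1 (nat_lit 128) (nat_lit 111) (nat_lit 6) (nat_lit 8) (nat_lit 10) L603 (by decide +kernel)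
theorem L605 : W_1 (nat_lit 7) (nat_lit 0x400020001000080000000000000000000000000000000) (nat_lit 0x0) (nat_lit 0x500038001c00000000000080014000a000000000000000000000000000) := T_1 (nat_lit 126) (nat_lit 109) (nat_lit 4) (nat_lit 8) (nat_lit 10) L604 (by decide +kernel)
theorem L606 : W_1 (nat_lit 2) (nat_lit 0x4000200018001c0000000000000000000000000000000) (nat_lit 0x0) (nat_lit 0x600200000000000000000000000000000000) := D_1 (nat_lit 142) (nat_lit 141) (nat_lit 129) (nat_lit 2) (nat_lit 5) (nat_lit 8) (nat_lit 1) (nat_lit 10) (nat_lit 7) (by decide +kernel)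
theorem L607 : W_1 (nat_lit 3) (nat_lit 0x4000200010001c0000000000000000000000000000000) (nat_lit 0x0) (nat_lit 0x8000000000000e00200000000000000000000000000000000) := T_1 (nat_lit 143) (nat_lit 195) (nat_lit 4) (nat_lit 8) (nat_lit 11) L606 (by decide +kernel)
theorem L608 : W_1 (nat_lit 4) (nat_lit 0x4000200010000c0000000000000000000000000000000) (nat_lit 0x0) (nat_lit 0x8000000000000e00300008000000000000000000000000000) := T_1 (nat_lit 128) (nat_lit 111) (nat_lit 6) (nat_lit 8) (nat_lit 10) L607 (by decide +kernel)
theorem L609 : W_1 (nat_lit 5) (nat_lit 0x400020001000080000000000000000000000000000000) (nat_lit 0x0) (nat_lit 0x8000000000000e0034000a000000000000000000000000000) := T_1 (nat_lit 126) (nat_lit 109) (nat_lit 4) (nat_lit 8) (nat_lit 10) L608 (by decide +kernel)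
theorem L614 : W_1 (nat_lit 2) (nat_lit 0x40004000600010000c000c000000000000000000000000000) (nat_lit 0x0) (nat_lit 0x80008000000000000800000000000000000000000000000000000) := D_1 (nat_lit 195) (nat_lit 211) (nat_lit 143) (nat_lit 5) (nat_lit 8) (nat_lit 8) (nat_lit 4) (nat_lit 8) (nat_lit 11) (by decide +kernel)
theorem L615 : W_1 (nat_lit 3) (nat_lit 0x400040006000100008000c000000000000000000000000000) (nat_lit 0x0) (nat_lit 0x80008000000000000800040002000000000000000000000000000) := T_1 (nat_lit 126) (nat_lit 109) (nat_lit 4) (nat_lit 8) (nat_lit 10) L614 (by decide +kernel)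
theorem L616 : W_1 (nat_lit 4) (nat_lit 0x40006000100008000c000000000000000000000000000) (nat_lit 0x0) (nat_lit 0x8000c000200000000800040002000000000000000000000000000) := T_1 (nat_lit 194) (nat_lit 177) (nat_lit 5) (nat_lit 8) (nat_lit 7) L615 (by decide +kernel)
theorem L617 : W_1 (nat_lit 5) (nat_lit 0x6000100008000c000000000000000000000000000) (nat_lit 0x0) (nat_lit 0x8000c000600000000800140002000000000000000000000000000) := T_1 (nat_lit 178) (nat_lit 128) (nat_lit 6) (nat_lit 8) (nat_lit 10) L616 (by decide +kernel)
theorem L618 : W_1 (nat_lit 6) (nat_lit 0x60001000080004000000000000000000000000000) (nat_lit 0x0) (nat_lit 0x8000c00060000000080014000a000400000000000000000000000) := T_1 (nat_lit 111) (nat_lit 94) (nat_lit 6) (nat_lit 8) (nat_lit 9) L617 (by decide +kernel)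
theorem L619 : W_1 (nat_lit 7) (nat_lit 0x20001000080004000000000000000000000000000) (nat_lit 0x0) (nat_lit 0x8000c000e0004000080014000a000400000000000000000000000) := T_1 (nat_lit 162) (nat_lit 179) (nat_lit 7) (nat_lit 8) (nat_lit 6) L618 (by decide +kernel)
theorem L629 : W_1 (nat_lit 5) (nat_lit 0x60001000080004000000000000000000000000000) (nat_lit 0x0) (nat_lit 0x200090000e00000008000600000000000000000000000) := T_1 (nat_lit 160) (nat_lit 177) (nat_lit 5) (nat_lit 8) (nat_lit 6) L424 (by decide +kernel)
theorem L630 : W_1 (nat_lit 6) (nat_lit 0x20001000080004000000000000000000000000000) (nat_lit 0x0) (nat_lit 0xa000d0000e00000008000600000000000000000000000) := T_1 (nat_lit 162) (nat_lit 179) (nat_lit 7) (nat_lit 8) (nat_lit 6) L629 (by decide +kernel)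
theorem L631 : W_1 (nat_lit 2) (nat_lit 0x40006000100008000c000000000000000000000000000) (nat_lit 0x0) (nat_lit 0x4000200010000000000000000000000000000000000000000) := D_1 (nat_lit 177) (nat_lit 194) (nat_lit 160) (nat_lit 5) (nat_lit 8) (nat_lit 7) (nat_lit 5) (nat_lit 8) (nat_lit 6) (by decide +kernel)
theorem L632 : W_1 (nat_lit 3) (nat_lit 0x6000100008000c000000000000000000000000000) (nat_lit 0x0) (nat_lit 0x4000600010000000100000000000000000000000000000000) := T_1 (nat_lit 178) (nat_lit 128) (nat_lit 6) (nat_lit 8) (nat_lit 10) L631 (by decide +kernel)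
theorem L633 : W_1 (nat_lit 4) (nat_lit 0x2000100008000c000000000000000000000000000) (nat_lit 0x0) (nat_lit 0x4000e00050000000100000000000000000000000000000000) := T_1 (nat_lit 162) (nat_lit 179) (nat_lit 7) (nat_lit 8) (nat_lit 6) L632 (by decide +kernel)
theorem L634 : W_1 (nat_lit 5) (nat_lit 0x20001000080004000000000000000000000000000) (nat_lit 0x0) (nat_lit 0x4000e00050000000100008000400000000000000000000000) := T_1 (nat_lit 111) (nat_lit 94) (nat_lit 6) (nat_lit 8) (nat_lit 9) L633 (by decide +kernel)
theorem L635 : W_1 (nat_lit 2) (nat_lit 0x70001800080004000000000000000000000000000) (nat_lit 0x0) (nat_lit 0x80000600000000000000000000000000000000000) := D_1 (nat_lit 142) (nat_lit 141) (nat_lit 163) (nat_lit 3) (nat_lit 5) (nat_lit 8) (nat_lit 0) (nat_lit 10) (nat_lit 9) (by decide +kernel)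
theorem L636 : W_1 (nat_lit 3) (nat_lit 0x30001800080004000000000000000000000000000) (nat_lit 0x0) (nat_lit 0x8000c0000600000000000000000000000000000000000) := T_1 (nat_lit 162) (nat_lit 179) (nat_lit 7) (nat_lit 8) (nat_lit 6) L635 (by decide +kernel)
theorem L637 : W_1 (nat_lit 4) (nat_lit 0x30001000080004000000000000000000000000000) (nat_lit 0x0) (nat_lit 0x8000c0000e00000000000200000000000000000000000) := T_1 (nat_lit 143) (nat_lit 93) (nat_lit 5) (nat_lit 8) (nat_lit 5) L636 (by decide +kernel)
theorem L638 : W_1 (nat_lit 5) (nat_lit 0x20001000080004000000000000000000000000000) (nat_lit 0x0) (nat_lit 0xa000d0000e00000000000200000000000000000000000) := T_1 (nat_lit 160) (nat_lit 177) (nat_lit 5) (nat_lit 8) (nat_lit 6) L637 (by decide +kernel)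
theorem L639 : W_1 (nat_lit 2) (nat_lit 0x40003000180008000c000000000000000000000000000) (nat_lit 0x0) (nat_lit 0x100008000000000000000040000000000000000000000000000000) := D_1 (nat_lit 195) (nat_lit 212) (nat_lit 126) (nat_lit 4) (nat_lit 8) (nat_lit 12) (nat_lit 4) (nat_lit 8) (nat_lit 11) (by decide +kernel)
theorem L640 : W_1 (nat_lit 3) (nat_lit 0x3000180008000c000000000000000000000000000) (nat_lit 0x0) (nat_lit 0x100008000400000000000140000000000000000000000000000000) := T_1 (nat_lit 178) (nat_lit 128) (nat_lit 6) (nat_lit 8) (nat_lit 10) L639 (by decide +kernel)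
theorem L641 : W_1 (nat_lit 4) (nat_lit 0x3000100008000c000000000000000000000000000) (nat_lit 0x0) (nat_lit 0x100008000400000000800140000000200000000000000000000000) := T_1 (nat_lit 143) (nat_lit 93) (nat_lit 5) (nat_lit 8) (nat_lit 5) L640 (by decide +kernel)
theorem L642 : W_1 (nat_lit 5) (nat_lit 0x2000100008000c000000000000000000000000000) (nat_lit 0x0) (nat_lit 0x100008000600010000800140000000200000000000000000000000) := T_1 (nat_lit 160) (nat_lit 177) (nat_lit 5) (nat_lit 8) (nat_lit 6) L641 (by decide +kernel)
theorem L643 : W_1 (nat_lit 6) (nat_lit 0x20001000080004000000000000000000000000000) (nat_lit 0x0) (nat_lit 0x100008000600010000800140008000600000000000000000000000) := T_1 (nat_lit 111) (nat_lit 94) (nat_lit 6) (nat_lit 8) (nat_lit 9) L642 (by decide +kernel)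
theorem L653 : W_1 (nat_lit 2) (nat_lit 0x60001000080007c00000000000000000000000000) (nat_lit 0x0) (nat_lit 0x1c000000000000000000000000000000) := D_1 (nat_lit 123) (nat_lit 122) (nat_lit 124) (nat_lit 1) (nat_lit 7) (nat_lit 6) (nat_lit 1) (nat_lit 8) (nat_lit 6) (by decide +kernel)
theorem L654 : W_1 (nat_lit 3) (nat_lit 0x60001000080007800000000000000000000000000) (nat_lit 0x0) (nat_lit 0x5c000400000000000000000000000000) := T_1 (nat_lit 106) (nat_lit 126) (nat_lit 3) (nat_lit 4) (nat_lit 6) L653 (by decide +kernel)
theorem L655 : W_1 (nat_lit 4) (nat_lit 0x60001000080007000000000000000000000000000) (nat_lit 0x0) (nat_lit 0x15c000c00000000000000000000000000) := T_1 (nat_lit 107) (nat_lit 128) (nat_lit 3) (nat_lit 5) (nat_lit 6) L654 (by decide +kernel)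
theorem L656 : W_1 (nat_lit 5) (nat_lit 0x20001000080007000000000000000000000000000) (nat_lit 0x0) (nat_lit 0x80004000000015c000c00000000000000000000000000) := T_1 (nat_lit 162) (nat_lit 179) (nat_lit 7) (nat_lit 8) (nat_lit 6) L655 (by decide +kernel)
theorem L657 : W_1 (nat_lit 2) (nat_lit 0x700010000a000f000080000000000000000000000) (nat_lit 0x0) (nat_lit 0x800040010000000000000000000000000000) := D_1 (nat_lit 126) (nat_lit 112) (nat_lit 143) (nat_lit 1) (nat_lit 10) (nat_lit 6) (nat_lit 4) (nat_lit 7) (nat_lit 9) (by decide +kernel)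
theorem L658 : W_1 (nat_lit 3) (nat_lit 0x700010000a000f000000000000000000000000000) (nat_lit 0x0) (nat_lit 0x8000400100000c0000000000000000000000) := T_1 (nat_lit 91) (nat_lit 90) (nat_lit 0) (nat_lit 9) (nat_lit 6) L657 (by decide +kernel)
theorem L659 : W_1 (nat_lit 4) (nat_lit 0x7000100008000f000000000000000000000000000) (nat_lit 0x0) (nat_lit 0x8000700100000c0000000000000000000000) := T_1 (nat_lit 125) (nat_lit 124) (nat_lit 1) (nat_lit 9) (nat_lit 6) L658 (by decide +kernel)
theorem L660 : W_1 (nat_lit 5) (nat_lit 0x70001000080007000000000000000000000000000) (nat_lit 0x0) (nat_lit 0x8000700180004c0000000000000000000000) := T_1 (nat_lit 111) (nat_lit 94) (nat_lit 6) (nat_lit 8) (nat_lit 9) L659 (by decide +kernel)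
theorem L661 : W_1 (nat_lit 6) (nat_lit 0x30001000080007000000000000000000000000000) (nat_lit 0x0) (nat_lit 0x8000400008000700180004c0000000000000000000000) := T_1 (nat_lit 162) (nat_lit 179) (nat_lit 7) (nat_lit 8) (nat_lit 6) L660 (by decide +kernel)
theorem L662 : W_1 (nat_lit 7) (nat_lit 0x20001000080007000000000000000000000000000) (nat_lit 0x0) (nat_lit 0xa000500008000700180004c0000000000000000000000) := T_1 (nat_lit 160) (nat_lit 177) (nat_lit 5) (nat_lit 8) (nat_lit 6) L661 (by decide +kernel)
theorem L663 : W_1 (nat_lit 2) (nat_lit 0x2000100008000f000000000000000000000000000) (nat_lit 0x0) (nat_lit 0x300000800000000000000000000000000) := D_1 (nat_lit 128) (nat_lit 129) (nat_lit 107) (nat_lit 3) (nat_lit 6) (nat_lit 6) (nat_lit 3) (nat_lit 5) (nat_lit 6) (by decide +kernel)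
theorem L664 : W_1 (nat_lit 3) (nat_lit 0x20001000080007000000000000000000000000000) (nat_lit 0x0) (nat_lit 0x300008800400000000000000000000000) := T_1 (nat_lit 111) (nat_lit 94) (nat_lit 6) (nat_lit 8) (nat_lit 9) L663 (by decide +kernel)
theorem L680 : W_1 (nat_lit 2) (nat_lit 0x40003e000900008003e000000000000000000000000000) (nat_lit 0x0) (nat_lit 0x3800000000000000000000000) := D_1 (nat_lit 96) (nat_lit 97) (nat_lit 95) (nat_lit 2) (nat_lit 8) (nat_lit 6) (nat_lit 2) (nat_lit 7) (nat_lit 6) (by decide +kernel)
theorem L681 : W_1 (nat_lit 3) (nat_lit 0x40003e000900008002e000000000000000000000000000) (nat_lit 0x0) (nat_lit 0x40010003800000000000000000000000) := T_1 (nat_lit 112) (nat_lit 126) (nat_lit 1) (nat_lit 11) (nat_lit 6) L680 (by decide +kernel)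
theorem L682 : W_1 (nat_lit 4) (nat_lit 0x40003e000900008000e000000000000000000000000000) (nat_lit 0x0) (nat_lit 0x440030003800000000000000000000000) := T_1 (nat_lit 113) (nat_lit 130) (nat_lit 7) (nat_lit 11) (nat_lit 6) L681 (by decide +kernel)
theorem L683 : W_1 (nat_lit 5) (nat_lit 0x40003e000900008000c000000000000000000000000000) (nat_lit 0x0) (nat_lit 0x440032003900000000000000000000000) := T_1 (nat_lit 109) (nat_lit 92) (nat_lit 4) (nat_lit 8) (nat_lit 9) L682 (by decide +kernel)
theorem L684 : W_1 (nat_lit 6) (nat_lit 0x40001e000900008000c000000000000000000000000000) (nat_lit 0x0) (nat_lit 0x8000200000000440032003900000000000000000000000) := T_1 (nat_lit 165) (nat_lit 183) (nat_lit 3) (nat_lit 9) (nat_lit 9) L683 (by decide +kernel)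
theorem L685 : W_1 (nat_lit 7) (nat_lit 0x40001e000100008000c000000000000000000000000000) (nat_lit 0x0) (nat_lit 0x8000200018000440032003900000000000000000000000) := T_1 (nat_lit 147) (nat_lit 148) (nat_lit 2) (nat_lit 8) (nat_lit 9) L684 (by decide +kernel)
theorem L686 : W_1 (nat_lit 8) (nat_lit 0x1e000100008000c000000000000000000000000000) (nat_lit 0x0) (nat_lit 0xe000200018000440032003900000000000000000000000) := T_1 (nat_lit 182) (nat_lit 181) (nat_lit 3) (nat_lit 8) (nat_lit 9) L685 (by decide +kernel)
theorem L687 : W_1 (nat_lit 9) (nat_lit 0x1e0001000080004000000000000000000000000000) (nat_lit 0x0) (nat_lit 0xe00020001800044003a003d00000000000000000000000) := T_1 (nat_lit 111) (nat_lit 94) (nat_lit 6) (nat_lit 8) (nat_lit 9) L686 (by decide +kernel)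
theorem L688 : W_1 (nat_lit 10) (nat_lit 0xe0001000080004000000000000000000000000000) (nat_lit 0x0) (nat_lit 0xe00030001880044003a003d00000000000000000000000) := T_1 (nat_lit 164) (nat_lit 143) (nat_lit 0) (nat_lit 11) (nat_lit 9) L687 (by decide +kernel)
theorem L689 : W_1 (nat_lit 2) (nat_lit 0x11000f80054000a000e000000000000000000000000000) (nat_lit 0x0) (nat_lit 0x10001800000000000000000000000000) := D_1 (nat_lit 124) (nat_lit 107) (nat_lit 108) (nat_lit 4) (nat_lit 6) (nat_lit 10) (nat_lit 1) (nat_lit 9) (nat_lit 6) (by decide +kernel)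
theorem L690 : W_1 (nat_lit 3) (nat_lit 0x11000f800540008000e000000000000000000000000000) (nat_lit 0x0) (nat_lit 0x70001800000000000000000000000000) := T_1 (nat_lit 125) (nat_lit 126) (nat_lit 6) (nat_lit 6) (nat_lit 10) L689 (by decide +kernel)
theorem L691 : W_1 (nat_lit 4) (nat_lit 0x10000f800540008000e000000000000000000000000000) (nat_lit 0x0) (nat_lit 0x180000000000070001800000000000000000000000000) := T_1 (nat_lit 176) (nat_lit 175) (nat_lit 1) (nat_lit 9) (nat_lit 9) L690 (by decide +kernel)
theorem L692 : W_1 (nat_lit 5) (nat_lit 0x10000f000540008000e000000000000000000000000000) (nat_lit 0x0) (nat_lit 0x180008000200070001800000000000000000000000000) := T_1 (nat_lit 159) (nat_lit 141) (nat_lit 0) (nat_lit 9) (nat_lit 9) L691 (by decide +kernel)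
theorem L699 : W_1 (nat_lit 2) (nat_lit 0x1e000900008000e000000000000000000000000000) (nat_lit 0x0) (nat_lit 0x200010004000000000000000000000000000000000000) := D_1 (nat_lit 160) (nat_lit 146) (nat_lit 177) (nat_lit 2) (nat_lit 7) (nat_lit 9) (nat_lit 5) (nat_lit 8) (nat_lit 6) (by decide +kernel)
theorem L700 : W_1 (nat_lit 3) (nat_lit 0x1e000100008000e000000000000000000000000000) (nat_lit 0x0) (nat_lit 0x20001001c000000000000000000000000000000000000) := T_1 (nat_lit 147) (nat_lit 148) (nat_lit 2) (nat_lit 8) (nat_lit 9) L699 (by decide +kernel)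
theorem L704 : W_1 (nat_lit 2) (nat_lit 0xf0001000080004000000000000000000000000000) (nat_lit 0x0) (nat_lit 0x100000c00000000000000000000000000000000000) := D_1 (nat_lit 143) (nat_lit 164) (nat_lit 142) (nat_lit 0) (nat_lit 11) (nat_lit 9) (nat_lit 0) (nat_lit 10) (nat_lit 9) (by decide +kernel)
theorem L705 : W_1 (nat_lit 3) (nat_lit 0xe0001000080004000000000000000000000000000) (nat_lit 0x0) (nat_lit 0x200110000c00000000000000000000000000000000000) := T_1 (nat_lit 160) (nat_lit 177) (nat_lit 5) (nat_lit 8) (nat_lit 6) L704 (by decide +kernel)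
theorem L708 : W_1 (nat_lit 2) (nat_lit 0x2000100008001e000000000000000000000000000) (nat_lit 0x0) (nat_lit 0x60020000000000000000000000000000) := D_1 (nat_lit 126) (nat_lit 113) (nat_lit 125) (nat_lit 1) (nat_lit 11) (nat_lit 6) (nat_lit 1) (nat_lit 10) (nat_lit 6) (by decide +kernel)
theorem L709 : W_1 (nat_lit 3) (nat_lit 0x2000100008001c000000000000000000000000000) (nat_lit 0x0) (nat_lit 0x60022000100000000000000000000000) := T_1 (nat_lit 109) (nat_lit 92) (nat_lit 4) (nat_lit 8) (nat_lit 9) L708 (by decide +kernel)
theorem L715 : W_1 (nat_lit 2) (nat_lit 0x2000100029001f000040000000000000000000000) (nat_lit 0x0) (nat_lit 0x8000800020000000000000000000000) := D_1 (nat_lit 107) (nat_lit 123) (nat_lit 89) (nat_lit 1) (nat_lit 8) (nat_lit 6) (nat_lit 0) (nat_lit 8) (nat_lit 6) (by decide +kernel)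
theorem L716 : W_1 (nat_lit 3) (nat_lit 0x2000100029001f000000000000000000000000000) (nat_lit 0x0) (nat_lit 0x80008000e0000000000000000000000) := T_1 (nat_lit 90) (nat_lit 91) (nat_lit 0) (nat_lit 9) (nat_lit 6) L715 (by decide +kernel)
theorem L717 : W_1 (nat_lit 4) (nat_lit 0x2000100028001f000000000000000000000000000) (nat_lit 0x0) (nat_lit 0x380008000e0000000000000000000000) := T_1 (nat_lit 124) (nat_lit 125) (nat_lit 1) (nat_lit 9) (nat_lit 6) L716 (by decide +kernel)
theorem L718 : W_1 (nat_lit 5) (nat_lit 0x2000100028001e000000000000000000000000000) (nat_lit 0x0) (nat_lit 0x1380018000e0000000000000000000000) := T_1 (nat_lit 108) (nat_lit 128) (nat_lit 3) (nat_lit 6) (nat_lit 6) L717 (by decide +kernel)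
theorem L719 : W_1 (nat_lit 6) (nat_lit 0x2000100008001e000000000000000000000000000) (nat_lit 0x0) (nat_lit 0x7380018000e0000000000000000000000) := T_1 (nat_lit 129) (nat_lit 130) (nat_lit 3) (nat_lit 7) (nat_lit 6) L718 (by decide +kernel)
theorem L720 : W_1 (nat_lit 7) (nat_lit 0x2000100008001c000000000000000000000000000) (nat_lit 0x0) (nat_lit 0x7380038001e0000000000000000000000) := T_1 (nat_lit 109) (nat_lit 92) (nat_lit 4) (nat_lit 8) (nat_lit 9) L719 (by decide +kernel)
theorem L723 : W_1 (nat_lit 2) (nat_lit 0x10000f000500028002c000000000000000000000000000) (nat_lit 0x0) (nat_lit 0x40010001000000000000000000000000) := D_1 (nat_lit 112) (nat_lit 96) (nat_lit 126) (nat_lit 6) (nat_lit 10) (nat_lit 9) (nat_lit 1) (nat_lit 11) (nat_lit 6) (by decide +kernel)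
theorem L724 : W_1 (nat_lit 3) (nat_lit 0x10000f000500028000c000000000000000000000000000) (nat_lit 0x0) (nat_lit 0x440030001000000000000000000000000) := T_1 (nat_lit 113) (nat_lit 130) (nat_lit 6) (nat_lit 10) (nat_lit 10) L723 (by decide +kernel)
theorem L725 : W_1 (nat_lit 4) (nat_lit 0x10000f000500008000c000000000000000000000000000) (nat_lit 0x0) (nat_lit 0x740030001000000000000000000000000) := T_1 (nat_lit 129) (nat_lit 128) (nat_lit 4) (nat_lit 10) (nat_lit 10) L724 (by decide +kernel)
theorem L726 : W_1 (nat_lit 5) (nat_lit 0x10000f0005000080004000000000000000000000000000) (nat_lit 0x0) (nat_lit 0x740038001400000000000000000000000) := T_1 (nat_lit 111) (nat_lit 94) (nat_lit 6) (nat_lit 8) (nat_lit 9) L725 (by decide +kernel)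
theorem L727 : W_1 (nat_lit 6) (nat_lit 0x10000f0001000080004000000000000000000000000000) (nat_lit 0x0) (nat_lit 0xc000740038001400000000000000000000000) := T_1 (nat_lit 146) (nat_lit 147) (nat_lit 2) (nat_lit 7) (nat_lit 9) L726 (by decide +kernel)
theorem L728 : W_1 (nat_lit 7) (nat_lit 0xf0001000080004000000000000000000000000000) (nat_lit 0x0) (nat_lit 0x300000000c000740038001400000000000000000000000) := T_1 (nat_lit 180) (nat_lit 181) (nat_lit 3) (nat_lit 7) (nat_lit 9) L727 (by decide +kernel)
theorem L729 : W_1 (nat_lit 8) (nat_lit 0xe0001000080004000000000000000000000000000) (nat_lit 0x0) (nat_lit 0x320001000c000740038001400000000000000000000000) := T_1 (nat_lit 160) (nat_lit 177) (nat_lit 5) (nat_lit 8) (nat_lit 6) L728 (by decide +kernel)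
theorem L730 : W_1 (nat_lit 2) (nat_lit 0x10000000040003e000900008007c000000000000000000000000000) (nat_lit 0x0) (nat_lit 0x7000000000000000000000000) := D_1 (nat_lit 97) (nat_lit 96) (nat_lit 98) (nat_lit 2) (nat_lit 8) (nat_lit 6) (nat_lit 2) (nat_lit 9) (nat_lit 6) (by decide +kernel)
theorem L731 : W_1 (nat_lit 3) (nat_lit 0x10000000040003e000900008003c000000000000000000000000000) (nat_lit 0x0) (nat_lit 0x100040007000000000000000000000000) := T_1 (nat_lit 114) (nat_lit 128) (nat_lit 1) (nat_lit 12) (nat_lit 6) L730 (by decide +kernel)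
theorem L732 : W_1 (nat_lit 4) (nat_lit 0x10000000040003e000900008002c000000000000000000000000000) (nat_lit 0x0) (nat_lit 0x140050007000000000000000000000000) := T_1 (nat_lit 112) (nat_lit 126) (nat_lit 1) (nat_lit 11) (nat_lit 6) L731 (by decide +kernel)
theorem L733 : W_1 (nat_lit 5) (nat_lit 0x10000000040003e000900008000c000000000000000000000000000) (nat_lit 0x0) (nat_lit 0x540070007000000000000000000000000) := T_1 (nat_lit 113) (nat_lit 130) (nat_lit 7) (nat_lit 11) (nat_lit 6) L732 (by decide +kernel)
theorem L734 : W_1 (nat_lit 6) (nat_lit 0x40003e000900008000c000000000000000000000000000) (nat_lit 0x0) (nat_lit 0x1000080000000000000000540070007000000000000000000000000) := T_1 (nat_lit 216) (nat_lit 199) (nat_lit 4) (nat_lit 12) (nat_lit 12) L733 (by decide +kernel)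
theorem L735 : W_1 (nat_lit 7) (nat_lit 0x40001e000900008000c000000000000000000000000000) (nat_lit 0x0) (nat_lit 0x1000080008000200000000540070007000000000000000000000000) := T_1 (nat_lit 165) (nat_lit 183) (nat_lit 3) (nat_lit 9) (nat_lit 9) L734 (by decide +kernel)
theorem L742 : W_1 (nat_lit 2) (nat_lit 0x8000000020001f0005000380006000000000000000000000000000) (nat_lit 0x0) (nat_lit 0x40001800000000000000000000000000) := D_1 (nat_lit 108) (nat_lit 126) (nat_lit 107) (nat_lit 0) (nat_lit 10) (nat_lit 7) (nat_lit 3) (nat_lit 5) (nat_lit 6) (by decide +kernel)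
theorem L743 : W_1 (nat_lit 3) (nat_lit 0x8000000020001f0005000280006000000000000000000000000000) (nat_lit 0x0) (nat_lit 0x540001800000000000000000000000000) := T_1 (nat_lit 128) (nat_lit 130) (nat_lit 0) (nat_lit 11) (nat_lit 7) L742 (by decide +kernel)
theorem L756 : W_1 (nat_lit 2) (nat_lit 0x11000f80054000a0006800000000000000000000000000) (nat_lit 0x0) (nat_lit 0x100001000040000000000000000000000) := D_1 (nat_lit 108) (nat_lit 90) (nat_lit 128) (nat_lit 4) (nat_lit 6) (nat_lit 9) (nat_lit 3) (nat_lit 5) (nat_lit 6) (by decide +kernel)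
theorem L757 : W_1 (nat_lit 3) (nat_lit 0x11000f80054000a0006000000000000000000000000000) (nat_lit 0x0) (nat_lit 0x110001800040000000000000000000000) := T_1 (nat_lit 107) (nat_lit 124) (nat_lit 4) (nat_lit 6) (nat_lit 10) L756 (by decide +kernel)
theorem L758 : W_1 (nat_lit 4) (nat_lit 0x11000f8005400080006000000000000000000000000000) (nat_lit 0x0) (nat_lit 0x170001800040000000000000000000000) := T_1 (nat_lit 125) (nat_lit 126) (nat_lit 6) (nat_lit 6) (nat_lit 10) L757 (by decide +kernel)
theorem L759 : W_1 (nat_lit 5) (nat_lit 0x10000f8005400080006000000000000000000000000000) (nat_lit 0x0) (nat_lit 0x180000000000170001800040000000000000000000000) := T_1 (nat_lit 176) (nat_lit 175) (nat_lit 1) (nat_lit 9) (nat_lit 9) L758 (by decide +kernel)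
theorem L760 : W_1 (nat_lit 6) (nat_lit 0x10000f0005400080006000000000000000000000000000) (nat_lit 0x0) (nat_lit 0x180008000200170001800040000000000000000000000) := T_1 (nat_lit 159) (nat_lit 141) (nat_lit 0) (nat_lit 9) (nat_lit 9) L759 (by decide +kernel)
theorem L761 : W_1 (nat_lit 7) (nat_lit 0x10000f0005000080006000000000000000000000000000) (nat_lit 0x0) (nat_lit 0x180008000e00170001800040000000000000000000000) := T_1 (nat_lit 142) (nat_lit 143) (nat_lit 0) (nat_lit 10) (nat_lit 9) L760 (by decide +kernel)
theorem L762 : W_1 (nat_lit 8) (nat_lit 0x10000f0001000080006000000000000000000000000000) (nat_lit 0x0) (nat_lit 0x18000800ce00170001800040000000000000000000000) := T_1 (nat_lit 146) (nat_lit 147) (nat_lit 2) (nat_lit 7) (nat_lit 9) L761 (by decide +kernel)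
theorem L763 : W_1 (nat_lit 9) (nat_lit 0xf0001000080006000000000000000000000000000) (nat_lit 0x0) (nat_lit 0x318000800ce00170001800040000000000000000000000) := T_1 (nat_lit 180) (nat_lit 181) (nat_lit 3) (nat_lit 7) (nat_lit 9) L762 (by decide +kernel)
theorem L764 : W_1 (nat_lit 10) (nat_lit 0xe0001000080006000000000000000000000000000) (nat_lit 0x0) (nat_lit 0x338001800ce00170001800040000000000000000000000) := T_1 (nat_lit 160) (nat_lit 177) (nat_lit 5) (nat_lit 8) (nat_lit 6) L763 (by decide +kernel)
theorem L765 : W_1 (nat_lit 11) (nat_lit 0xe0001000080004000000000000000000000000000) (nat_lit 0x0) (nat_lit 0x338001800ce00170003800140000000000000000000000) := T_1 (nat_lit 109) (nat_lit 92) (nat_lit 4) (nat_lit 8) (nat_lit 9) L764 (by decide +kernel)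
theorem L768 : W_1 (nat_lit 2) (nat_lit 0x3000100008007c000000000000000000000000000) (nat_lit 0x0) (nat_lit 0x1c00000000000000000000000000000000) := D_1 (nat_lit 131) (nat_lit 130) (nat_lit 132) (nat_lit 3) (nat_lit 8) (nat_lit 6) (nat_lit 3) (nat_lit 9) (nat_lit 6) (by decide +kernel)
theorem L769 : W_1 (nat_lit 3) (nat_lit 0x3000100008003c000000000000000000000000000) (nat_lit 0x0) (nat_lit 0x1d00040000000000000000000000000000) := T_1 (nat_lit 114) (nat_lit 128) (nat_lit 1) (nat_lit 12) (nat_lit 6) L768 (by decide +kernel)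
theorem L770 : W_1 (nat_lit 4) (nat_lit 0x3000100008001c000000000000000000000000000) (nat_lit 0x0) (nat_lit 0x1d40060000000000000000000000000000) := T_1 (nat_lit 113) (nat_lit 126) (nat_lit 1) (nat_lit 11) (nat_lit 6) L769 (by decide +kernel)
theorem L771 : W_1 (nat_lit 5) (nat_lit 0x2000100008001c000000000000000000000000000) (nat_lit 0x0) (nat_lit 0x200010000001d40060000000000000000000000000000) := T_1 (nat_lit 160) (nat_lit 177) (nat_lit 5) (nat_lit 8) (nat_lit 6) L770 (by decide +kernel)
theorem L774 : W_1 (nat_lit 2) (nat_lit 0x70001200090007c00020000000000000000000000) (nat_lit 0x0) (nat_lit 0x8000c00000000000000000000000000000000000) := D_1 (nat_lit 142) (nat_lit 143) (nat_lit 159) (nat_lit 3) (nat_lit 5) (nat_lit 8) (nat_lit 0) (nat_lit 9) (nat_lit 9) (by decide +kernel)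
theorem L775 : W_1 (nat_lit 3) (nat_lit 0x70001000090007c00020000000000000000000000) (nat_lit 0x0) (nat_lit 0xc000e00000000000000000000000000000000000) := T_1 (nat_lit 141) (nat_lit 158) (nat_lit 4) (nat_lit 5) (nat_lit 9) L774 (by decide +kernel)
theorem L776 : W_1 (nat_lit 4) (nat_lit 0x70001000090007800020000000000000000000000) (nat_lit 0x0) (nat_lit 0xc000e00000000400010000000000000000000000) := T_1 (nat_lit 106) (nat_lit 88) (nat_lit 0) (nat_lit 7) (nat_lit 6) L775 (by decide +kernel)
theorem L782 : W_1 (nat_lit 2) (nat_lit 0x700014000a000f000080000000000000000000000) (nat_lit 0x0) (nat_lit 0xc000200000000000000000000000000000000000) := D_1 (nat_lit 141) (nat_lit 158) (nat_lit 159) (nat_lit 5) (nat_lit 6) (nat_lit 5) (nat_lit 0) (nat_lit 9) (nat_lit 9) (by decide +kernel)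
theorem L783 : W_1 (nat_lit 3) (nat_lit 0x700010000a000f000080000000000000000000000) (nat_lit 0x0) (nat_lit 0xc000e00000000000000000000000000000000000) := T_1 (nat_lit 142) (nat_lit 143) (nat_lit 7) (nat_lit 6) (nat_lit 5) L782 (by decide +kernel)
theorem L784 : W_1 (nat_lit 4) (nat_lit 0x700010000a000f000000000000000000000000000) (nat_lit 0x0) (nat_lit 0xc000e000000000000c0000000000000000000000) := T_1 (nat_lit 91) (nat_lit 90) (nat_lit 0) (nat_lit 9) (nat_lit 6) L783 (by decide +kernel)
theorem L785 : W_1 (nat_lit 5) (nat_lit 0x7000100008000f000000000000000000000000000) (nat_lit 0x0) (nat_lit 0xc000e000300000000c0000000000000000000000) := T_1 (nat_lit 125) (nat_lit 124) (nat_lit 1) (nat_lit 9) (nat_lit 6) L784 (by decide +kernel)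
theorem L786 : W_1 (nat_lit 6) (nat_lit 0x70001000080007000000000000000000000000000) (nat_lit 0x0) (nat_lit 0xc000e000300080004c0000000000000000000000) := T_1 (nat_lit 111) (nat_lit 94) (nat_lit 6) (nat_lit 8) (nat_lit 9) L785 (by decide +kernel)
theorem L792 : W_1 (nat_lit 7) (nat_lit 0xc00160001800180000000000000000000000000000000) (nat_lit 0x0) (nat_lit 0x4000700138001c000000600000000000000000000000000000000) := T_1 (nat_lit 130) (nat_lit 129) (nat_lit 1) (nat_lit 11) (nat_lit 7) L472 (by decide +kernel)
theorem L793 : W_1 (nat_lit 8) (nat_lit 0xc00160001800080000000000000000000000000000000) (nat_lit 0x0) (nat_lit 0x4000700138001c000000700008000000000000000000000000000) := T_1 (nat_lit 128) (nat_lit 111) (nat_lit 6) (nat_lit 8) (nat_lit 10) L792 (by decide +kernel)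
theorem L794 : W_1 (nat_lit 9) (nat_lit 0xc00060001800080000000000000000000000000000000) (nat_lit 0x0) (nat_lit 0x4000700138019c000000700008000000000000000000000000000) := T_1 (nat_lit 164) (nat_lit 163) (nat_lit 0) (nat_lit 11) (nat_lit 9) L793 (by decide +kernel)
theorem L795 : W_1 (nat_lit 10) (nat_lit 0x400060001800080000000000000000000000000000000) (nat_lit 0x0) (nat_lit 0x40017001b8019c000000700008000000000000000000000000000) := T_1 (nat_lit 179) (nat_lit 196) (nat_lit 7) (nat_lit 8) (nat_lit 7) L794 (by decide +kernel)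
theorem L802 : W_1 (nat_lit 2) (nat_lit 0xc000f0005a00380000000000000000000000000000000) (nat_lit 0x0) (nat_lit 0x3000008000000000000000000000000000000000000000) := D_1 (nat_lit 180) (nat_lit 181) (nat_lit 159) (nat_lit 3) (nat_lit 7) (nat_lit 9) (nat_lit 3) (nat_lit 6) (nat_lit 9) (by decide +kernel)
theorem L803 : W_1 (nat_lit 3) (nat_lit 0xc000e0005a00380000000000000000000000000000000) (nat_lit 0x0) (nat_lit 0x3000018008000000000000000000000000000000000000) := T_1 (nat_lit 160) (nat_lit 147) (nat_lit 2) (nat_lit 7) (nat_lit 9) L802 (by decide +kernel)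
theorem L804 : W_1 (nat_lit 4) (nat_lit 0xc000e0001a00380000000000000000000000000000000) (nat_lit 0x0) (nat_lit 0x300001800c000000010000000000000000000000000000) := T_1 (nat_lit 146) (nat_lit 112) (nat_lit 5) (nat_lit 10) (nat_lit 6) L803 (by decide +kernel)
theorem L826 : W_1 (nat_lit 2) (nat_lit 0x4000c00038001800080000000000000000000000000000000) (nat_lit 0x0) (nat_lit 0x3000040000000000000000000000000000000000000000) := D_1 (nat_lit 180) (nat_lit 181) (nat_lit 162) (nat_lit 0) (nat_lit 11) (nat_lit 10) (nat_lit 3) (nat_lit 6) (nat_lit 9) (by decide +kernel)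
theorem L827 : W_1 (nat_lit 3) (nat_lit 0x4000c00030001800080000000000000000000000000000000) (nat_lit 0x0) (nat_lit 0x300004c000000000000000000000000000000000000000) := T_1 (nat_lit 159) (nat_lit 158) (nat_lit 3) (nat_lit 5) (nat_lit 9) L826 (by decide +kernel)
theorem L828 : W_1 (nat_lit 4) (nat_lit 0x4000400030001800080000000000000000000000000000000) (nat_lit 0x0) (nat_lit 0x1000380004c000000000000000000000000000000000000000) := T_1 (nat_lit 179) (nat_lit 196) (nat_lit 7) (nat_lit 8) (nat_lit 7) L827 (by decide +kernel)
theorem L829 : W_1 (nat_lit 5) (nat_lit 0x400030001800080000000000000000000000000000000) (nat_lit 0x0) (nat_lit 0x14003a0004c000000000000000000000000000000000000000) := T_1 (nat_lit 194) (nat_lit 177) (nat_lit 6) (nat_lit 7) (nat_lit 11) L828 (by decide +kernel)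
theorem L830 : W_1 (nat_lit 2) (nat_lit 0xe000300018000e8000000000000000000000000000000) (nat_lit 0x0) (nat_lit 0x100000c000000000000000000000000000000000000000) := D_1 (nat_lit 159) (nat_lit 158) (nat_lit 180) (nat_lit 3) (nat_lit 5) (nat_lit 9) (nat_lit 0) (nat_lit 10) (nat_lit 10) (by decide +kernel)
theorem L831 : W_1 (nat_lit 3) (nat_lit 0x6000300018000e8000000000000000000000000000000) (nat_lit 0x0) (nat_lit 0x1000180000c000000000000000000000000000000000000000) := T_1 (nat_lit 179) (nat_lit 196) (nat_lit 7) (nat_lit 8) (nat_lit 7) L830 (by decide +kernel)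
theorem L832 : W_1 (nat_lit 4) (nat_lit 0x6000300018000e0000000000000000000000000000000) (nat_lit 0x0) (nat_lit 0x1000180000c000000018000000000000000000000000000000) := T_1 (nat_lit 123) (nat_lit 124) (nat_lit 3) (nat_lit 4) (nat_lit 7) L831 (by decide +kernel)
theorem L833 : W_1 (nat_lit 5) (nat_lit 0x6000300018000c0000000000000000000000000000000) (nat_lit 0x0) (nat_lit 0x1000180000c000000038001000000000000000000000000000) := T_1 (nat_lit 125) (nat_lit 108) (nat_lit 4) (nat_lit 7) (nat_lit 10) L832 (by decide +kernel)
theorem L834 : W_1 (nat_lit 6) (nat_lit 0x600030001800080000000000000000000000000000000) (nat_lit 0x0) (nat_lit 0x1000180000c000000078003000000000000000000000000000) := T_1 (nat_lit 126) (nat_lit 109) (nat_lit 7) (nat_lit 7) (nat_lit 6) L833 (by decide +kernel)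
theorem L835 : W_1 (nat_lit 7) (nat_lit 0x400030001800080000000000000000000000000000000) (nat_lit 0x0) (nat_lit 0x14001a0000c000000078003000000000000000000000000000) := T_1 (nat_lit 177) (nat_lit 194) (nat_lit 6) (nat_lit 7) (nat_lit 11) L834 (by decide +kernel)
theorem L836 : W_1 (nat_lit 2) (nat_lit 0xc000380018000c0000000000000000000000000000000) (nat_lit 0x0) (nat_lit 0x3000040000000000000000000000000000000000000000) := D_1 (nat_lit 180) (nat_lit 181) (nat_lit 162) (nat_lit 0) (nat_lit 11) (nat_lit 10) (nat_lit 3) (nat_lit 6) (nat_lit 9) (by decide +kernel)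
theorem L837 : W_1 (nat_lit 3) (nat_lit 0xc000300018000c0000000000000000000000000000000) (nat_lit 0x0) (nat_lit 0x300004c000000000000000000000000000000000000000) := T_1 (nat_lit 159) (nat_lit 158) (nat_lit 3) (nat_lit 5) (nat_lit 9) L836 (by decide +kernel)
theorem L838 : W_1 (nat_lit 4) (nat_lit 0x4000300018000c0000000000000000000000000000000) (nat_lit 0x0) (nat_lit 0x1000380004c000000000000000000000000000000000000000) := T_1 (nat_lit 179) (nat_lit 196) (nat_lit 7) (nat_lit 8) (nat_lit 7) L837 (by decide +kernel)
theorem L839 : W_1 (nat_lit 5) (nat_lit 0x400030001800080000000000000000000000000000000) (nat_lit 0x0) (nat_lit 0x1000380004c000000040002000000000000000000000000000) := T_1 (nat_lit 126) (nat_lit 109) (nat_lit 7) (nat_lit 7) (nat_lit 6) L838 (by decide +kernel)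
theorem L846 : W_1 (nat_lit 2) (nat_lit 0xc000400020001000180000000000000000000000000000000) (nat_lit 0x0) (nat_lit 0x200010000800000000000000000000000000000000000000000000) := D_1 (nat_lit 196) (nat_lit 179) (nat_lit 213) (nat_lit 7) (nat_lit 8) (nat_lit 7) (nat_lit 7) (nat_lit 8) (nat_lit 8) (by decide +kernel)
theorem L847 : W_1 (nat_lit 3) (nat_lit 0x4000400020001000180000000000000000000000000000000) (nat_lit 0x0) (nat_lit 0x280018000800000000000000000000000000000000000000000000) := T_1 (nat_lit 195) (nat_lit 211) (nat_lit 5) (nat_lit 8) (nat_lit 8) L846 (by decide +kernel)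
theorem L848 : W_1 (nat_lit 4) (nat_lit 0x4000400020001000080000000000000000000000000000000) (nat_lit 0x0) (nat_lit 0x280018000800000000000100008000000000000000000000000000) := T_1 (nat_lit 128) (nat_lit 111) (nat_lit 6) (nat_lit 8) (nat_lit 10) L847 (by decide +kernel)
theorem L849 : W_1 (nat_lit 5) (nat_lit 0x400020001000080000000000000000000000000000000) (nat_lit 0x0) (nat_lit 0x28001c000a00000000000100008000000000000000000000000000) := T_1 (nat_lit 194) (nat_lit 177) (nat_lit 5) (nat_lit 8) (nat_lit 7) L848 (by decide +kernel)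
theorem L850 : W_1 (nat_lit 7) (nat_lit 0x600020001000180000000000000000000000000000000) (nat_lit 0x0) (nat_lit 0x20007000380018000000010000800040002000000000000000000000000000) := T_1 (nat_lit 126) (nat_lit 109) (nat_lit 4) (nat_lit 8) (nat_lit 10) L532 (by decide +kernel)
theorem L851 : W_1 (nat_lit 8) (nat_lit 0x400020001000180000000000000000000000000000000) (nat_lit 0x0) (nat_lit 0x2000700038001c000200010000800040002000000000000000000000000000) := T_1 (nat_lit 177) (nat_lit 194) (nat_lit 5) (nat_lit 8) (nat_lit 7) L850 (by decide +kernel)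
theorem L852 : W_1 (nat_lit 9) (nat_lit 0x400020001000080000000000000000000000000000000) (nat_lit 0x0) (nat_lit 0x2000700038001c00020001000080014000a000000000000000000000000000) := T_1 (nat_lit 128) (nat_lit 111) (nat_lit 6) (nat_lit 8) (nat_lit 10) L851 (by decide +kernel)
theorem L857 : W_1 (nat_lit 3) (nat_lit 0x6000200010001c0000000000000000000000000000000) (nat_lit 0x0) (nat_lit 0x8000000000000e00200000000000000000000000000000000) := T_1 (nat_lit 143) (nat_lit 195) (nat_lit 4) (nat_lit 8) (nat_lit 11) L544 (by decide +kernel)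
theorem L858 : W_1 (nat_lit 4) (nat_lit 0x600020001000180000000000000000000000000000000) (nat_lit 0x0) (nat_lit 0x8000000000000e00240002000000000000000000000000000) := T_1 (nat_lit 126) (nat_lit 109) (nat_lit 4) (nat_lit 8) (nat_lit 10) L857 (by decide +kernel)
theorem L862 : W_1 (nat_lit 2) (nat_lit 0x10000c000400020001a00180000000000000000000000000000000) (nat_lit 0x0) (nat_lit 0x4000200010000000000000000000000000000000000000000000000000) := D_1 (nat_lit 213) (nat_lit 196) (nat_lit 230) (nat_lit 7) (nat_lit 8) (nat_lit 8) (nat_lit 7) (nat_lit 8) (nat_lit 9) (by decide +kernel)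
theorem L863 : W_1 (nat_lit 3) (nat_lit 0xc000400020001a00180000000000000000000000000000000) (nat_lit 0x0) (nat_lit 0x4000300010000000010000000000000000000000000000000000000000) := T_1 (nat_lit 212) (nat_lit 160) (nat_lit 4) (nat_lit 8) (nat_lit 12) L862 (by decide +kernel)
theorem L864 : W_1 (nat_lit 4) (nat_lit 0xc000400020001800180000000000000000000000000000000) (nat_lit 0x0) (nat_lit 0x4000300010000000010000600000000000000000000000000000000000) := T_1 (nat_lit 141) (nat_lit 142) (nat_lit 2) (nat_lit 5) (nat_lit 8) L863 (by decide +kernel)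
theorem L865 : W_1 (nat_lit 5) (nat_lit 0xc000400020001000180000000000000000000000000000000) (nat_lit 0x0) (nat_lit 0x4000300010000000010000e00040000000000000000000000000000000) := T_1 (nat_lit 143) (nat_lit 126) (nat_lit 4) (nat_lit 8) (nat_lit 11) L864 (by decide +kernel)
theorem L866 : W_1 (nat_lit 6) (nat_lit 0x4000400020001000180000000000000000000000000000000) (nat_lit 0x0) (nat_lit 0x4000380018000000010000e00040000000000000000000000000000000) := T_1 (nat_lit 195) (nat_lit 211) (nat_lit 5) (nat_lit 8) (nat_lit 8) L865 (by decide +kernel)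
theorem L867 : W_1 (nat_lit 7) (nat_lit 0x400020001000180000000000000000000000000000000) (nat_lit 0x0) (nat_lit 0x400038001c000200010000e00040000000000000000000000000000000) := T_1 (nat_lit 194) (nat_lit 177) (nat_lit 5) (nat_lit 8) (nat_lit 7) L866 (by decide +kernel)
theorem L868 : W_1 (nat_lit 8) (nat_lit 0x400020001000080000000000000000000000000000000) (nat_lit 0x0) (nat_lit 0x400038001c000200010000e00140008000000000000000000000000000) := T_1 (nat_lit 128) (nat_lit 111) (nat_lit 6) (nat_lit 8) (nat_lit 10) L867 (by decide +kernel)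
theorem L869 : W_1 (nat_lit 2) (nat_lit 0xc00020001000080004000000000000000000000000000) (nat_lit 0x0) (nat_lit 0x100008000400000000000000000000000) := D_1 (nat_lit 111) (nat_lit 94) (nat_lit 128) (nat_lit 6) (nat_lit 8) (nat_lit 9) (nat_lit 6) (nat_lit 8) (nat_lit 10) (by decide +kernel)
theorem L870 : W_1 (nat_lit 3) (nat_lit 0xc00020001000080000000000000000000000000000000) (nat_lit 0x0) (nat_lit 0x4000000010000c000400000000000000000000000) := T_1 (nat_lit 110) (nat_lit 162) (nat_lit 7) (nat_lit 8) (nat_lit 6) L869 (by decide +kernel)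
theorem L871 : W_1 (nat_lit 4) (nat_lit 0x400020001000080000000000000000000000000000000) (nat_lit 0x0) (nat_lit 0x1000080004000000010000c000400000000000000000000000) := T_1 (nat_lit 179) (nat_lit 196) (nat_lit 7) (nat_lit 8) (nat_lit 7) L870 (by decide +kernel)
theorem L888 : W_1 (nat_lit 2) (nat_lit 0x80008000c000600010000c0000000000000000000000000000000) (nat_lit 0x0) (nat_lit 0x3000100000000000000000000000000000000000000000000000000000) := D_1 (nat_lit 212) (nat_lit 229) (nat_lit 228) (nat_lit 6) (nat_lit 8) (nat_lit 13) (nat_lit 5) (nat_lit 8) (nat_lit 9) (by decide +kernel)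
theorem L889 : W_1 (nat_lit 3) (nat_lit 0x8000c000600010000c0000000000000000000000000000000) (nat_lit 0x0) (nat_lit 0x3000180004000000000000000000000000000000000000000000000000) := T_1 (nat_lit 211) (nat_lit 194) (nat_lit 5) (nat_lit 8) (nat_lit 8) L888 (by decide +kernel)
theorem L890 : W_1 (nat_lit 4) (nat_lit 0xc000600010000c0000000000000000000000000000000) (nat_lit 0x0) (nat_lit 0x300018000c000000000000800000000000000000000000000000000000) := T_1 (nat_lit 195) (nat_lit 143) (nat_lit 4) (nat_lit 8) (nat_lit 11) L889 (by decide +kernel)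
theorem L901 : W_1 (nat_lit 2) (nat_lit 0x600020001000080008000000000000000000000000000) (nat_lit 0x0) (nat_lit 0x10000000000004000400000000000000000000000) := D_1 (nat_lit 110) (nat_lit 160) (nat_lit 94) (nat_lit 5) (nat_lit 8) (nat_lit 6) (nat_lit 6) (nat_lit 8) (nat_lit 9) (by decide +kernel)
theorem L902 : W_1 (nat_lit 3) (nat_lit 0x400020001000080008000000000000000000000000000) (nat_lit 0x0) (nat_lit 0x4000200010000000000004000400000000000000000000000) := T_1 (nat_lit 177) (nat_lit 194) (nat_lit 5) (nat_lit 8) (nat_lit 7) L901 (by decide +kernel)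
theorem L903 : W_1 (nat_lit 4) (nat_lit 0x400020001000080000000000000000000000000000000) (nat_lit 0x0) (nat_lit 0x400020001000000010000c000400000000000000000000000) := T_1 (nat_lit 111) (nat_lit 128) (nat_lit 6) (nat_lit 8) (nat_lit 10) L902 (by decide +kernel)
theorem L914 : W_1 (nat_lit 2) (nat_lit 0xa00020001000080006000000000000000000000000000) (nat_lit 0x0) (nat_lit 0x14000400000000000000000000000000000000000000000000) := D_1 (nat_lit 178) (nat_lit 194) (nat_lit 196) (nat_lit 5) (nat_lit 8) (nat_lit 7) (nat_lit 7) (nat_lit 8) (nat_lit 7) (by decide +kernel)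
theorem L915 : W_1 (nat_lit 3) (nat_lit 0x200020001000080006000000000000000000000000000) (nat_lit 0x0) (nat_lit 0x14000c00040000000000000000000000000000000000000000) := T_1 (nat_lit 179) (nat_lit 162) (nat_lit 7) (nat_lit 8) (nat_lit 6) L914 (by decide +kernel)
theorem L918 : W_1 (nat_lit 2) (nat_lit 0x3000100018000e000000000000000000000000000) (nat_lit 0x0) (nat_lit 0x200001800000000000000000000000000) := D_1 (nat_lit 108) (nat_lit 129) (nat_lit 107) (nat_lit 3) (nat_lit 6) (nat_lit 6) (nat_lit 3) (nat_lit 5) (nat_lit 6) (by decide +kernel)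
theorem L919 : W_1 (nat_lit 3) (nat_lit 0x3000100008000e000000000000000000000000000) (nat_lit 0x0) (nat_lit 0x400000000000300001800000000000000000000000000) := T_1 (nat_lit 128) (nat_lit 178) (nat_lit 6) (nat_lit 8) (nat_lit 10) L918 (by decide +kernel)
theorem L920 : W_1 (nat_lit 4) (nat_lit 0x30001000080006000000000000000000000000000) (nat_lit 0x0) (nat_lit 0x400000000000300009800400000000000000000000000) := T_1 (nat_lit 111) (nat_lit 94) (nat_lit 6) (nat_lit 8) (nat_lit 9) L919 (by decide +kernel)
theorem L921 : W_1 (nat_lit 5) (nat_lit 0x30001000080004000000000000000000000000000) (nat_lit 0x0) (nat_lit 0x40000000000030000b800500000000000000000000000) := T_1 (nat_lit 109) (nat_lit 92) (nat_lit 4) (nat_lit 8) (nat_lit 9) L920 (by decide +kernel)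
theorem L922 : W_1 (nat_lit 6) (nat_lit 0x20001000080004000000000000000000000000000) (nat_lit 0x0) (nat_lit 0x60001000000030000b800500000000000000000000000) := T_1 (nat_lit 160) (nat_lit 177) (nat_lit 5) (nat_lit 8) (nat_lit 6) L921 (by decide +kernel)
theorem L923 : W_1 (nat_lit 2) (nat_lit 0x6000100018000e000000000000000000000000000) (nat_lit 0x0) (nat_lit 0x200001800000000000000000000000000) := D_1 (nat_lit 108) (nat_lit 129) (nat_lit 107) (nat_lit 3) (nat_lit 6) (nat_lit 6) (nat_lit 3) (nat_lit 5) (nat_lit 6) (by decide +kernel)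
theorem L932 : W_1 (nat_lit 2) (nat_lit 0x2000f00168001a00080000000000000000000000000000000) (nat_lit 0x0) (nat_lit 0x40000001000010000000000000000000000000000000000000000) := D_1 (nat_lit 160) (nat_lit 180) (nat_lit 210) (nat_lit 3) (nat_lit 6) (nat_lit 9) (nat_lit 6) (nat_lit 6) (nat_lit 12) (by decide +kernel)
theorem L933 : W_1 (nat_lit 3) (nat_lit 0x2000f00160001a00080000000000000000000000000000000) (nat_lit 0x0) (nat_lit 0x4000000100001c000000000000000000000000000000000000000) := T_1 (nat_lit 159) (nat_lit 158) (nat_lit 0) (nat_lit 9) (nat_lit 10) L932 (by decide +kernel)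
theorem L934 : W_1 (nat_lit 4) (nat_lit 0xf00160001a00080000000000000000000000000000000) (nat_lit 0x0) (nat_lit 0x4000300100001c000000000000000000000000000000000000000) := T_1 (nat_lit 193) (nat_lit 192) (nat_lit 1) (nat_lit 9) (nat_lit 10) L933 (by decide +kernel)
theorem L935 : W_1 (nat_lit 5) (nat_lit 0xe00160001a00080000000000000000000000000000000) (nat_lit 0x0) (nat_lit 0x4000300118001c000000000000000000000000000000000000000) := T_1 (nat_lit 176) (nat_lit 175) (nat_lit 2) (nat_lit 5) (nat_lit 10) L934 (by decide +kernel)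
theorem L936 : W_1 (nat_lit 6) (nat_lit 0xc00160001a00080000000000000000000000000000000) (nat_lit 0x0) (nat_lit 0x4000700138001c000000000000000000000000000000000000000) := T_1 (nat_lit 177) (nat_lit 194) (nat_lit 5) (nat_lit 8) (nat_lit 7) L935 (by decide +kernel)
theorem L940 : W_1 (nat_lit 2) (nat_lit 0x700060001800080000000000000000000000000000000) (nat_lit 0x0) (nat_lit 0x10000800080000000000000000000000000000000000000000) := D_1 (nat_lit 179) (nat_lit 196) (nat_lit 163) (nat_lit 7) (nat_lit 8) (nat_lit 7) (nat_lit 2) (nat_lit 6) (nat_lit 10) (by decide +kernel)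
theorem L941 : W_1 (nat_lit 3) (nat_lit 0x600060001800080000000000000000000000000000000) (nat_lit 0x0) (nat_lit 0x10000980080000000000000000000000000000000000000000) := T_1 (nat_lit 176) (nat_lit 175) (nat_lit 2) (nat_lit 5) (nat_lit 10) L940 (by decide +kernel)
theorem L942 : W_1 (nat_lit 4) (nat_lit 0x400060001800080000000000000000000000000000000) (nat_lit 0x0) (nat_lit 0x14000b80080000000000000000000000000000000000000000) := T_1 (nat_lit 177) (nat_lit 194) (nat_lit 5) (nat_lit 8) (nat_lit 7) L941 (by decide +kernel)
theorem L952 : W_1 (nat_lit 2) (nat_lit 0x2000f00068001a00080000000000000000000000000000000) (nat_lit 0x0) (nat_lit 0x40000001000010000000000000000000000000000000000000000) := D_1 (nat_lit 160) (nat_lit 180) (nat_lit 210) (nat_lit 3) (nat_lit 6) (nat_lit 9) (nat_lit 6) (nat_lit 6) (nat_lit 12) (by decide +kernel)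
theorem L953 : W_1 (nat_lit 3) (nat_lit 0x2000f00060001a00080000000000000000000000000000000) (nat_lit 0x0) (nat_lit 0x4000000100001c000000000000000000000000000000000000000) := T_1 (nat_lit 159) (nat_lit 158) (nat_lit 0) (nat_lit 9) (nat_lit 10) L952 (by decide +kernel)
theorem L954 : W_1 (nat_lit 4) (nat_lit 0xf00060001a00080000000000000000000000000000000) (nat_lit 0x0) (nat_lit 0x4000300100001c000000000000000000000000000000000000000) := T_1 (nat_lit 193) (nat_lit 192) (nat_lit 1) (nat_lit 9) (nat_lit 10) L953 (by decide +kernel)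
theorem L955 : W_1 (nat_lit 5) (nat_lit 0x700060001a00080000000000000000000000000000000) (nat_lit 0x0) (nat_lit 0x4001300180001c000000000000000000000000000000000000000) := T_1 (nat_lit 179) (nat_lit 196) (nat_lit 7) (nat_lit 8) (nat_lit 7) L954 (by decide +kernel)
theorem L956 : W_1 (nat_lit 6) (nat_lit 0x600060001a00080000000000000000000000000000000) (nat_lit 0x0) (nat_lit 0x4001300198001c000000000000000000000000000000000000000) := T_1 (nat_lit 176) (nat_lit 175) (nat_lit 2) (nat_lit 5) (nat_lit 10) L955 (by decide +kernel)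
theorem L957 : W_1 (nat_lit 7) (nat_lit 0x400060001a00080000000000000000000000000000000) (nat_lit 0x0) (nat_lit 0x40017001b8001c000000000000000000000000000000000000000) := T_1 (nat_lit 177) (nat_lit 194) (nat_lit 5) (nat_lit 8) (nat_lit 7) L956 (by decide +kernel)
theorem L958 : W_1 (nat_lit 8) (nat_lit 0x400060001800080000000000000000000000000000000) (nat_lit 0x0) (nat_lit 0x40017001b8001c000600000000000000000000000000000000000) := T_1 (nat_lit 141) (nat_lit 142) (nat_lit 3) (nat_lit 5) (nat_lit 8) L957 (by decide +kernel)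
theorem L960 : W_1 (nat_lit 2) (nat_lit 0xe000a0005a003c0010000000000000000000000000000) (nat_lit 0x0) (nat_lit 0x3000100000000000000000000000000000000000000000) := D_1 (nat_lit 164) (nat_lit 180) (nat_lit 181) (nat_lit 2) (nat_lit 7) (nat_lit 10) (nat_lit 7) (nat_lit 10) (nat_lit 6) (by decide +kernel)
theorem L961 : W_1 (nat_lit 3) (nat_lit 0xe00020005a003c0010000000000000000000000000000) (nat_lit 0x0) (nat_lit 0x30001c0000000000000000000000000000000000000000) := T_1 (nat_lit 163) (nat_lit 162) (nat_lit 5) (nat_lit 10) (nat_lit 6) L960 (by decide +kernel)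
theorem L970 : W_1 (nat_lit 2) (nat_lit 0x1e000b4001800080000000000000000000000000000000) (nat_lit 0x0) (nat_lit 0x100040000400000000000000000000000000000000000) := D_1 (nat_lit 162) (nat_lit 176) (nat_lit 142) (nat_lit 2) (nat_lit 6) (nat_lit 10) (nat_lit 0) (nat_lit 10) (nat_lit 9) (by decide +kernel)
theorem L971 : W_1 (nat_lit 3) (nat_lit 0x1e00034001800080000000000000000000000000000000) (nat_lit 0x0) (nat_lit 0x1001c0000400000000000000000000000000000000000) := T_1 (nat_lit 163) (nat_lit 164) (nat_lit 2) (nat_lit 7) (nat_lit 10) L970 (by decide +kernel)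
theorem L972 : W_1 (nat_lit 4) (nat_lit 0x1c00034001800080000000000000000000000000000000) (nat_lit 0x0) (nat_lit 0x40003001c0000400000000000000000000000000000000000) := T_1 (nat_lit 177) (nat_lit 194) (nat_lit 6) (nat_lit 7) (nat_lit 11) L971 (by decide +kernel)
theorem L973 : W_1 (nat_lit 5) (nat_lit 0xc00034001800080000000000000000000000000000000) (nat_lit 0x0) (nat_lit 0x40033001c0000400000000000000000000000000000000000) := T_1 (nat_lit 180) (nat_lit 181) (nat_lit 0) (nat_lit 11) (nat_lit 10) L972 (by decide +kernel)
theorem L974 : W_1 (nat_lit 6) (nat_lit 0xc00030001800080000000000000000000000000000000) (nat_lit 0x0) (nat_lit 0x40033001cc000400000000000000000000000000000000000) := T_1 (nat_lit 158) (nat_lit 159) (nat_lit 3) (nat_lit 5) (nat_lit 9) L973 (by decide +kernel)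
theorem L975 : W_1 (nat_lit 7) (nat_lit 0x400030001800080000000000000000000000000000000) (nat_lit 0x0) (nat_lit 0x14003b001cc000400000000000000000000000000000000000) := T_1 (nat_lit 179) (nat_lit 196) (nat_lit 7) (nat_lit 8) (nat_lit 7) L974 (by decide +kernel)
theorem L981 : W_1 (nat_lit 3) (nat_lit 0x4000200018000c0000000000000000000000000000000) (nat_lit 0x0) (nat_lit 0x600300008000000000000000000000000000) := T_1 (nat_lit 128) (nat_lit 111) (nat_lit 6) (nat_lit 8) (nat_lit 10) L606 (by decide +kernel)
theorem L982 : W_1 (nat_lit 4) (nat_lit 0x400020001800080000000000000000000000000000000) (nat_lit 0x0) (nat_lit 0x60034000a000000000000000000000000000) := T_1 (nat_lit 126) (nat_lit 109) (nat_lit 4) (nat_lit 8) (nat_lit 10) L981 (by decide +kernel)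
theorem L992 : W_1 (nat_lit 2) (nat_lit 0x100006000200010000c0000000000000000000000000000000) (nat_lit 0x0) (nat_lit 0x200008000000000000800000000000000000000000000000000000) := D_1 (nat_lit 195) (nat_lit 143) (nat_lit 213) (nat_lit 4) (nat_lit 8) (nat_lit 11) (nat_lit 7) (nat_lit 8) (nat_lit 8) (by decide +kernel)
theorem L993 : W_1 (nat_lit 3) (nat_lit 0x6000200010000c0000000000000000000000000000000) (nat_lit 0x0) (nat_lit 0x200018000800000000800000000000000000000000000000000000) := T_1 (nat_lit 196) (nat_lit 179) (nat_lit 7) (nat_lit 8) (nat_lit 7) L992 (by decide +kernel)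
theorem L994 : W_1 (nat_lit 4) (nat_lit 0x600020001000080000000000000000000000000000000) (nat_lit 0x0) (nat_lit 0x200018000800000000800040002000000000000000000000000000) := T_1 (nat_lit 126) (nat_lit 109) (nat_lit 4) (nat_lit 8) (nat_lit 10) L993 (by decide +kernel)
theorem L1000 : W_1 (nat_lit 8) (nat_lit 0x600020001000080000000000000000000000000000000) (nat_lit 0x0) (nat_lit 0x2000700038001800000001000080014000a000000000000000000000000000) := T_1 (nat_lit 128) (nat_lit 111) (nat_lit 6) (nat_lit 8) (nat_lit 10) L850 (by decide +kernel)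
theorem L1001 : W_1 (nat_lit 9) (nat_lit 0x400020001000080000000000000000000000000000000) (nat_lit 0x0) (nat_lit 0x2000700038001c00020001000080014000a000000000000000000000000000) := T_1 (nat_lit 177) (nat_lit 194) (nat_lit 5) (nat_lit 8) (nat_lit 7) L1000 (by decide +kernel)
theorem L1002 : W_1 (nat_lit 4) (nat_lit 0xc000200010000c0000000000000000000000000000000) (nat_lit 0x0) (nat_lit 0x8000000000000e00300008000000000000000000000000000) := T_1 (nat_lit 143) (nat_lit 195) (nat_lit 4) (nat_lit 8) (nat_lit 11) L500 (by decide +kernel)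
theorem L1003 : W_1 (nat_lit 5) (nat_lit 0x4000200010000c0000000000000000000000000000000) (nat_lit 0x0) (nat_lit 0x18000800000000e00300008000000000000000000000000000) := T_1 (nat_lit 179) (nat_lit 196) (nat_lit 7) (nat_lit 8) (nat_lit 7) L1002 (by decide +kernel)
theorem L1004 : W_1 (nat_lit 6) (nat_lit 0x400020001000080000000000000000000000000000000) (nat_lit 0x0) (nat_lit 0x18000800000000e0034000a000000000000000000000000000) := T_1 (nat_lit 126) (nat_lit 109) (nat_lit 4) (nat_lit 8) (nat_lit 10) L1003 (by decide +kernel)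
theorem L1005 : W_1 (nat_lit 5) (nat_lit 0x400020001000180000000000000000000000000000000) (nat_lit 0x0) (nat_lit 0xc000200000000e00240002000000000000000000000000000) := T_1 (nat_lit 177) (nat_lit 194) (nat_lit 5) (nat_lit 8) (nat_lit 7) L858 (by decide +kernel)
theorem L1006 : W_1 (nat_lit 6) (nat_lit 0x400020001000080000000000000000000000000000000) (nat_lit 0x0) (nat_lit 0xc000200000000e0034000a000000000000000000000000000) := T_1 (nat_lit 128) (nat_lit 111) (nat_lit 6) (nat_lit 8) (nat_lit 10) L1005 (by decide +kernel)
theorem L1008 : W_1 (nat_lit 2) (nat_lit 0xc000200010000c0004000000000000000000000000000) (nat_lit 0x0) (nat_lit 0x4000200010000000000000000000000000000000000000000) := D_1 (nat_lit 177) (nat_lit 160) (nat_lit 194) (nat_lit 5) (nat_lit 8) (nat_lit 6) (nat_lit 5) (nat_lit 8) (nat_lit 7) (by decide +kernel)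
theorem L1009 : W_1 (nat_lit 3) (nat_lit 0xc000200010000c0000000000000000000000000000000) (nat_lit 0x0) (nat_lit 0x4000200050000000000004000000000000000000000000000) := T_1 (nat_lit 110) (nat_lit 162) (nat_lit 7) (nat_lit 8) (nat_lit 6) L1008 (by decide +kernel)
theorem L1010 : W_1 (nat_lit 4) (nat_lit 0x4000200010000c0000000000000000000000000000000) (nat_lit 0x0) (nat_lit 0x14000a00050000000000004000000000000000000000000000) := T_1 (nat_lit 179) (nat_lit 196) (nat_lit 7) (nat_lit 8) (nat_lit 7) L1009 (by decide +kernel)
theorem L1011 : W_1 (nat_lit 5) (nat_lit 0x400020001000080000000000000000000000000000000) (nat_lit 0x0) (nat_lit 0x14000a00050000000040006000000000000000000000000000) := T_1 (nat_lit 126) (nat_lit 109) (nat_lit 4) (nat_lit 8) (nat_lit 10) L1010 (by decide +kernel)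
theorem L1012 : W_1 (nat_lit 2) (nat_lit 0x600020001000080004000000000000000000000000000) (nat_lit 0x0) (nat_lit 0x40002000100000000000000000000000) := D_1 (nat_lit 109) (nat_lit 92) (nat_lit 126) (nat_lit 4) (nat_lit 8) (nat_lit 9) (nat_lit 4) (nat_lit 8) (nat_lit 10) (by decide +kernel)
theorem L1013 : W_1 (nat_lit 3) (nat_lit 0x600020001000080000000000000000000000000000000) (nat_lit 0x0) (nat_lit 0x10000000040006000100000000000000000000000) := T_1 (nat_lit 110) (nat_lit 160) (nat_lit 5) (nat_lit 8) (nat_lit 6) L1012 (by decide +kernel)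
theorem L1014 : W_1 (nat_lit 4) (nat_lit 0x400020001000080000000000000000000000000000000) (nat_lit 0x0) (nat_lit 0x4000200010000000040006000100000000000000000000000) := T_1 (nat_lit 177) (nat_lit 194) (nat_lit 5) (nat_lit 8) (nat_lit 7) L1013 (by decide +kernel)
theorem L1015 : W_1 (nat_lit 2) (nat_lit 0xc00020001000080002000000000000000000000000000) (nat_lit 0x0) (nat_lit 0x40000000000004000100000000000000000000000) := D_1 (nat_lit 110) (nat_lit 162) (nat_lit 92) (nat_lit 7) (nat_lit 8) (nat_lit 6) (nat_lit 4) (nat_lit 8) (nat_lit 9) (by decide +kernel)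
theorem L1016 : W_1 (nat_lit 3) (nat_lit 0x400020001000080002000000000000000000000000000) (nat_lit 0x0) (nat_lit 0x10000800040000000000004000100000000000000000000000) := T_1 (nat_lit 179) (nat_lit 196) (nat_lit 7) (nat_lit 8) (nat_lit 7) L1015 (by decide +kernel)
theorem L1017 : W_1 (nat_lit 4) (nat_lit 0x400020001000080000000000000000000000000000000) (nat_lit 0x0) (nat_lit 0x10000800040000000040006000100000000000000000000000) := T_1 (nat_lit 109) (nat_lit 126) (nat_lit 4) (nat_lit 8) (nat_lit 10) L1016 (by decide +kernel)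
theorem L1019 : W_1 (nat_lit 2) (nat_lit 0x800020001000080006000000000000000000000000000) (nat_lit 0x0) (nat_lit 0x10000400000000000040000000000000000000000000000000) := D_1 (nat_lit 178) (nat_lit 126) (nat_lit 196) (nat_lit 4) (nat_lit 8) (nat_lit 10) (nat_lit 7) (nat_lit 8) (nat_lit 7) (by decide +kernel)
theorem L1020 : W_1 (nat_lit 3) (nat_lit 0x20001000080006000000000000000000000000000) (nat_lit 0x0) (nat_lit 0x10000c00040000000040000000000000000000000000000000) := T_1 (nat_lit 179) (nat_lit 162) (nat_lit 7) (nat_lit 8) (nat_lit 6) L1019 (by decide +kernel)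
theorem L1021 : W_1 (nat_lit 4) (nat_lit 0x20001000080004000000000000000000000000000) (nat_lit 0x0) (nat_lit 0x10000c00040000000040002000100000000000000000000000) := T_1 (nat_lit 109) (nat_lit 92) (nat_lit 4) (nat_lit 8) (nat_lit 9) L1020 (by decide +kernel)
theorem L1022 : W_1 (nat_lit 2) (nat_lit 0x70001800080006000000000000000000000000000) (nat_lit 0x0) (nat_lit 0x80000600000000000000000000000000000000000) := D_1 (nat_lit 142) (nat_lit 141) (nat_lit 163) (nat_lit 3) (nat_lit 5) (nat_lit 8) (nat_lit 0) (nat_lit 10) (nat_lit 9) (by decide +kernel)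
theorem L1023 : W_1 (nat_lit 3) (nat_lit 0x30001800080006000000000000000000000000000) (nat_lit 0x0) (nat_lit 0x8000c0000600000000000000000000000000000000000) := T_1 (nat_lit 162) (nat_lit 179) (nat_lit 7) (nat_lit 8) (nat_lit 6) L1022 (by decide +kernel)
theorem L1027 : W_1 (nat_lit 3) (nat_lit 0x70001000080004000000000000000000000000000) (nat_lit 0x0) (nat_lit 0x80000e00000000000200000000000000000000000) := T_1 (nat_lit 143) (nat_lit 93) (nat_lit 5) (nat_lit 8) (nat_lit 5) L635 (by decide +kernel)
theorem L1028 : W_1 (nat_lit 4) (nat_lit 0x60001000080004000000000000000000000000000) (nat_lit 0x0) (nat_lit 0x200090000e00000000000200000000000000000000000) := T_1 (nat_lit 160) (nat_lit 177) (nat_lit 5) (nat_lit 8) (nat_lit 6) L1027 (by decide +kernel)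
theorem L1029 : W_1 (nat_lit 5) (nat_lit 0x20001000080004000000000000000000000000000) (nat_lit 0x0) (nat_lit 0xa000d0000e00000000000200000000000000000000000) := T_1 (nat_lit 162) (nat_lit 179) (nat_lit 7) (nat_lit 8) (nat_lit 6) L1028 (by decide +kernel)
theorem L1030 : W_1 (nat_lit 2) (nat_lit 0x30001000080004000200000000000000000000000) (nat_lit 0x0) (nat_lit 0x2000100008000000000000000000) := D_1 (nat_lit 92) (nat_lit 75) (nat_lit 109) (nat_lit 4) (nat_lit 8) (nat_lit 8) (nat_lit 4) (nat_lit 8) (nat_lit 9) (by decide +kernel)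
theorem L1031 : W_1 (nat_lit 3) (nat_lit 0x30001000080004000000000000000000000000000) (nat_lit 0x0) (nat_lit 0x800000002000300008000000000000000000) := T_1 (nat_lit 93) (nat_lit 143) (nat_lit 5) (nat_lit 8) (nat_lit 5) L1030 (by decide +kernel)
theorem L1032 : W_1 (nat_lit 4) (nat_lit 0x20001000080004000000000000000000000000000) (nat_lit 0x0) (nat_lit 0x200010000800000002000300008000000000000000000) := T_1 (nat_lit 160) (nat_lit 177) (nat_lit 5) (nat_lit 8) (nat_lit 6) L1031 (by decide +kernel)
theorem L1067 : W_1 (nat_lit 2) (nat_lit 0x8000400020001000080000000000000000000000000000000) (nat_lit 0x0) (nat_lit 0x80004000200000000000000000000000000000000000000000000) := D_1 (nat_lit 194) (nat_lit 177) (nat_lit 211) (nat_lit 5) (nat_lit 8) (nat_lit 7) (nat_lit 5) (nat_lit 8) (nat_lit 8) (by decide +kernel)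
theorem L1074 : W_1 (nat_lit 2) (nat_lit 0x280008000400020001000080000000000000000000000000000000) (nat_lit 0x0) (nat_lit 0x5000100000000000000000000000000000000000000000000000000000) := D_1 (nat_lit 212) (nat_lit 230) (nat_lit 228) (nat_lit 7) (nat_lit 8) (nat_lit 9) (nat_lit 5) (nat_lit 8) (nat_lit 9) (by decide +kernel)
theorem L1075 : W_1 (nat_lit 3) (nat_lit 0x200008000400020001000080000000000000000000000000000000) (nat_lit 0x0) (nat_lit 0x5000180004000000000000000000000000000000000000000000000000) := T_1 (nat_lit 211) (nat_lit 194) (nat_lit 5) (nat_lit 8) (nat_lit 8) L1074 (by decide +kernel)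
theorem L1076 : W_1 (nat_lit 4) (nat_lit 0x8000400020001000080000000000000000000000000000000) (nat_lit 0x0) (nat_lit 0x5000380014000000000000000000000000000000000000000000000000) := T_1 (nat_lit 213) (nat_lit 196) (nat_lit 7) (nat_lit 8) (nat_lit 8) L1075 (by decide +kernel)
theorem L1077 : W_1 (nat_lit 2) (nat_lit 0x18000600030001000080000000000000000000000000000000) (nat_lit 0x0) (nat_lit 0x2000100000000000000000800000000000000000000000000000000000) := D_1 (nat_lit 212) (nat_lit 229) (nat_lit 143) (nat_lit 4) (nat_lit 8) (nat_lit 13) (nat_lit 4) (nat_lit 8) (nat_lit 12) (by decide +kernel)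
theorem L1078 : W_1 (nat_lit 3) (nat_lit 0x18000600020001000080000000000000000000000000000000) (nat_lit 0x0) (nat_lit 0x2000100000000000010000800000004000000000000000000000000000) := T_1 (nat_lit 160) (nat_lit 110) (nat_lit 5) (nat_lit 8) (nat_lit 6) L1077 (by decide +kernel)
theorem L1079 : W_1 (nat_lit 4) (nat_lit 0x18000400020001000080000000000000000000000000000000) (nat_lit 0x0) (nat_lit 0x2000100004000200010000800000004000000000000000000000000000) := T_1 (nat_lit 177) (nat_lit 194) (nat_lit 5) (nat_lit 8) (nat_lit 7) L1078 (by decide +kernel)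
theorem L1080 : W_1 (nat_lit 5) (nat_lit 0x8000400020001000080000000000000000000000000000000) (nat_lit 0x0) (nat_lit 0x2000300014000200010000800000004000000000000000000000000000) := T_1 (nat_lit 196) (nat_lit 213) (nat_lit 7) (nat_lit 8) (nat_lit 8) L1079 (by decide +kernel)
theorem L1088 : W_1 (nat_lit 2) (nat_lit 0x400030001000080000000000000000000000000000000) (nat_lit 0x0) (nat_lit 0x4000200000000000000004000000000000000000000000000) := D_1 (nat_lit 177) (nat_lit 194) (nat_lit 110) (nat_lit 5) (nat_lit 8) (nat_lit 7) (nat_lit 5) (nat_lit 8) (nat_lit 6) (by decide +kernel)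
theorem L1092 : W_1 (nat_lit 2) (nat_lit 0x4000400030001800080000000000000000000000000000000) (nat_lit 0x0) (nat_lit 0x180008000000000000000000000000000000000000000000000000) := D_1 (nat_lit 195) (nat_lit 212) (nat_lit 211) (nat_lit 4) (nat_lit 8) (nat_lit 12) (nat_lit 5) (nat_lit 8) (nat_lit 8) (by decide +kernel)
theorem L1093 : W_1 (nat_lit 3) (nat_lit 0x400030001800080000000000000000000000000000000) (nat_lit 0x0) (nat_lit 0x18000c000200000000000000000000000000000000000000000000) := T_1 (nat_lit 194) (nat_lit 177) (nat_lit 6) (nat_lit 7) (nat_lit 11) L1092 (by decide +kernel)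
theorem L1132 : W_1 (nat_lit 2) (nat_lit 0x400078001000080000000000000000000000000000000) (nat_lit 0x0) (nat_lit 0x1800004000000000000000000000000000000000000000) := D_1 (nat_lit 179) (nat_lit 158) (nat_lit 180) (nat_lit 3) (nat_lit 5) (nat_lit 9) (nat_lit 3) (nat_lit 6) (nat_lit 9) (by decide +kernel)
theorem L1140 : W_1 (nat_lit 2) (nat_lit 0x40007c001400080000000000000000000000000000000) (nat_lit 0x0) (nat_lit 0x82000800000000000000000000000000000000000) := D_1 (nat_lit 143) (nat_lit 157) (nat_lit 163) (nat_lit 2) (nat_lit 4) (nat_lit 9) (nat_lit 0) (nat_lit 10) (nat_lit 9) (by decide +kernel)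
theorem L1141 : W_1 (nat_lit 3) (nat_lit 0x400078001400080000000000000000000000000000000) (nat_lit 0x0) (nat_lit 0x800086000800000000000000000000000000000000000) := T_1 (nat_lit 158) (nat_lit 179) (nat_lit 3) (nat_lit 5) (nat_lit 9) L1140 (by decide +kernel)
theorem L1142 : W_1 (nat_lit 4) (nat_lit 0x400078001000080000000000000000000000000000000) (nat_lit 0x0) (nat_lit 0x800086000e00000000000000000000000000000000000) := T_1 (nat_lit 142) (nat_lit 141) (nat_lit 0) (nat_lit 9) (nat_lit 9) L1141 (by decide +kernel)
theorem L1144 : W_1 (nat_lit 2) (nat_lit 0x400070001000080004000200000000000000000000000) (nat_lit 0x0) (nat_lit 0x2000100008000000000000000000) := D_1 (nat_lit 92) (nat_lit 75) (nat_lit 109) (nat_lit 4) (nat_lit 8) (nat_lit 8) (nat_lit 4) (nat_lit 8) (nat_lit 9) (by decide +kernel)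
theorem L1145 : W_1 (nat_lit 3) (nat_lit 0x400070001000080004000000000000000000000000000) (nat_lit 0x0) (nat_lit 0x800000002000300008000000000000000000) := T_1 (nat_lit 93) (nat_lit 143) (nat_lit 5) (nat_lit 8) (nat_lit 5) L1144 (by decide +kernel)
theorem L1146 : W_1 (nat_lit 4) (nat_lit 0x400070001000080000000000000000000000000000000) (nat_lit 0x0) (nat_lit 0x800000000800000006000300008000000000000000000) := T_1 (nat_lit 110) (nat_lit 179) (nat_lit 7) (nat_lit 8) (nat_lit 6) L1145 (by decide +kernel)
theorem L1147 : W_1 (nat_lit 2) (nat_lit 0xc00070001000080000000000000000000000000000000) (nat_lit 0x0) (nat_lit 0x100000c000000000000000000000000000000000000000) := D_1 (nat_lit 159) (nat_lit 180) (nat_lit 158) (nat_lit 3) (nat_lit 6) (nat_lit 9) (nat_lit 3) (nat_lit 5) (nat_lit 9) (by decide +kernel)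
theorem L1148 : W_1 (nat_lit 3) (nat_lit 0x400070001000080000000000000000000000000000000) (nat_lit 0x0) (nat_lit 0x180000c000000000004000000000000000000000000000) := T_1 (nat_lit 179) (nat_lit 110) (nat_lit 7) (nat_lit 8) (nat_lit 6) L1147 (by decide +kernel)
theorem L1153 : W_1 (nat_lit 2) (nat_lit 0x25000f8009400080000000000000000000000000000000) (nat_lit 0x0) (nat_lit 0x4000100010000000000000000000000000000000000000) := D_1 (nat_lit 164) (nat_lit 182) (nat_lit 148) (nat_lit 3) (nat_lit 8) (nat_lit 9) (nat_lit 2) (nat_lit 8) (nat_lit 9) (by decide +kernel)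
theorem L1154 : W_1 (nat_lit 3) (nat_lit 0x25000f8001400080000000000000000000000000000000) (nat_lit 0x0) (nat_lit 0x400010001c000000000000000000000000000000000000) := T_1 (nat_lit 147) (nat_lit 146) (nat_lit 2) (nat_lit 7) (nat_lit 9) L1153 (by decide +kernel)
theorem L1155 : W_1 (nat_lit 4) (nat_lit 0x5000f8001400080000000000000000000000000000000) (nat_lit 0x0) (nat_lit 0x700010001c000000000000000000000000000000000000) := T_1 (nat_lit 181) (nat_lit 180) (nat_lit 3) (nat_lit 7) (nat_lit 9) L1154 (by decide +kernel)
theorem L1156 : W_1 (nat_lit 5) (nat_lit 0x500078001400080000000000000000000000000000000) (nat_lit 0x0) (nat_lit 0x700018001c800000000000000000000000000000000000) := T_1 (nat_lit 163) (nat_lit 143) (nat_lit 0) (nat_lit 10) (nat_lit 9) L1155 (by decide +kernel)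
theorem L1157 : W_1 (nat_lit 6) (nat_lit 0x400078001400080000000000000000000000000000000) (nat_lit 0x0) (nat_lit 0x718018001c800000000000000000000000000000000000) := T_1 (nat_lit 176) (nat_lit 175) (nat_lit 1) (nat_lit 9) (nat_lit 9) L1156 (by decide +kernel)
theorem L1158 : W_1 (nat_lit 7) (nat_lit 0x400078001000080000000000000000000000000000000) (nat_lit 0x0) (nat_lit 0x718018001ce00000000000000000000000000000000000) := T_1 (nat_lit 142) (nat_lit 141) (nat_lit 0) (nat_lit 9) (nat_lit 9) L1157 (by decide +kernel)
theorem L1198 : W_1 (nat_lit 2) (nat_lit 0x1800380014000f0000000000000000000000000000000) (nat_lit 0x0) (nat_lit 0x2000000000000200100000000000000000000000000000000) := D_1 (nat_lit 141) (nat_lit 128) (nat_lit 193) (nat_lit 1) (nat_lit 9) (nat_lit 7) (nat_lit 4) (nat_lit 6) (nat_lit 11) (by decide +kernel)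
theorem L1199 : W_1 (nat_lit 3) (nat_lit 0x1800380014000b0000000000000000000000000000000) (nat_lit 0x0) (nat_lit 0x2000000000000200140002000000000000000000000000000) := T_1 (nat_lit 126) (nat_lit 109) (nat_lit 6) (nat_lit 6) (nat_lit 10) L1198 (by decide +kernel)
theorem L1200 : W_1 (nat_lit 4) (nat_lit 0x1800380014000a0000000000000000000000000000000) (nat_lit 0x0) (nat_lit 0x2000000000000200150002800000000000000000000000000) := T_1 (nat_lit 124) (nat_lit 107) (nat_lit 4) (nat_lit 6) (nat_lit 10) L1199 (by decide +kernel)
theorem L1201 : W_1 (nat_lit 5) (nat_lit 0x800380014000a0000000000000000000000000000000) (nat_lit 0x0) (nat_lit 0x3000100000000200150002800000000000000000000000000) := T_1 (nat_lit 176) (nat_lit 192) (nat_lit 5) (nat_lit 6) (nat_lit 7) L1200 (by decide +kernel)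
theorem L1203 : W_1 (nat_lit 2) (nat_lit 0x80038001400080000000000000000000000000000000) (nat_lit 0x0) (nat_lit 0x100040000200000000000000000000000000000000000) := D_1 (nat_lit 162) (nat_lit 141) (nat_lit 176) (nat_lit 0) (nat_lit 9) (nat_lit 9) (nat_lit 1) (nat_lit 9) (nat_lit 9) (by decide +kernel)
theorem L1205 : W_1 (nat_lit 2) (nat_lit 0x80078001200080000000000000000000000000000000) (nat_lit 0x0) (nat_lit 0x40004000100000000000000000000000000000000000) := D_1 (nat_lit 158) (nat_lit 174) (nat_lit 140) (nat_lit 1) (nat_lit 8) (nat_lit 9) (nat_lit 0) (nat_lit 8) (nat_lit 9) (by decide +kernel)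
theorem L1206 : W_1 (nat_lit 3) (nat_lit 0x80078001000080000000000000000000000000000000) (nat_lit 0x0) (nat_lit 0x40004000700000000000000000000000000000000000) := T_1 (nat_lit 141) (nat_lit 142) (nat_lit 0) (nat_lit 9) (nat_lit 9) L1205 (by decide +kernel)
theorem L1207 : W_1 (nat_lit 4) (nat_lit 0x80038001000080000000000000000000000000000000) (nat_lit 0x0) (nat_lit 0x140044000700000000000000000000000000000000000) := T_1 (nat_lit 162) (nat_lit 176) (nat_lit 1) (nat_lit 9) (nat_lit 9) L1206 (by decide +kernel)
theorem L1209 : W_1 (nat_lit 2) (nat_lit 0x8000f8001400080000000000000000000000000000000) (nat_lit 0x0) (nat_lit 0x380000000000000000000000000000000000000000000) := D_1 (nat_lit 176) (nat_lit 175) (nat_lit 177) (nat_lit 1) (nat_lit 9) (nat_lit 9) (nat_lit 1) (nat_lit 10) (nat_lit 9) (by decide +kernel)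
theorem L1210 : W_1 (nat_lit 3) (nat_lit 0x800078001400080000000000000000000000000000000) (nat_lit 0x0) (nat_lit 0x380080000800000000000000000000000000000000000) := T_1 (nat_lit 163) (nat_lit 143) (nat_lit 0) (nat_lit 10) (nat_lit 9) L1209 (by decide +kernel)
theorem L1211 : W_1 (nat_lit 4) (nat_lit 0x78001400080000000000000000000000000000000) (nat_lit 0x0) (nat_lit 0x1b80080000800000000000000000000000000000000000) := T_1 (nat_lit 179) (nat_lit 180) (nat_lit 3) (nat_lit 6) (nat_lit 9) L1210 (by decide +kernel)
theorem L1212 : W_1 (nat_lit 5) (nat_lit 0x78001000080000000000000000000000000000000) (nat_lit 0x0) (nat_lit 0x1b80080000e00000000000000000000000000000000000) := T_1 (nat_lit 142) (nat_lit 141) (nat_lit 0) (nat_lit 9) (nat_lit 9) L1211 (by decide +kernel)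
theorem L1223 : W_1 (nat_lit 2) (nat_lit 0x24000000092007e001200080000800000000000000000000000000) (nat_lit 0x0) (nat_lit 0x210001000000000000000000000000000000000000000) := D_1 (nat_lit 156) (nat_lit 177) (nat_lit 172) (nat_lit 3) (nat_lit 3) (nat_lit 9) (nat_lit 1) (nat_lit 6) (nat_lit 9) (by decide +kernel)
theorem L1224 : W_1 (nat_lit 3) (nat_lit 0x24000000090007e001200080000800000000000000000000000000) (nat_lit 0x0) (nat_lit 0x270001000000000000000000000000000000000000000) := T_1 (nat_lit 173) (nat_lit 174) (nat_lit 1) (nat_lit 7) (nat_lit 9) L1223 (by decide +kernel)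
theorem L1225 : W_1 (nat_lit 4) (nat_lit 0x24000000090007c001200080000800000000000000000000000000) (nat_lit 0x0) (nat_lit 0x270003000800000000000000000000000000000000000) := T_1 (nat_lit 157) (nat_lit 143) (nat_lit 2) (nat_lit 4) (nat_lit 9) L1224 (by decide +kernel)
theorem L1226 : W_1 (nat_lit 5) (nat_lit 0x20000000090007c001200080000800000000000000000000000000) (nat_lit 0x0) (nat_lit 0x40002000270003000800000000000000000000000000000000000) := T_1 (nat_lit 210) (nat_lit 193) (nat_lit 4) (nat_lit 6) (nat_lit 12) L1225 (by decide +kernel)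
theorem L1227 : W_1 (nat_lit 6) (nat_lit 0x90007c001200080000800000000000000000000000000) (nat_lit 0x0) (nat_lit 0x240012000270003000800000000000000000000000000000000000) := T_1 (nat_lit 213) (nat_lit 196) (nat_lit 4) (nat_lit 9) (nat_lit 12) L1226 (by decide +kernel)
theorem L1228 : W_1 (nat_lit 7) (nat_lit 0x90007c001200080000000000000000000000000000000) (nat_lit 0x0) (nat_lit 0x240012000270003000800010000800000000000000000000000000) := T_1 (nat_lit 107) (nat_lit 124) (nat_lit 7) (nat_lit 5) (nat_lit 6) L1227 (by decide +kernel)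
theorem L1229 : W_1 (nat_lit 8) (nat_lit 0x10007c001200080000000000000000000000000000000) (nat_lit 0x0) (nat_lit 0x240012001a70003000800010000800000000000000000000000000) := T_1 (nat_lit 179) (nat_lit 180) (nat_lit 3) (nat_lit 6) (nat_lit 9) L1228 (by decide +kernel)
theorem L1230 : W_1 (nat_lit 9) (nat_lit 0x100078001200080000000000000000000000000000000) (nat_lit 0x0) (nat_lit 0x240012001a70007000900010000800000000000000000000000000) := T_1 (nat_lit 158) (nat_lit 140) (nat_lit 0) (nat_lit 8) (nat_lit 9) L1229 (by decide +kernel)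
theorem L1231 : W_1 (nat_lit 10) (nat_lit 0x78001200080000000000000000000000000000000) (nat_lit 0x0) (nat_lit 0x240012001bf0007000900010000800000000000000000000000000) := T_1 (nat_lit 176) (nat_lit 175) (nat_lit 1) (nat_lit 9) (nat_lit 9) L1230 (by decide +kernel)
theorem L1232 : W_1 (nat_lit 11) (nat_lit 0x78001000080000000000000000000000000000000) (nat_lit 0x0) (nat_lit 0x240012001bf0007000f00010000800000000000000000000000000) := T_1 (nat_lit 141) (nat_lit 142) (nat_lit 0) (nat_lit 9) (nat_lit 9) L1231 (by decide +kernel)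
theorem L1239 : W_1 (nat_lit 2) (nat_lit 0x3e001200080000000000000000000000000000000) (nat_lit 0x0) (nat_lit 0xe0000000000000000000000000000000000000000000) := D_1 (nat_lit 174) (nat_lit 173) (nat_lit 175) (nat_lit 1) (nat_lit 7) (nat_lit 9) (nat_lit 1) (nat_lit 8) (nat_lit 9) (by decide +kernel)
theorem L1240 : W_1 (nat_lit 3) (nat_lit 0x3c001200080000000000000000000000000000000) (nat_lit 0x0) (nat_lit 0xe0002000800000000000000000000000000000000000) := T_1 (nat_lit 157) (nat_lit 143) (nat_lit 2) (nat_lit 4) (nat_lit 9) L1239 (by decide +kernel)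
theorem L1241 : W_1 (nat_lit 4) (nat_lit 0x3c001000080000000000000000000000000000000) (nat_lit 0x0) (nat_lit 0xe0002000b00000000000000000000000000000000000) := T_1 (nat_lit 141) (nat_lit 140) (nat_lit 0) (nat_lit 8) (nat_lit 9) L1240 (by decide +kernel)
theorem L1242 : W_1 (nat_lit 2) (nat_lit 0x4003c001100080000000000000000000000000000000) (nat_lit 0x0) (nat_lit 0x20002000080000000000000000000000000000000000) := D_1 (nat_lit 157) (nat_lit 173) (nat_lit 139) (nat_lit 1) (nat_lit 7) (nat_lit 9) (nat_lit 0) (nat_lit 7) (nat_lit 9) (by decide +kernel)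
theorem L1243 : W_1 (nat_lit 3) (nat_lit 0x4003c001000080000000000000000000000000000000) (nat_lit 0x0) (nat_lit 0x20002000380000000000000000000000000000000000) := T_1 (nat_lit 140) (nat_lit 141) (nat_lit 0) (nat_lit 8) (nat_lit 9) L1242 (by decide +kernel)
theorem L1244 : W_1 (nat_lit 4) (nat_lit 0x3c001000080000000000000000000000000000000) (nat_lit 0x0) (nat_lit 0xe0002000380000000000000000000000000000000000) := T_1 (nat_lit 174) (nat_lit 175) (nat_lit 1) (nat_lit 8) (nat_lit 9) L1243 (by decide +kernel)
theorem L1245 : W_1 (nat_lit 2) (nat_lit 0x12003f001680080000000000000000000000000000000) (nat_lit 0x0) (nat_lit 0x2000000000000000010000800000000000000000000000000) := D_1 (nat_lit 124) (nat_lit 107) (nat_lit 193) (nat_lit 7) (nat_lit 5) (nat_lit 6) (nat_lit 4) (nat_lit 6) (nat_lit 11) (by decide +kernel)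
theorem L1246 : W_1 (nat_lit 3) (nat_lit 0x12003f001280080000000000000000000000000000000) (nat_lit 0x0) (nat_lit 0x2000000000800400010000800000000000000000000000000) := T_1 (nat_lit 142) (nat_lit 155) (nat_lit 2) (nat_lit 2) (nat_lit 9) L1245 (by decide +kernel)
theorem L1247 : W_1 (nat_lit 4) (nat_lit 0x2003f001280080000000000000000000000000000000) (nat_lit 0x0) (nat_lit 0x2000300000800400010000800000000000000000000000000) := T_1 (nat_lit 176) (nat_lit 177) (nat_lit 3) (nat_lit 3) (nat_lit 9) L1246 (by decide +kernel)
theorem L1248 : W_1 (nat_lit 5) (nat_lit 0x2003f001200080000000000000000000000000000000) (nat_lit 0x0) (nat_lit 0x20003000008004c0010000800000000000000000000000000) := T_1 (nat_lit 139) (nat_lit 138) (nat_lit 0) (nat_lit 6) (nat_lit 9) L1247 (by decide +kernel)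
theorem L1249 : W_1 (nat_lit 6) (nat_lit 0x2003e001200080000000000000000000000000000000) (nat_lit 0x0) (nat_lit 0x20003100018004c0010000800000000000000000000000000) := T_1 (nat_lit 156) (nat_lit 172) (nat_lit 1) (nat_lit 6) (nat_lit 9) L1248 (by decide +kernel)
theorem L1250 : W_1 (nat_lit 7) (nat_lit 0x3e001200080000000000000000000000000000000) (nat_lit 0x0) (nat_lit 0x20003700018004c0010000800000000000000000000000000) := T_1 (nat_lit 173) (nat_lit 174) (nat_lit 1) (nat_lit 7) (nat_lit 9) L1249 (by decide +kernel)
theorem L1251 : W_1 (nat_lit 8) (nat_lit 0x3c001200080000000000000000000000000000000) (nat_lit 0x0) (nat_lit 0x2000370003800cc0010000800000000000000000000000000) := T_1 (nat_lit 157) (nat_lit 143) (nat_lit 2) (nat_lit 4) (nat_lit 9) L1250 (by decide +kernel)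
theorem L1252 : W_1 (nat_lit 9) (nat_lit 0x3c001000080000000000000000000000000000000) (nat_lit 0x0) (nat_lit 0x2000370003800fc0010000800000000000000000000000000) := T_1 (nat_lit 141) (nat_lit 140) (nat_lit 0) (nat_lit 8) (nat_lit 9) L1251 (by decide +kernel)
theorem L1253 : W_1 (nat_lit 2) (nat_lit 0x3e001000080000000000000000000000000000000) (nat_lit 0x0) (nat_lit 0x380000000000000000000000000000000000) := D_1 (nat_lit 140) (nat_lit 139) (nat_lit 141) (nat_lit 0) (nat_lit 7) (nat_lit 9) (nat_lit 0) (nat_lit 8) (nat_lit 9) (by decide +kernel)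
theorem L1254 : W_1 (nat_lit 3) (nat_lit 0x3c001000080000000000000000000000000000000) (nat_lit 0x0) (nat_lit 0x2000b80000000000000000000000000000000000) := T_1 (nat_lit 157) (nat_lit 143) (nat_lit 2) (nat_lit 4) (nat_lit 9) L1253 (by decide +kernel)
theorem L1258 : W_1 (nat_lit 2) (nat_lit 0x28003c001600080000000000000000000000000000000) (nat_lit 0x0) (nat_lit 0x1000000000000000020001000000000000000000000000000) := D_1 (nat_lit 125) (nat_lit 108) (nat_lit 192) (nat_lit 7) (nat_lit 6) (nat_lit 6) (nat_lit 6) (nat_lit 5) (nat_lit 11) (by decide +kernel)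
theorem L1277 : W_1 (nat_lit 2) (nat_lit 0x10800fc009200080000000000000000000000000000000) (nat_lit 0x0) (nat_lit 0x100010800000000000000000000000000000000000) := D_1 (nat_lit 164) (nat_lit 143) (nat_lit 148) (nat_lit 0) (nat_lit 11) (nat_lit 9) (nat_lit 2) (nat_lit 8) (nat_lit 9) (by decide +kernel)
theorem L1278 : W_1 (nat_lit 3) (nat_lit 0x10800fc001200080000000000000000000000000000000) (nat_lit 0x0) (nat_lit 0x10001c800000000000000000000000000000000000) := T_1 (nat_lit 147) (nat_lit 146) (nat_lit 2) (nat_lit 7) (nat_lit 9) L1277 (by decide +kernel)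
theorem L1279 : W_1 (nat_lit 4) (nat_lit 0x108007c001200080000000000000000000000000000000) (nat_lit 0x0) (nat_lit 0x200018001c800000000000000000000000000000000000) := T_1 (nat_lit 163) (nat_lit 181) (nat_lit 3) (nat_lit 7) (nat_lit 9) L1278 (by decide +kernel)
theorem L1280 : W_1 (nat_lit 5) (nat_lit 0x8007c001200080000000000000000000000000000000) (nat_lit 0x0) (nat_lit 0x380018001c800000000000000000000000000000000000) := T_1 (nat_lit 180) (nat_lit 179) (nat_lit 3) (nat_lit 6) (nat_lit 9) L1279 (by decide +kernel)
theorem L1281 : W_1 (nat_lit 6) (nat_lit 0x8003c001200080000000000000000000000000000000) (nat_lit 0x0) (nat_lit 0x39001c001c800000000000000000000000000000000000) := T_1 (nat_lit 162) (nat_lit 176) (nat_lit 1) (nat_lit 9) (nat_lit 9) L1280 (by decide +kernel)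
theorem L1282 : W_1 (nat_lit 7) (nat_lit 0x3c001200080000000000000000000000000000000) (nat_lit 0x0) (nat_lit 0x39c01c001c800000000000000000000000000000000000) := T_1 (nat_lit 175) (nat_lit 174) (nat_lit 1) (nat_lit 8) (nat_lit 9) L1281 (by decide +kernel)
theorem L1283 : W_1 (nat_lit 8) (nat_lit 0x3c001000080000000000000000000000000000000) (nat_lit 0x0) (nat_lit 0x39c01c001cb00000000000000000000000000000000000) := T_1 (nat_lit 141) (nat_lit 140) (nat_lit 0) (nat_lit 8) (nat_lit 9) L1282 (by decide +kernel)
theorem L1285 : W_1 (nat_lit 2) (nat_lit 0x2000000038000600090007c001800080002000000000000000000000000000) (nat_lit 0x0) (nat_lit 0x9800000000000000000000000000000000000000000000000) := D_1 (nat_lit 192) (nat_lit 191) (nat_lit 195) (nat_lit 3) (nat_lit 4) (nat_lit 11) (nat_lit 3) (nat_lit 5) (nat_lit 11) (by decide +kernel)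
theorem L1286 : W_1 (nat_lit 3) (nat_lit 0x2000000028000600090007c001800080002000000000000000000000000000) (nat_lit 0x0) (nat_lit 0x500009800000000000000000000000000000000000000000000000) := T_1 (nat_lit 212) (nat_lit 214) (nat_lit 0) (nat_lit 10) (nat_lit 12) L1285 (by decide +kernel)
theorem L1287 : W_1 (nat_lit 4) (nat_lit 0x28000600090007c001800080002000000000000000000000000000) (nat_lit 0x0) (nat_lit 0x20001000500009800000000000000000000000000000000000000000000000) := T_1 (nat_lit 245) (nat_lit 228) (nat_lit 4) (nat_lit 7) (nat_lit 14) L1286 (by decide +kernel)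
theorem L1288 : W_1 (nat_lit 5) (nat_lit 0x20000600090007c001800080002000000000000000000000000000) (nat_lit 0x0) (nat_lit 0x20001000580009800000000000400000000000000000000000000000000000) := T_1 (nat_lit 211) (nat_lit 142) (nat_lit 7) (nat_lit 6) (nat_lit 8) L1287 (by decide +kernel)
theorem L1289 : W_1 (nat_lit 6) (nat_lit 0x20000400090007c001800080002000000000000000000000000000) (nat_lit 0x0) (nat_lit 0x200010005c000b800000000000400000000000000000000000000000000000) := T_1 (nat_lit 193) (nat_lit 210) (nat_lit 6) (nat_lit 6) (nat_lit 12) L1288 (by decide +kernel)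
theorem L1290 : W_1 (nat_lit 7) (nat_lit 0x20000400090007c001800080000000000000000000000000000000) (nat_lit 0x0) (nat_lit 0x200010005c000b800000000000400040002000000000000000000000000000) := T_1 (nat_lit 109) (nat_lit 126) (nat_lit 5) (nat_lit 7) (nat_lit 6) L1289 (by decide +kernel)
theorem L1291 : W_1 (nat_lit 8) (nat_lit 0x20000400090007c001000080000000000000000000000000000000) (nat_lit 0x0) (nat_lit 0x200010005c000b800000002000c00040002000000000000000000000000000) := T_1 (nat_lit 143) (nat_lit 157) (nat_lit 2) (nat_lit 4) (nat_lit 9) L1290 (by decide +kernel)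
theorem L1292 : W_1 (nat_lit 9) (nat_lit 0x400090007c001000080000000000000000000000000000000) (nat_lit 0x0) (nat_lit 0x200010007c001b800000002000c00040002000000000000000000000000000) := T_1 (nat_lit 213) (nat_lit 196) (nat_lit 4) (nat_lit 9) (nat_lit 12) L1291 (by decide +kernel)
theorem L1293 : W_1 (nat_lit 10) (nat_lit 0x400080007c001000080000000000000000000000000000000) (nat_lit 0x0) (nat_lit 0x200010007c001b800180002000c00040002000000000000000000000000000) := T_1 (nat_lit 176) (nat_lit 175) (nat_lit 1) (nat_lit 9) (nat_lit 9) L1292 (by decide +kernel)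
theorem L1294 : W_1 (nat_lit 11) (nat_lit 0x400000007c001000080000000000000000000000000000000) (nat_lit 0x0) (nat_lit 0x200010007c001b801980002000c00040002000000000000000000000000000) := T_1 (nat_lit 179) (nat_lit 180) (nat_lit 3) (nat_lit 6) (nat_lit 9) L1293 (by decide +kernel)
theorem L1303 : W_1 (nat_lit 2) (nat_lit 0x400000003c001a00080000000000000000000000000000000) (nat_lit 0x0) (nat_lit 0x40000400100000000000000000000000000000000) := D_1 (nat_lit 142) (nat_lit 162) (nat_lit 128) (nat_lit 3) (nat_lit 5) (nat_lit 8) (nat_lit 2) (nat_lit 5) (nat_lit 8) (by decide +kernel)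
theorem L1304 : W_1 (nat_lit 3) (nat_lit 0x400000003c001800080000000000000000000000000000000) (nat_lit 0x0) (nat_lit 0x40000700100000000000000000000000000000000) := T_1 (nat_lit 141) (nat_lit 140) (nat_lit 0) (nat_lit 8) (nat_lit 9) L1303 (by decide +kernel)
theorem L1305 : W_1 (nat_lit 4) (nat_lit 0x3c001800080000000000000000000000000000000) (nat_lit 0x0) (nat_lit 0x4000200040000700100000000000000000000000000000000) := T_1 (nat_lit 194) (nat_lit 177) (nat_lit 6) (nat_lit 7) (nat_lit 11) L1304 (by decide +kernel)
theorem L1306 : W_1 (nat_lit 5) (nat_lit 0x38001800080000000000000000000000000000000) (nat_lit 0x0) (nat_lit 0x4000200046000700100000000000000000000000000000000) := T_1 (nat_lit 158) (nat_lit 157) (nat_lit 2) (nat_lit 4) (nat_lit 9) L1305 (by decide +kernel)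
theorem L1307 : W_1 (nat_lit 2) (nat_lit 0x40000000fc001a00080000000000000000000000000000000) (nat_lit 0x0) (nat_lit 0x3800000000000000000000000000000000000000000000) := D_1 (nat_lit 180) (nat_lit 179) (nat_lit 181) (nat_lit 3) (nat_lit 6) (nat_lit 9) (nat_lit 3) (nat_lit 7) (nat_lit 9) (by decide +kernel)
theorem L1308 : W_1 (nat_lit 3) (nat_lit 0x400000007c001a00080000000000000000000000000000000) (nat_lit 0x0) (nat_lit 0x3800180000000000000000000000000000000000000000) := T_1 (nat_lit 163) (nat_lit 164) (nat_lit 0) (nat_lit 11) (nat_lit 9) L1307 (by decide +kernel)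
theorem L1309 : W_1 (nat_lit 4) (nat_lit 0x400000003c001a00080000000000000000000000000000000) (nat_lit 0x0) (nat_lit 0x38001c0000400000000000000000000000000000000000) := T_1 (nat_lit 162) (nat_lit 142) (nat_lit 3) (nat_lit 5) (nat_lit 8) L1308 (by decide +kernel)
theorem L1310 : W_1 (nat_lit 5) (nat_lit 0x400000003c001800080000000000000000000000000000000) (nat_lit 0x0) (nat_lit 0x38001c0000700000000000000000000000000000000000) := T_1 (nat_lit 141) (nat_lit 140) (nat_lit 0) (nat_lit 8) (nat_lit 9) L1309 (by decide +kernel)
theorem L1311 : W_1 (nat_lit 6) (nat_lit 0x4000000038001800080000000000000000000000000000000) (nat_lit 0x0) (nat_lit 0x38001c6000700000000000000000000000000000000000) := T_1 (nat_lit 158) (nat_lit 157) (nat_lit 2) (nat_lit 4) (nat_lit 9) L1310 (by decide +kernel)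
theorem L1312 : W_1 (nat_lit 7) (nat_lit 0x38001800080000000000000000000000000000000) (nat_lit 0x0) (nat_lit 0x4003a001c6000700000000000000000000000000000000000) := T_1 (nat_lit 194) (nat_lit 177) (nat_lit 6) (nat_lit 7) (nat_lit 11) L1311 (by decide +kernel)
theorem L1319 : W_1 (nat_lit 2) (nat_lit 0x380018000c0000000000000000000000000000000) (nat_lit 0x0) (nat_lit 0x100000000000000002000100000000000000000000000) := D_1 (nat_lit 109) (nat_lit 176) (nat_lit 92) (nat_lit 5) (nat_lit 7) (nat_lit 6) (nat_lit 7) (nat_lit 7) (nat_lit 5) (by decide +kernel)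
theorem L1334 : W_1 (nat_lit 2) (nat_lit 0x3c001a00080000000000000000000000000000000) (nat_lit 0x0) (nat_lit 0x40000400100000000000000000000000000000000) := D_1 (nat_lit 142) (nat_lit 162) (nat_lit 128) (nat_lit 3) (nat_lit 5) (nat_lit 8) (nat_lit 2) (nat_lit 5) (nat_lit 8) (by decide +kernel)
theorem L1335 : W_1 (nat_lit 3) (nat_lit 0x3c001800080000000000000000000000000000000) (nat_lit 0x0) (nat_lit 0x40000700100000000000000000000000000000000) := T_1 (nat_lit 141) (nat_lit 140) (nat_lit 0) (nat_lit 8) (nat_lit 9) L1334 (by decide +kernel)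
theorem L1336 : W_1 (nat_lit 4) (nat_lit 0x38001800080000000000000000000000000000000) (nat_lit 0x0) (nat_lit 0x46000700100000000000000000000000000000000) := T_1 (nat_lit 158) (nat_lit 157) (nat_lit 2) (nat_lit 4) (nat_lit 9) L1335 (by decide +kernel)
theorem L1337 : W_1 (nat_lit 2) (nat_lit 0x3000ba0018000f0000000000000000000000000000000) (nat_lit 0x0) (nat_lit 0x400000000c00000000000000000000000000) := D_1 (nat_lit 107) (nat_lit 106) (nat_lit 142) (nat_lit 0) (nat_lit 8) (nat_lit 7) (nat_lit 4) (nat_lit 6) (nat_lit 10) (by decide +kernel)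
theorem L1338 : W_1 (nat_lit 3) (nat_lit 0x3000ba0018000e0000000000000000000000000000000) (nat_lit 0x0) (nat_lit 0x400018000c00000000000000000000000000) := T_1 (nat_lit 124) (nat_lit 123) (nat_lit 3) (nat_lit 4) (nat_lit 7) L1337 (by decide +kernel)
theorem L1339 : W_1 (nat_lit 4) (nat_lit 0x3000ba0018000c0000000000000000000000000000000) (nat_lit 0x0) (nat_lit 0x400038001c00000000000000000000000000) := T_1 (nat_lit 125) (nat_lit 108) (nat_lit 4) (nat_lit 7) (nat_lit 10) L1338 (by decide +kernel)
theorem L1340 : W_1 (nat_lit 5) (nat_lit 0x30003a0018000c0000000000000000000000000000000) (nat_lit 0x0) (nat_lit 0xc0000400038001c00000000000000000000000000) := T_1 (nat_lit 163) (nat_lit 162) (nat_lit 1) (nat_lit 10) (nat_lit 9) L1339 (by decide +kernel)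
theorem L1341 : W_1 (nat_lit 6) (nat_lit 0x20003a0018000c0000000000000000000000000000000) (nat_lit 0x0) (nat_lit 0x20001000c0000400038001c00000000000000000000000000) := T_1 (nat_lit 176) (nat_lit 193) (nat_lit 5) (nat_lit 7) (nat_lit 7) L1340 (by decide +kernel)
theorem L1342 : W_1 (nat_lit 7) (nat_lit 0x3a0018000c0000000000000000000000000000000) (nat_lit 0x0) (nat_lit 0x60003000c0000400038001c00000000000000000000000000) := T_1 (nat_lit 177) (nat_lit 194) (nat_lit 6) (nat_lit 7) (nat_lit 11) L1341 (by decide +kernel)
theorem L1343 : W_1 (nat_lit 8) (nat_lit 0x380018000c0000000000000000000000000000000) (nat_lit 0x0) (nat_lit 0x60003000c6000400038001c00000000000000000000000000) := T_1 (nat_lit 157) (nat_lit 158) (nat_lit 2) (nat_lit 4) (nat_lit 9) L1342 (by decide +kernel)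
theorem L1345 : W_1 (nat_lit 2) (nat_lit 0x38001c00080000000000000000000000000000000) (nat_lit 0x0) (nat_lit 0xc0000200000000000000000000000000000000000) := D_1 (nat_lit 162) (nat_lit 141) (nat_lit 163) (nat_lit 3) (nat_lit 5) (nat_lit 8) (nat_lit 0) (nat_lit 10) (nat_lit 9) (by decide +kernel)
theorem L1346 : W_1 (nat_lit 2) (nat_lit 0x38001c000c0000000000000000000000000000000) (nat_lit 0x0) (nat_lit 0x100000000000000002000100000000000000000000000) := D_1 (nat_lit 109) (nat_lit 92) (nat_lit 176) (nat_lit 7) (nat_lit 7) (nat_lit 5) (nat_lit 5) (nat_lit 7) (nat_lit 6) (by decide +kernel)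
theorem L1347 : W_1 (nat_lit 2) (nat_lit 0x38001c000c0000000000000000000000000000000) (nat_lit 0x0) (nat_lit 0x2000100000000000000002000000000000000000000000000) := D_1 (nat_lit 176) (nat_lit 193) (nat_lit 109) (nat_lit 6) (nat_lit 6) (nat_lit 11) (nat_lit 5) (nat_lit 7) (nat_lit 6) (by decide +kernel)
theorem L1348 : W_1 (nat_lit 2) (nat_lit 0x300038001c000e0000000000000000000000000000000) (nat_lit 0x0) (nat_lit 0x18000800000000000000000000000000) := D_1 (nat_lit 124) (nat_lit 107) (nat_lit 123) (nat_lit 4) (nat_lit 6) (nat_lit 10) (nat_lit 3) (nat_lit 4) (nat_lit 7) (by decide +kernel)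
theorem L1349 : W_1 (nat_lit 3) (nat_lit 0x300038001c000c0000000000000000000000000000000) (nat_lit 0x0) (nat_lit 0x38001800000000000000000000000000) := T_1 (nat_lit 125) (nat_lit 108) (nat_lit 7) (nat_lit 6) (nat_lit 6) L1348 (by decide +kernel)
theorem L1350 : W_1 (nat_lit 4) (nat_lit 0x200038001c000c0000000000000000000000000000000) (nat_lit 0x0) (nat_lit 0x2000100000000000038001800000000000000000000000000) := T_1 (nat_lit 176) (nat_lit 193) (nat_lit 6) (nat_lit 6) (nat_lit 11) L1349 (by decide +kernel)
theorem L1351 : W_1 (nat_lit 5) (nat_lit 0x38001c000c0000000000000000000000000000000) (nat_lit 0x0) (nat_lit 0x6000300000000000038001800000000000000000000000000) := T_1 (nat_lit 177) (nat_lit 194) (nat_lit 6) (nat_lit 7) (nat_lit 11) L1350 (by decide +kernel)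
theorem L1360 : W_1 (nat_lit 6) (nat_lit 0x38001000080000000000000000000000000000000) (nat_lit 0x0) (nat_lit 0x10000e0046000f80020001000000000000000000000000000) := Q_1 (nat_lit 158) (C_1 L1254 (C_1 L1244 (C_1 L76 (C_1 L74 N_1)))) (by decide +kernel)
theorem L1361 : W_1 (nat_lit 2) (nat_lit 0x200078001000080000000000000000000000000000000) (nat_lit 0x0) (nat_lit 0x80004000000000000800000000000000000000000000000000000) := D_1 (nat_lit 194) (nat_lit 143) (nat_lit 211) (nat_lit 6) (nat_lit 7) (nat_lit 11) (nat_lit 6) (nat_lit 7) (nat_lit 12) (by decide +kernel)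
theorem L1381 : W_1 (nat_lit 2) (nat_lit 0x80078001200080006000000000000000000000000000) (nat_lit 0x0) (nat_lit 0x40004000100000000000000000000000000000000000) := D_1 (nat_lit 158) (nat_lit 174) (nat_lit 140) (nat_lit 1) (nat_lit 8) (nat_lit 9) (nat_lit 0) (nat_lit 8) (nat_lit 9) (by decide +kernel)
theorem L1382 : W_1 (nat_lit 3) (nat_lit 0x80078001000080006000000000000000000000000000) (nat_lit 0x0) (nat_lit 0x40004000700000000000000000000000000000000000) := T_1 (nat_lit 141) (nat_lit 142) (nat_lit 0) (nat_lit 9) (nat_lit 9) L1381 (by decide +kernel)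
theorem L1383 : W_1 (nat_lit 4) (nat_lit 0x78001000080006000000000000000000000000000) (nat_lit 0x0) (nat_lit 0x1c0004000700000000000000000000000000000000000) := T_1 (nat_lit 175) (nat_lit 176) (nat_lit 1) (nat_lit 9) (nat_lit 9) L1382 (by decide +kernel)
theorem L1384 : W_1 (nat_lit 5) (nat_lit 0x38001000080006000000000000000000000000000) (nat_lit 0x0) (nat_lit 0x9c0044000700000000000000000000000000000000000) := T_1 (nat_lit 162) (nat_lit 179) (nat_lit 7) (nat_lit 8) (nat_lit 6) L1383 (by decide +kernel)
theorem L1385 : W_1 (nat_lit 6) (nat_lit 0x38001000080004000000000000000000000000000) (nat_lit 0x0) (nat_lit 0x9c0044000700000002000100000000000000000000000) := T_1 (nat_lit 109) (nat_lit 92) (nat_lit 4) (nat_lit 8) (nat_lit 9) L1384 (by decide +kernel)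
theorem L1386 : W_1 (nat_lit 7) (nat_lit 0x38001000080000000000000000000000000000000) (nat_lit 0x0) (nat_lit 0xbc0044000700000006000100000000000000000000000) := T_1 (nat_lit 110) (nat_lit 177) (nat_lit 5) (nat_lit 8) (nat_lit 6) L1385 (by decide +kernel)
theorem L1389 : W_1 (nat_lit 2) (nat_lit 0x9003f801440080007c00000000000000000000000000) (nat_lit 0x0) (nat_lit 0x1c000000000000000000000000000000) := D_1 (nat_lit 123) (nat_lit 122) (nat_lit 124) (nat_lit 1) (nat_lit 7) (nat_lit 6) (nat_lit 1) (nat_lit 8) (nat_lit 6) (by decide +kernel)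
theorem L1390 : W_1 (nat_lit 3) (nat_lit 0x9003f801440080007800000000000000000000000000) (nat_lit 0x0) (nat_lit 0x5c000400000000000000000000000000) := T_1 (nat_lit 106) (nat_lit 126) (nat_lit 3) (nat_lit 4) (nat_lit 6) L1389 (by decide +kernel)
theorem L1391 : W_1 (nat_lit 4) (nat_lit 0x9003f801440080007000000000000000000000000000) (nat_lit 0x0) (nat_lit 0x15c000c00000000000000000000000000) := T_1 (nat_lit 107) (nat_lit 128) (nat_lit 3) (nat_lit 5) (nat_lit 6) L1390 (by decide +kernel)
theorem L1392 : W_1 (nat_lit 5) (nat_lit 0x9003f801440080006000000000000000000000000000) (nat_lit 0x0) (nat_lit 0x17c001c00000000000000000000000000) := T_1 (nat_lit 108) (nat_lit 125) (nat_lit 5) (nat_lit 6) (nat_lit 6) L1391 (by decide +kernel)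
theorem L1393 : W_1 (nat_lit 6) (nat_lit 0x9003f801040080006000000000000000000000000000) (nat_lit 0x0) (nat_lit 0x60017c001c00000000000000000000000000) := T_1 (nat_lit 142) (nat_lit 141) (nat_lit 2) (nat_lit 2) (nat_lit 9) L1392 (by decide +kernel)
theorem L1394 : W_1 (nat_lit 7) (nat_lit 0x8003f801040080006000000000000000000000000000) (nat_lit 0x0) (nat_lit 0x1800000060017c001c00000000000000000000000000) := T_1 (nat_lit 172) (nat_lit 171) (nat_lit 1) (nat_lit 5) (nat_lit 9) L1393 (by decide +kernel)
theorem L1395 : W_1 (nat_lit 8) (nat_lit 0x8003f001040080006000000000000000000000000000) (nat_lit 0x0) (nat_lit 0x1800080062017c001c00000000000000000000000000) := T_1 (nat_lit 155) (nat_lit 137) (nat_lit 0) (nat_lit 5) (nat_lit 9) L1394 (by decide +kernel)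
theorem L1396 : W_1 (nat_lit 9) (nat_lit 0x8003f001000080006000000000000000000000000000) (nat_lit 0x0) (nat_lit 0x180008006e017c001c00000000000000000000000000) := T_1 (nat_lit 138) (nat_lit 139) (nat_lit 0) (nat_lit 6) (nat_lit 9) L1395 (by decide +kernel)
theorem L1397 : W_1 (nat_lit 10) (nat_lit 0x8003f001000080004000000000000000000000000000) (nat_lit 0x0) (nat_lit 0x180008006e017c003c00100000000000000000000000) := T_1 (nat_lit 109) (nat_lit 92) (nat_lit 4) (nat_lit 8) (nat_lit 9) L1396 (by decide +kernel)
theorem L1398 : W_1 (nat_lit 11) (nat_lit 0x8003f001000080000000000000000000000000000000) (nat_lit 0x0) (nat_lit 0x2180008006e017c007c00100000000000000000000000) := T_1 (nat_lit 110) (nat_lit 177) (nat_lit 5) (nat_lit 8) (nat_lit 6) L1397 (by decide +kernel)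
theorem L1399 : W_1 (nat_lit 12) (nat_lit 0x3f001000080000000000000000000000000000000) (nat_lit 0x0) (nat_lit 0x2d80008006e017c007c00100000000000000000000000) := T_1 (nat_lit 175) (nat_lit 174) (nat_lit 1) (nat_lit 8) (nat_lit 9) L1398 (by decide +kernel)
theorem L1402 : W_1 (nat_lit 7) (nat_lit 0x3c001000080000000000000000000000000000000) (nat_lit 0x0) (nat_lit 0x3380038007e0000004000000000000000000000000000) := Q_1 (nat_lit 157) (C_1 L336 (C_1 L1253 (C_1 L359 N_1))) (by decide +kernel)
theorem L1410 : W_1 (nat_lit 2) (nat_lit 0x78001000080000000000000000000000000000000) (nat_lit 0x0) (nat_lit 0xa00000000000000004000000000000000000000000000) := D_1 (nat_lit 110) (nat_lit 177) (nat_lit 179) (nat_lit 5) (nat_lit 8) (nat_lit 6) (nat_lit 7) (nat_lit 8) (nat_lit 6) (by decide +kernel)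
theorem L1413 : W_1 (nat_lit 3) (nat_lit 0x78001200080000000000000000000000000000000) (nat_lit 0x0) (nat_lit 0x1c0004000100000000000000000000000000000000000) := T_1 (nat_lit 175) (nat_lit 176) (nat_lit 1) (nat_lit 9) (nat_lit 9) L1205 (by decide +kernel)
theorem L1414 : W_1 (nat_lit 4) (nat_lit 0x78001000080000000000000000000000000000000) (nat_lit 0x0) (nat_lit 0x1c0004000700000000000000000000000000000000000) := T_1 (nat_lit 141) (nat_lit 142) (nat_lit 0) (nat_lit 9) (nat_lit 9) L1413 (by decide +kernel)
theorem L1458 : W_1 (nat_lit 2) (nat_lit 0x800000002000380017000a0000000000000000000000000000000) (nat_lit 0x0) (nat_lit 0x150000000000000000000000000000000) := D_1 (nat_lit 126) (nat_lit 128) (nat_lit 124) (nat_lit 1) (nat_lit 9) (nat_lit 7) (nat_lit 1) (nat_lit 8) (nat_lit 7) (by decide +kernel)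
theorem L1459 : W_1 (nat_lit 3) (nat_lit 0x80000000200038001700080000000000000000000000000000000) (nat_lit 0x0) (nat_lit 0x170001000000000000000000000000000) := T_1 (nat_lit 125) (nat_lit 108) (nat_lit 7) (nat_lit 6) (nat_lit 6) L1458 (by decide +kernel)
theorem L1460 : W_1 (nat_lit 4) (nat_lit 0x80000000200038001300080000000000000000000000000000000) (nat_lit 0x0) (nat_lit 0x480170001000000000000000000000000000) := T_1 (nat_lit 142) (nat_lit 139) (nat_lit 3) (nat_lit 3) (nat_lit 8) L1459 (by decide +kernel)
theorem L1461 : W_1 (nat_lit 5) (nat_lit 0x200038001300080000000000000000000000000000000) (nat_lit 0x0) (nat_lit 0x80004000000000000480170001000000000000000000000000000) := T_1 (nat_lit 211) (nat_lit 194) (nat_lit 6) (nat_lit 7) (nat_lit 12) L1460 (by decide +kernel)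
theorem L1462 : W_1 (nat_lit 6) (nat_lit 0x200038001200080000000000000000000000000000000) (nat_lit 0x0) (nat_lit 0x80004000000004000580170001000000000000000000000000000) := T_1 (nat_lit 140) (nat_lit 158) (nat_lit 0) (nat_lit 8) (nat_lit 9) L1461 (by decide +kernel)
theorem L1463 : W_1 (nat_lit 7) (nat_lit 0x38001200080000000000000000000000000000000) (nat_lit 0x0) (nat_lit 0x80004000200004000580170005000000000000000000000000000) := T_1 (nat_lit 177) (nat_lit 110) (nat_lit 5) (nat_lit 8) (nat_lit 6) L1462 (by decide +kernel)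
theorem L1466 : W_1 (nat_lit 2) (nat_lit 0x4007e001200080007c00000000000000000000000000) (nat_lit 0x0) (nat_lit 0x70000000000000000000000) := D_1 (nat_lit 89) (nat_lit 90) (nat_lit 88) (nat_lit 0) (nat_lit 8) (nat_lit 6) (nat_lit 0) (nat_lit 7) (nat_lit 6) (by decide +kernel)
theorem L1467 : W_1 (nat_lit 3) (nat_lit 0x4007e001200080007800000000000000000000000000) (nat_lit 0x0) (nat_lit 0x40000400070000000000000000000000) := T_1 (nat_lit 106) (nat_lit 126) (nat_lit 3) (nat_lit 4) (nat_lit 6) L1466 (by decide +kernel)
theorem L1468 : W_1 (nat_lit 4) (nat_lit 0x4007e001200080006800000000000000000000000000) (nat_lit 0x0) (nat_lit 0x140001400070000000000000000000000) := T_1 (nat_lit 108) (nat_lit 128) (nat_lit 3) (nat_lit 5) (nat_lit 6) L1467 (by decide +kernel)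
theorem L1469 : W_1 (nat_lit 5) (nat_lit 0x4007e001200080006000000000000000000000000000) (nat_lit 0x0) (nat_lit 0x150001c00070000000000000000000000) := T_1 (nat_lit 107) (nat_lit 124) (nat_lit 5) (nat_lit 5) (nat_lit 6) L1468 (by decide +kernel)
theorem L1470 : W_1 (nat_lit 6) (nat_lit 0x4007c001200080006000000000000000000000000000) (nat_lit 0x0) (nat_lit 0x20002000000150001c00070000000000000000000000) := T_1 (nat_lit 157) (nat_lit 173) (nat_lit 1) (nat_lit 7) (nat_lit 9) L1469 (by decide +kernel)
theorem L1471 : W_1 (nat_lit 7) (nat_lit 0x7c001200080006000000000000000000000000000) (nat_lit 0x0) (nat_lit 0xe0002000000150001c00070000000000000000000000) := T_1 (nat_lit 174) (nat_lit 175) (nat_lit 1) (nat_lit 8) (nat_lit 9) L1470 (by decide +kernel)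
theorem L1472 : W_1 (nat_lit 8) (nat_lit 0x78001200080006000000000000000000000000000) (nat_lit 0x0) (nat_lit 0xe0006000100150001c00070000000000000000000000) := T_1 (nat_lit 158) (nat_lit 140) (nat_lit 0) (nat_lit 8) (nat_lit 9) L1471 (by decide +kernel)
theorem L1473 : W_1 (nat_lit 9) (nat_lit 0x78001000080006000000000000000000000000000) (nat_lit 0x0) (nat_lit 0xe0006000700150001c00070000000000000000000000) := T_1 (nat_lit 141) (nat_lit 142) (nat_lit 0) (nat_lit 9) (nat_lit 9) L1472 (by decide +kernel)
theorem L1474 : W_1 (nat_lit 10) (nat_lit 0x38001000080006000000000000000000000000000) (nat_lit 0x0) (nat_lit 0x8e0046000700150001c00070000000000000000000000) := T_1 (nat_lit 162) (nat_lit 179) (nat_lit 7) (nat_lit 8) (nat_lit 6) L1473 (by decide +kernel)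
theorem L1475 : W_1 (nat_lit 11) (nat_lit 0x38001000080004000000000000000000000000000) (nat_lit 0x0) (nat_lit 0x8e0046000700150003c00170000000000000000000000) := T_1 (nat_lit 109) (nat_lit 92) (nat_lit 4) (nat_lit 8) (nat_lit 9) L1474 (by decide +kernel)
theorem L1476 : W_1 (nat_lit 12) (nat_lit 0x38001000080000000000000000000000000000000) (nat_lit 0x0) (nat_lit 0xae0046000700150007c00170000000000000000000000) := T_1 (nat_lit 110) (nat_lit 177) (nat_lit 5) (nat_lit 8) (nat_lit 6) L1475 (by decide +kernel)
theorem L1478 : W_1 (nat_lit 4) (nat_lit 0x30001000080000000000000000000000000000000) (nat_lit 0x0) (nat_lit 0x200000000800000006000300008000000000000000000) := T_1 (nat_lit 110) (nat_lit 177) (nat_lit 5) (nat_lit 8) (nat_lit 6) L1031 (by decide +kernel)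
theorem L1479 : W_1 (nat_lit 5) (nat_lit 0x30001000080000000000000000000000000000000) (nat_lit 0x0) (nat_lit 0xa000c0000e00000004000200000000000000000000000) := T_1 (nat_lit 110) (nat_lit 177) (nat_lit 5) (nat_lit 8) (nat_lit 6) L637 (by decide +kernel)
theorem L1480 : W_1 (nat_lit 4) (nat_lit 0x70001000080000000000000000000000000000000) (nat_lit 0x0) (nat_lit 0x800080000e00000004000200000000000000000000000) := T_1 (nat_lit 110) (nat_lit 179) (nat_lit 7) (nat_lit 8) (nat_lit 6) L1027 (by decide +kernel)
theorem L1481 : W_1 (nat_lit 2) (nat_lit 0x10000f0009000080000000000000000000000000000000) (nat_lit 0x0) (nat_lit 0x100010800000000000000000000000000000000000) := D_1 (nat_lit 164) (nat_lit 143) (nat_lit 148) (nat_lit 0) (nat_lit 11) (nat_lit 9) (nat_lit 2) (nat_lit 8) (nat_lit 9) (by decide +kernel)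
theorem L1482 : W_1 (nat_lit 3) (nat_lit 0x10000f0001000080000000000000000000000000000000) (nat_lit 0x0) (nat_lit 0x10001c800000000000000000000000000000000000) := T_1 (nat_lit 147) (nat_lit 146) (nat_lit 2) (nat_lit 7) (nat_lit 9) L1481 (by decide +kernel)
theorem L1483 : W_1 (nat_lit 4) (nat_lit 0xf0001000080000000000000000000000000000000) (nat_lit 0x0) (nat_lit 0x300010001c800000000000000000000000000000000000) := T_1 (nat_lit 180) (nat_lit 181) (nat_lit 3) (nat_lit 7) (nat_lit 9) L1482 (by decide +kernel)
theorem L1484 : W_1 (nat_lit 2) (nat_lit 0x20000f0009000080000000000000000000000000000000) (nat_lit 0x0) (nat_lit 0x4000100010000000000000000000000000000000000000) := D_1 (nat_lit 164) (nat_lit 182) (nat_lit 148) (nat_lit 3) (nat_lit 8) (nat_lit 9) (nat_lit 2) (nat_lit 8) (nat_lit 9) (by decide +kernel)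
theorem L1485 : W_1 (nat_lit 3) (nat_lit 0x20000f0001000080000000000000000000000000000000) (nat_lit 0x0) (nat_lit 0x400010001c000000000000000000000000000000000000) := T_1 (nat_lit 147) (nat_lit 146) (nat_lit 2) (nat_lit 7) (nat_lit 9) L1484 (by decide +kernel)
theorem L1486 : W_1 (nat_lit 4) (nat_lit 0xf0001000080000000000000000000000000000000) (nat_lit 0x0) (nat_lit 0x700010001c000000000000000000000000000000000000) := T_1 (nat_lit 181) (nat_lit 180) (nat_lit 3) (nat_lit 7) (nat_lit 9) L1485 (by decide +kernel)
theorem L1487 : W_1 (nat_lit 2) (nat_lit 0xf8001000080000000000000000000000000000000) (nat_lit 0x0) (nat_lit 0xe00000000000000000000000000000000000) := D_1 (nat_lit 142) (nat_lit 143) (nat_lit 141) (nat_lit 0) (nat_lit 10) (nat_lit 9) (nat_lit 0) (nat_lit 9) (nat_lit 9) (by decide +kernel)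
theorem L1504 : W_1 (nat_lit 2) (nat_lit 0x70001000080004000200000000000000000000000) (nat_lit 0x0) (nat_lit 0x2000100008000000000000000000) := D_1 (nat_lit 92) (nat_lit 75) (nat_lit 109) (nat_lit 4) (nat_lit 8) (nat_lit 8) (nat_lit 4) (nat_lit 8) (nat_lit 9) (by decide +kernel)
theorem L1505 : W_1 (nat_lit 3) (nat_lit 0x70001000080004000000000000000000000000000) (nat_lit 0x0) (nat_lit 0x800000002000300008000000000000000000) := T_1 (nat_lit 93) (nat_lit 143) (nat_lit 5) (nat_lit 8) (nat_lit 5) L1504 (by decide +kernel)
theorem L1506 : W_1 (nat_lit 4) (nat_lit 0x70001000080000000000000000000000000000000) (nat_lit 0x0) (nat_lit 0x800000000800000006000300008000000000000000000) := T_1 (nat_lit 110) (nat_lit 179) (nat_lit 7) (nat_lit 8) (nat_lit 6) L1505 (by decide +kernel)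
theorem L1549 : W_1 (nat_lit 2) (nat_lit 0x200010003e0004000000000000000000000000000) (nat_lit 0x0) (nat_lit 0xe00000000000000000000000000000000000) := D_1 (nat_lit 142) (nat_lit 143) (nat_lit 141) (nat_lit 1) (nat_lit 10) (nat_lit 7) (nat_lit 1) (nat_lit 9) (nat_lit 7) (by decide +kernel)
theorem L1582 : W_1 (nat_lit 2) (nat_lit 0x200020001000080006000000000000000000000000000) (nat_lit 0x0) (nat_lit 0x4000400000000000040000000000000000000000000000000) := D_1 (nat_lit 178) (nat_lit 126) (nat_lit 194) (nat_lit 4) (nat_lit 8) (nat_lit 10) (nat_lit 5) (nat_lit 8) (nat_lit 7) (by decide +kernel)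
theorem L1583 : W_1 (nat_lit 3) (nat_lit 0x20001000080006000000000000000000000000000) (nat_lit 0x0) (nat_lit 0x4000600010000000040000000000000000000000000000000) := T_1 (nat_lit 177) (nat_lit 160) (nat_lit 5) (nat_lit 8) (nat_lit 6) L1582 (by decide +kernel)
theorem L1584 : W_1 (nat_lit 4) (nat_lit 0x20001000080004000000000000000000000000000) (nat_lit 0x0) (nat_lit 0x4000600010000000040002000100000000000000000000000) := T_1 (nat_lit 109) (nat_lit 92) (nat_lit 4) (nat_lit 8) (nat_lit 9) L1583 (by decide +kernel)
theorem L1595 : W_1 (nat_lit 2) (nat_lit 0x10000000040003e000900008003e000000000000000000000000000) (nat_lit 0x0) (nat_lit 0x3800000000000000000000000) := D_1 (nat_lit 96) (nat_lit 97) (nat_lit 95) (nat_lit 2) (nat_lit 8) (nat_lit 6) (nat_lit 2) (nat_lit 7) (nat_lit 6) (by decide +kernel)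
theorem L1596 : W_1 (nat_lit 3) (nat_lit 0x10000000040003e000900008002e000000000000000000000000000) (nat_lit 0x0) (nat_lit 0x40010003800000000000000000000000) := T_1 (nat_lit 112) (nat_lit 126) (nat_lit 1) (nat_lit 11) (nat_lit 6) L1595 (by decide +kernel)
theorem L1597 : W_1 (nat_lit 4) (nat_lit 0x10000000040003e000900008000e000000000000000000000000000) (nat_lit 0x0) (nat_lit 0x440030003800000000000000000000000) := T_1 (nat_lit 113) (nat_lit 130) (nat_lit 7) (nat_lit 11) (nat_lit 6) L1596 (by decide +kernel)
theorem L1598 : W_1 (nat_lit 5) (nat_lit 0x40003e000900008000e000000000000000000000000000) (nat_lit 0x0) (nat_lit 0x1000080000000000000000440030003800000000000000000000000) := T_1 (nat_lit 216) (nat_lit 199) (nat_lit 4) (nat_lit 12) (nat_lit 12) L1597 (by decide +kernel)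
theorem L1599 : W_1 (nat_lit 6) (nat_lit 0x40001e000900008000e000000000000000000000000000) (nat_lit 0x0) (nat_lit 0x1000080008000200000000440030003800000000000000000000000) := T_1 (nat_lit 165) (nat_lit 183) (nat_lit 3) (nat_lit 9) (nat_lit 9) L1598 (by decide +kernel)
theorem L1600 : W_1 (nat_lit 7) (nat_lit 0x1e000900008000e000000000000000000000000000) (nat_lit 0x0) (nat_lit 0x100008000e000200000000440030003800000000000000000000000) := T_1 (nat_lit 182) (nat_lit 181) (nat_lit 3) (nat_lit 8) (nat_lit 9) L1599 (by decide +kernel)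
theorem L1601 : W_1 (nat_lit 8) (nat_lit 0x1e000100008000e000000000000000000000000000) (nat_lit 0x0) (nat_lit 0x100008000e000200018000440030003800000000000000000000000) := T_1 (nat_lit 147) (nat_lit 148) (nat_lit 2) (nat_lit 8) (nat_lit 9) L1600 (by decide +kernel)
theorem L1602 : W_1 (nat_lit 9) (nat_lit 0xe000100008000e000000000000000000000000000) (nat_lit 0x0) (nat_lit 0x100008000e000300018800440030003800000000000000000000000) := T_1 (nat_lit 164) (nat_lit 143) (nat_lit 0) (nat_lit 11) (nat_lit 9) L1601 (by decide +kernel)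
theorem L1603 : W_1 (nat_lit 10) (nat_lit 0xe0001000080006000000000000000000000000000) (nat_lit 0x0) (nat_lit 0x100008000e000300018800440038003c00000000000000000000000) := T_1 (nat_lit 111) (nat_lit 94) (nat_lit 6) (nat_lit 8) (nat_lit 9) L1602 (by decide +kernel)
theorem L1604 : W_1 (nat_lit 11) (nat_lit 0xe0001000080004000000000000000000000000000) (nat_lit 0x0) (nat_lit 0x100008000e00030001880044003a003d00000000000000000000000) := T_1 (nat_lit 109) (nat_lit 92) (nat_lit 4) (nat_lit 8) (nat_lit 9) L1603 (by decide +kernel)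
theorem L1605 : W_1 (nat_lit 2) (nat_lit 0x10000f000500028000e000000000000000000000000000) (nat_lit 0x0) (nat_lit 0x400030000000000000000000000000000) := D_1 (nat_lit 130) (nat_lit 112) (nat_lit 113) (nat_lit 3) (nat_lit 7) (nat_lit 6) (nat_lit 6) (nat_lit 10) (nat_lit 10) (by decide +kernel)
theorem L1606 : W_1 (nat_lit 3) (nat_lit 0x10000f000500008000e000000000000000000000000000) (nat_lit 0x0) (nat_lit 0x700030000000000000000000000000000) := T_1 (nat_lit 129) (nat_lit 128) (nat_lit 4) (nat_lit 10) (nat_lit 10) L1605 (by decide +kernel)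
theorem L1612 : W_1 (nat_lit 2) (nat_lit 0x1f0001000080004000000000000000000000000000) (nat_lit 0x0) (nat_lit 0x7000000000000000000000000000000000000000000000) := D_1 (nat_lit 181) (nat_lit 180) (nat_lit 182) (nat_lit 3) (nat_lit 7) (nat_lit 9) (nat_lit 3) (nat_lit 8) (nat_lit 9) (by decide +kernel)
theorem L1613 : W_1 (nat_lit 3) (nat_lit 0x1e0001000080004000000000000000000000000000) (nat_lit 0x0) (nat_lit 0x7200010000000000000000000000000000000000000000) := T_1 (nat_lit 160) (nat_lit 177) (nat_lit 5) (nat_lit 8) (nat_lit 6) L1612 (by decide +kernel)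
theorem L1614 : W_1 (nat_lit 4) (nat_lit 0xe0001000080004000000000000000000000000000) (nat_lit 0x0) (nat_lit 0x7200110000800000000000000000000000000000000000) := T_1 (nat_lit 164) (nat_lit 143) (nat_lit 0) (nat_lit 11) (nat_lit 9) L1613 (by decide +kernel)
theorem L1621 : W_1 (nat_lit 2) (nat_lit 0x70001000080004000200000000000000000000000) (nat_lit 0x0) (nat_lit 0x8000400020000000000000000000) := D_1 (nat_lit 94) (nat_lit 111) (nat_lit 77) (nat_lit 6) (nat_lit 8) (nat_lit 9) (nat_lit 6) (nat_lit 8) (nat_lit 8) (by decide +kernel)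
theorem L1622 : W_1 (nat_lit 3) (nat_lit 0x70001000080004000000000000000000000000000) (nat_lit 0x0) (nat_lit 0x800000008000600020000000000000000000) := T_1 (nat_lit 93) (nat_lit 143) (nat_lit 5) (nat_lit 8) (nat_lit 5) L1621 (by decide +kernel)
theorem L1623 : W_1 (nat_lit 4) (nat_lit 0x60001000080004000000000000000000000000000) (nat_lit 0x0) (nat_lit 0x200010000800000008000600020000000000000000000) := T_1 (nat_lit 160) (nat_lit 177) (nat_lit 5) (nat_lit 8) (nat_lit 6) L1622 (by decide +kernel)
theorem L1624 : W_1 (nat_lit 5) (nat_lit 0x20001000080004000000000000000000000000000) (nat_lit 0x0) (nat_lit 0xa00050000800000008000600020000000000000000000) := T_1 (nat_lit 162) (nat_lit 179) (nat_lit 7) (nat_lit 8) (nat_lit 6) L1623 (by decide +kernel)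
theorem L1630 : W_1 (nat_lit 2) (nat_lit 0x7000300018000c0000000000000000000000000000000) (nat_lit 0x0) (nat_lit 0xc0040000000000000000000000000000000000000000) := D_1 (nat_lit 175) (nat_lit 162) (nat_lit 174) (nat_lit 2) (nat_lit 5) (nat_lit 10) (nat_lit 2) (nat_lit 4) (nat_lit 10) (by decide +kernel)
theorem L1631 : W_1 (nat_lit 3) (nat_lit 0x6000300018000c0000000000000000000000000000000) (nat_lit 0x0) (nat_lit 0x20001c0040000000000000000000000000000000000000000) := T_1 (nat_lit 176) (nat_lit 193) (nat_lit 5) (nat_lit 7) (nat_lit 7) L1630 (by decide +kernel)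
theorem L1642 : W_1 (nat_lit 2) (nat_lit 0xe00020001c00180000000000000000000000000000000) (nat_lit 0x0) (nat_lit 0x640000000000000000000000000000000) := D_1 (nat_lit 129) (nat_lit 130) (nat_lit 126) (nat_lit 1) (nat_lit 11) (nat_lit 7) (nat_lit 1) (nat_lit 10) (nat_lit 7) (by decide +kernel)
theorem L1643 : W_1 (nat_lit 3) (nat_lit 0xe00020001800180000000000000000000000000000000) (nat_lit 0x0) (nat_lit 0x600640000000000000000000000000000000) := T_1 (nat_lit 142) (nat_lit 141) (nat_lit 2) (nat_lit 5) (nat_lit 8) L1642 (by decide +kernel)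
theorem L1644 : W_1 (nat_lit 4) (nat_lit 0xe00020001800080000000000000000000000000000000) (nat_lit 0x0) (nat_lit 0x600740008000000000000000000000000000) := T_1 (nat_lit 128) (nat_lit 111) (nat_lit 6) (nat_lit 8) (nat_lit 10) L1643 (by decide +kernel)
theorem L1670 : W_1 (nat_lit 2) (nat_lit 0x700060001a00580000000000000000000000000000000) (nat_lit 0x0) (nat_lit 0x190000000000000000000000000000000000000000) := D_1 (nat_lit 163) (nat_lit 164) (nat_lit 160) (nat_lit 1) (nat_lit 11) (nat_lit 9) (nat_lit 1) (nat_lit 10) (nat_lit 9) (by decide +kernel)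
theorem L1671 : W_1 (nat_lit 3) (nat_lit 0x600060001a00580000000000000000000000000000000) (nat_lit 0x0) (nat_lit 0x180190000000000000000000000000000000000000000) := T_1 (nat_lit 176) (nat_lit 175) (nat_lit 2) (nat_lit 5) (nat_lit 10) L1670 (by decide +kernel)
theorem L1682 : W_1 (nat_lit 6) (nat_lit 0xc000200010001c0000000000000000000000000000000) (nat_lit 0x0) (nat_lit 0x8000700038000c000000040000800000000000000000000000000000000000) := T_1 (nat_lit 195) (nat_lit 143) (nat_lit 4) (nat_lit 8) (nat_lit 11) L539 (by decide +kernel)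
theorem L1683 : W_1 (nat_lit 7) (nat_lit 0xc00020001000180000000000000000000000000000000) (nat_lit 0x0) (nat_lit 0x8000700038000c000000040000800040002000000000000000000000000000) := T_1 (nat_lit 126) (nat_lit 109) (nat_lit 4) (nat_lit 8) (nat_lit 10) L1682 (by decide +kernel)
theorem L1687 : W_1 (nat_lit 2) (nat_lit 0xc000200010000c0004000000000000000000000000000) (nat_lit 0x0) (nat_lit 0x100008000400000000000000000000000) := D_1 (nat_lit 111) (nat_lit 94) (nat_lit 128) (nat_lit 6) (nat_lit 8) (nat_lit 9) (nat_lit 6) (nat_lit 8) (nat_lit 10) (by decide +kernel)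
theorem L1688 : W_1 (nat_lit 3) (nat_lit 0xc000200010000c0000000000000000000000000000000) (nat_lit 0x0) (nat_lit 0x4000000010000c000400000000000000000000000) := T_1 (nat_lit 110) (nat_lit 162) (nat_lit 7) (nat_lit 8) (nat_lit 6) L1687 (by decide +kernel)
theorem L1689 : W_1 (nat_lit 4) (nat_lit 0x4000200010000c0000000000000000000000000000000) (nat_lit 0x0) (nat_lit 0x1000080004000000010000c000400000000000000000000000) := T_1 (nat_lit 179) (nat_lit 196) (nat_lit 7) (nat_lit 8) (nat_lit 7) L1688 (by decide +kernel)
theorem L1690 : W_1 (nat_lit 5) (nat_lit 0x400020001000080000000000000000000000000000000) (nat_lit 0x0) (nat_lit 0x1000080004000000014000e000400000000000000000000000) := T_1 (nat_lit 126) (nat_lit 109) (nat_lit 4) (nat_lit 8) (nat_lit 10) L1689 (by decide +kernel)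
theorem L1691 : W_1 (nat_lit 2) (nat_lit 0x600020001000180002000000000000000000000000000) (nat_lit 0x0) (nat_lit 0x10000000000004000100000000000000000000000) := D_1 (nat_lit 110) (nat_lit 160) (nat_lit 92) (nat_lit 5) (nat_lit 8) (nat_lit 6) (nat_lit 4) (nat_lit 8) (nat_lit 9) (by decide +kernel)
theorem L1692 : W_1 (nat_lit 3) (nat_lit 0x400020001000180002000000000000000000000000000) (nat_lit 0x0) (nat_lit 0x4000200010000000000004000100000000000000000000000) := T_1 (nat_lit 177) (nat_lit 194) (nat_lit 5) (nat_lit 8) (nat_lit 7) L1691 (by decide +kernel)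
theorem L1693 : W_1 (nat_lit 4) (nat_lit 0x400020001000180000000000000000000000000000000) (nat_lit 0x0) (nat_lit 0x4000200010000000040006000100000000000000000000000) := T_1 (nat_lit 109) (nat_lit 126) (nat_lit 4) (nat_lit 8) (nat_lit 10) L1692 (by decide +kernel)
theorem L1694 : W_1 (nat_lit 5) (nat_lit 0x400020001000080000000000000000000000000000000) (nat_lit 0x0) (nat_lit 0x400020001000000014000e000100000000000000000000000) := T_1 (nat_lit 128) (nat_lit 111) (nat_lit 6) (nat_lit 8) (nat_lit 10) L1693 (by decide +kernel)
theorem L1696 : W_1 (nat_lit 2) (nat_lit 0x40002000100008000e000000000000000000000000000) (nat_lit 0x0) (nat_lit 0x10000800040000000000000000000000000000000000000000) := D_1 (nat_lit 179) (nat_lit 162) (nat_lit 196) (nat_lit 7) (nat_lit 8) (nat_lit 6) (nat_lit 7) (nat_lit 8) (nat_lit 7) (by decide +kernel)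
theorem L1697 : W_1 (nat_lit 3) (nat_lit 0x2000100008000e000000000000000000000000000) (nat_lit 0x0) (nat_lit 0x10000c00040000000040000000000000000000000000000000) := T_1 (nat_lit 178) (nat_lit 126) (nat_lit 4) (nat_lit 8) (nat_lit 10) L1696 (by decide +kernel)
theorem L1698 : W_1 (nat_lit 4) (nat_lit 0x20001000080006000000000000000000000000000) (nat_lit 0x0) (nat_lit 0x10000c00040000000040008000400000000000000000000000) := T_1 (nat_lit 111) (nat_lit 94) (nat_lit 6) (nat_lit 8) (nat_lit 9) L1697 (by decide +kernel)
theorem L1699 : W_1 (nat_lit 5) (nat_lit 0x20001000080004000000000000000000000000000) (nat_lit 0x0) (nat_lit 0x10000c0004000000004000a000500000000000000000000000) := T_1 (nat_lit 109) (nat_lit 92) (nat_lit 4) (nat_lit 8) (nat_lit 9) L1698 (by decide +kernel)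
theorem L1701 : W_1 (nat_lit 4) (nat_lit 0x6000300010000c0000000000000000000000000000000) (nat_lit 0x0) (nat_lit 0xa0001c0040000800000000000000000000000000000000000) := T_1 (nat_lit 143) (nat_lit 195) (nat_lit 7) (nat_lit 7) (nat_lit 7) L1631 (by decide +kernel)
theorem L1702 : W_1 (nat_lit 5) (nat_lit 0x6000200010000c0000000000000000000000000000000) (nat_lit 0x0) (nat_lit 0xa0001c0050000800000004000000000000000000000000000) := T_1 (nat_lit 160) (nat_lit 110) (nat_lit 5) (nat_lit 8) (nat_lit 6) L1701 (by decide +kernel)
theorem L1703 : W_1 (nat_lit 6) (nat_lit 0x4000200010000c0000000000000000000000000000000) (nat_lit 0x0) (nat_lit 0xe0003c0050000800000004000000000000000000000000000) := T_1 (nat_lit 177) (nat_lit 194) (nat_lit 5) (nat_lit 8) (nat_lit 7) L1702 (by decide +kernel)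
theorem L1704 : W_1 (nat_lit 7) (nat_lit 0x400020001000080000000000000000000000000000000) (nat_lit 0x0) (nat_lit 0xe0003c0050000800040006000000000000000000000000000) := T_1 (nat_lit 126) (nat_lit 109) (nat_lit 4) (nat_lit 8) (nat_lit 10) L1703 (by decide +kernel)
theorem L1706 : W_1 (nat_lit 2) (nat_lit 0x2000100008000e000000000000000000000000000) (nat_lit 0x0) (nat_lit 0x400000000000140000000000000000000000000000000) := D_1 (nat_lit 178) (nat_lit 126) (nat_lit 128) (nat_lit 4) (nat_lit 8) (nat_lit 10) (nat_lit 6) (nat_lit 8) (nat_lit 10) (by decide +kernel)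
theorem L1707 : W_1 (nat_lit 3) (nat_lit 0x20001000080006000000000000000000000000000) (nat_lit 0x0) (nat_lit 0x400000000000140008000400000000000000000000000) := T_1 (nat_lit 111) (nat_lit 94) (nat_lit 6) (nat_lit 8) (nat_lit 9) L1706 (by decide +kernel)
theorem L1708 : W_1 (nat_lit 4) (nat_lit 0x20001000080004000000000000000000000000000) (nat_lit 0x0) (nat_lit 0x40000000000014000a000500000000000000000000000) := T_1 (nat_lit 109) (nat_lit 92) (nat_lit 4) (nat_lit 8) (nat_lit 9) L1707 (by decide +kernel)
theorem L1709 : W_1 (nat_lit 2) (nat_lit 0x60001800080004000600010000000000000000000) (nat_lit 0x0) (nat_lit 0x100008000400000000000000) := D_1 (nat_lit 75) (nat_lit 58) (nat_lit 92) (nat_lit 4) (nat_lit 8) (nat_lit 7) (nat_lit 4) (nat_lit 8) (nat_lit 8) (by decide +kernel)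
theorem L1710 : W_1 (nat_lit 3) (nat_lit 0x60001800080004000600000000000000000000000) (nat_lit 0x0) (nat_lit 0x40000000100018000400000000000000) := T_1 (nat_lit 76) (nat_lit 126) (nat_lit 5) (nat_lit 8) (nat_lit 4) L1709 (by decide +kernel)
theorem L1711 : W_1 (nat_lit 4) (nat_lit 0x60001000080004000600000000000000000000000) (nat_lit 0x0) (nat_lit 0x10000800040000000100018000400000000000000) := T_1 (nat_lit 143) (nat_lit 160) (nat_lit 5) (nat_lit 8) (nat_lit 5) L1710 (by decide +kernel)
theorem L1712 : W_1 (nat_lit 5) (nat_lit 0x60001000080004000400000000000000000000000) (nat_lit 0x0) (nat_lit 0x10000800040000000300038000400000000000000) := T_1 (nat_lit 93) (nat_lit 77) (nat_lit 6) (nat_lit 8) (nat_lit 8) L1711 (by decide +kernel)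
theorem L1713 : W_1 (nat_lit 6) (nat_lit 0x60001000080004000000000000000000000000000) (nat_lit 0x0) (nat_lit 0x10000800040008000700038000400000000000000) := T_1 (nat_lit 94) (nat_lit 111) (nat_lit 6) (nat_lit 8) (nat_lit 9) L1712 (by decide +kernel)
theorem L1714 : W_1 (nat_lit 7) (nat_lit 0x20001000080004000000000000000000000000000) (nat_lit 0x0) (nat_lit 0x800050000800040008000700038000400000000000000) := T_1 (nat_lit 162) (nat_lit 179) (nat_lit 7) (nat_lit 8) (nat_lit 6) L1713 (by decide +kernel)
theorem L1715 : W_1 (nat_lit 2) (nat_lit 0x2800080004000600010000d002c000000000000000000000000000) (nat_lit 0x0) (nat_lit 0x5000100000000000000000000000000000000000000000000000000000) := D_1 (nat_lit 212) (nat_lit 230) (nat_lit 228) (nat_lit 7) (nat_lit 8) (nat_lit 9) (nat_lit 5) (nat_lit 8) (nat_lit 9) (by decide +kernel)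
theorem L1716 : W_1 (nat_lit 3) (nat_lit 0x2000080004000600010000d002c000000000000000000000000000) (nat_lit 0x0) (nat_lit 0x5000180004000000000000000000000000000000000000000000000000) := T_1 (nat_lit 211) (nat_lit 194) (nat_lit 5) (nat_lit 8) (nat_lit 8) L1715 (by decide +kernel)
theorem L1717 : W_1 (nat_lit 4) (nat_lit 0x80004000600010000d002c000000000000000000000000000) (nat_lit 0x0) (nat_lit 0x5000380014000000000000000000000000000000000000000000000000) := T_1 (nat_lit 213) (nat_lit 196) (nat_lit 7) (nat_lit 8) (nat_lit 8) L1716 (by decide +kernel)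
theorem L1718 : W_1 (nat_lit 5) (nat_lit 0x80004000600010000d000c000000000000000000000000000) (nat_lit 0x0) (nat_lit 0x5000380014000000000000000000030000000000000000000000000000) := T_1 (nat_lit 113) (nat_lit 112) (nat_lit 1) (nat_lit 11) (nat_lit 6) L1717 (by decide +kernel)
theorem L1719 : W_1 (nat_lit 6) (nat_lit 0x4000600010000d000c000000000000000000000000000) (nat_lit 0x0) (nat_lit 0x500038001c000000000000800000030000000000000000000000000000) := T_1 (nat_lit 195) (nat_lit 143) (nat_lit 4) (nat_lit 8) (nat_lit 11) L1718 (by decide +kernel)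
theorem L1720 : W_1 (nat_lit 7) (nat_lit 0x4000600010000c000c000000000000000000000000000) (nat_lit 0x0) (nat_lit 0x500038001c000000000000800030030000000000000000000000000000) := T_1 (nat_lit 124) (nat_lit 125) (nat_lit 2) (nat_lit 5) (nat_lit 7) L1719 (by decide +kernel)
theorem L1721 : W_1 (nat_lit 8) (nat_lit 0x40006000100008000c000000000000000000000000000) (nat_lit 0x0) (nat_lit 0x500038001c000000000000800070032000000000000000000000000000) := T_1 (nat_lit 126) (nat_lit 109) (nat_lit 4) (nat_lit 8) (nat_lit 10) L1720 (by decide +kernel)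
theorem L1722 : W_1 (nat_lit 9) (nat_lit 0x6000100008000c000000000000000000000000000) (nat_lit 0x0) (nat_lit 0x500038001c000400000000800170032000000000000000000000000000) := T_1 (nat_lit 178) (nat_lit 128) (nat_lit 6) (nat_lit 8) (nat_lit 10) L1721 (by decide +kernel)
theorem L1723 : W_1 (nat_lit 10) (nat_lit 0x2000100008000c000000000000000000000000000) (nat_lit 0x0) (nat_lit 0x500038001c000c00040000800170032000000000000000000000000000) := T_1 (nat_lit 162) (nat_lit 179) (nat_lit 7) (nat_lit 8) (nat_lit 6) L1722 (by decide +kernel)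
theorem L1724 : W_1 (nat_lit 11) (nat_lit 0x20001000080004000000000000000000000000000) (nat_lit 0x0) (nat_lit 0x500038001c000c0004000080017003a000400000000000000000000000) := T_1 (nat_lit 111) (nat_lit 94) (nat_lit 6) (nat_lit 8) (nat_lit 9) L1723 (by decide +kernel)
theorem L1726 : W_1 (nat_lit 2) (nat_lit 0x3000100018000c000200008000000000000000000) (nat_lit 0x0) (nat_lit 0x10000c00000000000000) := D_1 (nat_lit 76) (nat_lit 58) (nat_lit 59) (nat_lit 4) (nat_lit 8) (nat_lit 7) (nat_lit 7) (nat_lit 8) (nat_lit 3) (by decide +kernel)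
theorem L1727 : W_1 (nat_lit 3) (nat_lit 0x3000100008000c000200008000000000000000000) (nat_lit 0x0) (nat_lit 0x400000000000100000000000010000c00000000000000) := T_1 (nat_lit 128) (nat_lit 178) (nat_lit 6) (nat_lit 8) (nat_lit 10) L1726 (by decide +kernel)
theorem L1728 : W_1 (nat_lit 4) (nat_lit 0x3000100008000c000200000000000000000000000) (nat_lit 0x0) (nat_lit 0x400000000000100000000100018000c00000000000000) := T_1 (nat_lit 75) (nat_lit 92) (nat_lit 4) (nat_lit 8) (nat_lit 8) L1727 (by decide +kernel)
theorem L1729 : W_1 (nat_lit 5) (nat_lit 0x3000100008000c000000000000000000000000000) (nat_lit 0x0) (nat_lit 0x400000000800100000000300018000c00000000000000) := T_1 (nat_lit 93) (nat_lit 143) (nat_lit 5) (nat_lit 8) (nat_lit 5) L1728 (by decide +kernel)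
theorem L1730 : W_1 (nat_lit 6) (nat_lit 0x2000100008000c000000000000000000000000000) (nat_lit 0x0) (nat_lit 0x600010000800100000000300018000c00000000000000) := T_1 (nat_lit 160) (nat_lit 177) (nat_lit 5) (nat_lit 8) (nat_lit 6) L1729 (by decide +kernel)
theorem L1731 : W_1 (nat_lit 7) (nat_lit 0x20001000080004000000000000000000000000000) (nat_lit 0x0) (nat_lit 0x600010000800100008000700018000c00000000000000) := T_1 (nat_lit 111) (nat_lit 94) (nat_lit 6) (nat_lit 8) (nat_lit 9) L1730 (by decide +kernel)
theorem L1737 : W_1 (nat_lit 2) (nat_lit 0xe00060001000080000000000000000000000000000000) (nat_lit 0x0) (nat_lit 0x180080000000000000000000000000000000000000000) := D_1 (nat_lit 176) (nat_lit 163) (nat_lit 175) (nat_lit 2) (nat_lit 6) (nat_lit 10) (nat_lit 2) (nat_lit 5) (nat_lit 10) (by decide +kernel)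
theorem L1738 : W_1 (nat_lit 3) (nat_lit 0xe00020001000080000000000000000000000000000000) (nat_lit 0x0) (nat_lit 0x1800c0000000000004000000000000000000000000000) := T_1 (nat_lit 162) (nat_lit 110) (nat_lit 7) (nat_lit 8) (nat_lit 6) L1737 (by decide +kernel)
theorem L1739 : W_1 (nat_lit 4) (nat_lit 0x600020001000080000000000000000000000000000000) (nat_lit 0x0) (nat_lit 0x100009800c0000000000004000000000000000000000000000) := T_1 (nat_lit 179) (nat_lit 196) (nat_lit 7) (nat_lit 8) (nat_lit 7) L1738 (by decide +kernel)
theorem L1741 : W_1 (nat_lit 2) (nat_lit 0x400010000d002c00020001800080000000000000000000000000000000) (nat_lit 0x0) (nat_lit 0x80002000000000000000040000000000000000000000000000000000000000) := D_1 (nat_lit 229) (nat_lit 162) (nat_lit 247) (nat_lit 6) (nat_lit 8) (nat_lit 13) (nat_lit 7) (nat_lit 8) (nat_lit 10) (by decide +kernel)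
theorem L1742 : W_1 (nat_lit 3) (nat_lit 0x10000d002c00020001800080000000000000000000000000000000) (nat_lit 0x0) (nat_lit 0x80006000200000000000040000000000000000000000000000000000000000) := T_1 (nat_lit 230) (nat_lit 213) (nat_lit 7) (nat_lit 8) (nat_lit 9) L1741 (by decide +kernel)
theorem L1743 : W_1 (nat_lit 4) (nat_lit 0x10000d000c00020001800080000000000000000000000000000000) (nat_lit 0x0) (nat_lit 0x80006000200000003000040000000000000000000000000000000000000000) := T_1 (nat_lit 181) (nat_lit 180) (nat_lit 1) (nat_lit 11) (nat_lit 10) L1742 (by decide +kernel)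
theorem L1744 : W_1 (nat_lit 5) (nat_lit 0xd000c00020001800080000000000000000000000000000000) (nat_lit 0x0) (nat_lit 0x80006000300000003000050000000000000000000000000000000000000000) := T_1 (nat_lit 212) (nat_lit 160) (nat_lit 4) (nat_lit 8) (nat_lit 12) L1743 (by decide +kernel)
theorem L1745 : W_1 (nat_lit 6) (nat_lit 0xc000c00020001800080000000000000000000000000000000) (nat_lit 0x0) (nat_lit 0x80006000300003003000050000000000000000000000000000000000000000) := T_1 (nat_lit 192) (nat_lit 193) (nat_lit 2) (nat_lit 5) (nat_lit 11) L1744 (by decide +kernel)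
theorem L1746 : W_1 (nat_lit 7) (nat_lit 0xc000c00020001000080000000000000000000000000000000) (nat_lit 0x0) (nat_lit 0x80006000300003003000050000800040000000000000000000000000000000) := T_1 (nat_lit 143) (nat_lit 126) (nat_lit 4) (nat_lit 8) (nat_lit 11) L1745 (by decide +kernel)
theorem L1747 : W_1 (nat_lit 8) (nat_lit 0x4000c00020001000080000000000000000000000000000000) (nat_lit 0x0) (nat_lit 0x8000600038000b003000050000800040000000000000000000000000000000) := T_1 (nat_lit 195) (nat_lit 211) (nat_lit 5) (nat_lit 8) (nat_lit 8) L1746 (by decide +kernel)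
theorem L1754 : W_1 (nat_lit 2) (nat_lit 0xc00030001000080004000200028000000000000000000) (nat_lit 0x0) (nat_lit 0x10001400000000000000) := D_1 (nat_lit 76) (nat_lit 58) (nat_lit 60) (nat_lit 4) (nat_lit 8) (nat_lit 7) (nat_lit 6) (nat_lit 8) (nat_lit 7) (by decide +kernel)
theorem L1755 : W_1 (nat_lit 3) (nat_lit 0xc00030001000080004000200008000000000000000000) (nat_lit 0x0) (nat_lit 0x400030001400000000000000) := T_1 (nat_lit 77) (nat_lit 94) (nat_lit 6) (nat_lit 8) (nat_lit 8) L1754 (by decide +kernel)
theorem L1756 : W_1 (nat_lit 4) (nat_lit 0xc00030001000080004000200000000000000000000000) (nat_lit 0x0) (nat_lit 0x500038001400000000000000) := T_1 (nat_lit 75) (nat_lit 92) (nat_lit 4) (nat_lit 8) (nat_lit 8) L1755 (by decide +kernel)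
theorem L1757 : W_1 (nat_lit 5) (nat_lit 0xc00030001000080004000000000000000000000000000) (nat_lit 0x0) (nat_lit 0x800000000000700038001400000000000000) := T_1 (nat_lit 93) (nat_lit 143) (nat_lit 5) (nat_lit 8) (nat_lit 5) L1756 (by decide +kernel)
theorem L1758 : W_1 (nat_lit 6) (nat_lit 0xc00020001000080004000000000000000000000000000) (nat_lit 0x0) (nat_lit 0x200010000800000000000700038001400000000000000) := T_1 (nat_lit 160) (nat_lit 177) (nat_lit 5) (nat_lit 8) (nat_lit 6) L1757 (by decide +kernel)
theorem L1759 : W_1 (nat_lit 7) (nat_lit 0xc00020001000080000000000000000000000000000000) (nat_lit 0x0) (nat_lit 0x200050000800000004000700038001400000000000000) := T_1 (nat_lit 110) (nat_lit 162) (nat_lit 7) (nat_lit 8) (nat_lit 6) L1758 (by decide +kernel)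
theorem L1760 : W_1 (nat_lit 8) (nat_lit 0x400020001000080000000000000000000000000000000) (nat_lit 0x0) (nat_lit 0x10000a00050000800000004000700038001400000000000000) := T_1 (nat_lit 179) (nat_lit 196) (nat_lit 7) (nat_lit 8) (nat_lit 7) L1759 (by decide +kernel)
theorem L1766 : W_1 (nat_lit 2) (nat_lit 0x80018000400020001800080000000000000000000000000000000) (nat_lit 0x0) (nat_lit 0x1000100000000000010000000000000000000000000000000000000000) := D_1 (nat_lit 212) (nat_lit 228) (nat_lit 160) (nat_lit 5) (nat_lit 8) (nat_lit 9) (nat_lit 4) (nat_lit 8) (nat_lit 12) (by decide +kernel)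
theorem L1767 : W_1 (nat_lit 3) (nat_lit 0x80018000400020001000080000000000000000000000000000000) (nat_lit 0x0) (nat_lit 0x1000100000000000010000800040000000000000000000000000000000) := T_1 (nat_lit 143) (nat_lit 126) (nat_lit 4) (nat_lit 8) (nat_lit 11) L1766 (by decide +kernel)
theorem L1768 : W_1 (nat_lit 4) (nat_lit 0x18000400020001000080000000000000000000000000000000) (nat_lit 0x0) (nat_lit 0x1000180004000000010000800040000000000000000000000000000000) := T_1 (nat_lit 211) (nat_lit 194) (nat_lit 5) (nat_lit 8) (nat_lit 8) L1767 (by decide +kernel)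
theorem L1769 : W_1 (nat_lit 5) (nat_lit 0x10000400020001000080000000000000000000000000000000) (nat_lit 0x0) (nat_lit 0x100038000c000000010000800040000000000000000000000000000000) := T_1 (nat_lit 195) (nat_lit 213) (nat_lit 7) (nat_lit 8) (nat_lit 8) L1768 (by decide +kernel)
theorem L1770 : W_1 (nat_lit 6) (nat_lit 0x400020001000080000000000000000000000000000000) (nat_lit 0x0) (nat_lit 0x100038001c000800010000800040000000000000000000000000000000) := T_1 (nat_lit 196) (nat_lit 179) (nat_lit 7) (nat_lit 8) (nat_lit 7) L1769 (by decide +kernel)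
theorem L1771 : W_1 (nat_lit 2) (nat_lit 0xc000400070001800080004000000000000000000000000000) (nat_lit 0x0) (nat_lit 0x80000600000000000000000000000000000000000) := D_1 (nat_lit 142) (nat_lit 141) (nat_lit 163) (nat_lit 3) (nat_lit 5) (nat_lit 8) (nat_lit 0) (nat_lit 10) (nat_lit 9) (by decide +kernel)
theorem L1772 : W_1 (nat_lit 3) (nat_lit 0xc000400030001800080004000000000000000000000000000) (nat_lit 0x0) (nat_lit 0x8000c0000600000000000000000000000000000000000) := T_1 (nat_lit 162) (nat_lit 179) (nat_lit 7) (nat_lit 8) (nat_lit 6) L1771 (by decide +kernel)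
theorem L1773 : W_1 (nat_lit 4) (nat_lit 0xc000400030001800080000000000000000000000000000000) (nat_lit 0x0) (nat_lit 0x8000c0000600000004000200000000000000000000000) := T_1 (nat_lit 110) (nat_lit 93) (nat_lit 5) (nat_lit 8) (nat_lit 5) L1772 (by decide +kernel)
theorem L1774 : W_1 (nat_lit 5) (nat_lit 0xc000400020001800080000000000000000000000000000000) (nat_lit 0x0) (nat_lit 0x1000000008000d0000600000004000200000000000000000000000) := T_1 (nat_lit 160) (nat_lit 212) (nat_lit 4) (nat_lit 8) (nat_lit 12) L1773 (by decide +kernel)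
theorem L1775 : W_1 (nat_lit 6) (nat_lit 0xc000400020001000080000000000000000000000000000000) (nat_lit 0x0) (nat_lit 0x1000000008000d0000e00040004000200000000000000000000000) := T_1 (nat_lit 143) (nat_lit 126) (nat_lit 4) (nat_lit 8) (nat_lit 11) L1774 (by decide +kernel)
theorem L1776 : W_1 (nat_lit 7) (nat_lit 0x4000400020001000080000000000000000000000000000000) (nat_lit 0x0) (nat_lit 0x1800080008000d0000e00040004000200000000000000000000000) := T_1 (nat_lit 195) (nat_lit 211) (nat_lit 5) (nat_lit 8) (nat_lit 8) L1775 (by decide +kernel)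
theorem L1777 : W_1 (nat_lit 8) (nat_lit 0x400020001000080000000000000000000000000000000) (nat_lit 0x0) (nat_lit 0x18000c000a000d0000e00040004000200000000000000000000000) := T_1 (nat_lit 194) (nat_lit 177) (nat_lit 5) (nat_lit 8) (nat_lit 7) L1776 (by decide +kernel)
theorem L1797 : W_1 (nat_lit 2) (nat_lit 0x2000000009001f8001000080000000000000000000000000000000) (nat_lit 0x0) (nat_lit 0x1c000000000000000000000000000000000000) := D_1 (nat_lit 147) (nat_lit 146) (nat_lit 148) (nat_lit 2) (nat_lit 7) (nat_lit 9) (nat_lit 2) (nat_lit 8) (nat_lit 9) (by decide +kernel)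
theorem L1798 : W_1 (nat_lit 3) (nat_lit 0x2000000009000f8001000080000000000000000000000000000000) (nat_lit 0x0) (nat_lit 0x10001c800000000000000000000000000000000000) := T_1 (nat_lit 164) (nat_lit 143) (nat_lit 0) (nat_lit 11) (nat_lit 9) L1797 (by decide +kernel)
theorem L1799 : W_1 (nat_lit 4) (nat_lit 0x200000000900078001000080000000000000000000000000000000) (nat_lit 0x0) (nat_lit 0x20018001c800000000000000000000000000000000000) := T_1 (nat_lit 163) (nat_lit 177) (nat_lit 1) (nat_lit 10) (nat_lit 9) L1798 (by decide +kernel)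
theorem L1800 : W_1 (nat_lit 5) (nat_lit 0x900078001000080000000000000000000000000000000) (nat_lit 0x0) (nat_lit 0x20001000020018001c800000000000000000000000000000000000) := T_1 (nat_lit 213) (nat_lit 196) (nat_lit 4) (nat_lit 9) (nat_lit 12) L1799 (by decide +kernel)
theorem L1801 : W_1 (nat_lit 6) (nat_lit 0x800078001000080000000000000000000000000000000) (nat_lit 0x0) (nat_lit 0x20001000038018001c800000000000000000000000000000000000) := T_1 (nat_lit 176) (nat_lit 175) (nat_lit 1) (nat_lit 9) (nat_lit 9) L1800 (by decide +kernel)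
theorem L1802 : W_1 (nat_lit 7) (nat_lit 0x78001000080000000000000000000000000000000) (nat_lit 0x0) (nat_lit 0x200010001b8018001c800000000000000000000000000000000000) := T_1 (nat_lit 179) (nat_lit 180) (nat_lit 3) (nat_lit 6) (nat_lit 9) L1801 (by decide +kernel)
theorem L1803 : W_1 (nat_lit 2) (nat_lit 0x200000000900078001c00080000000000000000000000000000000) (nat_lit 0x0) (nat_lit 0x40002000000000000000040000000000000000000000000000000) := D_1 (nat_lit 193) (nat_lit 210) (nat_lit 126) (nat_lit 6) (nat_lit 6) (nat_lit 12) (nat_lit 6) (nat_lit 6) (nat_lit 11) (by decide +kernel)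
theorem L1804 : W_1 (nat_lit 3) (nat_lit 0x200000000900078001400080000000000000000000000000000000) (nat_lit 0x0) (nat_lit 0x40002000000080000800040000000000000000000000000000000) := T_1 (nat_lit 143) (nat_lit 163) (nat_lit 0) (nat_lit 10) (nat_lit 9) L1803 (by decide +kernel)
theorem L1856 : W_1 (nat_lit 2) (nat_lit 0x1100078001000080000000000000000000000000000000) (nat_lit 0x0) (nat_lit 0x2200080000000000000000000000000000000000000000) := D_1 (nat_lit 163) (nat_lit 177) (nat_lit 181) (nat_lit 1) (nat_lit 10) (nat_lit 9) (nat_lit 3) (nat_lit 7) (nat_lit 9) (by decide +kernel)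
theorem L1857 : W_1 (nat_lit 3) (nat_lit 0x100078001000080000000000000000000000000000000) (nat_lit 0x0) (nat_lit 0x3a00080000000000000000000000000000000000000000) := T_1 (nat_lit 180) (nat_lit 179) (nat_lit 3) (nat_lit 6) (nat_lit 9) L1856 (by decide +kernel)
theorem L1858 : W_1 (nat_lit 4) (nat_lit 0x78001000080000000000000000000000000000000) (nat_lit 0x0) (nat_lit 0x3b80080000000000000000000000000000000000000000) := T_1 (nat_lit 176) (nat_lit 175) (nat_lit 1) (nat_lit 9) (nat_lit 9) L1857 (by decide +kernel)
theorem L1869 : W_1 (nat_lit 2) (nat_lit 0x400000007e001000080000000000000000000000000000000) (nat_lit 0x0) (nat_lit 0xe0000000000000000000000000000000000000000000) := D_1 (nat_lit 174) (nat_lit 173) (nat_lit 175) (nat_lit 1) (nat_lit 7) (nat_lit 9) (nat_lit 1) (nat_lit 8) (nat_lit 9) (by decide +kernel)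
theorem L1870 : W_1 (nat_lit 3) (nat_lit 0x400000007c001000080000000000000000000000000000000) (nat_lit 0x0) (nat_lit 0xe0002000800000000000000000000000000000000000) := T_1 (nat_lit 157) (nat_lit 143) (nat_lit 2) (nat_lit 4) (nat_lit 9) L1869 (by decide +kernel)
theorem L1871 : W_1 (nat_lit 2) (nat_lit 0x400002007e001080080000000000000000000000000000000) (nat_lit 0x0) (nat_lit 0x10001000040000000000000000000000000000000000) := D_1 (nat_lit 156) (nat_lit 172) (nat_lit 138) (nat_lit 1) (nat_lit 6) (nat_lit 9) (nat_lit 0) (nat_lit 6) (nat_lit 9) (by decide +kernel)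
theorem L1872 : W_1 (nat_lit 3) (nat_lit 0x400002007e001000080000000000000000000000000000000) (nat_lit 0x0) (nat_lit 0x100010001c0000000000000000000000000000000000) := T_1 (nat_lit 139) (nat_lit 140) (nat_lit 0) (nat_lit 7) (nat_lit 9) L1871 (by decide +kernel)
theorem L1873 : W_1 (nat_lit 4) (nat_lit 0x400000007e001000080000000000000000000000000000000) (nat_lit 0x0) (nat_lit 0x700010001c0000000000000000000000000000000000) := T_1 (nat_lit 173) (nat_lit 174) (nat_lit 1) (nat_lit 7) (nat_lit 9) L1872 (by decide +kernel)
theorem L1874 : W_1 (nat_lit 5) (nat_lit 0x400000007c001000080000000000000000000000000000000) (nat_lit 0x0) (nat_lit 0x700030009c0000000000000000000000000000000000) := T_1 (nat_lit 157) (nat_lit 143) (nat_lit 2) (nat_lit 4) (nat_lit 9) L1873 (by decide +kernel)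
theorem L1981 : W_1 (nat_lit 2) (nat_lit 0x7000100008000c000200018001000000000000000) (nat_lit 0x0) (nat_lit 0x100000000000000000800080000000000) := D_1 (nat_lit 59) (nat_lit 128) (nat_lit 43) (nat_lit 7) (nat_lit 8) (nat_lit 3) (nat_lit 6) (nat_lit 8) (nat_lit 6) (by decide +kernel)
theorem L1982 : W_1 (nat_lit 3) (nat_lit 0x7000100008000c000200018000000000000000000) (nat_lit 0x0) (nat_lit 0x100000000000020001800080000000000) := T_1 (nat_lit 60) (nat_lit 77) (nat_lit 6) (nat_lit 8) (nat_lit 7) L1981 (by decide +kernel)
theorem L1983 : W_1 (nat_lit 4) (nat_lit 0x7000100008000c000200008000000000000000000) (nat_lit 0x0) (nat_lit 0x100000000000030001c00080000000000) := T_1 (nat_lit 76) (nat_lit 58) (nat_lit 4) (nat_lit 8) (nat_lit 7) L1982 (by decide +kernel)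
theorem L1984 : W_1 (nat_lit 5) (nat_lit 0x7000100008000c000200000000000000000000000) (nat_lit 0x0) (nat_lit 0x100000000100038001c00080000000000) := T_1 (nat_lit 75) (nat_lit 92) (nat_lit 4) (nat_lit 8) (nat_lit 8) L1983 (by decide +kernel)
theorem L1985 : W_1 (nat_lit 6) (nat_lit 0x7000100008000c000000000000000000000000000) (nat_lit 0x0) (nat_lit 0x800100000000300038001c00080000000000) := T_1 (nat_lit 93) (nat_lit 143) (nat_lit 5) (nat_lit 8) (nat_lit 5) L1984 (by decide +kernel)
theorem L1988 : W_1 (nat_lit 4) (nat_lit 0x200000000900078001000080000000000000000000000000000000) (nat_lit 0x0) (nat_lit 0x40002000000080000e00040000000000000000000000000000000) := T_1 (nat_lit 142) (nat_lit 141) (nat_lit 0) (nat_lit 9) (nat_lit 9) L1804 (by decide +kernel)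
theorem L1989 : W_1 (nat_lit 5) (nat_lit 0x200000000800078001000080000000000000000000000000000000) (nat_lit 0x0) (nat_lit 0x40002000180080000e00040000000000000000000000000000000) := T_1 (nat_lit 176) (nat_lit 175) (nat_lit 1) (nat_lit 9) (nat_lit 9) L1988 (by decide +kernel)
theorem L1990 : W_1 (nat_lit 6) (nat_lit 0x200000000800070001000080000000000000000000000000000000) (nat_lit 0x0) (nat_lit 0x40002001180088000e00040000000000000000000000000000000) := T_1 (nat_lit 159) (nat_lit 180) (nat_lit 3) (nat_lit 6) (nat_lit 9) L1989 (by decide +kernel)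
theorem L1991 : W_1 (nat_lit 7) (nat_lit 0x800070001000080000000000000000000000000000000) (nat_lit 0x0) (nat_lit 0x240012001180088000e00040000000000000000000000000000000) := T_1 (nat_lit 213) (nat_lit 196) (nat_lit 4) (nat_lit 9) (nat_lit 12) L1990 (by decide +kernel)
theorem L1992 : W_1 (nat_lit 8) (nat_lit 0x70001000080000000000000000000000000000000) (nat_lit 0x0) (nat_lit 0x240012001980088000e00040004000000000000000000000000000) := T_1 (nat_lit 179) (nat_lit 110) (nat_lit 7) (nat_lit 8) (nat_lit 6) L1991 (by decide +kernel)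
theorem L2013 : W_1 (nat_lit 2) (nat_lit 0x80002000100008000c000000000000000000000000000) (nat_lit 0x0) (nat_lit 0x10000400000000000100000000000000000000000000000000) := D_1 (nat_lit 178) (nat_lit 196) (nat_lit 128) (nat_lit 7) (nat_lit 8) (nat_lit 7) (nat_lit 6) (nat_lit 8) (nat_lit 10) (by decide +kernel)
theorem L2014 : W_1 (nat_lit 3) (nat_lit 0x800020001000080004000000000000000000000000000) (nat_lit 0x0) (nat_lit 0x10000400000000000100008000400000000000000000000000) := T_1 (nat_lit 111) (nat_lit 94) (nat_lit 6) (nat_lit 8) (nat_lit 9) L2013 (by decide +kernel)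
theorem L2015 : W_1 (nat_lit 4) (nat_lit 0x20001000080004000000000000000000000000000) (nat_lit 0x0) (nat_lit 0x10000c00040000000100008000400000000000000000000000) := T_1 (nat_lit 179) (nat_lit 162) (nat_lit 7) (nat_lit 8) (nat_lit 6) L2014 (by decide +kernel)
theorem L2071 : W_1 (nat_lit 2) (nat_lit 0x700060001000080000000000000000000000000000000) (nat_lit 0x0) (nat_lit 0x190000000000000000000000000000000000000000) := D_1 (nat_lit 163) (nat_lit 164) (nat_lit 160) (nat_lit 1) (nat_lit 11) (nat_lit 9) (nat_lit 1) (nat_lit 10) (nat_lit 9) (by decide +kernel)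
theorem L2072 : W_1 (nat_lit 3) (nat_lit 0x600060001000080000000000000000000000000000000) (nat_lit 0x0) (nat_lit 0x180190000000000000000000000000000000000000000) := T_1 (nat_lit 176) (nat_lit 175) (nat_lit 2) (nat_lit 5) (nat_lit 10) L2071 (by decide +kernel)
theorem L2086 : W_1 (nat_lit 2) (nat_lit 0x400060001c00080000000000000000000000000000000) (nat_lit 0x0) (nat_lit 0x190000000000000000000000000000000000000000) := D_1 (nat_lit 163) (nat_lit 164) (nat_lit 160) (nat_lit 0) (nat_lit 11) (nat_lit 9) (nat_lit 0) (nat_lit 10) (nat_lit 9) (by decide +kernel)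
theorem L2087 : W_1 (nat_lit 3) (nat_lit 0x400060001800080000000000000000000000000000000) (nat_lit 0x0) (nat_lit 0x190000600000000000000000000000000000000000) := T_1 (nat_lit 142) (nat_lit 141) (nat_lit 3) (nat_lit 5) (nat_lit 8) L2086 (by decide +kernel)
theorem L2092 : W_1 (nat_lit 2) (nat_lit 0x2003f00068001000180000000000000000000000000000000) (nat_lit 0x0) (nat_lit 0xe0000000000000000000000000000000000000000000000000) := D_1 (nat_lit 198) (nat_lit 197) (nat_lit 199) (nat_lit 3) (nat_lit 7) (nat_lit 10) (nat_lit 3) (nat_lit 8) (nat_lit 10) (by decide +kernel)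
theorem L2093 : W_1 (nat_lit 3) (nat_lit 0x2001f00068001000180000000000000000000000000000000) (nat_lit 0x0) (nat_lit 0xe0006000000000000000000000000000000000000000000000) := T_1 (nat_lit 181) (nat_lit 182) (nat_lit 0) (nat_lit 12) (nat_lit 10) L2092 (by decide +kernel)
theorem L2094 : W_1 (nat_lit 4) (nat_lit 0x2000f00068001000180000000000000000000000000000000) (nat_lit 0x0) (nat_lit 0xe0007000010000000000000000000000000000000000000000) := T_1 (nat_lit 180) (nat_lit 160) (nat_lit 3) (nat_lit 6) (nat_lit 9) L2093 (by decide +kernel)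
theorem L2095 : W_1 (nat_lit 5) (nat_lit 0x2000f00060001000180000000000000000000000000000000) (nat_lit 0x0) (nat_lit 0xe000700001c000000000000000000000000000000000000000) := T_1 (nat_lit 159) (nat_lit 158) (nat_lit 0) (nat_lit 9) (nat_lit 10) L2094 (by decide +kernel)
theorem L2096 : W_1 (nat_lit 6) (nat_lit 0xf00060001000180000000000000000000000000000000) (nat_lit 0x0) (nat_lit 0xe300700001c000000000000000000000000000000000000000) := T_1 (nat_lit 193) (nat_lit 192) (nat_lit 1) (nat_lit 9) (nat_lit 10) L2095 (by decide +kernel)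
theorem L2101 : W_1 (nat_lit 2) (nat_lit 0xe00060001000180000000000000000000000000000000) (nat_lit 0x0) (nat_lit 0x180080000000000000000000000000000000000000000) := D_1 (nat_lit 176) (nat_lit 163) (nat_lit 175) (nat_lit 2) (nat_lit 6) (nat_lit 10) (nat_lit 2) (nat_lit 5) (nat_lit 10) (by decide +kernel)
theorem L2102 : W_1 (nat_lit 3) (nat_lit 0xc00060001000180000000000000000000000000000000) (nat_lit 0x0) (nat_lit 0x4000380080000000000000000000000000000000000000000) := T_1 (nat_lit 177) (nat_lit 194) (nat_lit 5) (nat_lit 8) (nat_lit 7) L2101 (by decide +kernel)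
theorem L2179 : W_1 (nat_lit 2) (nat_lit 0x30001000080004000200028000000000000000000) (nat_lit 0x0) (nat_lit 0x10001400000000000000) := D_1 (nat_lit 76) (nat_lit 58) (nat_lit 60) (nat_lit 4) (nat_lit 8) (nat_lit 7) (nat_lit 6) (nat_lit 8) (nat_lit 7) (by decide +kernel)
theorem L2180 : W_1 (nat_lit 3) (nat_lit 0x30001000080004000200008000000000000000000) (nat_lit 0x0) (nat_lit 0x400030001400000000000000) := T_1 (nat_lit 77) (nat_lit 94) (nat_lit 6) (nat_lit 8) (nat_lit 8) L2179 (by decide +kernel)
theorem L2181 : W_1 (nat_lit 4) (nat_lit 0x30001000080004000200000000000000000000000) (nat_lit 0x0) (nat_lit 0x500038001400000000000000) := T_1 (nat_lit 75) (nat_lit 92) (nat_lit 4) (nat_lit 8) (nat_lit 8) L2180 (by decide +kernel)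
theorem L2182 : W_1 (nat_lit 5) (nat_lit 0x30001000080004000000000000000000000000000) (nat_lit 0x0) (nat_lit 0x800000000000700038001400000000000000) := T_1 (nat_lit 93) (nat_lit 143) (nat_lit 5) (nat_lit 8) (nat_lit 5) L2181 (by decide +kernel)
theorem L2183 : W_1 (nat_lit 6) (nat_lit 0x20001000080004000000000000000000000000000) (nat_lit 0x0) (nat_lit 0x200010000800000000000700038001400000000000000) := T_1 (nat_lit 160) (nat_lit 177) (nat_lit 5) (nat_lit 8) (nat_lit 6) L2182 (by decide +kernel)
theorem L2427 : W_1 (nat_lit 4) (nat_lit 0x20001800080004000000000000000000000000000) (nat_lit 0x0) (nat_lit 0x8000d0000600000000000200000000000000000000000) := T_1 (nat_lit 160) (nat_lit 93) (nat_lit 5) (nat_lit 8) (nat_lit 5) L636 (by decide +kernel)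
theorem L2431 : W_1 (nat_lit 2) (nat_lit 0x60001c00080004000000000000000000000000000) (nat_lit 0x0) (nat_lit 0x190000000000000000000000000000000000000000) := D_1 (nat_lit 163) (nat_lit 164) (nat_lit 160) (nat_lit 0) (nat_lit 11) (nat_lit 9) (nat_lit 0) (nat_lit 10) (nat_lit 9) (by decide +kernel)
theorem L2432 : W_1 (nat_lit 3) (nat_lit 0x60001800080004000000000000000000000000000) (nat_lit 0x0) (nat_lit 0x190000600000000000000000000000000000000000) := T_1 (nat_lit 142) (nat_lit 141) (nat_lit 3) (nat_lit 5) (nat_lit 8) L2431 (by decide +kernel)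
theorem L2433 : W_1 (nat_lit 4) (nat_lit 0x20001800080004000000000000000000000000000) (nat_lit 0x0) (nat_lit 0x8001d0000600000000000000000000000000000000000) := T_1 (nat_lit 162) (nat_lit 179) (nat_lit 7) (nat_lit 8) (nat_lit 6) L2432 (by decide +kernel)
theorem L4772 : W_1 (nat_lit 2) (nat_lit 0x10000f80000001000080000000000000000000000000000000) (nat_lit 0x0) (nat_lit 0x3800000000000000000000000000000000000000000000000) := D_1 (nat_lit 192) (nat_lit 191) (nat_lit 193) (nat_lit 1) (nat_lit 8) (nat_lit 10) (nat_lit 1) (nat_lit 9) (nat_lit 10) (by decide +kernel)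
theorem L4773 : W_1 (nat_lit 3) (nat_lit 0x10000f00000001000080000000000000000000000000000000) (nat_lit 0x0) (nat_lit 0xb800080000000000000000000000000000000000000000000) := T_1 (nat_lit 175) (nat_lit 195) (nat_lit 3) (nat_lit 5) (nat_lit 10) L4772 (by decide +kernel)
theorem L4774 : W_1 (nat_lit 4) (nat_lit 0xf00000001000080000000000000000000000000000000) (nat_lit 0x0) (nat_lit 0x3b800080000000000000000000000000000000000000000000) := T_1 (nat_lit 196) (nat_lit 197) (nat_lit 3) (nat_lit 6) (nat_lit 10) L4773 (by decide +kernel)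
theorem L4787 : W_1 (nat_lit 2) (nat_lit 0x40001e00100001000080000000000000000000000000000000) (nat_lit 0x0) (nat_lit 0x80002000200000000000000000000000000000000000000000) := D_1 (nat_lit 181) (nat_lit 199) (nat_lit 165) (nat_lit 3) (nat_lit 8) (nat_lit 10) (nat_lit 2) (nat_lit 8) (nat_lit 10) (by decide +kernel)
theorem L4788 : W_1 (nat_lit 3) (nat_lit 0x40001e00000001000080000000000000000000000000000000) (nat_lit 0x0) (nat_lit 0x80002000380000000000000000000000000000000000000000) := T_1 (nat_lit 164) (nat_lit 163) (nat_lit 2) (nat_lit 7) (nat_lit 10) L4787 (by decide +kernel)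
theorem L4789 : W_1 (nat_lit 4) (nat_lit 0x1e00000001000080000000000000000000000000000000) (nat_lit 0x0) (nat_lit 0xe0002000380000000000000000000000000000000000000000) := T_1 (nat_lit 198) (nat_lit 197) (nat_lit 3) (nat_lit 7) (nat_lit 10) L4788 (by decide +kernel)
theorem L4791 : W_1 (nat_lit 2) (nat_lit 0xc001f00088001000080000000000000000000000000000000) (nat_lit 0x0) (nat_lit 0x100000c0000000000000000000000000000000000000000000) := D_1 (nat_lit 175) (nat_lit 174) (nat_lit 196) (nat_lit 3) (nat_lit 4) (nat_lit 10) (nat_lit 3) (nat_lit 5) (nat_lit 10) (by decide +kernel)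
theorem L4792 : W_1 (nat_lit 3) (nat_lit 0x4001f00088001000080000000000000000000000000000000) (nat_lit 0x0) (nat_lit 0x180020c0000000000000000000000000000000000000000000) := T_1 (nat_lit 195) (nat_lit 181) (nat_lit 1) (nat_lit 11) (nat_lit 10) L4791 (by decide +kernel)
theorem L4831 : W_1 (nat_lit 2) (nat_lit 0x12000f00080001000080000000000000000000000000000000) (nat_lit 0x0) (nat_lit 0x4001000100000000000000000000000000000000000000000) := D_1 (nat_lit 180) (nat_lit 164) (nat_lit 194) (nat_lit 2) (nat_lit 7) (nat_lit 10) (nat_lit 1) (nat_lit 10) (nat_lit 10) (by decide +kernel)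
theorem L4832 : W_1 (nat_lit 3) (nat_lit 0x10000f00080001000080000000000000000000000000000000) (nat_lit 0x0) (nat_lit 0x7001000100000000000000000000000000000000000000000) := T_1 (nat_lit 193) (nat_lit 192) (nat_lit 1) (nat_lit 9) (nat_lit 10) L4831 (by decide +kernel)
theorem L4833 : W_1 (nat_lit 4) (nat_lit 0x10000f00000001000080000000000000000000000000000000) (nat_lit 0x0) (nat_lit 0x70010001c0000000000000000000000000000000000000000) := T_1 (nat_lit 163) (nat_lit 162) (nat_lit 2) (nat_lit 6) (nat_lit 10) L4832 (by decide +kernel)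
theorem L4834 : W_1 (nat_lit 5) (nat_lit 0xf00000001000080000000000000000000000000000000) (nat_lit 0x0) (nat_lit 0x370010001c0000000000000000000000000000000000000000) := T_1 (nat_lit 196) (nat_lit 197) (nat_lit 3) (nat_lit 6) (nat_lit 10) L4833 (by decide +kernel)
theorem L4845 : W_1 (nat_lit 2) (nat_lit 0x2000f00080001000080000000000000000000000000000000) (nat_lit 0x0) (nat_lit 0x4001000100000000000000000000000000000000000000000) := D_1 (nat_lit 180) (nat_lit 194) (nat_lit 164) (nat_lit 1) (nat_lit 10) (nat_lit 10) (nat_lit 2) (nat_lit 7) (nat_lit 10) (by decide +kernel)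
theorem L4846 : W_1 (nat_lit 3) (nat_lit 0x2000f00000001000080000000000000000000000000000000) (nat_lit 0x0) (nat_lit 0x40010001c0000000000000000000000000000000000000000) := T_1 (nat_lit 163) (nat_lit 162) (nat_lit 2) (nat_lit 6) (nat_lit 10) L4845 (by decide +kernel)
theorem L4847 : W_1 (nat_lit 4) (nat_lit 0xf00000001000080000000000000000000000000000000) (nat_lit 0x0) (nat_lit 0x70010001c0000000000000000000000000000000000000000) := T_1 (nat_lit 193) (nat_lit 192) (nat_lit 1) (nat_lit 9) (nat_lit 10) L4846 (by decide +kernel)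
theorem L4933 : W_1 (nat_lit 2) (nat_lit 0x780020001000180000000000000000000000000000000) (nat_lit 0x0) (nat_lit 0x18000800000000000000000000000000000000000000000000) := D_1 (nat_lit 196) (nat_lit 179) (nat_lit 195) (nat_lit 7) (nat_lit 8) (nat_lit 7) (nat_lit 3) (nat_lit 5) (nat_lit 10) (by decide +kernel)
theorem L4934 : W_1 (nat_lit 3) (nat_lit 0x700020001000180000000000000000000000000000000) (nat_lit 0x0) (nat_lit 0x18000880040000000000000000000000000000000000000000) := T_1 (nat_lit 175) (nat_lit 162) (nat_lit 2) (nat_lit 5) (nat_lit 10) L4933 (by decide +kernel)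
theorem L4935 : W_1 (nat_lit 4) (nat_lit 0x700020001000080000000000000000000000000000000) (nat_lit 0x0) (nat_lit 0x18000880040000000100008000000000000000000000000000) := T_1 (nat_lit 128) (nat_lit 111) (nat_lit 6) (nat_lit 8) (nat_lit 10) L4934 (by decide +kernel)
theorem L4936 : W_1 (nat_lit 2) (nat_lit 0x7c0020001000080000000000000000000000000000000) (nat_lit 0x0) (nat_lit 0x1c00000000000000000000000000000000000000000000000) := D_1 (nat_lit 191) (nat_lit 190) (nat_lit 192) (nat_lit 1) (nat_lit 7) (nat_lit 10) (nat_lit 1) (nat_lit 8) (nat_lit 10) (by decide +kernel)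
theorem L4937 : W_1 (nat_lit 3) (nat_lit 0x780020001000080000000000000000000000000000000) (nat_lit 0x0) (nat_lit 0x1c00040010000000000000000000000000000000000000000) := T_1 (nat_lit 174) (nat_lit 160) (nat_lit 2) (nat_lit 4) (nat_lit 10) L4936 (by decide +kernel)
theorem L4938 : W_1 (nat_lit 4) (nat_lit 0x700020001000080000000000000000000000000000000) (nat_lit 0x0) (nat_lit 0x1c000c0050000000000000000000000000000000000000000) := T_1 (nat_lit 175) (nat_lit 162) (nat_lit 2) (nat_lit 5) (nat_lit 10) L4937 (by decide +kernel)
theorem L5004 : W_1 (nat_lit 2) (nat_lit 0x20001f800b00000001000080000000000000000000000000000000) (nat_lit 0x0) (nat_lit 0x38000000000000000000000000000000000000000000000000000) := D_1 (nat_lit 208) (nat_lit 209) (nat_lit 207) (nat_lit 1) (nat_lit 8) (nat_lit 11) (nat_lit 1) (nat_lit 7) (nat_lit 11) (by decide +kernel)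
theorem L5005 : W_1 (nat_lit 3) (nat_lit 0x20001f000b00000001000080000000000000000000000000000000) (nat_lit 0x0) (nat_lit 0x38000c00000000000000000000000000000000000000000000000) := T_1 (nat_lit 191) (nat_lit 190) (nat_lit 2) (nat_lit 3) (nat_lit 11) L5004 (by decide +kernel)
theorem L5006 : W_1 (nat_lit 4) (nat_lit 0x20001e000b00000001000080000000000000000000000000000000) (nat_lit 0x0) (nat_lit 0x138001c00000000000000000000000000000000000000000000000) := T_1 (nat_lit 192) (nat_lit 212) (nat_lit 3) (nat_lit 5) (nat_lit 11) L5005 (by decide +kernel)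
theorem L5007 : W_1 (nat_lit 5) (nat_lit 0x1e000b00000001000080000000000000000000000000000000) (nat_lit 0x0) (nat_lit 0x738001c00000000000000000000000000000000000000000000000) := T_1 (nat_lit 213) (nat_lit 214) (nat_lit 3) (nat_lit 6) (nat_lit 11) L5006 (by decide +kernel)
theorem L5044 : W_1 (nat_lit 2) (nat_lit 0x3e001200000001000080000000000000000000000000000000) (nat_lit 0x0) (nat_lit 0xe00000000000000000000000000000000000000000000000000000) := D_1 (nat_lit 214) (nat_lit 215) (nat_lit 213) (nat_lit 3) (nat_lit 7) (nat_lit 11) (nat_lit 3) (nat_lit 6) (nat_lit 11) (by decide +kernel)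
theorem L5045 : W_1 (nat_lit 3) (nat_lit 0x3c001200000001000080000000000000000000000000000000) (nat_lit 0x0) (nat_lit 0xe00002000800000000000000000000000000000000000000000000) := T_1 (nat_lit 193) (nat_lit 179) (nat_lit 2) (nat_lit 6) (nat_lit 11) L5044 (by decide +kernel)
theorem L5046 : W_1 (nat_lit 4) (nat_lit 0x3c000200000001000080000000000000000000000000000000) (nat_lit 0x0) (nat_lit 0xe00002003800000000000000000000000000000000000000000000) := T_1 (nat_lit 180) (nat_lit 181) (nat_lit 2) (nat_lit 7) (nat_lit 11) L5045 (by decide +kernel)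
theorem L5062 : W_1 (nat_lit 5) (nat_lit 0x1c000200000001000080000000000000000000000000000000) (nat_lit 0x0) (nat_lit 0xe00022003900000000000000000000000000000000000000000000) := T_1 (nat_lit 197) (nat_lit 176) (nat_lit 0) (nat_lit 10) (nat_lit 11) L5046 (by decide +kernel)
theorem L5218 : W_1 (nat_lit 2) (nat_lit 0x4000000016000f000680000001000080000000000000000000000000000000) (nat_lit 0x0) (nat_lit 0x800000000000000004000200000000000000000000000000000000000) := D_1 (nat_lit 158) (nat_lit 227) (nat_lit 141) (nat_lit 7) (nat_lit 5) (nat_lit 9) (nat_lit 7) (nat_lit 5) (nat_lit 8) (by decide +kernel)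
theorem L5219 : W_1 (nat_lit 3) (nat_lit 0x4000000012000f000680000001000080000000000000000000000000000000) (nat_lit 0x0) (nat_lit 0x800040010000000004000200000000000000000000000000000000000) := T_1 (nat_lit 210) (nat_lit 196) (nat_lit 1) (nat_lit 9) (nat_lit 11) L5218 (by decide +kernel)
theorem L5220 : W_1 (nat_lit 4) (nat_lit 0x4000000010000f000680000001000080000000000000000000000000000000) (nat_lit 0x0) (nat_lit 0x800070010000000004000200000000000000000000000000000000000) := T_1 (nat_lit 209) (nat_lit 208) (nat_lit 1) (nat_lit 8) (nat_lit 11) L5219 (by decide +kernel)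
theorem L5278 : W_1 (nat_lit 2) (nat_lit 0x10000f000600000001000080000000000000000000000000000000) (nat_lit 0x0) (nat_lit 0x40002000000000000000010000000000000000000000000000000000000000) := D_1 (nat_lit 229) (nat_lit 160) (nat_lit 246) (nat_lit 4) (nat_lit 8) (nat_lit 13) (nat_lit 4) (nat_lit 8) (nat_lit 14) (by decide +kernel)
theorem L5279 : W_1 (nat_lit 3) (nat_lit 0x10000f000200000001000080000000000000000000000000000000) (nat_lit 0x0) (nat_lit 0x40002000000000000c00010000000000000000000000000000000000000000) := T_1 (nat_lit 178) (nat_lit 179) (nat_lit 2) (nat_lit 5) (nat_lit 11) L5278 (by decide +kernel)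
theorem L5280 : W_1 (nat_lit 4) (nat_lit 0xf000200000001000080000000000000000000000000000000) (nat_lit 0x0) (nat_lit 0x40002000300000000c00010000000000000000000000000000000000000000) := T_1 (nat_lit 212) (nat_lit 213) (nat_lit 3) (nat_lit 5) (nat_lit 11) L5279 (by decide +kernel)
theorem L5282 : W_1 (nat_lit 2) (nat_lit 0x4000000016000f000280010001000080000000000000000000000000000000) (nat_lit 0x0) (nat_lit 0x10000800000000000000004000000000000000000000000000000000000000) := D_1 (nat_lit 227) (nat_lit 244) (nat_lit 158) (nat_lit 6) (nat_lit 6) (nat_lit 14) (nat_lit 7) (nat_lit 5) (nat_lit 9) (by decide +kernel)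
theorem L5290 : W_1 (nat_lit 2) (nat_lit 0x10000f000200000001000080000000000000000000000000000000) (nat_lit 0x0) (nat_lit 0x80000800400000000000000000000000000000000000000000000) := D_1 (nat_lit 191) (nat_lit 211) (nat_lit 178) (nat_lit 3) (nat_lit 4) (nat_lit 11) (nat_lit 2) (nat_lit 4) (nat_lit 11) (by decide +kernel)
theorem L5321 : W_1 (nat_lit 2) (nat_lit 0xc000340008001400080000000000000000000000000000000) (nat_lit 0x0) (nat_lit 0x1000080002000000000000000000000000000000000000000000000000) := D_1 (nat_lit 211) (nat_lit 228) (nat_lit 193) (nat_lit 4) (nat_lit 7) (nat_lit 13) (nat_lit 7) (nat_lit 6) (nat_lit 8) (by decide +kernel)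
theorem L5331 : W_1 (nat_lit 2) (nat_lit 0xc000340002001e00090000000000000000000000000000000) (nat_lit 0x0) (nat_lit 0x800000001000100000000000000000000000000000000000) := D_1 (nat_lit 140) (nat_lit 156) (nat_lit 191) (nat_lit 1) (nat_lit 7) (nat_lit 8) (nat_lit 6) (nat_lit 4) (nat_lit 11) (by decide +kernel)
theorem L5332 : W_1 (nat_lit 3) (nat_lit 0xc000340002001e00080000000000000000000000000000000) (nat_lit 0x0) (nat_lit 0x800000001000100018000000000000000000000000000000) := T_1 (nat_lit 124) (nat_lit 123) (nat_lit 0) (nat_lit 8) (nat_lit 8) L5331 (by decide +kernel)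
theorem L5333 : W_1 (nat_lit 4) (nat_lit 0xc000340000001e00080000000000000000000000000000000) (nat_lit 0x0) (nat_lit 0x800000007000100018000000000000000000000000000000) := T_1 (nat_lit 157) (nat_lit 158) (nat_lit 1) (nat_lit 8) (nat_lit 8) L5332 (by decide +kernel)
theorem L5334 : W_1 (nat_lit 5) (nat_lit 0xc000340000001c00080000000000000000000000000000000) (nat_lit 0x0) (nat_lit 0x800000007000300118000000000000000000000000000000) := T_1 (nat_lit 141) (nat_lit 128) (nat_lit 2) (nat_lit 5) (nat_lit 8) L5333 (by decide +kernel)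
theorem L5361 : W_1 (nat_lit 2) (nat_lit 0x2c000300002001e000a8000000000000000000000000000000) (nat_lit 0x0) (nat_lit 0x1000100004000000000000000000000000000000) := D_1 (nat_lit 140) (nat_lit 156) (nat_lit 122) (nat_lit 1) (nat_lit 7) (nat_lit 8) (nat_lit 0) (nat_lit 7) (nat_lit 8) (by decide +kernel)
theorem L5362 : W_1 (nat_lit 3) (nat_lit 0x2c000300002001e000a0000000000000000000000000000000) (nat_lit 0x0) (nat_lit 0x100010001c000000000000000000000000000000) := T_1 (nat_lit 123) (nat_lit 124) (nat_lit 0) (nat_lit 8) (nat_lit 8) L5361 (by decide +kernel)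
theorem L5363 : W_1 (nat_lit 4) (nat_lit 0x2c000300000001e000a0000000000000000000000000000000) (nat_lit 0x0) (nat_lit 0x700010001c000000000000000000000000000000) := T_1 (nat_lit 157) (nat_lit 158) (nat_lit 1) (nat_lit 8) (nat_lit 8) L5362 (by decide +kernel)
theorem L5376 : W_1 (nat_lit 2) (nat_lit 0xc000380000001000080000000000000000000000000000000) (nat_lit 0x0) (nat_lit 0x30000400000000000000000000000000000000000000000000) := D_1 (nat_lit 196) (nat_lit 197) (nat_lit 178) (nat_lit 0) (nat_lit 10) (nat_lit 11) (nat_lit 3) (nat_lit 5) (nat_lit 10) (by decide +kernel)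
theorem L5377 : W_1 (nat_lit 3) (nat_lit 0xc000300000001000080000000000000000000000000000000) (nat_lit 0x0) (nat_lit 0x300004c0000000000000000000000000000000000000000000) := T_1 (nat_lit 175) (nat_lit 174) (nat_lit 3) (nat_lit 4) (nat_lit 10) L5376 (by decide +kernel)
theorem L5465 : W_1 (nat_lit 2) (nat_lit 0x7c000200010001000080000000000000000000000000000000) (nat_lit 0x0) (nat_lit 0x1c00000000000000000000000000000000000000000000000000000) := D_1 (nat_lit 215) (nat_lit 214) (nat_lit 216) (nat_lit 3) (nat_lit 7) (nat_lit 11) (nat_lit 3) (nat_lit 8) (nat_lit 11) (by decide +kernel)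
theorem L5466 : W_1 (nat_lit 3) (nat_lit 0x3c000200010001000080000000000000000000000000000000) (nat_lit 0x0) (nat_lit 0x1c00040000400000000000000000000000000000000000000000000) := T_1 (nat_lit 198) (nat_lit 178) (nat_lit 0) (nat_lit 11) (nat_lit 11) L5465 (by decide +kernel)
theorem L5482 : W_1 (nat_lit 2) (nat_lit 0x4000200010001000080000000000000000000000000000000) (nat_lit 0x0) (nat_lit 0x80000000400020000000000000000000000000000000000000000) := D_1 (nat_lit 161) (nat_lit 178) (nat_lit 211) (nat_lit 5) (nat_lit 8) (nat_lit 7) (nat_lit 6) (nat_lit 7) (nat_lit 12) (by decide +kernel)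
theorem L5484 : W_1 (nat_lit 2) (nat_lit 0x20000c0004000200018001000080000000000000000000000000000000) (nat_lit 0x0) (nat_lit 0x40001000000000000100000000000000000000000000000000000000000000) := D_1 (nat_lit 228) (nat_lit 246) (nat_lit 176) (nat_lit 7) (nat_lit 7) (nat_lit 10) (nat_lit 4) (nat_lit 7) (nat_lit 13) (by decide +kernel)
theorem L5485 : W_1 (nat_lit 3) (nat_lit 0x20000c0004000200010001000080000000000000000000000000000000) (nat_lit 0x0) (nat_lit 0x40001000000000000100008000400000000000000000000000000000000000) := T_1 (nat_lit 159) (nat_lit 142) (nat_lit 4) (nat_lit 7) (nat_lit 12) L5484 (by decide +kernel)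
theorem L5486 : W_1 (nat_lit 4) (nat_lit 0xc0004000200010001000080000000000000000000000000000000) (nat_lit 0x0) (nat_lit 0x40003000100000000100008000400000000000000000000000000000000000) := T_1 (nat_lit 229) (nat_lit 212) (nat_lit 7) (nat_lit 7) (nat_lit 9) L5485 (by decide +kernel)
theorem L5487 : W_1 (nat_lit 5) (nat_lit 0x80004000200010001000080000000000000000000000000000000) (nat_lit 0x0) (nat_lit 0x40003800140000000100008000400000000000000000000000000000000000) := T_1 (nat_lit 210) (nat_lit 227) (nat_lit 5) (nat_lit 7) (nat_lit 9) L5486 (by decide +kernel)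
theorem L5669 : W_1 (nat_lit 2) (nat_lit 0x7c00200010001c0000000000000000000000000000000) (nat_lit 0x0) (nat_lit 0x1c00000000000000000000000000000000000000000000000) := D_1 (nat_lit 191) (nat_lit 190) (nat_lit 192) (nat_lit 1) (nat_lit 7) (nat_lit 10) (nat_lit 1) (nat_lit 8) (nat_lit 10) (by decide +kernel)
theorem L5670 : W_1 (nat_lit 3) (nat_lit 0x7800200010001c0000000000000000000000000000000) (nat_lit 0x0) (nat_lit 0x1c00040010000000000000000000000000000000000000000) := T_1 (nat_lit 174) (nat_lit 160) (nat_lit 2) (nat_lit 4) (nat_lit 10) L5669 (by decide +kernel)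
theorem L5671 : W_1 (nat_lit 4) (nat_lit 0x7000200010001c0000000000000000000000000000000) (nat_lit 0x0) (nat_lit 0x1c000c0050000000000000000000000000000000000000000) := T_1 (nat_lit 175) (nat_lit 162) (nat_lit 2) (nat_lit 5) (nat_lit 10) L5670 (by decide +kernel)
theorem L5672 : W_1 (nat_lit 5) (nat_lit 0x7000200010000c0000000000000000000000000000000) (nat_lit 0x0) (nat_lit 0x1c000c0050000000100008000000000000000000000000000) := T_1 (nat_lit 128) (nat_lit 111) (nat_lit 6) (nat_lit 8) (nat_lit 10) L5671 (by decide +kernel)
theorem L5673 : W_1 (nat_lit 6) (nat_lit 0x700020001000080000000000000000000000000000000) (nat_lit 0x0) (nat_lit 0x1c000c005000000014000a000000000000000000000000000) := T_1 (nat_lit 126) (nat_lit 109) (nat_lit 4) (nat_lit 8) (nat_lit 10) L5672 (by decide +kernel)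
theorem L5674 : W_1 (nat_lit 2) (nat_lit 0xf00020001000080000000000000000000000000000000) (nat_lit 0x0) (nat_lit 0x800c0000000000000000000000000000000000000000) := D_1 (nat_lit 162) (nat_lit 163) (nat_lit 175) (nat_lit 2) (nat_lit 6) (nat_lit 10) (nat_lit 2) (nat_lit 5) (nat_lit 10) (by decide +kernel)
theorem L5675 : W_1 (nat_lit 3) (nat_lit 0x700020001000080000000000000000000000000000000) (nat_lit 0x0) (nat_lit 0x100008800c0000000000000000000000000000000000000000) := T_1 (nat_lit 179) (nat_lit 196) (nat_lit 7) (nat_lit 8) (nat_lit 7) L5674 (by decide +kernel)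
theorem L5697 : W_1 (nat_lit 7) (nat_lit 0xf00020001000180000000000000000000000000000000) (nat_lit 0x0) (nat_lit 0xe30070000dc000000000000000000000000000000000000000) := T_1 (nat_lit 162) (nat_lit 163) (nat_lit 2) (nat_lit 6) (nat_lit 10) L2096 (by decide +kernel)
theorem L5698 : W_1 (nat_lit 8) (nat_lit 0x700020001000180000000000000000000000000000000) (nat_lit 0x0) (nat_lit 0xf30078000dc000000000000000000000000000000000000000) := T_1 (nat_lit 179) (nat_lit 196) (nat_lit 7) (nat_lit 8) (nat_lit 7) L5697 (by decide +kernel)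
theorem L5699 : W_1 (nat_lit 9) (nat_lit 0x700020001000080000000000000000000000000000000) (nat_lit 0x0) (nat_lit 0xf30078000dc000000100008000000000000000000000000000) := T_1 (nat_lit 128) (nat_lit 111) (nat_lit 6) (nat_lit 8) (nat_lit 10) L5698 (by decide +kernel)
theorem L5831 : W_1 (nat_lit 2) (nat_lit 0x1f800b00010001c0000000000000000000000000000000) (nat_lit 0x0) (nat_lit 0x3800000000000000000000000000000000000000000000000) := D_1 (nat_lit 192) (nat_lit 193) (nat_lit 191) (nat_lit 1) (nat_lit 9) (nat_lit 10) (nat_lit 1) (nat_lit 8) (nat_lit 10) (by decide +kernel)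
theorem L5832 : W_1 (nat_lit 3) (nat_lit 0x1f000b00010001c0000000000000000000000000000000) (nat_lit 0x0) (nat_lit 0x38000c0000000000000000000000000000000000000000000) := T_1 (nat_lit 175) (nat_lit 174) (nat_lit 2) (nat_lit 4) (nat_lit 10) L5831 (by decide +kernel)
theorem L5833 : W_1 (nat_lit 4) (nat_lit 0x1e000b00010001c0000000000000000000000000000000) (nat_lit 0x0) (nat_lit 0x38001c0040000000000000000000000000000000000000000) := T_1 (nat_lit 176) (nat_lit 162) (nat_lit 2) (nat_lit 6) (nat_lit 10) L5832 (by decide +kernel)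
theorem L5834 : W_1 (nat_lit 5) (nat_lit 0x1e000300010001c0000000000000000000000000000000) (nat_lit 0x0) (nat_lit 0x38001c01c0000000000000000000000000000000000000000) := T_1 (nat_lit 163) (nat_lit 164) (nat_lit 2) (nat_lit 7) (nat_lit 10) L5833 (by decide +kernel)
theorem L5918 : W_1 (nat_lit 4) (nat_lit 0x10000e00000001000080000000000000000000000000000000) (nat_lit 0x0) (nat_lit 0x2b800180000000000000000000000000000000000000000000) := T_1 (nat_lit 176) (nat_lit 197) (nat_lit 3) (nat_lit 6) (nat_lit 10) L4773 (by decide +kernel)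
theorem L5919 : W_1 (nat_lit 5) (nat_lit 0xe00000001000080000000000000000000000000000000) (nat_lit 0x0) (nat_lit 0x3b800180020000000000000000000000000000000000000000) := T_1 (nat_lit 196) (nat_lit 161) (nat_lit 7) (nat_lit 8) (nat_lit 7) L5918 (by decide +kernel)
theorem L6003 : W_1 (nat_lit 2) (nat_lit 0x1c000d000e000380000001000080000000000000000000000000000000) (nat_lit 0x0) (nat_lit 0x200108000000000000000000000000000000000000000000000000000) := D_1 (nat_lit 225) (nat_lit 212) (nat_lit 207) (nat_lit 2) (nat_lit 4) (nat_lit 13) (nat_lit 0) (nat_lit 7) (nat_lit 13) (by decide +kernel)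
theorem L6004 : W_1 (nat_lit 3) (nat_lit 0x18000d000e000380000001000080000000000000000000000000000000) (nat_lit 0x0) (nat_lit 0x8000600108000000000000000000000000000000000000000000000000000) := T_1 (nat_lit 226) (nat_lit 243) (nat_lit 5) (nat_lit 6) (nat_lit 10) L6003 (by decide +kernel)
theorem L6005 : W_1 (nat_lit 4) (nat_lit 0x18000c000e000380000001000080000000000000000000000000000000) (nat_lit 0x0) (nat_lit 0x8000600138000000000000000000000000000000000000000000000000000) := T_1 (nat_lit 208) (nat_lit 209) (nat_lit 2) (nat_lit 4) (nat_lit 12) L6004 (by decide +kernel)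
theorem L6015 : W_1 (nat_lit 2) (nat_lit 0x80007c002d0004000200000001000080000000000000000000000000000000) (nat_lit 0x0) (nat_lit 0x300008000000000000000000000000000000000000000000000000000) := D_1 (nat_lit 225) (nat_lit 224) (nat_lit 207) (nat_lit 2) (nat_lit 3) (nat_lit 13) (nat_lit 0) (nat_lit 7) (nat_lit 13) (by decide +kernel)
theorem L6016 : W_1 (nat_lit 3) (nat_lit 0x800078002d0004000200000001000080000000000000000000000000000000) (nat_lit 0x0) (nat_lit 0x700108000000000000000000000000000000000000000000000000000) := T_1 (nat_lit 226) (nat_lit 212) (nat_lit 2) (nat_lit 5) (nat_lit 13) L6015 (by decide +kernel)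
theorem L6017 : W_1 (nat_lit 4) (nat_lit 0x800078000d0004000200000001000080000000000000000000000000000000) (nat_lit 0x0) (nat_lit 0x700708000000000000000000000000000000000000000000000000000) := T_1 (nat_lit 213) (nat_lit 214) (nat_lit 2) (nat_lit 6) (nat_lit 13) L6016 (by decide +kernel)
theorem L6018 : W_1 (nat_lit 5) (nat_lit 0x78000d0004000200000001000080000000000000000000000000000000) (nat_lit 0x0) (nat_lit 0x180000700708000000000000000000000000000000000000000000000000000) := T_1 (nat_lit 247) (nat_lit 248) (nat_lit 3) (nat_lit 6) (nat_lit 13) L6017 (by decide +kernel)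
theorem L6019 : W_1 (nat_lit 6) (nat_lit 0x70000d0004000200000001000080000000000000000000000000000000) (nat_lit 0x0) (nat_lit 0x190000f00708000000000000000000000000000000000000000000000000000) := T_1 (nat_lit 227) (nat_lit 244) (nat_lit 5) (nat_lit 7) (nat_lit 10) L6018 (by decide +kernel)
theorem L6020 : W_1 (nat_lit 7) (nat_lit 0x30000d0004000200000001000080000000000000000000000000000000) (nat_lit 0x0) (nat_lit 0x19000cf00708000000000000000000000000000000000000000000000000000) := T_1 (nat_lit 230) (nat_lit 231) (nat_lit 0) (nat_lit 10) (nat_lit 13) L6019 (by decide +kernel)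
theorem L6021 : W_1 (nat_lit 8) (nat_lit 0x30000c0004000200000001000080000000000000000000000000000000) (nat_lit 0x0) (nat_lit 0x19000cf00738000000000000000000000000000000000000000000000000000) := T_1 (nat_lit 208) (nat_lit 209) (nat_lit 3) (nat_lit 4) (nat_lit 12) L6020 (by decide +kernel)
theorem L6022 : W_1 (nat_lit 9) (nat_lit 0x10000c0004000200000001000080000000000000000000000000000000) (nat_lit 0x0) (nat_lit 0x1d000ef00738000000000000000000000000000000000000000000000000000) := T_1 (nat_lit 229) (nat_lit 246) (nat_lit 7) (nat_lit 7) (nat_lit 10) L6021 (by decide +kernel)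
theorem L6023 : W_1 (nat_lit 2) (nat_lit 0x38000c0004000300000001000080000000000000000000000000000000) (nat_lit 0x0) (nat_lit 0x4000030000000000000000000000000000000000000000000000000000) := D_1 (nat_lit 209) (nat_lit 208) (nat_lit 230) (nat_lit 3) (nat_lit 4) (nat_lit 12) (nat_lit 0) (nat_lit 9) (nat_lit 13) (by decide +kernel)
theorem L6024 : W_1 (nat_lit 3) (nat_lit 0x18000c0004000300000001000080000000000000000000000000000000) (nat_lit 0x0) (nat_lit 0x40006000030000000000000000000000000000000000000000000000000000) := T_1 (nat_lit 229) (nat_lit 246) (nat_lit 7) (nat_lit 7) (nat_lit 10) L6023 (by decide +kernel)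
theorem L6027 : W_1 (nat_lit 2) (nat_lit 0x88007d002c0004000200000001000080000000000000000000000000000000) (nat_lit 0x0) (nat_lit 0x2000100008000000000000000000000000000000000000000) := D_1 (nat_lit 176) (nat_lit 159) (nat_lit 193) (nat_lit 4) (nat_lit 7) (nat_lit 13) (nat_lit 5) (nat_lit 6) (nat_lit 10) (by decide +kernel)
theorem L6028 : W_1 (nat_lit 3) (nat_lit 0x80007d002c0004000200000001000080000000000000000000000000000000) (nat_lit 0x0) (nat_lit 0xc000000000002000100008000000000000000000000000000000000000000) := T_1 (nat_lit 243) (nat_lit 242) (nat_lit 1) (nat_lit 8) (nat_lit 13) L6027 (by decide +kernel)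
theorem L6029 : W_1 (nat_lit 4) (nat_lit 0x80007c002c0004000200000001000080000000000000000000000000000000) (nat_lit 0x0) (nat_lit 0xc000300000002000100008000000000000000000000000000000000000000) := T_1 (nat_lit 224) (nat_lit 225) (nat_lit 2) (nat_lit 3) (nat_lit 13) L6028 (by decide +kernel)
theorem L6030 : W_1 (nat_lit 5) (nat_lit 0x800078002c0004000200000001000080000000000000000000000000000000) (nat_lit 0x0) (nat_lit 0xc000700100002000100008000000000000000000000000000000000000000) := T_1 (nat_lit 226) (nat_lit 212) (nat_lit 2) (nat_lit 5) (nat_lit 13) L6029 (by decide +kernel)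
theorem L6031 : W_1 (nat_lit 6) (nat_lit 0x800078000c0004000200000001000080000000000000000000000000000000) (nat_lit 0x0) (nat_lit 0xc000700700002000100008000000000000000000000000000000000000000) := T_1 (nat_lit 213) (nat_lit 214) (nat_lit 2) (nat_lit 6) (nat_lit 13) L6030 (by decide +kernel)
theorem L6032 : W_1 (nat_lit 7) (nat_lit 0x78000c0004000200000001000080000000000000000000000000000000) (nat_lit 0x0) (nat_lit 0x18c000700700002000100008000000000000000000000000000000000000000) := T_1 (nat_lit 247) (nat_lit 248) (nat_lit 3) (nat_lit 6) (nat_lit 13) L6031 (by decide +kernel)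
theorem L6033 : W_1 (nat_lit 8) (nat_lit 0x70000c0004000200000001000080000000000000000000000000000000) (nat_lit 0x0) (nat_lit 0x19c000f00700002000100008000000000000000000000000000000000000000) := T_1 (nat_lit 227) (nat_lit 244) (nat_lit 5) (nat_lit 7) (nat_lit 10) L6032 (by decide +kernel)
theorem L6034 : W_1 (nat_lit 9) (nat_lit 0x30000c0004000200000001000080000000000000000000000000000000) (nat_lit 0x0) (nat_lit 0x19c00cf00700002000100008000000000000000000000000000000000000000) := T_1 (nat_lit 230) (nat_lit 231) (nat_lit 0) (nat_lit 10) (nat_lit 13) L6033 (by decide +kernel)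
theorem L6035 : W_1 (nat_lit 10) (nat_lit 0x10000c0004000200000001000080000000000000000000000000000000) (nat_lit 0x0) (nat_lit 0x1dc00ef00700002000100008000000000000000000000000000000000000000) := T_1 (nat_lit 229) (nat_lit 246) (nat_lit 7) (nat_lit 7) (nat_lit 10) L6034 (by decide +kernel)
theorem L6036 : W_1 (nat_lit 2) (nat_lit 0x30000e0004000300000001000080000000000000000000000000000000) (nat_lit 0x0) (nat_lit 0xc000100000000000000000000000000000000000000000000000000000) := D_1 (nat_lit 230) (nat_lit 231) (nat_lit 212) (nat_lit 0) (nat_lit 10) (nat_lit 13) (nat_lit 3) (nat_lit 5) (nat_lit 12) (by decide +kernel)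
theorem L6037 : W_1 (nat_lit 3) (nat_lit 0x30000c0004000300000001000080000000000000000000000000000000) (nat_lit 0x0) (nat_lit 0xc000130000000000000000000000000000000000000000000000000000) := T_1 (nat_lit 209) (nat_lit 208) (nat_lit 3) (nat_lit 4) (nat_lit 12) L6036 (by decide +kernel)
theorem L6038 : W_1 (nat_lit 4) (nat_lit 0x10000c0004000300000001000080000000000000000000000000000000) (nat_lit 0x0) (nat_lit 0x4000e000130000000000000000000000000000000000000000000000000000) := T_1 (nat_lit 229) (nat_lit 246) (nat_lit 7) (nat_lit 7) (nat_lit 10) L6037 (by decide +kernel)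
theorem L6039 : W_1 (nat_lit 5) (nat_lit 0x10000c0004000200000001000080000000000000000000000000000000) (nat_lit 0x0) (nat_lit 0x4000e000130000000100008000000000000000000000000000000000000000) := T_1 (nat_lit 176) (nat_lit 159) (nat_lit 4) (nat_lit 7) (nat_lit 13) L6038 (by decide +kernel)
theorem L6045 : W_1 (nat_lit 2) (nat_lit 0x50001000080004000200000001000080000000000000000000000000000000) (nat_lit 0x0) (nat_lit 0xa00020000000000000000000000000000000000000000000000000000000000000) := D_1 (nat_lit 245) (nat_lit 261) (nat_lit 263) (nat_lit 5) (nat_lit 7) (nat_lit 11) (nat_lit 7) (nat_lit 7) (nat_lit 11) (by decide +kernel)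
theorem L6046 : W_1 (nat_lit 3) (nat_lit 0x10001000080004000200000001000080000000000000000000000000000000) (nat_lit 0x0) (nat_lit 0xa00060002000000000000000000000000000000000000000000000000000000000) := T_1 (nat_lit 246) (nat_lit 229) (nat_lit 7) (nat_lit 7) (nat_lit 10) L6045 (by decide +kernel)
theorem L6047 : W_1 (nat_lit 4) (nat_lit 0x1000080004000200000001000080000000000000000000000000000000) (nat_lit 0x0) (nat_lit 0xa00070002800000000000000000000000000000000000000000000000000000000) := T_1 (nat_lit 244) (nat_lit 227) (nat_lit 5) (nat_lit 7) (nat_lit 10) L6046 (by decide +kernel)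
theorem L6062 : W_1 (nat_lit 2) (nat_lit 0x40001000080004000300000001000080000000000000000000000000000000) (nat_lit 0x0) (nat_lit 0x800020000000000002000000000000000000000000000000000000000000000000) := D_1 (nat_lit 245) (nat_lit 193) (nat_lit 263) (nat_lit 4) (nat_lit 7) (nat_lit 14) (nat_lit 7) (nat_lit 7) (nat_lit 11) (by decide +kernel)
theorem L6063 : W_1 (nat_lit 3) (nat_lit 0x1000080004000300000001000080000000000000000000000000000000) (nat_lit 0x0) (nat_lit 0x800060002000000002000000000000000000000000000000000000000000000000) := T_1 (nat_lit 246) (nat_lit 229) (nat_lit 7) (nat_lit 7) (nat_lit 10) L6062 (by decide +kernel)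
theorem L6064 : W_1 (nat_lit 4) (nat_lit 0x1000080004000200000001000080000000000000000000000000000000) (nat_lit 0x0) (nat_lit 0x800060002000000002000100008000000000000000000000000000000000000000) := T_1 (nat_lit 176) (nat_lit 159) (nat_lit 4) (nat_lit 7) (nat_lit 13) L6063 (by decide +kernel)
theorem L6065 : W_1 (nat_lit 2) (nat_lit 0x10001000080004000300000001000080000000000000000000000000000000) (nat_lit 0x0) (nat_lit 0x200020000000000002000000000000000000000000000000000000000000000000) := D_1 (nat_lit 245) (nat_lit 193) (nat_lit 261) (nat_lit 4) (nat_lit 7) (nat_lit 14) (nat_lit 5) (nat_lit 7) (nat_lit 11) (by decide +kernel)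
theorem L6066 : W_1 (nat_lit 3) (nat_lit 0x1000080004000300000001000080000000000000000000000000000000) (nat_lit 0x0) (nat_lit 0x200030000800000002000000000000000000000000000000000000000000000000) := T_1 (nat_lit 244) (nat_lit 227) (nat_lit 5) (nat_lit 7) (nat_lit 10) L6065 (by decide +kernel)
theorem L6067 : W_1 (nat_lit 4) (nat_lit 0x1000080004000200000001000080000000000000000000000000000000) (nat_lit 0x0) (nat_lit 0x200030000800000002000100008000000000000000000000000000000000000000) := T_1 (nat_lit 176) (nat_lit 159) (nat_lit 4) (nat_lit 7) (nat_lit 13) L6066 (by decide +kernel)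
theorem L6070 : W_1 (nat_lit 2) (nat_lit 0x2800080004000200010001000080000000000000000000000000000000) (nat_lit 0x0) (nat_lit 0x50001000000000000000000000000000000000000000000000000000000000) := D_1 (nat_lit 228) (nat_lit 244) (nat_lit 246) (nat_lit 5) (nat_lit 7) (nat_lit 10) (nat_lit 7) (nat_lit 7) (nat_lit 10) (by decide +kernel)
theorem L6071 : W_1 (nat_lit 3) (nat_lit 0x800080004000200010001000080000000000000000000000000000000) (nat_lit 0x0) (nat_lit 0x50003000100000000000000000000000000000000000000000000000000000) := T_1 (nat_lit 229) (nat_lit 212) (nat_lit 7) (nat_lit 7) (nat_lit 9) L6070 (by decide +kernel)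
theorem L6072 : W_1 (nat_lit 4) (nat_lit 0x80004000200010001000080000000000000000000000000000000) (nat_lit 0x0) (nat_lit 0x50003800140000000000000000000000000000000000000000000000000000) := T_1 (nat_lit 227) (nat_lit 210) (nat_lit 5) (nat_lit 7) (nat_lit 9) L6071 (by decide +kernel)
theorem L6108 : W_1 (nat_lit 2) (nat_lit 0x40001e0005000200000001000080000000000000000000000000000000) (nat_lit 0x0) (nat_lit 0x8000200002000000000000000000000000000000000000000000000000) := D_1 (nat_lit 213) (nat_lit 193) (nat_lit 231) (nat_lit 0) (nat_lit 9) (nat_lit 12) (nat_lit 3) (nat_lit 6) (nat_lit 12) (by decide +kernel)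
theorem L6109 : W_1 (nat_lit 3) (nat_lit 0x1e0005000200000001000080000000000000000000000000000000) (nat_lit 0x0) (nat_lit 0xe000200002000000000000000000000000000000000000000000000000) := T_1 (nat_lit 230) (nat_lit 229) (nat_lit 3) (nat_lit 5) (nat_lit 12) L6108 (by decide +kernel)
theorem L6110 : W_1 (nat_lit 4) (nat_lit 0x1e0004000200000001000080000000000000000000000000000000) (nat_lit 0x0) (nat_lit 0xe000200003800000000000000000000000000000000000000000000000) := T_1 (nat_lit 192) (nat_lit 191) (nat_lit 0) (nat_lit 8) (nat_lit 12) L6109 (by decide +kernel)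
theorem L6126 : W_1 (nat_lit 2) (nat_lit 0x4001e0005000200018001000080000000000000000000000000000000) (nat_lit 0x0) (nat_lit 0x2000180000000000000000000000000000000000000000000) := D_1 (nat_lit 176) (nat_lit 193) (nat_lit 175) (nat_lit 5) (nat_lit 6) (nat_lit 9) (nat_lit 6) (nat_lit 5) (nat_lit 13) (by decide +kernel)
theorem L6127 : W_1 (nat_lit 3) (nat_lit 0x4001e0004000200018001000080000000000000000000000000000000) (nat_lit 0x0) (nat_lit 0x3800180000000000000000000000000000000000000000000) := T_1 (nat_lit 192) (nat_lit 191) (nat_lit 0) (nat_lit 8) (nat_lit 12) L6126 (by decide +kernel)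
theorem L6128 : W_1 (nat_lit 4) (nat_lit 0x1e0004000200018001000080000000000000000000000000000000) (nat_lit 0x0) (nat_lit 0x600000003800180000000000000000000000000000000000000000000) := T_1 (nat_lit 226) (nat_lit 225) (nat_lit 1) (nat_lit 8) (nat_lit 12) L6127 (by decide +kernel)
theorem L6129 : W_1 (nat_lit 5) (nat_lit 0xe0004000200018001000080000000000000000000000000000000) (nat_lit 0x0) (nat_lit 0x2600100003800180000000000000000000000000000000000000000000) := T_1 (nat_lit 212) (nat_lit 229) (nat_lit 7) (nat_lit 7) (nat_lit 9) L6128 (by decide +kernel)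
theorem L6130 : W_1 (nat_lit 6) (nat_lit 0xe0004000200010001000080000000000000000000000000000000) (nat_lit 0x0) (nat_lit 0x2600100003800180008000400000000000000000000000000000000000) := T_1 (nat_lit 159) (nat_lit 142) (nat_lit 4) (nat_lit 7) (nat_lit 12) L6129 (by decide +kernel)
theorem L6134 : W_1 (nat_lit 2) (nat_lit 0x2000600010000c0004000200018001000080000000000000000000000000000000) (nat_lit 0x0) (nat_lit 0x4000400000000000000002000000000000000000000000000000000000000000000000) := D_1 (nat_lit 262) (nat_lit 193) (nat_lit 278) (nat_lit 4) (nat_lit 7) (nat_lit 15) (nat_lit 5) (nat_lit 7) (nat_lit 12) (by decide +kernel)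
theorem L6135 : W_1 (nat_lit 3) (nat_lit 0x600010000c0004000200018001000080000000000000000000000000000000) (nat_lit 0x0) (nat_lit 0x4000600010000000000002000000000000000000000000000000000000000000000000) := T_1 (nat_lit 261) (nat_lit 244) (nat_lit 5) (nat_lit 7) (nat_lit 11) L6134 (by decide +kernel)
theorem L6136 : W_1 (nat_lit 4) (nat_lit 0x400010000c0004000200018001000080000000000000000000000000000000) (nat_lit 0x0) (nat_lit 0x4000e00030000000000002000000000000000000000000000000000000000000000000) := T_1 (nat_lit 245) (nat_lit 263) (nat_lit 7) (nat_lit 7) (nat_lit 11) L6135 (by decide +kernel)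
theorem L6137 : W_1 (nat_lit 5) (nat_lit 0x10000c0004000200018001000080000000000000000000000000000000) (nat_lit 0x0) (nat_lit 0x4000e00070002000000002000000000000000000000000000000000000000000000000) := T_1 (nat_lit 246) (nat_lit 229) (nat_lit 7) (nat_lit 7) (nat_lit 10) L6136 (by decide +kernel)
theorem L6138 : W_1 (nat_lit 6) (nat_lit 0xc0004000200018001000080000000000000000000000000000000) (nat_lit 0x0) (nat_lit 0x4000e00070003000000002000100000000000000000000000000000000000000000000) := T_1 (nat_lit 228) (nat_lit 176) (nat_lit 4) (nat_lit 7) (nat_lit 13) L6137 (by decide +kernel)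
theorem L6139 : W_1 (nat_lit 7) (nat_lit 0xc0004000200010001000080000000000000000000000000000000) (nat_lit 0x0) (nat_lit 0x4000e00070003000000002000100008000400000000000000000000000000000000000) := T_1 (nat_lit 159) (nat_lit 142) (nat_lit 4) (nat_lit 7) (nat_lit 12) L6138 (by decide +kernel)
theorem L6140 : W_1 (nat_lit 8) (nat_lit 0x80004000200010001000080000000000000000000000000000000) (nat_lit 0x0) (nat_lit 0x4000e00070003800040002000100008000400000000000000000000000000000000000) := T_1 (nat_lit 210) (nat_lit 227) (nat_lit 5) (nat_lit 7) (nat_lit 9) L6139 (by decide +kernel)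
theorem L6142 : W_1 (nat_lit 2) (nat_lit 0x400030001000180004000200018001000080000000000000000000000000000000) (nat_lit 0x0) (nat_lit 0x10000800040000000000000000000000000000000000000000000000000000000000000) := D_1 (nat_lit 263) (nat_lit 246) (nat_lit 280) (nat_lit 7) (nat_lit 7) (nat_lit 11) (nat_lit 7) (nat_lit 7) (nat_lit 12) (by decide +kernel)
theorem L6143 : W_1 (nat_lit 3) (nat_lit 0x30001000180004000200018001000080000000000000000000000000000000) (nat_lit 0x0) (nat_lit 0x10000c00040000000000008000000000000000000000000000000000000000000000000) := T_1 (nat_lit 262) (nat_lit 195) (nat_lit 6) (nat_lit 7) (nat_lit 15) L6142 (by decide +kernel)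
theorem L6144 : W_1 (nat_lit 4) (nat_lit 0x10001000180004000200018001000080000000000000000000000000000000) (nat_lit 0x0) (nat_lit 0x10000e00060000000000008000000000000000000000000000000000000000000000000) := T_1 (nat_lit 245) (nat_lit 261) (nat_lit 5) (nat_lit 7) (nat_lit 11) L6143 (by decide +kernel)
theorem L6145 : W_1 (nat_lit 5) (nat_lit 0x1000180004000200018001000080000000000000000000000000000000) (nat_lit 0x0) (nat_lit 0x10000e00070000800000008000000000000000000000000000000000000000000000000) := T_1 (nat_lit 244) (nat_lit 227) (nat_lit 5) (nat_lit 7) (nat_lit 10) L6144 (by decide +kernel)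
theorem L6146 : W_1 (nat_lit 6) (nat_lit 0x180004000200018001000080000000000000000000000000000000) (nat_lit 0x0) (nat_lit 0x10000e00070001800000008000100000000000000000000000000000000000000000000) := T_1 (nat_lit 228) (nat_lit 176) (nat_lit 4) (nat_lit 7) (nat_lit 13) L6145 (by decide +kernel)
theorem L6147 : W_1 (nat_lit 7) (nat_lit 0x80004000200018001000080000000000000000000000000000000) (nat_lit 0x0) (nat_lit 0x10000e00070003800100008000100000000000000000000000000000000000000000000) := T_1 (nat_lit 212) (nat_lit 229) (nat_lit 7) (nat_lit 7) (nat_lit 9) L6146 (by decide +kernel)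
theorem L6148 : W_1 (nat_lit 8) (nat_lit 0x80004000200010001000080000000000000000000000000000000) (nat_lit 0x0) (nat_lit 0x10000e00070003800100008000100008000400000000000000000000000000000000000) := T_1 (nat_lit 159) (nat_lit 142) (nat_lit 4) (nat_lit 7) (nat_lit 12) L6147 (by decide +kernel)
theorem L6150 : W_1 (nat_lit 2) (nat_lit 0x2000080004000200018001000080000000000000000000000000000000) (nat_lit 0x0) (nat_lit 0x40001000000000000100000000000000000000000000000000000000000000) := D_1 (nat_lit 228) (nat_lit 176) (nat_lit 246) (nat_lit 4) (nat_lit 7) (nat_lit 13) (nat_lit 7) (nat_lit 7) (nat_lit 10) (by decide +kernel)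
theorem L6151 : W_1 (nat_lit 3) (nat_lit 0x80004000200018001000080000000000000000000000000000000) (nat_lit 0x0) (nat_lit 0x40003000100000000100000000000000000000000000000000000000000000) := T_1 (nat_lit 229) (nat_lit 212) (nat_lit 7) (nat_lit 7) (nat_lit 9) L6150 (by decide +kernel)
theorem L6152 : W_1 (nat_lit 4) (nat_lit 0x80004000200010001000080000000000000000000000000000000) (nat_lit 0x0) (nat_lit 0x40003000100000000100008000400000000000000000000000000000000000) := T_1 (nat_lit 159) (nat_lit 142) (nat_lit 4) (nat_lit 7) (nat_lit 12) L6151 (by decide +kernel)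
theorem L6154 : W_1 (nat_lit 2) (nat_lit 0x800080004000200018001000080000000000000000000000000000000) (nat_lit 0x0) (nat_lit 0x10001000000000000100000000000000000000000000000000000000000000) := D_1 (nat_lit 228) (nat_lit 244) (nat_lit 176) (nat_lit 5) (nat_lit 7) (nat_lit 10) (nat_lit 4) (nat_lit 7) (nat_lit 13) (by decide +kernel)
theorem L6155 : W_1 (nat_lit 3) (nat_lit 0x800080004000200010001000080000000000000000000000000000000) (nat_lit 0x0) (nat_lit 0x10001000000000000100008000400000000000000000000000000000000000) := T_1 (nat_lit 159) (nat_lit 142) (nat_lit 4) (nat_lit 7) (nat_lit 12) L6154 (by decide +kernel)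
theorem L6156 : W_1 (nat_lit 4) (nat_lit 0x80004000200010001000080000000000000000000000000000000) (nat_lit 0x0) (nat_lit 0x10001800040000000100008000400000000000000000000000000000000000) := T_1 (nat_lit 227) (nat_lit 210) (nat_lit 5) (nat_lit 7) (nat_lit 9) L6155 (by decide +kernel)
theorem L6235 : W_1 (nat_lit 2) (nat_lit 0x1c00180004000200000001000080000000000000000000000000000000) (nat_lit 0x0) (nat_lit 0x640000000000000000000000000000000000000000000000000000) := D_1 (nat_lit 213) (nat_lit 214) (nat_lit 210) (nat_lit 1) (nat_lit 10) (nat_lit 12) (nat_lit 1) (nat_lit 9) (nat_lit 12) (by decide +kernel)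
theorem L6236 : W_1 (nat_lit 3) (nat_lit 0x1800180004000200000001000080000000000000000000000000000000) (nat_lit 0x0) (nat_lit 0x600640000000000000000000000000000000000000000000000000000) := T_1 (nat_lit 226) (nat_lit 225) (nat_lit 2) (nat_lit 4) (nat_lit 13) L6235 (by decide +kernel)
theorem L6237 : W_1 (nat_lit 4) (nat_lit 0x1000180004000200000001000080000000000000000000000000000000) (nat_lit 0x0) (nat_lit 0x10000e00640000000000000000000000000000000000000000000000000000) := T_1 (nat_lit 227) (nat_lit 244) (nat_lit 5) (nat_lit 7) (nat_lit 10) L6236 (by decide +kernel)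
theorem L6285 : W_1 (nat_lit 2) (nat_lit 0x1000080006000700000001000080000000000000000000000000000000) (nat_lit 0x0) (nat_lit 0x1001800000000000000000000000000000000000000000000) := D_1 (nat_lit 179) (nat_lit 192) (nat_lit 180) (nat_lit 1) (nat_lit 9) (nat_lit 10) (nat_lit 1) (nat_lit 10) (nat_lit 10) (by decide +kernel)
theorem L6305 : W_1 (nat_lit 2) (nat_lit 0x1c00180006000200000001000080000000000000000000000000000000) (nat_lit 0x0) (nat_lit 0x2000600000000000000000000000000000000000000000000000000000) := D_1 (nat_lit 213) (nat_lit 214) (nat_lit 229) (nat_lit 1) (nat_lit 10) (nat_lit 12) (nat_lit 2) (nat_lit 5) (nat_lit 13) (by decide +kernel)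
theorem L6306 : W_1 (nat_lit 3) (nat_lit 0x1800180006000200000001000080000000000000000000000000000000) (nat_lit 0x0) (nat_lit 0x2600600000000000000000000000000000000000000000000000000000) := T_1 (nat_lit 226) (nat_lit 225) (nat_lit 2) (nat_lit 4) (nat_lit 13) L6305 (by decide +kernel)
theorem L6307 : W_1 (nat_lit 4) (nat_lit 0x1000180006000200000001000080000000000000000000000000000000) (nat_lit 0x0) (nat_lit 0x10002e00600000000000000000000000000000000000000000000000000000) := T_1 (nat_lit 227) (nat_lit 244) (nat_lit 5) (nat_lit 7) (nat_lit 10) L6306 (by decide +kernel)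
theorem L6309 : W_1 (nat_lit 2) (nat_lit 0x100030000e0006000300000001000080000000000000000000000000000000) (nat_lit 0x0) (nat_lit 0xc000100000000000000000000000000000000000000000000000000000) := D_1 (nat_lit 230) (nat_lit 231) (nat_lit 212) (nat_lit 0) (nat_lit 10) (nat_lit 13) (nat_lit 3) (nat_lit 5) (nat_lit 12) (by decide +kernel)
theorem L6310 : W_1 (nat_lit 3) (nat_lit 0x100030000c0006000300000001000080000000000000000000000000000000) (nat_lit 0x0) (nat_lit 0xc000130000000000000000000000000000000000000000000000000000) := T_1 (nat_lit 209) (nat_lit 208) (nat_lit 3) (nat_lit 4) (nat_lit 12) L6309 (by decide +kernel)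
theorem L6311 : W_1 (nat_lit 4) (nat_lit 0x100010000c0006000300000001000080000000000000000000000000000000) (nat_lit 0x0) (nat_lit 0x4000e000130000000000000000000000000000000000000000000000000000) := T_1 (nat_lit 229) (nat_lit 246) (nat_lit 7) (nat_lit 7) (nat_lit 10) L6310 (by decide +kernel)
theorem L6331 : W_1 (nat_lit 2) (nat_lit 0x30000e0006000300000001000080000000000000000000000000000000) (nat_lit 0x0) (nat_lit 0xc000100000000000000000000000000000000000000000000000000000) := D_1 (nat_lit 230) (nat_lit 231) (nat_lit 212) (nat_lit 0) (nat_lit 10) (nat_lit 13) (nat_lit 3) (nat_lit 5) (nat_lit 12) (by decide +kernel)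
theorem L6332 : W_1 (nat_lit 3) (nat_lit 0x30000c0006000300000001000080000000000000000000000000000000) (nat_lit 0x0) (nat_lit 0xc000130000000000000000000000000000000000000000000000000000) := T_1 (nat_lit 209) (nat_lit 208) (nat_lit 3) (nat_lit 4) (nat_lit 12) L6331 (by decide +kernel)
theorem L6333 : W_1 (nat_lit 4) (nat_lit 0x10000c0006000300000001000080000000000000000000000000000000) (nat_lit 0x0) (nat_lit 0x4000e000130000000000000000000000000000000000000000000000000000) := T_1 (nat_lit 229) (nat_lit 246) (nat_lit 7) (nat_lit 7) (nat_lit 10) L6332 (by decide +kernel)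
theorem L6334 : W_1 (nat_lit 5) (nat_lit 0x10000c0006000200000001000080000000000000000000000000000000) (nat_lit 0x0) (nat_lit 0x4000e000130000000100008000000000000000000000000000000000000000) := T_1 (nat_lit 176) (nat_lit 159) (nat_lit 7) (nat_lit 6) (nat_lit 9) L6333 (by decide +kernel)
theorem L6350 : W_1 (nat_lit 2) (nat_lit 0x80007000600000001000080000000000000000000000000000000) (nat_lit 0x0) (nat_lit 0x8001800000000000000000000000000000000000000000000) := D_1 (nat_lit 179) (nat_lit 180) (nat_lit 195) (nat_lit 1) (nat_lit 10) (nat_lit 10) (nat_lit 2) (nat_lit 5) (nat_lit 11) (by decide +kernel)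
theorem L6420 : W_1 (nat_lit 2) (nat_lit 0xe0006000300008001000080000000000000000000000000000000) (nat_lit 0x0) (nat_lit 0x18008000000000000000000000000000000000000000000000000) := D_1 (nat_lit 208) (nat_lit 195) (nat_lit 207) (nat_lit 2) (nat_lit 4) (nat_lit 12) (nat_lit 2) (nat_lit 3) (nat_lit 12) (by decide +kernel)
theorem L6421 : W_1 (nat_lit 3) (nat_lit 0xc0006000300008001000080000000000000000000000000000000) (nat_lit 0x0) (nat_lit 0x400038008000000000000000000000000000000000000000000000000) := T_1 (nat_lit 209) (nat_lit 226) (nat_lit 5) (nat_lit 6) (nat_lit 9) L6420 (by decide +kernel)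
theorem L6422 : W_1 (nat_lit 4) (nat_lit 0xc0006000300000001000080000000000000000000000000000000) (nat_lit 0x0) (nat_lit 0x400038008000000008000400000000000000000000000000000000000) := T_1 (nat_lit 159) (nat_lit 142) (nat_lit 7) (nat_lit 6) (nat_lit 8) L6421 (by decide +kernel)
theorem L6454 : W_1 (nat_lit 2) (nat_lit 0x80007c00240000001000080000000000000000000000000000000) (nat_lit 0x0) (nat_lit 0x1c000000000000000000000000000000000000000000000000000) := D_1 (nat_lit 207) (nat_lit 206) (nat_lit 208) (nat_lit 1) (nat_lit 6) (nat_lit 11) (nat_lit 1) (nat_lit 7) (nat_lit 11) (by decide +kernel)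
theorem L6455 : W_1 (nat_lit 3) (nat_lit 0x80007800240000001000080000000000000000000000000000000) (nat_lit 0x0) (nat_lit 0x5c000400000000000000000000000000000000000000000000000) := T_1 (nat_lit 190) (nat_lit 210) (nat_lit 3) (nat_lit 3) (nat_lit 11) L6454 (by decide +kernel)
theorem L6600 : W_1 (nat_lit 2) (nat_lit 0x3c00180006800300000001000080000000000000000000000000000000) (nat_lit 0x0) (nat_lit 0xc000000040000000000000000000000000000000000000000000000000000) := D_1 (nat_lit 243) (nat_lit 242) (nat_lit 210) (nat_lit 1) (nat_lit 8) (nat_lit 13) (nat_lit 5) (nat_lit 6) (nat_lit 10) (by decide +kernel)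
theorem L6601 : W_1 (nat_lit 3) (nat_lit 0x3800180006800300000001000080000000000000000000000000000000) (nat_lit 0x0) (nat_lit 0xc000600040000000000000000000000000000000000000000000000000000) := T_1 (nat_lit 226) (nat_lit 225) (nat_lit 2) (nat_lit 4) (nat_lit 13) L6600 (by decide +kernel)
theorem L6602 : W_1 (nat_lit 4) (nat_lit 0x3000180006800300000001000080000000000000000000000000000000) (nat_lit 0x0) (nat_lit 0x1c000e00040000000000000000000000000000000000000000000000000000) := T_1 (nat_lit 227) (nat_lit 244) (nat_lit 5) (nat_lit 7) (nat_lit 10) L6601 (by decide +kernel)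
theorem L6670 : W_1 (nat_lit 2) (nat_lit 0x1800080004000200010001000080000000000000000000000000000000) (nat_lit 0x0) (nat_lit 0x40002000100000000000000000000000000000000000000000000000000000) := D_1 (nat_lit 229) (nat_lit 246) (nat_lit 212) (nat_lit 7) (nat_lit 7) (nat_lit 10) (nat_lit 7) (nat_lit 7) (nat_lit 9) (by decide +kernel)
theorem L6671 : W_1 (nat_lit 3) (nat_lit 0x1800080004000200000001000080000000000000000000000000000000) (nat_lit 0x0) (nat_lit 0x40002000140000000000010000000000000000000000000000000000000000) := T_1 (nat_lit 160) (nat_lit 210) (nat_lit 5) (nat_lit 7) (nat_lit 9) L6670 (by decide +kernel)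
theorem L6672 : W_1 (nat_lit 4) (nat_lit 0x1000080004000200000001000080000000000000000000000000000000) (nat_lit 0x0) (nat_lit 0x50002800140000000000010000000000000000000000000000000000000000) := T_1 (nat_lit 227) (nat_lit 244) (nat_lit 5) (nat_lit 7) (nat_lit 10) L6671 (by decide +kernel)
theorem L6673 : W_1 (nat_lit 2) (nat_lit 0x20006000100008000c000200000001000080000000000000000000000000000000) (nat_lit 0x0) (nat_lit 0x4000400000000000100000000000000000000000000000000000000000000000000000) := D_1 (nat_lit 262) (nat_lit 212) (nat_lit 278) (nat_lit 6) (nat_lit 7) (nat_lit 15) (nat_lit 5) (nat_lit 7) (nat_lit 12) (by decide +kernel)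
theorem L6674 : W_1 (nat_lit 3) (nat_lit 0x6000100008000c000200000001000080000000000000000000000000000000) (nat_lit 0x0) (nat_lit 0x4000600010000000100000000000000000000000000000000000000000000000000000) := T_1 (nat_lit 261) (nat_lit 244) (nat_lit 5) (nat_lit 7) (nat_lit 11) L6673 (by decide +kernel)
theorem L6675 : W_1 (nat_lit 4) (nat_lit 0x60001000080004000200000001000080000000000000000000000000000000) (nat_lit 0x0) (nat_lit 0x4000600010000000100008000400000000000000000000000000000000000000000000) := T_1 (nat_lit 195) (nat_lit 178) (nat_lit 6) (nat_lit 7) (nat_lit 14) L6674 (by decide +kernel)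
theorem L6676 : W_1 (nat_lit 5) (nat_lit 0x40001000080004000200000001000080000000000000000000000000000000) (nat_lit 0x0) (nat_lit 0x4000e00030000000100008000400000000000000000000000000000000000000000000) := T_1 (nat_lit 245) (nat_lit 263) (nat_lit 7) (nat_lit 7) (nat_lit 11) L6675 (by decide +kernel)
theorem L6677 : W_1 (nat_lit 6) (nat_lit 0x1000080004000200000001000080000000000000000000000000000000) (nat_lit 0x0) (nat_lit 0x4000e00070002000100008000400000000000000000000000000000000000000000000) := T_1 (nat_lit 246) (nat_lit 229) (nat_lit 7) (nat_lit 7) (nat_lit 10) L6676 (by decide +kernel)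
theorem L6678 : W_1 (nat_lit 2) (nat_lit 0x80003000100008000c000200000001000080000000000000000000000000000000) (nat_lit 0x0) (nat_lit 0x10000400000000000100000000000000000000000000000000000000000000000000000) := D_1 (nat_lit 262) (nat_lit 212) (nat_lit 280) (nat_lit 6) (nat_lit 7) (nat_lit 15) (nat_lit 7) (nat_lit 7) (nat_lit 12) (by decide +kernel)
theorem L6679 : W_1 (nat_lit 3) (nat_lit 0x3000100008000c000200000001000080000000000000000000000000000000) (nat_lit 0x0) (nat_lit 0x10000c00040000000100000000000000000000000000000000000000000000000000000) := T_1 (nat_lit 263) (nat_lit 246) (nat_lit 7) (nat_lit 7) (nat_lit 11) L6678 (by decide +kernel)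
theorem L6680 : W_1 (nat_lit 4) (nat_lit 0x30001000080004000200000001000080000000000000000000000000000000) (nat_lit 0x0) (nat_lit 0x10000c00040000000100008000400000000000000000000000000000000000000000000) := T_1 (nat_lit 195) (nat_lit 178) (nat_lit 6) (nat_lit 7) (nat_lit 14) L6679 (by decide +kernel)
theorem L6681 : W_1 (nat_lit 5) (nat_lit 0x10001000080004000200000001000080000000000000000000000000000000) (nat_lit 0x0) (nat_lit 0x10000e00060000000100008000400000000000000000000000000000000000000000000) := T_1 (nat_lit 245) (nat_lit 261) (nat_lit 5) (nat_lit 7) (nat_lit 11) L6680 (by decide +kernel)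
theorem L6682 : W_1 (nat_lit 6) (nat_lit 0x1000080004000200000001000080000000000000000000000000000000) (nat_lit 0x0) (nat_lit 0x10000e00070000800100008000400000000000000000000000000000000000000000000) := T_1 (nat_lit 244) (nat_lit 227) (nat_lit 5) (nat_lit 7) (nat_lit 10) L6681 (by decide +kernel)
theorem L6683 : W_1 (nat_lit 2) (nat_lit 0x6801600010000c000c000200000001000080000000000000000000000000000000) (nat_lit 0x0) (nat_lit 0x8000000000000800000000000000010000000000000000000000000000000000000000) := D_1 (nat_lit 227) (nat_lit 279) (nat_lit 160) (nat_lit 4) (nat_lit 7) (nat_lit 16) (nat_lit 5) (nat_lit 7) (nat_lit 9) (by decide +kernel)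
theorem L6684 : W_1 (nat_lit 3) (nat_lit 0x68016000100008000c000200000001000080000000000000000000000000000000) (nat_lit 0x0) (nat_lit 0x8000000000000800040002000000010000000000000000000000000000000000000000) := T_1 (nat_lit 210) (nat_lit 193) (nat_lit 4) (nat_lit 7) (nat_lit 15) L6683 (by decide +kernel)
theorem L6685 : W_1 (nat_lit 4) (nat_lit 0x68006000100008000c000200000001000080000000000000000000000000000000) (nat_lit 0x0) (nat_lit 0x8000000180000800040002000000010000000000000000000000000000000000000000) := T_1 (nat_lit 248) (nat_lit 247) (nat_lit 1) (nat_lit 10) (nat_lit 14) L6684 (by decide +kernel)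
theorem L6686 : W_1 (nat_lit 5) (nat_lit 0x60006000100008000c000200000001000080000000000000000000000000000000) (nat_lit 0x0) (nat_lit 0x8000180180000800040002000000010000000000000000000000000000000000000000) := T_1 (nat_lit 259) (nat_lit 260) (nat_lit 2) (nat_lit 4) (nat_lit 15) L6685 (by decide +kernel)
theorem L6687 : W_1 (nat_lit 6) (nat_lit 0x40006000100008000c000200000001000080000000000000000000000000000000) (nat_lit 0x0) (nat_lit 0xc000380180000800040002000000010000000000000000000000000000000000000000) := T_1 (nat_lit 261) (nat_lit 278) (nat_lit 5) (nat_lit 7) (nat_lit 12) L6686 (by decide +kernel)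
theorem L6688 : W_1 (nat_lit 7) (nat_lit 0x6000100008000c000200000001000080000000000000000000000000000000) (nat_lit 0x0) (nat_lit 0xc000780180000800140002000000010000000000000000000000000000000000000000) := T_1 (nat_lit 262) (nat_lit 212) (nat_lit 6) (nat_lit 7) (nat_lit 15) L6687 (by decide +kernel)
theorem L6689 : W_1 (nat_lit 8) (nat_lit 0x60001000080004000200000001000080000000000000000000000000000000) (nat_lit 0x0) (nat_lit 0xc00078018000080014000a000400010000000000000000000000000000000000000000) := T_1 (nat_lit 195) (nat_lit 178) (nat_lit 6) (nat_lit 7) (nat_lit 14) L6688 (by decide +kernel)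
theorem L6690 : W_1 (nat_lit 9) (nat_lit 0x40001000080004000200000001000080000000000000000000000000000000) (nat_lit 0x0) (nat_lit 0xc000f801a000080014000a000400010000000000000000000000000000000000000000) := T_1 (nat_lit 245) (nat_lit 263) (nat_lit 7) (nat_lit 7) (nat_lit 11) L6689 (by decide +kernel)
theorem L6691 : W_1 (nat_lit 10) (nat_lit 0x1000080004000200000001000080000000000000000000000000000000) (nat_lit 0x0) (nat_lit 0xc000f801e000280014000a000400010000000000000000000000000000000000000000) := T_1 (nat_lit 246) (nat_lit 229) (nat_lit 7) (nat_lit 7) (nat_lit 10) L6690 (by decide +kernel)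
theorem L6692 : W_1 (nat_lit 2) (nat_lit 0x10000c0004000200000001000080000000000000000000000000000000) (nat_lit 0x0) (nat_lit 0x10000800000000000000010000000000000000000000000000000000000000) := D_1 (nat_lit 227) (nat_lit 244) (nat_lit 160) (nat_lit 5) (nat_lit 7) (nat_lit 10) (nat_lit 5) (nat_lit 7) (nat_lit 9) (by decide +kernel)
theorem L6693 : W_1 (nat_lit 2) (nat_lit 0x4000300010000c0004000200000001000080000000000000000000000000000000) (nat_lit 0x0) (nat_lit 0x100008000400000000000000000000000000000000000000000000) := D_1 (nat_lit 195) (nat_lit 178) (nat_lit 212) (nat_lit 6) (nat_lit 7) (nat_lit 14) (nat_lit 6) (nat_lit 7) (nat_lit 15) (by decide +kernel)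
theorem L6694 : W_1 (nat_lit 3) (nat_lit 0x300010000c0004000200000001000080000000000000000000000000000000) (nat_lit 0x0) (nat_lit 0x40000000000010000a000400000000000000000000000000000000000000000000) := T_1 (nat_lit 262) (nat_lit 193) (nat_lit 4) (nat_lit 7) (nat_lit 15) L6693 (by decide +kernel)
theorem L6695 : W_1 (nat_lit 4) (nat_lit 0x100010000c0004000200000001000080000000000000000000000000000000) (nat_lit 0x0) (nat_lit 0x60002000000010000a000400000000000000000000000000000000000000000000) := T_1 (nat_lit 245) (nat_lit 261) (nat_lit 5) (nat_lit 7) (nat_lit 11) L6694 (by decide +kernel)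
theorem L6696 : W_1 (nat_lit 5) (nat_lit 0x10000c0004000200000001000080000000000000000000000000000000) (nat_lit 0x0) (nat_lit 0x60003000080010000a000400000000000000000000000000000000000000000000) := T_1 (nat_lit 244) (nat_lit 227) (nat_lit 5) (nat_lit 7) (nat_lit 10) L6695 (by decide +kernel)
theorem L6697 : W_1 (nat_lit 2) (nat_lit 0x200010000c000c000200000001000080000000000000000000000000000000) (nat_lit 0x0) (nat_lit 0x400000000000100002000000000000000000000000000000000000000000000000) := D_1 (nat_lit 262) (nat_lit 193) (nat_lit 212) (nat_lit 4) (nat_lit 7) (nat_lit 15) (nat_lit 6) (nat_lit 7) (nat_lit 15) (by decide +kernel)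
theorem L6699 : W_1 (nat_lit 2) (nat_lit 0x300010000c000e000200000001000080000000000000000000000000000000) (nat_lit 0x0) (nat_lit 0x20030000000000000000000000000000000000000000000000000) := D_1 (nat_lit 196) (nat_lit 197) (nat_lit 209) (nat_lit 1) (nat_lit 10) (nat_lit 11) (nat_lit 1) (nat_lit 9) (nat_lit 11) (by decide +kernel)
theorem L6700 : W_1 (nat_lit 3) (nat_lit 0x300010000c000c000200000001000080000000000000000000000000000000) (nat_lit 0x0) (nat_lit 0x400000000000020032000000000000000000000000000000000000000000000000) := T_1 (nat_lit 193) (nat_lit 262) (nat_lit 4) (nat_lit 7) (nat_lit 15) L6699 (by decide +kernel)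
theorem L6701 : W_1 (nat_lit 4) (nat_lit 0x200010000c000c000200000001000080000000000000000000000000000000) (nat_lit 0x0) (nat_lit 0x600010000000020032000000000000000000000000000000000000000000000000) := T_1 (nat_lit 244) (nat_lit 261) (nat_lit 5) (nat_lit 7) (nat_lit 11) L6700 (by decide +kernel)
theorem L6702 : W_1 (nat_lit 5) (nat_lit 0x10000c000c000200000001000080000000000000000000000000000000) (nat_lit 0x0) (nat_lit 0x600030000000020032000400000000000000000000000000000000000000000000) := T_1 (nat_lit 245) (nat_lit 178) (nat_lit 6) (nat_lit 7) (nat_lit 14) L6701 (by decide +kernel)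
theorem L6704 : W_1 (nat_lit 2) (nat_lit 0x10000e0004000200000001000080000000000000000000000000000000) (nat_lit 0x0) (nat_lit 0x2000010008000000000000000000000000000000000000000000000000) := D_1 (nat_lit 208) (nat_lit 195) (nat_lit 229) (nat_lit 2) (nat_lit 4) (nat_lit 12) (nat_lit 3) (nat_lit 4) (nat_lit 12) (by decide +kernel)
theorem L6705 : W_1 (nat_lit 2) (nat_lit 0x10000e0004000200010001000080000000000000000000000000000000) (nat_lit 0x0) (nat_lit 0x2000110000000000000000000000000000000000000000000000000000) := D_1 (nat_lit 229) (nat_lit 208) (nat_lit 212) (nat_lit 3) (nat_lit 4) (nat_lit 12) (nat_lit 7) (nat_lit 7) (nat_lit 9) (by decide +kernel)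
theorem L6706 : W_1 (nat_lit 3) (nat_lit 0x10000e0004000200000001000080000000000000000000000000000000) (nat_lit 0x0) (nat_lit 0x2800110000000000010000000000000000000000000000000000000000) := T_1 (nat_lit 160) (nat_lit 227) (nat_lit 5) (nat_lit 7) (nat_lit 9) L6705 (by decide +kernel)
theorem L6707 : W_1 (nat_lit 2) (nat_lit 0x10000f8004000200018001000080000000000000000000000000000000) (nat_lit 0x0) (nat_lit 0x380000000000000000000000000000000000000000000000000000000) := D_1 (nat_lit 224) (nat_lit 223) (nat_lit 225) (nat_lit 1) (nat_lit 6) (nat_lit 12) (nat_lit 1) (nat_lit 7) (nat_lit 12) (by decide +kernel)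
theorem L6708 : W_1 (nat_lit 3) (nat_lit 0x10000f0004000200018001000080000000000000000000000000000000) (nat_lit 0x0) (nat_lit 0x380008002000000000000000000000000000000000000000000000000) := T_1 (nat_lit 207) (nat_lit 193) (nat_lit 2) (nat_lit 3) (nat_lit 12) L6707 (by decide +kernel)
theorem L6709 : W_1 (nat_lit 4) (nat_lit 0x10000e0004000200018001000080000000000000000000000000000000) (nat_lit 0x0) (nat_lit 0x38001800a000000000000000000000000000000000000000000000000) := T_1 (nat_lit 208) (nat_lit 195) (nat_lit 2) (nat_lit 4) (nat_lit 12) L6708 (by decide +kernel)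
theorem L6710 : W_1 (nat_lit 5) (nat_lit 0x10000e0004000200010001000080000000000000000000000000000000) (nat_lit 0x0) (nat_lit 0x38001800a000000008000400000000000000000000000000000000000) := T_1 (nat_lit 159) (nat_lit 142) (nat_lit 4) (nat_lit 7) (nat_lit 12) L6709 (by decide +kernel)
theorem L6711 : W_1 (nat_lit 6) (nat_lit 0x10000e0004000200000001000080000000000000000000000000000000) (nat_lit 0x0) (nat_lit 0xb8001800a000000018000400000000000000000000000000000000000) := T_1 (nat_lit 160) (nat_lit 227) (nat_lit 5) (nat_lit 7) (nat_lit 9) L6710 (by decide +kernel)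
theorem L6712 : W_1 (nat_lit 2) (nat_lit 0x10001e000c000200018001000080000000000000000000000000000000) (nat_lit 0x0) (nat_lit 0x400020000000000000000400000000000000000000000000000000000000000000) := D_1 (nat_lit 245) (nat_lit 178) (nat_lit 262) (nat_lit 6) (nat_lit 7) (nat_lit 14) (nat_lit 6) (nat_lit 7) (nat_lit 15) (by decide +kernel)
theorem L6713 : W_1 (nat_lit 3) (nat_lit 0x10001e0004000200018001000080000000000000000000000000000000) (nat_lit 0x0) (nat_lit 0x400020000000000018000400000000000000000000000000000000000000000000) := T_1 (nat_lit 195) (nat_lit 196) (nat_lit 2) (nat_lit 5) (nat_lit 12) L6712 (by decide +kernel)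
theorem L6714 : W_1 (nat_lit 4) (nat_lit 0x10000e0004000200018001000080000000000000000000000000000000) (nat_lit 0x0) (nat_lit 0x400020002000100018000400000000000000000000000000000000000000000000) := T_1 (nat_lit 212) (nat_lit 229) (nat_lit 7) (nat_lit 7) (nat_lit 9) L6713 (by decide +kernel)
theorem L6715 : W_1 (nat_lit 5) (nat_lit 0x10000e0004000200010001000080000000000000000000000000000000) (nat_lit 0x0) (nat_lit 0x400020002000100018000400008000400000000000000000000000000000000000) := T_1 (nat_lit 159) (nat_lit 142) (nat_lit 4) (nat_lit 7) (nat_lit 12) L6714 (by decide +kernel)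
theorem L6716 : W_1 (nat_lit 6) (nat_lit 0x10000e0004000200000001000080000000000000000000000000000000) (nat_lit 0x0) (nat_lit 0x400020002800100018000400018000400000000000000000000000000000000000) := T_1 (nat_lit 160) (nat_lit 227) (nat_lit 5) (nat_lit 7) (nat_lit 9) L6715 (by decide +kernel)
theorem L6737 : W_1 (nat_lit 2) (nat_lit 0x3000100008000e000200000001000080000000000000000000000000000000) (nat_lit 0x0) (nat_lit 0x400000000000140000000000000000000000000000000000000000000000000000) := D_1 (nat_lit 262) (nat_lit 210) (nat_lit 212) (nat_lit 4) (nat_lit 7) (nat_lit 15) (nat_lit 6) (nat_lit 7) (nat_lit 15) (by decide +kernel)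
theorem L6738 : W_1 (nat_lit 3) (nat_lit 0x30001000080006000200000001000080000000000000000000000000000000) (nat_lit 0x0) (nat_lit 0x400000000000140008000400000000000000000000000000000000000000000000) := T_1 (nat_lit 195) (nat_lit 178) (nat_lit 6) (nat_lit 7) (nat_lit 14) L6737 (by decide +kernel)
theorem L6739 : W_1 (nat_lit 4) (nat_lit 0x30001000080004000200000001000080000000000000000000000000000000) (nat_lit 0x0) (nat_lit 0x40000000000014000a000500000000000000000000000000000000000000000000) := T_1 (nat_lit 193) (nat_lit 176) (nat_lit 4) (nat_lit 7) (nat_lit 14) L6738 (by decide +kernel)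
theorem L6740 : W_1 (nat_lit 5) (nat_lit 0x10001000080004000200000001000080000000000000000000000000000000) (nat_lit 0x0) (nat_lit 0x60002000000014000a000500000000000000000000000000000000000000000000) := T_1 (nat_lit 245) (nat_lit 261) (nat_lit 5) (nat_lit 7) (nat_lit 11) L6739 (by decide +kernel)
theorem L6741 : W_1 (nat_lit 6) (nat_lit 0x1000080004000200000001000080000000000000000000000000000000) (nat_lit 0x0) (nat_lit 0x60003000080014000a000500000000000000000000000000000000000000000000) := T_1 (nat_lit 244) (nat_lit 227) (nat_lit 5) (nat_lit 7) (nat_lit 10) L6740 (by decide +kernel)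
theorem L6743 : W_1 (nat_lit 2) (nat_lit 0x8000c0004000200000001000080000000000000000000000000000000) (nat_lit 0x0) (nat_lit 0x200010000000000002000000000000000000000000000000000000000000000000) := D_1 (nat_lit 244) (nat_lit 193) (nat_lit 261) (nat_lit 6) (nat_lit 6) (nat_lit 14) (nat_lit 6) (nat_lit 6) (nat_lit 15) (by decide +kernel)
theorem L6744 : W_1 (nat_lit 3) (nat_lit 0xc0004000200000001000080000000000000000000000000000000) (nat_lit 0x0) (nat_lit 0x200010000800000002000000010000000000000000000000000000000000000000) := T_1 (nat_lit 227) (nat_lit 160) (nat_lit 5) (nat_lit 7) (nat_lit 9) L6743 (by decide +kernel)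
theorem L6745 : W_1 (nat_lit 2) (nat_lit 0x1c0004000200000001000080000000000000000000000000000000) (nat_lit 0x0) (nat_lit 0x2800000000000000010000000000000000000000000000000000000000) := D_1 (nat_lit 160) (nat_lit 227) (nat_lit 229) (nat_lit 5) (nat_lit 7) (nat_lit 9) (nat_lit 7) (nat_lit 7) (nat_lit 9) (by decide +kernel)
theorem L6748 : W_1 (nat_lit 2) (nat_lit 0x20001c0004000200000001000080000000000000000000000000000000) (nat_lit 0x0) (nat_lit 0x800040000000000008000000000000000000000000000000000000000000000000) := D_1 (nat_lit 246) (nat_lit 263) (nat_lit 195) (nat_lit 4) (nat_lit 8) (nat_lit 15) (nat_lit 4) (nat_lit 8) (nat_lit 14) (by decide +kernel)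
theorem L6749 : W_1 (nat_lit 3) (nat_lit 0x1c0004000200000001000080000000000000000000000000000000) (nat_lit 0x0) (nat_lit 0x800040002000000008000000010000000000000000000000000000000000000000) := T_1 (nat_lit 229) (nat_lit 160) (nat_lit 7) (nat_lit 7) (nat_lit 9) L6748 (by decide +kernel)
theorem L6794 : W_1 (nat_lit 2) (nat_lit 0x20002000100008000c000300000001000080000000000000000000000000000000) (nat_lit 0x0) (nat_lit 0x4000400000000000100000000000000000000000000000000000000000000000000000) := D_1 (nat_lit 262) (nat_lit 278) (nat_lit 212) (nat_lit 5) (nat_lit 7) (nat_lit 12) (nat_lit 6) (nat_lit 7) (nat_lit 15) (by decide +kernel)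
theorem L6795 : W_1 (nat_lit 3) (nat_lit 0x200020001000080004000300000001000080000000000000000000000000000000) (nat_lit 0x0) (nat_lit 0x4000400000000000100008000400000000000000000000000000000000000000000000) := T_1 (nat_lit 195) (nat_lit 178) (nat_lit 6) (nat_lit 7) (nat_lit 14) L6794 (by decide +kernel)
theorem L6796 : W_1 (nat_lit 4) (nat_lit 0x20001000080004000300000001000080000000000000000000000000000000) (nat_lit 0x0) (nat_lit 0x4000600010000000100008000400000000000000000000000000000000000000000000) := T_1 (nat_lit 261) (nat_lit 244) (nat_lit 5) (nat_lit 7) (nat_lit 11) L6795 (by decide +kernel)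
theorem L6797 : W_1 (nat_lit 5) (nat_lit 0x1000080004000300000001000080000000000000000000000000000000) (nat_lit 0x0) (nat_lit 0x400060003000000010000a000400000000000000000000000000000000000000000000) := T_1 (nat_lit 245) (nat_lit 193) (nat_lit 4) (nat_lit 7) (nat_lit 14) L6796 (by decide +kernel)
theorem L6798 : W_1 (nat_lit 6) (nat_lit 0x1000080004000200000001000080000000000000000000000000000000) (nat_lit 0x0) (nat_lit 0x400060003000000010000a000500008000000000000000000000000000000000000000) := T_1 (nat_lit 176) (nat_lit 159) (nat_lit 4) (nat_lit 7) (nat_lit 13) L6797 (by decide +kernel)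
theorem L6800 : W_1 (nat_lit 2) (nat_lit 0x40002000100008000c000340000001000080000000000000000000000000000000) (nat_lit 0x0) (nat_lit 0x10000800040000000000000000000000000000000000000000000000000000000000000) := D_1 (nat_lit 263) (nat_lit 246) (nat_lit 280) (nat_lit 7) (nat_lit 7) (nat_lit 11) (nat_lit 7) (nat_lit 7) (nat_lit 12) (by decide +kernel)
theorem L6801 : W_1 (nat_lit 3) (nat_lit 0x2000100008000c000340000001000080000000000000000000000000000000) (nat_lit 0x0) (nat_lit 0x10000c00040000000100000000000000000000000000000000000000000000000000000) := T_1 (nat_lit 262) (nat_lit 212) (nat_lit 6) (nat_lit 7) (nat_lit 15) L6800 (by decide +kernel)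
theorem L6802 : W_1 (nat_lit 4) (nat_lit 0x2000100008000c000300000001000080000000000000000000000000000000) (nat_lit 0x0) (nat_lit 0x10000c000400000001000000000c0000000000000000000000000000000000000000000) := T_1 (nat_lit 174) (nat_lit 175) (nat_lit 3) (nat_lit 4) (nat_lit 10) L6801 (by decide +kernel)
theorem L6803 : W_1 (nat_lit 5) (nat_lit 0x20001000080004000300000001000080000000000000000000000000000000) (nat_lit 0x0) (nat_lit 0x10000c000400000001000080004c0000000000000000000000000000000000000000000) := T_1 (nat_lit 195) (nat_lit 178) (nat_lit 6) (nat_lit 7) (nat_lit 14) L6802 (by decide +kernel)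
theorem L6804 : W_1 (nat_lit 6) (nat_lit 0x1000080004000300000001000080000000000000000000000000000000) (nat_lit 0x0) (nat_lit 0x10000c0006000000010000a0004c0000000000000000000000000000000000000000000) := T_1 (nat_lit 245) (nat_lit 193) (nat_lit 4) (nat_lit 7) (nat_lit 14) L6803 (by decide +kernel)
theorem L6805 : W_1 (nat_lit 7) (nat_lit 0x1000080004000200000001000080000000000000000000000000000000) (nat_lit 0x0) (nat_lit 0x10000c0006000000010000a0005c0008000000000000000000000000000000000000000) := T_1 (nat_lit 176) (nat_lit 159) (nat_lit 4) (nat_lit 7) (nat_lit 13) L6804 (by decide +kernel)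
theorem L6807 : W_1 (nat_lit 2) (nat_lit 0x2000100018001c000340010001000080000000000000000000000000000000) (nat_lit 0x0) (nat_lit 0x800060000000000000000000000000000000000000000000000000000) := D_1 (nat_lit 210) (nat_lit 227) (nat_lit 209) (nat_lit 5) (nat_lit 7) (nat_lit 9) (nat_lit 2) (nat_lit 5) (nat_lit 12) (by decide +kernel)
theorem L6808 : W_1 (nat_lit 3) (nat_lit 0x2000100018001c000340000001000080000000000000000000000000000000) (nat_lit 0x0) (nat_lit 0x2800060000000000010000000000000000000000000000000000000000) := T_1 (nat_lit 160) (nat_lit 229) (nat_lit 7) (nat_lit 7) (nat_lit 9) L6807 (by decide +kernel)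
theorem L6809 : W_1 (nat_lit 4) (nat_lit 0x2000100018000c000340000001000080000000000000000000000000000000) (nat_lit 0x0) (nat_lit 0x2800060030000000010000000000000000000000000000000000000000) := T_1 (nat_lit 196) (nat_lit 197) (nat_lit 0) (nat_lit 10) (nat_lit 11) L6808 (by decide +kernel)
theorem L6810 : W_1 (nat_lit 5) (nat_lit 0x2000100008000c000340000001000080000000000000000000000000000000) (nat_lit 0x0) (nat_lit 0x400000002800160030000000010000000000000000000000000000000000000000) := T_1 (nat_lit 212) (nat_lit 262) (nat_lit 6) (nat_lit 7) (nat_lit 15) L6809 (by decide +kernel)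
theorem L6811 : W_1 (nat_lit 6) (nat_lit 0x2000100008000c000300000001000080000000000000000000000000000000) (nat_lit 0x0) (nat_lit 0x4000000028001600300000c0010000000000000000000000000000000000000000) := T_1 (nat_lit 174) (nat_lit 175) (nat_lit 3) (nat_lit 4) (nat_lit 10) L6810 (by decide +kernel)
theorem L6812 : W_1 (nat_lit 7) (nat_lit 0x20001000080004000300000001000080000000000000000000000000000000) (nat_lit 0x0) (nat_lit 0x4000000028001600380004c0010000000000000000000000000000000000000000) := T_1 (nat_lit 195) (nat_lit 178) (nat_lit 6) (nat_lit 7) (nat_lit 14) L6811 (by decide +kernel)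
theorem L6813 : W_1 (nat_lit 8) (nat_lit 0x1000080004000300000001000080000000000000000000000000000000) (nat_lit 0x0) (nat_lit 0x40002000280016003a0004c0010000000000000000000000000000000000000000) := T_1 (nat_lit 245) (nat_lit 193) (nat_lit 4) (nat_lit 7) (nat_lit 14) L6812 (by decide +kernel)
theorem L6814 : W_1 (nat_lit 9) (nat_lit 0x1000080004000200000001000080000000000000000000000000000000) (nat_lit 0x0) (nat_lit 0x40002000280016003a0005c0018000000000000000000000000000000000000000) := T_1 (nat_lit 176) (nat_lit 159) (nat_lit 4) (nat_lit 7) (nat_lit 13) L6813 (by decide +kernel)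
theorem L6826 : W_1 (nat_lit 2) (nat_lit 0x400060005000280006001000080000000000000000000000000000000) (nat_lit 0x0) (nat_lit 0x4000200010000000000000000000000000000000000000000000000000000) := D_1 (nat_lit 225) (nat_lit 208) (nat_lit 242) (nat_lit 5) (nat_lit 5) (nat_lit 9) (nat_lit 5) (nat_lit 5) (nat_lit 10) (by decide +kernel)
theorem L6827 : W_1 (nat_lit 3) (nat_lit 0x60005000280006001000080000000000000000000000000000000) (nat_lit 0x0) (nat_lit 0x4000600010000000040000000000000000000000000000000000000000000) := T_1 (nat_lit 226) (nat_lit 174) (nat_lit 4) (nat_lit 5) (nat_lit 13) L6826 (by decide +kernel)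
theorem L6828 : W_1 (nat_lit 4) (nat_lit 0x20005000280006001000080000000000000000000000000000000) (nat_lit 0x0) (nat_lit 0x4000e00050000000040000000000000000000000000000000000000000000) := T_1 (nat_lit 210) (nat_lit 227) (nat_lit 7) (nat_lit 5) (nat_lit 9) L6827 (by decide +kernel)
theorem L6829 : W_1 (nat_lit 5) (nat_lit 0x20005000280004001000080000000000000000000000000000000) (nat_lit 0x0) (nat_lit 0x4000e00050000000040002000100000000000000000000000000000000000) := T_1 (nat_lit 157) (nat_lit 140) (nat_lit 4) (nat_lit 5) (nat_lit 12) L6828 (by decide +kernel)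
theorem L6844 : W_1 (nat_lit 2) (nat_lit 0x30005000280004001200080000000000000000000000000000000) (nat_lit 0x0) (nat_lit 0x2000100008000000000000000000000000000000) := D_1 (nat_lit 140) (nat_lit 123) (nat_lit 157) (nat_lit 4) (nat_lit 5) (nat_lit 11) (nat_lit 4) (nat_lit 5) (nat_lit 12) (by decide +kernel)
theorem L6845 : W_1 (nat_lit 3) (nat_lit 0x30005000280004001000080000000000000000000000000000000) (nat_lit 0x0) (nat_lit 0x800000002000300008000000000000000000000000000000) := T_1 (nat_lit 141) (nat_lit 191) (nat_lit 5) (nat_lit 5) (nat_lit 8) L6844 (by decide +kernel)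
theorem L7075 : W_1 (nat_lit 4) (nat_lit 0x20005000280004001000080000000000000000000000000000000) (nat_lit 0x0) (nat_lit 0x200010000800000002000300008000000000000000000000000000000) := T_1 (nat_lit 208) (nat_lit 225) (nat_lit 5) (nat_lit 5) (nat_lit 9) L6845 (by decide +kernel)
theorem L7165 : W_1 (nat_lit 2) (nat_lit 0x58003c0002001000080000000000000000000000000000000) (nat_lit 0x0) (nat_lit 0x400020000000000000000100000000000000000000000000000000000) := D_1 (nat_lit 209) (nat_lit 226) (nat_lit 140) (nat_lit 4) (nat_lit 5) (nat_lit 13) (nat_lit 7) (nat_lit 4) (nat_lit 8) (by decide +kernel)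
theorem L7166 : W_1 (nat_lit 3) (nat_lit 0x58003c0000001000080000000000000000000000000000000) (nat_lit 0x0) (nat_lit 0x400020000000000003000100000000000000000000000000000000000) := T_1 (nat_lit 157) (nat_lit 156) (nat_lit 0) (nat_lit 7) (nat_lit 10) L7165 (by decide +kernel)
theorem L7167 : W_1 (nat_lit 4) (nat_lit 0x58002c0000001000080000000000000000000000000000000) (nat_lit 0x0) (nat_lit 0x400020000400100003000100000000000000000000000000000000000) := T_1 (nat_lit 176) (nat_lit 190) (nat_lit 1) (nat_lit 7) (nat_lit 10) L7166 (by decide +kernel)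
theorem L7394 : W_1 (nat_lit 2) (nat_lit 0x48003c0002001000080000000000000000000000000000000) (nat_lit 0x0) (nat_lit 0x1000400004000000000000000000000000000000000000000) := D_1 (nat_lit 178) (nat_lit 192) (nat_lit 158) (nat_lit 1) (nat_lit 8) (nat_lit 10) (nat_lit 0) (nat_lit 8) (nat_lit 10) (by decide +kernel)
theorem L7395 : W_1 (nat_lit 3) (nat_lit 0x48003c0000001000080000000000000000000000000000000) (nat_lit 0x0) (nat_lit 0x1000400007000000000000000000000000000000000000000) := T_1 (nat_lit 157) (nat_lit 156) (nat_lit 0) (nat_lit 7) (nat_lit 10) L7394 (by decide +kernel)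
theorem L7396 : W_1 (nat_lit 4) (nat_lit 0x40003c0000001000080000000000000000000000000000000) (nat_lit 0x0) (nat_lit 0x1c00400007000000000000000000000000000000000000000) := T_1 (nat_lit 191) (nat_lit 190) (nat_lit 1) (nat_lit 7) (nat_lit 10) L7395 (by decide +kernel)
theorem L7397 : W_1 (nat_lit 5) (nat_lit 0x4000380000001000080000000000000000000000000000000) (nat_lit 0x0) (nat_lit 0x9c00440007000000000000000000000000000000000000000) := T_1 (nat_lit 174) (nat_lit 195) (nat_lit 3) (nat_lit 4) (nat_lit 10) L7396 (by decide +kernel)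
theorem L7416 : W_1 (nat_lit 2) (nat_lit 0x40003e0000001000080000000000000000000000000000000) (nat_lit 0x0) (nat_lit 0x3800000000000000000000000000000000000000) := D_1 (nat_lit 156) (nat_lit 157) (nat_lit 155) (nat_lit 0) (nat_lit 7) (nat_lit 10) (nat_lit 0) (nat_lit 6) (nat_lit 10) (by decide +kernel)
theorem L7417 : W_1 (nat_lit 3) (nat_lit 0x40003c0000001000080000000000000000000000000000000) (nat_lit 0x0) (nat_lit 0x2000020003800000000000000000000000000000000000000) := T_1 (nat_lit 173) (nat_lit 193) (nat_lit 3) (nat_lit 3) (nat_lit 10) L7416 (by decide +kernel)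
theorem L7418 : W_1 (nat_lit 4) (nat_lit 0x4000380000001000080000000000000000000000000000000) (nat_lit 0x0) (nat_lit 0xa000060003800000000000000000000000000000000000000) := T_1 (nat_lit 174) (nat_lit 195) (nat_lit 3) (nat_lit 4) (nat_lit 10) L7417 (by decide +kernel)
theorem L7425 : W_1 (nat_lit 2) (nat_lit 0x5800680004001200090000000000000000000000000000000) (nat_lit 0x0) (nat_lit 0x100008000400000000000000000000000000) := D_1 (nat_lit 123) (nat_lit 106) (nat_lit 140) (nat_lit 4) (nat_lit 5) (nat_lit 10) (nat_lit 4) (nat_lit 5) (nat_lit 11) (by decide +kernel)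
theorem L7426 : W_1 (nat_lit 3) (nat_lit 0x5800680004001200080000000000000000000000000000000) (nat_lit 0x0) (nat_lit 0x40000000100018000400000000000000000000000000) := T_1 (nat_lit 124) (nat_lit 174) (nat_lit 5) (nat_lit 5) (nat_lit 7) L7425 (by decide +kernel)
theorem L7427 : W_1 (nat_lit 4) (nat_lit 0x5800680004001000080000000000000000000000000000000) (nat_lit 0x0) (nat_lit 0x10000000040000000300018000400000000000000000000000000) := T_1 (nat_lit 141) (nat_lit 208) (nat_lit 5) (nat_lit 5) (nat_lit 8) L7426 (by decide +kernel)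
theorem L7428 : W_1 (nat_lit 5) (nat_lit 0x5000680004001000080000000000000000000000000000000) (nat_lit 0x0) (nat_lit 0x10002800040000000300018000400000000000000000000000000) := T_1 (nat_lit 191) (nat_lit 193) (nat_lit 2) (nat_lit 4) (nat_lit 11) L7427 (by decide +kernel)
theorem L7445 : W_1 (nat_lit 2) (nat_lit 0x5800680004001200090000000000000000000000000000000) (nat_lit 0x0) (nat_lit 0x400020001000000000000000000000000000) := D_1 (nat_lit 125) (nat_lit 142) (nat_lit 108) (nat_lit 6) (nat_lit 5) (nat_lit 11) (nat_lit 6) (nat_lit 5) (nat_lit 10) (by decide +kernel)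
theorem L7446 : W_1 (nat_lit 3) (nat_lit 0x5800680004001200080000000000000000000000000000000) (nat_lit 0x0) (nat_lit 0x40000000400030001000000000000000000000000000) := T_1 (nat_lit 124) (nat_lit 174) (nat_lit 5) (nat_lit 5) (nat_lit 7) L7445 (by decide +kernel)
theorem L7447 : W_1 (nat_lit 4) (nat_lit 0x5800680004001000080000000000000000000000000000000) (nat_lit 0x0) (nat_lit 0x10000000040000000600030001000000000000000000000000000) := T_1 (nat_lit 141) (nat_lit 208) (nat_lit 5) (nat_lit 5) (nat_lit 8) L7446 (by decide +kernel)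
theorem L7448 : W_1 (nat_lit 5) (nat_lit 0x5000680004001000080000000000000000000000000000000) (nat_lit 0x0) (nat_lit 0x10002800040000000600030001000000000000000000000000000) := T_1 (nat_lit 191) (nat_lit 193) (nat_lit 2) (nat_lit 4) (nat_lit 11) L7447 (by decide +kernel)
theorem L7658 : W_1 (nat_lit 2) (nat_lit 0xd000f80080001000080000000000000000000000000000000) (nat_lit 0x0) (nat_lit 0x3000100000000000000000000000000000000000000000) := D_1 (nat_lit 180) (nat_lit 181) (nat_lit 164) (nat_lit 1) (nat_lit 11) (nat_lit 10) (nat_lit 2) (nat_lit 7) (nat_lit 10) (by decide +kernel)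
theorem L7687 : W_1 (nat_lit 2) (nat_lit 0x4000e000780004001000080000000000000000000000000000000) (nat_lit 0x0) (nat_lit 0x8000200010000000000000000000000000000000) := D_1 (nat_lit 141) (nat_lit 124) (nat_lit 159) (nat_lit 7) (nat_lit 5) (nat_lit 7) (nat_lit 4) (nat_lit 6) (nat_lit 12) (by decide +kernel)
theorem L7688 : W_1 (nat_lit 3) (nat_lit 0xe000780004001000080000000000000000000000000000000) (nat_lit 0x0) (nat_lit 0x800040000000000008000200010000000000000000000000000000000) := T_1 (nat_lit 210) (nat_lit 227) (nat_lit 4) (nat_lit 6) (nat_lit 13) L7687 (by decide +kernel)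
theorem L7717 : W_1 (nat_lit 2) (nat_lit 0x50003c0006001000080000000000000000000000000000000) (nat_lit 0x0) (nat_lit 0x20000000000000000100008000000000000000000000000000000) := D_1 (nat_lit 140) (nat_lit 123) (nat_lit 209) (nat_lit 7) (nat_lit 4) (nat_lit 7) (nat_lit 4) (nat_lit 5) (nat_lit 12) (by decide +kernel)
theorem L7718 : W_1 (nat_lit 3) (nat_lit 0x50003c0002001000080000000000000000000000000000000) (nat_lit 0x0) (nat_lit 0x20000000400004000100008000000000000000000000000000000) := T_1 (nat_lit 158) (nat_lit 178) (nat_lit 0) (nat_lit 8) (nat_lit 10) L7717 (by decide +kernel)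
theorem L7719 : W_1 (nat_lit 4) (nat_lit 0x50003c0000001000080000000000000000000000000000000) (nat_lit 0x0) (nat_lit 0x20000000400007000100008000000000000000000000000000000) := T_1 (nat_lit 157) (nat_lit 156) (nat_lit 0) (nat_lit 7) (nat_lit 10) L7718 (by decide +kernel)
theorem L7803 : W_1 (nat_lit 2) (nat_lit 0x20001f000200000001000080000000000000000000000000000000) (nat_lit 0x0) (nat_lit 0x70000000000000000000000000000000000000000000000000000) := D_1 (nat_lit 209) (nat_lit 208) (nat_lit 210) (nat_lit 1) (nat_lit 8) (nat_lit 11) (nat_lit 1) (nat_lit 9) (nat_lit 11) (by decide +kernel)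
theorem L7804 : W_1 (nat_lit 3) (nat_lit 0x20001e000200000001000080000000000000000000000000000000) (nat_lit 0x0) (nat_lit 0x170001000000000000000000000000000000000000000000000000) := T_1 (nat_lit 192) (nat_lit 212) (nat_lit 3) (nat_lit 5) (nat_lit 11) L7803 (by decide +kernel)
theorem L7805 : W_1 (nat_lit 4) (nat_lit 0x1e000200000001000080000000000000000000000000000000) (nat_lit 0x0) (nat_lit 0x770001000000000000000000000000000000000000000000000000) := T_1 (nat_lit 213) (nat_lit 214) (nat_lit 3) (nat_lit 6) (nat_lit 11) L7804 (by decide +kernel)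
theorem L7815 : W_1 (nat_lit 2) (nat_lit 0x7c000200000001000080000000000000000000000000000000) (nat_lit 0x0) (nat_lit 0x1c00000000000000000000000000000000000000000000000000000) := D_1 (nat_lit 215) (nat_lit 214) (nat_lit 216) (nat_lit 3) (nat_lit 7) (nat_lit 11) (nat_lit 3) (nat_lit 8) (nat_lit 11) (by decide +kernel)
theorem L7816 : W_1 (nat_lit 3) (nat_lit 0x3c000200000001000080000000000000000000000000000000) (nat_lit 0x0) (nat_lit 0x1c00040000400000000000000000000000000000000000000000000) := T_1 (nat_lit 198) (nat_lit 178) (nat_lit 0) (nat_lit 11) (nat_lit 11) L7815 (by decide +kernel)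
theorem L7817 : W_1 (nat_lit 4) (nat_lit 0x1c000200000001000080000000000000000000000000000000) (nat_lit 0x0) (nat_lit 0x1c00060000500000000000000000000000000000000000000000000) := T_1 (nat_lit 197) (nat_lit 176) (nat_lit 0) (nat_lit 10) (nat_lit 11) L7816 (by decide +kernel)
theorem L7818 : W_1 (nat_lit 2) (nat_lit 0x7c000200000001000080000000000000000000000000000000) (nat_lit 0x0) (nat_lit 0x7000000000000000000000000000000000000000000000) := D_1 (nat_lit 181) (nat_lit 180) (nat_lit 182) (nat_lit 2) (nat_lit 7) (nat_lit 11) (nat_lit 2) (nat_lit 8) (nat_lit 11) (by decide +kernel)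
theorem L7819 : W_1 (nat_lit 3) (nat_lit 0x3c000200000001000080000000000000000000000000000000) (nat_lit 0x0) (nat_lit 0x40007400000000000000000000000000000000000000000000) := T_1 (nat_lit 198) (nat_lit 178) (nat_lit 0) (nat_lit 11) (nat_lit 11) L7818 (by decide +kernel)
theorem L7821 : W_1 (nat_lit 4) (nat_lit 0x1c000200000001000080000000000000000000000000000000) (nat_lit 0x0) (nat_lit 0x60007500000000000000000000000000000000000000000000) := T_1 (nat_lit 197) (nat_lit 176) (nat_lit 0) (nat_lit 10) (nat_lit 11) L7819 (by decide +kernel)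
theorem L7971 : W_1 (nat_lit 2) (nat_lit 0x2000300008002c000300000001000080000000000000000000000000000000) (nat_lit 0x0) (nat_lit 0x200010000800000000000000000000000000000000000000000000000000000000) := D_1 (nat_lit 244) (nat_lit 261) (nat_lit 227) (nat_lit 5) (nat_lit 7) (nat_lit 11) (nat_lit 5) (nat_lit 7) (nat_lit 10) (by decide +kernel)
theorem L7972 : W_1 (nat_lit 3) (nat_lit 0x300008002c000300000001000080000000000000000000000000000000) (nat_lit 0x0) (nat_lit 0x200030000800000000000400000000000000000000000000000000000000000000) := T_1 (nat_lit 245) (nat_lit 178) (nat_lit 6) (nat_lit 7) (nat_lit 14) L7971 (by decide +kernel)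
theorem L8011 : W_1 (nat_lit 2) (nat_lit 0x20007e001200010001000080000000000000000000000000000000) (nat_lit 0x0) (nat_lit 0x180080000000000000000000000000000000000000000000000000) := D_1 (nat_lit 212) (nat_lit 211) (nat_lit 199) (nat_lit 1) (nat_lit 11) (nat_lit 11) (nat_lit 1) (nat_lit 12) (nat_lit 11) (by decide +kernel)
theorem L8012 : W_1 (nat_lit 3) (nat_lit 0x20003e001200010001000080000000000000000000000000000000) (nat_lit 0x0) (nat_lit 0x1800c0000400000000000000000000000000000000000000000000) := T_1 (nat_lit 198) (nat_lit 178) (nat_lit 0) (nat_lit 11) (nat_lit 11) L8011 (by decide +kernel)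
theorem L8013 : W_1 (nat_lit 4) (nat_lit 0x20001e001200010001000080000000000000000000000000000000) (nat_lit 0x0) (nat_lit 0x1800e0002400000000000000000000000000000000000000000000) := T_1 (nat_lit 197) (nat_lit 181) (nat_lit 2) (nat_lit 7) (nat_lit 11) L8012 (by decide +kernel)
theorem L8026 : W_1 (nat_lit 2) (nat_lit 0x10001f000280000001000080000000000000000000000000000000) (nat_lit 0x0) (nat_lit 0x70000000000000000000000000000000000000000000000000000) := D_1 (nat_lit 209) (nat_lit 208) (nat_lit 210) (nat_lit 1) (nat_lit 8) (nat_lit 11) (nat_lit 1) (nat_lit 9) (nat_lit 11) (by decide +kernel)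
theorem L8027 : W_1 (nat_lit 3) (nat_lit 0x10000f000280000001000080000000000000000000000000000000) (nat_lit 0x0) (nat_lit 0x70010000100000000000000000000000000000000000000000000) := T_1 (nat_lit 196) (nat_lit 176) (nat_lit 0) (nat_lit 9) (nat_lit 11) L8026 (by decide +kernel)
theorem L8028 : W_1 (nat_lit 4) (nat_lit 0xf000280000001000080000000000000000000000000000000) (nat_lit 0x0) (nat_lit 0x370010000100000000000000000000000000000000000000000000) := T_1 (nat_lit 212) (nat_lit 213) (nat_lit 3) (nat_lit 5) (nat_lit 11) L8027 (by decide +kernel)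
theorem L8029 : W_1 (nat_lit 5) (nat_lit 0xf000200000001000080000000000000000000000000000000) (nat_lit 0x0) (nat_lit 0x3700100001c0000000000000000000000000000000000000000000) := T_1 (nat_lit 175) (nat_lit 174) (nat_lit 0) (nat_lit 8) (nat_lit 11) L8028 (by decide +kernel)
theorem L8031 : W_1 (nat_lit 2) (nat_lit 0x1e000200000001000080000000000000000000000000000000) (nat_lit 0x0) (nat_lit 0x20000180000000000000000000000000000000000000000000) := D_1 (nat_lit 176) (nat_lit 175) (nat_lit 197) (nat_lit 0) (nat_lit 9) (nat_lit 11) (nat_lit 0) (nat_lit 10) (nat_lit 11) (by decide +kernel)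
theorem L8038 : W_1 (nat_lit 2) (nat_lit 0x4000000012400fc00240010001000080000000000000000000000000000000) (nat_lit 0x0) (nat_lit 0x42000200000000000000000000000000000000000000000000000) := D_1 (nat_lit 189) (nat_lit 210) (nat_lit 205) (nat_lit 3) (nat_lit 2) (nat_lit 11) (nat_lit 1) (nat_lit 5) (nat_lit 11) (by decide +kernel)
theorem L8039 : W_1 (nat_lit 3) (nat_lit 0x4000000012000fc00240010001000080000000000000000000000000000000) (nat_lit 0x0) (nat_lit 0x4e000200000000000000000000000000000000000000000000000) := T_1 (nat_lit 206) (nat_lit 207) (nat_lit 1) (nat_lit 6) (nat_lit 11) L8038 (by decide +kernel)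
theorem L8040 : W_1 (nat_lit 4) (nat_lit 0x4000000012000f800240010001000080000000000000000000000000000000) (nat_lit 0x0) (nat_lit 0x4e000600100000000000000000000000000000000000000000000) := T_1 (nat_lit 190) (nat_lit 176) (nat_lit 2) (nat_lit 3) (nat_lit 11) L8039 (by decide +kernel)
theorem L8041 : W_1 (nat_lit 5) (nat_lit 0x4000000012000f000240010001000080000000000000000000000000000000) (nat_lit 0x0) (nat_lit 0x4e000e00120000000000000000000000000000000000000000000) := T_1 (nat_lit 191) (nat_lit 173) (nat_lit 0) (nat_lit 7) (nat_lit 11) L8040 (by decide +kernel)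
theorem L8048 : W_1 (nat_lit 2) (nat_lit 0x20001f000200000001000080000000000000000000000000000000) (nat_lit 0x0) (nat_lit 0x800c00000000000000000000000000000000000000000000) := D_1 (nat_lit 178) (nat_lit 179) (nat_lit 191) (nat_lit 2) (nat_lit 5) (nat_lit 11) (nat_lit 2) (nat_lit 4) (nat_lit 11) (by decide +kernel)
theorem L8049 : W_1 (nat_lit 3) (nat_lit 0x20001e000200000001000080000000000000000000000000000000) (nat_lit 0x0) (nat_lit 0x100001800c00000000000000000000000000000000000000000000) := T_1 (nat_lit 192) (nat_lit 212) (nat_lit 3) (nat_lit 5) (nat_lit 11) L8048 (by decide +kernel)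
theorem L8050 : W_1 (nat_lit 4) (nat_lit 0x1e000200000001000080000000000000000000000000000000) (nat_lit 0x0) (nat_lit 0x700001800c00000000000000000000000000000000000000000000) := T_1 (nat_lit 213) (nat_lit 214) (nat_lit 3) (nat_lit 6) (nat_lit 11) L8049 (by decide +kernel)
theorem L8127 : W_1 (nat_lit 2) (nat_lit 0x4000300008001e00080000000000000000000000000000000) (nat_lit 0x0) (nat_lit 0x2000000000000000018000000000000000000000000000000) := D_1 (nat_lit 124) (nat_lit 123) (nat_lit 193) (nat_lit 0) (nat_lit 8) (nat_lit 8) (nat_lit 4) (nat_lit 6) (nat_lit 11) (by decide +kernel)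
theorem L8128 : W_1 (nat_lit 3) (nat_lit 0x4000300008001c00080000000000000000000000000000000) (nat_lit 0x0) (nat_lit 0x2000000000000200118000000000000000000000000000000) := T_1 (nat_lit 141) (nat_lit 128) (nat_lit 2) (nat_lit 5) (nat_lit 8) L8127 (by decide +kernel)
theorem L8185 : W_1 (nat_lit 2) (nat_lit 0x4000f00000001000080000000000000000000000000000000) (nat_lit 0x0) (nat_lit 0x3001000000000000000000000000000000000000000000000) := D_1 (nat_lit 193) (nat_lit 192) (nat_lit 180) (nat_lit 1) (nat_lit 9) (nat_lit 10) (nat_lit 1) (nat_lit 10) (nat_lit 10) (by decide +kernel)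
theorem L8242 : W_1 (nat_lit 2) (nat_lit 0x6000700000001000080000000000000000000000000000000) (nat_lit 0x0) (nat_lit 0x1001800000000000000000000000000000000000000000000) := D_1 (nat_lit 179) (nat_lit 192) (nat_lit 180) (nat_lit 1) (nat_lit 9) (nat_lit 10) (nat_lit 1) (nat_lit 10) (nat_lit 10) (by decide +kernel)
theorem L8249 : W_1 (nat_lit 2) (nat_lit 0x12000f000780010001000080000000000000000000000000000000) (nat_lit 0x0) (nat_lit 0x400000000000000008000400000000000000000000000000000000000) := D_1 (nat_lit 159) (nat_lit 142) (nat_lit 226) (nat_lit 5) (nat_lit 6) (nat_lit 8) (nat_lit 6) (nat_lit 5) (nat_lit 13) (by decide +kernel)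
theorem L8250 : W_1 (nat_lit 3) (nat_lit 0x10000f000780010001000080000000000000000000000000000000) (nat_lit 0x0) (nat_lit 0x400030000000000008000400000000000000000000000000000000000) := T_1 (nat_lit 209) (nat_lit 208) (nat_lit 1) (nat_lit 8) (nat_lit 11) L8249 (by decide +kernel)
theorem L8374 : W_1 (nat_lit 2) (nat_lit 0x18001f00080001000080000000000000000000000000000000) (nat_lit 0x0) (nat_lit 0x4006000000000000000000000000000000000000000000000) := D_1 (nat_lit 181) (nat_lit 182) (nat_lit 194) (nat_lit 1) (nat_lit 12) (nat_lit 10) (nat_lit 1) (nat_lit 11) (nat_lit 10) (by decide +kernel)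
theorem L8375 : W_1 (nat_lit 3) (nat_lit 0x18000f00080001000080000000000000000000000000000000) (nat_lit 0x0) (nat_lit 0x4007000100000000000000000000000000000000000000000) := T_1 (nat_lit 180) (nat_lit 164) (nat_lit 2) (nat_lit 7) (nat_lit 10) L8374 (by decide +kernel)
theorem L8858 : W_1 (nat_lit 2) (nat_lit 0x3c000a000d000680000001000080000000000000000000000000000000) (nat_lit 0x0) (nat_lit 0xc000200000000000000000000000000000000000000000000000000000000) := D_1 (nat_lit 242) (nat_lit 243) (nat_lit 225) (nat_lit 1) (nat_lit 8) (nat_lit 13) (nat_lit 5) (nat_lit 5) (nat_lit 10) (by decide +kernel)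
theorem L8859 : W_1 (nat_lit 3) (nat_lit 0x38000a000d000680000001000080000000000000000000000000000000) (nat_lit 0x0) (nat_lit 0xc000600010000000000000000000000000000000000000000000000000000) := T_1 (nat_lit 226) (nat_lit 208) (nat_lit 0) (nat_lit 8) (nat_lit 13) L8858 (by decide +kernel)
theorem L8860 : W_1 (nat_lit 4) (nat_lit 0x18000a000d000680000001000080000000000000000000000000000000) (nat_lit 0x0) (nat_lit 0x4c002600010000000000000000000000000000000000000000000000000000) := T_1 (nat_lit 229) (nat_lit 246) (nat_lit 7) (nat_lit 7) (nat_lit 10) L8859 (by decide +kernel)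
theorem L8861 : W_1 (nat_lit 5) (nat_lit 0x10000a000d000680000001000080000000000000000000000000000000) (nat_lit 0x0) (nat_lit 0x5c002e00010000000000000000000000000000000000000000000000000000) := T_1 (nat_lit 227) (nat_lit 244) (nat_lit 5) (nat_lit 7) (nat_lit 10) L8860 (by decide +kernel)
theorem L8862 : W_1 (nat_lit 6) (nat_lit 0xa000d000680000001000080000000000000000000000000000000) (nat_lit 0x0) (nat_lit 0x7c003e00010000000000000000000000000000000000000000000000000000) := T_1 (nat_lit 228) (nat_lit 245) (nat_lit 6) (nat_lit 7) (nat_lit 14) L8861 (by decide +kernel)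
theorem L8872 : W_1 (nat_lit 2) (nat_lit 0x78000a000d000680000001000080000000000000000000000000000000) (nat_lit 0x0) (nat_lit 0x180000000100000000000000000000000000000000000000000000000000000) := D_1 (nat_lit 247) (nat_lit 212) (nat_lit 248) (nat_lit 7) (nat_lit 8) (nat_lit 10) (nat_lit 3) (nat_lit 6) (nat_lit 13) (by decide +kernel)
theorem L8873 : W_1 (nat_lit 3) (nat_lit 0x38000a000d000680000001000080000000000000000000000000000000) (nat_lit 0x0) (nat_lit 0x180004000140000000000000000000000000000000000000000000000000000) := T_1 (nat_lit 230) (nat_lit 210) (nat_lit 0) (nat_lit 9) (nat_lit 13) L8872 (by decide +kernel)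
theorem L8874 : W_1 (nat_lit 4) (nat_lit 0x18000a000d000680000001000080000000000000000000000000000000) (nat_lit 0x0) (nat_lit 0x1c0006000140000000000000000000000000000000000000000000000000000) := T_1 (nat_lit 229) (nat_lit 246) (nat_lit 7) (nat_lit 7) (nat_lit 10) L8873 (by decide +kernel)
theorem L8875 : W_1 (nat_lit 5) (nat_lit 0x10000a000d000680000001000080000000000000000000000000000000) (nat_lit 0x0) (nat_lit 0x1d0006800140000000000000000000000000000000000000000000000000000) := T_1 (nat_lit 227) (nat_lit 244) (nat_lit 5) (nat_lit 7) (nat_lit 10) L8874 (by decide +kernel)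
theorem L8876 : W_1 (nat_lit 6) (nat_lit 0xa000d000680000001000080000000000000000000000000000000) (nat_lit 0x0) (nat_lit 0x1f0007800140000000000000000000000000000000000000000000000000000) := T_1 (nat_lit 228) (nat_lit 245) (nat_lit 6) (nat_lit 7) (nat_lit 14) L8875 (by decide +kernel)
theorem L8983 : W_1 (nat_lit 2) (nat_lit 0x6000f000280000001000080000000000000000000000000000000) (nat_lit 0x0) (nat_lit 0x10000800000000000000004000000000000000000000000000000000000000) := D_1 (nat_lit 227) (nat_lit 244) (nat_lit 158) (nat_lit 6) (nat_lit 6) (nat_lit 14) (nat_lit 7) (nat_lit 5) (nat_lit 9) (by decide +kernel)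
theorem L9012 : W_1 (nat_lit 2) (nat_lit 0x700012000f000680000001000080000000000000000000000000000000) (nat_lit 0x0) (nat_lit 0x8000c0000000000000000000000000000000000000000000000000000) := D_1 (nat_lit 210) (nat_lit 211) (nat_lit 227) (nat_lit 3) (nat_lit 5) (nat_lit 12) (nat_lit 0) (nat_lit 9) (nat_lit 13) (by decide +kernel)
theorem L9013 : W_1 (nat_lit 3) (nat_lit 0x300012000f000680000001000080000000000000000000000000000000) (nat_lit 0x0) (nat_lit 0x800048000c0000000000000000000000000000000000000000000000000000) := T_1 (nat_lit 230) (nat_lit 247) (nat_lit 7) (nat_lit 8) (nat_lit 10) L9012 (by decide +kernel)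
theorem L9014 : W_1 (nat_lit 4) (nat_lit 0x200012000f000680000001000080000000000000000000000000000000) (nat_lit 0x0) (nat_lit 0xa00058000c0000000000000000000000000000000000000000000000000000) := T_1 (nat_lit 228) (nat_lit 245) (nat_lit 5) (nat_lit 8) (nat_lit 10) L9013 (by decide +kernel)
theorem L9015 : W_1 (nat_lit 5) (nat_lit 0x12000f000680000001000080000000000000000000000000000000) (nat_lit 0x0) (nat_lit 0xe00078000c0000000000000000000000000000000000000000000000000000) := T_1 (nat_lit 229) (nat_lit 246) (nat_lit 4) (nat_lit 8) (nat_lit 14) L9014 (by decide +kernel)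
theorem L9016 : W_1 (nat_lit 6) (nat_lit 0x12000f000600000001000080000000000000000000000000000000) (nat_lit 0x0) (nat_lit 0xe00078000c00000000c0000000000000000000000000000000000000000000) := T_1 (nat_lit 175) (nat_lit 174) (nat_lit 0) (nat_lit 8) (nat_lit 11) L9015 (by decide +kernel)
theorem L9035 : W_1 (nat_lit 2) (nat_lit 0xc001c000200000001000080000000000000000000000000000000) (nat_lit 0x0) (nat_lit 0x30002000000000000000000000000000000000000000000000000) := D_1 (nat_lit 209) (nat_lit 208) (nat_lit 193) (nat_lit 2) (nat_lit 4) (nat_lit 12) (nat_lit 1) (nat_lit 9) (nat_lit 11) (by decide +kernel)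
theorem L9036 : W_1 (nat_lit 3) (nat_lit 0xc000c000200000001000080000000000000000000000000000000) (nat_lit 0x0) (nat_lit 0x30032000000000000000000000000000000000000000000000000) := T_1 (nat_lit 196) (nat_lit 197) (nat_lit 1) (nat_lit 10) (nat_lit 11) L9035 (by decide +kernel)
theorem L9285 : W_1 (nat_lit 2) (nat_lit 0x20001f000200000001000080000000000000000000000000000000) (nat_lit 0x0) (nat_lit 0x1c0000000000000000000000000000000000000000000) := D_1 (nat_lit 175) (nat_lit 176) (nat_lit 174) (nat_lit 0) (nat_lit 9) (nat_lit 11) (nat_lit 0) (nat_lit 8) (nat_lit 11) (by decide +kernel)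
theorem L9286 : W_1 (nat_lit 3) (nat_lit 0x20001e000200000001000080000000000000000000000000000000) (nat_lit 0x0) (nat_lit 0x1000010001c0000000000000000000000000000000000000000000) := T_1 (nat_lit 192) (nat_lit 212) (nat_lit 3) (nat_lit 5) (nat_lit 11) L9285 (by decide +kernel)
theorem L9287 : W_1 (nat_lit 4) (nat_lit 0x1e000200000001000080000000000000000000000000000000) (nat_lit 0x0) (nat_lit 0x7000010001c0000000000000000000000000000000000000000000) := T_1 (nat_lit 213) (nat_lit 214) (nat_lit 3) (nat_lit 6) (nat_lit 11) L9286 (by decide +kernel)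
theorem L9305 : W_1 (nat_lit 2) (nat_lit 0x380000000c000200000001000080000000000000000000000000000000) (nat_lit 0x0) (nat_lit 0x50000000080000000000000000000000000000000000000000000000000000) := D_1 (nat_lit 211) (nat_lit 246) (nat_lit 244) (nat_lit 7) (nat_lit 7) (nat_lit 10) (nat_lit 5) (nat_lit 7) (nat_lit 10) (by decide +kernel)
theorem L9391 : W_1 (nat_lit 2) (nat_lit 0x10000f80000000c000200000001000080000000000000000000000000000000) (nat_lit 0x0) (nat_lit 0x38000000000000000000000000000000000000000000000000000000000000) := D_1 (nat_lit 244) (nat_lit 243) (nat_lit 245) (nat_lit 1) (nat_lit 9) (nat_lit 13) (nat_lit 1) (nat_lit 10) (nat_lit 13) (by decide +kernel)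
theorem L9392 : W_1 (nat_lit 3) (nat_lit 0x10000f00000000c000200000001000080000000000000000000000000000000) (nat_lit 0x0) (nat_lit 0xb8000800000000000000000000000000000000000000000000000000000000) := T_1 (nat_lit 227) (nat_lit 247) (nat_lit 3) (nat_lit 6) (nat_lit 13) L9391 (by decide +kernel)
theorem L9393 : W_1 (nat_lit 4) (nat_lit 0xf00000000c000200000001000080000000000000000000000000000000) (nat_lit 0x0) (nat_lit 0x3b8000800000000000000000000000000000000000000000000000000000000) := T_1 (nat_lit 248) (nat_lit 249) (nat_lit 3) (nat_lit 7) (nat_lit 13) L9392 (by decide +kernel)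
theorem L9630 : W_1 (nat_lit 2) (nat_lit 0x80007c0000000c000200000001000080000000000000000000000000000000) (nat_lit 0x0) (nat_lit 0x1c000000000000000000000000000000000000000000000000000000000000) := D_1 (nat_lit 243) (nat_lit 242) (nat_lit 244) (nat_lit 1) (nat_lit 8) (nat_lit 13) (nat_lit 1) (nat_lit 9) (nat_lit 13) (by decide +kernel)
theorem L9631 : W_1 (nat_lit 3) (nat_lit 0x8000780000000c000200000001000080000000000000000000000000000000) (nat_lit 0x0) (nat_lit 0x5c000400000000000000000000000000000000000000000000000000000000) := T_1 (nat_lit 226) (nat_lit 246) (nat_lit 3) (nat_lit 5) (nat_lit 13) L9630 (by decide +kernel)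
theorem L9632 : W_1 (nat_lit 4) (nat_lit 0x780000000c000200000001000080000000000000000000000000000000) (nat_lit 0x0) (nat_lit 0x1dc000400000000000000000000000000000000000000000000000000000000) := T_1 (nat_lit 247) (nat_lit 248) (nat_lit 3) (nat_lit 6) (nat_lit 13) L9631 (by decide +kernel)
theorem L9948 : W_1 (nat_lit 2) (nat_lit 0xc0007000200010001000080000000000000000000000000000000) (nat_lit 0x0) (nat_lit 0x2000300000000000000000000000000000000000000000000000000000) := D_1 (nat_lit 212) (nat_lit 213) (nat_lit 229) (nat_lit 0) (nat_lit 9) (nat_lit 12) (nat_lit 7) (nat_lit 7) (nat_lit 9) (by decide +kernel)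
theorem L9975 : W_1 (nat_lit 2) (nat_lit 0x1c001c00070003c0000001000080000000000000000000000000000000) (nat_lit 0x0) (nat_lit 0x20000000000003000000000000000000000000000000000000000) := D_1 (nat_lit 157) (nat_lit 209) (nat_lit 156) (nat_lit 4) (nat_lit 5) (nat_lit 13) (nat_lit 0) (nat_lit 7) (nat_lit 10) (by decide +kernel)
theorem L9976 : W_1 (nat_lit 3) (nat_lit 0x1c001c0007000380000001000080000000000000000000000000000000) (nat_lit 0x0) (nat_lit 0x20000000060003000000000000000000000000000000000000000) := T_1 (nat_lit 174) (nat_lit 173) (nat_lit 3) (nat_lit 3) (nat_lit 10) L9975 (by decide +kernel)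
theorem L9977 : W_1 (nat_lit 4) (nat_lit 0x1c001c0007000300000001000080000000000000000000000000000000) (nat_lit 0x0) (nat_lit 0x200000000e0007000000000000000000000000000000000000000) := T_1 (nat_lit 175) (nat_lit 158) (nat_lit 4) (nat_lit 6) (nat_lit 13) L9976 (by decide +kernel)
theorem L9978 : W_1 (nat_lit 5) (nat_lit 0x1c001c0007000200000001000080000000000000000000000000000000) (nat_lit 0x0) (nat_lit 0x80000000200000001e0007000000000000000000000000000000000000000) := T_1 (nat_lit 176) (nat_lit 243) (nat_lit 5) (nat_lit 6) (nat_lit 10) L9977 (by decide +kernel)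
theorem L9979 : W_1 (nat_lit 6) (nat_lit 0x18001c0007000200000001000080000000000000000000000000000000) (nat_lit 0x0) (nat_lit 0x80006000200000001e0007000000000000000000000000000000000000000) := T_1 (nat_lit 226) (nat_lit 225) (nat_lit 2) (nat_lit 4) (nat_lit 13) L9978 (by decide +kernel)
theorem L10026 : W_1 (nat_lit 2) (nat_lit 0x7c00200010001000080000000000000000000000000000000) (nat_lit 0x0) (nat_lit 0x1c000000000000000000000000000000000000000000000000000) := D_1 (nat_lit 207) (nat_lit 206) (nat_lit 208) (nat_lit 1) (nat_lit 6) (nat_lit 11) (nat_lit 1) (nat_lit 7) (nat_lit 11) (by decide +kernel)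
theorem L10027 : W_1 (nat_lit 3) (nat_lit 0x7800200010001000080000000000000000000000000000000) (nat_lit 0x0) (nat_lit 0x1c000400100000000000000000000000000000000000000000000) := T_1 (nat_lit 190) (nat_lit 176) (nat_lit 2) (nat_lit 3) (nat_lit 11) L10026 (by decide +kernel)
theorem L10028 : W_1 (nat_lit 4) (nat_lit 0x7000200010001000080000000000000000000000000000000) (nat_lit 0x0) (nat_lit 0x1c000c00500000000000000000000000000000000000000000000) := T_1 (nat_lit 191) (nat_lit 178) (nat_lit 2) (nat_lit 4) (nat_lit 11) L10027 (by decide +kernel)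
theorem L10029 : W_1 (nat_lit 5) (nat_lit 0x7000200000001000080000000000000000000000000000000) (nat_lit 0x0) (nat_lit 0x1c000c00500010000800000000000000000000000000000000000) := T_1 (nat_lit 160) (nat_lit 143) (nat_lit 6) (nat_lit 7) (nat_lit 11) L10028 (by decide +kernel)
theorem L10035 : W_1 (nat_lit 2) (nat_lit 0x7c00200000001000080000000000000000000000000000000) (nat_lit 0x0) (nat_lit 0x70000000000000000000000000000000000000000000) := D_1 (nat_lit 173) (nat_lit 174) (nat_lit 172) (nat_lit 0) (nat_lit 7) (nat_lit 11) (nat_lit 0) (nat_lit 6) (nat_lit 11) (by decide +kernel)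
theorem L10036 : W_1 (nat_lit 3) (nat_lit 0x7800200000001000080000000000000000000000000000000) (nat_lit 0x0) (nat_lit 0x400170000000000000000000000000000000000000000000) := T_1 (nat_lit 190) (nat_lit 176) (nat_lit 2) (nat_lit 3) (nat_lit 11) L10035 (by decide +kernel)
theorem L10037 : W_1 (nat_lit 4) (nat_lit 0x7000200000001000080000000000000000000000000000000) (nat_lit 0x0) (nat_lit 0xc00570000000000000000000000000000000000000000000) := T_1 (nat_lit 191) (nat_lit 178) (nat_lit 2) (nat_lit 4) (nat_lit 11) L10036 (by decide +kernel)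
theorem L10039 : W_1 (nat_lit 2) (nat_lit 0x7c00200000001000080000000000000000000000000000000) (nat_lit 0x0) (nat_lit 0x1c000000000000000000000000000000000000000000000000000) := D_1 (nat_lit 207) (nat_lit 206) (nat_lit 208) (nat_lit 1) (nat_lit 6) (nat_lit 11) (nat_lit 1) (nat_lit 7) (nat_lit 11) (by decide +kernel)
theorem L10040 : W_1 (nat_lit 3) (nat_lit 0x7800200000001000080000000000000000000000000000000) (nat_lit 0x0) (nat_lit 0x1c000400100000000000000000000000000000000000000000000) := T_1 (nat_lit 190) (nat_lit 176) (nat_lit 2) (nat_lit 3) (nat_lit 11) L10039 (by decide +kernel)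
theorem L10041 : W_1 (nat_lit 2) (nat_lit 0x8000f800240000001000080000000000000000000000000000000) (nat_lit 0x0) (nat_lit 0x38000000000000000000000000000000000000000000000000000) := D_1 (nat_lit 208) (nat_lit 207) (nat_lit 209) (nat_lit 1) (nat_lit 7) (nat_lit 11) (nat_lit 1) (nat_lit 8) (nat_lit 11) (by decide +kernel)
theorem L10042 : W_1 (nat_lit 3) (nat_lit 0x80007800240000001000080000000000000000000000000000000) (nat_lit 0x0) (nat_lit 0x38008000080000000000000000000000000000000000000000000) := T_1 (nat_lit 195) (nat_lit 175) (nat_lit 0) (nat_lit 8) (nat_lit 11) L10041 (by decide +kernel)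
theorem L10043 : W_1 (nat_lit 4) (nat_lit 0x7800240000001000080000000000000000000000000000000) (nat_lit 0x0) (nat_lit 0x1b8008000080000000000000000000000000000000000000000000) := T_1 (nat_lit 211) (nat_lit 212) (nat_lit 3) (nat_lit 4) (nat_lit 11) L10042 (by decide +kernel)
theorem L10044 : W_1 (nat_lit 5) (nat_lit 0x7800200000001000080000000000000000000000000000000) (nat_lit 0x0) (nat_lit 0x1b80080000e0000000000000000000000000000000000000000000) := T_1 (nat_lit 174) (nat_lit 173) (nat_lit 0) (nat_lit 7) (nat_lit 11) L10043 (by decide +kernel)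
theorem L10054 : W_1 (nat_lit 2) (nat_lit 0x2001f000600000001000080000000000000000000000000000000) (nat_lit 0x0) (nat_lit 0x60000100000000000000000000000000000000000000000000) := D_1 (nat_lit 197) (nat_lit 198) (nat_lit 176) (nat_lit 0) (nat_lit 11) (nat_lit 11) (nat_lit 0) (nat_lit 10) (nat_lit 11) (by decide +kernel)
theorem L10055 : W_1 (nat_lit 3) (nat_lit 0x2000f000600000001000080000000000000000000000000000000) (nat_lit 0x0) (nat_lit 0x40070000100000000000000000000000000000000000000000000) := T_1 (nat_lit 196) (nat_lit 210) (nat_lit 1) (nat_lit 9) (nat_lit 11) L10054 (by decide +kernel)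
theorem L10056 : W_1 (nat_lit 4) (nat_lit 0x2000f000200000001000080000000000000000000000000000000) (nat_lit 0x0) (nat_lit 0x40070000d00000000000000000000000000000000000000000000) := T_1 (nat_lit 178) (nat_lit 179) (nat_lit 2) (nat_lit 5) (nat_lit 11) L10055 (by decide +kernel)
theorem L10057 : W_1 (nat_lit 5) (nat_lit 0xf000200000001000080000000000000000000000000000000) (nat_lit 0x0) (nat_lit 0x70070000d00000000000000000000000000000000000000000000) := T_1 (nat_lit 209) (nat_lit 208) (nat_lit 1) (nat_lit 8) (nat_lit 11) L10056 (by decide +kernel)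
theorem L10059 : W_1 (nat_lit 4) (nat_lit 0x7000200000001000080000000000000000000000000000000) (nat_lit 0x0) (nat_lit 0x1c000c00500000000000000000000000000000000000000000000) := T_1 (nat_lit 191) (nat_lit 178) (nat_lit 2) (nat_lit 4) (nat_lit 11) L10040 (by decide +kernel)
theorem L10061 : W_1 (nat_lit 2) (nat_lit 0x4003e000200000001000080000000000000000000000000000000) (nat_lit 0x0) (nat_lit 0x3800000000000000000000000000000000000000000000) := D_1 (nat_lit 180) (nat_lit 179) (nat_lit 181) (nat_lit 2) (nat_lit 6) (nat_lit 11) (nat_lit 2) (nat_lit 7) (nat_lit 11) (by decide +kernel)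
theorem L10062 : W_1 (nat_lit 3) (nat_lit 0x4001e000200000001000080000000000000000000000000000000) (nat_lit 0x0) (nat_lit 0x80020003800000000000000000000000000000000000000000000) := T_1 (nat_lit 197) (nat_lit 211) (nat_lit 1) (nat_lit 10) (nat_lit 11) L10061 (by decide +kernel)
theorem L10063 : W_1 (nat_lit 4) (nat_lit 0x4000e000200000001000080000000000000000000000000000000) (nat_lit 0x0) (nat_lit 0xa0030003800000000000000000000000000000000000000000000) := T_1 (nat_lit 196) (nat_lit 209) (nat_lit 1) (nat_lit 9) (nat_lit 11) L10062 (by decide +kernel)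
theorem L10064 : W_1 (nat_lit 2) (nat_lit 0x4000f000200000001000080000000000000000000000000000000) (nat_lit 0x0) (nat_lit 0x800c00000000000000000000000000000000000000000000) := D_1 (nat_lit 178) (nat_lit 191) (nat_lit 179) (nat_lit 2) (nat_lit 4) (nat_lit 11) (nat_lit 2) (nat_lit 5) (nat_lit 11) (by decide +kernel)
theorem L10081 : W_1 (nat_lit 2) (nat_lit 0x4001f000a00000001800080000000000000000000000000000000) (nat_lit 0x0) (nat_lit 0x700000000000000000000000000000000000000000000000000000) := D_1 (nat_lit 213) (nat_lit 212) (nat_lit 214) (nat_lit 3) (nat_lit 5) (nat_lit 11) (nat_lit 3) (nat_lit 6) (nat_lit 11) (by decide +kernel)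
theorem L10082 : W_1 (nat_lit 3) (nat_lit 0x4001e000a00000001800080000000000000000000000000000000) (nat_lit 0x0) (nat_lit 0x700001000400000000000000000000000000000000000000000000) := T_1 (nat_lit 192) (nat_lit 178) (nat_lit 2) (nat_lit 5) (nat_lit 11) L10081 (by decide +kernel)
theorem L10083 : W_1 (nat_lit 4) (nat_lit 0x4001e000200000001800080000000000000000000000000000000) (nat_lit 0x0) (nat_lit 0x700001001c00000000000000000000000000000000000000000000) := T_1 (nat_lit 179) (nat_lit 180) (nat_lit 2) (nat_lit 6) (nat_lit 11) L10082 (by decide +kernel)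
theorem L10084 : W_1 (nat_lit 5) (nat_lit 0x4000e000200000001800080000000000000000000000000000000) (nat_lit 0x0) (nat_lit 0x720011001c00000000000000000000000000000000000000000000) := T_1 (nat_lit 196) (nat_lit 209) (nat_lit 1) (nat_lit 9) (nat_lit 11) L10083 (by decide +kernel)
theorem L10085 : W_1 (nat_lit 6) (nat_lit 0x4000e000200000001000080000000000000000000000000000000) (nat_lit 0x0) (nat_lit 0x720011001c00010000800000000000000000000000000000000000) := T_1 (nat_lit 143) (nat_lit 160) (nat_lit 6) (nat_lit 7) (nat_lit 11) L10084 (by decide +kernel)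
theorem L10107 : W_1 (nat_lit 2) (nat_lit 0x40006000200010001000080000000000000000000000000000000) (nat_lit 0x0) (nat_lit 0x10000800080000000000000000000000000000000000000000000000000000) := D_1 (nat_lit 227) (nat_lit 211) (nat_lit 244) (nat_lit 5) (nat_lit 7) (nat_lit 9) (nat_lit 6) (nat_lit 6) (nat_lit 14) (by decide +kernel)
theorem L10108 : W_1 (nat_lit 3) (nat_lit 0x40006000200000001000080000000000000000000000000000000) (nat_lit 0x0) (nat_lit 0x10000800080000000000010000800000000000000000000000000000000000) := T_1 (nat_lit 160) (nat_lit 143) (nat_lit 6) (nat_lit 7) (nat_lit 11) L10107 (by decide +kernel)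
theorem L10109 : W_1 (nat_lit 2) (nat_lit 0x10000000040007800200000001000080000000000000000000000000000000) (nat_lit 0x0) (nat_lit 0x180000400000000000000000000000000000000000000000000000) := D_1 (nat_lit 211) (nat_lit 190) (nat_lit 212) (nat_lit 3) (nat_lit 3) (nat_lit 11) (nat_lit 3) (nat_lit 4) (nat_lit 11) (by decide +kernel)
theorem L10110 : W_1 (nat_lit 3) (nat_lit 0x10000000040007000200000001000080000000000000000000000000000000) (nat_lit 0x0) (nat_lit 0x180000c00400000000000000000000000000000000000000000000) := T_1 (nat_lit 191) (nat_lit 178) (nat_lit 2) (nat_lit 4) (nat_lit 11) L10109 (by decide +kernel)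
theorem L10111 : W_1 (nat_lit 4) (nat_lit 0x40007000200000001000080000000000000000000000000000000) (nat_lit 0x0) (nat_lit 0x10000800180000c00400000000000000000000000000000000000000000000) := T_1 (nat_lit 244) (nat_lit 227) (nat_lit 6) (nat_lit 6) (nat_lit 14) L10110 (by decide +kernel)
theorem L10120 : W_1 (nat_lit 2) (nat_lit 0x50007800240000001000080000000000000000000000000000000) (nat_lit 0x0) (nat_lit 0x20008000080000000000000000000000000000000000000000000) := D_1 (nat_lit 195) (nat_lit 209) (nat_lit 175) (nat_lit 1) (nat_lit 8) (nat_lit 11) (nat_lit 0) (nat_lit 8) (nat_lit 11) (by decide +kernel)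
theorem L10121 : W_1 (nat_lit 3) (nat_lit 0x50007800200000001000080000000000000000000000000000000) (nat_lit 0x0) (nat_lit 0x200080000e0000000000000000000000000000000000000000000) := T_1 (nat_lit 174) (nat_lit 173) (nat_lit 0) (nat_lit 7) (nat_lit 11) L10120 (by decide +kernel)
theorem L10122 : W_1 (nat_lit 4) (nat_lit 0x40007800200000001000080000000000000000000000000000000) (nat_lit 0x0) (nat_lit 0x380080000e0000000000000000000000000000000000000000000) := T_1 (nat_lit 208) (nat_lit 207) (nat_lit 1) (nat_lit 7) (nat_lit 11) L10121 (by decide +kernel)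
theorem L10123 : W_1 (nat_lit 5) (nat_lit 0x40007000200000001000080000000000000000000000000000000) (nat_lit 0x0) (nat_lit 0x380088004e0000000000000000000000000000000000000000000) := T_1 (nat_lit 191) (nat_lit 178) (nat_lit 2) (nat_lit 4) (nat_lit 11) L10122 (by decide +kernel)
theorem L10152 : W_1 (nat_lit 2) (nat_lit 0x4000f000200000001000080000000000000000000000000000000) (nat_lit 0x0) (nat_lit 0x30010000000000000000000000000000000000000000000000000) := D_1 (nat_lit 209) (nat_lit 208) (nat_lit 196) (nat_lit 1) (nat_lit 8) (nat_lit 11) (nat_lit 1) (nat_lit 9) (nat_lit 11) (by decide +kernel)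
theorem L10154 : W_1 (nat_lit 2) (nat_lit 0x100000000500078002c0010001000080000000000000000000000000000000) (nat_lit 0x0) (nat_lit 0x200000000000000004000200000000000000000000000000000000000) := D_1 (nat_lit 158) (nat_lit 141) (nat_lit 225) (nat_lit 7) (nat_lit 5) (nat_lit 8) (nat_lit 6) (nat_lit 4) (nat_lit 13) (by decide +kernel)
theorem L10155 : W_1 (nat_lit 3) (nat_lit 0x10000000050007800240010001000080000000000000000000000000000000) (nat_lit 0x0) (nat_lit 0x200000008000080004000200000000000000000000000000000000000) := T_1 (nat_lit 175) (nat_lit 195) (nat_lit 0) (nat_lit 8) (nat_lit 11) L10154 (by decide +kernel)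
theorem L10161 : W_1 (nat_lit 2) (nat_lit 0x10000000048007c00210010001000080000000000000000000000000000000) (nat_lit 0x0) (nat_lit 0x20000200008000000000000000000000000000000000000000000) := D_1 (nat_lit 189) (nat_lit 209) (nat_lit 171) (nat_lit 3) (nat_lit 2) (nat_lit 11) (nat_lit 0) (nat_lit 5) (nat_lit 11) (by decide +kernel)
theorem L10162 : W_1 (nat_lit 3) (nat_lit 0x10000000048007c00200010001000080000000000000000000000000000000) (nat_lit 0x0) (nat_lit 0x20000200038000000000000000000000000000000000000000000) := T_1 (nat_lit 172) (nat_lit 173) (nat_lit 0) (nat_lit 6) (nat_lit 11) L10161 (by decide +kernel)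
theorem L10163 : W_1 (nat_lit 4) (nat_lit 0x10000000048007800200010001000080000000000000000000000000000000) (nat_lit 0x0) (nat_lit 0x24000600038000000000000000000000000000000000000000000) := T_1 (nat_lit 190) (nat_lit 206) (nat_lit 1) (nat_lit 6) (nat_lit 11) L10162 (by decide +kernel)
theorem L10164 : W_1 (nat_lit 5) (nat_lit 0x48007800200010001000080000000000000000000000000000000) (nat_lit 0x0) (nat_lit 0x10000800024000600038000000000000000000000000000000000000000000) := T_1 (nat_lit 244) (nat_lit 227) (nat_lit 6) (nat_lit 6) (nat_lit 14) L10163 (by decide +kernel)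
theorem L10165 : W_1 (nat_lit 6) (nat_lit 0x40007800200010001000080000000000000000000000000000000) (nat_lit 0x0) (nat_lit 0x1000080003c000600038000000000000000000000000000000000000000000) := T_1 (nat_lit 207) (nat_lit 208) (nat_lit 1) (nat_lit 7) (nat_lit 11) L10164 (by decide +kernel)
theorem L10168 : W_1 (nat_lit 2) (nat_lit 0x1000000004001f800240010001000080000000000000000000000000000000) (nat_lit 0x0) (nat_lit 0x700000000000000000000000000000000000000000000000000000) := D_1 (nat_lit 213) (nat_lit 212) (nat_lit 214) (nat_lit 3) (nat_lit 5) (nat_lit 11) (nat_lit 3) (nat_lit 6) (nat_lit 11) (by decide +kernel)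
theorem L10169 : W_1 (nat_lit 3) (nat_lit 0x1000000004000f800240010001000080000000000000000000000000000000) (nat_lit 0x0) (nat_lit 0x720010000000000000000000000000000000000000000000000000) := T_1 (nat_lit 196) (nat_lit 209) (nat_lit 1) (nat_lit 9) (nat_lit 11) L10168 (by decide +kernel)
theorem L10170 : W_1 (nat_lit 4) (nat_lit 0x10000000040007800240010001000080000000000000000000000000000000) (nat_lit 0x0) (nat_lit 0x720018000080000000000000000000000000000000000000000000) := T_1 (nat_lit 195) (nat_lit 175) (nat_lit 0) (nat_lit 8) (nat_lit 11) L10169 (by decide +kernel)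
theorem L10171 : W_1 (nat_lit 5) (nat_lit 0x10000000040007800200010001000080000000000000000000000000000000) (nat_lit 0x0) (nat_lit 0x7200180000e0000000000000000000000000000000000000000000) := T_1 (nat_lit 174) (nat_lit 173) (nat_lit 0) (nat_lit 7) (nat_lit 11) L10170 (by decide +kernel)
theorem L10172 : W_1 (nat_lit 6) (nat_lit 0x10000000040007000200010001000080000000000000000000000000000000) (nat_lit 0x0) (nat_lit 0x7200188004e0000000000000000000000000000000000000000000) := T_1 (nat_lit 191) (nat_lit 178) (nat_lit 2) (nat_lit 4) (nat_lit 11) L10171 (by decide +kernel)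
theorem L10173 : W_1 (nat_lit 7) (nat_lit 0x10000000040007000200000001000080000000000000000000000000000000) (nat_lit 0x0) (nat_lit 0x7200188004e0010000800000000000000000000000000000000000) := T_1 (nat_lit 160) (nat_lit 143) (nat_lit 6) (nat_lit 7) (nat_lit 11) L10172 (by decide +kernel)
theorem L10174 : W_1 (nat_lit 8) (nat_lit 0x40007000200000001000080000000000000000000000000000000) (nat_lit 0x0) (nat_lit 0x100008007200188004e0010000800000000000000000000000000000000000) := T_1 (nat_lit 244) (nat_lit 227) (nat_lit 6) (nat_lit 6) (nat_lit 14) L10173 (by decide +kernel)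
theorem L10177 : W_1 (nat_lit 5) (nat_lit 0x10000f000680000001000080000000000000000000000000000000) (nat_lit 0x0) (nat_lit 0x40002800070010000000004000200000000000000000000000000000000000) := T_1 (nat_lit 246) (nat_lit 229) (nat_lit 4) (nat_lit 8) (nat_lit 14) L5220 (by decide +kernel)
theorem L10178 : W_1 (nat_lit 6) (nat_lit 0x10000f000280000001000080000000000000000000000000000000) (nat_lit 0x0) (nat_lit 0x40002800070010000c00004000200000000000000000000000000000000000) := T_1 (nat_lit 178) (nat_lit 179) (nat_lit 2) (nat_lit 5) (nat_lit 11) L10177 (by decide +kernel)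
theorem L10179 : W_1 (nat_lit 7) (nat_lit 0xf000280000001000080000000000000000000000000000000) (nat_lit 0x0) (nat_lit 0x40002800370010000c00004000200000000000000000000000000000000000) := T_1 (nat_lit 212) (nat_lit 213) (nat_lit 3) (nat_lit 5) (nat_lit 11) L10178 (by decide +kernel)
theorem L10180 : W_1 (nat_lit 8) (nat_lit 0xf000200000001000080000000000000000000000000000000) (nat_lit 0x0) (nat_lit 0x40002800370010000cc0004000200000000000000000000000000000000000) := T_1 (nat_lit 175) (nat_lit 174) (nat_lit 0) (nat_lit 8) (nat_lit 11) L10179 (by decide +kernel)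
theorem L10187 : W_1 (nat_lit 2) (nat_lit 0x4000000010000f000780004001000080000000000000000000000000000000) (nat_lit 0x0) (nat_lit 0x800040000000000000000200000000000000000000000000000000000) := D_1 (nat_lit 210) (nat_lit 227) (nat_lit 141) (nat_lit 4) (nat_lit 6) (nat_lit 13) (nat_lit 7) (nat_lit 5) (nat_lit 8) (by decide +kernel)
theorem L10188 : W_1 (nat_lit 3) (nat_lit 0x4000000010000f000780000001000080000000000000000000000000000000) (nat_lit 0x0) (nat_lit 0x800040000000000006000200000000000000000000000000000000000) := T_1 (nat_lit 158) (nat_lit 157) (nat_lit 0) (nat_lit 8) (nat_lit 10) L10187 (by decide +kernel)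
theorem L10196 : W_1 (nat_lit 2) (nat_lit 0x30000e0006000200000001000080000000000000000000000000000000) (nat_lit 0x0) (nat_lit 0xc000100000000000000000000000000000000000000000000000000000) := D_1 (nat_lit 230) (nat_lit 231) (nat_lit 212) (nat_lit 0) (nat_lit 10) (nat_lit 13) (nat_lit 3) (nat_lit 5) (nat_lit 12) (by decide +kernel)
theorem L10197 : W_1 (nat_lit 3) (nat_lit 0x30000c0006000200000001000080000000000000000000000000000000) (nat_lit 0x0) (nat_lit 0xc000130000000000000000000000000000000000000000000000000000) := T_1 (nat_lit 209) (nat_lit 208) (nat_lit 3) (nat_lit 4) (nat_lit 12) L10196 (by decide +kernel)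
theorem L10198 : W_1 (nat_lit 4) (nat_lit 0x10000c0006000200000001000080000000000000000000000000000000) (nat_lit 0x0) (nat_lit 0x4000e000130000000000000000000000000000000000000000000000000000) := T_1 (nat_lit 229) (nat_lit 246) (nat_lit 7) (nat_lit 7) (nat_lit 10) L10197 (by decide +kernel)
theorem L10206 : W_1 (nat_lit 2) (nat_lit 0x1c00040006000380000001000080000000000000000000000000000000) (nat_lit 0x0) (nat_lit 0x8000060000000000000000000000000000000000000000000) := D_1 (nat_lit 174) (nat_lit 195) (nat_lit 173) (nat_lit 3) (nat_lit 4) (nat_lit 10) (nat_lit 3) (nat_lit 3) (nat_lit 10) (by decide +kernel)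
theorem L10207 : W_1 (nat_lit 3) (nat_lit 0x1c00040006000300000001000080000000000000000000000000000000) (nat_lit 0x0) (nat_lit 0x80000e0004000000000000000000000000000000000000000) := T_1 (nat_lit 175) (nat_lit 158) (nat_lit 4) (nat_lit 6) (nat_lit 13) L10206 (by decide +kernel)
theorem L10211 : W_1 (nat_lit 2) (nat_lit 0x10000c0006000200000001000080000000000000000000000000000000) (nat_lit 0x0) (nat_lit 0x400020000000000000000100000000000000000000000000000000000000000000) := D_1 (nat_lit 245) (nat_lit 176) (nat_lit 262) (nat_lit 4) (nat_lit 7) (nat_lit 14) (nat_lit 4) (nat_lit 7) (nat_lit 15) (by decide +kernel)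
theorem L10222 : W_1 (nat_lit 2) (nat_lit 0x78002c0006000200000001000080000000000000000000000000000000) (nat_lit 0x0) (nat_lit 0x400100001000000000000000000000000000000000000000000000000) := D_1 (nat_lit 212) (nat_lit 226) (nat_lit 192) (nat_lit 2) (nat_lit 5) (nat_lit 13) (nat_lit 0) (nat_lit 9) (nat_lit 12) (by decide +kernel)
theorem L10223 : W_1 (nat_lit 3) (nat_lit 0x78000c0006000200000001000080000000000000000000000000000000) (nat_lit 0x0) (nat_lit 0x400700001000000000000000000000000000000000000000000000000) := T_1 (nat_lit 213) (nat_lit 214) (nat_lit 2) (nat_lit 6) (nat_lit 13) L10222 (by decide +kernel)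
theorem L10241 : W_1 (nat_lit 2) (nat_lit 0x14000f800200000001000080000000000000000000000000000000) (nat_lit 0x0) (nat_lit 0x38000000000000000000000000000000000000000000000000000) := D_1 (nat_lit 208) (nat_lit 207) (nat_lit 209) (nat_lit 1) (nat_lit 7) (nat_lit 11) (nat_lit 1) (nat_lit 8) (nat_lit 11) (by decide +kernel)
theorem L10242 : W_1 (nat_lit 3) (nat_lit 0x14000f000200000001000080000000000000000000000000000000) (nat_lit 0x0) (nat_lit 0xb8000800000000000000000000000000000000000000000000000) := T_1 (nat_lit 191) (nat_lit 211) (nat_lit 3) (nat_lit 4) (nat_lit 11) L10241 (by decide +kernel)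
theorem L10243 : W_1 (nat_lit 4) (nat_lit 0x4000f000200000001000080000000000000000000000000000000) (nat_lit 0x0) (nat_lit 0x3b8000800000000000000000000000000000000000000000000000) := T_1 (nat_lit 212) (nat_lit 213) (nat_lit 3) (nat_lit 5) (nat_lit 11) L10242 (by decide +kernel)
theorem L10245 : W_1 (nat_lit 2) (nat_lit 0x4001e000200010001000080000000000000000000000000000000) (nat_lit 0x0) (nat_lit 0x20000180000000000000000000000000000000000000000000) := D_1 (nat_lit 176) (nat_lit 197) (nat_lit 175) (nat_lit 0) (nat_lit 10) (nat_lit 11) (nat_lit 0) (nat_lit 9) (nat_lit 11) (by decide +kernel)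
theorem L10246 : W_1 (nat_lit 3) (nat_lit 0x4000e000200010001000080000000000000000000000000000000) (nat_lit 0x0) (nat_lit 0x20030000180000000000000000000000000000000000000000000) := T_1 (nat_lit 196) (nat_lit 209) (nat_lit 1) (nat_lit 9) (nat_lit 11) L10245 (by decide +kernel)
theorem L10247 : W_1 (nat_lit 4) (nat_lit 0x4000e000200000001000080000000000000000000000000000000) (nat_lit 0x0) (nat_lit 0x20030000180010000800000000000000000000000000000000000) := T_1 (nat_lit 160) (nat_lit 143) (nat_lit 6) (nat_lit 7) (nat_lit 11) L10246 (by decide +kernel)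
theorem L10248 : W_1 (nat_lit 2) (nat_lit 0x4001e000200000001000080000000000000000000000000000000) (nat_lit 0x0) (nat_lit 0x20000180000000000000000000000000000000000000000000) := D_1 (nat_lit 176) (nat_lit 197) (nat_lit 175) (nat_lit 0) (nat_lit 10) (nat_lit 11) (nat_lit 0) (nat_lit 9) (nat_lit 11) (by decide +kernel)
theorem L10249 : W_1 (nat_lit 2) (nat_lit 0x34001e000b00000001800080000000000000000000000000000000) (nat_lit 0x0) (nat_lit 0x40002000000000000000040000000000000000000000000000000000000000) := D_1 (nat_lit 229) (nat_lit 246) (nat_lit 162) (nat_lit 6) (nat_lit 8) (nat_lit 14) (nat_lit 5) (nat_lit 9) (nat_lit 9) (by decide +kernel)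
theorem L10269 : W_1 (nat_lit 2) (nat_lit 0x1000000004001f000680000001000080000000000000000000000000000000) (nat_lit 0x0) (nat_lit 0x80060000000000000000000000000000000000000000000000000) := D_1 (nat_lit 197) (nat_lit 211) (nat_lit 198) (nat_lit 1) (nat_lit 10) (nat_lit 11) (nat_lit 0) (nat_lit 11) (nat_lit 11) (by decide +kernel)
theorem L10270 : W_1 (nat_lit 3) (nat_lit 0x1000000004000f000680000001000080000000000000000000000000000000) (nat_lit 0x0) (nat_lit 0x80070000100000000000000000000000000000000000000000000) := T_1 (nat_lit 196) (nat_lit 176) (nat_lit 3) (nat_lit 5) (nat_lit 10) L10269 (by decide +kernel)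
theorem L10271 : W_1 (nat_lit 4) (nat_lit 0x1000000004000f000600000001000080000000000000000000000000000000) (nat_lit 0x0) (nat_lit 0x800700001c0000000000000000000000000000000000000000000) := T_1 (nat_lit 175) (nat_lit 174) (nat_lit 0) (nat_lit 8) (nat_lit 11) L10270 (by decide +kernel)
theorem L10275 : W_1 (nat_lit 2) (nat_lit 0x10000000040007800200000001000080000000000000000000000000000000) (nat_lit 0x0) (nat_lit 0x80000400100000000000000000000000000000000000000000000) := D_1 (nat_lit 190) (nat_lit 176) (nat_lit 211) (nat_lit 2) (nat_lit 3) (nat_lit 11) (nat_lit 3) (nat_lit 3) (nat_lit 11) (by decide +kernel)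
theorem L10276 : W_1 (nat_lit 3) (nat_lit 0x10000000040007000200000001000080000000000000000000000000000000) (nat_lit 0x0) (nat_lit 0x80000c00500000000000000000000000000000000000000000000) := T_1 (nat_lit 191) (nat_lit 178) (nat_lit 2) (nat_lit 4) (nat_lit 11) L10275 (by decide +kernel)
theorem L10277 : W_1 (nat_lit 4) (nat_lit 0x40007000200000001000080000000000000000000000000000000) (nat_lit 0x0) (nat_lit 0x10000800080000c00500000000000000000000000000000000000000000000) := T_1 (nat_lit 244) (nat_lit 227) (nat_lit 6) (nat_lit 6) (nat_lit 14) L10276 (by decide +kernel)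
theorem L10280 : W_1 (nat_lit 2) (nat_lit 0x10007800240010001000080000000000000000000000000000000) (nat_lit 0x0) (nat_lit 0x20008000080000000000000000000000000000000000000000000) := D_1 (nat_lit 195) (nat_lit 209) (nat_lit 175) (nat_lit 1) (nat_lit 8) (nat_lit 11) (nat_lit 0) (nat_lit 8) (nat_lit 11) (by decide +kernel)
theorem L10281 : W_1 (nat_lit 3) (nat_lit 0x10007800200010001000080000000000000000000000000000000) (nat_lit 0x0) (nat_lit 0x200080000e0000000000000000000000000000000000000000000) := T_1 (nat_lit 174) (nat_lit 173) (nat_lit 0) (nat_lit 7) (nat_lit 11) L10280 (by decide +kernel)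
theorem L10282 : W_1 (nat_lit 4) (nat_lit 0x7800200010001000080000000000000000000000000000000) (nat_lit 0x0) (nat_lit 0x380080000e0000000000000000000000000000000000000000000) := T_1 (nat_lit 208) (nat_lit 207) (nat_lit 1) (nat_lit 7) (nat_lit 11) L10281 (by decide +kernel)
theorem L10283 : W_1 (nat_lit 5) (nat_lit 0x7000200010001000080000000000000000000000000000000) (nat_lit 0x0) (nat_lit 0x380088004e0000000000000000000000000000000000000000000) := T_1 (nat_lit 191) (nat_lit 178) (nat_lit 2) (nat_lit 4) (nat_lit 11) L10282 (by decide +kernel)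
theorem L10284 : W_1 (nat_lit 6) (nat_lit 0x7000200000001000080000000000000000000000000000000) (nat_lit 0x0) (nat_lit 0x380088004e0010000800000000000000000000000000000000000) := T_1 (nat_lit 160) (nat_lit 143) (nat_lit 6) (nat_lit 7) (nat_lit 11) L10283 (by decide +kernel)
theorem L10285 : W_1 (nat_lit 2) (nat_lit 0x2001f000200010001000080000000000000000000000000000000) (nat_lit 0x0) (nat_lit 0x700000000000000000000000000000000000000000000000000000) := D_1 (nat_lit 213) (nat_lit 212) (nat_lit 214) (nat_lit 3) (nat_lit 5) (nat_lit 11) (nat_lit 3) (nat_lit 6) (nat_lit 11) (by decide +kernel)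
theorem L10286 : W_1 (nat_lit 3) (nat_lit 0x2000f000200010001000080000000000000000000000000000000) (nat_lit 0x0) (nat_lit 0x740010000000000000000000000000000000000000000000000000) := T_1 (nat_lit 196) (nat_lit 210) (nat_lit 1) (nat_lit 9) (nat_lit 11) L10285 (by decide +kernel)
theorem L10287 : W_1 (nat_lit 4) (nat_lit 0x2000f000200000001000080000000000000000000000000000000) (nat_lit 0x0) (nat_lit 0x740010000000010000800000000000000000000000000000000000) := T_1 (nat_lit 160) (nat_lit 143) (nat_lit 6) (nat_lit 7) (nat_lit 11) L10286 (by decide +kernel)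
theorem L10288 : W_1 (nat_lit 5) (nat_lit 0xf000200000001000080000000000000000000000000000000) (nat_lit 0x0) (nat_lit 0x770010000000010000800000000000000000000000000000000000) := T_1 (nat_lit 209) (nat_lit 208) (nat_lit 1) (nat_lit 8) (nat_lit 11) L10287 (by decide +kernel)
theorem L10289 : W_1 (nat_lit 2) (nat_lit 0x1f000280010001000080000000000000000000000000000000) (nat_lit 0x0) (nat_lit 0x700000000000000000000000000000000000000000000000000000) := D_1 (nat_lit 213) (nat_lit 212) (nat_lit 214) (nat_lit 3) (nat_lit 5) (nat_lit 11) (nat_lit 3) (nat_lit 6) (nat_lit 11) (by decide +kernel)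
theorem L10290 : W_1 (nat_lit 3) (nat_lit 0xf000280010001000080000000000000000000000000000000) (nat_lit 0x0) (nat_lit 0x700010000100000000000000000000000000000000000000000000) := T_1 (nat_lit 196) (nat_lit 176) (nat_lit 0) (nat_lit 9) (nat_lit 11) L10289 (by decide +kernel)
theorem L10291 : W_1 (nat_lit 4) (nat_lit 0xf000280000001000080000000000000000000000000000000) (nat_lit 0x0) (nat_lit 0x700010000100010000800000000000000000000000000000000000) := T_1 (nat_lit 160) (nat_lit 143) (nat_lit 6) (nat_lit 7) (nat_lit 11) L10290 (by decide +kernel)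
theorem L10292 : W_1 (nat_lit 5) (nat_lit 0xf000200000001000080000000000000000000000000000000) (nat_lit 0x0) (nat_lit 0x7000100001c0010000800000000000000000000000000000000000) := T_1 (nat_lit 175) (nat_lit 174) (nat_lit 0) (nat_lit 8) (nat_lit 11) L10291 (by decide +kernel)
theorem L10430 : W_1 (nat_lit 2) (nat_lit 0x800040006000200000001000080000000000000000000000000000000) (nat_lit 0x0) (nat_lit 0x100010000800000000000000000000000000000000000) := D_1 (nat_lit 160) (nat_lit 143) (nat_lit 176) (nat_lit 6) (nat_lit 7) (nat_lit 11) (nat_lit 6) (nat_lit 6) (nat_lit 13) (by decide +kernel)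
theorem L10436 : W_1 (nat_lit 2) (nat_lit 0x2003f000680010001000080000000000000000000000000000000) (nat_lit 0x0) (nat_lit 0xe00000000000000000000000000000000000000000000000000000) := D_1 (nat_lit 214) (nat_lit 213) (nat_lit 215) (nat_lit 3) (nat_lit 6) (nat_lit 11) (nat_lit 3) (nat_lit 7) (nat_lit 11) (by decide +kernel)
theorem L10437 : W_1 (nat_lit 3) (nat_lit 0x2001f000680010001000080000000000000000000000000000000) (nat_lit 0x0) (nat_lit 0xe00060000000000000000000000000000000000000000000000000) := T_1 (nat_lit 197) (nat_lit 198) (nat_lit 0) (nat_lit 11) (nat_lit 11) L10436 (by decide +kernel)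
theorem L10438 : W_1 (nat_lit 4) (nat_lit 0x2000f000680010001000080000000000000000000000000000000) (nat_lit 0x0) (nat_lit 0xe00070000100000000000000000000000000000000000000000000) := T_1 (nat_lit 196) (nat_lit 176) (nat_lit 3) (nat_lit 5) (nat_lit 10) L10437 (by decide +kernel)
theorem L10439 : W_1 (nat_lit 5) (nat_lit 0x2000f000600010001000080000000000000000000000000000000) (nat_lit 0x0) (nat_lit 0xe000700001c0000000000000000000000000000000000000000000) := T_1 (nat_lit 175) (nat_lit 174) (nat_lit 0) (nat_lit 8) (nat_lit 11) L10438 (by decide +kernel)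
theorem L10440 : W_1 (nat_lit 6) (nat_lit 0xf000600010001000080000000000000000000000000000000) (nat_lit 0x0) (nat_lit 0xe300700001c0000000000000000000000000000000000000000000) := T_1 (nat_lit 209) (nat_lit 208) (nat_lit 1) (nat_lit 8) (nat_lit 11) L10439 (by decide +kernel)
theorem L10441 : W_1 (nat_lit 7) (nat_lit 0xf000200010001000080000000000000000000000000000000) (nat_lit 0x0) (nat_lit 0xe30070000dc0000000000000000000000000000000000000000000) := T_1 (nat_lit 178) (nat_lit 179) (nat_lit 2) (nat_lit 5) (nat_lit 11) L10440 (by decide +kernel)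
theorem L10442 : W_1 (nat_lit 8) (nat_lit 0xf000200000001000080000000000000000000000000000000) (nat_lit 0x0) (nat_lit 0xe30070000dc0010000800000000000000000000000000000000000) := T_1 (nat_lit 160) (nat_lit 143) (nat_lit 6) (nat_lit 7) (nat_lit 11) L10441 (by decide +kernel)
theorem L10443 : W_1 (nat_lit 2) (nat_lit 0x1f000280010001000080000000000000000000000000000000) (nat_lit 0x0) (nat_lit 0x1c00000000000000000000000000000000000000000000) := D_1 (nat_lit 179) (nat_lit 178) (nat_lit 180) (nat_lit 2) (nat_lit 5) (nat_lit 11) (nat_lit 2) (nat_lit 6) (nat_lit 11) (by decide +kernel)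
theorem L10444 : W_1 (nat_lit 3) (nat_lit 0xf000280010001000080000000000000000000000000000000) (nat_lit 0x0) (nat_lit 0x10001d00000000000000000000000000000000000000000000) := T_1 (nat_lit 196) (nat_lit 176) (nat_lit 0) (nat_lit 9) (nat_lit 11) L10443 (by decide +kernel)
theorem L10445 : W_1 (nat_lit 4) (nat_lit 0xf000280000001000080000000000000000000000000000000) (nat_lit 0x0) (nat_lit 0x10001d00010000800000000000000000000000000000000000) := T_1 (nat_lit 160) (nat_lit 143) (nat_lit 6) (nat_lit 7) (nat_lit 11) L10444 (by decide +kernel)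
theorem L10446 : W_1 (nat_lit 5) (nat_lit 0xf000200000001000080000000000000000000000000000000) (nat_lit 0x0) (nat_lit 0x10001dc0010000800000000000000000000000000000000000) := T_1 (nat_lit 175) (nat_lit 174) (nat_lit 0) (nat_lit 8) (nat_lit 11) L10445 (by decide +kernel)
theorem L10459 : W_1 (nat_lit 2) (nat_lit 0x14000f000200010001000080000000000000000000000000000000) (nat_lit 0x0) (nat_lit 0x2000080000000400000000000000000000000000000000000000000000) := D_1 (nat_lit 229) (nat_lit 211) (nat_lit 178) (nat_lit 7) (nat_lit 7) (nat_lit 9) (nat_lit 4) (nat_lit 8) (nat_lit 13) (by decide +kernel)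
theorem L10460 : W_1 (nat_lit 3) (nat_lit 0x4000f000200010001000080000000000000000000000000000000) (nat_lit 0x0) (nat_lit 0x2000380000000400000000000000000000000000000000000000000000) := T_1 (nat_lit 212) (nat_lit 213) (nat_lit 3) (nat_lit 5) (nat_lit 11) L10459 (by decide +kernel)
theorem L10461 : W_1 (nat_lit 4) (nat_lit 0x4000f000200000001000080000000000000000000000000000000) (nat_lit 0x0) (nat_lit 0x2000380000000400010000800000000000000000000000000000000000) := T_1 (nat_lit 160) (nat_lit 143) (nat_lit 6) (nat_lit 7) (nat_lit 11) L10460 (by decide +kernel)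
theorem L10468 : W_1 (nat_lit 2) (nat_lit 0x100000000f0007800240000001000080000000000000000000000000000000) (nat_lit 0x0) (nat_lit 0x400000000000000002000100000000000000000000000000000000000) := D_1 (nat_lit 157) (nat_lit 226) (nat_lit 140) (nat_lit 7) (nat_lit 4) (nat_lit 9) (nat_lit 7) (nat_lit 4) (nat_lit 8) (by decide +kernel)
theorem L10469 : W_1 (nat_lit 3) (nat_lit 0x100000000d0007800240000001000080000000000000000000000000000000) (nat_lit 0x0) (nat_lit 0x400020008000000002000100000000000000000000000000000000000) := T_1 (nat_lit 209) (nat_lit 195) (nat_lit 2) (nat_lit 4) (nat_lit 12) L10468 (by decide +kernel)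
theorem L10470 : W_1 (nat_lit 4) (nat_lit 0x100000000d0007800200000001000080000000000000000000000000000000) (nat_lit 0x0) (nat_lit 0x400020008000060002000100000000000000000000000000000000000) := T_1 (nat_lit 174) (nat_lit 173) (nat_lit 0) (nat_lit 7) (nat_lit 11) L10469 (by decide +kernel)
theorem L10471 : W_1 (nat_lit 5) (nat_lit 0x100000000c0007800200000001000080000000000000000000000000000000) (nat_lit 0x0) (nat_lit 0x400038008000060002000100000000000000000000000000000000000) := T_1 (nat_lit 208) (nat_lit 207) (nat_lit 1) (nat_lit 7) (nat_lit 11) L10470 (by decide +kernel)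
theorem L10472 : W_1 (nat_lit 6) (nat_lit 0x10000000040007800200000001000080000000000000000000000000000000) (nat_lit 0x0) (nat_lit 0x4001b8008000060002000100000000000000000000000000000000000) := T_1 (nat_lit 211) (nat_lit 212) (nat_lit 3) (nat_lit 4) (nat_lit 11) L10471 (by decide +kernel)
theorem L10473 : W_1 (nat_lit 7) (nat_lit 0x40007800200000001000080000000000000000000000000000000) (nat_lit 0x0) (nat_lit 0x10000c001b8008000060002000100000000000000000000000000000000000) := T_1 (nat_lit 244) (nat_lit 227) (nat_lit 6) (nat_lit 6) (nat_lit 14) L10472 (by decide +kernel)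
theorem L10484 : W_1 (nat_lit 2) (nat_lit 0xd00078002c0010001000080000000000000000000000000000000) (nat_lit 0x0) (nat_lit 0x200000000000000004000200000000000000000000000000000000000) := D_1 (nat_lit 158) (nat_lit 141) (nat_lit 225) (nat_lit 7) (nat_lit 5) (nat_lit 8) (nat_lit 6) (nat_lit 4) (nat_lit 13) (by decide +kernel)
theorem L10485 : W_1 (nat_lit 3) (nat_lit 0xd0007800240010001000080000000000000000000000000000000) (nat_lit 0x0) (nat_lit 0x200000008000080004000200000000000000000000000000000000000) := T_1 (nat_lit 175) (nat_lit 195) (nat_lit 0) (nat_lit 8) (nat_lit 11) L10484 (by decide +kernel)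
theorem L10486 : W_1 (nat_lit 4) (nat_lit 0xd0007800200010001000080000000000000000000000000000000) (nat_lit 0x0) (nat_lit 0x2000000080000e0004000200000000000000000000000000000000000) := T_1 (nat_lit 174) (nat_lit 173) (nat_lit 0) (nat_lit 7) (nat_lit 11) L10485 (by decide +kernel)
theorem L10487 : W_1 (nat_lit 5) (nat_lit 0x90007800200010001000080000000000000000000000000000000) (nat_lit 0x0) (nat_lit 0xa000400080000e0004000200000000000000000000000000000000000) := T_1 (nat_lit 210) (nat_lit 227) (nat_lit 5) (nat_lit 7) (nat_lit 9) L10486 (by decide +kernel)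
theorem L10488 : W_1 (nat_lit 6) (nat_lit 0x80007800200010001000080000000000000000000000000000000) (nat_lit 0x0) (nat_lit 0xa000580080000e0004000200000000000000000000000000000000000) := T_1 (nat_lit 208) (nat_lit 207) (nat_lit 1) (nat_lit 7) (nat_lit 11) L10487 (by decide +kernel)
theorem L10489 : W_1 (nat_lit 7) (nat_lit 0x7800200010001000080000000000000000000000000000000) (nat_lit 0x0) (nat_lit 0xa001d80080000e0004000200000000000000000000000000000000000) := T_1 (nat_lit 211) (nat_lit 212) (nat_lit 3) (nat_lit 4) (nat_lit 11) L10488 (by decide +kernel)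
theorem L10490 : W_1 (nat_lit 8) (nat_lit 0x7800200000001000080000000000000000000000000000000) (nat_lit 0x0) (nat_lit 0xa001d80080000e0014000a00000000000000000000000000000000000) := T_1 (nat_lit 160) (nat_lit 143) (nat_lit 6) (nat_lit 7) (nat_lit 11) L10489 (by decide +kernel)
theorem L10499 : W_1 (nat_lit 2) (nat_lit 0x10000000040007c00200000001000080000000000000000000000000000000) (nat_lit 0x0) (nat_lit 0x70000000000000000000000000000000000000000000) := D_1 (nat_lit 173) (nat_lit 174) (nat_lit 172) (nat_lit 0) (nat_lit 7) (nat_lit 11) (nat_lit 0) (nat_lit 6) (nat_lit 11) (by decide +kernel)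
theorem L10500 : W_1 (nat_lit 3) (nat_lit 0x10000000040007800200000001000080000000000000000000000000000000) (nat_lit 0x0) (nat_lit 0x400170000000000000000000000000000000000000000000) := T_1 (nat_lit 190) (nat_lit 176) (nat_lit 2) (nat_lit 3) (nat_lit 11) L10499 (by decide +kernel)
theorem L10502 : W_1 (nat_lit 2) (nat_lit 0x100000000c000f800240000001000080000000000000000000000000000000) (nat_lit 0x0) (nat_lit 0x20030000000000000000000000000000000000000000000000000) := D_1 (nat_lit 196) (nat_lit 209) (nat_lit 197) (nat_lit 1) (nat_lit 9) (nat_lit 11) (nat_lit 1) (nat_lit 10) (nat_lit 11) (by decide +kernel)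
theorem L10503 : W_1 (nat_lit 3) (nat_lit 0x100000000c0007800240000001000080000000000000000000000000000000) (nat_lit 0x0) (nat_lit 0x20038000080000000000000000000000000000000000000000000) := T_1 (nat_lit 195) (nat_lit 175) (nat_lit 0) (nat_lit 8) (nat_lit 11) L10502 (by decide +kernel)
theorem L10504 : W_1 (nat_lit 4) (nat_lit 0x100000000c0007800200000001000080000000000000000000000000000000) (nat_lit 0x0) (nat_lit 0x200380000e0000000000000000000000000000000000000000000) := T_1 (nat_lit 174) (nat_lit 173) (nat_lit 0) (nat_lit 7) (nat_lit 11) L10503 (by decide +kernel)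
theorem L10508 : W_1 (nat_lit 4) (nat_lit 0x10000000040007000200000001000080000000000000000000000000000000) (nat_lit 0x0) (nat_lit 0xc00570000000000000000000000000000000000000000000) := T_1 (nat_lit 191) (nat_lit 178) (nat_lit 2) (nat_lit 4) (nat_lit 11) L10500 (by decide +kernel)
theorem L10509 : W_1 (nat_lit 5) (nat_lit 0x40007000200000001000080000000000000000000000000000000) (nat_lit 0x0) (nat_lit 0x10000800000000c00570000000000000000000000000000000000000000000) := T_1 (nat_lit 244) (nat_lit 227) (nat_lit 6) (nat_lit 6) (nat_lit 14) L10508 (by decide +kernel)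
theorem L10570 : W_1 (nat_lit 2) (nat_lit 0x38000c0004000200000001000080000000000000000000000000000000) (nat_lit 0x0) (nat_lit 0x4000030000000000000000000000000000000000000000000000000000) := D_1 (nat_lit 209) (nat_lit 208) (nat_lit 230) (nat_lit 3) (nat_lit 4) (nat_lit 12) (nat_lit 0) (nat_lit 9) (nat_lit 13) (by decide +kernel)
theorem L10580 : W_1 (nat_lit 2) (nat_lit 0x6000100008000e000200000001000080000000000000000000000000000000) (nat_lit 0x0) (nat_lit 0x400000000000140000000000000000000000000000000000000000000000000000) := D_1 (nat_lit 262) (nat_lit 212) (nat_lit 210) (nat_lit 6) (nat_lit 7) (nat_lit 15) (nat_lit 4) (nat_lit 7) (nat_lit 15) (by decide +kernel)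
theorem L10581 : W_1 (nat_lit 3) (nat_lit 0x6000100008000c000200000001000080000000000000000000000000000000) (nat_lit 0x0) (nat_lit 0x400000000000140002000100000000000000000000000000000000000000000000) := T_1 (nat_lit 193) (nat_lit 176) (nat_lit 4) (nat_lit 7) (nat_lit 14) L10580 (by decide +kernel)
theorem L10582 : W_1 (nat_lit 4) (nat_lit 0x60001000080004000200000001000080000000000000000000000000000000) (nat_lit 0x0) (nat_lit 0x40000000000014000a000500000000000000000000000000000000000000000000) := T_1 (nat_lit 195) (nat_lit 178) (nat_lit 6) (nat_lit 7) (nat_lit 14) L10581 (by decide +kernel)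
theorem L10583 : W_1 (nat_lit 5) (nat_lit 0x40001000080004000200000001000080000000000000000000000000000000) (nat_lit 0x0) (nat_lit 0xc0002000000014000a000500000000000000000000000000000000000000000000) := T_1 (nat_lit 245) (nat_lit 263) (nat_lit 7) (nat_lit 7) (nat_lit 11) L10582 (by decide +kernel)
theorem L10584 : W_1 (nat_lit 6) (nat_lit 0x1000080004000200000001000080000000000000000000000000000000) (nat_lit 0x0) (nat_lit 0xc0006000200014000a000500000000000000000000000000000000000000000000) := T_1 (nat_lit 246) (nat_lit 229) (nat_lit 7) (nat_lit 7) (nat_lit 10) L10583 (by decide +kernel)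
theorem L10815 : W_1 (nat_lit 2) (nat_lit 0x80003c002200010001000080000000000000000000000000000000) (nat_lit 0x0) (nat_lit 0x1000040004000000000000000000000000000000000000000000000) := D_1 (nat_lit 198) (nat_lit 182) (nat_lit 216) (nat_lit 2) (nat_lit 8) (nat_lit 11) (nat_lit 3) (nat_lit 8) (nat_lit 11) (by decide +kernel)
theorem L10816 : W_1 (nat_lit 3) (nat_lit 0x3c002200010001000080000000000000000000000000000000) (nat_lit 0x0) (nat_lit 0x1c00040004000000000000000000000000000000000000000000000) := T_1 (nat_lit 215) (nat_lit 214) (nat_lit 3) (nat_lit 7) (nat_lit 11) L10815 (by decide +kernel)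
theorem L10817 : W_1 (nat_lit 4) (nat_lit 0x3c000200010001000080000000000000000000000000000000) (nat_lit 0x0) (nat_lit 0x1c00040007000000000000000000000000000000000000000000000) := T_1 (nat_lit 181) (nat_lit 180) (nat_lit 2) (nat_lit 7) (nat_lit 11) L10816 (by decide +kernel)
theorem L10818 : W_1 (nat_lit 5) (nat_lit 0x1c000200010001000080000000000000000000000000000000) (nat_lit 0x0) (nat_lit 0x1c00060007100000000000000000000000000000000000000000000) := T_1 (nat_lit 197) (nat_lit 176) (nat_lit 0) (nat_lit 10) (nat_lit 11) L10817 (by decide +kernel)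
theorem L10819 : W_1 (nat_lit 6) (nat_lit 0x1c000200000001000080000000000000000000000000000000) (nat_lit 0x0) (nat_lit 0x1c00060007100010000800000000000000000000000000000000000) := T_1 (nat_lit 160) (nat_lit 143) (nat_lit 6) (nat_lit 7) (nat_lit 11) L10818 (by decide +kernel)
theorem L11218 : W_1 (nat_lit 2) (nat_lit 0x200040003c001e00010001000080000000000000000000000000000000) (nat_lit 0x0) (nat_lit 0x100008000000000000000040000000000000000000000000000000000000000) := D_1 (nat_lit 231) (nat_lit 162) (nat_lit 248) (nat_lit 4) (nat_lit 10) (nat_lit 13) (nat_lit 4) (nat_lit 10) (nat_lit 14) (by decide +kernel)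
theorem L11314 : W_1 (nat_lit 2) (nat_lit 0x84007e0004801000080000000000000000000000000000000) (nat_lit 0x0) (nat_lit 0x10008400000000000000000000000000000000000000) := D_1 (nat_lit 172) (nat_lit 159) (nat_lit 154) (nat_lit 2) (nat_lit 2) (nat_lit 10) (nat_lit 0) (nat_lit 5) (nat_lit 10) (by decide +kernel)
theorem L11315 : W_1 (nat_lit 3) (nat_lit 0x84007e0004001000080000000000000000000000000000000) (nat_lit 0x0) (nat_lit 0x10009c00000000000000000000000000000000000000) := T_1 (nat_lit 155) (nat_lit 156) (nat_lit 0) (nat_lit 6) (nat_lit 10) L11314 (by decide +kernel)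
theorem L11316 : W_1 (nat_lit 4) (nat_lit 0x84007c0004001000080000000000000000000000000000000) (nat_lit 0x0) (nat_lit 0x200030009c00000000000000000000000000000000000000) := T_1 (nat_lit 173) (nat_lit 189) (nat_lit 1) (nat_lit 6) (nat_lit 10) L11315 (by decide +kernel)
theorem L11317 : W_1 (nat_lit 5) (nat_lit 0x80007c0004001000080000000000000000000000000000000) (nat_lit 0x0) (nat_lit 0xe00030009c00000000000000000000000000000000000000) := T_1 (nat_lit 190) (nat_lit 191) (nat_lit 1) (nat_lit 7) (nat_lit 10) L11316 (by decide +kernel)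
theorem L11318 : W_1 (nat_lit 6) (nat_lit 0x8000780004001000080000000000000000000000000000000) (nat_lit 0x0) (nat_lit 0x4e00070009c00000000000000000000000000000000000000) := T_1 (nat_lit 174) (nat_lit 194) (nat_lit 3) (nat_lit 4) (nat_lit 10) L11317 (by decide +kernel)
theorem L11319 : W_1 (nat_lit 7) (nat_lit 0x780004001000080000000000000000000000000000000) (nat_lit 0x0) (nat_lit 0x1ce00070009c00000000000000000000000000000000000000) := T_1 (nat_lit 195) (nat_lit 196) (nat_lit 3) (nat_lit 5) (nat_lit 10) L11318 (by decide +kernel)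
theorem L11320 : W_1 (nat_lit 8) (nat_lit 0x780000001000080000000000000000000000000000000) (nat_lit 0x0) (nat_lit 0x1ce0007000fc00000000000000000000000000000000000000) := T_1 (nat_lit 158) (nat_lit 157) (nat_lit 0) (nat_lit 8) (nat_lit 10) L11319 (by decide +kernel)
theorem L11338 : W_1 (nat_lit 2) (nat_lit 0x2001f00008001000080000000000000000000000000000000) (nat_lit 0x0) (nat_lit 0x1c0000000000000000000000000000000000000000) := D_1 (nat_lit 163) (nat_lit 162) (nat_lit 164) (nat_lit 2) (nat_lit 6) (nat_lit 10) (nat_lit 2) (nat_lit 7) (nat_lit 10) (by decide +kernel)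
theorem L11339 : W_1 (nat_lit 3) (nat_lit 0x2000f00008001000080000000000000000000000000000000) (nat_lit 0x0) (nat_lit 0x40010001c0000000000000000000000000000000000000000) := T_1 (nat_lit 180) (nat_lit 194) (nat_lit 1) (nat_lit 10) (nat_lit 10) L11338 (by decide +kernel)
theorem L11340 : W_1 (nat_lit 4) (nat_lit 0x2000f00000001000080000000000000000000000000000000) (nat_lit 0x0) (nat_lit 0x40010001cc000000000000000000000000000000000000000) := T_1 (nat_lit 159) (nat_lit 158) (nat_lit 0) (nat_lit 9) (nat_lit 10) L11339 (by decide +kernel)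
theorem L11341 : W_1 (nat_lit 5) (nat_lit 0xf00000001000080000000000000000000000000000000) (nat_lit 0x0) (nat_lit 0x70010001cc000000000000000000000000000000000000000) := T_1 (nat_lit 193) (nat_lit 192) (nat_lit 1) (nat_lit 9) (nat_lit 10) L11340 (by decide +kernel)
theorem L11368 : W_1 (nat_lit 2) (nat_lit 0x10800f80002001000080000000000000000000000000000000) (nat_lit 0x0) (nat_lit 0x400040001000000000000000000000000000000000000000) := D_1 (nat_lit 174) (nat_lit 190) (nat_lit 156) (nat_lit 1) (nat_lit 7) (nat_lit 10) (nat_lit 0) (nat_lit 7) (nat_lit 10) (by decide +kernel)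
theorem L11369 : W_1 (nat_lit 3) (nat_lit 0x10800f80000001000080000000000000000000000000000000) (nat_lit 0x0) (nat_lit 0x400040007000000000000000000000000000000000000000) := T_1 (nat_lit 157) (nat_lit 158) (nat_lit 0) (nat_lit 8) (nat_lit 10) L11368 (by decide +kernel)
theorem L11370 : W_1 (nat_lit 4) (nat_lit 0x10000f80000001000080000000000000000000000000000000) (nat_lit 0x0) (nat_lit 0x1c00040007000000000000000000000000000000000000000) := T_1 (nat_lit 191) (nat_lit 192) (nat_lit 1) (nat_lit 8) (nat_lit 10) L11369 (by decide +kernel)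
theorem L11371 : W_1 (nat_lit 5) (nat_lit 0x10000f00000001000080000000000000000000000000000000) (nat_lit 0x0) (nat_lit 0x9c000c0007000000000000000000000000000000000000000) := T_1 (nat_lit 175) (nat_lit 195) (nat_lit 3) (nat_lit 5) (nat_lit 10) L11370 (by decide +kernel)
theorem L11372 : W_1 (nat_lit 6) (nat_lit 0xf00000001000080000000000000000000000000000000) (nat_lit 0x0) (nat_lit 0x39c000c0007000000000000000000000000000000000000000) := T_1 (nat_lit 196) (nat_lit 197) (nat_lit 3) (nat_lit 6) (nat_lit 10) L11371 (by decide +kernel)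
theorem L11378 : W_1 (nat_lit 2) (nat_lit 0x1000f00044001000080000000000000000000000000000000) (nat_lit 0x0) (nat_lit 0x800080002000000000000000000000000000000000000000) := D_1 (nat_lit 175) (nat_lit 157) (nat_lit 191) (nat_lit 0) (nat_lit 8) (nat_lit 10) (nat_lit 1) (nat_lit 8) (nat_lit 10) (by decide +kernel)
theorem L11379 : W_1 (nat_lit 3) (nat_lit 0xf00044001000080000000000000000000000000000000) (nat_lit 0x0) (nat_lit 0x3800080002000000000000000000000000000000000000000) := T_1 (nat_lit 192) (nat_lit 193) (nat_lit 1) (nat_lit 9) (nat_lit 10) L11378 (by decide +kernel)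
theorem L11380 : W_1 (nat_lit 4) (nat_lit 0xf00040001000080000000000000000000000000000000) (nat_lit 0x0) (nat_lit 0x380008000e000000000000000000000000000000000000000) := T_1 (nat_lit 158) (nat_lit 159) (nat_lit 0) (nat_lit 9) (nat_lit 10) L11379 (by decide +kernel)
theorem L11381 : W_1 (nat_lit 5) (nat_lit 0xf00000001000080000000000000000000000000000000) (nat_lit 0x0) (nat_lit 0x38000800ce000000000000000000000000000000000000000) := T_1 (nat_lit 162) (nat_lit 163) (nat_lit 2) (nat_lit 6) (nat_lit 10) L11380 (by decide +kernel)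
theorem L11387 : W_1 (nat_lit 2) (nat_lit 0x4001f80084001000080000000000000000000000000000000) (nat_lit 0x0) (nat_lit 0x8002040000000000000000000000000000000000000000000) := D_1 (nat_lit 195) (nat_lit 181) (nat_lit 174) (nat_lit 1) (nat_lit 11) (nat_lit 10) (nat_lit 3) (nat_lit 4) (nat_lit 10) (by decide +kernel)
theorem L11388 : W_1 (nat_lit 3) (nat_lit 0x1f80084001000080000000000000000000000000000000) (nat_lit 0x0) (nat_lit 0xe002040000000000000000000000000000000000000000000) := T_1 (nat_lit 194) (nat_lit 193) (nat_lit 1) (nat_lit 10) (nat_lit 10) L11387 (by decide +kernel)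
theorem L11389 : W_1 (nat_lit 4) (nat_lit 0xf80084001000080000000000000000000000000000000) (nat_lit 0x0) (nat_lit 0xe003040100000000000000000000000000000000000000000) := T_1 (nat_lit 180) (nat_lit 164) (nat_lit 2) (nat_lit 7) (nat_lit 10) L11388 (by decide +kernel)
theorem L11390 : W_1 (nat_lit 5) (nat_lit 0xf80004001000080000000000000000000000000000000) (nat_lit 0x0) (nat_lit 0xe0030401c0000000000000000000000000000000000000000) := T_1 (nat_lit 163) (nat_lit 162) (nat_lit 2) (nat_lit 6) (nat_lit 10) L11389 (by decide +kernel)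
theorem L11391 : W_1 (nat_lit 6) (nat_lit 0x780004001000080000000000000000000000000000000) (nat_lit 0x0) (nat_lit 0xe0038401c8000000000000000000000000000000000000000) := T_1 (nat_lit 179) (nat_lit 159) (nat_lit 0) (nat_lit 9) (nat_lit 10) L11390 (by decide +kernel)
theorem L11392 : W_1 (nat_lit 7) (nat_lit 0x780000001000080000000000000000000000000000000) (nat_lit 0x0) (nat_lit 0xe0038401ce000000000000000000000000000000000000000) := T_1 (nat_lit 158) (nat_lit 157) (nat_lit 0) (nat_lit 8) (nat_lit 10) L11391 (by decide +kernel)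
theorem L11393 : W_1 (nat_lit 2) (nat_lit 0x1000780004001000080000000000000000000000000000000) (nat_lit 0x0) (nat_lit 0x2000800008000000000000000000000000000000000000000) := D_1 (nat_lit 179) (nat_lit 159) (nat_lit 193) (nat_lit 0) (nat_lit 9) (nat_lit 10) (nat_lit 1) (nat_lit 9) (nat_lit 10) (by decide +kernel)
theorem L11394 : W_1 (nat_lit 3) (nat_lit 0x780004001000080000000000000000000000000000000) (nat_lit 0x0) (nat_lit 0x3800800008000000000000000000000000000000000000000) := T_1 (nat_lit 192) (nat_lit 191) (nat_lit 1) (nat_lit 8) (nat_lit 10) L11393 (by decide +kernel)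
theorem L11395 : W_1 (nat_lit 4) (nat_lit 0x780000001000080000000000000000000000000000000) (nat_lit 0x0) (nat_lit 0x380080000e000000000000000000000000000000000000000) := T_1 (nat_lit 158) (nat_lit 157) (nat_lit 0) (nat_lit 8) (nat_lit 10) L11394 (by decide +kernel)
theorem L11396 : W_1 (nat_lit 2) (nat_lit 0x48007c0001001000080000000000000000000000000000000) (nat_lit 0x0) (nat_lit 0x2000020000800000000000000000000000000000000000000) := D_1 (nat_lit 173) (nat_lit 193) (nat_lit 155) (nat_lit 3) (nat_lit 3) (nat_lit 10) (nat_lit 0) (nat_lit 6) (nat_lit 10) (by decide +kernel)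
theorem L11397 : W_1 (nat_lit 3) (nat_lit 0x8007c0001001000080000000000000000000000000000000) (nat_lit 0x0) (nat_lit 0xe000020000800000000000000000000000000000000000000) := T_1 (nat_lit 194) (nat_lit 195) (nat_lit 3) (nat_lit 4) (nat_lit 10) L11396 (by decide +kernel)
theorem L11398 : W_1 (nat_lit 4) (nat_lit 0x8007c0000001000080000000000000000000000000000000) (nat_lit 0x0) (nat_lit 0xe000020003800000000000000000000000000000000000000) := T_1 (nat_lit 156) (nat_lit 157) (nat_lit 0) (nat_lit 7) (nat_lit 10) L11397 (by decide +kernel)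
theorem L11399 : W_1 (nat_lit 5) (nat_lit 0x800780000001000080000000000000000000000000000000) (nat_lit 0x0) (nat_lit 0xe400060003800000000000000000000000000000000000000) := T_1 (nat_lit 174) (nat_lit 190) (nat_lit 1) (nat_lit 7) (nat_lit 10) L11398 (by decide +kernel)
theorem L11400 : W_1 (nat_lit 6) (nat_lit 0x780000001000080000000000000000000000000000000) (nat_lit 0x0) (nat_lit 0xfc00060003800000000000000000000000000000000000000) := T_1 (nat_lit 191) (nat_lit 192) (nat_lit 1) (nat_lit 8) (nat_lit 10) L11399 (by decide +kernel)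
theorem L11401 : W_1 (nat_lit 2) (nat_lit 0x6800fc0008001000080000000000000000000000000000000) (nat_lit 0x0) (nat_lit 0x1000080000000000000000400000000000000000000000000000000000) := D_1 (nat_lit 211) (nat_lit 228) (nat_lit 142) (nat_lit 4) (nat_lit 7) (nat_lit 13) (nat_lit 7) (nat_lit 6) (nat_lit 8) (by decide +kernel)
theorem L11402 : W_1 (nat_lit 3) (nat_lit 0x6800fc0000001000080000000000000000000000000000000) (nat_lit 0x0) (nat_lit 0x100008000000000000c000400000000000000000000000000000000000) := T_1 (nat_lit 159) (nat_lit 158) (nat_lit 0) (nat_lit 9) (nat_lit 10) L11401 (by decide +kernel)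
theorem L11403 : W_1 (nat_lit 4) (nat_lit 0x68007c0000001000080000000000000000000000000000000) (nat_lit 0x0) (nat_lit 0x100008000000180000c000400000000000000000000000000000000000) := T_1 (nat_lit 179) (nat_lit 180) (nat_lit 1) (nat_lit 10) (nat_lit 10) L11402 (by decide +kernel)
theorem L11404 : W_1 (nat_lit 5) (nat_lit 0x48007c0000001000080000000000000000000000000000000) (nat_lit 0x0) (nat_lit 0x100008000200182000c000400000000000000000000000000000000000) := T_1 (nat_lit 193) (nat_lit 173) (nat_lit 3) (nat_lit 3) (nat_lit 10) L11403 (by decide +kernel)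
theorem L11405 : W_1 (nat_lit 6) (nat_lit 0x8007c0000001000080000000000000000000000000000000) (nat_lit 0x0) (nat_lit 0x100008000e00182000c000400000000000000000000000000000000000) := T_1 (nat_lit 194) (nat_lit 195) (nat_lit 3) (nat_lit 4) (nat_lit 10) L11404 (by decide +kernel)
theorem L11406 : W_1 (nat_lit 7) (nat_lit 0x800780000001000080000000000000000000000000000000) (nat_lit 0x0) (nat_lit 0x100008000e40186000c000400000000000000000000000000000000000) := T_1 (nat_lit 174) (nat_lit 190) (nat_lit 1) (nat_lit 7) (nat_lit 10) L11405 (by decide +kernel)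
theorem L11407 : W_1 (nat_lit 8) (nat_lit 0x780000001000080000000000000000000000000000000) (nat_lit 0x0) (nat_lit 0x100008000fc0186000c000400000000000000000000000000000000000) := T_1 (nat_lit 191) (nat_lit 192) (nat_lit 1) (nat_lit 8) (nat_lit 10) L11406 (by decide +kernel)
theorem L11423 : W_1 (nat_lit 2) (nat_lit 0x44001f00088001000080000000000000000000000000000000) (nat_lit 0x0) (nat_lit 0x88002000000000000000000000000000000000000000000000) := D_1 (nat_lit 181) (nat_lit 195) (nat_lit 199) (nat_lit 1) (nat_lit 11) (nat_lit 10) (nat_lit 3) (nat_lit 8) (nat_lit 10) (by decide +kernel)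
theorem L11424 : W_1 (nat_lit 3) (nat_lit 0x4001f00088001000080000000000000000000000000000000) (nat_lit 0x0) (nat_lit 0xe8002000000000000000000000000000000000000000000000) := T_1 (nat_lit 198) (nat_lit 197) (nat_lit 3) (nat_lit 7) (nat_lit 10) L11423 (by decide +kernel)
theorem L11425 : W_1 (nat_lit 4) (nat_lit 0x1f00088001000080000000000000000000000000000000) (nat_lit 0x0) (nat_lit 0xee002000000000000000000000000000000000000000000000) := T_1 (nat_lit 194) (nat_lit 193) (nat_lit 1) (nat_lit 10) (nat_lit 10) L11424 (by decide +kernel)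
theorem L11426 : W_1 (nat_lit 5) (nat_lit 0xf00088001000080000000000000000000000000000000) (nat_lit 0x0) (nat_lit 0xee003000100000000000000000000000000000000000000000) := T_1 (nat_lit 180) (nat_lit 164) (nat_lit 2) (nat_lit 7) (nat_lit 10) L11425 (by decide +kernel)
theorem L11427 : W_1 (nat_lit 6) (nat_lit 0xf00008001000080000000000000000000000000000000) (nat_lit 0x0) (nat_lit 0xee0030001c0000000000000000000000000000000000000000) := T_1 (nat_lit 163) (nat_lit 162) (nat_lit 2) (nat_lit 6) (nat_lit 10) L11426 (by decide +kernel)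
theorem L11428 : W_1 (nat_lit 7) (nat_lit 0xf00000001000080000000000000000000000000000000) (nat_lit 0x0) (nat_lit 0xee0030001cc000000000000000000000000000000000000000) := T_1 (nat_lit 159) (nat_lit 158) (nat_lit 0) (nat_lit 9) (nat_lit 10) L11427 (by decide +kernel)
theorem L11433 : W_1 (nat_lit 4) (nat_lit 0x1f00088001000080000000000000000000000000000000) (nat_lit 0x0) (nat_lit 0x1e0020c0000000000000000000000000000000000000000000) := T_1 (nat_lit 194) (nat_lit 193) (nat_lit 1) (nat_lit 10) (nat_lit 10) L4792 (by decide +kernel)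
theorem L11434 : W_1 (nat_lit 5) (nat_lit 0xf00088001000080000000000000000000000000000000) (nat_lit 0x0) (nat_lit 0x1e0030c0100000000000000000000000000000000000000000) := T_1 (nat_lit 180) (nat_lit 164) (nat_lit 2) (nat_lit 7) (nat_lit 10) L11433 (by decide +kernel)
theorem L11435 : W_1 (nat_lit 6) (nat_lit 0xf00008001000080000000000000000000000000000000) (nat_lit 0x0) (nat_lit 0x1e0030c01c0000000000000000000000000000000000000000) := T_1 (nat_lit 163) (nat_lit 162) (nat_lit 2) (nat_lit 6) (nat_lit 10) L11434 (by decide +kernel)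
theorem L11436 : W_1 (nat_lit 7) (nat_lit 0xf00000001000080000000000000000000000000000000) (nat_lit 0x0) (nat_lit 0x1e0030c01cc000000000000000000000000000000000000000) := T_1 (nat_lit 159) (nat_lit 158) (nat_lit 0) (nat_lit 9) (nat_lit 10) L11435 (by decide +kernel)
theorem L11437 : W_1 (nat_lit 2) (nat_lit 0x10000f80000001000080000000000000000000000000000000) (nat_lit 0x0) (nat_lit 0xe000000000000000000000000000000000000000) := D_1 (nat_lit 158) (nat_lit 157) (nat_lit 159) (nat_lit 0) (nat_lit 8) (nat_lit 10) (nat_lit 0) (nat_lit 9) (nat_lit 10) (by decide +kernel)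
theorem L11438 : W_1 (nat_lit 3) (nat_lit 0x10000f00000001000080000000000000000000000000000000) (nat_lit 0x0) (nat_lit 0x800008000e000000000000000000000000000000000000000) := T_1 (nat_lit 175) (nat_lit 195) (nat_lit 3) (nat_lit 5) (nat_lit 10) L11437 (by decide +kernel)
theorem L11439 : W_1 (nat_lit 4) (nat_lit 0xf00000001000080000000000000000000000000000000) (nat_lit 0x0) (nat_lit 0x3800008000e000000000000000000000000000000000000000) := T_1 (nat_lit 196) (nat_lit 197) (nat_lit 3) (nat_lit 6) (nat_lit 10) L11438 (by decide +kernel)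
theorem L11585 : W_1 (nat_lit 2) (nat_lit 0xf000300000001000080000000000000000000000000000000) (nat_lit 0x0) (nat_lit 0x800c00000000000000000000000000000000000000000000) := D_1 (nat_lit 178) (nat_lit 179) (nat_lit 191) (nat_lit 2) (nat_lit 5) (nat_lit 11) (nat_lit 2) (nat_lit 4) (nat_lit 11) (by decide +kernel)
theorem L11586 : W_1 (nat_lit 2) (nat_lit 0x10000f000300000001000080000000000000000000000000000000) (nat_lit 0x0) (nat_lit 0x80000c00000000000000000000000000000000000000000000000) := D_1 (nat_lit 191) (nat_lit 211) (nat_lit 190) (nat_lit 3) (nat_lit 4) (nat_lit 11) (nat_lit 2) (nat_lit 3) (nat_lit 11) (by decide +kernel)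
theorem L11587 : W_1 (nat_lit 3) (nat_lit 0xf000300000001000080000000000000000000000000000000) (nat_lit 0x0) (nat_lit 0x380000c00000000000000000000000000000000000000000000000) := T_1 (nat_lit 212) (nat_lit 213) (nat_lit 3) (nat_lit 5) (nat_lit 11) L11586 (by decide +kernel)
theorem L11602 : W_1 (nat_lit 2) (nat_lit 0xf000340000001000080000000000000000000000000000000) (nat_lit 0x0) (nat_lit 0xc00020000000000000000000000000000000000000000000) := D_1 (nat_lit 191) (nat_lit 173) (nat_lit 190) (nat_lit 0) (nat_lit 7) (nat_lit 11) (nat_lit 2) (nat_lit 3) (nat_lit 11) (by decide +kernel)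
theorem L11603 : W_1 (nat_lit 3) (nat_lit 0xf000300000001000080000000000000000000000000000000) (nat_lit 0x0) (nat_lit 0xc000e0000000000000000000000000000000000000000000) := T_1 (nat_lit 174) (nat_lit 175) (nat_lit 3) (nat_lit 4) (nat_lit 10) L11602 (by decide +kernel)
theorem L11647 : W_1 (nat_lit 2) (nat_lit 0x24001f000300000001000080000000000000000000000000000000) (nat_lit 0x0) (nat_lit 0xc00400000000000000000000000000000000000000000000) := D_1 (nat_lit 191) (nat_lit 178) (nat_lit 190) (nat_lit 2) (nat_lit 4) (nat_lit 11) (nat_lit 2) (nat_lit 3) (nat_lit 11) (by decide +kernel)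
theorem L11648 : W_1 (nat_lit 3) (nat_lit 0x24001e000300000001000080000000000000000000000000000000) (nat_lit 0x0) (nat_lit 0x100001c00400000000000000000000000000000000000000000000) := T_1 (nat_lit 192) (nat_lit 212) (nat_lit 3) (nat_lit 5) (nat_lit 11) L11647 (by decide +kernel)
theorem L11649 : W_1 (nat_lit 4) (nat_lit 0x4001e000300000001000080000000000000000000000000000000) (nat_lit 0x0) (nat_lit 0x700001c00400000000000000000000000000000000000000000000) := T_1 (nat_lit 213) (nat_lit 214) (nat_lit 3) (nat_lit 6) (nat_lit 11) L11648 (by decide +kernel)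
theorem L11650 : W_1 (nat_lit 5) (nat_lit 0x1e000300000001000080000000000000000000000000000000) (nat_lit 0x0) (nat_lit 0x760001c00400000000000000000000000000000000000000000000) := T_1 (nat_lit 210) (nat_lit 209) (nat_lit 1) (nat_lit 9) (nat_lit 11) L11649 (by decide +kernel)
theorem L11651 : W_1 (nat_lit 6) (nat_lit 0xe000300000001000080000000000000000000000000000000) (nat_lit 0x0) (nat_lit 0x760031c00400000000000000000000000000000000000000000000) := T_1 (nat_lit 196) (nat_lit 197) (nat_lit 0) (nat_lit 10) (nat_lit 11) L11650 (by decide +kernel)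
theorem L11660 : W_1 (nat_lit 2) (nat_lit 0x1f000b00000001000080000000000000000000000000000000) (nat_lit 0x0) (nat_lit 0x700000000000000000000000000000000000000000000000000000) := D_1 (nat_lit 213) (nat_lit 212) (nat_lit 214) (nat_lit 3) (nat_lit 5) (nat_lit 11) (nat_lit 3) (nat_lit 6) (nat_lit 11) (by decide +kernel)
theorem L11661 : W_1 (nat_lit 3) (nat_lit 0x1e000b00000001000080000000000000000000000000000000) (nat_lit 0x0) (nat_lit 0x700001000400000000000000000000000000000000000000000000) := T_1 (nat_lit 192) (nat_lit 178) (nat_lit 2) (nat_lit 5) (nat_lit 11) L11660 (by decide +kernel)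
theorem L11662 : W_1 (nat_lit 4) (nat_lit 0x1e000300000001000080000000000000000000000000000000) (nat_lit 0x0) (nat_lit 0x700001001c00000000000000000000000000000000000000000000) := T_1 (nat_lit 179) (nat_lit 180) (nat_lit 2) (nat_lit 6) (nat_lit 11) L11661 (by decide +kernel)
theorem L11663 : W_1 (nat_lit 5) (nat_lit 0xe000300000001000080000000000000000000000000000000) (nat_lit 0x0) (nat_lit 0x700031001c00000000000000000000000000000000000000000000) := T_1 (nat_lit 196) (nat_lit 197) (nat_lit 0) (nat_lit 10) (nat_lit 11) L11662 (by decide +kernel)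
theorem L11664 : W_1 (nat_lit 2) (nat_lit 0x1c000c001f400b00000001000080000000000000000000000000000000) (nat_lit 0x0) (nat_lit 0x300100000000000000000000000000000000000000000000000000000) := D_1 (nat_lit 225) (nat_lit 212) (nat_lit 224) (nat_lit 2) (nat_lit 4) (nat_lit 13) (nat_lit 2) (nat_lit 3) (nat_lit 13) (by decide +kernel)
theorem L11665 : W_1 (nat_lit 3) (nat_lit 0x1c0004001f400b00000001000080000000000000000000000000000000) (nat_lit 0x0) (nat_lit 0x300180000000000008000000000000000000000000000000000000000) := T_1 (nat_lit 211) (nat_lit 159) (nat_lit 7) (nat_lit 6) (nat_lit 9) L11664 (by decide +kernel)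
theorem L11666 : W_1 (nat_lit 4) (nat_lit 0xc0004001f400b00000001000080000000000000000000000000000000) (nat_lit 0x0) (nat_lit 0x20001300180000000000008000000000000000000000000000000000000000) := T_1 (nat_lit 228) (nat_lit 245) (nat_lit 7) (nat_lit 6) (nat_lit 10) L11665 (by decide +kernel)
theorem L11667 : W_1 (nat_lit 5) (nat_lit 0x80004001f400b00000001000080000000000000000000000000000000) (nat_lit 0x0) (nat_lit 0x28001700180000000000008000000000000000000000000000000000000000) := T_1 (nat_lit 226) (nat_lit 243) (nat_lit 5) (nat_lit 6) (nat_lit 10) L11666 (by decide +kernel)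
theorem L11668 : W_1 (nat_lit 6) (nat_lit 0x4001f400b00000001000080000000000000000000000000000000) (nat_lit 0x0) (nat_lit 0x38001f00180000000000008000000000000000000000000000000000000000) := T_1 (nat_lit 227) (nat_lit 244) (nat_lit 6) (nat_lit 6) (nat_lit 14) L11667 (by decide +kernel)
theorem L11669 : W_1 (nat_lit 7) (nat_lit 0x4001f000b00000001000080000000000000000000000000000000) (nat_lit 0x0) (nat_lit 0x38001f00180000c00000008000000000000000000000000000000000000000) := T_1 (nat_lit 190) (nat_lit 191) (nat_lit 2) (nat_lit 3) (nat_lit 11) L11668 (by decide +kernel)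
theorem L11670 : W_1 (nat_lit 8) (nat_lit 0x4001e000b00000001000080000000000000000000000000000000) (nat_lit 0x0) (nat_lit 0x38001f00180001c00400008000000000000000000000000000000000000000) := T_1 (nat_lit 192) (nat_lit 178) (nat_lit 2) (nat_lit 5) (nat_lit 11) L11669 (by decide +kernel)
theorem L11671 : W_1 (nat_lit 9) (nat_lit 0x4001e000300000001000080000000000000000000000000000000) (nat_lit 0x0) (nat_lit 0x38001f00180001c01c00008000000000000000000000000000000000000000) := T_1 (nat_lit 179) (nat_lit 180) (nat_lit 2) (nat_lit 6) (nat_lit 11) L11670 (by decide +kernel)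
theorem L11672 : W_1 (nat_lit 10) (nat_lit 0x1e000300000001000080000000000000000000000000000000) (nat_lit 0x0) (nat_lit 0x38001f001e0001c01c00008000000000000000000000000000000000000000) := T_1 (nat_lit 210) (nat_lit 209) (nat_lit 1) (nat_lit 9) (nat_lit 11) L11671 (by decide +kernel)
theorem L11673 : W_1 (nat_lit 11) (nat_lit 0xe000300000001000080000000000000000000000000000000) (nat_lit 0x0) (nat_lit 0x38001f001e0031c01c00008000000000000000000000000000000000000000) := T_1 (nat_lit 196) (nat_lit 197) (nat_lit 0) (nat_lit 10) (nat_lit 11) L11672 (by decide +kernel)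
theorem L11676 : W_1 (nat_lit 2) (nat_lit 0x4000e000300010001000080000000000000000000000000000000) (nat_lit 0x0) (nat_lit 0x20030000000000000000000000000000000000000000000000000) := D_1 (nat_lit 196) (nat_lit 197) (nat_lit 209) (nat_lit 0) (nat_lit 10) (nat_lit 11) (nat_lit 1) (nat_lit 9) (nat_lit 11) (by decide +kernel)
theorem L11677 : W_1 (nat_lit 3) (nat_lit 0xe000300010001000080000000000000000000000000000000) (nat_lit 0x0) (nat_lit 0x800060030000000000000000000000000000000000000000000000000) := T_1 (nat_lit 210) (nat_lit 227) (nat_lit 6) (nat_lit 6) (nat_lit 13) L11676 (by decide +kernel)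
theorem L11678 : W_1 (nat_lit 4) (nat_lit 0xe000300000001000080000000000000000000000000000000) (nat_lit 0x0) (nat_lit 0x800060030000000010000800000000000000000000000000000000000) := T_1 (nat_lit 160) (nat_lit 143) (nat_lit 6) (nat_lit 7) (nat_lit 11) L11677 (by decide +kernel)
theorem L11685 : W_1 (nat_lit 2) (nat_lit 0x80002000f000380010001000080000000000000000000000000000000) (nat_lit 0x0) (nat_lit 0x18000400000000000000000000000000000000000000000000000000000000) := D_1 (nat_lit 226) (nat_lit 243) (nat_lit 244) (nat_lit 6) (nat_lit 5) (nat_lit 14) (nat_lit 7) (nat_lit 5) (nat_lit 10) (by decide +kernel)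
theorem L11686 : W_1 (nat_lit 3) (nat_lit 0x80000000f000380010001000080000000000000000000000000000000) (nat_lit 0x0) (nat_lit 0x18000400030000000000000000000000000000000000000000000000000000) := T_1 (nat_lit 209) (nat_lit 208) (nat_lit 1) (nat_lit 8) (nat_lit 11) L11685 (by decide +kernel)
theorem L11687 : W_1 (nat_lit 4) (nat_lit 0x80000000f000300010001000080000000000000000000000000000000) (nat_lit 0x0) (nat_lit 0x180004000300000000c0000000000000000000000000000000000000000000) := T_1 (nat_lit 175) (nat_lit 174) (nat_lit 3) (nat_lit 4) (nat_lit 10) L11686 (by decide +kernel)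
theorem L11688 : W_1 (nat_lit 5) (nat_lit 0xf000300010001000080000000000000000000000000000000) (nat_lit 0x0) (nat_lit 0x18000c000700000000c0000000000000000000000000000000000000000000) := T_1 (nat_lit 227) (nat_lit 210) (nat_lit 6) (nat_lit 6) (nat_lit 13) L11687 (by decide +kernel)
theorem L11689 : W_1 (nat_lit 6) (nat_lit 0xf000300000001000080000000000000000000000000000000) (nat_lit 0x0) (nat_lit 0x18000c000700000000c0010000800000000000000000000000000000000000) := T_1 (nat_lit 160) (nat_lit 143) (nat_lit 6) (nat_lit 7) (nat_lit 11) L11688 (by decide +kernel)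
theorem L11730 : W_1 (nat_lit 2) (nat_lit 0xf000700010001000080000000000000000000000000000000) (nat_lit 0x0) (nat_lit 0x2000300000000000000000000000000000000000000000000000000000) := D_1 (nat_lit 212) (nat_lit 229) (nat_lit 213) (nat_lit 4) (nat_lit 8) (nat_lit 13) (nat_lit 3) (nat_lit 5) (nat_lit 11) (by decide +kernel)
theorem L11731 : W_1 (nat_lit 3) (nat_lit 0xf000300010001000080000000000000000000000000000000) (nat_lit 0x0) (nat_lit 0x2000300000000c00000000000000000000000000000000000000000000) := T_1 (nat_lit 178) (nat_lit 179) (nat_lit 2) (nat_lit 5) (nat_lit 11) L11730 (by decide +kernel)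
theorem L11732 : W_1 (nat_lit 4) (nat_lit 0xf000300000001000080000000000000000000000000000000) (nat_lit 0x0) (nat_lit 0x2000300000000c00010000800000000000000000000000000000000000) := T_1 (nat_lit 160) (nat_lit 143) (nat_lit 6) (nat_lit 7) (nat_lit 11) L11731 (by decide +kernel)
theorem L11830 : W_1 (nat_lit 2) (nat_lit 0x8000e000300000001000080000000000000000000000000000000) (nat_lit 0x0) (nat_lit 0x20001000000000000000008000000000000000000000000000000000000000) := D_1 (nat_lit 228) (nat_lit 159) (nat_lit 245) (nat_lit 4) (nat_lit 7) (nat_lit 13) (nat_lit 4) (nat_lit 7) (nat_lit 14) (by decide +kernel)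
theorem L11929 : W_1 (nat_lit 2) (nat_lit 0x300010002c000f00000001000080000000000000000000000000000000) (nat_lit 0x0) (nat_lit 0x40003000000000000000000000000000000000000000000000) := D_1 (nat_lit 180) (nat_lit 198) (nat_lit 181) (nat_lit 3) (nat_lit 7) (nat_lit 10) (nat_lit 1) (nat_lit 11) (nat_lit 10) (by decide +kernel)
theorem L11930 : W_1 (nat_lit 3) (nat_lit 0x300010002c000700000001000080000000000000000000000000000000) (nat_lit 0x0) (nat_lit 0x40003800040000000000000000000000000000000000000000) := T_1 (nat_lit 179) (nat_lit 162) (nat_lit 6) (nat_lit 8) (nat_lit 13) L11929 (by decide +kernel)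
theorem L11931 : W_1 (nat_lit 4) (nat_lit 0x300010002c000300000001000080000000000000000000000000000000) (nat_lit 0x0) (nat_lit 0x20000000000040003c00040000000000000000000000000000000000000000) := T_1 (nat_lit 178) (nat_lit 245) (nat_lit 5) (nat_lit 8) (nat_lit 10) L11930 (by decide +kernel)
theorem L11932 : W_1 (nat_lit 5) (nat_lit 0x300010000c000300000001000080000000000000000000000000000000) (nat_lit 0x0) (nat_lit 0x20000000000070003c00040000000000000000000000000000000000000000) := T_1 (nat_lit 197) (nat_lit 196) (nat_lit 0) (nat_lit 10) (nat_lit 11) L11931 (by decide +kernel)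
theorem L11937 : W_1 (nat_lit 2) (nat_lit 0x100018002c000300000001000080000000000000000000000000000000) (nat_lit 0x0) (nat_lit 0x400020000000000000000400000000000000000000000000000000000000000000) := D_1 (nat_lit 245) (nat_lit 178) (nat_lit 262) (nat_lit 6) (nat_lit 7) (nat_lit 14) (nat_lit 6) (nat_lit 7) (nat_lit 15) (by decide +kernel)
theorem L11970 : W_1 (nat_lit 3) (nat_lit 0x18002c000300000001000080000000000000000000000000000000) (nat_lit 0x0) (nat_lit 0x400020001000000000000400008000000000000000000000000000000000000000) := T_1 (nat_lit 228) (nat_lit 159) (nat_lit 4) (nat_lit 7) (nat_lit 13) L11937 (by decide +kernel)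
theorem L11971 : W_1 (nat_lit 4) (nat_lit 0x18000c000300000001000080000000000000000000000000000000) (nat_lit 0x0) (nat_lit 0x400020001000000030000400008000000000000000000000000000000000000000) := T_1 (nat_lit 197) (nat_lit 196) (nat_lit 0) (nat_lit 10) (nat_lit 11) L11970 (by decide +kernel)
theorem L12033 : W_1 (nat_lit 2) (nat_lit 0x40006000300000001000080000000000000000000000000000000) (nat_lit 0x0) (nat_lit 0x800000000000000010000800000000000000000000000000000000000) := D_1 (nat_lit 160) (nat_lit 143) (nat_lit 227) (nat_lit 6) (nat_lit 7) (nat_lit 11) (nat_lit 6) (nat_lit 6) (nat_lit 13) (by decide +kernel)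
theorem L12034 : W_1 (nat_lit 2) (nat_lit 0x40006000300000001000080000000000000000000000000000000) (nat_lit 0x0) (nat_lit 0x10000800000000000000010000000000000000000000000000000000000000) := D_1 (nat_lit 227) (nat_lit 160) (nat_lit 244) (nat_lit 6) (nat_lit 6) (nat_lit 13) (nat_lit 6) (nat_lit 6) (nat_lit 14) (by decide +kernel)
theorem L12035 : W_1 (nat_lit 2) (nat_lit 0xc00040006000300008001000080000000000000000000000000000000) (nat_lit 0x0) (nat_lit 0x20001000080000000000000000000000000000000000000000000000000000) := D_1 (nat_lit 228) (nat_lit 211) (nat_lit 245) (nat_lit 7) (nat_lit 6) (nat_lit 9) (nat_lit 7) (nat_lit 6) (nat_lit 10) (by decide +kernel)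
theorem L12036 : W_1 (nat_lit 3) (nat_lit 0xc00040006000300000001000080000000000000000000000000000000) (nat_lit 0x0) (nat_lit 0x200010000a0000000000008000000000000000000000000000000000000000) := T_1 (nat_lit 159) (nat_lit 209) (nat_lit 5) (nat_lit 6) (nat_lit 9) L12035 (by decide +kernel)
theorem L12037 : W_1 (nat_lit 4) (nat_lit 0x800040006000300000001000080000000000000000000000000000000) (nat_lit 0x0) (nat_lit 0x280014000a0000000000008000000000000000000000000000000000000000) := T_1 (nat_lit 226) (nat_lit 243) (nat_lit 5) (nat_lit 6) (nat_lit 10) L12036 (by decide +kernel)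
theorem L12038 : W_1 (nat_lit 5) (nat_lit 0x40006000300000001000080000000000000000000000000000000) (nat_lit 0x0) (nat_lit 0x38001c000a0000000000008000000000000000000000000000000000000000) := T_1 (nat_lit 227) (nat_lit 244) (nat_lit 6) (nat_lit 6) (nat_lit 14) L12037 (by decide +kernel)
theorem L12075 : W_1 (nat_lit 2) (nat_lit 0x1c00060006000300000001000080000000000000000000000000000000) (nat_lit 0x0) (nat_lit 0x2000018000000000000000000000000000000000000000000000000000) := D_1 (nat_lit 208) (nat_lit 207) (nat_lit 229) (nat_lit 3) (nat_lit 3) (nat_lit 12) (nat_lit 0) (nat_lit 8) (nat_lit 13) (by decide +kernel)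
theorem L12076 : W_1 (nat_lit 3) (nat_lit 0xc00060006000300000001000080000000000000000000000000000000) (nat_lit 0x0) (nat_lit 0x20003000018000000000000000000000000000000000000000000000000000) := T_1 (nat_lit 228) (nat_lit 245) (nat_lit 7) (nat_lit 6) (nat_lit 10) L12075 (by decide +kernel)
theorem L12077 : W_1 (nat_lit 4) (nat_lit 0xc00040006000300000001000080000000000000000000000000000000) (nat_lit 0x0) (nat_lit 0x20003000038000000000008000000000000000000000000000000000000000) := T_1 (nat_lit 209) (nat_lit 159) (nat_lit 5) (nat_lit 6) (nat_lit 9) L12076 (by decide +kernel)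
theorem L12078 : W_1 (nat_lit 5) (nat_lit 0x800040006000300000001000080000000000000000000000000000000) (nat_lit 0x0) (nat_lit 0x28003400038000000000008000000000000000000000000000000000000000) := T_1 (nat_lit 226) (nat_lit 243) (nat_lit 5) (nat_lit 6) (nat_lit 10) L12077 (by decide +kernel)
theorem L12079 : W_1 (nat_lit 6) (nat_lit 0x40006000300000001000080000000000000000000000000000000) (nat_lit 0x0) (nat_lit 0x38003c00038000000000008000000000000000000000000000000000000000) := T_1 (nat_lit 227) (nat_lit 244) (nat_lit 6) (nat_lit 6) (nat_lit 14) L12078 (by decide +kernel)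
theorem L12080 : W_1 (nat_lit 2) (nat_lit 0x6800600030001c001000080000000000000000000000000000000) (nat_lit 0x0) (nat_lit 0x400003000000000000000000000000000000000000000) := D_1 (nat_lit 157) (nat_lit 178) (nat_lit 156) (nat_lit 3) (nat_lit 4) (nat_lit 9) (nat_lit 3) (nat_lit 3) (nat_lit 9) (by decide +kernel)
theorem L12081 : W_1 (nat_lit 3) (nat_lit 0x68006000300018001000080000000000000000000000000000000) (nat_lit 0x0) (nat_lit 0x400007000200000000000000000000000000000000000) := T_1 (nat_lit 158) (nat_lit 141) (nat_lit 4) (nat_lit 6) (nat_lit 12) L12080 (by decide +kernel)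
theorem L12149 : W_1 (nat_lit 2) (nat_lit 0x7000300000001000080000000000000000000000000000000) (nat_lit 0x0) (nat_lit 0xc00400000000000000000000000000000000000000000000) := D_1 (nat_lit 191) (nat_lit 190) (nat_lit 178) (nat_lit 2) (nat_lit 3) (nat_lit 11) (nat_lit 2) (nat_lit 4) (nat_lit 11) (by decide +kernel)
theorem L12171 : W_1 (nat_lit 2) (nat_lit 0x90007800300000001000080000000000000000000000000000000) (nat_lit 0x0) (nat_lit 0x20001000000000000000008000000000000000000000000000000000000000) := D_1 (nat_lit 228) (nat_lit 159) (nat_lit 245) (nat_lit 4) (nat_lit 7) (nat_lit 13) (nat_lit 4) (nat_lit 7) (nat_lit 14) (by decide +kernel)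
theorem L12172 : W_1 (nat_lit 3) (nat_lit 0x10007800300000001000080000000000000000000000000000000) (nat_lit 0x0) (nat_lit 0x20001000180000000000008000000000000000000000000000000000000000) := T_1 (nat_lit 211) (nat_lit 212) (nat_lit 3) (nat_lit 4) (nat_lit 11) L12171 (by decide +kernel)
theorem L12173 : W_1 (nat_lit 4) (nat_lit 0x7800300000001000080000000000000000000000000000000) (nat_lit 0x0) (nat_lit 0x20001000198000000000008000000000000000000000000000000000000000) := T_1 (nat_lit 208) (nat_lit 207) (nat_lit 1) (nat_lit 7) (nat_lit 11) L12172 (by decide +kernel)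
theorem L12174 : W_1 (nat_lit 5) (nat_lit 0x7000300000001000080000000000000000000000000000000) (nat_lit 0x0) (nat_lit 0x20001000198000c00000008000000000000000000000000000000000000000) := T_1 (nat_lit 191) (nat_lit 190) (nat_lit 2) (nat_lit 3) (nat_lit 11) L12173 (by decide +kernel)
theorem L12200 : W_1 (nat_lit 2) (nat_lit 0x100016000f00070000d001000080000000000000000000000000000000) (nat_lit 0x0) (nat_lit 0x60002000000000000000000000000000000000000000000000000000000000) := D_1 (nat_lit 229) (nat_lit 246) (nat_lit 245) (nat_lit 4) (nat_lit 8) (nat_lit 14) (nat_lit 5) (nat_lit 8) (nat_lit 10) (by decide +kernel)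
theorem L12201 : W_1 (nat_lit 3) (nat_lit 0x100006000f00070000d001000080000000000000000000000000000000) (nat_lit 0x0) (nat_lit 0x60002000300000000000000000000000000000000000000000000000000000) := T_1 (nat_lit 212) (nat_lit 213) (nat_lit 3) (nat_lit 5) (nat_lit 11) L12200 (by decide +kernel)
theorem L12202 : W_1 (nat_lit 4) (nat_lit 0x100006000e00070000d001000080000000000000000000000000000000) (nat_lit 0x0) (nat_lit 0x60002000300001800000000000000000000000000000000000000000000000) := T_1 (nat_lit 192) (nat_lit 191) (nat_lit 2) (nat_lit 4) (nat_lit 11) L12201 (by decide +kernel)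
theorem L12203 : W_1 (nat_lit 5) (nat_lit 0x100006000e00030000d001000080000000000000000000000000000000) (nat_lit 0x0) (nat_lit 0x60002000300001800c00000000000000000000000000000000000000000000) := T_1 (nat_lit 178) (nat_lit 179) (nat_lit 0) (nat_lit 9) (nat_lit 10) L12202 (by decide +kernel)
theorem L12204 : W_1 (nat_lit 6) (nat_lit 0x100006000e00030000c001000080000000000000000000000000000000) (nat_lit 0x0) (nat_lit 0x60002000300001800c00003000000000000000000000000000000000000000) := T_1 (nat_lit 156) (nat_lit 157) (nat_lit 3) (nat_lit 3) (nat_lit 9) L12203 (by decide +kernel)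
theorem L12205 : W_1 (nat_lit 7) (nat_lit 0x100006000e000300008001000080000000000000000000000000000000) (nat_lit 0x0) (nat_lit 0x60002000300001800c00007000200000000000000000000000000000000000) := T_1 (nat_lit 158) (nat_lit 141) (nat_lit 4) (nat_lit 6) (nat_lit 12) L12204 (by decide +kernel)
theorem L12215 : W_1 (nat_lit 2) (nat_lit 0xc0006000300000001000080000000000000000000000000000000) (nat_lit 0x0) (nat_lit 0x20001000000000000000008000000000000000000000000000000000000000) := D_1 (nat_lit 228) (nat_lit 159) (nat_lit 245) (nat_lit 7) (nat_lit 6) (nat_lit 9) (nat_lit 4) (nat_lit 7) (nat_lit 14) (by decide +kernel)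
theorem L12311 : W_1 (nat_lit 2) (nat_lit 0x6000380000001000080000000000000000000000000000000) (nat_lit 0x0) (nat_lit 0x18000040000000000000000000000000000000000000000000) := D_1 (nat_lit 195) (nat_lit 196) (nat_lit 174) (nat_lit 0) (nat_lit 9) (nat_lit 11) (nat_lit 3) (nat_lit 4) (nat_lit 10) (by decide +kernel)
theorem L12441 : W_1 (nat_lit 2) (nat_lit 0x20001f000300010001000080000000000000000000000000000000) (nat_lit 0x0) (nat_lit 0xc00400000000000000000000000000000000000000000000) := D_1 (nat_lit 191) (nat_lit 178) (nat_lit 190) (nat_lit 2) (nat_lit 4) (nat_lit 11) (nat_lit 2) (nat_lit 3) (nat_lit 11) (by decide +kernel)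
theorem L12442 : W_1 (nat_lit 3) (nat_lit 0x20001e000300010001000080000000000000000000000000000000) (nat_lit 0x0) (nat_lit 0x100001c00400000000000000000000000000000000000000000000) := T_1 (nat_lit 192) (nat_lit 212) (nat_lit 3) (nat_lit 5) (nat_lit 11) L12441 (by decide +kernel)
theorem L12443 : W_1 (nat_lit 4) (nat_lit 0x1e000300010001000080000000000000000000000000000000) (nat_lit 0x0) (nat_lit 0x700001c00400000000000000000000000000000000000000000000) := T_1 (nat_lit 213) (nat_lit 214) (nat_lit 3) (nat_lit 6) (nat_lit 11) L12442 (by decide +kernel)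
theorem L12538 : W_1 (nat_lit 2) (nat_lit 0x3000100018000c0002000000000000000000000000000) (nat_lit 0x0) (nat_lit 0x20001000080000000000000000000000) := D_1 (nat_lit 108) (nat_lit 91) (nat_lit 125) (nat_lit 4) (nat_lit 7) (nat_lit 9) (nat_lit 4) (nat_lit 7) (nat_lit 10) (by decide +kernel)
theorem L12539 : W_1 (nat_lit 3) (nat_lit 0x3000100018000c0000000000000000000000000000000) (nat_lit 0x0) (nat_lit 0x8000000020003000080000000000000000000000) := T_1 (nat_lit 109) (nat_lit 159) (nat_lit 5) (nat_lit 7) (nat_lit 6) L12538 (by decide +kernel)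
theorem L12739 : W_1 (nat_lit 2) (nat_lit 0x40003e0000001000080000000000000000000000000000000) (nat_lit 0x0) (nat_lit 0xe00000000000000000000000000000000000000000000000) := D_1 (nat_lit 190) (nat_lit 189) (nat_lit 191) (nat_lit 1) (nat_lit 6) (nat_lit 10) (nat_lit 1) (nat_lit 7) (nat_lit 10) (by decide +kernel)
theorem L12740 : W_1 (nat_lit 3) (nat_lit 0x40003c0000001000080000000000000000000000000000000) (nat_lit 0x0) (nat_lit 0x2e00020000000000000000000000000000000000000000000) := T_1 (nat_lit 173) (nat_lit 193) (nat_lit 3) (nat_lit 3) (nat_lit 10) L12739 (by decide +kernel)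
theorem L12878 : W_1 (nat_lit 2) (nat_lit 0x1000780004001200080000000000000000000000000000000) (nat_lit 0x0) (nat_lit 0x40002000000000000000010000000000000000000000000000000) := D_1 (nat_lit 193) (nat_lit 124) (nat_lit 210) (nat_lit 7) (nat_lit 5) (nat_lit 7) (nat_lit 7) (nat_lit 5) (nat_lit 8) (by decide +kernel)
theorem L12879 : W_1 (nat_lit 3) (nat_lit 0x780004001200080000000000000000000000000000000) (nat_lit 0x0) (nat_lit 0x40003800000000000000010000000000000000000000000000000) := T_1 (nat_lit 192) (nat_lit 191) (nat_lit 1) (nat_lit 8) (nat_lit 10) L12878 (by decide +kernel)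
theorem L12903 : W_1 (nat_lit 2) (nat_lit 0x40003f0016001000080000000000000000000000000000000) (nat_lit 0x0) (nat_lit 0x700000000000000000000000000000000000000000000000) := D_1 (nat_lit 189) (nat_lit 190) (nat_lit 188) (nat_lit 1) (nat_lit 6) (nat_lit 10) (nat_lit 1) (nat_lit 5) (nat_lit 10) (by decide +kernel)
theorem L12904 : W_1 (nat_lit 3) (nat_lit 0x40003e0016001000080000000000000000000000000000000) (nat_lit 0x0) (nat_lit 0x700018000000000000000000000000000000000000000000) := T_1 (nat_lit 172) (nat_lit 171) (nat_lit 2) (nat_lit 1) (nat_lit 10) L12903 (by decide +kernel)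
theorem L12905 : W_1 (nat_lit 4) (nat_lit 0x40003c0016001000080000000000000000000000000000000) (nat_lit 0x0) (nat_lit 0x2700038000000000000000000000000000000000000000000) := T_1 (nat_lit 173) (nat_lit 193) (nat_lit 3) (nat_lit 3) (nat_lit 10) L12904 (by decide +kernel)
theorem L12919 : W_1 (nat_lit 2) (nat_lit 0x400060003c0014001000080000000000000000000000000000000) (nat_lit 0x0) (nat_lit 0x1000000000000200010000000000000000000000000000000) := D_1 (nat_lit 141) (nat_lit 124) (nat_lit 192) (nat_lit 7) (nat_lit 5) (nat_lit 7) (nat_lit 7) (nat_lit 5) (nat_lit 8) (by decide +kernel)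
theorem L12920 : W_1 (nat_lit 3) (nat_lit 0x60003c0014001000080000000000000000000000000000000) (nat_lit 0x0) (nat_lit 0x800040001000000000000200010000000000000000000000000000000) := T_1 (nat_lit 210) (nat_lit 227) (nat_lit 6) (nat_lit 6) (nat_lit 13) L12919 (by decide +kernel)
theorem L13193 : W_1 (nat_lit 2) (nat_lit 0x2003e0009001000080000000000000000000000000000000) (nat_lit 0x0) (nat_lit 0x100010004000000000000000000000000000000000000000) := D_1 (nat_lit 172) (nat_lit 158) (nat_lit 188) (nat_lit 2) (nat_lit 2) (nat_lit 10) (nat_lit 1) (nat_lit 5) (nat_lit 10) (by decide +kernel)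
theorem L13194 : W_1 (nat_lit 3) (nat_lit 0x2003e0001001000080000000000000000000000000000000) (nat_lit 0x0) (nat_lit 0x10001001c000000000000000000000000000000000000000) := T_1 (nat_lit 159) (nat_lit 160) (nat_lit 2) (nat_lit 3) (nat_lit 10) L13193 (by decide +kernel)
theorem L13195 : W_1 (nat_lit 4) (nat_lit 0x3e0001001000080000000000000000000000000000000) (nat_lit 0x0) (nat_lit 0x70001001c000000000000000000000000000000000000000) := T_1 (nat_lit 189) (nat_lit 190) (nat_lit 1) (nat_lit 6) (nat_lit 10) L13194 (by decide +kernel)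
theorem L13196 : W_1 (nat_lit 5) (nat_lit 0x3c0001001000080000000000000000000000000000000) (nat_lit 0x0) (nat_lit 0x70003001c800000000000000000000000000000000000000) := T_1 (nat_lit 173) (nat_lit 155) (nat_lit 0) (nat_lit 6) (nat_lit 10) L13195 (by decide +kernel)
theorem L13197 : W_1 (nat_lit 6) (nat_lit 0x3c0000001000080000000000000000000000000000000) (nat_lit 0x0) (nat_lit 0x70003001f800000000000000000000000000000000000000) := T_1 (nat_lit 156) (nat_lit 157) (nat_lit 0) (nat_lit 7) (nat_lit 10) L13196 (by decide +kernel)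
theorem L13233 : W_1 (nat_lit 2) (nat_lit 0x4003e0008801000080000000000000000000000000000000) (nat_lit 0x0) (nat_lit 0x10004400000000000000000000000000000000000000) := D_1 (nat_lit 172) (nat_lit 158) (nat_lit 154) (nat_lit 2) (nat_lit 2) (nat_lit 10) (nat_lit 0) (nat_lit 5) (nat_lit 10) (by decide +kernel)
theorem L13234 : W_1 (nat_lit 3) (nat_lit 0x4003e0000801000080000000000000000000000000000000) (nat_lit 0x0) (nat_lit 0x1001c400000000000000000000000000000000000000) := T_1 (nat_lit 159) (nat_lit 160) (nat_lit 2) (nat_lit 3) (nat_lit 10) L13233 (by decide +kernel)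
theorem L13235 : W_1 (nat_lit 4) (nat_lit 0x4003e0000001000080000000000000000000000000000000) (nat_lit 0x0) (nat_lit 0x1001dc00000000000000000000000000000000000000) := T_1 (nat_lit 155) (nat_lit 156) (nat_lit 0) (nat_lit 6) (nat_lit 10) L13234 (by decide +kernel)
theorem L13236 : W_1 (nat_lit 5) (nat_lit 0x4003c0000001000080000000000000000000000000000000) (nat_lit 0x0) (nat_lit 0x20003001dc00000000000000000000000000000000000000) := T_1 (nat_lit 173) (nat_lit 189) (nat_lit 1) (nat_lit 6) (nat_lit 10) L13235 (by decide +kernel)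
theorem L13237 : W_1 (nat_lit 6) (nat_lit 0x3c0000001000080000000000000000000000000000000) (nat_lit 0x0) (nat_lit 0xe0003001dc00000000000000000000000000000000000000) := T_1 (nat_lit 190) (nat_lit 191) (nat_lit 1) (nat_lit 7) (nat_lit 10) L13236 (by decide +kernel)
theorem L14088 : W_1 (nat_lit 2) (nat_lit 0x4000380018001000080000000000000000000000000000000) (nat_lit 0x0) (nat_lit 0x1000080000000000000000400000000000000000000000000000000000) := D_1 (nat_lit 211) (nat_lit 142) (nat_lit 228) (nat_lit 4) (nat_lit 7) (nat_lit 12) (nat_lit 4) (nat_lit 7) (nat_lit 13) (by decide +kernel)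
theorem L14089 : W_1 (nat_lit 3) (nat_lit 0x4000380008001000080000000000000000000000000000000) (nat_lit 0x0) (nat_lit 0x1000080000000000010000c00000000000000000000000000000000000) := T_1 (nat_lit 160) (nat_lit 143) (nat_lit 6) (nat_lit 7) (nat_lit 11) L14088 (by decide +kernel)
theorem L14148 : W_1 (nat_lit 3) (nat_lit 0x4000380000001000080000000000000000000000000000000) (nat_lit 0x0) (nat_lit 0x38000440000000000000000000000000000000000000000000) := T_1 (nat_lit 195) (nat_lit 174) (nat_lit 3) (nat_lit 4) (nat_lit 10) L5376 (by decide +kernel)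
theorem L14195 : W_1 (nat_lit 2) (nat_lit 0x300008001e00080000000000000000000000000000000) (nat_lit 0x0) (nat_lit 0x2000000000000000018000000000000000000000000000000) := D_1 (nat_lit 124) (nat_lit 123) (nat_lit 193) (nat_lit 0) (nat_lit 8) (nat_lit 8) (nat_lit 4) (nat_lit 6) (nat_lit 11) (by decide +kernel)
theorem L14575 : W_1 (nat_lit 2) (nat_lit 0x100012000f000780008001000080000000000000000000000000000000) (nat_lit 0x0) (nat_lit 0x60002000000000000000000000000000000000000000000000000000000000) := D_1 (nat_lit 229) (nat_lit 246) (nat_lit 245) (nat_lit 4) (nat_lit 8) (nat_lit 14) (nat_lit 5) (nat_lit 8) (nat_lit 10) (by decide +kernel)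
theorem L14576 : W_1 (nat_lit 3) (nat_lit 0x100002000f000780008001000080000000000000000000000000000000) (nat_lit 0x0) (nat_lit 0x60002000300000000000000000000000000000000000000000000000000000) := T_1 (nat_lit 212) (nat_lit 213) (nat_lit 3) (nat_lit 5) (nat_lit 11) L14575 (by decide +kernel)
theorem L14577 : W_1 (nat_lit 4) (nat_lit 0x2000f000780008001000080000000000000000000000000000000) (nat_lit 0x0) (nat_lit 0x60003000380000000000000000000000000000000000000000000000000000) := T_1 (nat_lit 228) (nat_lit 211) (nat_lit 4) (nat_lit 7) (nat_lit 13) L14576 (by decide +kernel)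
theorem L14578 : W_1 (nat_lit 5) (nat_lit 0x2000d000780008001000080000000000000000000000000000000) (nat_lit 0x0) (nat_lit 0x60003000390002000000000000000000000000000000000000000000000000) := T_1 (nat_lit 193) (nat_lit 208) (nat_lit 1) (nat_lit 8) (nat_lit 11) L14577 (by decide +kernel)
theorem L14778 : W_1 (nat_lit 2) (nat_lit 0x2000f000780000001000080000000000000000000000000000000) (nat_lit 0x0) (nat_lit 0x400000000000000008000400000000000000000000000000000000000) := D_1 (nat_lit 159) (nat_lit 142) (nat_lit 226) (nat_lit 5) (nat_lit 6) (nat_lit 8) (nat_lit 6) (nat_lit 5) (nat_lit 13) (by decide +kernel)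
theorem L14779 : W_1 (nat_lit 3) (nat_lit 0xf000780000001000080000000000000000000000000000000) (nat_lit 0x0) (nat_lit 0x400030000000000008000400000000000000000000000000000000000) := T_1 (nat_lit 209) (nat_lit 208) (nat_lit 1) (nat_lit 8) (nat_lit 11) L14778 (by decide +kernel)
theorem L14830 : W_1 (nat_lit 2) (nat_lit 0x1c000300000001000080000000000000000000000000000000) (nat_lit 0x0) (nat_lit 0x2000480000000000000000000000000000000000000000000) := D_1 (nat_lit 175) (nat_lit 193) (nat_lit 178) (nat_lit 0) (nat_lit 9) (nat_lit 11) (nat_lit 3) (nat_lit 5) (nat_lit 10) (by decide +kernel)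
theorem L14831 : W_1 (nat_lit 3) (nat_lit 0xc000300000001000080000000000000000000000000000000) (nat_lit 0x0) (nat_lit 0x32000480000000000000000000000000000000000000000000) := T_1 (nat_lit 196) (nat_lit 197) (nat_lit 0) (nat_lit 10) (nat_lit 11) L14830 (by decide +kernel)
theorem L14837 : W_1 (nat_lit 2) (nat_lit 0x80004000300008001000080000000000000000000000000000000) (nat_lit 0x0) (nat_lit 0x10000400020000000000000000000000000000000) := D_1 (nat_lit 142) (nat_lit 125) (nat_lit 160) (nat_lit 7) (nat_lit 6) (nat_lit 7) (nat_lit 4) (nat_lit 7) (nat_lit 12) (by decide +kernel)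
theorem L14838 : W_1 (nat_lit 3) (nat_lit 0x4000300008001000080000000000000000000000000000000) (nat_lit 0x0) (nat_lit 0x1000080000000000010000400020000000000000000000000000000000) := T_1 (nat_lit 211) (nat_lit 228) (nat_lit 4) (nat_lit 7) (nat_lit 13) L14837 (by decide +kernel)
theorem L14839 : W_1 (nat_lit 2) (nat_lit 0x4000300008001400080000000000000000000000000000000) (nat_lit 0x0) (nat_lit 0x1000080002000000000000000000000000000000000000000000000000) := D_1 (nat_lit 211) (nat_lit 228) (nat_lit 193) (nat_lit 4) (nat_lit 7) (nat_lit 13) (nat_lit 7) (nat_lit 6) (nat_lit 8) (by decide +kernel)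
theorem L14840 : W_1 (nat_lit 3) (nat_lit 0x4000300008001000080000000000000000000000000000000) (nat_lit 0x0) (nat_lit 0x1000080002000000000000400020000000000000000000000000000000) := T_1 (nat_lit 142) (nat_lit 125) (nat_lit 7) (nat_lit 6) (nat_lit 7) L14839 (by decide +kernel)
theorem L14861 : W_1 (nat_lit 2) (nat_lit 0x1000040006000300008001000080000000000000000000000000000000) (nat_lit 0x0) (nat_lit 0x30000800000000000000000000000000000000000000000000000000000000) := D_1 (nat_lit 227) (nat_lit 245) (nat_lit 244) (nat_lit 7) (nat_lit 6) (nat_lit 10) (nat_lit 6) (nat_lit 6) (nat_lit 14) (by decide +kernel)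
theorem L14862 : W_1 (nat_lit 3) (nat_lit 0x40006000300008001000080000000000000000000000000000000) (nat_lit 0x0) (nat_lit 0x30001800080000000000000000000000000000000000000000000000000000) := T_1 (nat_lit 228) (nat_lit 211) (nat_lit 7) (nat_lit 6) (nat_lit 9) L14861 (by decide +kernel)
theorem L14868 : W_1 (nat_lit 2) (nat_lit 0x180007000300018001000080000000000000000000000000000000) (nat_lit 0x0) (nat_lit 0x600008000000000000000000000000000000000000000000000000) := D_1 (nat_lit 213) (nat_lit 214) (nat_lit 195) (nat_lit 0) (nat_lit 10) (nat_lit 12) (nat_lit 3) (nat_lit 5) (nat_lit 11) (by decide +kernel)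
theorem L14869 : W_1 (nat_lit 3) (nat_lit 0x180006000300018001000080000000000000000000000000000000) (nat_lit 0x0) (nat_lit 0x600009800000000000000000000000000000000000000000000000) := T_1 (nat_lit 192) (nat_lit 191) (nat_lit 3) (nat_lit 4) (nat_lit 11) L14868 (by decide +kernel)
theorem L14870 : W_1 (nat_lit 4) (nat_lit 0x80006000300018001000080000000000000000000000000000000) (nat_lit 0x0) (nat_lit 0x2000700009800000000000000000000000000000000000000000000000) := T_1 (nat_lit 212) (nat_lit 229) (nat_lit 7) (nat_lit 7) (nat_lit 9) L14869 (by decide +kernel)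
theorem L14880 : W_1 (nat_lit 2) (nat_lit 0x10000000058003c000a001000080000000000000000000000000000000) (nat_lit 0x0) (nat_lit 0x400020000000000000000100000000000000000000000000000000000) := D_1 (nat_lit 209) (nat_lit 226) (nat_lit 140) (nat_lit 6) (nat_lit 5) (nat_lit 13) (nat_lit 7) (nat_lit 4) (nat_lit 8) (by decide +kernel)
theorem L14881 : W_1 (nat_lit 3) (nat_lit 0x10000000048003c000a001000080000000000000000000000000000000) (nat_lit 0x0) (nat_lit 0x400020001000400000000100000000000000000000000000000000000) := T_1 (nat_lit 192) (nat_lit 178) (nat_lit 1) (nat_lit 8) (nat_lit 10) L14880 (by decide +kernel)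
theorem L14911 : W_1 (nat_lit 2) (nat_lit 0x10000000058003c000a0010000a0000000000000000000000000000000) (nat_lit 0x0) (nat_lit 0x400020000000000000000100000000000000000000000000000000000) := D_1 (nat_lit 209) (nat_lit 226) (nat_lit 140) (nat_lit 6) (nat_lit 5) (nat_lit 13) (nat_lit 7) (nat_lit 4) (nat_lit 8) (by decide +kernel)
theorem L14912 : W_1 (nat_lit 3) (nat_lit 0x10000000048003c000a0010000a0000000000000000000000000000000) (nat_lit 0x0) (nat_lit 0x400020001000400000000100000000000000000000000000000000000) := T_1 (nat_lit 192) (nat_lit 178) (nat_lit 1) (nat_lit 8) (nat_lit 10) L14911 (by decide +kernel)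
theorem L14917 : W_1 (nat_lit 2) (nat_lit 0x10000000050003d000e001600090000000000000000000000000000000) (nat_lit 0x0) (nat_lit 0x100008000400000000000000000000000000) := D_1 (nat_lit 123) (nat_lit 140) (nat_lit 106) (nat_lit 7) (nat_lit 4) (nat_lit 7) (nat_lit 4) (nat_lit 5) (nat_lit 10) (by decide +kernel)
theorem L14918 : W_1 (nat_lit 3) (nat_lit 0x10000000050003d000e001600080000000000000000000000000000000) (nat_lit 0x0) (nat_lit 0x100018000c00000000000000000000000000) := T_1 (nat_lit 124) (nat_lit 107) (nat_lit 7) (nat_lit 5) (nat_lit 6) L14917 (by decide +kernel)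
theorem L14919 : W_1 (nat_lit 4) (nat_lit 0x10000000040003d000e001600080000000000000000000000000000000) (nat_lit 0x0) (nat_lit 0x20001000000000000100018000c00000000000000000000000000) := T_1 (nat_lit 192) (nat_lit 209) (nat_lit 6) (nat_lit 5) (nat_lit 12) L14918 (by decide +kernel)
theorem L14920 : W_1 (nat_lit 5) (nat_lit 0x10000000040003d000e001400080000000000000000000000000000000) (nat_lit 0x0) (nat_lit 0x20001000000000000b00018000c00000000000000000000000000) := T_1 (nat_lit 141) (nat_lit 143) (nat_lit 1) (nat_lit 8) (nat_lit 8) L14919 (by decide +kernel)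
theorem L14921 : W_1 (nat_lit 6) (nat_lit 0x10000000040003c000e001400080000000000000000000000000000000) (nat_lit 0x0) (nat_lit 0x20001000030000000b00018000c00000000000000000000000000) := T_1 (nat_lit 172) (nat_lit 173) (nat_lit 2) (nat_lit 2) (nat_lit 10) L14920 (by decide +kernel)
theorem L14922 : W_1 (nat_lit 7) (nat_lit 0x40003c000e001400080000000000000000000000000000000) (nat_lit 0x0) (nat_lit 0x10000a0001000030000000b00018000c00000000000000000000000000) := T_1 (nat_lit 228) (nat_lit 211) (nat_lit 4) (nat_lit 7) (nat_lit 13) L14921 (by decide +kernel)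
theorem L14923 : W_1 (nat_lit 8) (nat_lit 0x40003c000a001400080000000000000000000000000000000) (nat_lit 0x0) (nat_lit 0x10000a0001000430004000b00018000c00000000000000000000000000) := T_1 (nat_lit 158) (nat_lit 178) (nat_lit 0) (nat_lit 8) (nat_lit 10) L14922 (by decide +kernel)
theorem L14924 : W_1 (nat_lit 9) (nat_lit 0x40003c000a001000080000000000000000000000000000000) (nat_lit 0x0) (nat_lit 0x10000a0001000430004000f00038000c00000000000000000000000000) := T_1 (nat_lit 142) (nat_lit 125) (nat_lit 7) (nat_lit 6) (nat_lit 7) L14923 (by decide +kernel)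
theorem L14925 : W_1 (nat_lit 10) (nat_lit 0x40003c0008001000080000000000000000000000000000000) (nat_lit 0x0) (nat_lit 0x10000a0001000430007000f00038000c00000000000000000000000000) := T_1 (nat_lit 157) (nat_lit 156) (nat_lit 0) (nat_lit 7) (nat_lit 10) L14924 (by decide +kernel)
theorem L14926 : W_1 (nat_lit 2) (nat_lit 0x10000000044003e00088010000a0000000000000000000000000000000) (nat_lit 0x0) (nat_lit 0x10004400000000000000000000000000000000000000) := D_1 (nat_lit 172) (nat_lit 158) (nat_lit 154) (nat_lit 2) (nat_lit 2) (nat_lit 10) (nat_lit 0) (nat_lit 5) (nat_lit 10) (by decide +kernel)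
theorem L14927 : W_1 (nat_lit 3) (nat_lit 0x10000000044003e00080010000a0000000000000000000000000000000) (nat_lit 0x0) (nat_lit 0x10005c00000000000000000000000000000000000000) := T_1 (nat_lit 155) (nat_lit 156) (nat_lit 0) (nat_lit 6) (nat_lit 10) L14926 (by decide +kernel)
theorem L14928 : W_1 (nat_lit 4) (nat_lit 0x10000000044003c00080010000a0000000000000000000000000000000) (nat_lit 0x0) (nat_lit 0x200030005c00000000000000000000000000000000000000) := T_1 (nat_lit 173) (nat_lit 189) (nat_lit 1) (nat_lit 6) (nat_lit 10) L14927 (by decide +kernel)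
theorem L14929 : W_1 (nat_lit 5) (nat_lit 0x10000000040003c00080010000a0000000000000000000000000000000) (nat_lit 0x0) (nat_lit 0xe00030005c00000000000000000000000000000000000000) := T_1 (nat_lit 190) (nat_lit 191) (nat_lit 1) (nat_lit 7) (nat_lit 10) L14928 (by decide +kernel)
theorem L14940 : W_1 (nat_lit 2) (nat_lit 0x400038000c001000080000000000000000000000000000000) (nat_lit 0x0) (nat_lit 0xc00002000000000000000000000000000000000000000) := D_1 (nat_lit 178) (nat_lit 157) (nat_lit 179) (nat_lit 0) (nat_lit 8) (nat_lit 10) (nat_lit 0) (nat_lit 9) (nat_lit 10) (by decide +kernel)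
theorem L14941 : W_1 (nat_lit 2) (nat_lit 0x100000000500038000e001600090000000000000000000000000000000) (nat_lit 0x0) (nat_lit 0x100008000400000000000000000000000000) := D_1 (nat_lit 123) (nat_lit 140) (nat_lit 106) (nat_lit 4) (nat_lit 5) (nat_lit 11) (nat_lit 4) (nat_lit 5) (nat_lit 10) (by decide +kernel)
theorem L14942 : W_1 (nat_lit 3) (nat_lit 0x100000000500038000e001600080000000000000000000000000000000) (nat_lit 0x0) (nat_lit 0x100018000c00000000000000000000000000) := T_1 (nat_lit 124) (nat_lit 107) (nat_lit 7) (nat_lit 5) (nat_lit 6) L14941 (by decide +kernel)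
theorem L14943 : W_1 (nat_lit 4) (nat_lit 0x100000000500038000e001400080000000000000000000000000000000) (nat_lit 0x0) (nat_lit 0xb00018000c00000000000000000000000000) := T_1 (nat_lit 141) (nat_lit 143) (nat_lit 1) (nat_lit 8) (nat_lit 8) L14942 (by decide +kernel)
theorem L14944 : W_1 (nat_lit 5) (nat_lit 0x100000000400038000e001400080000000000000000000000000000000) (nat_lit 0x0) (nat_lit 0x20001000000000000b00018000c00000000000000000000000000) := T_1 (nat_lit 192) (nat_lit 209) (nat_lit 6) (nat_lit 5) (nat_lit 12) L14943 (by decide +kernel)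
theorem L14945 : W_1 (nat_lit 6) (nat_lit 0x100000000400038000e001000080000000000000000000000000000000) (nat_lit 0x0) (nat_lit 0x20001000000000000f00038000c00000000000000000000000000) := T_1 (nat_lit 142) (nat_lit 125) (nat_lit 7) (nat_lit 6) (nat_lit 7) L14944 (by decide +kernel)
theorem L14946 : W_1 (nat_lit 7) (nat_lit 0x100000000400038000c001000080000000000000000000000000000000) (nat_lit 0x0) (nat_lit 0x20001000000003000f00038000c00000000000000000000000000) := T_1 (nat_lit 157) (nat_lit 156) (nat_lit 3) (nat_lit 3) (nat_lit 9) L14945 (by decide +kernel)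
theorem L14947 : W_1 (nat_lit 8) (nat_lit 0x400038000c001000080000000000000000000000000000000) (nat_lit 0x0) (nat_lit 0x10000a0001000000003000f00038000c00000000000000000000000000) := T_1 (nat_lit 228) (nat_lit 211) (nat_lit 4) (nat_lit 7) (nat_lit 13) L14946 (by decide +kernel)
theorem L14956 : W_1 (nat_lit 2) (nat_lit 0x10000000042003e00090010000a0000000000000000000000000000000) (nat_lit 0x0) (nat_lit 0x100010004000000000000000000000000000000000000000) := D_1 (nat_lit 172) (nat_lit 158) (nat_lit 188) (nat_lit 2) (nat_lit 2) (nat_lit 10) (nat_lit 1) (nat_lit 5) (nat_lit 10) (by decide +kernel)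
theorem L14957 : W_1 (nat_lit 3) (nat_lit 0x10000000040003e00090010000a0000000000000000000000000000000) (nat_lit 0x0) (nat_lit 0x700010004000000000000000000000000000000000000000) := T_1 (nat_lit 189) (nat_lit 190) (nat_lit 1) (nat_lit 6) (nat_lit 10) L14956 (by decide +kernel)
theorem L14958 : W_1 (nat_lit 4) (nat_lit 0x10000000040003c00090010000a0000000000000000000000000000000) (nat_lit 0x0) (nat_lit 0x700030004800000000000000000000000000000000000000) := T_1 (nat_lit 173) (nat_lit 155) (nat_lit 0) (nat_lit 6) (nat_lit 10) L14957 (by decide +kernel)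
theorem L14959 : W_1 (nat_lit 5) (nat_lit 0x40003c00090010000a0000000000000000000000000000000) (nat_lit 0x0) (nat_lit 0x1000080000700030004800000000000000000000000000000000000000) := T_1 (nat_lit 228) (nat_lit 211) (nat_lit 4) (nat_lit 7) (nat_lit 13) L14958 (by decide +kernel)
theorem L14960 : W_1 (nat_lit 6) (nat_lit 0x40003c00080010000a0000000000000000000000000000000) (nat_lit 0x0) (nat_lit 0x1000080000700030007800000000000000000000000000000000000000) := T_1 (nat_lit 156) (nat_lit 157) (nat_lit 0) (nat_lit 7) (nat_lit 10) L14959 (by decide +kernel)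
theorem L14961 : W_1 (nat_lit 7) (nat_lit 0x40003800080010000a0000000000000000000000000000000) (nat_lit 0x0) (nat_lit 0x1000080008700070007800000000000000000000000000000000000000) := T_1 (nat_lit 174) (nat_lit 195) (nat_lit 3) (nat_lit 4) (nat_lit 10) L14960 (by decide +kernel)
theorem L14962 : W_1 (nat_lit 8) (nat_lit 0x4000380008001000080000000000000000000000000000000) (nat_lit 0x0) (nat_lit 0x1000080008700070007800400020000000000000000000000000000000) := T_1 (nat_lit 125) (nat_lit 142) (nat_lit 7) (nat_lit 6) (nat_lit 7) L14961 (by decide +kernel)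
theorem L14963 : W_1 (nat_lit 2) (nat_lit 0x10000000048007c00080010000a0000000000000000000000000000000) (nat_lit 0x0) (nat_lit 0x800006000000000000000000000000000000000000000) := D_1 (nat_lit 158) (nat_lit 179) (nat_lit 157) (nat_lit 0) (nat_lit 9) (nat_lit 10) (nat_lit 0) (nat_lit 8) (nat_lit 10) (by decide +kernel)
theorem L14964 : W_1 (nat_lit 3) (nat_lit 0x10000000048003c00080010000a0000000000000000000000000000000) (nat_lit 0x0) (nat_lit 0x1000c00006000000000000000000000000000000000000000) := T_1 (nat_lit 178) (nat_lit 192) (nat_lit 1) (nat_lit 8) (nat_lit 10) L14963 (by decide +kernel)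
theorem L14965 : W_1 (nat_lit 4) (nat_lit 0x10000000040003c00080010000a0000000000000000000000000000000) (nat_lit 0x0) (nat_lit 0x1c00c00006000000000000000000000000000000000000000) := T_1 (nat_lit 191) (nat_lit 190) (nat_lit 1) (nat_lit 7) (nat_lit 10) L14964 (by decide +kernel)
theorem L14966 : W_1 (nat_lit 5) (nat_lit 0x10000000040003800080010000a0000000000000000000000000000000) (nat_lit 0x0) (nat_lit 0x9c00c40006000000000000000000000000000000000000000) := T_1 (nat_lit 174) (nat_lit 195) (nat_lit 3) (nat_lit 4) (nat_lit 10) L14965 (by decide +kernel)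
theorem L14967 : W_1 (nat_lit 6) (nat_lit 0x1000000004000380008001000080000000000000000000000000000000) (nat_lit 0x0) (nat_lit 0x9c00c40006000400020000000000000000000000000000000) := T_1 (nat_lit 125) (nat_lit 142) (nat_lit 7) (nat_lit 6) (nat_lit 7) L14966 (by decide +kernel)
theorem L14968 : W_1 (nat_lit 7) (nat_lit 0x4000380008001000080000000000000000000000000000000) (nat_lit 0x0) (nat_lit 0x1000080009c00c40006000400020000000000000000000000000000000) := T_1 (nat_lit 228) (nat_lit 211) (nat_lit 4) (nat_lit 7) (nat_lit 13) L14967 (by decide +kernel)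
theorem L14973 : W_1 (nat_lit 2) (nat_lit 0x10000000040003c001e001100080000000000000000000000000000000) (nat_lit 0x0) (nat_lit 0x20001000000000000000008000000000000000000000000000000) := D_1 (nat_lit 192) (nat_lit 209) (nat_lit 123) (nat_lit 4) (nat_lit 5) (nat_lit 12) (nat_lit 7) (nat_lit 4) (nat_lit 7) (by decide +kernel)
theorem L14974 : W_1 (nat_lit 3) (nat_lit 0x100000000400034001e001100080000000000000000000000000000000) (nat_lit 0x0) (nat_lit 0x20009000080000000000008000000000000000000000000000000) := T_1 (nat_lit 175) (nat_lit 195) (nat_lit 3) (nat_lit 4) (nat_lit 10) L14973 (by decide +kernel)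
theorem L14975 : W_1 (nat_lit 4) (nat_lit 0x100000000400030001e001100080000000000000000000000000000000) (nat_lit 0x0) (nat_lit 0x200090000e0000000000008000000000000000000000000000000) := T_1 (nat_lit 174) (nat_lit 173) (nat_lit 1) (nat_lit 7) (nat_lit 9) L14974 (by decide +kernel)
theorem L14976 : W_1 (nat_lit 5) (nat_lit 0x100000000400030001e001000080000000000000000000000000000000) (nat_lit 0x0) (nat_lit 0x200090000e0000000180008000000000000000000000000000000) := T_1 (nat_lit 140) (nat_lit 139) (nat_lit 0) (nat_lit 7) (nat_lit 9) L14975 (by decide +kernel)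
theorem L14977 : W_1 (nat_lit 6) (nat_lit 0x100000000400030000e001000080000000000000000000000000000000) (nat_lit 0x0) (nat_lit 0x200090000e0010000980008000000000000000000000000000000) := T_1 (nat_lit 160) (nat_lit 143) (nat_lit 2) (nat_lit 4) (nat_lit 9) L14976 (by decide +kernel)
theorem L14978 : W_1 (nat_lit 7) (nat_lit 0x100000000400030000c001000080000000000000000000000000000000) (nat_lit 0x0) (nat_lit 0x200090000e0013000980008000000000000000000000000000000) := T_1 (nat_lit 157) (nat_lit 156) (nat_lit 3) (nat_lit 3) (nat_lit 9) L14977 (by decide +kernel)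
theorem L14979 : W_1 (nat_lit 8) (nat_lit 0x400030000c001000080000000000000000000000000000000) (nat_lit 0x0) (nat_lit 0x10000a00090000e0013000980008000000000000000000000000000000) := T_1 (nat_lit 228) (nat_lit 211) (nat_lit 4) (nat_lit 7) (nat_lit 13) L14978 (by decide +kernel)
theorem L15056 : W_1 (nat_lit 2) (nat_lit 0xf000300000001000080000000000000000000000000000000) (nat_lit 0x0) (nat_lit 0x100000c0000000000000000000000000000000000000000000) := D_1 (nat_lit 175) (nat_lit 174) (nat_lit 196) (nat_lit 3) (nat_lit 4) (nat_lit 10) (nat_lit 0) (nat_lit 9) (nat_lit 11) (by decide +kernel)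
theorem L15170 : W_1 (nat_lit 2) (nat_lit 0x700018000f000740000001000080000000000000000000000000000000) (nat_lit 0x0) (nat_lit 0x18000040000000000000000000000000000000000000000000000000000) := D_1 (nat_lit 231) (nat_lit 232) (nat_lit 210) (nat_lit 0) (nat_lit 11) (nat_lit 13) (nat_lit 0) (nat_lit 10) (nat_lit 13) (by decide +kernel)
theorem L15180 : W_1 (nat_lit 2) (nat_lit 0x6000300008001000080000000000000000000000000000000) (nat_lit 0x0) (nat_lit 0x80000000000000000400020000000000000000000000000000000) := D_1 (nat_lit 142) (nat_lit 211) (nat_lit 125) (nat_lit 7) (nat_lit 6) (nat_lit 8) (nat_lit 7) (nat_lit 6) (nat_lit 7) (by decide +kernel)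
theorem L15182 : W_1 (nat_lit 2) (nat_lit 0x800040006000300008001000080000000000000000000000000000000) (nat_lit 0x0) (nat_lit 0x8000400020000000000000000000000000000000000000000000000000000) := D_1 (nat_lit 226) (nat_lit 209) (nat_lit 243) (nat_lit 5) (nat_lit 6) (nat_lit 9) (nat_lit 5) (nat_lit 6) (nat_lit 10) (by decide +kernel)
theorem L15183 : W_1 (nat_lit 3) (nat_lit 0x40006000300008001000080000000000000000000000000000000) (nat_lit 0x0) (nat_lit 0x18000c00020000000000000000000000000000000000000000000000000000) := T_1 (nat_lit 227) (nat_lit 244) (nat_lit 6) (nat_lit 6) (nat_lit 14) L15182 (by decide +kernel)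
theorem L15186 : W_1 (nat_lit 2) (nat_lit 0x2000f0006800300008001000080000000000000000000000000000000) (nat_lit 0x0) (nat_lit 0x100001000400000000000000000000000000000000000000000000) := D_1 (nat_lit 192) (nat_lit 212) (nat_lit 178) (nat_lit 3) (nat_lit 4) (nat_lit 11) (nat_lit 2) (nat_lit 4) (nat_lit 11) (by decide +kernel)
theorem L15187 : W_1 (nat_lit 3) (nat_lit 0x2000f0006000300008001000080000000000000000000000000000000) (nat_lit 0x0) (nat_lit 0x100001c00400000000000000000000000000000000000000000000) := T_1 (nat_lit 191) (nat_lit 190) (nat_lit 0) (nat_lit 7) (nat_lit 12) L15186 (by decide +kernel)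
theorem L15188 : W_1 (nat_lit 4) (nat_lit 0xf0006000300008001000080000000000000000000000000000000) (nat_lit 0x0) (nat_lit 0x300100001c00400000000000000000000000000000000000000000000) := T_1 (nat_lit 225) (nat_lit 224) (nat_lit 1) (nat_lit 7) (nat_lit 12) L15187 (by decide +kernel)
theorem L15195 : W_1 (nat_lit 2) (nat_lit 0x9000f800300000001000080000000000000000000000000000000) (nat_lit 0x0) (nat_lit 0x30000080000000000000000000000000000000000000000000) := D_1 (nat_lit 196) (nat_lit 197) (nat_lit 175) (nat_lit 0) (nat_lit 10) (nat_lit 11) (nat_lit 0) (nat_lit 9) (nat_lit 11) (by decide +kernel)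
theorem L15196 : W_1 (nat_lit 3) (nat_lit 0x90007800300000001000080000000000000000000000000000000) (nat_lit 0x0) (nat_lit 0x20038000080000000000000000000000000000000000000000000) := T_1 (nat_lit 195) (nat_lit 209) (nat_lit 1) (nat_lit 8) (nat_lit 11) L15195 (by decide +kernel)
theorem L15197 : W_1 (nat_lit 4) (nat_lit 0x10007800300000001000080000000000000000000000000000000) (nat_lit 0x0) (nat_lit 0x1a0038000080000000000000000000000000000000000000000000) := T_1 (nat_lit 211) (nat_lit 212) (nat_lit 3) (nat_lit 4) (nat_lit 11) L15196 (by decide +kernel)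
theorem L15198 : W_1 (nat_lit 5) (nat_lit 0x7800300000001000080000000000000000000000000000000) (nat_lit 0x0) (nat_lit 0x1b8038000080000000000000000000000000000000000000000000) := T_1 (nat_lit 208) (nat_lit 207) (nat_lit 1) (nat_lit 7) (nat_lit 11) L15197 (by decide +kernel)
theorem L15199 : W_1 (nat_lit 6) (nat_lit 0x7000300000001000080000000000000000000000000000000) (nat_lit 0x0) (nat_lit 0x1b8038c00080000000000000000000000000000000000000000000) := T_1 (nat_lit 191) (nat_lit 190) (nat_lit 2) (nat_lit 3) (nat_lit 11) L15198 (by decide +kernel)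
theorem L15243 : W_1 (nat_lit 2) (nat_lit 0xe000c0006000300000001000080000000000000000000000000000000) (nat_lit 0x0) (nat_lit 0x320000000000000000000000000000000000000000000000000000) := D_1 (nat_lit 212) (nat_lit 213) (nat_lit 209) (nat_lit 1) (nat_lit 9) (nat_lit 12) (nat_lit 1) (nat_lit 8) (nat_lit 12) (by decide +kernel)
theorem L15244 : W_1 (nat_lit 3) (nat_lit 0xc000c0006000300000001000080000000000000000000000000000000) (nat_lit 0x0) (nat_lit 0x300320000000000000000000000000000000000000000000000000000) := T_1 (nat_lit 225) (nat_lit 224) (nat_lit 2) (nat_lit 3) (nat_lit 13) L15243 (by decide +kernel)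
theorem L15245 : W_1 (nat_lit 4) (nat_lit 0x8000c0006000300000001000080000000000000000000000000000000) (nat_lit 0x0) (nat_lit 0x8000700320000000000000000000000000000000000000000000000000000) := T_1 (nat_lit 226) (nat_lit 243) (nat_lit 5) (nat_lit 6) (nat_lit 10) L15244 (by decide +kernel)
theorem L15246 : W_1 (nat_lit 5) (nat_lit 0xc0006000300000001000080000000000000000000000000000000) (nat_lit 0x0) (nat_lit 0x18000f00320000000000000000000000000000000000000000000000000000) := T_1 (nat_lit 227) (nat_lit 244) (nat_lit 6) (nat_lit 6) (nat_lit 14) L15245 (by decide +kernel)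
theorem L15247 : W_1 (nat_lit 2) (nat_lit 0x3d000c0006000300000001000080000000000000000000000000000000) (nat_lit 0x0) (nat_lit 0x4000030000000000000000000000000000000000000000000000000000) := D_1 (nat_lit 209) (nat_lit 208) (nat_lit 230) (nat_lit 3) (nat_lit 4) (nat_lit 12) (nat_lit 0) (nat_lit 9) (nat_lit 13) (by decide +kernel)
theorem L15248 : W_1 (nat_lit 3) (nat_lit 0x1d000c0006000300000001000080000000000000000000000000000000) (nat_lit 0x0) (nat_lit 0x40006000030000000000000000000000000000000000000000000000000000) := T_1 (nat_lit 229) (nat_lit 246) (nat_lit 7) (nat_lit 7) (nat_lit 10) L15247 (by decide +kernel)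
theorem L15249 : W_1 (nat_lit 4) (nat_lit 0x1c000c0006000300000001000080000000000000000000000000000000) (nat_lit 0x0) (nat_lit 0x40006300030000000000000000000000000000000000000000000000000000) := T_1 (nat_lit 224) (nat_lit 225) (nat_lit 2) (nat_lit 3) (nat_lit 13) L15248 (by decide +kernel)
theorem L15250 : W_1 (nat_lit 5) (nat_lit 0x18000c0006000300000001000080000000000000000000000000000000) (nat_lit 0x0) (nat_lit 0x48006700030000000000000000000000000000000000000000000000000000) := T_1 (nat_lit 226) (nat_lit 243) (nat_lit 5) (nat_lit 6) (nat_lit 10) L15249 (by decide +kernel)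
theorem L15251 : W_1 (nat_lit 6) (nat_lit 0x8000c0006000300000001000080000000000000000000000000000000) (nat_lit 0x0) (nat_lit 0x68007700030000000000000000000000000000000000000000000000000000) := T_1 (nat_lit 228) (nat_lit 245) (nat_lit 7) (nat_lit 6) (nat_lit 10) L15250 (by decide +kernel)
theorem L15252 : W_1 (nat_lit 7) (nat_lit 0xc0006000300000001000080000000000000000000000000000000) (nat_lit 0x0) (nat_lit 0x78007f00030000000000000000000000000000000000000000000000000000) := T_1 (nat_lit 227) (nat_lit 244) (nat_lit 6) (nat_lit 6) (nat_lit 14) L15251 (by decide +kernel)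
theorem L15253 : W_1 (nat_lit 5) (nat_lit 0xc0006000300000001000080000000000000000000000000000000) (nat_lit 0x0) (nat_lit 0x6000f000130000000000000000000000000000000000000000000000000000) := T_1 (nat_lit 228) (nat_lit 245) (nat_lit 4) (nat_lit 7) (nat_lit 14) L6333 (by decide +kernel)
theorem L15254 : W_1 (nat_lit 2) (nat_lit 0xbc000c0006000300000001000080000000000000000000000000000000) (nat_lit 0x0) (nat_lit 0x200300000000000000000000000000000000000000000000000000000) := D_1 (nat_lit 212) (nat_lit 213) (nat_lit 225) (nat_lit 2) (nat_lit 5) (nat_lit 13) (nat_lit 2) (nat_lit 4) (nat_lit 13) (by decide +kernel)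
theorem L15255 : W_1 (nat_lit 3) (nat_lit 0xb8000c0006000300000001000080000000000000000000000000000000) (nat_lit 0x0) (nat_lit 0x8000600300000000000000000000000000000000000000000000000000000) := T_1 (nat_lit 226) (nat_lit 243) (nat_lit 5) (nat_lit 6) (nat_lit 10) L15254 (by decide +kernel)
theorem L15256 : W_1 (nat_lit 4) (nat_lit 0x38000c0006000300000001000080000000000000000000000000000000) (nat_lit 0x0) (nat_lit 0x800c600300000000000000000000000000000000000000000000000000000) := T_1 (nat_lit 231) (nat_lit 230) (nat_lit 0) (nat_lit 10) (nat_lit 13) L15255 (by decide +kernel)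
theorem L15257 : W_1 (nat_lit 5) (nat_lit 0x18000c0006000300000001000080000000000000000000000000000000) (nat_lit 0x0) (nat_lit 0x4800e600300000000000000000000000000000000000000000000000000000) := T_1 (nat_lit 229) (nat_lit 246) (nat_lit 7) (nat_lit 7) (nat_lit 10) L15256 (by decide +kernel)
theorem L15258 : W_1 (nat_lit 6) (nat_lit 0x10000c0006000300000001000080000000000000000000000000000000) (nat_lit 0x0) (nat_lit 0x5800ee00300000000000000000000000000000000000000000000000000000) := T_1 (nat_lit 227) (nat_lit 244) (nat_lit 6) (nat_lit 6) (nat_lit 14) L15257 (by decide +kernel)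
theorem L15259 : W_1 (nat_lit 7) (nat_lit 0xc0006000300000001000080000000000000000000000000000000) (nat_lit 0x0) (nat_lit 0x7800fe00300000000000000000000000000000000000000000000000000000) := T_1 (nat_lit 228) (nat_lit 245) (nat_lit 4) (nat_lit 7) (nat_lit 14) L15258 (by decide +kernel)
theorem L15274 : W_1 (nat_lit 2) (nat_lit 0x7000300000001400080000000000000000000000000000000) (nat_lit 0x0) (nat_lit 0x20000000000008000000020000000000000000000000000000000) := D_1 (nat_lit 159) (nat_lit 209) (nat_lit 125) (nat_lit 5) (nat_lit 6) (nat_lit 8) (nat_lit 7) (nat_lit 6) (nat_lit 7) (by decide +kernel)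
theorem L15322 : W_1 (nat_lit 2) (nat_lit 0xf000340008001c00080000000000000000000000000000000) (nat_lit 0x0) (nat_lit 0xc00020000000000000000000000000000000000000000000) := D_1 (nat_lit 191) (nat_lit 173) (nat_lit 190) (nat_lit 0) (nat_lit 7) (nat_lit 11) (nat_lit 2) (nat_lit 3) (nat_lit 11) (by decide +kernel)
theorem L15323 : W_1 (nat_lit 3) (nat_lit 0xe000340008001c00080000000000000000000000000000000) (nat_lit 0x0) (nat_lit 0x20001c00020000000000000000000000000000000000000000000) := T_1 (nat_lit 192) (nat_lit 209) (nat_lit 5) (nat_lit 6) (nat_lit 8) L15322 (by decide +kernel)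
theorem L15333 : W_1 (nat_lit 2) (nat_lit 0x100008000c000300000001000080000000000000000000000000000000) (nat_lit 0x0) (nat_lit 0x20000000000002000400000000000000000000000000000000000000000000) := D_1 (nat_lit 245) (nat_lit 193) (nat_lit 178) (nat_lit 4) (nat_lit 7) (nat_lit 14) (nat_lit 6) (nat_lit 7) (nat_lit 14) (by decide +kernel)
theorem L15334 : W_1 (nat_lit 3) (nat_lit 0x8000c000300000001000080000000000000000000000000000000) (nat_lit 0x0) (nat_lit 0x20001000000002000400008000000000000000000000000000000000000000) := T_1 (nat_lit 228) (nat_lit 159) (nat_lit 4) (nat_lit 7) (nat_lit 13) L15333 (by decide +kernel)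
theorem L15619 : W_1 (nat_lit 2) (nat_lit 0x4003c0029001e000300000001000080000000000000000000000000000000) (nat_lit 0x0) (nat_lit 0x2000200008000000000000000000000000000000000000000000000000000) := D_1 (nat_lit 225) (nat_lit 241) (nat_lit 207) (nat_lit 1) (nat_lit 7) (nat_lit 13) (nat_lit 0) (nat_lit 7) (nat_lit 13) (by decide +kernel)
theorem L15620 : W_1 (nat_lit 3) (nat_lit 0x4003c0028001e000300000001000080000000000000000000000000000000) (nat_lit 0x0) (nat_lit 0x2000200038000000000000000000000000000000000000000000000000000) := T_1 (nat_lit 208) (nat_lit 209) (nat_lit 0) (nat_lit 8) (nat_lit 13) L15619 (by decide +kernel)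
theorem L15621 : W_1 (nat_lit 4) (nat_lit 0x3c0028001e000300000001000080000000000000000000000000000000) (nat_lit 0x0) (nat_lit 0xe000200038000000000000000000000000000000000000000000000000000) := T_1 (nat_lit 242) (nat_lit 243) (nat_lit 1) (nat_lit 8) (nat_lit 13) L15620 (by decide +kernel)
theorem L15622 : W_1 (nat_lit 5) (nat_lit 0x380028001e000300000001000080000000000000000000000000000000) (nat_lit 0x0) (nat_lit 0xe000600138000000000000000000000000000000000000000000000000000) := T_1 (nat_lit 226) (nat_lit 212) (nat_lit 2) (nat_lit 5) (nat_lit 13) L15621 (by decide +kernel)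
theorem L15623 : W_1 (nat_lit 6) (nat_lit 0x300028001e000300000001000080000000000000000000000000000000) (nat_lit 0x0) (nat_lit 0x1e000e00138000000000000000000000000000000000000000000000000000) := T_1 (nat_lit 227) (nat_lit 244) (nat_lit 5) (nat_lit 7) (nat_lit 10) L15622 (by decide +kernel)
theorem L15624 : W_1 (nat_lit 7) (nat_lit 0x100028001e000300000001000080000000000000000000000000000000) (nat_lit 0x0) (nat_lit 0x5e002e00138000000000000000000000000000000000000000000000000000) := T_1 (nat_lit 229) (nat_lit 246) (nat_lit 7) (nat_lit 7) (nat_lit 10) L15623 (by decide +kernel)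
theorem L15625 : W_1 (nat_lit 8) (nat_lit 0x100008001e000300000001000080000000000000000000000000000000) (nat_lit 0x0) (nat_lit 0x5e002e00738000000000000000000000000000000000000000000000000000) := T_1 (nat_lit 213) (nat_lit 214) (nat_lit 3) (nat_lit 6) (nat_lit 11) L15624 (by decide +kernel)
theorem L15626 : W_1 (nat_lit 9) (nat_lit 0x8001e000300000001000080000000000000000000000000000000) (nat_lit 0x0) (nat_lit 0x7e003e00738000000000000000000000000000000000000000000000000000) := T_1 (nat_lit 228) (nat_lit 245) (nat_lit 4) (nat_lit 7) (nat_lit 14) L15625 (by decide +kernel)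
theorem L15627 : W_1 (nat_lit 10) (nat_lit 0x8000e000300000001000080000000000000000000000000000000) (nat_lit 0x0) (nat_lit 0x7e003e00738030000000000000000000000000000000000000000000000000) := T_1 (nat_lit 196) (nat_lit 197) (nat_lit 0) (nat_lit 10) (nat_lit 11) L15626 (by decide +kernel)
theorem L15628 : W_1 (nat_lit 2) (nat_lit 0x400028001e000f00048001000080000000000000000000000000000000) (nat_lit 0x0) (nat_lit 0x40002000100000000000000000000000000000000000000000000000000000) := D_1 (nat_lit 229) (nat_lit 212) (nat_lit 246) (nat_lit 6) (nat_lit 8) (nat_lit 13) (nat_lit 5) (nat_lit 9) (nat_lit 10) (by decide +kernel)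
theorem L15629 : W_1 (nat_lit 3) (nat_lit 0x28001e000f00048001000080000000000000000000000000000000) (nat_lit 0x0) (nat_lit 0xc0006000100000000000000000000000000000000000000000000000000000) := T_1 (nat_lit 230) (nat_lit 247) (nat_lit 4) (nat_lit 9) (nat_lit 14) L15628 (by decide +kernel)
theorem L15630 : W_1 (nat_lit 4) (nat_lit 0x28001e000f00008001000080000000000000000000000000000000) (nat_lit 0x0) (nat_lit 0xc00060001000000000000c0000000000000000000000000000000000000000) := T_1 (nat_lit 162) (nat_lit 163) (nat_lit 2) (nat_lit 6) (nat_lit 10) L15629 (by decide +kernel)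
theorem L15631 : W_1 (nat_lit 5) (nat_lit 0x28001e000b00008001000080000000000000000000000000000000) (nat_lit 0x0) (nat_lit 0xc00060001000000004000c4000000000000000000000000000000000000000) := T_1 (nat_lit 178) (nat_lit 158) (nat_lit 0) (nat_lit 9) (nat_lit 10) L15630 (by decide +kernel)
theorem L15632 : W_1 (nat_lit 6) (nat_lit 0x28001e000300008001000080000000000000000000000000000000) (nat_lit 0x0) (nat_lit 0xc0006000100000001c000c4000000000000000000000000000000000000000) := T_1 (nat_lit 179) (nat_lit 180) (nat_lit 2) (nat_lit 6) (nat_lit 11) L15631 (by decide +kernel)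
theorem L15633 : W_1 (nat_lit 7) (nat_lit 0x8001e000300008001000080000000000000000000000000000000) (nat_lit 0x0) (nat_lit 0xc0006000700000001c000c4000000000000000000000000000000000000000) := T_1 (nat_lit 213) (nat_lit 214) (nat_lit 3) (nat_lit 6) (nat_lit 11) L15632 (by decide +kernel)
theorem L15637 : W_1 (nat_lit 6) (nat_lit 0x1e000300000001000080000000000000000000000000000000) (nat_lit 0x0) (nat_lit 0x738001c01800000000000000000000000000000000000000000000) := T_1 (nat_lit 179) (nat_lit 180) (nat_lit 2) (nat_lit 6) (nat_lit 11) L5007 (by decide +kernel)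
theorem L15638 : W_1 (nat_lit 7) (nat_lit 0xe000300000001000080000000000000000000000000000000) (nat_lit 0x0) (nat_lit 0x738031c01800000000000000000000000000000000000000000000) := T_1 (nat_lit 196) (nat_lit 197) (nat_lit 0) (nat_lit 10) (nat_lit 11) L15637 (by decide +kernel)
theorem L15639 : W_1 (nat_lit 2) (nat_lit 0x20001f000300000001000080000000000000000000000000000000) (nat_lit 0x0) (nat_lit 0xc00400000000000000000000000000000000000000000000) := D_1 (nat_lit 191) (nat_lit 178) (nat_lit 190) (nat_lit 2) (nat_lit 4) (nat_lit 11) (nat_lit 2) (nat_lit 3) (nat_lit 11) (by decide +kernel)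
theorem L15640 : W_1 (nat_lit 3) (nat_lit 0x20001e000300000001000080000000000000000000000000000000) (nat_lit 0x0) (nat_lit 0x100001c00400000000000000000000000000000000000000000000) := T_1 (nat_lit 192) (nat_lit 212) (nat_lit 3) (nat_lit 5) (nat_lit 11) L15639 (by decide +kernel)
theorem L15641 : W_1 (nat_lit 4) (nat_lit 0x1e000300000001000080000000000000000000000000000000) (nat_lit 0x0) (nat_lit 0x700001c00400000000000000000000000000000000000000000000) := T_1 (nat_lit 213) (nat_lit 214) (nat_lit 3) (nat_lit 6) (nat_lit 11) L15640 (by decide +kernel)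
theorem L15642 : W_1 (nat_lit 5) (nat_lit 0xe000300000001000080000000000000000000000000000000) (nat_lit 0x0) (nat_lit 0x700031c00400000000000000000000000000000000000000000000) := T_1 (nat_lit 196) (nat_lit 197) (nat_lit 0) (nat_lit 10) (nat_lit 11) L15641 (by decide +kernel)
theorem L15643 : W_1 (nat_lit 2) (nat_lit 0x1f800b00000001000080000000000000000000000000000000) (nat_lit 0x0) (nat_lit 0x38000000000000000000000000000000000000000000000000000) := D_1 (nat_lit 208) (nat_lit 209) (nat_lit 207) (nat_lit 1) (nat_lit 8) (nat_lit 11) (nat_lit 1) (nat_lit 7) (nat_lit 11) (by decide +kernel)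
theorem L15644 : W_1 (nat_lit 3) (nat_lit 0x1f000b00000001000080000000000000000000000000000000) (nat_lit 0x0) (nat_lit 0x38000c00000000000000000000000000000000000000000000000) := T_1 (nat_lit 191) (nat_lit 190) (nat_lit 2) (nat_lit 3) (nat_lit 11) L15643 (by decide +kernel)
theorem L15645 : W_1 (nat_lit 4) (nat_lit 0x1e000b00000001000080000000000000000000000000000000) (nat_lit 0x0) (nat_lit 0x38001c00400000000000000000000000000000000000000000000) := T_1 (nat_lit 192) (nat_lit 178) (nat_lit 2) (nat_lit 5) (nat_lit 11) L15644 (by decide +kernel)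
theorem L15646 : W_1 (nat_lit 5) (nat_lit 0x1e000300000001000080000000000000000000000000000000) (nat_lit 0x0) (nat_lit 0x38001c01c00000000000000000000000000000000000000000000) := T_1 (nat_lit 179) (nat_lit 180) (nat_lit 2) (nat_lit 6) (nat_lit 11) L15645 (by decide +kernel)
theorem L15647 : W_1 (nat_lit 6) (nat_lit 0xe000300000001000080000000000000000000000000000000) (nat_lit 0x0) (nat_lit 0x38031c01c00000000000000000000000000000000000000000000) := T_1 (nat_lit 196) (nat_lit 197) (nat_lit 0) (nat_lit 10) (nat_lit 11) L15646 (by decide +kernel)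
theorem L15717 : W_1 (nat_lit 2) (nat_lit 0x40000e0012000f000b80000001000080000000000000000000000000000000) (nat_lit 0x0) (nat_lit 0x20001000080000000000000000000000000000000000000000000000000000) := D_1 (nat_lit 228) (nat_lit 245) (nat_lit 211) (nat_lit 3) (nat_lit 4) (nat_lit 13) (nat_lit 2) (nat_lit 4) (nat_lit 13) (by decide +kernel)
theorem L15718 : W_1 (nat_lit 3) (nat_lit 0x40000c0012000f000b80000001000080000000000000000000000000000000) (nat_lit 0x0) (nat_lit 0x24001200080000000000000000000000000000000000000000000000000000) := T_1 (nat_lit 225) (nat_lit 242) (nat_lit 5) (nat_lit 5) (nat_lit 10) L15717 (by decide +kernel)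
theorem L15719 : W_1 (nat_lit 4) (nat_lit 0x4000040012000f000b80000001000080000000000000000000000000000000) (nat_lit 0x0) (nat_lit 0x34001a00080000000000000000000000000000000000000000000000000000) := T_1 (nat_lit 227) (nat_lit 244) (nat_lit 7) (nat_lit 5) (nat_lit 10) L15718 (by decide +kernel)
theorem L15720 : W_1 (nat_lit 5) (nat_lit 0x40012000f000b80000001000080000000000000000000000000000000) (nat_lit 0x0) (nat_lit 0x74003a00080000000000000000000000000000000000000000000000000000) := T_1 (nat_lit 246) (nat_lit 229) (nat_lit 4) (nat_lit 8) (nat_lit 14) L15719 (by decide +kernel)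
theorem L15721 : W_1 (nat_lit 6) (nat_lit 0x12000f000b80000001000080000000000000000000000000000000) (nat_lit 0x0) (nat_lit 0x7c003e00080000000000000000000000000000000000000000000000000000) := T_1 (nat_lit 226) (nat_lit 243) (nat_lit 6) (nat_lit 5) (nat_lit 14) L15720 (by decide +kernel)
theorem L15726 : W_1 (nat_lit 2) (nat_lit 0x2000f000780004001a00080000000000000000000000000000000) (nat_lit 0x0) (nat_lit 0x400120000000000000000000000000000000) := D_1 (nat_lit 142) (nat_lit 125) (nat_lit 128) (nat_lit 6) (nat_lit 5) (nat_lit 11) (nat_lit 2) (nat_lit 5) (nat_lit 8) (by decide +kernel)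
theorem L15727 : W_1 (nat_lit 3) (nat_lit 0x2000f000780004001800080000000000000000000000000000000) (nat_lit 0x0) (nat_lit 0x600130000000000000000000000000000000) := T_1 (nat_lit 141) (nat_lit 124) (nat_lit 7) (nat_lit 5) (nat_lit 7) L15726 (by decide +kernel)
theorem L15728 : W_1 (nat_lit 4) (nat_lit 0xf000780004001800080000000000000000000000000000000) (nat_lit 0x0) (nat_lit 0x30000000000000000600130000000000000000000000000000000) := T_1 (nat_lit 209) (nat_lit 208) (nat_lit 1) (nat_lit 8) (nat_lit 11) L15727 (by decide +kernel)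
theorem L15729 : W_1 (nat_lit 5) (nat_lit 0xf000780000001800080000000000000000000000000000000) (nat_lit 0x0) (nat_lit 0x30000000000006000600130000000000000000000000000000000) := T_1 (nat_lit 158) (nat_lit 157) (nat_lit 0) (nat_lit 8) (nat_lit 10) L15728 (by decide +kernel)
theorem L15744 : W_1 (nat_lit 2) (nat_lit 0x8000600020001e000b00010001000080000000000000000000000000000000) (nat_lit 0x0) (nat_lit 0x2000100008000000000000000000000000000000000000000000000000000000000) := D_1 (nat_lit 248) (nat_lit 231) (nat_lit 265) (nat_lit 7) (nat_lit 9) (nat_lit 10) (nat_lit 7) (nat_lit 9) (nat_lit 11) (by decide +kernel)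
theorem L15745 : W_1 (nat_lit 3) (nat_lit 0x600020001e000b00010001000080000000000000000000000000000000) (nat_lit 0x0) (nat_lit 0x2000180008000000000000400000000000000000000000000000000000000000000) := T_1 (nat_lit 247) (nat_lit 178) (nat_lit 4) (nat_lit 9) (nat_lit 14) L15744 (by decide +kernel)
theorem L15746 : W_1 (nat_lit 4) (nat_lit 0x200020001e000b00010001000080000000000000000000000000000000) (nat_lit 0x0) (nat_lit 0x20001c000c000000000000400000000000000000000000000000000000000000000) := T_1 (nat_lit 230) (nat_lit 246) (nat_lit 5) (nat_lit 9) (nat_lit 10) L15745 (by decide +kernel)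
theorem L15747 : W_1 (nat_lit 5) (nat_lit 0x200000001e000b00010001000080000000000000000000000000000000) (nat_lit 0x0) (nat_lit 0x20001c000c000600000000400000000000000000000000000000000000000000000) := T_1 (nat_lit 213) (nat_lit 214) (nat_lit 3) (nat_lit 6) (nat_lit 11) L15746 (by decide +kernel)
theorem L15768 : W_1 (nat_lit 2) (nat_lit 0xc0003800040016000a0000000000000000000000000000000) (nat_lit 0x0) (nat_lit 0x10001000080000000000000000000000) := D_1 (nat_lit 108) (nat_lit 124) (nat_lit 91) (nat_lit 6) (nat_lit 5) (nat_lit 10) (nat_lit 5) (nat_lit 6) (nat_lit 5) (by decide +kernel)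
theorem L15769 : W_1 (nat_lit 3) (nat_lit 0xc0003800000016000a0000000000000000000000000000000) (nat_lit 0x0) (nat_lit 0x1000000004000000010001000080000000000000000000000) := T_1 (nat_lit 158) (nat_lit 192) (nat_lit 6) (nat_lit 5) (nat_lit 11) L15768 (by decide +kernel)
theorem L15770 : W_1 (nat_lit 4) (nat_lit 0xc000380000001600080000000000000000000000000000000) (nat_lit 0x0) (nat_lit 0x100000000c000000030001000080000000000000000000000) := T_1 (nat_lit 125) (nat_lit 159) (nat_lit 7) (nat_lit 6) (nat_lit 7) L15769 (by decide +kernel)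
theorem L15771 : W_1 (nat_lit 5) (nat_lit 0xc000300000001600080000000000000000000000000000000) (nat_lit 0x0) (nat_lit 0x10000c000c000000030001000080000000000000000000000) := T_1 (nat_lit 175) (nat_lit 174) (nat_lit 3) (nat_lit 4) (nat_lit 10) L15770 (by decide +kernel)
theorem L15807 : W_1 (nat_lit 2) (nat_lit 0x4000f00008001000080000000000000000000000000000000) (nat_lit 0x0) (nat_lit 0x3001000000000000000000000000000000000000000000000) := D_1 (nat_lit 193) (nat_lit 192) (nat_lit 180) (nat_lit 1) (nat_lit 9) (nat_lit 10) (nat_lit 1) (nat_lit 10) (nat_lit 10) (by decide +kernel)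
theorem L15809 : W_1 (nat_lit 2) (nat_lit 0x40003e0008001000080000000000000000000000000000000) (nat_lit 0x0) (nat_lit 0x3800000000000000000000000000000000000000) := D_1 (nat_lit 156) (nat_lit 157) (nat_lit 155) (nat_lit 0) (nat_lit 7) (nat_lit 10) (nat_lit 0) (nat_lit 6) (nat_lit 10) (by decide +kernel)
theorem L15938 : W_1 (nat_lit 2) (nat_lit 0x2000d00078000c0010000a0000000000000000000000000000000) (nat_lit 0x0) (nat_lit 0x200010002000000000000000000000000000000000000000000000000) := D_1 (nat_lit 208) (nat_lit 193) (nat_lit 225) (nat_lit 1) (nat_lit 8) (nat_lit 11) (nat_lit 5) (nat_lit 5) (nat_lit 9) (by decide +kernel)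
theorem L15939 : W_1 (nat_lit 3) (nat_lit 0x2000d0007800080010000a0000000000000000000000000000000) (nat_lit 0x0) (nat_lit 0x200010002000000006000000000000000000000000000000000000000) := T_1 (nat_lit 158) (nat_lit 157) (nat_lit 0) (nat_lit 8) (nat_lit 10) L15938 (by decide +kernel)
theorem L15940 : W_1 (nat_lit 4) (nat_lit 0xd0007800080010000a0000000000000000000000000000000) (nat_lit 0x0) (nat_lit 0x600030002000000006000000000000000000000000000000000000000) := T_1 (nat_lit 209) (nat_lit 226) (nat_lit 6) (nat_lit 5) (nat_lit 13) L15939 (by decide +kernel)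
theorem L15985 : W_1 (nat_lit 2) (nat_lit 0x10000c000300008001400080000000000000000000000000000000) (nat_lit 0x0) (nat_lit 0x1000080000000000010000000000000000000000000000000000000000) := D_1 (nat_lit 211) (nat_lit 228) (nat_lit 160) (nat_lit 4) (nat_lit 7) (nat_lit 13) (nat_lit 4) (nat_lit 7) (nat_lit 12) (by decide +kernel)
theorem L15986 : W_1 (nat_lit 3) (nat_lit 0x10000c000300000001400080000000000000000000000000000000) (nat_lit 0x0) (nat_lit 0x1000080000000000018000000020000000000000000000000000000000) := T_1 (nat_lit 159) (nat_lit 125) (nat_lit 7) (nat_lit 6) (nat_lit 7) L15985 (by decide +kernel)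
theorem L15987 : W_1 (nat_lit 2) (nat_lit 0x10000c000340008001400080000000000000000000000000000000) (nat_lit 0x0) (nat_lit 0x1000080002000000000000000000000000000000000000000000000000) := D_1 (nat_lit 211) (nat_lit 228) (nat_lit 193) (nat_lit 4) (nat_lit 7) (nat_lit 13) (nat_lit 7) (nat_lit 6) (nat_lit 8) (by decide +kernel)
theorem L15994 : W_1 (nat_lit 2) (nat_lit 0x1c000600030001d001000080000000000000000000000000000000) (nat_lit 0x0) (nat_lit 0x200001800000000000000000000000000000000000000000000000) := D_1 (nat_lit 192) (nat_lit 191) (nat_lit 213) (nat_lit 3) (nat_lit 4) (nat_lit 11) (nat_lit 0) (nat_lit 9) (nat_lit 12) (by decide +kernel)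
theorem L16001 : W_1 (nat_lit 2) (nat_lit 0x1c0006000b0001c001000080000000000000000000000000000000) (nat_lit 0x0) (nat_lit 0x200001800000000000000000000000000000000000000000000000) := D_1 (nat_lit 192) (nat_lit 191) (nat_lit 213) (nat_lit 3) (nat_lit 4) (nat_lit 11) (nat_lit 0) (nat_lit 9) (nat_lit 12) (by decide +kernel)
theorem L16002 : W_1 (nat_lit 3) (nat_lit 0xc0006000b0001c001000080000000000000000000000000000000) (nat_lit 0x0) (nat_lit 0x2000300001800000000000000000000000000000000000000000000000) := T_1 (nat_lit 212) (nat_lit 229) (nat_lit 7) (nat_lit 7) (nat_lit 9) L16001 (by decide +kernel)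
theorem L16003 : W_1 (nat_lit 4) (nat_lit 0xc0004000b0001c001000080000000000000000000000000000000) (nat_lit 0x0) (nat_lit 0x2000300003800000000000200000000000000000000000000000000000) := T_1 (nat_lit 193) (nat_lit 141) (nat_lit 4) (nat_lit 6) (nat_lit 12) L16002 (by decide +kernel)
theorem L16004 : W_1 (nat_lit 5) (nat_lit 0x80004000b0001c001000080000000000000000000000000000000) (nat_lit 0x0) (nat_lit 0x2800340003800000000000200000000000000000000000000000000000) := T_1 (nat_lit 210) (nat_lit 227) (nat_lit 5) (nat_lit 7) (nat_lit 9) L16003 (by decide +kernel)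
theorem L16005 : W_1 (nat_lit 6) (nat_lit 0x80004000b0000c001000080000000000000000000000000000000) (nat_lit 0x0) (nat_lit 0x2800340003800000010000a00000000000000000000000000000000000) := T_1 (nat_lit 160) (nat_lit 143) (nat_lit 6) (nat_lit 7) (nat_lit 11) L16004 (by decide +kernel)
theorem L16013 : W_1 (nat_lit 2) (nat_lit 0xe000300000001000080000000000000000000000000000000) (nat_lit 0x0) (nat_lit 0x30000080000000000000000000000000000000000000000000) := D_1 (nat_lit 196) (nat_lit 175) (nat_lit 197) (nat_lit 0) (nat_lit 9) (nat_lit 11) (nat_lit 0) (nat_lit 10) (nat_lit 11) (by decide +kernel)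
theorem L16058 : W_1 (nat_lit 2) (nat_lit 0xe000700000001000080000000000000000000000000000000) (nat_lit 0x0) (nat_lit 0x1001800000000000000000000000000000000000000000000) := D_1 (nat_lit 179) (nat_lit 192) (nat_lit 180) (nat_lit 2) (nat_lit 5) (nat_lit 11) (nat_lit 1) (nat_lit 10) (nat_lit 10) (by decide +kernel)
theorem L16059 : W_1 (nat_lit 4) (nat_lit 0xe000780000001000080000000000000000000000000000000) (nat_lit 0x0) (nat_lit 0x80004000000000000e000200010000000000000000000000000000000) := T_1 (nat_lit 158) (nat_lit 157) (nat_lit 0) (nat_lit 8) (nat_lit 10) L7688 (by decide +kernel)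
theorem L16132 : W_1 (nat_lit 2) (nat_lit 0x200000000c000f80094001000080000000000000000000000000000000) (nat_lit 0x0) (nat_lit 0x3000100000000000000000000000000000000000000000) := D_1 (nat_lit 180) (nat_lit 181) (nat_lit 164) (nat_lit 1) (nat_lit 11) (nat_lit 10) (nat_lit 2) (nat_lit 7) (nat_lit 10) (by decide +kernel)
theorem L16133 : W_1 (nat_lit 3) (nat_lit 0x200000000c000f80014001000080000000000000000000000000000000) (nat_lit 0x0) (nat_lit 0x30001c0000000000000000000000000000000000000000) := T_1 (nat_lit 163) (nat_lit 162) (nat_lit 2) (nat_lit 6) (nat_lit 10) L16132 (by decide +kernel)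
theorem L16134 : W_1 (nat_lit 4) (nat_lit 0x200000000c000780014001000080000000000000000000000000000000) (nat_lit 0x0) (nat_lit 0x38001c8000000000000000000000000000000000000000) := T_1 (nat_lit 179) (nat_lit 159) (nat_lit 0) (nat_lit 9) (nat_lit 10) L16133 (by decide +kernel)
theorem L16153 : W_1 (nat_lit 2) (nat_lit 0x6000e000340018001000080000000000000000000000000000000) (nat_lit 0x0) (nat_lit 0x18001000000000000000000000000000000000000000000000000) := D_1 (nat_lit 208) (nat_lit 207) (nat_lit 192) (nat_lit 2) (nat_lit 3) (nat_lit 12) (nat_lit 1) (nat_lit 8) (nat_lit 11) (by decide +kernel)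
theorem L16154 : W_1 (nat_lit 3) (nat_lit 0x4000e000340018001000080000000000000000000000000000000) (nat_lit 0x0) (nat_lit 0x400038001000000000000000000000000000000000000000000000000) := T_1 (nat_lit 209) (nat_lit 226) (nat_lit 5) (nat_lit 6) (nat_lit 9) L16153 (by decide +kernel)
theorem L16322 : W_1 (nat_lit 2) (nat_lit 0x700018000f000700000001000080000000000000000000000000000000) (nat_lit 0x0) (nat_lit 0x18000040000000000000000000000000000000000000000000000000000) := D_1 (nat_lit 231) (nat_lit 232) (nat_lit 210) (nat_lit 0) (nat_lit 11) (nat_lit 13) (nat_lit 0) (nat_lit 10) (nat_lit 13) (by decide +kernel)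
theorem L16323 : W_1 (nat_lit 3) (nat_lit 0x300018000f000700000001000080000000000000000000000000000000) (nat_lit 0x0) (nat_lit 0x8001c000040000000000000000000000000000000000000000000000000000) := T_1 (nat_lit 230) (nat_lit 247) (nat_lit 7) (nat_lit 8) (nat_lit 10) L16322 (by decide +kernel)
theorem L16324 : W_1 (nat_lit 4) (nat_lit 0x300010000f000700000001000080000000000000000000000000000000) (nat_lit 0x0) (nat_lit 0x8001c0000c0000000000008000000000000000000000000000000000000000) := T_1 (nat_lit 211) (nat_lit 159) (nat_lit 4) (nat_lit 7) (nat_lit 13) L16323 (by decide +kernel)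
theorem L16325 : W_1 (nat_lit 5) (nat_lit 0x200010000f000700000001000080000000000000000000000000000000) (nat_lit 0x0) (nat_lit 0xa001d0000c0000000000008000000000000000000000000000000000000000) := T_1 (nat_lit 228) (nat_lit 245) (nat_lit 5) (nat_lit 8) (nat_lit 10) L16324 (by decide +kernel)
theorem L16326 : W_1 (nat_lit 6) (nat_lit 0x10000f000700000001000080000000000000000000000000000000) (nat_lit 0x0) (nat_lit 0xe001f0000c0000000000008000000000000000000000000000000000000000) := T_1 (nat_lit 229) (nat_lit 246) (nat_lit 4) (nat_lit 8) (nat_lit 14) L16325 (by decide +kernel)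
theorem L16327 : W_1 (nat_lit 7) (nat_lit 0xf000700000001000080000000000000000000000000000000) (nat_lit 0x0) (nat_lit 0xe001f0003c0000000000008000000000000000000000000000000000000000) := T_1 (nat_lit 212) (nat_lit 213) (nat_lit 3) (nat_lit 5) (nat_lit 11) L16326 (by decide +kernel)
theorem L16337 : W_1 (nat_lit 2) (nat_lit 0x30001e000b00000001000080000000000000000000000000000000) (nat_lit 0x0) (nat_lit 0x40002000000000000000040000000000000000000000000000000000000000) := D_1 (nat_lit 229) (nat_lit 246) (nat_lit 162) (nat_lit 6) (nat_lit 8) (nat_lit 14) (nat_lit 5) (nat_lit 9) (nat_lit 9) (by decide +kernel)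
theorem L16338 : W_1 (nat_lit 3) (nat_lit 0x20001e000b00000001000080000000000000000000000000000000) (nat_lit 0x0) (nat_lit 0x40002000100001000000040000000000000000000000000000000000000000) := T_1 (nat_lit 212) (nat_lit 192) (nat_lit 3) (nat_lit 5) (nat_lit 11) L16337 (by decide +kernel)
theorem L16339 : W_1 (nat_lit 4) (nat_lit 0x1e000b00000001000080000000000000000000000000000000) (nat_lit 0x0) (nat_lit 0x40002000700001000000040000000000000000000000000000000000000000) := T_1 (nat_lit 213) (nat_lit 214) (nat_lit 3) (nat_lit 6) (nat_lit 11) L16338 (by decide +kernel)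
theorem L16340 : W_1 (nat_lit 5) (nat_lit 0x1e000300000001000080000000000000000000000000000000) (nat_lit 0x0) (nat_lit 0x40002000700001001800040000000000000000000000000000000000000000) := T_1 (nat_lit 179) (nat_lit 180) (nat_lit 2) (nat_lit 6) (nat_lit 11) L16339 (by decide +kernel)
theorem L16341 : W_1 (nat_lit 6) (nat_lit 0xe000300000001000080000000000000000000000000000000) (nat_lit 0x0) (nat_lit 0x40002000700031001800040000000000000000000000000000000000000000) := T_1 (nat_lit 196) (nat_lit 197) (nat_lit 0) (nat_lit 10) (nat_lit 11) L16340 (by decide +kernel)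
theorem L16342 : W_1 (nat_lit 2) (nat_lit 0x380028001e000b00000001000080000000000000000000000000000000) (nat_lit 0x0) (nat_lit 0x400100000000000040000000000000000000000000000000000000000) := D_1 (nat_lit 212) (nat_lit 226) (nat_lit 162) (nat_lit 2) (nat_lit 5) (nat_lit 13) (nat_lit 5) (nat_lit 9) (nat_lit 9) (by decide +kernel)
theorem L16343 : W_1 (nat_lit 3) (nat_lit 0x380008001e000b00000001000080000000000000000000000000000000) (nat_lit 0x0) (nat_lit 0x400700000000000040000000000000000000000000000000000000000) := T_1 (nat_lit 213) (nat_lit 214) (nat_lit 3) (nat_lit 6) (nat_lit 11) L16342 (by decide +kernel)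
theorem L16344 : W_1 (nat_lit 4) (nat_lit 0x300008001e000b00000001000080000000000000000000000000000000) (nat_lit 0x0) (nat_lit 0x10000c00700000000000040000000000000000000000000000000000000000) := T_1 (nat_lit 227) (nat_lit 244) (nat_lit 5) (nat_lit 7) (nat_lit 10) L16343 (by decide +kernel)
theorem L16345 : W_1 (nat_lit 5) (nat_lit 0x100008001e000b00000001000080000000000000000000000000000000) (nat_lit 0x0) (nat_lit 0x50002c00700000000000040000000000000000000000000000000000000000) := T_1 (nat_lit 229) (nat_lit 246) (nat_lit 7) (nat_lit 7) (nat_lit 10) L16344 (by decide +kernel)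
theorem L16346 : W_1 (nat_lit 6) (nat_lit 0x100008001e000300000001000080000000000000000000000000000000) (nat_lit 0x0) (nat_lit 0x50002c00700000001800040000000000000000000000000000000000000000) := T_1 (nat_lit 179) (nat_lit 180) (nat_lit 2) (nat_lit 6) (nat_lit 11) L16345 (by decide +kernel)
theorem L16347 : W_1 (nat_lit 7) (nat_lit 0x8001e000300000001000080000000000000000000000000000000) (nat_lit 0x0) (nat_lit 0x70003c00700000001800040000000000000000000000000000000000000000) := T_1 (nat_lit 228) (nat_lit 245) (nat_lit 4) (nat_lit 7) (nat_lit 14) L16346 (by decide +kernel)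
theorem L16348 : W_1 (nat_lit 8) (nat_lit 0x8000e000300000001000080000000000000000000000000000000) (nat_lit 0x0) (nat_lit 0x70003c00700030001800040000000000000000000000000000000000000000) := T_1 (nat_lit 196) (nat_lit 197) (nat_lit 0) (nat_lit 10) (nat_lit 11) L16347 (by decide +kernel)
theorem L16352 : W_1 (nat_lit 2) (nat_lit 0x1e000f00008001000080000000000000000000000000000000) (nat_lit 0x0) (nat_lit 0x1000080000000000000000400000000000000000000000000000000000) := D_1 (nat_lit 211) (nat_lit 228) (nat_lit 142) (nat_lit 4) (nat_lit 7) (nat_lit 13) (nat_lit 7) (nat_lit 6) (nat_lit 8) (by decide +kernel)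
theorem L16353 : W_1 (nat_lit 3) (nat_lit 0x1e000f00000001000080000000000000000000000000000000) (nat_lit 0x0) (nat_lit 0x100008000000000000c000400000000000000000000000000000000000) := T_1 (nat_lit 159) (nat_lit 158) (nat_lit 0) (nat_lit 9) (nat_lit 10) L16352 (by decide +kernel)
theorem L16354 : W_1 (nat_lit 4) (nat_lit 0x1e000b00000001000080000000000000000000000000000000) (nat_lit 0x0) (nat_lit 0x100008000100040000c000400000000000000000000000000000000000) := T_1 (nat_lit 178) (nat_lit 192) (nat_lit 2) (nat_lit 5) (nat_lit 11) L16353 (by decide +kernel)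
theorem L16355 : W_1 (nat_lit 5) (nat_lit 0x1e000300000001000080000000000000000000000000000000) (nat_lit 0x0) (nat_lit 0x1000080001001c0000c000400000000000000000000000000000000000) := T_1 (nat_lit 179) (nat_lit 180) (nat_lit 2) (nat_lit 6) (nat_lit 11) L16354 (by decide +kernel)
theorem L16356 : W_1 (nat_lit 6) (nat_lit 0xe000300000001000080000000000000000000000000000000) (nat_lit 0x0) (nat_lit 0x1000080031001c0000c000400000000000000000000000000000000000) := T_1 (nat_lit 196) (nat_lit 197) (nat_lit 0) (nat_lit 10) (nat_lit 11) L16355 (by decide +kernel)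
theorem L16636 : W_1 (nat_lit 3) (nat_lit 0x4000000016000f000200010001000080000000000000000000000000000000) (nat_lit 0x0) (nat_lit 0x100008000000000000c0004000000000000000000000000000000000000000) := T_1 (nat_lit 175) (nat_lit 174) (nat_lit 0) (nat_lit 8) (nat_lit 11) L5282 (by decide +kernel)
theorem L16637 : W_1 (nat_lit 4) (nat_lit 0x4000000012000f000200010001000080000000000000000000000000000000) (nat_lit 0x0) (nat_lit 0x100008000400100000c0004000000000000000000000000000000000000000) := T_1 (nat_lit 210) (nat_lit 196) (nat_lit 1) (nat_lit 9) (nat_lit 11) L16636 (by decide +kernel)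
theorem L16638 : W_1 (nat_lit 5) (nat_lit 0x12000f000200010001000080000000000000000000000000000000) (nat_lit 0x0) (nat_lit 0x500028000400100000c0004000000000000000000000000000000000000000) := T_1 (nat_lit 246) (nat_lit 229) (nat_lit 4) (nat_lit 8) (nat_lit 14) L16637 (by decide +kernel)
theorem L16639 : W_1 (nat_lit 6) (nat_lit 0x10000f000200010001000080000000000000000000000000000000) (nat_lit 0x0) (nat_lit 0x500028000700100000c0004000000000000000000000000000000000000000) := T_1 (nat_lit 209) (nat_lit 208) (nat_lit 1) (nat_lit 8) (nat_lit 11) L16638 (by decide +kernel)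
theorem L16640 : W_1 (nat_lit 7) (nat_lit 0xf000200010001000080000000000000000000000000000000) (nat_lit 0x0) (nat_lit 0x500028003700100000c0004000000000000000000000000000000000000000) := T_1 (nat_lit 212) (nat_lit 213) (nat_lit 3) (nat_lit 5) (nat_lit 11) L16639 (by decide +kernel)
theorem L16641 : W_1 (nat_lit 8) (nat_lit 0xf000200000001000080000000000000000000000000000000) (nat_lit 0x0) (nat_lit 0x500028003700100000c0014000800000000000000000000000000000000000) := T_1 (nat_lit 160) (nat_lit 143) (nat_lit 6) (nat_lit 7) (nat_lit 11) L16640 (by decide +kernel)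
theorem L16752 : W_1 (nat_lit 4) (nat_lit 0x4000380000001000080000000000000000000000000000000) (nat_lit 0x0) (nat_lit 0xae00060000000000000000000000000000000000000000000) := T_1 (nat_lit 174) (nat_lit 195) (nat_lit 3) (nat_lit 4) (nat_lit 10) L12740 (by decide +kernel)
theorem L16864 : W_1 (nat_lit 4) (nat_lit 0x60006000300018001000080000000000000000000000000000000) (nat_lit 0x0) (nat_lit 0x18000000400007000200000000000000000000000000000000000) := T_1 (nat_lit 207) (nat_lit 208) (nat_lit 2) (nat_lit 3) (nat_lit 12) L12081 (by decide +kernel)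
theorem L16865 : W_1 (nat_lit 5) (nat_lit 0x40006000300018001000080000000000000000000000000000000) (nat_lit 0x0) (nat_lit 0x400038000000400007000200000000000000000000000000000000000) := T_1 (nat_lit 209) (nat_lit 226) (nat_lit 5) (nat_lit 6) (nat_lit 9) L16864 (by decide +kernel)
theorem L16978 : W_1 (nat_lit 2) (nat_lit 0x6000f00008001000080000000000000000000000000000000) (nat_lit 0x0) (nat_lit 0x1000080000000000000000400000000000000000000000000000000000) := D_1 (nat_lit 211) (nat_lit 228) (nat_lit 142) (nat_lit 4) (nat_lit 7) (nat_lit 13) (nat_lit 7) (nat_lit 6) (nat_lit 8) (by decide +kernel)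
theorem L16991 : W_1 (nat_lit 2) (nat_lit 0x3e00000001000080000000000000000000000000000000) (nat_lit 0x0) (nat_lit 0xe0000000000000000000000000000000000000000000000000) := D_1 (nat_lit 198) (nat_lit 197) (nat_lit 199) (nat_lit 3) (nat_lit 7) (nat_lit 10) (nat_lit 3) (nat_lit 8) (nat_lit 10) (by decide +kernel)
theorem L17108 : W_1 (nat_lit 2) (nat_lit 0x10007800200010000c0000000000000000000000000000000) (nat_lit 0x0) (nat_lit 0x12000800000000000000000000000000000000000000000000) := D_1 (nat_lit 179) (nat_lit 196) (nat_lit 193) (nat_lit 7) (nat_lit 8) (nat_lit 7) (nat_lit 1) (nat_lit 9) (nat_lit 10) (by decide +kernel)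
theorem L17109 : W_1 (nat_lit 3) (nat_lit 0x7800200010000c0000000000000000000000000000000) (nat_lit 0x0) (nat_lit 0x13800800000000000000000000000000000000000000000000) := T_1 (nat_lit 192) (nat_lit 191) (nat_lit 1) (nat_lit 8) (nat_lit 10) L17108 (by decide +kernel)
theorem L17110 : W_1 (nat_lit 4) (nat_lit 0x7000200010000c0000000000000000000000000000000) (nat_lit 0x0) (nat_lit 0x13800880040000000000000000000000000000000000000000) := T_1 (nat_lit 175) (nat_lit 162) (nat_lit 2) (nat_lit 5) (nat_lit 10) L17109 (by decide +kernel)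
theorem L17111 : W_1 (nat_lit 5) (nat_lit 0x700020001000080000000000000000000000000000000) (nat_lit 0x0) (nat_lit 0x13800880040000000040002000000000000000000000000000) := T_1 (nat_lit 126) (nat_lit 109) (nat_lit 4) (nat_lit 8) (nat_lit 10) L17110 (by decide +kernel)
theorem L17225 : W_1 (nat_lit 2) (nat_lit 0x4001e000200010001000080000000000000000000000000000000) (nat_lit 0x0) (nat_lit 0x800080020000000000000000000000000000000000000000000000000) := D_1 (nat_lit 211) (nat_lit 197) (nat_lit 227) (nat_lit 1) (nat_lit 10) (nat_lit 11) (nat_lit 5) (nat_lit 7) (nat_lit 9) (by decide +kernel)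
theorem L17226 : W_1 (nat_lit 3) (nat_lit 0x1e000200010001000080000000000000000000000000000000) (nat_lit 0x0) (nat_lit 0x8000e0020000000000000000000000000000000000000000000000000) := T_1 (nat_lit 210) (nat_lit 209) (nat_lit 1) (nat_lit 9) (nat_lit 11) L17225 (by decide +kernel)
theorem L17227 : W_1 (nat_lit 4) (nat_lit 0x1e000200000001000080000000000000000000000000000000) (nat_lit 0x0) (nat_lit 0x8000e0020000000010000800000000000000000000000000000000000) := T_1 (nat_lit 160) (nat_lit 143) (nat_lit 6) (nat_lit 7) (nat_lit 11) L17226 (by decide +kernel)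
theorem L17248 : W_1 (nat_lit 2) (nat_lit 0x10000f800200000001000080000000000000000000000000000000) (nat_lit 0x0) (nat_lit 0x38000000000000000000000000000000000000000000000000000) := D_1 (nat_lit 208) (nat_lit 207) (nat_lit 209) (nat_lit 1) (nat_lit 7) (nat_lit 11) (nat_lit 1) (nat_lit 8) (nat_lit 11) (by decide +kernel)
theorem L17406 : W_1 (nat_lit 2) (nat_lit 0x3000180007000200000001000080000000000000000000000000000000) (nat_lit 0x0) (nat_lit 0x640000000000000000000000000000000000000000000000000000) := D_1 (nat_lit 213) (nat_lit 214) (nat_lit 210) (nat_lit 0) (nat_lit 10) (nat_lit 12) (nat_lit 0) (nat_lit 9) (nat_lit 12) (by decide +kernel)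
theorem L17407 : W_1 (nat_lit 3) (nat_lit 0x3000180006000200000001000080000000000000000000000000000000) (nat_lit 0x0) (nat_lit 0x640001800000000000000000000000000000000000000000000000) := T_1 (nat_lit 192) (nat_lit 191) (nat_lit 3) (nat_lit 4) (nat_lit 11) L17406 (by decide +kernel)
theorem L17408 : W_1 (nat_lit 4) (nat_lit 0x1000180006000200000001000080000000000000000000000000000000) (nat_lit 0x0) (nat_lit 0x40002000640001800000000000000000000000000000000000000000000000) := T_1 (nat_lit 229) (nat_lit 246) (nat_lit 7) (nat_lit 7) (nat_lit 10) L17407 (by decide +kernel)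
theorem L17477 : W_1 (nat_lit 2) (nat_lit 0x80007800200000001000080000000000000000000000000000000) (nat_lit 0x0) (nat_lit 0x40000400100000000000000000000000000000000000000000000) := D_1 (nat_lit 190) (nat_lit 210) (nat_lit 176) (nat_lit 3) (nat_lit 3) (nat_lit 11) (nat_lit 2) (nat_lit 3) (nat_lit 11) (by decide +kernel)
theorem L17479 : W_1 (nat_lit 2) (nat_lit 0x80007c00200000001000080000000000000000000000000000000) (nat_lit 0x0) (nat_lit 0x1c000000000000000000000000000000000000000000000000000) := D_1 (nat_lit 207) (nat_lit 206) (nat_lit 208) (nat_lit 1) (nat_lit 6) (nat_lit 11) (nat_lit 1) (nat_lit 7) (nat_lit 11) (by decide +kernel)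
theorem L17480 : W_1 (nat_lit 3) (nat_lit 0x80007800200000001000080000000000000000000000000000000) (nat_lit 0x0) (nat_lit 0x5c000400000000000000000000000000000000000000000000000) := T_1 (nat_lit 190) (nat_lit 210) (nat_lit 3) (nat_lit 3) (nat_lit 11) L17479 (by decide +kernel)
theorem L17676 : W_1 (nat_lit 2) (nat_lit 0x1c00180006800200000001000080000000000000000000000000000000) (nat_lit 0x0) (nat_lit 0x640000000000000000000000000000000000000000000000000000) := D_1 (nat_lit 213) (nat_lit 214) (nat_lit 210) (nat_lit 1) (nat_lit 10) (nat_lit 12) (nat_lit 1) (nat_lit 9) (nat_lit 12) (by decide +kernel)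
theorem L17677 : W_1 (nat_lit 3) (nat_lit 0x1800180006800200000001000080000000000000000000000000000000) (nat_lit 0x0) (nat_lit 0x600640000000000000000000000000000000000000000000000000000) := T_1 (nat_lit 226) (nat_lit 225) (nat_lit 2) (nat_lit 4) (nat_lit 13) L17676 (by decide +kernel)
theorem L17678 : W_1 (nat_lit 4) (nat_lit 0x1000180006800200000001000080000000000000000000000000000000) (nat_lit 0x0) (nat_lit 0x10000e00640000000000000000000000000000000000000000000000000000) := T_1 (nat_lit 227) (nat_lit 244) (nat_lit 5) (nat_lit 7) (nat_lit 10) L17677 (by decide +kernel)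
theorem L17679 : W_1 (nat_lit 5) (nat_lit 0x1000180006000200000001000080000000000000000000000000000000) (nat_lit 0x0) (nat_lit 0x10000e00640001800000000000000000000000000000000000000000000000) := T_1 (nat_lit 191) (nat_lit 192) (nat_lit 3) (nat_lit 4) (nat_lit 11) L17678 (by decide +kernel)
theorem L17691 : W_1 (nat_lit 2) (nat_lit 0x80006000300000001000080000000000000000000000000000000) (nat_lit 0x0) (nat_lit 0x1000000000000000008000400000000000000000000000000000000000) := D_1 (nat_lit 159) (nat_lit 142) (nat_lit 228) (nat_lit 7) (nat_lit 6) (nat_lit 8) (nat_lit 4) (nat_lit 7) (nat_lit 13) (by decide +kernel)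
theorem L17799 : W_1 (nat_lit 5) (nat_lit 0x80004000200000001000080000000000000000000000000000000) (nat_lit 0x0) (nat_lit 0x50003800140000000000010000800000000000000000000000000000000000) := T_1 (nat_lit 160) (nat_lit 143) (nat_lit 6) (nat_lit 7) (nat_lit 11) L6072 (by decide +kernel)
theorem L17814 : W_1 (nat_lit 2) (nat_lit 0x1c0004000200000001000080000000000000000000000000000000) (nat_lit 0x0) (nat_lit 0x2000000000000000010000800000000000000000000000000000000000) := D_1 (nat_lit 160) (nat_lit 143) (nat_lit 229) (nat_lit 6) (nat_lit 7) (nat_lit 11) (nat_lit 7) (nat_lit 7) (nat_lit 9) (by decide +kernel)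
theorem L17815 : W_1 (nat_lit 2) (nat_lit 0x1e0004000200000001000080000000000000000000000000000000) (nat_lit 0x0) (nat_lit 0x10018000000000000000000000000000000000000000000000000) := D_1 (nat_lit 195) (nat_lit 208) (nat_lit 196) (nat_lit 2) (nat_lit 4) (nat_lit 12) (nat_lit 2) (nat_lit 5) (nat_lit 12) (by decide +kernel)
theorem L17840 : W_1 (nat_lit 2) (nat_lit 0x30001000180004000200018001000080000000000000000000000000000000) (nat_lit 0x0) (nat_lit 0x400000000000000008000400000000000000000000000000000000000000000000) := D_1 (nat_lit 195) (nat_lit 178) (nat_lit 262) (nat_lit 6) (nat_lit 7) (nat_lit 14) (nat_lit 6) (nat_lit 7) (nat_lit 15) (by decide +kernel)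
theorem L17841 : W_1 (nat_lit 3) (nat_lit 0x10001000180004000200018001000080000000000000000000000000000000) (nat_lit 0x0) (nat_lit 0x600020000000000008000400000000000000000000000000000000000000000000) := T_1 (nat_lit 245) (nat_lit 261) (nat_lit 5) (nat_lit 7) (nat_lit 11) L17840 (by decide +kernel)
theorem L17842 : W_1 (nat_lit 4) (nat_lit 0x1000180004000200018001000080000000000000000000000000000000) (nat_lit 0x0) (nat_lit 0x600030000800000008000400000000000000000000000000000000000000000000) := T_1 (nat_lit 244) (nat_lit 227) (nat_lit 5) (nat_lit 7) (nat_lit 10) L17841 (by decide +kernel)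
theorem L17847 : W_1 (nat_lit 5) (nat_lit 0x80004000200000001000080000000000000000000000000000000) (nat_lit 0x0) (nat_lit 0x10001800040000000100018000c00000000000000000000000000000000000) := T_1 (nat_lit 160) (nat_lit 143) (nat_lit 6) (nat_lit 7) (nat_lit 11) L6156 (by decide +kernel)
theorem L17848 : W_1 (nat_lit 5) (nat_lit 0x80004000200000001000080000000000000000000000000000000) (nat_lit 0x0) (nat_lit 0x40003000100000000100018000c00000000000000000000000000000000000) := T_1 (nat_lit 160) (nat_lit 143) (nat_lit 6) (nat_lit 7) (nat_lit 11) L6152 (by decide +kernel)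
theorem L17863 : W_1 (nat_lit 2) (nat_lit 0x60003c001200010001000080000000000000000000000000000000) (nat_lit 0x0) (nat_lit 0x4000000000000000080004000000000000000000000000000000000000) := D_1 (nat_lit 163) (nat_lit 146) (nat_lit 230) (nat_lit 5) (nat_lit 10) (nat_lit 8) (nat_lit 5) (nat_lit 10) (nat_lit 9) (by decide +kernel)
theorem L17864 : W_1 (nat_lit 3) (nat_lit 0x40003c001200010001000080000000000000000000000000000000) (nat_lit 0x0) (nat_lit 0x4000200002000000080004000000000000000000000000000000000000) := T_1 (nat_lit 213) (nat_lit 193) (nat_lit 3) (nat_lit 6) (nat_lit 11) L17863 (by decide +kernel)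
theorem L17919 : W_1 (nat_lit 2) (nat_lit 0x3e000200000001000080000000000000000000000000000000) (nat_lit 0x0) (nat_lit 0xe00000000000000000000000000000000000000000000000000000) := D_1 (nat_lit 214) (nat_lit 213) (nat_lit 215) (nat_lit 3) (nat_lit 6) (nat_lit 11) (nat_lit 3) (nat_lit 7) (nat_lit 11) (by decide +kernel)
theorem L17920 : W_1 (nat_lit 3) (nat_lit 0x1e000200000001000080000000000000000000000000000000) (nat_lit 0x0) (nat_lit 0xe00020000100000000000000000000000000000000000000000000) := T_1 (nat_lit 197) (nat_lit 176) (nat_lit 0) (nat_lit 10) (nat_lit 11) L17919 (by decide +kernel)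
theorem L18145 : W_1 (nat_lit 2) (nat_lit 0x20001000080004000200000001000080000000000000000000000000000000) (nat_lit 0x0) (nat_lit 0x200010000800000000000000000000000000000000000000000000000000000000) := D_1 (nat_lit 244) (nat_lit 227) (nat_lit 261) (nat_lit 5) (nat_lit 7) (nat_lit 10) (nat_lit 5) (nat_lit 7) (nat_lit 11) (by decide +kernel)
theorem L18146 : W_1 (nat_lit 2) (nat_lit 0x20002000100008000c000200000001000080000000000000000000000000000000) (nat_lit 0x0) (nat_lit 0x4000400000000000100000000000000000000000000000000000000000000000000000) := D_1 (nat_lit 262) (nat_lit 212) (nat_lit 278) (nat_lit 6) (nat_lit 7) (nat_lit 15) (nat_lit 5) (nat_lit 7) (nat_lit 12) (by decide +kernel)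
theorem L18147 : W_1 (nat_lit 3) (nat_lit 0x2000100008000c000200000001000080000000000000000000000000000000) (nat_lit 0x0) (nat_lit 0x4000600010000000100000000000000000000000000000000000000000000000000000) := T_1 (nat_lit 261) (nat_lit 244) (nat_lit 5) (nat_lit 7) (nat_lit 11) L18146 (by decide +kernel)
theorem L18148 : W_1 (nat_lit 4) (nat_lit 0x20001000080004000200000001000080000000000000000000000000000000) (nat_lit 0x0) (nat_lit 0x4000600010000000100008000400000000000000000000000000000000000000000000) := T_1 (nat_lit 195) (nat_lit 178) (nat_lit 6) (nat_lit 7) (nat_lit 14) L18147 (by decide +kernel)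
theorem L18269 : W_1 (nat_lit 2) (nat_lit 0x4000100018000c000200000001000080000000000000000000000000000000) (nat_lit 0x0) (nat_lit 0xc00020000000000000000000000000000000000000000000000000000000000000) := D_1 (nat_lit 245) (nat_lit 262) (nat_lit 263) (nat_lit 6) (nat_lit 7) (nat_lit 15) (nat_lit 7) (nat_lit 7) (nat_lit 11) (by decide +kernel)
theorem L18270 : W_1 (nat_lit 3) (nat_lit 0x100018000c000200000001000080000000000000000000000000000000) (nat_lit 0x0) (nat_lit 0xc00060002000000000000000000000000000000000000000000000000000000000) := T_1 (nat_lit 246) (nat_lit 229) (nat_lit 7) (nat_lit 7) (nat_lit 10) L18269 (by decide +kernel)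
theorem L18384 : W_1 (nat_lit 2) (nat_lit 0x780048003c001600000001000080000000000000000000000000000000) (nat_lit 0x0) (nat_lit 0x180008000000000000000000000000000000000000000000000000000000000) := D_1 (nat_lit 247) (nat_lit 231) (nat_lit 248) (nat_lit 5) (nat_lit 10) (nat_lit 10) (nat_lit 3) (nat_lit 6) (nat_lit 13) (by decide +kernel)
theorem L18385 : W_1 (nat_lit 3) (nat_lit 0x780048003c000600000001000080000000000000000000000000000000) (nat_lit 0x0) (nat_lit 0x180008000000000003000000000000000000000000000000000000000000000) := T_1 (nat_lit 180) (nat_lit 181) (nat_lit 2) (nat_lit 7) (nat_lit 11) L18384 (by decide +kernel)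
theorem L18386 : W_1 (nat_lit 4) (nat_lit 0x380048003c000600000001000080000000000000000000000000000000) (nat_lit 0x0) (nat_lit 0x18000c000200000003000000000000000000000000000000000000000000000) := T_1 (nat_lit 230) (nat_lit 213) (nat_lit 2) (nat_lit 6) (nat_lit 13) L18385 (by decide +kernel)
theorem L18625 : W_1 (nat_lit 2) (nat_lit 0xc001c000200000001000080000000000000000000000000000000) (nat_lit 0x0) (nat_lit 0x130000000000000000000000000000000000000000000000000000) := D_1 (nat_lit 209) (nat_lit 208) (nat_lit 212) (nat_lit 2) (nat_lit 4) (nat_lit 12) (nat_lit 2) (nat_lit 5) (nat_lit 12) (by decide +kernel)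
theorem L18673 : W_1 (nat_lit 2) (nat_lit 0x1c000c000200000001000080000000000000000000000000000000) (nat_lit 0x0) (nat_lit 0x30010000000000000000000000000000000000000000000000000) := D_1 (nat_lit 209) (nat_lit 196) (nat_lit 208) (nat_lit 2) (nat_lit 5) (nat_lit 12) (nat_lit 2) (nat_lit 4) (nat_lit 12) (by decide +kernel)
theorem L18702 : W_1 (nat_lit 2) (nat_lit 0x80003c000c000200000001000080000000000000000000000000000000) (nat_lit 0x0) (nat_lit 0x10000c00000000000000000000000000000000000000000000000000000) := D_1 (nat_lit 214) (nat_lit 215) (nat_lit 232) (nat_lit 0) (nat_lit 11) (nat_lit 12) (nat_lit 3) (nat_lit 7) (nat_lit 12) (by decide +kernel)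
theorem L18703 : W_1 (nat_lit 3) (nat_lit 0x3c000c000200000001000080000000000000000000000000000000) (nat_lit 0x0) (nat_lit 0x1c000c00000000000000000000000000000000000000000000000000000) := T_1 (nat_lit 231) (nat_lit 230) (nat_lit 3) (nat_lit 6) (nat_lit 12) L18702 (by decide +kernel)
theorem L18711 : W_1 (nat_lit 2) (nat_lit 0x1e000c000200000001000080000000000000000000000000000000) (nat_lit 0x0) (nat_lit 0x40006000000000000000000000000000000000000000000000000000000000) := D_1 (nat_lit 229) (nat_lit 246) (nat_lit 230) (nat_lit 4) (nat_lit 8) (nat_lit 14) (nat_lit 3) (nat_lit 5) (nat_lit 12) (by decide +kernel)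
theorem L18712 : W_1 (nat_lit 3) (nat_lit 0x1c000c000200000001000080000000000000000000000000000000) (nat_lit 0x0) (nat_lit 0x40006000030000000000000000000000000000000000000000000000000000) := T_1 (nat_lit 209) (nat_lit 208) (nat_lit 2) (nat_lit 4) (nat_lit 12) L18711 (by decide +kernel)
theorem L19055 : W_1 (nat_lit 2) (nat_lit 0x700010000c000e00000001000080000000000000000000000000000000) (nat_lit 0x0) (nat_lit 0x3001000000000000000000000000000000000000000000000) := D_1 (nat_lit 193) (nat_lit 192) (nat_lit 180) (nat_lit 2) (nat_lit 5) (nat_lit 11) (nat_lit 1) (nat_lit 10) (nat_lit 10) (by decide +kernel)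
theorem L19056 : W_1 (nat_lit 3) (nat_lit 0x700010000c000600000001000080000000000000000000000000000000) (nat_lit 0x0) (nat_lit 0x3001800040000000000000000000000000000000000000000) := T_1 (nat_lit 179) (nat_lit 162) (nat_lit 6) (nat_lit 8) (nat_lit 13) L19055 (by decide +kernel)
theorem L19057 : W_1 (nat_lit 4) (nat_lit 0x300010000c000600000001000080000000000000000000000000000000) (nat_lit 0x0) (nat_lit 0x80004000000003001800040000000000000000000000000000000000000000) := T_1 (nat_lit 230) (nat_lit 247) (nat_lit 7) (nat_lit 8) (nat_lit 10) L19056 (by decide +kernel)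
theorem L19058 : W_1 (nat_lit 5) (nat_lit 0x200010000c000600000001000080000000000000000000000000000000) (nat_lit 0x0) (nat_lit 0xa0005000000003001800040000000000000000000000000000000000000000) := T_1 (nat_lit 228) (nat_lit 245) (nat_lit 5) (nat_lit 8) (nat_lit 10) L19057 (by decide +kernel)
theorem L19061 : W_1 (nat_lit 2) (nat_lit 0x4000400030001c000a00000001000080000000000000000000000000000000) (nat_lit 0x0) (nat_lit 0x1800080000000000000000000000000000000000000000000000000000000000000) := D_1 (nat_lit 247) (nat_lit 263) (nat_lit 264) (nat_lit 5) (nat_lit 9) (nat_lit 11) (nat_lit 4) (nat_lit 9) (nat_lit 15) (by decide +kernel)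
theorem L19062 : W_1 (nat_lit 3) (nat_lit 0x400030001c000a00000001000080000000000000000000000000000000) (nat_lit 0x0) (nat_lit 0x18000c0002000000000000000000000000000000000000000000000000000000000) := T_1 (nat_lit 246) (nat_lit 229) (nat_lit 6) (nat_lit 8) (nat_lit 14) L19061 (by decide +kernel)
theorem L19079 : W_1 (nat_lit 2) (nat_lit 0x1c00030001c000a00000001000080000000000000000000000000000000) (nat_lit 0x0) (nat_lit 0xc80000000000000000000000000000000000000000000000000000) := D_1 (nat_lit 214) (nat_lit 215) (nat_lit 211) (nat_lit 0) (nat_lit 11) (nat_lit 12) (nat_lit 3) (nat_lit 7) (nat_lit 12) (by decide +kernel)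
theorem L19080 : W_1 (nat_lit 3) (nat_lit 0xc00030001c000a00000001000080000000000000000000000000000000) (nat_lit 0x0) (nat_lit 0x30000c80000000000000000000000000000000000000000000000000000) := T_1 (nat_lit 232) (nat_lit 233) (nat_lit 0) (nat_lit 12) (nat_lit 13) L19079 (by decide +kernel)
theorem L19092 : W_1 (nat_lit 2) (nat_lit 0x70000c000200000001000080000000000000000000000000000000) (nat_lit 0x0) (nat_lit 0x13000000000000000000000000000000000000000000000000) := D_1 (nat_lit 193) (nat_lit 192) (nat_lit 196) (nat_lit 3) (nat_lit 5) (nat_lit 11) (nat_lit 3) (nat_lit 6) (nat_lit 11) (by decide +kernel)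
theorem L19093 : W_1 (nat_lit 3) (nat_lit 0x30000c000200000001000080000000000000000000000000000000) (nat_lit 0x0) (nat_lit 0xc00013000000000000000000000000000000000000000000000000) := T_1 (nat_lit 214) (nat_lit 215) (nat_lit 0) (nat_lit 11) (nat_lit 12) L19092 (by decide +kernel)
theorem L19094 : W_1 (nat_lit 2) (nat_lit 0x8000400030003c000200000001000080000000000000000000000000000000) (nat_lit 0x0) (nat_lit 0x800040002000000000000000000000000000000000000000000000000000000000) := D_1 (nat_lit 246) (nat_lit 229) (nat_lit 263) (nat_lit 4) (nat_lit 8) (nat_lit 14) (nat_lit 5) (nat_lit 9) (nat_lit 11) (by decide +kernel)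
theorem L19095 : W_1 (nat_lit 3) (nat_lit 0x400030003c000200000001000080000000000000000000000000000000) (nat_lit 0x0) (nat_lit 0x18000c0002000000000000000000000000000000000000000000000000000000000) := T_1 (nat_lit 247) (nat_lit 264) (nat_lit 4) (nat_lit 9) (nat_lit 15) L19094 (by decide +kernel)
theorem L19459 : W_1 (nat_lit 2) (nat_lit 0x4000800078003c000200000001000080000000000000000000000000000000) (nat_lit 0x0) (nat_lit 0x2000100000000000000000800000000000000000000000000000000000000000000) := D_1 (nat_lit 248) (nat_lit 179) (nat_lit 265) (nat_lit 4) (nat_lit 10) (nat_lit 14) (nat_lit 4) (nat_lit 10) (nat_lit 15) (by decide +kernel)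
theorem L19460 : W_1 (nat_lit 3) (nat_lit 0x4000000078003c000200000001000080000000000000000000000000000000) (nat_lit 0x0) (nat_lit 0x2000100018000000000000800000000000000000000000000000000000000000000) := T_1 (nat_lit 231) (nat_lit 232) (nat_lit 3) (nat_lit 7) (nat_lit 12) L19459 (by decide +kernel)
theorem L19485 : W_1 (nat_lit 2) (nat_lit 0x700010002c001e00080001000080000000000000000000000000000000) (nat_lit 0x0) (nat_lit 0x600010000000000000000000000000000000000000000000000000) := D_1 (nat_lit 213) (nat_lit 214) (nat_lit 196) (nat_lit 5) (nat_lit 10) (nat_lit 9) (nat_lit 6) (nat_lit 9) (nat_lit 13) (by decide +kernel)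
theorem L19486 : W_1 (nat_lit 3) (nat_lit 0x700010002c001e00000001000080000000000000000000000000000000) (nat_lit 0x0) (nat_lit 0x600010000000180000000000000000000000000000000000000000) := T_1 (nat_lit 163) (nat_lit 164) (nat_lit 2) (nat_lit 7) (nat_lit 10) L19485 (by decide +kernel)
theorem L19487 : W_1 (nat_lit 4) (nat_lit 0x700010000c001e00000001000080000000000000000000000000000000) (nat_lit 0x0) (nat_lit 0x600070000000180000000000000000000000000000000000000000) := T_1 (nat_lit 197) (nat_lit 198) (nat_lit 3) (nat_lit 7) (nat_lit 10) L19486 (by decide +kernel)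
theorem L19598 : W_1 (nat_lit 3) (nat_lit 0xc000c000200000001000080000000000000000000000000000000) (nat_lit 0x0) (nat_lit 0x130030000000000000000000000000000000000000000000000000) := T_1 (nat_lit 196) (nat_lit 197) (nat_lit 1) (nat_lit 10) (nat_lit 11) L18625 (by decide +kernel)
theorem L19997 : W_1 (nat_lit 2) (nat_lit 0x2000100008000c000200000001000080000000000000000000000000000000) (nat_lit 0x0) (nat_lit 0x800040002000000000000000000000000000000000000000000000000000000000) := D_1 (nat_lit 246) (nat_lit 229) (nat_lit 263) (nat_lit 7) (nat_lit 7) (nat_lit 10) (nat_lit 7) (nat_lit 7) (nat_lit 11) (by decide +kernel)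
theorem L20132 : W_1 (nat_lit 3) (nat_lit 0x100008000c000200000001000080000000000000000000000000000000) (nat_lit 0x0) (nat_lit 0x800060002000000000000400000000000000000000000000000000000000000000) := T_1 (nat_lit 245) (nat_lit 178) (nat_lit 6) (nat_lit 7) (nat_lit 14) L19997 (by decide +kernel)
theorem L20371 : W_1 (nat_lit 2) (nat_lit 0x1000f000240000001000080000000000000000000000000000000) (nat_lit 0x0) (nat_lit 0x8000800020000000000000000000000000000000000000000000) := D_1 (nat_lit 191) (nat_lit 173) (nat_lit 207) (nat_lit 0) (nat_lit 7) (nat_lit 11) (nat_lit 1) (nat_lit 7) (nat_lit 11) (by decide +kernel)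
theorem L20372 : W_1 (nat_lit 3) (nat_lit 0xf000240000001000080000000000000000000000000000000) (nat_lit 0x0) (nat_lit 0x38000800020000000000000000000000000000000000000000000) := T_1 (nat_lit 208) (nat_lit 209) (nat_lit 1) (nat_lit 8) (nat_lit 11) L20371 (by decide +kernel)
theorem L20373 : W_1 (nat_lit 4) (nat_lit 0xf000200000001000080000000000000000000000000000000) (nat_lit 0x0) (nat_lit 0x380008000e0000000000000000000000000000000000000000000) := T_1 (nat_lit 174) (nat_lit 175) (nat_lit 0) (nat_lit 8) (nat_lit 11) L20372 (by decide +kernel)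
theorem L20384 : W_1 (nat_lit 2) (nat_lit 0xf800200000001000080000000000000000000000000000000) (nat_lit 0x0) (nat_lit 0x38000000000000000000000000000000000000000000000000000) := D_1 (nat_lit 208) (nat_lit 209) (nat_lit 207) (nat_lit 1) (nat_lit 8) (nat_lit 11) (nat_lit 1) (nat_lit 7) (nat_lit 11) (by decide +kernel)
theorem L20449 : W_1 (nat_lit 2) (nat_lit 0x100020001c000e000200000001000080000000000000000000000000000000) (nat_lit 0x0) (nat_lit 0x4000030000000000000000000000000000000000000000000000000000) := D_1 (nat_lit 209) (nat_lit 208) (nat_lit 230) (nat_lit 2) (nat_lit 4) (nat_lit 12) (nat_lit 3) (nat_lit 5) (nat_lit 12) (by decide +kernel)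
theorem L20450 : W_1 (nat_lit 3) (nat_lit 0x100000001c000e000200000001000080000000000000000000000000000000) (nat_lit 0x0) (nat_lit 0x40006000030000000000000000000000000000000000000000000000000000) := T_1 (nat_lit 229) (nat_lit 246) (nat_lit 4) (nat_lit 8) (nat_lit 14) L20449 (by decide +kernel)
theorem L20451 : W_1 (nat_lit 4) (nat_lit 0x1c000e000200000001000080000000000000000000000000000000) (nat_lit 0x0) (nat_lit 0x50006800030000000000000000000000000000000000000000000000000000) := T_1 (nat_lit 244) (nat_lit 227) (nat_lit 6) (nat_lit 6) (nat_lit 14) L20450 (by decide +kernel)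
theorem L20603 : W_1 (nat_lit 2) (nat_lit 0x18000e000200000001000080000000000000000000000000000000) (nat_lit 0x0) (nat_lit 0x600001000000000000000000000000000000000000000000000000) := D_1 (nat_lit 213) (nat_lit 214) (nat_lit 192) (nat_lit 0) (nat_lit 10) (nat_lit 12) (nat_lit 3) (nat_lit 5) (nat_lit 11) (by decide +kernel)
theorem L22717 : W_1 (nat_lit 2) (nat_lit 0x8000000120007e001200000001000080000000000000000000000000000000) (nat_lit 0x0) (nat_lit 0x2100080000000000000000000000000000000000000000000000000) := D_1 (nat_lit 199) (nat_lit 212) (nat_lit 217) (nat_lit 1) (nat_lit 12) (nat_lit 11) (nat_lit 3) (nat_lit 9) (nat_lit 11) (by decide +kernel)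
theorem L22718 : W_1 (nat_lit 3) (nat_lit 0x8000000020007e001200000001000080000000000000000000000000000000) (nat_lit 0x0) (nat_lit 0x3900080000000000000000000000000000000000000000000000000) := T_1 (nat_lit 216) (nat_lit 215) (nat_lit 3) (nat_lit 8) (nat_lit 11) L22717 (by decide +kernel)
theorem L22719 : W_1 (nat_lit 4) (nat_lit 0x20007e001200000001000080000000000000000000000000000000) (nat_lit 0x0) (nat_lit 0x80004003900080000000000000000000000000000000000000000000000000) := T_1 (nat_lit 247) (nat_lit 230) (nat_lit 6) (nat_lit 9) (nat_lit 14) L22718 (by decide +kernel)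
theorem L22720 : W_1 (nat_lit 5) (nat_lit 0x20003e001200000001000080000000000000000000000000000000) (nat_lit 0x0) (nat_lit 0x800040039000c0000400000000000000000000000000000000000000000000) := T_1 (nat_lit 198) (nat_lit 178) (nat_lit 0) (nat_lit 11) (nat_lit 11) L22719 (by decide +kernel)
theorem L22721 : W_1 (nat_lit 6) (nat_lit 0x20001e001200000001000080000000000000000000000000000000) (nat_lit 0x0) (nat_lit 0x800040039000e0002400000000000000000000000000000000000000000000) := T_1 (nat_lit 197) (nat_lit 181) (nat_lit 2) (nat_lit 7) (nat_lit 11) L22720 (by decide +kernel)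
theorem L22722 : W_1 (nat_lit 7) (nat_lit 0x1e001200000001000080000000000000000000000000000000) (nat_lit 0x0) (nat_lit 0x80004003f000e0002400000000000000000000000000000000000000000000) := T_1 (nat_lit 213) (nat_lit 214) (nat_lit 3) (nat_lit 6) (nat_lit 11) L22721 (by decide +kernel)
theorem L22723 : W_1 (nat_lit 8) (nat_lit 0x1e000200000001000080000000000000000000000000000000) (nat_lit 0x0) (nat_lit 0x80004003f000e0003c00000000000000000000000000000000000000000000) := T_1 (nat_lit 180) (nat_lit 179) (nat_lit 2) (nat_lit 6) (nat_lit 11) L22722 (by decide +kernel)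
theorem L23007 : W_1 (nat_lit 2) (nat_lit 0x30001c000a00040001000080000000000000000000000000000000) (nat_lit 0x0) (nat_lit 0x8000c00000000000000000000000000000000000000000000000000000) := D_1 (nat_lit 214) (nat_lit 215) (nat_lit 231) (nat_lit 0) (nat_lit 11) (nat_lit 12) (nat_lit 7) (nat_lit 9) (nat_lit 9) (by decide +kernel)
theorem L23847 : W_1 (nat_lit 4) (nat_lit 0x2000f000680010001000080000000000000000000000000000000) (nat_lit 0x0) (nat_lit 0xe40070000000000000000000000000000000000000000000000000) := T_1 (nat_lit 196) (nat_lit 210) (nat_lit 1) (nat_lit 9) (nat_lit 11) L10437 (by decide +kernel)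
theorem L23855 : W_1 (nat_lit 2) (nat_lit 0x2001f000200010001000080000000000000000000000000000000) (nat_lit 0x0) (nat_lit 0x1c00000000000000000000000000000000000000000000) := D_1 (nat_lit 179) (nat_lit 178) (nat_lit 180) (nat_lit 2) (nat_lit 5) (nat_lit 11) (nat_lit 2) (nat_lit 6) (nat_lit 11) (by decide +kernel)
theorem L23856 : W_1 (nat_lit 3) (nat_lit 0x2000f000200010001000080000000000000000000000000000000) (nat_lit 0x0) (nat_lit 0x40010001c00000000000000000000000000000000000000000000) := T_1 (nat_lit 196) (nat_lit 210) (nat_lit 1) (nat_lit 9) (nat_lit 11) L23855 (by decide +kernel)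
theorem L23857 : W_1 (nat_lit 4) (nat_lit 0x2000f000200000001000080000000000000000000000000000000) (nat_lit 0x0) (nat_lit 0x40010001c00010000800000000000000000000000000000000000) := T_1 (nat_lit 160) (nat_lit 143) (nat_lit 6) (nat_lit 7) (nat_lit 11) L23856 (by decide +kernel)
theorem L23858 : W_1 (nat_lit 5) (nat_lit 0xf000200000001000080000000000000000000000000000000) (nat_lit 0x0) (nat_lit 0x70010001c00010000800000000000000000000000000000000000) := T_1 (nat_lit 209) (nat_lit 208) (nat_lit 1) (nat_lit 8) (nat_lit 11) L23857 (by decide +kernel)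
theorem L23860 : W_1 (nat_lit 2) (nat_lit 0x8007800220010001000080000000000000000000000000000000) (nat_lit 0x0) (nat_lit 0x4000400010000000000000000000000000000000000000000000) := D_1 (nat_lit 190) (nat_lit 206) (nat_lit 172) (nat_lit 1) (nat_lit 6) (nat_lit 11) (nat_lit 0) (nat_lit 6) (nat_lit 11) (by decide +kernel)
theorem L23861 : W_1 (nat_lit 3) (nat_lit 0x8007800200010001000080000000000000000000000000000000) (nat_lit 0x0) (nat_lit 0x4000400070000000000000000000000000000000000000000000) := T_1 (nat_lit 173) (nat_lit 174) (nat_lit 0) (nat_lit 7) (nat_lit 11) L23860 (by decide +kernel)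
theorem L23862 : W_1 (nat_lit 4) (nat_lit 0x7800200010001000080000000000000000000000000000000) (nat_lit 0x0) (nat_lit 0x1c000400070000000000000000000000000000000000000000000) := T_1 (nat_lit 207) (nat_lit 208) (nat_lit 1) (nat_lit 7) (nat_lit 11) L23861 (by decide +kernel)
theorem L23863 : W_1 (nat_lit 5) (nat_lit 0x7000200010001000080000000000000000000000000000000) (nat_lit 0x0) (nat_lit 0x1c000c00470000000000000000000000000000000000000000000) := T_1 (nat_lit 191) (nat_lit 178) (nat_lit 2) (nat_lit 4) (nat_lit 11) L23862 (by decide +kernel)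
theorem L23864 : W_1 (nat_lit 6) (nat_lit 0x7000200000001000080000000000000000000000000000000) (nat_lit 0x0) (nat_lit 0x1c000c00470010000800000000000000000000000000000000000) := T_1 (nat_lit 160) (nat_lit 143) (nat_lit 6) (nat_lit 7) (nat_lit 11) L23863 (by decide +kernel)
theorem L23865 : W_1 (nat_lit 2) (nat_lit 0x10007800240000001000080000000000000000000000000000000) (nat_lit 0x0) (nat_lit 0x20008000080000000000000000000000000000000000000000000) := D_1 (nat_lit 195) (nat_lit 209) (nat_lit 175) (nat_lit 1) (nat_lit 8) (nat_lit 11) (nat_lit 0) (nat_lit 8) (nat_lit 11) (by decide +kernel)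
theorem L23866 : W_1 (nat_lit 3) (nat_lit 0x10007800200000001000080000000000000000000000000000000) (nat_lit 0x0) (nat_lit 0x200080000e0000000000000000000000000000000000000000000) := T_1 (nat_lit 174) (nat_lit 173) (nat_lit 0) (nat_lit 7) (nat_lit 11) L23865 (by decide +kernel)
theorem L23867 : W_1 (nat_lit 4) (nat_lit 0x7800200000001000080000000000000000000000000000000) (nat_lit 0x0) (nat_lit 0x380080000e0000000000000000000000000000000000000000000) := T_1 (nat_lit 208) (nat_lit 207) (nat_lit 1) (nat_lit 7) (nat_lit 11) L23866 (by decide +kernel)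
theorem L23868 : W_1 (nat_lit 5) (nat_lit 0x7000200000001000080000000000000000000000000000000) (nat_lit 0x0) (nat_lit 0x380088004e0000000000000000000000000000000000000000000) := T_1 (nat_lit 191) (nat_lit 178) (nat_lit 2) (nat_lit 4) (nat_lit 11) L23867 (by decide +kernel)
theorem L24165 : W_1 (nat_lit 2) (nat_lit 0x1e0005000200000001000080000000000000000000000000000000) (nat_lit 0x0) (nat_lit 0x10018000000000000000000000000000000000000000000000000) := D_1 (nat_lit 195) (nat_lit 208) (nat_lit 196) (nat_lit 2) (nat_lit 4) (nat_lit 12) (nat_lit 2) (nat_lit 5) (nat_lit 12) (by decide +kernel)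
theorem L24207 : W_1 (nat_lit 2) (nat_lit 0x84003e0025000200000001000080000000000000000000000000000000) (nat_lit 0x0) (nat_lit 0x10000400040000000000000000000000000000000000000000000000000) := D_1 (nat_lit 214) (nat_lit 198) (nat_lit 232) (nat_lit 2) (nat_lit 7) (nat_lit 12) (nat_lit 3) (nat_lit 7) (nat_lit 12) (by decide +kernel)
theorem L24208 : W_1 (nat_lit 3) (nat_lit 0x4003e0025000200000001000080000000000000000000000000000000) (nat_lit 0x0) (nat_lit 0x1c000400040000000000000000000000000000000000000000000000000) := T_1 (nat_lit 231) (nat_lit 230) (nat_lit 3) (nat_lit 6) (nat_lit 12) L24207 (by decide +kernel)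
theorem L24209 : W_1 (nat_lit 4) (nat_lit 0x4003e0005000200000001000080000000000000000000000000000000) (nat_lit 0x0) (nat_lit 0x1c000400070000000000000000000000000000000000000000000000000) := T_1 (nat_lit 197) (nat_lit 196) (nat_lit 2) (nat_lit 6) (nat_lit 12) L24208 (by decide +kernel)
theorem L24210 : W_1 (nat_lit 5) (nat_lit 0x4001e0005000200000001000080000000000000000000000000000000) (nat_lit 0x0) (nat_lit 0x1c800600070000000000000000000000000000000000000000000000000) := T_1 (nat_lit 213) (nat_lit 227) (nat_lit 1) (nat_lit 9) (nat_lit 12) L24209 (by decide +kernel)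
theorem L24601 : W_1 (nat_lit 2) (nat_lit 0x2001f000500022001e001080080000000000000000000000000000000) (nat_lit 0x0) (nat_lit 0x10001000040000000000000000000000000000000000) := D_1 (nat_lit 156) (nat_lit 172) (nat_lit 138) (nat_lit 1) (nat_lit 6) (nat_lit 9) (nat_lit 0) (nat_lit 6) (nat_lit 9) (by decide +kernel)
theorem L24602 : W_1 (nat_lit 3) (nat_lit 0x2001f000500022001e001000080000000000000000000000000000000) (nat_lit 0x0) (nat_lit 0x100010001c0000000000000000000000000000000000) := T_1 (nat_lit 139) (nat_lit 140) (nat_lit 0) (nat_lit 7) (nat_lit 9) L24601 (by decide +kernel)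
theorem L24603 : W_1 (nat_lit 4) (nat_lit 0x2001f000500020001e001000080000000000000000000000000000000) (nat_lit 0x0) (nat_lit 0x700010001c0000000000000000000000000000000000) := T_1 (nat_lit 173) (nat_lit 174) (nat_lit 1) (nat_lit 7) (nat_lit 9) L24602 (by decide +kernel)
theorem L24604 : W_1 (nat_lit 5) (nat_lit 0x2001f000500020001c001000080000000000000000000000000000000) (nat_lit 0x0) (nat_lit 0x4700030001c0000000000000000000000000000000000) := T_1 (nat_lit 157) (nat_lit 178) (nat_lit 3) (nat_lit 4) (nat_lit 9) L24603 (by decide +kernel)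
theorem L24605 : W_1 (nat_lit 6) (nat_lit 0x2001f0005000200018001000080000000000000000000000000000000) (nat_lit 0x0) (nat_lit 0x4f00070001c0000000000000000000000000000000000) := T_1 (nat_lit 158) (nat_lit 175) (nat_lit 5) (nat_lit 5) (nat_lit 9) L24604 (by decide +kernel)
theorem L24606 : W_1 (nat_lit 7) (nat_lit 0x2001e0005000200018001000080000000000000000000000000000000) (nat_lit 0x0) (nat_lit 0x1000100000004f00070001c0000000000000000000000000000000000) := T_1 (nat_lit 208) (nat_lit 224) (nat_lit 1) (nat_lit 7) (nat_lit 12) L24605 (by decide +kernel)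
theorem L24607 : W_1 (nat_lit 8) (nat_lit 0x1e0005000200018001000080000000000000000000000000000000) (nat_lit 0x0) (nat_lit 0x7000100000004f00070001c0000000000000000000000000000000000) := T_1 (nat_lit 225) (nat_lit 226) (nat_lit 1) (nat_lit 8) (nat_lit 12) L24606 (by decide +kernel)
theorem L24704 : W_1 (nat_lit 2) (nat_lit 0x4001a000500024001e001000080000000000000000000000000000000) (nat_lit 0x0) (nat_lit 0x8000000010000800000000000000000000000000000000000000000000000) := D_1 (nat_lit 191) (nat_lit 243) (nat_lit 208) (nat_lit 4) (nat_lit 5) (nat_lit 14) (nat_lit 7) (nat_lit 4) (nat_lit 9) (by decide +kernel)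
theorem L24705 : W_1 (nat_lit 3) (nat_lit 0x1a000500024001e001000080000000000000000000000000000000) (nat_lit 0x0) (nat_lit 0x8000400010000800080000000000000000000000000000000000000000000) := T_1 (nat_lit 226) (nat_lit 175) (nat_lit 4) (nat_lit 5) (nat_lit 13) L24704 (by decide +kernel)
theorem L24806 : W_1 (nat_lit 2) (nat_lit 0x1e0005000200018001000080000000000000000000000000000000) (nat_lit 0x0) (nat_lit 0x10018000000000000000000000000000000000000000000000000) := D_1 (nat_lit 195) (nat_lit 208) (nat_lit 196) (nat_lit 2) (nat_lit 4) (nat_lit 12) (nat_lit 2) (nat_lit 5) (nat_lit 12) (by decide +kernel)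
theorem L24807 : W_1 (nat_lit 3) (nat_lit 0x1a0005000200018001000080000000000000000000000000000000) (nat_lit 0x0) (nat_lit 0x50018800000000000000000000000000000000000000000000000) := T_1 (nat_lit 210) (nat_lit 191) (nat_lit 0) (nat_lit 8) (nat_lit 12) L24806 (by decide +kernel)
theorem L24814 : W_1 (nat_lit 2) (nat_lit 0x1a000500024001e001000080000000000000000000000000000000) (nat_lit 0x0) (nat_lit 0x800000000000180000000000000000000000000000000000) := D_1 (nat_lit 140) (nat_lit 139) (nat_lit 191) (nat_lit 0) (nat_lit 7) (nat_lit 9) (nat_lit 7) (nat_lit 4) (nat_lit 8) (by decide +kernel)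
theorem L24815 : W_1 (nat_lit 3) (nat_lit 0x1a000500020001e001000080000000000000000000000000000000) (nat_lit 0x0) (nat_lit 0x800060000000180000000000000000000000000000000000) := T_1 (nat_lit 174) (nat_lit 173) (nat_lit 1) (nat_lit 7) (nat_lit 9) L24814 (by decide +kernel)
theorem L24822 : W_1 (nat_lit 2) (nat_lit 0x1a000500020001e001000080000000000000000000000000000000) (nat_lit 0x0) (nat_lit 0x80000000180000000000000000000000000000000000) := D_1 (nat_lit 140) (nat_lit 139) (nat_lit 175) (nat_lit 0) (nat_lit 7) (nat_lit 9) (nat_lit 4) (nat_lit 5) (nat_lit 12) (by decide +kernel)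
theorem L24835 : W_1 (nat_lit 2) (nat_lit 0x10000f000200010001000080000000000000000000000000000000) (nat_lit 0x0) (nat_lit 0x40002000080000000000000000000000000000000000000000000000000000) := D_1 (nat_lit 229) (nat_lit 246) (nat_lit 211) (nat_lit 4) (nat_lit 8) (nat_lit 14) (nat_lit 7) (nat_lit 7) (nat_lit 9) (by decide +kernel)
theorem L24836 : W_1 (nat_lit 3) (nat_lit 0xf000200010001000080000000000000000000000000000000) (nat_lit 0x0) (nat_lit 0x40002000380000000000000000000000000000000000000000000000000000) := T_1 (nat_lit 212) (nat_lit 213) (nat_lit 3) (nat_lit 5) (nat_lit 11) L24835 (by decide +kernel)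
theorem L24837 : W_1 (nat_lit 4) (nat_lit 0xf000200000001000080000000000000000000000000000000) (nat_lit 0x0) (nat_lit 0x40002000380000000000010000800000000000000000000000000000000000) := T_1 (nat_lit 160) (nat_lit 143) (nat_lit 6) (nat_lit 7) (nat_lit 11) L24836 (by decide +kernel)
theorem L24839 : W_1 (nat_lit 5) (nat_lit 0x7800200000001000080000000000000000000000000000000) (nat_lit 0x0) (nat_lit 0x1c000400070010000800000000000000000000000000000000000) := T_1 (nat_lit 160) (nat_lit 143) (nat_lit 6) (nat_lit 7) (nat_lit 11) L23862 (by decide +kernel)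
theorem L24843 : W_1 (nat_lit 2) (nat_lit 0x80007800200010001000080000000000000000000000000000000) (nat_lit 0x0) (nat_lit 0x800040000400000000000000000000000000000000000000000000000) := D_1 (nat_lit 210) (nat_lit 190) (nat_lit 227) (nat_lit 3) (nat_lit 3) (nat_lit 11) (nat_lit 5) (nat_lit 7) (nat_lit 9) (by decide +kernel)
theorem L24844 : W_1 (nat_lit 3) (nat_lit 0x7800200010001000080000000000000000000000000000000) (nat_lit 0x0) (nat_lit 0x8001c0000400000000000000000000000000000000000000000000000) := T_1 (nat_lit 211) (nat_lit 212) (nat_lit 3) (nat_lit 4) (nat_lit 11) L24843 (by decide +kernel)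
theorem L24845 : W_1 (nat_lit 4) (nat_lit 0x7800200000001000080000000000000000000000000000000) (nat_lit 0x0) (nat_lit 0x8001c0000400000010000800000000000000000000000000000000000) := T_1 (nat_lit 160) (nat_lit 143) (nat_lit 6) (nat_lit 7) (nat_lit 11) L24844 (by decide +kernel)
theorem L24857 : W_1 (nat_lit 2) (nat_lit 0x10000f800200010001000080000000000000000000000000000000) (nat_lit 0x0) (nat_lit 0xe0000000000000000000000000000000000000000000) := D_1 (nat_lit 174) (nat_lit 175) (nat_lit 173) (nat_lit 0) (nat_lit 8) (nat_lit 11) (nat_lit 0) (nat_lit 7) (nat_lit 11) (by decide +kernel)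
theorem L24869 : W_1 (nat_lit 2) (nat_lit 0x68007800200000001000080000000000000000000000000000000) (nat_lit 0x0) (nat_lit 0x4000600000000000000000000000000000000000000000000000) := D_1 (nat_lit 190) (nat_lit 189) (nat_lit 206) (nat_lit 3) (nat_lit 2) (nat_lit 11) (nat_lit 1) (nat_lit 6) (nat_lit 11) (by decide +kernel)
theorem L24870 : W_1 (nat_lit 3) (nat_lit 0x60007800200000001000080000000000000000000000000000000) (nat_lit 0x0) (nat_lit 0x1c000600000000000000000000000000000000000000000000000) := T_1 (nat_lit 207) (nat_lit 208) (nat_lit 2) (nat_lit 3) (nat_lit 12) L24869 (by decide +kernel)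
theorem L24877 : W_1 (nat_lit 2) (nat_lit 0x6000f800240010001000080000000000000000000000000000000) (nat_lit 0x0) (nat_lit 0x80000600000000000000000000000000000000000000000000000) := D_1 (nat_lit 190) (nat_lit 189) (nat_lit 211) (nat_lit 3) (nat_lit 2) (nat_lit 11) (nat_lit 3) (nat_lit 3) (nat_lit 11) (by decide +kernel)
theorem L24878 : W_1 (nat_lit 3) (nat_lit 0x6000f000240010001000080000000000000000000000000000000) (nat_lit 0x0) (nat_lit 0x80000e00020000000000000000000000000000000000000000000) := T_1 (nat_lit 191) (nat_lit 173) (nat_lit 0) (nat_lit 7) (nat_lit 11) L24877 (by decide +kernel)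
theorem L24879 : W_1 (nat_lit 4) (nat_lit 0x6000f000200010001000080000000000000000000000000000000) (nat_lit 0x0) (nat_lit 0x80000e000e0000000000000000000000000000000000000000000) := T_1 (nat_lit 174) (nat_lit 175) (nat_lit 0) (nat_lit 8) (nat_lit 11) L24878 (by decide +kernel)
theorem L24880 : W_1 (nat_lit 5) (nat_lit 0x60007000200010001000080000000000000000000000000000000) (nat_lit 0x0) (nat_lit 0x80018e000e0000000000000000000000000000000000000000000) := T_1 (nat_lit 195) (nat_lit 196) (nat_lit 1) (nat_lit 9) (nat_lit 11) L24879 (by decide +kernel)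
theorem L24881 : W_1 (nat_lit 6) (nat_lit 0x60007000200000001000080000000000000000000000000000000) (nat_lit 0x0) (nat_lit 0x80018e000e0010000800000000000000000000000000000000000) := T_1 (nat_lit 160) (nat_lit 143) (nat_lit 6) (nat_lit 7) (nat_lit 11) L24880 (by decide +kernel)
theorem L24917 : W_1 (nat_lit 2) (nat_lit 0xc000f800240000001800080000000000000000000000000000000) (nat_lit 0x0) (nat_lit 0x20030000000000000000000000000000000000000000000000000) := D_1 (nat_lit 196) (nat_lit 209) (nat_lit 197) (nat_lit 1) (nat_lit 9) (nat_lit 11) (nat_lit 1) (nat_lit 10) (nat_lit 11) (by decide +kernel)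
theorem L24918 : W_1 (nat_lit 3) (nat_lit 0xc0007800240000001800080000000000000000000000000000000) (nat_lit 0x0) (nat_lit 0x20038000080000000000000000000000000000000000000000000) := T_1 (nat_lit 195) (nat_lit 175) (nat_lit 0) (nat_lit 8) (nat_lit 11) L24917 (by decide +kernel)
theorem L24919 : W_1 (nat_lit 4) (nat_lit 0xc0007800200000001800080000000000000000000000000000000) (nat_lit 0x0) (nat_lit 0x200380000e0000000000000000000000000000000000000000000) := T_1 (nat_lit 174) (nat_lit 173) (nat_lit 0) (nat_lit 7) (nat_lit 11) L24918 (by decide +kernel)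
theorem L24922 : W_1 (nat_lit 3) (nat_lit 0xc0007000200000001000080000000000000000000000000000000) (nat_lit 0x0) (nat_lit 0x2000300000000000010000800000000000000000000000000000000000) := T_1 (nat_lit 160) (nat_lit 143) (nat_lit 6) (nat_lit 7) (nat_lit 11) L9948 (by decide +kernel)
theorem L25272 : W_1 (nat_lit 5) (nat_lit 0x5800200010001000080000000000000000000000000000000) (nat_lit 0x0) (nat_lit 0x1c002400470000000000000000000000000000000000000000000) := T_1 (nat_lit 193) (nat_lit 178) (nat_lit 2) (nat_lit 4) (nat_lit 11) L23862 (by decide +kernel)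
theorem L25273 : W_1 (nat_lit 6) (nat_lit 0x5800200000001000080000000000000000000000000000000) (nat_lit 0x0) (nat_lit 0x1c002400470010000800000000000000000000000000000000000) := T_1 (nat_lit 160) (nat_lit 143) (nat_lit 6) (nat_lit 7) (nat_lit 11) L25272 (by decide +kernel)
theorem L25276 : W_1 (nat_lit 2) (nat_lit 0x1f000200000001000080000000000000000000000000000000) (nat_lit 0x0) (nat_lit 0x1c00000000000000000000000000000000000000000000) := D_1 (nat_lit 179) (nat_lit 178) (nat_lit 180) (nat_lit 2) (nat_lit 5) (nat_lit 11) (nat_lit 2) (nat_lit 6) (nat_lit 11) (by decide +kernel)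
theorem L36116 : W_1 (nat_lit 2) (nat_lit 0x7800280014001300080000000000000000000000000000000) (nat_lit 0x0) (nat_lit 0x8000060000000000000000000000000000000000000000000) := D_1 (nat_lit 174) (nat_lit 173) (nat_lit 195) (nat_lit 0) (nat_lit 7) (nat_lit 11) (nat_lit 0) (nat_lit 8) (nat_lit 11) (by decide +kernel)
theorem L36402 : W_1 (nat_lit 2) (nat_lit 0x580028001f801300080000000000000000000000000000000) (nat_lit 0x0) (nat_lit 0x38000000000000000000000000000000000000000000) := D_1 (nat_lit 172) (nat_lit 173) (nat_lit 171) (nat_lit 1) (nat_lit 6) (nat_lit 9) (nat_lit 1) (nat_lit 5) (nat_lit 9) (by decide +kernel)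
theorem L36403 : W_1 (nat_lit 3) (nat_lit 0x580028001f001300080000000000000000000000000000000) (nat_lit 0x0) (nat_lit 0x38000c00000000000000000000000000000000000000) := T_1 (nat_lit 155) (nat_lit 154) (nat_lit 2) (nat_lit 1) (nat_lit 9) L36402 (by decide +kernel)
theorem L36404 : W_1 (nat_lit 4) (nat_lit 0x580028001e001300080000000000000000000000000000000) (nat_lit 0x0) (nat_lit 0x138001c00000000000000000000000000000000000000) := T_1 (nat_lit 156) (nat_lit 176) (nat_lit 3) (nat_lit 3) (nat_lit 9) L36403 (by decide +kernel)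
theorem L36405 : W_1 (nat_lit 5) (nat_lit 0x5800280016001300080000000000000000000000000000000) (nat_lit 0x0) (nat_lit 0x138009c00080000000000000000000000000000000000) := T_1 (nat_lit 159) (nat_lit 139) (nat_lit 0) (nat_lit 7) (nat_lit 9) L36404 (by decide +kernel)
theorem L36406 : W_1 (nat_lit 6) (nat_lit 0x5800280014001300080000000000000000000000000000000) (nat_lit 0x0) (nat_lit 0x2000000013800bc00080000000000000000000000000000000000) := T_1 (nat_lit 157) (nat_lit 209) (nat_lit 4) (nat_lit 5) (nat_lit 12) L36405 (by decide +kernel)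
theorem L39112 : W_1 (nat_lit 2) (nat_lit 0x40002000300008001600080000000000000000000000000000000) (nat_lit 0x0) (nat_lit 0x400020001000000000000000000000000000000000000000000000000) := D_1 (nat_lit 209) (nat_lit 192) (nat_lit 226) (nat_lit 5) (nat_lit 6) (nat_lit 8) (nat_lit 5) (nat_lit 6) (nat_lit 9) (by decide +kernel)
theorem L39113 : W_1 (nat_lit 3) (nat_lit 0x2000300008001600080000000000000000000000000000000) (nat_lit 0x0) (nat_lit 0x400060001000000004000000000000000000000000000000000000000) := T_1 (nat_lit 210) (nat_lit 158) (nat_lit 4) (nat_lit 6) (nat_lit 12) L39112 (by decide +kernel)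
theorem L39114 : W_1 (nat_lit 4) (nat_lit 0x300008001600080000000000000000000000000000000) (nat_lit 0x0) (nat_lit 0x400060003000000004000000010000000000000000000000000000000) := T_1 (nat_lit 193) (nat_lit 124) (nat_lit 4) (nat_lit 6) (nat_lit 11) L39113 (by decide +kernel)
theorem L39135 : W_1 (nat_lit 2) (nat_lit 0x300038002c001e00080000000000000000000000000000000) (nat_lit 0x0) (nat_lit 0x10000c00000000000000000000000000000000000000000000000) := D_1 (nat_lit 191) (nat_lit 190) (nat_lit 208) (nat_lit 2) (nat_lit 3) (nat_lit 11) (nat_lit 5) (nat_lit 5) (nat_lit 8) (by decide +kernel)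
theorem L39136 : W_1 (nat_lit 3) (nat_lit 0x300030002c001e00080000000000000000000000000000000) (nat_lit 0x0) (nat_lit 0x10000c00080000000000020000000000000000000000000000000) := T_1 (nat_lit 175) (nat_lit 125) (nat_lit 6) (nat_lit 5) (nat_lit 11) L39135 (by decide +kernel)
theorem L39137 : W_1 (nat_lit 4) (nat_lit 0x200030002c001e00080000000000000000000000000000000) (nat_lit 0x0) (nat_lit 0x30001c00080000000000020000000000000000000000000000000) := T_1 (nat_lit 192) (nat_lit 209) (nat_lit 5) (nat_lit 6) (nat_lit 8) L39136 (by decide +kernel)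
theorem L39138 : W_1 (nat_lit 5) (nat_lit 0x200030000c001e00080000000000000000000000000000000) (nat_lit 0x0) (nat_lit 0x30001c00080060000000020000000000000000000000000000000) := T_1 (nat_lit 161) (nat_lit 162) (nat_lit 3) (nat_lit 5) (nat_lit 8) L39137 (by decide +kernel)
theorem L51413 : W_1 (nat_lit 2) (nat_lit 0x2c0014001200090000800000000000000000000000000) (nat_lit 0x0) (nat_lit 0x20001000080000000000000000000000) := D_1 (nat_lit 108) (nat_lit 125) (nat_lit 91) (nat_lit 6) (nat_lit 5) (nat_lit 10) (nat_lit 6) (nat_lit 5) (nat_lit 9) (by decide +kernel)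
theorem L51414 : W_1 (nat_lit 3) (nat_lit 0x2c0014001200090000000000000000000000000000000) (nat_lit 0x0) (nat_lit 0x2000000020001800080000000000000000000000) := T_1 (nat_lit 107) (nat_lit 157) (nat_lit 5) (nat_lit 5) (nat_lit 6) L51413 (by decide +kernel)
theorem L51634 : W_1 (nat_lit 4) (nat_lit 0x280014001200090000000000000000000000000000000) (nat_lit 0x0) (nat_lit 0x800040002000000020001800080000000000000000000000) := T_1 (nat_lit 174) (nat_lit 191) (nat_lit 5) (nat_lit 5) (nat_lit 7) L51414 (by decide +kernel)
theorem L62816 : W_1 (nat_lit 2) (nat_lit 0x1800280014001200090000000000000000000000000000000) (nat_lit 0x0) (nat_lit 0x100008000400000000000000000000000000) := D_1 (nat_lit 123) (nat_lit 106) (nat_lit 140) (nat_lit 4) (nat_lit 5) (nat_lit 10) (nat_lit 4) (nat_lit 5) (nat_lit 11) (by decide +kernel)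
theorem L62817 : W_1 (nat_lit 3) (nat_lit 0x1800280014001200080000000000000000000000000000000) (nat_lit 0x0) (nat_lit 0x40000000100018000400000000000000000000000000) := T_1 (nat_lit 124) (nat_lit 174) (nat_lit 5) (nat_lit 5) (nat_lit 7) L62816 (by decide +kernel)
theorem L62818 : W_1 (nat_lit 4) (nat_lit 0x1000280014001200080000000000000000000000000000000) (nat_lit 0x0) (nat_lit 0x10000800040000000100018000400000000000000000000000000) := T_1 (nat_lit 191) (nat_lit 208) (nat_lit 5) (nat_lit 5) (nat_lit 8) L62817 (by decide +kernel)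
theorem L62887 : W_1 (nat_lit 2) (nat_lit 0x380014001200090000800000000000000000000000000) (nat_lit 0x0) (nat_lit 0x20001000080000000000000000000000) := D_1 (nat_lit 108) (nat_lit 91) (nat_lit 125) (nat_lit 6) (nat_lit 5) (nat_lit 9) (nat_lit 6) (nat_lit 5) (nat_lit 10) (by decide +kernel)
theorem L62888 : W_1 (nat_lit 3) (nat_lit 0x380014001200090000000000000000000000000000000) (nat_lit 0x0) (nat_lit 0x8000000020001800080000000000000000000000) := T_1 (nat_lit 107) (nat_lit 159) (nat_lit 7) (nat_lit 5) (nat_lit 6) L62887 (by decide +kernel)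
theorem L62943 : W_1 (nat_lit 2) (nat_lit 0x2c0014001200090000800000000000000000000000000) (nat_lit 0x0) (nat_lit 0x8000400020000000000000000000000) := D_1 (nat_lit 106) (nat_lit 89) (nat_lit 123) (nat_lit 4) (nat_lit 5) (nat_lit 9) (nat_lit 4) (nat_lit 5) (nat_lit 10) (by decide +kernel)
theorem L62944 : W_1 (nat_lit 3) (nat_lit 0x2c0014001200090000000000000000000000000000000) (nat_lit 0x0) (nat_lit 0x2000000008000c00020000000000000000000000) := T_1 (nat_lit 107) (nat_lit 157) (nat_lit 5) (nat_lit 5) (nat_lit 6) L62943 (by decide +kernel)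
theorem L62945 : W_1 (nat_lit 4) (nat_lit 0x280014001200090000000000000000000000000000000) (nat_lit 0x0) (nat_lit 0x800040002000000008000c00020000000000000000000000) := T_1 (nat_lit 174) (nat_lit 191) (nat_lit 5) (nat_lit 5) (nat_lit 7) L62944 (by decide +kernel)
theorem L62948 : W_1 (nat_lit 2) (nat_lit 0x1000280014001700080000000000000000000000000000000) (nat_lit 0x0) (nat_lit 0x20000000000008000080000000000000000000000000000000000) := D_1 (nat_lit 159) (nat_lit 139) (nat_lit 209) (nat_lit 3) (nat_lit 3) (nat_lit 8) (nat_lit 6) (nat_lit 5) (nat_lit 12) (by decide +kernel)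
theorem L62949 : W_1 (nat_lit 3) (nat_lit 0x1000280014001300080000000000000000000000000000000) (nat_lit 0x0) (nat_lit 0x20000000000008000480020000000000000000000000000000000) := T_1 (nat_lit 142) (nat_lit 125) (nat_lit 6) (nat_lit 5) (nat_lit 11) L62948 (by decide +kernel)
theorem L62950 : W_1 (nat_lit 4) (nat_lit 0x1000280014001200080000000000000000000000000000000) (nat_lit 0x0) (nat_lit 0x20000000000008000580028000000000000000000000000000000) := T_1 (nat_lit 140) (nat_lit 123) (nat_lit 4) (nat_lit 5) (nat_lit 11) L62949 (by decide +kernel)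
theorem L63008 : W_1 (nat_lit 2) (nat_lit 0x2c001e001200080000000000000000000000000000000) (nat_lit 0x0) (nat_lit 0x10000800000000000000010000000000000000000000000000000) := D_1 (nat_lit 191) (nat_lit 208) (nat_lit 124) (nat_lit 6) (nat_lit 4) (nat_lit 12) (nat_lit 5) (nat_lit 5) (nat_lit 7) (by decide +kernel)
theorem L63033 : W_1 (nat_lit 2) (nat_lit 0x20001000280014001700080000000000000000000000000000000) (nat_lit 0x0) (nat_lit 0x200010000800000000000000000000000000000000000000000000000) := D_1 (nat_lit 208) (nat_lit 191) (nat_lit 225) (nat_lit 5) (nat_lit 5) (nat_lit 8) (nat_lit 5) (nat_lit 5) (nat_lit 9) (by decide +kernel)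
theorem L63034 : W_1 (nat_lit 3) (nat_lit 0x1000280014001700080000000000000000000000000000000) (nat_lit 0x0) (nat_lit 0x200030000800000002000000000000000000000000000000000000000) := T_1 (nat_lit 209) (nat_lit 157) (nat_lit 4) (nat_lit 5) (nat_lit 12) L63033 (by decide +kernel)
theorem L63035 : W_1 (nat_lit 4) (nat_lit 0x1000280014001300080000000000000000000000000000000) (nat_lit 0x0) (nat_lit 0x200030000800000002000400020000000000000000000000000000000) := T_1 (nat_lit 142) (nat_lit 125) (nat_lit 6) (nat_lit 5) (nat_lit 11) L63034 (by decide +kernel)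
theorem L63036 : W_1 (nat_lit 5) (nat_lit 0x1000280014001200080000000000000000000000000000000) (nat_lit 0x0) (nat_lit 0x200030000800000002000500028000000000000000000000000000000) := T_1 (nat_lit 140) (nat_lit 123) (nat_lit 4) (nat_lit 5) (nat_lit 11) L63035 (by decide +kernel)
theorem L63425 : W_1 (nat_lit 2) (nat_lit 0x200014001a00080000000000000000000000000000000) (nat_lit 0x0) (nat_lit 0x2000400100000000000000000000000000000000) := D_1 (nat_lit 142) (nat_lit 157) (nat_lit 128) (nat_lit 1) (nat_lit 8) (nat_lit 8) (nat_lit 2) (nat_lit 5) (nat_lit 8) (by decide +kernel)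
theorem L63485 : W_1 (nat_lit 2) (nat_lit 0x20003000280014001300080000000000000000000000000000000) (nat_lit 0x0) (nat_lit 0x200010000800000000000000000000000000000000000000000000000) := D_1 (nat_lit 208) (nat_lit 191) (nat_lit 225) (nat_lit 5) (nat_lit 5) (nat_lit 8) (nat_lit 5) (nat_lit 5) (nat_lit 9) (by decide +kernel)
theorem L63486 : W_1 (nat_lit 3) (nat_lit 0x3000280014001300080000000000000000000000000000000) (nat_lit 0x0) (nat_lit 0x200030000800000002000000000000000000000000000000000000000) := T_1 (nat_lit 209) (nat_lit 157) (nat_lit 4) (nat_lit 5) (nat_lit 12) L63485 (by decide +kernel)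
theorem L63487 : W_1 (nat_lit 4) (nat_lit 0x1000280014001300080000000000000000000000000000000) (nat_lit 0x0) (nat_lit 0x200070002800000002000000000000000000000000000000000000000) := T_1 (nat_lit 193) (nat_lit 210) (nat_lit 7) (nat_lit 5) (nat_lit 8) L63486 (by decide +kernel)
theorem L63488 : W_1 (nat_lit 5) (nat_lit 0x1000280014001200080000000000000000000000000000000) (nat_lit 0x0) (nat_lit 0x200070002800000002000100008000000000000000000000000000000) := T_1 (nat_lit 140) (nat_lit 123) (nat_lit 4) (nat_lit 5) (nat_lit 11) L63487 (by decide +kernel)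
theorem L63580 : W_1 (nat_lit 2) (nat_lit 0x200016001200080000000000000000000000000000000) (nat_lit 0x0) (nat_lit 0x8000c00000000000000000000000000000000000) := D_1 (nat_lit 143) (nat_lit 142) (nat_lit 159) (nat_lit 1) (nat_lit 8) (nat_lit 8) (nat_lit 2) (nat_lit 4) (nat_lit 9) (by decide +kernel)
theorem L63615 : W_1 (nat_lit 4) (nat_lit 0x280014001200090000000000000000000000000000000) (nat_lit 0x0) (nat_lit 0x2000100008000000020001800080000000000000000000000) := T_1 (nat_lit 176) (nat_lit 193) (nat_lit 7) (nat_lit 5) (nat_lit 7) L62888 (by decide +kernel)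
theorem L63641 : W_1 (nat_lit 2) (nat_lit 0x200014001200090001c00000000000000000000000000) (nat_lit 0x0) (nat_lit 0x80000000000028000000000000000000000000000000) := D_1 (nat_lit 175) (nat_lit 123) (nat_lit 125) (nat_lit 4) (nat_lit 5) (nat_lit 10) (nat_lit 6) (nat_lit 5) (nat_lit 10) (by decide +kernel)
theorem L63642 : W_1 (nat_lit 3) (nat_lit 0x200014001200090000c00000000000000000000000000) (nat_lit 0x0) (nat_lit 0x80000000000028001000080000000000000000000000) := T_1 (nat_lit 108) (nat_lit 91) (nat_lit 6) (nat_lit 5) (nat_lit 9) L63641 (by decide +kernel)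
theorem L63643 : W_1 (nat_lit 4) (nat_lit 0x200014001200090000800000000000000000000000000) (nat_lit 0x0) (nat_lit 0x800000000000280014000a0000000000000000000000) := T_1 (nat_lit 106) (nat_lit 89) (nat_lit 4) (nat_lit 5) (nat_lit 9) L63642 (by decide +kernel)
theorem L63911 : W_1 (nat_lit 2) (nat_lit 0x1000280016001600080000000000000000000000000000000) (nat_lit 0x0) (nat_lit 0x20000000000000000100008000000000000000000000000000000) := D_1 (nat_lit 140) (nat_lit 123) (nat_lit 209) (nat_lit 4) (nat_lit 5) (nat_lit 11) (nat_lit 4) (nat_lit 5) (nat_lit 12) (by decide +kernel)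
theorem L63912 : W_1 (nat_lit 3) (nat_lit 0x280016001600080000000000000000000000000000000) (nat_lit 0x0) (nat_lit 0x20001000000000000100028000000000000000000000000000000) := T_1 (nat_lit 192) (nat_lit 125) (nat_lit 6) (nat_lit 5) (nat_lit 11) L63911 (by decide +kernel)
theorem L63913 : W_1 (nat_lit 4) (nat_lit 0x280016001200080000000000000000000000000000000) (nat_lit 0x0) (nat_lit 0x20001000000000000d00028000000000000000000000000000000) := T_1 (nat_lit 142) (nat_lit 143) (nat_lit 1) (nat_lit 8) (nat_lit 8) L63912 (by decide +kernel)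
theorem L63952 : W_1 (nat_lit 2) (nat_lit 0x20001c0014000a0000000000000000000000000000000) (nat_lit 0x0) (nat_lit 0x80004000100000000000000000000000000000000000000000000) := D_1 (nat_lit 194) (nat_lit 211) (nat_lit 176) (nat_lit 4) (nat_lit 7) (nat_lit 12) (nat_lit 7) (nat_lit 6) (nat_lit 7) (by decide +kernel)
theorem L63953 : W_1 (nat_lit 3) (nat_lit 0x20001c001400080000000000000000000000000000000) (nat_lit 0x0) (nat_lit 0x80004000100000000000020001000000000000000000000000000) := T_1 (nat_lit 125) (nat_lit 108) (nat_lit 7) (nat_lit 6) (nat_lit 6) L63952 (by decide +kernel)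
theorem L63957 : W_1 (nat_lit 2) (nat_lit 0x20001f001000080000000000000000000000000000000) (nat_lit 0x0) (nat_lit 0x70000000000000000000000000000000000000000000) := D_1 (nat_lit 173) (nat_lit 172) (nat_lit 174) (nat_lit 1) (nat_lit 6) (nat_lit 9) (nat_lit 1) (nat_lit 7) (nat_lit 9) (by decide +kernel)
theorem L63958 : W_1 (nat_lit 3) (nat_lit 0x20001e001000080000000000000000000000000000000) (nat_lit 0x0) (nat_lit 0x170001000000000000000000000000000000000000000) := T_1 (nat_lit 156) (nat_lit 176) (nat_lit 3) (nat_lit 3) (nat_lit 9) L63957 (by decide +kernel)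
theorem L63959 : W_1 (nat_lit 4) (nat_lit 0x20001c001000080000000000000000000000000000000) (nat_lit 0x0) (nat_lit 0x570003000000000000000000000000000000000000000) := T_1 (nat_lit 157) (nat_lit 178) (nat_lit 3) (nat_lit 4) (nat_lit 9) L63958 (by decide +kernel)
theorem L63960 : W_1 (nat_lit 2) (nat_lit 0x22001e001080080000000000000000000000000000000) (nat_lit 0x0) (nat_lit 0x10001000040000000000000000000000000000000000) := D_1 (nat_lit 156) (nat_lit 172) (nat_lit 138) (nat_lit 1) (nat_lit 6) (nat_lit 9) (nat_lit 0) (nat_lit 6) (nat_lit 9) (by decide +kernel)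
theorem L63961 : W_1 (nat_lit 3) (nat_lit 0x22001e001000080000000000000000000000000000000) (nat_lit 0x0) (nat_lit 0x100010001c0000000000000000000000000000000000) := T_1 (nat_lit 139) (nat_lit 140) (nat_lit 0) (nat_lit 7) (nat_lit 9) L63960 (by decide +kernel)
theorem L63962 : W_1 (nat_lit 4) (nat_lit 0x20001e001000080000000000000000000000000000000) (nat_lit 0x0) (nat_lit 0x700010001c0000000000000000000000000000000000) := T_1 (nat_lit 173) (nat_lit 174) (nat_lit 1) (nat_lit 7) (nat_lit 9) L63961 (by decide +kernel)
theorem L63963 : W_1 (nat_lit 5) (nat_lit 0x20001c001000080000000000000000000000000000000) (nat_lit 0x0) (nat_lit 0x4700030001c0000000000000000000000000000000000) := T_1 (nat_lit 157) (nat_lit 178) (nat_lit 3) (nat_lit 4) (nat_lit 9) L63962 (by decide +kernel)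
theorem L63966 : W_1 (nat_lit 2) (nat_lit 0x2c001e001100080000000000000000000000000000000) (nat_lit 0x0) (nat_lit 0x20001000000000000000008000000000000000000000000000000) := D_1 (nat_lit 192) (nat_lit 209) (nat_lit 123) (nat_lit 4) (nat_lit 5) (nat_lit 12) (nat_lit 7) (nat_lit 4) (nat_lit 7) (by decide +kernel)
theorem L63967 : W_1 (nat_lit 3) (nat_lit 0x2c001e001000080000000000000000000000000000000) (nat_lit 0x0) (nat_lit 0x20001000000000000180008000000000000000000000000000000) := T_1 (nat_lit 140) (nat_lit 139) (nat_lit 0) (nat_lit 7) (nat_lit 9) L63966 (by decide +kernel)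
theorem L63968 : W_1 (nat_lit 4) (nat_lit 0x28001e001000080000000000000000000000000000000) (nat_lit 0x0) (nat_lit 0x20001000060000000180008000000000000000000000000000000) := T_1 (nat_lit 174) (nat_lit 173) (nat_lit 1) (nat_lit 7) (nat_lit 9) L63967 (by decide +kernel)
theorem L63981 : W_1 (nat_lit 2) (nat_lit 0x100038001e001100080000000000000000000000000000000) (nat_lit 0x0) (nat_lit 0x200008000400000000000000000000000000) := D_1 (nat_lit 123) (nat_lit 106) (nat_lit 141) (nat_lit 7) (nat_lit 4) (nat_lit 6) (nat_lit 4) (nat_lit 5) (nat_lit 11) (by decide +kernel)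
theorem L63982 : W_1 (nat_lit 3) (nat_lit 0x38001e001100080000000000000000000000000000000) (nat_lit 0x0) (nat_lit 0x20001000000000000200008000400000000000000000000000000) := T_1 (nat_lit 192) (nat_lit 209) (nat_lit 4) (nat_lit 5) (nat_lit 12) L63981 (by decide +kernel)
theorem L63983 : W_1 (nat_lit 4) (nat_lit 0x38001e001000080000000000000000000000000000000) (nat_lit 0x0) (nat_lit 0x20001000000000000380008000400000000000000000000000000) := T_1 (nat_lit 140) (nat_lit 139) (nat_lit 0) (nat_lit 7) (nat_lit 9) L63982 (by decide +kernel)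
theorem L63987 : W_1 (nat_lit 2) (nat_lit 0xf0009000780014001000080000000000000000000000000000000) (nat_lit 0x0) (nat_lit 0x3000100000000000000000000000000000000000000000000000000000) := D_1 (nat_lit 229) (nat_lit 212) (nat_lit 228) (nat_lit 4) (nat_lit 8) (nat_lit 13) (nat_lit 3) (nat_lit 4) (nat_lit 12) (by decide +kernel)
theorem L63988 : W_1 (nat_lit 3) (nat_lit 0x70009000780014001000080000000000000000000000000000000) (nat_lit 0x0) (nat_lit 0x3000180004000000000000000000000000000000000000000000000000) := T_1 (nat_lit 211) (nat_lit 194) (nat_lit 2) (nat_lit 4) (nat_lit 12) L63987 (by decide +kernel)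
theorem L63989 : W_1 (nat_lit 4) (nat_lit 0x60009000780014001000080000000000000000000000000000000) (nat_lit 0x0) (nat_lit 0x3200190004000000000000000000000000000000000000000000000000) := T_1 (nat_lit 208) (nat_lit 225) (nat_lit 5) (nat_lit 5) (nat_lit 9) L63988 (by decide +kernel)
theorem L63990 : W_1 (nat_lit 5) (nat_lit 0x40009000780014001000080000000000000000000000000000000) (nat_lit 0x0) (nat_lit 0x3a001b0004000000000000000000000000000000000000000000000000) := T_1 (nat_lit 209) (nat_lit 227) (nat_lit 7) (nat_lit 5) (nat_lit 9) L63989 (by decide +kernel)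
theorem L63991 : W_1 (nat_lit 6) (nat_lit 0x40001000780014001000080000000000000000000000000000000) (nat_lit 0x0) (nat_lit 0x3a001b001c000000000000000000000000000000000000000000000000) := T_1 (nat_lit 195) (nat_lit 196) (nat_lit 3) (nat_lit 5) (nat_lit 10) L63990 (by decide +kernel)
theorem L63992 : W_1 (nat_lit 7) (nat_lit 0x40000000780014001000080000000000000000000000000000000) (nat_lit 0x0) (nat_lit 0x3a001b001d800000000000000000000000000000000000000000000000) := T_1 (nat_lit 192) (nat_lit 191) (nat_lit 1) (nat_lit 8) (nat_lit 10) L63991 (by decide +kernel)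
theorem L63993 : W_1 (nat_lit 8) (nat_lit 0x40000000380014001000080000000000000000000000000000000) (nat_lit 0x0) (nat_lit 0x3a001b001d800400002000000000000000000000000000000000000000) := T_1 (nat_lit 178) (nat_lit 157) (nat_lit 0) (nat_lit 8) (nat_lit 10) L63992 (by decide +kernel)
theorem L63994 : W_1 (nat_lit 2) (nat_lit 0x40002000380014001000080000000000000000000000000000000) (nat_lit 0x0) (nat_lit 0x1000000000000200010000000000000000000000000000000) := D_1 (nat_lit 141) (nat_lit 124) (nat_lit 192) (nat_lit 7) (nat_lit 5) (nat_lit 7) (nat_lit 7) (nat_lit 5) (nat_lit 8) (by decide +kernel)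
theorem L63995 : W_1 (nat_lit 3) (nat_lit 0x40000000380014001000080000000000000000000000000000000) (nat_lit 0x0) (nat_lit 0x800000003000000000000200010000000000000000000000000000000) := T_1 (nat_lit 193) (nat_lit 227) (nat_lit 6) (nat_lit 6) (nat_lit 13) L63994 (by decide +kernel)
theorem L63996 : W_1 (nat_lit 2) (nat_lit 0x8007c0008000780014001000080000000000000000000000000000000) (nat_lit 0x0) (nat_lit 0x1c000000000000000000000000000000000000000000000000000000000) := D_1 (nat_lit 231) (nat_lit 230) (nat_lit 232) (nat_lit 3) (nat_lit 6) (nat_lit 12) (nat_lit 3) (nat_lit 7) (nat_lit 12) (by decide +kernel)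
theorem L63997 : W_1 (nat_lit 3) (nat_lit 0x8003c0008000780014001000080000000000000000000000000000000) (nat_lit 0x0) (nat_lit 0x1d000400000000000000000000000000000000000000000000000000000) := T_1 (nat_lit 214) (nat_lit 228) (nat_lit 1) (nat_lit 10) (nat_lit 12) L63996 (by decide +kernel)
theorem L63998 : W_1 (nat_lit 4) (nat_lit 0x8001c0008000780014001000080000000000000000000000000000000) (nat_lit 0x0) (nat_lit 0x1d400600000000000000000000000000000000000000000000000000000) := T_1 (nat_lit 213) (nat_lit 226) (nat_lit 1) (nat_lit 9) (nat_lit 12) L63997 (by decide +kernel)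
theorem L63999 : W_1 (nat_lit 5) (nat_lit 0x8000c0008000780014001000080000000000000000000000000000000) (nat_lit 0x0) (nat_lit 0x1f400700000000000000000000000000000000000000000000000000000) := T_1 (nat_lit 212) (nat_lit 229) (nat_lit 4) (nat_lit 8) (nat_lit 13) L63998 (by decide +kernel)
theorem L64000 : W_1 (nat_lit 6) (nat_lit 0x8000c0000000780014001000080000000000000000000000000000000) (nat_lit 0x0) (nat_lit 0x1f400700018000000000000000000000000000000000000000000000000) := T_1 (nat_lit 195) (nat_lit 196) (nat_lit 3) (nat_lit 5) (nat_lit 10) L63999 (by decide +kernel)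
theorem L64021 : W_1 (nat_lit 2) (nat_lit 0x40003e0014001000080000000000000000000000000000000) (nat_lit 0x0) (nat_lit 0xe00000000000000000000000000000000000000000000000) := D_1 (nat_lit 190) (nat_lit 189) (nat_lit 191) (nat_lit 1) (nat_lit 6) (nat_lit 10) (nat_lit 1) (nat_lit 7) (nat_lit 10) (by decide +kernel)
theorem L64022 : W_1 (nat_lit 3) (nat_lit 0x40003c0014001000080000000000000000000000000000000) (nat_lit 0x0) (nat_lit 0x2e00020000000000000000000000000000000000000000000) := T_1 (nat_lit 173) (nat_lit 193) (nat_lit 3) (nat_lit 3) (nat_lit 10) L64021 (by decide +kernel)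
theorem L64040 : W_1 (nat_lit 2) (nat_lit 0x60001000280014001200080000000000000000000000000000000) (nat_lit 0x0) (nat_lit 0x8000400020000000000000000000000000000000) := D_1 (nat_lit 142) (nat_lit 125) (nat_lit 159) (nat_lit 6) (nat_lit 5) (nat_lit 11) (nat_lit 6) (nat_lit 5) (nat_lit 12) (by decide +kernel)
theorem L64041 : W_1 (nat_lit 3) (nat_lit 0x60001000280014001000080000000000000000000000000000000) (nat_lit 0x0) (nat_lit 0x2000000008000600020000000000000000000000000000000) := T_1 (nat_lit 141) (nat_lit 193) (nat_lit 7) (nat_lit 5) (nat_lit 8) L64040 (by decide +kernel)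
theorem L64042 : W_1 (nat_lit 5) (nat_lit 0x200016001000080000000000000000000000000000000) (nat_lit 0x0) (nat_lit 0x4700090001c0000000000000000000000000000000000) := T_1 (nat_lit 159) (nat_lit 178) (nat_lit 3) (nat_lit 4) (nat_lit 9) L63962 (by decide +kernel)
theorem L64062 : W_1 (nat_lit 2) (nat_lit 0x400020001000280016001000080000000000000000000000000000000) (nat_lit 0x0) (nat_lit 0x4000200010000000000000000000000000000000000000000000000000000) := D_1 (nat_lit 225) (nat_lit 208) (nat_lit 242) (nat_lit 5) (nat_lit 5) (nat_lit 9) (nat_lit 5) (nat_lit 5) (nat_lit 10) (by decide +kernel)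
theorem L64063 : W_1 (nat_lit 3) (nat_lit 0x20001000280016001000080000000000000000000000000000000) (nat_lit 0x0) (nat_lit 0x4000600010000000040000000000000000000000000000000000000000000) := T_1 (nat_lit 226) (nat_lit 174) (nat_lit 4) (nat_lit 5) (nat_lit 13) L64062 (by decide +kernel)
theorem L64067 : W_1 (nat_lit 2) (nat_lit 0x380016001000080000000000000000000000000000000) (nat_lit 0x0) (nat_lit 0x40001800000000000000000000000000000000000000) := D_1 (nat_lit 156) (nat_lit 174) (nat_lit 155) (nat_lit 0) (nat_lit 7) (nat_lit 10) (nat_lit 3) (nat_lit 2) (nat_lit 9) (by decide +kernel)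
theorem L64068 : W_1 (nat_lit 4) (nat_lit 0x2c0016001000080000000000000000000000000000000) (nat_lit 0x0) (nat_lit 0x20001000020008000180008000000000000000000000000000000) := T_1 (nat_lit 159) (nat_lit 173) (nat_lit 1) (nat_lit 7) (nat_lit 9) L63967 (by decide +kernel)
theorem L64122 : W_1 (nat_lit 2) (nat_lit 0x1000280014001a00098000000000000000000000000000000) (nat_lit 0x0) (nat_lit 0x40002000100000000000000000000000000000000000000000000) := D_1 (nat_lit 193) (nat_lit 176) (nat_lit 210) (nat_lit 7) (nat_lit 5) (nat_lit 7) (nat_lit 7) (nat_lit 5) (nat_lit 8) (by decide +kernel)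
theorem L64123 : W_1 (nat_lit 3) (nat_lit 0x280014001a00098000000000000000000000000000000) (nat_lit 0x0) (nat_lit 0x40003000100000000100000000000000000000000000000000000) := T_1 (nat_lit 192) (nat_lit 140) (nat_lit 4) (nat_lit 5) (nat_lit 11) L64122 (by decide +kernel)
theorem L64124 : W_1 (nat_lit 4) (nat_lit 0x280014001200098000000000000000000000000000000) (nat_lit 0x0) (nat_lit 0x40003000100000000d00000000000000000000000000000000000) := T_1 (nat_lit 143) (nat_lit 142) (nat_lit 0) (nat_lit 8) (nat_lit 8) L64123 (by decide +kernel)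
theorem L64125 : W_1 (nat_lit 5) (nat_lit 0x280014001200090000000000000000000000000000000) (nat_lit 0x0) (nat_lit 0x40003000100000000d00008000400000000000000000000000000) := T_1 (nat_lit 123) (nat_lit 106) (nat_lit 4) (nat_lit 5) (nat_lit 10) L64124 (by decide +kernel)
theorem L64166 : W_1 (nat_lit 4) (nat_lit 0x20001000280014001000080000000000000000000000000000000) (nat_lit 0x0) (nat_lit 0x800040002000000008000600020000000000000000000000000000000) := T_1 (nat_lit 210) (nat_lit 227) (nat_lit 7) (nat_lit 5) (nat_lit 9) L64041 (by decide +kernel)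
theorem L64168 : W_1 (nat_lit 2) (nat_lit 0x2000100028001e001000080000000000000000000000000000000) (nat_lit 0x0) (nat_lit 0x400000000000100001000000000000000000000000000000000000000) := D_1 (nat_lit 176) (nat_lit 156) (nat_lit 226) (nat_lit 3) (nat_lit 3) (nat_lit 9) (nat_lit 6) (nat_lit 5) (nat_lit 13) (by decide +kernel)
theorem L64186 : W_1 (nat_lit 2) (nat_lit 0x180038001400160009a000000000000000000000000000000) (nat_lit 0x0) (nat_lit 0x20000000000008000000000000800000000000000000000000000) := D_1 (nat_lit 159) (nat_lit 107) (nat_lit 209) (nat_lit 7) (nat_lit 5) (nat_lit 6) (nat_lit 6) (nat_lit 5) (nat_lit 12) (by decide +kernel)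
theorem L64187 : W_1 (nat_lit 3) (nat_lit 0x180028001400160009a000000000000000000000000000000) (nat_lit 0x0) (nat_lit 0x20002000100008000000000000800000000000000000000000000) := T_1 (nat_lit 176) (nat_lit 193) (nat_lit 7) (nat_lit 5) (nat_lit 7) L64186 (by decide +kernel)
theorem L64188 : W_1 (nat_lit 4) (nat_lit 0x1800280014001600098000000000000000000000000000000) (nat_lit 0x0) (nat_lit 0x20002000100008000000006000800000000000000000000000000) := T_1 (nat_lit 121) (nat_lit 122) (nat_lit 3) (nat_lit 2) (nat_lit 7) L64187 (by decide +kernel)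
theorem L64189 : W_1 (nat_lit 5) (nat_lit 0x1800280014001600090000000000000000000000000000000) (nat_lit 0x0) (nat_lit 0x2000200010000800000000e000c00000000000000000000000000) := T_1 (nat_lit 123) (nat_lit 106) (nat_lit 4) (nat_lit 5) (nat_lit 10) L64188 (by decide +kernel)
theorem L64190 : W_1 (nat_lit 6) (nat_lit 0x1800280014001600080000000000000000000000000000000) (nat_lit 0x0) (nat_lit 0x2000200014000800000001e000c00000000000000000000000000) := T_1 (nat_lit 124) (nat_lit 174) (nat_lit 5) (nat_lit 5) (nat_lit 7) L64189 (by decide +kernel)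
theorem L64191 : W_1 (nat_lit 7) (nat_lit 0x1000280014001600080000000000000000000000000000000) (nat_lit 0x0) (nat_lit 0x3000280014000800000001e000c00000000000000000000000000) := T_1 (nat_lit 191) (nat_lit 208) (nat_lit 5) (nat_lit 5) (nat_lit 8) L64190 (by decide +kernel)
theorem L64192 : W_1 (nat_lit 8) (nat_lit 0x1000280014001200080000000000000000000000000000000) (nat_lit 0x0) (nat_lit 0x3000280014000800040003e000c00000000000000000000000000) := T_1 (nat_lit 142) (nat_lit 125) (nat_lit 6) (nat_lit 5) (nat_lit 11) L64191 (by decide +kernel)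
theorem L64193 : W_1 (nat_lit 2) (nat_lit 0x180028001c001600090000000000000000000000000000000) (nat_lit 0x0) (nat_lit 0x2000100000000000000000800000000000000000000000000) := D_1 (nat_lit 176) (nat_lit 193) (nat_lit 107) (nat_lit 7) (nat_lit 5) (nat_lit 7) (nat_lit 7) (nat_lit 5) (nat_lit 6) (by decide +kernel)
theorem L64194 : W_1 (nat_lit 3) (nat_lit 0x1800280014001600090000000000000000000000000000000) (nat_lit 0x0) (nat_lit 0x20002000100008000000000000800000000000000000000000000) := T_1 (nat_lit 159) (nat_lit 209) (nat_lit 6) (nat_lit 5) (nat_lit 12) L64193 (by decide +kernel)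
theorem L64195 : W_1 (nat_lit 4) (nat_lit 0x1800280014001600080000000000000000000000000000000) (nat_lit 0x0) (nat_lit 0x20002000140008000000010000800000000000000000000000000) := T_1 (nat_lit 124) (nat_lit 174) (nat_lit 5) (nat_lit 5) (nat_lit 7) L64194 (by decide +kernel)
theorem L64196 : W_1 (nat_lit 5) (nat_lit 0x1000280014001600080000000000000000000000000000000) (nat_lit 0x0) (nat_lit 0x30002800140008000000010000800000000000000000000000000) := T_1 (nat_lit 191) (nat_lit 208) (nat_lit 5) (nat_lit 5) (nat_lit 8) L64195 (by decide +kernel)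
theorem L64197 : W_1 (nat_lit 6) (nat_lit 0x1000280014001200080000000000000000000000000000000) (nat_lit 0x0) (nat_lit 0x30002800140008000400030000800000000000000000000000000) := T_1 (nat_lit 142) (nat_lit 125) (nat_lit 6) (nat_lit 5) (nat_lit 11) L64196 (by decide +kernel)
theorem L64207 : W_1 (nat_lit 2) (nat_lit 0x2000100028001f001000080000000000000000000000000000000) (nat_lit 0x0) (nat_lit 0x70000000000000000000000000000000000000000000) := D_1 (nat_lit 173) (nat_lit 172) (nat_lit 174) (nat_lit 1) (nat_lit 6) (nat_lit 9) (nat_lit 1) (nat_lit 7) (nat_lit 9) (by decide +kernel)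
theorem L64208 : W_1 (nat_lit 3) (nat_lit 0x2000100028001e001000080000000000000000000000000000000) (nat_lit 0x0) (nat_lit 0x170001000000000000000000000000000000000000000) := T_1 (nat_lit 156) (nat_lit 176) (nat_lit 3) (nat_lit 3) (nat_lit 9) L64207 (by decide +kernel)
theorem L64209 : W_1 (nat_lit 4) (nat_lit 0x2000100028001c001000080000000000000000000000000000000) (nat_lit 0x0) (nat_lit 0x170003000100000000000000000000000000000000000) := T_1 (nat_lit 157) (nat_lit 140) (nat_lit 4) (nat_lit 5) (nat_lit 12) L64208 (by decide +kernel)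
theorem L64210 : W_1 (nat_lit 5) (nat_lit 0x20001000280014001000080000000000000000000000000000000) (nat_lit 0x0) (nat_lit 0x17000b000500000000000000000000000000000000000) := T_1 (nat_lit 159) (nat_lit 142) (nat_lit 6) (nat_lit 5) (nat_lit 12) L64209 (by decide +kernel)
theorem L64213 : W_1 (nat_lit 2) (nat_lit 0x30001000280014001200080000000000000000000000000000000) (nat_lit 0x0) (nat_lit 0x8000400020000000000000000000000000000000) := D_1 (nat_lit 142) (nat_lit 159) (nat_lit 125) (nat_lit 6) (nat_lit 5) (nat_lit 12) (nat_lit 6) (nat_lit 5) (nat_lit 11) (by decide +kernel)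
theorem L64214 : W_1 (nat_lit 3) (nat_lit 0x30001000280014001000080000000000000000000000000000000) (nat_lit 0x0) (nat_lit 0x800000008000600020000000000000000000000000000000) := T_1 (nat_lit 141) (nat_lit 191) (nat_lit 5) (nat_lit 5) (nat_lit 8) L64213 (by decide +kernel)
theorem L64215 : W_1 (nat_lit 4) (nat_lit 0x20001000280014001000080000000000000000000000000000000) (nat_lit 0x0) (nat_lit 0x200010000800000008000600020000000000000000000000000000000) := T_1 (nat_lit 208) (nat_lit 225) (nat_lit 5) (nat_lit 5) (nat_lit 9) L64214 (by decide +kernel)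
theorem L64217 : W_1 (nat_lit 2) (nat_lit 0x3000280014001300090000000000000000000000000000000) (nat_lit 0x0) (nat_lit 0x400020001000000000000000000000000000) := D_1 (nat_lit 125) (nat_lit 108) (nat_lit 142) (nat_lit 6) (nat_lit 5) (nat_lit 10) (nat_lit 6) (nat_lit 5) (nat_lit 11) (by decide +kernel)
theorem L64218 : W_1 (nat_lit 3) (nat_lit 0x3000280014001300080000000000000000000000000000000) (nat_lit 0x0) (nat_lit 0x100000000400030001000000000000000000000000000) := T_1 (nat_lit 124) (nat_lit 176) (nat_lit 7) (nat_lit 5) (nat_lit 7) L64217 (by decide +kernel)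
theorem L64219 : W_1 (nat_lit 4) (nat_lit 0x1000280014001300080000000000000000000000000000000) (nat_lit 0x0) (nat_lit 0x40002000100000000400030001000000000000000000000000000) := T_1 (nat_lit 193) (nat_lit 210) (nat_lit 7) (nat_lit 5) (nat_lit 8) L64218 (by decide +kernel)
theorem L64220 : W_1 (nat_lit 5) (nat_lit 0x1000280014001200080000000000000000000000000000000) (nat_lit 0x0) (nat_lit 0x40002000100000000500038001000000000000000000000000000) := T_1 (nat_lit 140) (nat_lit 123) (nat_lit 4) (nat_lit 5) (nat_lit 11) L64219 (by decide +kernel)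
theorem L64232 : W_1 (nat_lit 2) (nat_lit 0x20001000280016001000080000000000000000000000000000000) (nat_lit 0x0) (nat_lit 0x400008000400000000000000000000000000000000000) := D_1 (nat_lit 159) (nat_lit 178) (nat_lit 142) (nat_lit 3) (nat_lit 4) (nat_lit 9) (nat_lit 6) (nat_lit 5) (nat_lit 12) (by decide +kernel)
theorem L64233 : W_1 (nat_lit 3) (nat_lit 0x20001000280014001000080000000000000000000000000000000) (nat_lit 0x0) (nat_lit 0x40000a000500000000000000000000000000000000000) := T_1 (nat_lit 157) (nat_lit 140) (nat_lit 4) (nat_lit 5) (nat_lit 12) L64232 (by decide +kernel)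
theorem L64235 : W_1 (nat_lit 2) (nat_lit 0x580028001c00160009a000000000000000000000000000000) (nat_lit 0x0) (nat_lit 0x2000400002000000000000000000000000000000000000000) := D_1 (nat_lit 178) (nat_lit 157) (nat_lit 193) (nat_lit 3) (nat_lit 4) (nat_lit 9) (nat_lit 2) (nat_lit 4) (nat_lit 11) (by decide +kernel)
theorem L64236 : W_1 (nat_lit 3) (nat_lit 0x180028001c00160009a000000000000000000000000000000) (nat_lit 0x0) (nat_lit 0x80006000400002000000000000000000000000000000000000000) := T_1 (nat_lit 194) (nat_lit 211) (nat_lit 4) (nat_lit 7) (nat_lit 12) L64235 (by decide +kernel)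
theorem L64237 : W_1 (nat_lit 4) (nat_lit 0x180028001400160009a000000000000000000000000000000) (nat_lit 0x0) (nat_lit 0xa000600040000a000000000000000000000000000000000000000) := T_1 (nat_lit 159) (nat_lit 209) (nat_lit 6) (nat_lit 5) (nat_lit 12) L64236 (by decide +kernel)
theorem L64238 : W_1 (nat_lit 5) (nat_lit 0x1800280014001600098000000000000000000000000000000) (nat_lit 0x0) (nat_lit 0xa000600040000a000000006000000000000000000000000000000) := T_1 (nat_lit 121) (nat_lit 122) (nat_lit 3) (nat_lit 2) (nat_lit 7) L64237 (by decide +kernel)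
theorem L64239 : W_1 (nat_lit 6) (nat_lit 0x1800280014001600090000000000000000000000000000000) (nat_lit 0x0) (nat_lit 0xa000600040000a00000000e000400000000000000000000000000) := T_1 (nat_lit 123) (nat_lit 106) (nat_lit 4) (nat_lit 5) (nat_lit 10) L64238 (by decide +kernel)
theorem L64240 : W_1 (nat_lit 7) (nat_lit 0x1800280014001600080000000000000000000000000000000) (nat_lit 0x0) (nat_lit 0xa000600044000a00000001e000400000000000000000000000000) := T_1 (nat_lit 124) (nat_lit 174) (nat_lit 5) (nat_lit 5) (nat_lit 7) L64239 (by decide +kernel)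
theorem L64241 : W_1 (nat_lit 8) (nat_lit 0x1000280014001600080000000000000000000000000000000) (nat_lit 0x0) (nat_lit 0xb000680044000a00000001e000400000000000000000000000000) := T_1 (nat_lit 191) (nat_lit 208) (nat_lit 5) (nat_lit 5) (nat_lit 8) L64240 (by decide +kernel)
theorem L64242 : W_1 (nat_lit 9) (nat_lit 0x1000280014001200080000000000000000000000000000000) (nat_lit 0x0) (nat_lit 0xb000680044000a00040003e000400000000000000000000000000) := T_1 (nat_lit 142) (nat_lit 125) (nat_lit 6) (nat_lit 5) (nat_lit 11) L64241 (by decide +kernel)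
theorem L64243 : W_1 (nat_lit 2) (nat_lit 0x8000180028001f001600090000000040000000000000000000000) (nat_lit 0x0) (nat_lit 0x1c0000000000000000000000000000000000) := D_1 (nat_lit 139) (nat_lit 140) (nat_lit 138) (nat_lit 3) (nat_lit 3) (nat_lit 8) (nat_lit 0) (nat_lit 6) (nat_lit 9) (by decide +kernel)
theorem L64244 : W_1 (nat_lit 3) (nat_lit 0x8000180028001e001600090000000040000000000000000000000) (nat_lit 0x0) (nat_lit 0x18001c0000000000000000000000000000000000) := T_1 (nat_lit 156) (nat_lit 155) (nat_lit 2) (nat_lit 2) (nat_lit 9) L64243 (by decide +kernel)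
theorem L64245 : W_1 (nat_lit 4) (nat_lit 0x8000180028001c001600090000000040000000000000000000000) (nat_lit 0x0) (nat_lit 0x4000038001c0000000000000000000000000000000000) := T_1 (nat_lit 157) (nat_lit 178) (nat_lit 3) (nat_lit 4) (nat_lit 9) L64244 (by decide +kernel)
theorem L64246 : W_1 (nat_lit 5) (nat_lit 0x8000180028001c001600090000000000000000000000000000000) (nat_lit 0x0) (nat_lit 0x4000038001c0000000800040000000000000000000000) := T_1 (nat_lit 90) (nat_lit 107) (nat_lit 7) (nat_lit 5) (nat_lit 5) L64245 (by decide +kernel)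
theorem L64247 : W_1 (nat_lit 6) (nat_lit 0x180028001c001600090000000000000000000000000000000) (nat_lit 0x0) (nat_lit 0x800040004000038001c0000000800040000000000000000000000) := T_1 (nat_lit 211) (nat_lit 194) (nat_lit 4) (nat_lit 7) (nat_lit 12) L64246 (by decide +kernel)
theorem L64248 : W_1 (nat_lit 7) (nat_lit 0x1800280014001600090000000000000000000000000000000) (nat_lit 0x0) (nat_lit 0xa000400040000b8001c0000000800040000000000000000000000) := T_1 (nat_lit 159) (nat_lit 209) (nat_lit 6) (nat_lit 5) (nat_lit 12) L64247 (by decide +kernel)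
theorem L64249 : W_1 (nat_lit 8) (nat_lit 0x1800280014001600080000000000000000000000000000000) (nat_lit 0x0) (nat_lit 0xa000400044000b8001c0010000800040000000000000000000000) := T_1 (nat_lit 124) (nat_lit 174) (nat_lit 5) (nat_lit 5) (nat_lit 7) L64248 (by decide +kernel)
theorem L64250 : W_1 (nat_lit 9) (nat_lit 0x1000280014001600080000000000000000000000000000000) (nat_lit 0x0) (nat_lit 0xb000480044000b8001c0010000800040000000000000000000000) := T_1 (nat_lit 191) (nat_lit 208) (nat_lit 5) (nat_lit 5) (nat_lit 8) L64249 (by decide +kernel)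
theorem L64251 : W_1 (nat_lit 10) (nat_lit 0x1000280014001200080000000000000000000000000000000) (nat_lit 0x0) (nat_lit 0xb000480044000b8005c0030000800040000000000000000000000) := T_1 (nat_lit 142) (nat_lit 125) (nat_lit 6) (nat_lit 5) (nat_lit 11) L64250 (by decide +kernel)
theorem L64260 : W_1 (nat_lit 2) (nat_lit 0x3000280014801780082000000000000000000000000000000) (nat_lit 0x0) (nat_lit 0x400040001000000000000000000000000000000) := D_1 (nat_lit 138) (nat_lit 154) (nat_lit 120) (nat_lit 1) (nat_lit 5) (nat_lit 8) (nat_lit 0) (nat_lit 5) (nat_lit 8) (by decide +kernel)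
theorem L64261 : W_1 (nat_lit 3) (nat_lit 0x3000280014801780080000000000000000000000000000000) (nat_lit 0x0) (nat_lit 0x400040007000000000000000000000000000000) := T_1 (nat_lit 121) (nat_lit 122) (nat_lit 0) (nat_lit 6) (nat_lit 8) L64260 (by decide +kernel)
theorem L64262 : W_1 (nat_lit 4) (nat_lit 0x3000280014001780080000000000000000000000000000000) (nat_lit 0x0) (nat_lit 0x1c00040007000000000000000000000000000000) := T_1 (nat_lit 155) (nat_lit 156) (nat_lit 1) (nat_lit 6) (nat_lit 8) L64261 (by decide +kernel)
theorem L64263 : W_1 (nat_lit 5) (nat_lit 0x3000280014001700080000000000000000000000000000000) (nat_lit 0x0) (nat_lit 0x9c000c0007000000000000000000000000000000) := T_1 (nat_lit 139) (nat_lit 159) (nat_lit 3) (nat_lit 3) (nat_lit 8) L64262 (by decide +kernel)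
theorem L64264 : W_1 (nat_lit 6) (nat_lit 0x3000280014001300080000000000000000000000000000000) (nat_lit 0x0) (nat_lit 0x9c004c0027000000000000000000000000000000) := T_1 (nat_lit 142) (nat_lit 125) (nat_lit 6) (nat_lit 5) (nat_lit 11) L64263 (by decide +kernel)
theorem L64265 : W_1 (nat_lit 7) (nat_lit 0x1000280014001300080000000000000000000000000000000) (nat_lit 0x0) (nat_lit 0x40002000000009c004c0027000000000000000000000000000000) := T_1 (nat_lit 193) (nat_lit 210) (nat_lit 7) (nat_lit 5) (nat_lit 8) L64264 (by decide +kernel)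
theorem L64266 : W_1 (nat_lit 8) (nat_lit 0x1000280014001200080000000000000000000000000000000) (nat_lit 0x0) (nat_lit 0x40002000000009c005c002f000000000000000000000000000000) := T_1 (nat_lit 140) (nat_lit 123) (nat_lit 4) (nat_lit 5) (nat_lit 11) L64265 (by decide +kernel)
theorem L64268 : W_1 (nat_lit 2) (nat_lit 0x800030002c001e801600080000000000000000000000000000000) (nat_lit 0x0) (nat_lit 0x800000000000000010000800000000000000000000000000) := D_1 (nat_lit 124) (nat_lit 191) (nat_lit 107) (nat_lit 5) (nat_lit 5) (nat_lit 7) (nat_lit 5) (nat_lit 5) (nat_lit 6) (by decide +kernel)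
theorem L64269 : W_1 (nat_lit 3) (nat_lit 0x8000300028001e801600080000000000000000000000000000000) (nat_lit 0x0) (nat_lit 0x800060000000000010000800000000000000000000000000) := T_1 (nat_lit 174) (nat_lit 173) (nat_lit 1) (nat_lit 7) (nat_lit 9) L64268 (by decide +kernel)
theorem L64270 : W_1 (nat_lit 4) (nat_lit 0x8000300028001e001600080000000000000000000000000000000) (nat_lit 0x0) (nat_lit 0x800060001800000010000800000000000000000000000000) := T_1 (nat_lit 155) (nat_lit 156) (nat_lit 2) (nat_lit 2) (nat_lit 9) L64269 (by decide +kernel)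
theorem L64271 : W_1 (nat_lit 5) (nat_lit 0x8000300028001c001600080000000000000000000000000000000) (nat_lit 0x0) (nat_lit 0x800460003800000010000800000000000000000000000000) := T_1 (nat_lit 157) (nat_lit 178) (nat_lit 3) (nat_lit 4) (nat_lit 9) L64270 (by decide +kernel)
theorem L64272 : W_1 (nat_lit 6) (nat_lit 0x300028001c001600080000000000000000000000000000000) (nat_lit 0x0) (nat_lit 0x80004800460003800000010000800000000000000000000000000) := T_1 (nat_lit 211) (nat_lit 194) (nat_lit 4) (nat_lit 7) (nat_lit 12) L64271 (by decide +kernel)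
theorem L64273 : W_1 (nat_lit 7) (nat_lit 0x3000280014001600080000000000000000000000000000000) (nat_lit 0x0) (nat_lit 0xa000480046000b800000010000800000000000000000000000000) := T_1 (nat_lit 159) (nat_lit 209) (nat_lit 6) (nat_lit 5) (nat_lit 12) L64272 (by decide +kernel)
theorem L64274 : W_1 (nat_lit 8) (nat_lit 0x1000280014001600080000000000000000000000000000000) (nat_lit 0x0) (nat_lit 0xe000680046000b800000010000800000000000000000000000000) := T_1 (nat_lit 193) (nat_lit 210) (nat_lit 7) (nat_lit 5) (nat_lit 8) L64273 (by decide +kernel)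
theorem L64275 : W_1 (nat_lit 9) (nat_lit 0x1000280014001200080000000000000000000000000000000) (nat_lit 0x0) (nat_lit 0xe000680046000b800400030000800000000000000000000000000) := T_1 (nat_lit 142) (nat_lit 125) (nat_lit 6) (nat_lit 5) (nat_lit 11) L64274 (by decide +kernel)
theorem L64279 : W_1 (nat_lit 3) (nat_lit 0x280016001000080000000000000000000000000000000) (nat_lit 0x0) (nat_lit 0x540001800000000000000000000000000000000000000) := T_1 (nat_lit 176) (nat_lit 178) (nat_lit 0) (nat_lit 8) (nat_lit 10) L64067 (by decide +kernel)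
theorem L64282 : W_1 (nat_lit 4) (nat_lit 0x3c0014001000080000000000000000000000000000000) (nat_lit 0x0) (nat_lit 0xee00020000000000000000000000000000000000000000000) := T_1 (nat_lit 194) (nat_lit 195) (nat_lit 3) (nat_lit 4) (nat_lit 10) L64022 (by decide +kernel)
theorem L64283 : W_1 (nat_lit 5) (nat_lit 0x3c0016001000080000000000000000000000000000000) (nat_lit 0x0) (nat_lit 0xe700038000000000000000000000000000000000000000000) := T_1 (nat_lit 194) (nat_lit 195) (nat_lit 3) (nat_lit 4) (nat_lit 10) L12905 (by decide +kernel)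
theorem L64284 : W_1 (nat_lit 6) (nat_lit 0x3c0014001000080000000000000000000000000000000) (nat_lit 0x0) (nat_lit 0xe700038003000000000000000000000000000000000000000) := T_1 (nat_lit 157) (nat_lit 156) (nat_lit 0) (nat_lit 7) (nat_lit 10) L64283 (by decide +kernel)
theorem L64294 : W_1 (nat_lit 3) (nat_lit 0x380014001000080000000000000000000000000000000) (nat_lit 0x0) (nat_lit 0x440003800000000000000000000000000000000000000) := T_1 (nat_lit 157) (nat_lit 178) (nat_lit 0) (nat_lit 8) (nat_lit 10) L64067 (by decide +kernel)
theorem L64299 : W_1 (nat_lit 2) (nat_lit 0x18003c0014001000080000000000000000000000000000000) (nat_lit 0x0) (nat_lit 0x200010000000000000000200000000000000000000000000000000000) := D_1 (nat_lit 208) (nat_lit 225) (nat_lit 141) (nat_lit 6) (nat_lit 4) (nat_lit 13) (nat_lit 5) (nat_lit 5) (nat_lit 8) (by decide +kernel)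
theorem L64300 : W_1 (nat_lit 3) (nat_lit 0x8003c0014001000080000000000000000000000000000000) (nat_lit 0x0) (nat_lit 0x200010001000400000000200000000000000000000000000000000000) := T_1 (nat_lit 192) (nat_lit 178) (nat_lit 1) (nat_lit 8) (nat_lit 10) L64299 (by decide +kernel)
theorem L64301 : W_1 (nat_lit 4) (nat_lit 0x3c0014001000080000000000000000000000000000000) (nat_lit 0x0) (nat_lit 0x200010001c00400000000200000000000000000000000000000000000) := T_1 (nat_lit 191) (nat_lit 190) (nat_lit 1) (nat_lit 7) (nat_lit 10) L64300 (by decide +kernel)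
theorem L64302 : W_1 (nat_lit 2) (nat_lit 0x42003e0014801000080000000000000000000000000000000) (nat_lit 0x0) (nat_lit 0x100010000400000000000000000000000000000000000000) := D_1 (nat_lit 172) (nat_lit 188) (nat_lit 154) (nat_lit 1) (nat_lit 5) (nat_lit 10) (nat_lit 0) (nat_lit 5) (nat_lit 10) (by decide +kernel)
theorem L64303 : W_1 (nat_lit 3) (nat_lit 0x42003e0014001000080000000000000000000000000000000) (nat_lit 0x0) (nat_lit 0x100010001c00000000000000000000000000000000000000) := T_1 (nat_lit 155) (nat_lit 156) (nat_lit 0) (nat_lit 6) (nat_lit 10) L64302 (by decide +kernel)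
theorem L64304 : W_1 (nat_lit 4) (nat_lit 0x40003e0014001000080000000000000000000000000000000) (nat_lit 0x0) (nat_lit 0x700010001c00000000000000000000000000000000000000) := T_1 (nat_lit 189) (nat_lit 190) (nat_lit 1) (nat_lit 6) (nat_lit 10) L64303 (by decide +kernel)
theorem L64305 : W_1 (nat_lit 5) (nat_lit 0x40003c0014001000080000000000000000000000000000000) (nat_lit 0x0) (nat_lit 0x2700030001c00000000000000000000000000000000000000) := T_1 (nat_lit 173) (nat_lit 193) (nat_lit 3) (nat_lit 3) (nat_lit 10) L64304 (by decide +kernel)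
theorem L64306 : W_1 (nat_lit 6) (nat_lit 0x3c0014001000080000000000000000000000000000000) (nat_lit 0x0) (nat_lit 0xe700030001c00000000000000000000000000000000000000) := T_1 (nat_lit 194) (nat_lit 195) (nat_lit 3) (nat_lit 4) (nat_lit 10) L64305 (by decide +kernel)
theorem L64307 : W_1 (nat_lit 4) (nat_lit 0x40003c0014001000080000000000000000000000000000000) (nat_lit 0x0) (nat_lit 0x800040003000020000000200010000000000000000000000000000000) := T_1 (nat_lit 193) (nat_lit 173) (nat_lit 3) (nat_lit 3) (nat_lit 10) L12920 (by decide +kernel)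
theorem L64308 : W_1 (nat_lit 5) (nat_lit 0x3c0014001000080000000000000000000000000000000) (nat_lit 0x0) (nat_lit 0x80004000f000020000000200010000000000000000000000000000000) := T_1 (nat_lit 194) (nat_lit 195) (nat_lit 3) (nat_lit 4) (nat_lit 10) L64307 (by decide +kernel)
theorem L64313 : W_1 (nat_lit 6) (nat_lit 0x2c0016001000080000000000000000000000000000000) (nat_lit 0x0) (nat_lit 0xe700138001000000000000000000000000000000000000000) := T_1 (nat_lit 176) (nat_lit 156) (nat_lit 0) (nat_lit 7) (nat_lit 10) L64283 (by decide +kernel)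
theorem L64314 : W_1 (nat_lit 2) (nat_lit 0x180068003c0016001000080000000000000000000000000000000) (nat_lit 0x0) (nat_lit 0x400060000000000000000000000000000000000000000000000000000) := D_1 (nat_lit 209) (nat_lit 226) (nat_lit 210) (nat_lit 7) (nat_lit 4) (nat_lit 9) (nat_lit 2) (nat_lit 3) (nat_lit 12) (by decide +kernel)
theorem L64315 : W_1 (nat_lit 3) (nat_lit 0x180048003c0016001000080000000000000000000000000000000) (nat_lit 0x0) (nat_lit 0x400060003000000000000000000000000000000000000000000000000) := T_1 (nat_lit 193) (nat_lit 192) (nat_lit 1) (nat_lit 7) (nat_lit 11) L64314 (by decide +kernel)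
theorem L64316 : W_1 (nat_lit 4) (nat_lit 0x100048003c0016001000080000000000000000000000000000000) (nat_lit 0x0) (nat_lit 0x500068003000000000000000000000000000000000000000000000000) := T_1 (nat_lit 207) (nat_lit 224) (nat_lit 5) (nat_lit 4) (nat_lit 9) L64315 (by decide +kernel)
theorem L64317 : W_1 (nat_lit 5) (nat_lit 0x48003c0016001000080000000000000000000000000000000) (nat_lit 0x0) (nat_lit 0x700078003000000000000000000000000000000000000000000000000) := T_1 (nat_lit 208) (nat_lit 225) (nat_lit 6) (nat_lit 4) (nat_lit 13) L64316 (by decide +kernel)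
theorem L64318 : W_1 (nat_lit 6) (nat_lit 0x8003c0016001000080000000000000000000000000000000) (nat_lit 0x0) (nat_lit 0x70007800f000000000000000000000000000000000000000000000000) := T_1 (nat_lit 194) (nat_lit 195) (nat_lit 3) (nat_lit 4) (nat_lit 10) L64317 (by decide +kernel)
theorem L64319 : W_1 (nat_lit 7) (nat_lit 0x3c0016001000080000000000000000000000000000000) (nat_lit 0x0) (nat_lit 0x70007800fc00000000000000000000000000000000000000000000000) := T_1 (nat_lit 191) (nat_lit 190) (nat_lit 1) (nat_lit 7) (nat_lit 10) L64318 (by decide +kernel)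
theorem L64320 : W_1 (nat_lit 8) (nat_lit 0x2c0016001000080000000000000000000000000000000) (nat_lit 0x0) (nat_lit 0x70007800fc00100001000000000000000000000000000000000000000) := T_1 (nat_lit 176) (nat_lit 156) (nat_lit 0) (nat_lit 7) (nat_lit 10) L64319 (by decide +kernel)
theorem L64322 : W_1 (nat_lit 2) (nat_lit 0x280016001000080000000000000000000000000000000) (nat_lit 0x0) (nat_lit 0x500008000000000000000000000000000000000000000) := D_1 (nat_lit 178) (nat_lit 176) (nat_lit 159) (nat_lit 0) (nat_lit 8) (nat_lit 10) (nat_lit 3) (nat_lit 4) (nat_lit 9) (by decide +kernel)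
theorem L64323 : W_1 (nat_lit 5) (nat_lit 0x280016001000080000000000000000000000000000000) (nat_lit 0x0) (nat_lit 0x20001000460008000180008000000000000000000000000000000) := T_1 (nat_lit 159) (nat_lit 178) (nat_lit 3) (nat_lit 4) (nat_lit 9) L63968 (by decide +kernel)
theorem L64327 : W_1 (nat_lit 2) (nat_lit 0x20001000280016001000080000000000000000000000000000000) (nat_lit 0x0) (nat_lit 0x500008000000000000000000000000000000000000000) := D_1 (nat_lit 178) (nat_lit 159) (nat_lit 176) (nat_lit 3) (nat_lit 4) (nat_lit 9) (nat_lit 0) (nat_lit 8) (nat_lit 10) (by decide +kernel)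
theorem L64328 : W_1 (nat_lit 3) (nat_lit 0x20001000280014001000080000000000000000000000000000000) (nat_lit 0x0) (nat_lit 0x50000a000100000000000000000000000000000000000) := T_1 (nat_lit 157) (nat_lit 140) (nat_lit 4) (nat_lit 5) (nat_lit 12) L64327 (by decide +kernel)
theorem L64345 : W_1 (nat_lit 2) (nat_lit 0xa00020001000680016001000080000000000000000000000000000000) (nat_lit 0x0) (nat_lit 0x14000400000000000000000000000000000000000000000000000000000000) := D_1 (nat_lit 226) (nat_lit 244) (nat_lit 242) (nat_lit 7) (nat_lit 5) (nat_lit 10) (nat_lit 5) (nat_lit 5) (nat_lit 10) (by decide +kernel)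
theorem L64346 : W_1 (nat_lit 3) (nat_lit 0x800020001000680016001000080000000000000000000000000000000) (nat_lit 0x0) (nat_lit 0x14000600010000000000000000000000000000000000000000000000000000) := T_1 (nat_lit 225) (nat_lit 208) (nat_lit 5) (nat_lit 5) (nat_lit 9) L64345 (by decide +kernel)
theorem L64347 : W_1 (nat_lit 4) (nat_lit 0x20001000680016001000080000000000000000000000000000000) (nat_lit 0x0) (nat_lit 0x14000e00050000000000000000000000000000000000000000000000000000) := T_1 (nat_lit 227) (nat_lit 210) (nat_lit 7) (nat_lit 5) (nat_lit 9) L64346 (by decide +kernel)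
theorem L64348 : W_1 (nat_lit 5) (nat_lit 0x20001000280016001000080000000000000000000000000000000) (nat_lit 0x0) (nat_lit 0x14000e00050000000500000000000000000000000000000000000000000000) := T_1 (nat_lit 178) (nat_lit 176) (nat_lit 0) (nat_lit 8) (nat_lit 10) L64347 (by decide +kernel)
theorem L64349 : W_1 (nat_lit 6) (nat_lit 0x20001000280014001000080000000000000000000000000000000) (nat_lit 0x0) (nat_lit 0x14000e00050000000500002000100000000000000000000000000000000000) := T_1 (nat_lit 157) (nat_lit 140) (nat_lit 4) (nat_lit 5) (nat_lit 12) L64348 (by decide +kernel)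
theorem L64351 : W_1 (nat_lit 2) (nat_lit 0x18003800150017c0082000000000000000000000000000000) (nat_lit 0x0) (nat_lit 0x600020000000000000000000000000000000000000000000) := D_1 (nat_lit 190) (nat_lit 189) (nat_lit 173) (nat_lit 2) (nat_lit 2) (nat_lit 11) (nat_lit 4) (nat_lit 3) (nat_lit 11) (by decide +kernel)
theorem L64352 : W_1 (nat_lit 3) (nat_lit 0x1800380015001780082000000000000000000000000000000) (nat_lit 0x0) (nat_lit 0x600020000000040001000000000000000000000000000000) := T_1 (nat_lit 138) (nat_lit 120) (nat_lit 0) (nat_lit 5) (nat_lit 8) L64351 (by decide +kernel)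
theorem L64353 : W_1 (nat_lit 4) (nat_lit 0x1800280015001780082000000000000000000000000000000) (nat_lit 0x0) (nat_lit 0x600520000000040001000000000000000000000000000000) := T_1 (nat_lit 176) (nat_lit 178) (nat_lit 1) (nat_lit 8) (nat_lit 10) L64352 (by decide +kernel)
theorem L64354 : W_1 (nat_lit 5) (nat_lit 0x1000280015001780082000000000000000000000000000000) (nat_lit 0x0) (nat_lit 0x10000e00520000000040001000000000000000000000000000000) := T_1 (nat_lit 191) (nat_lit 208) (nat_lit 5) (nat_lit 5) (nat_lit 8) L64353 (by decide +kernel)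
theorem L64355 : W_1 (nat_lit 6) (nat_lit 0x1000280015001780080000000000000000000000000000000) (nat_lit 0x0) (nat_lit 0x10000e00520000000040007000000000000000000000000000000) := T_1 (nat_lit 121) (nat_lit 122) (nat_lit 0) (nat_lit 6) (nat_lit 8) L64354 (by decide +kernel)
theorem L64356 : W_1 (nat_lit 7) (nat_lit 0x1000280014001780080000000000000000000000000000000) (nat_lit 0x0) (nat_lit 0x10000e00520001800040007000000000000000000000000000000) := T_1 (nat_lit 156) (nat_lit 155) (nat_lit 1) (nat_lit 6) (nat_lit 8) L64355 (by decide +kernel)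
theorem L64357 : W_1 (nat_lit 8) (nat_lit 0x1000280014001700080000000000000000000000000000000) (nat_lit 0x0) (nat_lit 0x10000e005200098000c0007000000000000000000000000000000) := T_1 (nat_lit 139) (nat_lit 159) (nat_lit 3) (nat_lit 3) (nat_lit 8) L64356 (by decide +kernel)
theorem L64358 : W_1 (nat_lit 9) (nat_lit 0x1000280014001300080000000000000000000000000000000) (nat_lit 0x0) (nat_lit 0x10000e005200098004c0027000000000000000000000000000000) := T_1 (nat_lit 142) (nat_lit 125) (nat_lit 6) (nat_lit 5) (nat_lit 11) L64357 (by decide +kernel)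
theorem L64359 : W_1 (nat_lit 10) (nat_lit 0x1000280014001200080000000000000000000000000000000) (nat_lit 0x0) (nat_lit 0x10000e005200098005c002f000000000000000000000000000000) := T_1 (nat_lit 140) (nat_lit 123) (nat_lit 4) (nat_lit 5) (nat_lit 11) L64358 (by decide +kernel)
theorem L64361 : W_1 (nat_lit 2) (nat_lit 0x3000280014001200090000000000000000000000000000000) (nat_lit 0x0) (nat_lit 0x400020001000000000000000000000000000) := D_1 (nat_lit 125) (nat_lit 108) (nat_lit 142) (nat_lit 6) (nat_lit 5) (nat_lit 10) (nat_lit 6) (nat_lit 5) (nat_lit 11) (by decide +kernel)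
theorem L64362 : W_1 (nat_lit 3) (nat_lit 0x3000280014001200080000000000000000000000000000000) (nat_lit 0x0) (nat_lit 0x100000000400030001000000000000000000000000000) := T_1 (nat_lit 124) (nat_lit 176) (nat_lit 7) (nat_lit 5) (nat_lit 7) L64361 (by decide +kernel)
theorem L64363 : W_1 (nat_lit 4) (nat_lit 0x1000280014001200080000000000000000000000000000000) (nat_lit 0x0) (nat_lit 0x40002000100000000400030001000000000000000000000000000) := T_1 (nat_lit 193) (nat_lit 210) (nat_lit 7) (nat_lit 5) (nat_lit 8) L64362 (by decide +kernel)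
theorem L64371 : W_1 (nat_lit 2) (nat_lit 0x40006000100028001c001300080000000000000000000000000000000) (nat_lit 0x0) (nat_lit 0x4000200010000000000000000000000000000000000000000000000000000) := D_1 (nat_lit 225) (nat_lit 242) (nat_lit 208) (nat_lit 5) (nat_lit 5) (nat_lit 10) (nat_lit 5) (nat_lit 5) (nat_lit 9) (by decide +kernel)
theorem L64372 : W_1 (nat_lit 3) (nat_lit 0x6000100028001c001300080000000000000000000000000000000) (nat_lit 0x0) (nat_lit 0x4000600010000000100000000000000000000000000000000000000000000) := T_1 (nat_lit 226) (nat_lit 176) (nat_lit 6) (nat_lit 5) (nat_lit 13) L64371 (by decide +kernel)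
theorem L64373 : W_1 (nat_lit 4) (nat_lit 0x60001000280014001300080000000000000000000000000000000) (nat_lit 0x0) (nat_lit 0x4000600010000000100008000400000000000000000000000000000000000) := T_1 (nat_lit 159) (nat_lit 142) (nat_lit 6) (nat_lit 5) (nat_lit 12) L64372 (by decide +kernel)
theorem L64374 : W_1 (nat_lit 5) (nat_lit 0x40001000280014001300080000000000000000000000000000000) (nat_lit 0x0) (nat_lit 0x4000e00030000000100008000400000000000000000000000000000000000) := T_1 (nat_lit 209) (nat_lit 227) (nat_lit 7) (nat_lit 5) (nat_lit 9) L64373 (by decide +kernel)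
theorem L64375 : W_1 (nat_lit 6) (nat_lit 0x1000280014001300080000000000000000000000000000000) (nat_lit 0x0) (nat_lit 0x4000e00070002000100008000400000000000000000000000000000000000) := T_1 (nat_lit 210) (nat_lit 193) (nat_lit 7) (nat_lit 5) (nat_lit 8) L64374 (by decide +kernel)
theorem L64376 : W_1 (nat_lit 7) (nat_lit 0x1000280014001200080000000000000000000000000000000) (nat_lit 0x0) (nat_lit 0x4000e00070002000100008000500008000000000000000000000000000000) := T_1 (nat_lit 140) (nat_lit 123) (nat_lit 4) (nat_lit 5) (nat_lit 11) L64375 (by decide +kernel)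
theorem L64377 : W_1 (nat_lit 2) (nat_lit 0x3000280014001200090000000000000000000000000000000) (nat_lit 0x0) (nat_lit 0x100008000400000000000000000000000000) := D_1 (nat_lit 123) (nat_lit 140) (nat_lit 106) (nat_lit 4) (nat_lit 5) (nat_lit 11) (nat_lit 4) (nat_lit 5) (nat_lit 10) (by decide +kernel)
theorem L64378 : W_1 (nat_lit 3) (nat_lit 0x3000280014001200080000000000000000000000000000000) (nat_lit 0x0) (nat_lit 0x100000000100018000400000000000000000000000000) := T_1 (nat_lit 124) (nat_lit 176) (nat_lit 7) (nat_lit 5) (nat_lit 7) L64377 (by decide +kernel)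
theorem L64379 : W_1 (nat_lit 4) (nat_lit 0x1000280014001200080000000000000000000000000000000) (nat_lit 0x0) (nat_lit 0x40002000100000000100018000400000000000000000000000000) := T_1 (nat_lit 193) (nat_lit 210) (nat_lit 7) (nat_lit 5) (nat_lit 8) L64378 (by decide +kernel)
theorem L64397 : W_1 (nat_lit 2) (nat_lit 0x1800280014001200090000000000000000000000000000000) (nat_lit 0x0) (nat_lit 0x400020001000000000000000000000000000) := D_1 (nat_lit 125) (nat_lit 142) (nat_lit 108) (nat_lit 6) (nat_lit 5) (nat_lit 11) (nat_lit 6) (nat_lit 5) (nat_lit 10) (by decide +kernel)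
theorem L64398 : W_1 (nat_lit 3) (nat_lit 0x1800280014001200080000000000000000000000000000000) (nat_lit 0x0) (nat_lit 0x40000000400030001000000000000000000000000000) := T_1 (nat_lit 124) (nat_lit 174) (nat_lit 5) (nat_lit 5) (nat_lit 7) L64397 (by decide +kernel)
theorem L64399 : W_1 (nat_lit 4) (nat_lit 0x1000280014001200080000000000000000000000000000000) (nat_lit 0x0) (nat_lit 0x10000800040000000400030001000000000000000000000000000) := T_1 (nat_lit 191) (nat_lit 208) (nat_lit 5) (nat_lit 5) (nat_lit 8) L64398 (by decide +kernel)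
theorem L64416 : W_1 (nat_lit 2) (nat_lit 0x80007e0014001000080000000000000000000000000000000) (nat_lit 0x0) (nat_lit 0xe00000000000000000000000000000000000000000000000) := D_1 (nat_lit 190) (nat_lit 189) (nat_lit 191) (nat_lit 1) (nat_lit 6) (nat_lit 10) (nat_lit 1) (nat_lit 7) (nat_lit 10) (by decide +kernel)
theorem L64417 : W_1 (nat_lit 3) (nat_lit 0x80007c0014001000080000000000000000000000000000000) (nat_lit 0x0) (nat_lit 0xe00020008000000000000000000000000000000000000000) := T_1 (nat_lit 173) (nat_lit 159) (nat_lit 2) (nat_lit 3) (nat_lit 10) L64416 (by decide +kernel)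
theorem L64418 : W_1 (nat_lit 4) (nat_lit 0x8000780014001000080000000000000000000000000000000) (nat_lit 0x0) (nat_lit 0x4e00060008000000000000000000000000000000000000000) := T_1 (nat_lit 174) (nat_lit 194) (nat_lit 3) (nat_lit 4) (nat_lit 10) L64417 (by decide +kernel)
theorem L64419 : W_1 (nat_lit 5) (nat_lit 0x780014001000080000000000000000000000000000000) (nat_lit 0x0) (nat_lit 0x1ce00060008000000000000000000000000000000000000000) := T_1 (nat_lit 195) (nat_lit 196) (nat_lit 3) (nat_lit 5) (nat_lit 10) L64418 (by decide +kernel)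
theorem L64420 : W_1 (nat_lit 6) (nat_lit 0x380014001000080000000000000000000000000000000) (nat_lit 0x0) (nat_lit 0x1ce0046000a000000000000000000000000000000000000000) := T_1 (nat_lit 178) (nat_lit 157) (nat_lit 0) (nat_lit 8) (nat_lit 10) L64419 (by decide +kernel)
theorem L64421 : W_1 (nat_lit 2) (nat_lit 0x8003c001c001200080000000000000000000000000000000) (nat_lit 0x0) (nat_lit 0x200010001000000000000000000000000000000000000000000000000) := D_1 (nat_lit 208) (nat_lit 225) (nat_lit 192) (nat_lit 6) (nat_lit 4) (nat_lit 13) (nat_lit 5) (nat_lit 5) (nat_lit 8) (by decide +kernel)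
theorem L64422 : W_1 (nat_lit 3) (nat_lit 0x8003c001c001000080000000000000000000000000000000) (nat_lit 0x0) (nat_lit 0x200010001000000000000200010000000000000000000000000000000) := T_1 (nat_lit 141) (nat_lit 124) (nat_lit 5) (nat_lit 5) (nat_lit 7) L64421 (by decide +kernel)
theorem L64423 : W_1 (nat_lit 4) (nat_lit 0x3c001c001000080000000000000000000000000000000) (nat_lit 0x0) (nat_lit 0x200010001c00000000000200010000000000000000000000000000000) := T_1 (nat_lit 191) (nat_lit 190) (nat_lit 1) (nat_lit 7) (nat_lit 10) L64422 (by decide +kernel)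
theorem L64424 : W_1 (nat_lit 5) (nat_lit 0x38001c001000080000000000000000000000000000000) (nat_lit 0x0) (nat_lit 0x200010001c00060000000200010000000000000000000000000000000) := T_1 (nat_lit 174) (nat_lit 173) (nat_lit 2) (nat_lit 3) (nat_lit 10) L64423 (by decide +kernel)
theorem L64425 : W_1 (nat_lit 2) (nat_lit 0x8003c001e001000080000000000000000000000000000000) (nat_lit 0x0) (nat_lit 0x10000000000000000200010000000000000000000000000000000) := D_1 (nat_lit 141) (nat_lit 124) (nat_lit 208) (nat_lit 5) (nat_lit 5) (nat_lit 7) (nat_lit 6) (nat_lit 4) (nat_lit 12) (by decide +kernel)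
theorem L64426 : W_1 (nat_lit 3) (nat_lit 0x3c001e001000080000000000000000000000000000000) (nat_lit 0x0) (nat_lit 0x10000c00000000000200010000000000000000000000000000000) := T_1 (nat_lit 191) (nat_lit 190) (nat_lit 1) (nat_lit 7) (nat_lit 10) L64425 (by decide +kernel)
theorem L64427 : W_1 (nat_lit 4) (nat_lit 0x3c001c001000080000000000000000000000000000000) (nat_lit 0x0) (nat_lit 0x10000c00400002000200010000000000000000000000000000000) := T_1 (nat_lit 157) (nat_lit 178) (nat_lit 3) (nat_lit 4) (nat_lit 9) L64426 (by decide +kernel)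
theorem L64428 : W_1 (nat_lit 5) (nat_lit 0x38001c001000080000000000000000000000000000000) (nat_lit 0x0) (nat_lit 0x10000c00460002000200010000000000000000000000000000000) := T_1 (nat_lit 174) (nat_lit 173) (nat_lit 2) (nat_lit 3) (nat_lit 10) L64427 (by decide +kernel)
theorem L64434 : W_1 (nat_lit 2) (nat_lit 0x100078001c001000080000000000000000000000000000000) (nat_lit 0x0) (nat_lit 0x20000000000000000400020000000000000000000000000000000) := D_1 (nat_lit 142) (nat_lit 125) (nat_lit 209) (nat_lit 5) (nat_lit 6) (nat_lit 7) (nat_lit 6) (nat_lit 5) (nat_lit 12) (by decide +kernel)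
theorem L64435 : W_1 (nat_lit 3) (nat_lit 0x78001c001000080000000000000000000000000000000) (nat_lit 0x0) (nat_lit 0x20001800000000000400020000000000000000000000000000000) := T_1 (nat_lit 192) (nat_lit 191) (nat_lit 1) (nat_lit 8) (nat_lit 10) L64434 (by decide +kernel)
theorem L64436 : W_1 (nat_lit 4) (nat_lit 0x38001c001000080000000000000000000000000000000) (nat_lit 0x0) (nat_lit 0x20001800400002000400020000000000000000000000000000000) := T_1 (nat_lit 178) (nat_lit 157) (nat_lit 3) (nat_lit 4) (nat_lit 9) L64435 (by decide +kernel)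
theorem L64437 : W_1 (nat_lit 5) (nat_lit 0x38001c001000080000000000000000000000000000000) (nat_lit 0x0) (nat_lit 0x20001000400002000380008000400000000000000000000000000) := T_1 (nat_lit 157) (nat_lit 178) (nat_lit 3) (nat_lit 4) (nat_lit 9) L63983 (by decide +kernel)
theorem L64440 : W_1 (nat_lit 2) (nat_lit 0x40003c001c001000080000000000000000000000000000000) (nat_lit 0x0) (nat_lit 0x1000080000000000000000400000000000000000000000000000000000) := D_1 (nat_lit 211) (nat_lit 142) (nat_lit 228) (nat_lit 4) (nat_lit 7) (nat_lit 12) (nat_lit 4) (nat_lit 7) (nat_lit 13) (by decide +kernel)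
theorem L64441 : W_1 (nat_lit 3) (nat_lit 0x3c001c001000080000000000000000000000000000000) (nat_lit 0x0) (nat_lit 0x100008000c000000000000400000000000000000000000000000000000) := T_1 (nat_lit 194) (nat_lit 195) (nat_lit 3) (nat_lit 4) (nat_lit 10) L64440 (by decide +kernel)
theorem L64442 : W_1 (nat_lit 4) (nat_lit 0x38001c001000080000000000000000000000000000000) (nat_lit 0x0) (nat_lit 0x100008000c000060000000400000000000000000000000000000000000) := T_1 (nat_lit 174) (nat_lit 173) (nat_lit 2) (nat_lit 3) (nat_lit 10) L64441 (by decide +kernel)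
theorem L64446 : W_1 (nat_lit 2) (nat_lit 0x200016001000080000000000000000000000000000000) (nat_lit 0x0) (nat_lit 0x4000000008000800000000000000000000000000000000000) := D_1 (nat_lit 143) (nat_lit 194) (nat_lit 159) (nat_lit 6) (nat_lit 7) (nat_lit 11) (nat_lit 2) (nat_lit 4) (nat_lit 9) (by decide +kernel)
theorem L64447 : W_1 (nat_lit 2) (nat_lit 0x20001c001000080000000000000000000000000000000) (nat_lit 0x0) (nat_lit 0x4000000002000800000000000000000000000000000000000) := D_1 (nat_lit 143) (nat_lit 194) (nat_lit 157) (nat_lit 6) (nat_lit 7) (nat_lit 11) (nat_lit 2) (nat_lit 4) (nat_lit 9) (by decide +kernel)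
theorem L64483 : W_1 (nat_lit 3) (nat_lit 0x200014001200080000000000000000000000000000000) (nat_lit 0x0) (nat_lit 0x4000000002000c00100000000000000000000000000000000) := T_1 (nat_lit 143) (nat_lit 194) (nat_lit 6) (nat_lit 7) (nat_lit 11) L63425 (by decide +kernel)
theorem L64493 : W_1 (nat_lit 2) (nat_lit 0xd002c00020005800680014001300080000000000000000000000000000000) (nat_lit 0x0) (nat_lit 0x180008000000000000000000000000000000000000000000000000) := D_1 (nat_lit 212) (nat_lit 195) (nat_lit 211) (nat_lit 4) (nat_lit 8) (nat_lit 13) (nat_lit 7) (nat_lit 7) (nat_lit 9) (by decide +kernel)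
theorem L64494 : W_1 (nat_lit 3) (nat_lit 0xd000c00020005800680014001300080000000000000000000000000000000) (nat_lit 0x0) (nat_lit 0x3000180008000000000000000000000000000000000000000000000000) := T_1 (nat_lit 229) (nat_lit 228) (nat_lit 1) (nat_lit 8) (nat_lit 13) L64493 (by decide +kernel)
theorem L64495 : W_1 (nat_lit 4) (nat_lit 0xc000c00020005800680014001300080000000000000000000000000000000) (nat_lit 0x0) (nat_lit 0x3003000180008000000000000000000000000000000000000000000000000) := T_1 (nat_lit 240) (nat_lit 241) (nat_lit 2) (nat_lit 2) (nat_lit 14) L64494 (by decide +kernel)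
theorem L64496 : W_1 (nat_lit 5) (nat_lit 0x4000c00020005800680014001300080000000000000000000000000000000) (nat_lit 0x0) (nat_lit 0x8000b003000180008000000000000000000000000000000000000000000000000) := T_1 (nat_lit 243) (nat_lit 259) (nat_lit 5) (nat_lit 5) (nat_lit 11) L64495 (by decide +kernel)
theorem L64497 : W_1 (nat_lit 6) (nat_lit 0xc00020005800680014001300080000000000000000000000000000000) (nat_lit 0x0) (nat_lit 0x8000f003200180008000000000000000000000000000000000000000000000000) := T_1 (nat_lit 242) (nat_lit 225) (nat_lit 5) (nat_lit 5) (nat_lit 10) L64496 (by decide +kernel)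
theorem L64498 : W_1 (nat_lit 7) (nat_lit 0x800020005800680014001300080000000000000000000000000000000) (nat_lit 0x0) (nat_lit 0x8001f003600180008000000000000000000000000000000000000000000000000) := T_1 (nat_lit 226) (nat_lit 244) (nat_lit 7) (nat_lit 5) (nat_lit 10) L64497 (by decide +kernel)
theorem L64499 : W_1 (nat_lit 8) (nat_lit 0x20005800680014001300080000000000000000000000000000000) (nat_lit 0x0) (nat_lit 0x8001f003e001c0008000000000000000000000000000000000000000000000000) := T_1 (nat_lit 227) (nat_lit 210) (nat_lit 7) (nat_lit 5) (nat_lit 9) L64498 (by decide +kernel)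
theorem L64500 : W_1 (nat_lit 9) (nat_lit 0x5800680014001300080000000000000000000000000000000) (nat_lit 0x0) (nat_lit 0x8001f003e001e0008000000002000000000000000000000000000000000000000) := T_1 (nat_lit 209) (nat_lit 157) (nat_lit 4) (nat_lit 5) (nat_lit 12) L64499 (by decide +kernel)
theorem L64501 : W_1 (nat_lit 10) (nat_lit 0x5800680014001200080000000000000000000000000000000) (nat_lit 0x0) (nat_lit 0x8001f003e001e0008000000002000100008000000000000000000000000000000) := T_1 (nat_lit 140) (nat_lit 123) (nat_lit 4) (nat_lit 5) (nat_lit 11) L64500 (by decide +kernel)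
theorem L64502 : W_1 (nat_lit 11) (nat_lit 0x5800280014001200080000000000000000000000000000000) (nat_lit 0x0) (nat_lit 0x8001f003e001e0008000500002000100008000000000000000000000000000000) := T_1 (nat_lit 178) (nat_lit 176) (nat_lit 1) (nat_lit 8) (nat_lit 10) L64501 (by decide +kernel)
theorem L64503 : W_1 (nat_lit 12) (nat_lit 0x5000280014001200080000000000000000000000000000000) (nat_lit 0x0) (nat_lit 0x8001f003e001f0008800500002000100008000000000000000000000000000000) := T_1 (nat_lit 191) (nat_lit 208) (nat_lit 5) (nat_lit 5) (nat_lit 8) L64502 (by decide +kernel)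
theorem L64504 : W_1 (nat_lit 13) (nat_lit 0x1000280014001200080000000000000000000000000000000) (nat_lit 0x0) (nat_lit 0x8001f003e001f000c800500002000900008000000000000000000000000000000) := T_1 (nat_lit 194) (nat_lit 143) (nat_lit 6) (nat_lit 7) (nat_lit 11) L64503 (by decide +kernel)
theorem L64545 : W_1 (nat_lit 3) (nat_lit 0x300016001000080000000000000000000000000000000) (nat_lit 0x0) (nat_lit 0x4c0001800000000000000000000000000000000000000) := T_1 (nat_lit 175) (nat_lit 178) (nat_lit 0) (nat_lit 8) (nat_lit 10) L64067 (by decide +kernel)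
theorem L64659 : W_1 (nat_lit 2) (nat_lit 0x28001c0014000a0000000000000000000000000000000) (nat_lit 0x0) (nat_lit 0x20001000000000000200000000000000000000000000000000000) := D_1 (nat_lit 192) (nat_lit 209) (nat_lit 141) (nat_lit 6) (nat_lit 5) (nat_lit 12) (nat_lit 6) (nat_lit 5) (nat_lit 11) (by decide +kernel)
theorem L64660 : W_1 (nat_lit 3) (nat_lit 0x28001c001400080000000000000000000000000000000) (nat_lit 0x0) (nat_lit 0x20001000000000000200020001000000000000000000000000000) := T_1 (nat_lit 125) (nat_lit 108) (nat_lit 7) (nat_lit 6) (nat_lit 6) L64659 (by decide +kernel)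
theorem L64676 : W_1 (nat_lit 2) (nat_lit 0x2001f00020001c001400080000000000000000000000000000000) (nat_lit 0x0) (nat_lit 0x700000000000000000000000000000000000000000000000000000) := D_1 (nat_lit 213) (nat_lit 212) (nat_lit 214) (nat_lit 3) (nat_lit 5) (nat_lit 11) (nat_lit 3) (nat_lit 6) (nat_lit 11) (by decide +kernel)
theorem L64677 : W_1 (nat_lit 3) (nat_lit 0x2000f00020001c001400080000000000000000000000000000000) (nat_lit 0x0) (nat_lit 0x740010000000000000000000000000000000000000000000000000) := T_1 (nat_lit 196) (nat_lit 210) (nat_lit 1) (nat_lit 9) (nat_lit 11) L64676 (by decide +kernel)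
theorem L64678 : W_1 (nat_lit 4) (nat_lit 0x2000700020001c001400080000000000000000000000000000000) (nat_lit 0x0) (nat_lit 0x750018000000000000000000000000000000000000000000000000) := T_1 (nat_lit 195) (nat_lit 208) (nat_lit 1) (nat_lit 8) (nat_lit 11) L64677 (by decide +kernel)
theorem L64679 : W_1 (nat_lit 5) (nat_lit 0x2000500020001c001400080000000000000000000000000000000) (nat_lit 0x0) (nat_lit 0x75001a000100000000000000000000000000000000000000000000) := T_1 (nat_lit 193) (nat_lit 176) (nat_lit 5) (nat_lit 6) (nat_lit 8) L64678 (by decide +kernel)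
theorem L64680 : W_1 (nat_lit 6) (nat_lit 0x500020001c001400080000000000000000000000000000000) (nat_lit 0x0) (nat_lit 0x77001a000180000000000000000000000000000000000000000000) := T_1 (nat_lit 209) (nat_lit 175) (nat_lit 6) (nat_lit 5) (nat_lit 12) L64679 (by decide +kernel)
theorem L64681 : W_1 (nat_lit 7) (nat_lit 0x100020001c001400080000000000000000000000000000000) (nat_lit 0x0) (nat_lit 0x7f001e000180000000000000000000000000000000000000000000) := T_1 (nat_lit 194) (nat_lit 211) (nat_lit 4) (nat_lit 7) (nat_lit 12) L64680 (by decide +kernel)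
theorem L64686 : W_1 (nat_lit 2) (nat_lit 0x8000180024001e001500080000000000000000000000000000000) (nat_lit 0x0) (nat_lit 0x10000000000000000200010000000000000000000000000000000) := D_1 (nat_lit 141) (nat_lit 208) (nat_lit 124) (nat_lit 6) (nat_lit 4) (nat_lit 12) (nat_lit 6) (nat_lit 4) (nat_lit 11) (by decide +kernel)
theorem L64687 : W_1 (nat_lit 3) (nat_lit 0x8000100024001e001500080000000000000000000000000000000) (nat_lit 0x0) (nat_lit 0x30000800000000000200010000000000000000000000000000000) := T_1 (nat_lit 191) (nat_lit 209) (nat_lit 7) (nat_lit 4) (nat_lit 8) L64686 (by decide +kernel)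
theorem L64692 : W_1 (nat_lit 2) (nat_lit 0x80001c0024001e001500098000000000000000000000000000000) (nat_lit 0x0) (nat_lit 0x40002000100000000000000000000000000000000000000000000) := D_1 (nat_lit 193) (nat_lit 210) (nat_lit 176) (nat_lit 3) (nat_lit 3) (nat_lit 11) (nat_lit 2) (nat_lit 3) (nat_lit 11) (by decide +kernel)
theorem L64693 : W_1 (nat_lit 3) (nat_lit 0x8000180024001e001500098000000000000000000000000000000) (nat_lit 0x0) (nat_lit 0x48002400100000000000000000000000000000000000000000000) := T_1 (nat_lit 190) (nat_lit 207) (nat_lit 5) (nat_lit 4) (nat_lit 8) L64692 (by decide +kernel)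
theorem L64694 : W_1 (nat_lit 4) (nat_lit 0x8000100024001e001500098000000000000000000000000000000) (nat_lit 0x0) (nat_lit 0x48002c00100000000200000000000000000000000000000000000) := T_1 (nat_lit 191) (nat_lit 141) (nat_lit 6) (nat_lit 4) (nat_lit 11) L64693 (by decide +kernel)
theorem L64695 : W_1 (nat_lit 5) (nat_lit 0x8000100024001e001500088000000000000000000000000000000) (nat_lit 0x0) (nat_lit 0x48002c00100000000200010000800000000000000000000000000) := T_1 (nat_lit 124) (nat_lit 107) (nat_lit 6) (nat_lit 4) (nat_lit 10) L64694 (by decide +kernel)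
theorem L64696 : W_1 (nat_lit 6) (nat_lit 0x8000100024001e001500080000000000000000000000000000000) (nat_lit 0x0) (nat_lit 0x48002c00180000000200018000800000000000000000000000000) := T_1 (nat_lit 123) (nat_lit 175) (nat_lit 7) (nat_lit 4) (nat_lit 7) L64695 (by decide +kernel)
theorem L64713 : W_1 (nat_lit 2) (nat_lit 0x2c001e001700098001000000000000000000000000000) (nat_lit 0x0) (nat_lit 0x6000200000000000000000000000000) := D_1 (nat_lit 122) (nat_lit 105) (nat_lit 121) (nat_lit 4) (nat_lit 4) (nat_lit 10) (nat_lit 3) (nat_lit 2) (nat_lit 7) (by decide +kernel)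
theorem L64714 : W_1 (nat_lit 3) (nat_lit 0x2c001e001500098001000000000000000000000000000) (nat_lit 0x0) (nat_lit 0x800000000000200006000200000000000000000000000000) := T_1 (nat_lit 141) (nat_lit 191) (nat_lit 6) (nat_lit 4) (nat_lit 11) L64713 (by decide +kernel)
theorem L64715 : W_1 (nat_lit 4) (nat_lit 0x2c001e001500088001000000000000000000000000000) (nat_lit 0x0) (nat_lit 0x800000000000200016000a00000000000000000000000000) := T_1 (nat_lit 124) (nat_lit 107) (nat_lit 6) (nat_lit 4) (nat_lit 10) L64714 (by decide +kernel)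
theorem L64716 : W_1 (nat_lit 5) (nat_lit 0x2c001e001500080001000000000000000000000000000) (nat_lit 0x0) (nat_lit 0x80000000000020001e000e00000000000000000000000000) := T_1 (nat_lit 123) (nat_lit 106) (nat_lit 7) (nat_lit 4) (nat_lit 6) L64715 (by decide +kernel)
theorem L64717 : W_1 (nat_lit 6) (nat_lit 0x2c001e001400080001000000000000000000000000000) (nat_lit 0x0) (nat_lit 0x80000000000038001e000e00000000000000000000000000) := T_1 (nat_lit 140) (nat_lit 139) (nat_lit 0) (nat_lit 7) (nat_lit 9) L64716 (by decide +kernel)
theorem L64718 : W_1 (nat_lit 7) (nat_lit 0x28001e001400080001000000000000000000000000000) (nat_lit 0x0) (nat_lit 0x80006000000038001e000e00000000000000000000000000) := T_1 (nat_lit 174) (nat_lit 173) (nat_lit 1) (nat_lit 7) (nat_lit 9) L64717 (by decide +kernel)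
theorem L64719 : W_1 (nat_lit 8) (nat_lit 0x28001c001400080001000000000000000000000000000) (nat_lit 0x0) (nat_lit 0x80046000200038001e000e00000000000000000000000000) := T_1 (nat_lit 157) (nat_lit 178) (nat_lit 3) (nat_lit 4) (nat_lit 9) L64718 (by decide +kernel)
theorem L64720 : W_1 (nat_lit 9) (nat_lit 0x28001c001400080000000000000000000000000000000) (nat_lit 0x0) (nat_lit 0x80046000200038003e001e00000000000000000000000000) := T_1 (nat_lit 108) (nat_lit 125) (nat_lit 7) (nat_lit 6) (nat_lit 6) L64719 (by decide +kernel)
theorem L64723 : W_1 (nat_lit 2) (nat_lit 0x20001c001000080000000000000000000000000000000) (nat_lit 0x0) (nat_lit 0x400002000800000000000000000000000000000000000) := D_1 (nat_lit 157) (nat_lit 178) (nat_lit 143) (nat_lit 3) (nat_lit 4) (nat_lit 9) (nat_lit 2) (nat_lit 4) (nat_lit 9) (by decide +kernel)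
theorem L64726 : W_1 (nat_lit 3) (nat_lit 0x200010001000080000000000000000000000000000000) (nat_lit 0x0) (nat_lit 0x80004000400020000800000000000000000000000000000000000) := T_1 (nat_lit 194) (nat_lit 143) (nat_lit 6) (nat_lit 7) (nat_lit 11) L5482 (by decide +kernel)
theorem L64787 : W_1 (nat_lit 2) (nat_lit 0x60001000280014001200080000000000000000000000000000000) (nat_lit 0x0) (nat_lit 0x2000100008000000000000000000000000000000) := D_1 (nat_lit 140) (nat_lit 123) (nat_lit 157) (nat_lit 4) (nat_lit 5) (nat_lit 11) (nat_lit 4) (nat_lit 5) (nat_lit 12) (by decide +kernel)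
theorem L64788 : W_1 (nat_lit 3) (nat_lit 0x60001000280014001000080000000000000000000000000000000) (nat_lit 0x0) (nat_lit 0x2000000002000300008000000000000000000000000000000) := T_1 (nat_lit 141) (nat_lit 193) (nat_lit 7) (nat_lit 5) (nat_lit 8) L64787 (by decide +kernel)
theorem L64789 : W_1 (nat_lit 4) (nat_lit 0x20001000280014001000080000000000000000000000000000000) (nat_lit 0x0) (nat_lit 0x800040002000000002000300008000000000000000000000000000000) := T_1 (nat_lit 210) (nat_lit 227) (nat_lit 7) (nat_lit 5) (nat_lit 9) L64788 (by decide +kernel)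
theorem L64989 : W_1 (nat_lit 2) (nat_lit 0x20003000280014001600080000000000000000000000000000000) (nat_lit 0x0) (nat_lit 0x200010000800000000000000000000000000000000000000000000000) := D_1 (nat_lit 208) (nat_lit 225) (nat_lit 191) (nat_lit 5) (nat_lit 5) (nat_lit 9) (nat_lit 5) (nat_lit 5) (nat_lit 8) (by decide +kernel)
theorem L64990 : W_1 (nat_lit 3) (nat_lit 0x3000280014001600080000000000000000000000000000000) (nat_lit 0x0) (nat_lit 0x200030000800000008000000000000000000000000000000000000000) := T_1 (nat_lit 209) (nat_lit 159) (nat_lit 6) (nat_lit 5) (nat_lit 12) L64989 (by decide +kernel)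
theorem L64991 : W_1 (nat_lit 4) (nat_lit 0x1000280014001600080000000000000000000000000000000) (nat_lit 0x0) (nat_lit 0x200070002800000008000000000000000000000000000000000000000) := T_1 (nat_lit 193) (nat_lit 210) (nat_lit 7) (nat_lit 5) (nat_lit 8) L64990 (by decide +kernel)
theorem L64992 : W_1 (nat_lit 5) (nat_lit 0x1000280014001200080000000000000000000000000000000) (nat_lit 0x0) (nat_lit 0x200070002800000008000400020000000000000000000000000000000) := T_1 (nat_lit 142) (nat_lit 125) (nat_lit 6) (nat_lit 5) (nat_lit 11) L64991 (by decide +kernel)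
theorem L65548 : W_1 (nat_lit 2) (nat_lit 0x300038001000080000000000000000000000000000000) (nat_lit 0x0) (nat_lit 0xc0040000000000000000000000000000000000000000) := D_1 (nat_lit 175) (nat_lit 174) (nat_lit 162) (nat_lit 2) (nat_lit 4) (nat_lit 10) (nat_lit 1) (nat_lit 9) (nat_lit 9) (by decide +kernel)
theorem L65559 : W_1 (nat_lit 2) (nat_lit 0x68003c0012001e0000000000000000000000000000000) (nat_lit 0x0) (nat_lit 0x10001800000000000000000000000000) := D_1 (nat_lit 108) (nat_lit 107) (nat_lit 124) (nat_lit 0) (nat_lit 9) (nat_lit 7) (nat_lit 6) (nat_lit 5) (nat_lit 10) (by decide +kernel)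
theorem L65940 : W_1 (nat_lit 4) (nat_lit 0x2000100018000c0000000000000000000000000000000) (nat_lit 0x0) (nat_lit 0x2000100008000000020003000080000000000000000000000) := T_1 (nat_lit 176) (nat_lit 193) (nat_lit 5) (nat_lit 7) (nat_lit 7) L12539 (by decide +kernel)
theorem L65956 : W_1 (nat_lit 2) (nat_lit 0x7000180018000c0000000000000000000000000000000) (nat_lit 0x0) (nat_lit 0x800006000000000000000000000000000000000000000) := D_1 (nat_lit 158) (nat_lit 157) (nat_lit 179) (nat_lit 3) (nat_lit 4) (nat_lit 9) (nat_lit 0) (nat_lit 9) (nat_lit 10) (by decide +kernel)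
theorem L65957 : W_1 (nat_lit 3) (nat_lit 0x3000180018000c0000000000000000000000000000000) (nat_lit 0x0) (nat_lit 0x8000c00006000000000000000000000000000000000000000) := T_1 (nat_lit 178) (nat_lit 195) (nat_lit 7) (nat_lit 7) (nat_lit 7) L65956 (by decide +kernel)
theorem L65958 : W_1 (nat_lit 4) (nat_lit 0x3000100018000c0000000000000000000000000000000) (nat_lit 0x0) (nat_lit 0x8000c0000e000000000002000000000000000000000000000) := T_1 (nat_lit 159) (nat_lit 109) (nat_lit 5) (nat_lit 7) (nat_lit 6) L65957 (by decide +kernel)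
theorem L65959 : W_1 (nat_lit 5) (nat_lit 0x2000100018000c0000000000000000000000000000000) (nat_lit 0x0) (nat_lit 0xa000d0000e000000000002000000000000000000000000000) := T_1 (nat_lit 176) (nat_lit 193) (nat_lit 5) (nat_lit 7) (nat_lit 7) L65958 (by decide +kernel)
theorem L66487 : W_1 (nat_lit 2) (nat_lit 0x1000000024001f001280000001000080000000000000000000000000000000) (nat_lit 0x0) (nat_lit 0x80020002000000000000000000000000000000000000000000000) := D_1 (nat_lit 197) (nat_lit 211) (nat_lit 181) (nat_lit 1) (nat_lit 10) (nat_lit 11) (nat_lit 2) (nat_lit 7) (nat_lit 11) (by decide +kernel)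
theorem L66488 : W_1 (nat_lit 3) (nat_lit 0x1000000024001f000280000001000080000000000000000000000000000000) (nat_lit 0x0) (nat_lit 0x80020003800000000000000000000000000000000000000000000) := T_1 (nat_lit 180) (nat_lit 179) (nat_lit 2) (nat_lit 6) (nat_lit 11) L66487 (by decide +kernel)
theorem L66489 : W_1 (nat_lit 4) (nat_lit 0x1000000024001f000200000001000080000000000000000000000000000000) (nat_lit 0x0) (nat_lit 0x800200038c0000000000000000000000000000000000000000000) := T_1 (nat_lit 175) (nat_lit 174) (nat_lit 0) (nat_lit 8) (nat_lit 11) L66488 (by decide +kernel)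
theorem L66490 : W_1 (nat_lit 5) (nat_lit 0x1000000024001e000200000001000080000000000000000000000000000000) (nat_lit 0x0) (nat_lit 0x1800210038c0000000000000000000000000000000000000000000) := T_1 (nat_lit 192) (nat_lit 212) (nat_lit 3) (nat_lit 5) (nat_lit 11) L66489 (by decide +kernel)
theorem L66491 : W_1 (nat_lit 6) (nat_lit 0x1000000004001e000200000001000080000000000000000000000000000000) (nat_lit 0x0) (nat_lit 0x7800210038c0000000000000000000000000000000000000000000) := T_1 (nat_lit 213) (nat_lit 214) (nat_lit 3) (nat_lit 6) (nat_lit 11) L66490 (by decide +kernel)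
theorem L66492 : W_1 (nat_lit 7) (nat_lit 0x4001e000200000001000080000000000000000000000000000000) (nat_lit 0x0) (nat_lit 0x100008007800210038c0000000000000000000000000000000000000000000) := T_1 (nat_lit 244) (nat_lit 227) (nat_lit 6) (nat_lit 6) (nat_lit 14) L66491 (by decide +kernel)
theorem L66493 : W_1 (nat_lit 8) (nat_lit 0x4000e000200000001000080000000000000000000000000000000) (nat_lit 0x0) (nat_lit 0x100008007a00310038c0000000000000000000000000000000000000000000) := T_1 (nat_lit 196) (nat_lit 209) (nat_lit 1) (nat_lit 9) (nat_lit 11) L66492 (by decide +kernel)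
theorem L66509 : W_1 (nat_lit 2) (nat_lit 0x10000f000200010001000080000000000000000000000000000000) (nat_lit 0x0) (nat_lit 0x2000000000000c00000000000000000000000000000000000000000000) := D_1 (nat_lit 178) (nat_lit 179) (nat_lit 229) (nat_lit 2) (nat_lit 5) (nat_lit 11) (nat_lit 4) (nat_lit 8) (nat_lit 13) (by decide +kernel)
theorem L66510 : W_1 (nat_lit 3) (nat_lit 0xf000200010001000080000000000000000000000000000000) (nat_lit 0x0) (nat_lit 0x2000300000000c00000000000000000000000000000000000000000000) := T_1 (nat_lit 212) (nat_lit 213) (nat_lit 3) (nat_lit 5) (nat_lit 11) L66509 (by decide +kernel)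
theorem L66511 : W_1 (nat_lit 4) (nat_lit 0xf000200000001000080000000000000000000000000000000) (nat_lit 0x0) (nat_lit 0x2000300000000c00010000800000000000000000000000000000000000) := T_1 (nat_lit 160) (nat_lit 143) (nat_lit 6) (nat_lit 7) (nat_lit 11) L66510 (by decide +kernel)
theorem L66514 : W_1 (nat_lit 2) (nat_lit 0x4000000016000f000680000001000080000000000000000000000000000000) (nat_lit 0x0) (nat_lit 0x10000800000000000000004000000000000000000000000000000000000000) := D_1 (nat_lit 227) (nat_lit 244) (nat_lit 158) (nat_lit 6) (nat_lit 6) (nat_lit 14) (nat_lit 7) (nat_lit 5) (nat_lit 9) (by decide +kernel)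
theorem L66515 : W_1 (nat_lit 3) (nat_lit 0x4000000012000f000680000001000080000000000000000000000000000000) (nat_lit 0x0) (nat_lit 0x10000800040010000000004000000000000000000000000000000000000000) := T_1 (nat_lit 210) (nat_lit 196) (nat_lit 1) (nat_lit 9) (nat_lit 11) L66514 (by decide +kernel)
theorem L66516 : W_1 (nat_lit 4) (nat_lit 0x4000000012000f000600000001000080000000000000000000000000000000) (nat_lit 0x0) (nat_lit 0x100008000400100000c0004000000000000000000000000000000000000000) := T_1 (nat_lit 175) (nat_lit 174) (nat_lit 0) (nat_lit 8) (nat_lit 11) L66515 (by decide +kernel)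
theorem L66517 : W_1 (nat_lit 5) (nat_lit 0x4000000010000f000600000001000080000000000000000000000000000000) (nat_lit 0x0) (nat_lit 0x100008000700100000c0004000000000000000000000000000000000000000) := T_1 (nat_lit 209) (nat_lit 208) (nat_lit 1) (nat_lit 8) (nat_lit 11) L66516 (by decide +kernel)
theorem L66534 : W_1 (nat_lit 2) (nat_lit 0x4000000030000e000200000001000080000000000000000000000000000000) (nat_lit 0x0) (nat_lit 0xc80000000000000000000000000000000000000000000000000000) := D_1 (nat_lit 214) (nat_lit 215) (nat_lit 211) (nat_lit 0) (nat_lit 11) (nat_lit 12) (nat_lit 0) (nat_lit 10) (nat_lit 12) (by decide +kernel)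
theorem L66535 : W_1 (nat_lit 3) (nat_lit 0x4000000010000e000200000001000080000000000000000000000000000000) (nat_lit 0x0) (nat_lit 0xe80001000000000000000000000000000000000000000000000000) := T_1 (nat_lit 213) (nat_lit 192) (nat_lit 3) (nat_lit 5) (nat_lit 11) L66534 (by decide +kernel)
theorem L66536 : W_1 (nat_lit 4) (nat_lit 0x10000e000200000001000080000000000000000000000000000000) (nat_lit 0x0) (nat_lit 0x40002000e80001000000000000000000000000000000000000000000000000) := T_1 (nat_lit 246) (nat_lit 229) (nat_lit 4) (nat_lit 8) (nat_lit 14) L66535 (by decide +kernel)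
theorem L66555 : W_1 (nat_lit 2) (nat_lit 0x4003e000200010001000080000000000000000000000000000000) (nat_lit 0x0) (nat_lit 0x3800000000000000000000000000000000000000000000) := D_1 (nat_lit 180) (nat_lit 179) (nat_lit 181) (nat_lit 2) (nat_lit 6) (nat_lit 11) (nat_lit 2) (nat_lit 7) (nat_lit 11) (by decide +kernel)
theorem L66556 : W_1 (nat_lit 3) (nat_lit 0x4001e000200010001000080000000000000000000000000000000) (nat_lit 0x0) (nat_lit 0x80020003800000000000000000000000000000000000000000000) := T_1 (nat_lit 197) (nat_lit 211) (nat_lit 1) (nat_lit 10) (nat_lit 11) L66555 (by decide +kernel)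
theorem L66585 : W_1 (nat_lit 2) (nat_lit 0x4001e000c000300018001000080000000000000000000000000000000) (nat_lit 0x0) (nat_lit 0x10000c0000000000000000000000000000000000000000000) := D_1 (nat_lit 175) (nat_lit 174) (nat_lit 192) (nat_lit 3) (nat_lit 4) (nat_lit 10) (nat_lit 6) (nat_lit 5) (nat_lit 13) (by decide +kernel)
theorem L66586 : W_1 (nat_lit 3) (nat_lit 0x4001e000c000200018001000080000000000000000000000000000000) (nat_lit 0x0) (nat_lit 0x30001c0000000000000000000000000000000000000000000) := T_1 (nat_lit 176) (nat_lit 193) (nat_lit 5) (nat_lit 6) (nat_lit 9) L66585 (by decide +kernel)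
theorem L66587 : W_1 (nat_lit 4) (nat_lit 0x1e000c000200018001000080000000000000000000000000000000) (nat_lit 0x0) (nat_lit 0x6000000030001c0000000000000000000000000000000000000000000) := T_1 (nat_lit 226) (nat_lit 225) (nat_lit 1) (nat_lit 8) (nat_lit 12) L66586 (by decide +kernel)
theorem L66695 : W_1 (nat_lit 2) (nat_lit 0x4001e000300000001000080000000000000000000000000000000) (nat_lit 0x0) (nat_lit 0x10000800000000000000010000000000000000000000000000000000000000) := D_1 (nat_lit 227) (nat_lit 160) (nat_lit 244) (nat_lit 6) (nat_lit 6) (nat_lit 13) (nat_lit 6) (nat_lit 6) (nat_lit 14) (by decide +kernel)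
theorem L66696 : W_1 (nat_lit 3) (nat_lit 0x1e000300000001000080000000000000000000000000000000) (nat_lit 0x0) (nat_lit 0x10000800060000000000010000000000000000000000000000000000000000) := T_1 (nat_lit 210) (nat_lit 209) (nat_lit 1) (nat_lit 9) (nat_lit 11) L66695 (by decide +kernel)
theorem L66697 : W_1 (nat_lit 4) (nat_lit 0xe000300000001000080000000000000000000000000000000) (nat_lit 0x0) (nat_lit 0x10000800060030000000010000000000000000000000000000000000000000) := T_1 (nat_lit 196) (nat_lit 197) (nat_lit 0) (nat_lit 10) (nat_lit 11) L66696 (by decide +kernel)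
theorem L67300 : W_1 (nat_lit 2) (nat_lit 0x7000600010000c0000000000000000000000000000000) (nat_lit 0x0) (nat_lit 0x190000000000000000000000000000000000000000) := D_1 (nat_lit 163) (nat_lit 164) (nat_lit 160) (nat_lit 1) (nat_lit 11) (nat_lit 9) (nat_lit 1) (nat_lit 10) (nat_lit 9) (by decide +kernel)
theorem L67301 : W_1 (nat_lit 3) (nat_lit 0x6000600010000c0000000000000000000000000000000) (nat_lit 0x0) (nat_lit 0x180190000000000000000000000000000000000000000) := T_1 (nat_lit 176) (nat_lit 175) (nat_lit 2) (nat_lit 5) (nat_lit 10) L67300 (by decide +kernel)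
theorem L71631 : W_1 (nat_lit 2) (nat_lit 0x3e0010001000080000000000000000000000000000000) (nat_lit 0x0) (nat_lit 0xe00000000000000000000000000000000000000000000000) := D_1 (nat_lit 190) (nat_lit 189) (nat_lit 191) (nat_lit 1) (nat_lit 6) (nat_lit 10) (nat_lit 1) (nat_lit 7) (nat_lit 10) (by decide +kernel)
theorem L71632 : W_1 (nat_lit 3) (nat_lit 0x3c0010001000080000000000000000000000000000000) (nat_lit 0x0) (nat_lit 0xe00020008000000000000000000000000000000000000000) := T_1 (nat_lit 173) (nat_lit 159) (nat_lit 2) (nat_lit 3) (nat_lit 10) L71631 (by decide +kernel)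
theorem L71633 : W_1 (nat_lit 4) (nat_lit 0x3c0000001000080000000000000000000000000000000) (nat_lit 0x0) (nat_lit 0xe00020038000000000000000000000000000000000000000) := T_1 (nat_lit 160) (nat_lit 161) (nat_lit 2) (nat_lit 4) (nat_lit 10) L71632 (by decide +kernel)
theorem L71634 : W_1 (nat_lit 2) (nat_lit 0x4003c0001001000080000000000000000000000000000000) (nat_lit 0x0) (nat_lit 0x200020000800000000000000000000000000000000000000) := D_1 (nat_lit 173) (nat_lit 189) (nat_lit 155) (nat_lit 1) (nat_lit 6) (nat_lit 10) (nat_lit 0) (nat_lit 6) (nat_lit 10) (by decide +kernel)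
theorem L71635 : W_1 (nat_lit 3) (nat_lit 0x4003c0000001000080000000000000000000000000000000) (nat_lit 0x0) (nat_lit 0x200020003800000000000000000000000000000000000000) := T_1 (nat_lit 156) (nat_lit 157) (nat_lit 0) (nat_lit 7) (nat_lit 10) L71634 (by decide +kernel)
theorem L71636 : W_1 (nat_lit 4) (nat_lit 0x3c0000001000080000000000000000000000000000000) (nat_lit 0x0) (nat_lit 0xe00020003800000000000000000000000000000000000000) := T_1 (nat_lit 190) (nat_lit 191) (nat_lit 1) (nat_lit 7) (nat_lit 10) L71635 (by decide +kernel)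
theorem L71637 : W_1 (nat_lit 2) (nat_lit 0x12003f0016801000080000000000000000000000000000000) (nat_lit 0x0) (nat_lit 0x20000000000000000100008000000000000000000000000000000) := D_1 (nat_lit 140) (nat_lit 123) (nat_lit 209) (nat_lit 7) (nat_lit 4) (nat_lit 7) (nat_lit 4) (nat_lit 5) (nat_lit 12) (by decide +kernel)
theorem L71638 : W_1 (nat_lit 3) (nat_lit 0x12003f0012801000080000000000000000000000000000000) (nat_lit 0x0) (nat_lit 0x20000000008004000100008000000000000000000000000000000) := T_1 (nat_lit 158) (nat_lit 171) (nat_lit 2) (nat_lit 1) (nat_lit 10) L71637 (by decide +kernel)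
theorem L71639 : W_1 (nat_lit 4) (nat_lit 0x2003f0012801000080000000000000000000000000000000) (nat_lit 0x0) (nat_lit 0x20003000008004000100008000000000000000000000000000000) := T_1 (nat_lit 192) (nat_lit 193) (nat_lit 3) (nat_lit 2) (nat_lit 10) L71638 (by decide +kernel)
theorem L71640 : W_1 (nat_lit 5) (nat_lit 0x2003f0012001000080000000000000000000000000000000) (nat_lit 0x0) (nat_lit 0x20003000008004c00100008000000000000000000000000000000) := T_1 (nat_lit 155) (nat_lit 154) (nat_lit 0) (nat_lit 5) (nat_lit 10) L71639 (by decide +kernel)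
theorem L71641 : W_1 (nat_lit 6) (nat_lit 0x2003e0012001000080000000000000000000000000000000) (nat_lit 0x0) (nat_lit 0x20003100018004c00100008000000000000000000000000000000) := T_1 (nat_lit 172) (nat_lit 188) (nat_lit 1) (nat_lit 5) (nat_lit 10) L71640 (by decide +kernel)
theorem L71642 : W_1 (nat_lit 7) (nat_lit 0x3e0012001000080000000000000000000000000000000) (nat_lit 0x0) (nat_lit 0x20003700018004c00100008000000000000000000000000000000) := T_1 (nat_lit 189) (nat_lit 190) (nat_lit 1) (nat_lit 6) (nat_lit 10) L71641 (by decide +kernel)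
theorem L71643 : W_1 (nat_lit 8) (nat_lit 0x3c0012001000080000000000000000000000000000000) (nat_lit 0x0) (nat_lit 0x2000370003800cc00100008000000000000000000000000000000) := T_1 (nat_lit 173) (nat_lit 159) (nat_lit 2) (nat_lit 3) (nat_lit 10) L71642 (by decide +kernel)
theorem L71644 : W_1 (nat_lit 9) (nat_lit 0x3c0002001000080000000000000000000000000000000) (nat_lit 0x0) (nat_lit 0x2000370003803cc00100008000000000000000000000000000000) := T_1 (nat_lit 160) (nat_lit 161) (nat_lit 2) (nat_lit 4) (nat_lit 10) L71643 (by decide +kernel)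
theorem L71645 : W_1 (nat_lit 10) (nat_lit 0x3c0000001000080000000000000000000000000000000) (nat_lit 0x0) (nat_lit 0x2000370003803fc00100008000000000000000000000000000000) := T_1 (nat_lit 157) (nat_lit 156) (nat_lit 0) (nat_lit 7) (nat_lit 10) L71644 (by decide +kernel)
theorem L72018 : W_1 (nat_lit 2) (nat_lit 0x3c001e001100080000000000000000000000000000000) (nat_lit 0x0) (nat_lit 0x20001000000000000000008000000000000000000000000000000) := D_1 (nat_lit 192) (nat_lit 209) (nat_lit 123) (nat_lit 4) (nat_lit 5) (nat_lit 12) (nat_lit 7) (nat_lit 4) (nat_lit 7) (by decide +kernel)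
theorem L72019 : W_1 (nat_lit 3) (nat_lit 0x3c001e001000080000000000000000000000000000000) (nat_lit 0x0) (nat_lit 0x20001000000000000180008000000000000000000000000000000) := T_1 (nat_lit 140) (nat_lit 139) (nat_lit 0) (nat_lit 7) (nat_lit 9) L72018 (by decide +kernel)
theorem L72020 : W_1 (nat_lit 4) (nat_lit 0x3c0016001000080000000000000000000000000000000) (nat_lit 0x0) (nat_lit 0x20001000000008000980008000000000000000000000000000000) := T_1 (nat_lit 159) (nat_lit 143) (nat_lit 2) (nat_lit 4) (nat_lit 9) L72019 (by decide +kernel)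
theorem L72299 : W_1 (nat_lit 2) (nat_lit 0x8003c0006001000080000000000000000000000000000000) (nat_lit 0x0) (nat_lit 0x200010000000000000000200000000000000000000000000000000000) := D_1 (nat_lit 208) (nat_lit 225) (nat_lit 141) (nat_lit 6) (nat_lit 4) (nat_lit 13) (nat_lit 6) (nat_lit 4) (nat_lit 12) (by decide +kernel)
theorem L72300 : W_1 (nat_lit 3) (nat_lit 0x8003c0004001000080000000000000000000000000000000) (nat_lit 0x0) (nat_lit 0x200010000000000003000200000000000000000000000000000000000) := T_1 (nat_lit 157) (nat_lit 156) (nat_lit 0) (nat_lit 7) (nat_lit 10) L72299 (by decide +kernel)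
theorem L72301 : W_1 (nat_lit 4) (nat_lit 0x3c0004001000080000000000000000000000000000000) (nat_lit 0x0) (nat_lit 0x200010000c00000003000200000000000000000000000000000000000) := T_1 (nat_lit 191) (nat_lit 190) (nat_lit 1) (nat_lit 7) (nat_lit 10) L72300 (by decide +kernel)
theorem L72347 : W_1 (nat_lit 4) (nat_lit 0x3c001a001000080000000000000000000000000000000) (nat_lit 0x0) (nat_lit 0x20001000000004000980008000000000000000000000000000000) := T_1 (nat_lit 158) (nat_lit 143) (nat_lit 2) (nat_lit 4) (nat_lit 9) L72019 (by decide +kernel)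
theorem L72368 : W_1 (nat_lit 2) (nat_lit 0x3800080014000a0001000000000000000000000000000) (nat_lit 0x0) (nat_lit 0x10000800040000000000000000000000) := D_1 (nat_lit 107) (nat_lit 90) (nat_lit 124) (nat_lit 4) (nat_lit 6) (nat_lit 9) (nat_lit 4) (nat_lit 6) (nat_lit 10) (by decide +kernel)
theorem L72369 : W_1 (nat_lit 3) (nat_lit 0x3800080014000a0000000000000000000000000000000) (nat_lit 0x0) (nat_lit 0x4000000010001800040000000000000000000000) := T_1 (nat_lit 108) (nat_lit 158) (nat_lit 5) (nat_lit 6) (nat_lit 6) L72368 (by decide +kernel)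
theorem L72461 : W_1 (nat_lit 2) (nat_lit 0x380018001000080000000000000000000000000000000) (nat_lit 0x0) (nat_lit 0x40060000000000000000000000000000000000000000) := D_1 (nat_lit 161) (nat_lit 162) (nat_lit 174) (nat_lit 1) (nat_lit 9) (nat_lit 9) (nat_lit 2) (nat_lit 4) (nat_lit 10) (by decide +kernel)
theorem L72480 : W_1 (nat_lit 2) (nat_lit 0x200038005c001e00080000000000000000000000000000000) (nat_lit 0x0) (nat_lit 0x1000000000000000020001000000000000000000000000000) := D_1 (nat_lit 125) (nat_lit 108) (nat_lit 192) (nat_lit 7) (nat_lit 6) (nat_lit 6) (nat_lit 6) (nat_lit 5) (nat_lit 11) (by decide +kernel)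
theorem L72481 : W_1 (nat_lit 3) (nat_lit 0x200038005c001a00080000000000000000000000000000000) (nat_lit 0x0) (nat_lit 0x1000000000000400120001000000000000000000000000000) := T_1 (nat_lit 142) (nat_lit 128) (nat_lit 2) (nat_lit 5) (nat_lit 8) L72480 (by decide +kernel)
theorem L72482 : W_1 (nat_lit 4) (nat_lit 0x200038005c001800080000000000000000000000000000000) (nat_lit 0x0) (nat_lit 0x1000000000000600130001000000000000000000000000000) := T_1 (nat_lit 141) (nat_lit 124) (nat_lit 7) (nat_lit 5) (nat_lit 7) L72481 (by decide +kernel)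
theorem L72483 : W_1 (nat_lit 5) (nat_lit 0x2000380058001800080000000000000000000000000000000) (nat_lit 0x0) (nat_lit 0x1000000006000600130001000000000000000000000000000) := T_1 (nat_lit 158) (nat_lit 157) (nat_lit 2) (nat_lit 4) (nat_lit 9) L72482 (by decide +kernel)
theorem L72484 : W_1 (nat_lit 6) (nat_lit 0x380058001800080000000000000000000000000000000) (nat_lit 0x0) (nat_lit 0x40003000000006000600130001000000000000000000000000000) := T_1 (nat_lit 193) (nat_lit 210) (nat_lit 6) (nat_lit 6) (nat_lit 12) L72483 (by decide +kernel)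
theorem L72485 : W_1 (nat_lit 7) (nat_lit 0x380018001800080000000000000000000000000000000) (nat_lit 0x0) (nat_lit 0x40003000000066000600130001000000000000000000000000000) := T_1 (nat_lit 162) (nat_lit 161) (nat_lit 1) (nat_lit 9) (nat_lit 9) L72484 (by decide +kernel)
theorem L72791 : W_1 (nat_lit 2) (nat_lit 0x10000f80008001000080000000000000000000000000000000) (nat_lit 0x0) (nat_lit 0x3800000000000000000000000000000000000000000000000) := D_1 (nat_lit 192) (nat_lit 191) (nat_lit 193) (nat_lit 1) (nat_lit 8) (nat_lit 10) (nat_lit 1) (nat_lit 9) (nat_lit 10) (by decide +kernel)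
theorem L72792 : W_1 (nat_lit 3) (nat_lit 0x10000f00008001000080000000000000000000000000000000) (nat_lit 0x0) (nat_lit 0xb800080000000000000000000000000000000000000000000) := T_1 (nat_lit 175) (nat_lit 195) (nat_lit 3) (nat_lit 5) (nat_lit 10) L72791 (by decide +kernel)
theorem L72793 : W_1 (nat_lit 4) (nat_lit 0xf00008001000080000000000000000000000000000000) (nat_lit 0x0) (nat_lit 0x3b800080000000000000000000000000000000000000000000) := T_1 (nat_lit 196) (nat_lit 197) (nat_lit 3) (nat_lit 6) (nat_lit 10) L72792 (by decide +kernel)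
theorem L72794 : W_1 (nat_lit 5) (nat_lit 0xf00000001000080000000000000000000000000000000) (nat_lit 0x0) (nat_lit 0x3b80008000c000000000000000000000000000000000000000) := T_1 (nat_lit 159) (nat_lit 158) (nat_lit 0) (nat_lit 9) (nat_lit 10) L72793 (by decide +kernel)
theorem L72813 : W_1 (nat_lit 2) (nat_lit 0x800780002001000080000000000000000000000000000000) (nat_lit 0x0) (nat_lit 0x400040001000000000000000000000000000000000000000) := D_1 (nat_lit 174) (nat_lit 156) (nat_lit 190) (nat_lit 0) (nat_lit 7) (nat_lit 10) (nat_lit 1) (nat_lit 7) (nat_lit 10) (by decide +kernel)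
theorem L72814 : W_1 (nat_lit 3) (nat_lit 0x780002001000080000000000000000000000000000000) (nat_lit 0x0) (nat_lit 0x1c00040001000000000000000000000000000000000000000) := T_1 (nat_lit 191) (nat_lit 192) (nat_lit 1) (nat_lit 8) (nat_lit 10) L72813 (by decide +kernel)
theorem L72815 : W_1 (nat_lit 4) (nat_lit 0x780000001000080000000000000000000000000000000) (nat_lit 0x0) (nat_lit 0x1c00040007000000000000000000000000000000000000000) := T_1 (nat_lit 157) (nat_lit 158) (nat_lit 0) (nat_lit 8) (nat_lit 10) L72814 (by decide +kernel)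
theorem L72820 : W_1 (nat_lit 2) (nat_lit 0x8000780004001200090000800000000000000000000000000) (nat_lit 0x0) (nat_lit 0x20001000080000000000000000000000) := D_1 (nat_lit 108) (nat_lit 91) (nat_lit 125) (nat_lit 6) (nat_lit 5) (nat_lit 9) (nat_lit 6) (nat_lit 5) (nat_lit 10) (by decide +kernel)
theorem L72821 : W_1 (nat_lit 3) (nat_lit 0x8000780004001200090000000000000000000000000000000) (nat_lit 0x0) (nat_lit 0x8000000020001800080000000000000000000000) := T_1 (nat_lit 107) (nat_lit 159) (nat_lit 7) (nat_lit 5) (nat_lit 6) L72820 (by decide +kernel)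
theorem L72822 : W_1 (nat_lit 4) (nat_lit 0x8000780004001200080000000000000000000000000000000) (nat_lit 0x0) (nat_lit 0x2000000008000000030001800080000000000000000000000) := T_1 (nat_lit 124) (nat_lit 193) (nat_lit 7) (nat_lit 5) (nat_lit 7) L72821 (by decide +kernel)
theorem L72823 : W_1 (nat_lit 5) (nat_lit 0x780004001200080000000000000000000000000000000) (nat_lit 0x0) (nat_lit 0x1a000000008000000030001800080000000000000000000000) := T_1 (nat_lit 195) (nat_lit 196) (nat_lit 3) (nat_lit 5) (nat_lit 10) L72822 (by decide +kernel)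
theorem L72912 : W_1 (nat_lit 2) (nat_lit 0x1f00000001000080000000000000000000000000000000) (nat_lit 0x0) (nat_lit 0x1c0000000000000000000000000000000000000000) := D_1 (nat_lit 163) (nat_lit 162) (nat_lit 164) (nat_lit 2) (nat_lit 6) (nat_lit 10) (nat_lit 2) (nat_lit 7) (nat_lit 10) (by decide +kernel)
theorem L73081 : W_1 (nat_lit 2) (nat_lit 0x8003c0002001000080000000000000000000000000000000) (nat_lit 0x0) (nat_lit 0x1000400004000000000000000000000000000000000000000) := D_1 (nat_lit 178) (nat_lit 192) (nat_lit 158) (nat_lit 1) (nat_lit 8) (nat_lit 10) (nat_lit 0) (nat_lit 8) (nat_lit 10) (by decide +kernel)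
theorem L73082 : W_1 (nat_lit 3) (nat_lit 0x8003c0000001000080000000000000000000000000000000) (nat_lit 0x0) (nat_lit 0x1000400007000000000000000000000000000000000000000) := T_1 (nat_lit 157) (nat_lit 156) (nat_lit 0) (nat_lit 7) (nat_lit 10) L73081 (by decide +kernel)
theorem L74242 : W_1 (nat_lit 2) (nat_lit 0x3c0022001000080000000000000000000000000000000) (nat_lit 0x0) (nat_lit 0x400044000000000000000000000000000000000000000) := D_1 (nat_lit 178) (nat_lit 162) (nat_lit 158) (nat_lit 2) (nat_lit 5) (nat_lit 10) (nat_lit 0) (nat_lit 8) (nat_lit 10) (by decide +kernel)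
theorem L74243 : W_1 (nat_lit 3) (nat_lit 0x3c0020001000080000000000000000000000000000000) (nat_lit 0x0) (nat_lit 0x400047000000000000000000000000000000000000000) := T_1 (nat_lit 157) (nat_lit 156) (nat_lit 0) (nat_lit 7) (nat_lit 10) L74242 (by decide +kernel)
theorem L74244 : W_1 (nat_lit 4) (nat_lit 0x380020001000080000000000000000000000000000000) (nat_lit 0x0) (nat_lit 0x440057000000000000000000000000000000000000000) := T_1 (nat_lit 174) (nat_lit 160) (nat_lit 2) (nat_lit 4) (nat_lit 10) L74243 (by decide +kernel)
theorem L74443 : W_1 (nat_lit 2) (nat_lit 0x3000780004001000080000000000000000000000000000000) (nat_lit 0x0) (nat_lit 0x800040000000000000000200000000000000000000000000000000000) := D_1 (nat_lit 210) (nat_lit 227) (nat_lit 141) (nat_lit 4) (nat_lit 6) (nat_lit 13) (nat_lit 7) (nat_lit 5) (nat_lit 8) (by decide +kernel)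
theorem L74444 : W_1 (nat_lit 3) (nat_lit 0x1000780004001000080000000000000000000000000000000) (nat_lit 0x0) (nat_lit 0x800040002000800000000200000000000000000000000000000000000) := T_1 (nat_lit 193) (nat_lit 179) (nat_lit 1) (nat_lit 9) (nat_lit 10) L74443 (by decide +kernel)
theorem L74447 : W_1 (nat_lit 2) (nat_lit 0x100078000c001000080000000000000000000000000000000) (nat_lit 0x0) (nat_lit 0x20000000000000000400020000000000000000000000000000000) := D_1 (nat_lit 142) (nat_lit 125) (nat_lit 209) (nat_lit 5) (nat_lit 6) (nat_lit 7) (nat_lit 6) (nat_lit 5) (nat_lit 12) (by decide +kernel)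
theorem L74448 : W_1 (nat_lit 3) (nat_lit 0x1000780004001000080000000000000000000000000000000) (nat_lit 0x0) (nat_lit 0x20000000800008000400020000000000000000000000000000000) := T_1 (nat_lit 159) (nat_lit 179) (nat_lit 0) (nat_lit 9) (nat_lit 10) L74447 (by decide +kernel)
theorem L74449 : W_1 (nat_lit 4) (nat_lit 0x1000780000001000080000000000000000000000000000000) (nat_lit 0x0) (nat_lit 0x2000000080000e000400020000000000000000000000000000000) := T_1 (nat_lit 158) (nat_lit 157) (nat_lit 0) (nat_lit 8) (nat_lit 10) L74448 (by decide +kernel)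
theorem L74450 : W_1 (nat_lit 5) (nat_lit 0x780000001000080000000000000000000000000000000) (nat_lit 0x0) (nat_lit 0x2000180080000e000400020000000000000000000000000000000) := T_1 (nat_lit 192) (nat_lit 191) (nat_lit 1) (nat_lit 8) (nat_lit 10) L74449 (by decide +kernel)
theorem L74496 : W_1 (nat_lit 2) (nat_lit 0x6000f00048001000080000000000000000000000000000000) (nat_lit 0x0) (nat_lit 0x1000080000000000000000400000000000000000000000000000000000) := D_1 (nat_lit 211) (nat_lit 228) (nat_lit 142) (nat_lit 4) (nat_lit 7) (nat_lit 13) (nat_lit 7) (nat_lit 6) (nat_lit 8) (by decide +kernel)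
theorem L74497 : W_1 (nat_lit 3) (nat_lit 0x6000f00040001000080000000000000000000000000000000) (nat_lit 0x0) (nat_lit 0x100008000000000000c000400000000000000000000000000000000000) := T_1 (nat_lit 159) (nat_lit 158) (nat_lit 0) (nat_lit 9) (nat_lit 10) L74496 (by decide +kernel)
theorem L74545 : W_1 (nat_lit 2) (nat_lit 0x400030000e001000080000000000000000000000000000000) (nat_lit 0x0) (nat_lit 0xc80000000000000000000000000000000000000000000) := D_1 (nat_lit 178) (nat_lit 179) (nat_lit 175) (nat_lit 0) (nat_lit 9) (nat_lit 10) (nat_lit 0) (nat_lit 8) (nat_lit 10) (by decide +kernel)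
theorem L74546 : W_1 (nat_lit 3) (nat_lit 0x400030000c001000080000000000000000000000000000000) (nat_lit 0x0) (nat_lit 0xc80003000000000000000000000000000000000000000) := T_1 (nat_lit 157) (nat_lit 156) (nat_lit 3) (nat_lit 3) (nat_lit 9) L74545 (by decide +kernel)
theorem L74550 : W_1 (nat_lit 2) (nat_lit 0x1c000600030001c001000080000000000000000000000000000000) (nat_lit 0x0) (nat_lit 0x200001800000000000000000000000000000000000000000000000) := D_1 (nat_lit 192) (nat_lit 191) (nat_lit 213) (nat_lit 3) (nat_lit 4) (nat_lit 11) (nat_lit 0) (nat_lit 9) (nat_lit 12) (by decide +kernel)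
theorem L74551 : W_1 (nat_lit 3) (nat_lit 0xc000600030001c001000080000000000000000000000000000000) (nat_lit 0x0) (nat_lit 0x2000300001800000000000000000000000000000000000000000000000) := T_1 (nat_lit 212) (nat_lit 229) (nat_lit 7) (nat_lit 7) (nat_lit 9) L74550 (by decide +kernel)
theorem L74552 : W_1 (nat_lit 4) (nat_lit 0xc000400030001c001000080000000000000000000000000000000) (nat_lit 0x0) (nat_lit 0x2000300003800000000000200000000000000000000000000000000000) := T_1 (nat_lit 193) (nat_lit 141) (nat_lit 4) (nat_lit 6) (nat_lit 12) L74551 (by decide +kernel)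
theorem L74553 : W_1 (nat_lit 5) (nat_lit 0x8000400030001c001000080000000000000000000000000000000) (nat_lit 0x0) (nat_lit 0x2800340003800000000000200000000000000000000000000000000000) := T_1 (nat_lit 210) (nat_lit 227) (nat_lit 5) (nat_lit 7) (nat_lit 9) L74552 (by decide +kernel)
theorem L74559 : W_1 (nat_lit 2) (nat_lit 0x80004000300008001000080000000000000000000000000000000) (nat_lit 0x0) (nat_lit 0x2000000000000400020000000000000000000000000000000) := D_1 (nat_lit 142) (nat_lit 125) (nat_lit 193) (nat_lit 7) (nat_lit 6) (nat_lit 7) (nat_lit 7) (nat_lit 6) (nat_lit 8) (by decide +kernel)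
theorem L74560 : W_1 (nat_lit 3) (nat_lit 0x4000300008001000080000000000000000000000000000000) (nat_lit 0x0) (nat_lit 0x1000080002000000000000400020000000000000000000000000000000) := T_1 (nat_lit 211) (nat_lit 228) (nat_lit 4) (nat_lit 7) (nat_lit 13) L74559 (by decide +kernel)
theorem L74638 : W_1 (nat_lit 2) (nat_lit 0x8007c000c001000080000000000000000000000000000000) (nat_lit 0x0) (nat_lit 0x30010000000000000000000000000000000000000000) := D_1 (nat_lit 173) (nat_lit 172) (nat_lit 160) (nat_lit 2) (nat_lit 2) (nat_lit 10) (nat_lit 2) (nat_lit 3) (nat_lit 10) (by decide +kernel)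
theorem L74639 : W_1 (nat_lit 3) (nat_lit 0x80078000c001000080000000000000000000000000000000) (nat_lit 0x0) (nat_lit 0x400070010000000000000000000000000000000000000000) := T_1 (nat_lit 174) (nat_lit 190) (nat_lit 1) (nat_lit 7) (nat_lit 10) L74638 (by decide +kernel)
theorem L74703 : W_1 (nat_lit 2) (nat_lit 0x8000100078003c0018001400080000000000000000000000000000000) (nat_lit 0x0) (nat_lit 0x4000200000000000000004000000000000000000000000000000000000000) := D_1 (nat_lit 225) (nat_lit 158) (nat_lit 242) (nat_lit 6) (nat_lit 4) (nat_lit 13) (nat_lit 6) (nat_lit 4) (nat_lit 14) (by decide +kernel)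
theorem L74704 : W_1 (nat_lit 3) (nat_lit 0x800010007800340018001400080000000000000000000000000000000) (nat_lit 0x0) (nat_lit 0x4000200000008000080004000000000000000000000000000000000000000) := T_1 (nat_lit 175) (nat_lit 195) (nat_lit 3) (nat_lit 4) (nat_lit 10) L74703 (by decide +kernel)
theorem L74718 : W_1 (nat_lit 2) (nat_lit 0x50003e0010001000080000000000000000000000000000000) (nat_lit 0x0) (nat_lit 0x3800000000000000000000000000000000000000) := D_1 (nat_lit 156) (nat_lit 157) (nat_lit 155) (nat_lit 0) (nat_lit 7) (nat_lit 10) (nat_lit 0) (nat_lit 6) (nat_lit 10) (by decide +kernel)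
theorem L74719 : W_1 (nat_lit 3) (nat_lit 0x50003c0010001000080000000000000000000000000000000) (nat_lit 0x0) (nat_lit 0x2000b800000000000000000000000000000000000000) := T_1 (nat_lit 173) (nat_lit 159) (nat_lit 2) (nat_lit 3) (nat_lit 10) L74718 (by decide +kernel)
theorem L74720 : W_1 (nat_lit 4) (nat_lit 0x5000380010001000080000000000000000000000000000000) (nat_lit 0x0) (nat_lit 0x800006000b800000000000000000000000000000000000000) := T_1 (nat_lit 174) (nat_lit 195) (nat_lit 3) (nat_lit 4) (nat_lit 10) L74719 (by decide +kernel)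
theorem L74721 : W_1 (nat_lit 5) (nat_lit 0x5000380000001000080000000000000000000000000000000) (nat_lit 0x0) (nat_lit 0x800006001b800800000000000000000000000000000000000) := T_1 (nat_lit 160) (nat_lit 143) (nat_lit 6) (nat_lit 7) (nat_lit 11) L74720 (by decide +kernel)
theorem L74747 : W_1 (nat_lit 2) (nat_lit 0x20005000300018001400080000000000000000000000000000000) (nat_lit 0x0) (nat_lit 0x400000000000080004000000000000000000000000000000000000000) := D_1 (nat_lit 175) (nat_lit 158) (nat_lit 226) (nat_lit 6) (nat_lit 5) (nat_lit 12) (nat_lit 6) (nat_lit 5) (nat_lit 13) (by decide +kernel)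
theorem L74748 : W_1 (nat_lit 3) (nat_lit 0x5000300018001400080000000000000000000000000000000) (nat_lit 0x0) (nat_lit 0x400020002000080004000000000000000000000000000000000000000) := T_1 (nat_lit 209) (nat_lit 193) (nat_lit 5) (nat_lit 6) (nat_lit 8) L74747 (by decide +kernel)
theorem L74749 : W_1 (nat_lit 4) (nat_lit 0x5000300008001400080000000000000000000000000000000) (nat_lit 0x0) (nat_lit 0x400020002000080014000800000000000000000000000000000000000) := T_1 (nat_lit 160) (nat_lit 143) (nat_lit 6) (nat_lit 7) (nat_lit 11) L74748 (by decide +kernel)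
theorem L74754 : W_1 (nat_lit 2) (nat_lit 0xe000680070001c001000080000000000000000000000000000000) (nat_lit 0x0) (nat_lit 0x10008400000000000000000000000000000000000000000000000) := D_1 (nat_lit 208) (nat_lit 195) (nat_lit 190) (nat_lit 2) (nat_lit 4) (nat_lit 12) (nat_lit 0) (nat_lit 7) (nat_lit 12) (by decide +kernel)
theorem L74755 : W_1 (nat_lit 3) (nat_lit 0xc000680070001c001000080000000000000000000000000000000) (nat_lit 0x0) (nat_lit 0x400030008400000000000000000000000000000000000000000000000) := T_1 (nat_lit 209) (nat_lit 226) (nat_lit 5) (nat_lit 6) (nat_lit 9) L74754 (by decide +kernel)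
theorem L74819 : W_1 (nat_lit 3) (nat_lit 0x8007c0004001000080000000000000000000000000000000) (nat_lit 0x0) (nat_lit 0x830018000000000000000000000000000000000000000) := T_1 (nat_lit 159) (nat_lit 179) (nat_lit 0) (nat_lit 9) (nat_lit 10) L74638 (by decide +kernel)
theorem L74820 : W_1 (nat_lit 4) (nat_lit 0x8007c0000001000080000000000000000000000000000000) (nat_lit 0x0) (nat_lit 0x83001e000000000000000000000000000000000000000) := T_1 (nat_lit 158) (nat_lit 157) (nat_lit 0) (nat_lit 8) (nat_lit 10) L74819 (by decide +kernel)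
theorem L74821 : W_1 (nat_lit 5) (nat_lit 0x8003c0000001000080000000000000000000000000000000) (nat_lit 0x0) (nat_lit 0x1000c3001e000000000000000000000000000000000000000) := T_1 (nat_lit 178) (nat_lit 192) (nat_lit 1) (nat_lit 8) (nat_lit 10) L74820 (by decide +kernel)
theorem L74822 : W_1 (nat_lit 6) (nat_lit 0x3c0000001000080000000000000000000000000000000) (nat_lit 0x0) (nat_lit 0x1c00c3001e000000000000000000000000000000000000000) := T_1 (nat_lit 191) (nat_lit 190) (nat_lit 1) (nat_lit 7) (nat_lit 10) L74821 (by decide +kernel)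
theorem L74835 : W_1 (nat_lit 2) (nat_lit 0x10007e0012001000080000000000000000000000000000000) (nat_lit 0x0) (nat_lit 0x2000810000000000000000000000000000000000000000000) := D_1 (nat_lit 193) (nat_lit 179) (nat_lit 172) (nat_lit 1) (nat_lit 9) (nat_lit 10) (nat_lit 3) (nat_lit 2) (nat_lit 10) (by decide +kernel)
theorem L74836 : W_1 (nat_lit 3) (nat_lit 0x7e0012001000080000000000000000000000000000000) (nat_lit 0x0) (nat_lit 0x3800810000000000000000000000000000000000000000000) := T_1 (nat_lit 192) (nat_lit 191) (nat_lit 1) (nat_lit 8) (nat_lit 10) L74835 (by decide +kernel)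
theorem L74837 : W_1 (nat_lit 4) (nat_lit 0x3e0012001000080000000000000000000000000000000) (nat_lit 0x0) (nat_lit 0x3800c10004000000000000000000000000000000000000000) := T_1 (nat_lit 178) (nat_lit 158) (nat_lit 0) (nat_lit 8) (nat_lit 10) L74836 (by decide +kernel)
theorem L74838 : W_1 (nat_lit 5) (nat_lit 0x3c0012001000080000000000000000000000000000000) (nat_lit 0x0) (nat_lit 0x3800c3000c000000000000000000000000000000000000000) := T_1 (nat_lit 173) (nat_lit 159) (nat_lit 2) (nat_lit 3) (nat_lit 10) L74837 (by decide +kernel)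
theorem L74839 : W_1 (nat_lit 6) (nat_lit 0x3c0002001000080000000000000000000000000000000) (nat_lit 0x0) (nat_lit 0x3800c3003c000000000000000000000000000000000000000) := T_1 (nat_lit 160) (nat_lit 161) (nat_lit 2) (nat_lit 4) (nat_lit 10) L74838 (by decide +kernel)
theorem L74840 : W_1 (nat_lit 7) (nat_lit 0x3c0000001000080000000000000000000000000000000) (nat_lit 0x0) (nat_lit 0x3800c3003f000000000000000000000000000000000000000) := T_1 (nat_lit 157) (nat_lit 156) (nat_lit 0) (nat_lit 7) (nat_lit 10) L74839 (by decide +kernel)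
theorem L74846 : W_1 (nat_lit 5) (nat_lit 0x3c0006001000080000000000000000000000000000000) (nat_lit 0x0) (nat_lit 0x20001000000038000980008000000000000000000000000000000) := T_1 (nat_lit 160) (nat_lit 161) (nat_lit 2) (nat_lit 4) (nat_lit 10) L72020 (by decide +kernel)
theorem L74847 : W_1 (nat_lit 6) (nat_lit 0x3c0004001000080000000000000000000000000000000) (nat_lit 0x0) (nat_lit 0x2000100000003b000980008000000000000000000000000000000) := T_1 (nat_lit 157) (nat_lit 156) (nat_lit 0) (nat_lit 7) (nat_lit 10) L74846 (by decide +kernel)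
theorem L74848 : W_1 (nat_lit 2) (nat_lit 0x8003c0016001000080000000000000000000000000000000) (nat_lit 0x0) (nat_lit 0x200010000000000000000200000000000000000000000000000000000) := D_1 (nat_lit 208) (nat_lit 225) (nat_lit 141) (nat_lit 6) (nat_lit 4) (nat_lit 13) (nat_lit 6) (nat_lit 4) (nat_lit 12) (by decide +kernel)
theorem L74849 : W_1 (nat_lit 3) (nat_lit 0x8003c0014001000080000000000000000000000000000000) (nat_lit 0x0) (nat_lit 0x200010000000000003000200000000000000000000000000000000000) := T_1 (nat_lit 157) (nat_lit 156) (nat_lit 0) (nat_lit 7) (nat_lit 10) L74848 (by decide +kernel)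
theorem L74850 : W_1 (nat_lit 4) (nat_lit 0x3c0014001000080000000000000000000000000000000) (nat_lit 0x0) (nat_lit 0x200010000c00000003000200000000000000000000000000000000000) := T_1 (nat_lit 191) (nat_lit 190) (nat_lit 1) (nat_lit 7) (nat_lit 10) L74849 (by decide +kernel)
theorem L75268 : W_1 (nat_lit 2) (nat_lit 0x4000300078001000080000000000000000000000000000000) (nat_lit 0x0) (nat_lit 0x600020000000000000000000000000000000) := D_1 (nat_lit 142) (nat_lit 141) (nat_lit 125) (nat_lit 0) (nat_lit 9) (nat_lit 9) (nat_lit 7) (nat_lit 6) (nat_lit 7) (by decide +kernel)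
theorem L75414 : W_1 (nat_lit 2) (nat_lit 0xc00038001800080000000000000000000000000000000) (nat_lit 0x0) (nat_lit 0x3000040000000000000000000000000000000000000000) := D_1 (nat_lit 180) (nat_lit 181) (nat_lit 162) (nat_lit 0) (nat_lit 11) (nat_lit 10) (nat_lit 3) (nat_lit 6) (nat_lit 9) (by decide +kernel)
theorem L75415 : W_1 (nat_lit 3) (nat_lit 0xc00030001800080000000000000000000000000000000) (nat_lit 0x0) (nat_lit 0x300004c000000000000000000000000000000000000000) := T_1 (nat_lit 159) (nat_lit 158) (nat_lit 3) (nat_lit 5) (nat_lit 9) L75414 (by decide +kernel)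
theorem L75416 : W_1 (nat_lit 4) (nat_lit 0x400030001800080000000000000000000000000000000) (nat_lit 0x0) (nat_lit 0x1000380004c000000000000000000000000000000000000000) := T_1 (nat_lit 179) (nat_lit 196) (nat_lit 7) (nat_lit 8) (nat_lit 7) L75415 (by decide +kernel)
theorem L75472 : W_1 (nat_lit 6) (nat_lit 0x600030001800080000000000000000000000000000000) (nat_lit 0x0) (nat_lit 0x20001c0040000000078003000000000000000000000000000) := T_1 (nat_lit 126) (nat_lit 109) (nat_lit 7) (nat_lit 7) (nat_lit 6) L451 (by decide +kernel)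
theorem L75473 : W_1 (nat_lit 7) (nat_lit 0x400030001800080000000000000000000000000000000) (nat_lit 0x0) (nat_lit 0x60003c0040000000078003000000000000000000000000000) := T_1 (nat_lit 177) (nat_lit 194) (nat_lit 6) (nat_lit 7) (nat_lit 11) L75472 (by decide +kernel)
theorem L75570 : W_1 (nat_lit 2) (nat_lit 0x40004000200010000c0000000000000000000000000000000) (nat_lit 0x0) (nat_lit 0x80008000000000000800000000000000000000000000000000000) := D_1 (nat_lit 195) (nat_lit 143) (nat_lit 211) (nat_lit 4) (nat_lit 8) (nat_lit 11) (nat_lit 5) (nat_lit 8) (nat_lit 8) (by decide +kernel)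
theorem L75571 : W_1 (nat_lit 3) (nat_lit 0x4000200010000c0000000000000000000000000000000) (nat_lit 0x0) (nat_lit 0x8000c000200000000800000000000000000000000000000000000) := T_1 (nat_lit 194) (nat_lit 177) (nat_lit 5) (nat_lit 8) (nat_lit 7) L75570 (by decide +kernel)
theorem L75572 : W_1 (nat_lit 4) (nat_lit 0x400020001000080000000000000000000000000000000) (nat_lit 0x0) (nat_lit 0x8000c000200000000800040002000000000000000000000000000) := T_1 (nat_lit 126) (nat_lit 109) (nat_lit 4) (nat_lit 8) (nat_lit 10) L75571 (by decide +kernel)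
theorem L75573 : W_1 (nat_lit 2) (nat_lit 0x100004000200010000c0000000000000000000000000000000) (nat_lit 0x0) (nat_lit 0x200008000000000000800000000000000000000000000000000000) := D_1 (nat_lit 195) (nat_lit 143) (nat_lit 213) (nat_lit 4) (nat_lit 8) (nat_lit 11) (nat_lit 7) (nat_lit 8) (nat_lit 8) (by decide +kernel)
theorem L75574 : W_1 (nat_lit 3) (nat_lit 0x4000200010000c0000000000000000000000000000000) (nat_lit 0x0) (nat_lit 0x200018000800000000800000000000000000000000000000000000) := T_1 (nat_lit 196) (nat_lit 179) (nat_lit 7) (nat_lit 8) (nat_lit 7) L75573 (by decide +kernel)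
theorem L75575 : W_1 (nat_lit 4) (nat_lit 0x400020001000080000000000000000000000000000000) (nat_lit 0x0) (nat_lit 0x200018000800000000800040002000000000000000000000000000) := T_1 (nat_lit 126) (nat_lit 109) (nat_lit 4) (nat_lit 8) (nat_lit 10) L75574 (by decide +kernel)
theorem L75634 : W_1 (nat_lit 2) (nat_lit 0x24000f8009400080000000000000000000000000000000) (nat_lit 0x0) (nat_lit 0x4000100010000000000000000000000000000000000000) := D_1 (nat_lit 164) (nat_lit 182) (nat_lit 148) (nat_lit 3) (nat_lit 8) (nat_lit 9) (nat_lit 2) (nat_lit 8) (nat_lit 9) (by decide +kernel)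
theorem L75635 : W_1 (nat_lit 3) (nat_lit 0x24000f8001400080000000000000000000000000000000) (nat_lit 0x0) (nat_lit 0x400010001c000000000000000000000000000000000000) := T_1 (nat_lit 147) (nat_lit 146) (nat_lit 2) (nat_lit 7) (nat_lit 9) L75634 (by decide +kernel)
theorem L75636 : W_1 (nat_lit 4) (nat_lit 0x4000f8001400080000000000000000000000000000000) (nat_lit 0x0) (nat_lit 0x700010001c000000000000000000000000000000000000) := T_1 (nat_lit 181) (nat_lit 180) (nat_lit 3) (nat_lit 7) (nat_lit 9) L75635 (by decide +kernel)
theorem L75682 : W_1 (nat_lit 2) (nat_lit 0x100006000200010000c0004000000000000000000000000000) (nat_lit 0x0) (nat_lit 0x200008000000000000800000000000000000000000000000000000) := D_1 (nat_lit 195) (nat_lit 143) (nat_lit 213) (nat_lit 4) (nat_lit 8) (nat_lit 11) (nat_lit 7) (nat_lit 8) (nat_lit 8) (by decide +kernel)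
theorem L75683 : W_1 (nat_lit 3) (nat_lit 0x6000200010000c0004000000000000000000000000000) (nat_lit 0x0) (nat_lit 0x200018000800000000800000000000000000000000000000000000) := T_1 (nat_lit 196) (nat_lit 179) (nat_lit 7) (nat_lit 8) (nat_lit 7) L75682 (by decide +kernel)
theorem L75684 : W_1 (nat_lit 4) (nat_lit 0x600020001000080004000000000000000000000000000) (nat_lit 0x0) (nat_lit 0x200018000800000000800040002000000000000000000000000000) := T_1 (nat_lit 126) (nat_lit 109) (nat_lit 4) (nat_lit 8) (nat_lit 10) L75683 (by decide +kernel)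
theorem L75685 : W_1 (nat_lit 5) (nat_lit 0x200020001000080004000000000000000000000000000) (nat_lit 0x0) (nat_lit 0x20001c000c00000000800040002000000000000000000000000000) := T_1 (nat_lit 178) (nat_lit 194) (nat_lit 5) (nat_lit 8) (nat_lit 7) L75684 (by decide +kernel)
theorem L75686 : W_1 (nat_lit 6) (nat_lit 0x20001000080004000000000000000000000000000) (nat_lit 0x0) (nat_lit 0x20001c000e00010000800040002000000000000000000000000000) := T_1 (nat_lit 177) (nat_lit 160) (nat_lit 5) (nat_lit 8) (nat_lit 6) L75685 (by decide +kernel)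
theorem L75758 : W_1 (nat_lit 2) (nat_lit 0x20001c00180004000000000000000000000000000) (nat_lit 0x0) (nat_lit 0x640000000000000000000000000000000) := D_1 (nat_lit 129) (nat_lit 130) (nat_lit 126) (nat_lit 1) (nat_lit 11) (nat_lit 7) (nat_lit 1) (nat_lit 10) (nat_lit 7) (by decide +kernel)
theorem L75759 : W_1 (nat_lit 3) (nat_lit 0x20001800180004000000000000000000000000000) (nat_lit 0x0) (nat_lit 0x600640000000000000000000000000000000) := T_1 (nat_lit 142) (nat_lit 141) (nat_lit 2) (nat_lit 5) (nat_lit 8) L75758 (by decide +kernel)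
theorem L75806 : W_1 (nat_lit 2) (nat_lit 0x60001000080004000300000000000000000000000) (nat_lit 0x0) (nat_lit 0x8000400020000000000000000000) := D_1 (nat_lit 94) (nat_lit 111) (nat_lit 77) (nat_lit 6) (nat_lit 8) (nat_lit 9) (nat_lit 6) (nat_lit 8) (nat_lit 8) (by decide +kernel)
theorem L75807 : W_1 (nat_lit 3) (nat_lit 0x60001000080004000100000000000000000000000) (nat_lit 0x0) (nat_lit 0x8000600028000000000000000000) := T_1 (nat_lit 93) (nat_lit 75) (nat_lit 4) (nat_lit 8) (nat_lit 8) L75806 (by decide +kernel)
theorem L75808 : W_1 (nat_lit 4) (nat_lit 0x20001000080004000100000000000000000000000) (nat_lit 0x0) (nat_lit 0x800040000000000008000600028000000000000000000) := T_1 (nat_lit 162) (nat_lit 179) (nat_lit 7) (nat_lit 8) (nat_lit 6) L75807 (by decide +kernel)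
theorem L75809 : W_1 (nat_lit 5) (nat_lit 0x20001000080004000000000000000000000000000) (nat_lit 0x0) (nat_lit 0x80004000000000000a000700028000000000000000000) := T_1 (nat_lit 92) (nat_lit 109) (nat_lit 4) (nat_lit 8) (nat_lit 9) L75808 (by decide +kernel)
theorem L75810 : W_1 (nat_lit 4) (nat_lit 0x20001000080004000000000000000000000000000) (nat_lit 0x0) (nat_lit 0x200010000800000008000600020000000000000000000) := T_1 (nat_lit 160) (nat_lit 177) (nat_lit 5) (nat_lit 8) (nat_lit 6) L272 (by decide +kernel)
theorem L75811 : W_1 (nat_lit 4) (nat_lit 0x60001000080004000000000000000000000000000) (nat_lit 0x0) (nat_lit 0x200010000800000002000300008000000000000000000) := T_1 (nat_lit 160) (nat_lit 177) (nat_lit 5) (nat_lit 8) (nat_lit 6) L1505 (by decide +kernel)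
theorem L75812 : W_1 (nat_lit 5) (nat_lit 0x20001000080004000000000000000000000000000) (nat_lit 0x0) (nat_lit 0xa00050000800000002000300008000000000000000000) := T_1 (nat_lit 162) (nat_lit 179) (nat_lit 7) (nat_lit 8) (nat_lit 6) L75811 (by decide +kernel)
theorem L75814 : W_1 (nat_lit 2) (nat_lit 0xc00020001000180004000000000000000000000000000) (nat_lit 0x0) (nat_lit 0x4000200010000000000000000000000000000000000000000) := D_1 (nat_lit 177) (nat_lit 160) (nat_lit 194) (nat_lit 5) (nat_lit 8) (nat_lit 6) (nat_lit 5) (nat_lit 8) (nat_lit 7) (by decide +kernel)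
theorem L75815 : W_1 (nat_lit 3) (nat_lit 0xc00020001000180000000000000000000000000000000) (nat_lit 0x0) (nat_lit 0x4000200050000000000004000000000000000000000000000) := T_1 (nat_lit 110) (nat_lit 162) (nat_lit 7) (nat_lit 8) (nat_lit 6) L75814 (by decide +kernel)
theorem L75816 : W_1 (nat_lit 4) (nat_lit 0x400020001000180000000000000000000000000000000) (nat_lit 0x0) (nat_lit 0x14000a00050000000000004000000000000000000000000000) := T_1 (nat_lit 179) (nat_lit 196) (nat_lit 7) (nat_lit 8) (nat_lit 7) L75815 (by decide +kernel)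
theorem L75817 : W_1 (nat_lit 5) (nat_lit 0x400020001000080000000000000000000000000000000) (nat_lit 0x0) (nat_lit 0x14000a0005000000010000c000000000000000000000000000) := T_1 (nat_lit 128) (nat_lit 111) (nat_lit 6) (nat_lit 8) (nat_lit 10) L75816 (by decide +kernel)
theorem L75818 : W_1 (nat_lit 2) (nat_lit 0x6000200010000c0004000000000000000000000000000) (nat_lit 0x0) (nat_lit 0x100008000400000000000000000000000) := D_1 (nat_lit 111) (nat_lit 128) (nat_lit 94) (nat_lit 6) (nat_lit 8) (nat_lit 10) (nat_lit 6) (nat_lit 8) (nat_lit 9) (by decide +kernel)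
theorem L75819 : W_1 (nat_lit 3) (nat_lit 0x6000200010000c0000000000000000000000000000000) (nat_lit 0x0) (nat_lit 0x1000000010000c000400000000000000000000000) := T_1 (nat_lit 110) (nat_lit 160) (nat_lit 5) (nat_lit 8) (nat_lit 6) L75818 (by decide +kernel)
theorem L75820 : W_1 (nat_lit 4) (nat_lit 0x4000200010000c0000000000000000000000000000000) (nat_lit 0x0) (nat_lit 0x400020001000000010000c000400000000000000000000000) := T_1 (nat_lit 177) (nat_lit 194) (nat_lit 5) (nat_lit 8) (nat_lit 7) L75819 (by decide +kernel)
theorem L75821 : W_1 (nat_lit 5) (nat_lit 0x400020001000080000000000000000000000000000000) (nat_lit 0x0) (nat_lit 0x400020001000000014000e000400000000000000000000000) := T_1 (nat_lit 126) (nat_lit 109) (nat_lit 4) (nat_lit 8) (nat_lit 10) L75820 (by decide +kernel)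
theorem L75822 : W_1 (nat_lit 6) (nat_lit 0x20001000080000000000000000000000000000000) (nat_lit 0x0) (nat_lit 0x8001c000e0005000080014000e000400000000000000000000000) := Q_1 (nat_lit 178) (C_1 L524 (C_1 L75817 (C_1 L1690 (C_1 L75821 N_1)))) (by decide +kernel)
theorem L75823 : W_1 (nat_lit 2) (nat_lit 0x180004000200010001c0000000000000000000000000000000) (nat_lit 0x0) (nat_lit 0x80004000200000000000000000000000000000000000000000000) := D_1 (nat_lit 194) (nat_lit 211) (nat_lit 177) (nat_lit 5) (nat_lit 8) (nat_lit 8) (nat_lit 5) (nat_lit 8) (nat_lit 7) (by decide +kernel)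
theorem L75824 : W_1 (nat_lit 3) (nat_lit 0x100004000200010001c0000000000000000000000000000000) (nat_lit 0x0) (nat_lit 0x28000c000200000000000000000000000000000000000000000000) := T_1 (nat_lit 195) (nat_lit 213) (nat_lit 7) (nat_lit 8) (nat_lit 8) L75823 (by decide +kernel)
theorem L75825 : W_1 (nat_lit 4) (nat_lit 0x100004000200010000c0000000000000000000000000000000) (nat_lit 0x0) (nat_lit 0x28000c000200000000000100008000000000000000000000000000) := T_1 (nat_lit 128) (nat_lit 111) (nat_lit 6) (nat_lit 8) (nat_lit 10) L75824 (by decide +kernel)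
theorem L75826 : W_1 (nat_lit 5) (nat_lit 0x4000200010000c0000000000000000000000000000000) (nat_lit 0x0) (nat_lit 0x28001c000a00000000000100008000000000000000000000000000) := T_1 (nat_lit 196) (nat_lit 179) (nat_lit 7) (nat_lit 8) (nat_lit 7) L75825 (by decide +kernel)
theorem L75827 : W_1 (nat_lit 6) (nat_lit 0x400020001000080000000000000000000000000000000) (nat_lit 0x0) (nat_lit 0x28001c000a0000000000014000a000000000000000000000000000) := T_1 (nat_lit 126) (nat_lit 109) (nat_lit 4) (nat_lit 8) (nat_lit 10) L75826 (by decide +kernel)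
theorem L75881 : W_1 (nat_lit 2) (nat_lit 0x400060001000080006000000000000000000000000000) (nat_lit 0x0) (nat_lit 0x100008000400000000000000000000000) := D_1 (nat_lit 111) (nat_lit 94) (nat_lit 128) (nat_lit 6) (nat_lit 8) (nat_lit 9) (nat_lit 6) (nat_lit 8) (nat_lit 10) (by decide +kernel)
theorem L75882 : W_1 (nat_lit 3) (nat_lit 0x60001000080006000000000000000000000000000) (nat_lit 0x0) (nat_lit 0x400000000000140008000400000000000000000000000) := T_1 (nat_lit 178) (nat_lit 126) (nat_lit 4) (nat_lit 8) (nat_lit 10) L75881 (by decide +kernel)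
theorem L75883 : W_1 (nat_lit 4) (nat_lit 0x20001000080006000000000000000000000000000) (nat_lit 0x0) (nat_lit 0xc00040000000140008000400000000000000000000000) := T_1 (nat_lit 162) (nat_lit 179) (nat_lit 7) (nat_lit 8) (nat_lit 6) L75882 (by decide +kernel)
theorem L75884 : W_1 (nat_lit 5) (nat_lit 0x20001000080004000000000000000000000000000) (nat_lit 0x0) (nat_lit 0xc0004000000014000a000500000000000000000000000) := T_1 (nat_lit 109) (nat_lit 92) (nat_lit 4) (nat_lit 8) (nat_lit 9) L75883 (by decide +kernel)
theorem L75885 : W_1 (nat_lit 2) (nat_lit 0x80002000100008000c000000000000000000000000000) (nat_lit 0x0) (nat_lit 0x10000400000000000100000000000000000000000000000000) := D_1 (nat_lit 178) (nat_lit 128) (nat_lit 196) (nat_lit 6) (nat_lit 8) (nat_lit 10) (nat_lit 7) (nat_lit 8) (nat_lit 7) (by decide +kernel)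
theorem L75886 : W_1 (nat_lit 3) (nat_lit 0x2000100008000c000000000000000000000000000) (nat_lit 0x0) (nat_lit 0x10000c00040000000100000000000000000000000000000000) := T_1 (nat_lit 179) (nat_lit 162) (nat_lit 7) (nat_lit 8) (nat_lit 6) L75885 (by decide +kernel)
theorem L75887 : W_1 (nat_lit 4) (nat_lit 0x20001000080004000000000000000000000000000) (nat_lit 0x0) (nat_lit 0x10000c00040000000100008000400000000000000000000000) := T_1 (nat_lit 111) (nat_lit 94) (nat_lit 6) (nat_lit 8) (nat_lit 9) L75886 (by decide +kernel)
theorem L75892 : W_1 (nat_lit 2) (nat_lit 0x300018000c0007000000000000000000000000000) (nat_lit 0x0) (nat_lit 0x100000c00000000000000000000000000) := D_1 (nat_lit 107) (nat_lit 128) (nat_lit 106) (nat_lit 3) (nat_lit 5) (nat_lit 6) (nat_lit 3) (nat_lit 4) (nat_lit 6) (by decide +kernel)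
theorem L75893 : W_1 (nat_lit 3) (nat_lit 0x300018000c0006000000000000000000000000000) (nat_lit 0x0) (nat_lit 0x100001c00080000000000000000000000) := T_1 (nat_lit 108) (nat_lit 91) (nat_lit 4) (nat_lit 7) (nat_lit 9) L75892 (by decide +kernel)
theorem L75894 : W_1 (nat_lit 4) (nat_lit 0x30001800080006000000000000000000000000000) (nat_lit 0x0) (nat_lit 0x400000000000140001c00080000000000000000000000) := T_1 (nat_lit 126) (nat_lit 178) (nat_lit 7) (nat_lit 7) (nat_lit 6) L75893 (by decide +kernel)
theorem L75895 : W_1 (nat_lit 5) (nat_lit 0x30001000080006000000000000000000000000000) (nat_lit 0x0) (nat_lit 0x400000000800140001c00280000000000000000000000) := T_1 (nat_lit 143) (nat_lit 93) (nat_lit 5) (nat_lit 8) (nat_lit 5) L75894 (by decide +kernel)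
theorem L75896 : W_1 (nat_lit 6) (nat_lit 0x20001000080006000000000000000000000000000) (nat_lit 0x0) (nat_lit 0x600010000800140001c00280000000000000000000000) := T_1 (nat_lit 160) (nat_lit 177) (nat_lit 5) (nat_lit 8) (nat_lit 6) L75895 (by decide +kernel)
theorem L75897 : W_1 (nat_lit 7) (nat_lit 0x20001000080004000000000000000000000000000) (nat_lit 0x0) (nat_lit 0x600010000800140003c00380000000000000000000000) := T_1 (nat_lit 109) (nat_lit 92) (nat_lit 4) (nat_lit 8) (nat_lit 9) L75896 (by decide +kernel)
theorem L75907 : W_1 (nat_lit 2) (nat_lit 0xe0005a003c000c000000000000000000000000000) (nat_lit 0x0) (nat_lit 0x20030000000000000000000000000000) := D_1 (nat_lit 112) (nat_lit 113) (nat_lit 125) (nat_lit 2) (nat_lit 7) (nat_lit 7) (nat_lit 2) (nat_lit 6) (nat_lit 7) (by decide +kernel)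
theorem L75908 : W_1 (nat_lit 3) (nat_lit 0xe0005a0038000c000000000000000000000000000) (nat_lit 0x0) (nat_lit 0x8000060030000000000000000000000000000) := T_1 (nat_lit 126) (nat_lit 147) (nat_lit 3) (nat_lit 7) (nat_lit 7) L75907 (by decide +kernel)
theorem L75909 : W_1 (nat_lit 4) (nat_lit 0xe0001a0038000c000000000000000000000000000) (nat_lit 0x0) (nat_lit 0x100000000c000060030000000000000000000000000000) := T_1 (nat_lit 146) (nat_lit 180) (nat_lit 4) (nat_lit 10) (nat_lit 10) L75908 (by decide +kernel)
theorem L75915 : W_1 (nat_lit 2) (nat_lit 0x20001800380004000000000000000000000000000) (nat_lit 0x0) (nat_lit 0x600040000000000000000000000000000000) := D_1 (nat_lit 142) (nat_lit 126) (nat_lit 141) (nat_lit 1) (nat_lit 10) (nat_lit 7) (nat_lit 2) (nat_lit 5) (nat_lit 8) (by decide +kernel)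
theorem L75916 : W_1 (nat_lit 3) (nat_lit 0x20001800280004000000000000000000000000000) (nat_lit 0x0) (nat_lit 0x600540000000000000000000000000000000) := T_1 (nat_lit 128) (nat_lit 130) (nat_lit 1) (nat_lit 11) (nat_lit 7) L75915 (by decide +kernel)
theorem L75963 : W_1 (nat_lit 2) (nat_lit 0x3a0018000c0007000000000000000000000000000) (nat_lit 0x0) (nat_lit 0x100000c00000000000000000000000000) := D_1 (nat_lit 107) (nat_lit 128) (nat_lit 106) (nat_lit 3) (nat_lit 5) (nat_lit 6) (nat_lit 3) (nat_lit 4) (nat_lit 6) (by decide +kernel)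
theorem L75964 : W_1 (nat_lit 3) (nat_lit 0x3a0018000c0006000000000000000000000000000) (nat_lit 0x0) (nat_lit 0x100001c00080000000000000000000000) := T_1 (nat_lit 108) (nat_lit 91) (nat_lit 4) (nat_lit 7) (nat_lit 9) L75963 (by decide +kernel)
theorem L75965 : W_1 (nat_lit 4) (nat_lit 0x380018000c0006000000000000000000000000000) (nat_lit 0x0) (nat_lit 0x6000000100001c00080000000000000000000000) := T_1 (nat_lit 157) (nat_lit 158) (nat_lit 2) (nat_lit 4) (nat_lit 9) L75964 (by decide +kernel)
theorem L75966 : W_1 (nat_lit 5) (nat_lit 0x300018000c0006000000000000000000000000000) (nat_lit 0x0) (nat_lit 0x10000e000000100001c00080000000000000000000000) := T_1 (nat_lit 159) (nat_lit 176) (nat_lit 5) (nat_lit 7) (nat_lit 6) L75965 (by decide +kernel)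
theorem L75967 : W_1 (nat_lit 6) (nat_lit 0x200018000c0006000000000000000000000000000) (nat_lit 0x0) (nat_lit 0x30001e000000100001c00080000000000000000000000) := T_1 (nat_lit 160) (nat_lit 177) (nat_lit 6) (nat_lit 7) (nat_lit 10) L75966 (by decide +kernel)
theorem L75968 : W_1 (nat_lit 7) (nat_lit 0x200018000c0004000000000000000000000000000) (nat_lit 0x0) (nat_lit 0x30001e000000100003c00180000000000000000000000) := T_1 (nat_lit 109) (nat_lit 92) (nat_lit 7) (nat_lit 7) (nat_lit 5) L75967 (by decide +kernel)
theorem L75970 : W_1 (nat_lit 2) (nat_lit 0x10000f0005a0028002c000000000000000000000000000) (nat_lit 0x0) (nat_lit 0x40010001000000000000000000000000) := D_1 (nat_lit 112) (nat_lit 96) (nat_lit 126) (nat_lit 6) (nat_lit 10) (nat_lit 9) (nat_lit 1) (nat_lit 11) (nat_lit 6) (by decide +kernel)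
theorem L75971 : W_1 (nat_lit 3) (nat_lit 0x10000f0005a0028000c000000000000000000000000000) (nat_lit 0x0) (nat_lit 0x440030001000000000000000000000000) := T_1 (nat_lit 113) (nat_lit 130) (nat_lit 6) (nat_lit 10) (nat_lit 10) L75970 (by decide +kernel)
theorem L75972 : W_1 (nat_lit 4) (nat_lit 0x10000f0005a0008000c000000000000000000000000000) (nat_lit 0x0) (nat_lit 0x740030001000000000000000000000000) := T_1 (nat_lit 129) (nat_lit 128) (nat_lit 4) (nat_lit 10) (nat_lit 10) L75971 (by decide +kernel)
theorem L75973 : W_1 (nat_lit 5) (nat_lit 0x10000f0001a0008000c000000000000000000000000000) (nat_lit 0x0) (nat_lit 0xc000740030001000000000000000000000000) := T_1 (nat_lit 146) (nat_lit 147) (nat_lit 2) (nat_lit 7) (nat_lit 9) L75972 (by decide +kernel)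
theorem L75974 : W_1 (nat_lit 6) (nat_lit 0xf0001a0008000c000000000000000000000000000) (nat_lit 0x0) (nat_lit 0x300000000c000740030001000000000000000000000000) := T_1 (nat_lit 180) (nat_lit 181) (nat_lit 3) (nat_lit 7) (nat_lit 9) L75973 (by decide +kernel)
theorem L75975 : W_1 (nat_lit 7) (nat_lit 0xe0001a0008000c000000000000000000000000000) (nat_lit 0x0) (nat_lit 0x320001000c000740030001000000000000000000000000) := T_1 (nat_lit 160) (nat_lit 177) (nat_lit 5) (nat_lit 8) (nat_lit 6) L75974 (by decide +kernel)
theorem L75976 : W_1 (nat_lit 8) (nat_lit 0x60001a0008000c000000000000000000000000000) (nat_lit 0x0) (nat_lit 0x320019000c000740030001000000000000000000000000) := T_1 (nat_lit 163) (nat_lit 164) (nat_lit 0) (nat_lit 11) (nat_lit 9) L75975 (by decide +kernel)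
theorem L75977 : W_1 (nat_lit 9) (nat_lit 0x6000180008000c000000000000000000000000000) (nat_lit 0x0) (nat_lit 0x320019000c600740030001000000000000000000000000) := T_1 (nat_lit 141) (nat_lit 142) (nat_lit 3) (nat_lit 5) (nat_lit 8) L75976 (by decide +kernel)
theorem L75978 : W_1 (nat_lit 10) (nat_lit 0x2000180008000c000000000000000000000000000) (nat_lit 0x0) (nat_lit 0x3a001d000c600740030001000000000000000000000000) := T_1 (nat_lit 162) (nat_lit 179) (nat_lit 7) (nat_lit 8) (nat_lit 6) L75977 (by decide +kernel)
theorem L75979 : W_1 (nat_lit 11) (nat_lit 0x20001800080004000000000000000000000000000) (nat_lit 0x0) (nat_lit 0x3a001d000c600740038001400000000000000000000000) := T_1 (nat_lit 111) (nat_lit 94) (nat_lit 6) (nat_lit 8) (nat_lit 9) L75978 (by decide +kernel)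
theorem L75980 : W_1 (nat_lit 2) (nat_lit 0x7000180008000e000000000000000000000000000) (nat_lit 0x0) (nat_lit 0x80000600000000000000000000000000000000000) := D_1 (nat_lit 142) (nat_lit 141) (nat_lit 163) (nat_lit 3) (nat_lit 5) (nat_lit 8) (nat_lit 0) (nat_lit 10) (nat_lit 9) (by decide +kernel)
theorem L75981 : W_1 (nat_lit 3) (nat_lit 0x3000180008000e000000000000000000000000000) (nat_lit 0x0) (nat_lit 0x8000c0000600000000000000000000000000000000000) := T_1 (nat_lit 162) (nat_lit 179) (nat_lit 7) (nat_lit 8) (nat_lit 6) L75980 (by decide +kernel)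
theorem L75985 : W_1 (nat_lit 2) (nat_lit 0x10000f000580028000e000000000000000000000000000) (nat_lit 0x0) (nat_lit 0x400030000000000000000000000000000) := D_1 (nat_lit 130) (nat_lit 112) (nat_lit 113) (nat_lit 3) (nat_lit 7) (nat_lit 6) (nat_lit 6) (nat_lit 10) (nat_lit 10) (by decide +kernel)
theorem L75986 : W_1 (nat_lit 3) (nat_lit 0x10000f000580008000e000000000000000000000000000) (nat_lit 0x0) (nat_lit 0x700030000000000000000000000000000) := T_1 (nat_lit 129) (nat_lit 128) (nat_lit 4) (nat_lit 10) (nat_lit 10) L75985 (by decide +kernel)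
theorem L75994 : W_1 (nat_lit 4) (nat_lit 0x20001800080004000000000000000000000000000) (nat_lit 0x0) (nat_lit 0xa000d0000600000000000000000000000000000000000) := T_1 (nat_lit 160) (nat_lit 177) (nat_lit 5) (nat_lit 8) (nat_lit 6) L636 (by decide +kernel)
theorem L76006 : W_1 (nat_lit 7) (nat_lit 0x6000100008000c000000000000000000000000000) (nat_lit 0x0) (nat_lit 0x200010000800100000000300038001c00080000000000) := T_1 (nat_lit 160) (nat_lit 177) (nat_lit 5) (nat_lit 8) (nat_lit 6) L1985 (by decide +kernel)
theorem L76007 : W_1 (nat_lit 8) (nat_lit 0x2000100008000c000000000000000000000000000) (nat_lit 0x0) (nat_lit 0xa00050000800100000000300038001c00080000000000) := T_1 (nat_lit 162) (nat_lit 179) (nat_lit 7) (nat_lit 8) (nat_lit 6) L76006 (by decide +kernel)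
theorem L76008 : W_1 (nat_lit 9) (nat_lit 0x20001000080004000000000000000000000000000) (nat_lit 0x0) (nat_lit 0xa00050000800100008000700038001c00080000000000) := T_1 (nat_lit 111) (nat_lit 94) (nat_lit 6) (nat_lit 8) (nat_lit 9) L76007 (by decide +kernel)
theorem L76013 : W_1 (nat_lit 3) (nat_lit 0x3000180008000c000000000000000000000000000) (nat_lit 0x0) (nat_lit 0x8000c0000600000000000000000000000000000000000) := T_1 (nat_lit 162) (nat_lit 179) (nat_lit 7) (nat_lit 8) (nat_lit 6) L422 (by decide +kernel)
theorem L76014 : W_1 (nat_lit 4) (nat_lit 0x3000100008000c000000000000000000000000000) (nat_lit 0x0) (nat_lit 0x8000c0000e00000000000200000000000000000000000) := T_1 (nat_lit 143) (nat_lit 93) (nat_lit 5) (nat_lit 8) (nat_lit 5) L76013 (by decide +kernel)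
theorem L76015 : W_1 (nat_lit 5) (nat_lit 0x2000100008000c000000000000000000000000000) (nat_lit 0x0) (nat_lit 0xa000d0000e00000000000200000000000000000000000) := T_1 (nat_lit 160) (nat_lit 177) (nat_lit 5) (nat_lit 8) (nat_lit 6) L76014 (by decide +kernel)
theorem L76016 : W_1 (nat_lit 6) (nat_lit 0x20001000080004000000000000000000000000000) (nat_lit 0x0) (nat_lit 0xa000d0000e00000008000600000000000000000000000) := T_1 (nat_lit 111) (nat_lit 94) (nat_lit 6) (nat_lit 8) (nat_lit 9) L76015 (by decide +kernel)
theorem L76031 : W_1 (nat_lit 2) (nat_lit 0x20001000080004000500000000000000000000000) (nat_lit 0x0) (nat_lit 0x200028000000000000000000) := D_1 (nat_lit 93) (nat_lit 77) (nat_lit 75) (nat_lit 6) (nat_lit 8) (nat_lit 8) (nat_lit 4) (nat_lit 8) (nat_lit 8) (by decide +kernel)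
theorem L76032 : W_1 (nat_lit 3) (nat_lit 0x20001000080004000400000000000000000000000) (nat_lit 0x0) (nat_lit 0x2000300028000000000000000000) := T_1 (nat_lit 92) (nat_lit 109) (nat_lit 4) (nat_lit 8) (nat_lit 9) L76031 (by decide +kernel)
theorem L76033 : W_1 (nat_lit 4) (nat_lit 0x20001000080004000000000000000000000000000) (nat_lit 0x0) (nat_lit 0xa000700028000000000000000000) := T_1 (nat_lit 94) (nat_lit 111) (nat_lit 6) (nat_lit 8) (nat_lit 9) L76032 (by decide +kernel)
theorem L76046 : W_1 (nat_lit 8) (nat_lit 0xc00020001000080000000000000000000000000000000) (nat_lit 0x0) (nat_lit 0x8000700038000c00000004000080014000a000000000000000000000000000) := T_1 (nat_lit 128) (nat_lit 111) (nat_lit 6) (nat_lit 8) (nat_lit 10) L1683 (by decide +kernel)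
theorem L76047 : W_1 (nat_lit 9) (nat_lit 0x400020001000080000000000000000000000000000000) (nat_lit 0x0) (nat_lit 0x8000700038001c00080004000080014000a000000000000000000000000000) := T_1 (nat_lit 179) (nat_lit 196) (nat_lit 7) (nat_lit 8) (nat_lit 7) L76046 (by decide +kernel)
theorem L76086 : W_1 (nat_lit 5) (nat_lit 0xe00060001a00580000000000000000000000000000000) (nat_lit 0x0) (nat_lit 0x4000300118001c000000000000000000000000000000000000000) := T_1 (nat_lit 176) (nat_lit 175) (nat_lit 2) (nat_lit 5) (nat_lit 10) L491 (by decide +kernel)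
theorem L76087 : W_1 (nat_lit 6) (nat_lit 0xc00060001a00580000000000000000000000000000000) (nat_lit 0x0) (nat_lit 0x4000700138001c000000000000000000000000000000000000000) := T_1 (nat_lit 177) (nat_lit 194) (nat_lit 5) (nat_lit 8) (nat_lit 7) L76086 (by decide +kernel)
theorem L76088 : W_1 (nat_lit 7) (nat_lit 0x400060001a00580000000000000000000000000000000) (nat_lit 0x0) (nat_lit 0x40017001b8001c000000000000000000000000000000000000000) := T_1 (nat_lit 179) (nat_lit 196) (nat_lit 7) (nat_lit 8) (nat_lit 7) L76087 (by decide +kernel)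
theorem L76089 : W_1 (nat_lit 8) (nat_lit 0x400060001a00180000000000000000000000000000000) (nat_lit 0x0) (nat_lit 0x40017001b8001c000000600000000000000000000000000000000) := T_1 (nat_lit 130) (nat_lit 129) (nat_lit 1) (nat_lit 11) (nat_lit 7) L76088 (by decide +kernel)
theorem L76090 : W_1 (nat_lit 9) (nat_lit 0x400060001800180000000000000000000000000000000) (nat_lit 0x0) (nat_lit 0x40017001b8001c000600600000000000000000000000000000000) := T_1 (nat_lit 141) (nat_lit 142) (nat_lit 3) (nat_lit 5) (nat_lit 8) L76089 (by decide +kernel)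
theorem L76091 : W_1 (nat_lit 10) (nat_lit 0x400060001800080000000000000000000000000000000) (nat_lit 0x0) (nat_lit 0x40017001b8001c000600700008000000000000000000000000000) := T_1 (nat_lit 128) (nat_lit 111) (nat_lit 6) (nat_lit 8) (nat_lit 10) L76090 (by decide +kernel)
theorem L76109 : W_1 (nat_lit 2) (nat_lit 0x2000100008000e000000000000000000000000000) (nat_lit 0x0) (nat_lit 0x400000000000140000000000000000000000000000000) := D_1 (nat_lit 178) (nat_lit 128) (nat_lit 126) (nat_lit 6) (nat_lit 8) (nat_lit 10) (nat_lit 4) (nat_lit 8) (nat_lit 10) (by decide +kernel)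
theorem L76110 : W_1 (nat_lit 3) (nat_lit 0x2000100008000c000000000000000000000000000) (nat_lit 0x0) (nat_lit 0x400000000000140002000100000000000000000000000) := T_1 (nat_lit 109) (nat_lit 92) (nat_lit 4) (nat_lit 8) (nat_lit 9) L76109 (by decide +kernel)
theorem L76111 : W_1 (nat_lit 4) (nat_lit 0x20001000080004000000000000000000000000000) (nat_lit 0x0) (nat_lit 0x40000000000014000a000500000000000000000000000) := T_1 (nat_lit 111) (nat_lit 94) (nat_lit 6) (nat_lit 8) (nat_lit 9) L76110 (by decide +kernel)
theorem L76125 : W_1 (nat_lit 6) (nat_lit 0x30001800080006000000000000000000000000000) (nat_lit 0x0) (nat_lit 0x50000e000000140001c00080000000000000000000000) := T_1 (nat_lit 126) (nat_lit 178) (nat_lit 7) (nat_lit 7) (nat_lit 6) L75966 (by decide +kernel)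
theorem L76126 : W_1 (nat_lit 7) (nat_lit 0x30001000080006000000000000000000000000000) (nat_lit 0x0) (nat_lit 0x50000e000800140001c00280000000000000000000000) := T_1 (nat_lit 143) (nat_lit 93) (nat_lit 5) (nat_lit 8) (nat_lit 5) L76125 (by decide +kernel)
theorem L76127 : W_1 (nat_lit 8) (nat_lit 0x20001000080006000000000000000000000000000) (nat_lit 0x0) (nat_lit 0x70001e000800140001c00280000000000000000000000) := T_1 (nat_lit 160) (nat_lit 177) (nat_lit 5) (nat_lit 8) (nat_lit 6) L76126 (by decide +kernel)
theorem L76128 : W_1 (nat_lit 9) (nat_lit 0x20001000080004000000000000000000000000000) (nat_lit 0x0) (nat_lit 0x70001e000800140003c00380000000000000000000000) := T_1 (nat_lit 109) (nat_lit 92) (nat_lit 4) (nat_lit 8) (nat_lit 9) L76127 (by decide +kernel)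
theorem L76587 : W_1 (nat_lit 2) (nat_lit 0x700060001000080000000000000000000000000000000) (nat_lit 0x0) (nat_lit 0x800180000000000000000000000000000000000000000) := D_1 (nat_lit 163) (nat_lit 164) (nat_lit 179) (nat_lit 1) (nat_lit 11) (nat_lit 9) (nat_lit 2) (nat_lit 6) (nat_lit 10) (by decide +kernel)
theorem L100143 : W_1 (nat_lit 2) (nat_lit 0x1000080004000780000000000000000000000) (nat_lit 0x0) (nat_lit 0x18000040000000000000000000000) := D_1 (nat_lit 111) (nat_lit 112) (nat_lit 90) (nat_lit 3) (nat_lit 6) (nat_lit 5) (nat_lit 3) (nat_lit 5) (nat_lit 5) (by decide +kernel)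
theorem L100144 : W_1 (nat_lit 3) (nat_lit 0x1000080004000380000000000000000000000) (nat_lit 0x0) (nat_lit 0x18000440020000000000000000000) := T_1 (nat_lit 94) (nat_lit 77) (nat_lit 6) (nat_lit 8) (nat_lit 8) L100143 (by decide +kernel)
theorem L100145 : W_1 (nat_lit 2) (nat_lit 0x10000800040003e0000000000000000000000) (nat_lit 0x0) (nat_lit 0xe00000000000000000000000000) := D_1 (nat_lit 106) (nat_lit 105) (nat_lit 107) (nat_lit 1) (nat_lit 7) (nat_lit 5) (nat_lit 1) (nat_lit 8) (nat_lit 5) (by decide +kernel)
theorem L100146 : W_1 (nat_lit 3) (nat_lit 0x10000800040003c0000000000000000000000) (nat_lit 0x0) (nat_lit 0x2e00020000000000000000000000) := T_1 (nat_lit 89) (nat_lit 109) (nat_lit 3) (nat_lit 4) (nat_lit 5) L100145 (by decide +kernel)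
theorem L100147 : W_1 (nat_lit 4) (nat_lit 0x1000080004000380000000000000000000000) (nat_lit 0x0) (nat_lit 0xae00060000000000000000000000) := T_1 (nat_lit 90) (nat_lit 111) (nat_lit 3) (nat_lit 5) (nat_lit 5) L100146 (by decide +kernel)
theorem L100168 : W_1 (nat_lit 2) (nat_lit 0x1000080004000200028000000000000000000) (nat_lit 0x0) (nat_lit 0x10001400000000000000) := D_1 (nat_lit 76) (nat_lit 58) (nat_lit 60) (nat_lit 4) (nat_lit 8) (nat_lit 7) (nat_lit 6) (nat_lit 8) (nat_lit 7) (by decide +kernel)
theorem L100169 : W_1 (nat_lit 3) (nat_lit 0x1000080004000200008000000000000000000) (nat_lit 0x0) (nat_lit 0x400030001400000000000000) := T_1 (nat_lit 77) (nat_lit 94) (nat_lit 6) (nat_lit 8) (nat_lit 8) L100168 (by decide +kernel)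
theorem L100170 : W_1 (nat_lit 4) (nat_lit 0x1000080004000200000000000000000000000) (nat_lit 0x0) (nat_lit 0x500038001400000000000000) := T_1 (nat_lit 75) (nat_lit 92) (nat_lit 4) (nat_lit 8) (nat_lit 8) L100169 (by decide +kernel)
theorem L100178 : W_1 (nat_lit 2) (nat_lit 0x1800080004000200010000000000000000000) (nat_lit 0x0) (nat_lit 0x100008000400000000000000) := D_1 (nat_lit 75) (nat_lit 58) (nat_lit 92) (nat_lit 4) (nat_lit 8) (nat_lit 7) (nat_lit 4) (nat_lit 8) (nat_lit 8) (by decide +kernel)
theorem L100179 : W_1 (nat_lit 3) (nat_lit 0x1800080004000200000000000000000000000) (nat_lit 0x0) (nat_lit 0x40000000100018000400000000000000) := T_1 (nat_lit 76) (nat_lit 126) (nat_lit 5) (nat_lit 8) (nat_lit 4) L100178 (by decide +kernel)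
theorem L100180 : W_1 (nat_lit 4) (nat_lit 0x1000080004000200000000000000000000000) (nat_lit 0x0) (nat_lit 0x10000800040000000100018000400000000000000) := T_1 (nat_lit 143) (nat_lit 160) (nat_lit 5) (nat_lit 8) (nat_lit 5) L100179 (by decide +kernel)
theorem L100181 : W_1 (nat_lit 2) (nat_lit 0x1800080004000200020000000000000000000) (nat_lit 0x0) (nat_lit 0x40000000000010001000000000000000) := D_1 (nat_lit 76) (nat_lit 126) (nat_lit 60) (nat_lit 5) (nat_lit 8) (nat_lit 4) (nat_lit 6) (nat_lit 8) (nat_lit 7) (by decide +kernel)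
theorem L100182 : W_1 (nat_lit 3) (nat_lit 0x1000080004000200020000000000000000000) (nat_lit 0x0) (nat_lit 0x10000800040000000000010001000000000000000) := T_1 (nat_lit 143) (nat_lit 160) (nat_lit 5) (nat_lit 8) (nat_lit 5) L100181 (by decide +kernel)
theorem L100183 : W_1 (nat_lit 4) (nat_lit 0x1000080004000200000000000000000000000) (nat_lit 0x0) (nat_lit 0x10000800040000000400030001000000000000000) := T_1 (nat_lit 77) (nat_lit 94) (nat_lit 6) (nat_lit 8) (nat_lit 8) L100182 (by decide +kernel)
theorem L100192 : W_1 (nat_lit 2) (nat_lit 0x10000c0004000200018000800000000000000) (nat_lit 0x0) (nat_lit 0x20001000080000000000) := D_1 (nat_lit 60) (nat_lit 77) (nat_lit 43) (nat_lit 6) (nat_lit 8) (nat_lit 7) (nat_lit 6) (nat_lit 8) (nat_lit 6) (by decide +kernel)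
theorem L100193 : W_1 (nat_lit 3) (nat_lit 0x10000c0004000200018000000000000000000) (nat_lit 0x0) (nat_lit 0x2000000020001800080000000000) := T_1 (nat_lit 59) (nat_lit 109) (nat_lit 5) (nat_lit 8) (nat_lit 3) L100192 (by decide +kernel)
theorem L100194 : W_1 (nat_lit 4) (nat_lit 0x1000080004000200018000000000000000000) (nat_lit 0x0) (nat_lit 0x800040002000000020001800080000000000) := T_1 (nat_lit 126) (nat_lit 143) (nat_lit 5) (nat_lit 8) (nat_lit 4) L100193 (by decide +kernel)
theorem L100195 : W_1 (nat_lit 5) (nat_lit 0x1000080004000200008000000000000000000) (nat_lit 0x0) (nat_lit 0x800040002000000030001c00080000000000) := T_1 (nat_lit 76) (nat_lit 58) (nat_lit 4) (nat_lit 8) (nat_lit 7) L100194 (by decide +kernel)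
theorem L100196 : W_1 (nat_lit 6) (nat_lit 0x1000080004000200000000000000000000000) (nat_lit 0x0) (nat_lit 0x800040002000100038001c00080000000000) := T_1 (nat_lit 75) (nat_lit 92) (nat_lit 4) (nat_lit 8) (nat_lit 8) L100195 (by decide +kernel)
theorem L100204 : W_1 (nat_lit 2) (nat_lit 0x1000080004000700000000000000000000000) (nat_lit 0x0) (nat_lit 0x2000000000000a000000000000000000000000000) := D_1 (nat_lit 161) (nat_lit 109) (nat_lit 111) (nat_lit 4) (nat_lit 8) (nat_lit 9) (nat_lit 6) (nat_lit 8) (nat_lit 9) (by decide +kernel)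
theorem L100205 : W_1 (nat_lit 3) (nat_lit 0x1000080004000300000000000000000000000) (nat_lit 0x0) (nat_lit 0x2000000000000a000400020000000000000000000) := T_1 (nat_lit 94) (nat_lit 77) (nat_lit 6) (nat_lit 8) (nat_lit 8) L100204 (by decide +kernel)
theorem L100206 : W_1 (nat_lit 4) (nat_lit 0x1000080004000200000000000000000000000) (nat_lit 0x0) (nat_lit 0x2000000000000a000500028000000000000000000) := T_1 (nat_lit 92) (nat_lit 75) (nat_lit 4) (nat_lit 8) (nat_lit 8) L100205 (by decide +kernel)
theorem L100208 : W_1 (nat_lit 2) (nat_lit 0x4000c00020001800080004000700000000000000000000000) (nat_lit 0x0) (nat_lit 0x80008000000000000000040000000000000000000000000000000) := D_1 (nat_lit 195) (nat_lit 126) (nat_lit 211) (nat_lit 4) (nat_lit 8) (nat_lit 11) (nat_lit 5) (nat_lit 8) (nat_lit 8) (by decide +kernel)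
theorem L100209 : W_1 (nat_lit 3) (nat_lit 0xc00020001800080004000700000000000000000000000) (nat_lit 0x0) (nat_lit 0x8000c000200000000000040000000000000000000000000000000) := T_1 (nat_lit 194) (nat_lit 177) (nat_lit 5) (nat_lit 8) (nat_lit 7) L100208 (by decide +kernel)
theorem L100210 : W_1 (nat_lit 4) (nat_lit 0x800020001800080004000700000000000000000000000) (nat_lit 0x0) (nat_lit 0x8001c000600000000000040000000000000000000000000000000) := T_1 (nat_lit 178) (nat_lit 196) (nat_lit 7) (nat_lit 8) (nat_lit 7) L100209 (by decide +kernel)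
theorem L100211 : W_1 (nat_lit 5) (nat_lit 0x20001800080004000700000000000000000000000) (nat_lit 0x0) (nat_lit 0x8001c000e00040000000040000000000000000000000000000000) := T_1 (nat_lit 179) (nat_lit 162) (nat_lit 7) (nat_lit 8) (nat_lit 6) L100210 (by decide +kernel)
theorem L100212 : W_1 (nat_lit 6) (nat_lit 0x1800080004000700000000000000000000000) (nat_lit 0x0) (nat_lit 0x8001c000e00060000000040008000000000000000000000000000) := T_1 (nat_lit 161) (nat_lit 111) (nat_lit 6) (nat_lit 8) (nat_lit 9) L100211 (by decide +kernel)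
theorem L100213 : W_1 (nat_lit 7) (nat_lit 0x1000080004000700000000000000000000000) (nat_lit 0x0) (nat_lit 0x8001c000e00070000800040008000000000000000000000000000) := T_1 (nat_lit 143) (nat_lit 160) (nat_lit 5) (nat_lit 8) (nat_lit 5) L100212 (by decide +kernel)
theorem L100214 : W_1 (nat_lit 8) (nat_lit 0x1000080004000300000000000000000000000) (nat_lit 0x0) (nat_lit 0x8001c000e00070000800040008000400020000000000000000000) := T_1 (nat_lit 94) (nat_lit 77) (nat_lit 6) (nat_lit 8) (nat_lit 8) L100213 (by decide +kernel)
theorem L100215 : W_1 (nat_lit 9) (nat_lit 0x1000080004000200000000000000000000000) (nat_lit 0x0) (nat_lit 0x8001c000e00070000800040008000500028000000000000000000) := T_1 (nat_lit 92) (nat_lit 75) (nat_lit 4) (nat_lit 8) (nat_lit 8) L100214 (by decide +kernel)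
theorem L100225 : W_1 (nat_lit 2) (nat_lit 0x300010000c000e000000000000000000000000000) (nat_lit 0x0) (nat_lit 0x30010000000000000000000000000000) := D_1 (nat_lit 125) (nat_lit 124) (nat_lit 112) (nat_lit 2) (nat_lit 5) (nat_lit 7) (nat_lit 1) (nat_lit 10) (nat_lit 6) (by decide +kernel)
theorem L100226 : W_1 (nat_lit 3) (nat_lit 0x3000100008000e000000000000000000000000000) (nat_lit 0x0) (nat_lit 0x400000000000070010000000000000000000000000000) := T_1 (nat_lit 126) (nat_lit 178) (nat_lit 4) (nat_lit 8) (nat_lit 10) L100225 (by decide +kernel)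
theorem L100227 : W_1 (nat_lit 4) (nat_lit 0x3000100008000c000000000000000000000000000) (nat_lit 0x0) (nat_lit 0x400000000000070012000100000000000000000000000) := T_1 (nat_lit 109) (nat_lit 92) (nat_lit 4) (nat_lit 8) (nat_lit 9) L100226 (by decide +kernel)
theorem L100245 : W_1 (nat_lit 2) (nat_lit 0x800020001000080006000000000000000000000000000) (nat_lit 0x0) (nat_lit 0x10000400000000000040000000000000000000000000000000) := D_1 (nat_lit 178) (nat_lit 196) (nat_lit 126) (nat_lit 7) (nat_lit 8) (nat_lit 7) (nat_lit 4) (nat_lit 8) (nat_lit 10) (by decide +kernel)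
theorem L100246 : W_1 (nat_lit 3) (nat_lit 0x800020001000080004000000000000000000000000000) (nat_lit 0x0) (nat_lit 0x10000400000000000040002000100000000000000000000000) := T_1 (nat_lit 109) (nat_lit 92) (nat_lit 4) (nat_lit 8) (nat_lit 9) L100245 (by decide +kernel)
theorem L100247 : W_1 (nat_lit 4) (nat_lit 0x20001000080004000000000000000000000000000) (nat_lit 0x0) (nat_lit 0x10000c00040000000040002000100000000000000000000000) := T_1 (nat_lit 179) (nat_lit 162) (nat_lit 7) (nat_lit 8) (nat_lit 6) L100246 (by decide +kernel)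
theorem L100250 : W_1 (nat_lit 2) (nat_lit 0x4000000010001f000900008003e000000000000000000000000000) (nat_lit 0x0) (nat_lit 0x3800000000000000000000000) := D_1 (nat_lit 96) (nat_lit 97) (nat_lit 95) (nat_lit 2) (nat_lit 8) (nat_lit 6) (nat_lit 2) (nat_lit 7) (nat_lit 6) (by decide +kernel)
theorem L100251 : W_1 (nat_lit 3) (nat_lit 0x4000000010001f000900008002e000000000000000000000000000) (nat_lit 0x0) (nat_lit 0x40010003800000000000000000000000) := T_1 (nat_lit 112) (nat_lit 126) (nat_lit 1) (nat_lit 11) (nat_lit 6) L100250 (by decide +kernel)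
theorem L100252 : W_1 (nat_lit 4) (nat_lit 0x4000000010001f000900008000e000000000000000000000000000) (nat_lit 0x0) (nat_lit 0x440030003800000000000000000000000) := T_1 (nat_lit 113) (nat_lit 130) (nat_lit 5) (nat_lit 11) (nat_lit 6) L100251 (by decide +kernel)
theorem L100253 : W_1 (nat_lit 5) (nat_lit 0x10001f000900008000e000000000000000000000000000) (nat_lit 0x0) (nat_lit 0x400020000000000000000440030003800000000000000000000000) := T_1 (nat_lit 214) (nat_lit 197) (nat_lit 6) (nat_lit 10) (nat_lit 12) L100252 (by decide +kernel)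
theorem L100254 : W_1 (nat_lit 6) (nat_lit 0x10001f0009000080006000000000000000000000000000) (nat_lit 0x0) (nat_lit 0x400020000000000000000440038003c00000000000000000000000) := T_1 (nat_lit 111) (nat_lit 94) (nat_lit 6) (nat_lit 8) (nat_lit 9) L100253 (by decide +kernel)
theorem L100255 : W_1 (nat_lit 7) (nat_lit 0x10000f0009000080006000000000000000000000000000) (nat_lit 0x0) (nat_lit 0x400020000000100010000440038003c00000000000000000000000) := T_1 (nat_lit 164) (nat_lit 148) (nat_lit 2) (nat_lit 8) (nat_lit 9) L100254 (by decide +kernel)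
theorem L100256 : W_1 (nat_lit 8) (nat_lit 0x10000f0009000080004000000000000000000000000000) (nat_lit 0x0) (nat_lit 0x40002000000010001000044003a003d00000000000000000000000) := T_1 (nat_lit 109) (nat_lit 92) (nat_lit 4) (nat_lit 8) (nat_lit 9) L100255 (by decide +kernel)
theorem L100257 : W_1 (nat_lit 9) (nat_lit 0x10000f0001000080004000000000000000000000000000) (nat_lit 0x0) (nat_lit 0x40002000000010001c00044003a003d00000000000000000000000) := T_1 (nat_lit 147) (nat_lit 146) (nat_lit 2) (nat_lit 7) (nat_lit 9) L100256 (by decide +kernel)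
theorem L100258 : W_1 (nat_lit 10) (nat_lit 0xf0001000080004000000000000000000000000000) (nat_lit 0x0) (nat_lit 0x40002000300010001c00044003a003d00000000000000000000000) := T_1 (nat_lit 180) (nat_lit 181) (nat_lit 3) (nat_lit 7) (nat_lit 9) L100257 (by decide +kernel)
theorem L100259 : W_1 (nat_lit 11) (nat_lit 0xe0001000080004000000000000000000000000000) (nat_lit 0x0) (nat_lit 0x40002000320011001c00044003a003d00000000000000000000000) := T_1 (nat_lit 160) (nat_lit 177) (nat_lit 5) (nat_lit 8) (nat_lit 6) L100258 (by decide +kernel)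
theorem L100260 : W_1 (nat_lit 6) (nat_lit 0x10000f0005400080006000000000000000000000000000) (nat_lit 0x0) (nat_lit 0x180008000200070009800400000000000000000000000) := T_1 (nat_lit 111) (nat_lit 94) (nat_lit 6) (nat_lit 8) (nat_lit 9) L692 (by decide +kernel)
theorem L100261 : W_1 (nat_lit 7) (nat_lit 0x10000f0005000080006000000000000000000000000000) (nat_lit 0x0) (nat_lit 0x180008000e00070009800400000000000000000000000) := T_1 (nat_lit 142) (nat_lit 143) (nat_lit 0) (nat_lit 10) (nat_lit 9) L100260 (by decide +kernel)
theorem L100262 : W_1 (nat_lit 8) (nat_lit 0x10000f0001000080006000000000000000000000000000) (nat_lit 0x0) (nat_lit 0x18000800ce00070009800400000000000000000000000) := T_1 (nat_lit 146) (nat_lit 147) (nat_lit 2) (nat_lit 7) (nat_lit 9) L100261 (by decide +kernel)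
theorem L100263 : W_1 (nat_lit 9) (nat_lit 0xf0001000080006000000000000000000000000000) (nat_lit 0x0) (nat_lit 0x318000800ce00070009800400000000000000000000000) := T_1 (nat_lit 180) (nat_lit 181) (nat_lit 3) (nat_lit 7) (nat_lit 9) L100262 (by decide +kernel)
theorem L100264 : W_1 (nat_lit 10) (nat_lit 0xe0001000080006000000000000000000000000000) (nat_lit 0x0) (nat_lit 0x338001800ce00070009800400000000000000000000000) := T_1 (nat_lit 160) (nat_lit 177) (nat_lit 5) (nat_lit 8) (nat_lit 6) L100263 (by decide +kernel)
theorem L100265 : W_1 (nat_lit 11) (nat_lit 0xe0001000080004000000000000000000000000000) (nat_lit 0x0) (nat_lit 0x338001800ce0007000b800500000000000000000000000) := T_1 (nat_lit 109) (nat_lit 92) (nat_lit 4) (nat_lit 8) (nat_lit 9) L100264 (by decide +kernel)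
theorem L100351 : W_1 (nat_lit 2) (nat_lit 0x1000080004000200028000000000000000000) (nat_lit 0x0) (nat_lit 0x10001400000000000000) := D_1 (nat_lit 76) (nat_lit 60) (nat_lit 58) (nat_lit 6) (nat_lit 8) (nat_lit 7) (nat_lit 4) (nat_lit 8) (nat_lit 7) (by decide +kernel)
theorem L100352 : W_1 (nat_lit 3) (nat_lit 0x1000080004000200020000000000000000000) (nat_lit 0x0) (nat_lit 0x100018001400000000000000) := T_1 (nat_lit 75) (nat_lit 92) (nat_lit 4) (nat_lit 8) (nat_lit 8) L100351 (by decide +kernel)
theorem L100353 : W_1 (nat_lit 4) (nat_lit 0x1000080004000200000000000000000000000) (nat_lit 0x0) (nat_lit 0x500038001400000000000000) := T_1 (nat_lit 77) (nat_lit 94) (nat_lit 6) (nat_lit 8) (nat_lit 8) L100352 (by decide +kernel)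
theorem L100354 : W_1 (nat_lit 2) (nat_lit 0x1800080004000200010000000000000000000) (nat_lit 0x0) (nat_lit 0x400020001000000000000000) := D_1 (nat_lit 77) (nat_lit 94) (nat_lit 60) (nat_lit 6) (nat_lit 8) (nat_lit 8) (nat_lit 6) (nat_lit 8) (nat_lit 7) (by decide +kernel)
theorem L100355 : W_1 (nat_lit 3) (nat_lit 0x1800080004000200000000000000000000000) (nat_lit 0x0) (nat_lit 0x40000000400030001000000000000000) := T_1 (nat_lit 76) (nat_lit 126) (nat_lit 5) (nat_lit 8) (nat_lit 4) L100354 (by decide +kernel)
theorem L100356 : W_1 (nat_lit 4) (nat_lit 0x1000080004000200000000000000000000000) (nat_lit 0x0) (nat_lit 0x10000800040000000400030001000000000000000) := T_1 (nat_lit 143) (nat_lit 160) (nat_lit 5) (nat_lit 8) (nat_lit 5) L100355 (by decide +kernel)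
theorem L100365 : W_1 (nat_lit 2) (nat_lit 0x700010000c000e000000000000000000000000000) (nat_lit 0x0) (nat_lit 0x30010000000000000000000000000000) := D_1 (nat_lit 125) (nat_lit 124) (nat_lit 112) (nat_lit 2) (nat_lit 5) (nat_lit 7) (nat_lit 1) (nat_lit 10) (nat_lit 6) (by decide +kernel)
theorem L100401 : W_1 (nat_lit 2) (nat_lit 0x60001000180007000000000000000000000000000) (nat_lit 0x0) (nat_lit 0x640000000000000000000000000000000) := D_1 (nat_lit 129) (nat_lit 130) (nat_lit 126) (nat_lit 0) (nat_lit 11) (nat_lit 7) (nat_lit 0) (nat_lit 10) (nat_lit 7) (by decide +kernel)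
theorem L100402 : W_1 (nat_lit 3) (nat_lit 0x60001000180006000000000000000000000000000) (nat_lit 0x0) (nat_lit 0x640001800000000000000000000000000) := T_1 (nat_lit 108) (nat_lit 107) (nat_lit 3) (nat_lit 5) (nat_lit 6) L100401 (by decide +kernel)
theorem L100403 : W_1 (nat_lit 4) (nat_lit 0x60001000180004000000000000000000000000000) (nat_lit 0x0) (nat_lit 0x640003800100000000000000000000000) := T_1 (nat_lit 109) (nat_lit 92) (nat_lit 4) (nat_lit 8) (nat_lit 9) L100402 (by decide +kernel)
theorem L100404 : W_1 (nat_lit 5) (nat_lit 0x20001000180004000000000000000000000000000) (nat_lit 0x0) (nat_lit 0x800040000000640003800100000000000000000000000) := T_1 (nat_lit 162) (nat_lit 179) (nat_lit 7) (nat_lit 8) (nat_lit 6) L100403 (by decide +kernel)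
theorem L100435 : W_1 (nat_lit 2) (nat_lit 0x1600018003c000c000000000000000000000000000) (nat_lit 0x0) (nat_lit 0x20030000000000000000000000000000) := D_1 (nat_lit 112) (nat_lit 113) (nat_lit 125) (nat_lit 2) (nat_lit 7) (nat_lit 7) (nat_lit 2) (nat_lit 6) (nat_lit 7) (by decide +kernel)
theorem L100436 : W_1 (nat_lit 3) (nat_lit 0x16000180038000c000000000000000000000000000) (nat_lit 0x0) (nat_lit 0x400060030000000000000000000000000000) := T_1 (nat_lit 126) (nat_lit 142) (nat_lit 1) (nat_lit 10) (nat_lit 7) L100435 (by decide +kernel)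
theorem L100448 : W_1 (nat_lit 2) (nat_lit 0x60001000080004000500000000000000000000000) (nat_lit 0x0) (nat_lit 0x200028000000000000000000) := D_1 (nat_lit 93) (nat_lit 75) (nat_lit 77) (nat_lit 4) (nat_lit 8) (nat_lit 8) (nat_lit 6) (nat_lit 8) (nat_lit 8) (by decide +kernel)
theorem L100449 : W_1 (nat_lit 3) (nat_lit 0x60001000080004000100000000000000000000000) (nat_lit 0x0) (nat_lit 0x8000600028000000000000000000) := T_1 (nat_lit 94) (nat_lit 111) (nat_lit 6) (nat_lit 8) (nat_lit 9) L100448 (by decide +kernel)
theorem L100450 : W_1 (nat_lit 4) (nat_lit 0x60001000080004000000000000000000000000000) (nat_lit 0x0) (nat_lit 0xa000700028000000000000000000) := T_1 (nat_lit 92) (nat_lit 109) (nat_lit 4) (nat_lit 8) (nat_lit 9) L100449 (by decide +kernel)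
theorem L100451 : W_1 (nat_lit 5) (nat_lit 0x20001000080004000000000000000000000000000) (nat_lit 0x0) (nat_lit 0x80004000000000000a000700028000000000000000000) := T_1 (nat_lit 162) (nat_lit 179) (nat_lit 7) (nat_lit 8) (nat_lit 6) L100450 (by decide +kernel)
theorem L100466 : W_1 (nat_lit 2) (nat_lit 0x1800080004000600010000c00000000000000) (nat_lit 0x0) (nat_lit 0x100008000000000000000040000000000) := D_1 (nat_lit 111) (nat_lit 42) (nat_lit 128) (nat_lit 7) (nat_lit 8) (nat_lit 2) (nat_lit 7) (nat_lit 8) (nat_lit 3) (by decide +kernel)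
theorem L100467 : W_1 (nat_lit 3) (nat_lit 0x1800080004000600010000400000000000000) (nat_lit 0x0) (nat_lit 0x100008000000000000800060000000000) := T_1 (nat_lit 59) (nat_lit 41) (nat_lit 4) (nat_lit 8) (nat_lit 6) L100466 (by decide +kernel)
theorem L100468 : W_1 (nat_lit 4) (nat_lit 0x1800080004000600010000000000000000000) (nat_lit 0x0) (nat_lit 0x100008000000008000c00060000000000) := T_1 (nat_lit 58) (nat_lit 75) (nat_lit 4) (nat_lit 8) (nat_lit 7) L100467 (by decide +kernel)
theorem L100469 : W_1 (nat_lit 5) (nat_lit 0x1800080004000600000000000000000000000) (nat_lit 0x0) (nat_lit 0x140008000000018000c00060000000000) := T_1 (nat_lit 76) (nat_lit 126) (nat_lit 5) (nat_lit 8) (nat_lit 4) L100468 (by decide +kernel)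
theorem L100470 : W_1 (nat_lit 6) (nat_lit 0x1000080004000600000000000000000000000) (nat_lit 0x0) (nat_lit 0x10000800140008000000018000c00060000000000) := T_1 (nat_lit 143) (nat_lit 160) (nat_lit 5) (nat_lit 8) (nat_lit 5) L100469 (by decide +kernel)
theorem L100471 : W_1 (nat_lit 7) (nat_lit 0x1000080004000200000000000000000000000) (nat_lit 0x0) (nat_lit 0x10000800140008000400038000c00060000000000) := T_1 (nat_lit 94) (nat_lit 77) (nat_lit 6) (nat_lit 8) (nat_lit 8) L100470 (by decide +kernel)
theorem L100506 : W_1 (nat_lit 2) (nat_lit 0x20001e000100008000c000000000000000000000000000) (nat_lit 0x0) (nat_lit 0x1200010000000000000000000000000000000000000000) := D_1 (nat_lit 160) (nat_lit 180) (nat_lit 177) (nat_lit 3) (nat_lit 7) (nat_lit 9) (nat_lit 5) (nat_lit 8) (nat_lit 6) (by decide +kernel)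
theorem L100507 : W_1 (nat_lit 3) (nat_lit 0x1e000100008000c000000000000000000000000000) (nat_lit 0x0) (nat_lit 0x7200010000000000000000000000000000000000000000) := T_1 (nat_lit 181) (nat_lit 182) (nat_lit 3) (nat_lit 8) (nat_lit 9) L100506 (by decide +kernel)
theorem L100508 : W_1 (nat_lit 4) (nat_lit 0x1e0001000080004000000000000000000000000000) (nat_lit 0x0) (nat_lit 0x7200010000000000008000400000000000000000000000) := T_1 (nat_lit 111) (nat_lit 94) (nat_lit 6) (nat_lit 8) (nat_lit 9) L100507 (by decide +kernel)
theorem L100509 : W_1 (nat_lit 5) (nat_lit 0xe0001000080004000000000000000000000000000) (nat_lit 0x0) (nat_lit 0x7200110000800000008000400000000000000000000000) := T_1 (nat_lit 164) (nat_lit 143) (nat_lit 0) (nat_lit 11) (nat_lit 9) L100508 (by decide +kernel)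
theorem L100510 : W_1 (nat_lit 2) (nat_lit 0x20001e0001000080006000000000000000000000000000) (nat_lit 0x0) (nat_lit 0x1200010000000000000000000000000000000000000000) := D_1 (nat_lit 160) (nat_lit 180) (nat_lit 177) (nat_lit 3) (nat_lit 7) (nat_lit 9) (nat_lit 5) (nat_lit 8) (nat_lit 6) (by decide +kernel)
theorem L100511 : W_1 (nat_lit 3) (nat_lit 0x1e0001000080006000000000000000000000000000) (nat_lit 0x0) (nat_lit 0x7200010000000000000000000000000000000000000000) := T_1 (nat_lit 181) (nat_lit 182) (nat_lit 3) (nat_lit 8) (nat_lit 9) L100510 (by decide +kernel)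
theorem L100512 : W_1 (nat_lit 4) (nat_lit 0x1e0001000080004000000000000000000000000000) (nat_lit 0x0) (nat_lit 0x7200010000000000002000100000000000000000000000) := T_1 (nat_lit 109) (nat_lit 92) (nat_lit 4) (nat_lit 8) (nat_lit 9) L100511 (by decide +kernel)
theorem L100513 : W_1 (nat_lit 5) (nat_lit 0xe0001000080004000000000000000000000000000) (nat_lit 0x0) (nat_lit 0x7200110000800000002000100000000000000000000000) := T_1 (nat_lit 164) (nat_lit 143) (nat_lit 0) (nat_lit 11) (nat_lit 9) L100512 (by decide +kernel)
theorem L100514 : W_1 (nat_lit 4) (nat_lit 0x10000f000100008000e000000000000000000000000000) (nat_lit 0x0) (nat_lit 0xc000700030000000000000000000000000000) := T_1 (nat_lit 146) (nat_lit 147) (nat_lit 2) (nat_lit 7) (nat_lit 9) L1606 (by decide +kernel)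
theorem L100515 : W_1 (nat_lit 5) (nat_lit 0xf000100008000e000000000000000000000000000) (nat_lit 0x0) (nat_lit 0x300000000c000700030000000000000000000000000000) := T_1 (nat_lit 180) (nat_lit 181) (nat_lit 3) (nat_lit 7) (nat_lit 9) L100514 (by decide +kernel)
theorem L100516 : W_1 (nat_lit 6) (nat_lit 0xe000100008000e000000000000000000000000000) (nat_lit 0x0) (nat_lit 0x320001000c000700030000000000000000000000000000) := T_1 (nat_lit 160) (nat_lit 177) (nat_lit 5) (nat_lit 8) (nat_lit 6) L100515 (by decide +kernel)
theorem L100517 : W_1 (nat_lit 7) (nat_lit 0xe000100008000c000000000000000000000000000) (nat_lit 0x0) (nat_lit 0x320001000c000700032000100000000000000000000000) := T_1 (nat_lit 109) (nat_lit 92) (nat_lit 4) (nat_lit 8) (nat_lit 9) L100516 (by decide +kernel)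
theorem L100518 : W_1 (nat_lit 8) (nat_lit 0xe0001000080004000000000000000000000000000) (nat_lit 0x0) (nat_lit 0x320001000c00070003a000500000000000000000000000) := T_1 (nat_lit 111) (nat_lit 94) (nat_lit 6) (nat_lit 8) (nat_lit 9) L100517 (by decide +kernel)
theorem L108891 : W_1 (nat_lit 2) (nat_lit 0x20001000080004000500000000000000000000000) (nat_lit 0x0) (nat_lit 0x200028000000000000000000) := D_1 (nat_lit 93) (nat_lit 75) (nat_lit 77) (nat_lit 4) (nat_lit 8) (nat_lit 8) (nat_lit 6) (nat_lit 8) (nat_lit 8) (by decide +kernel)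
theorem L108892 : W_1 (nat_lit 3) (nat_lit 0x20001000080004000100000000000000000000000) (nat_lit 0x0) (nat_lit 0x8000600028000000000000000000) := T_1 (nat_lit 94) (nat_lit 111) (nat_lit 6) (nat_lit 8) (nat_lit 9) L108891 (by decide +kernel)
theorem L108893 : W_1 (nat_lit 4) (nat_lit 0x20001000080004000000000000000000000000000) (nat_lit 0x0) (nat_lit 0xa000700028000000000000000000) := T_1 (nat_lit 92) (nat_lit 109) (nat_lit 4) (nat_lit 8) (nat_lit 9) L108892 (by decide +kernel)
theorem L110489 : W_1 (nat_lit 8) (nat_lit 0x40001e000100008000c000000000000000000000000000) (nat_lit 0x0) (nat_lit 0x1000080008000200018000540070007000000000000000000000000) := T_1 (nat_lit 147) (nat_lit 148) (nat_lit 2) (nat_lit 8) (nat_lit 9) L735 (by decide +kernel)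
theorem L110490 : W_1 (nat_lit 9) (nat_lit 0x1e000100008000c000000000000000000000000000) (nat_lit 0x0) (nat_lit 0x100008000e000200018000540070007000000000000000000000000) := T_1 (nat_lit 182) (nat_lit 181) (nat_lit 3) (nat_lit 8) (nat_lit 9) L110489 (by decide +kernel)
theorem L110491 : W_1 (nat_lit 10) (nat_lit 0x1e0001000080004000000000000000000000000000) (nat_lit 0x0) (nat_lit 0x100008000e000200018000540078007400000000000000000000000) := T_1 (nat_lit 111) (nat_lit 94) (nat_lit 6) (nat_lit 8) (nat_lit 9) L110490 (by decide +kernel)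
theorem L116384 : W_1 (nat_lit 2) (nat_lit 0x600010001a001f001080000000000000000000000) (nat_lit 0x0) (nat_lit 0x60002000000000000000000000000) := D_1 (nat_lit 113) (nat_lit 114) (nat_lit 97) (nat_lit 1) (nat_lit 12) (nat_lit 6) (nat_lit 2) (nat_lit 8) (nat_lit 6) (by decide +kernel)
theorem L116385 : W_1 (nat_lit 3) (nat_lit 0x600010001a001f000080000000000000000000000) (nat_lit 0x0) (nat_lit 0x60003800000000000000000000000) := T_1 (nat_lit 96) (nat_lit 95) (nat_lit 2) (nat_lit 7) (nat_lit 6) L116384 (by decide +kernel)
theorem L116386 : W_1 (nat_lit 4) (nat_lit 0x600010001a000f000080000000000000000000000) (nat_lit 0x0) (nat_lit 0x40070003800000000000000000000000) := T_1 (nat_lit 112) (nat_lit 126) (nat_lit 2) (nat_lit 6) (nat_lit 7) L116385 (by decide +kernel)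
theorem L117235 : W_1 (nat_lit 2) (nat_lit 0x20002000100008000c000000000000000000000000000) (nat_lit 0x0) (nat_lit 0x4000400000000000100000000000000000000000000000000) := D_1 (nat_lit 178) (nat_lit 128) (nat_lit 194) (nat_lit 6) (nat_lit 8) (nat_lit 10) (nat_lit 5) (nat_lit 8) (nat_lit 7) (by decide +kernel)
theorem L120771 : W_1 (nat_lit 2) (nat_lit 0x10001f0008000000000000000000000000000) (nat_lit 0x0) (nat_lit 0x700000000000000000000000000000000000) := D_1 (nat_lit 141) (nat_lit 140) (nat_lit 142) (nat_lit 1) (nat_lit 8) (nat_lit 7) (nat_lit 1) (nat_lit 9) (nat_lit 7) (by decide +kernel)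
theorem L120772 : W_1 (nat_lit 3) (nat_lit 0x10001e0008000000000000000000000000000) (nat_lit 0x0) (nat_lit 0x700010004000000000000000000000000000) := T_1 (nat_lit 124) (nat_lit 110) (nat_lit 2) (nat_lit 5) (nat_lit 7) L120771 (by decide +kernel)
theorem L120980 : W_1 (nat_lit 2) (nat_lit 0x1000580006000100000000000000000000000) (nat_lit 0x0) (nat_lit 0x200008000400000000000000) := D_1 (nat_lit 75) (nat_lit 93) (nat_lit 58) (nat_lit 4) (nat_lit 8) (nat_lit 8) (nat_lit 7) (nat_lit 7) (nat_lit 3) (by decide +kernel)
theorem L120981 : W_1 (nat_lit 3) (nat_lit 0x1000580006000000000000000000000000000) (nat_lit 0x0) (nat_lit 0x20000000000000000300008000400000000000000) := T_1 (nat_lit 92) (nat_lit 161) (nat_lit 4) (nat_lit 8) (nat_lit 9) L120980 (by decide +kernel)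
theorem L120982 : W_1 (nat_lit 4) (nat_lit 0x1000180006000000000000000000000000000) (nat_lit 0x0) (nat_lit 0x20000000600000000300008000400000000000000) := T_1 (nat_lit 130) (nat_lit 129) (nat_lit 0) (nat_lit 11) (nat_lit 7) L120981 (by decide +kernel)
theorem L120991 : W_1 (nat_lit 2) (nat_lit 0x1000380006000000000000000000000000000) (nat_lit 0x0) (nat_lit 0x40001800000000000000000000000000) := D_1 (nat_lit 108) (nat_lit 107) (nat_lit 126) (nat_lit 3) (nat_lit 5) (nat_lit 6) (nat_lit 0) (nat_lit 10) (nat_lit 7) (by decide +kernel)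
theorem L120992 : W_1 (nat_lit 3) (nat_lit 0x1000180006000000000000000000000000000) (nat_lit 0x0) (nat_lit 0x640001800000000000000000000000000) := T_1 (nat_lit 129) (nat_lit 130) (nat_lit 0) (nat_lit 11) (nat_lit 7) L120991 (by decide +kernel)
theorem L121040 : W_1 (nat_lit 2) (nat_lit 0x1000180004000200018001000000000000000) (nat_lit 0x0) (nat_lit 0x8000000000000800080000000000) := D_1 (nat_lit 59) (nat_lit 111) (nat_lit 43) (nat_lit 7) (nat_lit 8) (nat_lit 3) (nat_lit 6) (nat_lit 8) (nat_lit 6) (by decide +kernel)
theorem L121041 : W_1 (nat_lit 3) (nat_lit 0x1000180004000200018000000000000000000) (nat_lit 0x0) (nat_lit 0x8000000020001800080000000000) := T_1 (nat_lit 60) (nat_lit 77) (nat_lit 6) (nat_lit 8) (nat_lit 7) L121040 (by decide +kernel)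
theorem L121042 : W_1 (nat_lit 4) (nat_lit 0x1000180004000200008000000000000000000) (nat_lit 0x0) (nat_lit 0x8000000030001c00080000000000) := T_1 (nat_lit 76) (nat_lit 58) (nat_lit 4) (nat_lit 8) (nat_lit 7) L121041 (by decide +kernel)
theorem L121043 : W_1 (nat_lit 5) (nat_lit 0x1000180004000200000000000000000000000) (nat_lit 0x0) (nat_lit 0x8000100038001c00080000000000) := T_1 (nat_lit 75) (nat_lit 92) (nat_lit 4) (nat_lit 8) (nat_lit 8) L121042 (by decide +kernel)
theorem L121300 : W_1 (nat_lit 2) (nat_lit 0x10003e0000000000000000000000000000000) (nat_lit 0x0) (nat_lit 0xe00000000000000000000000000000000000) := D_1 (nat_lit 142) (nat_lit 143) (nat_lit 141) (nat_lit 1) (nat_lit 10) (nat_lit 7) (nat_lit 1) (nat_lit 9) (nat_lit 7) (by decide +kernel)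
theorem L121816 : W_1 (nat_lit 2) (nat_lit 0x52003e0010800000000000000000000000000) (nat_lit 0x0) (nat_lit 0x100010000400000000000000000000000000) := D_1 (nat_lit 124) (nat_lit 140) (nat_lit 106) (nat_lit 1) (nat_lit 8) (nat_lit 7) (nat_lit 0) (nat_lit 8) (nat_lit 7) (by decide +kernel)
theorem L121817 : W_1 (nat_lit 3) (nat_lit 0x52003e0010000000000000000000000000000) (nat_lit 0x0) (nat_lit 0x100010001c00000000000000000000000000) := T_1 (nat_lit 107) (nat_lit 108) (nat_lit 0) (nat_lit 9) (nat_lit 7) L121816 (by decide +kernel)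
theorem L121818 : W_1 (nat_lit 4) (nat_lit 0x50003e0010000000000000000000000000000) (nat_lit 0x0) (nat_lit 0x700010001c00000000000000000000000000) := T_1 (nat_lit 141) (nat_lit 142) (nat_lit 1) (nat_lit 9) (nat_lit 7) L121817 (by decide +kernel)
theorem L121819 : W_1 (nat_lit 5) (nat_lit 0x50003c0010000000000000000000000000000) (nat_lit 0x0) (nat_lit 0x700030009c00000000000000000000000000) := T_1 (nat_lit 125) (nat_lit 111) (nat_lit 2) (nat_lit 6) (nat_lit 7) L121818 (by decide +kernel)
theorem L121820 : W_1 (nat_lit 6) (nat_lit 0x50003c0000000000000000000000000000000) (nat_lit 0x0) (nat_lit 0x700030039c00000000000000000000000000) := T_1 (nat_lit 112) (nat_lit 113) (nat_lit 2) (nat_lit 7) (nat_lit 7) L121819 (by decide +kernel)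
theorem L121821 : W_1 (nat_lit 7) (nat_lit 0x10003c0000000000000000000000000000000) (nat_lit 0x0) (nat_lit 0xc700030039c00000000000000000000000000) := T_1 (nat_lit 146) (nat_lit 147) (nat_lit 3) (nat_lit 7) (nat_lit 7) L121820 (by decide +kernel)
theorem L122874 : W_1 (nat_lit 2) (nat_lit 0x18003c0004000000000000000000000000000) (nat_lit 0x0) (nat_lit 0x200010000000000000000200000000000000000000000) := D_1 (nat_lit 160) (nat_lit 177) (nat_lit 93) (nat_lit 6) (nat_lit 7) (nat_lit 10) (nat_lit 5) (nat_lit 8) (nat_lit 5) (by decide +kernel)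
theorem L122875 : W_1 (nat_lit 3) (nat_lit 0x10003c0004000000000000000000000000000) (nat_lit 0x0) (nat_lit 0x200010000c00000000000200000000000000000000000) := T_1 (nat_lit 143) (nat_lit 142) (nat_lit 1) (nat_lit 10) (nat_lit 7) L122874 (by decide +kernel)
theorem L132640 : W_1 (nat_lit 2) (nat_lit 0x30001000090007800000000000000000000000000) (nat_lit 0x0) (nat_lit 0x20008000400000000000000000000000) := D_1 (nat_lit 111) (nat_lit 94) (nat_lit 125) (nat_lit 6) (nat_lit 8) (nat_lit 9) (nat_lit 1) (nat_lit 9) (nat_lit 6) (by decide +kernel)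
theorem L132641 : W_1 (nat_lit 3) (nat_lit 0x30001000080007800000000000000000000000000) (nat_lit 0x0) (nat_lit 0x38008000400000000000000000000000) := T_1 (nat_lit 124) (nat_lit 123) (nat_lit 1) (nat_lit 8) (nat_lit 6) L132640 (by decide +kernel)
theorem L132642 : W_1 (nat_lit 4) (nat_lit 0x30001000080007000000000000000000000000000) (nat_lit 0x0) (nat_lit 0x138008800400000000000000000000000) := T_1 (nat_lit 107) (nat_lit 128) (nat_lit 3) (nat_lit 5) (nat_lit 6) L132641 (by decide +kernel)
theorem L132643 : W_1 (nat_lit 5) (nat_lit 0x20001000080007000000000000000000000000000) (nat_lit 0x0) (nat_lit 0x200010000000138008800400000000000000000000000) := T_1 (nat_lit 160) (nat_lit 177) (nat_lit 5) (nat_lit 8) (nat_lit 6) L132642 (by decide +kernel)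
theorem L132644 : W_1 (nat_lit 2) (nat_lit 0x30001000080007c00000000000000000000000000) (nat_lit 0x0) (nat_lit 0x1c000000000000000000000000000000) := D_1 (nat_lit 123) (nat_lit 122) (nat_lit 124) (nat_lit 1) (nat_lit 7) (nat_lit 6) (nat_lit 1) (nat_lit 8) (nat_lit 6) (by decide +kernel)
theorem L132645 : W_1 (nat_lit 3) (nat_lit 0x30001000080007800000000000000000000000000) (nat_lit 0x0) (nat_lit 0x5c000400000000000000000000000000) := T_1 (nat_lit 106) (nat_lit 126) (nat_lit 3) (nat_lit 4) (nat_lit 6) L132644 (by decide +kernel)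
theorem L132646 : W_1 (nat_lit 4) (nat_lit 0x30001000080007000000000000000000000000000) (nat_lit 0x0) (nat_lit 0x15c000c00000000000000000000000000) := T_1 (nat_lit 107) (nat_lit 128) (nat_lit 3) (nat_lit 5) (nat_lit 6) L132645 (by decide +kernel)
theorem L132647 : W_1 (nat_lit 5) (nat_lit 0x20001000080007000000000000000000000000000) (nat_lit 0x0) (nat_lit 0x20001000000015c000c00000000000000000000000000) := T_1 (nat_lit 160) (nat_lit 177) (nat_lit 5) (nat_lit 8) (nat_lit 6) L132646 (by decide +kernel)
theorem L132648 : W_1 (nat_lit 2) (nat_lit 0x20001000080007c00000000000000000000000000) (nat_lit 0x0) (nat_lit 0x1c000000000000000000000000000000) := D_1 (nat_lit 123) (nat_lit 122) (nat_lit 124) (nat_lit 1) (nat_lit 7) (nat_lit 6) (nat_lit 1) (nat_lit 8) (nat_lit 6) (by decide +kernel)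
theorem L132649 : W_1 (nat_lit 3) (nat_lit 0x20001000080007800000000000000000000000000) (nat_lit 0x0) (nat_lit 0x5c000400000000000000000000000000) := T_1 (nat_lit 106) (nat_lit 126) (nat_lit 3) (nat_lit 4) (nat_lit 6) L132648 (by decide +kernel)
theorem L132650 : W_1 (nat_lit 4) (nat_lit 0x20001000080007000000000000000000000000000) (nat_lit 0x0) (nat_lit 0x15c000c00000000000000000000000000) := T_1 (nat_lit 107) (nat_lit 128) (nat_lit 3) (nat_lit 5) (nat_lit 6) L132649 (by decide +kernel)
theorem L132679 : W_1 (nat_lit 2) (nat_lit 0x1c005c0006800380000000000000000000000) (nat_lit 0x0) (nat_lit 0x8400040000000000000000000000) := D_1 (nat_lit 90) (nat_lit 111) (nat_lit 106) (nat_lit 3) (nat_lit 5) (nat_lit 5) (nat_lit 1) (nat_lit 8) (nat_lit 5) (by decide +kernel)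
theorem L132680 : W_1 (nat_lit 3) (nat_lit 0x1c005c0006800300000000000000000000000) (nat_lit 0x0) (nat_lit 0x84000c0004000000000000000000) := T_1 (nat_lit 91) (nat_lit 74) (nat_lit 4) (nat_lit 7) (nat_lit 8) L132679 (by decide +kernel)
theorem L132681 : W_1 (nat_lit 4) (nat_lit 0x1c00580006800300000000000000000000000) (nat_lit 0x0) (nat_lit 0x80000000400084000c0004000000000000000000) := T_1 (nat_lit 126) (nat_lit 159) (nat_lit 5) (nat_lit 7) (nat_lit 5) L132680 (by decide +kernel)
theorem L132682 : W_1 (nat_lit 5) (nat_lit 0x1800580006800300000000000000000000000) (nat_lit 0x0) (nat_lit 0x80006000400084000c0004000000000000000000) := T_1 (nat_lit 142) (nat_lit 141) (nat_lit 2) (nat_lit 5) (nat_lit 8) L132681 (by decide +kernel)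
theorem L132683 : W_1 (nat_lit 6) (nat_lit 0x1000580006800300000000000000000000000) (nat_lit 0x0) (nat_lit 0x18000e000400084000c0004000000000000000000) := T_1 (nat_lit 143) (nat_lit 160) (nat_lit 5) (nat_lit 8) (nat_lit 5) L132682 (by decide +kernel)
theorem L132684 : W_1 (nat_lit 7) (nat_lit 0x1000180006800300000000000000000000000) (nat_lit 0x0) (nat_lit 0x18000e006400084000c0004000000000000000000) := T_1 (nat_lit 130) (nat_lit 129) (nat_lit 0) (nat_lit 11) (nat_lit 7) L132683 (by decide +kernel)
theorem L132685 : W_1 (nat_lit 8) (nat_lit 0x1000180006000300000000000000000000000) (nat_lit 0x0) (nat_lit 0x18000e00640009c000c0004000000000000000000) := T_1 (nat_lit 107) (nat_lit 108) (nat_lit 3) (nat_lit 5) (nat_lit 6) L132684 (by decide +kernel)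
theorem L132686 : W_1 (nat_lit 9) (nat_lit 0x1000180006000200000000000000000000000) (nat_lit 0x0) (nat_lit 0x18000e00640009c001c000c000000000000000000) := T_1 (nat_lit 92) (nat_lit 75) (nat_lit 4) (nat_lit 8) (nat_lit 8) L132685 (by decide +kernel)
theorem L132687 : W_1 (nat_lit 2) (nat_lit 0x1a00380006000200000000000000000000000) (nat_lit 0x0) (nat_lit 0x9800000000000000000000000000) := D_1 (nat_lit 108) (nat_lit 107) (nat_lit 111) (nat_lit 3) (nat_lit 5) (nat_lit 6) (nat_lit 3) (nat_lit 6) (nat_lit 6) (by decide +kernel)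
theorem L132688 : W_1 (nat_lit 3) (nat_lit 0x1a00180006000200000000000000000000000) (nat_lit 0x0) (nat_lit 0x600009800000000000000000000000000) := T_1 (nat_lit 129) (nat_lit 130) (nat_lit 1) (nat_lit 11) (nat_lit 7) L132687 (by decide +kernel)
theorem L132689 : W_1 (nat_lit 4) (nat_lit 0x1800180006000200000000000000000000000) (nat_lit 0x0) (nat_lit 0x600600009800000000000000000000000000) := T_1 (nat_lit 141) (nat_lit 142) (nat_lit 2) (nat_lit 5) (nat_lit 8) L132688 (by decide +kernel)
theorem L132690 : W_1 (nat_lit 5) (nat_lit 0x1000180006000200000000000000000000000) (nat_lit 0x0) (nat_lit 0x10000e00600009800000000000000000000000000) := T_1 (nat_lit 143) (nat_lit 160) (nat_lit 5) (nat_lit 8) (nat_lit 5) L132689 (by decide +kernel)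
theorem L132693 : W_1 (nat_lit 2) (nat_lit 0x1c001c0006800380000000000000000000000) (nat_lit 0x0) (nat_lit 0x8400040000000000000000000000) := D_1 (nat_lit 90) (nat_lit 111) (nat_lit 106) (nat_lit 3) (nat_lit 5) (nat_lit 5) (nat_lit 1) (nat_lit 8) (nat_lit 5) (by decide +kernel)
theorem L132694 : W_1 (nat_lit 3) (nat_lit 0x1c001c0006800300000000000000000000000) (nat_lit 0x0) (nat_lit 0x84000c0004000000000000000000) := T_1 (nat_lit 91) (nat_lit 74) (nat_lit 4) (nat_lit 7) (nat_lit 8) L132693 (by decide +kernel)
theorem L132695 : W_1 (nat_lit 4) (nat_lit 0x1c00180006800300000000000000000000000) (nat_lit 0x0) (nat_lit 0x80000000400084000c0004000000000000000000) := T_1 (nat_lit 126) (nat_lit 159) (nat_lit 5) (nat_lit 7) (nat_lit 5) L132694 (by decide +kernel)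
theorem L132696 : W_1 (nat_lit 5) (nat_lit 0x1c00180006800200000000000000000000000) (nat_lit 0x0) (nat_lit 0x80000000400084001c000c000000000000000000) := T_1 (nat_lit 92) (nat_lit 75) (nat_lit 4) (nat_lit 8) (nat_lit 8) L132695 (by decide +kernel)
theorem L132697 : W_1 (nat_lit 6) (nat_lit 0x1c00180006000200000000000000000000000) (nat_lit 0x0) (nat_lit 0x8000000040009c001c000c000000000000000000) := T_1 (nat_lit 107) (nat_lit 108) (nat_lit 3) (nat_lit 5) (nat_lit 6) L132696 (by decide +kernel)
theorem L132698 : W_1 (nat_lit 7) (nat_lit 0x1800180006000200000000000000000000000) (nat_lit 0x0) (nat_lit 0x8000600040009c001c000c000000000000000000) := T_1 (nat_lit 142) (nat_lit 141) (nat_lit 2) (nat_lit 5) (nat_lit 8) L132697 (by decide +kernel)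
theorem L132699 : W_1 (nat_lit 8) (nat_lit 0x1000180006000200000000000000000000000) (nat_lit 0x0) (nat_lit 0x18000e00040009c001c000c000000000000000000) := T_1 (nat_lit 143) (nat_lit 160) (nat_lit 5) (nat_lit 8) (nat_lit 5) L132698 (by decide +kernel)
theorem L132700 : W_1 (nat_lit 2) (nat_lit 0x1c00180006000300000000000000000000000) (nat_lit 0x0) (nat_lit 0x640000000000000000000000000000000) := D_1 (nat_lit 129) (nat_lit 130) (nat_lit 126) (nat_lit 1) (nat_lit 11) (nat_lit 7) (nat_lit 1) (nat_lit 10) (nat_lit 7) (by decide +kernel)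
theorem L132701 : W_1 (nat_lit 3) (nat_lit 0x1800180006000300000000000000000000000) (nat_lit 0x0) (nat_lit 0x600640000000000000000000000000000000) := T_1 (nat_lit 142) (nat_lit 141) (nat_lit 2) (nat_lit 5) (nat_lit 8) L132700 (by decide +kernel)
theorem L132702 : W_1 (nat_lit 4) (nat_lit 0x1000180006000300000000000000000000000) (nat_lit 0x0) (nat_lit 0x10000e00640000000000000000000000000000000) := T_1 (nat_lit 143) (nat_lit 160) (nat_lit 5) (nat_lit 8) (nat_lit 5) L132701 (by decide +kernel)
theorem L132703 : W_1 (nat_lit 5) (nat_lit 0x1000180006000200000000000000000000000) (nat_lit 0x0) (nat_lit 0x10000e00640000000100008000000000000000000) := T_1 (nat_lit 92) (nat_lit 75) (nat_lit 4) (nat_lit 8) (nat_lit 8) L132702 (by decide +kernel)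
theorem L132705 : W_1 (nat_lit 2) (nat_lit 0x1000080006000700000000000000000000000) (nat_lit 0x0) (nat_lit 0x1800800000000000000000000000) := D_1 (nat_lit 108) (nat_lit 107) (nat_lit 95) (nat_lit 2) (nat_lit 5) (nat_lit 6) (nat_lit 1) (nat_lit 10) (nat_lit 5) (by decide +kernel)
theorem L132706 : W_1 (nat_lit 3) (nat_lit 0x1000080006000300000000000000000000000) (nat_lit 0x0) (nat_lit 0x1800c00020000000000000000000) := T_1 (nat_lit 94) (nat_lit 77) (nat_lit 6) (nat_lit 8) (nat_lit 8) L132705 (by decide +kernel)
theorem L132707 : W_1 (nat_lit 4) (nat_lit 0x1000080006000200000000000000000000000) (nat_lit 0x0) (nat_lit 0x1800d00028000000000000000000) := T_1 (nat_lit 92) (nat_lit 75) (nat_lit 4) (nat_lit 8) (nat_lit 8) L132706 (by decide +kernel)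
theorem L132708 : W_1 (nat_lit 2) (nat_lit 0x1000080007000600000000000000000000000) (nat_lit 0x0) (nat_lit 0x8001800000000000000000000000) := D_1 (nat_lit 95) (nat_lit 96) (nat_lit 111) (nat_lit 1) (nat_lit 11) (nat_lit 5) (nat_lit 2) (nat_lit 6) (nat_lit 6) (by decide +kernel)
theorem L132709 : W_1 (nat_lit 3) (nat_lit 0x1000080006000600000000000000000000000) (nat_lit 0x0) (nat_lit 0x9801800000000000000000000000) := T_1 (nat_lit 108) (nat_lit 107) (nat_lit 2) (nat_lit 5) (nat_lit 6) L132708 (by decide +kernel)
theorem L132710 : W_1 (nat_lit 4) (nat_lit 0x1000080006000200000000000000000000000) (nat_lit 0x0) (nat_lit 0x9801c00020000000000000000000) := T_1 (nat_lit 94) (nat_lit 77) (nat_lit 6) (nat_lit 8) (nat_lit 8) L132709 (by decide +kernel)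
theorem L132711 : W_1 (nat_lit 2) (nat_lit 0x1800080016000f80040000000000000000000) (nat_lit 0x0) (nat_lit 0x40000000000006000000000000000000) := D_1 (nat_lit 74) (nat_lit 126) (nat_lit 73) (nat_lit 4) (nat_lit 7) (nat_lit 8) (nat_lit 0) (nat_lit 9) (nat_lit 5) (by decide +kernel)
theorem L132712 : W_1 (nat_lit 3) (nat_lit 0x1800080016000f00040000000000000000000) (nat_lit 0x0) (nat_lit 0x40008000080006000000000000000000) := T_1 (nat_lit 91) (nat_lit 111) (nat_lit 3) (nat_lit 6) (nat_lit 5) L132711 (by decide +kernel)
theorem L132713 : W_1 (nat_lit 4) (nat_lit 0x1800080006000f00040000000000000000000) (nat_lit 0x0) (nat_lit 0x40038000080006000000000000000000) := T_1 (nat_lit 112) (nat_lit 113) (nat_lit 3) (nat_lit 7) (nat_lit 5) L132712 (by decide +kernel)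
theorem L132714 : W_1 (nat_lit 5) (nat_lit 0x1800080006000f00000000000000000000000) (nat_lit 0x0) (nat_lit 0x400380000800c6000000000000000000) := T_1 (nat_lit 78) (nat_lit 79) (nat_lit 2) (nat_lit 7) (nat_lit 5) L132713 (by decide +kernel)
theorem L132715 : W_1 (nat_lit 6) (nat_lit 0x1800080006000700000000000000000000000) (nat_lit 0x0) (nat_lit 0x400380018800c6000000000000000000) := T_1 (nat_lit 95) (nat_lit 96) (nat_lit 1) (nat_lit 11) (nat_lit 5) L132714 (by decide +kernel)
theorem L132716 : W_1 (nat_lit 7) (nat_lit 0x1800080006000300000000000000000000000) (nat_lit 0x0) (nat_lit 0x40038001c800e6000000000000000000) := T_1 (nat_lit 94) (nat_lit 77) (nat_lit 6) (nat_lit 8) (nat_lit 8) L132715 (by decide +kernel)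
theorem L132717 : W_1 (nat_lit 8) (nat_lit 0x1800080006000200000000000000000000000) (nat_lit 0x0) (nat_lit 0x40038001d800ee000000000000000000) := T_1 (nat_lit 92) (nat_lit 75) (nat_lit 4) (nat_lit 8) (nat_lit 8) L132716 (by decide +kernel)
theorem L132718 : W_1 (nat_lit 9) (nat_lit 0x1000080006000200000000000000000000000) (nat_lit 0x0) (nat_lit 0x10000800040038001d800ee000000000000000000) := T_1 (nat_lit 143) (nat_lit 160) (nat_lit 5) (nat_lit 8) (nat_lit 5) L132717 (by decide +kernel)
theorem L132725 : W_1 (nat_lit 2) (nat_lit 0x10001000080004000600000000000000000000000) (nat_lit 0x0) (nat_lit 0x200020000000000008000000000000000000000000000) := D_1 (nat_lit 161) (nat_lit 111) (nat_lit 177) (nat_lit 6) (nat_lit 8) (nat_lit 9) (nat_lit 5) (nat_lit 8) (nat_lit 6) (by decide +kernel)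
theorem L132726 : W_1 (nat_lit 3) (nat_lit 0x1000080004000600000000000000000000000) (nat_lit 0x0) (nat_lit 0x200030000800000008000000000000000000000000000) := T_1 (nat_lit 160) (nat_lit 143) (nat_lit 5) (nat_lit 8) (nat_lit 5) L132725 (by decide +kernel)
theorem L132727 : W_1 (nat_lit 4) (nat_lit 0x1000080004000200000000000000000000000) (nat_lit 0x0) (nat_lit 0x200030000800000008000400020000000000000000000) := T_1 (nat_lit 94) (nat_lit 77) (nat_lit 6) (nat_lit 8) (nat_lit 8) L132726 (by decide +kernel)
theorem L132728 : W_1 (nat_lit 2) (nat_lit 0x10001000080004000300000000000000000000000) (nat_lit 0x0) (nat_lit 0x200020000000000002000000000000000000000000000) := D_1 (nat_lit 161) (nat_lit 109) (nat_lit 177) (nat_lit 4) (nat_lit 8) (nat_lit 9) (nat_lit 5) (nat_lit 8) (nat_lit 6) (by decide +kernel)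
theorem L132729 : W_1 (nat_lit 3) (nat_lit 0x1000080004000300000000000000000000000) (nat_lit 0x0) (nat_lit 0x200030000800000002000000000000000000000000000) := T_1 (nat_lit 160) (nat_lit 143) (nat_lit 5) (nat_lit 8) (nat_lit 5) L132728 (by decide +kernel)
theorem L132730 : W_1 (nat_lit 4) (nat_lit 0x1000080004000200000000000000000000000) (nat_lit 0x0) (nat_lit 0x200030000800000002000100008000000000000000000) := T_1 (nat_lit 92) (nat_lit 75) (nat_lit 4) (nat_lit 8) (nat_lit 8) L132729 (by decide +kernel)
theorem L132739 : W_1 (nat_lit 3) (nat_lit 0x2000100008000c000000000000000000000000000) (nat_lit 0x0) (nat_lit 0x4000600010000000100000000000000000000000000000000) := T_1 (nat_lit 177) (nat_lit 160) (nat_lit 5) (nat_lit 8) (nat_lit 6) L117235 (by decide +kernel)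
theorem L132740 : W_1 (nat_lit 4) (nat_lit 0x20001000080004000000000000000000000000000) (nat_lit 0x0) (nat_lit 0x4000600010000000100008000400000000000000000000000) := T_1 (nat_lit 111) (nat_lit 94) (nat_lit 6) (nat_lit 8) (nat_lit 9) L132739 (by decide +kernel)
theorem L132752 : W_1 (nat_lit 2) (nat_lit 0x10000c0004000200030000800000000000000) (nat_lit 0x0) (nat_lit 0x8000400020000000000) := D_1 (nat_lit 58) (nat_lit 41) (nat_lit 75) (nat_lit 4) (nat_lit 8) (nat_lit 6) (nat_lit 4) (nat_lit 8) (nat_lit 7) (by decide +kernel)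
theorem L132753 : W_1 (nat_lit 3) (nat_lit 0x10000c0004000200030000000000000000000) (nat_lit 0x0) (nat_lit 0x2000000008000c00020000000000) := T_1 (nat_lit 59) (nat_lit 109) (nat_lit 5) (nat_lit 8) (nat_lit 3) L132752 (by decide +kernel)
theorem L132754 : W_1 (nat_lit 4) (nat_lit 0x1000080004000200030000000000000000000) (nat_lit 0x0) (nat_lit 0x800040002000000008000c00020000000000) := T_1 (nat_lit 126) (nat_lit 143) (nat_lit 5) (nat_lit 8) (nat_lit 4) L132753 (by decide +kernel)
theorem L132755 : W_1 (nat_lit 5) (nat_lit 0x1000080004000200020000000000000000000) (nat_lit 0x0) (nat_lit 0x800040002000000018001c00020000000000) := T_1 (nat_lit 76) (nat_lit 60) (nat_lit 6) (nat_lit 8) (nat_lit 7) L132754 (by decide +kernel)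
theorem L132756 : W_1 (nat_lit 6) (nat_lit 0x1000080004000200000000000000000000000) (nat_lit 0x0) (nat_lit 0x800040002000400038001c00020000000000) := T_1 (nat_lit 77) (nat_lit 94) (nat_lit 6) (nat_lit 8) (nat_lit 8) L132755 (by decide +kernel)
theorem L132766 : W_1 (nat_lit 4) (nat_lit 0x1000080006000000000000000000000000000) (nat_lit 0x0) (nat_lit 0x4000600030000000040000000100000000000000000000000) := T_1 (nat_lit 161) (nat_lit 92) (nat_lit 4) (nat_lit 8) (nat_lit 9) L1583 (by decide +kernel)
theorem L132767 : W_1 (nat_lit 2) (nat_lit 0x1000080006000100000000000000000000000) (nat_lit 0x0) (nat_lit 0x200008000400000000000000) := D_1 (nat_lit 75) (nat_lit 93) (nat_lit 58) (nat_lit 4) (nat_lit 8) (nat_lit 8) (nat_lit 7) (nat_lit 7) (nat_lit 3) (by decide +kernel)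
theorem L132768 : W_1 (nat_lit 3) (nat_lit 0x1000080006000000000000000000000000000) (nat_lit 0x0) (nat_lit 0x20000000000000000300008000400000000000000) := T_1 (nat_lit 92) (nat_lit 161) (nat_lit 4) (nat_lit 8) (nat_lit 9) L132767 (by decide +kernel)
theorem L132769 : W_1 (nat_lit 2) (nat_lit 0x1000080006000200018000800000000000000) (nat_lit 0x0) (nat_lit 0x20001000080000000000) := D_1 (nat_lit 60) (nat_lit 77) (nat_lit 43) (nat_lit 6) (nat_lit 8) (nat_lit 7) (nat_lit 6) (nat_lit 8) (nat_lit 6) (by decide +kernel)
theorem L132770 : W_1 (nat_lit 3) (nat_lit 0x1000080006000200018000000000000000000) (nat_lit 0x0) (nat_lit 0x40000000000020001800080000000000) := T_1 (nat_lit 59) (nat_lit 126) (nat_lit 5) (nat_lit 8) (nat_lit 3) L132769 (by decide +kernel)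
theorem L132771 : W_1 (nat_lit 4) (nat_lit 0x1000080006000200008000000000000000000) (nat_lit 0x0) (nat_lit 0x40000000000030001c00080000000000) := T_1 (nat_lit 76) (nat_lit 58) (nat_lit 4) (nat_lit 8) (nat_lit 7) L132770 (by decide +kernel)
theorem L132772 : W_1 (nat_lit 5) (nat_lit 0x1000080006000200000000000000000000000) (nat_lit 0x0) (nat_lit 0x40000000100038001c00080000000000) := T_1 (nat_lit 75) (nat_lit 92) (nat_lit 4) (nat_lit 8) (nat_lit 8) L132771 (by decide +kernel)
theorem L132773 : W_1 (nat_lit 2) (nat_lit 0x1800080006000200010001400000000000000) (nat_lit 0x0) (nat_lit 0x8000a0000000000) := D_1 (nat_lit 59) (nat_lit 43) (nat_lit 41) (nat_lit 6) (nat_lit 8) (nat_lit 6) (nat_lit 4) (nat_lit 8) (nat_lit 6) (by decide +kernel)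
theorem L132774 : W_1 (nat_lit 3) (nat_lit 0x1800080006000200010001000000000000000) (nat_lit 0x0) (nat_lit 0x8000c000a0000000000) := T_1 (nat_lit 58) (nat_lit 75) (nat_lit 4) (nat_lit 8) (nat_lit 7) L132773 (by decide +kernel)
theorem L132775 : W_1 (nat_lit 4) (nat_lit 0x1800080006000200010000000000000000000) (nat_lit 0x0) (nat_lit 0x28001c000a0000000000) := T_1 (nat_lit 60) (nat_lit 77) (nat_lit 6) (nat_lit 8) (nat_lit 7) L132774 (by decide +kernel)
theorem L132776 : W_1 (nat_lit 5) (nat_lit 0x1800080006000200000000000000000000000) (nat_lit 0x0) (nat_lit 0x40000000000038001c000a0000000000) := T_1 (nat_lit 76) (nat_lit 126) (nat_lit 5) (nat_lit 8) (nat_lit 4) L132775 (by decide +kernel)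
theorem L132777 : W_1 (nat_lit 6) (nat_lit 0x1000080006000200000000000000000000000) (nat_lit 0x0) (nat_lit 0x10000800040000000000038001c000a0000000000) := T_1 (nat_lit 143) (nat_lit 160) (nat_lit 5) (nat_lit 8) (nat_lit 5) L132776 (by decide +kernel)
theorem L132778 : W_1 (nat_lit 2) (nat_lit 0x1000080006000200010000000000000000000) (nat_lit 0x0) (nat_lit 0x100008000400000000000000) := D_1 (nat_lit 75) (nat_lit 92) (nat_lit 58) (nat_lit 4) (nat_lit 8) (nat_lit 8) (nat_lit 4) (nat_lit 8) (nat_lit 7) (by decide +kernel)
theorem L132779 : W_1 (nat_lit 2) (nat_lit 0x1800080006000200010001800040000000000) (nat_lit 0x0) (nat_lit 0x400020001000000) := D_1 (nat_lit 41) (nat_lit 24) (nat_lit 58) (nat_lit 4) (nat_lit 8) (nat_lit 5) (nat_lit 4) (nat_lit 8) (nat_lit 6) (by decide +kernel)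
theorem L132780 : W_1 (nat_lit 3) (nat_lit 0x1800080006000200010001800000000000000) (nat_lit 0x0) (nat_lit 0x100000000400060001000000) := T_1 (nat_lit 42) (nat_lit 92) (nat_lit 5) (nat_lit 8) (nat_lit 2) L132779 (by decide +kernel)
theorem L132781 : W_1 (nat_lit 4) (nat_lit 0x1800080006000200010001000000000000000) (nat_lit 0x0) (nat_lit 0x100000000c000e0001000000) := T_1 (nat_lit 59) (nat_lit 43) (nat_lit 6) (nat_lit 8) (nat_lit 6) L132780 (by decide +kernel)
theorem L132782 : W_1 (nat_lit 5) (nat_lit 0x1800080006000200010000000000000000000) (nat_lit 0x0) (nat_lit 0x100020001c000e0001000000) := T_1 (nat_lit 60) (nat_lit 77) (nat_lit 6) (nat_lit 8) (nat_lit 7) L132781 (by decide +kernel)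
theorem L132783 : W_1 (nat_lit 6) (nat_lit 0x1000080006000200010000000000000000000) (nat_lit 0x0) (nat_lit 0x10000800000000000100020001c000e0001000000) := T_1 (nat_lit 143) (nat_lit 160) (nat_lit 5) (nat_lit 8) (nat_lit 5) L132782 (by decide +kernel)
theorem L132784 : W_1 (nat_lit 2) (nat_lit 0x1000080006000200010001400000000000000) (nat_lit 0x0) (nat_lit 0x8000a0000000000) := D_1 (nat_lit 59) (nat_lit 43) (nat_lit 41) (nat_lit 6) (nat_lit 8) (nat_lit 6) (nat_lit 4) (nat_lit 8) (nat_lit 6) (by decide +kernel)
theorem L132785 : W_1 (nat_lit 3) (nat_lit 0x1000080006000200010001000000000000000) (nat_lit 0x0) (nat_lit 0x8000c000a0000000000) := T_1 (nat_lit 58) (nat_lit 75) (nat_lit 4) (nat_lit 8) (nat_lit 7) L132784 (by decide +kernel)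
theorem L132786 : W_1 (nat_lit 4) (nat_lit 0x1000080006000200010000000000000000000) (nat_lit 0x0) (nat_lit 0x28001c000a0000000000) := T_1 (nat_lit 60) (nat_lit 77) (nat_lit 6) (nat_lit 8) (nat_lit 7) L132785 (by decide +kernel)
theorem L132787 : W_1 (nat_lit 2) (nat_lit 0x100008000e0003800b0000000000000000000) (nat_lit 0x0) (nat_lit 0x100000000000000000800040000000000) := D_1 (nat_lit 59) (nat_lit 42) (nat_lit 128) (nat_lit 5) (nat_lit 8) (nat_lit 2) (nat_lit 7) (nat_lit 8) (nat_lit 3) (by decide +kernel)
theorem L132788 : W_1 (nat_lit 3) (nat_lit 0x10000800060003800b0000000000000000000) (nat_lit 0x0) (nat_lit 0x100018000000000000800040000000000) := T_1 (nat_lit 111) (nat_lit 112) (nat_lit 0) (nat_lit 10) (nat_lit 6) L132787 (by decide +kernel)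
theorem L132789 : W_1 (nat_lit 4) (nat_lit 0x1000080006000380030000000000000000000) (nat_lit 0x0) (nat_lit 0x1000180000000c0000800040000000000) := T_1 (nat_lit 79) (nat_lit 78) (nat_lit 1) (nat_lit 11) (nat_lit 4) L132788 (by decide +kernel)
theorem L132790 : W_1 (nat_lit 5) (nat_lit 0x1000080006000300030000000000000000000) (nat_lit 0x0) (nat_lit 0x1000180000c00c0000800040000000000) := T_1 (nat_lit 91) (nat_lit 90) (nat_lit 2) (nat_lit 5) (nat_lit 5) L132789 (by decide +kernel)
theorem L132791 : W_1 (nat_lit 6) (nat_lit 0x1000080006000300010000000000000000000) (nat_lit 0x0) (nat_lit 0x1000180000c00e0001800040000000000) := T_1 (nat_lit 77) (nat_lit 60) (nat_lit 6) (nat_lit 8) (nat_lit 7) L132790 (by decide +kernel)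
theorem L132792 : W_1 (nat_lit 7) (nat_lit 0x1000080006000200010000000000000000000) (nat_lit 0x0) (nat_lit 0x1000180001c00e8001800040000000000) := T_1 (nat_lit 92) (nat_lit 75) (nat_lit 4) (nat_lit 8) (nat_lit 8) L132791 (by decide +kernel)
theorem L132793 : W_1 (nat_lit 8) (nat_lit 0x1000080006000200000000000000000000000) (nat_lit 0x0) (nat_lit 0x100008001000180001c00f8001c000e0001000000) := Q_1 (nat_lit 76) (C_1 L132778 (C_1 L132783 (C_1 L132786 (C_1 L132792 N_1)))) (by decide +kernel)
theorem L132794 : W_1 (nat_lit 6) (nat_lit 0x1800080006000200000000000000000000000) (nat_lit 0x0) (nat_lit 0x40000000100030001c000e0001000000) := T_1 (nat_lit 76) (nat_lit 126) (nat_lit 5) (nat_lit 8) (nat_lit 4) L132782 (by decide +kernel)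
theorem L132795 : W_1 (nat_lit 7) (nat_lit 0x1000080006000200000000000000000000000) (nat_lit 0x0) (nat_lit 0x10000800040000000100030001c000e0001000000) := T_1 (nat_lit 143) (nat_lit 160) (nat_lit 5) (nat_lit 8) (nat_lit 5) L132794 (by decide +kernel)
theorem L132797 : W_1 (nat_lit 2) (nat_lit 0x1000180007000000000000000000000000000) (nat_lit 0x0) (nat_lit 0x600008000000000000000000000000000) := D_1 (nat_lit 129) (nat_lit 130) (nat_lit 111) (nat_lit 0) (nat_lit 11) (nat_lit 7) (nat_lit 3) (nat_lit 6) (nat_lit 6) (by decide +kernel)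
theorem L132798 : W_1 (nat_lit 3) (nat_lit 0x1000180006000000000000000000000000000) (nat_lit 0x0) (nat_lit 0x600009800000000000000000000000000) := T_1 (nat_lit 108) (nat_lit 107) (nat_lit 3) (nat_lit 5) (nat_lit 6) L132797 (by decide +kernel)
theorem L132799 : W_1 (nat_lit 2) (nat_lit 0x20001000180006000000000000000000000000000) (nat_lit 0x0) (nat_lit 0x400000000000040008000000000000000000000000000) := D_1 (nat_lit 178) (nat_lit 126) (nat_lit 111) (nat_lit 4) (nat_lit 8) (nat_lit 10) (nat_lit 6) (nat_lit 8) (nat_lit 10) (by decide +kernel)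
theorem L132806 : W_1 (nat_lit 2) (nat_lit 0x400020001000180006000000000000000000000000000) (nat_lit 0x0) (nat_lit 0x4000200010000000000000000000000000000000000000000) := D_1 (nat_lit 177) (nat_lit 160) (nat_lit 194) (nat_lit 5) (nat_lit 8) (nat_lit 6) (nat_lit 5) (nat_lit 8) (nat_lit 7) (by decide +kernel)
theorem L132807 : W_1 (nat_lit 3) (nat_lit 0x20001000180006000000000000000000000000000) (nat_lit 0x0) (nat_lit 0x4000600010000000040000000000000000000000000000000) := T_1 (nat_lit 178) (nat_lit 126) (nat_lit 4) (nat_lit 8) (nat_lit 10) L132806 (by decide +kernel)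
theorem L132808 : W_1 (nat_lit 2) (nat_lit 0x38001a001c0007000000000000000000000000000) (nat_lit 0x0) (nat_lit 0x6000100000000000000000000000000000000000) := D_1 (nat_lit 158) (nat_lit 157) (nat_lit 140) (nat_lit 2) (nat_lit 4) (nat_lit 9) (nat_lit 0) (nat_lit 8) (nat_lit 9) (by decide +kernel)
theorem L132809 : W_1 (nat_lit 3) (nat_lit 0x30001a001c0007000000000000000000000000000) (nat_lit 0x0) (nat_lit 0x10000e000100000000000000000000000000000000000) := T_1 (nat_lit 159) (nat_lit 176) (nat_lit 5) (nat_lit 7) (nat_lit 6) L132808 (by decide +kernel)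
theorem L132810 : W_1 (nat_lit 4) (nat_lit 0x300018001c0007000000000000000000000000000) (nat_lit 0x0) (nat_lit 0x10000e000700000000000000000000000000000000000) := T_1 (nat_lit 141) (nat_lit 142) (nat_lit 2) (nat_lit 5) (nat_lit 8) L132809 (by decide +kernel)
theorem L132811 : W_1 (nat_lit 5) (nat_lit 0x30001800180007000000000000000000000000000) (nat_lit 0x0) (nat_lit 0x10000e000700040000000080000000000000000000000) := T_1 (nat_lit 126) (nat_lit 91) (nat_lit 4) (nat_lit 7) (nat_lit 9) L132810 (by decide +kernel)
theorem L132812 : W_1 (nat_lit 6) (nat_lit 0x30001000180007000000000000000000000000000) (nat_lit 0x0) (nat_lit 0x10000e000f00040000000280000000000000000000000) := T_1 (nat_lit 143) (nat_lit 93) (nat_lit 5) (nat_lit 8) (nat_lit 5) L132811 (by decide +kernel)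
theorem L132813 : W_1 (nat_lit 7) (nat_lit 0x20001000180007000000000000000000000000000) (nat_lit 0x0) (nat_lit 0x30001e000f00040000000280000000000000000000000) := T_1 (nat_lit 160) (nat_lit 177) (nat_lit 5) (nat_lit 8) (nat_lit 6) L132812 (by decide +kernel)
theorem L132814 : W_1 (nat_lit 8) (nat_lit 0x20001000180006000000000000000000000000000) (nat_lit 0x0) (nat_lit 0x30001e000f00040001800280000000000000000000000) := T_1 (nat_lit 108) (nat_lit 107) (nat_lit 3) (nat_lit 5) (nat_lit 6) L132813 (by decide +kernel)
theorem L132816 : W_1 (nat_lit 2) (nat_lit 0x1800580006000200010000800000000000000) (nat_lit 0x0) (nat_lit 0x20001000080000000000) := D_1 (nat_lit 60) (nat_lit 43) (nat_lit 77) (nat_lit 6) (nat_lit 8) (nat_lit 6) (nat_lit 6) (nat_lit 8) (nat_lit 7) (by decide +kernel)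
theorem L132817 : W_1 (nat_lit 3) (nat_lit 0x1800580006000200010000000000000000000) (nat_lit 0x0) (nat_lit 0x8000000020001800080000000000) := T_1 (nat_lit 59) (nat_lit 111) (nat_lit 7) (nat_lit 8) (nat_lit 3) L132816 (by decide +kernel)
theorem L132818 : W_1 (nat_lit 4) (nat_lit 0x1800580006000200000000000000000000000) (nat_lit 0x0) (nat_lit 0x40008000000030001800080000000000) := T_1 (nat_lit 76) (nat_lit 126) (nat_lit 5) (nat_lit 8) (nat_lit 4) L132817 (by decide +kernel)
theorem L132819 : W_1 (nat_lit 5) (nat_lit 0x1800580006000000000000000000000000000) (nat_lit 0x0) (nat_lit 0x10000000040008000200030001800080000000000) := T_1 (nat_lit 93) (nat_lit 160) (nat_lit 5) (nat_lit 8) (nat_lit 5) L132818 (by decide +kernel)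
theorem L132820 : W_1 (nat_lit 6) (nat_lit 0x1800180006000000000000000000000000000) (nat_lit 0x0) (nat_lit 0x10000000640008000200030001800080000000000) := T_1 (nat_lit 130) (nat_lit 129) (nat_lit 1) (nat_lit 11) (nat_lit 7) L132819 (by decide +kernel)
theorem L132821 : W_1 (nat_lit 2) (nat_lit 0x10001800180006000000000000000000000000000) (nat_lit 0x0) (nat_lit 0x4000200020000000000000000000000000000000000000000) := D_1 (nat_lit 177) (nat_lit 161) (nat_lit 194) (nat_lit 5) (nat_lit 8) (nat_lit 6) (nat_lit 6) (nat_lit 7) (nat_lit 11) (by decide +kernel)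
theorem L132822 : W_1 (nat_lit 3) (nat_lit 0x1800180006000000000000000000000000000) (nat_lit 0x0) (nat_lit 0x4000200030000000000000000200000000000000000000000) := T_1 (nat_lit 160) (nat_lit 93) (nat_lit 5) (nat_lit 8) (nat_lit 5) L132821 (by decide +kernel)
theorem L132823 : W_1 (nat_lit 2) (nat_lit 0x1800380006000000000000000000000000000) (nat_lit 0x0) (nat_lit 0x600040000000000000000000000000000000) := D_1 (nat_lit 142) (nat_lit 141) (nat_lit 126) (nat_lit 2) (nat_lit 5) (nat_lit 8) (nat_lit 1) (nat_lit 10) (nat_lit 7) (by decide +kernel)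
theorem L132824 : W_1 (nat_lit 3) (nat_lit 0x1800180006000000000000000000000000000) (nat_lit 0x0) (nat_lit 0x600640000000000000000000000000000000) := T_1 (nat_lit 129) (nat_lit 130) (nat_lit 1) (nat_lit 11) (nat_lit 7) L132823 (by decide +kernel)
theorem L132825 : W_1 (nat_lit 7) (nat_lit 0x1000180006000000000000000000000000000) (nat_lit 0x0) (nat_lit 0x4000200030000e00640008000200030001800080000000000) := Q_1 (nat_lit 143) (C_1 L132820 (C_1 L132822 (C_1 L132824 N_1))) (by decide +kernel)
theorem L132861 : W_1 (nat_lit 2) (nat_lit 0x600010000c000e000000000000000000000000000) (nat_lit 0x0) (nat_lit 0x30010000000000000000000000000000) := D_1 (nat_lit 125) (nat_lit 124) (nat_lit 112) (nat_lit 2) (nat_lit 5) (nat_lit 7) (nat_lit 1) (nat_lit 10) (nat_lit 6) (by decide +kernel)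
theorem L132935 : W_1 (nat_lit 2) (nat_lit 0x1000080016800f80000000000000000000000) (nat_lit 0x0) (nat_lit 0x400060000000000000000000000) := D_1 (nat_lit 90) (nat_lit 89) (nat_lit 106) (nat_lit 3) (nat_lit 4) (nat_lit 5) (nat_lit 1) (nat_lit 8) (nat_lit 5) (by decide +kernel)
theorem L132936 : W_1 (nat_lit 3) (nat_lit 0x1000080016800f00000000000000000000000) (nat_lit 0x0) (nat_lit 0x84000e0000000000000000000000) := T_1 (nat_lit 91) (nat_lit 111) (nat_lit 3) (nat_lit 6) (nat_lit 5) L132935 (by decide +kernel)
theorem L132937 : W_1 (nat_lit 4) (nat_lit 0x1000080006800f00000000000000000000000) (nat_lit 0x0) (nat_lit 0x384000e0000000000000000000000) := T_1 (nat_lit 112) (nat_lit 113) (nat_lit 3) (nat_lit 7) (nat_lit 5) L132936 (by decide +kernel)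
theorem L132938 : W_1 (nat_lit 5) (nat_lit 0x1000080006800e00000000000000000000000) (nat_lit 0x0) (nat_lit 0x384001e0008000000000000000000) := T_1 (nat_lit 92) (nat_lit 75) (nat_lit 4) (nat_lit 8) (nat_lit 8) L132937 (by decide +kernel)
theorem L132939 : W_1 (nat_lit 6) (nat_lit 0x1000080006800600000000000000000000000) (nat_lit 0x0) (nat_lit 0x384019e0008000000000000000000) := T_1 (nat_lit 95) (nat_lit 96) (nat_lit 1) (nat_lit 11) (nat_lit 5) L132938 (by decide +kernel)
theorem L132940 : W_1 (nat_lit 7) (nat_lit 0x1000080006000600000000000000000000000) (nat_lit 0x0) (nat_lit 0x39c019e0008000000000000000000) := T_1 (nat_lit 107) (nat_lit 108) (nat_lit 2) (nat_lit 5) (nat_lit 6) L132939 (by decide +kernel)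
theorem L132941 : W_1 (nat_lit 8) (nat_lit 0x1000080006000200000000000000000000000) (nat_lit 0x0) (nat_lit 0x39c01de0028000000000000000000) := T_1 (nat_lit 94) (nat_lit 77) (nat_lit 6) (nat_lit 8) (nat_lit 8) L132940 (by decide +kernel)
theorem L132960 : W_1 (nat_lit 2) (nat_lit 0x1000180007000300000000000000000000000) (nat_lit 0x0) (nat_lit 0x600008000000000000000000000000000) := D_1 (nat_lit 129) (nat_lit 130) (nat_lit 111) (nat_lit 0) (nat_lit 11) (nat_lit 7) (nat_lit 3) (nat_lit 6) (nat_lit 6) (by decide +kernel)
theorem L132961 : W_1 (nat_lit 3) (nat_lit 0x1000180006000300000000000000000000000) (nat_lit 0x0) (nat_lit 0x600009800000000000000000000000000) := T_1 (nat_lit 108) (nat_lit 107) (nat_lit 3) (nat_lit 5) (nat_lit 6) L132960 (by decide +kernel)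
theorem L132962 : W_1 (nat_lit 4) (nat_lit 0x1000180006000200000000000000000000000) (nat_lit 0x0) (nat_lit 0x600009800100008000000000000000000) := T_1 (nat_lit 92) (nat_lit 75) (nat_lit 4) (nat_lit 8) (nat_lit 8) L132961 (by decide +kernel)
theorem L132963 : W_1 (nat_lit 2) (nat_lit 0x1c005c0006800380000000000000000000000) (nat_lit 0x0) (nat_lit 0x400060000000000000000000000) := D_1 (nat_lit 90) (nat_lit 89) (nat_lit 106) (nat_lit 3) (nat_lit 4) (nat_lit 5) (nat_lit 1) (nat_lit 8) (nat_lit 5) (by decide +kernel)
theorem L132964 : W_1 (nat_lit 3) (nat_lit 0x1c005c0006800300000000000000000000000) (nat_lit 0x0) (nat_lit 0x4000e0004000000000000000000) := T_1 (nat_lit 91) (nat_lit 74) (nat_lit 4) (nat_lit 7) (nat_lit 8) L132963 (by decide +kernel)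
theorem L132965 : W_1 (nat_lit 4) (nat_lit 0x1c00580006800300000000000000000000000) (nat_lit 0x0) (nat_lit 0x80000000400004000e0004000000000000000000) := T_1 (nat_lit 126) (nat_lit 159) (nat_lit 5) (nat_lit 7) (nat_lit 5) L132964 (by decide +kernel)
theorem L132971 : W_1 (nat_lit 5) (nat_lit 0x1c00180006000300000000000000000000000) (nat_lit 0x0) (nat_lit 0x8000000040009c000c0004000000000000000000) := T_1 (nat_lit 107) (nat_lit 108) (nat_lit 3) (nat_lit 5) (nat_lit 6) L132695 (by decide +kernel)
theorem L132972 : W_1 (nat_lit 6) (nat_lit 0x1800180006000300000000000000000000000) (nat_lit 0x0) (nat_lit 0x8000600040009c000c0004000000000000000000) := T_1 (nat_lit 142) (nat_lit 141) (nat_lit 2) (nat_lit 5) (nat_lit 8) L132971 (by decide +kernel)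
theorem L132973 : W_1 (nat_lit 7) (nat_lit 0x1000180006000300000000000000000000000) (nat_lit 0x0) (nat_lit 0x18000e00040009c000c0004000000000000000000) := T_1 (nat_lit 143) (nat_lit 160) (nat_lit 5) (nat_lit 8) (nat_lit 5) L132972 (by decide +kernel)
theorem L132974 : W_1 (nat_lit 8) (nat_lit 0x1000180006000200000000000000000000000) (nat_lit 0x0) (nat_lit 0x18000e00040009c001c000c000000000000000000) := T_1 (nat_lit 92) (nat_lit 75) (nat_lit 4) (nat_lit 8) (nat_lit 8) L132973 (by decide +kernel)
theorem L132975 : W_1 (nat_lit 2) (nat_lit 0x1a00380006000200000000000000000000000) (nat_lit 0x0) (nat_lit 0x40001800000000000000000000000000) := D_1 (nat_lit 108) (nat_lit 107) (nat_lit 126) (nat_lit 3) (nat_lit 5) (nat_lit 6) (nat_lit 0) (nat_lit 10) (nat_lit 7) (by decide +kernel)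
theorem L132976 : W_1 (nat_lit 3) (nat_lit 0x1a00180006000200000000000000000000000) (nat_lit 0x0) (nat_lit 0x640001800000000000000000000000000) := T_1 (nat_lit 129) (nat_lit 130) (nat_lit 1) (nat_lit 11) (nat_lit 7) L132975 (by decide +kernel)
theorem L132977 : W_1 (nat_lit 4) (nat_lit 0x1800180006000200000000000000000000000) (nat_lit 0x0) (nat_lit 0x600640001800000000000000000000000000) := T_1 (nat_lit 141) (nat_lit 142) (nat_lit 2) (nat_lit 5) (nat_lit 8) L132976 (by decide +kernel)
theorem L132978 : W_1 (nat_lit 5) (nat_lit 0x1000180006000200000000000000000000000) (nat_lit 0x0) (nat_lit 0x10000e00640001800000000000000000000000000) := T_1 (nat_lit 143) (nat_lit 160) (nat_lit 5) (nat_lit 8) (nat_lit 5) L132977 (by decide +kernel)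
theorem L132979 : W_1 (nat_lit 2) (nat_lit 0x1c005c0006000380000000000000000000000) (nat_lit 0x0) (nat_lit 0x8000060000000000000000000000) := D_1 (nat_lit 90) (nat_lit 111) (nat_lit 89) (nat_lit 3) (nat_lit 5) (nat_lit 5) (nat_lit 3) (nat_lit 4) (nat_lit 5) (by decide +kernel)
theorem L132980 : W_1 (nat_lit 3) (nat_lit 0x1c005c0006000300000000000000000000000) (nat_lit 0x0) (nat_lit 0x80000e0004000000000000000000) := T_1 (nat_lit 91) (nat_lit 74) (nat_lit 4) (nat_lit 7) (nat_lit 8) L132979 (by decide +kernel)
theorem L132981 : W_1 (nat_lit 4) (nat_lit 0x1c00580006000300000000000000000000000) (nat_lit 0x0) (nat_lit 0x80000000400080000e0004000000000000000000) := T_1 (nat_lit 126) (nat_lit 159) (nat_lit 5) (nat_lit 7) (nat_lit 5) L132980 (by decide +kernel)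
theorem L132982 : W_1 (nat_lit 5) (nat_lit 0x1800580006000300000000000000000000000) (nat_lit 0x0) (nat_lit 0x80006000400080000e0004000000000000000000) := T_1 (nat_lit 142) (nat_lit 141) (nat_lit 2) (nat_lit 5) (nat_lit 8) L132981 (by decide +kernel)
theorem L132983 : W_1 (nat_lit 6) (nat_lit 0x1000580006000300000000000000000000000) (nat_lit 0x0) (nat_lit 0x18000e000400080000e0004000000000000000000) := T_1 (nat_lit 143) (nat_lit 160) (nat_lit 5) (nat_lit 8) (nat_lit 5) L132982 (by decide +kernel)
theorem L132984 : W_1 (nat_lit 7) (nat_lit 0x1000180006000300000000000000000000000) (nat_lit 0x0) (nat_lit 0x18000e006400080000e0004000000000000000000) := T_1 (nat_lit 130) (nat_lit 129) (nat_lit 0) (nat_lit 11) (nat_lit 7) L132983 (by decide +kernel)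
theorem L132985 : W_1 (nat_lit 8) (nat_lit 0x1000180006000200000000000000000000000) (nat_lit 0x0) (nat_lit 0x18000e006400080001e000c000000000000000000) := T_1 (nat_lit 92) (nat_lit 75) (nat_lit 4) (nat_lit 8) (nat_lit 8) L132984 (by decide +kernel)
theorem L132999 : W_1 (nat_lit 2) (nat_lit 0x1000080004000200010000000000000000000) (nat_lit 0x0) (nat_lit 0x400020001000000000000000) := D_1 (nat_lit 77) (nat_lit 94) (nat_lit 60) (nat_lit 6) (nat_lit 8) (nat_lit 8) (nat_lit 6) (nat_lit 8) (nat_lit 7) (by decide +kernel)
theorem L133000 : W_1 (nat_lit 2) (nat_lit 0x1800080004000200010001400000000000000) (nat_lit 0x0) (nat_lit 0x8000a0000000000) := D_1 (nat_lit 59) (nat_lit 41) (nat_lit 43) (nat_lit 4) (nat_lit 8) (nat_lit 6) (nat_lit 6) (nat_lit 8) (nat_lit 6) (by decide +kernel)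
theorem L133001 : W_1 (nat_lit 3) (nat_lit 0x1800080004000200010000400000000000000) (nat_lit 0x0) (nat_lit 0x200018000a0000000000) := T_1 (nat_lit 60) (nat_lit 77) (nat_lit 6) (nat_lit 8) (nat_lit 7) L133000 (by decide +kernel)
theorem L133002 : W_1 (nat_lit 4) (nat_lit 0x1800080004000200010000000000000000000) (nat_lit 0x0) (nat_lit 0x28001c000a0000000000) := T_1 (nat_lit 58) (nat_lit 75) (nat_lit 4) (nat_lit 8) (nat_lit 7) L133001 (by decide +kernel)
theorem L133006 : W_1 (nat_lit 2) (nat_lit 0x180008000c000200010001c00000000000000) (nat_lit 0x0) (nat_lit 0x20000000000000000400000000000040000000000) := D_1 (nat_lit 94) (nat_lit 42) (nat_lit 161) (nat_lit 7) (nat_lit 8) (nat_lit 2) (nat_lit 6) (nat_lit 8) (nat_lit 9) (by decide +kernel)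
theorem L133007 : W_1 (nat_lit 3) (nat_lit 0x1800080004000200010001c00000000000000) (nat_lit 0x0) (nat_lit 0x20000000100008000400000000000040000000000) := T_1 (nat_lit 111) (nat_lit 128) (nat_lit 7) (nat_lit 8) (nat_lit 3) L133006 (by decide +kernel)
theorem L133008 : W_1 (nat_lit 4) (nat_lit 0x1800080004000200010000c00000000000000) (nat_lit 0x0) (nat_lit 0x200000001000080004000000010000c0000000000) := T_1 (nat_lit 60) (nat_lit 43) (nat_lit 6) (nat_lit 8) (nat_lit 6) L133007 (by decide +kernel)
theorem L133009 : W_1 (nat_lit 5) (nat_lit 0x1800080004000200010000400000000000000) (nat_lit 0x0) (nat_lit 0x200000001000080004000000018000e0000000000) := T_1 (nat_lit 59) (nat_lit 41) (nat_lit 4) (nat_lit 8) (nat_lit 6) L133008 (by decide +kernel)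
theorem L133010 : W_1 (nat_lit 6) (nat_lit 0x1800080004000200010000000000000000000) (nat_lit 0x0) (nat_lit 0x20000000100008000400008001c000e0000000000) := T_1 (nat_lit 58) (nat_lit 75) (nat_lit 4) (nat_lit 8) (nat_lit 7) L133009 (by decide +kernel)
theorem L133021 : W_1 (nat_lit 2) (nat_lit 0x100008000e000200010000c00000000000000) (nat_lit 0x0) (nat_lit 0x20000000000000000400000000000040000000000) := D_1 (nat_lit 94) (nat_lit 42) (nat_lit 161) (nat_lit 7) (nat_lit 8) (nat_lit 2) (nat_lit 6) (nat_lit 8) (nat_lit 9) (by decide +kernel)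
theorem L133022 : W_1 (nat_lit 3) (nat_lit 0x1000080006000200010000c00000000000000) (nat_lit 0x0) (nat_lit 0x20000000100008000400000000000040000000000) := T_1 (nat_lit 111) (nat_lit 128) (nat_lit 7) (nat_lit 8) (nat_lit 3) L133021 (by decide +kernel)
theorem L133023 : W_1 (nat_lit 4) (nat_lit 0x1000080004000200010000c00000000000000) (nat_lit 0x0) (nat_lit 0x2000000014000a000400000000000040000000000) := T_1 (nat_lit 109) (nat_lit 126) (nat_lit 5) (nat_lit 8) (nat_lit 3) L133022 (by decide +kernel)
theorem L133024 : W_1 (nat_lit 5) (nat_lit 0x1000080004000200010000400000000000000) (nat_lit 0x0) (nat_lit 0x2000000014000a000400000000800060000000000) := T_1 (nat_lit 59) (nat_lit 41) (nat_lit 4) (nat_lit 8) (nat_lit 6) L133023 (by decide +kernel)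
theorem L133025 : W_1 (nat_lit 6) (nat_lit 0x1000080004000200010000000000000000000) (nat_lit 0x0) (nat_lit 0x2000000014000a000400008000c00060000000000) := T_1 (nat_lit 58) (nat_lit 75) (nat_lit 4) (nat_lit 8) (nat_lit 7) L133024 (by decide +kernel)
theorem L133033 : W_1 (nat_lit 5) (nat_lit 0x1800080004000200000000000000000000000) (nat_lit 0x0) (nat_lit 0x40000000000038001c000a0000000000) := T_1 (nat_lit 76) (nat_lit 126) (nat_lit 5) (nat_lit 8) (nat_lit 4) L133002 (by decide +kernel)
theorem L133034 : W_1 (nat_lit 6) (nat_lit 0x1000080004000200000000000000000000000) (nat_lit 0x0) (nat_lit 0x10000800040000000000038001c000a0000000000) := T_1 (nat_lit 143) (nat_lit 160) (nat_lit 5) (nat_lit 8) (nat_lit 5) L133033 (by decide +kernel)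
theorem L133035 : W_1 (nat_lit 7) (nat_lit 0x1800080004000200000000000000000000000) (nat_lit 0x0) (nat_lit 0x20000000140008000400018001c000e0000000000) := T_1 (nat_lit 76) (nat_lit 126) (nat_lit 5) (nat_lit 8) (nat_lit 4) L133010 (by decide +kernel)
theorem L133036 : W_1 (nat_lit 8) (nat_lit 0x1000080004000200000000000000000000000) (nat_lit 0x0) (nat_lit 0x30000800140008000400018001c000e0000000000) := T_1 (nat_lit 143) (nat_lit 160) (nat_lit 5) (nat_lit 8) (nat_lit 5) L133035 (by decide +kernel)
theorem L133066 : W_1 (nat_lit 2) (nat_lit 0x60001c00080006000000000000000000000000000) (nat_lit 0x0) (nat_lit 0x190000000000000000000000000000000000000000) := D_1 (nat_lit 163) (nat_lit 164) (nat_lit 160) (nat_lit 0) (nat_lit 11) (nat_lit 9) (nat_lit 0) (nat_lit 10) (nat_lit 9) (by decide +kernel)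
theorem L133067 : W_1 (nat_lit 3) (nat_lit 0x60001800080006000000000000000000000000000) (nat_lit 0x0) (nat_lit 0x190000600000000000000000000000000000000000) := T_1 (nat_lit 142) (nat_lit 141) (nat_lit 3) (nat_lit 5) (nat_lit 8) L133066 (by decide +kernel)
theorem L133068 : W_1 (nat_lit 4) (nat_lit 0x20001800080006000000000000000000000000000) (nat_lit 0x0) (nat_lit 0x8001d0000600000000000000000000000000000000000) := T_1 (nat_lit 162) (nat_lit 179) (nat_lit 7) (nat_lit 8) (nat_lit 6) L133067 (by decide +kernel)
theorem L133069 : W_1 (nat_lit 5) (nat_lit 0x20001800080004000000000000000000000000000) (nat_lit 0x0) (nat_lit 0x8001d0000600000002000100000000000000000000000) := T_1 (nat_lit 109) (nat_lit 92) (nat_lit 4) (nat_lit 8) (nat_lit 9) L133068 (by decide +kernel)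
theorem L133109 : W_1 (nat_lit 2) (nat_lit 0x1c00180004000000000000000000000000000) (nat_lit 0x0) (nat_lit 0x640000000000000000000000000000000) := D_1 (nat_lit 129) (nat_lit 130) (nat_lit 126) (nat_lit 1) (nat_lit 11) (nat_lit 7) (nat_lit 1) (nat_lit 10) (nat_lit 7) (by decide +kernel)
theorem L133110 : W_1 (nat_lit 3) (nat_lit 0x1800180004000000000000000000000000000) (nat_lit 0x0) (nat_lit 0x600640000000000000000000000000000000) := T_1 (nat_lit 142) (nat_lit 141) (nat_lit 2) (nat_lit 5) (nat_lit 8) L133109 (by decide +kernel)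
theorem L133224 : W_1 (nat_lit 2) (nat_lit 0x1000180007000200000000000000000000000) (nat_lit 0x0) (nat_lit 0x600008000000000000000000000000000) := D_1 (nat_lit 129) (nat_lit 130) (nat_lit 111) (nat_lit 0) (nat_lit 11) (nat_lit 7) (nat_lit 3) (nat_lit 6) (nat_lit 6) (by decide +kernel)
theorem L133225 : W_1 (nat_lit 3) (nat_lit 0x1000180006000200000000000000000000000) (nat_lit 0x0) (nat_lit 0x600009800000000000000000000000000) := T_1 (nat_lit 108) (nat_lit 107) (nat_lit 3) (nat_lit 5) (nat_lit 6) L133224 (by decide +kernel)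
theorem L133227 : W_1 (nat_lit 2) (nat_lit 0x1800080007000600000000000000000000000) (nat_lit 0x0) (nat_lit 0x8001800000000000000000000000) := D_1 (nat_lit 95) (nat_lit 96) (nat_lit 111) (nat_lit 1) (nat_lit 11) (nat_lit 5) (nat_lit 2) (nat_lit 6) (nat_lit 6) (by decide +kernel)
theorem L133228 : W_1 (nat_lit 3) (nat_lit 0x1800080006000600000000000000000000000) (nat_lit 0x0) (nat_lit 0x9801800000000000000000000000) := T_1 (nat_lit 108) (nat_lit 107) (nat_lit 2) (nat_lit 5) (nat_lit 6) L133227 (by decide +kernel)
theorem L133229 : W_1 (nat_lit 4) (nat_lit 0x1800080006000200000000000000000000000) (nat_lit 0x0) (nat_lit 0x9801c00020000000000000000000) := T_1 (nat_lit 94) (nat_lit 77) (nat_lit 6) (nat_lit 8) (nat_lit 8) L133228 (by decide +kernel)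
theorem L133230 : W_1 (nat_lit 5) (nat_lit 0x1000080006000200000000000000000000000) (nat_lit 0x0) (nat_lit 0x10000800000009801c00020000000000000000000) := T_1 (nat_lit 143) (nat_lit 160) (nat_lit 5) (nat_lit 8) (nat_lit 5) L133229 (by decide +kernel)
theorem L133249 : W_1 (nat_lit 2) (nat_lit 0x1000080004000200010001400000000000000) (nat_lit 0x0) (nat_lit 0x8000a0000000000) := D_1 (nat_lit 59) (nat_lit 41) (nat_lit 43) (nat_lit 4) (nat_lit 8) (nat_lit 6) (nat_lit 6) (nat_lit 8) (nat_lit 6) (by decide +kernel)
theorem L133250 : W_1 (nat_lit 3) (nat_lit 0x1000080004000200010000400000000000000) (nat_lit 0x0) (nat_lit 0x200018000a0000000000) := T_1 (nat_lit 60) (nat_lit 77) (nat_lit 6) (nat_lit 8) (nat_lit 7) L133249 (by decide +kernel)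
theorem L133251 : W_1 (nat_lit 4) (nat_lit 0x1000080004000200010000000000000000000) (nat_lit 0x0) (nat_lit 0x28001c000a0000000000) := T_1 (nat_lit 58) (nat_lit 75) (nat_lit 4) (nat_lit 8) (nat_lit 7) L133250 (by decide +kernel)
theorem L133397 : W_1 (nat_lit 2) (nat_lit 0x1000080007000600000000000000000000000) (nat_lit 0x0) (nat_lit 0x1900000000000000000000000) := D_1 (nat_lit 95) (nat_lit 96) (nat_lit 92) (nat_lit 1) (nat_lit 11) (nat_lit 5) (nat_lit 1) (nat_lit 10) (nat_lit 5) (by decide +kernel)
theorem L133398 : W_1 (nat_lit 3) (nat_lit 0x1000080006000600000000000000000000000) (nat_lit 0x0) (nat_lit 0x1801900000000000000000000000) := T_1 (nat_lit 108) (nat_lit 107) (nat_lit 2) (nat_lit 5) (nat_lit 6) L133397 (by decide +kernel)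
theorem L133399 : W_1 (nat_lit 4) (nat_lit 0x1000080006000200000000000000000000000) (nat_lit 0x0) (nat_lit 0x1801d00020000000000000000000) := T_1 (nat_lit 94) (nat_lit 77) (nat_lit 6) (nat_lit 8) (nat_lit 8) L133398 (by decide +kernel)
end Crest.Agent.Helper32.Snaky.R1_0
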