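import Crest.Agent.Helper32.Snaky.Gen.R1_0_p3
set_option autoImplicit false
set_option maxRecDepth 100000
set_option linter.all false
set_option Elab.async false
namespace Crest.Agent.Helper32.Snaky.R1_0
@[reducible] def W_10 (d M Bz Z : Nat) : Prop := Crest.Agent.Helper32.Snaky.Wins (nat_lit 17) d M Bz Z
theorem D_10 {d M Bz Z : Nat} (m t1 t2 o1 x1 y1 o2 x2 y2 : Nat) (h : Crest.Agent.Helper32.Snaky.chkDoubleC (nat_lit 17) d M Bz Z m t1 t2 o1 x1 y1 o2 x2 y2 = true) : W_10 d M Bz Z := Crest.Agent.Helper32.Snaky.doubleC m t1 t2 o1 x1 y1 o2 x2 y2 h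
theorem T_10 {d M Bz Z cd cM cBz cZ : Nat} (m t o x y : Nat) (child : W_10 cd cM cBz cZ) (h : Crest.Agent.Helper32.Snaky.chkThreatC (nat_lit 17) d M Bz Z cd cM cBz cZ m t o x y = true) : W_10 d M Bz Z := Crest.Agent.Helper32.Snaky.threatC m t o x y child h
theorem Q_10 {d M Bz Z : Nat} (m : Nat) {l : List Crest.Agent.Helper32.Snaky.Spec} (kids : Crest.Agent.Helper32.Snaky.AllWins (nat_lit 17) l) (h : Crest.Agent.Helper32.Snaky.chkQuiet d M Bz Z m l = true) : W_10 d M Bz Z := Crest.Agent.Helper32.Snaky.quiet m kids h
theorem C_10 {cd cM cBz cZ : Nat} {l : List Crest.Agent.Helper32.Snaky.Spec} (h : W_10 cd cM cBz cZ) (hl : Crest.Agent.Helper32.Snaky.AllWins (nat_lit 17) l) : Crest.Agent.Helper32.Snaky.AllWins (nat_lit 17) ((cd, cM, cBz, cZ) :: l) := Crest.Agent.Helper32.Snaky.AllWins.cons h hl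
theorem N_10 : Crest.Agent.Helper32.Snaky.AllWins (nat_lit 17) [] := Crest.Agent.Helper32.Snaky.AllWins.nil
theorem L54979 : W_10 (nat_lit 2) (nat_lit 0x600220009001780080000000000000000000000000000000) (nat_lit 0x0) (nat_lit 0x10000000000006000000000000000000000000000000) := D_10 (nat_lit 122) (nat_lit 172) (nat_lit 121) (nat_lit 5) (nat_lit 3) (nat_lit 7) (nat_lit 0) (nat_lit 6) (nat_lit 8) (by decide +kernel)
theorem L54980 : W_10 (nat_lit 3) (nat_lit 0x400220009001780080000000000000000000000000000000) (nat_lit 0x0) (nat_lit 0x4000200010000000000006000000000000000000000000000000) := T_10 (nat_lit 189) (nat_lit 206) (nat_lit 5) (nat_lit 3) (nat_lit 8) L54979 (by decide +kernel)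
theorem L54981 : W_10 (nat_lit 4) (nat_lit 0x220009001780080000000000000000000000000000000) (nat_lit 0x0) (nat_lit 0x400060001000000000000e000000000000000000000000000000) := T_10 (nat_lit 190) (nat_lit 123) (nat_lit 6) (nat_lit 3) (nat_lit 11) L54980 (by decide +kernel)
theorem L54982 : W_10 (nat_lit 5) (nat_lit 0x220001001780080000000000000000000000000000000) (nat_lit 0x0) (nat_lit 0x400060001001800000000e000000000000000000000000000000) := T_10 (nat_lit 159) (nat_lit 160) (nat_lit 3) (nat_lit 3) (nat_lit 8) L54981 (by decide +kernel)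
theorem L54983 : W_10 (nat_lit 2) (nat_lit 0x600220001001780080000000000000000000000000000000) (nat_lit 0x0) (nat_lit 0x10000000000006000000000000000000000000000000) := D_10 (nat_lit 122) (nat_lit 172) (nat_lit 121) (nat_lit 5) (nat_lit 3) (nat_lit 7) (nat_lit 0) (nat_lit 6) (nat_lit 8) (by decide +kernel)
theorem L54984 : W_10 (nat_lit 3) (nat_lit 0x400220001001780080000000000000000000000000000000) (nat_lit 0x0) (nat_lit 0x4000200010000000000006000000000000000000000000000000) := T_10 (nat_lit 189) (nat_lit 206) (nat_lit 5) (nat_lit 3) (nat_lit 8) L54983 (by decide +kernel)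
theorem L54985 : W_10 (nat_lit 4) (nat_lit 0x220001001780080000000000000000000000000000000) (nat_lit 0x0) (nat_lit 0x400060001000000000000e000000000000000000000000000000) := T_10 (nat_lit 190) (nat_lit 123) (nat_lit 6) (nat_lit 3) (nat_lit 11) L54984 (by decide +kernel)
theorem L54986 : W_10 (nat_lit 6) (nat_lit 0x220009001780084000000000000000000000000000000) (nat_lit 0x0) (nat_lit 0x7a001d0004000000010000000000000000000000000000000) := T_10 (nat_lit 174) (nat_lit 191) (nat_lit 7) (nat_lit 3) (nat_lit 7) L38256 (by decide +kernel)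
theorem L54987 : W_10 (nat_lit 7) (nat_lit 0x220009001780080000000000000000000000000000000) (nat_lit 0x0) (nat_lit 0x7a001d0004000000016000000000000000000000000000000) := T_10 (nat_lit 122) (nat_lit 121) (nat_lit 0) (nat_lit 6) (nat_lit 8) L54986 (by decide +kernel)
theorem L54988 : W_10 (nat_lit 8) (nat_lit 0x220001001780080000000000000000000000000000000) (nat_lit 0x0) (nat_lit 0x7a001d001c000000016000000000000000000000000000000) := T_10 (nat_lit 159) (nat_lit 160) (nat_lit 3) (nat_lit 3) (nat_lit 8) L54987 (by decide +kernel)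
theorem L54989 : W_10 (nat_lit 2) (nat_lit 0xd002c00320009001780080000000000000000000000000000000) (nat_lit 0x0) (nat_lit 0x80004000000000000000020000000000000000000000000000000) := D_10 (nat_lit 194) (nat_lit 125) (nat_lit 211) (nat_lit 7) (nat_lit 6) (nat_lit 7) (nat_lit 7) (nat_lit 6) (nat_lit 8) (by decide +kernel)
theorem L54990 : W_10 (nat_lit 3) (nat_lit 0xd002c00220009001780080000000000000000000000000000000) (nat_lit 0x0) (nat_lit 0x80004000100000000000030000000000000000000000000000000) := T_10 (nat_lit 176) (nat_lit 124) (nat_lit 4) (nat_lit 6) (nat_lit 11) L54989 (by decide +kernel)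
theorem L54991 : W_10 (nat_lit 4) (nat_lit 0xd002c00220001001780080000000000000000000000000000000) (nat_lit 0x0) (nat_lit 0x80004000100018000000030000000000000000000000000000000) := T_10 (nat_lit 159) (nat_lit 160) (nat_lit 3) (nat_lit 3) (nat_lit 8) L54990 (by decide +kernel)
theorem L54992 : W_10 (nat_lit 5) (nat_lit 0xd000c00220001001780080000000000000000000000000000000) (nat_lit 0x0) (nat_lit 0x80007000100018000000030000000000000000000000000000000) := T_10 (nat_lit 193) (nat_lit 192) (nat_lit 1) (nat_lit 6) (nat_lit 11) L54991 (by decide +kernel)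
theorem L54993 : W_10 (nat_lit 6) (nat_lit 0xc000c00220001001780080000000000000000000000000000000) (nat_lit 0x0) (nat_lit 0x83007000100018000000030000000000000000000000000000000) := T_10 (nat_lit 204) (nat_lit 205) (nat_lit 2) (nat_lit 0) (nat_lit 12) L54992 (by decide +kernel)
theorem L54994 : W_10 (nat_lit 7) (nat_lit 0x4000c00220001001780080000000000000000000000000000000) (nat_lit 0x0) (nat_lit 0x8008b007000100018000000030000000000000000000000000000000) := T_10 (nat_lit 207) (nat_lit 223) (nat_lit 5) (nat_lit 3) (nat_lit 9) L54993 (by decide +kernel)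
theorem L54995 : W_10 (nat_lit 8) (nat_lit 0x4000400220001001780080000000000000000000000000000000) (nat_lit 0x0) (nat_lit 0x8009b007800100018000000030000000000000000000000000000000) := T_10 (nat_lit 191) (nat_lit 208) (nat_lit 7) (nat_lit 3) (nat_lit 8) L54994 (by decide +kernel)
theorem L54996 : W_10 (nat_lit 9) (nat_lit 0x400220001001780080000000000000000000000000000000) (nat_lit 0x0) (nat_lit 0x8009f007a00100018000000030000000000000000000000000000000) := T_10 (nat_lit 206) (nat_lit 189) (nat_lit 5) (nat_lit 3) (nat_lit 8) L54995 (by decide +kernel)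
theorem L54997 : W_10 (nat_lit 10) (nat_lit 0x220001001780080000000000000000000000000000000) (nat_lit 0x0) (nat_lit 0x8009f007e00100018000000038000000000000000000000000000000) := T_10 (nat_lit 190) (nat_lit 123) (nat_lit 6) (nat_lit 3) (nat_lit 11) L54996 (by decide +kernel)
theorem L54998 : W_10 (nat_lit 2) (nat_lit 0x220009001780084000000000000000000000000000000) (nat_lit 0x0) (nat_lit 0x400000000000000008000400000000000000000000000000) := D_10 (nat_lit 123) (nat_lit 190) (nat_lit 106) (nat_lit 6) (nat_lit 3) (nat_lit 11) (nat_lit 6) (nat_lit 3) (nat_lit 10) (by decide +kernel)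
theorem L54999 : W_10 (nat_lit 3) (nat_lit 0x220009001780080000000000000000000000000000000) (nat_lit 0x0) (nat_lit 0x40000000000000000e000400000000000000000000000000) := T_10 (nat_lit 122) (nat_lit 121) (nat_lit 0) (nat_lit 6) (nat_lit 8) L54998 (by decide +kernel)
theorem L55000 : W_10 (nat_lit 4) (nat_lit 0x220001001780080000000000000000000000000000000) (nat_lit 0x0) (nat_lit 0x40000001800000000e000400000000000000000000000000) := T_10 (nat_lit 159) (nat_lit 160) (nat_lit 3) (nat_lit 3) (nat_lit 8) L54999 (by decide +kernel)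
theorem L55001 : W_10 (nat_lit 11) (nat_lit 0x200001001780080000000000000000000000000000000) (nat_lit 0x0) (nat_lit 0x8009f007e001f001c00000003e000400000000000000000000000000) := Q_10 (nat_lit 173) (C_10 L54982 (C_10 L54985 (C_10 L54988 (C_10 L54997 (C_10 L55000 N_10))))) (by decide +kernel)
theorem L55002 : W_10 (nat_lit 12) (nat_lit 0x200000001780080000000000000000000000000000000) (nat_lit 0x0) (nat_lit 0x8009f007e001f001d80000003e000400000000000000000000000000) := T_10 (nat_lit 156) (nat_lit 155) (nat_lit 1) (nat_lit 6) (nat_lit 8) L55001 (by decide +kernel)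
theorem L55003 : W_10 (nat_lit 2) (nat_lit 0x20002f0009001780084000700000000000000000000000000) (nat_lit 0x0) (nat_lit 0x4000100000000000010000000000000000000000000000000) := D_10 (nat_lit 176) (nat_lit 194) (nat_lit 124) (nat_lit 3) (nat_lit 3) (nat_lit 10) (nat_lit 4) (nat_lit 6) (nat_lit 11) (by decide +kernel)
theorem L55004 : W_10 (nat_lit 3) (nat_lit 0x2f0009001780084000700000000000000000000000000) (nat_lit 0x0) (nat_lit 0x7000100000000000010000000000000000000000000000000) := T_10 (nat_lit 193) (nat_lit 192) (nat_lit 3) (nat_lit 2) (nat_lit 10) L55003 (by decide +kernel)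
theorem L55005 : W_10 (nat_lit 4) (nat_lit 0x2f0009001780084000600000000000000000000000000) (nat_lit 0x0) (nat_lit 0x7000100000000000010000100008000000000000000000000) := T_10 (nat_lit 104) (nat_lit 87) (nat_lit 4) (nat_lit 3) (nat_lit 9) L55004 (by decide +kernel)
theorem L55006 : W_10 (nat_lit 5) (nat_lit 0x270009001780084000600000000000000000000000000) (nat_lit 0x0) (nat_lit 0x7000180004000000010000100008000000000000000000000) := T_10 (nat_lit 175) (nat_lit 158) (nat_lit 2) (nat_lit 2) (nat_lit 10) L55005 (by decide +kernel)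
theorem L55007 : W_10 (nat_lit 6) (nat_lit 0x230009001780084000600000000000000000000000000) (nat_lit 0x0) (nat_lit 0x78001c0004000000010000100008000000000000000000000) := T_10 (nat_lit 174) (nat_lit 191) (nat_lit 7) (nat_lit 3) (nat_lit 7) L55006 (by decide +kernel)
theorem L55008 : W_10 (nat_lit 7) (nat_lit 0x220009001780084000600000000000000000000000000) (nat_lit 0x0) (nat_lit 0x7a001d0004000000010000100008000000000000000000000) := T_10 (nat_lit 172) (nat_lit 189) (nat_lit 5) (nat_lit 3) (nat_lit 7) L55007 (by decide +kernel)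
theorem L55009 : W_10 (nat_lit 8) (nat_lit 0x200009001780084000600000000000000000000000000) (nat_lit 0x0) (nat_lit 0x7a001f0004000000018000100008000000000000000000000) := T_10 (nat_lit 173) (nat_lit 123) (nat_lit 6) (nat_lit 3) (nat_lit 10) L55008 (by decide +kernel)
theorem L55010 : W_10 (nat_lit 9) (nat_lit 0x200009001780084000200000000000000000000000000) (nat_lit 0x0) (nat_lit 0x7a001f0004000000018000500028000000000000000000000) := T_10 (nat_lit 106) (nat_lit 89) (nat_lit 6) (nat_lit 3) (nat_lit 9) L55009 (by decide +kernel)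
theorem L55011 : W_10 (nat_lit 10) (nat_lit 0x200001001780084000200000000000000000000000000) (nat_lit 0x0) (nat_lit 0x7a001f001c000000018000500028000000000000000000000) := T_10 (nat_lit 159) (nat_lit 160) (nat_lit 3) (nat_lit 3) (nat_lit 8) L55010 (by decide +kernel)
theorem L55012 : W_10 (nat_lit 11) (nat_lit 0x200000001780084000200000000000000000000000000) (nat_lit 0x0) (nat_lit 0x7a001f001d800000018000500028000000000000000000000) := T_10 (nat_lit 156) (nat_lit 155) (nat_lit 1) (nat_lit 6) (nat_lit 8) L55011 (by decide +kernel)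
theorem L55013 : W_10 (nat_lit 2) (nat_lit 0x200001001780084000200010000000000000000000000) (nat_lit 0x0) (nat_lit 0x100008000400000000000000000) := D_10 (nat_lit 87) (nat_lit 104) (nat_lit 70) (nat_lit 4) (nat_lit 3) (nat_lit 9) (nat_lit 4) (nat_lit 3) (nat_lit 8) (by decide +kernel)
theorem L55014 : W_10 (nat_lit 3) (nat_lit 0x200001001780084000200000000000000000000000000) (nat_lit 0x0) (nat_lit 0x2000000000000100018000400000000000000000) := T_10 (nat_lit 88) (nat_lit 157) (nat_lit 7) (nat_lit 3) (nat_lit 5) L55013 (by decide +kernel)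
theorem L55015 : W_10 (nat_lit 4) (nat_lit 0x200000001780084000200000000000000000000000000) (nat_lit 0x0) (nat_lit 0x3800000000000100018000400000000000000000) := T_10 (nat_lit 156) (nat_lit 155) (nat_lit 1) (nat_lit 6) (nat_lit 8) L55014 (by decide +kernel)
theorem L55016 : W_10 (nat_lit 12) (nat_lit 0x200000001780084000000000000000000000000000000) (nat_lit 0x0) (nat_lit 0x7a001f001f800000018000700038001c00080000000000000) := Q_10 (nat_lit 105) (C_10 L38131 (C_10 L55012 (C_10 L55015 (C_10 L38121 N_10)))) (by decide +kernel)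
theorem L55017 : W_10 (nat_lit 13) (nat_lit 0x200000001780080000000000000000000000000000000) (nat_lit 0x0) (nat_lit 0x7a001f001f80000001e000700038001c00080000000000000) := T_10 (nat_lit 122) (nat_lit 121) (nat_lit 0) (nat_lit 6) (nat_lit 8) L55016 (by decide +kernel)
theorem L55018 : W_10 (nat_lit 2) (nat_lit 0x20000f00178008c002f00000000000000000000000000) (nat_lit 0x0) (nat_lit 0x30000080000000000000000000000000) := D_10 (nat_lit 124) (nat_lit 125) (nat_lit 103) (nat_lit 3) (nat_lit 2) (nat_lit 6) (nat_lit 3) (nat_lit 1) (nat_lit 6) (by decide +kernel)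
theorem L55019 : W_10 (nat_lit 3) (nat_lit 0x20000f00178008c002e00000000000000000000000000) (nat_lit 0x0) (nat_lit 0x30000180008000000000000000000000) := T_10 (nat_lit 104) (nat_lit 87) (nat_lit 4) (nat_lit 3) (nat_lit 9) L55018 (by decide +kernel)
theorem L55020 : W_10 (nat_lit 4) (nat_lit 0x20000700178008c002e00000000000000000000000000) (nat_lit 0x0) (nat_lit 0x100008000000030000180008000000000000000000000) := T_10 (nat_lit 159) (nat_lit 176) (nat_lit 3) (nat_lit 3) (nat_lit 9) L55019 (by decide +kernel)
theorem L55021 : W_10 (nat_lit 5) (nat_lit 0x20000300178008c002e00000000000000000000000000) (nat_lit 0x0) (nat_lit 0x18000c000000030000180008000000000000000000000) := T_10 (nat_lit 158) (nat_lit 175) (nat_lit 7) (nat_lit 4) (nat_lit 6) L55020 (by decide +kernel)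
theorem L55022 : W_10 (nat_lit 6) (nat_lit 0x20000300178008c000e00000000000000000000000000) (nat_lit 0x0) (nat_lit 0x18000c000000030003180008000000000000000000000) := T_10 (nat_lit 109) (nat_lit 108) (nat_lit 1) (nat_lit 7) (nat_lit 6) L55021 (by decide +kernel)
theorem L55023 : W_10 (nat_lit 7) (nat_lit 0x20000300178008c000600000000000000000000000000) (nat_lit 0x0) (nat_lit 0x18000c000000030003980048000000000000000000000) := T_10 (nat_lit 107) (nat_lit 90) (nat_lit 6) (nat_lit 4) (nat_lit 9) L55022 (by decide +kernel)
theorem L55024 : W_10 (nat_lit 8) (nat_lit 0x200003001780084000600000000000000000000000000) (nat_lit 0x0) (nat_lit 0x1a000c000000038003980048000000000000000000000) := T_10 (nat_lit 123) (nat_lit 173) (nat_lit 6) (nat_lit 3) (nat_lit 10) L55023 (by decide +kernel)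
theorem L55025 : W_10 (nat_lit 9) (nat_lit 0x200003001780084000200000000000000000000000000) (nat_lit 0x0) (nat_lit 0x1a000c000000038003d80068000000000000000000000) := T_10 (nat_lit 106) (nat_lit 89) (nat_lit 6) (nat_lit 3) (nat_lit 9) L55024 (by decide +kernel)
theorem L55026 : W_10 (nat_lit 10) (nat_lit 0x200003001780084000000000000000000000000000000) (nat_lit 0x0) (nat_lit 0x1a000c000000038003f80078000000000000000000000) := T_10 (nat_lit 105) (nat_lit 88) (nat_lit 7) (nat_lit 3) (nat_lit 5) L55025 (by decide +kernel)
theorem L55027 : W_10 (nat_lit 11) (nat_lit 0x200003001780080000000000000000000000000000000) (nat_lit 0x0) (nat_lit 0x1a000c00000003e003f80078000000000000000000000) := T_10 (nat_lit 122) (nat_lit 121) (nat_lit 0) (nat_lit 6) (nat_lit 8) L55026 (by decide +kernel)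
theorem L55028 : W_10 (nat_lit 12) (nat_lit 0x200002001780080000000000000000000000000000000) (nat_lit 0x0) (nat_lit 0x1a000d80000003e003f80078000000000000000000000) := T_10 (nat_lit 156) (nat_lit 155) (nat_lit 1) (nat_lit 6) (nat_lit 8) L55027 (by decide +kernel)
theorem L55029 : W_10 (nat_lit 2) (nat_lit 0x240003001780080000000000000000000000000000000) (nat_lit 0x0) (nat_lit 0x10000800000000000000010000000000000000000000000000000) := D_10 (nat_lit 191) (nat_lit 124) (nat_lit 208) (nat_lit 6) (nat_lit 4) (nat_lit 11) (nat_lit 4) (nat_lit 4) (nat_lit 12) (by decide +kernel)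
theorem L55030 : W_10 (nat_lit 3) (nat_lit 0x240002001780080000000000000000000000000000000) (nat_lit 0x0) (nat_lit 0x10000800000001800000010000000000000000000000000000000) := T_10 (nat_lit 156) (nat_lit 155) (nat_lit 1) (nat_lit 6) (nat_lit 8) L55029 (by decide +kernel)
theorem L55031 : W_10 (nat_lit 2) (nat_lit 0x1000400034000b001780080000000000000000000000000000000) (nat_lit 0x0) (nat_lit 0x1000080002000000000000000000000000000000000000000000000000) := D_10 (nat_lit 211) (nat_lit 228) (nat_lit 193) (nat_lit 4) (nat_lit 7) (nat_lit 13) (nat_lit 7) (nat_lit 6) (nat_lit 8) (by decide +kernel)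
theorem L55032 : W_10 (nat_lit 3) (nat_lit 0x1000000034000b001780080000000000000000000000000000000) (nat_lit 0x0) (nat_lit 0x1000080006000000000000000020000000000000000000000000000000) := T_10 (nat_lit 194) (nat_lit 125) (nat_lit 7) (nat_lit 6) (nat_lit 7) L55031 (by decide +kernel)
theorem L55033 : W_10 (nat_lit 4) (nat_lit 0x10000000340003001780080000000000000000000000000000000) (nat_lit 0x0) (nat_lit 0x100008000600000000c000000020000000000000000000000000000000) := T_10 (nat_lit 159) (nat_lit 158) (nat_lit 3) (nat_lit 3) (nat_lit 9) L55032 (by decide +kernel)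
theorem L55034 : W_10 (nat_lit 5) (nat_lit 0x340003001780080000000000000000000000000000000) (nat_lit 0x0) (nat_lit 0x100009000680000000c000000020000000000000000000000000000000) := T_10 (nat_lit 208) (nat_lit 191) (nat_lit 4) (nat_lit 4) (nat_lit 12) L55033 (by decide +kernel)
theorem L55035 : W_10 (nat_lit 6) (nat_lit 0x240003001780080000000000000000000000000000000) (nat_lit 0x0) (nat_lit 0x100009000680018000c000000020000000000000000000000000000000) := T_10 (nat_lit 176) (nat_lit 175) (nat_lit 0) (nat_lit 7) (nat_lit 10) L55034 (by decide +kernel)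
theorem L55036 : W_10 (nat_lit 7) (nat_lit 0x240002001780080000000000000000000000000000000) (nat_lit 0x0) (nat_lit 0x100009000680018000d800000020000000000000000000000000000000) := T_10 (nat_lit 156) (nat_lit 155) (nat_lit 1) (nat_lit 6) (nat_lit 8) L55035 (by decide +kernel)
theorem L55037 : W_10 (nat_lit 2) (nat_lit 0xc00240002001780088000000000000000000000000000000) (nat_lit 0x0) (nat_lit 0x1000180000000000000000000000000000000000000000000) := D_10 (nat_lit 175) (nat_lit 176) (nat_lit 192) (nat_lit 1) (nat_lit 7) (nat_lit 10) (nat_lit 7) (nat_lit 4) (nat_lit 7) (by decide +kernel)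
theorem L55038 : W_10 (nat_lit 3) (nat_lit 0xc00240002001780080000000000000000000000000000000) (nat_lit 0x0) (nat_lit 0x10001a0000000000008000000000000000000000000000000) := T_10 (nat_lit 123) (nat_lit 173) (nat_lit 5) (nat_lit 4) (nat_lit 7) L55037 (by decide +kernel)
theorem L55039 : W_10 (nat_lit 4) (nat_lit 0x800240002001780080000000000000000000000000000000) (nat_lit 0x0) (nat_lit 0x80014001a0000000000008000000000000000000000000000000) := T_10 (nat_lit 190) (nat_lit 207) (nat_lit 5) (nat_lit 4) (nat_lit 8) L55038 (by decide +kernel)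
theorem L55040 : W_10 (nat_lit 5) (nat_lit 0x240002001780080000000000000000000000000000000) (nat_lit 0x0) (nat_lit 0x8001c001a0000000000018000000000000000000000000000000) := T_10 (nat_lit 191) (nat_lit 124) (nat_lit 6) (nat_lit 4) (nat_lit 11) L55039 (by decide +kernel)
theorem L55041 : W_10 (nat_lit 2) (nat_lit 0x200034000b001780080000000000000000000000000000000) (nat_lit 0x0) (nat_lit 0x80004000000000000000020000000000000000000000000000000) := D_10 (nat_lit 194) (nat_lit 125) (nat_lit 211) (nat_lit 7) (nat_lit 6) (nat_lit 7) (nat_lit 7) (nat_lit 6) (nat_lit 8) (by decide +kernel)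
theorem L55042 : W_10 (nat_lit 3) (nat_lit 0x34000b001780080000000000000000000000000000000) (nat_lit 0x0) (nat_lit 0x80006000000000000000030000000000000000000000000000000) := T_10 (nat_lit 193) (nat_lit 124) (nat_lit 4) (nat_lit 6) (nat_lit 11) L55041 (by decide +kernel)
theorem L55043 : W_10 (nat_lit 4) (nat_lit 0x340003001780080000000000000000000000000000000) (nat_lit 0x0) (nat_lit 0x8000600000000c000000030000000000000000000000000000000) := T_10 (nat_lit 159) (nat_lit 158) (nat_lit 3) (nat_lit 3) (nat_lit 9) L55042 (by decide +kernel)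
theorem L55044 : W_10 (nat_lit 5) (nat_lit 0x240003001780080000000000000000000000000000000) (nat_lit 0x0) (nat_lit 0x8000600018000c000000030000000000000000000000000000000) := T_10 (nat_lit 176) (nat_lit 175) (nat_lit 0) (nat_lit 7) (nat_lit 10) L55043 (by decide +kernel)
theorem L55045 : W_10 (nat_lit 6) (nat_lit 0x240002001780080000000000000000000000000000000) (nat_lit 0x0) (nat_lit 0x8000600018000d800000030000000000000000000000000000000) := T_10 (nat_lit 156) (nat_lit 155) (nat_lit 1) (nat_lit 6) (nat_lit 8) L55044 (by decide +kernel)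
theorem L55046 : W_10 (nat_lit 8) (nat_lit 0x200002001780080000000000000000000000000000000) (nat_lit 0x0) (nat_lit 0x1000098007c001e000d800000038000000000000000000000000000000) := Q_10 (nat_lit 174) (C_10 L55030 (C_10 L55036 (C_10 L55040 (C_10 L55045 N_10)))) (by decide +kernel)
theorem L55047 : W_10 (nat_lit 13) (nat_lit 0x200000001780080000000000000000000000000000000) (nat_lit 0x0) (nat_lit 0x1000098007c001e000f80000003e003f80078000000000000000000000) := Q_10 (nat_lit 157) (C_10 L37570 (C_10 L37582 (C_10 L55028 (C_10 L55046 N_10)))) (by decide +kernel)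
theorem L55048 : W_10 (nat_lit 2) (nat_lit 0x38000a0017800b4001000040000000000000000000000) (nat_lit 0x0) (nat_lit 0x80006000000000000000000) := D_10 (nat_lit 91) (nat_lit 74) (nat_lit 73) (nat_lit 5) (nat_lit 6) (nat_lit 4) (nat_lit 4) (nat_lit 6) (nat_lit 8) (by decide +kernel)
theorem L55049 : W_10 (nat_lit 3) (nat_lit 0x38000a0017800b4000000040000000000000000000000) (nat_lit 0x0) (nat_lit 0x4000000000001000080006000000000000000000) := T_10 (nat_lit 108) (nat_lit 158) (nat_lit 6) (nat_lit 5) (nat_lit 10) L55048 (by decide +kernel)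
theorem L55050 : W_10 (nat_lit 4) (nat_lit 0x30000a0017800b4000000040000000000000000000000) (nat_lit 0x0) (nat_lit 0x1000080004000000000001000080006000000000000000000) := T_10 (nat_lit 175) (nat_lit 192) (nat_lit 5) (nat_lit 6) (nat_lit 7) L55049 (by decide +kernel)
theorem L55051 : W_10 (nat_lit 5) (nat_lit 0x30000a001780094000000040000000000000000000000) (nat_lit 0x0) (nat_lit 0x5000080004000000020001000080006000000000000000000) := T_10 (nat_lit 125) (nat_lit 194) (nat_lit 7) (nat_lit 6) (nat_lit 7) L55050 (by decide +kernel)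
theorem L55052 : W_10 (nat_lit 6) (nat_lit 0x30000a001780090000000040000000000000000000000) (nat_lit 0x0) (nat_lit 0x5000080004000000026001000080006000000000000000000) := T_10 (nat_lit 122) (nat_lit 121) (nat_lit 0) (nat_lit 6) (nat_lit 8) L55051 (by decide +kernel)
theorem L55053 : W_10 (nat_lit 7) (nat_lit 0x20000a001780090000000040000000000000000000000) (nat_lit 0x0) (nat_lit 0x7000180004000000026001000080006000000000000000000) := T_10 (nat_lit 176) (nat_lit 193) (nat_lit 4) (nat_lit 6) (nat_lit 11) L55052 (by decide +kernel)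
theorem L55054 : W_10 (nat_lit 8) (nat_lit 0x20000a001780090000000000000000000000000000000) (nat_lit 0x0) (nat_lit 0x70001800040000000260018000c0006000000000000000000) := T_10 (nat_lit 90) (nat_lit 107) (nat_lit 7) (nat_lit 5) (nat_lit 5) L55053 (by decide +kernel)
theorem L55055 : W_10 (nat_lit 9) (nat_lit 0x200002001780090000000000000000000000000000000) (nat_lit 0x0) (nat_lit 0x700018001c0000000260018000c0006000000000000000000) := T_10 (nat_lit 159) (nat_lit 160) (nat_lit 3) (nat_lit 3) (nat_lit 8) L55054 (by decide +kernel)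
theorem L55056 : W_10 (nat_lit 2) (nat_lit 0x80020000a001780094000800010000000000000000000000) (nat_lit 0x0) (nat_lit 0x2000100004000000000000000000000000000000000000000) := D_10 (nat_lit 176) (nat_lit 158) (nat_lit 193) (nat_lit 7) (nat_lit 5) (nat_lit 6) (nat_lit 4) (nat_lit 6) (nat_lit 11) (by decide +kernel)
theorem L55057 : W_10 (nat_lit 3) (nat_lit 0x800200002001780094000800010000000000000000000000) (nat_lit 0x0) (nat_lit 0x200010001c000000000000000000000000000000000000000) := T_10 (nat_lit 159) (nat_lit 160) (nat_lit 3) (nat_lit 3) (nat_lit 8) L55056 (by decide +kernel)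
theorem L55058 : W_10 (nat_lit 4) (nat_lit 0x800200002001780094000000010000000000000000000000) (nat_lit 0x0) (nat_lit 0x200010001c000000000000800040000000000000000000000) := T_10 (nat_lit 107) (nat_lit 90) (nat_lit 5) (nat_lit 5) (nat_lit 5) L55057 (by decide +kernel)
theorem L55059 : W_10 (nat_lit 5) (nat_lit 0x800200002001780094000000000000000000000000000000) (nat_lit 0x0) (nat_lit 0x200010001c000000000000a00050000000000000000000000) := T_10 (nat_lit 88) (nat_lit 105) (nat_lit 7) (nat_lit 3) (nat_lit 5) L55058 (by decide +kernel)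
theorem L55060 : W_10 (nat_lit 6) (nat_lit 0x200002001780094000000000000000000000000000000) (nat_lit 0x0) (nat_lit 0x280014001c000000000000a00050000000000000000000000) := T_10 (nat_lit 191) (nat_lit 174) (nat_lit 6) (nat_lit 4) (nat_lit 11) L55059 (by decide +kernel)
theorem L55061 : W_10 (nat_lit 7) (nat_lit 0x200002001780090000000000000000000000000000000) (nat_lit 0x0) (nat_lit 0x280014001c000000006000a00050000000000000000000000) := T_10 (nat_lit 122) (nat_lit 121) (nat_lit 0) (nat_lit 6) (nat_lit 8) L55060 (by decide +kernel)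
theorem L55062 : W_10 (nat_lit 2) (nat_lit 0x240002001780094000000000000000000000000000000) (nat_lit 0x0) (nat_lit 0x4000000000000800040000000000000000000000) := D_10 (nat_lit 107) (nat_lit 90) (nat_lit 158) (nat_lit 5) (nat_lit 5) (nat_lit 5) (nat_lit 5) (nat_lit 5) (nat_lit 6) (by decide +kernel)
theorem L55063 : W_10 (nat_lit 3) (nat_lit 0x200002001780094000000000000000000000000000000) (nat_lit 0x0) (nat_lit 0x800040004000000000000800040000000000000000000000) := T_10 (nat_lit 174) (nat_lit 191) (nat_lit 6) (nat_lit 4) (nat_lit 11) L55062 (by decide +kernel)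
theorem L55064 : W_10 (nat_lit 4) (nat_lit 0x200002001780090000000000000000000000000000000) (nat_lit 0x0) (nat_lit 0x800040004000000006000800040000000000000000000000) := T_10 (nat_lit 122) (nat_lit 121) (nat_lit 0) (nat_lit 6) (nat_lit 8) L55063 (by decide +kernel)
theorem L55065 : W_10 (nat_lit 2) (nat_lit 0x80038000a0017800b4001000090000000000000000000000) (nat_lit 0x0) (nat_lit 0x2000100008000000000000000000) := D_10 (nat_lit 92) (nat_lit 109) (nat_lit 75) (nat_lit 6) (nat_lit 6) (nat_lit 9) (nat_lit 6) (nat_lit 6) (nat_lit 8) (by decide +kernel)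
theorem L55066 : W_10 (nat_lit 3) (nat_lit 0x80038000a0017800b4001000010000000000000000000000) (nat_lit 0x0) (nat_lit 0x200018000c000000000000000000) := T_10 (nat_lit 91) (nat_lit 74) (nat_lit 5) (nat_lit 6) (nat_lit 4) L55065 (by decide +kernel)
theorem L55067 : W_10 (nat_lit 4) (nat_lit 0x80038000a0017800b4000000010000000000000000000000) (nat_lit 0x0) (nat_lit 0x400000000000300018000c000000000000000000) := T_10 (nat_lit 108) (nat_lit 158) (nat_lit 6) (nat_lit 5) (nat_lit 10) L55066 (by decide +kernel)
theorem L55068 : W_10 (nat_lit 5) (nat_lit 0x80030000a0017800b4000000010000000000000000000000) (nat_lit 0x0) (nat_lit 0x100008000400000000000300018000c000000000000000000) := T_10 (nat_lit 175) (nat_lit 192) (nat_lit 5) (nat_lit 6) (nat_lit 7) L55067 (by decide +kernel)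
theorem L55069 : W_10 (nat_lit 6) (nat_lit 0x80030000a001780094000000010000000000000000000000) (nat_lit 0x0) (nat_lit 0x500008000400000002000300018000c000000000000000000) := T_10 (nat_lit 125) (nat_lit 194) (nat_lit 7) (nat_lit 6) (nat_lit 7) L55068 (by decide +kernel)
theorem L55070 : W_10 (nat_lit 7) (nat_lit 0x80030000a001780094000000000000000000000000000000) (nat_lit 0x0) (nat_lit 0x500008000400000002000320019000c000000000000000000) := T_10 (nat_lit 88) (nat_lit 105) (nat_lit 7) (nat_lit 3) (nat_lit 5) L55069 (by decide +kernel)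
theorem L55071 : W_10 (nat_lit 8) (nat_lit 0x80020000a001780094000000000000000000000000000000) (nat_lit 0x0) (nat_lit 0x700018000400000002000320019000c000000000000000000) := T_10 (nat_lit 176) (nat_lit 193) (nat_lit 4) (nat_lit 6) (nat_lit 11) L55070 (by decide +kernel)
theorem L55072 : W_10 (nat_lit 9) (nat_lit 0x800200002001780094000000000000000000000000000000) (nat_lit 0x0) (nat_lit 0x700018001c00000002000320019000c000000000000000000) := T_10 (nat_lit 159) (nat_lit 160) (nat_lit 3) (nat_lit 3) (nat_lit 8) L55071 (by decide +kernel)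
theorem L55073 : W_10 (nat_lit 10) (nat_lit 0x800200002001780090000000000000000000000000000000) (nat_lit 0x0) (nat_lit 0x700018001c00000002600320019000c000000000000000000) := T_10 (nat_lit 122) (nat_lit 121) (nat_lit 0) (nat_lit 6) (nat_lit 8) L55072 (by decide +kernel)
theorem L55074 : W_10 (nat_lit 11) (nat_lit 0x200002001780090000000000000000000000000000000) (nat_lit 0x0) (nat_lit 0x78001c001c00000002600320019000c000000000000000000) := T_10 (nat_lit 191) (nat_lit 174) (nat_lit 6) (nat_lit 4) (nat_lit 11) L55073 (by decide +kernel)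
theorem L55075 : W_10 (nat_lit 2) (nat_lit 0x80038000a0017800b0001000040000000000000000000000) (nat_lit 0x0) (nat_lit 0x80006000000000000000000) := D_10 (nat_lit 91) (nat_lit 74) (nat_lit 73) (nat_lit 5) (nat_lit 6) (nat_lit 4) (nat_lit 4) (nat_lit 6) (nat_lit 8) (by decide +kernel)
theorem L55076 : W_10 (nat_lit 3) (nat_lit 0x80038000a0017800b0000000040000000000000000000000) (nat_lit 0x0) (nat_lit 0x4000000000001000080006000000000000000000) := T_10 (nat_lit 108) (nat_lit 158) (nat_lit 6) (nat_lit 5) (nat_lit 10) L55075 (by decide +kernel)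
theorem L55077 : W_10 (nat_lit 4) (nat_lit 0x80030000a0017800b0000000040000000000000000000000) (nat_lit 0x0) (nat_lit 0x1000080004000000000001000080006000000000000000000) := T_10 (nat_lit 175) (nat_lit 192) (nat_lit 5) (nat_lit 6) (nat_lit 7) L55076 (by decide +kernel)
theorem L55078 : W_10 (nat_lit 5) (nat_lit 0x80030000a001780090000000040000000000000000000000) (nat_lit 0x0) (nat_lit 0x5000080004000000020001000080006000000000000000000) := T_10 (nat_lit 125) (nat_lit 194) (nat_lit 7) (nat_lit 6) (nat_lit 7) L55077 (by decide +kernel)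
theorem L55079 : W_10 (nat_lit 6) (nat_lit 0x80020000a001780090000000040000000000000000000000) (nat_lit 0x0) (nat_lit 0x7000180004000000020001000080006000000000000000000) := T_10 (nat_lit 176) (nat_lit 193) (nat_lit 4) (nat_lit 6) (nat_lit 11) L55078 (by decide +kernel)
theorem L55080 : W_10 (nat_lit 7) (nat_lit 0x20000a001780090000000040000000000000000000000) (nat_lit 0x0) (nat_lit 0x78001c0004000000020001000080006000000000000000000) := T_10 (nat_lit 191) (nat_lit 174) (nat_lit 6) (nat_lit 4) (nat_lit 11) L55079 (by decide +kernel)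
theorem L55081 : W_10 (nat_lit 8) (nat_lit 0x20000a001780090000000000000000000000000000000) (nat_lit 0x0) (nat_lit 0x78001c00040000000200018000c0006000000000000000000) := T_10 (nat_lit 90) (nat_lit 107) (nat_lit 7) (nat_lit 5) (nat_lit 5) L55080 (by decide +kernel)
theorem L55082 : W_10 (nat_lit 9) (nat_lit 0x200002001780090000000000000000000000000000000) (nat_lit 0x0) (nat_lit 0x78001c001c0000000200018000c0006000000000000000000) := T_10 (nat_lit 159) (nat_lit 160) (nat_lit 3) (nat_lit 3) (nat_lit 8) L55081 (by decide +kernel)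
theorem L55083 : W_10 (nat_lit 2) (nat_lit 0x20000a001780094000800000000000000000000000000) (nat_lit 0x0) (nat_lit 0x2000100000000000020000000000000000000000000000000) := D_10 (nat_lit 176) (nat_lit 193) (nat_lit 125) (nat_lit 4) (nat_lit 6) (nat_lit 11) (nat_lit 4) (nat_lit 6) (nat_lit 10) (by decide +kernel)
theorem L55084 : W_10 (nat_lit 3) (nat_lit 0x20000a001780094000000000000000000000000000000) (nat_lit 0x0) (nat_lit 0x2000100000000000020000800040000000000000000000000) := T_10 (nat_lit 107) (nat_lit 90) (nat_lit 7) (nat_lit 5) (nat_lit 5) L55083 (by decide +kernel)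
theorem L55085 : W_10 (nat_lit 4) (nat_lit 0x20000a001780090000000000000000000000000000000) (nat_lit 0x0) (nat_lit 0x2000100000000000026000800040000000000000000000000) := T_10 (nat_lit 122) (nat_lit 121) (nat_lit 0) (nat_lit 6) (nat_lit 8) L55084 (by decide +kernel)
theorem L55086 : W_10 (nat_lit 5) (nat_lit 0x200002001780090000000000000000000000000000000) (nat_lit 0x0) (nat_lit 0x2000100018000000026000800040000000000000000000000) := T_10 (nat_lit 159) (nat_lit 160) (nat_lit 3) (nat_lit 3) (nat_lit 8) L55085 (by decide +kernel)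
theorem L55087 : W_10 (nat_lit 12) (nat_lit 0x200002001780080000000000000000000000000000000) (nat_lit 0x0) (nat_lit 0x78001c001c000000036003a001d000e000000000000000000) := Q_10 (nat_lit 124) (C_10 L55055 (C_10 L55061 (C_10 L55064 (C_10 L55074 (C_10 L55082 (C_10 L55086 N_10)))))) (by decide +kernel)
theorem L55088 : W_10 (nat_lit 2) (nat_lit 0x200030000b001780084000000010000000000000000000000) (nat_lit 0x0) (nat_lit 0x80004000000000000000020000000000000000000000000000000) := D_10 (nat_lit 194) (nat_lit 125) (nat_lit 211) (nat_lit 7) (nat_lit 6) (nat_lit 7) (nat_lit 7) (nat_lit 6) (nat_lit 8) (by decide +kernel)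
theorem L55089 : W_10 (nat_lit 3) (nat_lit 0x30000b001780084000000010000000000000000000000) (nat_lit 0x0) (nat_lit 0x80006000000000000000030000000000000000000000000000000) := T_10 (nat_lit 193) (nat_lit 124) (nat_lit 4) (nat_lit 6) (nat_lit 11) L55088 (by decide +kernel)
theorem L55090 : W_10 (nat_lit 4) (nat_lit 0x20000b001780084000000010000000000000000000000) (nat_lit 0x0) (nat_lit 0x80006000100004000000030000000000000000000000000000000) := T_10 (nat_lit 176) (nat_lit 158) (nat_lit 3) (nat_lit 3) (nat_lit 9) L55089 (by decide +kernel)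
theorem L55091 : W_10 (nat_lit 5) (nat_lit 0x20000a001780084000000010000000000000000000000) (nat_lit 0x0) (nat_lit 0x80006000100005800000030000000000000000000000000000000) := T_10 (nat_lit 156) (nat_lit 155) (nat_lit 1) (nat_lit 6) (nat_lit 8) L55090 (by decide +kernel)
theorem L55092 : W_10 (nat_lit 6) (nat_lit 0x20000a001780084000000000000000000000000000000) (nat_lit 0x0) (nat_lit 0x80006000100005800000030000200010000000000000000000000) := T_10 (nat_lit 88) (nat_lit 105) (nat_lit 7) (nat_lit 3) (nat_lit 5) L55091 (by decide +kernel)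
theorem L55093 : W_10 (nat_lit 7) (nat_lit 0x200002001780084000000000000000000000000000000) (nat_lit 0x0) (nat_lit 0x8000600010001d800000030000200010000000000000000000000) := T_10 (nat_lit 159) (nat_lit 160) (nat_lit 3) (nat_lit 3) (nat_lit 8) L55092 (by decide +kernel)
theorem L55094 : W_10 (nat_lit 8) (nat_lit 0x200002001780080000000000000000000000000000000) (nat_lit 0x0) (nat_lit 0x8000600010001d800000036000200010000000000000000000000) := T_10 (nat_lit 122) (nat_lit 121) (nat_lit 0) (nat_lit 6) (nat_lit 8) L55093 (by decide +kernel)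
theorem L55095 : W_10 (nat_lit 2) (nat_lit 0xe0026000f001780080000000000000000000000000000000) (nat_lit 0x0) (nat_lit 0x180080000000000000000000000000000000000000000000) := D_10 (nat_lit 188) (nat_lit 187) (nat_lit 175) (nat_lit 2) (nat_lit 0) (nat_lit 11) (nat_lit 2) (nat_lit 1) (nat_lit 11) (by decide +kernel)
theorem L55096 : W_10 (nat_lit 3) (nat_lit 0xe0022000f001780080000000000000000000000000000000) (nat_lit 0x0) (nat_lit 0x1800c0000000000010000000000000000000000000000000) := T_10 (nat_lit 174) (nat_lit 124) (nat_lit 6) (nat_lit 4) (nat_lit 11) L55095 (by decide +kernel)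
theorem L55097 : W_10 (nat_lit 4) (nat_lit 0x60022000f001780080000000000000000000000000000000) (nat_lit 0x0) (nat_lit 0x100009800c0000000000010000000000000000000000000000000) := T_10 (nat_lit 191) (nat_lit 208) (nat_lit 7) (nat_lit 3) (nat_lit 8) L55096 (by decide +kernel)
theorem L55098 : W_10 (nat_lit 5) (nat_lit 0x40022000f001780080000000000000000000000000000000) (nat_lit 0x0) (nat_lit 0x14000b800c0000000000010000000000000000000000000000000) := T_10 (nat_lit 189) (nat_lit 206) (nat_lit 5) (nat_lit 3) (nat_lit 8) L55097 (by decide +kernel)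
theorem L55099 : W_10 (nat_lit 6) (nat_lit 0x22000f001780080000000000000000000000000000000) (nat_lit 0x0) (nat_lit 0x1c000f800c0000000000010000000000000000000000000000000) := T_10 (nat_lit 190) (nat_lit 207) (nat_lit 6) (nat_lit 3) (nat_lit 12) L55098 (by decide +kernel)
theorem L55100 : W_10 (nat_lit 7) (nat_lit 0x20000f001780080000000000000000000000000000000) (nat_lit 0x0) (nat_lit 0x1c000f800f0000000000010000000000000000000000000000000) := T_10 (nat_lit 173) (nat_lit 172) (nat_lit 1) (nat_lit 6) (nat_lit 9) L55099 (by decide +kernel)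
theorem L55101 : W_10 (nat_lit 8) (nat_lit 0x20000b001780080000000000000000000000000000000) (nat_lit 0x0) (nat_lit 0x1c000f801f0004000000010000000000000000000000000000000) := T_10 (nat_lit 158) (nat_lit 176) (nat_lit 3) (nat_lit 3) (nat_lit 9) L55100 (by decide +kernel)
theorem L55102 : W_10 (nat_lit 9) (nat_lit 0x200003001780080000000000000000000000000000000) (nat_lit 0x0) (nat_lit 0x1c000f801f001c000000010000000000000000000000000000000) := T_10 (nat_lit 159) (nat_lit 160) (nat_lit 3) (nat_lit 3) (nat_lit 8) L55101 (by decide +kernel)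
theorem L55103 : W_10 (nat_lit 10) (nat_lit 0x200002001780080000000000000000000000000000000) (nat_lit 0x0) (nat_lit 0x1c000f801f001d800000010000000000000000000000000000000) := T_10 (nat_lit 156) (nat_lit 155) (nat_lit 1) (nat_lit 6) (nat_lit 8) L55102 (by decide +kernel)
theorem L55104 : W_10 (nat_lit 13) (nat_lit 0x200000001780080000000000000000000000000000000) (nat_lit 0x0) (nat_lit 0x9c007f801f001f800000036003a001d000e000000000000000000) := Q_10 (nat_lit 157) (C_10 L55087 (C_10 L37582 (C_10 L55094 (C_10 L55103 N_10)))) (by decide +kernel)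
theorem L55105 : W_10 (nat_lit 2) (nat_lit 0x24000a001780084000000000000000000000000000000) (nat_lit 0x0) (nat_lit 0x8000200010000000000000000000000) := D_10 (nat_lit 105) (nat_lit 88) (nat_lit 123) (nat_lit 7) (nat_lit 3) (nat_lit 5) (nat_lit 4) (nat_lit 4) (nat_lit 10) (by decide +kernel)
theorem L55106 : W_10 (nat_lit 3) (nat_lit 0x240008001780084000000000000000000000000000000) (nat_lit 0x0) (nat_lit 0x800000002000000008000200010000000000000000000000) := T_10 (nat_lit 157) (nat_lit 191) (nat_lit 4) (nat_lit 4) (nat_lit 11) L55105 (by decide +kernel)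
theorem L55107 : W_10 (nat_lit 4) (nat_lit 0x240008001780080000000000000000000000000000000) (nat_lit 0x0) (nat_lit 0x80000000200000000e000200010000000000000000000000) := T_10 (nat_lit 122) (nat_lit 121) (nat_lit 0) (nat_lit 6) (nat_lit 8) L55106 (by decide +kernel)
theorem L55108 : W_10 (nat_lit 4) (nat_lit 0xe0022000b001780080000000000000000000000000000000) (nat_lit 0x0) (nat_lit 0x1800d0004000000010000000000000000000000000000000) := T_10 (nat_lit 158) (nat_lit 172) (nat_lit 1) (nat_lit 6) (nat_lit 9) L55096 (by decide +kernel)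
theorem L55109 : W_10 (nat_lit 5) (nat_lit 0xe00220003001780080000000000000000000000000000000) (nat_lit 0x0) (nat_lit 0x1800d001c000000010000000000000000000000000000000) := T_10 (nat_lit 159) (nat_lit 160) (nat_lit 3) (nat_lit 3) (nat_lit 8) L55108 (by decide +kernel)
theorem L55110 : W_10 (nat_lit 6) (nat_lit 0xe00220001001780080000000000000000000000000000000) (nat_lit 0x0) (nat_lit 0x80001800d001e000000010000000000000000000000000000000) := T_10 (nat_lit 157) (nat_lit 207) (nat_lit 6) (nat_lit 3) (nat_lit 12) L55109 (by decide +kernel)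
theorem L55111 : W_10 (nat_lit 7) (nat_lit 0x600220001001780080000000000000000000000000000000) (nat_lit 0x0) (nat_lit 0x180009800d001e000000010000000000000000000000000000000) := T_10 (nat_lit 191) (nat_lit 208) (nat_lit 7) (nat_lit 3) (nat_lit 8) L55110 (by decide +kernel)
theorem L55112 : W_10 (nat_lit 8) (nat_lit 0x400220001001780080000000000000000000000000000000) (nat_lit 0x0) (nat_lit 0x1c000b800d001e000000010000000000000000000000000000000) := T_10 (nat_lit 189) (nat_lit 206) (nat_lit 5) (nat_lit 3) (nat_lit 8) L55111 (by decide +kernel)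
theorem L55113 : W_10 (nat_lit 9) (nat_lit 0x220001001780080000000000000000000000000000000) (nat_lit 0x0) (nat_lit 0x1c000f800d001e000000018000000000000000000000000000000) := T_10 (nat_lit 190) (nat_lit 123) (nat_lit 6) (nat_lit 3) (nat_lit 11) L55112 (by decide +kernel)
theorem L55114 : W_10 (nat_lit 2) (nat_lit 0x23000d001780084000000000000000000000000000000) (nat_lit 0x0) (nat_lit 0x8000c0000000000000000000000000000000000000000000) := D_10 (nat_lit 174) (nat_lit 191) (nat_lit 175) (nat_lit 7) (nat_lit 3) (nat_lit 7) (nat_lit 2) (nat_lit 2) (nat_lit 10) (by decide +kernel)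
theorem L55115 : W_10 (nat_lit 3) (nat_lit 0x230009001780084000000000000000000000000000000) (nat_lit 0x0) (nat_lit 0x8000c0006000000000000000000000000000000000000000) := T_10 (nat_lit 158) (nat_lit 157) (nat_lit 1) (nat_lit 6) (nat_lit 9) L55114 (by decide +kernel)
theorem L55116 : W_10 (nat_lit 4) (nat_lit 0x220009001780084000000000000000000000000000000) (nat_lit 0x0) (nat_lit 0xa000d0006000000000000000000000000000000000000000) := T_10 (nat_lit 172) (nat_lit 189) (nat_lit 5) (nat_lit 3) (nat_lit 7) L55115 (by decide +kernel)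
theorem L55117 : W_10 (nat_lit 5) (nat_lit 0x220001001780084000000000000000000000000000000) (nat_lit 0x0) (nat_lit 0xa000d001e000000000000000000000000000000000000000) := T_10 (nat_lit 159) (nat_lit 160) (nat_lit 3) (nat_lit 3) (nat_lit 8) L55116 (by decide +kernel)
theorem L55118 : W_10 (nat_lit 6) (nat_lit 0x220001001780080000000000000000000000000000000) (nat_lit 0x0) (nat_lit 0xa000d001e000000006000000000000000000000000000000) := T_10 (nat_lit 122) (nat_lit 121) (nat_lit 0) (nat_lit 6) (nat_lit 8) L55117 (by decide +kernel)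
theorem L55119 : W_10 (nat_lit 10) (nat_lit 0x200001001780080000000000000000000000000000000) (nat_lit 0x0) (nat_lit 0x1c000f800f001e00000001e000400000000000000000000000000) := Q_10 (nat_lit 173) (C_10 L55113 (C_10 L54985 (C_10 L55118 (C_10 L55000 N_10)))) (by decide +kernel)
theorem L55120 : W_10 (nat_lit 11) (nat_lit 0x200000001780080000000000000000000000000000000) (nat_lit 0x0) (nat_lit 0x1c000f800f001f80000001e000400000000000000000000000000) := T_10 (nat_lit 156) (nat_lit 155) (nat_lit 1) (nat_lit 6) (nat_lit 8) L55119 (by decide +kernel)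
theorem L55121 : W_10 (nat_lit 2) (nat_lit 0xc00340003001780080000000000000000000000000000000) (nat_lit 0x0) (nat_lit 0x20003000000000000000000000000000000000000000000000000) := D_10 (nat_lit 192) (nat_lit 209) (nat_lit 193) (nat_lit 7) (nat_lit 4) (nat_lit 8) (nat_lit 2) (nat_lit 3) (nat_lit 11) (by decide +kernel)
theorem L55122 : W_10 (nat_lit 3) (nat_lit 0x800340003001780080000000000000000000000000000000) (nat_lit 0x0) (nat_lit 0x28003400000000000000000000000000000000000000000000000) := T_10 (nat_lit 190) (nat_lit 207) (nat_lit 5) (nat_lit 4) (nat_lit 8) L55121 (by decide +kernel)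
theorem L55123 : W_10 (nat_lit 4) (nat_lit 0x340003001780080000000000000000000000000000000) (nat_lit 0x0) (nat_lit 0x38003c00000000000000000000000000000000000000000000000) := T_10 (nat_lit 191) (nat_lit 208) (nat_lit 4) (nat_lit 4) (nat_lit 12) L55122 (by decide +kernel)
theorem L55124 : W_10 (nat_lit 5) (nat_lit 0x240003001780080000000000000000000000000000000) (nat_lit 0x0) (nat_lit 0x38003c00180000000000000000000000000000000000000000000) := T_10 (nat_lit 176) (nat_lit 175) (nat_lit 0) (nat_lit 7) (nat_lit 10) L55123 (by decide +kernel)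
theorem L55125 : W_10 (nat_lit 6) (nat_lit 0x240002001780080000000000000000000000000000000) (nat_lit 0x0) (nat_lit 0x38003c00180001800000000000000000000000000000000000000) := T_10 (nat_lit 156) (nat_lit 155) (nat_lit 1) (nat_lit 6) (nat_lit 8) L55124 (by decide +kernel)
theorem L55126 : W_10 (nat_lit 2) (nat_lit 0x2c0003001780088000000000000000000000000000000) (nat_lit 0x0) (nat_lit 0x4000000000000400020000000000000000000000) := D_10 (nat_lit 106) (nat_lit 158) (nat_lit 89) (nat_lit 7) (nat_lit 4) (nat_lit 6) (nat_lit 5) (nat_lit 4) (nat_lit 5) (by decide +kernel)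
theorem L55127 : W_10 (nat_lit 3) (nat_lit 0x2c0003001780080000000000000000000000000000000) (nat_lit 0x0) (nat_lit 0x1000000004000000008000400020000000000000000000000) := T_10 (nat_lit 123) (nat_lit 192) (nat_lit 7) (nat_lit 4) (nat_lit 7) L55126 (by decide +kernel)
theorem L55128 : W_10 (nat_lit 4) (nat_lit 0x240003001780080000000000000000000000000000000) (nat_lit 0x0) (nat_lit 0x1000180004000000008000400020000000000000000000000) := T_10 (nat_lit 175) (nat_lit 176) (nat_lit 0) (nat_lit 7) (nat_lit 10) L55127 (by decide +kernel)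
theorem L55129 : W_10 (nat_lit 5) (nat_lit 0x240002001780080000000000000000000000000000000) (nat_lit 0x0) (nat_lit 0x1000180005800000008000400020000000000000000000000) := T_10 (nat_lit 156) (nat_lit 155) (nat_lit 1) (nat_lit 6) (nat_lit 8) L55128 (by decide +kernel)
theorem L55130 : W_10 (nat_lit 7) (nat_lit 0x200002001780080000000000000000000000000000000) (nat_lit 0x0) (nat_lit 0x38003c001e0005800000018000400020000000000000000000000) := Q_10 (nat_lit 174) (C_10 L55040 (C_10 L55030 (C_10 L55125 (C_10 L55129 N_10)))) (by decide +kernel)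
theorem L55131 : W_10 (nat_lit 2) (nat_lit 0x20000700178008c002f00000000000000000000000000) (nat_lit 0x0) (nat_lit 0x30000080000000000000000000000000) := D_10 (nat_lit 124) (nat_lit 125) (nat_lit 103) (nat_lit 3) (nat_lit 2) (nat_lit 6) (nat_lit 3) (nat_lit 1) (nat_lit 6) (by decide +kernel)
theorem L55132 : W_10 (nat_lit 3) (nat_lit 0x20000700178008c002e00000000000000000000000000) (nat_lit 0x0) (nat_lit 0x30000180008000000000000000000000) := T_10 (nat_lit 104) (nat_lit 87) (nat_lit 4) (nat_lit 3) (nat_lit 9) L55131 (by decide +kernel)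
theorem L55133 : W_10 (nat_lit 4) (nat_lit 0x20000300178008c002e00000000000000000000000000) (nat_lit 0x0) (nat_lit 0x80004000000030000180008000000000000000000000) := T_10 (nat_lit 158) (nat_lit 175) (nat_lit 7) (nat_lit 4) (nat_lit 6) L55132 (by decide +kernel)
theorem L55134 : W_10 (nat_lit 5) (nat_lit 0x20000300178008c000e00000000000000000000000000) (nat_lit 0x0) (nat_lit 0x80004000000030003180008000000000000000000000) := T_10 (nat_lit 109) (nat_lit 108) (nat_lit 1) (nat_lit 7) (nat_lit 6) L55133 (by decide +kernel)
theorem L55135 : W_10 (nat_lit 6) (nat_lit 0x20000300178008c000600000000000000000000000000) (nat_lit 0x0) (nat_lit 0x80004000000030003980048000000000000000000000) := T_10 (nat_lit 107) (nat_lit 90) (nat_lit 6) (nat_lit 4) (nat_lit 9) L55134 (by decide +kernel)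
theorem L55136 : W_10 (nat_lit 7) (nat_lit 0x200003001780084000600000000000000000000000000) (nat_lit 0x0) (nat_lit 0xa0004000000038003980048000000000000000000000) := T_10 (nat_lit 123) (nat_lit 173) (nat_lit 6) (nat_lit 3) (nat_lit 10) L55135 (by decide +kernel)
theorem L55137 : W_10 (nat_lit 8) (nat_lit 0x200003001780084000200000000000000000000000000) (nat_lit 0x0) (nat_lit 0xa0004000000038003d80068000000000000000000000) := T_10 (nat_lit 106) (nat_lit 89) (nat_lit 6) (nat_lit 3) (nat_lit 9) L55136 (by decide +kernel)
theorem L55138 : W_10 (nat_lit 9) (nat_lit 0x200003001780084000000000000000000000000000000) (nat_lit 0x0) (nat_lit 0xa0004000000038003f80078000000000000000000000) := T_10 (nat_lit 105) (nat_lit 88) (nat_lit 7) (nat_lit 3) (nat_lit 5) L55137 (by decide +kernel)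
theorem L55139 : W_10 (nat_lit 10) (nat_lit 0x200003001780080000000000000000000000000000000) (nat_lit 0x0) (nat_lit 0xa000400000003e003f80078000000000000000000000) := T_10 (nat_lit 122) (nat_lit 121) (nat_lit 0) (nat_lit 6) (nat_lit 8) L55138 (by decide +kernel)
theorem L55140 : W_10 (nat_lit 11) (nat_lit 0x200002001780080000000000000000000000000000000) (nat_lit 0x0) (nat_lit 0xa000580000003e003f80078000000000000000000000) := T_10 (nat_lit 156) (nat_lit 155) (nat_lit 1) (nat_lit 6) (nat_lit 8) L55139 (by decide +kernel)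
theorem L55141 : W_10 (nat_lit 12) (nat_lit 0x200000001780080000000000000000000000000000000) (nat_lit 0x0) (nat_lit 0x38003c001e000780000003e003f80078000000000000000000000) := Q_10 (nat_lit 157) (C_10 L37582 (C_10 L55130 (C_10 L55140 (C_10 L37570 N_10)))) (by decide +kernel)
theorem L55142 : W_10 (nat_lit 2) (nat_lit 0x270009001780094000e00018000000000000000000000) (nat_lit 0x0) (nat_lit 0x2000100000000000020000000000000000000000000000000) := D_10 (nat_lit 176) (nat_lit 193) (nat_lit 125) (nat_lit 4) (nat_lit 6) (nat_lit 11) (nat_lit 4) (nat_lit 6) (nat_lit 10) (by decide +kernel)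
theorem L55143 : W_10 (nat_lit 3) (nat_lit 0x270009001780084000e00018000000000000000000000) (nat_lit 0x0) (nat_lit 0x2000100000000000030000000040000000000000000000000) := T_10 (nat_lit 124) (nat_lit 90) (nat_lit 7) (nat_lit 5) (nat_lit 5) L55142 (by decide +kernel)
theorem L55144 : W_10 (nat_lit 4) (nat_lit 0x270009001780084000600018000000000000000000000) (nat_lit 0x0) (nat_lit 0x2000100000000000030001800040000000000000000000000) := T_10 (nat_lit 107) (nat_lit 108) (nat_lit 0) (nat_lit 6) (nat_lit 6) L55143 (by decide +kernel)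
theorem L55145 : W_10 (nat_lit 5) (nat_lit 0x270009001780084000600008000000000000000000000) (nat_lit 0x0) (nat_lit 0x2000100000000000030001800050000400000000000000000) := T_10 (nat_lit 88) (nat_lit 70) (nat_lit 4) (nat_lit 3) (nat_lit 8) L55144 (by decide +kernel)
theorem L55146 : W_10 (nat_lit 6) (nat_lit 0x270009001780084000600000000000000000000000000) (nat_lit 0x0) (nat_lit 0x2000100000000000030001900058000400000000000000000) := T_10 (nat_lit 87) (nat_lit 104) (nat_lit 4) (nat_lit 3) (nat_lit 9) L55145 (by decide +kernel)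
theorem L55147 : W_10 (nat_lit 7) (nat_lit 0x230009001780084000600000000000000000000000000) (nat_lit 0x0) (nat_lit 0x2800140000000000030001900058000400000000000000000) := T_10 (nat_lit 174) (nat_lit 191) (nat_lit 7) (nat_lit 3) (nat_lit 7) L55146 (by decide +kernel)
theorem L55148 : W_10 (nat_lit 8) (nat_lit 0x220009001780084000600000000000000000000000000) (nat_lit 0x0) (nat_lit 0x2a00150000000000030001900058000400000000000000000) := T_10 (nat_lit 172) (nat_lit 189) (nat_lit 5) (nat_lit 3) (nat_lit 7) L55147 (by decide +kernel)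
theorem L55149 : W_10 (nat_lit 9) (nat_lit 0x200009001780084000600000000000000000000000000) (nat_lit 0x0) (nat_lit 0x2a00170000000000038001900058000400000000000000000) := T_10 (nat_lit 173) (nat_lit 123) (nat_lit 6) (nat_lit 3) (nat_lit 10) L55148 (by decide +kernel)
theorem L55150 : W_10 (nat_lit 10) (nat_lit 0x200009001780084000200000000000000000000000000) (nat_lit 0x0) (nat_lit 0x2a00170000000000038001d00078000400000000000000000) := T_10 (nat_lit 106) (nat_lit 89) (nat_lit 6) (nat_lit 3) (nat_lit 9) L55149 (by decide +kernel)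
theorem L55151 : W_10 (nat_lit 11) (nat_lit 0x200001001780084000200000000000000000000000000) (nat_lit 0x0) (nat_lit 0x2a00170018000000038001d00078000400000000000000000) := T_10 (nat_lit 159) (nat_lit 160) (nat_lit 3) (nat_lit 3) (nat_lit 8) L55150 (by decide +kernel)
theorem L55152 : W_10 (nat_lit 12) (nat_lit 0x200000001780084000200000000000000000000000000) (nat_lit 0x0) (nat_lit 0x2a00170019800000038001d00078000400000000000000000) := T_10 (nat_lit 156) (nat_lit 155) (nat_lit 1) (nat_lit 6) (nat_lit 8) L55151 (by decide +kernel)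
theorem L55153 : W_10 (nat_lit 2) (nat_lit 0x220009001780084000600000000000000000000000000) (nat_lit 0x0) (nat_lit 0x800040002000000000000000000000000000000000000000) := D_10 (nat_lit 174) (nat_lit 157) (nat_lit 191) (nat_lit 7) (nat_lit 3) (nat_lit 6) (nat_lit 7) (nat_lit 3) (nat_lit 7) (by decide +kernel)
theorem L55154 : W_10 (nat_lit 3) (nat_lit 0x200009001780084000600000000000000000000000000) (nat_lit 0x0) (nat_lit 0x800060002000000008000000000000000000000000000000) := T_10 (nat_lit 173) (nat_lit 123) (nat_lit 6) (nat_lit 3) (nat_lit 10) L55153 (by decide +kernel)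
theorem L55155 : W_10 (nat_lit 4) (nat_lit 0x200009001780084000200000000000000000000000000) (nat_lit 0x0) (nat_lit 0x800060002000000008000400020000000000000000000000) := T_10 (nat_lit 106) (nat_lit 89) (nat_lit 6) (nat_lit 3) (nat_lit 9) L55154 (by decide +kernel)
theorem L55156 : W_10 (nat_lit 5) (nat_lit 0x200001001780084000200000000000000000000000000) (nat_lit 0x0) (nat_lit 0x80006001a000000008000400020000000000000000000000) := T_10 (nat_lit 159) (nat_lit 160) (nat_lit 3) (nat_lit 3) (nat_lit 8) L55155 (by decide +kernel)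
theorem L55157 : W_10 (nat_lit 6) (nat_lit 0x200000001780084000200000000000000000000000000) (nat_lit 0x0) (nat_lit 0x80006001b800000008000400020000000000000000000000) := T_10 (nat_lit 156) (nat_lit 155) (nat_lit 1) (nat_lit 6) (nat_lit 8) L55156 (by decide +kernel)
theorem L55158 : W_10 (nat_lit 13) (nat_lit 0x200000001780084000000000000000000000000000000) (nat_lit 0x0) (nat_lit 0x2a0017001b800000038001f00078001c00080000000000000) := Q_10 (nat_lit 105) (C_10 L38121 (C_10 L55015 (C_10 L55152 (C_10 L55157 N_10)))) (by decide +kernel)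
theorem L55159 : W_10 (nat_lit 14) (nat_lit 0x200000001780080000000000000000000000000000000) (nat_lit 0x0) (nat_lit 0x2a0017001b80000003e001f00078001c00080000000000000) := T_10 (nat_lit 122) (nat_lit 121) (nat_lit 0) (nat_lit 6) (nat_lit 8) L55158 (by decide +kernel)
theorem L55160 : W_10 (nat_lit 2) (nat_lit 0x280004001780080000000000000000000000000000000) (nat_lit 0x0) (nat_lit 0x1000000000000000028000000000000000000000000000000) := D_10 (nat_lit 192) (nat_lit 125) (nat_lit 123) (nat_lit 6) (nat_lit 5) (nat_lit 11) (nat_lit 4) (nat_lit 5) (nat_lit 11) (by decide +kernel)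
theorem L55161 : W_10 (nat_lit 4) (nat_lit 0x200007001780080000000000000000000000000000000) (nat_lit 0x0) (nat_lit 0x400130008000000008000400000000000000000000000000) := T_10 (nat_lit 159) (nat_lit 176) (nat_lit 3) (nat_lit 3) (nat_lit 9) L33979 (by decide +kernel)
theorem L55162 : W_10 (nat_lit 5) (nat_lit 0x200006001780080000000000000000000000000000000) (nat_lit 0x0) (nat_lit 0x400130009800000008000400000000000000000000000000) := T_10 (nat_lit 156) (nat_lit 155) (nat_lit 2) (nat_lit 2) (nat_lit 9) L55161 (by decide +kernel)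
theorem L55163 : W_10 (nat_lit 2) (nat_lit 0x200007001780084000000000000000000000000000000) (nat_lit 0x0) (nat_lit 0x40000000000000000200010000000000000000000000) := D_10 (nat_lit 105) (nat_lit 88) (nat_lit 174) (nat_lit 7) (nat_lit 3) (nat_lit 5) (nat_lit 7) (nat_lit 3) (nat_lit 6) (by decide +kernel)
theorem L55164 : W_10 (nat_lit 3) (nat_lit 0x200006001780084000000000000000000000000000000) (nat_lit 0x0) (nat_lit 0x40001800000000000200010000000000000000000000) := T_10 (nat_lit 156) (nat_lit 155) (nat_lit 2) (nat_lit 2) (nat_lit 9) L55163 (by decide +kernel)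
theorem L55165 : W_10 (nat_lit 4) (nat_lit 0x200006001780080000000000000000000000000000000) (nat_lit 0x0) (nat_lit 0x40001800000006000200010000000000000000000000) := T_10 (nat_lit 122) (nat_lit 121) (nat_lit 0) (nat_lit 6) (nat_lit 8) L55164 (by decide +kernel)
theorem L55166 : W_10 (nat_lit 2) (nat_lit 0x240006001780084000000000000000000000000000000) (nat_lit 0x0) (nat_lit 0x8000200010000000000000000000000) := D_10 (nat_lit 105) (nat_lit 88) (nat_lit 123) (nat_lit 7) (nat_lit 3) (nat_lit 5) (nat_lit 4) (nat_lit 4) (nat_lit 10) (by decide +kernel)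
theorem L55167 : W_10 (nat_lit 3) (nat_lit 0x200006001780084000000000000000000000000000000) (nat_lit 0x0) (nat_lit 0x800040000000000008000200010000000000000000000000) := T_10 (nat_lit 174) (nat_lit 191) (nat_lit 4) (nat_lit 4) (nat_lit 11) L55166 (by decide +kernel)
theorem L55168 : W_10 (nat_lit 4) (nat_lit 0x200006001780080000000000000000000000000000000) (nat_lit 0x0) (nat_lit 0x80004000000000000e000200010000000000000000000000) := T_10 (nat_lit 122) (nat_lit 121) (nat_lit 0) (nat_lit 6) (nat_lit 8) L55167 (by decide +kernel)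
theorem L55169 : W_10 (nat_lit 4) (nat_lit 0x20000d001780080000000000000000000000000000000) (nat_lit 0x0) (nat_lit 0x400130002000000008000400000000000000000000000000) := T_10 (nat_lit 157) (nat_lit 176) (nat_lit 3) (nat_lit 3) (nat_lit 9) L33979 (by decide +kernel)
theorem L55170 : W_10 (nat_lit 5) (nat_lit 0x200005001780080000000000000000000000000000000) (nat_lit 0x0) (nat_lit 0x40013001a000000008000400000000000000000000000000) := T_10 (nat_lit 159) (nat_lit 160) (nat_lit 3) (nat_lit 3) (nat_lit 8) L55169 (by decide +kernel)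
theorem L55171 : W_10 (nat_lit 6) (nat_lit 0x200004001780080000000000000000000000000000000) (nat_lit 0x0) (nat_lit 0x40013001b800000008000400000000000000000000000000) := T_10 (nat_lit 156) (nat_lit 155) (nat_lit 1) (nat_lit 6) (nat_lit 8) L55170 (by decide +kernel)
theorem L55172 : W_10 (nat_lit 5) (nat_lit 0x20000b001780084000000000000000000000000000000) (nat_lit 0x0) (nat_lit 0x400130004000000008000600010000000000000000000000) := T_10 (nat_lit 88) (nat_lit 105) (nat_lit 7) (nat_lit 3) (nat_lit 5) L34278 (by decide +kernel)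
theorem L55173 : W_10 (nat_lit 6) (nat_lit 0x20000a001780084000000000000000000000000000000) (nat_lit 0x0) (nat_lit 0x400130005800000008000600010000000000000000000000) := T_10 (nat_lit 156) (nat_lit 155) (nat_lit 1) (nat_lit 6) (nat_lit 8) L55172 (by decide +kernel)
theorem L55174 : W_10 (nat_lit 7) (nat_lit 0x20000a001780080000000000000000000000000000000) (nat_lit 0x0) (nat_lit 0x40013000580000000e000600010000000000000000000000) := T_10 (nat_lit 122) (nat_lit 121) (nat_lit 0) (nat_lit 6) (nat_lit 8) L55173 (by decide +kernel)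
theorem L55175 : W_10 (nat_lit 8) (nat_lit 0x200002001780080000000000000000000000000000000) (nat_lit 0x0) (nat_lit 0x40013001d80000000e000600010000000000000000000000) := T_10 (nat_lit 159) (nat_lit 160) (nat_lit 3) (nat_lit 3) (nat_lit 8) L55174 (by decide +kernel)
theorem L55176 : W_10 (nat_lit 5) (nat_lit 0x200003001780080000000000000000000000000000000) (nat_lit 0x0) (nat_lit 0x40013001c000000008000400000000000000000000000000) := T_10 (nat_lit 159) (nat_lit 160) (nat_lit 3) (nat_lit 3) (nat_lit 8) L34283 (by decide +kernel)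
theorem L55177 : W_10 (nat_lit 6) (nat_lit 0x200002001780080000000000000000000000000000000) (nat_lit 0x0) (nat_lit 0x40013001d800000008000400000000000000000000000000) := T_10 (nat_lit 156) (nat_lit 155) (nat_lit 1) (nat_lit 6) (nat_lit 8) L55176 (by decide +kernel)
theorem L55178 : W_10 (nat_lit 9) (nat_lit 0x200000001780080000000000000000000000000000000) (nat_lit 0x0) (nat_lit 0xc0017001f80000000e000600010000000000000000000000) := Q_10 (nat_lit 157) (C_10 L37582 (C_10 L55175 (C_10 L55177 (C_10 L37570 N_10)))) (by decide +kernel)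
theorem L55179 : W_10 (nat_lit 2) (nat_lit 0x38000d0017800a0000000000000000000000000000000) (nat_lit 0x0) (nat_lit 0x2000000000000000010000800000000000000000000000000) := D_10 (nat_lit 124) (nat_lit 193) (nat_lit 107) (nat_lit 7) (nat_lit 5) (nat_lit 7) (nat_lit 7) (nat_lit 5) (nat_lit 6) (by decide +kernel)
theorem L55180 : W_10 (nat_lit 3) (nat_lit 0x28000d0017800a0000000000000000000000000000000) (nat_lit 0x0) (nat_lit 0x6000100000000000010000800000000000000000000000000) := T_10 (nat_lit 176) (nat_lit 194) (nat_lit 7) (nat_lit 6) (nat_lit 7) L55179 (by decide +kernel)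
theorem L55181 : W_10 (nat_lit 4) (nat_lit 0x28000c0017800a0000000000000000000000000000000) (nat_lit 0x0) (nat_lit 0x6000100001800000010000800000000000000000000000000) := T_10 (nat_lit 156) (nat_lit 155) (nat_lit 1) (nat_lit 6) (nat_lit 8) L55180 (by decide +kernel)
theorem L55182 : W_10 (nat_lit 5) (nat_lit 0x28000c001780080000000000000000000000000000000) (nat_lit 0x0) (nat_lit 0x6000100001800000030001800000000000000000000000000) := T_10 (nat_lit 125) (nat_lit 108) (nat_lit 5) (nat_lit 6) (nat_lit 6) L55181 (by decide +kernel)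
theorem L55183 : W_10 (nat_lit 6) (nat_lit 0x280004001780080000000000000000000000000000000) (nat_lit 0x0) (nat_lit 0x6000100019800000030001800000000000000000000000000) := T_10 (nat_lit 159) (nat_lit 160) (nat_lit 3) (nat_lit 3) (nat_lit 8) L55182 (by decide +kernel)
theorem L55184 : W_10 (nat_lit 2) (nat_lit 0x1000280004001780084000000000000000000000000000000) (nat_lit 0x0) (nat_lit 0x20000000000018000000000000000000000000000000000000000) := D_10 (nat_lit 159) (nat_lit 160) (nat_lit 209) (nat_lit 3) (nat_lit 3) (nat_lit 8) (nat_lit 6) (nat_lit 5) (nat_lit 12) (by decide +kernel)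
theorem L55185 : W_10 (nat_lit 3) (nat_lit 0x280004001780084000000000000000000000000000000) (nat_lit 0x0) (nat_lit 0x20001000000018000000008000000000000000000000000000000) := T_10 (nat_lit 192) (nat_lit 123) (nat_lit 4) (nat_lit 5) (nat_lit 11) L55184 (by decide +kernel)
theorem L55186 : W_10 (nat_lit 4) (nat_lit 0x280004001780080000000000000000000000000000000) (nat_lit 0x0) (nat_lit 0x2000100000001800000000e000000000000000000000000000000) := T_10 (nat_lit 122) (nat_lit 121) (nat_lit 0) (nat_lit 6) (nat_lit 8) L55185 (by decide +kernel)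
theorem L55187 : W_10 (nat_lit 7) (nat_lit 0x200004001780080000000000000000000000000000000) (nat_lit 0x0) (nat_lit 0x2000700018001980000003e001800000000000000000000000000) := Q_10 (nat_lit 175) (C_10 L55183 (C_10 L55186 (C_10 L55160 N_10))) (by decide +kernel)
theorem L55188 : W_10 (nat_lit 2) (nat_lit 0x30000d001780080000000000000000000000000000000) (nat_lit 0x0) (nat_lit 0x40002000000000000000010000000000000000000000000000000) := D_10 (nat_lit 193) (nat_lit 124) (nat_lit 210) (nat_lit 4) (nat_lit 6) (nat_lit 11) (nat_lit 4) (nat_lit 6) (nat_lit 12) (by decide +kernel)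
theorem L55189 : W_10 (nat_lit 3) (nat_lit 0x20000d001780080000000000000000000000000000000) (nat_lit 0x0) (nat_lit 0x40002000100002000000010000000000000000000000000000000) := T_10 (nat_lit 176) (nat_lit 157) (nat_lit 3) (nat_lit 3) (nat_lit 9) L55188 (by decide +kernel)
theorem L55190 : W_10 (nat_lit 4) (nat_lit 0x200005001780080000000000000000000000000000000) (nat_lit 0x0) (nat_lit 0x4000200010001a000000010000000000000000000000000000000) := T_10 (nat_lit 159) (nat_lit 160) (nat_lit 3) (nat_lit 3) (nat_lit 8) L55189 (by decide +kernel)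
theorem L55191 : W_10 (nat_lit 5) (nat_lit 0x200004001780080000000000000000000000000000000) (nat_lit 0x0) (nat_lit 0x4000200010001b800000010000000000000000000000000000000) := T_10 (nat_lit 156) (nat_lit 155) (nat_lit 1) (nat_lit 6) (nat_lit 8) L55190 (by decide +kernel)
theorem L55192 : W_10 (nat_lit 2) (nat_lit 0x200004001780084000400020000000000000000000000) (nat_lit 0x0) (nat_lit 0x1800000000000200000000000000000000000000) := D_10 (nat_lit 156) (nat_lit 105) (nat_lit 155) (nat_lit 6) (nat_lit 3) (nat_lit 9) (nat_lit 1) (nat_lit 6) (nat_lit 8) (by decide +kernel)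
theorem L55193 : W_10 (nat_lit 3) (nat_lit 0x200004001780084000400000000000000000000000000) (nat_lit 0x0) (nat_lit 0x1800000008000200020000000000000000000000) := T_10 (nat_lit 89) (nat_lit 123) (nat_lit 7) (nat_lit 4) (nat_lit 5) L55192 (by decide +kernel)
theorem L55194 : W_10 (nat_lit 4) (nat_lit 0x200004001780080000400000000000000000000000000) (nat_lit 0x0) (nat_lit 0x180000000e000200020000000000000000000000) := T_10 (nat_lit 122) (nat_lit 121) (nat_lit 0) (nat_lit 6) (nat_lit 8) L55193 (by decide +kernel)
theorem L55195 : W_10 (nat_lit 2) (nat_lit 0x200005001780084000600008000000000000000000000) (nat_lit 0x0) (nat_lit 0x2000000000000000010000400000000000000000) := D_10 (nat_lit 88) (nat_lit 157) (nat_lit 70) (nat_lit 7) (nat_lit 3) (nat_lit 5) (nat_lit 4) (nat_lit 3) (nat_lit 8) (by decide +kernel)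
theorem L55196 : W_10 (nat_lit 3) (nat_lit 0x200005001780084000600000000000000000000000000) (nat_lit 0x0) (nat_lit 0x2000000000000100018000400000000000000000) := T_10 (nat_lit 87) (nat_lit 104) (nat_lit 4) (nat_lit 3) (nat_lit 9) L55195 (by decide +kernel)
theorem L55197 : W_10 (nat_lit 4) (nat_lit 0x200005001780084000400000000000000000000000000) (nat_lit 0x0) (nat_lit 0x2000000000000300038000400000000000000000) := T_10 (nat_lit 105) (nat_lit 89) (nat_lit 6) (nat_lit 3) (nat_lit 9) L55196 (by decide +kernel)
theorem L55198 : W_10 (nat_lit 5) (nat_lit 0x200005001780080000400000000000000000000000000) (nat_lit 0x0) (nat_lit 0x2000000006000300038000400000000000000000) := T_10 (nat_lit 122) (nat_lit 121) (nat_lit 0) (nat_lit 6) (nat_lit 8) L55197 (by decide +kernel)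
theorem L55199 : W_10 (nat_lit 6) (nat_lit 0x200004001780080000400000000000000000000000000) (nat_lit 0x0) (nat_lit 0x3800000006000300038000400000000000000000) := T_10 (nat_lit 156) (nat_lit 155) (nat_lit 1) (nat_lit 6) (nat_lit 8) L55198 (by decide +kernel)
theorem L55200 : W_10 (nat_lit 2) (nat_lit 0x200004001780088000400000000000000000000000000) (nat_lit 0x0) (nat_lit 0x80002000000010000000000000000000000000000000) := D_10 (nat_lit 175) (nat_lit 157) (nat_lit 124) (nat_lit 7) (nat_lit 4) (nat_lit 6) (nat_lit 4) (nat_lit 5) (nat_lit 10) (by decide +kernel)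
theorem L55201 : W_10 (nat_lit 3) (nat_lit 0x200004001780080000400000000000000000000000000) (nat_lit 0x0) (nat_lit 0x80002000000018000000020000000000000000000000) := T_10 (nat_lit 123) (nat_lit 89) (nat_lit 7) (nat_lit 4) (nat_lit 5) L55200 (by decide +kernel)
theorem L55202 : W_10 (nat_lit 2) (nat_lit 0x1c00234007001780084000400010000000000000000000000) (nat_lit 0x0) (nat_lit 0x20000000080000000000020000000000000000000000000000000) := D_10 (nat_lit 175) (nat_lit 125) (nat_lit 209) (nat_lit 6) (nat_lit 5) (nat_lit 11) (nat_lit 4) (nat_lit 5) (nat_lit 12) (by decide +kernel)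
theorem L55203 : W_10 (nat_lit 3) (nat_lit 0xc00234007001780084000400010000000000000000000000) (nat_lit 0x0) (nat_lit 0x20003000080000000000020000000000000000000000000000000) := T_10 (nat_lit 192) (nat_lit 193) (nat_lit 0) (nat_lit 6) (nat_lit 11) L55202 (by decide +kernel)
theorem L55204 : W_10 (nat_lit 4) (nat_lit 0x400234007001780084000400010000000000000000000000) (nat_lit 0x0) (nat_lit 0x30003800080000000000020000000000000000000000000000000) := T_10 (nat_lit 191) (nat_lit 208) (nat_lit 7) (nat_lit 3) (nat_lit 8) L55203 (by decide +kernel)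
theorem L55205 : W_10 (nat_lit 5) (nat_lit 0x400234007001780084000400000000000000000000000000) (nat_lit 0x0) (nat_lit 0x30003800080000000000020000200010000000000000000000000) := T_10 (nat_lit 88) (nat_lit 105) (nat_lit 7) (nat_lit 3) (nat_lit 5) L55204 (by decide +kernel)
theorem L55206 : W_10 (nat_lit 6) (nat_lit 0x234007001780084000400000000000000000000000000) (nat_lit 0x0) (nat_lit 0x38003c00080000000000020000200010000000000000000000000) := T_10 (nat_lit 190) (nat_lit 207) (nat_lit 6) (nat_lit 3) (nat_lit 12) L55205 (by decide +kernel)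
theorem L55207 : W_10 (nat_lit 7) (nat_lit 0x230007001780084000400000000000000000000000000) (nat_lit 0x0) (nat_lit 0x38003c0008c000000000020000200010000000000000000000000) := T_10 (nat_lit 170) (nat_lit 171) (nat_lit 2) (nat_lit 0) (nat_lit 10) L55206 (by decide +kernel)
theorem L55208 : W_10 (nat_lit 8) (nat_lit 0x230005001780084000400000000000000000000000000) (nat_lit 0x0) (nat_lit 0x38003c0008c00a000000020000200010000000000000000000000) := T_10 (nat_lit 157) (nat_lit 159) (nat_lit 1) (nat_lit 6) (nat_lit 9) L55207 (by decide +kernel)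
theorem L55209 : W_10 (nat_lit 9) (nat_lit 0x220005001780084000400000000000000000000000000) (nat_lit 0x0) (nat_lit 0x38003e0009c00a000000020000200010000000000000000000000) := T_10 (nat_lit 172) (nat_lit 189) (nat_lit 5) (nat_lit 3) (nat_lit 7) L55208 (by decide +kernel)
theorem L55210 : W_10 (nat_lit 10) (nat_lit 0x200005001780084000400000000000000000000000000) (nat_lit 0x0) (nat_lit 0x38003e000bc00a000000028000200010000000000000000000000) := T_10 (nat_lit 173) (nat_lit 123) (nat_lit 6) (nat_lit 3) (nat_lit 10) L55209 (by decide +kernel)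
theorem L55211 : W_10 (nat_lit 11) (nat_lit 0x200005001780080000400000000000000000000000000) (nat_lit 0x0) (nat_lit 0x38003e000bc00a00000002e000200010000000000000000000000) := T_10 (nat_lit 122) (nat_lit 121) (nat_lit 0) (nat_lit 6) (nat_lit 8) L55210 (by decide +kernel)
theorem L55212 : W_10 (nat_lit 12) (nat_lit 0x200004001780080000400000000000000000000000000) (nat_lit 0x0) (nat_lit 0x38003e000bc00b80000002e000200010000000000000000000000) := T_10 (nat_lit 156) (nat_lit 155) (nat_lit 1) (nat_lit 6) (nat_lit 8) L55211 (by decide +kernel)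
theorem L55213 : W_10 (nat_lit 13) (nat_lit 0x200004001780080000000000000000000000000000000) (nat_lit 0x0) (nat_lit 0x38003e000bc00b80000003e000700038000400000000000000000) := Q_10 (nat_lit 106) (C_10 L55194 (C_10 L55199 (C_10 L55201 (C_10 L55212 N_10)))) (by decide +kernel)
theorem L55214 : W_10 (nat_lit 2) (nat_lit 0x8000600220005001780084000400000000000000000000000000) (nat_lit 0x0) (nat_lit 0x200010000800000000000000000000000000000000000000000000000) := D_10 (nat_lit 208) (nat_lit 191) (nat_lit 225) (nat_lit 7) (nat_lit 3) (nat_lit 8) (nat_lit 7) (nat_lit 3) (nat_lit 9) (by decide +kernel)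
theorem L55215 : W_10 (nat_lit 3) (nat_lit 0x600220005001780084000400000000000000000000000000) (nat_lit 0x0) (nat_lit 0x200018000800000002000000000000000000000000000000000000000) := T_10 (nat_lit 207) (nat_lit 157) (nat_lit 6) (nat_lit 3) (nat_lit 12) L55214 (by decide +kernel)
theorem L55216 : W_10 (nat_lit 4) (nat_lit 0x200220005001780084000400000000000000000000000000) (nat_lit 0x0) (nat_lit 0x20001c000c00000002000000000000000000000000000000000000000) := T_10 (nat_lit 190) (nat_lit 206) (nat_lit 5) (nat_lit 3) (nat_lit 8) L55215 (by decide +kernel)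
theorem L55217 : W_10 (nat_lit 5) (nat_lit 0x220005001780084000400000000000000000000000000) (nat_lit 0x0) (nat_lit 0x20001c000e00010002000000000000000000000000000000000000000) := T_10 (nat_lit 189) (nat_lit 172) (nat_lit 5) (nat_lit 3) (nat_lit 7) L55216 (by decide +kernel)
theorem L55218 : W_10 (nat_lit 6) (nat_lit 0x200005001780084000400000000000000000000000000) (nat_lit 0x0) (nat_lit 0x20001c000e00030002000000008000000000000000000000000000000) := T_10 (nat_lit 173) (nat_lit 123) (nat_lit 6) (nat_lit 3) (nat_lit 10) L55217 (by decide +kernel)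
theorem L55219 : W_10 (nat_lit 7) (nat_lit 0x200004001780084000400000000000000000000000000) (nat_lit 0x0) (nat_lit 0x20001c000e00030003800000008000000000000000000000000000000) := T_10 (nat_lit 156) (nat_lit 155) (nat_lit 1) (nat_lit 6) (nat_lit 8) L55218 (by decide +kernel)
theorem L55220 : W_10 (nat_lit 8) (nat_lit 0x200004001780080000400000000000000000000000000) (nat_lit 0x0) (nat_lit 0x20001c000e0003000380000000e000000000000000000000000000000) := T_10 (nat_lit 122) (nat_lit 121) (nat_lit 0) (nat_lit 6) (nat_lit 8) L55219 (by decide +kernel)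
theorem L55221 : W_10 (nat_lit 9) (nat_lit 0x200004001780080000000000000000000000000000000) (nat_lit 0x0) (nat_lit 0x20001c000e000b000380000001e000700038000400000000000000000) := Q_10 (nat_lit 106) (C_10 L55199 (C_10 L55201 (C_10 L55194 (C_10 L55220 N_10)))) (by decide +kernel)
theorem L55222 : W_10 (nat_lit 2) (nat_lit 0x38000c0017800a4000000000000000000000000000000) (nat_lit 0x0) (nat_lit 0x2000000000000000010000800000000000000000000000000) := D_10 (nat_lit 124) (nat_lit 193) (nat_lit 107) (nat_lit 7) (nat_lit 5) (nat_lit 7) (nat_lit 7) (nat_lit 5) (nat_lit 6) (by decide +kernel)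
theorem L55223 : W_10 (nat_lit 3) (nat_lit 0x28000c0017800a4000000000000000000000000000000) (nat_lit 0x0) (nat_lit 0x6000100000000000010000800000000000000000000000000) := T_10 (nat_lit 176) (nat_lit 194) (nat_lit 7) (nat_lit 6) (nat_lit 7) L55222 (by decide +kernel)
theorem L55224 : W_10 (nat_lit 4) (nat_lit 0x28000c0017800a0000000000000000000000000000000) (nat_lit 0x0) (nat_lit 0x6000100000000000016000800000000000000000000000000) := T_10 (nat_lit 122) (nat_lit 121) (nat_lit 0) (nat_lit 6) (nat_lit 8) L55223 (by decide +kernel)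
theorem L55225 : W_10 (nat_lit 5) (nat_lit 0x28000c001780080000000000000000000000000000000) (nat_lit 0x0) (nat_lit 0x6000100000000000036001800000000000000000000000000) := T_10 (nat_lit 125) (nat_lit 108) (nat_lit 5) (nat_lit 6) (nat_lit 6) L55224 (by decide +kernel)
theorem L55226 : W_10 (nat_lit 6) (nat_lit 0x280004001780080000000000000000000000000000000) (nat_lit 0x0) (nat_lit 0x6000100018000000036001800000000000000000000000000) := T_10 (nat_lit 159) (nat_lit 160) (nat_lit 3) (nat_lit 3) (nat_lit 8) L55225 (by decide +kernel)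
theorem L55227 : W_10 (nat_lit 7) (nat_lit 0x200004001780080000000000000000000000000000000) (nat_lit 0x0) (nat_lit 0x2000700018001800000003e001800000000000000000000000000) := Q_10 (nat_lit 175) (C_10 L55226 (C_10 L55186 (C_10 L55160 N_10))) (by decide +kernel)
theorem L55228 : W_10 (nat_lit 14) (nat_lit 0x200000001780080000000000000000000000000000000) (nat_lit 0x0) (nat_lit 0x20007c007e001bc01f80000003e001f00038000400000000000000000) := Q_10 (nat_lit 158) (C_10 L55187 (C_10 L55191 (C_10 L55213 (C_10 L55221 (C_10 L55171 (C_10 L55227 N_10)))))) (by decide +kernel)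
theorem L55229 : W_10 (nat_lit 2) (nat_lit 0x400280009001780088000400000000000000000000000000) (nat_lit 0x0) (nat_lit 0x6000000010000000000000000000000000000000) := D_10 (nat_lit 158) (nat_lit 124) (nat_lit 157) (nat_lit 4) (nat_lit 5) (nat_lit 10) (nat_lit 7) (nat_lit 4) (nat_lit 6) (by decide +kernel)
theorem L55230 : W_10 (nat_lit 3) (nat_lit 0x400280009001780088000000000000000000000000000000) (nat_lit 0x0) (nat_lit 0x6000000010000400020000000000000000000000) := T_10 (nat_lit 106) (nat_lit 89) (nat_lit 5) (nat_lit 4) (nat_lit 5) L55229 (by decide +kernel)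
theorem L55231 : W_10 (nat_lit 4) (nat_lit 0x280009001780088000000000000000000000000000000) (nat_lit 0x0) (nat_lit 0x400020006000000010000400020000000000000000000000) := T_10 (nat_lit 190) (nat_lit 173) (nat_lit 6) (nat_lit 3) (nat_lit 11) L55230 (by decide +kernel)
theorem L55232 : W_10 (nat_lit 5) (nat_lit 0x280001001780088000000000000000000000000000000) (nat_lit 0x0) (nat_lit 0x40002001e000000010000400020000000000000000000000) := T_10 (nat_lit 159) (nat_lit 160) (nat_lit 3) (nat_lit 3) (nat_lit 8) L55231 (by decide +kernel)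
theorem L55233 : W_10 (nat_lit 6) (nat_lit 0x280000001780088000000000000000000000000000000) (nat_lit 0x0) (nat_lit 0x40002001f800000010000400020000000000000000000000) := T_10 (nat_lit 156) (nat_lit 155) (nat_lit 1) (nat_lit 6) (nat_lit 8) L55232 (by decide +kernel)
theorem L55234 : W_10 (nat_lit 2) (nat_lit 0x10002a0001001780088000000000000000000000000000000) (nat_lit 0x0) (nat_lit 0x40002000000000000400000000000000000000000000) := D_10 (nat_lit 157) (nat_lit 174) (nat_lit 106) (nat_lit 7) (nat_lit 4) (nat_lit 7) (nat_lit 5) (nat_lit 4) (nat_lit 6) (by decide +kernel)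
theorem L55235 : W_10 (nat_lit 3) (nat_lit 0x1000280001001780088000000000000000000000000000000) (nat_lit 0x0) (nat_lit 0x400060002000000000000400000000000000000000000000) := T_10 (nat_lit 173) (nat_lit 190) (nat_lit 6) (nat_lit 3) (nat_lit 11) L55234 (by decide +kernel)
theorem L55236 : W_10 (nat_lit 4) (nat_lit 0x280001001780088000000000000000000000000000000) (nat_lit 0x0) (nat_lit 0x1400060006000000000000400000000000000000000000000) := T_10 (nat_lit 192) (nat_lit 158) (nat_lit 4) (nat_lit 5) (nat_lit 11) L55235 (by decide +kernel)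
theorem L55237 : W_10 (nat_lit 5) (nat_lit 0x280000001780088000000000000000000000000000000) (nat_lit 0x0) (nat_lit 0x1400060007800000000000400000000000000000000000000) := T_10 (nat_lit 156) (nat_lit 155) (nat_lit 1) (nat_lit 6) (nat_lit 8) L55236 (by decide +kernel)
theorem L55238 : W_10 (nat_lit 2) (nat_lit 0x280004001780088000000000000000000000000000000) (nat_lit 0x0) (nat_lit 0x10000400020000000000000000000000) := D_10 (nat_lit 106) (nat_lit 124) (nat_lit 89) (nat_lit 4) (nat_lit 5) (nat_lit 10) (nat_lit 7) (nat_lit 4) (nat_lit 5) (by decide +kernel)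
theorem L55239 : W_10 (nat_lit 3) (nat_lit 0x280000001780088000000000000000000000000000000) (nat_lit 0x0) (nat_lit 0x1000000004000000010000400020000000000000000000000) := T_10 (nat_lit 158) (nat_lit 192) (nat_lit 4) (nat_lit 5) (nat_lit 11) L55238 (by decide +kernel)
theorem L55240 : W_10 (nat_lit 2) (nat_lit 0x10002f8009001780088000000000000000000000000000000) (nat_lit 0x0) (nat_lit 0x380000000000000000000000000000000000000000000000) := D_10 (nat_lit 188) (nat_lit 187) (nat_lit 189) (nat_lit 1) (nat_lit 4) (nat_lit 10) (nat_lit 1) (nat_lit 5) (nat_lit 10) (by decide +kernel)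
theorem L55241 : W_10 (nat_lit 3) (nat_lit 0x10002f0009001780088000000000000000000000000000000) (nat_lit 0x0) (nat_lit 0xb80008000000000000000000000000000000000000000000) := T_10 (nat_lit 171) (nat_lit 191) (nat_lit 3) (nat_lit 1) (nat_lit 10) L55240 (by decide +kernel)
theorem L55242 : W_10 (nat_lit 4) (nat_lit 0x10002e0009001780088000000000000000000000000000000) (nat_lit 0x0) (nat_lit 0x2b80018000000000000000000000000000000000000000000) := T_10 (nat_lit 172) (nat_lit 193) (nat_lit 3) (nat_lit 2) (nat_lit 10) L55241 (by decide +kernel)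
theorem L55243 : W_10 (nat_lit 5) (nat_lit 0x10002c0009001780088000000000000000000000000000000) (nat_lit 0x0) (nat_lit 0x2f80038000000000000000000000000000000000000000000) := T_10 (nat_lit 173) (nat_lit 190) (nat_lit 6) (nat_lit 3) (nat_lit 11) L55242 (by decide +kernel)
theorem L55244 : W_10 (nat_lit 6) (nat_lit 0x1000280009001780088000000000000000000000000000000) (nat_lit 0x0) (nat_lit 0x2f80078002000000000000000000000000000000000000000) := T_10 (nat_lit 174) (nat_lit 157) (nat_lit 7) (nat_lit 4) (nat_lit 7) L55243 (by decide +kernel)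
theorem L55245 : W_10 (nat_lit 7) (nat_lit 0x1000280008001780088000000000000000000000000000000) (nat_lit 0x0) (nat_lit 0x2f80078003800000000000000000000000000000000000000) := T_10 (nat_lit 156) (nat_lit 155) (nat_lit 1) (nat_lit 6) (nat_lit 8) L55244 (by decide +kernel)
theorem L55246 : W_10 (nat_lit 8) (nat_lit 0x280008001780088000000000000000000000000000000) (nat_lit 0x0) (nat_lit 0x3f80078007800000000000000000000000000000000000000) := T_10 (nat_lit 192) (nat_lit 158) (nat_lit 4) (nat_lit 5) (nat_lit 11) L55245 (by decide +kernel)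
theorem L55247 : W_10 (nat_lit 9) (nat_lit 0x280000001780088000000000000000000000000000000) (nat_lit 0x0) (nat_lit 0x3f8007801f800000000000000000000000000000000000000) := T_10 (nat_lit 159) (nat_lit 160) (nat_lit 3) (nat_lit 3) (nat_lit 8) L55246 (by decide +kernel)
theorem L55248 : W_10 (nat_lit 2) (nat_lit 0x2a0009001780088000000000000000000000000000000) (nat_lit 0x0) (nat_lit 0x2000000000000400020000000000000000000000) := D_10 (nat_lit 106) (nat_lit 89) (nat_lit 157) (nat_lit 5) (nat_lit 4) (nat_lit 5) (nat_lit 5) (nat_lit 4) (nat_lit 6) (by decide +kernel)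
theorem L55249 : W_10 (nat_lit 3) (nat_lit 0x280009001780088000000000000000000000000000000) (nat_lit 0x0) (nat_lit 0x400020002000000000000400020000000000000000000000) := T_10 (nat_lit 173) (nat_lit 190) (nat_lit 6) (nat_lit 3) (nat_lit 11) L55248 (by decide +kernel)
theorem L55250 : W_10 (nat_lit 4) (nat_lit 0x280001001780088000000000000000000000000000000) (nat_lit 0x0) (nat_lit 0x40002001a000000000000400020000000000000000000000) := T_10 (nat_lit 159) (nat_lit 160) (nat_lit 3) (nat_lit 3) (nat_lit 8) L55249 (by decide +kernel)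
theorem L55251 : W_10 (nat_lit 5) (nat_lit 0x280000001780088000000000000000000000000000000) (nat_lit 0x0) (nat_lit 0x40002001b800000000000400020000000000000000000000) := T_10 (nat_lit 156) (nat_lit 155) (nat_lit 1) (nat_lit 6) (nat_lit 8) L55250 (by decide +kernel)
theorem L55252 : W_10 (nat_lit 10) (nat_lit 0x280000001780080000000000000000000000000000000) (nat_lit 0x0) (nat_lit 0x3f8007801f800000018000400020000000000000000000000) := Q_10 (nat_lit 123) (C_10 L55233 (C_10 L55237 (C_10 L55239 (C_10 L55247 (C_10 L55251 N_10))))) (by decide +kernel)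
theorem L55253 : W_10 (nat_lit 2) (nat_lit 0x280001001780088000400000000000000000000000000) (nat_lit 0x0) (nat_lit 0x400020002000000000000000000000000000000000000000) := D_10 (nat_lit 173) (nat_lit 190) (nat_lit 157) (nat_lit 6) (nat_lit 3) (nat_lit 11) (nat_lit 5) (nat_lit 4) (nat_lit 6) (by decide +kernel)
theorem L55254 : W_10 (nat_lit 3) (nat_lit 0x280001001780088000000000000000000000000000000) (nat_lit 0x0) (nat_lit 0x400020002000000000000400020000000000000000000000) := T_10 (nat_lit 106) (nat_lit 89) (nat_lit 5) (nat_lit 4) (nat_lit 5) L55253 (by decide +kernel)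
theorem L55255 : W_10 (nat_lit 4) (nat_lit 0x280000001780088000000000000000000000000000000) (nat_lit 0x0) (nat_lit 0x400020003800000000000400020000000000000000000000) := T_10 (nat_lit 156) (nat_lit 155) (nat_lit 1) (nat_lit 6) (nat_lit 8) L55254 (by decide +kernel)
theorem L55256 : W_10 (nat_lit 2) (nat_lit 0x14003c0009001780088000000000000000000000000000000) (nat_lit 0x0) (nat_lit 0x20002000000000000000010000000000000000000000000000000) := D_10 (nat_lit 193) (nat_lit 124) (nat_lit 209) (nat_lit 4) (nat_lit 6) (nat_lit 11) (nat_lit 5) (nat_lit 6) (nat_lit 8) (by decide +kernel)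
theorem L55257 : W_10 (nat_lit 3) (nat_lit 0x14003c0001001780088000000000000000000000000000000) (nat_lit 0x0) (nat_lit 0x20002000000008000000030000000000000000000000000000000) := T_10 (nat_lit 159) (nat_lit 125) (nat_lit 5) (nat_lit 6) (nat_lit 7) L55256 (by decide +kernel)
theorem L55258 : W_10 (nat_lit 4) (nat_lit 0x14002c0001001780088000000000000000000000000000000) (nat_lit 0x0) (nat_lit 0x20002800100008000000030000000000000000000000000000000) := T_10 (nat_lit 176) (nat_lit 191) (nat_lit 1) (nat_lit 7) (nat_lit 10) L55257 (by decide +kernel)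
theorem L55259 : W_10 (nat_lit 5) (nat_lit 0x1400280001001780088000000000000000000000000000000) (nat_lit 0x0) (nat_lit 0x2000280014000a000000030000000000000000000000000000000) := T_10 (nat_lit 174) (nat_lit 157) (nat_lit 7) (nat_lit 4) (nat_lit 7) L55258 (by decide +kernel)
theorem L55260 : W_10 (nat_lit 6) (nat_lit 0x1000280001001780088000000000000000000000000000000) (nat_lit 0x0) (nat_lit 0x20002c0016000a000000030000000000000000000000000000000) := T_10 (nat_lit 190) (nat_lit 173) (nat_lit 6) (nat_lit 3) (nat_lit 11) L55259 (by decide +kernel)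
theorem L55261 : W_10 (nat_lit 7) (nat_lit 0x280001001780088000000000000000000000000000000) (nat_lit 0x0) (nat_lit 0x20003c0016000e000000030000000000000000000000000000000) := T_10 (nat_lit 192) (nat_lit 158) (nat_lit 4) (nat_lit 5) (nat_lit 11) L55260 (by decide +kernel)
theorem L55262 : W_10 (nat_lit 8) (nat_lit 0x280000001780088000000000000000000000000000000) (nat_lit 0x0) (nat_lit 0x20003c0016000f800000030000000000000000000000000000000) := T_10 (nat_lit 156) (nat_lit 155) (nat_lit 1) (nat_lit 6) (nat_lit 8) L55261 (by decide +kernel)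
theorem L55263 : W_10 (nat_lit 9) (nat_lit 0x280000001780080000000000000000000000000000000) (nat_lit 0x0) (nat_lit 0x20003c0016000f800000038000400020000000000000000000000) := Q_10 (nat_lit 123) (C_10 L55255 (C_10 L55239 (C_10 L55262 N_10))) (by decide +kernel)
theorem L55264 : W_10 (nat_lit 2) (nat_lit 0x20000e002a000f001780080000000000000000000000000000000) (nat_lit 0x0) (nat_lit 0x100040000000000010000000000000000000000000000000) := D_10 (nat_lit 174) (nat_lit 124) (nat_lit 188) (nat_lit 6) (nat_lit 4) (nat_lit 11) (nat_lit 2) (nat_lit 1) (nat_lit 11) (by decide +kernel)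
theorem L55265 : W_10 (nat_lit 3) (nat_lit 0x200006002a000f001780080000000000000000000000000000000) (nat_lit 0x0) (nat_lit 0x10000900040000000000010000000000000000000000000000000) := T_10 (nat_lit 191) (nat_lit 208) (nat_lit 7) (nat_lit 3) (nat_lit 8) L55264 (by decide +kernel)
theorem L55266 : W_10 (nat_lit 4) (nat_lit 0x200004002a000f001780080000000000000000000000000000000) (nat_lit 0x0) (nat_lit 0x14000b00040000000000010000000000000000000000000000000) := T_10 (nat_lit 189) (nat_lit 206) (nat_lit 5) (nat_lit 3) (nat_lit 8) L55265 (by decide +kernel)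
theorem L55267 : W_10 (nat_lit 5) (nat_lit 0x200000002a000f001780080000000000000000000000000000000) (nat_lit 0x0) (nat_lit 0x1c000f00040000000000010000000000000000000000000000000) := T_10 (nat_lit 190) (nat_lit 207) (nat_lit 6) (nat_lit 3) (nat_lit 12) L55266 (by decide +kernel)
theorem L55268 : W_10 (nat_lit 6) (nat_lit 0x2a000f001780080000000000000000000000000000000) (nat_lit 0x0) (nat_lit 0x3c001f00040000000000010000000000000000000000000000000) := T_10 (nat_lit 209) (nat_lit 192) (nat_lit 6) (nat_lit 5) (nat_lit 12) L55267 (by decide +kernel)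
theorem L55269 : W_10 (nat_lit 7) (nat_lit 0x28000f001780080000000000000000000000000000000) (nat_lit 0x0) (nat_lit 0x3c001f00070000000000010000000000000000000000000000000) := T_10 (nat_lit 173) (nat_lit 172) (nat_lit 1) (nat_lit 6) (nat_lit 9) L55268 (by decide +kernel)
theorem L55270 : W_10 (nat_lit 8) (nat_lit 0x28000d001780080000000000000000000000000000000) (nat_lit 0x0) (nat_lit 0x3c001f00170002000000010000000000000000000000000000000) := T_10 (nat_lit 157) (nat_lit 176) (nat_lit 3) (nat_lit 3) (nat_lit 9) L55269 (by decide +kernel)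
theorem L55271 : W_10 (nat_lit 9) (nat_lit 0x280005001780080000000000000000000000000000000) (nat_lit 0x0) (nat_lit 0x3c001f0017001a000000010000000000000000000000000000000) := T_10 (nat_lit 159) (nat_lit 160) (nat_lit 3) (nat_lit 3) (nat_lit 8) L55270 (by decide +kernel)
theorem L55272 : W_10 (nat_lit 10) (nat_lit 0x280004001780080000000000000000000000000000000) (nat_lit 0x0) (nat_lit 0x3c001f0017001b800000010000000000000000000000000000000) := T_10 (nat_lit 156) (nat_lit 155) (nat_lit 1) (nat_lit 6) (nat_lit 8) L55271 (by decide +kernel)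
theorem L55273 : W_10 (nat_lit 2) (nat_lit 0x1000280004001780080000000000000000000000000000000) (nat_lit 0x0) (nat_lit 0x2000000000000a000000000000000000000000000000000000000) := D_10 (nat_lit 209) (nat_lit 157) (nat_lit 159) (nat_lit 4) (nat_lit 5) (nat_lit 12) (nat_lit 6) (nat_lit 5) (nat_lit 12) (by decide +kernel)
theorem L55274 : W_10 (nat_lit 3) (nat_lit 0x280004001780080000000000000000000000000000000) (nat_lit 0x0) (nat_lit 0x2000100000000a000000020000000000000000000000000000000) := T_10 (nat_lit 192) (nat_lit 125) (nat_lit 6) (nat_lit 5) (nat_lit 11) L55273 (by decide +kernel)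
theorem L55275 : W_10 (nat_lit 2) (nat_lit 0x1800280004001780090000000000000000000000000000000) (nat_lit 0x0) (nat_lit 0x40002000100000000000000000000000000000000000000000000) := D_10 (nat_lit 193) (nat_lit 210) (nat_lit 176) (nat_lit 7) (nat_lit 5) (nat_lit 8) (nat_lit 7) (nat_lit 5) (nat_lit 7) (by decide +kernel)
theorem L55276 : W_10 (nat_lit 3) (nat_lit 0x1800280004001780080000000000000000000000000000000) (nat_lit 0x0) (nat_lit 0x40002000140000000000010000000000000000000000000000000) := T_10 (nat_lit 124) (nat_lit 174) (nat_lit 5) (nat_lit 5) (nat_lit 7) L55275 (by decide +kernel)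
theorem L55277 : W_10 (nat_lit 4) (nat_lit 0x1000280004001780080000000000000000000000000000000) (nat_lit 0x0) (nat_lit 0x50002800140000000000010000000000000000000000000000000) := T_10 (nat_lit 191) (nat_lit 208) (nat_lit 5) (nat_lit 5) (nat_lit 8) L55276 (by decide +kernel)
theorem L55278 : W_10 (nat_lit 5) (nat_lit 0x280004001780080000000000000000000000000000000) (nat_lit 0x0) (nat_lit 0x50003800140000000000030000000000000000000000000000000) := T_10 (nat_lit 192) (nat_lit 125) (nat_lit 6) (nat_lit 5) (nat_lit 11) L55277 (by decide +kernel)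
theorem L55279 : W_10 (nat_lit 11) (nat_lit 0x280000001780080000000000000000000000000000000) (nat_lit 0x0) (nat_lit 0x7c007f0017001f800000030001800000000000000000000000000) := Q_10 (nat_lit 158) (C_10 L55183 (C_10 L55272 (C_10 L55274 (C_10 L55278 N_10)))) (by decide +kernel)
theorem L55280 : W_10 (nat_lit 2) (nat_lit 0x28000c001780080000000000000000000000000000000) (nat_lit 0x0) (nat_lit 0x20001000000000000000008000000000000000000000000000000) := D_10 (nat_lit 192) (nat_lit 209) (nat_lit 123) (nat_lit 6) (nat_lit 5) (nat_lit 12) (nat_lit 4) (nat_lit 5) (nat_lit 11) (by decide +kernel)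
theorem L55281 : W_10 (nat_lit 3) (nat_lit 0x280004001780080000000000000000000000000000000) (nat_lit 0x0) (nat_lit 0x20001000000018000000008000000000000000000000000000000) := T_10 (nat_lit 159) (nat_lit 160) (nat_lit 3) (nat_lit 3) (nat_lit 8) L55280 (by decide +kernel)
theorem L55282 : W_10 (nat_lit 7) (nat_lit 0x280000001780080000000000000000000000000000000) (nat_lit 0x0) (nat_lit 0x7000780014001d800000038001800000000000000000000000000) := Q_10 (nat_lit 158) (C_10 L55183 (C_10 L55278 (C_10 L55281 N_10))) (by decide +kernel)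
theorem L55283 : W_10 (nat_lit 2) (nat_lit 0x40002c001e002c0001001780088000000000000000000000000000000) (nat_lit 0x0) (nat_lit 0x10000800010000000000000000000000000000000000000000000000000000) := D_10 (nat_lit 227) (nat_lit 208) (nat_lit 244) (nat_lit 3) (nat_lit 2) (nat_lit 12) (nat_lit 7) (nat_lit 5) (nat_lit 10) (by decide +kernel)
theorem L55284 : W_10 (nat_lit 3) (nat_lit 0x2c001e002c0001001780088000000000000000000000000000000) (nat_lit 0x0) (nat_lit 0x18000c00010000000000000000000000000000000000000000000000000000) := T_10 (nat_lit 226) (nat_lit 243) (nat_lit 4) (nat_lit 5) (nat_lit 14) L55283 (by decide +kernel)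
theorem L55285 : W_10 (nat_lit 4) (nat_lit 0x24001e002c0001001780088000000000000000000000000000000) (nat_lit 0x0) (nat_lit 0x18000c00018002000000000000000000000000000000000000000000000000) := T_10 (nat_lit 207) (nat_lit 193) (nat_lit 1) (nat_lit 6) (nat_lit 11) L55284 (by decide +kernel)
theorem L55286 : W_10 (nat_lit 5) (nat_lit 0x4001e002c0001001780088000000000000000000000000000000) (nat_lit 0x0) (nat_lit 0x18000c00078002000000000000000000000000000000000000000000000000) := T_10 (nat_lit 209) (nat_lit 210) (nat_lit 3) (nat_lit 2) (nat_lit 11) L55285 (by decide +kernel)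
theorem L55287 : W_10 (nat_lit 6) (nat_lit 0x1e002c0001001780088000000000000000000000000000000) (nat_lit 0x0) (nat_lit 0x18000c0007e002000000000000000000000000000000000000000000000000) := T_10 (nat_lit 206) (nat_lit 205) (nat_lit 1) (nat_lit 5) (nat_lit 11) L55286 (by decide +kernel)
theorem L55288 : W_10 (nat_lit 7) (nat_lit 0x1c002c0001001780088000000000000000000000000000000) (nat_lit 0x0) (nat_lit 0x18000c0007e002300000000000000000000000000000000000000000000000) := T_10 (nat_lit 189) (nat_lit 188) (nat_lit 2) (nat_lit 1) (nat_lit 11) L55287 (by decide +kernel)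
theorem L55289 : W_10 (nat_lit 8) (nat_lit 0x14002c0001001780088000000000000000000000000000000) (nat_lit 0x0) (nat_lit 0x18000c0007e002b00100000000000000000000000000000000000000000000) := T_10 (nat_lit 191) (nat_lit 176) (nat_lit 1) (nat_lit 7) (nat_lit 10) L55288 (by decide +kernel)
theorem L55290 : W_10 (nat_lit 9) (nat_lit 0x1400280001001780088000000000000000000000000000000) (nat_lit 0x0) (nat_lit 0x18000c0007e002b00140002000000000000000000000000000000000000000) := T_10 (nat_lit 174) (nat_lit 157) (nat_lit 7) (nat_lit 4) (nat_lit 7) L55289 (by decide +kernel)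
theorem L55291 : W_10 (nat_lit 10) (nat_lit 0x1000280001001780088000000000000000000000000000000) (nat_lit 0x0) (nat_lit 0x18000c0007e002f00160002000000000000000000000000000000000000000) := T_10 (nat_lit 190) (nat_lit 173) (nat_lit 6) (nat_lit 3) (nat_lit 11) L55290 (by decide +kernel)
theorem L55292 : W_10 (nat_lit 11) (nat_lit 0x280001001780088000000000000000000000000000000) (nat_lit 0x0) (nat_lit 0x18000c0007e003f00160006000000000000000000000000000000000000000) := T_10 (nat_lit 192) (nat_lit 158) (nat_lit 4) (nat_lit 5) (nat_lit 11) L55291 (by decide +kernel)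
theorem L55293 : W_10 (nat_lit 12) (nat_lit 0x280000001780088000000000000000000000000000000) (nat_lit 0x0) (nat_lit 0x18000c0007e003f00160007800000000000000000000000000000000000000) := T_10 (nat_lit 156) (nat_lit 155) (nat_lit 1) (nat_lit 6) (nat_lit 8) L55292 (by decide +kernel)
theorem L55294 : W_10 (nat_lit 13) (nat_lit 0x280000001780080000000000000000000000000000000) (nat_lit 0x0) (nat_lit 0x18000c0007e003f00160007800000018000400020000000000000000000000) := Q_10 (nat_lit 123) (C_10 L55255 (C_10 L55239 (C_10 L55293 N_10))) (by decide +kernel)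
theorem L55295 : W_10 (nat_lit 2) (nat_lit 0x2a000f001780080000000000000000000000000000000) (nat_lit 0x0) (nat_lit 0x400000000000000008000400000000000000000000000000) := D_10 (nat_lit 123) (nat_lit 106) (nat_lit 190) (nat_lit 7) (nat_lit 4) (nat_lit 6) (nat_lit 6) (nat_lit 3) (nat_lit 11) (by decide +kernel)
theorem L55296 : W_10 (nat_lit 3) (nat_lit 0x28000f001780080000000000000000000000000000000) (nat_lit 0x0) (nat_lit 0x400030000000000008000400000000000000000000000000) := T_10 (nat_lit 173) (nat_lit 172) (nat_lit 1) (nat_lit 6) (nat_lit 9) L55295 (by decide +kernel)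
theorem L55297 : W_10 (nat_lit 4) (nat_lit 0x28000d001780080000000000000000000000000000000) (nat_lit 0x0) (nat_lit 0x400130002000000008000400000000000000000000000000) := T_10 (nat_lit 157) (nat_lit 176) (nat_lit 3) (nat_lit 3) (nat_lit 9) L55296 (by decide +kernel)
theorem L55298 : W_10 (nat_lit 5) (nat_lit 0x280005001780080000000000000000000000000000000) (nat_lit 0x0) (nat_lit 0x40013001a000000008000400000000000000000000000000) := T_10 (nat_lit 159) (nat_lit 160) (nat_lit 3) (nat_lit 3) (nat_lit 8) L55297 (by decide +kernel)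
theorem L55299 : W_10 (nat_lit 6) (nat_lit 0x280004001780080000000000000000000000000000000) (nat_lit 0x0) (nat_lit 0x40013001b800000008000400000000000000000000000000) := T_10 (nat_lit 156) (nat_lit 155) (nat_lit 1) (nat_lit 6) (nat_lit 8) L55298 (by decide +kernel)
theorem L55300 : W_10 (nat_lit 7) (nat_lit 0x280000001780080000000000000000000000000000000) (nat_lit 0x0) (nat_lit 0x2000140013001f800000028000400000000000000000000000000) := Q_10 (nat_lit 158) (C_10 L55299 (C_10 L55274 (C_10 L55281 (C_10 L55160 N_10)))) (by decide +kernel)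
theorem L55301 : W_10 (nat_lit 2) (nat_lit 0x3c0009001780080000000000000000000000000000000) (nat_lit 0x0) (nat_lit 0xc000000000000000020000000000000000000000000000000) := D_10 (nat_lit 194) (nat_lit 125) (nat_lit 195) (nat_lit 7) (nat_lit 6) (nat_lit 7) (nat_lit 3) (nat_lit 4) (nat_lit 10) (by decide +kernel)
theorem L55302 : W_10 (nat_lit 3) (nat_lit 0x380009001780080000000000000000000000000000000) (nat_lit 0x0) (nat_lit 0xc000040002000000020000000000000000000000000000000) := T_10 (nat_lit 174) (nat_lit 157) (nat_lit 0) (nat_lit 7) (nat_lit 10) L55301 (by decide +kernel)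
theorem L55303 : W_10 (nat_lit 4) (nat_lit 0x380008001780080000000000000000000000000000000) (nat_lit 0x0) (nat_lit 0xc000040003800000020000000000000000000000000000000) := T_10 (nat_lit 156) (nat_lit 155) (nat_lit 1) (nat_lit 6) (nat_lit 8) L55302 (by decide +kernel)
theorem L55304 : W_10 (nat_lit 5) (nat_lit 0x380000001780080000000000000000000000000000000) (nat_lit 0x0) (nat_lit 0xc00004001b800000020000000000000000000000000000000) := T_10 (nat_lit 159) (nat_lit 160) (nat_lit 3) (nat_lit 3) (nat_lit 8) L55303 (by decide +kernel)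
theorem L55305 : W_10 (nat_lit 2) (nat_lit 0x3c0001001780080000000000000000000000000000000) (nat_lit 0x0) (nat_lit 0x38000000000000000000000000000000000000000) := D_10 (nat_lit 160) (nat_lit 159) (nat_lit 161) (nat_lit 3) (nat_lit 3) (nat_lit 8) (nat_lit 2) (nat_lit 4) (nat_lit 10) (by decide +kernel)
theorem L55306 : W_10 (nat_lit 3) (nat_lit 0x380001001780080000000000000000000000000000000) (nat_lit 0x0) (nat_lit 0x4003a000000000000000000000000000000000000000) := T_10 (nat_lit 174) (nat_lit 157) (nat_lit 0) (nat_lit 7) (nat_lit 10) L55305 (by decide +kernel)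
theorem L55307 : W_10 (nat_lit 4) (nat_lit 0x380000001780080000000000000000000000000000000) (nat_lit 0x0) (nat_lit 0x4003b800000000000000000000000000000000000000) := T_10 (nat_lit 156) (nat_lit 155) (nat_lit 1) (nat_lit 6) (nat_lit 8) L55306 (by decide +kernel)
theorem L55308 : W_10 (nat_lit 2) (nat_lit 0x68003c0001001780080000000000000000000000000000000) (nat_lit 0x0) (nat_lit 0x80000000000008000000020000000000000000000000000000000) := D_10 (nat_lit 159) (nat_lit 211) (nat_lit 125) (nat_lit 7) (nat_lit 6) (nat_lit 8) (nat_lit 7) (nat_lit 6) (nat_lit 7) (by decide +kernel)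
theorem L55309 : W_10 (nat_lit 3) (nat_lit 0x48003c0001001780080000000000000000000000000000000) (nat_lit 0x0) (nat_lit 0x80002000020008000000020000000000000000000000000000000) := T_10 (nat_lit 193) (nat_lit 173) (nat_lit 3) (nat_lit 3) (nat_lit 10) L55308 (by decide +kernel)
theorem L55310 : W_10 (nat_lit 4) (nat_lit 0x8003c0001001780080000000000000000000000000000000) (nat_lit 0x0) (nat_lit 0x8000e000020008000000020000000000000000000000000000000) := T_10 (nat_lit 194) (nat_lit 195) (nat_lit 3) (nat_lit 4) (nat_lit 10) L55309 (by decide +kernel)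
theorem L55311 : W_10 (nat_lit 5) (nat_lit 0x3c0001001780080000000000000000000000000000000) (nat_lit 0x0) (nat_lit 0x8000ec00020008000000020000000000000000000000000000000) := T_10 (nat_lit 191) (nat_lit 190) (nat_lit 1) (nat_lit 7) (nat_lit 10) L55310 (by decide +kernel)
theorem L55312 : W_10 (nat_lit 6) (nat_lit 0x380001001780080000000000000000000000000000000) (nat_lit 0x0) (nat_lit 0x8000ec0006000a000000020000000000000000000000000000000) := T_10 (nat_lit 174) (nat_lit 157) (nat_lit 0) (nat_lit 7) (nat_lit 10) L55311 (by decide +kernel)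
theorem L55313 : W_10 (nat_lit 7) (nat_lit 0x380000001780080000000000000000000000000000000) (nat_lit 0x0) (nat_lit 0x8000ec0006000b800000020000000000000000000000000000000) := T_10 (nat_lit 156) (nat_lit 155) (nat_lit 1) (nat_lit 6) (nat_lit 8) L55312 (by decide +kernel)
theorem L55314 : W_10 (nat_lit 2) (nat_lit 0x380009001780080000000000000000000000000000000) (nat_lit 0x0) (nat_lit 0x5000000000000000020000000000000000000000000000000) := D_10 (nat_lit 125) (nat_lit 192) (nat_lit 194) (nat_lit 5) (nat_lit 6) (nat_lit 7) (nat_lit 7) (nat_lit 6) (nat_lit 7) (by decide +kernel)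
theorem L55315 : W_10 (nat_lit 3) (nat_lit 0x380001001780080000000000000000000000000000000) (nat_lit 0x0) (nat_lit 0x5000000018000000020000000000000000000000000000000) := T_10 (nat_lit 159) (nat_lit 160) (nat_lit 3) (nat_lit 3) (nat_lit 8) L55314 (by decide +kernel)
theorem L55316 : W_10 (nat_lit 4) (nat_lit 0x380000001780080000000000000000000000000000000) (nat_lit 0x0) (nat_lit 0x5000000019800000020000000000000000000000000000000) := T_10 (nat_lit 156) (nat_lit 155) (nat_lit 1) (nat_lit 6) (nat_lit 8) L55315 (by decide +kernel)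
theorem L55317 : W_10 (nat_lit 2) (nat_lit 0x4003c0001001780080000000000000000000000000000000) (nat_lit 0x0) (nat_lit 0x200020000000000008000000000000000000000000000000) := D_10 (nat_lit 173) (nat_lit 189) (nat_lit 123) (nat_lit 1) (nat_lit 6) (nat_lit 10) (nat_lit 6) (nat_lit 3) (nat_lit 11) (by decide +kernel)
theorem L55318 : W_10 (nat_lit 3) (nat_lit 0x3c0001001780080000000000000000000000000000000) (nat_lit 0x0) (nat_lit 0xe00020000000000008000000000000000000000000000000) := T_10 (nat_lit 190) (nat_lit 191) (nat_lit 1) (nat_lit 7) (nat_lit 10) L55317 (by decide +kernel)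
theorem L55319 : W_10 (nat_lit 4) (nat_lit 0x380001001780080000000000000000000000000000000) (nat_lit 0x0) (nat_lit 0xe00060002000000008000000000000000000000000000000) := T_10 (nat_lit 174) (nat_lit 157) (nat_lit 0) (nat_lit 7) (nat_lit 10) L55318 (by decide +kernel)
theorem L55320 : W_10 (nat_lit 5) (nat_lit 0x380000001780080000000000000000000000000000000) (nat_lit 0x0) (nat_lit 0xe00060003800000008000000000000000000000000000000) := T_10 (nat_lit 156) (nat_lit 155) (nat_lit 1) (nat_lit 6) (nat_lit 8) L55319 (by decide +kernel)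
theorem L55321 : W_10 (nat_lit 2) (nat_lit 0x380008001780080000000000000000000000000000000) (nat_lit 0x0) (nat_lit 0x5000000000000000020000000000000000000000000000000) := D_10 (nat_lit 125) (nat_lit 192) (nat_lit 194) (nat_lit 5) (nat_lit 6) (nat_lit 7) (nat_lit 7) (nat_lit 6) (nat_lit 7) (by decide +kernel)
theorem L55322 : W_10 (nat_lit 3) (nat_lit 0x380000001780080000000000000000000000000000000) (nat_lit 0x0) (nat_lit 0x5000000018000000020000000000000000000000000000000) := T_10 (nat_lit 159) (nat_lit 160) (nat_lit 3) (nat_lit 3) (nat_lit 8) L55321 (by decide +kernel)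
theorem L55323 : W_10 (nat_lit 8) (nat_lit 0x280000001780080000000000000000000000000000000) (nat_lit 0x0) (nat_lit 0x8000fe0016003b800000028000000000000000000000000000000) := Q_10 (nat_lit 176) (C_10 L55304 (C_10 L55307 (C_10 L55313 (C_10 L55316 (C_10 L55320 (C_10 L55322 N_10)))))) (by decide +kernel)
theorem L55324 : W_10 (nat_lit 2) (nat_lit 0x38000c0017800a0000000000000000000000000000000) (nat_lit 0x0) (nat_lit 0x2000000000000000010000800000000000000000000000000) := D_10 (nat_lit 124) (nat_lit 193) (nat_lit 107) (nat_lit 7) (nat_lit 5) (nat_lit 7) (nat_lit 7) (nat_lit 5) (nat_lit 6) (by decide +kernel)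
theorem L55325 : W_10 (nat_lit 3) (nat_lit 0x28000c0017800a0000000000000000000000000000000) (nat_lit 0x0) (nat_lit 0x6000100000000000010000800000000000000000000000000) := T_10 (nat_lit 176) (nat_lit 194) (nat_lit 7) (nat_lit 6) (nat_lit 7) L55324 (by decide +kernel)
theorem L55326 : W_10 (nat_lit 4) (nat_lit 0x28000c001780080000000000000000000000000000000) (nat_lit 0x0) (nat_lit 0x6000100000000000030001800000000000000000000000000) := T_10 (nat_lit 125) (nat_lit 108) (nat_lit 5) (nat_lit 6) (nat_lit 6) L55325 (by decide +kernel)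
theorem L55327 : W_10 (nat_lit 5) (nat_lit 0x280004001780080000000000000000000000000000000) (nat_lit 0x0) (nat_lit 0x6000100018000000030001800000000000000000000000000) := T_10 (nat_lit 159) (nat_lit 160) (nat_lit 3) (nat_lit 3) (nat_lit 8) L55326 (by decide +kernel)
theorem L55328 : W_10 (nat_lit 6) (nat_lit 0x280000001780080000000000000000000000000000000) (nat_lit 0x0) (nat_lit 0x7000780014001c000000038001800000000000000000000000000) := Q_10 (nat_lit 158) (C_10 L55327 (C_10 L55281 (C_10 L55278 N_10))) (by decide +kernel)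
theorem L55329 : W_10 (nat_lit 2) (nat_lit 0x2000380009001780080000000000000000000000000000000) (nat_lit 0x0) (nat_lit 0x80004000000000000000020000000000000000000000000000000) := D_10 (nat_lit 194) (nat_lit 125) (nat_lit 211) (nat_lit 7) (nat_lit 6) (nat_lit 7) (nat_lit 7) (nat_lit 6) (nat_lit 8) (by decide +kernel)
theorem L55330 : W_10 (nat_lit 3) (nat_lit 0x380009001780080000000000000000000000000000000) (nat_lit 0x0) (nat_lit 0x80006000000000000000030000000000000000000000000000000) := T_10 (nat_lit 193) (nat_lit 124) (nat_lit 4) (nat_lit 6) (nat_lit 11) L55329 (by decide +kernel)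
theorem L55331 : W_10 (nat_lit 4) (nat_lit 0x380001001780080000000000000000000000000000000) (nat_lit 0x0) (nat_lit 0x80006000000018000000030000000000000000000000000000000) := T_10 (nat_lit 159) (nat_lit 160) (nat_lit 3) (nat_lit 3) (nat_lit 8) L55330 (by decide +kernel)
theorem L55332 : W_10 (nat_lit 5) (nat_lit 0x380000001780080000000000000000000000000000000) (nat_lit 0x0) (nat_lit 0x80006000000019800000030000000000000000000000000000000) := T_10 (nat_lit 156) (nat_lit 155) (nat_lit 1) (nat_lit 6) (nat_lit 8) L55331 (by decide +kernel)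
theorem L55333 : W_10 (nat_lit 2) (nat_lit 0x2000380008001780080000000000000000000000000000000) (nat_lit 0x0) (nat_lit 0x80004000000000000000020000000000000000000000000000000) := D_10 (nat_lit 194) (nat_lit 125) (nat_lit 211) (nat_lit 7) (nat_lit 6) (nat_lit 7) (nat_lit 7) (nat_lit 6) (nat_lit 8) (by decide +kernel)
theorem L55334 : W_10 (nat_lit 3) (nat_lit 0x380008001780080000000000000000000000000000000) (nat_lit 0x0) (nat_lit 0x80006000000000000000030000000000000000000000000000000) := T_10 (nat_lit 193) (nat_lit 124) (nat_lit 4) (nat_lit 6) (nat_lit 11) L55333 (by decide +kernel)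
theorem L55335 : W_10 (nat_lit 4) (nat_lit 0x380000001780080000000000000000000000000000000) (nat_lit 0x0) (nat_lit 0x80006000000018000000030000000000000000000000000000000) := T_10 (nat_lit 159) (nat_lit 160) (nat_lit 3) (nat_lit 3) (nat_lit 8) L55334 (by decide +kernel)
theorem L55336 : W_10 (nat_lit 8) (nat_lit 0x280000001780080000000000000000000000000000000) (nat_lit 0x0) (nat_lit 0x8000ee0016001b800000038000000000000000000000000000000) := Q_10 (nat_lit 176) (C_10 L55320 (C_10 L55313 (C_10 L55332 (C_10 L55335 N_10)))) (by decide +kernel)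
theorem L55337 : W_10 (nat_lit 14) (nat_lit 0x200000001780080000000000000000000000000000000) (nat_lit 0x0) (nat_lit 0x18000c000fe00ff801f803f800000038001c00020000000000000000000000) := Q_10 (nat_lit 175) (C_10 L55252 (C_10 L55263 (C_10 L55279 (C_10 L55282 (C_10 L55294 (C_10 L55300 (C_10 L55323 (C_10 L55328 (C_10 L55336 N_10))))))))) (by decide +kernel)
theorem L55338 : W_10 (nat_lit 2) (nat_lit 0x3000080017800a4000000000000000000000000000000) (nat_lit 0x0) (nat_lit 0x2000000000000000010000800000000000000000000000000) := D_10 (nat_lit 124) (nat_lit 107) (nat_lit 193) (nat_lit 4) (nat_lit 6) (nat_lit 10) (nat_lit 4) (nat_lit 6) (nat_lit 11) (by decide +kernel)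
theorem L55339 : W_10 (nat_lit 3) (nat_lit 0x300008001780084000000000000000000000000000000) (nat_lit 0x0) (nat_lit 0x6000000000000000030000800000000000000000000000000) := T_10 (nat_lit 125) (nat_lit 194) (nat_lit 7) (nat_lit 6) (nat_lit 7) L55338 (by decide +kernel)
theorem L55340 : W_10 (nat_lit 4) (nat_lit 0x300008001780080000000000000000000000000000000) (nat_lit 0x0) (nat_lit 0x6000000000000000036000800000000000000000000000000) := T_10 (nat_lit 122) (nat_lit 121) (nat_lit 0) (nat_lit 6) (nat_lit 8) L55339 (by decide +kernel)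
theorem L55341 : W_10 (nat_lit 2) (nat_lit 0x740038000c001780084000000000000000000000000000000) (nat_lit 0x0) (nat_lit 0x8000060000000000000000000000000000000000000000000) := D_10 (nat_lit 174) (nat_lit 195) (nat_lit 173) (nat_lit 3) (nat_lit 4) (nat_lit 10) (nat_lit 3) (nat_lit 3) (nat_lit 10) (by decide +kernel)
theorem L55342 : W_10 (nat_lit 3) (nat_lit 0x740030000c001780084000000000000000000000000000000) (nat_lit 0x0) (nat_lit 0x80000e0000000000008000000000000000000000000000000) := T_10 (nat_lit 175) (nat_lit 123) (nat_lit 4) (nat_lit 5) (nat_lit 11) L55341 (by decide +kernel)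
theorem L55343 : W_10 (nat_lit 4) (nat_lit 0x7400300008001780084000000000000000000000000000000) (nat_lit 0x0) (nat_lit 0x400080000e0004000000008000000000000000000000000000000) := T_10 (nat_lit 158) (nat_lit 210) (nat_lit 4) (nat_lit 6) (nat_lit 12) L55342 (by decide +kernel)
theorem L55344 : W_10 (nat_lit 5) (nat_lit 0x7000300008001780084000000000000000000000000000000) (nat_lit 0x0) (nat_lit 0x40008c000e0004000000008000000000000000000000000000000) := T_10 (nat_lit 190) (nat_lit 191) (nat_lit 2) (nat_lit 3) (nat_lit 11) L55343 (by decide +kernel)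
theorem L55345 : W_10 (nat_lit 6) (nat_lit 0x6000300008001780084000000000000000000000000000000) (nat_lit 0x0) (nat_lit 0x60009c000e0004000000008000000000000000000000000000000) := T_10 (nat_lit 192) (nat_lit 209) (nat_lit 5) (nat_lit 6) (nat_lit 8) L55344 (by decide +kernel)
theorem L55346 : W_10 (nat_lit 7) (nat_lit 0x2000300008001780084000000000000000000000000000000) (nat_lit 0x0) (nat_lit 0xe000dc000e0004000000008000000000000000000000000000000) := T_10 (nat_lit 194) (nat_lit 211) (nat_lit 7) (nat_lit 6) (nat_lit 8) L55345 (by decide +kernel)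
theorem L55347 : W_10 (nat_lit 8) (nat_lit 0x2000300008001780080000000000000000000000000000000) (nat_lit 0x0) (nat_lit 0xe000dc000e000400000000e000000000000000000000000000000) := T_10 (nat_lit 122) (nat_lit 121) (nat_lit 0) (nat_lit 6) (nat_lit 8) L55346 (by decide +kernel)
theorem L55348 : W_10 (nat_lit 9) (nat_lit 0x300008001780080000000000000000000000000000000) (nat_lit 0x0) (nat_lit 0xe000fc000e000400000001e000000000000000000000000000000) := T_10 (nat_lit 193) (nat_lit 124) (nat_lit 4) (nat_lit 6) (nat_lit 11) L55347 (by decide +kernel)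
theorem L55349 : W_10 (nat_lit 5) (nat_lit 0x3800080017800a0003800000000000000000000000000) (nat_lit 0x0) (nat_lit 0x200000000e000600038000000000000000000000) := T_10 (nat_lit 122) (nat_lit 121) (nat_lit 0) (nat_lit 6) (nat_lit 8) L34289 (by decide +kernel)
theorem L55350 : W_10 (nat_lit 6) (nat_lit 0x3800080017800a0003000000000000000000000000000) (nat_lit 0x0) (nat_lit 0x200000000e000e00078000000000000000000000) := T_10 (nat_lit 107) (nat_lit 90) (nat_lit 4) (nat_lit 6) (nat_lit 9) L55349 (by decide +kernel)
theorem L55351 : W_10 (nat_lit 7) (nat_lit 0x3800080017800a0001000000000000000000000000000) (nat_lit 0x0) (nat_lit 0x200000000e002e00178000000000000000000000) := T_10 (nat_lit 109) (nat_lit 92) (nat_lit 6) (nat_lit 6) (nat_lit 9) L55350 (by decide +kernel)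
theorem L55352 : W_10 (nat_lit 8) (nat_lit 0x3800080017800a0000000000000000000000000000000) (nat_lit 0x0) (nat_lit 0x600000000e003e00178000000000000000000000) := T_10 (nat_lit 108) (nat_lit 158) (nat_lit 5) (nat_lit 6) (nat_lit 6) L55351 (by decide +kernel)
theorem L55353 : W_10 (nat_lit 9) (nat_lit 0x3000080017800a0000000000000000000000000000000) (nat_lit 0x0) (nat_lit 0x100008000600000000e003e00178000000000000000000000) := T_10 (nat_lit 175) (nat_lit 192) (nat_lit 5) (nat_lit 6) (nat_lit 7) L55352 (by decide +kernel)
theorem L55354 : W_10 (nat_lit 10) (nat_lit 0x300008001780080000000000000000000000000000000) (nat_lit 0x0) (nat_lit 0x500008000600000002e003e00178000000000000000000000) := T_10 (nat_lit 125) (nat_lit 194) (nat_lit 7) (nat_lit 6) (nat_lit 7) L55353 (by decide +kernel)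
theorem L55355 : W_10 (nat_lit 2) (nat_lit 0x40002000300008001780084000000000000000000000000000000) (nat_lit 0x0) (nat_lit 0x400020001000000000000000000000000000000000000000000000000) := D_10 (nat_lit 209) (nat_lit 192) (nat_lit 226) (nat_lit 5) (nat_lit 6) (nat_lit 8) (nat_lit 5) (nat_lit 6) (nat_lit 9) (by decide +kernel)
theorem L55356 : W_10 (nat_lit 3) (nat_lit 0x2000300008001780084000000000000000000000000000000) (nat_lit 0x0) (nat_lit 0x400060001000000004000000000000000000000000000000000000000) := T_10 (nat_lit 210) (nat_lit 158) (nat_lit 4) (nat_lit 6) (nat_lit 12) L55355 (by decide +kernel)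
theorem L55357 : W_10 (nat_lit 4) (nat_lit 0x300008001780084000000000000000000000000000000) (nat_lit 0x0) (nat_lit 0x400060003000000004000000010000000000000000000000000000000) := T_10 (nat_lit 193) (nat_lit 124) (nat_lit 4) (nat_lit 6) (nat_lit 11) L55356 (by decide +kernel)
theorem L55358 : W_10 (nat_lit 5) (nat_lit 0x300008001780080000000000000000000000000000000) (nat_lit 0x0) (nat_lit 0x400060003000000004000000016000000000000000000000000000000) := T_10 (nat_lit 122) (nat_lit 121) (nat_lit 0) (nat_lit 6) (nat_lit 8) L55357 (by decide +kernel)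
theorem L55359 : W_10 (nat_lit 2) (nat_lit 0x2000300008001780080000000000000000000000000000000) (nat_lit 0x0) (nat_lit 0x80004000000000000000020000000000000000000000000000000) := D_10 (nat_lit 194) (nat_lit 125) (nat_lit 211) (nat_lit 7) (nat_lit 6) (nat_lit 7) (nat_lit 7) (nat_lit 6) (nat_lit 8) (by decide +kernel)
theorem L55360 : W_10 (nat_lit 3) (nat_lit 0x300008001780080000000000000000000000000000000) (nat_lit 0x0) (nat_lit 0x80006000000000000000030000000000000000000000000000000) := T_10 (nat_lit 193) (nat_lit 124) (nat_lit 4) (nat_lit 6) (nat_lit 11) L55359 (by decide +kernel)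
theorem L55361 : W_10 (nat_lit 11) (nat_lit 0x200008001780080000000000000000000000000000000) (nat_lit 0x0) (nat_lit 0x4000e000fc001e000600000003e003e00178000000000000000000000) := Q_10 (nat_lit 176) (C_10 L55340 (C_10 L55348 (C_10 L55354 (C_10 L55358 (C_10 L55360 N_10))))) (by decide +kernel)
theorem L55362 : W_10 (nat_lit 12) (nat_lit 0x200000001780080000000000000000000000000000000) (nat_lit 0x0) (nat_lit 0x4000e000fc001e001e00000003e003e00178000000000000000000000) := T_10 (nat_lit 159) (nat_lit 160) (nat_lit 3) (nat_lit 3) (nat_lit 8) L55361 (by decide +kernel)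
theorem L55363 : W_10 (nat_lit 2) (nat_lit 0x38000b001780080000000000000000000000000000000) (nat_lit 0x0) (nat_lit 0x5000000000000000020000000000000000000000000000000) := D_10 (nat_lit 125) (nat_lit 194) (nat_lit 192) (nat_lit 7) (nat_lit 6) (nat_lit 7) (nat_lit 5) (nat_lit 6) (nat_lit 7) (by decide +kernel)
theorem L55364 : W_10 (nat_lit 3) (nat_lit 0x30000b001780080000000000000000000000000000000) (nat_lit 0x0) (nat_lit 0x50000c0000000000020000000000000000000000000000000) := T_10 (nat_lit 175) (nat_lit 174) (nat_lit 0) (nat_lit 7) (nat_lit 10) L55363 (by decide +kernel)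
theorem L55365 : W_10 (nat_lit 4) (nat_lit 0x20000b001780080000000000000000000000000000000) (nat_lit 0x0) (nat_lit 0x50001c0004000000020000000000000000000000000000000) := T_10 (nat_lit 176) (nat_lit 158) (nat_lit 3) (nat_lit 3) (nat_lit 9) L55364 (by decide +kernel)
theorem L55366 : W_10 (nat_lit 5) (nat_lit 0x200003001780080000000000000000000000000000000) (nat_lit 0x0) (nat_lit 0x50001c001c000000020000000000000000000000000000000) := T_10 (nat_lit 159) (nat_lit 160) (nat_lit 3) (nat_lit 3) (nat_lit 8) L55365 (by decide +kernel)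
theorem L55367 : W_10 (nat_lit 6) (nat_lit 0x200002001780080000000000000000000000000000000) (nat_lit 0x0) (nat_lit 0x50001c001d800000020000000000000000000000000000000) := T_10 (nat_lit 156) (nat_lit 155) (nat_lit 1) (nat_lit 6) (nat_lit 8) L55366 (by decide +kernel)
theorem L55368 : W_10 (nat_lit 13) (nat_lit 0x200000001780080000000000000000000000000000000) (nat_lit 0x0) (nat_lit 0x800078001c001f800000036003a001d000e000000000000000000) := Q_10 (nat_lit 157) (C_10 L37582 (C_10 L55094 (C_10 L55367 (C_10 L55087 N_10)))) (by decide +kernel)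
theorem L55369 : W_10 (nat_lit 2) (nat_lit 0x230009001780094000e0001a000000000000000000000) (nat_lit 0x0) (nat_lit 0x2000100000000000020000000000000000000000000000000) := D_10 (nat_lit 176) (nat_lit 193) (nat_lit 125) (nat_lit 4) (nat_lit 6) (nat_lit 11) (nat_lit 4) (nat_lit 6) (nat_lit 10) (by decide +kernel)
theorem L55370 : W_10 (nat_lit 3) (nat_lit 0x230009001780084000e0001a000000000000000000000) (nat_lit 0x0) (nat_lit 0x2000100000000000030000000040000000000000000000000) := T_10 (nat_lit 124) (nat_lit 90) (nat_lit 7) (nat_lit 5) (nat_lit 5) L55369 (by decide +kernel)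
theorem L55371 : W_10 (nat_lit 4) (nat_lit 0x23000900178008400060001a000000000000000000000) (nat_lit 0x0) (nat_lit 0x2000100000000000030001800040000000000000000000000) := T_10 (nat_lit 107) (nat_lit 108) (nat_lit 0) (nat_lit 6) (nat_lit 6) L55370 (by decide +kernel)
theorem L55372 : W_10 (nat_lit 5) (nat_lit 0x230009001780084000600018000000000000000000000) (nat_lit 0x0) (nat_lit 0x2000100000000000030001800046000000000000000000000) := T_10 (nat_lit 85) (nat_lit 86) (nat_lit 3) (nat_lit 0) (nat_lit 5) L55371 (by decide +kernel)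
theorem L55373 : W_10 (nat_lit 6) (nat_lit 0x230009001780084000600008000000000000000000000) (nat_lit 0x0) (nat_lit 0x2000100000000000030001800056000400000000000000000) := T_10 (nat_lit 88) (nat_lit 70) (nat_lit 4) (nat_lit 3) (nat_lit 8) L55372 (by decide +kernel)
theorem L55374 : W_10 (nat_lit 7) (nat_lit 0x230009001780084000600000000000000000000000000) (nat_lit 0x0) (nat_lit 0x200010000000000003000190005e000400000000000000000) := T_10 (nat_lit 87) (nat_lit 104) (nat_lit 4) (nat_lit 3) (nat_lit 9) L55373 (by decide +kernel)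
theorem L55375 : W_10 (nat_lit 8) (nat_lit 0x220009001780084000600000000000000000000000000) (nat_lit 0x0) (nat_lit 0x220011000000000003000190005e000400000000000000000) := T_10 (nat_lit 172) (nat_lit 189) (nat_lit 5) (nat_lit 3) (nat_lit 7) L55374 (by decide +kernel)
theorem L55376 : W_10 (nat_lit 9) (nat_lit 0x200009001780084000600000000000000000000000000) (nat_lit 0x0) (nat_lit 0x220013000000000003800190005e000400000000000000000) := T_10 (nat_lit 173) (nat_lit 123) (nat_lit 6) (nat_lit 3) (nat_lit 10) L55375 (by decide +kernel)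
theorem L55377 : W_10 (nat_lit 10) (nat_lit 0x200009001780084000200000000000000000000000000) (nat_lit 0x0) (nat_lit 0x2200130000000000038001d0007e000400000000000000000) := T_10 (nat_lit 106) (nat_lit 89) (nat_lit 6) (nat_lit 3) (nat_lit 9) L55376 (by decide +kernel)
theorem L55378 : W_10 (nat_lit 11) (nat_lit 0x200001001780084000200000000000000000000000000) (nat_lit 0x0) (nat_lit 0x2200130018000000038001d0007e000400000000000000000) := T_10 (nat_lit 159) (nat_lit 160) (nat_lit 3) (nat_lit 3) (nat_lit 8) L55377 (by decide +kernel)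
theorem L55379 : W_10 (nat_lit 12) (nat_lit 0x200000001780084000200000000000000000000000000) (nat_lit 0x0) (nat_lit 0x2200130019800000038001d0007e000400000000000000000) := T_10 (nat_lit 156) (nat_lit 155) (nat_lit 1) (nat_lit 6) (nat_lit 8) L55378 (by decide +kernel)
theorem L55380 : W_10 (nat_lit 2) (nat_lit 0x230009001780084000600000000000000000000000000) (nat_lit 0x0) (nat_lit 0x40006000000000000000000000000000000000000000) := D_10 (nat_lit 157) (nat_lit 158) (nat_lit 174) (nat_lit 1) (nat_lit 6) (nat_lit 9) (nat_lit 7) (nat_lit 3) (nat_lit 6) (by decide +kernel)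
theorem L55381 : W_10 (nat_lit 3) (nat_lit 0x220009001780084000600000000000000000000000000) (nat_lit 0x0) (nat_lit 0x200050006000000000000000000000000000000000000000) := T_10 (nat_lit 172) (nat_lit 189) (nat_lit 5) (nat_lit 3) (nat_lit 7) L55380 (by decide +kernel)
theorem L55382 : W_10 (nat_lit 4) (nat_lit 0x200009001780084000600000000000000000000000000) (nat_lit 0x0) (nat_lit 0x200070006000000008000000000000000000000000000000) := T_10 (nat_lit 173) (nat_lit 123) (nat_lit 6) (nat_lit 3) (nat_lit 10) L55381 (by decide +kernel)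
theorem L55383 : W_10 (nat_lit 5) (nat_lit 0x200009001780084000200000000000000000000000000) (nat_lit 0x0) (nat_lit 0x200070006000000008000400020000000000000000000000) := T_10 (nat_lit 106) (nat_lit 89) (nat_lit 6) (nat_lit 3) (nat_lit 9) L55382 (by decide +kernel)
theorem L55384 : W_10 (nat_lit 6) (nat_lit 0x200001001780084000200000000000000000000000000) (nat_lit 0x0) (nat_lit 0x20007001e000000008000400020000000000000000000000) := T_10 (nat_lit 159) (nat_lit 160) (nat_lit 3) (nat_lit 3) (nat_lit 8) L55383 (by decide +kernel)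
theorem L55385 : W_10 (nat_lit 7) (nat_lit 0x200000001780084000200000000000000000000000000) (nat_lit 0x0) (nat_lit 0x20007001f800000008000400020000000000000000000000) := T_10 (nat_lit 156) (nat_lit 155) (nat_lit 1) (nat_lit 6) (nat_lit 8) L55384 (by decide +kernel)
theorem L55386 : W_10 (nat_lit 13) (nat_lit 0x200000001780084000000000000000000000000000000) (nat_lit 0x0) (nat_lit 0x220017001f800000038001f0007e001c00080000000000000) := Q_10 (nat_lit 105) (C_10 L38121 (C_10 L55015 (C_10 L55379 (C_10 L55385 N_10)))) (by decide +kernel)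
theorem L55387 : W_10 (nat_lit 14) (nat_lit 0x200000001780080000000000000000000000000000000) (nat_lit 0x0) (nat_lit 0x220017001f80000003e001f0007e001c00080000000000000) := T_10 (nat_lit 122) (nat_lit 121) (nat_lit 0) (nat_lit 6) (nat_lit 8) L55386 (by decide +kernel)
theorem L55388 : W_10 (nat_lit 15) (nat_lit 0x200000001380080000000000000000000000000000000) (nat_lit 0x0) (nat_lit 0x18001e800ff00ff801fc03f80040003e003f801fe00fc00080000000000000) := Q_10 (nat_lit 142) (C_10 L55002 (C_10 L55017 (C_10 L55047 (C_10 L55104 (C_10 L55120 (C_10 L55141 (C_10 L55159 (C_10 L55178 (C_10 L55228 (C_10 L55337 (C_10 L55362 (C_10 L55368 (C_10 L55387 N_10))))))))))))) (by decide +kernel)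
theorem L55389 : W_10 (nat_lit 2) (nat_lit 0x2000000013e0092000000000000000000000000000000) (nat_lit 0x0) (nat_lit 0xe00000000000000000000000000000000000000) := D_10 (nat_lit 154) (nat_lit 153) (nat_lit 155) (nat_lit 1) (nat_lit 4) (nat_lit 8) (nat_lit 1) (nat_lit 5) (nat_lit 8) (by decide +kernel)
theorem L55390 : W_10 (nat_lit 3) (nat_lit 0x2000000013c0092000000000000000000000000000000) (nat_lit 0x0) (nat_lit 0xe00020008000000000000000000000000000000) := T_10 (nat_lit 137) (nat_lit 123) (nat_lit 2) (nat_lit 1) (nat_lit 8) L55389 (by decide +kernel)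
theorem L55391 : W_10 (nat_lit 4) (nat_lit 0x2000000013c0082000000000000000000000000000000) (nat_lit 0x0) (nat_lit 0xe00020038000000000000000000000000000000) := T_10 (nat_lit 124) (nat_lit 125) (nat_lit 2) (nat_lit 2) (nat_lit 8) L55390 (by decide +kernel)
theorem L55392 : W_10 (nat_lit 5) (nat_lit 0x2000000013c0080000000000000000000000000000000) (nat_lit 0x0) (nat_lit 0xe0002003b000000000000000000000000000000) := T_10 (nat_lit 121) (nat_lit 120) (nat_lit 0) (nat_lit 5) (nat_lit 8) L55391 (by decide +kernel)
theorem L55396 : W_10 (nat_lit 5) (nat_lit 0x2000008013c0090000000000000000000000000000000) (nat_lit 0x0) (nat_lit 0x400020003000420008000400020000000000000000000000) := T_10 (nat_lit 123) (nat_lit 137) (nat_lit 2) (nat_lit 1) (nat_lit 8) L55395 (by decide +kernel)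
theorem L55397 : W_10 (nat_lit 6) (nat_lit 0x2000008013c0080000000000000000000000000000000) (nat_lit 0x0) (nat_lit 0x400020003000420038000400020000000000000000000000) := T_10 (nat_lit 124) (nat_lit 125) (nat_lit 2) (nat_lit 2) (nat_lit 8) L55396 (by decide +kernel)
theorem L55398 : W_10 (nat_lit 7) (nat_lit 0x2000000013c0080000000000000000000000000000000) (nat_lit 0x0) (nat_lit 0x400020003c00420038000400020000000000000000000000) := T_10 (nat_lit 155) (nat_lit 154) (nat_lit 1) (nat_lit 5) (nat_lit 8) L55397 (by decide +kernel)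
theorem L55399 : W_10 (nat_lit 2) (nat_lit 0x1002000034013e0096000100000000000000000000000000) (nat_lit 0x0) (nat_lit 0x800040000000000000000200000000000000000000000000) := D_10 (nat_lit 174) (nat_lit 191) (nat_lit 105) (nat_lit 6) (nat_lit 4) (nat_lit 11) (nat_lit 7) (nat_lit 3) (nat_lit 6) (by decide +kernel)
theorem L55400 : W_10 (nat_lit 3) (nat_lit 0x1002000014013e0096000100000000000000000000000000) (nat_lit 0x0) (nat_lit 0x800040002000010000000200000000000000000000000000) := T_10 (nat_lit 157) (nat_lit 136) (nat_lit 3) (nat_lit 0) (nat_lit 8) L55399 (by decide +kernel)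
theorem L55401 : W_10 (nat_lit 4) (nat_lit 0x1002000004013e0096000100000000000000000000000000) (nat_lit 0x0) (nat_lit 0x800060003000010000000200000000000000000000000000) := T_10 (nat_lit 156) (nat_lit 173) (nat_lit 4) (nat_lit 3) (nat_lit 10) L55400 (by decide +kernel)
theorem L55402 : W_10 (nat_lit 5) (nat_lit 0x1002000004013e0096000000000000000000000000000000) (nat_lit 0x0) (nat_lit 0x800060003000010000000300008000000000000000000000) := T_10 (nat_lit 104) (nat_lit 87) (nat_lit 5) (nat_lit 2) (nat_lit 5) L55401 (by decide +kernel)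
theorem L55403 : W_10 (nat_lit 6) (nat_lit 0x2000004013e0096000000000000000000000000000000) (nat_lit 0x0) (nat_lit 0x900068003000010000000300008000000000000000000000) := T_10 (nat_lit 188) (nat_lit 171) (nat_lit 6) (nat_lit 1) (nat_lit 11) L55402 (by decide +kernel)
theorem L55404 : W_10 (nat_lit 7) (nat_lit 0x2000004013e0092000000000000000000000000000000) (nat_lit 0x0) (nat_lit 0x900068003000410004000300008000000000000000000000) := T_10 (nat_lit 122) (nat_lit 142) (nat_lit 0) (nat_lit 6) (nat_lit 8) L55403 (by decide +kernel)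
theorem L55405 : W_10 (nat_lit 8) (nat_lit 0x2000000013e0092000000000000000000000000000000) (nat_lit 0x0) (nat_lit 0x900068003600410004000300008000000000000000000000) := T_10 (nat_lit 154) (nat_lit 153) (nat_lit 1) (nat_lit 4) (nat_lit 8) L55404 (by decide +kernel)
theorem L55406 : W_10 (nat_lit 9) (nat_lit 0x2000000013c0092000000000000000000000000000000) (nat_lit 0x0) (nat_lit 0x90006800360043000c000300008000000000000000000000) := T_10 (nat_lit 137) (nat_lit 123) (nat_lit 2) (nat_lit 1) (nat_lit 8) L55405 (by decide +kernel)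
theorem L55407 : W_10 (nat_lit 10) (nat_lit 0x2000000013c0082000000000000000000000000000000) (nat_lit 0x0) (nat_lit 0x90006800360043003c000300008000000000000000000000) := T_10 (nat_lit 124) (nat_lit 125) (nat_lit 2) (nat_lit 2) (nat_lit 8) L55406 (by decide +kernel)
theorem L55408 : W_10 (nat_lit 11) (nat_lit 0x2000000013c0080000000000000000000000000000000) (nat_lit 0x0) (nat_lit 0x90006800360043003f000300008000000000000000000000) := T_10 (nat_lit 121) (nat_lit 120) (nat_lit 0) (nat_lit 5) (nat_lit 8) L55407 (by decide +kernel)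
theorem L55409 : W_10 (nat_lit 2) (nat_lit 0x40030000b0017e0092000000048000000000000000000000) (nat_lit 0x0) (nat_lit 0x8000c0000000000000000000000000000000000000000000) := D_10 (nat_lit 174) (nat_lit 175) (nat_lit 191) (nat_lit 0) (nat_lit 7) (nat_lit 10) (nat_lit 6) (nat_lit 4) (nat_lit 11) (by decide +kernel)
theorem L55410 : W_10 (nat_lit 3) (nat_lit 0x4003000090017e0092000000048000000000000000000000) (nat_lit 0x0) (nat_lit 0x8000c0002000010000000000000000000000000000000000) := T_10 (nat_lit 157) (nat_lit 136) (nat_lit 3) (nat_lit 0) (nat_lit 8) L55409 (by decide +kernel)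
theorem L55411 : W_10 (nat_lit 4) (nat_lit 0x3000090017e0092000000048000000000000000000000) (nat_lit 0x0) (nat_lit 0xc000e0002000010000000000000000000000000000000000) := T_10 (nat_lit 190) (nat_lit 173) (nat_lit 4) (nat_lit 3) (nat_lit 11) L55410 (by decide +kernel)
theorem L55412 : W_10 (nat_lit 5) (nat_lit 0x2000090017e0092000000048000000000000000000000) (nat_lit 0x0) (nat_lit 0x2c001e0002000010000000000000000000000000000000000) := T_10 (nat_lit 176) (nat_lit 193) (nat_lit 4) (nat_lit 6) (nat_lit 11) L55411 (by decide +kernel)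
theorem L55413 : W_10 (nat_lit 6) (nat_lit 0x2000090017e0092000000008000000000000000000000) (nat_lit 0x0) (nat_lit 0x2c001e0002000010000000800040000000000000000000000) := T_10 (nat_lit 90) (nat_lit 107) (nat_lit 7) (nat_lit 5) (nat_lit 5) L55412 (by decide +kernel)
theorem L55414 : W_10 (nat_lit 7) (nat_lit 0x2000090017e0092000000000000000000000000000000) (nat_lit 0x0) (nat_lit 0x2c001e0002000010000000900048000000000000000000000) := T_10 (nat_lit 87) (nat_lit 104) (nat_lit 7) (nat_lit 2) (nat_lit 5) L55413 (by decide +kernel)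
theorem L55415 : W_10 (nat_lit 8) (nat_lit 0x2000010017e0092000000000000000000000000000000) (nat_lit 0x0) (nat_lit 0x2c001e001a000010000000900048000000000000000000000) := T_10 (nat_lit 159) (nat_lit 160) (nat_lit 3) (nat_lit 3) (nat_lit 8) L55414 (by decide +kernel)
theorem L55416 : W_10 (nat_lit 9) (nat_lit 0x2000000017e0092000000000000000000000000000000) (nat_lit 0x0) (nat_lit 0x2c001e001b800010000000900048000000000000000000000) := T_10 (nat_lit 156) (nat_lit 155) (nat_lit 1) (nat_lit 6) (nat_lit 8) L55415 (by decide +kernel)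
theorem L55417 : W_10 (nat_lit 10) (nat_lit 0x2000000013e0092000000000000000000000000000000) (nat_lit 0x0) (nat_lit 0x2c001e001b800410004000900048000000000000000000000) := T_10 (nat_lit 142) (nat_lit 122) (nat_lit 0) (nat_lit 6) (nat_lit 8) L55416 (by decide +kernel)
theorem L55418 : W_10 (nat_lit 11) (nat_lit 0x2000000013c0092000000000000000000000000000000) (nat_lit 0x0) (nat_lit 0x2c001e001b80043000c000900048000000000000000000000) := T_10 (nat_lit 137) (nat_lit 123) (nat_lit 2) (nat_lit 1) (nat_lit 8) L55417 (by decide +kernel)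
theorem L55419 : W_10 (nat_lit 12) (nat_lit 0x2000000013c0082000000000000000000000000000000) (nat_lit 0x0) (nat_lit 0x2c001e001b80043003c000900048000000000000000000000) := T_10 (nat_lit 124) (nat_lit 125) (nat_lit 2) (nat_lit 2) (nat_lit 8) L55418 (by decide +kernel)
theorem L55420 : W_10 (nat_lit 13) (nat_lit 0x2000000013c0080000000000000000000000000000000) (nat_lit 0x0) (nat_lit 0x2c001e001b80043003f000900048000000000000000000000) := T_10 (nat_lit 121) (nat_lit 120) (nat_lit 0) (nat_lit 5) (nat_lit 8) L55419 (by decide +kernel)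
theorem L55421 : W_10 (nat_lit 14) (nat_lit 0x200000001380080000000000000000000000000000000) (nat_lit 0x0) (nat_lit 0x2d001e801be0047003f000f00068000000000000000000000) := Q_10 (nat_lit 138) (C_10 L37137 (C_10 L55392 (C_10 L55398 (C_10 L55408 (C_10 L55420 N_10))))) (by decide +kernel)
theorem L55422 : W_10 (nat_lit 2) (nat_lit 0x2000040013e0082000000000000000000000000000000) (nat_lit 0x0) (nat_lit 0xe00000000000000000000000000000000000000) := D_10 (nat_lit 154) (nat_lit 155) (nat_lit 153) (nat_lit 1) (nat_lit 5) (nat_lit 8) (nat_lit 1) (nat_lit 4) (nat_lit 8) (by decide +kernel)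
theorem L55423 : W_10 (nat_lit 3) (nat_lit 0x2000040013c0082000000000000000000000000000000) (nat_lit 0x0) (nat_lit 0x2e00020000000000000000000000000000000000) := T_10 (nat_lit 137) (nat_lit 157) (nat_lit 3) (nat_lit 1) (nat_lit 8) L55422 (by decide +kernel)
theorem L55424 : W_10 (nat_lit 4) (nat_lit 0x2000000013c0082000000000000000000000000000000) (nat_lit 0x0) (nat_lit 0xee00020000000000000000000000000000000000) := T_10 (nat_lit 158) (nat_lit 159) (nat_lit 3) (nat_lit 2) (nat_lit 8) L55423 (by decide +kernel)
theorem L55425 : W_10 (nat_lit 5) (nat_lit 0x2000000013c0080000000000000000000000000000000) (nat_lit 0x0) (nat_lit 0xee00020003000000000000000000000000000000) := T_10 (nat_lit 121) (nat_lit 120) (nat_lit 0) (nat_lit 5) (nat_lit 8) L55424 (by decide +kernel)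
theorem L55426 : W_10 (nat_lit 2) (nat_lit 0x2000008013e0090000000000000000000000000000000) (nat_lit 0x0) (nat_lit 0xe000000000000000000000000000000000000000) := D_10 (nat_lit 158) (nat_lit 159) (nat_lit 157) (nat_lit 3) (nat_lit 2) (nat_lit 8) (nat_lit 3) (nat_lit 1) (nat_lit 8) (by decide +kernel)
theorem L55427 : W_10 (nat_lit 3) (nat_lit 0x2000008013c0090000000000000000000000000000000) (nat_lit 0x0) (nat_lit 0xe000020008000000000000000000000000000000) := T_10 (nat_lit 137) (nat_lit 123) (nat_lit 2) (nat_lit 1) (nat_lit 8) L55426 (by decide +kernel)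
theorem L55428 : W_10 (nat_lit 4) (nat_lit 0x2000008013c0080000000000000000000000000000000) (nat_lit 0x0) (nat_lit 0xe000020038000000000000000000000000000000) := T_10 (nat_lit 124) (nat_lit 125) (nat_lit 2) (nat_lit 2) (nat_lit 8) L55427 (by decide +kernel)
theorem L55429 : W_10 (nat_lit 5) (nat_lit 0x2000000013c0080000000000000000000000000000000) (nat_lit 0x0) (nat_lit 0xec00020038000000000000000000000000000000) := T_10 (nat_lit 155) (nat_lit 154) (nat_lit 1) (nat_lit 5) (nat_lit 8) L55428 (by decide +kernel)
theorem L55430 : W_10 (nat_lit 2) (nat_lit 0x2000068013c0092000000000000000000000000000000) (nat_lit 0x0) (nat_lit 0x40000000000000000800040000000000000000000000) := D_10 (nat_lit 107) (nat_lit 90) (nat_lit 174) (nat_lit 5) (nat_lit 5) (nat_lit 5) (nat_lit 5) (nat_lit 5) (nat_lit 6) (by decide +kernel)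
theorem L55431 : W_10 (nat_lit 3) (nat_lit 0x2000068013c0082000000000000000000000000000000) (nat_lit 0x0) (nat_lit 0x40000000000030000800040000000000000000000000) := T_10 (nat_lit 124) (nat_lit 125) (nat_lit 2) (nat_lit 2) (nat_lit 8) L55430 (by decide +kernel)
theorem L55432 : W_10 (nat_lit 4) (nat_lit 0x2000060013c0082000000000000000000000000000000) (nat_lit 0x0) (nat_lit 0x40000c00000030000800040000000000000000000000) := T_10 (nat_lit 155) (nat_lit 154) (nat_lit 1) (nat_lit 5) (nat_lit 8) L55431 (by decide +kernel)
theorem L55433 : W_10 (nat_lit 5) (nat_lit 0x2000060013c0080000000000000000000000000000000) (nat_lit 0x0) (nat_lit 0x40000c00000033000800040000000000000000000000) := T_10 (nat_lit 121) (nat_lit 120) (nat_lit 0) (nat_lit 5) (nat_lit 8) L55432 (by decide +kernel)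
theorem L55434 : W_10 (nat_lit 6) (nat_lit 0x2000020013c0080000000000000000000000000000000) (nat_lit 0x0) (nat_lit 0x4000cc00000033000800040000000000000000000000) := T_10 (nat_lit 158) (nat_lit 159) (nat_lit 3) (nat_lit 2) (nat_lit 8) L55433 (by decide +kernel)
theorem L55435 : W_10 (nat_lit 2) (nat_lit 0x2400020013c0092000000000000000000000000000000) (nat_lit 0x0) (nat_lit 0x8000800040000000000000000000000) := D_10 (nat_lit 107) (nat_lit 90) (nat_lit 123) (nat_lit 5) (nat_lit 5) (nat_lit 5) (nat_lit 6) (nat_lit 4) (nat_lit 10) (by decide +kernel)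
theorem L55436 : W_10 (nat_lit 3) (nat_lit 0x2000020013c0092000000000000000000000000000000) (nat_lit 0x0) (nat_lit 0x800040000000000008000800040000000000000000000000) := T_10 (nat_lit 174) (nat_lit 191) (nat_lit 6) (nat_lit 4) (nat_lit 11) L55435 (by decide +kernel)
theorem L55437 : W_10 (nat_lit 4) (nat_lit 0x2000020013c0090000000000000000000000000000000) (nat_lit 0x0) (nat_lit 0x80004000000000000b000800040000000000000000000000) := T_10 (nat_lit 121) (nat_lit 120) (nat_lit 0) (nat_lit 5) (nat_lit 8) L55436 (by decide +kernel)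
theorem L55438 : W_10 (nat_lit 5) (nat_lit 0x2000020013c0080000000000000000000000000000000) (nat_lit 0x0) (nat_lit 0x80004000000000003b000800040000000000000000000000) := T_10 (nat_lit 124) (nat_lit 125) (nat_lit 2) (nat_lit 2) (nat_lit 8) L55437 (by decide +kernel)
theorem L55439 : W_10 (nat_lit 2) (nat_lit 0x20000b8013c0082000000000000000000000000000000) (nat_lit 0x0) (nat_lit 0x400020000000000000000100000000000000000000000000) := D_10 (nat_lit 173) (nat_lit 190) (nat_lit 104) (nat_lit 4) (nat_lit 3) (nat_lit 11) (nat_lit 7) (nat_lit 2) (nat_lit 6) (by decide +kernel)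
theorem L55440 : W_10 (nat_lit 3) (nat_lit 0x20000b8013c0080000000000000000000000000000000) (nat_lit 0x0) (nat_lit 0x400020000000000003000100000000000000000000000000) := T_10 (nat_lit 121) (nat_lit 120) (nat_lit 0) (nat_lit 5) (nat_lit 8) L55439 (by decide +kernel)
theorem L55441 : W_10 (nat_lit 4) (nat_lit 0x2000038013c0080000000000000000000000000000000) (nat_lit 0x0) (nat_lit 0x40002000c000000003000100000000000000000000000000) := T_10 (nat_lit 159) (nat_lit 158) (nat_lit 3) (nat_lit 2) (nat_lit 8) L55440 (by decide +kernel)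
theorem L55442 : W_10 (nat_lit 5) (nat_lit 0x2000030013c0080000000000000000000000000000000) (nat_lit 0x0) (nat_lit 0x40002000cc00000003000100000000000000000000000000) := T_10 (nat_lit 155) (nat_lit 154) (nat_lit 2) (nat_lit 1) (nat_lit 9) L55441 (by decide +kernel)
theorem L55443 : W_10 (nat_lit 2) (nat_lit 0x2200034013c0082000000000000000000000000000000) (nat_lit 0x0) (nat_lit 0x4000100008000000000000000000000) := D_10 (nat_lit 104) (nat_lit 87) (nat_lit 122) (nat_lit 7) (nat_lit 2) (nat_lit 5) (nat_lit 4) (nat_lit 3) (nat_lit 10) (by decide +kernel)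
theorem L55444 : W_10 (nat_lit 3) (nat_lit 0x2000034013c0082000000000000000000000000000000) (nat_lit 0x0) (nat_lit 0x400020000000000004000100008000000000000000000000) := T_10 (nat_lit 173) (nat_lit 190) (nat_lit 4) (nat_lit 3) (nat_lit 11) L55443 (by decide +kernel)
theorem L55445 : W_10 (nat_lit 4) (nat_lit 0x2000030013c0082000000000000000000000000000000) (nat_lit 0x0) (nat_lit 0x400020000c00000004000100008000000000000000000000) := T_10 (nat_lit 154) (nat_lit 155) (nat_lit 2) (nat_lit 1) (nat_lit 9) L55444 (by decide +kernel)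
theorem L55446 : W_10 (nat_lit 5) (nat_lit 0x2000030013c0080000000000000000000000000000000) (nat_lit 0x0) (nat_lit 0x400020000c00000007000100008000000000000000000000) := T_10 (nat_lit 121) (nat_lit 120) (nat_lit 0) (nat_lit 5) (nat_lit 8) L55445 (by decide +kernel)
theorem L55447 : W_10 (nat_lit 2) (nat_lit 0x2100078013c0080000000000000000000000000000000) (nat_lit 0x0) (nat_lit 0x200000000000000004000200000000000000000000000000) := D_10 (nat_lit 122) (nat_lit 105) (nat_lit 189) (nat_lit 5) (nat_lit 3) (nat_lit 6) (nat_lit 6) (nat_lit 2) (nat_lit 11) (by decide +kernel)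
theorem L55448 : W_10 (nat_lit 3) (nat_lit 0x2000078013c0080000000000000000000000000000000) (nat_lit 0x0) (nat_lit 0x200018000000000004000200000000000000000000000000) := T_10 (nat_lit 172) (nat_lit 171) (nat_lit 1) (nat_lit 5) (nat_lit 9) L55447 (by decide +kernel)
theorem L55449 : W_10 (nat_lit 4) (nat_lit 0x2000038013c0080000000000000000000000000000000) (nat_lit 0x0) (nat_lit 0x20001800c000000004000200000000000000000000000000) := T_10 (nat_lit 158) (nat_lit 159) (nat_lit 3) (nat_lit 2) (nat_lit 8) L55448 (by decide +kernel)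
theorem L55450 : W_10 (nat_lit 5) (nat_lit 0x2000030013c0080000000000000000000000000000000) (nat_lit 0x0) (nat_lit 0x20001800cc00000004000200000000000000000000000000) := T_10 (nat_lit 155) (nat_lit 154) (nat_lit 2) (nat_lit 1) (nat_lit 9) L55449 (by decide +kernel)
theorem L55451 : W_10 (nat_lit 2) (nat_lit 0x2200070013c0082000000000000000000000000000000) (nat_lit 0x0) (nat_lit 0x4000100008000000000000000000000) := D_10 (nat_lit 104) (nat_lit 87) (nat_lit 122) (nat_lit 7) (nat_lit 2) (nat_lit 5) (nat_lit 4) (nat_lit 3) (nat_lit 10) (by decide +kernel)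
theorem L55452 : W_10 (nat_lit 3) (nat_lit 0x2000070013c0082000000000000000000000000000000) (nat_lit 0x0) (nat_lit 0x400020000000000004000100008000000000000000000000) := T_10 (nat_lit 173) (nat_lit 190) (nat_lit 4) (nat_lit 3) (nat_lit 11) L55451 (by decide +kernel)
theorem L55453 : W_10 (nat_lit 4) (nat_lit 0x2000070013c0080000000000000000000000000000000) (nat_lit 0x0) (nat_lit 0x400020000000000007000100008000000000000000000000) := T_10 (nat_lit 121) (nat_lit 120) (nat_lit 0) (nat_lit 5) (nat_lit 8) L55452 (by decide +kernel)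
theorem L55454 : W_10 (nat_lit 5) (nat_lit 0x2000030013c0080000000000000000000000000000000) (nat_lit 0x0) (nat_lit 0x40002000c000000007000100008000000000000000000000) := T_10 (nat_lit 158) (nat_lit 159) (nat_lit 3) (nat_lit 2) (nat_lit 8) L55453 (by decide +kernel)
theorem L55455 : W_10 (nat_lit 6) (nat_lit 0x2000020013c0080000000000000000000000000000000) (nat_lit 0x0) (nat_lit 0x60003800dc00000007000300008000000000000000000000) := Q_10 (nat_lit 156) (C_10 L55442 (C_10 L55446 (C_10 L55450 (C_10 L55454 N_10)))) (by decide +kernel)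
theorem L55456 : W_10 (nat_lit 2) (nat_lit 0x2000060013c0090000000000000000000000000000000) (nat_lit 0x0) (nat_lit 0x40000000000000000800040000000000000000000000) := D_10 (nat_lit 107) (nat_lit 174) (nat_lit 90) (nat_lit 5) (nat_lit 5) (nat_lit 6) (nat_lit 5) (nat_lit 5) (nat_lit 5) (by decide +kernel)
theorem L55457 : W_10 (nat_lit 3) (nat_lit 0x2000020013c0090000000000000000000000000000000) (nat_lit 0x0) (nat_lit 0x4000c000000000000800040000000000000000000000) := T_10 (nat_lit 158) (nat_lit 159) (nat_lit 3) (nat_lit 2) (nat_lit 8) L55456 (by decide +kernel)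
theorem L55458 : W_10 (nat_lit 4) (nat_lit 0x2000020013c0080000000000000000000000000000000) (nat_lit 0x0) (nat_lit 0x4000c000000030000800040000000000000000000000) := T_10 (nat_lit 124) (nat_lit 125) (nat_lit 2) (nat_lit 2) (nat_lit 8) L55457 (by decide +kernel)
theorem L55459 : W_10 (nat_lit 7) (nat_lit 0x2000000013c0080000000000000000000000000000000) (nat_lit 0x0) (nat_lit 0xe0007800fc0000003f000b00048000000000000000000000) := Q_10 (nat_lit 157) (C_10 L55434 (C_10 L55438 (C_10 L55455 (C_10 L55458 N_10)))) (by decide +kernel)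
theorem L55460 : W_10 (nat_lit 2) (nat_lit 0x2000040013e0080000000000000000000000000000000) (nat_lit 0x0) (nat_lit 0x38000000000000000000000000000000) := D_10 (nat_lit 124) (nat_lit 123) (nat_lit 125) (nat_lit 2) (nat_lit 1) (nat_lit 8) (nat_lit 2) (nat_lit 2) (nat_lit 8) (by decide +kernel)
theorem L55461 : W_10 (nat_lit 3) (nat_lit 0x2000040013c0080000000000000000000000000000000) (nat_lit 0x0) (nat_lit 0x2000020038000000000000000000000000000000) := T_10 (nat_lit 137) (nat_lit 157) (nat_lit 3) (nat_lit 1) (nat_lit 8) L55460 (by decide +kernel)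
theorem L55462 : W_10 (nat_lit 4) (nat_lit 0x2000000013c0080000000000000000000000000000000) (nat_lit 0x0) (nat_lit 0xe000020038000000000000000000000000000000) := T_10 (nat_lit 158) (nat_lit 159) (nat_lit 3) (nat_lit 2) (nat_lit 8) L55461 (by decide +kernel)
theorem L55463 : W_10 (nat_lit 8) (nat_lit 0x200000001380080000000000000000000000000000000) (nat_lit 0x0) (nat_lit 0xe0007800fe0006003f000b00048000000000000000000000) := Q_10 (nat_lit 138) (C_10 L55425 (C_10 L55392 (C_10 L55429 (C_10 L55459 (C_10 L55462 N_10))))) (by decide +kernel)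
theorem L55464 : W_10 (nat_lit 2) (nat_lit 0x2000040013e008a000000000000000000000000000000) (nat_lit 0x0) (nat_lit 0x410004000000000000000000000000000000) := D_10 (nat_lit 122) (nat_lit 136) (nat_lit 142) (nat_lit 2) (nat_lit 0) (nat_lit 8) (nat_lit 0) (nat_lit 6) (nat_lit 8) (by decide +kernel)
theorem L55465 : W_10 (nat_lit 3) (nat_lit 0x2000040013e0082000000000000000000000000000000) (nat_lit 0x0) (nat_lit 0x41001c000000000000000000000000000000) := T_10 (nat_lit 123) (nat_lit 124) (nat_lit 2) (nat_lit 1) (nat_lit 8) L55464 (by decide +kernel)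
theorem L55466 : W_10 (nat_lit 4) (nat_lit 0x2000040013c0082000000000000000000000000000000) (nat_lit 0x0) (nat_lit 0x200043001c000000000000000000000000000000) := T_10 (nat_lit 137) (nat_lit 157) (nat_lit 3) (nat_lit 1) (nat_lit 8) L55465 (by decide +kernel)
theorem L55467 : W_10 (nat_lit 5) (nat_lit 0x2000000013c0082000000000000000000000000000000) (nat_lit 0x0) (nat_lit 0xe00043001c000000000000000000000000000000) := T_10 (nat_lit 158) (nat_lit 159) (nat_lit 3) (nat_lit 2) (nat_lit 8) L55466 (by decide +kernel)
theorem L55468 : W_10 (nat_lit 6) (nat_lit 0x2000000013c0080000000000000000000000000000000) (nat_lit 0x0) (nat_lit 0xe00043001f000000000000000000000000000000) := T_10 (nat_lit 121) (nat_lit 120) (nat_lit 0) (nat_lit 5) (nat_lit 8) L55467 (by decide +kernel)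
theorem L55469 : W_10 (nat_lit 7) (nat_lit 0x200000001380080000000000000000000000000000000) (nat_lit 0x0) (nat_lit 0xfe0047001f000000000000000000000000000000) := Q_10 (nat_lit 138) (C_10 L55425 (C_10 L37137 (C_10 L37111 (C_10 L55468 N_10)))) (by decide +kernel)
theorem L55470 : W_10 (nat_lit 2) (nat_lit 0x2000060013c0092000000000000000000000000000000) (nat_lit 0x0) (nat_lit 0x40000000000000000800040000000000000000000000) := D_10 (nat_lit 107) (nat_lit 90) (nat_lit 174) (nat_lit 5) (nat_lit 5) (nat_lit 5) (nat_lit 5) (nat_lit 5) (nat_lit 6) (by decide +kernel)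
theorem L55471 : W_10 (nat_lit 3) (nat_lit 0x2000060013c0082000000000000000000000000000000) (nat_lit 0x0) (nat_lit 0x40000000000030000800040000000000000000000000) := T_10 (nat_lit 124) (nat_lit 125) (nat_lit 2) (nat_lit 2) (nat_lit 8) L55470 (by decide +kernel)
theorem L55472 : W_10 (nat_lit 4) (nat_lit 0x2000040013c0082000000000000000000000000000000) (nat_lit 0x0) (nat_lit 0x40002000020030000800040000000000000000000000) := T_10 (nat_lit 157) (nat_lit 137) (nat_lit 3) (nat_lit 1) (nat_lit 8) L55471 (by decide +kernel)
theorem L55473 : W_10 (nat_lit 5) (nat_lit 0x2000000013c0082000000000000000000000000000000) (nat_lit 0x0) (nat_lit 0x4000e000020030000800040000000000000000000000) := T_10 (nat_lit 158) (nat_lit 159) (nat_lit 3) (nat_lit 2) (nat_lit 8) L55472 (by decide +kernel)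
theorem L55474 : W_10 (nat_lit 6) (nat_lit 0x2000000013c0080000000000000000000000000000000) (nat_lit 0x0) (nat_lit 0x4000e000020033000800040000000000000000000000) := T_10 (nat_lit 121) (nat_lit 120) (nat_lit 0) (nat_lit 5) (nat_lit 8) L55473 (by decide +kernel)
theorem L55475 : W_10 (nat_lit 7) (nat_lit 0x200000001380080000000000000000000000000000000) (nat_lit 0x0) (nat_lit 0x4000fe00460037000800040000000000000000000000) := Q_10 (nat_lit 138) (C_10 L37111 (C_10 L37137 (C_10 L55474 N_10))) (by decide +kernel)
theorem L55476 : W_10 (nat_lit 2) (nat_lit 0x2000000013e0090000000000000000000000000000000) (nat_lit 0x0) (nat_lit 0xe00000000000000000000000000000000000000) := D_10 (nat_lit 154) (nat_lit 153) (nat_lit 155) (nat_lit 1) (nat_lit 4) (nat_lit 8) (nat_lit 1) (nat_lit 5) (nat_lit 8) (by decide +kernel)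
theorem L55477 : W_10 (nat_lit 3) (nat_lit 0x2000000013c0090000000000000000000000000000000) (nat_lit 0x0) (nat_lit 0xe00020008000000000000000000000000000000) := T_10 (nat_lit 137) (nat_lit 123) (nat_lit 2) (nat_lit 1) (nat_lit 8) L55476 (by decide +kernel)
theorem L55478 : W_10 (nat_lit 4) (nat_lit 0x2000000013c0080000000000000000000000000000000) (nat_lit 0x0) (nat_lit 0xe00020038000000000000000000000000000000) := T_10 (nat_lit 124) (nat_lit 125) (nat_lit 2) (nat_lit 2) (nat_lit 8) L55477 (by decide +kernel)
theorem L55479 : W_10 (nat_lit 2) (nat_lit 0x2000040013e0090000000000000000000000000000000) (nat_lit 0x0) (nat_lit 0x3800000000000000000000000000000) := D_10 (nat_lit 120) (nat_lit 121) (nat_lit 119) (nat_lit 0) (nat_lit 5) (nat_lit 8) (nat_lit 0) (nat_lit 4) (nat_lit 8) (by decide +kernel)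
theorem L55480 : W_10 (nat_lit 3) (nat_lit 0x2000040013c0090000000000000000000000000000000) (nat_lit 0x0) (nat_lit 0x2000b800000000000000000000000000000) := T_10 (nat_lit 137) (nat_lit 123) (nat_lit 2) (nat_lit 1) (nat_lit 8) L55479 (by decide +kernel)
theorem L55481 : W_10 (nat_lit 4) (nat_lit 0x2000040013c0080000000000000000000000000000000) (nat_lit 0x0) (nat_lit 0x2003b800000000000000000000000000000) := T_10 (nat_lit 124) (nat_lit 125) (nat_lit 2) (nat_lit 2) (nat_lit 8) L55480 (by decide +kernel)
theorem L55482 : W_10 (nat_lit 5) (nat_lit 0x2000000013c0080000000000000000000000000000000) (nat_lit 0x0) (nat_lit 0xc00002003b800000000000000000000000000000) := T_10 (nat_lit 158) (nat_lit 159) (nat_lit 3) (nat_lit 2) (nat_lit 8) L55481 (by decide +kernel)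
theorem L55483 : W_10 (nat_lit 6) (nat_lit 0x200000001380080000000000000000000000000000000) (nat_lit 0x0) (nat_lit 0xde0046003f800000000000000000000000000000) := Q_10 (nat_lit 138) (C_10 L37137 (C_10 L55392 (C_10 L55478 (C_10 L55482 N_10)))) (by decide +kernel)
theorem L55484 : W_10 (nat_lit 2) (nat_lit 0x2000030013e0092000000000000000000000000000000) (nat_lit 0x0) (nat_lit 0x800400004000000000000000000000000000000) := D_10 (nat_lit 142) (nat_lit 122) (nat_lit 155) (nat_lit 0) (nat_lit 6) (nat_lit 8) (nat_lit 1) (nat_lit 6) (nat_lit 8) (by decide +kernel)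
theorem L55485 : W_10 (nat_lit 3) (nat_lit 0x2000020013e0092000000000000000000000000000000) (nat_lit 0x0) (nat_lit 0x1800410004000000000000000000000000000000) := T_10 (nat_lit 156) (nat_lit 136) (nat_lit 3) (nat_lit 0) (nat_lit 8) L55484 (by decide +kernel)
theorem L55486 : W_10 (nat_lit 4) (nat_lit 0x2000000013e0092000000000000000000000000000000) (nat_lit 0x0) (nat_lit 0x7800410004000000000000000000000000000000) := T_10 (nat_lit 157) (nat_lit 158) (nat_lit 3) (nat_lit 1) (nat_lit 8) L55485 (by decide +kernel)
theorem L55487 : W_10 (nat_lit 5) (nat_lit 0x2000000013c0092000000000000000000000000000000) (nat_lit 0x0) (nat_lit 0x780043000c000000000000000000000000000000) := T_10 (nat_lit 137) (nat_lit 123) (nat_lit 2) (nat_lit 1) (nat_lit 8) L55486 (by decide +kernel)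
theorem L55488 : W_10 (nat_lit 6) (nat_lit 0x2000000013c0082000000000000000000000000000000) (nat_lit 0x0) (nat_lit 0x780043003c000000000000000000000000000000) := T_10 (nat_lit 124) (nat_lit 125) (nat_lit 2) (nat_lit 2) (nat_lit 8) L55487 (by decide +kernel)
theorem L55489 : W_10 (nat_lit 7) (nat_lit 0x2000000013c0080000000000000000000000000000000) (nat_lit 0x0) (nat_lit 0x780043003f000000000000000000000000000000) := T_10 (nat_lit 121) (nat_lit 120) (nat_lit 0) (nat_lit 5) (nat_lit 8) L55488 (by decide +kernel)
theorem L55490 : W_10 (nat_lit 12) (nat_lit 0x200000001380080000000000000000000000000000000) (nat_lit 0x0) (nat_lit 0x900068007e0047003f000300008000000000000000000000) := Q_10 (nat_lit 138) (C_10 L37137 (C_10 L55478 (C_10 L55408 (C_10 L55489 N_10)))) (by decide +kernel)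
theorem L55491 : W_10 (nat_lit 2) (nat_lit 0x2400060013c0086000000000000000000000000000000) (nat_lit 0x0) (nat_lit 0x8000200010000000000000000000000) := D_10 (nat_lit 105) (nat_lit 88) (nat_lit 123) (nat_lit 7) (nat_lit 3) (nat_lit 5) (nat_lit 4) (nat_lit 4) (nat_lit 10) (by decide +kernel)
theorem L55492 : W_10 (nat_lit 3) (nat_lit 0x2000060013c0086000000000000000000000000000000) (nat_lit 0x0) (nat_lit 0x800040000000000008000200010000000000000000000000) := T_10 (nat_lit 174) (nat_lit 191) (nat_lit 4) (nat_lit 4) (nat_lit 11) L55491 (by decide +kernel)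
theorem L55493 : W_10 (nat_lit 4) (nat_lit 0x2000060013c0082000000000000000000000000000000) (nat_lit 0x0) (nat_lit 0x80004000000040000c000200010000000000000000000000) := T_10 (nat_lit 122) (nat_lit 142) (nat_lit 0) (nat_lit 6) (nat_lit 8) L55492 (by decide +kernel)
theorem L55494 : W_10 (nat_lit 5) (nat_lit 0x2000040013c0082000000000000000000000000000000) (nat_lit 0x0) (nat_lit 0x80004000200042000c000200010000000000000000000000) := T_10 (nat_lit 157) (nat_lit 137) (nat_lit 3) (nat_lit 1) (nat_lit 8) L55493 (by decide +kernel)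
theorem L55495 : W_10 (nat_lit 6) (nat_lit 0x2000000013c0082000000000000000000000000000000) (nat_lit 0x0) (nat_lit 0x80004000e00042000c000200010000000000000000000000) := T_10 (nat_lit 158) (nat_lit 159) (nat_lit 3) (nat_lit 2) (nat_lit 8) L55494 (by decide +kernel)
theorem L55496 : W_10 (nat_lit 7) (nat_lit 0x2000000013c0080000000000000000000000000000000) (nat_lit 0x0) (nat_lit 0x80004000e00042000f000200010000000000000000000000) := T_10 (nat_lit 121) (nat_lit 120) (nat_lit 0) (nat_lit 5) (nat_lit 8) L55495 (by decide +kernel)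
theorem L55497 : W_10 (nat_lit 8) (nat_lit 0x200000001380080000000000000000000000000000000) (nat_lit 0x0) (nat_lit 0x80004000fe0046000f000200010000000000000000000000) := Q_10 (nat_lit 138) (C_10 L37111 (C_10 L37137 (C_10 L55496 N_10))) (by decide +kernel)
theorem L55498 : W_10 (nat_lit 2) (nat_lit 0x2000058013c0092000000000000000000000000000000) (nat_lit 0x0) (nat_lit 0x20000000000000000100008000000000000000000000) := D_10 (nat_lit 104) (nat_lit 173) (nat_lit 87) (nat_lit 7) (nat_lit 2) (nat_lit 6) (nat_lit 7) (nat_lit 2) (nat_lit 5) (by decide +kernel)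
theorem L55499 : W_10 (nat_lit 3) (nat_lit 0x2000048013c0092000000000000000000000000000000) (nat_lit 0x0) (nat_lit 0x20001000400000000100008000000000000000000000) := T_10 (nat_lit 156) (nat_lit 142) (nat_lit 1) (nat_lit 6) (nat_lit 8) L55498 (by decide +kernel)
theorem L55500 : W_10 (nat_lit 4) (nat_lit 0x2000040013c0092000000000000000000000000000000) (nat_lit 0x0) (nat_lit 0x20001c00400000000100008000000000000000000000) := T_10 (nat_lit 155) (nat_lit 154) (nat_lit 1) (nat_lit 5) (nat_lit 8) L55499 (by decide +kernel)
theorem L55501 : W_10 (nat_lit 5) (nat_lit 0x2000040013c0082000000000000000000000000000000) (nat_lit 0x0) (nat_lit 0x20001c00400030000100008000000000000000000000) := T_10 (nat_lit 124) (nat_lit 125) (nat_lit 2) (nat_lit 2) (nat_lit 8) L55500 (by decide +kernel)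
theorem L55502 : W_10 (nat_lit 6) (nat_lit 0x2000000013c0082000000000000000000000000000000) (nat_lit 0x0) (nat_lit 0x2000dc00400030000100008000000000000000000000) := T_10 (nat_lit 158) (nat_lit 159) (nat_lit 3) (nat_lit 2) (nat_lit 8) L55501 (by decide +kernel)
theorem L55503 : W_10 (nat_lit 7) (nat_lit 0x2000000013c0080000000000000000000000000000000) (nat_lit 0x0) (nat_lit 0x2000dc00400033000100008000000000000000000000) := T_10 (nat_lit 121) (nat_lit 120) (nat_lit 0) (nat_lit 5) (nat_lit 8) L55502 (by decide +kernel)
theorem L55504 : W_10 (nat_lit 8) (nat_lit 0x200000001380080000000000000000000000000000000) (nat_lit 0x0) (nat_lit 0x2000fe0046003b800100008000000000000000000000) := Q_10 (nat_lit 138) (C_10 L37111 (C_10 L55482 (C_10 L55478 (C_10 L55503 N_10)))) (by decide +kernel)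
theorem L55505 : W_10 (nat_lit 2) (nat_lit 0x2000008017c0090000000000000000000000000000000) (nat_lit 0x0) (nat_lit 0x1c000000000000000000000000000000000000000) := D_10 (nat_lit 159) (nat_lit 158) (nat_lit 160) (nat_lit 3) (nat_lit 2) (nat_lit 8) (nat_lit 3) (nat_lit 3) (nat_lit 8) (by decide +kernel)
theorem L55506 : W_10 (nat_lit 3) (nat_lit 0x2000008013c0090000000000000000000000000000000) (nat_lit 0x0) (nat_lit 0x1d000400000000000000000000000000000000000) := T_10 (nat_lit 142) (nat_lit 156) (nat_lit 1) (nat_lit 6) (nat_lit 8) L55505 (by decide +kernel)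
theorem L55507 : W_10 (nat_lit 4) (nat_lit 0x2000008013c0080000000000000000000000000000000) (nat_lit 0x0) (nat_lit 0x1d000400030000000000000000000000000000000) := T_10 (nat_lit 124) (nat_lit 125) (nat_lit 2) (nat_lit 2) (nat_lit 8) L55506 (by decide +kernel)
theorem L55508 : W_10 (nat_lit 5) (nat_lit 0x2000000013c0080000000000000000000000000000000) (nat_lit 0x0) (nat_lit 0x1dc00400030000000000000000000000000000000) := T_10 (nat_lit 155) (nat_lit 154) (nat_lit 1) (nat_lit 5) (nat_lit 8) L55507 (by decide +kernel)
theorem L55509 : W_10 (nat_lit 6) (nat_lit 0x200000001380080000000000000000000000000000000) (nat_lit 0x0) (nat_lit 0x1fe00460038000000000000000000000000000000) := Q_10 (nat_lit 138) (C_10 L37111 (C_10 L55478 (C_10 L55508 (C_10 L55462 N_10)))) (by decide +kernel)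
theorem L55510 : W_10 (nat_lit 2) (nat_lit 0x2000048013c0096000000000000000000000000000000) (nat_lit 0x0) (nat_lit 0x10000000000000000200010000000000000000000000) := D_10 (nat_lit 105) (nat_lit 88) (nat_lit 172) (nat_lit 5) (nat_lit 3) (nat_lit 5) (nat_lit 6) (nat_lit 2) (nat_lit 10) (by decide +kernel)
theorem L55511 : W_10 (nat_lit 3) (nat_lit 0x2000040013c0096000000000000000000000000000000) (nat_lit 0x0) (nat_lit 0x10000c00000000000200010000000000000000000000) := T_10 (nat_lit 155) (nat_lit 154) (nat_lit 1) (nat_lit 5) (nat_lit 8) L55510 (by decide +kernel)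
theorem L55512 : W_10 (nat_lit 4) (nat_lit 0x2000040013c0086000000000000000000000000000000) (nat_lit 0x0) (nat_lit 0x10000c00000030000200010000000000000000000000) := T_10 (nat_lit 124) (nat_lit 125) (nat_lit 2) (nat_lit 2) (nat_lit 8) L55511 (by decide +kernel)
theorem L55513 : W_10 (nat_lit 5) (nat_lit 0x2000040013c0082000000000000000000000000000000) (nat_lit 0x0) (nat_lit 0x10000c00400034000200010000000000000000000000) := T_10 (nat_lit 122) (nat_lit 142) (nat_lit 0) (nat_lit 6) (nat_lit 8) L55512 (by decide +kernel)
theorem L55514 : W_10 (nat_lit 6) (nat_lit 0x2000000013c0082000000000000000000000000000000) (nat_lit 0x0) (nat_lit 0x1000cc00400034000200010000000000000000000000) := T_10 (nat_lit 158) (nat_lit 159) (nat_lit 3) (nat_lit 2) (nat_lit 8) L55513 (by decide +kernel)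
theorem L55515 : W_10 (nat_lit 7) (nat_lit 0x2000000013c0080000000000000000000000000000000) (nat_lit 0x0) (nat_lit 0x1000cc00400037000200010000000000000000000000) := T_10 (nat_lit 121) (nat_lit 120) (nat_lit 0) (nat_lit 5) (nat_lit 8) L55514 (by decide +kernel)
theorem L55516 : W_10 (nat_lit 8) (nat_lit 0x200000001380080000000000000000000000000000000) (nat_lit 0x0) (nat_lit 0x80005000ee0046003f800a00050000000000000000000000) := Q_10 (nat_lit 138) (C_10 L55496 (C_10 L55474 (C_10 L55482 (C_10 L55478 (C_10 L55515 N_10))))) (by decide +kernel)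
theorem L55517 : W_10 (nat_lit 4) (nat_lit 0x2000000013c0080000000000000000000000000000000) (nat_lit 0x0) (nat_lit 0x1c000400007000000000000000000000000000000) := T_10 (nat_lit 159) (nat_lit 158) (nat_lit 3) (nat_lit 2) (nat_lit 8) L34105 (by decide +kernel)
theorem L55518 : W_10 (nat_lit 12) (nat_lit 0x200000001380080000000000000000000000000000000) (nat_lit 0x0) (nat_lit 0x90006801f60047003f800b00058000000000000000000000) := Q_10 (nat_lit 138) (C_10 L55496 (C_10 L55474 (C_10 L55482 (C_10 L55408 (C_10 L55462 (C_10 L55517 N_10)))))) (by decide +kernel)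
theorem L55519 : W_10 (nat_lit 16) (nat_lit 0x200000001300080000000000000000000000000000000) (nat_lit 0x0) (nat_lit 0x18001e800ff00ff801fc03fe004f003f803f801fe00fc00080000000000000) := Q_10 (nat_lit 139) (C_10 L55388 (C_10 L55421 (C_10 L55463 (C_10 L55469 (C_10 L55475 (C_10 L55483 (C_10 L55490 (C_10 L55497 (C_10 L55504 (C_10 L55509 (C_10 L55516 (C_10 L55518 N_10)))))))))))) (by decide +kernel)
theorem L55520 : W_10 (nat_lit 2) (nat_lit 0x2000004013e0090000000000000000000000000000000) (nat_lit 0x0) (nat_lit 0x3800000000000000000000000000000) := D_10 (nat_lit 120) (nat_lit 119) (nat_lit 121) (nat_lit 0) (nat_lit 4) (nat_lit 8) (nat_lit 0) (nat_lit 5) (nat_lit 8) (by decide +kernel)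
theorem L55521 : W_10 (nat_lit 3) (nat_lit 0x2000004013c0090000000000000000000000000000000) (nat_lit 0x0) (nat_lit 0x200020003800000000000000000000000000000) := T_10 (nat_lit 137) (nat_lit 153) (nat_lit 1) (nat_lit 4) (nat_lit 8) L55520 (by decide +kernel)
theorem L55522 : W_10 (nat_lit 4) (nat_lit 0x2000004013c0080000000000000000000000000000000) (nat_lit 0x0) (nat_lit 0x200020033800000000000000000000000000000) := T_10 (nat_lit 124) (nat_lit 125) (nat_lit 2) (nat_lit 2) (nat_lit 8) L55521 (by decide +kernel)
theorem L55523 : W_10 (nat_lit 5) (nat_lit 0x2000000013c0080000000000000000000000000000000) (nat_lit 0x0) (nat_lit 0xe00020033800000000000000000000000000000) := T_10 (nat_lit 154) (nat_lit 155) (nat_lit 1) (nat_lit 5) (nat_lit 8) L55522 (by decide +kernel)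
theorem L55524 : W_10 (nat_lit 2) (nat_lit 0x2000004013c0081000000000000000000000000000000) (nat_lit 0x0) (nat_lit 0x200020000800000000000000000000000000000) := D_10 (nat_lit 137) (nat_lit 119) (nat_lit 153) (nat_lit 0) (nat_lit 4) (nat_lit 8) (nat_lit 1) (nat_lit 4) (nat_lit 8) (by decide +kernel)
theorem L55525 : W_10 (nat_lit 3) (nat_lit 0x2000000013c0081000000000000000000000000000000) (nat_lit 0x0) (nat_lit 0xe00020000800000000000000000000000000000) := T_10 (nat_lit 154) (nat_lit 155) (nat_lit 1) (nat_lit 5) (nat_lit 8) L55524 (by decide +kernel)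
theorem L55526 : W_10 (nat_lit 4) (nat_lit 0x2000000013c0080000000000000000000000000000000) (nat_lit 0x0) (nat_lit 0xe00020003800000000000000000000000000000) := T_10 (nat_lit 120) (nat_lit 121) (nat_lit 0) (nat_lit 5) (nat_lit 8) L55525 (by decide +kernel)
theorem L55527 : W_10 (nat_lit 2) (nat_lit 0x2000008013c0086000000000000000000000000000000) (nat_lit 0x0) (nat_lit 0x200010000000000000000200000000000000000000000000) := D_10 (nat_lit 172) (nat_lit 189) (nat_lit 105) (nat_lit 6) (nat_lit 2) (nat_lit 11) (nat_lit 6) (nat_lit 2) (nat_lit 10) (by decide +kernel)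
theorem L55528 : W_10 (nat_lit 3) (nat_lit 0x2000008013c0084000000000000000000000000000000) (nat_lit 0x0) (nat_lit 0x200010000000000003000200000000000000000000000000) := T_10 (nat_lit 121) (nat_lit 120) (nat_lit 0) (nat_lit 5) (nat_lit 8) L55527 (by decide +kernel)
theorem L55529 : W_10 (nat_lit 4) (nat_lit 0x2000000013c0084000000000000000000000000000000) (nat_lit 0x0) (nat_lit 0x200010000c00000003000200000000000000000000000000) := T_10 (nat_lit 155) (nat_lit 154) (nat_lit 1) (nat_lit 5) (nat_lit 8) L55528 (by decide +kernel)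
theorem L55530 : W_10 (nat_lit 2) (nat_lit 0x2100008013c0094000000000000000000000000000000) (nat_lit 0x0) (nat_lit 0x1000000000000200010000000000000000000000) := D_10 (nat_lit 105) (nat_lit 88) (nat_lit 156) (nat_lit 5) (nat_lit 3) (nat_lit 5) (nat_lit 5) (nat_lit 3) (nat_lit 6) (by decide +kernel)
theorem L55531 : W_10 (nat_lit 3) (nat_lit 0x2000008013c0094000000000000000000000000000000) (nat_lit 0x0) (nat_lit 0x200010001000000000000200010000000000000000000000) := T_10 (nat_lit 172) (nat_lit 189) (nat_lit 6) (nat_lit 2) (nat_lit 11) L55530 (by decide +kernel)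
theorem L55532 : W_10 (nat_lit 4) (nat_lit 0x2000008013c0084000000000000000000000000000000) (nat_lit 0x0) (nat_lit 0x200010001000000030000200010000000000000000000000) := T_10 (nat_lit 124) (nat_lit 125) (nat_lit 2) (nat_lit 2) (nat_lit 8) L55531 (by decide +kernel)
theorem L55533 : W_10 (nat_lit 5) (nat_lit 0x2000000013c0084000000000000000000000000000000) (nat_lit 0x0) (nat_lit 0x200010001c00000030000200010000000000000000000000) := T_10 (nat_lit 155) (nat_lit 154) (nat_lit 1) (nat_lit 5) (nat_lit 8) L55532 (by decide +kernel)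
theorem L55534 : W_10 (nat_lit 2) (nat_lit 0x2300008013c0096000100000000000000000000000000) (nat_lit 0x0) (nat_lit 0x8000080004000000000000000000000) := D_10 (nat_lit 103) (nat_lit 86) (nat_lit 123) (nat_lit 4) (nat_lit 2) (nat_lit 9) (nat_lit 0) (nat_lit 5) (nat_lit 7) (by decide +kernel)
theorem L55535 : W_10 (nat_lit 3) (nat_lit 0x2300008013c0096000000000000000000000000000000) (nat_lit 0x0) (nat_lit 0x1000000008000180004000000000000000000000) := T_10 (nat_lit 104) (nat_lit 156) (nat_lit 7) (nat_lit 2) (nat_lit 6) L55534 (by decide +kernel)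
theorem L55536 : W_10 (nat_lit 4) (nat_lit 0x2100008013c0096000000000000000000000000000000) (nat_lit 0x0) (nat_lit 0x400020001000000008000180004000000000000000000000) := T_10 (nat_lit 173) (nat_lit 190) (nat_lit 7) (nat_lit 2) (nat_lit 7) L55535 (by decide +kernel)
theorem L55537 : W_10 (nat_lit 5) (nat_lit 0x2100008013c0086000000000000000000000000000000) (nat_lit 0x0) (nat_lit 0x400020001000000038000180004000000000000000000000) := T_10 (nat_lit 124) (nat_lit 125) (nat_lit 2) (nat_lit 2) (nat_lit 8) L55536 (by decide +kernel)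
theorem L55538 : W_10 (nat_lit 6) (nat_lit 0x2000008013c0086000000000000000000000000000000) (nat_lit 0x0) (nat_lit 0x600030001000000038000180004000000000000000000000) := T_10 (nat_lit 172) (nat_lit 189) (nat_lit 6) (nat_lit 2) (nat_lit 11) L55537 (by decide +kernel)
theorem L55539 : W_10 (nat_lit 7) (nat_lit 0x2000008013c0084000000000000000000000000000000) (nat_lit 0x0) (nat_lit 0x60003000100000003b000180004000000000000000000000) := T_10 (nat_lit 121) (nat_lit 120) (nat_lit 0) (nat_lit 5) (nat_lit 8) L55538 (by decide +kernel)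
theorem L55540 : W_10 (nat_lit 8) (nat_lit 0x2000000013c0084000000000000000000000000000000) (nat_lit 0x0) (nat_lit 0x600030001c0000003b000180004000000000000000000000) := T_10 (nat_lit 155) (nat_lit 154) (nat_lit 1) (nat_lit 5) (nat_lit 8) L55539 (by decide +kernel)
theorem L55541 : W_10 (nat_lit 2) (nat_lit 0x2400020013c0094000000040000000000000000000000) (nat_lit 0x0) (nat_lit 0x8000200010000000000000000000000) := D_10 (nat_lit 105) (nat_lit 88) (nat_lit 123) (nat_lit 7) (nat_lit 3) (nat_lit 5) (nat_lit 4) (nat_lit 4) (nat_lit 10) (by decide +kernel)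
theorem L55542 : W_10 (nat_lit 3) (nat_lit 0x2000020013c0094000000040000000000000000000000) (nat_lit 0x0) (nat_lit 0x800040000000000008000200010000000000000000000000) := T_10 (nat_lit 174) (nat_lit 191) (nat_lit 6) (nat_lit 4) (nat_lit 11) L55541 (by decide +kernel)
theorem L55543 : W_10 (nat_lit 4) (nat_lit 0x2000020013c0094000000000000000000000000000000) (nat_lit 0x0) (nat_lit 0x800040000000000008000a00050000000000000000000000) := T_10 (nat_lit 90) (nat_lit 107) (nat_lit 5) (nat_lit 5) (nat_lit 5) L55542 (by decide +kernel)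
theorem L55544 : W_10 (nat_lit 5) (nat_lit 0x2000020013c0084000000000000000000000000000000) (nat_lit 0x0) (nat_lit 0x800040000000000038000a00050000000000000000000000) := T_10 (nat_lit 124) (nat_lit 125) (nat_lit 2) (nat_lit 2) (nat_lit 8) L55543 (by decide +kernel)
theorem L55545 : W_10 (nat_lit 2) (nat_lit 0x2000020013c0084000200000000000000000000000000) (nat_lit 0x0) (nat_lit 0x800040000000000008000000000000000000000000000000) := D_10 (nat_lit 174) (nat_lit 191) (nat_lit 123) (nat_lit 4) (nat_lit 4) (nat_lit 11) (nat_lit 4) (nat_lit 4) (nat_lit 10) (by decide +kernel)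
theorem L55546 : W_10 (nat_lit 3) (nat_lit 0x2000020013c0084000000000000000000000000000000) (nat_lit 0x0) (nat_lit 0x800040000000000008000200010000000000000000000000) := T_10 (nat_lit 105) (nat_lit 88) (nat_lit 7) (nat_lit 3) (nat_lit 5) L55545 (by decide +kernel)
theorem L55547 : W_10 (nat_lit 2) (nat_lit 0x8002000030013c0096000e00000000000000000000000000) (nat_lit 0x0) (nat_lit 0x400020000000000000000100000000000000000000000000) := D_10 (nat_lit 173) (nat_lit 190) (nat_lit 104) (nat_lit 4) (nat_lit 3) (nat_lit 11) (nat_lit 4) (nat_lit 3) (nat_lit 10) (by decide +kernel)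
theorem L55548 : W_10 (nat_lit 3) (nat_lit 0x8002000020013c0096000e00000000000000000000000000) (nat_lit 0x0) (nat_lit 0x400020001000000000000100020000000000000000000000) := T_10 (nat_lit 156) (nat_lit 89) (nat_lit 6) (nat_lit 3) (nat_lit 9) L55547 (by decide +kernel)
theorem L55549 : W_10 (nat_lit 4) (nat_lit 0x8002000020013c0096000a00000000000000000000000000) (nat_lit 0x0) (nat_lit 0x400020001000000000001500020000000000000000000000) := T_10 (nat_lit 106) (nat_lit 108) (nat_lit 1) (nat_lit 6) (nat_lit 6) L55548 (by decide +kernel)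
theorem L55550 : W_10 (nat_lit 5) (nat_lit 0x8002000020013c0094000a00000000000000000000000000) (nat_lit 0x0) (nat_lit 0x400020001000000003001500020000000000000000000000) := T_10 (nat_lit 121) (nat_lit 120) (nat_lit 0) (nat_lit 5) (nat_lit 8) L55549 (by decide +kernel)
theorem L55551 : W_10 (nat_lit 6) (nat_lit 0x8002000020013c0094000800000000000000000000000000) (nat_lit 0x0) (nat_lit 0x400020001000000003001700030000000000000000000000) := T_10 (nat_lit 105) (nat_lit 88) (nat_lit 7) (nat_lit 3) (nat_lit 5) L55550 (by decide +kernel)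
theorem L55552 : W_10 (nat_lit 7) (nat_lit 0x8002000020013c0094000000000000000000000000000000) (nat_lit 0x0) (nat_lit 0x400020001000000003001f00070000000000000000000000) := T_10 (nat_lit 107) (nat_lit 90) (nat_lit 5) (nat_lit 5) (nat_lit 5) L55551 (by decide +kernel)
theorem L55553 : W_10 (nat_lit 8) (nat_lit 0x8002000020013c0084000000000000000000000000000000) (nat_lit 0x0) (nat_lit 0x400020001000000033001f00070000000000000000000000) := T_10 (nat_lit 124) (nat_lit 125) (nat_lit 2) (nat_lit 2) (nat_lit 8) L55552 (by decide +kernel)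
theorem L55554 : W_10 (nat_lit 9) (nat_lit 0x2000020013c0084000000000000000000000000000000) (nat_lit 0x0) (nat_lit 0xc00060001000000033001f00070000000000000000000000) := T_10 (nat_lit 191) (nat_lit 174) (nat_lit 4) (nat_lit 4) (nat_lit 11) L55553 (by decide +kernel)
theorem L55555 : W_10 (nat_lit 2) (nat_lit 0x2000020013c009e000900010000000000000000000000) (nat_lit 0x0) (nat_lit 0x20001000000000000000008000000000000000000000) := D_10 (nat_lit 156) (nat_lit 173) (nat_lit 87) (nat_lit 4) (nat_lit 3) (nat_lit 10) (nat_lit 7) (nat_lit 2) (nat_lit 5) (by decide +kernel)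
theorem L55556 : W_10 (nat_lit 3) (nat_lit 0x2000020013c009e000800010000000000000000000000) (nat_lit 0x0) (nat_lit 0x20001000000000000180008000000000000000000000) := T_10 (nat_lit 104) (nat_lit 103) (nat_lit 0) (nat_lit 5) (nat_lit 7) L55555 (by decide +kernel)
theorem L55557 : W_10 (nat_lit 4) (nat_lit 0x2000020013c0096000800010000000000000000000000) (nat_lit 0x0) (nat_lit 0x20001000000008001180008000000000000000000000) := T_10 (nat_lit 123) (nat_lit 108) (nat_lit 2) (nat_lit 2) (nat_lit 7) L55556 (by decide +kernel)
theorem L55558 : W_10 (nat_lit 5) (nat_lit 0x2000020013c0096000800000000000000000000000000) (nat_lit 0x0) (nat_lit 0x20001000000008001380018000000000000000000000) := T_10 (nat_lit 88) (nat_lit 105) (nat_lit 7) (nat_lit 3) (nat_lit 5) L55557 (by decide +kernel)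
theorem L55559 : W_10 (nat_lit 6) (nat_lit 0x2000020013c0096000000000000000000000000000000) (nat_lit 0x0) (nat_lit 0x20001000000008001b80058000000000000000000000) := T_10 (nat_lit 107) (nat_lit 90) (nat_lit 5) (nat_lit 5) (nat_lit 5) L55558 (by decide +kernel)
theorem L55560 : W_10 (nat_lit 7) (nat_lit 0x2000020013c0086000000000000000000000000000000) (nat_lit 0x0) (nat_lit 0x20001000000038001b80058000000000000000000000) := T_10 (nat_lit 124) (nat_lit 125) (nat_lit 2) (nat_lit 2) (nat_lit 8) L55559 (by decide +kernel)
theorem L55561 : W_10 (nat_lit 8) (nat_lit 0x2000020013c0084000000000000000000000000000000) (nat_lit 0x0) (nat_lit 0x2000100000003b001b80058000000000000000000000) := T_10 (nat_lit 121) (nat_lit 120) (nat_lit 0) (nat_lit 5) (nat_lit 8) L55560 (by decide +kernel)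
theorem L55562 : W_10 (nat_lit 2) (nat_lit 0x8002000020013c009e000900000000000000000000000000) (nat_lit 0x0) (nat_lit 0x20001000000000000000008000000000000000000000) := D_10 (nat_lit 156) (nat_lit 173) (nat_lit 87) (nat_lit 4) (nat_lit 3) (nat_lit 10) (nat_lit 7) (nat_lit 2) (nat_lit 5) (by decide +kernel)
theorem L55563 : W_10 (nat_lit 3) (nat_lit 0x8002000020013c009e000800000000000000000000000000) (nat_lit 0x0) (nat_lit 0x20001000000000000180008000000000000000000000) := T_10 (nat_lit 104) (nat_lit 103) (nat_lit 0) (nat_lit 5) (nat_lit 7) L55562 (by decide +kernel)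
theorem L55564 : W_10 (nat_lit 4) (nat_lit 0x8002000020013c0096000800000000000000000000000000) (nat_lit 0x0) (nat_lit 0x20001000000008001180008000000000000000000000) := T_10 (nat_lit 123) (nat_lit 108) (nat_lit 2) (nat_lit 2) (nat_lit 7) L55563 (by decide +kernel)
theorem L55565 : W_10 (nat_lit 5) (nat_lit 0x8002000020013c0096000000000000000000000000000000) (nat_lit 0x0) (nat_lit 0x20001000000008001980048000000000000000000000) := T_10 (nat_lit 107) (nat_lit 90) (nat_lit 5) (nat_lit 5) (nat_lit 5) L55564 (by decide +kernel)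
theorem L55566 : W_10 (nat_lit 6) (nat_lit 0x8002000020013c0086000000000000000000000000000000) (nat_lit 0x0) (nat_lit 0x20001000000038001980048000000000000000000000) := T_10 (nat_lit 124) (nat_lit 125) (nat_lit 2) (nat_lit 2) (nat_lit 8) L55565 (by decide +kernel)
theorem L55567 : W_10 (nat_lit 7) (nat_lit 0x8002000020013c0084000000000000000000000000000000) (nat_lit 0x0) (nat_lit 0x2000100000003b001980048000000000000000000000) := T_10 (nat_lit 121) (nat_lit 120) (nat_lit 0) (nat_lit 5) (nat_lit 8) L55566 (by decide +kernel)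
theorem L55568 : W_10 (nat_lit 8) (nat_lit 0x2000020013c0084000000000000000000000000000000) (nat_lit 0x0) (nat_lit 0x80006000100000003b001980048000000000000000000000) := T_10 (nat_lit 191) (nat_lit 174) (nat_lit 4) (nat_lit 4) (nat_lit 11) L55567 (by decide +kernel)
theorem L55569 : W_10 (nat_lit 10) (nat_lit 0x2000000013c0084000000000000000000000000000000) (nat_lit 0x0) (nat_lit 0xc0006000300000003b001f80078000000000000000000000) := Q_10 (nat_lit 157) (C_10 L55544 (C_10 L55546 (C_10 L55554 (C_10 L55561 (C_10 L55568 N_10))))) (by decide +kernel)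
theorem L55570 : W_10 (nat_lit 11) (nat_lit 0x2000000013c0080000000000000000000000000000000) (nat_lit 0x0) (nat_lit 0xe00070003c0000003f001f8007c000000000000000000000) := Q_10 (nat_lit 122) (C_10 L55529 (C_10 L55533 (C_10 L55540 (C_10 L55569 N_10)))) (by decide +kernel)
theorem L55571 : W_10 (nat_lit 2) (nat_lit 0x2000000013e0090000000000000000000000000000000) (nat_lit 0x0) (nat_lit 0x3800000000000000000000000000000) := D_10 (nat_lit 120) (nat_lit 121) (nat_lit 119) (nat_lit 0) (nat_lit 5) (nat_lit 8) (nat_lit 0) (nat_lit 4) (nat_lit 8) (by decide +kernel)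
theorem L55572 : W_10 (nat_lit 3) (nat_lit 0x2000000013c0090000000000000000000000000000000) (nat_lit 0x0) (nat_lit 0x2000b800000000000000000000000000000) := T_10 (nat_lit 137) (nat_lit 123) (nat_lit 2) (nat_lit 1) (nat_lit 8) L55571 (by decide +kernel)
theorem L55573 : W_10 (nat_lit 4) (nat_lit 0x2000000013c0080000000000000000000000000000000) (nat_lit 0x0) (nat_lit 0x2003b800000000000000000000000000000) := T_10 (nat_lit 124) (nat_lit 125) (nat_lit 2) (nat_lit 2) (nat_lit 8) L55572 (by decide +kernel)
theorem L55574 : W_10 (nat_lit 12) (nat_lit 0x200000001380080000000000000000000000000000000) (nat_lit 0x0) (nat_lit 0xe00070003e0007003f801f8007c000000000000000000000) := Q_10 (nat_lit 138) (C_10 L37104 (C_10 L55523 (C_10 L55526 (C_10 L55478 (C_10 L55570 (C_10 L55573 N_10)))))) (by decide +kernel)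
theorem L55575 : W_10 (nat_lit 2) (nat_lit 0x2000010013e008c000000000000000000000000000000) (nat_lit 0x0) (nat_lit 0x20000000000000000400020000000000000000000000) := D_10 (nat_lit 106) (nat_lit 89) (nat_lit 173) (nat_lit 5) (nat_lit 4) (nat_lit 5) (nat_lit 6) (nat_lit 3) (nat_lit 10) (by decide +kernel)
theorem L55576 : W_10 (nat_lit 3) (nat_lit 0x2000010013e0088000000000000000000000000000000) (nat_lit 0x0) (nat_lit 0x20000000010004000400020000000000000000000000) := T_10 (nat_lit 122) (nat_lit 136) (nat_lit 2) (nat_lit 0) (nat_lit 8) L55575 (by decide +kernel)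
theorem L55577 : W_10 (nat_lit 4) (nat_lit 0x2000010013c0088000000000000000000000000000000) (nat_lit 0x0) (nat_lit 0x20000000030014000400020000000000000000000000) := T_10 (nat_lit 137) (nat_lit 124) (nat_lit 2) (nat_lit 1) (nat_lit 8) L55576 (by decide +kernel)
theorem L55578 : W_10 (nat_lit 5) (nat_lit 0x2000010013c0080000000000000000000000000000000) (nat_lit 0x0) (nat_lit 0x40002000200003001c000400020000000000000000000000) := Q_10 (nat_lit 123) (C_10 L37166 (C_10 L55577 (C_10 L33747 (C_10 L37168 N_10)))) (by decide +kernel)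
theorem L55579 : W_10 (nat_lit 6) (nat_lit 0x2000000013c0080000000000000000000000000000000) (nat_lit 0x0) (nat_lit 0x400020003c0043001c000400020000000000000000000000) := Q_10 (nat_lit 156) (C_10 L55578 (C_10 L37170 N_10)) (by decide +kernel)
theorem L55580 : W_10 (nat_lit 4) (nat_lit 0x2000000013c0088000000000000000000000000000000) (nat_lit 0x0) (nat_lit 0x400020003000030014000400020000000000000000000000) := Q_10 (nat_lit 156) (C_10 L37166 (C_10 L37168 (C_10 L33747 N_10))) (by decide +kernel)
theorem L55581 : W_10 (nat_lit 2) (nat_lit 0x2000000013e0088000000000000000000000000000000) (nat_lit 0x0) (nat_lit 0x3800000000000000000000000000000) := D_10 (nat_lit 120) (nat_lit 121) (nat_lit 119) (nat_lit 0) (nat_lit 5) (nat_lit 8) (nat_lit 0) (nat_lit 4) (nat_lit 8) (by decide +kernel)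
theorem L55582 : W_10 (nat_lit 3) (nat_lit 0x2000000013c0088000000000000000000000000000000) (nat_lit 0x0) (nat_lit 0x20013800000000000000000000000000000) := T_10 (nat_lit 137) (nat_lit 124) (nat_lit 2) (nat_lit 1) (nat_lit 8) L55581 (by decide +kernel)
theorem L55583 : W_10 (nat_lit 6) (nat_lit 0x2000000013c0088000000000000000000000000000000) (nat_lit 0x0) (nat_lit 0x400020003000030007800500028000000000000000000000) := Q_10 (nat_lit 156) (C_10 L37177 (C_10 L37168 (C_10 L37181 N_10))) (by decide +kernel)
theorem L55584 : W_10 (nat_lit 2) (nat_lit 0x2000000013c0088000400030001000000000000000000) (nat_lit 0x0) (nat_lit 0x40002000100000000000000) := D_10 (nat_lit 73) (nat_lit 56) (nat_lit 90) (nat_lit 6) (nat_lit 4) (nat_lit 7) (nat_lit 6) (nat_lit 4) (nat_lit 8) (by decide +kernel)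
theorem L55585 : W_10 (nat_lit 3) (nat_lit 0x2000000013c0088000400030000000000000000000000) (nat_lit 0x0) (nat_lit 0x10000000040003000100000000000000) := T_10 (nat_lit 72) (nat_lit 124) (nat_lit 7) (nat_lit 4) (nat_lit 4) L55584 (by decide +kernel)
theorem L55586 : W_10 (nat_lit 4) (nat_lit 0x2000000013c0088000400020000000000000000000000) (nat_lit 0x0) (nat_lit 0x10000000050003800100000000000000) := T_10 (nat_lit 88) (nat_lit 71) (nat_lit 4) (nat_lit 4) (nat_lit 8) L55585 (by decide +kernel)
theorem L55587 : W_10 (nat_lit 5) (nat_lit 0x2000000013c0088000400000000000000000000000000) (nat_lit 0x0) (nat_lit 0x1000000010000000070003800100000000000000) := T_10 (nat_lit 89) (nat_lit 156) (nat_lit 5) (nat_lit 4) (nat_lit 5) L55586 (by decide +kernel)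
theorem L55588 : W_10 (nat_lit 9) (nat_lit 0x2000000013c0088000000000000000000000000000000) (nat_lit 0x0) (nat_lit 0x60003000400017001f80078003800140000000000000) := Q_10 (nat_lit 106) (C_10 L37196 (C_10 L37186 (C_10 L37189 (C_10 L55587 (C_10 L37202 N_10))))) (by decide +kernel)
theorem L55589 : W_10 (nat_lit 10) (nat_lit 0x2000000013c0080000000000000000000000000000000) (nat_lit 0x0) (nat_lit 0x40006000300043001f801f80078003800140000000000000) := Q_10 (nat_lit 123) (C_10 L55580 (C_10 L55582 (C_10 L55583 (C_10 L55588 N_10)))) (by decide +kernel)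
theorem L55590 : W_10 (nat_lit 11) (nat_lit 0x200000001380080000000000000000000000000000000) (nat_lit 0x0) (nat_lit 0x400060003e0047001f801f80078003800140000000000000) := Q_10 (nat_lit 138) (C_10 L55526 (C_10 L55579 (C_10 L37137 (C_10 L55589 N_10)))) (by decide +kernel)
theorem L55591 : W_10 (nat_lit 2) (nat_lit 0x3000090017800a4000000000000000000000000000000) (nat_lit 0x0) (nat_lit 0x2000000000000000010000800000000000000000000000000) := D_10 (nat_lit 124) (nat_lit 107) (nat_lit 193) (nat_lit 4) (nat_lit 6) (nat_lit 10) (nat_lit 4) (nat_lit 6) (nat_lit 11) (by decide +kernel)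
theorem L55592 : W_10 (nat_lit 3) (nat_lit 0x2000090017800a4000000000000000000000000000000) (nat_lit 0x0) (nat_lit 0x6000100000000000010000800000000000000000000000000) := T_10 (nat_lit 176) (nat_lit 194) (nat_lit 7) (nat_lit 6) (nat_lit 7) L55591 (by decide +kernel)
theorem L55593 : W_10 (nat_lit 4) (nat_lit 0x2000010017800a4000000000000000000000000000000) (nat_lit 0x0) (nat_lit 0x6000100018000000010000800000000000000000000000000) := T_10 (nat_lit 159) (nat_lit 160) (nat_lit 3) (nat_lit 3) (nat_lit 8) L55592 (by decide +kernel)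
theorem L55594 : W_10 (nat_lit 5) (nat_lit 0x2000010017800a0000000000000000000000000000000) (nat_lit 0x0) (nat_lit 0x6000100018000000016000800000000000000000000000000) := T_10 (nat_lit 122) (nat_lit 121) (nat_lit 0) (nat_lit 6) (nat_lit 8) L55593 (by decide +kernel)
theorem L55595 : W_10 (nat_lit 6) (nat_lit 0x200001001780080000000000000000000000000000000) (nat_lit 0x0) (nat_lit 0x6000100018000000076000800000000000000000000000000) := T_10 (nat_lit 125) (nat_lit 126) (nat_lit 2) (nat_lit 3) (nat_lit 8) L55594 (by decide +kernel)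
theorem L55596 : W_10 (nat_lit 7) (nat_lit 0x200000001780080000000000000000000000000000000) (nat_lit 0x0) (nat_lit 0x6000100019800000076000800000000000000000000000000) := T_10 (nat_lit 156) (nat_lit 155) (nat_lit 1) (nat_lit 6) (nat_lit 8) L55595 (by decide +kernel)
theorem L55597 : W_10 (nat_lit 2) (nat_lit 0x2000010017c00a0000000000000000000000000000000) (nat_lit 0x0) (nat_lit 0x7000000000000000000000000000000) := D_10 (nat_lit 121) (nat_lit 120) (nat_lit 122) (nat_lit 0) (nat_lit 5) (nat_lit 8) (nat_lit 0) (nat_lit 6) (nat_lit 8) (by decide +kernel)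
theorem L55598 : W_10 (nat_lit 3) (nat_lit 0x2000010017800a0000000000000000000000000000000) (nat_lit 0x0) (nat_lit 0x40017000000000000000000000000000000) := T_10 (nat_lit 138) (nat_lit 124) (nat_lit 2) (nat_lit 2) (nat_lit 8) L55597 (by decide +kernel)
theorem L55599 : W_10 (nat_lit 4) (nat_lit 0x200001001780080000000000000000000000000000000) (nat_lit 0x0) (nat_lit 0x40077000000000000000000000000000000) := T_10 (nat_lit 125) (nat_lit 126) (nat_lit 2) (nat_lit 3) (nat_lit 8) L55598 (by decide +kernel)
theorem L55600 : W_10 (nat_lit 5) (nat_lit 0x200000001780080000000000000000000000000000000) (nat_lit 0x0) (nat_lit 0x1800040077000000000000000000000000000000) := T_10 (nat_lit 156) (nat_lit 155) (nat_lit 1) (nat_lit 6) (nat_lit 8) L55599 (by decide +kernel)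
theorem L55601 : W_10 (nat_lit 2) (nat_lit 0x3c00090017c00a2000000000000000000000000000000) (nat_lit 0x0) (nat_lit 0xc00020000000000000000000000000000000000000000000) := D_10 (nat_lit 190) (nat_lit 173) (nat_lit 191) (nat_lit 4) (nat_lit 3) (nat_lit 11) (nat_lit 1) (nat_lit 7) (nat_lit 10) (by decide +kernel)
theorem L55602 : W_10 (nat_lit 3) (nat_lit 0x3800090017c00a2000000000000000000000000000000) (nat_lit 0x0) (nat_lit 0xc00060002000000000000000000000000000000000000000) := T_10 (nat_lit 174) (nat_lit 157) (nat_lit 0) (nat_lit 7) (nat_lit 10) L55601 (by decide +kernel)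
theorem L55603 : W_10 (nat_lit 4) (nat_lit 0x3000090017c00a2000000000000000000000000000000) (nat_lit 0x0) (nat_lit 0x1c000e0002000000000000000000000000000000000000000) := T_10 (nat_lit 175) (nat_lit 192) (nat_lit 5) (nat_lit 6) (nat_lit 7) L55602 (by decide +kernel)
theorem L55604 : W_10 (nat_lit 5) (nat_lit 0x2000090017c00a2000000000000000000000000000000) (nat_lit 0x0) (nat_lit 0x5c001e0002000000000000000000000000000000000000000) := T_10 (nat_lit 176) (nat_lit 194) (nat_lit 7) (nat_lit 6) (nat_lit 7) L55603 (by decide +kernel)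
theorem L55605 : W_10 (nat_lit 6) (nat_lit 0x2000090017c00a0000000000000000000000000000000) (nat_lit 0x0) (nat_lit 0x5c001e0002000000003000000000000000000000000000000) := T_10 (nat_lit 121) (nat_lit 120) (nat_lit 0) (nat_lit 5) (nat_lit 8) L55604 (by decide +kernel)
theorem L55606 : W_10 (nat_lit 7) (nat_lit 0x2000090017800a0000000000000000000000000000000) (nat_lit 0x0) (nat_lit 0x5c001e0002000040013000000000000000000000000000000) := T_10 (nat_lit 138) (nat_lit 124) (nat_lit 2) (nat_lit 2) (nat_lit 8) L55605 (by decide +kernel)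
theorem L55607 : W_10 (nat_lit 8) (nat_lit 0x200009001780080000000000000000000000000000000) (nat_lit 0x0) (nat_lit 0x5c001e0002000040073000000000000000000000000000000) := T_10 (nat_lit 125) (nat_lit 126) (nat_lit 2) (nat_lit 3) (nat_lit 8) L55606 (by decide +kernel)
theorem L55608 : W_10 (nat_lit 9) (nat_lit 0x200008001780080000000000000000000000000000000) (nat_lit 0x0) (nat_lit 0x5c001e0003800040073000000000000000000000000000000) := T_10 (nat_lit 156) (nat_lit 155) (nat_lit 1) (nat_lit 6) (nat_lit 8) L55607 (by decide +kernel)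
theorem L55609 : W_10 (nat_lit 10) (nat_lit 0x200000001780080000000000000000000000000000000) (nat_lit 0x0) (nat_lit 0x5c001e001b800040073000000000000000000000000000000) := T_10 (nat_lit 159) (nat_lit 160) (nat_lit 3) (nat_lit 3) (nat_lit 8) L55608 (by decide +kernel)
theorem L55610 : W_10 (nat_lit 2) (nat_lit 0x2000000017c00a0000000000000000000000000000000) (nat_lit 0x0) (nat_lit 0x1c00000000000000000000000000000000000000) := D_10 (nat_lit 155) (nat_lit 154) (nat_lit 156) (nat_lit 1) (nat_lit 5) (nat_lit 8) (nat_lit 1) (nat_lit 6) (nat_lit 8) (by decide +kernel)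
theorem L55611 : W_10 (nat_lit 3) (nat_lit 0x2000000017800a0000000000000000000000000000000) (nat_lit 0x0) (nat_lit 0x1c00040010000000000000000000000000000000) := T_10 (nat_lit 138) (nat_lit 124) (nat_lit 2) (nat_lit 2) (nat_lit 8) L55610 (by decide +kernel)
theorem L55612 : W_10 (nat_lit 4) (nat_lit 0x200000001780080000000000000000000000000000000) (nat_lit 0x0) (nat_lit 0x1c00040070000000000000000000000000000000) := T_10 (nat_lit 125) (nat_lit 126) (nat_lit 2) (nat_lit 3) (nat_lit 8) L55611 (by decide +kernel)
theorem L55613 : W_10 (nat_lit 2) (nat_lit 0x2000080017c00a0000000000000000000000000000000) (nat_lit 0x0) (nat_lit 0x7000000000000000000000000000000) := D_10 (nat_lit 121) (nat_lit 122) (nat_lit 120) (nat_lit 0) (nat_lit 6) (nat_lit 8) (nat_lit 0) (nat_lit 5) (nat_lit 8) (by decide +kernel)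
theorem L55614 : W_10 (nat_lit 3) (nat_lit 0x2000080017800a0000000000000000000000000000000) (nat_lit 0x0) (nat_lit 0x40017000000000000000000000000000000) := T_10 (nat_lit 138) (nat_lit 124) (nat_lit 2) (nat_lit 2) (nat_lit 8) L55613 (by decide +kernel)
theorem L55615 : W_10 (nat_lit 4) (nat_lit 0x200008001780080000000000000000000000000000000) (nat_lit 0x0) (nat_lit 0x40077000000000000000000000000000000) := T_10 (nat_lit 125) (nat_lit 126) (nat_lit 2) (nat_lit 3) (nat_lit 8) L55614 (by decide +kernel)
theorem L55616 : W_10 (nat_lit 5) (nat_lit 0x200000001780080000000000000000000000000000000) (nat_lit 0x0) (nat_lit 0x18000040077000000000000000000000000000000) := T_10 (nat_lit 159) (nat_lit 160) (nat_lit 3) (nat_lit 3) (nat_lit 8) L55615 (by decide +kernel)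
theorem L55617 : W_10 (nat_lit 11) (nat_lit 0x200000001380080000000000000000000000000000000) (nat_lit 0x0) (nat_lit 0x7c001e001bc00440077000800000000000000000000000000) := Q_10 (nat_lit 142) (C_10 L33820 (C_10 L55596 (C_10 L55600 (C_10 L55609 (C_10 L55612 (C_10 L55616 N_10)))))) (by decide +kernel)
theorem L55618 : W_10 (nat_lit 8) (nat_lit 0x200000001380080000000000000000000000000000000) (nat_lit 0x0) (nat_lit 0x6000100019c00440077000800000000000000000000000000) := Q_10 (nat_lit 142) (C_10 L33820 (C_10 L55596 (C_10 L55616 (C_10 L55612 N_10)))) (by decide +kernel)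
theorem L55619 : W_10 (nat_lit 6) (nat_lit 0x2000080017800a4000000000000000000000000000000) (nat_lit 0x0) (nat_lit 0x5c001e0003800000000000000000000000000000000000000) := T_10 (nat_lit 156) (nat_lit 155) (nat_lit 1) (nat_lit 6) (nat_lit 8) L33863 (by decide +kernel)
theorem L55620 : W_10 (nat_lit 7) (nat_lit 0x2000000017800a4000000000000000000000000000000) (nat_lit 0x0) (nat_lit 0x5c001e001b800000000000000000000000000000000000000) := T_10 (nat_lit 159) (nat_lit 160) (nat_lit 3) (nat_lit 3) (nat_lit 8) L55619 (by decide +kernel)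
theorem L55621 : W_10 (nat_lit 8) (nat_lit 0x200000001780084000000000000000000000000000000) (nat_lit 0x0) (nat_lit 0x5c001e001b800000060000000000000000000000000000000) := T_10 (nat_lit 125) (nat_lit 126) (nat_lit 2) (nat_lit 3) (nat_lit 8) L55620 (by decide +kernel)
theorem L55622 : W_10 (nat_lit 9) (nat_lit 0x200000001780080000000000000000000000000000000) (nat_lit 0x0) (nat_lit 0x5c001e001b800000066000000000000000000000000000000) := T_10 (nat_lit 122) (nat_lit 121) (nat_lit 0) (nat_lit 6) (nat_lit 8) L55621 (by decide +kernel)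
theorem L55623 : W_10 (nat_lit 10) (nat_lit 0x200000001380080000000000000000000000000000000) (nat_lit 0x0) (nat_lit 0x5c001e001bc00440077000000000000000000000000000000) := Q_10 (nat_lit 142) (C_10 L33820 (C_10 L55622 (C_10 L55612 (C_10 L55616 N_10)))) (by decide +kernel)
theorem L55624 : W_10 (nat_lit 7) (nat_lit 0x200009001780080000000000000000000000000000000) (nat_lit 0x0) (nat_lit 0x5e001e0002000000068000000000000000000000000000000) := T_10 (nat_lit 125) (nat_lit 126) (nat_lit 2) (nat_lit 3) (nat_lit 8) L33857 (by decide +kernel)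
theorem L55625 : W_10 (nat_lit 8) (nat_lit 0x200001001780080000000000000000000000000000000) (nat_lit 0x0) (nat_lit 0x5e001e001a000000068000000000000000000000000000000) := T_10 (nat_lit 159) (nat_lit 160) (nat_lit 3) (nat_lit 3) (nat_lit 8) L55624 (by decide +kernel)
theorem L55626 : W_10 (nat_lit 9) (nat_lit 0x200000001780080000000000000000000000000000000) (nat_lit 0x0) (nat_lit 0x5e001e001b800000068000000000000000000000000000000) := T_10 (nat_lit 156) (nat_lit 155) (nat_lit 1) (nat_lit 6) (nat_lit 8) L55625 (by decide +kernel)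
theorem L55627 : W_10 (nat_lit 10) (nat_lit 0x2000080017800a2000000000000000000000000000000) (nat_lit 0x0) (nat_lit 0x2a007f001b8000c00040001000000000000000000000000000000) := T_10 (nat_lit 138) (nat_lit 120) (nat_lit 0) (nat_lit 5) (nat_lit 8) L33951 (by decide +kernel)
theorem L55628 : W_10 (nat_lit 11) (nat_lit 0x2000000017800a2000000000000000000000000000000) (nat_lit 0x0) (nat_lit 0x2a007f001b8018c00040001000000000000000000000000000000) := T_10 (nat_lit 159) (nat_lit 160) (nat_lit 3) (nat_lit 3) (nat_lit 8) L55627 (by decide +kernel)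
theorem L55629 : W_10 (nat_lit 12) (nat_lit 0x2000000017800a0000000000000000000000000000000) (nat_lit 0x0) (nat_lit 0x2a007f001b8018c00040007000000000000000000000000000000) := T_10 (nat_lit 121) (nat_lit 122) (nat_lit 0) (nat_lit 6) (nat_lit 8) L55628 (by decide +kernel)
theorem L55630 : W_10 (nat_lit 13) (nat_lit 0x200000001780080000000000000000000000000000000) (nat_lit 0x0) (nat_lit 0x2a007f001b8018c00040067000000000000000000000000000000) := T_10 (nat_lit 125) (nat_lit 126) (nat_lit 2) (nat_lit 3) (nat_lit 8) L55629 (by decide +kernel)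
theorem L55631 : W_10 (nat_lit 4) (nat_lit 0x240000001780084000000000000000000000000000000) (nat_lit 0x0) (nat_lit 0x80000001a000000008000200010000000000000000000000) := T_10 (nat_lit 159) (nat_lit 160) (nat_lit 3) (nat_lit 3) (nat_lit 8) L55106 (by decide +kernel)
theorem L55632 : W_10 (nat_lit 5) (nat_lit 0x240000001780080000000000000000000000000000000) (nat_lit 0x0) (nat_lit 0x80000001a00000000e000200010000000000000000000000) := T_10 (nat_lit 122) (nat_lit 121) (nat_lit 0) (nat_lit 6) (nat_lit 8) L55631 (by decide +kernel)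
theorem L55633 : W_10 (nat_lit 2) (nat_lit 0x8003400090017800a4000000000000000000000000000000) (nat_lit 0x0) (nat_lit 0x1400080000000000000000000000000000000000000000000) := D_10 (nat_lit 175) (nat_lit 192) (nat_lit 190) (nat_lit 5) (nat_lit 6) (nat_lit 7) (nat_lit 1) (nat_lit 7) (nat_lit 10) (by decide +kernel)
theorem L55634 : W_10 (nat_lit 3) (nat_lit 0x8002400090017800a4000000000000000000000000000000) (nat_lit 0x0) (nat_lit 0x5400180000000000000000000000000000000000000000000) := T_10 (nat_lit 176) (nat_lit 194) (nat_lit 7) (nat_lit 6) (nat_lit 7) L55633 (by decide +kernel)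
theorem L55635 : W_10 (nat_lit 4) (nat_lit 0x8002400080017800a4000000000000000000000000000000) (nat_lit 0x0) (nat_lit 0x54001a0001000000000000000000000000000000000000000) := T_10 (nat_lit 156) (nat_lit 173) (nat_lit 7) (nat_lit 3) (nat_lit 7) L55634 (by decide +kernel)
theorem L55636 : W_10 (nat_lit 5) (nat_lit 0x8002400000017800a4000000000000000000000000000000) (nat_lit 0x0) (nat_lit 0x54001a0019000000000000000000000000000000000000000) := T_10 (nat_lit 159) (nat_lit 160) (nat_lit 3) (nat_lit 3) (nat_lit 8) L55635 (by decide +kernel)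
theorem L55637 : W_10 (nat_lit 6) (nat_lit 0x2400000017800a4000000000000000000000000000000) (nat_lit 0x0) (nat_lit 0x5c001a001b000000000000000000000000000000000000000) := T_10 (nat_lit 191) (nat_lit 157) (nat_lit 4) (nat_lit 4) (nat_lit 11) L55636 (by decide +kernel)
theorem L55638 : W_10 (nat_lit 7) (nat_lit 0x240000001780084000000000000000000000000000000) (nat_lit 0x0) (nat_lit 0x5c001a001b000000060000000000000000000000000000000) := T_10 (nat_lit 125) (nat_lit 126) (nat_lit 2) (nat_lit 3) (nat_lit 8) L55637 (by decide +kernel)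
theorem L55639 : W_10 (nat_lit 8) (nat_lit 0x240000001780080000000000000000000000000000000) (nat_lit 0x0) (nat_lit 0x5c001a001b000000066000000000000000000000000000000) := T_10 (nat_lit 122) (nat_lit 121) (nat_lit 0) (nat_lit 6) (nat_lit 8) L55638 (by decide +kernel)
theorem L55640 : W_10 (nat_lit 2) (nat_lit 0x4003e00080017800a2000000000000000000000000000000) (nat_lit 0x0) (nat_lit 0x1000040001000000000000000000000000000000) := D_10 (nat_lit 138) (nat_lit 120) (nat_lit 156) (nat_lit 0) (nat_lit 5) (nat_lit 8) (nat_lit 4) (nat_lit 3) (nat_lit 11) (by decide +kernel)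
theorem L55641 : W_10 (nat_lit 3) (nat_lit 0x4003c00080017800a2000000000000000000000000000000) (nat_lit 0x0) (nat_lit 0x200020001000040001000000000000000000000000000000) := T_10 (nat_lit 173) (nat_lit 189) (nat_lit 1) (nat_lit 6) (nat_lit 10) L55640 (by decide +kernel)
theorem L55642 : W_10 (nat_lit 4) (nat_lit 0x4003c00080017800a0000000000000000000000000000000) (nat_lit 0x0) (nat_lit 0x200020001000040007000000000000000000000000000000) := T_10 (nat_lit 121) (nat_lit 122) (nat_lit 0) (nat_lit 6) (nat_lit 8) L55641 (by decide +kernel)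
theorem L55643 : W_10 (nat_lit 5) (nat_lit 0x3c00080017800a0000000000000000000000000000000) (nat_lit 0x0) (nat_lit 0xe00020001000040007000000000000000000000000000000) := T_10 (nat_lit 190) (nat_lit 191) (nat_lit 1) (nat_lit 7) (nat_lit 10) L55642 (by decide +kernel)
theorem L55644 : W_10 (nat_lit 6) (nat_lit 0x3400080017800a0000000000000000000000000000000) (nat_lit 0x0) (nat_lit 0x1e000a0001000040007000000000000000000000000000000) := T_10 (nat_lit 175) (nat_lit 192) (nat_lit 5) (nat_lit 6) (nat_lit 7) L55643 (by decide +kernel)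
theorem L55645 : W_10 (nat_lit 7) (nat_lit 0x2400080017800a0000000000000000000000000000000) (nat_lit 0x0) (nat_lit 0x5e001a0001000040007000000000000000000000000000000) := T_10 (nat_lit 176) (nat_lit 194) (nat_lit 7) (nat_lit 6) (nat_lit 7) L55644 (by decide +kernel)
theorem L55646 : W_10 (nat_lit 8) (nat_lit 0x240008001780080000000000000000000000000000000) (nat_lit 0x0) (nat_lit 0x5e001a0001000040067000000000000000000000000000000) := T_10 (nat_lit 125) (nat_lit 126) (nat_lit 2) (nat_lit 3) (nat_lit 8) L55645 (by decide +kernel)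
theorem L55647 : W_10 (nat_lit 9) (nat_lit 0x240000001780080000000000000000000000000000000) (nat_lit 0x0) (nat_lit 0x5e001a0019000040067000000000000000000000000000000) := T_10 (nat_lit 159) (nat_lit 160) (nat_lit 3) (nat_lit 3) (nat_lit 8) L55646 (by decide +kernel)
theorem L55648 : W_10 (nat_lit 10) (nat_lit 0x200000001780080000000000000000000000000000000) (nat_lit 0x0) (nat_lit 0x5e001e001b00004006f000200010000000000000000000000) := Q_10 (nat_lit 174) (C_10 L33909 (C_10 L55632 (C_10 L55639 (C_10 L55647 (C_10 L33930 (C_10 L33937 N_10)))))) (by decide +kernel)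
theorem L55649 : W_10 (nat_lit 14) (nat_lit 0x200000001380080000000000000000000000000000000) (nat_lit 0x0) (nat_lit 0x2a007f001f801bc0044006f000200010000000000000000000000) := Q_10 (nat_lit 142) (C_10 L33820 (C_10 L55622 (C_10 L33793 (C_10 L55626 (C_10 L55630 (C_10 L55648 N_10)))))) (by decide +kernel)
theorem L55650 : W_10 (nat_lit 2) (nat_lit 0x2000018013c0092000000000000000000000000000000) (nat_lit 0x0) (nat_lit 0x400020000000000000000100000000000000000000000000) := D_10 (nat_lit 173) (nat_lit 190) (nat_lit 104) (nat_lit 4) (nat_lit 3) (nat_lit 11) (nat_lit 7) (nat_lit 2) (nat_lit 6) (by decide +kernel)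
theorem L55651 : W_10 (nat_lit 3) (nat_lit 0x2000008013c0092000000000000000000000000000000) (nat_lit 0x0) (nat_lit 0x400020001000400000000100000000000000000000000000) := T_10 (nat_lit 156) (nat_lit 142) (nat_lit 1) (nat_lit 6) (nat_lit 8) L55650 (by decide +kernel)
theorem L55652 : W_10 (nat_lit 4) (nat_lit 0x2000000013c0092000000000000000000000000000000) (nat_lit 0x0) (nat_lit 0x400020001c00400000000100000000000000000000000000) := T_10 (nat_lit 155) (nat_lit 154) (nat_lit 1) (nat_lit 5) (nat_lit 8) L55651 (by decide +kernel)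
theorem L55653 : W_10 (nat_lit 5) (nat_lit 0x2000000013c0090000000000000000000000000000000) (nat_lit 0x0) (nat_lit 0x400020001c00400003000100000000000000000000000000) := T_10 (nat_lit 121) (nat_lit 120) (nat_lit 0) (nat_lit 5) (nat_lit 8) L55652 (by decide +kernel)
theorem L55654 : W_10 (nat_lit 6) (nat_lit 0x2000000013c0080000000000000000000000000000000) (nat_lit 0x0) (nat_lit 0x400020001c00400033000100000000000000000000000000) := T_10 (nat_lit 124) (nat_lit 125) (nat_lit 2) (nat_lit 2) (nat_lit 8) L55653 (by decide +kernel)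
theorem L55655 : W_10 (nat_lit 7) (nat_lit 0x200000001380080000000000000000000000000000000) (nat_lit 0x0) (nat_lit 0x400020001e0046003b800100000000000000000000000000) := Q_10 (nat_lit 138) (C_10 L55526 (C_10 L55573 (C_10 L55478 (C_10 L55654 N_10)))) (by decide +kernel)
theorem L55656 : W_10 (nat_lit 8) (nat_lit 0x20000a001780084000200000000000000000000000000) (nat_lit 0x0) (nat_lit 0x20001800000018003dc0068000000000000000000000) := T_10 (nat_lit 156) (nat_lit 155) (nat_lit 1) (nat_lit 6) (nat_lit 8) L37483 (by decide +kernel)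
theorem L55657 : W_10 (nat_lit 9) (nat_lit 0x20000a001780084000000000000000000000000000000) (nat_lit 0x0) (nat_lit 0x20001800000018003fc0078000000000000000000000) := T_10 (nat_lit 105) (nat_lit 88) (nat_lit 7) (nat_lit 3) (nat_lit 5) L55656 (by decide +kernel)
theorem L55658 : W_10 (nat_lit 10) (nat_lit 0x200002001780084000000000000000000000000000000) (nat_lit 0x0) (nat_lit 0x20019800000018003fc0078000000000000000000000) := T_10 (nat_lit 159) (nat_lit 160) (nat_lit 3) (nat_lit 3) (nat_lit 8) L55657 (by decide +kernel)
theorem L55659 : W_10 (nat_lit 11) (nat_lit 0x200002001780080000000000000000000000000000000) (nat_lit 0x0) (nat_lit 0x2001980000001e003fc0078000000000000000000000) := T_10 (nat_lit 122) (nat_lit 121) (nat_lit 0) (nat_lit 6) (nat_lit 8) L55658 (by decide +kernel)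
theorem L55660 : W_10 (nat_lit 6) (nat_lit 0x340003001780080000000000000000000000000000000) (nat_lit 0x0) (nat_lit 0x14000e0007000000018000000010000000000000000000000000000000) := T_10 (nat_lit 159) (nat_lit 160) (nat_lit 3) (nat_lit 3) (nat_lit 8) L37491 (by decide +kernel)
theorem L55661 : W_10 (nat_lit 7) (nat_lit 0x240003001780080000000000000000000000000000000) (nat_lit 0x0) (nat_lit 0x14000e0007000180018000000010000000000000000000000000000000) := T_10 (nat_lit 176) (nat_lit 175) (nat_lit 0) (nat_lit 7) (nat_lit 10) L55660 (by decide +kernel)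
theorem L55662 : W_10 (nat_lit 8) (nat_lit 0x240002001780080000000000000000000000000000000) (nat_lit 0x0) (nat_lit 0x14000e0007000180019800000010000000000000000000000000000000) := T_10 (nat_lit 156) (nat_lit 155) (nat_lit 1) (nat_lit 6) (nat_lit 8) L55661 (by decide +kernel)
theorem L55663 : W_10 (nat_lit 9) (nat_lit 0x200002001780080000000000000000000000000000000) (nat_lit 0x0) (nat_lit 0x14000f8007c001e0019800000018000000000000000000000000000000) := Q_10 (nat_lit 174) (C_10 L55125 (C_10 L55030 (C_10 L55040 (C_10 L55662 N_10)))) (by decide +kernel)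
theorem L55664 : W_10 (nat_lit 12) (nat_lit 0x200000001780080000000000000000000000000000000) (nat_lit 0x0) (nat_lit 0x14000f8007c001e001b80000001e003fc0078000000000000000000000) := Q_10 (nat_lit 157) (C_10 L55659 (C_10 L37582 (C_10 L55663 (C_10 L37570 N_10)))) (by decide +kernel)
theorem L55665 : W_10 (nat_lit 2) (nat_lit 0x2000030017800ac000600000000000000000000000000) (nat_lit 0x0) (nat_lit 0x10000100008000000000000000000000) := D_10 (nat_lit 104) (nat_lit 124) (nat_lit 87) (nat_lit 0) (nat_lit 6) (nat_lit 7) (nat_lit 4) (nat_lit 3) (nat_lit 9) (by decide +kernel)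
theorem L55666 : W_10 (nat_lit 3) (nat_lit 0x2000030017800a4000600000000000000000000000000) (nat_lit 0x0) (nat_lit 0x20000000000018000100008000000000000000000000) := T_10 (nat_lit 123) (nat_lit 173) (nat_lit 6) (nat_lit 3) (nat_lit 10) L55665 (by decide +kernel)
theorem L55667 : W_10 (nat_lit 4) (nat_lit 0x2000030017800a4000200000000000000000000000000) (nat_lit 0x0) (nat_lit 0x20000000000018000500028000000000000000000000) := T_10 (nat_lit 106) (nat_lit 89) (nat_lit 6) (nat_lit 3) (nat_lit 9) L55666 (by decide +kernel)
theorem L55668 : W_10 (nat_lit 5) (nat_lit 0x2000030017800a4000000000000000000000000000000) (nat_lit 0x0) (nat_lit 0x20000000000018000700038000000000000000000000) := T_10 (nat_lit 105) (nat_lit 88) (nat_lit 7) (nat_lit 3) (nat_lit 5) L55667 (by decide +kernel)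
theorem L55669 : W_10 (nat_lit 6) (nat_lit 0x2000030017800a0000000000000000000000000000000) (nat_lit 0x0) (nat_lit 0x2000000000001e000700038000000000000000000000) := T_10 (nat_lit 122) (nat_lit 121) (nat_lit 0) (nat_lit 6) (nat_lit 8) L55668 (by decide +kernel)
theorem L55670 : W_10 (nat_lit 7) (nat_lit 0x2000020017800a0000000000000000000000000000000) (nat_lit 0x0) (nat_lit 0x2000180000001e000700038000000000000000000000) := T_10 (nat_lit 156) (nat_lit 155) (nat_lit 1) (nat_lit 6) (nat_lit 8) L55669 (by decide +kernel)
theorem L55671 : W_10 (nat_lit 8) (nat_lit 0x200002001780080000000000000000000000000000000) (nat_lit 0x0) (nat_lit 0x2000180000007e000700038000000000000000000000) := T_10 (nat_lit 125) (nat_lit 126) (nat_lit 2) (nat_lit 3) (nat_lit 8) L55670 (by decide +kernel)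
theorem L55672 : W_10 (nat_lit 2) (nat_lit 0x34000b0017800a0000000000000000000000000000000) (nat_lit 0x0) (nat_lit 0x2000000000000000010000800000000000000000000000000) := D_10 (nat_lit 124) (nat_lit 193) (nat_lit 107) (nat_lit 4) (nat_lit 6) (nat_lit 11) (nat_lit 4) (nat_lit 6) (nat_lit 10) (by decide +kernel)
theorem L55673 : W_10 (nat_lit 3) (nat_lit 0x3400030017800a0000000000000000000000000000000) (nat_lit 0x0) (nat_lit 0x6000000008000000010000800000000000000000000000000) := T_10 (nat_lit 159) (nat_lit 194) (nat_lit 7) (nat_lit 6) (nat_lit 7) L55672 (by decide +kernel)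
theorem L55674 : W_10 (nat_lit 4) (nat_lit 0x2400030017800a0000000000000000000000000000000) (nat_lit 0x0) (nat_lit 0x6000180008000000010000800000000000000000000000000) := T_10 (nat_lit 176) (nat_lit 175) (nat_lit 0) (nat_lit 7) (nat_lit 10) L55673 (by decide +kernel)
theorem L55675 : W_10 (nat_lit 5) (nat_lit 0x2400020017800a0000000000000000000000000000000) (nat_lit 0x0) (nat_lit 0x6000180009800000010000800000000000000000000000000) := T_10 (nat_lit 156) (nat_lit 155) (nat_lit 1) (nat_lit 6) (nat_lit 8) L55674 (by decide +kernel)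
theorem L55676 : W_10 (nat_lit 6) (nat_lit 0x240002001780080000000000000000000000000000000) (nat_lit 0x0) (nat_lit 0x6000180009800000070000800000000000000000000000000) := T_10 (nat_lit 125) (nat_lit 126) (nat_lit 2) (nat_lit 3) (nat_lit 8) L55675 (by decide +kernel)
theorem L55677 : W_10 (nat_lit 7) (nat_lit 0x200002001780080000000000000000000000000000000) (nat_lit 0x0) (nat_lit 0x38007c001e0009800000078000800000000000000000000000000) := Q_10 (nat_lit 174) (C_10 L55125 (C_10 L55030 (C_10 L55040 (C_10 L55676 N_10)))) (by decide +kernel)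
theorem L55678 : W_10 (nat_lit 9) (nat_lit 0x200000001780080000000000000000000000000000000) (nat_lit 0x0) (nat_lit 0x38007c001e000b80000007e000f00038000000000000000000000) := Q_10 (nat_lit 157) (C_10 L37570 (C_10 L37582 (C_10 L55671 (C_10 L55677 N_10)))) (by decide +kernel)
theorem L55679 : W_10 (nat_lit 2) (nat_lit 0x2700090017800a4000f00000000000000000000000000) (nat_lit 0x0) (nat_lit 0x10000c0000000000000000000000) := D_10 (nat_lit 90) (nat_lit 91) (nat_lit 108) (nat_lit 2) (nat_lit 2) (nat_lit 6) (nat_lit 4) (nat_lit 6) (nat_lit 9) (by decide +kernel)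
theorem L55680 : W_10 (nat_lit 3) (nat_lit 0x2700090017800a4000700000000000000000000000000) (nat_lit 0x0) (nat_lit 0x100018000c0000000000000000000000) := T_10 (nat_lit 107) (nat_lit 124) (nat_lit 3) (nat_lit 2) (nat_lit 6) L55679 (by decide +kernel)
theorem L55681 : W_10 (nat_lit 4) (nat_lit 0x270009001780084000700000000000000000000000000) (nat_lit 0x0) (nat_lit 0x700018000c0000000000000000000000) := T_10 (nat_lit 125) (nat_lit 126) (nat_lit 2) (nat_lit 3) (nat_lit 8) L55680 (by decide +kernel)
theorem L55682 : W_10 (nat_lit 5) (nat_lit 0x270009001780084000600000000000000000000000000) (nat_lit 0x0) (nat_lit 0x700019000c8000000000000000000000) := T_10 (nat_lit 104) (nat_lit 87) (nat_lit 4) (nat_lit 3) (nat_lit 9) L55681 (by decide +kernel)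
theorem L55683 : W_10 (nat_lit 6) (nat_lit 0x270009001780084000200000000000000000000000000) (nat_lit 0x0) (nat_lit 0x70001d000e8000000000000000000000) := T_10 (nat_lit 106) (nat_lit 89) (nat_lit 6) (nat_lit 3) (nat_lit 9) L55682 (by decide +kernel)
theorem L55684 : W_10 (nat_lit 7) (nat_lit 0x270009001780084000000000000000000000000000000) (nat_lit 0x0) (nat_lit 0x2000000070001f000e8000000000000000000000) := T_10 (nat_lit 105) (nat_lit 157) (nat_lit 7) (nat_lit 3) (nat_lit 6) L55683 (by decide +kernel)
theorem L55685 : W_10 (nat_lit 8) (nat_lit 0x230009001780084000000000000000000000000000000) (nat_lit 0x0) (nat_lit 0x800040002000000070001f000e8000000000000000000000) := T_10 (nat_lit 174) (nat_lit 191) (nat_lit 7) (nat_lit 3) (nat_lit 7) L55684 (by decide +kernel)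
theorem L55686 : W_10 (nat_lit 9) (nat_lit 0x220009001780084000000000000000000000000000000) (nat_lit 0x0) (nat_lit 0xa00050002000000070001f000e8000000000000000000000) := T_10 (nat_lit 172) (nat_lit 189) (nat_lit 5) (nat_lit 3) (nat_lit 7) L55685 (by decide +kernel)
theorem L55687 : W_10 (nat_lit 10) (nat_lit 0x220001001780084000000000000000000000000000000) (nat_lit 0x0) (nat_lit 0xa0005001a000000070001f000e8000000000000000000000) := T_10 (nat_lit 159) (nat_lit 160) (nat_lit 3) (nat_lit 3) (nat_lit 8) L55686 (by decide +kernel)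
theorem L55688 : W_10 (nat_lit 11) (nat_lit 0x220001001780080000000000000000000000000000000) (nat_lit 0x0) (nat_lit 0xa0005001a000000076001f000e8000000000000000000000) := T_10 (nat_lit 122) (nat_lit 121) (nat_lit 0) (nat_lit 6) (nat_lit 8) L55687 (by decide +kernel)
theorem L55689 : W_10 (nat_lit 2) (nat_lit 0xe0026000b0017800a0000000000000000000000000000000) (nat_lit 0x0) (nat_lit 0x180080000000000000000000000000000000000000000000) := D_10 (nat_lit 188) (nat_lit 175) (nat_lit 187) (nat_lit 2) (nat_lit 1) (nat_lit 11) (nat_lit 2) (nat_lit 0) (nat_lit 11) (by decide +kernel)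
theorem L55690 : W_10 (nat_lit 3) (nat_lit 0xe0022000b0017800a0000000000000000000000000000000) (nat_lit 0x0) (nat_lit 0x1800c0000000000010000000000000000000000000000000) := T_10 (nat_lit 174) (nat_lit 124) (nat_lit 6) (nat_lit 4) (nat_lit 11) L55689 (by decide +kernel)
theorem L55691 : W_10 (nat_lit 4) (nat_lit 0xe002200030017800a0000000000000000000000000000000) (nat_lit 0x0) (nat_lit 0x1800c0018000000010000000000000000000000000000000) := T_10 (nat_lit 159) (nat_lit 160) (nat_lit 3) (nat_lit 3) (nat_lit 8) L55690 (by decide +kernel)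
theorem L55692 : W_10 (nat_lit 5) (nat_lit 0xe002200010017800a0000000000000000000000000000000) (nat_lit 0x0) (nat_lit 0x80001800c001a000000010000000000000000000000000000000) := T_10 (nat_lit 157) (nat_lit 207) (nat_lit 6) (nat_lit 3) (nat_lit 12) L55691 (by decide +kernel)
theorem L55693 : W_10 (nat_lit 6) (nat_lit 0x6002200010017800a0000000000000000000000000000000) (nat_lit 0x0) (nat_lit 0x180009800c001a000000010000000000000000000000000000000) := T_10 (nat_lit 191) (nat_lit 208) (nat_lit 7) (nat_lit 3) (nat_lit 8) L55692 (by decide +kernel)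
theorem L55694 : W_10 (nat_lit 7) (nat_lit 0x4002200010017800a0000000000000000000000000000000) (nat_lit 0x0) (nat_lit 0x1c000b800c001a000000010000000000000000000000000000000) := T_10 (nat_lit 189) (nat_lit 206) (nat_lit 5) (nat_lit 3) (nat_lit 8) L55693 (by decide +kernel)
theorem L55695 : W_10 (nat_lit 8) (nat_lit 0x2200010017800a0000000000000000000000000000000) (nat_lit 0x0) (nat_lit 0x1c000f800c001a000000018000000000000000000000000000000) := T_10 (nat_lit 190) (nat_lit 123) (nat_lit 6) (nat_lit 3) (nat_lit 11) L55694 (by decide +kernel)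
theorem L55696 : W_10 (nat_lit 9) (nat_lit 0x220001001780080000000000000000000000000000000) (nat_lit 0x0) (nat_lit 0x1c000f800c001a000000078000000000000000000000000000000) := T_10 (nat_lit 125) (nat_lit 126) (nat_lit 2) (nat_lit 3) (nat_lit 8) L55695 (by decide +kernel)
theorem L55697 : W_10 (nat_lit 12) (nat_lit 0x200001001780080000000000000000000000000000000) (nat_lit 0x0) (nat_lit 0x1c000f800f001a00000007e001f000e8000000000000000000000) := Q_10 (nat_lit 173) (C_10 L55000 (C_10 L54985 (C_10 L55688 (C_10 L55696 N_10)))) (by decide +kernel)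
theorem L55698 : W_10 (nat_lit 13) (nat_lit 0x200000001780080000000000000000000000000000000) (nat_lit 0x0) (nat_lit 0x1c000f800f001b80000007e001f000e8000000000000000000000) := T_10 (nat_lit 156) (nat_lit 155) (nat_lit 1) (nat_lit 6) (nat_lit 8) L55697 (by decide +kernel)
theorem L55699 : W_10 (nat_lit 2) (nat_lit 0x2c00030017800a8000000000000000000000000000000) (nat_lit 0x0) (nat_lit 0x400020000000000000000400000000000000000000000000) := D_10 (nat_lit 173) (nat_lit 190) (nat_lit 106) (nat_lit 6) (nat_lit 3) (nat_lit 11) (nat_lit 5) (nat_lit 4) (nat_lit 6) (by decide +kernel)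
theorem L55700 : W_10 (nat_lit 3) (nat_lit 0x2c00030017800a0000000000000000000000000000000) (nat_lit 0x0) (nat_lit 0x1400020000000000008000400000000000000000000000000) := T_10 (nat_lit 123) (nat_lit 192) (nat_lit 7) (nat_lit 4) (nat_lit 7) L55699 (by decide +kernel)
theorem L55701 : W_10 (nat_lit 4) (nat_lit 0x2400030017800a0000000000000000000000000000000) (nat_lit 0x0) (nat_lit 0x14001a0000000000008000400000000000000000000000000) := T_10 (nat_lit 175) (nat_lit 176) (nat_lit 0) (nat_lit 7) (nat_lit 10) L55700 (by decide +kernel)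
theorem L55702 : W_10 (nat_lit 5) (nat_lit 0x2400020017800a0000000000000000000000000000000) (nat_lit 0x0) (nat_lit 0x14001a0001800000008000400000000000000000000000000) := T_10 (nat_lit 156) (nat_lit 155) (nat_lit 1) (nat_lit 6) (nat_lit 8) L55701 (by decide +kernel)
theorem L55703 : W_10 (nat_lit 6) (nat_lit 0x240002001780080000000000000000000000000000000) (nat_lit 0x0) (nat_lit 0x14001a0001800000068000400000000000000000000000000) := T_10 (nat_lit 125) (nat_lit 126) (nat_lit 2) (nat_lit 3) (nat_lit 8) L55702 (by decide +kernel)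
theorem L55704 : W_10 (nat_lit 7) (nat_lit 0x200002001780080000000000000000000000000000000) (nat_lit 0x0) (nat_lit 0x38003c001e0001800000078000400000000000000000000000000) := Q_10 (nat_lit 174) (C_10 L55125 (C_10 L55030 (C_10 L55040 (C_10 L55703 N_10)))) (by decide +kernel)
theorem L55705 : W_10 (nat_lit 9) (nat_lit 0x200000001780080000000000000000000000000000000) (nat_lit 0x0) (nat_lit 0x38003c001e000380000007e000700038000000000000000000000) := Q_10 (nat_lit 157) (C_10 L37570 (C_10 L55671 (C_10 L37582 (C_10 L55704 N_10)))) (by decide +kernel)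
theorem L55706 : W_10 (nat_lit 3) (nat_lit 0x2000080017800a4000000000000000000000000000000) (nat_lit 0x0) (nat_lit 0x6000100000000000010000800000000000000000000000000) := T_10 (nat_lit 176) (nat_lit 194) (nat_lit 7) (nat_lit 6) (nat_lit 7) L55338 (by decide +kernel)
theorem L55707 : W_10 (nat_lit 4) (nat_lit 0x200008001780084000000000000000000000000000000) (nat_lit 0x0) (nat_lit 0x6000100000000000070000800000000000000000000000000) := T_10 (nat_lit 125) (nat_lit 126) (nat_lit 2) (nat_lit 3) (nat_lit 8) L55706 (by decide +kernel)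
theorem L55708 : W_10 (nat_lit 5) (nat_lit 0x200000001780084000000000000000000000000000000) (nat_lit 0x0) (nat_lit 0x6000100018000000070000800000000000000000000000000) := T_10 (nat_lit 159) (nat_lit 160) (nat_lit 3) (nat_lit 3) (nat_lit 8) L55707 (by decide +kernel)
theorem L55709 : W_10 (nat_lit 6) (nat_lit 0x200000001780080000000000000000000000000000000) (nat_lit 0x0) (nat_lit 0x6000100018000000076000800000000000000000000000000) := T_10 (nat_lit 122) (nat_lit 121) (nat_lit 0) (nat_lit 6) (nat_lit 8) L55708 (by decide +kernel)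
theorem L55710 : W_10 (nat_lit 14) (nat_lit 0x200000001380080000000000000000000000000000000) (nat_lit 0x0) (nat_lit 0x14000fc007f801f001b80040007e003fc00f8000000000000000000000) := Q_10 (nat_lit 142) (C_10 L55664 (C_10 L55678 (C_10 L55622 (C_10 L55596 (C_10 L55698 (C_10 L55705 (C_10 L55626 (C_10 L55709 N_10)))))))) (by decide +kernel)
theorem L55711 : W_10 (nat_lit 2) (nat_lit 0x2000000013800a0000000000000000000000000000000) (nat_lit 0x0) (nat_lit 0x400050000000000000000000000000000000) := D_10 (nat_lit 126) (nat_lit 124) (nat_lit 142) (nat_lit 1) (nat_lit 8) (nat_lit 7) (nat_lit 2) (nat_lit 3) (nat_lit 8) (by decide +kernel)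
theorem L55712 : W_10 (nat_lit 2) (nat_lit 0x2000000013800a0000000000000000000000000000000) (nat_lit 0x0) (nat_lit 0x40050000000000000000000000000000000) := D_10 (nat_lit 124) (nat_lit 126) (nat_lit 138) (nat_lit 1) (nat_lit 8) (nat_lit 7) (nat_lit 2) (nat_lit 2) (nat_lit 8) (by decide +kernel)
theorem L55713 : W_10 (nat_lit 8) (nat_lit 0x2000000017800a0000000000000000000000000000000) (nat_lit 0x0) (nat_lit 0x5e001e001b800000008000000000000000000000000000000) := T_10 (nat_lit 156) (nat_lit 155) (nat_lit 1) (nat_lit 6) (nat_lit 8) L33858 (by decide +kernel)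
theorem L55714 : W_10 (nat_lit 9) (nat_lit 0x2000000013800a0000000000000000000000000000000) (nat_lit 0x0) (nat_lit 0x5e001e001b800400048000000000000000000000000000000) := T_10 (nat_lit 142) (nat_lit 126) (nat_lit 2) (nat_lit 3) (nat_lit 8) L55713 (by decide +kernel)
theorem L55715 : W_10 (nat_lit 2) (nat_lit 0x2000080017800b0000000000000000000000000000000) (nat_lit 0x0) (nat_lit 0x2000100000000000000000800000000000000000000000000) := D_10 (nat_lit 176) (nat_lit 107) (nat_lit 193) (nat_lit 4) (nat_lit 6) (nat_lit 10) (nat_lit 4) (nat_lit 6) (nat_lit 11) (by decide +kernel)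
theorem L55716 : W_10 (nat_lit 3) (nat_lit 0x2000000017800b0000000000000000000000000000000) (nat_lit 0x0) (nat_lit 0x2000100018000000000000800000000000000000000000000) := T_10 (nat_lit 159) (nat_lit 160) (nat_lit 3) (nat_lit 3) (nat_lit 8) L55715 (by decide +kernel)
theorem L55717 : W_10 (nat_lit 4) (nat_lit 0x2000000017800a0000000000000000000000000000000) (nat_lit 0x0) (nat_lit 0x2000100018000040010000800000000000000000000000000) := T_10 (nat_lit 124) (nat_lit 138) (nat_lit 2) (nat_lit 2) (nat_lit 8) L55716 (by decide +kernel)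
theorem L55718 : W_10 (nat_lit 9) (nat_lit 0x2000000013800a0000000000000000000000000000000) (nat_lit 0x0) (nat_lit 0x7e001e001bc00440018000800000000000000000000000000) := Q_10 (nat_lit 142) (C_10 L55717 (C_10 L55611 (C_10 L55713 N_10))) (by decide +kernel)
theorem L55719 : W_10 (nat_lit 10) (nat_lit 0x200000001380080000000000000000000000000000000) (nat_lit 0x0) (nat_lit 0x7e001e001bc00440078000800000000000000000000000000) := Q_10 (nat_lit 125) (C_10 L55711 (C_10 L55712 (C_10 L55714 (C_10 L55718 N_10)))) (by decide +kernel)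
theorem L55720 : W_10 (nat_lit 2) (nat_lit 0x2000008013c0096000000000000000000000000000000) (nat_lit 0x0) (nat_lit 0x200010000000000000000200000000000000000000000000) := D_10 (nat_lit 172) (nat_lit 189) (nat_lit 105) (nat_lit 6) (nat_lit 2) (nat_lit 11) (nat_lit 6) (nat_lit 2) (nat_lit 10) (by decide +kernel)
theorem L55721 : W_10 (nat_lit 3) (nat_lit 0x2000008013c0092000000000000000000000000000000) (nat_lit 0x0) (nat_lit 0x200010000000400004000200000000000000000000000000) := T_10 (nat_lit 122) (nat_lit 142) (nat_lit 0) (nat_lit 6) (nat_lit 8) L55720 (by decide +kernel)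
theorem L55722 : W_10 (nat_lit 4) (nat_lit 0x2000000013c0092000000000000000000000000000000) (nat_lit 0x0) (nat_lit 0x200010000c00400004000200000000000000000000000000) := T_10 (nat_lit 155) (nat_lit 154) (nat_lit 1) (nat_lit 5) (nat_lit 8) L55721 (by decide +kernel)
theorem L55723 : W_10 (nat_lit 5) (nat_lit 0x2000000013c0090000000000000000000000000000000) (nat_lit 0x0) (nat_lit 0x200010000c00400007000200000000000000000000000000) := T_10 (nat_lit 121) (nat_lit 120) (nat_lit 0) (nat_lit 5) (nat_lit 8) L55722 (by decide +kernel)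
theorem L55724 : W_10 (nat_lit 6) (nat_lit 0x2000000013c0080000000000000000000000000000000) (nat_lit 0x0) (nat_lit 0x200010000c00400037000200000000000000000000000000) := T_10 (nat_lit 124) (nat_lit 125) (nat_lit 2) (nat_lit 2) (nat_lit 8) L55723 (by decide +kernel)
theorem L55725 : W_10 (nat_lit 7) (nat_lit 0x200000001380080000000000000000000000000000000) (nat_lit 0x0) (nat_lit 0x200010000e0046003f800200000000000000000000000000) := Q_10 (nat_lit 138) (C_10 L55526 (C_10 L55573 (C_10 L55478 (C_10 L55724 N_10)))) (by decide +kernel)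
theorem L55726 : W_10 (nat_lit 8) (nat_lit 0x2400000017800a0000000000000000000000000000000) (nat_lit 0x0) (nat_lit 0x5e001a0019000040007000000000000000000000000000000) := T_10 (nat_lit 159) (nat_lit 160) (nat_lit 3) (nat_lit 3) (nat_lit 8) L55645 (by decide +kernel)
theorem L55727 : W_10 (nat_lit 4) (nat_lit 0x2400000017800a0000000000000000000000000000000) (nat_lit 0x0) (nat_lit 0x80000000200000000e000200010000000000000000000000) := T_10 (nat_lit 122) (nat_lit 121) (nat_lit 0) (nat_lit 6) (nat_lit 8) L33907 (by decide +kernel)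
theorem L55728 : W_10 (nat_lit 7) (nat_lit 0x2400000017800a0000000000000000000000000000000) (nat_lit 0x0) (nat_lit 0x5e001a001b000000008000000000000000000000000000000) := T_10 (nat_lit 159) (nat_lit 160) (nat_lit 3) (nat_lit 3) (nat_lit 8) L33928 (by decide +kernel)
theorem L55729 : W_10 (nat_lit 9) (nat_lit 0x2000000017800a0000000000000000000000000000000) (nat_lit 0x0) (nat_lit 0x5e001e001b00004000f000200010000000000000000000000) := Q_10 (nat_lit 174) (C_10 L55726 (C_10 L55727 (C_10 L55728 (C_10 L33936 N_10)))) (by decide +kernel)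
theorem L55730 : W_10 (nat_lit 10) (nat_lit 0x2000000013800a0000000000000000000000000000000) (nat_lit 0x0) (nat_lit 0x5e001e001b00044004f000200010000000000000000000000) := T_10 (nat_lit 142) (nat_lit 126) (nat_lit 2) (nat_lit 3) (nat_lit 8) L55729 (by decide +kernel)
theorem L55731 : W_10 (nat_lit 2) (nat_lit 0x2000000013c00a4000000000000000000000000000000) (nat_lit 0x0) (nat_lit 0x400003000000000000000000000000000000) := D_10 (nat_lit 121) (nat_lit 120) (nat_lit 142) (nat_lit 0) (nat_lit 5) (nat_lit 8) (nat_lit 0) (nat_lit 6) (nat_lit 8) (by decide +kernel)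
theorem L55732 : W_10 (nat_lit 3) (nat_lit 0x2000000013800a4000000000000000000000000000000) (nat_lit 0x0) (nat_lit 0x440013000000000000000000000000000000) := T_10 (nat_lit 138) (nat_lit 124) (nat_lit 2) (nat_lit 2) (nat_lit 8) L55731 (by decide +kernel)
theorem L55733 : W_10 (nat_lit 2) (nat_lit 0x2000000013c00a6000200000000000000000000000000) (nat_lit 0x0) (nat_lit 0x2000000000000000010000800000000000000000) := D_10 (nat_lit 88) (nat_lit 157) (nat_lit 71) (nat_lit 7) (nat_lit 3) (nat_lit 5) (nat_lit 5) (nat_lit 3) (nat_lit 4) (by decide +kernel)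
theorem L55734 : W_10 (nat_lit 3) (nat_lit 0x2000000013c00a4000200000000000000000000000000) (nat_lit 0x0) (nat_lit 0x2000000003000000010000800000000000000000) := T_10 (nat_lit 121) (nat_lit 120) (nat_lit 0) (nat_lit 5) (nat_lit 8) L55733 (by decide +kernel)
theorem L55735 : W_10 (nat_lit 4) (nat_lit 0x2000000013800a4000200000000000000000000000000) (nat_lit 0x0) (nat_lit 0x2000040013000000010000800000000000000000) := T_10 (nat_lit 138) (nat_lit 124) (nat_lit 2) (nat_lit 2) (nat_lit 8) L55734 (by decide +kernel)
theorem L55736 : W_10 (nat_lit 2) (nat_lit 0x2000000013c00a6000200038000000000000000000000) (nat_lit 0x0) (nat_lit 0x1000000000000500000000000000000000000000) := D_10 (nat_lit 156) (nat_lit 104) (nat_lit 106) (nat_lit 7) (nat_lit 2) (nat_lit 5) (nat_lit 6) (nat_lit 3) (nat_lit 9) (by decide +kernel)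
theorem L55737 : W_10 (nat_lit 3) (nat_lit 0x2000000013c00a6000200018000000000000000000000) (nat_lit 0x0) (nat_lit 0x1000000000000500020001000000000000000000) := T_10 (nat_lit 89) (nat_lit 72) (nat_lit 6) (nat_lit 3) (nat_lit 8) L55736 (by decide +kernel)
theorem L55738 : W_10 (nat_lit 4) (nat_lit 0x2000000013c00a6000200010000000000000000000000) (nat_lit 0x0) (nat_lit 0x1000000000000500028001400000000000000000) := T_10 (nat_lit 87) (nat_lit 70) (nat_lit 4) (nat_lit 3) (nat_lit 8) L55737 (by decide +kernel)
theorem L55739 : W_10 (nat_lit 5) (nat_lit 0x2000000013c00a6000200000000000000000000000000) (nat_lit 0x0) (nat_lit 0x1000000000000500038001c00000000000000000) := T_10 (nat_lit 88) (nat_lit 71) (nat_lit 5) (nat_lit 3) (nat_lit 4) L55738 (by decide +kernel)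
theorem L55740 : W_10 (nat_lit 6) (nat_lit 0x2000000013c00a4000200000000000000000000000000) (nat_lit 0x0) (nat_lit 0x1000000003000500038001c00000000000000000) := T_10 (nat_lit 121) (nat_lit 120) (nat_lit 0) (nat_lit 5) (nat_lit 8) L55739 (by decide +kernel)
theorem L55741 : W_10 (nat_lit 7) (nat_lit 0x2000000013800a4000200000000000000000000000000) (nat_lit 0x0) (nat_lit 0x1000040013000500038001c00000000000000000) := T_10 (nat_lit 138) (nat_lit 124) (nat_lit 2) (nat_lit 2) (nat_lit 8) L55740 (by decide +kernel)
theorem L55742 : W_10 (nat_lit 2) (nat_lit 0x2000000013800a4000200010000800000000000000000) (nat_lit 0x0) (nat_lit 0x20001000080000000000000) := D_10 (nat_lit 72) (nat_lit 55) (nat_lit 89) (nat_lit 6) (nat_lit 3) (nat_lit 7) (nat_lit 6) (nat_lit 3) (nat_lit 8) (by decide +kernel)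
theorem L55743 : W_10 (nat_lit 3) (nat_lit 0x2000000013800a4000200010000000000000000000000) (nat_lit 0x0) (nat_lit 0x8000000020001800080000000000000) := T_10 (nat_lit 71) (nat_lit 123) (nat_lit 7) (nat_lit 3) (nat_lit 4) L55742 (by decide +kernel)
theorem L55744 : W_10 (nat_lit 4) (nat_lit 0x2000000013800a4000200000000000000000000000000) (nat_lit 0x0) (nat_lit 0x2000000008000000030001800080000000000000) := T_10 (nat_lit 88) (nat_lit 157) (nat_lit 7) (nat_lit 3) (nat_lit 5) L55743 (by decide +kernel)
theorem L55745 : W_10 (nat_lit 2) (nat_lit 0x2000000013800bc001200000000000000000000000000) (nat_lit 0x0) (nat_lit 0x3000800000000000000000000000000) := D_10 (nat_lit 121) (nat_lit 107) (nat_lit 120) (nat_lit 2) (nat_lit 2) (nat_lit 7) (nat_lit 3) (nat_lit 1) (nat_lit 7) (by decide +kernel)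
theorem L55746 : W_10 (nat_lit 3) (nat_lit 0x2000000013800bc000200000000000000000000000000) (nat_lit 0x0) (nat_lit 0x3003800000000000000000000000000) := T_10 (nat_lit 108) (nat_lit 109) (nat_lit 2) (nat_lit 3) (nat_lit 7) L55745 (by decide +kernel)
theorem L55747 : W_10 (nat_lit 4) (nat_lit 0x2000000013800b4000200000000000000000000000000) (nat_lit 0x0) (nat_lit 0xb003900000000000000000000000000) := T_10 (nat_lit 123) (nat_lit 104) (nat_lit 0) (nat_lit 6) (nat_lit 7) L55746 (by decide +kernel)
theorem L55748 : W_10 (nat_lit 5) (nat_lit 0x2000000013800a4000200000000000000000000000000) (nat_lit 0x0) (nat_lit 0x4001b003900000000000000000000000000) := T_10 (nat_lit 124) (nat_lit 138) (nat_lit 2) (nat_lit 2) (nat_lit 8) L55747 (by decide +kernel)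
theorem L55749 : W_10 (nat_lit 8) (nat_lit 0x2000000013800a4000000000000000000000000000000) (nat_lit 0x0) (nat_lit 0x300004001b003f00038001c00080000000000000) := Q_10 (nat_lit 105) (C_10 L55735 (C_10 L55741 (C_10 L55744 (C_10 L55748 N_10)))) (by decide +kernel)
theorem L55750 : W_10 (nat_lit 2) (nat_lit 0x2000000013800a6000000000000000000000000000000) (nat_lit 0x0) (nat_lit 0x40001800000000000000000000000000000) := D_10 (nat_lit 120) (nat_lit 138) (nat_lit 119) (nat_lit 0) (nat_lit 5) (nat_lit 8) (nat_lit 3) (nat_lit 0) (nat_lit 7) (by decide +kernel)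
theorem L55751 : W_10 (nat_lit 3) (nat_lit 0x2000000013800a4000000000000000000000000000000) (nat_lit 0x0) (nat_lit 0x440003800000000000000000000000000000) := T_10 (nat_lit 121) (nat_lit 142) (nat_lit 0) (nat_lit 6) (nat_lit 8) L55750 (by decide +kernel)
theorem L55752 : W_10 (nat_lit 4) (nat_lit 0x2000000017800a4000000000000000000000000000000) (nat_lit 0x0) (nat_lit 0x6000100018000000010000800000000000000000000000000) := T_10 (nat_lit 159) (nat_lit 160) (nat_lit 3) (nat_lit 3) (nat_lit 8) L55706 (by decide +kernel)
theorem L55753 : W_10 (nat_lit 5) (nat_lit 0x2000000013800a4000000000000000000000000000000) (nat_lit 0x0) (nat_lit 0x6000100018000400012000800000000000000000000000000) := T_10 (nat_lit 142) (nat_lit 121) (nat_lit 0) (nat_lit 6) (nat_lit 8) L55752 (by decide +kernel)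
theorem L55754 : W_10 (nat_lit 2) (nat_lit 0x2000020013c00a4000200000000000000000000000000) (nat_lit 0x0) (nat_lit 0x800040001000000000000000000000000000000000000000) := D_10 (nat_lit 174) (nat_lit 191) (nat_lit 156) (nat_lit 4) (nat_lit 4) (nat_lit 11) (nat_lit 7) (nat_lit 3) (nat_lit 6) (by decide +kernel)
theorem L55755 : W_10 (nat_lit 3) (nat_lit 0x2000020013c00a4000000000000000000000000000000) (nat_lit 0x0) (nat_lit 0x800040001000000000000200010000000000000000000000) := T_10 (nat_lit 105) (nat_lit 88) (nat_lit 7) (nat_lit 3) (nat_lit 5) L55754 (by decide +kernel)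
theorem L55756 : W_10 (nat_lit 4) (nat_lit 0x2000020013800a4000000000000000000000000000000) (nat_lit 0x0) (nat_lit 0x800040001000040010000200010000000000000000000000) := T_10 (nat_lit 138) (nat_lit 124) (nat_lit 2) (nat_lit 2) (nat_lit 8) L55755 (by decide +kernel)
theorem L55757 : W_10 (nat_lit 2) (nat_lit 0x20000a0017800bc0012000c0000000000000000000000) (nat_lit 0x0) (nat_lit 0x6000100000000000000000000000000000000000000000000) := D_10 (nat_lit 176) (nat_lit 193) (nat_lit 194) (nat_lit 4) (nat_lit 6) (nat_lit 11) (nat_lit 7) (nat_lit 6) (nat_lit 7) (by decide +kernel)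
theorem L55758 : W_10 (nat_lit 3) (nat_lit 0x2000020017800bc0012000c0000000000000000000000) (nat_lit 0x0) (nat_lit 0x6000100018000000000000000000000000000000000000000) := T_10 (nat_lit 159) (nat_lit 160) (nat_lit 3) (nat_lit 3) (nat_lit 8) L55757 (by decide +kernel)
theorem L55759 : W_10 (nat_lit 4) (nat_lit 0x2000020013800bc0012000c0000000000000000000000) (nat_lit 0x0) (nat_lit 0x6000100018000400000000000000002000000000000000000) := T_10 (nat_lit 142) (nat_lit 73) (nat_lit 4) (nat_lit 6) (nat_lit 8) L55758 (by decide +kernel)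
theorem L55760 : W_10 (nat_lit 5) (nat_lit 0x2000020013800bc001200040000000000000000000000) (nat_lit 0x0) (nat_lit 0x6000100018000400000000000080006000000000000000000) := T_10 (nat_lit 91) (nat_lit 74) (nat_lit 5) (nat_lit 6) (nat_lit 4) L55759 (by decide +kernel)
theorem L55761 : W_10 (nat_lit 6) (nat_lit 0x2000020013800bc000200040000000000000000000000) (nat_lit 0x0) (nat_lit 0x6000100018000400000003000080006000000000000000000) := T_10 (nat_lit 108) (nat_lit 109) (nat_lit 2) (nat_lit 3) (nat_lit 7) L55760 (by decide +kernel)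
theorem L55762 : W_10 (nat_lit 7) (nat_lit 0x2000020013800b4000200040000000000000000000000) (nat_lit 0x0) (nat_lit 0x6000100018000400008003100080006000000000000000000) := T_10 (nat_lit 123) (nat_lit 104) (nat_lit 0) (nat_lit 6) (nat_lit 7) L55761 (by decide +kernel)
theorem L55763 : W_10 (nat_lit 8) (nat_lit 0x2000020013800b4000200000000000000000000000000) (nat_lit 0x0) (nat_lit 0x60001000180004000080039000c0006000000000000000000) := T_10 (nat_lit 90) (nat_lit 107) (nat_lit 5) (nat_lit 5) (nat_lit 5) L55762 (by decide +kernel)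
theorem L55764 : W_10 (nat_lit 9) (nat_lit 0x2000020013800b4000000000000000000000000000000) (nat_lit 0x0) (nat_lit 0x6000100018000400008003b000d0006000000000000000000) := T_10 (nat_lit 105) (nat_lit 88) (nat_lit 7) (nat_lit 3) (nat_lit 5) L55763 (by decide +kernel)
theorem L55765 : W_10 (nat_lit 10) (nat_lit 0x2000020013800a4000000000000000000000000000000) (nat_lit 0x0) (nat_lit 0x6000100018000440018003b000d0006000000000000000000) := T_10 (nat_lit 124) (nat_lit 138) (nat_lit 2) (nat_lit 2) (nat_lit 8) L55764 (by decide +kernel)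
theorem L55766 : W_10 (nat_lit 2) (nat_lit 0x2400020013800a4000000000000000000000000000000) (nat_lit 0x0) (nat_lit 0x8000200010000000000000000000000) := D_10 (nat_lit 105) (nat_lit 88) (nat_lit 123) (nat_lit 7) (nat_lit 3) (nat_lit 5) (nat_lit 4) (nat_lit 4) (nat_lit 10) (by decide +kernel)
theorem L55767 : W_10 (nat_lit 3) (nat_lit 0x2000020013800a4000000000000000000000000000000) (nat_lit 0x0) (nat_lit 0x800040000000000008000200010000000000000000000000) := T_10 (nat_lit 174) (nat_lit 191) (nat_lit 4) (nat_lit 4) (nat_lit 11) L55766 (by decide +kernel)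
theorem L55768 : W_10 (nat_lit 2) (nat_lit 0x2400020013800b4000000000000000000000000000000) (nat_lit 0x0) (nat_lit 0x8000800040000000000000000000000) := D_10 (nat_lit 107) (nat_lit 90) (nat_lit 123) (nat_lit 5) (nat_lit 5) (nat_lit 5) (nat_lit 6) (nat_lit 4) (nat_lit 10) (by decide +kernel)
theorem L55769 : W_10 (nat_lit 3) (nat_lit 0x2000020013800b4000000000000000000000000000000) (nat_lit 0x0) (nat_lit 0x800040000000000008000800040000000000000000000000) := T_10 (nat_lit 174) (nat_lit 191) (nat_lit 6) (nat_lit 4) (nat_lit 11) L55768 (by decide +kernel)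
theorem L55770 : W_10 (nat_lit 4) (nat_lit 0x2000020013800a4000000000000000000000000000000) (nat_lit 0x0) (nat_lit 0x800040000000040018000800040000000000000000000000) := T_10 (nat_lit 124) (nat_lit 138) (nat_lit 2) (nat_lit 2) (nat_lit 8) L55769 (by decide +kernel)
theorem L55771 : W_10 (nat_lit 11) (nat_lit 0x2000000013800a4000000000000000000000000000000) (nat_lit 0x0) (nat_lit 0x680014001b000440018003b000d0006000000000000000000) := Q_10 (nat_lit 157) (C_10 L55756 (C_10 L55765 (C_10 L55767 (C_10 L55770 N_10)))) (by decide +kernel)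
theorem L55772 : W_10 (nat_lit 12) (nat_lit 0x2000000013800a0000000000000000000000000000000) (nat_lit 0x0) (nat_lit 0x680014001b00044001f803f000f8007c00080000000000000) := Q_10 (nat_lit 122) (C_10 L55732 (C_10 L55749 (C_10 L55751 (C_10 L55753 (C_10 L55771 N_10))))) (by decide +kernel)
theorem L55773 : W_10 (nat_lit 13) (nat_lit 0x200000001380080000000000000000000000000000000) (nat_lit 0x0) (nat_lit 0x7e001e001b00044007f803f000f8007c00080000000000000) := Q_10 (nat_lit 125) (C_10 L55711 (C_10 L55712 (C_10 L55730 (C_10 L55772 N_10)))) (by decide +kernel)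
theorem L55774 : W_10 (nat_lit 15) (nat_lit 0x200000001300080000000000000000000000000000000) (nat_lit 0x0) (nat_lit 0x14000fe007f801f801be004f007f803fc00fc007c001c0000000000000) := Q_10 (nat_lit 139) (C_10 L55574 (C_10 L55590 (C_10 L55617 (C_10 L55618 (C_10 L55623 (C_10 L55649 (C_10 L55655 (C_10 L55710 (C_10 L55719 (C_10 L55725 (C_10 L55773 N_10))))))))))) (by decide +kernel)
theorem L55775 : W_10 (nat_lit 2) (nat_lit 0x2000058013c0082000000000000000000000000000000) (nat_lit 0x0) (nat_lit 0x20000000000000000100008000000000000000000000) := D_10 (nat_lit 104) (nat_lit 87) (nat_lit 173) (nat_lit 7) (nat_lit 2) (nat_lit 5) (nat_lit 7) (nat_lit 2) (nat_lit 6) (by decide +kernel)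
theorem L55776 : W_10 (nat_lit 3) (nat_lit 0x2000050013c0082000000000000000000000000000000) (nat_lit 0x0) (nat_lit 0x20000c00000000000100008000000000000000000000) := T_10 (nat_lit 155) (nat_lit 154) (nat_lit 1) (nat_lit 5) (nat_lit 8) L55775 (by decide +kernel)
theorem L55777 : W_10 (nat_lit 4) (nat_lit 0x2000050013c0080000000000000000000000000000000) (nat_lit 0x0) (nat_lit 0x20000c00000003000100008000000000000000000000) := T_10 (nat_lit 121) (nat_lit 120) (nat_lit 0) (nat_lit 5) (nat_lit 8) L55776 (by decide +kernel)
theorem L55778 : W_10 (nat_lit 5) (nat_lit 0x2000010013c0080000000000000000000000000000000) (nat_lit 0x0) (nat_lit 0x2000cc00000003000100008000000000000000000000) := T_10 (nat_lit 158) (nat_lit 159) (nat_lit 3) (nat_lit 2) (nat_lit 8) L55777 (by decide +kernel)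
theorem L55779 : W_10 (nat_lit 5) (nat_lit 0x4002800050013c0088000000000000000000000000000000) (nat_lit 0x0) (nat_lit 0x200118002c00000004000200000000000000000000000000) := T_10 (nat_lit 155) (nat_lit 154) (nat_lit 1) (nat_lit 5) (nat_lit 8) L33757 (by decide +kernel)
theorem L55780 : W_10 (nat_lit 6) (nat_lit 0x2800050013c0088000000000000000000000000000000) (nat_lit 0x0) (nat_lit 0x600138002c00000004000200000000000000000000000000) := T_10 (nat_lit 190) (nat_lit 173) (nat_lit 6) (nat_lit 3) (nat_lit 11) L55779 (by decide +kernel)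
theorem L55781 : W_10 (nat_lit 7) (nat_lit 0x2000050013c0088000000000000000000000000000000) (nat_lit 0x0) (nat_lit 0x16001b8002c00000004000200000000000000000000000000) := T_10 (nat_lit 175) (nat_lit 192) (nat_lit 4) (nat_lit 5) (nat_lit 11) L55780 (by decide +kernel)
theorem L55782 : W_10 (nat_lit 8) (nat_lit 0x2000010013c0088000000000000000000000000000000) (nat_lit 0x0) (nat_lit 0x16001b800ec00000004000200000000000000000000000000) := T_10 (nat_lit 158) (nat_lit 159) (nat_lit 3) (nat_lit 2) (nat_lit 8) L55781 (by decide +kernel)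
theorem L55783 : W_10 (nat_lit 5) (nat_lit 0x2000058013c0088000000020000000000000000000000) (nat_lit 0x0) (nat_lit 0x1200198002000000004000200000000000000000000000000) := T_10 (nat_lit 175) (nat_lit 192) (nat_lit 4) (nat_lit 5) (nat_lit 11) L33750 (by decide +kernel)
theorem L55784 : W_10 (nat_lit 6) (nat_lit 0x2000058013c0088000000000000000000000000000000) (nat_lit 0x0) (nat_lit 0x1200198002000000004000600020000000000000000000000) := T_10 (nat_lit 89) (nat_lit 106) (nat_lit 7) (nat_lit 4) (nat_lit 5) L55783 (by decide +kernel)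
theorem L55785 : W_10 (nat_lit 7) (nat_lit 0x2000018013c0088000000000000000000000000000000) (nat_lit 0x0) (nat_lit 0x120019800e000000004000600020000000000000000000000) := T_10 (nat_lit 158) (nat_lit 159) (nat_lit 3) (nat_lit 2) (nat_lit 8) L55784 (by decide +kernel)
theorem L55786 : W_10 (nat_lit 8) (nat_lit 0x2000010013c0088000000000000000000000000000000) (nat_lit 0x0) (nat_lit 0x120019800ec00000004000600020000000000000000000000) := T_10 (nat_lit 155) (nat_lit 154) (nat_lit 1) (nat_lit 5) (nat_lit 8) L55785 (by decide +kernel)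
theorem L55787 : W_10 (nat_lit 9) (nat_lit 0x2000010013c0080000000000000000000000000000000) (nat_lit 0x0) (nat_lit 0x16001b800ec0000000c000600020000000000000000000000) := Q_10 (nat_lit 123) (C_10 L37168 (C_10 L33747 (C_10 L55782 (C_10 L55786 N_10)))) (by decide +kernel)
theorem L55788 : W_10 (nat_lit 12) (nat_lit 0x2000000013c0080000000000000000000000000000000) (nat_lit 0x0) (nat_lit 0x16001f800fc0000000f001f00038000000000000000000000) := Q_10 (nat_lit 156) (C_10 L55778 (C_10 L33773 (C_10 L55787 (C_10 L37132 (C_10 L33777 N_10))))) (by decide +kernel)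
theorem L55789 : W_10 (nat_lit 13) (nat_lit 0x200000001380080000000000000000000000000000000) (nat_lit 0x0) (nat_lit 0x16001f800fe0006000f801f00038000000000000000000000) := Q_10 (nat_lit 138) (C_10 L55526 (C_10 L37111 (C_10 L55788 (C_10 L33742 N_10)))) (by decide +kernel)
theorem L55790 : W_10 (nat_lit 3) (nat_lit 0x2000080017800a0000000000000000000000000000000) (nat_lit 0x0) (nat_lit 0x4000040007000000000000000000000000000000) := T_10 (nat_lit 138) (nat_lit 158) (nat_lit 3) (nat_lit 2) (nat_lit 8) L55613 (by decide +kernel)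
theorem L55791 : W_10 (nat_lit 4) (nat_lit 0x2000000017800a0000000000000000000000000000000) (nat_lit 0x0) (nat_lit 0x1c000040007000000000000000000000000000000) := T_10 (nat_lit 159) (nat_lit 160) (nat_lit 3) (nat_lit 3) (nat_lit 8) L55790 (by decide +kernel)
theorem L55792 : W_10 (nat_lit 5) (nat_lit 0x200000001780080000000000000000000000000000000) (nat_lit 0x0) (nat_lit 0x1c000040067000000000000000000000000000000) := T_10 (nat_lit 125) (nat_lit 126) (nat_lit 2) (nat_lit 3) (nat_lit 8) L55791 (by decide +kernel)
theorem L55793 : W_10 (nat_lit 14) (nat_lit 0x200000001380080000000000000000000000000000000) (nat_lit 0x0) (nat_lit 0x2a007f001f801fc00440067000000000000000000000000000000) := Q_10 (nat_lit 142) (C_10 L33820 (C_10 L55622 (C_10 L55630 (C_10 L33793 (C_10 L34793 (C_10 L55792 N_10)))))) (by decide +kernel)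
theorem L55794 : W_10 (nat_lit 2) (nat_lit 0x3800090017800a4003c00000000000000000000000000) (nat_lit 0x0) (nat_lit 0x200030000000000000000000000) := D_10 (nat_lit 89) (nat_lit 88) (nat_lit 105) (nat_lit 0) (nat_lit 7) (nat_lit 6) (nat_lit 6) (nat_lit 3) (nat_lit 9) (by decide +kernel)
theorem L55795 : W_10 (nat_lit 3) (nat_lit 0x3800090017800a4003800000000000000000000000000) (nat_lit 0x0) (nat_lit 0x8000600030000000000000000000000) := T_10 (nat_lit 106) (nat_lit 123) (nat_lit 1) (nat_lit 7) (nat_lit 6) L55794 (by decide +kernel)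
theorem L55796 : W_10 (nat_lit 4) (nat_lit 0x3800090017800a4003000000000000000000000000000) (nat_lit 0x0) (nat_lit 0x8000e00070000000000000000000000) := T_10 (nat_lit 107) (nat_lit 90) (nat_lit 4) (nat_lit 6) (nat_lit 9) L55795 (by decide +kernel)
theorem L55797 : W_10 (nat_lit 5) (nat_lit 0x3800090017800a4001000000000000000000000000000) (nat_lit 0x0) (nat_lit 0x8002e00170000000000000000000000) := T_10 (nat_lit 109) (nat_lit 92) (nat_lit 6) (nat_lit 6) (nat_lit 9) L55796 (by decide +kernel)
theorem L55798 : W_10 (nat_lit 6) (nat_lit 0x3800090017800a4000000000000000000000000000000) (nat_lit 0x0) (nat_lit 0x4000000008003e00170000000000000000000000) := T_10 (nat_lit 108) (nat_lit 158) (nat_lit 5) (nat_lit 6) (nat_lit 6) L55797 (by decide +kernel)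
theorem L55799 : W_10 (nat_lit 7) (nat_lit 0x3000090017800a4000000000000000000000000000000) (nat_lit 0x0) (nat_lit 0x1000080004000000008003e00170000000000000000000000) := T_10 (nat_lit 175) (nat_lit 192) (nat_lit 5) (nat_lit 6) (nat_lit 7) L55798 (by decide +kernel)
theorem L55800 : W_10 (nat_lit 8) (nat_lit 0x2000090017800a4000000000000000000000000000000) (nat_lit 0x0) (nat_lit 0x5000180004000000008003e00170000000000000000000000) := T_10 (nat_lit 176) (nat_lit 194) (nat_lit 7) (nat_lit 6) (nat_lit 7) L55799 (by decide +kernel)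
theorem L55801 : W_10 (nat_lit 9) (nat_lit 0x2000080017800a4000000000000000000000000000000) (nat_lit 0x0) (nat_lit 0x5000180005800000008003e00170000000000000000000000) := T_10 (nat_lit 156) (nat_lit 155) (nat_lit 1) (nat_lit 6) (nat_lit 8) L55800 (by decide +kernel)
theorem L55802 : W_10 (nat_lit 10) (nat_lit 0x2000000017800a4000000000000000000000000000000) (nat_lit 0x0) (nat_lit 0x500018001d800000008003e00170000000000000000000000) := T_10 (nat_lit 159) (nat_lit 160) (nat_lit 3) (nat_lit 3) (nat_lit 8) L55801 (by decide +kernel)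
theorem L55803 : W_10 (nat_lit 11) (nat_lit 0x200000001780084000000000000000000000000000000) (nat_lit 0x0) (nat_lit 0x500018001d800000068003e00170000000000000000000000) := T_10 (nat_lit 125) (nat_lit 126) (nat_lit 2) (nat_lit 3) (nat_lit 8) L55802 (by decide +kernel)
theorem L55804 : W_10 (nat_lit 12) (nat_lit 0x200000001780080000000000000000000000000000000) (nat_lit 0x0) (nat_lit 0x500018001d80000006e003e00170000000000000000000000) := T_10 (nat_lit 122) (nat_lit 121) (nat_lit 0) (nat_lit 6) (nat_lit 8) L55803 (by decide +kernel)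
theorem L55805 : W_10 (nat_lit 13) (nat_lit 0x200000001380080000000000000000000000000000000) (nat_lit 0x0) (nat_lit 0x500018001dc0044006f003e00170000000000000000000000) := Q_10 (nat_lit 142) (C_10 L34793 (C_10 L55804 (C_10 L33793 (C_10 L55792 N_10)))) (by decide +kernel)
theorem L55806 : W_10 (nat_lit 2) (nat_lit 0xc003400024013f0081000000000000000000000000000000) (nat_lit 0x0) (nat_lit 0x20003000000000000000000000000000000000000000000000000) := D_10 (nat_lit 192) (nat_lit 209) (nat_lit 193) (nat_lit 7) (nat_lit 4) (nat_lit 8) (nat_lit 2) (nat_lit 3) (nat_lit 11) (by decide +kernel)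
theorem L55807 : W_10 (nat_lit 3) (nat_lit 0xc002400024013f0081000000000000000000000000000000) (nat_lit 0x0) (nat_lit 0x20003000180000000000000000000000000000000000000000000) := T_10 (nat_lit 176) (nat_lit 175) (nat_lit 1) (nat_lit 7) (nat_lit 10) L55806 (by decide +kernel)
theorem L55808 : W_10 (nat_lit 4) (nat_lit 0x8002400024013f0081000000000000000000000000000000) (nat_lit 0x0) (nat_lit 0x28003400180000000000000000000000000000000000000000000) := T_10 (nat_lit 190) (nat_lit 207) (nat_lit 5) (nat_lit 4) (nat_lit 8) L55807 (by decide +kernel)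
theorem L55809 : W_10 (nat_lit 5) (nat_lit 0x2400024013f0081000000000000000000000000000000) (nat_lit 0x0) (nat_lit 0x28003c00180000000000004000000000000000000000000000000) := T_10 (nat_lit 191) (nat_lit 122) (nat_lit 4) (nat_lit 4) (nat_lit 11) L55808 (by decide +kernel)
theorem L55810 : W_10 (nat_lit 6) (nat_lit 0x2400024013f0080000000000000000000000000000000) (nat_lit 0x0) (nat_lit 0x28003c00180000000000005800000000000000000000000000000) := T_10 (nat_lit 120) (nat_lit 119) (nat_lit 0) (nat_lit 4) (nat_lit 8) L55809 (by decide +kernel)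
theorem L55811 : W_10 (nat_lit 7) (nat_lit 0x2400020013f0080000000000000000000000000000000) (nat_lit 0x0) (nat_lit 0x28003c00180000600000005800000000000000000000000000000) := T_10 (nat_lit 154) (nat_lit 153) (nat_lit 1) (nat_lit 4) (nat_lit 8) L55810 (by decide +kernel)
theorem L55812 : W_10 (nat_lit 8) (nat_lit 0x2400020013e0080000000000000000000000000000000) (nat_lit 0x0) (nat_lit 0x28003c00180001600010005800000000000000000000000000000) := T_10 (nat_lit 136) (nat_lit 156) (nat_lit 3) (nat_lit 0) (nat_lit 8) L55811 (by decide +kernel)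
theorem L55813 : W_10 (nat_lit 9) (nat_lit 0x2400020013c0080000000000000000000000000000000) (nat_lit 0x0) (nat_lit 0x28003c00180005600030005800000000000000000000000000000) := T_10 (nat_lit 137) (nat_lit 158) (nat_lit 3) (nat_lit 1) (nat_lit 8) L55812 (by decide +kernel)
theorem L55814 : W_10 (nat_lit 2) (nat_lit 0x8002400020013c0080000000000000000000000000000000) (nat_lit 0x0) (nat_lit 0x10000000000004000020000000000000000000000000000000000) := D_10 (nat_lit 158) (nat_lit 137) (nat_lit 208) (nat_lit 3) (nat_lit 1) (nat_lit 8) (nat_lit 6) (nat_lit 4) (nat_lit 12) (by decide +kernel)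
theorem L55815 : W_10 (nat_lit 3) (nat_lit 0x2400020013c0080000000000000000000000000000000) (nat_lit 0x0) (nat_lit 0x10000800000004000020004000000000000000000000000000000) := T_10 (nat_lit 191) (nat_lit 122) (nat_lit 4) (nat_lit 4) (nat_lit 11) L55814 (by decide +kernel)
theorem L55816 : W_10 (nat_lit 2) (nat_lit 0x100000002c00034013e0089000000000000000000000000000000) (nat_lit 0x0) (nat_lit 0x400020000000000000000400000000000000000000000000) := D_10 (nat_lit 173) (nat_lit 190) (nat_lit 106) (nat_lit 6) (nat_lit 3) (nat_lit 11) (nat_lit 5) (nat_lit 4) (nat_lit 6) (by decide +kernel)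
theorem L55817 : W_10 (nat_lit 3) (nat_lit 0x100000002c00034013e0081000000000000000000000000000000) (nat_lit 0x0) (nat_lit 0x1400020000000000008000400000000000000000000000000) := T_10 (nat_lit 123) (nat_lit 192) (nat_lit 7) (nat_lit 4) (nat_lit 7) L55816 (by decide +kernel)
theorem L55818 : W_10 (nat_lit 4) (nat_lit 0x100000002c00034013e0080000000000000000000000000000000) (nat_lit 0x0) (nat_lit 0x1400020000000000009800400000000000000000000000000) := T_10 (nat_lit 120) (nat_lit 119) (nat_lit 0) (nat_lit 4) (nat_lit 8) L55817 (by decide +kernel)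
theorem L55819 : W_10 (nat_lit 5) (nat_lit 0x100000002400034013e0080000000000000000000000000000000) (nat_lit 0x0) (nat_lit 0x14001a0000000000009800400000000000000000000000000) := T_10 (nat_lit 175) (nat_lit 176) (nat_lit 0) (nat_lit 7) (nat_lit 10) L55818 (by decide +kernel)
theorem L55820 : W_10 (nat_lit 6) (nat_lit 0x2400034013e0080000000000000000000000000000000) (nat_lit 0x0) (nat_lit 0x10001c001a0000000000009800400000000000000000000000000) := T_10 (nat_lit 208) (nat_lit 191) (nat_lit 4) (nat_lit 4) (nat_lit 12) L55819 (by decide +kernel)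
theorem L55821 : W_10 (nat_lit 7) (nat_lit 0x2400030013e0080000000000000000000000000000000) (nat_lit 0x0) (nat_lit 0x10001c001a0000600000009800400000000000000000000000000) := T_10 (nat_lit 154) (nat_lit 153) (nat_lit 1) (nat_lit 4) (nat_lit 8) L55820 (by decide +kernel)
theorem L55822 : W_10 (nat_lit 8) (nat_lit 0x2400020013e0080000000000000000000000000000000) (nat_lit 0x0) (nat_lit 0x10001c001a0001600010009800400000000000000000000000000) := T_10 (nat_lit 156) (nat_lit 136) (nat_lit 3) (nat_lit 0) (nat_lit 8) L55821 (by decide +kernel)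
theorem L55823 : W_10 (nat_lit 9) (nat_lit 0x2400020013c0080000000000000000000000000000000) (nat_lit 0x0) (nat_lit 0x10001c001a0005600030009800400000000000000000000000000) := T_10 (nat_lit 137) (nat_lit 158) (nat_lit 3) (nat_lit 1) (nat_lit 8) L55822 (by decide +kernel)
theorem L55824 : W_10 (nat_lit 2) (nat_lit 0x100008002400020013c0080000000000000000000000000000000) (nat_lit 0x0) (nat_lit 0x400020001000000000000000000000000000000000000000000000000) := D_10 (nat_lit 209) (nat_lit 192) (nat_lit 226) (nat_lit 7) (nat_lit 4) (nat_lit 8) (nat_lit 7) (nat_lit 4) (nat_lit 9) (by decide +kernel)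
theorem L55825 : W_10 (nat_lit 3) (nat_lit 0x8002400020013c0080000000000000000000000000000000) (nat_lit 0x0) (nat_lit 0x400030001000000001000000000000000000000000000000000000000) := T_10 (nat_lit 208) (nat_lit 156) (nat_lit 4) (nat_lit 4) (nat_lit 12) L55824 (by decide +kernel)
theorem L55826 : W_10 (nat_lit 4) (nat_lit 0x2400020013c0080000000000000000000000000000000) (nat_lit 0x0) (nat_lit 0x400030001800000001000000004000000000000000000000000000000) := T_10 (nat_lit 191) (nat_lit 122) (nat_lit 4) (nat_lit 4) (nat_lit 11) L55825 (by decide +kernel)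
theorem L55827 : W_10 (nat_lit 2) (nat_lit 0x2c00034013e0089000200000000000000000000000000) (nat_lit 0x0) (nat_lit 0x400020000000000000000400000000000000000000000000) := D_10 (nat_lit 173) (nat_lit 190) (nat_lit 106) (nat_lit 6) (nat_lit 3) (nat_lit 11) (nat_lit 5) (nat_lit 4) (nat_lit 6) (by decide +kernel)
theorem L55828 : W_10 (nat_lit 3) (nat_lit 0x2c00034013e0081000200000000000000000000000000) (nat_lit 0x0) (nat_lit 0x1400020000000000008000400000000000000000000000000) := T_10 (nat_lit 123) (nat_lit 192) (nat_lit 7) (nat_lit 4) (nat_lit 7) L55827 (by decide +kernel)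
theorem L55829 : W_10 (nat_lit 4) (nat_lit 0x2c00034013e0080000200000000000000000000000000) (nat_lit 0x0) (nat_lit 0x1400020000000000009800400000000000000000000000000) := T_10 (nat_lit 120) (nat_lit 119) (nat_lit 0) (nat_lit 4) (nat_lit 8) L55828 (by decide +kernel)
theorem L55830 : W_10 (nat_lit 5) (nat_lit 0x2400034013e0080000200000000000000000000000000) (nat_lit 0x0) (nat_lit 0x14001a0000000000009800400000000000000000000000000) := T_10 (nat_lit 175) (nat_lit 176) (nat_lit 0) (nat_lit 7) (nat_lit 10) L55829 (by decide +kernel)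
theorem L55831 : W_10 (nat_lit 6) (nat_lit 0x2400034013e0080000000000000000000000000000000) (nat_lit 0x0) (nat_lit 0x14001a000000000000d800600000000000000000000000000) := T_10 (nat_lit 105) (nat_lit 122) (nat_lit 7) (nat_lit 3) (nat_lit 6) L55830 (by decide +kernel)
theorem L55832 : W_10 (nat_lit 7) (nat_lit 0x2400030013e0080000000000000000000000000000000) (nat_lit 0x0) (nat_lit 0x14001a000060000000d800600000000000000000000000000) := T_10 (nat_lit 154) (nat_lit 153) (nat_lit 1) (nat_lit 4) (nat_lit 8) L55831 (by decide +kernel)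
theorem L55833 : W_10 (nat_lit 8) (nat_lit 0x2400020013e0080000000000000000000000000000000) (nat_lit 0x0) (nat_lit 0x14001a000160001000d800600000000000000000000000000) := T_10 (nat_lit 156) (nat_lit 136) (nat_lit 3) (nat_lit 0) (nat_lit 8) L55832 (by decide +kernel)
theorem L55834 : W_10 (nat_lit 9) (nat_lit 0x2400020013c0080000000000000000000000000000000) (nat_lit 0x0) (nat_lit 0x14001a000560003000d800600000000000000000000000000) := T_10 (nat_lit 137) (nat_lit 158) (nat_lit 3) (nat_lit 1) (nat_lit 8) L55833 (by decide +kernel)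
theorem L55835 : W_10 (nat_lit 10) (nat_lit 0x2000020013c0080000000000000000000000000000000) (nat_lit 0x0) (nat_lit 0x400038003c001e000560003000d800600000000000000000000000000) := Q_10 (nat_lit 174) (C_10 L55813 (C_10 L55815 (C_10 L55823 (C_10 L55826 (C_10 L55834 N_10))))) (by decide +kernel)
theorem L55836 : W_10 (nat_lit 2) (nat_lit 0x2000020013e0080000000000000000000000000000000) (nat_lit 0x0) (nat_lit 0xe00000000000000000000000000000000000000) := D_10 (nat_lit 154) (nat_lit 153) (nat_lit 155) (nat_lit 1) (nat_lit 4) (nat_lit 8) (nat_lit 1) (nat_lit 5) (nat_lit 8) (by decide +kernel)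
theorem L55837 : W_10 (nat_lit 3) (nat_lit 0x2000020013c0080000000000000000000000000000000) (nat_lit 0x0) (nat_lit 0x4e00020000000000000000000000000000000000) := T_10 (nat_lit 137) (nat_lit 158) (nat_lit 3) (nat_lit 1) (nat_lit 8) L55836 (by decide +kernel)
theorem L55838 : W_10 (nat_lit 9) (nat_lit 0x2000038013e0080000000000000000000000000000000) (nat_lit 0x0) (nat_lit 0x1e001f000000000000d800680004000000000000000000000) := T_10 (nat_lit 120) (nat_lit 119) (nat_lit 0) (nat_lit 4) (nat_lit 8) L34079 (by decide +kernel)
theorem L55839 : W_10 (nat_lit 10) (nat_lit 0x2000038013c0080000000000000000000000000000000) (nat_lit 0x0) (nat_lit 0x1e001f000000003000d800680004000000000000000000000) := T_10 (nat_lit 137) (nat_lit 136) (nat_lit 3) (nat_lit 0) (nat_lit 8) L55838 (by decide +kernel)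
theorem L55840 : W_10 (nat_lit 11) (nat_lit 0x2000028013c0080000000000000000000000000000000) (nat_lit 0x0) (nat_lit 0x1e001f000100043000d800680004000000000000000000000) := T_10 (nat_lit 156) (nat_lit 142) (nat_lit 1) (nat_lit 6) (nat_lit 8) L55839 (by decide +kernel)
theorem L55841 : W_10 (nat_lit 12) (nat_lit 0x2000020013c0080000000000000000000000000000000) (nat_lit 0x0) (nat_lit 0x1e001f0001c0043000d800680004000000000000000000000) := T_10 (nat_lit 155) (nat_lit 154) (nat_lit 1) (nat_lit 5) (nat_lit 8) L55840 (by decide +kernel)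
theorem L55842 : W_10 (nat_lit 2) (nat_lit 0xc003400038013c0080000000000000000000000000000000) (nat_lit 0x0) (nat_lit 0x20003000000000000000000000000000000000000000000000000) := D_10 (nat_lit 192) (nat_lit 209) (nat_lit 193) (nat_lit 7) (nat_lit 4) (nat_lit 8) (nat_lit 2) (nat_lit 3) (nat_lit 11) (by decide +kernel)
theorem L55843 : W_10 (nat_lit 3) (nat_lit 0x8003400038013c0080000000000000000000000000000000) (nat_lit 0x0) (nat_lit 0x28003400000000000000000000000000000000000000000000000) := T_10 (nat_lit 190) (nat_lit 207) (nat_lit 5) (nat_lit 4) (nat_lit 8) L55842 (by decide +kernel)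
theorem L55844 : W_10 (nat_lit 4) (nat_lit 0x3400038013c0080000000000000000000000000000000) (nat_lit 0x0) (nat_lit 0x38003c00000000000000000000000000000000000000000000000) := T_10 (nat_lit 191) (nat_lit 208) (nat_lit 4) (nat_lit 4) (nat_lit 12) L55843 (by decide +kernel)
theorem L55845 : W_10 (nat_lit 5) (nat_lit 0x2400038013c0080000000000000000000000000000000) (nat_lit 0x0) (nat_lit 0x38003c00180000000000000000000000000000000000000000000) := T_10 (nat_lit 176) (nat_lit 175) (nat_lit 0) (nat_lit 7) (nat_lit 10) L55844 (by decide +kernel)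
theorem L55846 : W_10 (nat_lit 6) (nat_lit 0x2400028013c0080000000000000000000000000000000) (nat_lit 0x0) (nat_lit 0x38003c00180001000400000000000000000000000000000000000) := T_10 (nat_lit 156) (nat_lit 142) (nat_lit 1) (nat_lit 6) (nat_lit 8) L55845 (by decide +kernel)
theorem L55847 : W_10 (nat_lit 7) (nat_lit 0x2400020013c0080000000000000000000000000000000) (nat_lit 0x0) (nat_lit 0x38003c00180001c00400000000000000000000000000000000000) := T_10 (nat_lit 155) (nat_lit 154) (nat_lit 1) (nat_lit 5) (nat_lit 8) L55846 (by decide +kernel)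
theorem L55848 : W_10 (nat_lit 2) (nat_lit 0xc002400028013c0088000000000000000000000000000000) (nat_lit 0x0) (nat_lit 0x1000180000000000000000000000000000000000000000000) := D_10 (nat_lit 175) (nat_lit 176) (nat_lit 192) (nat_lit 1) (nat_lit 7) (nat_lit 10) (nat_lit 7) (nat_lit 4) (nat_lit 7) (by decide +kernel)
theorem L55849 : W_10 (nat_lit 3) (nat_lit 0xc002400028013c0080000000000000000000000000000000) (nat_lit 0x0) (nat_lit 0x10001a0000000000008000000000000000000000000000000) := T_10 (nat_lit 123) (nat_lit 173) (nat_lit 5) (nat_lit 4) (nat_lit 7) L55848 (by decide +kernel)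
theorem L55850 : W_10 (nat_lit 4) (nat_lit 0x8002400028013c0080000000000000000000000000000000) (nat_lit 0x0) (nat_lit 0x80014001a0000000000008000000000000000000000000000000) := T_10 (nat_lit 190) (nat_lit 207) (nat_lit 5) (nat_lit 4) (nat_lit 8) L55849 (by decide +kernel)
theorem L55851 : W_10 (nat_lit 5) (nat_lit 0x2400028013c0080000000000000000000000000000000) (nat_lit 0x0) (nat_lit 0x8001c001a000000000000c000000000000000000000000000000) := T_10 (nat_lit 191) (nat_lit 122) (nat_lit 4) (nat_lit 4) (nat_lit 11) L55850 (by decide +kernel)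
theorem L55852 : W_10 (nat_lit 6) (nat_lit 0x2400020013c0080000000000000000000000000000000) (nat_lit 0x0) (nat_lit 0x8001c001a0000c0000000c000000000000000000000000000000) := T_10 (nat_lit 155) (nat_lit 154) (nat_lit 1) (nat_lit 5) (nat_lit 8) L55851 (by decide +kernel)
theorem L55853 : W_10 (nat_lit 2) (nat_lit 0x8002400020013c0080000000000000000000000000000000) (nat_lit 0x0) (nat_lit 0x10000000000005000000000000000000000000000000000000000) := D_10 (nat_lit 208) (nat_lit 156) (nat_lit 158) (nat_lit 4) (nat_lit 4) (nat_lit 12) (nat_lit 6) (nat_lit 4) (nat_lit 12) (by decide +kernel)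
theorem L55854 : W_10 (nat_lit 3) (nat_lit 0x2400020013c0080000000000000000000000000000000) (nat_lit 0x0) (nat_lit 0x10000800000005000000004000000000000000000000000000000) := T_10 (nat_lit 191) (nat_lit 122) (nat_lit 4) (nat_lit 4) (nat_lit 11) L55853 (by decide +kernel)
theorem L55855 : W_10 (nat_lit 2) (nat_lit 0x3780038013c0084000000000000000000000000000000) (nat_lit 0x0) (nat_lit 0x8000400000000000000008000000000000000000000000000000) := D_10 (nat_lit 190) (nat_lit 207) (nat_lit 123) (nat_lit 6) (nat_lit 3) (nat_lit 12) (nat_lit 6) (nat_lit 3) (nat_lit 11) (by decide +kernel)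
theorem L55856 : W_10 (nat_lit 3) (nat_lit 0x3580038013c0084000000000000000000000000000000) (nat_lit 0x0) (nat_lit 0x8000400024000000000008000000000000000000000000000000) := T_10 (nat_lit 173) (nat_lit 170) (nat_lit 2) (nat_lit 0) (nat_lit 10) L55855 (by decide +kernel)
theorem L55857 : W_10 (nat_lit 4) (nat_lit 0x3500038013c0084000000000000000000000000000000) (nat_lit 0x0) (nat_lit 0x800040002c004000000008000000000000000000000000000000) := T_10 (nat_lit 171) (nat_lit 158) (nat_lit 1) (nat_lit 5) (nat_lit 9) L55856 (by decide +kernel)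
theorem L55858 : W_10 (nat_lit 5) (nat_lit 0x3400038013c0084000000000000000000000000000000) (nat_lit 0x0) (nat_lit 0x800060003c004000000008000000000000000000000000000000) := T_10 (nat_lit 172) (nat_lit 189) (nat_lit 6) (nat_lit 2) (nat_lit 11) L55857 (by decide +kernel)
theorem L55859 : W_10 (nat_lit 6) (nat_lit 0x3400038013c0080000000000000000000000000000000) (nat_lit 0x0) (nat_lit 0x800060003c00400000000c000200000000000000000000000000) := T_10 (nat_lit 122) (nat_lit 105) (nat_lit 7) (nat_lit 3) (nat_lit 6) L55858 (by decide +kernel)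
theorem L55860 : W_10 (nat_lit 7) (nat_lit 0x2400038013c0080000000000000000000000000000000) (nat_lit 0x0) (nat_lit 0x80006001bc00400000000c000200000000000000000000000000) := T_10 (nat_lit 176) (nat_lit 175) (nat_lit 0) (nat_lit 7) (nat_lit 10) L55859 (by decide +kernel)
theorem L55861 : W_10 (nat_lit 8) (nat_lit 0x2400028013c0080000000000000000000000000000000) (nat_lit 0x0) (nat_lit 0x80006001bc00500040000c000200000000000000000000000000) := T_10 (nat_lit 156) (nat_lit 142) (nat_lit 1) (nat_lit 6) (nat_lit 8) L55860 (by decide +kernel)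
theorem L55862 : W_10 (nat_lit 9) (nat_lit 0x2400020013c0080000000000000000000000000000000) (nat_lit 0x0) (nat_lit 0x80006001bc005c0040000c000200000000000000000000000000) := T_10 (nat_lit 155) (nat_lit 154) (nat_lit 1) (nat_lit 5) (nat_lit 8) L55861 (by decide +kernel)
theorem L55863 : W_10 (nat_lit 10) (nat_lit 0x2000020013c0080000000000000000000000000000000) (nat_lit 0x0) (nat_lit 0x400038003e001fc005c0040000c000200000000000000000000000000) := Q_10 (nat_lit 174) (C_10 L55826 (C_10 L55847 (C_10 L55852 (C_10 L55854 (C_10 L55862 N_10))))) (by decide +kernel)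
theorem L55864 : W_10 (nat_lit 10) (nat_lit 0x2000030013e0080000000000000000000000000000000) (nat_lit 0x0) (nat_lit 0x1e001f000080040000d800680004000000000000000000000) := T_10 (nat_lit 120) (nat_lit 119) (nat_lit 0) (nat_lit 4) (nat_lit 8) L34080 (by decide +kernel)
theorem L55865 : W_10 (nat_lit 11) (nat_lit 0x2000020013e0080000000000000000000000000000000) (nat_lit 0x0) (nat_lit 0x1e001f000180041000d800680004000000000000000000000) := T_10 (nat_lit 156) (nat_lit 136) (nat_lit 3) (nat_lit 0) (nat_lit 8) L55864 (by decide +kernel)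
theorem L55866 : W_10 (nat_lit 12) (nat_lit 0x2000020013c0080000000000000000000000000000000) (nat_lit 0x0) (nat_lit 0x1e001f000580043000d800680004000000000000000000000) := T_10 (nat_lit 137) (nat_lit 158) (nat_lit 3) (nat_lit 1) (nat_lit 8) L55865 (by decide +kernel)
theorem L55867 : W_10 (nat_lit 13) (nat_lit 0x2000000013c0080000000000000000000000000000000) (nat_lit 0x0) (nat_lit 0x400038003e001fc007e0043000d800680004000000000000000000000) := Q_10 (nat_lit 157) (C_10 L55835 (C_10 L55837 (C_10 L55841 (C_10 L55863 (C_10 L55866 N_10))))) (by decide +kernel)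
theorem L55868 : W_10 (nat_lit 2) (nat_lit 0x40003f00060017c00a4000000010000000000000000000000) (nat_lit 0x0) (nat_lit 0x700000000000000000000000000000000000000000000000) := D_10 (nat_lit 189) (nat_lit 190) (nat_lit 188) (nat_lit 1) (nat_lit 6) (nat_lit 10) (nat_lit 1) (nat_lit 5) (nat_lit 10) (by decide +kernel)
theorem L55869 : W_10 (nat_lit 3) (nat_lit 0x40003e00060017c00a4000000010000000000000000000000) (nat_lit 0x0) (nat_lit 0x700018000000000000000000000000000000000000000000) := T_10 (nat_lit 172) (nat_lit 171) (nat_lit 2) (nat_lit 1) (nat_lit 10) L55868 (by decide +kernel)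
theorem L55870 : W_10 (nat_lit 4) (nat_lit 0x40003c00060017c00a4000000010000000000000000000000) (nat_lit 0x0) (nat_lit 0x2700038000000000000000000000000000000000000000000) := T_10 (nat_lit 173) (nat_lit 193) (nat_lit 3) (nat_lit 3) (nat_lit 10) L55869 (by decide +kernel)
theorem L55871 : W_10 (nat_lit 5) (nat_lit 0x3c00060017c00a4000000010000000000000000000000) (nat_lit 0x0) (nat_lit 0xe700038000000000000000000000000000000000000000000) := T_10 (nat_lit 194) (nat_lit 195) (nat_lit 3) (nat_lit 4) (nat_lit 10) L55870 (by decide +kernel)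
theorem L55872 : W_10 (nat_lit 6) (nat_lit 0x2c00060017c00a4000000010000000000000000000000) (nat_lit 0x0) (nat_lit 0xe700138001000000000000000000000000000000000000000) := T_10 (nat_lit 176) (nat_lit 156) (nat_lit 0) (nat_lit 7) (nat_lit 10) L55871 (by decide +kernel)
theorem L55873 : W_10 (nat_lit 7) (nat_lit 0x2400060017c00a4000000010000000000000000000000) (nat_lit 0x0) (nat_lit 0xf7001b8001000000000000000000000000000000000000000) := T_10 (nat_lit 175) (nat_lit 192) (nat_lit 6) (nat_lit 5) (nat_lit 11) L55872 (by decide +kernel)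
theorem L55874 : W_10 (nat_lit 8) (nat_lit 0x2400020017c00a4000000010000000000000000000000) (nat_lit 0x0) (nat_lit 0xf7001b8005000020000000000000000000000000000000000) := T_10 (nat_lit 158) (nat_lit 137) (nat_lit 3) (nat_lit 1) (nat_lit 8) L55873 (by decide +kernel)
theorem L55875 : W_10 (nat_lit 9) (nat_lit 0x2000020017c00a4000000010000000000000000000000) (nat_lit 0x0) (nat_lit 0xff001f8005000020000000000000000000000000000000000) := T_10 (nat_lit 174) (nat_lit 191) (nat_lit 4) (nat_lit 4) (nat_lit 11) L55874 (by decide +kernel)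
theorem L55876 : W_10 (nat_lit 10) (nat_lit 0x2000020017c0084000000010000000000000000000000) (nat_lit 0x0) (nat_lit 0xff001f8005000020060000000000000000000000000000000) := T_10 (nat_lit 125) (nat_lit 126) (nat_lit 2) (nat_lit 3) (nat_lit 8) L55875 (by decide +kernel)
theorem L55877 : W_10 (nat_lit 11) (nat_lit 0x2000020017c0084000000000000000000000000000000) (nat_lit 0x0) (nat_lit 0xff001f8005000020060000200010000000000000000000000) := T_10 (nat_lit 88) (nat_lit 105) (nat_lit 7) (nat_lit 3) (nat_lit 5) L55876 (by decide +kernel)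
theorem L55878 : W_10 (nat_lit 12) (nat_lit 0x2000020013c0084000000000000000000000000000000) (nat_lit 0x0) (nat_lit 0xff001f8005000420062000200010000000000000000000000) := T_10 (nat_lit 142) (nat_lit 121) (nat_lit 0) (nat_lit 6) (nat_lit 8) L55877 (by decide +kernel)
theorem L55879 : W_10 (nat_lit 3) (nat_lit 0x2000020013c0084000000000000000000000000000000) (nat_lit 0x0) (nat_lit 0x5000030008000000000000000000000000000000) := T_10 (nat_lit 137) (nat_lit 158) (nat_lit 3) (nat_lit 1) (nat_lit 8) L34042 (by decide +kernel)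
theorem L55880 : W_10 (nat_lit 13) (nat_lit 0x2000000013c0084000000000000000000000000000000) (nat_lit 0x0) (nat_lit 0xff001f800700043006a000200010000000000000000000000) := Q_10 (nat_lit 157) (C_10 L55878 (C_10 L55879 (C_10 L55546 N_10))) (by decide +kernel)
theorem L55881 : W_10 (nat_lit 2) (nat_lit 0x2000024017e00ac000000000000000000000000000000) (nat_lit 0x0) (nat_lit 0x40000000000000000200010000000000000000000000) := D_10 (nat_lit 105) (nat_lit 88) (nat_lit 174) (nat_lit 7) (nat_lit 3) (nat_lit 5) (nat_lit 4) (nat_lit 4) (nat_lit 10) (by decide +kernel)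
theorem L55882 : W_10 (nat_lit 3) (nat_lit 0x2000024017e00a4000000000000000000000000000000) (nat_lit 0x0) (nat_lit 0x40000000010008000200010000000000000000000000) := T_10 (nat_lit 123) (nat_lit 136) (nat_lit 2) (nat_lit 0) (nat_lit 8) L55881 (by decide +kernel)
theorem L55883 : W_10 (nat_lit 4) (nat_lit 0x2000004017e00a4000000000000000000000000000000) (nat_lit 0x0) (nat_lit 0x40006000010008000200010000000000000000000000) := T_10 (nat_lit 157) (nat_lit 158) (nat_lit 3) (nat_lit 1) (nat_lit 8) L55882 (by decide +kernel)
theorem L55884 : W_10 (nat_lit 5) (nat_lit 0x2000004017e0084000000000000000000000000000000) (nat_lit 0x0) (nat_lit 0x40006000010068000200010000000000000000000000) := T_10 (nat_lit 125) (nat_lit 126) (nat_lit 2) (nat_lit 3) (nat_lit 8) L55883 (by decide +kernel)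
theorem L55885 : W_10 (nat_lit 6) (nat_lit 0x2000004017c0084000000000000000000000000000000) (nat_lit 0x0) (nat_lit 0x40006200030068000200010000000000000000000000) := T_10 (nat_lit 137) (nat_lit 153) (nat_lit 1) (nat_lit 4) (nat_lit 8) L55884 (by decide +kernel)
theorem L55886 : W_10 (nat_lit 7) (nat_lit 0x2000000017c0084000000000000000000000000000000) (nat_lit 0x0) (nat_lit 0x40006e00030068000200010000000000000000000000) := T_10 (nat_lit 154) (nat_lit 155) (nat_lit 1) (nat_lit 5) (nat_lit 8) L55885 (by decide +kernel)
theorem L55887 : W_10 (nat_lit 8) (nat_lit 0x2000000013c0084000000000000000000000000000000) (nat_lit 0x0) (nat_lit 0x40006e0043006a000200010000000000000000000000) := T_10 (nat_lit 142) (nat_lit 121) (nat_lit 0) (nat_lit 6) (nat_lit 8) L55886 (by decide +kernel)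
theorem L55888 : W_10 (nat_lit 2) (nat_lit 0x2000000017c0084000000000000000000000000000000) (nat_lit 0x0) (nat_lit 0x1c00000000000000000000000000000000000000) := D_10 (nat_lit 155) (nat_lit 154) (nat_lit 156) (nat_lit 1) (nat_lit 5) (nat_lit 8) (nat_lit 1) (nat_lit 6) (nat_lit 8) (by decide +kernel)
theorem L55889 : W_10 (nat_lit 3) (nat_lit 0x2000000013c0084000000000000000000000000000000) (nat_lit 0x0) (nat_lit 0x1c00400002000000000000000000000000000000) := T_10 (nat_lit 142) (nat_lit 121) (nat_lit 0) (nat_lit 6) (nat_lit 8) L55888 (by decide +kernel)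
theorem L55890 : W_10 (nat_lit 2) (nat_lit 0x2000008013c0084000200000000000000000000000000) (nat_lit 0x0) (nat_lit 0x200010001000000000000000000000000000000000000000) := D_10 (nat_lit 172) (nat_lit 189) (nat_lit 156) (nat_lit 6) (nat_lit 2) (nat_lit 11) (nat_lit 5) (nat_lit 3) (nat_lit 6) (by decide +kernel)
theorem L55891 : W_10 (nat_lit 3) (nat_lit 0x2000008013c0084000000000000000000000000000000) (nat_lit 0x0) (nat_lit 0x200010001000000000000200010000000000000000000000) := T_10 (nat_lit 105) (nat_lit 88) (nat_lit 5) (nat_lit 3) (nat_lit 5) L55890 (by decide +kernel)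
theorem L55892 : W_10 (nat_lit 4) (nat_lit 0x2000000013c0084000000000000000000000000000000) (nat_lit 0x0) (nat_lit 0x200010001c00000000000200010000000000000000000000) := T_10 (nat_lit 155) (nat_lit 154) (nat_lit 1) (nat_lit 5) (nat_lit 8) L55891 (by decide +kernel)
theorem L55893 : W_10 (nat_lit 14) (nat_lit 0x2000000013c0080000000000000000000000000000000) (nat_lit 0x0) (nat_lit 0xff001f8007e0043006e000200010000000000000000000000) := Q_10 (nat_lit 122) (C_10 L55880 (C_10 L55887 (C_10 L55889 (C_10 L55892 N_10)))) (by decide +kernel)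
theorem L55894 : W_10 (nat_lit 2) (nat_lit 0x2000030013e0084000000000000000000000000000000) (nat_lit 0x0) (nat_lit 0x800040000000000000000200000000000000000000000000) := D_10 (nat_lit 174) (nat_lit 191) (nat_lit 105) (nat_lit 4) (nat_lit 4) (nat_lit 11) (nat_lit 7) (nat_lit 3) (nat_lit 6) (by decide +kernel)
theorem L55895 : W_10 (nat_lit 3) (nat_lit 0x2000020013e0084000000000000000000000000000000) (nat_lit 0x0) (nat_lit 0x800040001000010000000200000000000000000000000000) := T_10 (nat_lit 156) (nat_lit 136) (nat_lit 3) (nat_lit 0) (nat_lit 8) L55894 (by decide +kernel)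
theorem L55896 : W_10 (nat_lit 4) (nat_lit 0x2000020013c0084000000000000000000000000000000) (nat_lit 0x0) (nat_lit 0x800040005000030000000200000000000000000000000000) := T_10 (nat_lit 137) (nat_lit 158) (nat_lit 3) (nat_lit 1) (nat_lit 8) L55895 (by decide +kernel)
theorem L55897 : W_10 (nat_lit 5) (nat_lit 0x2000000013c0084000000000000000000000000000000) (nat_lit 0x0) (nat_lit 0x800040007000030008000200010000000000000000000000) := Q_10 (nat_lit 157) (C_10 L55896 (C_10 L55879 (C_10 L55546 N_10))) (by decide +kernel)
theorem L55898 : W_10 (nat_lit 2) (nat_lit 0x2000000013c0084000000000000000000000000000000) (nat_lit 0x0) (nat_lit 0x400003000000000000000000000000000000) := D_10 (nat_lit 121) (nat_lit 120) (nat_lit 142) (nat_lit 0) (nat_lit 5) (nat_lit 8) (nat_lit 0) (nat_lit 6) (nat_lit 8) (by decide +kernel)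
theorem L55899 : W_10 (nat_lit 6) (nat_lit 0x2000000013c0080000000000000000000000000000000) (nat_lit 0x0) (nat_lit 0x80004000700043000f000200010000000000000000000000) := Q_10 (nat_lit 122) (C_10 L55897 (C_10 L55898 N_10)) (by decide +kernel)
theorem L55900 : W_10 (nat_lit 15) (nat_lit 0x200000001380080000000000000000000000000000000) (nat_lit 0x0) (nat_lit 0x40003800ff001fc007e0047006f800680014000000000000000000000) := Q_10 (nat_lit 138) (C_10 L55526 (C_10 L55867 (C_10 L37137 (C_10 L55893 (C_10 L55899 N_10))))) (by decide +kernel)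
theorem L55901 : W_10 (nat_lit 3) (nat_lit 0x2000048013c0082000000000000000000000000000000) (nat_lit 0x0) (nat_lit 0x20001000400000000100008000000000000000000000) := T_10 (nat_lit 156) (nat_lit 142) (nat_lit 1) (nat_lit 6) (nat_lit 8) L55775 (by decide +kernel)
theorem L55902 : W_10 (nat_lit 4) (nat_lit 0x2000040013c0082000000000000000000000000000000) (nat_lit 0x0) (nat_lit 0x20001c00400000000100008000000000000000000000) := T_10 (nat_lit 155) (nat_lit 154) (nat_lit 1) (nat_lit 5) (nat_lit 8) L55901 (by decide +kernel)
theorem L55903 : W_10 (nat_lit 5) (nat_lit 0x2000040013c0080000000000000000000000000000000) (nat_lit 0x0) (nat_lit 0x20001c00400003000100008000000000000000000000) := T_10 (nat_lit 121) (nat_lit 120) (nat_lit 0) (nat_lit 5) (nat_lit 8) L55902 (by decide +kernel)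
theorem L55904 : W_10 (nat_lit 6) (nat_lit 0x2000000013c0080000000000000000000000000000000) (nat_lit 0x0) (nat_lit 0x2000dc00400003000100008000000000000000000000) := T_10 (nat_lit 158) (nat_lit 159) (nat_lit 3) (nat_lit 2) (nat_lit 8) L55903 (by decide +kernel)
theorem L55905 : W_10 (nat_lit 7) (nat_lit 0x200000001380080000000000000000000000000000000) (nat_lit 0x0) (nat_lit 0x2000fe00460003800100008000000000000000000000) := Q_10 (nat_lit 138) (C_10 L33742 (C_10 L55526 (C_10 L37111 (C_10 L55904 N_10)))) (by decide +kernel)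
theorem L55906 : W_10 (nat_lit 2) (nat_lit 0x8002400020017800a0000000000000000000000000000000) (nat_lit 0x0) (nat_lit 0x10000000000001800000000000000000000000000000000000000) := D_10 (nat_lit 156) (nat_lit 155) (nat_lit 208) (nat_lit 1) (nat_lit 6) (nat_lit 8) (nat_lit 4) (nat_lit 4) (nat_lit 12) (by decide +kernel)
theorem L55907 : W_10 (nat_lit 3) (nat_lit 0x2400020017800a0000000000000000000000000000000) (nat_lit 0x0) (nat_lit 0x10000800000001800000004000000000000000000000000000000) := T_10 (nat_lit 191) (nat_lit 122) (nat_lit 4) (nat_lit 4) (nat_lit 11) L55906 (by decide +kernel)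
theorem L55908 : W_10 (nat_lit 4) (nat_lit 0x240002001780080000000000000000000000000000000) (nat_lit 0x0) (nat_lit 0x10000800000001800000064000000000000000000000000000000) := T_10 (nat_lit 125) (nat_lit 126) (nat_lit 2) (nat_lit 3) (nat_lit 8) L55907 (by decide +kernel)
theorem L55909 : W_10 (nat_lit 2) (nat_lit 0xc002400020017800a8000000000000000000000000000000) (nat_lit 0x0) (nat_lit 0x1000180000000000000000000000000000000000000000000) := D_10 (nat_lit 175) (nat_lit 176) (nat_lit 192) (nat_lit 1) (nat_lit 7) (nat_lit 10) (nat_lit 7) (nat_lit 4) (nat_lit 7) (by decide +kernel)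
theorem L55910 : W_10 (nat_lit 3) (nat_lit 0xc002400020017800a0000000000000000000000000000000) (nat_lit 0x0) (nat_lit 0x10001a0000000000008000000000000000000000000000000) := T_10 (nat_lit 123) (nat_lit 173) (nat_lit 5) (nat_lit 4) (nat_lit 7) L55909 (by decide +kernel)
theorem L55911 : W_10 (nat_lit 4) (nat_lit 0x8002400020017800a0000000000000000000000000000000) (nat_lit 0x0) (nat_lit 0x80014001a0000000000008000000000000000000000000000000) := T_10 (nat_lit 190) (nat_lit 207) (nat_lit 5) (nat_lit 4) (nat_lit 8) L55910 (by decide +kernel)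
theorem L55912 : W_10 (nat_lit 5) (nat_lit 0x2400020017800a0000000000000000000000000000000) (nat_lit 0x0) (nat_lit 0x8001c001a000000000000c000000000000000000000000000000) := T_10 (nat_lit 191) (nat_lit 122) (nat_lit 4) (nat_lit 4) (nat_lit 11) L55911 (by decide +kernel)
theorem L55913 : W_10 (nat_lit 6) (nat_lit 0x240002001780080000000000000000000000000000000) (nat_lit 0x0) (nat_lit 0x8001c001a000000000006c000000000000000000000000000000) := T_10 (nat_lit 125) (nat_lit 126) (nat_lit 2) (nat_lit 3) (nat_lit 8) L55912 (by decide +kernel)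
theorem L55914 : W_10 (nat_lit 7) (nat_lit 0x200002001780080000000000000000000000000000000) (nat_lit 0x0) (nat_lit 0x38003c001e000180000006c000400000000000000000000000000) := Q_10 (nat_lit 174) (C_10 L55125 (C_10 L55703 (C_10 L55908 (C_10 L55913 N_10)))) (by decide +kernel)
theorem L55915 : W_10 (nat_lit 2) (nat_lit 0x2000070017800ac001740000000000000000000000000) (nat_lit 0x0) (nat_lit 0x2800040000000000000000000000) := D_10 (nat_lit 107) (nat_lit 90) (nat_lit 109) (nat_lit 6) (nat_lit 4) (nat_lit 9) (nat_lit 1) (nat_lit 7) (nat_lit 6) (by decide +kernel)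
theorem L55916 : W_10 (nat_lit 3) (nat_lit 0x2000070017800ac000740000000000000000000000000) (nat_lit 0x0) (nat_lit 0x38000c0000000000000000000000) := T_10 (nat_lit 108) (nat_lit 91) (nat_lit 5) (nat_lit 6) (nat_lit 5) L55915 (by decide +kernel)
theorem L55917 : W_10 (nat_lit 4) (nat_lit 0x2000030017800ac000740000000000000000000000000) (nat_lit 0x0) (nat_lit 0x800040000000000038000c0000000000000000000000) := T_10 (nat_lit 158) (nat_lit 175) (nat_lit 7) (nat_lit 4) (nat_lit 6) L55916 (by decide +kernel)
theorem L55918 : W_10 (nat_lit 5) (nat_lit 0x2000030017800ac000700000000000000000000000000) (nat_lit 0x0) (nat_lit 0x800040000000000038c00c0000000000000000000000) := T_10 (nat_lit 102) (nat_lit 103) (nat_lit 3) (nat_lit 0) (nat_lit 6) L55917 (by decide +kernel)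
theorem L55919 : W_10 (nat_lit 6) (nat_lit 0x2000030017800a4000700000000000000000000000000) (nat_lit 0x0) (nat_lit 0xa00040000000080038c00c0000000000000000000000) := T_10 (nat_lit 123) (nat_lit 173) (nat_lit 6) (nat_lit 3) (nat_lit 10) L55918 (by decide +kernel)
theorem L55920 : W_10 (nat_lit 7) (nat_lit 0x2000030017800a4000300000000000000000000000000) (nat_lit 0x0) (nat_lit 0xa0004000000008003cc00e0000000000000000000000) := T_10 (nat_lit 106) (nat_lit 89) (nat_lit 6) (nat_lit 3) (nat_lit 9) L55919 (by decide +kernel)
theorem L55921 : W_10 (nat_lit 8) (nat_lit 0x2000030017800a4000200000000000000000000000000) (nat_lit 0x0) (nat_lit 0xa0004000000008003dc00e8000000000000000000000) := T_10 (nat_lit 104) (nat_lit 87) (nat_lit 4) (nat_lit 3) (nat_lit 9) L55920 (by decide +kernel)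
theorem L55922 : W_10 (nat_lit 9) (nat_lit 0x200003001780084000200000000000000000000000000) (nat_lit 0x0) (nat_lit 0xa0004000000068003dc00e8000000000000000000000) := T_10 (nat_lit 125) (nat_lit 126) (nat_lit 2) (nat_lit 3) (nat_lit 8) L55921 (by decide +kernel)
theorem L55923 : W_10 (nat_lit 10) (nat_lit 0x200003001780084000000000000000000000000000000) (nat_lit 0x0) (nat_lit 0xa0004000000068003fc00f8000000000000000000000) := T_10 (nat_lit 105) (nat_lit 88) (nat_lit 7) (nat_lit 3) (nat_lit 5) L55922 (by decide +kernel)
theorem L55924 : W_10 (nat_lit 11) (nat_lit 0x200002001780084000000000000000000000000000000) (nat_lit 0x0) (nat_lit 0xa0005800000068003fc00f8000000000000000000000) := T_10 (nat_lit 156) (nat_lit 155) (nat_lit 1) (nat_lit 6) (nat_lit 8) L55923 (by decide +kernel)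
theorem L55925 : W_10 (nat_lit 12) (nat_lit 0x200002001780080000000000000000000000000000000) (nat_lit 0x0) (nat_lit 0xa000580000006e003fc00f8000000000000000000000) := T_10 (nat_lit 122) (nat_lit 121) (nat_lit 0) (nat_lit 6) (nat_lit 8) L55924 (by decide +kernel)
theorem L55926 : W_10 (nat_lit 2) (nat_lit 0x1e0022000f0017800a0000000080000000000000000000000) (nat_lit 0x0) (nat_lit 0x60000000040000000000000000000000000000000000000000000) := D_10 (nat_lit 209) (nat_lit 174) (nat_lit 210) (nat_lit 7) (nat_lit 4) (nat_lit 8) (nat_lit 3) (nat_lit 2) (nat_lit 11) (by decide +kernel)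
theorem L55927 : W_10 (nat_lit 3) (nat_lit 0x160022000f0017800a0000000080000000000000000000000) (nat_lit 0x0) (nat_lit 0x70000800040000000000000000000000000000000000000000000) := T_10 (nat_lit 191) (nat_lit 208) (nat_lit 7) (nat_lit 3) (nat_lit 8) L55926 (by decide +kernel)
theorem L55928 : W_10 (nat_lit 4) (nat_lit 0x140022000f0017800a0000000080000000000000000000000) (nat_lit 0x0) (nat_lit 0x74000a00040000000000000000000000000000000000000000000) := T_10 (nat_lit 189) (nat_lit 206) (nat_lit 5) (nat_lit 3) (nat_lit 8) L55927 (by decide +kernel)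
theorem L55929 : W_10 (nat_lit 5) (nat_lit 0x100022000f0017800a0000000080000000000000000000000) (nat_lit 0x0) (nat_lit 0x7c000e00040000000000000000000000000000000000000000000) := T_10 (nat_lit 190) (nat_lit 207) (nat_lit 6) (nat_lit 3) (nat_lit 12) L55928 (by decide +kernel)
theorem L55930 : W_10 (nat_lit 6) (nat_lit 0x100020000f0017800a0000000080000000000000000000000) (nat_lit 0x0) (nat_lit 0x7c000e00070000000000000000000000000000000000000000000) := T_10 (nat_lit 173) (nat_lit 172) (nat_lit 1) (nat_lit 6) (nat_lit 9) L55929 (by decide +kernel)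
theorem L55931 : W_10 (nat_lit 7) (nat_lit 0x10002000070017800a0000000080000000000000000000000) (nat_lit 0x0) (nat_lit 0x7c000e00170008000000000000000000000000000000000000000) := T_10 (nat_lit 159) (nat_lit 176) (nat_lit 3) (nat_lit 3) (nat_lit 9) L55930 (by decide +kernel)
theorem L55932 : W_10 (nat_lit 8) (nat_lit 0x10002000060017800a0000000080000000000000000000000) (nat_lit 0x0) (nat_lit 0x7c000e00170009800000000000000000000000000000000000000) := T_10 (nat_lit 156) (nat_lit 155) (nat_lit 2) (nat_lit 2) (nat_lit 9) L55931 (by decide +kernel)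
theorem L55933 : W_10 (nat_lit 9) (nat_lit 0x10002000060017800a0000000000000000000000000000000) (nat_lit 0x0) (nat_lit 0x7c000e00170009800000000001000080000000000000000000000) := T_10 (nat_lit 91) (nat_lit 108) (nat_lit 5) (nat_lit 6) (nat_lit 5) L55932 (by decide +kernel)
theorem L55934 : W_10 (nat_lit 10) (nat_lit 0x2000060017800a0000000000000000000000000000000) (nat_lit 0x0) (nat_lit 0x7c001e001f0009800000000001000080000000000000000000000) := T_10 (nat_lit 192) (nat_lit 175) (nat_lit 6) (nat_lit 5) (nat_lit 11) L55933 (by decide +kernel)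
theorem L55935 : W_10 (nat_lit 11) (nat_lit 0x200006001780080000000000000000000000000000000) (nat_lit 0x0) (nat_lit 0x7c001e001f0009800000060001000080000000000000000000000) := T_10 (nat_lit 125) (nat_lit 126) (nat_lit 2) (nat_lit 3) (nat_lit 8) L55934 (by decide +kernel)
theorem L55936 : W_10 (nat_lit 2) (nat_lit 0x2800068017800a0000000000000000000000000000000) (nat_lit 0x0) (nat_lit 0x8000000000001000080000000000000000000000) := D_10 (nat_lit 108) (nat_lit 91) (nat_lit 159) (nat_lit 5) (nat_lit 6) (nat_lit 5) (nat_lit 5) (nat_lit 6) (nat_lit 6) (by decide +kernel)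
theorem L55937 : W_10 (nat_lit 3) (nat_lit 0x2000068017800a0000000000000000000000000000000) (nat_lit 0x0) (nat_lit 0x1000080008000000000001000080000000000000000000000) := T_10 (nat_lit 175) (nat_lit 192) (nat_lit 6) (nat_lit 5) (nat_lit 11) L55936 (by decide +kernel)
theorem L55938 : W_10 (nat_lit 4) (nat_lit 0x200006801780080000000000000000000000000000000) (nat_lit 0x0) (nat_lit 0x1000080008000000060001000080000000000000000000000) := T_10 (nat_lit 125) (nat_lit 126) (nat_lit 2) (nat_lit 3) (nat_lit 8) L55937 (by decide +kernel)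
theorem L55939 : W_10 (nat_lit 5) (nat_lit 0x200006001780080000000000000000000000000000000) (nat_lit 0x0) (nat_lit 0x1000080009800000060001000080000000000000000000000) := T_10 (nat_lit 155) (nat_lit 156) (nat_lit 2) (nat_lit 2) (nat_lit 9) L55938 (by decide +kernel)
theorem L55940 : W_10 (nat_lit 2) (nat_lit 0x4002c00070017800a8000000080000000000000000000000) (nat_lit 0x0) (nat_lit 0x18000800000000000000000000000000000000000000000000000) := D_10 (nat_lit 191) (nat_lit 207) (nat_lit 208) (nat_lit 5) (nat_lit 4) (nat_lit 8) (nat_lit 6) (nat_lit 4) (nat_lit 12) (by decide +kernel)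
theorem L55941 : W_10 (nat_lit 3) (nat_lit 0x2c00070017800a8000000080000000000000000000000) (nat_lit 0x0) (nat_lit 0x18000c00020000000000000000000000000000000000000000000) := T_10 (nat_lit 190) (nat_lit 173) (nat_lit 6) (nat_lit 3) (nat_lit 11) L55940 (by decide +kernel)
theorem L55942 : W_10 (nat_lit 4) (nat_lit 0x2800070017800a8000000080000000000000000000000) (nat_lit 0x0) (nat_lit 0x18000c00160000000000000000000000000000000000000000000) := T_10 (nat_lit 174) (nat_lit 176) (nat_lit 0) (nat_lit 7) (nat_lit 10) L55941 (by decide +kernel)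
theorem L55943 : W_10 (nat_lit 5) (nat_lit 0x2800060017800a8000000080000000000000000000000) (nat_lit 0x0) (nat_lit 0x18000c00160001800000000000000000000000000000000000000) := T_10 (nat_lit 156) (nat_lit 155) (nat_lit 2) (nat_lit 2) (nat_lit 9) L55942 (by decide +kernel)
theorem L55944 : W_10 (nat_lit 6) (nat_lit 0x2800060017800a0000000080000000000000000000000) (nat_lit 0x0) (nat_lit 0x18000c00160001800000008000400000000000000000000000000) := T_10 (nat_lit 123) (nat_lit 106) (nat_lit 7) (nat_lit 4) (nat_lit 6) L55943 (by decide +kernel)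
theorem L55945 : W_10 (nat_lit 7) (nat_lit 0x2800060017800a0000000000000000000000000000000) (nat_lit 0x0) (nat_lit 0x18000c00160001800000008001400080000000000000000000000) := T_10 (nat_lit 91) (nat_lit 108) (nat_lit 5) (nat_lit 6) (nat_lit 5) L55944 (by decide +kernel)
theorem L55946 : W_10 (nat_lit 8) (nat_lit 0x2000060017800a0000000000000000000000000000000) (nat_lit 0x0) (nat_lit 0x18001c001e0001800000008001400080000000000000000000000) := T_10 (nat_lit 175) (nat_lit 192) (nat_lit 6) (nat_lit 5) (nat_lit 11) L55945 (by decide +kernel)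
theorem L55947 : W_10 (nat_lit 9) (nat_lit 0x200006001780080000000000000000000000000000000) (nat_lit 0x0) (nat_lit 0x18001c001e0001800000068001400080000000000000000000000) := T_10 (nat_lit 125) (nat_lit 126) (nat_lit 2) (nat_lit 3) (nat_lit 8) L55946 (by decide +kernel)
theorem L55948 : W_10 (nat_lit 2) (nat_lit 0x2800060017800a0000000000000000000000000000000) (nat_lit 0x0) (nat_lit 0x8000000000001000080000000000000000000000) := D_10 (nat_lit 108) (nat_lit 91) (nat_lit 159) (nat_lit 5) (nat_lit 6) (nat_lit 5) (nat_lit 5) (nat_lit 6) (nat_lit 6) (by decide +kernel)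
theorem L55949 : W_10 (nat_lit 3) (nat_lit 0x2000060017800a0000000000000000000000000000000) (nat_lit 0x0) (nat_lit 0x1000080008000000000001000080000000000000000000000) := T_10 (nat_lit 175) (nat_lit 192) (nat_lit 6) (nat_lit 5) (nat_lit 11) L55948 (by decide +kernel)
theorem L55950 : W_10 (nat_lit 4) (nat_lit 0x200006001780080000000000000000000000000000000) (nat_lit 0x0) (nat_lit 0x1000080008000000060001000080000000000000000000000) := T_10 (nat_lit 125) (nat_lit 126) (nat_lit 2) (nat_lit 3) (nat_lit 8) L55949 (by decide +kernel)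
theorem L55951 : W_10 (nat_lit 12) (nat_lit 0x200002001780080000000000000000000000000000000) (nat_lit 0x0) (nat_lit 0x7c001e001f000d800000068001400080000000000000000000000) := Q_10 (nat_lit 158) (C_10 L55935 (C_10 L55162 (C_10 L55939 (C_10 L55947 (C_10 L55950 N_10))))) (by decide +kernel)
theorem L55952 : W_10 (nat_lit 13) (nat_lit 0x200000001780080000000000000000000000000000000) (nat_lit 0x0) (nat_lit 0x7c003e001f000f80000006e003fc00f8000000000000000000000) := Q_10 (nat_lit 157) (C_10 L55914 (C_10 L37570 (C_10 L37582 (C_10 L55925 (C_10 L55951 N_10))))) (by decide +kernel)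
theorem L55953 : W_10 (nat_lit 2) (nat_lit 0x2800040017800a0000000000000000000000000000000) (nat_lit 0x0) (nat_lit 0x8000000000001000080000000000000000000000) := D_10 (nat_lit 108) (nat_lit 91) (nat_lit 159) (nat_lit 5) (nat_lit 6) (nat_lit 5) (nat_lit 5) (nat_lit 6) (nat_lit 6) (by decide +kernel)
theorem L55954 : W_10 (nat_lit 3) (nat_lit 0x2000040017800a0000000000000000000000000000000) (nat_lit 0x0) (nat_lit 0x1000080008000000000001000080000000000000000000000) := T_10 (nat_lit 175) (nat_lit 192) (nat_lit 6) (nat_lit 5) (nat_lit 11) L55953 (by decide +kernel)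
theorem L55955 : W_10 (nat_lit 4) (nat_lit 0x200004001780080000000000000000000000000000000) (nat_lit 0x0) (nat_lit 0x1000080008000000060001000080000000000000000000000) := T_10 (nat_lit 125) (nat_lit 126) (nat_lit 2) (nat_lit 3) (nat_lit 8) L55954 (by decide +kernel)
theorem L55956 : W_10 (nat_lit 2) (nat_lit 0x200017001780084000600000000000000000000000000) (nat_lit 0x0) (nat_lit 0xa0000000000008000000000000000000000000000000) := D_10 (nat_lit 123) (nat_lit 173) (nat_lit 175) (nat_lit 6) (nat_lit 3) (nat_lit 10) (nat_lit 7) (nat_lit 4) (nat_lit 6) (by decide +kernel)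
theorem L55957 : W_10 (nat_lit 3) (nat_lit 0x200017001780084000200000000000000000000000000) (nat_lit 0x0) (nat_lit 0xa0000000000008000400020000000000000000000000) := T_10 (nat_lit 106) (nat_lit 89) (nat_lit 6) (nat_lit 3) (nat_lit 9) L55956 (by decide +kernel)
theorem L55958 : W_10 (nat_lit 4) (nat_lit 0x200017001780084000000000000000000000000000000) (nat_lit 0x0) (nat_lit 0xa0000000000008000600030000000000000000000000) := T_10 (nat_lit 105) (nat_lit 88) (nat_lit 7) (nat_lit 3) (nat_lit 5) L55957 (by decide +kernel)
theorem L55959 : W_10 (nat_lit 5) (nat_lit 0x200017001780080000000000000000000000000000000) (nat_lit 0x0) (nat_lit 0xa000000000000e000600030000000000000000000000) := T_10 (nat_lit 122) (nat_lit 121) (nat_lit 0) (nat_lit 6) (nat_lit 8) L55958 (by decide +kernel)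
theorem L55960 : W_10 (nat_lit 6) (nat_lit 0x200007001780080000000000000000000000000000000) (nat_lit 0x0) (nat_lit 0xa001800000000e000600030000000000000000000000) := T_10 (nat_lit 160) (nat_lit 159) (nat_lit 3) (nat_lit 3) (nat_lit 8) L55959 (by decide +kernel)
theorem L55961 : W_10 (nat_lit 7) (nat_lit 0x200006001780080000000000000000000000000000000) (nat_lit 0x0) (nat_lit 0xa001980000000e000600030000000000000000000000) := T_10 (nat_lit 156) (nat_lit 155) (nat_lit 2) (nat_lit 2) (nat_lit 9) L55960 (by decide +kernel)
theorem L55962 : W_10 (nat_lit 4) (nat_lit 0x200007001780080000000000000000000000000000000) (nat_lit 0x0) (nat_lit 0x400030018000000008000400000000000000000000000000) := T_10 (nat_lit 159) (nat_lit 160) (nat_lit 3) (nat_lit 3) (nat_lit 8) L33979 (by decide +kernel)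
theorem L55963 : W_10 (nat_lit 5) (nat_lit 0x200006001780080000000000000000000000000000000) (nat_lit 0x0) (nat_lit 0x400030019800000008000400000000000000000000000000) := T_10 (nat_lit 156) (nat_lit 155) (nat_lit 2) (nat_lit 2) (nat_lit 9) L55962 (by decide +kernel)
theorem L55964 : W_10 (nat_lit 8) (nat_lit 0x200004001780080000000000000000000000000000000) (nat_lit 0x0) (nat_lit 0xc000f001b80000000e000600030000000000000000000000) := Q_10 (nat_lit 157) (C_10 L55165 (C_10 L55961 (C_10 L55963 (C_10 L55168 N_10)))) (by decide +kernel)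
theorem L55965 : W_10 (nat_lit 2) (nat_lit 0x200005001780088000400000000000000000000000000) (nat_lit 0x0) (nat_lit 0x1000080002000000000000000000000000000000000000000) := D_10 (nat_lit 175) (nat_lit 192) (nat_lit 157) (nat_lit 4) (nat_lit 5) (nat_lit 11) (nat_lit 7) (nat_lit 4) (nat_lit 6) (by decide +kernel)
theorem L55966 : W_10 (nat_lit 3) (nat_lit 0x200005001780080000400000000000000000000000000) (nat_lit 0x0) (nat_lit 0x1000080002000000008000000020000000000000000000000) := T_10 (nat_lit 123) (nat_lit 89) (nat_lit 7) (nat_lit 4) (nat_lit 5) L55965 (by decide +kernel)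
theorem L55967 : W_10 (nat_lit 4) (nat_lit 0x200004001780080000400000000000000000000000000) (nat_lit 0x0) (nat_lit 0x1000080003800000008000000020000000000000000000000) := T_10 (nat_lit 156) (nat_lit 155) (nat_lit 1) (nat_lit 6) (nat_lit 8) L55966 (by decide +kernel)
theorem L55968 : W_10 (nat_lit 2) (nat_lit 0x10002000060017800ac001c00000000000000000000000000) (nat_lit 0x0) (nat_lit 0x800040000000000000000200000000000000000000000000) := D_10 (nat_lit 174) (nat_lit 191) (nat_lit 105) (nat_lit 4) (nat_lit 4) (nat_lit 11) (nat_lit 4) (nat_lit 4) (nat_lit 10) (by decide +kernel)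
theorem L55969 : W_10 (nat_lit 3) (nat_lit 0x10002000040017800ac001c00000000000000000000000000) (nat_lit 0x0) (nat_lit 0x800040002000000000000200040000000000000000000000) := T_10 (nat_lit 157) (nat_lit 90) (nat_lit 6) (nat_lit 4) (nat_lit 9) L55968 (by decide +kernel)
theorem L55970 : W_10 (nat_lit 4) (nat_lit 0x10002000040017800ac001400000000000000000000000000) (nat_lit 0x0) (nat_lit 0x800040002000000000002a00040000000000000000000000) := T_10 (nat_lit 107) (nat_lit 109) (nat_lit 1) (nat_lit 7) (nat_lit 6) L55969 (by decide +kernel)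
theorem L55971 : W_10 (nat_lit 5) (nat_lit 0x10002000040017800a4001400000000000000000000000000) (nat_lit 0x0) (nat_lit 0x800040002000000008002a00060000000000000000000000) := T_10 (nat_lit 123) (nat_lit 89) (nat_lit 7) (nat_lit 4) (nat_lit 5) L55970 (by decide +kernel)
theorem L55972 : W_10 (nat_lit 6) (nat_lit 0x10002000040017800a0001400000000000000000000000000) (nat_lit 0x0) (nat_lit 0x80004000200000000e002a00060000000000000000000000) := T_10 (nat_lit 122) (nat_lit 121) (nat_lit 0) (nat_lit 6) (nat_lit 8) L55971 (by decide +kernel)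
theorem L55973 : W_10 (nat_lit 7) (nat_lit 0x10002000040017800a0000400000000000000000000000000) (nat_lit 0x0) (nat_lit 0x80004000200000000e003a000e0000000000000000000000) := T_10 (nat_lit 108) (nat_lit 91) (nat_lit 5) (nat_lit 6) (nat_lit 5) L55972 (by decide +kernel)
theorem L55974 : W_10 (nat_lit 8) (nat_lit 0x2000040017800a0000400000000000000000000000000) (nat_lit 0x0) (nat_lit 0x18000c000200000000e003a000e0000000000000000000000) := T_10 (nat_lit 192) (nat_lit 175) (nat_lit 6) (nat_lit 5) (nat_lit 11) L55973 (by decide +kernel)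
theorem L55975 : W_10 (nat_lit 9) (nat_lit 0x200004001780080000400000000000000000000000000) (nat_lit 0x0) (nat_lit 0x18000c000200000006e003a000e0000000000000000000000) := T_10 (nat_lit 125) (nat_lit 126) (nat_lit 2) (nat_lit 3) (nat_lit 8) L55974 (by decide +kernel)
theorem L55976 : W_10 (nat_lit 10) (nat_lit 0x200004001780080000000000000000000000000000000) (nat_lit 0x0) (nat_lit 0x20001c001e000f000380000006e003f000f8000400000000000000000) := Q_10 (nat_lit 106) (C_10 L55199 (C_10 L55220 (C_10 L55194 (C_10 L55967 (C_10 L55975 N_10))))) (by decide +kernel)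
theorem L55977 : W_10 (nat_lit 2) (nat_lit 0x20000d0017800a4003c00000000000000000000000000) (nat_lit 0x0) (nat_lit 0x200030000000000000000000000) := D_10 (nat_lit 89) (nat_lit 88) (nat_lit 105) (nat_lit 0) (nat_lit 7) (nat_lit 6) (nat_lit 6) (nat_lit 3) (nat_lit 9) (by decide +kernel)
theorem L55978 : W_10 (nat_lit 3) (nat_lit 0x20000d0017800a4003800000000000000000000000000) (nat_lit 0x0) (nat_lit 0x8000600030000000000000000000000) := T_10 (nat_lit 106) (nat_lit 123) (nat_lit 1) (nat_lit 7) (nat_lit 6) L55977 (by decide +kernel)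
theorem L55979 : W_10 (nat_lit 4) (nat_lit 0x20000d0017800a4003000000000000000000000000000) (nat_lit 0x0) (nat_lit 0x8000e00070000000000000000000000) := T_10 (nat_lit 107) (nat_lit 90) (nat_lit 4) (nat_lit 6) (nat_lit 9) L55978 (by decide +kernel)
theorem L55980 : W_10 (nat_lit 5) (nat_lit 0x20000d0017800a4001000000000000000000000000000) (nat_lit 0x0) (nat_lit 0x8002e00170000000000000000000000) := T_10 (nat_lit 109) (nat_lit 92) (nat_lit 6) (nat_lit 6) (nat_lit 9) L55979 (by decide +kernel)
theorem L55981 : W_10 (nat_lit 6) (nat_lit 0x20000d0017800a0001000000000000000000000000000) (nat_lit 0x0) (nat_lit 0xe002e00170000000000000000000000) := T_10 (nat_lit 122) (nat_lit 121) (nat_lit 0) (nat_lit 6) (nat_lit 8) L55980 (by decide +kernel)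
theorem L55982 : W_10 (nat_lit 7) (nat_lit 0x20000d0017800a0000000000000000000000000000000) (nat_lit 0x0) (nat_lit 0xe003e001f0000000000000000000000) := T_10 (nat_lit 108) (nat_lit 91) (nat_lit 5) (nat_lit 6) (nat_lit 5) L55981 (by decide +kernel)
theorem L55983 : W_10 (nat_lit 8) (nat_lit 0x20000d001780080000000000000000000000000000000) (nat_lit 0x0) (nat_lit 0x6e003e001f0000000000000000000000) := T_10 (nat_lit 125) (nat_lit 126) (nat_lit 2) (nat_lit 3) (nat_lit 8) L55982 (by decide +kernel)
theorem L55984 : W_10 (nat_lit 9) (nat_lit 0x200005001780080000000000000000000000000000000) (nat_lit 0x0) (nat_lit 0x1800000006e003e001f0000000000000000000000) := T_10 (nat_lit 159) (nat_lit 160) (nat_lit 3) (nat_lit 3) (nat_lit 8) L55983 (by decide +kernel)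
theorem L55985 : W_10 (nat_lit 10) (nat_lit 0x200004001780080000000000000000000000000000000) (nat_lit 0x0) (nat_lit 0x1980000006e003e001f0000000000000000000000) := T_10 (nat_lit 156) (nat_lit 155) (nat_lit 1) (nat_lit 6) (nat_lit 8) L55984 (by decide +kernel)
theorem L55986 : W_10 (nat_lit 11) (nat_lit 0x200000001780080000000000000000000000000000000) (nat_lit 0x0) (nat_lit 0x20001c001e000f001f80000006e003f001f8000400000000000000000) := Q_10 (nat_lit 158) (C_10 L55955 (C_10 L55964 (C_10 L55976 (C_10 L55985 N_10)))) (by decide +kernel)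
theorem L55987 : W_10 (nat_lit 2) (nat_lit 0x2c00030017800a4000000000000000000000000000000) (nat_lit 0x0) (nat_lit 0x1000000004000000008000000000000000000000000000000) := D_10 (nat_lit 192) (nat_lit 158) (nat_lit 123) (nat_lit 6) (nat_lit 5) (nat_lit 11) (nat_lit 7) (nat_lit 4) (nat_lit 7) (by decide +kernel)
theorem L55988 : W_10 (nat_lit 3) (nat_lit 0x2c0003001780084000000000000000000000000000000) (nat_lit 0x0) (nat_lit 0x1000000004000000068000000000000000000000000000000) := T_10 (nat_lit 125) (nat_lit 126) (nat_lit 2) (nat_lit 3) (nat_lit 8) L55987 (by decide +kernel)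
theorem L55989 : W_10 (nat_lit 4) (nat_lit 0x240003001780084000000000000000000000000000000) (nat_lit 0x0) (nat_lit 0x1000180004000000068000000000000000000000000000000) := T_10 (nat_lit 175) (nat_lit 176) (nat_lit 0) (nat_lit 7) (nat_lit 10) L55988 (by decide +kernel)
theorem L55990 : W_10 (nat_lit 5) (nat_lit 0x240002001780084000000000000000000000000000000) (nat_lit 0x0) (nat_lit 0x1000180005800000068000000000000000000000000000000) := T_10 (nat_lit 156) (nat_lit 155) (nat_lit 1) (nat_lit 6) (nat_lit 8) L55989 (by decide +kernel)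
theorem L55991 : W_10 (nat_lit 6) (nat_lit 0x200002001780084000000000000000000000000000000) (nat_lit 0x0) (nat_lit 0x18001c0005800000068000000000000000000000000000000) := T_10 (nat_lit 174) (nat_lit 191) (nat_lit 4) (nat_lit 4) (nat_lit 11) L55990 (by decide +kernel)
theorem L55992 : W_10 (nat_lit 12) (nat_lit 0x200000001780084000000000000000000000000000000) (nat_lit 0x0) (nat_lit 0x18001e0007800000068003fc00f8000000000000000000000) := Q_10 (nat_lit 157) (C_10 L37581 (C_10 L55924 (C_10 L37569 (C_10 L55991 N_10)))) (by decide +kernel)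
theorem L55993 : W_10 (nat_lit 13) (nat_lit 0x200000001780080000000000000000000000000000000) (nat_lit 0x0) (nat_lit 0x18001e000780000006e003fc00f8000000000000000000000) := T_10 (nat_lit 122) (nat_lit 121) (nat_lit 0) (nat_lit 6) (nat_lit 8) L55992 (by decide +kernel)
theorem L55994 : W_10 (nat_lit 12) (nat_lit 0x200000001780080000000000000000000000000000000) (nat_lit 0x0) (nat_lit 0x500018001e00000006e003e00178000000000000000000000) := T_10 (nat_lit 125) (nat_lit 126) (nat_lit 2) (nat_lit 3) (nat_lit 8) L35720 (by decide +kernel)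
theorem L55995 : W_10 (nat_lit 14) (nat_lit 0x200000001380080000000000000000000000000000000) (nat_lit 0x0) (nat_lit 0x20007c007e001f001f80040006e003fc01f8000400000000000000000) := Q_10 (nat_lit 142) (C_10 L55626 (C_10 L55178 (C_10 L55804 (C_10 L55952 (C_10 L55622 (C_10 L55986 (C_10 L55993 (C_10 L55994 N_10)))))))) (by decide +kernel)
theorem L55996 : W_10 (nat_lit 2) (nat_lit 0x200007001380080000000000000000000000000000000) (nat_lit 0x0) (nat_lit 0x100008000040000000000000000000000000000000000) := D_10 (nat_lit 159) (nat_lit 138) (nat_lit 176) (nat_lit 3) (nat_lit 2) (nat_lit 8) (nat_lit 3) (nat_lit 3) (nat_lit 9) (by decide +kernel)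
theorem L55997 : W_10 (nat_lit 6) (nat_lit 0x200003001380080000000000000000000000000000000) (nat_lit 0x0) (nat_lit 0x100018001cc00060008000400000000000000000000000000) := Q_10 (nat_lit 158) (C_10 L34172 (C_10 L55996 (C_10 L37451 (C_10 L34198 N_10)))) (by decide +kernel)
theorem L55998 : W_10 (nat_lit 2) (nat_lit 0x100000002c0003401380088000000000000000000000000000000) (nat_lit 0x0) (nat_lit 0x4000000000000400020000000000000000000000) := D_10 (nat_lit 106) (nat_lit 158) (nat_lit 89) (nat_lit 7) (nat_lit 4) (nat_lit 6) (nat_lit 5) (nat_lit 4) (nat_lit 5) (by decide +kernel)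
theorem L55999 : W_10 (nat_lit 3) (nat_lit 0x100000002c0003401380080000000000000000000000000000000) (nat_lit 0x0) (nat_lit 0x1000000004000000008000400020000000000000000000000) := T_10 (nat_lit 123) (nat_lit 192) (nat_lit 7) (nat_lit 4) (nat_lit 7) L55998 (by decide +kernel)
theorem L56000 : W_10 (nat_lit 4) (nat_lit 0x10000000240003401380080000000000000000000000000000000) (nat_lit 0x0) (nat_lit 0x1000180004000000008000400020000000000000000000000) := T_10 (nat_lit 175) (nat_lit 176) (nat_lit 0) (nat_lit 7) (nat_lit 10) L55999 (by decide +kernel)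
theorem L56001 : W_10 (nat_lit 5) (nat_lit 0x240003401380080000000000000000000000000000000) (nat_lit 0x0) (nat_lit 0x10001800180004000000008000400020000000000000000000000) := T_10 (nat_lit 208) (nat_lit 191) (nat_lit 4) (nat_lit 4) (nat_lit 12) L56000 (by decide +kernel)
theorem L56002 : W_10 (nat_lit 6) (nat_lit 0x240003001380080000000000000000000000000000000) (nat_lit 0x0) (nat_lit 0x10001800180004c00000008000400020000000000000000000000) := T_10 (nat_lit 154) (nat_lit 155) (nat_lit 2) (nat_lit 1) (nat_lit 9) L56001 (by decide +kernel)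
theorem L56003 : W_10 (nat_lit 2) (nat_lit 0x2003500078013a0080000000000000000000000000000000) (nat_lit 0x0) (nat_lit 0x20000000000004000200000000000000000000000000) := D_10 (nat_lit 122) (nat_lit 105) (nat_lit 173) (nat_lit 7) (nat_lit 3) (nat_lit 6) (nat_lit 5) (nat_lit 3) (nat_lit 7) (by decide +kernel)
theorem L56004 : W_10 (nat_lit 3) (nat_lit 0x3500078013a0080000000000000000000000000000000) (nat_lit 0x0) (nat_lit 0x4000200020000000000004000200000000000000000000000000) := T_10 (nat_lit 189) (nat_lit 206) (nat_lit 6) (nat_lit 2) (nat_lit 12) L56003 (by decide +kernel)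
theorem L56005 : W_10 (nat_lit 4) (nat_lit 0x350007801380080000000000000000000000000000000) (nat_lit 0x0) (nat_lit 0x4000200020000000060004000200000000000000000000000000) := T_10 (nat_lit 137) (nat_lit 138) (nat_lit 3) (nat_lit 1) (nat_lit 8) L56004 (by decide +kernel)
theorem L56006 : W_10 (nat_lit 5) (nat_lit 0x340007801380080000000000000000000000000000000) (nat_lit 0x0) (nat_lit 0x4000200038000000060004000200000000000000000000000000) := T_10 (nat_lit 172) (nat_lit 171) (nat_lit 1) (nat_lit 5) (nat_lit 9) L56005 (by decide +kernel)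
theorem L56007 : W_10 (nat_lit 6) (nat_lit 0x340003801380080000000000000000000000000000000) (nat_lit 0x0) (nat_lit 0x400020003800c000060004000200000000000000000000000000) := T_10 (nat_lit 158) (nat_lit 159) (nat_lit 3) (nat_lit 3) (nat_lit 9) L56006 (by decide +kernel)
theorem L56008 : W_10 (nat_lit 7) (nat_lit 0x340003001380080000000000000000000000000000000) (nat_lit 0x0) (nat_lit 0x400020003800cc00060004000200000000000000000000000000) := T_10 (nat_lit 155) (nat_lit 154) (nat_lit 2) (nat_lit 1) (nat_lit 9) L56007 (by decide +kernel)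
theorem L56009 : W_10 (nat_lit 8) (nat_lit 0x240003001380080000000000000000000000000000000) (nat_lit 0x0) (nat_lit 0x40002001b800cc00060004000200000000000000000000000000) := T_10 (nat_lit 176) (nat_lit 175) (nat_lit 0) (nat_lit 7) (nat_lit 10) L56008 (by decide +kernel)
theorem L56010 : W_10 (nat_lit 9) (nat_lit 0x200003001380080000000000000000000000000000000) (nat_lit 0x0) (nat_lit 0x14001a001f800cc0006000c000600020000000000000000000000) := Q_10 (nat_lit 174) (C_10 L34151 (C_10 L56002 (C_10 L56009 N_10))) (by decide +kernel)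
theorem L56011 : W_10 (nat_lit 9) (nat_lit 0x200003001380080000000000000000000000000000000) (nat_lit 0x0) (nat_lit 0x240012001b801cc00060004000200000000000000000000000000) := Q_10 (nat_lit 158) (C_10 L34198 (C_10 L55996 (C_10 L34172 (C_10 L34206 N_10)))) (by decide +kernel)
theorem L56012 : W_10 (nat_lit 2) (nat_lit 0x200007001380080000000000000000000000000000000) (nat_lit 0x0) (nat_lit 0x8000060000000000000000000000000000000000) := D_10 (nat_lit 138) (nat_lit 159) (nat_lit 137) (nat_lit 3) (nat_lit 2) (nat_lit 8) (nat_lit 3) (nat_lit 1) (nat_lit 8) (by decide +kernel)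
theorem L56013 : W_10 (nat_lit 7) (nat_lit 0x200003001380080000000000000000000000000000000) (nat_lit 0x0) (nat_lit 0x400020003801cc00060004000200000000000000000000000000) := Q_10 (nat_lit 158) (C_10 L34172 (C_10 L56012 (C_10 L37441 (C_10 L37446 N_10)))) (by decide +kernel)
theorem L56014 : W_10 (nat_lit 2) (nat_lit 0x2c0003401380088000200000000000000000000000000) (nat_lit 0x0) (nat_lit 0x4000000000000400010000000000000000000000) := D_10 (nat_lit 106) (nat_lit 158) (nat_lit 88) (nat_lit 7) (nat_lit 4) (nat_lit 6) (nat_lit 4) (nat_lit 4) (nat_lit 9) (by decide +kernel)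
theorem L56015 : W_10 (nat_lit 3) (nat_lit 0x2c0003401380080000200000000000000000000000000) (nat_lit 0x0) (nat_lit 0x1000000004000000008000400010000000000000000000000) := T_10 (nat_lit 123) (nat_lit 192) (nat_lit 7) (nat_lit 4) (nat_lit 7) L56014 (by decide +kernel)
theorem L56016 : W_10 (nat_lit 4) (nat_lit 0x240003401380080000200000000000000000000000000) (nat_lit 0x0) (nat_lit 0x1000180004000000008000400010000000000000000000000) := T_10 (nat_lit 175) (nat_lit 176) (nat_lit 0) (nat_lit 7) (nat_lit 10) L56015 (by decide +kernel)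
theorem L56017 : W_10 (nat_lit 5) (nat_lit 0x240003401380080000000000000000000000000000000) (nat_lit 0x0) (nat_lit 0x100018000400000000c000600010000000000000000000000) := T_10 (nat_lit 105) (nat_lit 122) (nat_lit 7) (nat_lit 3) (nat_lit 6) L56016 (by decide +kernel)
theorem L56018 : W_10 (nat_lit 6) (nat_lit 0x240003001380080000000000000000000000000000000) (nat_lit 0x0) (nat_lit 0x1000180004c0000000c000600010000000000000000000000) := T_10 (nat_lit 154) (nat_lit 155) (nat_lit 2) (nat_lit 1) (nat_lit 9) L56017 (by decide +kernel)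
theorem L56019 : W_10 (nat_lit 7) (nat_lit 0x200003001380080000000000000000000000000000000) (nat_lit 0x0) (nat_lit 0x100018001c0004c0000000c000600030000000000000000000000) := Q_10 (nat_lit 174) (C_10 L34151 (C_10 L56002 (C_10 L56018 N_10))) (by decide +kernel)
theorem L56020 : W_10 (nat_lit 2) (nat_lit 0x100000002c0003401380088000000000000000000000000000000) (nat_lit 0x0) (nat_lit 0x400020000000000000000400000000000000000000000000) := D_10 (nat_lit 173) (nat_lit 190) (nat_lit 106) (nat_lit 6) (nat_lit 3) (nat_lit 11) (nat_lit 5) (nat_lit 4) (nat_lit 6) (by decide +kernel)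
theorem L56021 : W_10 (nat_lit 3) (nat_lit 0x100000002c0003401380080000000000000000000000000000000) (nat_lit 0x0) (nat_lit 0x1400020000000000008000400000000000000000000000000) := T_10 (nat_lit 123) (nat_lit 192) (nat_lit 7) (nat_lit 4) (nat_lit 7) L56020 (by decide +kernel)
theorem L56022 : W_10 (nat_lit 4) (nat_lit 0x10000000240003401380080000000000000000000000000000000) (nat_lit 0x0) (nat_lit 0x14001a0000000000008000400000000000000000000000000) := T_10 (nat_lit 175) (nat_lit 176) (nat_lit 0) (nat_lit 7) (nat_lit 10) L56021 (by decide +kernel)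
theorem L56023 : W_10 (nat_lit 5) (nat_lit 0x240003401380080000000000000000000000000000000) (nat_lit 0x0) (nat_lit 0x10001c001a0000000000008000400000000000000000000000000) := T_10 (nat_lit 208) (nat_lit 191) (nat_lit 4) (nat_lit 4) (nat_lit 12) L56022 (by decide +kernel)
theorem L56024 : W_10 (nat_lit 6) (nat_lit 0x240003001380080000000000000000000000000000000) (nat_lit 0x0) (nat_lit 0x10001c001a0000c00000008000400000000000000000000000000) := T_10 (nat_lit 154) (nat_lit 155) (nat_lit 2) (nat_lit 1) (nat_lit 9) L56023 (by decide +kernel)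
theorem L56025 : W_10 (nat_lit 2) (nat_lit 0x2c0003401380088000000000000000000000000000000) (nat_lit 0x0) (nat_lit 0x400020000000000000000400000000000000000000000000) := D_10 (nat_lit 173) (nat_lit 190) (nat_lit 106) (nat_lit 6) (nat_lit 3) (nat_lit 11) (nat_lit 5) (nat_lit 4) (nat_lit 6) (by decide +kernel)
theorem L56026 : W_10 (nat_lit 3) (nat_lit 0x2c0003401380080000000000000000000000000000000) (nat_lit 0x0) (nat_lit 0x1400020000000000008000400000000000000000000000000) := T_10 (nat_lit 123) (nat_lit 192) (nat_lit 7) (nat_lit 4) (nat_lit 7) L56025 (by decide +kernel)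
theorem L56027 : W_10 (nat_lit 4) (nat_lit 0x2c0003001380080000000000000000000000000000000) (nat_lit 0x0) (nat_lit 0x1400020000c00000008000400000000000000000000000000) := T_10 (nat_lit 154) (nat_lit 155) (nat_lit 3) (nat_lit 1) (nat_lit 9) L56026 (by decide +kernel)
theorem L56028 : W_10 (nat_lit 5) (nat_lit 0x240003001380080000000000000000000000000000000) (nat_lit 0x0) (nat_lit 0x14001a0000c00000008000400000000000000000000000000) := T_10 (nat_lit 175) (nat_lit 176) (nat_lit 0) (nat_lit 7) (nat_lit 10) L56027 (by decide +kernel)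
theorem L56029 : W_10 (nat_lit 7) (nat_lit 0x200003001380080000000000000000000000000000000) (nat_lit 0x0) (nat_lit 0x10001c001e0000c0000000c000400000000000000000000000000) := Q_10 (nat_lit 174) (C_10 L34151 (C_10 L56024 (C_10 L56028 N_10))) (by decide +kernel)
theorem L56030 : W_10 (nat_lit 8) (nat_lit 0x200003001380080000000000000000000000000000000) (nat_lit 0x0) (nat_lit 0x38003c001c000c00006000c000600010000000000000000000000) := Q_10 (nat_lit 174) (C_10 L34151 (C_10 L34157 (C_10 L34161 N_10))) (by decide +kernel)
theorem L56031 : W_10 (nat_lit 10) (nat_lit 0x200001001380080000000000000000000000000000000) (nat_lit 0x0) (nat_lit 0x3c003e001f801ec0006000c000600030000000000000000000000) := Q_10 (nat_lit 157) (C_10 L55997 (C_10 L56010 (C_10 L56011 (C_10 L56013 (C_10 L56019 (C_10 L56029 (C_10 L56030 N_10))))))) (by decide +kernel)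
theorem L56032 : W_10 (nat_lit 9) (nat_lit 0x200001001380080000000000000000000000000000000) (nat_lit 0x0) (nat_lit 0x5e001e001a800400068000000000000000000000000000000) := T_10 (nat_lit 142) (nat_lit 155) (nat_lit 1) (nat_lit 6) (nat_lit 8) L55625 (by decide +kernel)
theorem L56033 : W_10 (nat_lit 2) (nat_lit 0x200001001380088000400000000000000000000000000) (nat_lit 0x0) (nat_lit 0x400020002000000000000000000000000000000000000000) := D_10 (nat_lit 173) (nat_lit 190) (nat_lit 157) (nat_lit 6) (nat_lit 3) (nat_lit 11) (nat_lit 5) (nat_lit 4) (nat_lit 6) (by decide +kernel)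
theorem L56034 : W_10 (nat_lit 3) (nat_lit 0x200001001380088000000000000000000000000000000) (nat_lit 0x0) (nat_lit 0x400020002000000000000400020000000000000000000000) := T_10 (nat_lit 106) (nat_lit 89) (nat_lit 5) (nat_lit 4) (nat_lit 5) L56033 (by decide +kernel)
theorem L56035 : W_10 (nat_lit 2) (nat_lit 0x220001001380088000000000000000000000000000000) (nat_lit 0x0) (nat_lit 0x4000400020000000000000000000000) := D_10 (nat_lit 106) (nat_lit 89) (nat_lit 122) (nat_lit 5) (nat_lit 4) (nat_lit 5) (nat_lit 6) (nat_lit 3) (nat_lit 10) (by decide +kernel)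
theorem L56036 : W_10 (nat_lit 3) (nat_lit 0x200001001380088000000000000000000000000000000) (nat_lit 0x0) (nat_lit 0x400020000000000004000400020000000000000000000000) := T_10 (nat_lit 173) (nat_lit 190) (nat_lit 6) (nat_lit 3) (nat_lit 11) L56035 (by decide +kernel)
theorem L56037 : W_10 (nat_lit 2) (nat_lit 0x4003000090017800a8000000000000000000000000000000) (nat_lit 0x0) (nat_lit 0x6000040000000000000000000000000000000000) := D_10 (nat_lit 158) (nat_lit 138) (nat_lit 157) (nat_lit 3) (nat_lit 2) (nat_lit 8) (nat_lit 3) (nat_lit 3) (nat_lit 9) (by decide +kernel)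
theorem L56038 : W_10 (nat_lit 3) (nat_lit 0x4002000090017800a8000000000000000000000000000000) (nat_lit 0x0) (nat_lit 0x4000100006000040000000000000000000000000000000000) := T_10 (nat_lit 176) (nat_lit 194) (nat_lit 7) (nat_lit 6) (nat_lit 7) L56037 (by decide +kernel)
theorem L56039 : W_10 (nat_lit 4) (nat_lit 0x400200009001780088000000000000000000000000000000) (nat_lit 0x0) (nat_lit 0x4000100006000040060000000000000000000000000000000) := T_10 (nat_lit 125) (nat_lit 126) (nat_lit 2) (nat_lit 3) (nat_lit 8) L56038 (by decide +kernel)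
theorem L56040 : W_10 (nat_lit 5) (nat_lit 0x400200009001380088000000000000000000000000000000) (nat_lit 0x0) (nat_lit 0x4000100016000440060000000000000000000000000000000) := T_10 (nat_lit 142) (nat_lit 160) (nat_lit 3) (nat_lit 3) (nat_lit 8) L56039 (by decide +kernel)
theorem L56041 : W_10 (nat_lit 6) (nat_lit 0x200009001380088000000000000000000000000000000) (nat_lit 0x0) (nat_lit 0x4400120016000440060000000000000000000000000000000) := T_10 (nat_lit 190) (nat_lit 173) (nat_lit 6) (nat_lit 3) (nat_lit 11) L56040 (by decide +kernel)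
theorem L56042 : W_10 (nat_lit 2) (nat_lit 0x20000d001380088000000000000000000000000000000) (nat_lit 0x0) (nat_lit 0x30000400000000000000000000000000000000000) := D_10 (nat_lit 160) (nat_lit 142) (nat_lit 161) (nat_lit 3) (nat_lit 3) (nat_lit 8) (nat_lit 0) (nat_lit 8) (nat_lit 9) (by decide +kernel)
theorem L56043 : W_10 (nat_lit 3) (nat_lit 0x200009001380088000000000000000000000000000000) (nat_lit 0x0) (nat_lit 0x34000440000000000000000000000000000000000) := T_10 (nat_lit 158) (nat_lit 138) (nat_lit 3) (nat_lit 2) (nat_lit 8) L56042 (by decide +kernel)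
theorem L56044 : W_10 (nat_lit 2) (nat_lit 0x140030000d001380088000000000000000000000000000000) (nat_lit 0x0) (nat_lit 0x40002800000000000000000000000000000000000000000000000) := D_10 (nat_lit 193) (nat_lit 191) (nat_lit 210) (nat_lit 2) (nat_lit 3) (nat_lit 11) (nat_lit 4) (nat_lit 6) (nat_lit 12) (by decide +kernel)
theorem L56045 : W_10 (nat_lit 3) (nat_lit 0x140020000d001380088000000000000000000000000000000) (nat_lit 0x0) (nat_lit 0x40002800100002000000000000000000000000000000000000000) := T_10 (nat_lit 176) (nat_lit 157) (nat_lit 3) (nat_lit 3) (nat_lit 9) L56044 (by decide +kernel)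
theorem L56046 : W_10 (nat_lit 4) (nat_lit 0x40020000d001380088000000000000000000000000000000) (nat_lit 0x0) (nat_lit 0x40003800180002000000000000000000000000000000000000000) := T_10 (nat_lit 192) (nat_lit 175) (nat_lit 4) (nat_lit 5) (nat_lit 11) L56045 (by decide +kernel)
theorem L56047 : W_10 (nat_lit 5) (nat_lit 0x400200009001380088000000000000000000000000000000) (nat_lit 0x0) (nat_lit 0x40003800180006000040000000000000000000000000000000000) := T_10 (nat_lit 158) (nat_lit 138) (nat_lit 3) (nat_lit 2) (nat_lit 8) L56046 (by decide +kernel)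
theorem L56048 : W_10 (nat_lit 6) (nat_lit 0x200009001380088000000000000000000000000000000) (nat_lit 0x0) (nat_lit 0x40003c001a0006000040000000000000000000000000000000000) := T_10 (nat_lit 190) (nat_lit 173) (nat_lit 6) (nat_lit 3) (nat_lit 11) L56047 (by decide +kernel)
theorem L56049 : W_10 (nat_lit 2) (nat_lit 0x3c00090017800a8000000000000000000000000000000) (nat_lit 0x0) (nat_lit 0xc00020000000000000000000000000000000000000000000) := D_10 (nat_lit 190) (nat_lit 173) (nat_lit 191) (nat_lit 6) (nat_lit 3) (nat_lit 11) (nat_lit 1) (nat_lit 7) (nat_lit 10) (by decide +kernel)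
theorem L56050 : W_10 (nat_lit 3) (nat_lit 0x3800090017800a8000000000000000000000000000000) (nat_lit 0x0) (nat_lit 0xc00060002000000000000000000000000000000000000000) := T_10 (nat_lit 174) (nat_lit 157) (nat_lit 0) (nat_lit 7) (nat_lit 10) L56049 (by decide +kernel)
theorem L56051 : W_10 (nat_lit 4) (nat_lit 0x3000090017800a8000000000000000000000000000000) (nat_lit 0x0) (nat_lit 0x1c000e0002000000000000000000000000000000000000000) := T_10 (nat_lit 175) (nat_lit 192) (nat_lit 5) (nat_lit 6) (nat_lit 7) L56050 (by decide +kernel)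
theorem L56052 : W_10 (nat_lit 5) (nat_lit 0x2000090017800a8000000000000000000000000000000) (nat_lit 0x0) (nat_lit 0x5c001e0002000000000000000000000000000000000000000) := T_10 (nat_lit 176) (nat_lit 194) (nat_lit 7) (nat_lit 6) (nat_lit 7) L56051 (by decide +kernel)
theorem L56053 : W_10 (nat_lit 6) (nat_lit 0x200009001780088000000000000000000000000000000) (nat_lit 0x0) (nat_lit 0x5c001e0002000000060000000000000000000000000000000) := T_10 (nat_lit 125) (nat_lit 126) (nat_lit 2) (nat_lit 3) (nat_lit 8) L56052 (by decide +kernel)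
theorem L56054 : W_10 (nat_lit 7) (nat_lit 0x200009001380088000000000000000000000000000000) (nat_lit 0x0) (nat_lit 0x5c001e0012000400060000000000000000000000000000000) := T_10 (nat_lit 142) (nat_lit 160) (nat_lit 3) (nat_lit 3) (nat_lit 8) L56053 (by decide +kernel)
theorem L56055 : W_10 (nat_lit 8) (nat_lit 0x200001001380088000000000000000000000000000000) (nat_lit 0x0) (nat_lit 0x40007c001e003e000440060000000000000000000000000000000) := Q_10 (nat_lit 159) (C_10 L56041 (C_10 L56043 (C_10 L56048 (C_10 L56054 N_10)))) (by decide +kernel)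
theorem L56056 : W_10 (nat_lit 2) (nat_lit 0x200005001380088000400000000000000000000000000) (nat_lit 0x0) (nat_lit 0x1000080002000000000000000000000000000000000000000) := D_10 (nat_lit 175) (nat_lit 192) (nat_lit 157) (nat_lit 4) (nat_lit 5) (nat_lit 11) (nat_lit 7) (nat_lit 4) (nat_lit 6) (by decide +kernel)
theorem L56057 : W_10 (nat_lit 3) (nat_lit 0x200005001380088000000000000000000000000000000) (nat_lit 0x0) (nat_lit 0x1000080002000000000000400020000000000000000000000) := T_10 (nat_lit 106) (nat_lit 89) (nat_lit 7) (nat_lit 4) (nat_lit 5) L56056 (by decide +kernel)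
theorem L56058 : W_10 (nat_lit 2) (nat_lit 0x100020000d001380088000000000000000000000000000000) (nat_lit 0x0) (nat_lit 0x30000400000000000000000000000000000000000) := D_10 (nat_lit 160) (nat_lit 161) (nat_lit 142) (nat_lit 0) (nat_lit 8) (nat_lit 9) (nat_lit 3) (nat_lit 3) (nat_lit 8) (by decide +kernel)
theorem L56059 : W_10 (nat_lit 3) (nat_lit 0x1000200005001380088000000000000000000000000000000) (nat_lit 0x0) (nat_lit 0x38000440000000000000000000000000000000000) := T_10 (nat_lit 159) (nat_lit 138) (nat_lit 3) (nat_lit 2) (nat_lit 8) L56058 (by decide +kernel)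
theorem L56060 : W_10 (nat_lit 4) (nat_lit 0x200005001380088000000000000000000000000000000) (nat_lit 0x0) (nat_lit 0x1000080038000440000000000000000000000000000000000) := T_10 (nat_lit 192) (nat_lit 175) (nat_lit 4) (nat_lit 5) (nat_lit 11) L56059 (by decide +kernel)
theorem L56061 : W_10 (nat_lit 2) (nat_lit 0x20000d001380088000000020000000000000000000000) (nat_lit 0x0) (nat_lit 0x32000000000000000000000000000000000000000) := D_10 (nat_lit 160) (nat_lit 161) (nat_lit 157) (nat_lit 0) (nat_lit 8) (nat_lit 9) (nat_lit 0) (nat_lit 7) (nat_lit 9) (by decide +kernel)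
theorem L56062 : W_10 (nat_lit 3) (nat_lit 0x200005001380088000000020000000000000000000000) (nat_lit 0x0) (nat_lit 0x3a000040000000000000000000000000000000000) := T_10 (nat_lit 159) (nat_lit 138) (nat_lit 3) (nat_lit 2) (nat_lit 8) L56061 (by decide +kernel)
theorem L56063 : W_10 (nat_lit 4) (nat_lit 0x200005001380088000000000000000000000000000000) (nat_lit 0x0) (nat_lit 0x3a000040000000400020000000000000000000000) := T_10 (nat_lit 89) (nat_lit 106) (nat_lit 7) (nat_lit 4) (nat_lit 5) L56062 (by decide +kernel)
theorem L56064 : W_10 (nat_lit 5) (nat_lit 0x200001001380088000000000000000000000000000000) (nat_lit 0x0) (nat_lit 0x100008003e000440000000400020000000000000000000000) := Q_10 (nat_lit 158) (C_10 L56057 (C_10 L56060 (C_10 L56063 N_10))) (by decide +kernel)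
theorem L56065 : W_10 (nat_lit 9) (nat_lit 0x200001001380080000000000000000000000000000000) (nat_lit 0x0) (nat_lit 0x40007c001e003e00044006c000400020000000000000000000000) := Q_10 (nat_lit 123) (C_10 L56034 (C_10 L56036 (C_10 L56055 (C_10 L56064 N_10)))) (by decide +kernel)
theorem L56066 : W_10 (nat_lit 11) (nat_lit 0x200000001380080000000000000000000000000000000) (nat_lit 0x0) (nat_lit 0x7c007e001f803fe0046006c000600030000000000000000000000) := Q_10 (nat_lit 156) (C_10 L34150 (C_10 L56031 (C_10 L56032 (C_10 L56065 N_10)))) (by decide +kernel)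
theorem L56067 : W_10 (nat_lit 5) (nat_lit 0x200000001380080000000000000000000000000000000) (nat_lit 0x0) (nat_lit 0x1ee00460007800000000000000000000000000000) := Q_10 (nat_lit 138) (C_10 L55526 (C_10 L33742 (C_10 L37111 (C_10 L55517 N_10)))) (by decide +kernel)
theorem L56068 : W_10 (nat_lit 2) (nat_lit 0x3800080017800a0000000000000000000000000000000) (nat_lit 0x0) (nat_lit 0x4000040000001000000000000000000000000000) := D_10 (nat_lit 158) (nat_lit 108) (nat_lit 138) (nat_lit 5) (nat_lit 6) (nat_lit 6) (nat_lit 3) (nat_lit 2) (nat_lit 8) (by decide +kernel)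
theorem L56069 : W_10 (nat_lit 3) (nat_lit 0x3000080017800a0000000000000000000000000000000) (nat_lit 0x0) (nat_lit 0x1000080004000040000001000000000000000000000000000) := T_10 (nat_lit 175) (nat_lit 192) (nat_lit 5) (nat_lit 6) (nat_lit 7) L56068 (by decide +kernel)
theorem L56070 : W_10 (nat_lit 4) (nat_lit 0x2000080017800a0000000000000000000000000000000) (nat_lit 0x0) (nat_lit 0x5000180004000040000001000000000000000000000000000) := T_10 (nat_lit 176) (nat_lit 194) (nat_lit 7) (nat_lit 6) (nat_lit 7) L56069 (by decide +kernel)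
theorem L56071 : W_10 (nat_lit 5) (nat_lit 0x200008001780080000000000000000000000000000000) (nat_lit 0x0) (nat_lit 0x5000180004000040060001000000000000000000000000000) := T_10 (nat_lit 125) (nat_lit 126) (nat_lit 2) (nat_lit 3) (nat_lit 8) L56070 (by decide +kernel)
theorem L56072 : W_10 (nat_lit 6) (nat_lit 0x240008001780084000000000000000000000000000000) (nat_lit 0x0) (nat_lit 0x5000180003000000068000200010000000000000000000000) := T_10 (nat_lit 125) (nat_lit 126) (nat_lit 2) (nat_lit 3) (nat_lit 8) L33934 (by decide +kernel)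
theorem L56073 : W_10 (nat_lit 7) (nat_lit 0x240008001780080000000000000000000000000000000) (nat_lit 0x0) (nat_lit 0x500018000300000006e000200010000000000000000000000) := T_10 (nat_lit 122) (nat_lit 121) (nat_lit 0) (nat_lit 6) (nat_lit 8) L56072 (by decide +kernel)
theorem L56074 : W_10 (nat_lit 9) (nat_lit 0x200008001780080000000000000000000000000000000) (nat_lit 0x0) (nat_lit 0x5e001e000300004006f000200010000000000000000000000) := Q_10 (nat_lit 174) (C_10 L55646 (C_10 L33929 (C_10 L55107 (C_10 L56073 N_10)))) (by decide +kernel)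
theorem L56075 : W_10 (nat_lit 10) (nat_lit 0x2000080017800a0000000000000000000000000000000) (nat_lit 0x0) (nat_lit 0x500018000600000000e003e00178000000000000000000000) := T_10 (nat_lit 176) (nat_lit 194) (nat_lit 7) (nat_lit 6) (nat_lit 7) L55353 (by decide +kernel)
theorem L56076 : W_10 (nat_lit 11) (nat_lit 0x200008001780080000000000000000000000000000000) (nat_lit 0x0) (nat_lit 0x500018000600000006e003e00178000000000000000000000) := T_10 (nat_lit 125) (nat_lit 126) (nat_lit 2) (nat_lit 3) (nat_lit 8) L56075 (by decide +kernel)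
theorem L56077 : W_10 (nat_lit 12) (nat_lit 0x200008001380080000000000000000000000000000000) (nat_lit 0x0) (nat_lit 0x5e001e000700044006f003e00178000000000000000000000) := Q_10 (nat_lit 142) (C_10 L33799 (C_10 L56071 (C_10 L56074 (C_10 L56076 N_10)))) (by decide +kernel)
theorem L56078 : W_10 (nat_lit 10) (nat_lit 0x200008001380080000000000000000000000000000000) (nat_lit 0x0) (nat_lit 0x5e001e001300044006f000200010000000000000000000000) := T_10 (nat_lit 142) (nat_lit 160) (nat_lit 3) (nat_lit 3) (nat_lit 8) L56074 (by decide +kernel)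
theorem L56079 : W_10 (nat_lit 12) (nat_lit 0x200008001380080000000000000000000000000000000) (nat_lit 0x0) (nat_lit 0x500018001600040006e003e00178000000000000000000000) := T_10 (nat_lit 142) (nat_lit 160) (nat_lit 3) (nat_lit 3) (nat_lit 8) L56076 (by decide +kernel)
theorem L56080 : W_10 (nat_lit 13) (nat_lit 0x200000001380080000000000000000000000000000000) (nat_lit 0x0) (nat_lit 0x5e001e003f00044006f003e00178000000000000000000000) := Q_10 (nat_lit 159) (C_10 L34140 (C_10 L56077 (C_10 L34142 (C_10 L56078 (C_10 L56079 N_10))))) (by decide +kernel)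
theorem L56081 : W_10 (nat_lit 16) (nat_lit 0x200000001300080000000000000000000000000000000) (nat_lit 0x0) (nat_lit 0x60007e00ff001fc03fe004f006f803fc01fc000400000000000000000) := Q_10 (nat_lit 139) (C_10 L55789 (C_10 L55649 (C_10 L55793 (C_10 L55805 (C_10 L55497 (C_10 L55900 (C_10 L55905 (C_10 L55995 (C_10 L56066 (C_10 L56067 (C_10 L56080 N_10))))))))))) (by decide +kernel)
theorem L56082 : W_10 (nat_lit 2) (nat_lit 0x2000088013c0080000000000000000000000000000000) (nat_lit 0x0) (nat_lit 0x11000400000000000000000000000000000000000) := D_10 (nat_lit 142) (nat_lit 160) (nat_lit 156) (nat_lit 3) (nat_lit 3) (nat_lit 8) (nat_lit 1) (nat_lit 6) (nat_lit 8) (by decide +kernel)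
theorem L56083 : W_10 (nat_lit 3) (nat_lit 0x2000080013c0080000000000000000000000000000000) (nat_lit 0x0) (nat_lit 0x11c00400000000000000000000000000000000000) := T_10 (nat_lit 155) (nat_lit 154) (nat_lit 1) (nat_lit 5) (nat_lit 8) L56082 (by decide +kernel)
theorem L56084 : W_10 (nat_lit 4) (nat_lit 0x2000000013c0080000000000000000000000000000000) (nat_lit 0x0) (nat_lit 0x1dc00400000000000000000000000000000000000) := T_10 (nat_lit 159) (nat_lit 158) (nat_lit 3) (nat_lit 2) (nat_lit 8) L56083 (by decide +kernel)
theorem L56085 : W_10 (nat_lit 7) (nat_lit 0x200000001380080000000000000000000000000000000) (nat_lit 0x0) (nat_lit 0x2001de00460007800100008000000000000000000000) := Q_10 (nat_lit 138) (C_10 L55526 (C_10 L55904 (C_10 L56084 (C_10 L55517 N_10)))) (by decide +kernel)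
theorem L56086 : W_10 (nat_lit 2) (nat_lit 0xc00220001001380086800000000000000000000000000000) (nat_lit 0x0) (nat_lit 0x4000200010000000000000000000000000000000000000000000) := D_10 (nat_lit 189) (nat_lit 172) (nat_lit 206) (nat_lit 5) (nat_lit 3) (nat_lit 7) (nat_lit 5) (nat_lit 3) (nat_lit 8) (by decide +kernel)
theorem L56087 : W_10 (nat_lit 3) (nat_lit 0x800220001001380086800000000000000000000000000000) (nat_lit 0x0) (nat_lit 0x14000600010000000000000000000000000000000000000000000) := T_10 (nat_lit 190) (nat_lit 208) (nat_lit 7) (nat_lit 3) (nat_lit 8) L56086 (by decide +kernel)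
theorem L56088 : W_10 (nat_lit 4) (nat_lit 0x800220001001380086000000000000000000000000000000) (nat_lit 0x0) (nat_lit 0x14000600010000000000001800000000000000000000000000000) := T_10 (nat_lit 119) (nat_lit 120) (nat_lit 3) (nat_lit 0) (nat_lit 7) L56087 (by decide +kernel)
theorem L56089 : W_10 (nat_lit 5) (nat_lit 0x800220001001380084000000000000000000000000000000) (nat_lit 0x0) (nat_lit 0x14000600010000000000003800100000000000000000000000000) := T_10 (nat_lit 121) (nat_lit 104) (nat_lit 4) (nat_lit 3) (nat_lit 10) L56088 (by decide +kernel)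
theorem L56090 : W_10 (nat_lit 6) (nat_lit 0x220001001380084000000000000000000000000000000) (nat_lit 0x0) (nat_lit 0x14000e00050000000000003800100000000000000000000000000) := T_10 (nat_lit 191) (nat_lit 174) (nat_lit 7) (nat_lit 3) (nat_lit 7) L56089 (by decide +kernel)
theorem L56091 : W_10 (nat_lit 2) (nat_lit 0x8000c00220001001380086800000000000000000000000000000) (nat_lit 0x0) (nat_lit 0x80004000200000000000000000000000000000000000000000000000) := D_10 (nat_lit 206) (nat_lit 223) (nat_lit 189) (nat_lit 5) (nat_lit 3) (nat_lit 9) (nat_lit 5) (nat_lit 3) (nat_lit 8) (by decide +kernel)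
theorem L56092 : W_10 (nat_lit 3) (nat_lit 0xc00220001001380086800000000000000000000000000000) (nat_lit 0x0) (nat_lit 0x8000c000200000002000000000000000000000000000000000000000) := T_10 (nat_lit 207) (nat_lit 157) (nat_lit 6) (nat_lit 3) (nat_lit 12) L56091 (by decide +kernel)
theorem L56093 : W_10 (nat_lit 4) (nat_lit 0x800220001001380086800000000000000000000000000000) (nat_lit 0x0) (nat_lit 0x8001c000600000002000000000000000000000000000000000000000) := T_10 (nat_lit 190) (nat_lit 208) (nat_lit 7) (nat_lit 3) (nat_lit 8) L56092 (by decide +kernel)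
theorem L56094 : W_10 (nat_lit 5) (nat_lit 0x220001001380086800000000000000000000000000000) (nat_lit 0x0) (nat_lit 0x8001c000e00040002000000000000000000000000000000000000000) := T_10 (nat_lit 191) (nat_lit 174) (nat_lit 7) (nat_lit 3) (nat_lit 7) L56093 (by decide +kernel)
theorem L56095 : W_10 (nat_lit 6) (nat_lit 0x220001001380086000000000000000000000000000000) (nat_lit 0x0) (nat_lit 0x8001c000e00040002000000001800000000000000000000000000000) := T_10 (nat_lit 119) (nat_lit 120) (nat_lit 3) (nat_lit 0) (nat_lit 7) L56094 (by decide +kernel)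
theorem L56096 : W_10 (nat_lit 7) (nat_lit 0x220001001380084000000000000000000000000000000) (nat_lit 0x0) (nat_lit 0x8001c000e00040002000000003800100000000000000000000000000) := T_10 (nat_lit 121) (nat_lit 104) (nat_lit 4) (nat_lit 3) (nat_lit 10) L56095 (by decide +kernel)
theorem L56097 : W_10 (nat_lit 8) (nat_lit 0x220001001380080000000000000000000000000000000) (nat_lit 0x0) (nat_lit 0x8001c000e00050002800000007800300008000000000000000000000) := Q_10 (nat_lit 122) (C_10 L37270 (C_10 L37273 (C_10 L37282 (C_10 L56090 (C_10 L56096 (C_10 L37285 N_10)))))) (by decide +kernel)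
theorem L56098 : W_10 (nat_lit 5) (nat_lit 0x220001001380080000000000000000000000000000000) (nat_lit 0x0) (nat_lit 0xa0005000280000000f800300008000000000000000000000) := Q_10 (nat_lit 122) (C_10 L37285 (C_10 L37273 (C_10 L37282 (C_10 L37310 N_10)))) (by decide +kernel)
theorem L56099 : W_10 (nat_lit 9) (nat_lit 0x200001001380080000000000000000000000000000000) (nat_lit 0x0) (nat_lit 0x28001c000f800f000280000001f800300018000000000000000000000) := Q_10 (nat_lit 173) (C_10 L37307 (C_10 L56097 (C_10 L37258 (C_10 L37265 (C_10 L37301 (C_10 L56098 (C_10 L37314 N_10))))))) (by decide +kernel)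
theorem L56100 : W_10 (nat_lit 2) (nat_lit 0x200001001380084000000000000000000000000000000) (nat_lit 0x0) (nat_lit 0x800400002000000000000000000000000000000) := D_10 (nat_lit 142) (nat_lit 155) (nat_lit 121) (nat_lit 1) (nat_lit 6) (nat_lit 8) (nat_lit 0) (nat_lit 6) (nat_lit 8) (by decide +kernel)
theorem L56101 : W_10 (nat_lit 2) (nat_lit 0x220001001380084000000000000000000000000000000) (nat_lit 0x0) (nat_lit 0x400000000000000008000400000000000000000000000000) := D_10 (nat_lit 123) (nat_lit 190) (nat_lit 106) (nat_lit 6) (nat_lit 3) (nat_lit 11) (nat_lit 6) (nat_lit 3) (nat_lit 10) (by decide +kernel)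
theorem L56102 : W_10 (nat_lit 7) (nat_lit 0x200001001380084000000000000000000000000000000) (nat_lit 0x0) (nat_lit 0x14000e0007000080000000b800700008000000000000000000000) := Q_10 (nat_lit 173) (C_10 L37310 (C_10 L56090 (C_10 L37273 (C_10 L56101 N_10)))) (by decide +kernel)
theorem L56103 : W_10 (nat_lit 9) (nat_lit 0x200001001380080000000000000000000000000000000) (nat_lit 0x0) (nat_lit 0x14000e00070000e0040001f8007c0028000000000000000000000) := Q_10 (nat_lit 122) (C_10 L56100 (C_10 L56102 (C_10 L37253 (C_10 L37237 N_10)))) (by decide +kernel)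
theorem L56104 : W_10 (nat_lit 6) (nat_lit 0x200001001380086800000000000000000000000000000) (nat_lit 0x0) (nat_lit 0x8001c000e00060002000000000000100000000000000000000000000) := T_10 (nat_lit 173) (nat_lit 104) (nat_lit 4) (nat_lit 3) (nat_lit 10) L56094 (by decide +kernel)
theorem L56105 : W_10 (nat_lit 7) (nat_lit 0x200001001380086000000000000000000000000000000) (nat_lit 0x0) (nat_lit 0x8001c000e00060002000000001800100000000000000000000000000) := T_10 (nat_lit 119) (nat_lit 120) (nat_lit 3) (nat_lit 0) (nat_lit 7) L56104 (by decide +kernel)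
theorem L56106 : W_10 (nat_lit 8) (nat_lit 0x200001001380084000000000000000000000000000000) (nat_lit 0x0) (nat_lit 0x8001c000e00060002000400003800100000000000000000000000000) := T_10 (nat_lit 121) (nat_lit 142) (nat_lit 0) (nat_lit 6) (nat_lit 8) L56105 (by decide +kernel)
theorem L56107 : W_10 (nat_lit 5) (nat_lit 0x200001001380084000000000000000000000000000000) (nat_lit 0x0) (nat_lit 0xc0006000200000000a000700008000000000000000000000) := Q_10 (nat_lit 173) (C_10 L56101 (C_10 L37285 N_10)) (by decide +kernel)
theorem L56108 : W_10 (nat_lit 10) (nat_lit 0x200001001380084000000000000000000000000000000) (nat_lit 0x0) (nat_lit 0x14000e00078001e001e000400018003e00070000000000000000000000) := Q_10 (nat_lit 157) (C_10 L37320 (C_10 L37327 (C_10 L37335 N_10))) (by decide +kernel)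
theorem L56109 : W_10 (nat_lit 11) (nat_lit 0x200001001380080000000000000000000000000000000) (nat_lit 0x0) (nat_lit 0x14800fc007e001e001e00040001f803f00078000000000000000000000) := Q_10 (nat_lit 122) (C_10 L37237 (C_10 L56106 (C_10 L56107 (C_10 L56108 N_10)))) (by decide +kernel)
theorem L56110 : W_10 (nat_lit 12) (nat_lit 0x200000001380080000000000000000000000000000000) (nat_lit 0x0) (nat_lit 0x16800fc007f801f001fe0040001f803fc0078000000000000000000000) := Q_10 (nat_lit 156) (C_10 L37235 (C_10 L56099 (C_10 L56103 (C_10 L56109 N_10)))) (by decide +kernel)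
theorem L56111 : W_10 (nat_lit 2) (nat_lit 0x400200005801380088000000020000000000000000000000) (nat_lit 0x0) (nat_lit 0x600040000000000000000000000000000000000) := D_10 (nat_lit 154) (nat_lit 138) (nat_lit 153) (nat_lit 1) (nat_lit 5) (nat_lit 8) (nat_lit 2) (nat_lit 0) (nat_lit 9) (by decide +kernel)
theorem L56112 : W_10 (nat_lit 3) (nat_lit 0x400200005001380088000000020000000000000000000000) (nat_lit 0x0) (nat_lit 0xe00440000000000000000000000000000000000) := T_10 (nat_lit 155) (nat_lit 142) (nat_lit 1) (nat_lit 6) (nat_lit 8) L56111 (by decide +kernel)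
theorem L56113 : W_10 (nat_lit 4) (nat_lit 0x200005001380088000000020000000000000000000000) (nat_lit 0x0) (nat_lit 0x400020000e00440000000000000000000000000000000000) := T_10 (nat_lit 190) (nat_lit 173) (nat_lit 6) (nat_lit 3) (nat_lit 11) L56112 (by decide +kernel)
theorem L56114 : W_10 (nat_lit 5) (nat_lit 0x200005001380088000000000000000000000000000000) (nat_lit 0x0) (nat_lit 0x400020000e00440000000400020000000000000000000000) := T_10 (nat_lit 89) (nat_lit 106) (nat_lit 7) (nat_lit 4) (nat_lit 5) L56113 (by decide +kernel)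
theorem L56115 : W_10 (nat_lit 6) (nat_lit 0x200004001380088000000000000000000000000000000) (nat_lit 0x0) (nat_lit 0x400020001e00440004000400020000000000000000000000) := Q_10 (nat_lit 156) (C_10 L56114 (C_10 L37364 (C_10 L37367 (C_10 L37369 N_10)))) (by decide +kernel)
theorem L56116 : W_10 (nat_lit 2) (nat_lit 0x2000040013c0088000000000000000000000000000000) (nat_lit 0x0) (nat_lit 0x2000020010000000000000000000000000000000) := D_10 (nat_lit 137) (nat_lit 124) (nat_lit 157) (nat_lit 2) (nat_lit 1) (nat_lit 8) (nat_lit 3) (nat_lit 1) (nat_lit 8) (by decide +kernel)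
theorem L56117 : W_10 (nat_lit 2) (nat_lit 0x10002000040013e0088000000000000000000000000000000) (nat_lit 0x0) (nat_lit 0xe00000000000000000000000000000000000000) := D_10 (nat_lit 154) (nat_lit 155) (nat_lit 153) (nat_lit 1) (nat_lit 5) (nat_lit 8) (nat_lit 1) (nat_lit 4) (nat_lit 8) (by decide +kernel)
theorem L56118 : W_10 (nat_lit 3) (nat_lit 0x10002000040013c0088000000000000000000000000000000) (nat_lit 0x0) (nat_lit 0xe00020010000000000000000000000000000000) := T_10 (nat_lit 137) (nat_lit 124) (nat_lit 2) (nat_lit 1) (nat_lit 8) L56117 (by decide +kernel)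
theorem L56119 : W_10 (nat_lit 4) (nat_lit 0x2000040013c0088000000000000000000000000000000) (nat_lit 0x0) (nat_lit 0x1000080000e00020010000000000000000000000000000000) := T_10 (nat_lit 192) (nat_lit 175) (nat_lit 4) (nat_lit 5) (nat_lit 11) L56118 (by decide +kernel)
theorem L56120 : W_10 (nat_lit 4) (nat_lit 0x10002000058013c0088000000000000000000000000000000) (nat_lit 0x0) (nat_lit 0x10002000030004000200010000000000000000000000) := T_10 (nat_lit 137) (nat_lit 157) (nat_lit 3) (nat_lit 1) (nat_lit 8) L37353 (by decide +kernel)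
theorem L56121 : W_10 (nat_lit 5) (nat_lit 0x10002000048013c0088000000000000000000000000000000) (nat_lit 0x0) (nat_lit 0x10003000430004000200010000000000000000000000) := T_10 (nat_lit 156) (nat_lit 142) (nat_lit 1) (nat_lit 6) (nat_lit 8) L56120 (by decide +kernel)
theorem L56122 : W_10 (nat_lit 6) (nat_lit 0x2000048013c0088000000000000000000000000000000) (nat_lit 0x0) (nat_lit 0x1000090003000430004000200010000000000000000000000) := T_10 (nat_lit 192) (nat_lit 175) (nat_lit 4) (nat_lit 5) (nat_lit 11) L56121 (by decide +kernel)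
theorem L56123 : W_10 (nat_lit 7) (nat_lit 0x2000040013c0088000000000000000000000000000000) (nat_lit 0x0) (nat_lit 0x1000090003c00430004000200010000000000000000000000) := T_10 (nat_lit 155) (nat_lit 154) (nat_lit 1) (nat_lit 5) (nat_lit 8) L56122 (by decide +kernel)
theorem L56124 : W_10 (nat_lit 7) (nat_lit 0x2800040013c0088000000000000000000000000000000) (nat_lit 0x0) (nat_lit 0x600138003c00400004000200000000000000000000000000) := T_10 (nat_lit 155) (nat_lit 154) (nat_lit 1) (nat_lit 5) (nat_lit 8) L37359 (by decide +kernel)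
theorem L56125 : W_10 (nat_lit 8) (nat_lit 0x2000040013c0088000000000000000000000000000000) (nat_lit 0x0) (nat_lit 0x16001b8003c00400004000200000000000000000000000000) := T_10 (nat_lit 175) (nat_lit 192) (nat_lit 4) (nat_lit 5) (nat_lit 11) L56124 (by decide +kernel)
theorem L56126 : W_10 (nat_lit 9) (nat_lit 0x200004001380088000000000000000000000000000000) (nat_lit 0x0) (nat_lit 0x16001b8003e00470014000200010000000000000000000000) := Q_10 (nat_lit 138) (C_10 L56116 (C_10 L56119 (C_10 L56123 (C_10 L56125 N_10)))) (by decide +kernel)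
theorem L56127 : W_10 (nat_lit 10) (nat_lit 0x200004001380080000000000000000000000000000000) (nat_lit 0x0) (nat_lit 0x16001b8003e0047001c000600030000000000000000000000) := Q_10 (nat_lit 123) (C_10 L37341 (C_10 L56115 (C_10 L56126 N_10))) (by decide +kernel)
theorem L56128 : W_10 (nat_lit 3) (nat_lit 0x200004001380080000000000000000000000000000000) (nat_lit 0x0) (nat_lit 0x38000440000000000000000000000000000000000) := T_10 (nat_lit 159) (nat_lit 138) (nat_lit 3) (nat_lit 2) (nat_lit 8) L34139 (by decide +kernel)
theorem L56129 : W_10 (nat_lit 6) (nat_lit 0x280004001380080000000000000000000000000000000) (nat_lit 0x0) (nat_lit 0x3000180014001bc00400014000000000000000000000000000000) := Q_10 (nat_lit 157) (C_10 L37387 (C_10 L37391 (C_10 L37394 N_10))) (by decide +kernel)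
theorem L56130 : W_10 (nat_lit 2) (nat_lit 0x3c0004001380098000000000000000000000000000000) (nat_lit 0x0) (nat_lit 0x3000000000000800000000000000000000000000) := D_10 (nat_lit 157) (nat_lit 107) (nat_lit 156) (nat_lit 6) (nat_lit 4) (nat_lit 10) (nat_lit 0) (nat_lit 7) (nat_lit 10) (by decide +kernel)
theorem L56131 : W_10 (nat_lit 3) (nat_lit 0x380004001380098000000000000000000000000000000) (nat_lit 0x0) (nat_lit 0x800040003000000000000800000000000000000000000000) := T_10 (nat_lit 174) (nat_lit 191) (nat_lit 5) (nat_lit 5) (nat_lit 7) L56130 (by decide +kernel)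
theorem L56132 : W_10 (nat_lit 4) (nat_lit 0x280004001380098000000000000000000000000000000) (nat_lit 0x0) (nat_lit 0x2800140003000000000000800000000000000000000000000) := T_10 (nat_lit 176) (nat_lit 193) (nat_lit 7) (nat_lit 5) (nat_lit 7) L56131 (by decide +kernel)
theorem L56133 : W_10 (nat_lit 5) (nat_lit 0x280004001380090000000000000000000000000000000) (nat_lit 0x0) (nat_lit 0x2800140003000000008000c00000000000000000000000000) := T_10 (nat_lit 123) (nat_lit 106) (nat_lit 4) (nat_lit 5) (nat_lit 10) L56132 (by decide +kernel)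
theorem L56134 : W_10 (nat_lit 2) (nat_lit 0x3c0004001380098000800080000000000000000000000) (nat_lit 0x0) (nat_lit 0x40006000000000000000000) := D_10 (nat_lit 90) (nat_lit 73) (nat_lit 74) (nat_lit 5) (nat_lit 5) (nat_lit 4) (nat_lit 6) (nat_lit 5) (nat_lit 8) (by decide +kernel)
theorem L56135 : W_10 (nat_lit 3) (nat_lit 0x3c0004001380098000800000000000000000000000000) (nat_lit 0x0) (nat_lit 0x10000c0006000000000000000000) := T_10 (nat_lit 91) (nat_lit 108) (nat_lit 6) (nat_lit 5) (nat_lit 9) L56134 (by decide +kernel)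
theorem L56136 : W_10 (nat_lit 4) (nat_lit 0x3c0004001380098000000000000000000000000000000) (nat_lit 0x0) (nat_lit 0x80000000000018000c0006000000000000000000) := T_10 (nat_lit 107) (nat_lit 159) (nat_lit 7) (nat_lit 5) (nat_lit 6) L56135 (by decide +kernel)
theorem L56137 : W_10 (nat_lit 5) (nat_lit 0x2c0004001380098000000000000000000000000000000) (nat_lit 0x0) (nat_lit 0x20001000080000000000018000c0006000000000000000000) := T_10 (nat_lit 176) (nat_lit 193) (nat_lit 7) (nat_lit 5) (nat_lit 7) L56136 (by decide +kernel)
theorem L56138 : W_10 (nat_lit 6) (nat_lit 0x2c0004001380090000000000000000000000000000000) (nat_lit 0x0) (nat_lit 0x2000100008000000008001c000c0006000000000000000000) := T_10 (nat_lit 123) (nat_lit 106) (nat_lit 4) (nat_lit 5) (nat_lit 10) L56137 (by decide +kernel)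
theorem L56139 : W_10 (nat_lit 7) (nat_lit 0x280004001380090000000000000000000000000000000) (nat_lit 0x0) (nat_lit 0x2800140008000000008001c000c0006000000000000000000) := T_10 (nat_lit 174) (nat_lit 191) (nat_lit 5) (nat_lit 5) (nat_lit 7) L56138 (by decide +kernel)
theorem L56140 : W_10 (nat_lit 2) (nat_lit 0x40003c0014001380090000000000000000000000000000000) (nat_lit 0x0) (nat_lit 0x2000a000000000000000000000000000000000000000) := D_10 (nat_lit 159) (nat_lit 173) (nat_lit 157) (nat_lit 2) (nat_lit 3) (nat_lit 10) (nat_lit 0) (nat_lit 7) (nat_lit 9) (by decide +kernel)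
theorem L56141 : W_10 (nat_lit 3) (nat_lit 0x40003c0004001380090000000000000000000000000000000) (nat_lit 0x0) (nat_lit 0x2003a000000000000000000000000000000000000000) := T_10 (nat_lit 160) (nat_lit 161) (nat_lit 2) (nat_lit 4) (nat_lit 10) L56140 (by decide +kernel)
theorem L56142 : W_10 (nat_lit 4) (nat_lit 0x3c0004001380090000000000000000000000000000000) (nat_lit 0x0) (nat_lit 0xc00002003a000000000000000000000000000000000000000) := T_10 (nat_lit 194) (nat_lit 195) (nat_lit 3) (nat_lit 4) (nat_lit 10) L56141 (by decide +kernel)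
theorem L56143 : W_10 (nat_lit 5) (nat_lit 0x380004001380090000000000000000000000000000000) (nat_lit 0x0) (nat_lit 0xc80006003a000000000000000000000000000000000000000) := T_10 (nat_lit 174) (nat_lit 191) (nat_lit 5) (nat_lit 5) (nat_lit 7) L56142 (by decide +kernel)
theorem L56144 : W_10 (nat_lit 6) (nat_lit 0x280004001380090000000000000000000000000000000) (nat_lit 0x0) (nat_lit 0xe80016003a000000000000000000000000000000000000000) := T_10 (nat_lit 176) (nat_lit 193) (nat_lit 7) (nat_lit 5) (nat_lit 7) L56143 (by decide +kernel)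
theorem L56145 : W_10 (nat_lit 8) (nat_lit 0x280004001380080000000000000000000000000000000) (nat_lit 0x0) (nat_lit 0xe80016003b000000018001c000e0006000000000000000000) := Q_10 (nat_lit 124) (C_10 L56133 (C_10 L37412 (C_10 L56139 (C_10 L56144 (C_10 L37402 (C_10 L37409 N_10)))))) (by decide +kernel)
theorem L56146 : W_10 (nat_lit 9) (nat_lit 0x200004001380080000000000000000000000000000000) (nat_lit 0x0) (nat_lit 0x80007000f8001e003bc0040001c001c000e0006000000000000000000) := Q_10 (nat_lit 175) (C_10 L37376 (C_10 L56129 (C_10 L37380 (C_10 L56145 N_10)))) (by decide +kernel)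
theorem L56147 : W_10 (nat_lit 11) (nat_lit 0x200000001380080000000000000000000000000000000) (nat_lit 0x0) (nat_lit 0x80007000fe001f803fe0047001c001e000f0006000000000000000000) := Q_10 (nat_lit 158) (C_10 L37339 (C_10 L56127 (C_10 L56128 (C_10 L56146 N_10)))) (by decide +kernel)
theorem L56148 : W_10 (nat_lit 3) (nat_lit 0x2000000013c0088000000000000000000000000000000) (nat_lit 0x0) (nat_lit 0xe000020010000000000000000000000000000000) := T_10 (nat_lit 158) (nat_lit 159) (nat_lit 3) (nat_lit 2) (nat_lit 8) L56116 (by decide +kernel)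
theorem L56149 : W_10 (nat_lit 5) (nat_lit 0x2000000013c0080000000000000000000000000000000) (nat_lit 0x0) (nat_lit 0x14000a000f00003001c000400020000000000000000000000) := Q_10 (nat_lit 123) (C_10 L56148 (C_10 L37228 (C_10 L55580 (C_10 L37225 (C_10 L37231 N_10))))) (by decide +kernel)
theorem L56150 : W_10 (nat_lit 11) (nat_lit 0x200000001380080000000000000000000000000000000) (nat_lit 0x0) (nat_lit 0x1c000e001f00047001f801f80078003800140000000000000) := Q_10 (nat_lit 138) (C_10 L33742 (C_10 L55899 (C_10 L55517 (C_10 L55589 (C_10 L56149 N_10))))) (by decide +kernel)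
theorem L56151 : W_10 (nat_lit 14) (nat_lit 0x200000001300080000000000000000000000000000000) (nat_lit 0x0) (nat_lit 0x1e800fc00ff801f803fe004f001f803fc00f8007800140000000000000) := Q_10 (nat_lit 139) (C_10 L55789 (C_10 L55590 (C_10 L56067 (C_10 L56085 (C_10 L55905 (C_10 L56110 (C_10 L56147 (C_10 L56150 N_10)))))))) (by decide +kernel)
theorem L56152 : W_10 (nat_lit 4) (nat_lit 0x200000001300090000800000000000000000000000000) (nat_lit 0x0) (nat_lit 0x2000000008000000060003000080000000000000) := T_10 (nat_lit 90) (nat_lit 157) (nat_lit 5) (nat_lit 5) (nat_lit 5) L31982 (by decide +kernel)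
theorem L56153 : W_10 (nat_lit 2) (nat_lit 0x2000000013000900008000e0000000000000000000000) (nat_lit 0x0) (nat_lit 0x4000000000001400000000000000000000000000) := D_10 (nat_lit 158) (nat_lit 106) (nat_lit 108) (nat_lit 4) (nat_lit 5) (nat_lit 9) (nat_lit 6) (nat_lit 5) (nat_lit 9) (by decide +kernel)
theorem L56154 : W_10 (nat_lit 3) (nat_lit 0x200000001300090000800060000000000000000000000) (nat_lit 0x0) (nat_lit 0x4000000000001400080004000000000000000000) := T_10 (nat_lit 91) (nat_lit 74) (nat_lit 6) (nat_lit 5) (nat_lit 8) L56153 (by decide +kernel)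
theorem L56155 : W_10 (nat_lit 4) (nat_lit 0x200000001300090000800040000000000000000000000) (nat_lit 0x0) (nat_lit 0x40000000000014000a0005000000000000000000) := T_10 (nat_lit 89) (nat_lit 72) (nat_lit 4) (nat_lit 5) (nat_lit 8) L56154 (by decide +kernel)
theorem L56156 : W_10 (nat_lit 5) (nat_lit 0x200000001300090000800000000000000000000000000) (nat_lit 0x0) (nat_lit 0x60000000000014000e0005000000000000000000) := T_10 (nat_lit 90) (nat_lit 157) (nat_lit 5) (nat_lit 5) (nat_lit 5) L56155 (by decide +kernel)
theorem L56157 : W_10 (nat_lit 2) (nat_lit 0x20000c0013400d0001800000000000000000000000000) (nat_lit 0x0) (nat_lit 0x2400020000000000000000000000) := D_10 (nat_lit 106) (nat_lit 109) (nat_lit 89) (nat_lit 3) (nat_lit 4) (nat_lit 6) (nat_lit 4) (nat_lit 5) (nat_lit 9) (by decide +kernel)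
theorem L56158 : W_10 (nat_lit 3) (nat_lit 0x20000c0013400d0000800000000000000000000000000) (nat_lit 0x0) (nat_lit 0x34000a0000000000000000000000) := T_10 (nat_lit 108) (nat_lit 91) (nat_lit 6) (nat_lit 5) (nat_lit 9) L56157 (by decide +kernel)
theorem L56159 : W_10 (nat_lit 4) (nat_lit 0x20000c0013000d0000800000000000000000000000000) (nat_lit 0x0) (nat_lit 0xc00000034000a0000000000000000000000) := T_10 (nat_lit 138) (nat_lit 139) (nat_lit 3) (nat_lit 2) (nat_lit 8) L56158 (by decide +kernel)
theorem L56160 : W_10 (nat_lit 5) (nat_lit 0x2000040013000d0000800000000000000000000000000) (nat_lit 0x0) (nat_lit 0x1000080000c00000034000a0000000000000000000000) := T_10 (nat_lit 159) (nat_lit 176) (nat_lit 7) (nat_lit 5) (nat_lit 6) L56159 (by decide +kernel)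
theorem L56161 : W_10 (nat_lit 6) (nat_lit 0x200004001300090000800000000000000000000000000) (nat_lit 0x0) (nat_lit 0x1000080000c00600034000a0000000000000000000000) := T_10 (nat_lit 126) (nat_lit 125) (nat_lit 1) (nat_lit 8) (nat_lit 7) L56160 (by decide +kernel)
theorem L56162 : W_10 (nat_lit 2) (nat_lit 0x20000c001340098001c00000000000000000000000000) (nat_lit 0x0) (nat_lit 0x44002000000000000000000000000000) := D_10 (nat_lit 109) (nat_lit 126) (nat_lit 122) (nat_lit 3) (nat_lit 4) (nat_lit 6) (nat_lit 1) (nat_lit 7) (nat_lit 6) (by decide +kernel)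
theorem L56163 : W_10 (nat_lit 3) (nat_lit 0x20000c001340098000c00000000000000000000000000) (nat_lit 0x0) (nat_lit 0x44003000080000000000000000000000) := T_10 (nat_lit 108) (nat_lit 91) (nat_lit 6) (nat_lit 5) (nat_lit 9) L56162 (by decide +kernel)
theorem L56164 : W_10 (nat_lit 4) (nat_lit 0x20000c001340090000c00000000000000000000000000) (nat_lit 0x0) (nat_lit 0x8000000000004c003000080000000000000000000000) := T_10 (nat_lit 123) (nat_lit 175) (nat_lit 4) (nat_lit 5) (nat_lit 10) L56163 (by decide +kernel)
theorem L56165 : W_10 (nat_lit 5) (nat_lit 0x20000c001300090000c00000000000000000000000000) (nat_lit 0x0) (nat_lit 0x800000000c004c003000080000000000000000000000) := T_10 (nat_lit 138) (nat_lit 139) (nat_lit 3) (nat_lit 2) (nat_lit 8) L56164 (by decide +kernel)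
theorem L56166 : W_10 (nat_lit 6) (nat_lit 0x200004001300090000c00000000000000000000000000) (nat_lit 0x0) (nat_lit 0x1800080000c004c003000080000000000000000000000) := T_10 (nat_lit 159) (nat_lit 176) (nat_lit 7) (nat_lit 5) (nat_lit 6) L56165 (by decide +kernel)
theorem L56167 : W_10 (nat_lit 7) (nat_lit 0x200004001300090000800000000000000000000000000) (nat_lit 0x0) (nat_lit 0x1800080000c004c0034000a0000000000000000000000) := T_10 (nat_lit 106) (nat_lit 89) (nat_lit 4) (nat_lit 5) (nat_lit 9) L56166 (by decide +kernel)
theorem L56168 : W_10 (nat_lit 2) (nat_lit 0x2000040013000d0000c00000000000000000000000000) (nat_lit 0x0) (nat_lit 0x3000080000000000000000000000) := D_10 (nat_lit 108) (nat_lit 91) (nat_lit 109) (nat_lit 6) (nat_lit 5) (nat_lit 9) (nat_lit 3) (nat_lit 4) (nat_lit 6) (by decide +kernel)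
theorem L56169 : W_10 (nat_lit 3) (nat_lit 0x200004001300090000c00000000000000000000000000) (nat_lit 0x0) (nat_lit 0x60003000080000000000000000000000) := T_10 (nat_lit 126) (nat_lit 125) (nat_lit 1) (nat_lit 8) (nat_lit 7) L56168 (by decide +kernel)
theorem L56170 : W_10 (nat_lit 4) (nat_lit 0x200004001300090000800000000000000000000000000) (nat_lit 0x0) (nat_lit 0x600034000a0000000000000000000000) := T_10 (nat_lit 106) (nat_lit 89) (nat_lit 4) (nat_lit 5) (nat_lit 9) L56169 (by decide +kernel)
theorem L56171 : W_10 (nat_lit 2) (nat_lit 0x20000c0013400d00008000c0002000000000000000000) (nat_lit 0x0) (nat_lit 0x20001000080000000000000) := D_10 (nat_lit 72) (nat_lit 55) (nat_lit 89) (nat_lit 4) (nat_lit 5) (nat_lit 7) (nat_lit 4) (nat_lit 5) (nat_lit 8) (by decide +kernel)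
theorem L56172 : W_10 (nat_lit 3) (nat_lit 0x20000c0013400d00008000c0000000000000000000000) (nat_lit 0x0) (nat_lit 0x8000000020003000080000000000000) := T_10 (nat_lit 73) (nat_lit 123) (nat_lit 5) (nat_lit 5) (nat_lit 4) L56171 (by decide +kernel)
theorem L56173 : W_10 (nat_lit 4) (nat_lit 0x20000c0013400d0000800080000000000000000000000) (nat_lit 0x0) (nat_lit 0x8000000060007000080000000000000) := T_10 (nat_lit 90) (nat_lit 74) (nat_lit 6) (nat_lit 5) (nat_lit 8) L56172 (by decide +kernel)
theorem L56174 : W_10 (nat_lit 5) (nat_lit 0x20000c0013400d0000800000000000000000000000000) (nat_lit 0x0) (nat_lit 0x80010000e0007000080000000000000) := T_10 (nat_lit 91) (nat_lit 108) (nat_lit 6) (nat_lit 5) (nat_lit 9) L56173 (by decide +kernel)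
theorem L56175 : W_10 (nat_lit 6) (nat_lit 0x20000c001340090000800000000000000000000000000) (nat_lit 0x0) (nat_lit 0x680010000e0007000080000000000000) := T_10 (nat_lit 126) (nat_lit 125) (nat_lit 1) (nat_lit 8) (nat_lit 7) L56174 (by decide +kernel)
theorem L56176 : W_10 (nat_lit 7) (nat_lit 0x20000c001300090000800000000000000000000000000) (nat_lit 0x0) (nat_lit 0xc00680010000e0007000080000000000000) := T_10 (nat_lit 138) (nat_lit 139) (nat_lit 3) (nat_lit 2) (nat_lit 8) L56175 (by decide +kernel)
theorem L56177 : W_10 (nat_lit 8) (nat_lit 0x200004001300090000800000000000000000000000000) (nat_lit 0x0) (nat_lit 0x1000080000c00680010000e0007000080000000000000) := T_10 (nat_lit 159) (nat_lit 176) (nat_lit 7) (nat_lit 5) (nat_lit 6) L56176 (by decide +kernel)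
theorem L56178 : W_10 (nat_lit 2) (nat_lit 0x2800040013000d0000c00000000000000000000000000) (nat_lit 0x0) (nat_lit 0x2000100008000000000000000000000000000000000000000) := D_10 (nat_lit 176) (nat_lit 159) (nat_lit 193) (nat_lit 7) (nat_lit 5) (nat_lit 6) (nat_lit 7) (nat_lit 5) (nat_lit 7) (by decide +kernel)
theorem L56179 : W_10 (nat_lit 3) (nat_lit 0x2000040013000d0000c00000000000000000000000000) (nat_lit 0x0) (nat_lit 0x2000180008000000008000000000000000000000000000000) := T_10 (nat_lit 175) (nat_lit 123) (nat_lit 4) (nat_lit 5) (nat_lit 10) L56178 (by decide +kernel)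
theorem L56180 : W_10 (nat_lit 4) (nat_lit 0x200004001300090000c00000000000000000000000000) (nat_lit 0x0) (nat_lit 0x2000180008000000068000000000000000000000000000000) := T_10 (nat_lit 126) (nat_lit 125) (nat_lit 1) (nat_lit 8) (nat_lit 7) L56179 (by decide +kernel)
theorem L56181 : W_10 (nat_lit 5) (nat_lit 0x200004001300090000800000000000000000000000000) (nat_lit 0x0) (nat_lit 0x2000180008000000068000400020000000000000000000000) := T_10 (nat_lit 106) (nat_lit 89) (nat_lit 4) (nat_lit 5) (nat_lit 9) L56180 (by decide +kernel)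
theorem L56182 : W_10 (nat_lit 2) (nat_lit 0x20000c001340090001c00000000000000000000000000) (nat_lit 0x0) (nat_lit 0x80000000000028000000000000000000000000000000) := D_10 (nat_lit 175) (nat_lit 125) (nat_lit 123) (nat_lit 6) (nat_lit 5) (nat_lit 10) (nat_lit 4) (nat_lit 5) (nat_lit 10) (by decide +kernel)
theorem L56183 : W_10 (nat_lit 3) (nat_lit 0x20000c001340090001800000000000000000000000000) (nat_lit 0x0) (nat_lit 0x80000000000028000400020000000000000000000000) := T_10 (nat_lit 106) (nat_lit 89) (nat_lit 4) (nat_lit 5) (nat_lit 9) L56182 (by decide +kernel)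
theorem L56184 : W_10 (nat_lit 4) (nat_lit 0x20000c001340090000800000000000000000000000000) (nat_lit 0x0) (nat_lit 0x800000000000280014000a0000000000000000000000) := T_10 (nat_lit 108) (nat_lit 91) (nat_lit 6) (nat_lit 5) (nat_lit 9) L56183 (by decide +kernel)
theorem L56185 : W_10 (nat_lit 5) (nat_lit 0x20000c001300090000800000000000000000000000000) (nat_lit 0x0) (nat_lit 0x800000000c00280014000a0000000000000000000000) := T_10 (nat_lit 138) (nat_lit 139) (nat_lit 3) (nat_lit 2) (nat_lit 8) L56184 (by decide +kernel)
theorem L56186 : W_10 (nat_lit 6) (nat_lit 0x200004001300090000800000000000000000000000000) (nat_lit 0x0) (nat_lit 0x1800080000c00280014000a0000000000000000000000) := T_10 (nat_lit 159) (nat_lit 176) (nat_lit 7) (nat_lit 5) (nat_lit 6) L56185 (by decide +kernel)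
theorem L56187 : W_10 (nat_lit 2) (nat_lit 0x200004001300090001800000000000000000000000000) (nat_lit 0x0) (nat_lit 0x80000000000060000000000000000000000000000000) := D_10 (nat_lit 125) (nat_lit 126) (nat_lit 175) (nat_lit 1) (nat_lit 8) (nat_lit 7) (nat_lit 6) (nat_lit 5) (nat_lit 10) (by decide +kernel)
theorem L56188 : W_10 (nat_lit 3) (nat_lit 0x200004001300090000800000000000000000000000000) (nat_lit 0x0) (nat_lit 0x80000000000060001000080000000000000000000000) := T_10 (nat_lit 108) (nat_lit 91) (nat_lit 6) (nat_lit 5) (nat_lit 9) L56187 (by decide +kernel)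
theorem L56189 : W_10 (nat_lit 9) (nat_lit 0x200000001300090000800000000000000000000000000) (nat_lit 0x0) (nat_lit 0x200018000c0000c006c0034000e0007000080000000000000) := Q_10 (nat_lit 158) (C_10 L56161 (C_10 L56167 (C_10 L56170 (C_10 L56177 (C_10 L56181 (C_10 L56186 (C_10 L56188 N_10))))))) (by decide +kernel)
theorem L56190 : W_10 (nat_lit 8) (nat_lit 0x200000001300090000800000000000000000000000000) (nat_lit 0x0) (nat_lit 0x200018000c0000c006c0034000a0000000000000000000000) := Q_10 (nat_lit 158) (C_10 L56188 (C_10 L56167 (C_10 L56170 (C_10 L56181 (C_10 L56186 N_10))))) (by decide +kernel)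
theorem L56191 : W_10 (nat_lit 2) (nat_lit 0x2000000013000d0000800040002000000000000000000) (nat_lit 0x0) (nat_lit 0x80004000200000000000000) := D_10 (nat_lit 74) (nat_lit 91) (nat_lit 57) (nat_lit 6) (nat_lit 5) (nat_lit 8) (nat_lit 6) (nat_lit 5) (nat_lit 7) (by decide +kernel)
theorem L56192 : W_10 (nat_lit 3) (nat_lit 0x2000000013000d0000800040000000000000000000000) (nat_lit 0x0) (nat_lit 0x8000000080006000200000000000000) := T_10 (nat_lit 73) (nat_lit 123) (nat_lit 5) (nat_lit 5) (nat_lit 4) L56191 (by decide +kernel)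
theorem L56193 : W_10 (nat_lit 4) (nat_lit 0x2000000013000d0000800000000000000000000000000) (nat_lit 0x0) (nat_lit 0x20000000080000000c0006000200000000000000) := T_10 (nat_lit 90) (nat_lit 157) (nat_lit 5) (nat_lit 5) (nat_lit 5) L56192 (by decide +kernel)
theorem L56194 : W_10 (nat_lit 5) (nat_lit 0x200000001300090000800000000000000000000000000) (nat_lit 0x0) (nat_lit 0x20000000680000000c0006000200000000000000) := T_10 (nat_lit 126) (nat_lit 125) (nat_lit 1) (nat_lit 8) (nat_lit 7) L56193 (by decide +kernel)
theorem L56195 : W_10 (nat_lit 10) (nat_lit 0x200000001300090000000000000000000000000000000) (nat_lit 0x0) (nat_lit 0x200018000e0000c006c003c000e0007000280000000000000) := Q_10 (nat_lit 107) (C_10 L32347 (C_10 L56152 (C_10 L56156 (C_10 L56189 (C_10 L56190 (C_10 L56194 N_10)))))) (by decide +kernel)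
theorem L56196 : W_10 (nat_lit 2) (nat_lit 0x200000001380090000000000000000000000000000000) (nat_lit 0x0) (nat_lit 0x40060000000000000000000000000000000) := D_10 (nat_lit 125) (nat_lit 126) (nat_lit 138) (nat_lit 1) (nat_lit 8) (nat_lit 7) (nat_lit 2) (nat_lit 2) (nat_lit 8) (by decide +kernel)
theorem L56197 : W_10 (nat_lit 6) (nat_lit 0x200000001380090000000000000000000000000000000) (nat_lit 0x0) (nat_lit 0x600030001e0046000f800300000000000000000000000000) := Q_10 (nat_lit 138) (C_10 L55723 (C_10 L55653 (C_10 L55572 (C_10 L55477 N_10)))) (by decide +kernel)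
theorem L56198 : W_10 (nat_lit 2) (nat_lit 0x2400020013800d0000000000000000000000000000000) (nat_lit 0x0) (nat_lit 0x8000800040000000000000000000000) := D_10 (nat_lit 107) (nat_lit 90) (nat_lit 123) (nat_lit 5) (nat_lit 5) (nat_lit 5) (nat_lit 6) (nat_lit 4) (nat_lit 10) (by decide +kernel)
theorem L56199 : W_10 (nat_lit 3) (nat_lit 0x2000020013800d0000000000000000000000000000000) (nat_lit 0x0) (nat_lit 0x800040000000000008000800040000000000000000000000) := T_10 (nat_lit 174) (nat_lit 191) (nat_lit 6) (nat_lit 4) (nat_lit 11) L56198 (by decide +kernel)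
theorem L56200 : W_10 (nat_lit 4) (nat_lit 0x200002001380090000000000000000000000000000000) (nat_lit 0x0) (nat_lit 0x800040000000000068000800040000000000000000000000) := T_10 (nat_lit 126) (nat_lit 125) (nat_lit 1) (nat_lit 8) (nat_lit 7) L56199 (by decide +kernel)
theorem L56201 : W_10 (nat_lit 2) (nat_lit 0x200002001380094000200040000000000000000000000) (nat_lit 0x0) (nat_lit 0x800040001000000000000000000000000000000000000000) := D_10 (nat_lit 174) (nat_lit 191) (nat_lit 156) (nat_lit 6) (nat_lit 4) (nat_lit 11) (nat_lit 7) (nat_lit 3) (nat_lit 6) (by decide +kernel)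
theorem L56202 : W_10 (nat_lit 3) (nat_lit 0x200002001380094000000040000000000000000000000) (nat_lit 0x0) (nat_lit 0x800040001000000000000200010000000000000000000000) := T_10 (nat_lit 105) (nat_lit 88) (nat_lit 7) (nat_lit 3) (nat_lit 5) L56201 (by decide +kernel)
theorem L56203 : W_10 (nat_lit 4) (nat_lit 0x200002001380094000000000000000000000000000000) (nat_lit 0x0) (nat_lit 0x800040001000000000000a00050000000000000000000000) := T_10 (nat_lit 90) (nat_lit 107) (nat_lit 5) (nat_lit 5) (nat_lit 5) L56202 (by decide +kernel)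
theorem L56204 : W_10 (nat_lit 2) (nat_lit 0x2000020013800d4000200000000000000000000000000) (nat_lit 0x0) (nat_lit 0x800040001000000000000000000000000000000000000000) := D_10 (nat_lit 174) (nat_lit 191) (nat_lit 156) (nat_lit 6) (nat_lit 4) (nat_lit 11) (nat_lit 7) (nat_lit 3) (nat_lit 6) (by decide +kernel)
theorem L56205 : W_10 (nat_lit 3) (nat_lit 0x2000020013800d4000000000000000000000000000000) (nat_lit 0x0) (nat_lit 0x800040001000000000000200010000000000000000000000) := T_10 (nat_lit 105) (nat_lit 88) (nat_lit 7) (nat_lit 3) (nat_lit 5) L56204 (by decide +kernel)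
theorem L56206 : W_10 (nat_lit 4) (nat_lit 0x200002001380094000000000000000000000000000000) (nat_lit 0x0) (nat_lit 0x800040001000000060000200010000000000000000000000) := T_10 (nat_lit 126) (nat_lit 125) (nat_lit 1) (nat_lit 8) (nat_lit 7) L56205 (by decide +kernel)
theorem L56207 : W_10 (nat_lit 2) (nat_lit 0x2000030017800b4000a00000000000000000000000000) (nat_lit 0x0) (nat_lit 0x500008000000000000000000000) := D_10 (nat_lit 104) (nat_lit 106) (nat_lit 87) (nat_lit 3) (nat_lit 2) (nat_lit 6) (nat_lit 4) (nat_lit 3) (nat_lit 9) (by decide +kernel)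
theorem L56208 : W_10 (nat_lit 3) (nat_lit 0x200003001780094000a00000000000000000000000000) (nat_lit 0x0) (nat_lit 0x60000500008000000000000000000000) := T_10 (nat_lit 125) (nat_lit 126) (nat_lit 2) (nat_lit 3) (nat_lit 8) L56207 (by decide +kernel)
theorem L56209 : W_10 (nat_lit 4) (nat_lit 0x200002001780094000a00000000000000000000000000) (nat_lit 0x0) (nat_lit 0x1800000060000500008000000000000000000000) := T_10 (nat_lit 156) (nat_lit 155) (nat_lit 1) (nat_lit 6) (nat_lit 8) L56208 (by decide +kernel)
theorem L56210 : W_10 (nat_lit 5) (nat_lit 0x200002001780094000200000000000000000000000000) (nat_lit 0x0) (nat_lit 0x1800000060000d00048000000000000000000000) := T_10 (nat_lit 107) (nat_lit 90) (nat_lit 5) (nat_lit 5) (nat_lit 5) L56209 (by decide +kernel)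
theorem L56211 : W_10 (nat_lit 6) (nat_lit 0x200002001780094000000000000000000000000000000) (nat_lit 0x0) (nat_lit 0x1800000060000f00058000000000000000000000) := T_10 (nat_lit 105) (nat_lit 88) (nat_lit 7) (nat_lit 3) (nat_lit 5) L56210 (by decide +kernel)
theorem L56212 : W_10 (nat_lit 7) (nat_lit 0x200002001380094000000000000000000000000000000) (nat_lit 0x0) (nat_lit 0x1800400062000f00058000000000000000000000) := T_10 (nat_lit 142) (nat_lit 121) (nat_lit 0) (nat_lit 6) (nat_lit 8) L56211 (by decide +kernel)
theorem L56213 : W_10 (nat_lit 2) (nat_lit 0x8002000020013800d7000a00000000000000000000000000) (nat_lit 0x0) (nat_lit 0x1500000000000000000000000000) := D_10 (nat_lit 106) (nat_lit 108) (nat_lit 104) (nat_lit 1) (nat_lit 6) (nat_lit 6) (nat_lit 1) (nat_lit 5) (nat_lit 6) (by decide +kernel)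
theorem L56214 : W_10 (nat_lit 3) (nat_lit 0x8002000020013800d6000a00000000000000000000000000) (nat_lit 0x0) (nat_lit 0x1801500000000000000000000000000) := T_10 (nat_lit 120) (nat_lit 119) (nat_lit 3) (nat_lit 0) (nat_lit 7) L56213 (by decide +kernel)
theorem L56215 : W_10 (nat_lit 4) (nat_lit 0x2000020013800d6000a00000000000000000000000000) (nat_lit 0x0) (nat_lit 0x800040000000000001801500000000000000000000000000) := T_10 (nat_lit 191) (nat_lit 174) (nat_lit 6) (nat_lit 4) (nat_lit 11) L56214 (by decide +kernel)
theorem L56216 : W_10 (nat_lit 5) (nat_lit 0x2000020013800d4000a00000000000000000000000000) (nat_lit 0x0) (nat_lit 0x800040000000400003801500000000000000000000000000) := T_10 (nat_lit 121) (nat_lit 142) (nat_lit 0) (nat_lit 6) (nat_lit 8) L56215 (by decide +kernel)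
theorem L56217 : W_10 (nat_lit 6) (nat_lit 0x2000020013800d4000200000000000000000000000000) (nat_lit 0x0) (nat_lit 0x800040000000400003801d00040000000000000000000000) := T_10 (nat_lit 107) (nat_lit 90) (nat_lit 5) (nat_lit 5) (nat_lit 5) L56216 (by decide +kernel)
theorem L56218 : W_10 (nat_lit 7) (nat_lit 0x200002001380094000200000000000000000000000000) (nat_lit 0x0) (nat_lit 0x800040000000400063801d00040000000000000000000000) := T_10 (nat_lit 126) (nat_lit 125) (nat_lit 1) (nat_lit 8) (nat_lit 7) L56217 (by decide +kernel)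
theorem L56219 : W_10 (nat_lit 8) (nat_lit 0x200002001380094000000000000000000000000000000) (nat_lit 0x0) (nat_lit 0x800040000000400063801f00050000000000000000000000) := T_10 (nat_lit 105) (nat_lit 88) (nat_lit 7) (nat_lit 3) (nat_lit 5) L56218 (by decide +kernel)
theorem L56220 : W_10 (nat_lit 2) (nat_lit 0x3400030017800b4000000000000000000000000000000) (nat_lit 0x0) (nat_lit 0x8000000000000800040000000000000000000000) := D_10 (nat_lit 107) (nat_lit 90) (nat_lit 159) (nat_lit 5) (nat_lit 5) (nat_lit 5) (nat_lit 4) (nat_lit 6) (nat_lit 10) (by decide +kernel)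
theorem L56221 : W_10 (nat_lit 3) (nat_lit 0x2400030017800b4000000000000000000000000000000) (nat_lit 0x0) (nat_lit 0x180008000000000000800040000000000000000000000) := T_10 (nat_lit 176) (nat_lit 175) (nat_lit 0) (nat_lit 7) (nat_lit 10) L56220 (by decide +kernel)
theorem L56222 : W_10 (nat_lit 4) (nat_lit 0x2400020017800b4000000000000000000000000000000) (nat_lit 0x0) (nat_lit 0x180009800000000000800040000000000000000000000) := T_10 (nat_lit 156) (nat_lit 155) (nat_lit 1) (nat_lit 6) (nat_lit 8) L56221 (by decide +kernel)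
theorem L56223 : W_10 (nat_lit 5) (nat_lit 0x2000020017800b4000000000000000000000000000000) (nat_lit 0x0) (nat_lit 0x8001c0009800000000000800040000000000000000000000) := T_10 (nat_lit 174) (nat_lit 191) (nat_lit 6) (nat_lit 4) (nat_lit 11) L56222 (by decide +kernel)
theorem L56224 : W_10 (nat_lit 6) (nat_lit 0x200002001780094000000000000000000000000000000) (nat_lit 0x0) (nat_lit 0x8001c0009800000060000800040000000000000000000000) := T_10 (nat_lit 125) (nat_lit 126) (nat_lit 2) (nat_lit 3) (nat_lit 8) L56223 (by decide +kernel)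
theorem L56225 : W_10 (nat_lit 7) (nat_lit 0x200002001380094000000000000000000000000000000) (nat_lit 0x0) (nat_lit 0x8001c0009800400062000800040000000000000000000000) := T_10 (nat_lit 142) (nat_lit 121) (nat_lit 0) (nat_lit 6) (nat_lit 8) L56224 (by decide +kernel)
theorem L56226 : W_10 (nat_lit 9) (nat_lit 0x200002001380090000000000000000000000000000000) (nat_lit 0x0) (nat_lit 0x8001c0009800400067801f00058000000000000000000000) := Q_10 (nat_lit 122) (C_10 L56203 (C_10 L56206 (C_10 L56212 (C_10 L56219 (C_10 L56225 N_10))))) (by decide +kernel)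
theorem L56227 : W_10 (nat_lit 2) (nat_lit 0x200002001380090000800000000000000000000000000) (nat_lit 0x0) (nat_lit 0x800040000000000008000000000000000000000000000000) := D_10 (nat_lit 174) (nat_lit 191) (nat_lit 123) (nat_lit 6) (nat_lit 4) (nat_lit 11) (nat_lit 6) (nat_lit 4) (nat_lit 10) (by decide +kernel)
theorem L56228 : W_10 (nat_lit 3) (nat_lit 0x200002001380090000000000000000000000000000000) (nat_lit 0x0) (nat_lit 0x800040000000000008000800040000000000000000000000) := T_10 (nat_lit 107) (nat_lit 90) (nat_lit 5) (nat_lit 5) (nat_lit 5) L56227 (by decide +kernel)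
theorem L56229 : W_10 (nat_lit 2) (nat_lit 0x80020000300178009c000600000000000000000000000000) (nat_lit 0x0) (nat_lit 0x180008000000000000000000000) := D_10 (nat_lit 104) (nat_lit 103) (nat_lit 87) (nat_lit 3) (nat_lit 1) (nat_lit 6) (nat_lit 4) (nat_lit 3) (nat_lit 9) (by decide +kernel)
theorem L56230 : W_10 (nat_lit 3) (nat_lit 0x800200003001780094000600000000000000000000000000) (nat_lit 0x0) (nat_lit 0x20000000000008000180008000000000000000000000) := T_10 (nat_lit 123) (nat_lit 173) (nat_lit 6) (nat_lit 3) (nat_lit 10) L56229 (by decide +kernel)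
theorem L56231 : W_10 (nat_lit 4) (nat_lit 0x800200003001780094000200000000000000000000000000) (nat_lit 0x0) (nat_lit 0x20000000000008000580028000000000000000000000) := T_10 (nat_lit 106) (nat_lit 89) (nat_lit 6) (nat_lit 3) (nat_lit 9) L56230 (by decide +kernel)
theorem L56232 : W_10 (nat_lit 5) (nat_lit 0x800200002001780094000200000000000000000000000000) (nat_lit 0x0) (nat_lit 0x20001800000008000580028000000000000000000000) := T_10 (nat_lit 156) (nat_lit 155) (nat_lit 1) (nat_lit 6) (nat_lit 8) L56231 (by decide +kernel)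
theorem L56233 : W_10 (nat_lit 6) (nat_lit 0x800200002001780094000000000000000000000000000000) (nat_lit 0x0) (nat_lit 0x20001800000008000780038000000000000000000000) := T_10 (nat_lit 105) (nat_lit 88) (nat_lit 7) (nat_lit 3) (nat_lit 5) L56232 (by decide +kernel)
theorem L56234 : W_10 (nat_lit 7) (nat_lit 0x800200002001380094000000000000000000000000000000) (nat_lit 0x0) (nat_lit 0x2000180040000a000780038000000000000000000000) := T_10 (nat_lit 142) (nat_lit 121) (nat_lit 0) (nat_lit 6) (nat_lit 8) L56233 (by decide +kernel)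
theorem L56235 : W_10 (nat_lit 8) (nat_lit 0x200002001380094000000000000000000000000000000) (nat_lit 0x0) (nat_lit 0x80006000180040000a000780038000000000000000000000) := T_10 (nat_lit 191) (nat_lit 174) (nat_lit 6) (nat_lit 4) (nat_lit 11) L56234 (by decide +kernel)
theorem L56236 : W_10 (nat_lit 2) (nat_lit 0x2000030017800dc000600000000000000000000000000) (nat_lit 0x0) (nat_lit 0x180008000000000000000000000) := D_10 (nat_lit 104) (nat_lit 103) (nat_lit 87) (nat_lit 3) (nat_lit 1) (nat_lit 6) (nat_lit 4) (nat_lit 3) (nat_lit 9) (by decide +kernel)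
theorem L56237 : W_10 (nat_lit 3) (nat_lit 0x2000030017800d4000600000000000000000000000000) (nat_lit 0x0) (nat_lit 0x20000000000008000180008000000000000000000000) := T_10 (nat_lit 123) (nat_lit 173) (nat_lit 6) (nat_lit 3) (nat_lit 10) L56236 (by decide +kernel)
theorem L56238 : W_10 (nat_lit 4) (nat_lit 0x2000030017800d4000200000000000000000000000000) (nat_lit 0x0) (nat_lit 0x20000000000008000580028000000000000000000000) := T_10 (nat_lit 106) (nat_lit 89) (nat_lit 6) (nat_lit 3) (nat_lit 9) L56237 (by decide +kernel)
theorem L56239 : W_10 (nat_lit 5) (nat_lit 0x2000030017800d4000000000000000000000000000000) (nat_lit 0x0) (nat_lit 0x20000000000008000780038000000000000000000000) := T_10 (nat_lit 105) (nat_lit 88) (nat_lit 7) (nat_lit 3) (nat_lit 5) L56238 (by decide +kernel)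
theorem L56240 : W_10 (nat_lit 6) (nat_lit 0x2000020017800d4000000000000000000000000000000) (nat_lit 0x0) (nat_lit 0x20001800000008000780038000000000000000000000) := T_10 (nat_lit 156) (nat_lit 155) (nat_lit 1) (nat_lit 6) (nat_lit 8) L56239 (by decide +kernel)
theorem L56241 : W_10 (nat_lit 7) (nat_lit 0x200002001780094000000000000000000000000000000) (nat_lit 0x0) (nat_lit 0x20001800000068000780038000000000000000000000) := T_10 (nat_lit 126) (nat_lit 125) (nat_lit 2) (nat_lit 3) (nat_lit 8) L56240 (by decide +kernel)
theorem L56242 : W_10 (nat_lit 8) (nat_lit 0x200002001380094000000000000000000000000000000) (nat_lit 0x0) (nat_lit 0x2000180040006a000780038000000000000000000000) := T_10 (nat_lit 142) (nat_lit 121) (nat_lit 0) (nat_lit 6) (nat_lit 8) L56241 (by decide +kernel)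
theorem L56243 : W_10 (nat_lit 2) (nat_lit 0x8002000020013800d6000000010000000000000000000000) (nat_lit 0x0) (nat_lit 0x9800000000000000000000000000000) := D_10 (nat_lit 120) (nat_lit 119) (nat_lit 123) (nat_lit 3) (nat_lit 0) (nat_lit 7) (nat_lit 3) (nat_lit 1) (nat_lit 7) (by decide +kernel)
theorem L56244 : W_10 (nat_lit 3) (nat_lit 0x8002000020013800d4000000010000000000000000000000) (nat_lit 0x0) (nat_lit 0x40000b800000000000000000000000000000) := T_10 (nat_lit 121) (nat_lit 142) (nat_lit 0) (nat_lit 6) (nat_lit 8) L56243 (by decide +kernel)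
theorem L56245 : W_10 (nat_lit 4) (nat_lit 0x800200002001380094000000010000000000000000000000) (nat_lit 0x0) (nat_lit 0x40006b800000000000000000000000000000) := T_10 (nat_lit 126) (nat_lit 125) (nat_lit 1) (nat_lit 8) (nat_lit 7) L56244 (by decide +kernel)
theorem L56246 : W_10 (nat_lit 5) (nat_lit 0x200002001380094000000010000000000000000000000) (nat_lit 0x0) (nat_lit 0x80004000000040006b800000000000000000000000000000) := T_10 (nat_lit 191) (nat_lit 174) (nat_lit 6) (nat_lit 4) (nat_lit 11) L56245 (by decide +kernel)
theorem L56247 : W_10 (nat_lit 6) (nat_lit 0x200002001380094000000000000000000000000000000) (nat_lit 0x0) (nat_lit 0x80004000000040006b800200010000000000000000000000) := T_10 (nat_lit 88) (nat_lit 105) (nat_lit 7) (nat_lit 3) (nat_lit 5) L56246 (by decide +kernel)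
theorem L56248 : W_10 (nat_lit 2) (nat_lit 0x3400030017800b4000000000000000000000000000000) (nat_lit 0x0) (nat_lit 0x6000000008000000000000000000000000000000000000000) := D_10 (nat_lit 159) (nat_lit 193) (nat_lit 194) (nat_lit 4) (nat_lit 6) (nat_lit 11) (nat_lit 7) (nat_lit 6) (nat_lit 7) (by decide +kernel)
theorem L56249 : W_10 (nat_lit 3) (nat_lit 0x340003001780094000000000000000000000000000000) (nat_lit 0x0) (nat_lit 0x6000000008000000060000000000000000000000000000000) := T_10 (nat_lit 125) (nat_lit 126) (nat_lit 2) (nat_lit 3) (nat_lit 8) L56248 (by decide +kernel)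
theorem L56250 : W_10 (nat_lit 4) (nat_lit 0x240003001780094000000000000000000000000000000) (nat_lit 0x0) (nat_lit 0x6000180008000000060000000000000000000000000000000) := T_10 (nat_lit 176) (nat_lit 175) (nat_lit 0) (nat_lit 7) (nat_lit 10) L56249 (by decide +kernel)
theorem L56251 : W_10 (nat_lit 5) (nat_lit 0x240002001780094000000000000000000000000000000) (nat_lit 0x0) (nat_lit 0x6000180009800000060000000000000000000000000000000) := T_10 (nat_lit 156) (nat_lit 155) (nat_lit 1) (nat_lit 6) (nat_lit 8) L56250 (by decide +kernel)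
theorem L56252 : W_10 (nat_lit 6) (nat_lit 0x200002001780094000000000000000000000000000000) (nat_lit 0x0) (nat_lit 0x68001c0009800000060000000000000000000000000000000) := T_10 (nat_lit 174) (nat_lit 191) (nat_lit 6) (nat_lit 4) (nat_lit 11) L56251 (by decide +kernel)
theorem L56253 : W_10 (nat_lit 7) (nat_lit 0x200002001380094000000000000000000000000000000) (nat_lit 0x0) (nat_lit 0x68001c0009800400062000000000000000000000000000000) := T_10 (nat_lit 142) (nat_lit 121) (nat_lit 0) (nat_lit 6) (nat_lit 8) L56252 (by decide +kernel)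
theorem L56254 : W_10 (nat_lit 9) (nat_lit 0x200002001380090000000000000000000000000000000) (nat_lit 0x0) (nat_lit 0x68001e000980040006f800780038000000000000000000000) := Q_10 (nat_lit 122) (C_10 L56206 (C_10 L56235 (C_10 L56242 (C_10 L56247 (C_10 L56253 N_10))))) (by decide +kernel)
theorem L56255 : W_10 (nat_lit 2) (nat_lit 0x2000030013800b4000300040000000000000000000000) (nat_lit 0x0) (nat_lit 0x10000c00000000000000000000000000000000000000) := D_10 (nat_lit 155) (nat_lit 154) (nat_lit 172) (nat_lit 2) (nat_lit 1) (nat_lit 9) (nat_lit 5) (nat_lit 3) (nat_lit 6) (by decide +kernel)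
theorem L56256 : W_10 (nat_lit 3) (nat_lit 0x2000020013800b4000300040000000000000000000000) (nat_lit 0x0) (nat_lit 0x10001c00000000000000008000000000000000000000) := T_10 (nat_lit 156) (nat_lit 87) (nat_lit 4) (nat_lit 3) (nat_lit 9) L56255 (by decide +kernel)
theorem L56257 : W_10 (nat_lit 4) (nat_lit 0x2000020013800b4000200040000000000000000000000) (nat_lit 0x0) (nat_lit 0x10001c00000008000100008000000000000000000000) := T_10 (nat_lit 104) (nat_lit 123) (nat_lit 0) (nat_lit 6) (nat_lit 7) L56256 (by decide +kernel)
theorem L56258 : W_10 (nat_lit 5) (nat_lit 0x2000020013800b4000200000000000000000000000000) (nat_lit 0x0) (nat_lit 0x10001c00000008000900048000000000000000000000) := T_10 (nat_lit 90) (nat_lit 107) (nat_lit 5) (nat_lit 5) (nat_lit 5) L56257 (by decide +kernel)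
theorem L56259 : W_10 (nat_lit 6) (nat_lit 0x2000020013800b4000000000000000000000000000000) (nat_lit 0x0) (nat_lit 0x10001c00000008000b00058000000000000000000000) := T_10 (nat_lit 105) (nat_lit 88) (nat_lit 7) (nat_lit 3) (nat_lit 5) L56258 (by decide +kernel)
theorem L56260 : W_10 (nat_lit 7) (nat_lit 0x200002001380094000000000000000000000000000000) (nat_lit 0x0) (nat_lit 0x10001c00000068000b00058000000000000000000000) := T_10 (nat_lit 125) (nat_lit 126) (nat_lit 1) (nat_lit 8) (nat_lit 7) L56259 (by decide +kernel)
theorem L56261 : W_10 (nat_lit 2) (nat_lit 0x20000300178009c000600040000000000000000000000) (nat_lit 0x0) (nat_lit 0x180008000000000000000000000) := D_10 (nat_lit 104) (nat_lit 103) (nat_lit 87) (nat_lit 3) (nat_lit 1) (nat_lit 6) (nat_lit 4) (nat_lit 3) (nat_lit 9) (by decide +kernel)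
theorem L56262 : W_10 (nat_lit 3) (nat_lit 0x200003001780094000600040000000000000000000000) (nat_lit 0x0) (nat_lit 0x20000000000008000180008000000000000000000000) := T_10 (nat_lit 123) (nat_lit 173) (nat_lit 6) (nat_lit 3) (nat_lit 10) L56261 (by decide +kernel)
theorem L56263 : W_10 (nat_lit 4) (nat_lit 0x200003001780094000200040000000000000000000000) (nat_lit 0x0) (nat_lit 0x20000000000008000580028000000000000000000000) := T_10 (nat_lit 106) (nat_lit 89) (nat_lit 6) (nat_lit 3) (nat_lit 9) L56262 (by decide +kernel)
theorem L56264 : W_10 (nat_lit 5) (nat_lit 0x200002001780094000200040000000000000000000000) (nat_lit 0x0) (nat_lit 0x20001800000008000580028000000000000000000000) := T_10 (nat_lit 156) (nat_lit 155) (nat_lit 1) (nat_lit 6) (nat_lit 8) L56263 (by decide +kernel)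
theorem L56265 : W_10 (nat_lit 6) (nat_lit 0x200002001780094000000040000000000000000000000) (nat_lit 0x0) (nat_lit 0x20001800000008000780038000000000000000000000) := T_10 (nat_lit 105) (nat_lit 88) (nat_lit 7) (nat_lit 3) (nat_lit 5) L56264 (by decide +kernel)
theorem L56266 : W_10 (nat_lit 7) (nat_lit 0x200002001380094000000040000000000000000000000) (nat_lit 0x0) (nat_lit 0x2000180040000a000780038000000000000000000000) := T_10 (nat_lit 142) (nat_lit 121) (nat_lit 0) (nat_lit 6) (nat_lit 8) L56265 (by decide +kernel)
theorem L56267 : W_10 (nat_lit 8) (nat_lit 0x200002001380094000000000000000000000000000000) (nat_lit 0x0) (nat_lit 0x2000180040000a000f80078000000000000000000000) := T_10 (nat_lit 90) (nat_lit 107) (nat_lit 5) (nat_lit 5) (nat_lit 5) L56266 (by decide +kernel)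
theorem L56268 : W_10 (nat_lit 2) (nat_lit 0x2000020017800bc001200040000000000000000000000) (nat_lit 0x0) (nat_lit 0x80006000000000000000000) := D_10 (nat_lit 91) (nat_lit 73) (nat_lit 74) (nat_lit 4) (nat_lit 6) (nat_lit 8) (nat_lit 5) (nat_lit 6) (nat_lit 4) (by decide +kernel)
theorem L56269 : W_10 (nat_lit 3) (nat_lit 0x2000020017800bc000200040000000000000000000000) (nat_lit 0x0) (nat_lit 0x3000080006000000000000000000) := T_10 (nat_lit 108) (nat_lit 109) (nat_lit 2) (nat_lit 3) (nat_lit 7) L56268 (by decide +kernel)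
theorem L56270 : W_10 (nat_lit 4) (nat_lit 0x2000020017800b4000200040000000000000000000000) (nat_lit 0x0) (nat_lit 0x8003100080006000000000000000000) := T_10 (nat_lit 123) (nat_lit 104) (nat_lit 0) (nat_lit 6) (nat_lit 7) L56269 (by decide +kernel)
theorem L56271 : W_10 (nat_lit 5) (nat_lit 0x2000020017800b4000000040000000000000000000000) (nat_lit 0x0) (nat_lit 0x8003300090006000000000000000000) := T_10 (nat_lit 105) (nat_lit 88) (nat_lit 7) (nat_lit 3) (nat_lit 5) L56270 (by decide +kernel)
theorem L56272 : W_10 (nat_lit 6) (nat_lit 0x200002001780094000000040000000000000000000000) (nat_lit 0x0) (nat_lit 0x68003300090006000000000000000000) := T_10 (nat_lit 125) (nat_lit 126) (nat_lit 2) (nat_lit 3) (nat_lit 8) L56271 (by decide +kernel)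
theorem L56273 : W_10 (nat_lit 7) (nat_lit 0x200002001780094000000000000000000000000000000) (nat_lit 0x0) (nat_lit 0x68003b000d0006000000000000000000) := T_10 (nat_lit 90) (nat_lit 107) (nat_lit 5) (nat_lit 5) (nat_lit 5) L56272 (by decide +kernel)
theorem L56274 : W_10 (nat_lit 8) (nat_lit 0x200002001380094000000000000000000000000000000) (nat_lit 0x0) (nat_lit 0x40006a003b000d0006000000000000000000) := T_10 (nat_lit 142) (nat_lit 121) (nat_lit 0) (nat_lit 6) (nat_lit 8) L56273 (by decide +kernel)
theorem L56275 : W_10 (nat_lit 2) (nat_lit 0x200002001380096000000040000000000000000000000) (nat_lit 0x0) (nat_lit 0x9800000000000000000000000000000) := D_10 (nat_lit 120) (nat_lit 119) (nat_lit 123) (nat_lit 3) (nat_lit 0) (nat_lit 7) (nat_lit 3) (nat_lit 1) (nat_lit 7) (by decide +kernel)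
theorem L56276 : W_10 (nat_lit 3) (nat_lit 0x200002001380094000000040000000000000000000000) (nat_lit 0x0) (nat_lit 0x40000b800000000000000000000000000000) := T_10 (nat_lit 121) (nat_lit 142) (nat_lit 0) (nat_lit 6) (nat_lit 8) L56275 (by decide +kernel)
theorem L56277 : W_10 (nat_lit 4) (nat_lit 0x200002001380094000000000000000000000000000000) (nat_lit 0x0) (nat_lit 0x40000b800800040000000000000000000000) := T_10 (nat_lit 90) (nat_lit 107) (nat_lit 5) (nat_lit 5) (nat_lit 5) L56276 (by decide +kernel)
theorem L56278 : W_10 (nat_lit 9) (nat_lit 0x200002001380090000000000000000000000000000000) (nat_lit 0x0) (nat_lit 0x30001c0040006f803f800f8006000000000000000000) := Q_10 (nat_lit 122) (C_10 L56260 (C_10 L56267 (C_10 L56212 (C_10 L56242 (C_10 L56274 (C_10 L56277 N_10)))))) (by decide +kernel)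
theorem L56279 : W_10 (nat_lit 10) (nat_lit 0x200000001380090000000000000000000000000000000) (nat_lit 0x0) (nat_lit 0x68001f000bc0040006f803f800f8006000000000000000000) := Q_10 (nat_lit 157) (C_10 L56200 (C_10 L56226 (C_10 L56228 (C_10 L56254 (C_10 L56278 N_10))))) (by decide +kernel)
theorem L56280 : W_10 (nat_lit 11) (nat_lit 0x200000001300090000000000000000000000000000000) (nat_lit 0x0) (nat_lit 0x6e001f000be004e006f803f800f8006000000000000000000) := Q_10 (nat_lit 139) (C_10 L56196 (C_10 L56197 (C_10 L56279 N_10))) (by decide +kernel)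
theorem L56285 : W_10 (nat_lit 6) (nat_lit 0x200000001700090000800040000000000000000000000) (nat_lit 0x0) (nat_lit 0x400000000800100008000700018000c000000000) := T_10 (nat_lit 91) (nat_lit 74) (nat_lit 6) (nat_lit 5) (nat_lit 8) L56284 (by decide +kernel)
theorem L56286 : W_10 (nat_lit 7) (nat_lit 0x200000001300090000800040000000000000000000000) (nat_lit 0x0) (nat_lit 0xc00040000800100008000700018000c000000000) := T_10 (nat_lit 142) (nat_lit 159) (nat_lit 7) (nat_lit 5) (nat_lit 5) L56285 (by decide +kernel)
theorem L56287 : W_10 (nat_lit 2) (nat_lit 0x200004001700090000c000c0000000000000000000000) (nat_lit 0x0) (nat_lit 0x80000000000008000000000002000000000000000000) := D_10 (nat_lit 123) (nat_lit 73) (nat_lit 175) (nat_lit 5) (nat_lit 5) (nat_lit 4) (nat_lit 4) (nat_lit 5) (nat_lit 10) (by decide +kernel)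
theorem L56288 : W_10 (nat_lit 3) (nat_lit 0x2000040017000900008000c0000000000000000000000) (nat_lit 0x0) (nat_lit 0x80000000000008000400020002000000000000000000) := T_10 (nat_lit 106) (nat_lit 89) (nat_lit 4) (nat_lit 5) (nat_lit 9) L56287 (by decide +kernel)
theorem L56289 : W_10 (nat_lit 4) (nat_lit 0x2000000017000900008000c0000000000000000000000) (nat_lit 0x0) (nat_lit 0x80004000000008001400020002000000000000000000) := T_10 (nat_lit 158) (nat_lit 108) (nat_lit 6) (nat_lit 5) (nat_lit 9) L56288 (by decide +kernel)
theorem L56290 : W_10 (nat_lit 5) (nat_lit 0x2000000013000900008000c0000000000000000000000) (nat_lit 0x0) (nat_lit 0x8000c000400008001400020002000000000000000000) := T_10 (nat_lit 142) (nat_lit 159) (nat_lit 7) (nat_lit 5) (nat_lit 5) L56289 (by decide +kernel)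
theorem L56291 : W_10 (nat_lit 6) (nat_lit 0x200000001300090000800040000000000000000000000) (nat_lit 0x0) (nat_lit 0x8000c0004000080014000a0006000000000000000000) := T_10 (nat_lit 91) (nat_lit 74) (nat_lit 6) (nat_lit 5) (nat_lit 8) L56290 (by decide +kernel)
theorem L56292 : W_10 (nat_lit 8) (nat_lit 0x200000001300090000800000000000000000000000000) (nat_lit 0x0) (nat_lit 0x8000c0004000080014000e000700018000c000000000) := Q_10 (nat_lit 90) (C_10 L56155 (C_10 L31982 (C_10 L56286 (C_10 L56291 N_10)))) (by decide +kernel)
theorem L56293 : W_10 (nat_lit 2) (nat_lit 0x28000c001340090000c00000000000000000000000000) (nat_lit 0x0) (nat_lit 0x800040002000000000000000000000000000000000000000) := D_10 (nat_lit 174) (nat_lit 157) (nat_lit 191) (nat_lit 5) (nat_lit 5) (nat_lit 6) (nat_lit 5) (nat_lit 5) (nat_lit 7) (by decide +kernel)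
theorem L56294 : W_10 (nat_lit 3) (nat_lit 0x20000c001340090000c00000000000000000000000000) (nat_lit 0x0) (nat_lit 0x8000c0002000000008000000000000000000000000000000) := T_10 (nat_lit 175) (nat_lit 123) (nat_lit 4) (nat_lit 5) (nat_lit 10) L56293 (by decide +kernel)
theorem L56295 : W_10 (nat_lit 4) (nat_lit 0x20000c001300090000c00000000000000000000000000) (nat_lit 0x0) (nat_lit 0x8000c00020000c0008000000000000000000000000000000) := T_10 (nat_lit 138) (nat_lit 139) (nat_lit 3) (nat_lit 2) (nat_lit 8) L56294 (by decide +kernel)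
theorem L56296 : W_10 (nat_lit 5) (nat_lit 0x200004001300090000c00000000000000000000000000) (nat_lit 0x0) (nat_lit 0x8001c000a0000c0008000000000000000000000000000000) := T_10 (nat_lit 159) (nat_lit 176) (nat_lit 7) (nat_lit 5) (nat_lit 6) L56295 (by decide +kernel)
theorem L56297 : W_10 (nat_lit 6) (nat_lit 0x200004001300090000800000000000000000000000000) (nat_lit 0x0) (nat_lit 0x8001c000a0000c0008000400020000000000000000000000) := T_10 (nat_lit 106) (nat_lit 89) (nat_lit 4) (nat_lit 5) (nat_lit 9) L56296 (by decide +kernel)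
theorem L56298 : W_10 (nat_lit 2) (nat_lit 0x380004001300090003c00100000000000000000000000) (nat_lit 0x0) (nat_lit 0x800040002000000000000000000000000000000000000000) := D_10 (nat_lit 174) (nat_lit 191) (nat_lit 157) (nat_lit 5) (nat_lit 5) (nat_lit 7) (nat_lit 5) (nat_lit 5) (nat_lit 6) (by decide +kernel)
theorem L56299 : W_10 (nat_lit 3) (nat_lit 0x300004001300090003c00100000000000000000000000) (nat_lit 0x0) (nat_lit 0x28000c0002000000000000000000000000000000000000000) := T_10 (nat_lit 175) (nat_lit 193) (nat_lit 7) (nat_lit 5) (nat_lit 7) L56298 (by decide +kernel)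
theorem L56300 : W_10 (nat_lit 4) (nat_lit 0x300004001300090003c00000000000000000000000000) (nat_lit 0x0) (nat_lit 0x28000c0002000000000000000300000000000000000000000) := T_10 (nat_lit 92) (nat_lit 93) (nat_lit 2) (nat_lit 4) (nat_lit 6) L56299 (by decide +kernel)
theorem L56301 : W_10 (nat_lit 5) (nat_lit 0x300004001300090001c00000000000000000000000000) (nat_lit 0x0) (nat_lit 0x28000c0002000000040002000300000000000000000000000) := T_10 (nat_lit 109) (nat_lit 126) (nat_lit 3) (nat_lit 4) (nat_lit 6) L56300 (by decide +kernel)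
theorem L56302 : W_10 (nat_lit 6) (nat_lit 0x300004001300090001800000000000000000000000000) (nat_lit 0x0) (nat_lit 0x28000c0002000000040002400320000000000000000000000) := T_10 (nat_lit 106) (nat_lit 89) (nat_lit 4) (nat_lit 5) (nat_lit 9) L56301 (by decide +kernel)
theorem L56303 : W_10 (nat_lit 7) (nat_lit 0x200004001300090001800000000000000000000000000) (nat_lit 0x0) (nat_lit 0x28001c000a000000040002400320000000000000000000000) := T_10 (nat_lit 176) (nat_lit 159) (nat_lit 7) (nat_lit 5) (nat_lit 6) L56302 (by decide +kernel)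
theorem L56304 : W_10 (nat_lit 8) (nat_lit 0x200004001300090000800000000000000000000000000) (nat_lit 0x0) (nat_lit 0x28001c000a0000000400034003a0000000000000000000000) := T_10 (nat_lit 108) (nat_lit 91) (nat_lit 6) (nat_lit 5) (nat_lit 9) L56303 (by decide +kernel)
theorem L56305 : W_10 (nat_lit 2) (nat_lit 0x200004001300090003c00000000000000000000000000) (nat_lit 0x0) (nat_lit 0x8000000000000c000000000000000000000000000000) := D_10 (nat_lit 123) (nat_lit 175) (nat_lit 122) (nat_lit 4) (nat_lit 5) (nat_lit 10) (nat_lit 1) (nat_lit 7) (nat_lit 6) (by decide +kernel)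
theorem L56306 : W_10 (nat_lit 3) (nat_lit 0x200004001300090001c00000000000000000000000000) (nat_lit 0x0) (nat_lit 0x8000000000004c002000000000000000000000000000) := T_10 (nat_lit 109) (nat_lit 126) (nat_lit 3) (nat_lit 4) (nat_lit 6) L56305 (by decide +kernel)
theorem L56307 : W_10 (nat_lit 4) (nat_lit 0x200004001300090001800000000000000000000000000) (nat_lit 0x0) (nat_lit 0x8000000000004c002400020000000000000000000000) := T_10 (nat_lit 106) (nat_lit 89) (nat_lit 4) (nat_lit 5) (nat_lit 9) L56306 (by decide +kernel)
theorem L56308 : W_10 (nat_lit 5) (nat_lit 0x200004001300090000800000000000000000000000000) (nat_lit 0x0) (nat_lit 0x8000000000004c0034000a0000000000000000000000) := T_10 (nat_lit 108) (nat_lit 91) (nat_lit 6) (nat_lit 5) (nat_lit 9) L56307 (by decide +kernel)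
theorem L56309 : W_10 (nat_lit 2) (nat_lit 0x20000f001340098003c00100000000000000000000000) (nat_lit 0x0) (nat_lit 0x800420000000000000000000000000000000000) := D_10 (nat_lit 155) (nat_lit 142) (nat_lit 137) (nat_lit 2) (nat_lit 2) (nat_lit 9) (nat_lit 0) (nat_lit 5) (nat_lit 9) (by decide +kernel)
theorem L56310 : W_10 (nat_lit 3) (nat_lit 0x20000e001340098003c00100000000000000000000000) (nat_lit 0x0) (nat_lit 0x20001800420000000000000000000000000000000000) := T_10 (nat_lit 156) (nat_lit 173) (nat_lit 5) (nat_lit 4) (nat_lit 6) L56309 (by decide +kernel)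
theorem L56311 : W_10 (nat_lit 4) (nat_lit 0x20000c001340098003c00100000000000000000000000) (nat_lit 0x0) (nat_lit 0x60003800420000000000000000000000000000000000) := T_10 (nat_lit 157) (nat_lit 174) (nat_lit 6) (nat_lit 4) (nat_lit 10) L56310 (by decide +kernel)
theorem L56312 : W_10 (nat_lit 5) (nat_lit 0x20000c001340090003c00100000000000000000000000) (nat_lit 0x0) (nat_lit 0x6000380042000c000000000000000000000000000000) := T_10 (nat_lit 123) (nat_lit 122) (nat_lit 1) (nat_lit 7) (nat_lit 6) L56311 (by decide +kernel)
theorem L56313 : W_10 (nat_lit 6) (nat_lit 0x20000c001340090003c00000000000000000000000000) (nat_lit 0x0) (nat_lit 0x6000380042000c000000300000000000000000000000) := T_10 (nat_lit 92) (nat_lit 93) (nat_lit 2) (nat_lit 4) (nat_lit 6) L56312 (by decide +kernel)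
theorem L56314 : W_10 (nat_lit 7) (nat_lit 0x20000c001340090001c00000000000000000000000000) (nat_lit 0x0) (nat_lit 0x6000380042004c002000300000000000000000000000) := T_10 (nat_lit 109) (nat_lit 126) (nat_lit 3) (nat_lit 4) (nat_lit 6) L56313 (by decide +kernel)
theorem L56315 : W_10 (nat_lit 8) (nat_lit 0x20000c001340090000c00000000000000000000000000) (nat_lit 0x0) (nat_lit 0x6000380042004c003000380000000000000000000000) := T_10 (nat_lit 108) (nat_lit 91) (nat_lit 6) (nat_lit 5) (nat_lit 9) L56314 (by decide +kernel)
theorem L56316 : W_10 (nat_lit 9) (nat_lit 0x20000c001300090000c00000000000000000000000000) (nat_lit 0x0) (nat_lit 0x600038004e004c003000380000000000000000000000) := T_10 (nat_lit 138) (nat_lit 139) (nat_lit 3) (nat_lit 2) (nat_lit 8) L56315 (by decide +kernel)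
theorem L56317 : W_10 (nat_lit 10) (nat_lit 0x200004001300090000c00000000000000000000000000) (nat_lit 0x0) (nat_lit 0x16000b8004e004c003000380000000000000000000000) := T_10 (nat_lit 159) (nat_lit 176) (nat_lit 7) (nat_lit 5) (nat_lit 6) L56316 (by decide +kernel)
theorem L56318 : W_10 (nat_lit 11) (nat_lit 0x200004001300090000800000000000000000000000000) (nat_lit 0x0) (nat_lit 0x16000b8004e004c0034003a0000000000000000000000) := T_10 (nat_lit 106) (nat_lit 89) (nat_lit 4) (nat_lit 5) (nat_lit 9) L56317 (by decide +kernel)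
theorem L56319 : W_10 (nat_lit 2) (nat_lit 0x380006001300090001800000000000000000000000000) (nat_lit 0x0) (nat_lit 0x20001000000000000000008000000000000000000000000000000) := D_10 (nat_lit 192) (nat_lit 209) (nat_lit 123) (nat_lit 4) (nat_lit 5) (nat_lit 12) (nat_lit 4) (nat_lit 5) (nat_lit 11) (by decide +kernel)
theorem L56320 : W_10 (nat_lit 3) (nat_lit 0x300006001300090001800000000000000000000000000) (nat_lit 0x0) (nat_lit 0x20003000080000000000008000000000000000000000000000000) := T_10 (nat_lit 175) (nat_lit 193) (nat_lit 7) (nat_lit 5) (nat_lit 7) L56319 (by decide +kernel)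
theorem L56321 : W_10 (nat_lit 4) (nat_lit 0x300006001300090000800000000000000000000000000) (nat_lit 0x0) (nat_lit 0x20003000080000000000008001000080000000000000000000000) := T_10 (nat_lit 108) (nat_lit 91) (nat_lit 6) (nat_lit 5) (nat_lit 9) L56320 (by decide +kernel)
theorem L56322 : W_10 (nat_lit 5) (nat_lit 0x200006001300090000800000000000000000000000000) (nat_lit 0x0) (nat_lit 0x20003000180008000000008001000080000000000000000000000) := T_10 (nat_lit 176) (nat_lit 159) (nat_lit 7) (nat_lit 5) (nat_lit 6) L56321 (by decide +kernel)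
theorem L56323 : W_10 (nat_lit 6) (nat_lit 0x200004001300090000800000000000000000000000000) (nat_lit 0x0) (nat_lit 0x200030001c000a000000008001000080000000000000000000000) := T_10 (nat_lit 157) (nat_lit 174) (nat_lit 5) (nat_lit 5) (nat_lit 6) L56322 (by decide +kernel)
theorem L56324 : W_10 (nat_lit 12) (nat_lit 0x200000001300090000800000000000000000000000000) (nat_lit 0x0) (nat_lit 0x200038001e000f8004e004c0034003a0000000000000000000000) := Q_10 (nat_lit 158) (C_10 L56297 (C_10 L56304 (C_10 L56167 (C_10 L56308 (C_10 L56318 (C_10 L56323 N_10)))))) (by decide +kernel)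
theorem L56325 : W_10 (nat_lit 8) (nat_lit 0x200000001300090000800000000000000000000000000) (nat_lit 0x0) (nat_lit 0xe0004000080010000c000700018000c000000000) := T_10 (nat_lit 90) (nat_lit 157) (nat_lit 5) (nat_lit 5) (nat_lit 5) L56286 (by decide +kernel)
theorem L56326 : W_10 (nat_lit 13) (nat_lit 0x200000001300090000000000000000000000000000000) (nat_lit 0x0) (nat_lit 0x200038001e000f8004e004c003c003e000700018000c000000000) := Q_10 (nat_lit 107) (C_10 L56156 (C_10 L56292 (C_10 L56152 (C_10 L56324 (C_10 L56325 N_10))))) (by decide +kernel)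
theorem L56327 : W_10 (nat_lit 2) (nat_lit 0x2000000017000d00018000e0000000000000000000000) (nat_lit 0x0) (nat_lit 0x2000018000000000000000000000) := D_10 (nat_lit 88) (nat_lit 109) (nat_lit 87) (nat_lit 3) (nat_lit 3) (nat_lit 5) (nat_lit 3) (nat_lit 2) (nat_lit 5) (by decide +kernel)
theorem L56328 : W_10 (nat_lit 3) (nat_lit 0x2000000017000d00008000e0000000000000000000000) (nat_lit 0x0) (nat_lit 0x4000000000003000018000000000000000000000) := T_10 (nat_lit 108) (nat_lit 158) (nat_lit 6) (nat_lit 5) (nat_lit 9) L56327 (by decide +kernel)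
theorem L56329 : W_10 (nat_lit 4) (nat_lit 0x2000000017000d00008000c0000000000000000000000) (nat_lit 0x0) (nat_lit 0x4000000000003000038001000000000000000000) := T_10 (nat_lit 89) (nat_lit 72) (nat_lit 4) (nat_lit 5) (nat_lit 8) L56328 (by decide +kernel)
theorem L56330 : W_10 (nat_lit 5) (nat_lit 0x2000000017000d0000800040000000000000000000000) (nat_lit 0x0) (nat_lit 0x40000000000030000b8005000000000000000000) := T_10 (nat_lit 91) (nat_lit 74) (nat_lit 6) (nat_lit 5) (nat_lit 8) L56329 (by decide +kernel)
theorem L56331 : W_10 (nat_lit 6) (nat_lit 0x2000000013000d0000800040000000000000000000000) (nat_lit 0x0) (nat_lit 0xc0004000000030000b8005000000000000000000) := T_10 (nat_lit 142) (nat_lit 159) (nat_lit 7) (nat_lit 5) (nat_lit 5) L56330 (by decide +kernel)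
theorem L56332 : W_10 (nat_lit 7) (nat_lit 0x200000001300090000800040000000000000000000000) (nat_lit 0x0) (nat_lit 0xc0004000600030000b8005000000000000000000) := T_10 (nat_lit 126) (nat_lit 125) (nat_lit 1) (nat_lit 8) (nat_lit 7) L56331 (by decide +kernel)
theorem L56333 : W_10 (nat_lit 4) (nat_lit 0x2000000017000d00008000c0000000000000000000000) (nat_lit 0x0) (nat_lit 0x4000000000000700120001000000000000000000) := T_10 (nat_lit 89) (nat_lit 72) (nat_lit 4) (nat_lit 5) (nat_lit 8) L39770 (by decide +kernel)
theorem L56334 : W_10 (nat_lit 5) (nat_lit 0x2000000013000d00008000c0000000000000000000000) (nat_lit 0x0) (nat_lit 0xc000400000000700120001000000000000000000) := T_10 (nat_lit 142) (nat_lit 159) (nat_lit 7) (nat_lit 5) (nat_lit 5) L56333 (by decide +kernel)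
theorem L56335 : W_10 (nat_lit 6) (nat_lit 0x2000000013000900008000c0000000000000000000000) (nat_lit 0x0) (nat_lit 0xc000400060000700120001000000000000000000) := T_10 (nat_lit 126) (nat_lit 125) (nat_lit 1) (nat_lit 8) (nat_lit 7) L56334 (by decide +kernel)
theorem L56336 : W_10 (nat_lit 7) (nat_lit 0x200000001300090000800040000000000000000000000) (nat_lit 0x0) (nat_lit 0xc0004000600007001a0005000000000000000000) := T_10 (nat_lit 91) (nat_lit 74) (nat_lit 6) (nat_lit 5) (nat_lit 8) L56335 (by decide +kernel)
theorem L56337 : W_10 (nat_lit 2) (nat_lit 0x2000000013000b00008000e0000000000000000000000) (nat_lit 0x0) (nat_lit 0x8000400000000000000002000000000000000000) := D_10 (nat_lit 142) (nat_lit 159) (nat_lit 73) (nat_lit 7) (nat_lit 5) (nat_lit 5) (nat_lit 7) (nat_lit 5) (nat_lit 4) (by decide +kernel)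
theorem L56338 : W_10 (nat_lit 3) (nat_lit 0x2000000013000900008000e0000000000000000000000) (nat_lit 0x0) (nat_lit 0x8000400060000000000002000000000000000000) := T_10 (nat_lit 125) (nat_lit 126) (nat_lit 1) (nat_lit 8) (nat_lit 7) L56337 (by decide +kernel)
theorem L56339 : W_10 (nat_lit 4) (nat_lit 0x200000001300090000800060000000000000000000000) (nat_lit 0x0) (nat_lit 0x8000400060000000080006000000000000000000) := T_10 (nat_lit 91) (nat_lit 74) (nat_lit 6) (nat_lit 5) (nat_lit 8) L56338 (by decide +kernel)
theorem L56340 : W_10 (nat_lit 5) (nat_lit 0x200000001300090000800040000000000000000000000) (nat_lit 0x0) (nat_lit 0x80004000600000000a0007000000000000000000) := T_10 (nat_lit 89) (nat_lit 72) (nat_lit 4) (nat_lit 5) (nat_lit 8) L56339 (by decide +kernel)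
theorem L56341 : W_10 (nat_lit 2) (nat_lit 0x200000001700090000800040000000000000000000000) (nat_lit 0x0) (nat_lit 0x60000000000002000000000000000000) := D_10 (nat_lit 125) (nat_lit 73) (nat_lit 126) (nat_lit 7) (nat_lit 5) (nat_lit 4) (nat_lit 1) (nat_lit 8) (nat_lit 7) (by decide +kernel)
theorem L56342 : W_10 (nat_lit 3) (nat_lit 0x200000001300090000800040000000000000000000000) (nat_lit 0x0) (nat_lit 0x8000400060000000000002000000000000000000) := T_10 (nat_lit 142) (nat_lit 159) (nat_lit 7) (nat_lit 5) (nat_lit 5) L56341 (by decide +kernel)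
theorem L56343 : W_10 (nat_lit 8) (nat_lit 0x200000001300090000800000000000000000000000000) (nat_lit 0x0) (nat_lit 0xc0004000600037001f8007000000000000000000) := Q_10 (nat_lit 90) (C_10 L56155 (C_10 L56332 (C_10 L56336 (C_10 L56340 (C_10 L56342 N_10))))) (by decide +kernel)
theorem L56344 : W_10 (nat_lit 7) (nat_lit 0x2000000013000d0000800000000000000000000000000) (nat_lit 0x0) (nat_lit 0xe0004000000030000f8005000000000000000000) := T_10 (nat_lit 90) (nat_lit 157) (nat_lit 5) (nat_lit 5) (nat_lit 5) L56331 (by decide +kernel)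
theorem L56345 : W_10 (nat_lit 8) (nat_lit 0x200000001300090000800000000000000000000000000) (nat_lit 0x0) (nat_lit 0xe0004000600030000f8005000000000000000000) := T_10 (nat_lit 126) (nat_lit 125) (nat_lit 1) (nat_lit 8) (nat_lit 7) L56344 (by decide +kernel)
theorem L56346 : W_10 (nat_lit 2) (nat_lit 0x3400040013000d0000800000000000000000000000000) (nat_lit 0x0) (nat_lit 0x2800080000000000000000000000000000000000000000000) := D_10 (nat_lit 175) (nat_lit 191) (nat_lit 193) (nat_lit 5) (nat_lit 5) (nat_lit 7) (nat_lit 7) (nat_lit 5) (nat_lit 7) (by decide +kernel)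
theorem L56347 : W_10 (nat_lit 3) (nat_lit 0x2400040013000d0000800000000000000000000000000) (nat_lit 0x0) (nat_lit 0x2800180008000000000000000000000000000000000000000) := T_10 (nat_lit 176) (nat_lit 159) (nat_lit 7) (nat_lit 5) (nat_lit 6) L56346 (by decide +kernel)
theorem L56348 : W_10 (nat_lit 4) (nat_lit 0x2000040013000d0000800000000000000000000000000) (nat_lit 0x0) (nat_lit 0x28001c000a000000000000000000000000000000000000000) := T_10 (nat_lit 174) (nat_lit 157) (nat_lit 5) (nat_lit 5) (nat_lit 6) L56347 (by decide +kernel)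
theorem L56349 : W_10 (nat_lit 5) (nat_lit 0x200004001300090000800000000000000000000000000) (nat_lit 0x0) (nat_lit 0x28001c000a000000060000000000000000000000000000000) := T_10 (nat_lit 126) (nat_lit 125) (nat_lit 1) (nat_lit 8) (nat_lit 7) L56348 (by decide +kernel)
theorem L56350 : W_10 (nat_lit 2) (nat_lit 0x20000e0013800b0001e00000000000000000000000000) (nat_lit 0x0) (nat_lit 0x6000000010000000000000000000000) := D_10 (nat_lit 122) (nat_lit 121) (nat_lit 88) (nat_lit 1) (nat_lit 6) (nat_lit 6) (nat_lit 7) (nat_lit 3) (nat_lit 5) (by decide +kernel)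
theorem L56351 : W_10 (nat_lit 3) (nat_lit 0x20000e0013800b0001c00000000000000000000000000) (nat_lit 0x0) (nat_lit 0x6000300010000000000000000000000) := T_10 (nat_lit 105) (nat_lit 104) (nat_lit 3) (nat_lit 2) (nat_lit 6) L56350 (by decide +kernel)
theorem L56352 : W_10 (nat_lit 4) (nat_lit 0x20000e0013800b0001800000000000000000000000000) (nat_lit 0x0) (nat_lit 0x6000700030000000000000000000000) := T_10 (nat_lit 106) (nat_lit 89) (nat_lit 4) (nat_lit 5) (nat_lit 9) L56351 (by decide +kernel)
theorem L56353 : W_10 (nat_lit 5) (nat_lit 0x20000e001380090001800000000000000000000000000) (nat_lit 0x0) (nat_lit 0x80000000000026000700030000000000000000000000) := T_10 (nat_lit 125) (nat_lit 175) (nat_lit 6) (nat_lit 5) (nat_lit 10) L56352 (by decide +kernel)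
theorem L56354 : W_10 (nat_lit 6) (nat_lit 0x20000e001300090001800000000000000000000000000) (nat_lit 0x0) (nat_lit 0x800000000c0026000700030000000000000000000000) := T_10 (nat_lit 139) (nat_lit 138) (nat_lit 3) (nat_lit 2) (nat_lit 8) L56353 (by decide +kernel)
theorem L56355 : W_10 (nat_lit 7) (nat_lit 0x200006001300090001800000000000000000000000000) (nat_lit 0x0) (nat_lit 0x1800080000c0026000700030000000000000000000000) := T_10 (nat_lit 159) (nat_lit 176) (nat_lit 7) (nat_lit 5) (nat_lit 6) L56354 (by decide +kernel)
theorem L56356 : W_10 (nat_lit 8) (nat_lit 0x200006001300090000800000000000000000000000000) (nat_lit 0x0) (nat_lit 0x1800080000c00260017000b0000000000000000000000) := T_10 (nat_lit 108) (nat_lit 91) (nat_lit 6) (nat_lit 5) (nat_lit 9) L56355 (by decide +kernel)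
theorem L56357 : W_10 (nat_lit 9) (nat_lit 0x200004001300090000800000000000000000000000000) (nat_lit 0x0) (nat_lit 0x1c000a0000c00260017000b0000000000000000000000) := T_10 (nat_lit 157) (nat_lit 174) (nat_lit 5) (nat_lit 5) (nat_lit 6) L56356 (by decide +kernel)
theorem L56358 : W_10 (nat_lit 10) (nat_lit 0x200000001300090000800000000000000000000000000) (nat_lit 0x0) (nat_lit 0x28001c000e0000c00660037003b0000000000000000000000) := Q_10 (nat_lit 158) (C_10 L56304 (C_10 L56188 (C_10 L56170 (C_10 L56349 (C_10 L56357 N_10))))) (by decide +kernel)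
theorem L56359 : W_10 (nat_lit 3) (nat_lit 0x2000000017000d0000c00060000000000000000000000) (nat_lit 0x0) (nat_lit 0x300180004000000000000000000) := T_10 (nat_lit 91) (nat_lit 74) (nat_lit 6) (nat_lit 5) (nat_lit 8) L39769 (by decide +kernel)
theorem L56360 : W_10 (nat_lit 4) (nat_lit 0x2000000017000d0000800060000000000000000000000) (nat_lit 0x0) (nat_lit 0x4000000000000700180004000000000000000000) := T_10 (nat_lit 106) (nat_lit 158) (nat_lit 4) (nat_lit 5) (nat_lit 9) L56359 (by decide +kernel)
theorem L56361 : W_10 (nat_lit 5) (nat_lit 0x2000000013000d0000800060000000000000000000000) (nat_lit 0x0) (nat_lit 0xc000400000000700180004000000000000000000) := T_10 (nat_lit 142) (nat_lit 159) (nat_lit 7) (nat_lit 5) (nat_lit 5) L56360 (by decide +kernel)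
theorem L56362 : W_10 (nat_lit 6) (nat_lit 0x2000000013000d0000800040000000000000000000000) (nat_lit 0x0) (nat_lit 0xc0004000000007001a0005000000000000000000) := T_10 (nat_lit 89) (nat_lit 72) (nat_lit 4) (nat_lit 5) (nat_lit 8) L56361 (by decide +kernel)
theorem L56363 : W_10 (nat_lit 7) (nat_lit 0x2000000013000d0000800000000000000000000000000) (nat_lit 0x0) (nat_lit 0xe0004000000007001e0005000000000000000000) := T_10 (nat_lit 90) (nat_lit 157) (nat_lit 5) (nat_lit 5) (nat_lit 5) L56362 (by decide +kernel)
theorem L56364 : W_10 (nat_lit 8) (nat_lit 0x200000001300090000800000000000000000000000000) (nat_lit 0x0) (nat_lit 0xe0004000600007001e0005000000000000000000) := T_10 (nat_lit 126) (nat_lit 125) (nat_lit 1) (nat_lit 8) (nat_lit 7) L56363 (by decide +kernel)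
theorem L56365 : W_10 (nat_lit 4) (nat_lit 0x200000001300090000800000000000000000000000000) (nat_lit 0x0) (nat_lit 0xa000400060000000040002000000000000000000) := T_10 (nat_lit 90) (nat_lit 157) (nat_lit 5) (nat_lit 5) (nat_lit 5) L56342 (by decide +kernel)
theorem L56366 : W_10 (nat_lit 11) (nat_lit 0x200000001300090000000000000000000000000000000) (nat_lit 0x0) (nat_lit 0x28001c000e0004c0066003f003f8007000000000000000000) := Q_10 (nat_lit 107) (C_10 L56156 (C_10 L56343 (C_10 L56345 (C_10 L56358 (C_10 L56364 (C_10 L56365 N_10)))))) (by decide +kernel)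
theorem L56367 : W_10 (nat_lit 2) (nat_lit 0x2000000013800900008000e0000000000000000000000) (nat_lit 0x0) (nat_lit 0x4000000000001400000000000000000000000000) := D_10 (nat_lit 158) (nat_lit 106) (nat_lit 108) (nat_lit 4) (nat_lit 5) (nat_lit 9) (nat_lit 6) (nat_lit 5) (nat_lit 9) (by decide +kernel)
theorem L56368 : W_10 (nat_lit 3) (nat_lit 0x200000001380090000800060000000000000000000000) (nat_lit 0x0) (nat_lit 0x4000000000001400080004000000000000000000) := T_10 (nat_lit 91) (nat_lit 74) (nat_lit 6) (nat_lit 5) (nat_lit 8) L56367 (by decide +kernel)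
theorem L56369 : W_10 (nat_lit 4) (nat_lit 0x200000001380090000800040000000000000000000000) (nat_lit 0x0) (nat_lit 0x40000000000014000a0005000000000000000000) := T_10 (nat_lit 89) (nat_lit 72) (nat_lit 4) (nat_lit 5) (nat_lit 8) L56368 (by decide +kernel)
theorem L56370 : W_10 (nat_lit 2) (nat_lit 0x2000010017800940018000e0002000000000000000000) (nat_lit 0x0) (nat_lit 0x2000018000000000000000000000) := D_10 (nat_lit 88) (nat_lit 109) (nat_lit 87) (nat_lit 3) (nat_lit 3) (nat_lit 5) (nat_lit 3) (nat_lit 2) (nat_lit 5) (by decide +kernel)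
theorem L56371 : W_10 (nat_lit 3) (nat_lit 0x2000010017800940008000e0002000000000000000000) (nat_lit 0x0) (nat_lit 0x4000000000003000018000000000000000000000) := T_10 (nat_lit 108) (nat_lit 158) (nat_lit 6) (nat_lit 5) (nat_lit 9) L56370 (by decide +kernel)
theorem L56372 : W_10 (nat_lit 4) (nat_lit 0x2000010017800940008000e0000000000000000000000) (nat_lit 0x0) (nat_lit 0x4000000008003000018002000000000000000000) := T_10 (nat_lit 73) (nat_lit 123) (nat_lit 5) (nat_lit 5) (nat_lit 4) L56371 (by decide +kernel)
theorem L56373 : W_10 (nat_lit 5) (nat_lit 0x200001001780094000800060000000000000000000000) (nat_lit 0x0) (nat_lit 0x4000000008003000098006000000000000000000) := T_10 (nat_lit 91) (nat_lit 74) (nat_lit 6) (nat_lit 5) (nat_lit 8) L56372 (by decide +kernel)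
theorem L56374 : W_10 (nat_lit 6) (nat_lit 0x200001001780090000800060000000000000000000000) (nat_lit 0x0) (nat_lit 0x400000000e003000098006000000000000000000) := T_10 (nat_lit 122) (nat_lit 121) (nat_lit 0) (nat_lit 6) (nat_lit 8) L56373 (by decide +kernel)
theorem L56375 : W_10 (nat_lit 7) (nat_lit 0x200000001780090000800060000000000000000000000) (nat_lit 0x0) (nat_lit 0x580000000e003000098006000000000000000000) := T_10 (nat_lit 156) (nat_lit 155) (nat_lit 1) (nat_lit 6) (nat_lit 8) L56374 (by decide +kernel)
theorem L56376 : W_10 (nat_lit 8) (nat_lit 0x200000001380090000800060000000000000000000000) (nat_lit 0x0) (nat_lit 0xd80040000e003000098006000000000000000000) := T_10 (nat_lit 142) (nat_lit 159) (nat_lit 7) (nat_lit 5) (nat_lit 5) L56375 (by decide +kernel)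
theorem L56377 : W_10 (nat_lit 9) (nat_lit 0x200000001380090000800040000000000000000000000) (nat_lit 0x0) (nat_lit 0xd80040000e0030000b8007000000000000000000) := T_10 (nat_lit 89) (nat_lit 72) (nat_lit 4) (nat_lit 5) (nat_lit 8) L56376 (by decide +kernel)
theorem L56378 : W_10 (nat_lit 2) (nat_lit 0x2000010017800900008000e0000000000000000000000) (nat_lit 0x0) (nat_lit 0x8000400000002000000000000000000) := D_10 (nat_lit 123) (nat_lit 73) (nat_lit 106) (nat_lit 5) (nat_lit 5) (nat_lit 4) (nat_lit 5) (nat_lit 4) (nat_lit 5) (by decide +kernel)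
theorem L56379 : W_10 (nat_lit 3) (nat_lit 0x2000000017800900008000e0000000000000000000000) (nat_lit 0x0) (nat_lit 0x1800000008000400000002000000000000000000) := T_10 (nat_lit 156) (nat_lit 155) (nat_lit 1) (nat_lit 6) (nat_lit 8) L56378 (by decide +kernel)
theorem L56380 : W_10 (nat_lit 4) (nat_lit 0x2000000013800900008000e0000000000000000000000) (nat_lit 0x0) (nat_lit 0x9800400008000400000002000000000000000000) := T_10 (nat_lit 142) (nat_lit 159) (nat_lit 7) (nat_lit 5) (nat_lit 5) L56379 (by decide +kernel)
theorem L56381 : W_10 (nat_lit 5) (nat_lit 0x2000000013800900008000c0000000000000000000000) (nat_lit 0x0) (nat_lit 0x9800400008000400020003000000000000000000) := T_10 (nat_lit 89) (nat_lit 72) (nat_lit 4) (nat_lit 5) (nat_lit 8) L56380 (by decide +kernel)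
theorem L56382 : W_10 (nat_lit 6) (nat_lit 0x200000001380090000800040000000000000000000000) (nat_lit 0x0) (nat_lit 0x98004000080004000a0007000000000000000000) := T_10 (nat_lit 91) (nat_lit 74) (nat_lit 6) (nat_lit 5) (nat_lit 8) L56381 (by decide +kernel)
theorem L56383 : W_10 (nat_lit 2) (nat_lit 0x200001001780090000800060000000000000000000000) (nat_lit 0x0) (nat_lit 0x8000400000002000000000000000000) := D_10 (nat_lit 123) (nat_lit 73) (nat_lit 106) (nat_lit 5) (nat_lit 5) (nat_lit 4) (nat_lit 5) (nat_lit 4) (nat_lit 5) (by decide +kernel)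
theorem L56384 : W_10 (nat_lit 3) (nat_lit 0x200000001780090000800060000000000000000000000) (nat_lit 0x0) (nat_lit 0x1800000008000400000002000000000000000000) := T_10 (nat_lit 156) (nat_lit 155) (nat_lit 1) (nat_lit 6) (nat_lit 8) L56383 (by decide +kernel)
theorem L56385 : W_10 (nat_lit 4) (nat_lit 0x200000001380090000800060000000000000000000000) (nat_lit 0x0) (nat_lit 0x9800400008000400000002000000000000000000) := T_10 (nat_lit 142) (nat_lit 159) (nat_lit 7) (nat_lit 5) (nat_lit 5) L56384 (by decide +kernel)
theorem L56386 : W_10 (nat_lit 5) (nat_lit 0x200000001380090000800040000000000000000000000) (nat_lit 0x0) (nat_lit 0x9800400008000400020003000000000000000000) := T_10 (nat_lit 89) (nat_lit 72) (nat_lit 4) (nat_lit 5) (nat_lit 8) L56385 (by decide +kernel)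
theorem L56387 : W_10 (nat_lit 2) (nat_lit 0x20000500178009c0008000c0000000000000000000000) (nat_lit 0x0) (nat_lit 0x1000080000000000000000400000000000000000000000000) := D_10 (nat_lit 175) (nat_lit 192) (nat_lit 106) (nat_lit 4) (nat_lit 5) (nat_lit 11) (nat_lit 4) (nat_lit 5) (nat_lit 10) (by decide +kernel)
theorem L56388 : W_10 (nat_lit 3) (nat_lit 0x2000050017800940008000c0000000000000000000000) (nat_lit 0x0) (nat_lit 0x1000080000000000008000400000002000000000000000000) := T_10 (nat_lit 123) (nat_lit 73) (nat_lit 5) (nat_lit 5) (nat_lit 4) L56387 (by decide +kernel)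
theorem L56389 : W_10 (nat_lit 4) (nat_lit 0x2000010017800940008000c0000000000000000000000) (nat_lit 0x0) (nat_lit 0x1000080004000000008001400000002000000000000000000) := T_10 (nat_lit 158) (nat_lit 108) (nat_lit 6) (nat_lit 5) (nat_lit 9) L56388 (by decide +kernel)
theorem L56390 : W_10 (nat_lit 5) (nat_lit 0x2000010017800900008000c0000000000000000000000) (nat_lit 0x0) (nat_lit 0x100008000400000000e001400000002000000000000000000) := T_10 (nat_lit 122) (nat_lit 121) (nat_lit 0) (nat_lit 6) (nat_lit 8) L56389 (by decide +kernel)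
theorem L56391 : W_10 (nat_lit 6) (nat_lit 0x2000000017800900008000c0000000000000000000000) (nat_lit 0x0) (nat_lit 0x100008000580000000e001400000002000000000000000000) := T_10 (nat_lit 156) (nat_lit 155) (nat_lit 1) (nat_lit 6) (nat_lit 8) L56390 (by decide +kernel)
theorem L56392 : W_10 (nat_lit 7) (nat_lit 0x2000000013800900008000c0000000000000000000000) (nat_lit 0x0) (nat_lit 0x100008000d80040000e001400000002000000000000000000) := T_10 (nat_lit 142) (nat_lit 159) (nat_lit 7) (nat_lit 5) (nat_lit 5) L56391 (by decide +kernel)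
theorem L56393 : W_10 (nat_lit 8) (nat_lit 0x200000001380090000800040000000000000000000000) (nat_lit 0x0) (nat_lit 0x100008000d80040000e001400080006000000000000000000) := T_10 (nat_lit 91) (nat_lit 74) (nat_lit 6) (nat_lit 5) (nat_lit 8) L56392 (by decide +kernel)
theorem L56394 : W_10 (nat_lit 10) (nat_lit 0x200000001380090000800000000000000000000000000) (nat_lit 0x0) (nat_lit 0x100008000d80040000e0034000f8007000000000000000000) := Q_10 (nat_lit 90) (C_10 L56369 (C_10 L56377 (C_10 L56382 (C_10 L56386 (C_10 L56393 N_10))))) (by decide +kernel)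
theorem L56395 : W_10 (nat_lit 2) (nat_lit 0x2000000013800d00008000c0002000000000000000000) (nat_lit 0x0) (nat_lit 0x20001000080000000000000) := D_10 (nat_lit 72) (nat_lit 55) (nat_lit 89) (nat_lit 4) (nat_lit 5) (nat_lit 7) (nat_lit 4) (nat_lit 5) (nat_lit 8) (by decide +kernel)
theorem L56396 : W_10 (nat_lit 3) (nat_lit 0x2000000013800d00008000c0000000000000000000000) (nat_lit 0x0) (nat_lit 0x8000000020003000080000000000000) := T_10 (nat_lit 73) (nat_lit 123) (nat_lit 5) (nat_lit 5) (nat_lit 4) L56395 (by decide +kernel)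
theorem L56397 : W_10 (nat_lit 4) (nat_lit 0x2000000013800d0000800040000000000000000000000) (nat_lit 0x0) (nat_lit 0x80000000a0007000080000000000000) := T_10 (nat_lit 91) (nat_lit 74) (nat_lit 6) (nat_lit 5) (nat_lit 8) L56396 (by decide +kernel)
theorem L56398 : W_10 (nat_lit 5) (nat_lit 0x200000001380090000800040000000000000000000000) (nat_lit 0x0) (nat_lit 0x680000000a0007000080000000000000) := T_10 (nat_lit 126) (nat_lit 125) (nat_lit 1) (nat_lit 8) (nat_lit 7) L56397 (by decide +kernel)
theorem L56399 : W_10 (nat_lit 2) (nat_lit 0x200000001780090000800060000000000000000000000) (nat_lit 0x0) (nat_lit 0x60000000000002000000000000000000) := D_10 (nat_lit 125) (nat_lit 73) (nat_lit 126) (nat_lit 7) (nat_lit 5) (nat_lit 4) (nat_lit 2) (nat_lit 3) (nat_lit 8) (by decide +kernel)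
theorem L56400 : W_10 (nat_lit 3) (nat_lit 0x200000001380090000800060000000000000000000000) (nat_lit 0x0) (nat_lit 0x8000400060000000000002000000000000000000) := T_10 (nat_lit 142) (nat_lit 159) (nat_lit 7) (nat_lit 5) (nat_lit 5) L56399 (by decide +kernel)
theorem L56401 : W_10 (nat_lit 4) (nat_lit 0x200000001380090000800040000000000000000000000) (nat_lit 0x0) (nat_lit 0x8000400060000000020003000000000000000000) := T_10 (nat_lit 89) (nat_lit 72) (nat_lit 4) (nat_lit 5) (nat_lit 8) L56400 (by decide +kernel)
theorem L56402 : W_10 (nat_lit 2) (nat_lit 0x2000000013800900008000c0002000000000000000000) (nat_lit 0x0) (nat_lit 0x400060000000000000000000000000000000) := D_10 (nat_lit 125) (nat_lit 126) (nat_lit 142) (nat_lit 1) (nat_lit 8) (nat_lit 7) (nat_lit 7) (nat_lit 5) (nat_lit 4) (by decide +kernel)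
theorem L56403 : W_10 (nat_lit 3) (nat_lit 0x2000000013800900008000c0000000000000000000000) (nat_lit 0x0) (nat_lit 0x400068000000000002000000000000000000) := T_10 (nat_lit 73) (nat_lit 123) (nat_lit 5) (nat_lit 5) (nat_lit 4) L56402 (by decide +kernel)
theorem L56404 : W_10 (nat_lit 4) (nat_lit 0x200000001380090000800040000000000000000000000) (nat_lit 0x0) (nat_lit 0x400068000000080006000000000000000000) := T_10 (nat_lit 91) (nat_lit 74) (nat_lit 6) (nat_lit 5) (nat_lit 8) L56403 (by decide +kernel)
theorem L56405 : W_10 (nat_lit 3) (nat_lit 0x2000000017800b40008000e0000000000000000000000) (nat_lit 0x0) (nat_lit 0x1800000008000600000000000000000000000000) := T_10 (nat_lit 156) (nat_lit 155) (nat_lit 1) (nat_lit 6) (nat_lit 8) L31988 (by decide +kernel)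
theorem L56406 : W_10 (nat_lit 4) (nat_lit 0x2000000017800b00008000e0000000000000000000000) (nat_lit 0x0) (nat_lit 0x180000000e000600000000000000000000000000) := T_10 (nat_lit 122) (nat_lit 121) (nat_lit 0) (nat_lit 6) (nat_lit 8) L56405 (by decide +kernel)
theorem L56407 : W_10 (nat_lit 5) (nat_lit 0x2000000017800900008000e0000000000000000000000) (nat_lit 0x0) (nat_lit 0x180000006e000600000000000000000000000000) := T_10 (nat_lit 125) (nat_lit 126) (nat_lit 2) (nat_lit 3) (nat_lit 8) L56406 (by decide +kernel)
theorem L56408 : W_10 (nat_lit 6) (nat_lit 0x2000000013800900008000e0000000000000000000000) (nat_lit 0x0) (nat_lit 0x980040006e000600000000000000000000000000) := T_10 (nat_lit 142) (nat_lit 159) (nat_lit 7) (nat_lit 5) (nat_lit 5) L56407 (by decide +kernel)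
theorem L56409 : W_10 (nat_lit 7) (nat_lit 0x200000001380090000800060000000000000000000000) (nat_lit 0x0) (nat_lit 0x980040006e000600080004000000000000000000) := T_10 (nat_lit 91) (nat_lit 74) (nat_lit 6) (nat_lit 5) (nat_lit 8) L56408 (by decide +kernel)
theorem L56410 : W_10 (nat_lit 8) (nat_lit 0x200000001380090000800040000000000000000000000) (nat_lit 0x0) (nat_lit 0x980040006e0006000a0005000000000000000000) := T_10 (nat_lit 89) (nat_lit 72) (nat_lit 4) (nat_lit 5) (nat_lit 8) L56409 (by decide +kernel)
theorem L56411 : W_10 (nat_lit 9) (nat_lit 0x200000001380090000800000000000000000000000000) (nat_lit 0x0) (nat_lit 0x980040006e0006000e0007000080000000000000) := Q_10 (nat_lit 90) (C_10 L56398 (C_10 L56386 (C_10 L56401 (C_10 L56404 (C_10 L56410 N_10))))) (by decide +kernel)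
theorem L56412 : W_10 (nat_lit 2) (nat_lit 0x2000010017800d4001c000c0000000000000000000000) (nat_lit 0x0) (nat_lit 0x300100000000000000000000000) := D_10 (nat_lit 105) (nat_lit 92) (nat_lit 104) (nat_lit 2) (nat_lit 3) (nat_lit 6) (nat_lit 2) (nat_lit 2) (nat_lit 6) (by decide +kernel)
theorem L56413 : W_10 (nat_lit 3) (nat_lit 0x2000010017800d40018000c0000000000000000000000) (nat_lit 0x0) (nat_lit 0x2700100000000000000000000000) := T_10 (nat_lit 106) (nat_lit 109) (nat_lit 3) (nat_lit 4) (nat_lit 6) L56412 (by decide +kernel)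
theorem L56414 : W_10 (nat_lit 4) (nat_lit 0x2000010017800d40008000c0000000000000000000000) (nat_lit 0x0) (nat_lit 0x4000000000003700100000000000000000000000) := T_10 (nat_lit 108) (nat_lit 158) (nat_lit 6) (nat_lit 5) (nat_lit 9) L56413 (by decide +kernel)
theorem L56415 : W_10 (nat_lit 5) (nat_lit 0x2000010017800d00008000c0000000000000000000000) (nat_lit 0x0) (nat_lit 0x4000000006003700100000000000000000000000) := T_10 (nat_lit 122) (nat_lit 121) (nat_lit 0) (nat_lit 6) (nat_lit 8) L56414 (by decide +kernel)
theorem L56416 : W_10 (nat_lit 6) (nat_lit 0x2000000017800d00008000c0000000000000000000000) (nat_lit 0x0) (nat_lit 0x5800000006003700100000000000000000000000) := T_10 (nat_lit 156) (nat_lit 155) (nat_lit 1) (nat_lit 6) (nat_lit 8) L56415 (by decide +kernel)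
theorem L56417 : W_10 (nat_lit 7) (nat_lit 0x2000000013800d00008000c0000000000000000000000) (nat_lit 0x0) (nat_lit 0xd800400006003700100000000000000000000000) := T_10 (nat_lit 142) (nat_lit 159) (nat_lit 7) (nat_lit 5) (nat_lit 5) L56416 (by decide +kernel)
theorem L56418 : W_10 (nat_lit 8) (nat_lit 0x2000000013800d0000800040000000000000000000000) (nat_lit 0x0) (nat_lit 0xd800400006003700180004000000000000000000) := T_10 (nat_lit 91) (nat_lit 74) (nat_lit 6) (nat_lit 5) (nat_lit 8) L56417 (by decide +kernel)
theorem L56419 : W_10 (nat_lit 9) (nat_lit 0x200000001380090000800040000000000000000000000) (nat_lit 0x0) (nat_lit 0xd800400066003700180004000000000000000000) := T_10 (nat_lit 126) (nat_lit 125) (nat_lit 1) (nat_lit 8) (nat_lit 7) L56418 (by decide +kernel)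
theorem L56420 : W_10 (nat_lit 10) (nat_lit 0x200000001380090000800000000000000000000000000) (nat_lit 0x0) (nat_lit 0xd8004000660037001e0007000000000000000000) := Q_10 (nat_lit 90) (C_10 L56369 (C_10 L56401 (C_10 L56419 N_10))) (by decide +kernel)
theorem L56421 : W_10 (nat_lit 2) (nat_lit 0x20000c0013800d0001800000000000000000000000000) (nat_lit 0x0) (nat_lit 0x2400020000000000000000000000) := D_10 (nat_lit 106) (nat_lit 109) (nat_lit 89) (nat_lit 3) (nat_lit 4) (nat_lit 6) (nat_lit 4) (nat_lit 5) (nat_lit 9) (by decide +kernel)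
theorem L56422 : W_10 (nat_lit 3) (nat_lit 0x20000c0013800d0000800000000000000000000000000) (nat_lit 0x0) (nat_lit 0x34000a0000000000000000000000) := T_10 (nat_lit 108) (nat_lit 91) (nat_lit 6) (nat_lit 5) (nat_lit 9) L56421 (by decide +kernel)
theorem L56423 : W_10 (nat_lit 4) (nat_lit 0x2000040013800d0000800000000000000000000000000) (nat_lit 0x0) (nat_lit 0x1000080000000000034000a0000000000000000000000) := T_10 (nat_lit 159) (nat_lit 176) (nat_lit 7) (nat_lit 5) (nat_lit 6) L56422 (by decide +kernel)
theorem L56424 : W_10 (nat_lit 5) (nat_lit 0x200004001380090000800000000000000000000000000) (nat_lit 0x0) (nat_lit 0x1000080000000600034000a0000000000000000000000) := T_10 (nat_lit 126) (nat_lit 125) (nat_lit 1) (nat_lit 8) (nat_lit 7) L56423 (by decide +kernel)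
theorem L56425 : W_10 (nat_lit 2) (nat_lit 0x20000c001380098001c00000000000000000000000000) (nat_lit 0x0) (nat_lit 0x44002000000000000000000000000000) := D_10 (nat_lit 109) (nat_lit 126) (nat_lit 122) (nat_lit 3) (nat_lit 4) (nat_lit 6) (nat_lit 1) (nat_lit 7) (nat_lit 6) (by decide +kernel)
theorem L56426 : W_10 (nat_lit 3) (nat_lit 0x20000c001380098000c00000000000000000000000000) (nat_lit 0x0) (nat_lit 0x44003000080000000000000000000000) := T_10 (nat_lit 108) (nat_lit 91) (nat_lit 6) (nat_lit 5) (nat_lit 9) L56425 (by decide +kernel)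
theorem L56427 : W_10 (nat_lit 4) (nat_lit 0x20000c001380090000c00000000000000000000000000) (nat_lit 0x0) (nat_lit 0x8000000000004c003000080000000000000000000000) := T_10 (nat_lit 123) (nat_lit 175) (nat_lit 4) (nat_lit 5) (nat_lit 10) L56426 (by decide +kernel)
theorem L56428 : W_10 (nat_lit 5) (nat_lit 0x200004001380090000c00000000000000000000000000) (nat_lit 0x0) (nat_lit 0x18000800000004c003000080000000000000000000000) := T_10 (nat_lit 159) (nat_lit 176) (nat_lit 7) (nat_lit 5) (nat_lit 6) L56427 (by decide +kernel)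
theorem L56429 : W_10 (nat_lit 6) (nat_lit 0x200004001380090000800000000000000000000000000) (nat_lit 0x0) (nat_lit 0x18000800000004c0034000a0000000000000000000000) := T_10 (nat_lit 106) (nat_lit 89) (nat_lit 4) (nat_lit 5) (nat_lit 9) L56428 (by decide +kernel)
theorem L56430 : W_10 (nat_lit 2) (nat_lit 0x2000040013800d0000c00000000000000000000000000) (nat_lit 0x0) (nat_lit 0x3000080000000000000000000000) := D_10 (nat_lit 108) (nat_lit 91) (nat_lit 109) (nat_lit 6) (nat_lit 5) (nat_lit 9) (nat_lit 3) (nat_lit 4) (nat_lit 6) (by decide +kernel)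
theorem L56431 : W_10 (nat_lit 3) (nat_lit 0x200004001380090000c00000000000000000000000000) (nat_lit 0x0) (nat_lit 0x60003000080000000000000000000000) := T_10 (nat_lit 126) (nat_lit 125) (nat_lit 1) (nat_lit 8) (nat_lit 7) L56430 (by decide +kernel)
theorem L56432 : W_10 (nat_lit 4) (nat_lit 0x200004001380090000800000000000000000000000000) (nat_lit 0x0) (nat_lit 0x600034000a0000000000000000000000) := T_10 (nat_lit 106) (nat_lit 89) (nat_lit 4) (nat_lit 5) (nat_lit 9) L56431 (by decide +kernel)
theorem L56433 : W_10 (nat_lit 2) (nat_lit 0x20000c0013800d00008000c0002000000000000000000) (nat_lit 0x0) (nat_lit 0x20001000080000000000000) := D_10 (nat_lit 72) (nat_lit 55) (nat_lit 89) (nat_lit 4) (nat_lit 5) (nat_lit 7) (nat_lit 4) (nat_lit 5) (nat_lit 8) (by decide +kernel)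
theorem L56434 : W_10 (nat_lit 3) (nat_lit 0x20000c0013800d00008000c0000000000000000000000) (nat_lit 0x0) (nat_lit 0x8000000020003000080000000000000) := T_10 (nat_lit 73) (nat_lit 123) (nat_lit 5) (nat_lit 5) (nat_lit 4) L56433 (by decide +kernel)
theorem L56435 : W_10 (nat_lit 4) (nat_lit 0x20000c0013800d0000800080000000000000000000000) (nat_lit 0x0) (nat_lit 0x8000000060007000080000000000000) := T_10 (nat_lit 90) (nat_lit 74) (nat_lit 6) (nat_lit 5) (nat_lit 8) L56434 (by decide +kernel)
theorem L56436 : W_10 (nat_lit 5) (nat_lit 0x20000c0013800d0000800000000000000000000000000) (nat_lit 0x0) (nat_lit 0x80010000e0007000080000000000000) := T_10 (nat_lit 91) (nat_lit 108) (nat_lit 6) (nat_lit 5) (nat_lit 9) L56435 (by decide +kernel)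
theorem L56437 : W_10 (nat_lit 6) (nat_lit 0x20000c001380090000800000000000000000000000000) (nat_lit 0x0) (nat_lit 0x680010000e0007000080000000000000) := T_10 (nat_lit 126) (nat_lit 125) (nat_lit 1) (nat_lit 8) (nat_lit 7) L56436 (by decide +kernel)
theorem L56438 : W_10 (nat_lit 7) (nat_lit 0x200004001380090000800000000000000000000000000) (nat_lit 0x0) (nat_lit 0x1000080000000680010000e0007000080000000000000) := T_10 (nat_lit 159) (nat_lit 176) (nat_lit 7) (nat_lit 5) (nat_lit 6) L56437 (by decide +kernel)
theorem L56439 : W_10 (nat_lit 2) (nat_lit 0x2800040013800d0000c00000000000000000000000000) (nat_lit 0x0) (nat_lit 0x2000100008000000000000000000000000000000000000000) := D_10 (nat_lit 176) (nat_lit 159) (nat_lit 193) (nat_lit 7) (nat_lit 5) (nat_lit 6) (nat_lit 7) (nat_lit 5) (nat_lit 7) (by decide +kernel)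
theorem L56440 : W_10 (nat_lit 3) (nat_lit 0x2000040013800d0000c00000000000000000000000000) (nat_lit 0x0) (nat_lit 0x2000180008000000008000000000000000000000000000000) := T_10 (nat_lit 175) (nat_lit 123) (nat_lit 4) (nat_lit 5) (nat_lit 10) L56439 (by decide +kernel)
theorem L56441 : W_10 (nat_lit 4) (nat_lit 0x200004001380090000c00000000000000000000000000) (nat_lit 0x0) (nat_lit 0x2000180008000000068000000000000000000000000000000) := T_10 (nat_lit 126) (nat_lit 125) (nat_lit 1) (nat_lit 8) (nat_lit 7) L56440 (by decide +kernel)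
theorem L56442 : W_10 (nat_lit 5) (nat_lit 0x200004001380090000800000000000000000000000000) (nat_lit 0x0) (nat_lit 0x2000180008000000068000400020000000000000000000000) := T_10 (nat_lit 106) (nat_lit 89) (nat_lit 4) (nat_lit 5) (nat_lit 9) L56441 (by decide +kernel)
theorem L56443 : W_10 (nat_lit 2) (nat_lit 0x20000c001380090001c00000000000000000000000000) (nat_lit 0x0) (nat_lit 0x80000000000028000000000000000000000000000000) := D_10 (nat_lit 175) (nat_lit 125) (nat_lit 123) (nat_lit 6) (nat_lit 5) (nat_lit 10) (nat_lit 4) (nat_lit 5) (nat_lit 10) (by decide +kernel)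
theorem L56444 : W_10 (nat_lit 3) (nat_lit 0x20000c001380090001800000000000000000000000000) (nat_lit 0x0) (nat_lit 0x80000000000028000400020000000000000000000000) := T_10 (nat_lit 106) (nat_lit 89) (nat_lit 4) (nat_lit 5) (nat_lit 9) L56443 (by decide +kernel)
theorem L56445 : W_10 (nat_lit 4) (nat_lit 0x20000c001380090000800000000000000000000000000) (nat_lit 0x0) (nat_lit 0x800000000000280014000a0000000000000000000000) := T_10 (nat_lit 108) (nat_lit 91) (nat_lit 6) (nat_lit 5) (nat_lit 9) L56444 (by decide +kernel)
theorem L56446 : W_10 (nat_lit 5) (nat_lit 0x200004001380090000800000000000000000000000000) (nat_lit 0x0) (nat_lit 0x1800080000000280014000a0000000000000000000000) := T_10 (nat_lit 159) (nat_lit 176) (nat_lit 7) (nat_lit 5) (nat_lit 6) L56445 (by decide +kernel)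
theorem L56447 : W_10 (nat_lit 2) (nat_lit 0x200004001380090001800000000000000000000000000) (nat_lit 0x0) (nat_lit 0x80000000000060000000000000000000000000000000) := D_10 (nat_lit 125) (nat_lit 126) (nat_lit 175) (nat_lit 1) (nat_lit 8) (nat_lit 7) (nat_lit 6) (nat_lit 5) (nat_lit 10) (by decide +kernel)
theorem L56448 : W_10 (nat_lit 3) (nat_lit 0x200004001380090000800000000000000000000000000) (nat_lit 0x0) (nat_lit 0x80000000000060001000080000000000000000000000) := T_10 (nat_lit 108) (nat_lit 91) (nat_lit 6) (nat_lit 5) (nat_lit 9) L56447 (by decide +kernel)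
theorem L56449 : W_10 (nat_lit 8) (nat_lit 0x200000001380090000800000000000000000000000000) (nat_lit 0x0) (nat_lit 0x200018000c00000006c0034000e0007000080000000000000) := Q_10 (nat_lit 158) (C_10 L56424 (C_10 L56429 (C_10 L56432 (C_10 L56438 (C_10 L56442 (C_10 L56446 (C_10 L56448 N_10))))))) (by decide +kernel)
theorem L56450 : W_10 (nat_lit 2) (nat_lit 0x2000000013800d0000800040002000000000000000000) (nat_lit 0x0) (nat_lit 0x20001000080000000000000) := D_10 (nat_lit 72) (nat_lit 55) (nat_lit 89) (nat_lit 4) (nat_lit 5) (nat_lit 7) (nat_lit 4) (nat_lit 5) (nat_lit 8) (by decide +kernel)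
theorem L56451 : W_10 (nat_lit 3) (nat_lit 0x2000000013800d0000800040000000000000000000000) (nat_lit 0x0) (nat_lit 0x8000000020003000080000000000000) := T_10 (nat_lit 73) (nat_lit 123) (nat_lit 5) (nat_lit 5) (nat_lit 4) L56450 (by decide +kernel)
theorem L56452 : W_10 (nat_lit 4) (nat_lit 0x200000001380090000800040000000000000000000000) (nat_lit 0x0) (nat_lit 0x68000000020003000080000000000000) := T_10 (nat_lit 126) (nat_lit 125) (nat_lit 1) (nat_lit 8) (nat_lit 7) L56451 (by decide +kernel)
theorem L56453 : W_10 (nat_lit 5) (nat_lit 0x200000001380090000800000000000000000000000000) (nat_lit 0x0) (nat_lit 0x40004000680014000e0007000080000000000000) := Q_10 (nat_lit 90) (C_10 L56404 (C_10 L56369 (C_10 L56452 N_10))) (by decide +kernel)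
theorem L56454 : W_10 (nat_lit 2) (nat_lit 0x2000000017800bc001a005d0000000000000000000000) (nat_lit 0x0) (nat_lit 0x28001000000000000000000) := D_10 (nat_lit 89) (nat_lit 72) (nat_lit 87) (nat_lit 6) (nat_lit 3) (nat_lit 8) (nat_lit 3) (nat_lit 2) (nat_lit 5) (by decide +kernel)
theorem L56455 : W_10 (nat_lit 3) (nat_lit 0x2000000017800bc001a005c0000000000000000000000) (nat_lit 0x0) (nat_lit 0x38001800000000000000000) := T_10 (nat_lit 88) (nat_lit 71) (nat_lit 7) (nat_lit 3) (nat_lit 4) L56454 (by decide +kernel)
theorem L56456 : W_10 (nat_lit 4) (nat_lit 0x2000000017800bc001a001c0000000000000000000000) (nat_lit 0x0) (nat_lit 0x638001800000000000000000) := T_10 (nat_lit 94) (nat_lit 93) (nat_lit 1) (nat_lit 9) (nat_lit 5) L56455 (by decide +kernel)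
theorem L56457 : W_10 (nat_lit 5) (nat_lit 0x2000000017800bc001a000c0000000000000000000000) (nat_lit 0x0) (nat_lit 0x738009800000000000000000) := T_10 (nat_lit 92) (nat_lit 75) (nat_lit 6) (nat_lit 6) (nat_lit 8) L56456 (by decide +kernel)
theorem L56458 : W_10 (nat_lit 6) (nat_lit 0x2000000017800bc0018000c0000000000000000000000) (nat_lit 0x0) (nat_lit 0x300738009800000000000000000) := T_10 (nat_lit 105) (nat_lit 104) (nat_lit 0) (nat_lit 6) (nat_lit 7) L56457 (by decide +kernel)
theorem L56459 : W_10 (nat_lit 7) (nat_lit 0x2000000017800b40018000c0000000000000000000000) (nat_lit 0x0) (nat_lit 0x8002300738009800000000000000000) := T_10 (nat_lit 123) (nat_lit 109) (nat_lit 2) (nat_lit 3) (nat_lit 7) L56458 (by decide +kernel)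
theorem L56460 : W_10 (nat_lit 8) (nat_lit 0x2000000017800b40008000c0000000000000000000000) (nat_lit 0x0) (nat_lit 0x4000000008003300738009800000000000000000) := T_10 (nat_lit 108) (nat_lit 158) (nat_lit 6) (nat_lit 5) (nat_lit 9) L56459 (by decide +kernel)
theorem L56461 : W_10 (nat_lit 9) (nat_lit 0x2000000017800b4000800040000000000000000000000) (nat_lit 0x0) (nat_lit 0x40000000080033007b800d800000000000000000) := T_10 (nat_lit 91) (nat_lit 74) (nat_lit 6) (nat_lit 5) (nat_lit 8) L56460 (by decide +kernel)
theorem L56462 : W_10 (nat_lit 10) (nat_lit 0x2000000017800b0000800040000000000000000000000) (nat_lit 0x0) (nat_lit 0x400000000e0033007b800d800000000000000000) := T_10 (nat_lit 122) (nat_lit 121) (nat_lit 0) (nat_lit 6) (nat_lit 8) L56461 (by decide +kernel)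
theorem L56463 : W_10 (nat_lit 11) (nat_lit 0x200000001780090000800040000000000000000000000) (nat_lit 0x0) (nat_lit 0x400000006e0033007b800d800000000000000000) := T_10 (nat_lit 125) (nat_lit 126) (nat_lit 2) (nat_lit 3) (nat_lit 8) L56462 (by decide +kernel)
theorem L56464 : W_10 (nat_lit 12) (nat_lit 0x200000001380090000800040000000000000000000000) (nat_lit 0x0) (nat_lit 0xc00040006e0033007b800d800000000000000000) := T_10 (nat_lit 142) (nat_lit 159) (nat_lit 7) (nat_lit 5) (nat_lit 5) L56463 (by decide +kernel)
theorem L56465 : W_10 (nat_lit 13) (nat_lit 0x200000001380090000800000000000000000000000000) (nat_lit 0x0) (nat_lit 0xd80040006e0033007f800f800080000000000000) := Q_10 (nat_lit 90) (C_10 L56452 (C_10 L56377 (C_10 L56401 (C_10 L56404 (C_10 L56464 N_10))))) (by decide +kernel)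
theorem L56466 : W_10 (nat_lit 7) (nat_lit 0x200000001380090000800000000000000000000000000) (nat_lit 0x0) (nat_lit 0x200018000c00000006c0034000a0000000000000000000000) := Q_10 (nat_lit 158) (C_10 L56448 (C_10 L56429 (C_10 L56432 (C_10 L56442 (C_10 L56446 N_10))))) (by decide +kernel)
theorem L56467 : W_10 (nat_lit 2) (nat_lit 0x200000001780090000800040000000000000000000000) (nat_lit 0x0) (nat_lit 0x28000000000002000000000000000000) := D_10 (nat_lit 73) (nat_lit 125) (nat_lit 123) (nat_lit 7) (nat_lit 5) (nat_lit 4) (nat_lit 5) (nat_lit 5) (nat_lit 4) (by decide +kernel)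
theorem L56468 : W_10 (nat_lit 3) (nat_lit 0x200000001380090000800040000000000000000000000) (nat_lit 0x0) (nat_lit 0x8000400028000000000002000000000000000000) := T_10 (nat_lit 142) (nat_lit 159) (nat_lit 7) (nat_lit 5) (nat_lit 5) L56467 (by decide +kernel)
theorem L56469 : W_10 (nat_lit 2) (nat_lit 0x2000010017800d4000800060000000000000000000000) (nat_lit 0x0) (nat_lit 0x4000000008000400000000000000000000000000) := D_10 (nat_lit 106) (nat_lit 158) (nat_lit 123) (nat_lit 4) (nat_lit 5) (nat_lit 9) (nat_lit 5) (nat_lit 4) (nat_lit 5) (by decide +kernel)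
theorem L56470 : W_10 (nat_lit 3) (nat_lit 0x2000010017800d4000800040000000000000000000000) (nat_lit 0x0) (nat_lit 0x4000000008000400020001000000000000000000) := T_10 (nat_lit 89) (nat_lit 72) (nat_lit 4) (nat_lit 5) (nat_lit 8) L56469 (by decide +kernel)
theorem L56471 : W_10 (nat_lit 4) (nat_lit 0x2000010017800d0000800040000000000000000000000) (nat_lit 0x0) (nat_lit 0x400000000e000400020001000000000000000000) := T_10 (nat_lit 122) (nat_lit 121) (nat_lit 0) (nat_lit 6) (nat_lit 8) L56470 (by decide +kernel)
theorem L56472 : W_10 (nat_lit 5) (nat_lit 0x2000000017800d0000800040000000000000000000000) (nat_lit 0x0) (nat_lit 0x580000000e000400020001000000000000000000) := T_10 (nat_lit 156) (nat_lit 155) (nat_lit 1) (nat_lit 6) (nat_lit 8) L56471 (by decide +kernel)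
theorem L56473 : W_10 (nat_lit 6) (nat_lit 0x2000000013800d0000800040000000000000000000000) (nat_lit 0x0) (nat_lit 0xd80040000e000400020001000000000000000000) := T_10 (nat_lit 142) (nat_lit 159) (nat_lit 7) (nat_lit 5) (nat_lit 5) L56472 (by decide +kernel)
theorem L56474 : W_10 (nat_lit 7) (nat_lit 0x200000001380090000800040000000000000000000000) (nat_lit 0x0) (nat_lit 0xd80040006e000400020001000000000000000000) := T_10 (nat_lit 126) (nat_lit 125) (nat_lit 1) (nat_lit 8) (nat_lit 7) L56473 (by decide +kernel)
theorem L56475 : W_10 (nat_lit 8) (nat_lit 0x200000001380090000800000000000000000000000000) (nat_lit 0x0) (nat_lit 0xd80040006e000400060003000080000000000000) := Q_10 (nat_lit 90) (C_10 L56452 (C_10 L56386 (C_10 L56401 (C_10 L56468 (C_10 L56474 N_10))))) (by decide +kernel)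
theorem L56476 : W_10 (nat_lit 2) (nat_lit 0x200000001380090000800040002000000000000000000) (nat_lit 0x0) (nat_lit 0x80004000200000000000000) := D_10 (nat_lit 74) (nat_lit 91) (nat_lit 57) (nat_lit 6) (nat_lit 5) (nat_lit 8) (nat_lit 6) (nat_lit 5) (nat_lit 7) (by decide +kernel)
theorem L56477 : W_10 (nat_lit 3) (nat_lit 0x200000001380090000800040000000000000000000000) (nat_lit 0x0) (nat_lit 0x8000000080006000200000000000000) := T_10 (nat_lit 73) (nat_lit 123) (nat_lit 5) (nat_lit 5) (nat_lit 4) L56476 (by decide +kernel)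
theorem L56478 : W_10 (nat_lit 10) (nat_lit 0x200000001380090000800000000000000000000000000) (nat_lit 0x0) (nat_lit 0x100008000d80040006e0037001c0006000200000000000000) := Q_10 (nat_lit 90) (C_10 L56468 (C_10 L56393 (C_10 L56419 (C_10 L56477 N_10)))) (by decide +kernel)
theorem L56479 : W_10 (nat_lit 14) (nat_lit 0x200000001380090000000000000000000000000000000) (nat_lit 0x0) (nat_lit 0x300018000d80040006e003f007f800f800280000000000000) := Q_10 (nat_lit 107) (C_10 L56394 (C_10 L56411 (C_10 L56420 (C_10 L56449 (C_10 L56453 (C_10 L56465 (C_10 L56466 (C_10 L56475 (C_10 L56478 N_10))))))))) (by decide +kernel)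
theorem L56480 : W_10 (nat_lit 15) (nat_lit 0x200000001300090000000000000000000000000000000) (nat_lit 0x0) (nat_lit 0x36001b000de004e006f803f007f800f800280000000000000) := Q_10 (nat_lit 139) (C_10 L56197 (C_10 L56196 (C_10 L56479 N_10))) (by decide +kernel)
theorem L56481 : W_10 (nat_lit 2) (nat_lit 0x2000000013800d4000200010000800000000000000000) (nat_lit 0x0) (nat_lit 0x20001000080000000000000) := D_10 (nat_lit 72) (nat_lit 55) (nat_lit 89) (nat_lit 6) (nat_lit 3) (nat_lit 7) (nat_lit 6) (nat_lit 3) (nat_lit 8) (by decide +kernel)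
theorem L56482 : W_10 (nat_lit 3) (nat_lit 0x2000000013800d4000200010000000000000000000000) (nat_lit 0x0) (nat_lit 0x8000000020001800080000000000000) := T_10 (nat_lit 71) (nat_lit 123) (nat_lit 7) (nat_lit 3) (nat_lit 4) L56481 (by decide +kernel)
theorem L56483 : W_10 (nat_lit 4) (nat_lit 0x2000000013800d4000200000000000000000000000000) (nat_lit 0x0) (nat_lit 0x2000000008000000030001800080000000000000) := T_10 (nat_lit 88) (nat_lit 157) (nat_lit 7) (nat_lit 3) (nat_lit 5) L56482 (by decide +kernel)
theorem L56484 : W_10 (nat_lit 5) (nat_lit 0x200000001380094000200000000000000000000000000) (nat_lit 0x0) (nat_lit 0x2000000068000000030001800080000000000000) := T_10 (nat_lit 126) (nat_lit 125) (nat_lit 1) (nat_lit 8) (nat_lit 7) L56483 (by decide +kernel)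
theorem L56485 : W_10 (nat_lit 2) (nat_lit 0x200000001380094000200010000800000000000000000) (nat_lit 0x0) (nat_lit 0x20001000080000000000000) := D_10 (nat_lit 72) (nat_lit 55) (nat_lit 89) (nat_lit 6) (nat_lit 3) (nat_lit 7) (nat_lit 6) (nat_lit 3) (nat_lit 8) (by decide +kernel)
theorem L56486 : W_10 (nat_lit 3) (nat_lit 0x200000001380094000200010000000000000000000000) (nat_lit 0x0) (nat_lit 0x8000000020001800080000000000000) := T_10 (nat_lit 71) (nat_lit 123) (nat_lit 7) (nat_lit 3) (nat_lit 4) L56485 (by decide +kernel)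
theorem L56487 : W_10 (nat_lit 4) (nat_lit 0x200000001380094000200000000000000000000000000) (nat_lit 0x0) (nat_lit 0x2000000008000000030001800080000000000000) := T_10 (nat_lit 88) (nat_lit 157) (nat_lit 7) (nat_lit 3) (nat_lit 5) L56486 (by decide +kernel)
theorem L56488 : W_10 (nat_lit 2) (nat_lit 0x200000001380094000200038000000000000000000000) (nat_lit 0x0) (nat_lit 0x1000000000000500000000000000000000000000) := D_10 (nat_lit 156) (nat_lit 106) (nat_lit 104) (nat_lit 6) (nat_lit 3) (nat_lit 9) (nat_lit 4) (nat_lit 3) (nat_lit 9) (by decide +kernel)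
theorem L56489 : W_10 (nat_lit 3) (nat_lit 0x200000001380094000200030000000000000000000000) (nat_lit 0x0) (nat_lit 0x1000000000000500008000400000000000000000) := T_10 (nat_lit 87) (nat_lit 70) (nat_lit 4) (nat_lit 3) (nat_lit 8) L56488 (by decide +kernel)
theorem L56490 : W_10 (nat_lit 4) (nat_lit 0x200000001380094000200010000000000000000000000) (nat_lit 0x0) (nat_lit 0x1000000000000500028001400000000000000000) := T_10 (nat_lit 89) (nat_lit 72) (nat_lit 6) (nat_lit 3) (nat_lit 8) L56489 (by decide +kernel)
theorem L56491 : W_10 (nat_lit 5) (nat_lit 0x200000001380094000200000000000000000000000000) (nat_lit 0x0) (nat_lit 0x3000000000000500038001400000000000000000) := T_10 (nat_lit 88) (nat_lit 157) (nat_lit 7) (nat_lit 3) (nat_lit 5) L56490 (by decide +kernel)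
theorem L56492 : W_10 (nat_lit 2) (nat_lit 0x2000000013800bd001200038000000000000000000000) (nat_lit 0x0) (nat_lit 0x5000000000000400000000000000000000000000) := D_10 (nat_lit 106) (nat_lit 156) (nat_lit 158) (nat_lit 6) (nat_lit 3) (nat_lit 9) (nat_lit 7) (nat_lit 4) (nat_lit 5) (by decide +kernel)
theorem L56493 : W_10 (nat_lit 3) (nat_lit 0x2000000013800bd001200018000000000000000000000) (nat_lit 0x0) (nat_lit 0x5000000000000400020001000000000000000000) := T_10 (nat_lit 89) (nat_lit 72) (nat_lit 6) (nat_lit 3) (nat_lit 8) L56492 (by decide +kernel)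
theorem L56494 : W_10 (nat_lit 4) (nat_lit 0x2000000013800bd001200010000000000000000000000) (nat_lit 0x0) (nat_lit 0x5000000000000400028001400000000000000000) := T_10 (nat_lit 87) (nat_lit 70) (nat_lit 4) (nat_lit 3) (nat_lit 8) L56493 (by decide +kernel)
theorem L56495 : W_10 (nat_lit 5) (nat_lit 0x2000000013800bc001200010000000000000000000000) (nat_lit 0x0) (nat_lit 0x5000000003000400028001400000000000000000) := T_10 (nat_lit 120) (nat_lit 121) (nat_lit 3) (nat_lit 1) (nat_lit 7) L56494 (by decide +kernel)
theorem L56496 : W_10 (nat_lit 6) (nat_lit 0x2000000013800bc001200000000000000000000000000) (nat_lit 0x0) (nat_lit 0x5000000003000400038001c00000000000000000) := T_10 (nat_lit 88) (nat_lit 71) (nat_lit 7) (nat_lit 3) (nat_lit 4) L56495 (by decide +kernel)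
theorem L56497 : W_10 (nat_lit 7) (nat_lit 0x2000000013800bc000200000000000000000000000000) (nat_lit 0x0) (nat_lit 0x5000000003003400038001c00000000000000000) := T_10 (nat_lit 108) (nat_lit 109) (nat_lit 2) (nat_lit 3) (nat_lit 7) L56496 (by decide +kernel)
theorem L56498 : W_10 (nat_lit 8) (nat_lit 0x2000000013800b4000200000000000000000000000000) (nat_lit 0x0) (nat_lit 0x500000000b003500038001c00000000000000000) := T_10 (nat_lit 123) (nat_lit 104) (nat_lit 0) (nat_lit 6) (nat_lit 7) L56497 (by decide +kernel)
theorem L56499 : W_10 (nat_lit 9) (nat_lit 0x200000001380094000200000000000000000000000000) (nat_lit 0x0) (nat_lit 0x500000006b003500038001c00000000000000000) := T_10 (nat_lit 125) (nat_lit 126) (nat_lit 1) (nat_lit 8) (nat_lit 7) L56498 (by decide +kernel)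
theorem L56500 : W_10 (nat_lit 2) (nat_lit 0x2000000013800d4000200010000800000000000000000) (nat_lit 0x0) (nat_lit 0x8000400020000000000000) := D_10 (nat_lit 70) (nat_lit 87) (nat_lit 53) (nat_lit 4) (nat_lit 3) (nat_lit 8) (nat_lit 4) (nat_lit 3) (nat_lit 7) (by decide +kernel)
theorem L56501 : W_10 (nat_lit 3) (nat_lit 0x2000000013800d4000200010000000000000000000000) (nat_lit 0x0) (nat_lit 0x8000000008000c00020000000000000) := T_10 (nat_lit 71) (nat_lit 123) (nat_lit 7) (nat_lit 3) (nat_lit 4) L56500 (by decide +kernel)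
theorem L56502 : W_10 (nat_lit 4) (nat_lit 0x2000000013800d4000200000000000000000000000000) (nat_lit 0x0) (nat_lit 0x2000000008000000018000c00020000000000000) := T_10 (nat_lit 88) (nat_lit 157) (nat_lit 7) (nat_lit 3) (nat_lit 5) L56501 (by decide +kernel)
theorem L56503 : W_10 (nat_lit 5) (nat_lit 0x200000001380094000200000000000000000000000000) (nat_lit 0x0) (nat_lit 0x2000000068000000018000c00020000000000000) := T_10 (nat_lit 126) (nat_lit 125) (nat_lit 1) (nat_lit 8) (nat_lit 7) L56502 (by decide +kernel)
theorem L56504 : W_10 (nat_lit 2) (nat_lit 0x2000070013800bd001600000004000000000000000000) (nat_lit 0x0) (nat_lit 0x10000c00000000000000000000000000000000000000) := D_10 (nat_lit 155) (nat_lit 172) (nat_lit 154) (nat_lit 5) (nat_lit 3) (nat_lit 6) (nat_lit 2) (nat_lit 1) (nat_lit 9) (by decide +kernel)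
theorem L56505 : W_10 (nat_lit 3) (nat_lit 0x2000060013800bd001600000004000000000000000000) (nat_lit 0x0) (nat_lit 0x30001c00000000000000000000000000000000000000) := T_10 (nat_lit 156) (nat_lit 173) (nat_lit 6) (nat_lit 3) (nat_lit 10) L56504 (by decide +kernel)
theorem L56506 : W_10 (nat_lit 4) (nat_lit 0x2000060013800bd001200000004000000000000000000) (nat_lit 0x0) (nat_lit 0x30001c00000000000400020000000000000000000000) := T_10 (nat_lit 106) (nat_lit 89) (nat_lit 7) (nat_lit 4) (nat_lit 5) L56505 (by decide +kernel)
theorem L56507 : W_10 (nat_lit 5) (nat_lit 0x2000020013800bd001200000004000000000000000000) (nat_lit 0x0) (nat_lit 0xb0005c00000000000400020000000000000000000000) := T_10 (nat_lit 158) (nat_lit 175) (nat_lit 6) (nat_lit 5) (nat_lit 10) L56506 (by decide +kernel)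
theorem L56508 : W_10 (nat_lit 6) (nat_lit 0x2000020013800bd001200000000000000000000000000) (nat_lit 0x0) (nat_lit 0xb0005c000000000004000a0004000000000000000000) := T_10 (nat_lit 74) (nat_lit 91) (nat_lit 5) (nat_lit 6) (nat_lit 4) L56507 (by decide +kernel)
theorem L56509 : W_10 (nat_lit 7) (nat_lit 0x2000020013800bc001200000000000000000000000000) (nat_lit 0x0) (nat_lit 0xb0005c000000030004000a0004000000000000000000) := T_10 (nat_lit 120) (nat_lit 121) (nat_lit 3) (nat_lit 1) (nat_lit 7) L56508 (by decide +kernel)
theorem L56510 : W_10 (nat_lit 8) (nat_lit 0x2000000013800bc001200000000000000000000000000) (nat_lit 0x0) (nat_lit 0xf0007c000000030004000a0004000000000000000000) := T_10 (nat_lit 157) (nat_lit 174) (nat_lit 4) (nat_lit 4) (nat_lit 10) L56509 (by decide +kernel)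
theorem L56511 : W_10 (nat_lit 9) (nat_lit 0x2000000013800bc000200000000000000000000000000) (nat_lit 0x0) (nat_lit 0xf0007c000000030034000a0004000000000000000000) := T_10 (nat_lit 108) (nat_lit 109) (nat_lit 2) (nat_lit 3) (nat_lit 7) L56510 (by decide +kernel)
theorem L56512 : W_10 (nat_lit 10) (nat_lit 0x2000000013800b4000200000000000000000000000000) (nat_lit 0x0) (nat_lit 0xf0007c0000000b0035000a0004000000000000000000) := T_10 (nat_lit 123) (nat_lit 104) (nat_lit 0) (nat_lit 6) (nat_lit 7) L56511 (by decide +kernel)
theorem L56513 : W_10 (nat_lit 11) (nat_lit 0x200000001380094000200000000000000000000000000) (nat_lit 0x0) (nat_lit 0xf0007c0000006b0035000a0004000000000000000000) := T_10 (nat_lit 125) (nat_lit 126) (nat_lit 1) (nat_lit 8) (nat_lit 7) L56512 (by decide +kernel)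
theorem L56514 : W_10 (nat_lit 12) (nat_lit 0x200000001380094000000000000000000000000000000) (nat_lit 0x0) (nat_lit 0xf0007c0000006b0037000b8005c000a0000000000000) := Q_10 (nat_lit 105) (C_10 L56484 (C_10 L56487 (C_10 L56491 (C_10 L56499 (C_10 L56503 (C_10 L56513 N_10)))))) (by decide +kernel)
theorem L56515 : W_10 (nat_lit 2) (nat_lit 0x2000000013800d6000000000000000000000000000000) (nat_lit 0x0) (nat_lit 0x9800000000000000000000000000000) := D_10 (nat_lit 120) (nat_lit 119) (nat_lit 123) (nat_lit 3) (nat_lit 0) (nat_lit 7) (nat_lit 3) (nat_lit 1) (nat_lit 7) (by decide +kernel)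
theorem L56516 : W_10 (nat_lit 3) (nat_lit 0x2000000013800d4000000000000000000000000000000) (nat_lit 0x0) (nat_lit 0x40000b800000000000000000000000000000) := T_10 (nat_lit 121) (nat_lit 142) (nat_lit 0) (nat_lit 6) (nat_lit 8) L56515 (by decide +kernel)
theorem L56517 : W_10 (nat_lit 4) (nat_lit 0x200000001380094000000000000000000000000000000) (nat_lit 0x0) (nat_lit 0x40006b800000000000000000000000000000) := T_10 (nat_lit 126) (nat_lit 125) (nat_lit 1) (nat_lit 8) (nat_lit 7) L56516 (by decide +kernel)
theorem L56518 : W_10 (nat_lit 2) (nat_lit 0x200000001380096000000000000000000000000000000) (nat_lit 0x0) (nat_lit 0x9800000000000000000000000000000) := D_10 (nat_lit 120) (nat_lit 119) (nat_lit 123) (nat_lit 3) (nat_lit 0) (nat_lit 7) (nat_lit 3) (nat_lit 1) (nat_lit 7) (by decide +kernel)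
theorem L56519 : W_10 (nat_lit 3) (nat_lit 0x200000001380094000000000000000000000000000000) (nat_lit 0x0) (nat_lit 0x40000b800000000000000000000000000000) := T_10 (nat_lit 121) (nat_lit 142) (nat_lit 0) (nat_lit 6) (nat_lit 8) L56518 (by decide +kernel)
theorem L56520 : W_10 (nat_lit 2) (nat_lit 0x8003e00000013800d4000000000000000000000000000000) (nat_lit 0x0) (nat_lit 0xe000000000000000000000000000000000000000000000000) := D_10 (nat_lit 194) (nat_lit 195) (nat_lit 193) (nat_lit 3) (nat_lit 4) (nat_lit 10) (nat_lit 3) (nat_lit 3) (nat_lit 10) (by decide +kernel)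
theorem L56521 : W_10 (nat_lit 3) (nat_lit 0x8002e00000013800d4000000000000000000000000000000) (nat_lit 0x0) (nat_lit 0xe400100000000000000000000000000000000000000000000) := T_10 (nat_lit 176) (nat_lit 190) (nat_lit 1) (nat_lit 7) (nat_lit 10) L56520 (by decide +kernel)
theorem L56522 : W_10 (nat_lit 4) (nat_lit 0x8002c00000013800d4000000000000000000000000000000) (nat_lit 0x0) (nat_lit 0xe400120001000000000000000000000000000000000000000) := T_10 (nat_lit 173) (nat_lit 156) (nat_lit 7) (nat_lit 3) (nat_lit 7) L56521 (by decide +kernel)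
theorem L56523 : W_10 (nat_lit 5) (nat_lit 0x8002400000013800d4000000000000000000000000000000) (nat_lit 0x0) (nat_lit 0xe4001a0005000000000000000000000000000000000000000) := T_10 (nat_lit 175) (nat_lit 158) (nat_lit 5) (nat_lit 5) (nat_lit 7) L56522 (by decide +kernel)
theorem L56524 : W_10 (nat_lit 6) (nat_lit 0x2400000013800d4000000000000000000000000000000) (nat_lit 0x0) (nat_lit 0xec001a0007000000000000000000000000000000000000000) := T_10 (nat_lit 191) (nat_lit 157) (nat_lit 6) (nat_lit 4) (nat_lit 11) L56523 (by decide +kernel)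
theorem L56525 : W_10 (nat_lit 7) (nat_lit 0x240000001380094000000000000000000000000000000) (nat_lit 0x0) (nat_lit 0xec001a0007000000060000000000000000000000000000000) := T_10 (nat_lit 126) (nat_lit 125) (nat_lit 1) (nat_lit 8) (nat_lit 7) L56524 (by decide +kernel)
theorem L56526 : W_10 (nat_lit 2) (nat_lit 0x800240005001380094000000000000000000000000000000) (nat_lit 0x0) (nat_lit 0x800400002000000000000000000000000000000) := D_10 (nat_lit 142) (nat_lit 155) (nat_lit 121) (nat_lit 1) (nat_lit 6) (nat_lit 8) (nat_lit 0) (nat_lit 6) (nat_lit 8) (by decide +kernel)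
theorem L56527 : W_10 (nat_lit 3) (nat_lit 0x800240004001380094000000000000000000000000000000) (nat_lit 0x0) (nat_lit 0x20001800400002000000000000000000000000000000) := T_10 (nat_lit 156) (nat_lit 173) (nat_lit 7) (nat_lit 3) (nat_lit 7) L56526 (by decide +kernel)
theorem L56528 : W_10 (nat_lit 4) (nat_lit 0x800240000001380094000000000000000000000000000000) (nat_lit 0x0) (nat_lit 0xa0005800400002000000000000000000000000000000) := T_10 (nat_lit 158) (nat_lit 175) (nat_lit 5) (nat_lit 5) (nat_lit 7) L56527 (by decide +kernel)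
theorem L56529 : W_10 (nat_lit 5) (nat_lit 0x240000001380094000000000000000000000000000000) (nat_lit 0x0) (nat_lit 0x8000a0007800400002000000000000000000000000000000) := T_10 (nat_lit 191) (nat_lit 157) (nat_lit 6) (nat_lit 4) (nat_lit 11) L56528 (by decide +kernel)
theorem L56530 : W_10 (nat_lit 2) (nat_lit 0x6803600010017800b4000000000000000000000000000000) (nat_lit 0x0) (nat_lit 0x6000000008000000000000000000000000000000000000000) := D_10 (nat_lit 159) (nat_lit 193) (nat_lit 194) (nat_lit 4) (nat_lit 6) (nat_lit 11) (nat_lit 7) (nat_lit 6) (nat_lit 7) (by decide +kernel)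
theorem L56531 : W_10 (nat_lit 3) (nat_lit 0x6802600010017800b4000000000000000000000000000000) (nat_lit 0x0) (nat_lit 0x6000180008000000000000000000000000000000000000000) := T_10 (nat_lit 176) (nat_lit 175) (nat_lit 1) (nat_lit 6) (nat_lit 10) L56530 (by decide +kernel)
theorem L56532 : W_10 (nat_lit 4) (nat_lit 0x6002600010017800b4000000000000000000000000000000) (nat_lit 0x0) (nat_lit 0x6180180008000000000000000000000000000000000000000) := T_10 (nat_lit 187) (nat_lit 188) (nat_lit 2) (nat_lit 0) (nat_lit 11) L56531 (by decide +kernel)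
theorem L56533 : W_10 (nat_lit 5) (nat_lit 0x2002600010017800b4000000000000000000000000000000) (nat_lit 0x0) (nat_lit 0x4006580180008000000000000000000000000000000000000000) := T_10 (nat_lit 190) (nat_lit 206) (nat_lit 5) (nat_lit 3) (nat_lit 8) L56532 (by decide +kernel)
theorem L56534 : W_10 (nat_lit 6) (nat_lit 0x2600010017800b4000000000000000000000000000000) (nat_lit 0x0) (nat_lit 0x4006780190008000000000000000000000000000000000000000) := T_10 (nat_lit 189) (nat_lit 172) (nat_lit 5) (nat_lit 3) (nat_lit 7) L56533 (by decide +kernel)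
theorem L56535 : W_10 (nat_lit 7) (nat_lit 0x2400010017800b4000000000000000000000000000000) (nat_lit 0x0) (nat_lit 0x4006f801b0008000000000000000000000000000000000000000) := T_10 (nat_lit 173) (nat_lit 191) (nat_lit 7) (nat_lit 3) (nat_lit 7) L56534 (by decide +kernel)
theorem L56536 : W_10 (nat_lit 8) (nat_lit 0x2400000017800b4000000000000000000000000000000) (nat_lit 0x0) (nat_lit 0x4006f801b0009800000000000000000000000000000000000000) := T_10 (nat_lit 156) (nat_lit 155) (nat_lit 1) (nat_lit 6) (nat_lit 8) L56535 (by decide +kernel)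
theorem L56537 : W_10 (nat_lit 9) (nat_lit 0x240000001780094000000000000000000000000000000) (nat_lit 0x0) (nat_lit 0x4006f801b0009800000060000000000000000000000000000000) := T_10 (nat_lit 125) (nat_lit 126) (nat_lit 2) (nat_lit 3) (nat_lit 8) L56536 (by decide +kernel)
theorem L56538 : W_10 (nat_lit 10) (nat_lit 0x240000001380094000000000000000000000000000000) (nat_lit 0x0) (nat_lit 0x4006f801b0009800400062000000000000000000000000000000) := T_10 (nat_lit 142) (nat_lit 121) (nat_lit 0) (nat_lit 6) (nat_lit 8) L56537 (by decide +kernel)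
theorem L56539 : W_10 (nat_lit 2) (nat_lit 0x800240000001780094000000000000000000000000000000) (nat_lit 0x0) (nat_lit 0x20001800000000000000000000000000000000000000) := D_10 (nat_lit 156) (nat_lit 155) (nat_lit 173) (nat_lit 1) (nat_lit 6) (nat_lit 8) (nat_lit 7) (nat_lit 3) (nat_lit 7) (by decide +kernel)
theorem L56540 : W_10 (nat_lit 3) (nat_lit 0x240000001780094000000000000000000000000000000) (nat_lit 0x0) (nat_lit 0x800020003800000000000000000000000000000000000000) := T_10 (nat_lit 191) (nat_lit 157) (nat_lit 6) (nat_lit 4) (nat_lit 11) L56539 (by decide +kernel)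
theorem L56541 : W_10 (nat_lit 4) (nat_lit 0x240000001380094000000000000000000000000000000) (nat_lit 0x0) (nat_lit 0x800020003800400002000000000000000000000000000000) := T_10 (nat_lit 142) (nat_lit 121) (nat_lit 0) (nat_lit 6) (nat_lit 8) L56540 (by decide +kernel)
theorem L56542 : W_10 (nat_lit 2) (nat_lit 0x8003c00000017800b4000000000000000000000000000000) (nat_lit 0x0) (nat_lit 0xc000000008000000000000000000000000000000000000000) := D_10 (nat_lit 194) (nat_lit 195) (nat_lit 159) (nat_lit 3) (nat_lit 4) (nat_lit 10) (nat_lit 7) (nat_lit 6) (nat_lit 7) (by decide +kernel)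
theorem L56543 : W_10 (nat_lit 3) (nat_lit 0x8002c00000017800b4000000000000000000000000000000) (nat_lit 0x0) (nat_lit 0xc400100008000000000000000000000000000000000000000) := T_10 (nat_lit 176) (nat_lit 190) (nat_lit 1) (nat_lit 7) (nat_lit 10) L56542 (by decide +kernel)
theorem L56544 : W_10 (nat_lit 4) (nat_lit 0x8002c0000001780094000000000000000000000000000000) (nat_lit 0x0) (nat_lit 0xc400100008000000060000000000000000000000000000000) := T_10 (nat_lit 125) (nat_lit 126) (nat_lit 2) (nat_lit 3) (nat_lit 8) L56543 (by decide +kernel)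
theorem L56545 : W_10 (nat_lit 5) (nat_lit 0x800240000001780094000000000000000000000000000000) (nat_lit 0x0) (nat_lit 0xc40018000c000000060000000000000000000000000000000) := T_10 (nat_lit 175) (nat_lit 158) (nat_lit 5) (nat_lit 5) (nat_lit 7) L56544 (by decide +kernel)
theorem L56546 : W_10 (nat_lit 6) (nat_lit 0x240000001780094000000000000000000000000000000) (nat_lit 0x0) (nat_lit 0xcc0018000e000000060000000000000000000000000000000) := T_10 (nat_lit 191) (nat_lit 157) (nat_lit 6) (nat_lit 4) (nat_lit 11) L56545 (by decide +kernel)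
theorem L56547 : W_10 (nat_lit 7) (nat_lit 0x240000001380094000000000000000000000000000000) (nat_lit 0x0) (nat_lit 0xcc0018000e000400062000000000000000000000000000000) := T_10 (nat_lit 142) (nat_lit 121) (nat_lit 0) (nat_lit 6) (nat_lit 8) L56546 (by decide +kernel)
theorem L56548 : W_10 (nat_lit 2) (nat_lit 0x2400010017800d4000200028000000000000000000000) (nat_lit 0x0) (nat_lit 0x10001400000000000000000) := D_10 (nat_lit 88) (nat_lit 72) (nat_lit 70) (nat_lit 6) (nat_lit 3) (nat_lit 8) (nat_lit 4) (nat_lit 3) (nat_lit 8) (by decide +kernel)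
theorem L56549 : W_10 (nat_lit 3) (nat_lit 0x2400010017800d4000200020000000000000000000000) (nat_lit 0x0) (nat_lit 0x100018001400000000000000000) := T_10 (nat_lit 87) (nat_lit 104) (nat_lit 4) (nat_lit 3) (nat_lit 9) L56548 (by decide +kernel)
theorem L56550 : W_10 (nat_lit 4) (nat_lit 0x2400010017800d4000200000000000000000000000000) (nat_lit 0x0) (nat_lit 0x500038001400000000000000000) := T_10 (nat_lit 89) (nat_lit 106) (nat_lit 6) (nat_lit 3) (nat_lit 9) L56549 (by decide +kernel)
theorem L56551 : W_10 (nat_lit 5) (nat_lit 0x2400010017800d4000000000000000000000000000000) (nat_lit 0x0) (nat_lit 0x2000000000000700038001400000000000000000) := T_10 (nat_lit 105) (nat_lit 157) (nat_lit 7) (nat_lit 3) (nat_lit 6) L56550 (by decide +kernel)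
theorem L56552 : W_10 (nat_lit 6) (nat_lit 0x2400000017800d4000000000000000000000000000000) (nat_lit 0x0) (nat_lit 0x3800000000000700038001400000000000000000) := T_10 (nat_lit 156) (nat_lit 155) (nat_lit 1) (nat_lit 6) (nat_lit 8) L56551 (by decide +kernel)
theorem L56553 : W_10 (nat_lit 7) (nat_lit 0x240000001780094000000000000000000000000000000) (nat_lit 0x0) (nat_lit 0x3800000060000700038001400000000000000000) := T_10 (nat_lit 126) (nat_lit 125) (nat_lit 2) (nat_lit 3) (nat_lit 8) L56552 (by decide +kernel)
theorem L56554 : W_10 (nat_lit 8) (nat_lit 0x240000001380094000000000000000000000000000000) (nat_lit 0x0) (nat_lit 0x3800400062000700038001400000000000000000) := T_10 (nat_lit 142) (nat_lit 121) (nat_lit 0) (nat_lit 6) (nat_lit 8) L56553 (by decide +kernel)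
theorem L56555 : W_10 (nat_lit 11) (nat_lit 0x200000001380094000000000000000000000000000000) (nat_lit 0x0) (nat_lit 0x400ef801f000f800400062000700038001400000000000000000) := Q_10 (nat_lit 174) (C_10 L56525 (C_10 L56529 (C_10 L56538 (C_10 L56541 (C_10 L56547 (C_10 L56554 N_10)))))) (by decide +kernel)
theorem L56556 : W_10 (nat_lit 2) (nat_lit 0x2000040013800bc001200000000800000000000000000) (nat_lit 0x0) (nat_lit 0x400000000000080004000000000000000000) := D_10 (nat_lit 91) (nat_lit 74) (nat_lit 142) (nat_lit 5) (nat_lit 6) (nat_lit 4) (nat_lit 5) (nat_lit 6) (nat_lit 5) (by decide +kernel)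
theorem L56557 : W_10 (nat_lit 3) (nat_lit 0x2000000013800bc001200000000800000000000000000) (nat_lit 0x0) (nat_lit 0x80004000400000000000080004000000000000000000) := T_10 (nat_lit 158) (nat_lit 175) (nat_lit 6) (nat_lit 5) (nat_lit 10) L56556 (by decide +kernel)
theorem L56558 : W_10 (nat_lit 4) (nat_lit 0x2000000013800bc001200000000000000000000000000) (nat_lit 0x0) (nat_lit 0x80004000400000000000090004800000000000000000) := T_10 (nat_lit 71) (nat_lit 88) (nat_lit 7) (nat_lit 3) (nat_lit 4) L56557 (by decide +kernel)
theorem L56559 : W_10 (nat_lit 5) (nat_lit 0x2000000013800bc000200000000000000000000000000) (nat_lit 0x0) (nat_lit 0x80004000400000003000090004800000000000000000) := T_10 (nat_lit 108) (nat_lit 109) (nat_lit 2) (nat_lit 3) (nat_lit 7) L56558 (by decide +kernel)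
theorem L56560 : W_10 (nat_lit 6) (nat_lit 0x2000000013800b4000200000000000000000000000000) (nat_lit 0x0) (nat_lit 0x80004000400008003100090004800000000000000000) := T_10 (nat_lit 123) (nat_lit 104) (nat_lit 0) (nat_lit 6) (nat_lit 7) L56559 (by decide +kernel)
theorem L56561 : W_10 (nat_lit 7) (nat_lit 0x200000001380094000200000000000000000000000000) (nat_lit 0x0) (nat_lit 0x80004000400068003100090004800000000000000000) := T_10 (nat_lit 125) (nat_lit 126) (nat_lit 1) (nat_lit 8) (nat_lit 7) L56560 (by decide +kernel)
theorem L56562 : W_10 (nat_lit 2) (nat_lit 0x2400040013800bc001200000000000000000000000000) (nat_lit 0x0) (nat_lit 0x400000000000080004000000000000000000) := D_10 (nat_lit 91) (nat_lit 74) (nat_lit 142) (nat_lit 5) (nat_lit 6) (nat_lit 4) (nat_lit 5) (nat_lit 6) (nat_lit 5) (by decide +kernel)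
theorem L56563 : W_10 (nat_lit 3) (nat_lit 0x2400000013800bc001200000000000000000000000000) (nat_lit 0x0) (nat_lit 0x80004000400000000000080004000000000000000000) := T_10 (nat_lit 158) (nat_lit 175) (nat_lit 6) (nat_lit 5) (nat_lit 10) L56562 (by decide +kernel)
theorem L56564 : W_10 (nat_lit 4) (nat_lit 0x2000000013800bc001200000000000000000000000000) (nat_lit 0x0) (nat_lit 0xc0006000400000000000080004000000000000000000) := T_10 (nat_lit 174) (nat_lit 157) (nat_lit 4) (nat_lit 4) (nat_lit 10) L56563 (by decide +kernel)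
theorem L56565 : W_10 (nat_lit 5) (nat_lit 0x2000000013800bc000200000000000000000000000000) (nat_lit 0x0) (nat_lit 0xc0006000400000003000080004000000000000000000) := T_10 (nat_lit 108) (nat_lit 109) (nat_lit 2) (nat_lit 3) (nat_lit 7) L56564 (by decide +kernel)
theorem L56566 : W_10 (nat_lit 6) (nat_lit 0x2000000013800b4000200000000000000000000000000) (nat_lit 0x0) (nat_lit 0xc0006000400008003100080004000000000000000000) := T_10 (nat_lit 123) (nat_lit 104) (nat_lit 0) (nat_lit 6) (nat_lit 7) L56565 (by decide +kernel)
theorem L56567 : W_10 (nat_lit 7) (nat_lit 0x200000001380094000200000000000000000000000000) (nat_lit 0x0) (nat_lit 0xc0006000400068003100080004000000000000000000) := T_10 (nat_lit 125) (nat_lit 126) (nat_lit 1) (nat_lit 8) (nat_lit 7) L56566 (by decide +kernel)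
theorem L56568 : W_10 (nat_lit 8) (nat_lit 0x200000001380094000000000000000000000000000000) (nat_lit 0x0) (nat_lit 0xc00070004000680037000b8005c00020000000000000) := Q_10 (nat_lit 105) (C_10 L56503 (C_10 L56491 (C_10 L56561 (C_10 L56567 N_10)))) (by decide +kernel)
theorem L56569 : W_10 (nat_lit 13) (nat_lit 0x200000001380090000000000000000000000000000000) (nat_lit 0x0) (nat_lit 0x400ef801f000fc0040006f8037000b8005c000a0000000000000) := Q_10 (nat_lit 122) (C_10 L56514 (C_10 L56517 (C_10 L56519 (C_10 L56555 (C_10 L56568 N_10))))) (by decide +kernel)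
theorem L56570 : W_10 (nat_lit 14) (nat_lit 0x200000001300090000000000000000000000000000000) (nat_lit 0x0) (nat_lit 0x400ef801f000fe004e006f8037000b8005c000a0000000000000) := Q_10 (nat_lit 139) (C_10 L56197 (C_10 L56196 (C_10 L56569 N_10))) (by decide +kernel)
theorem L56571 : W_10 (nat_lit 2) (nat_lit 0x2000070013000d8000e80000000000000000000000000) (nat_lit 0x0) (nat_lit 0xc00400000000000000000000000000000000000) := D_10 (nat_lit 155) (nat_lit 142) (nat_lit 154) (nat_lit 2) (nat_lit 2) (nat_lit 9) (nat_lit 2) (nat_lit 1) (nat_lit 9) (by decide +kernel)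
theorem L56572 : W_10 (nat_lit 3) (nat_lit 0x2000060013000d8000e80000000000000000000000000) (nat_lit 0x0) (nat_lit 0x20001c00400000000000000000000000000000000000) := T_10 (nat_lit 156) (nat_lit 173) (nat_lit 5) (nat_lit 4) (nat_lit 6) L56571 (by decide +kernel)
theorem L56573 : W_10 (nat_lit 4) (nat_lit 0x2000060013000d8000e00000000000000000000000000) (nat_lit 0x0) (nat_lit 0x20001c00400000000180000000000000000000000000) := T_10 (nat_lit 103) (nat_lit 104) (nat_lit 3) (nat_lit 1) (nat_lit 6) L56572 (by decide +kernel)
theorem L56574 : W_10 (nat_lit 5) (nat_lit 0x2000060013000d8000c00000000000000000000000000) (nat_lit 0x0) (nat_lit 0x20001c00400000000380010000000000000000000000) := T_10 (nat_lit 105) (nat_lit 88) (nat_lit 4) (nat_lit 4) (nat_lit 9) L56573 (by decide +kernel)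
theorem L56575 : W_10 (nat_lit 6) (nat_lit 0x2000060013000d0000c00000000000000000000000000) (nat_lit 0x0) (nat_lit 0xa0001c00400008000380010000000000000000000000) := T_10 (nat_lit 123) (nat_lit 175) (nat_lit 7) (nat_lit 4) (nat_lit 6) L56574 (by decide +kernel)
theorem L56576 : W_10 (nat_lit 7) (nat_lit 0x2000060013000d0000800000000000000000000000000) (nat_lit 0x0) (nat_lit 0xa0001c00400008000780030000000000000000000000) := T_10 (nat_lit 106) (nat_lit 89) (nat_lit 4) (nat_lit 5) (nat_lit 9) L56575 (by decide +kernel)
theorem L56577 : W_10 (nat_lit 8) (nat_lit 0x2000040013000d0000800000000000000000000000000) (nat_lit 0x0) (nat_lit 0xe0003c00400008000780030000000000000000000000) := T_10 (nat_lit 157) (nat_lit 174) (nat_lit 5) (nat_lit 5) (nat_lit 6) L56576 (by decide +kernel)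
theorem L56578 : W_10 (nat_lit 9) (nat_lit 0x200004001300090000800000000000000000000000000) (nat_lit 0x0) (nat_lit 0xe0003c00400068000780030000000000000000000000) := T_10 (nat_lit 126) (nat_lit 125) (nat_lit 1) (nat_lit 8) (nat_lit 7) L56577 (by decide +kernel)
theorem L56579 : W_10 (nat_lit 2) (nat_lit 0x200004001300090001c00000000000000000000000000) (nat_lit 0x0) (nat_lit 0x80000000000028000000000000000000000000000000) := D_10 (nat_lit 175) (nat_lit 123) (nat_lit 125) (nat_lit 4) (nat_lit 5) (nat_lit 10) (nat_lit 6) (nat_lit 5) (nat_lit 10) (by decide +kernel)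
theorem L56580 : W_10 (nat_lit 3) (nat_lit 0x200004001300090000c00000000000000000000000000) (nat_lit 0x0) (nat_lit 0x80000000000028001000080000000000000000000000) := T_10 (nat_lit 108) (nat_lit 91) (nat_lit 6) (nat_lit 5) (nat_lit 9) L56579 (by decide +kernel)
theorem L56581 : W_10 (nat_lit 4) (nat_lit 0x200004001300090000800000000000000000000000000) (nat_lit 0x0) (nat_lit 0x800000000000280014000a0000000000000000000000) := T_10 (nat_lit 106) (nat_lit 89) (nat_lit 4) (nat_lit 5) (nat_lit 9) L56580 (by decide +kernel)
theorem L56582 : W_10 (nat_lit 10) (nat_lit 0x200000001300090000800000000000000000000000000) (nat_lit 0x0) (nat_lit 0xe0007c0040006c0037800b0000000000000000000000) := Q_10 (nat_lit 158) (C_10 L56308 (C_10 L56188 (C_10 L56170 (C_10 L56578 (C_10 L56581 N_10))))) (by decide +kernel)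
theorem L56583 : W_10 (nat_lit 11) (nat_lit 0x200000001300090000000000000000000000000000000) (nat_lit 0x0) (nat_lit 0xe000fc0040006c003f801f800700038000c000000000) := Q_10 (nat_lit 107) (C_10 L56365 (C_10 L56325 (C_10 L56194 (C_10 L56343 (C_10 L56582 N_10))))) (by decide +kernel)
theorem L56584 : W_10 (nat_lit 2) (nat_lit 0x200002001300098000400000000000000000000000000) (nat_lit 0x0) (nat_lit 0x80004000000000000000020000000000000000000000) := D_10 (nat_lit 158) (nat_lit 175) (nat_lit 89) (nat_lit 7) (nat_lit 4) (nat_lit 6) (nat_lit 7) (nat_lit 4) (nat_lit 5) (by decide +kernel)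
theorem L56585 : W_10 (nat_lit 2) (nat_lit 0x200002001300098000400000000000000000000000000) (nat_lit 0x0) (nat_lit 0x4000000000000000020001000000000000000000) := D_10 (nat_lit 89) (nat_lit 158) (nat_lit 72) (nat_lit 7) (nat_lit 4) (nat_lit 5) (nat_lit 7) (nat_lit 4) (nat_lit 4) (by decide +kernel)
theorem L56586 : W_10 (nat_lit 2) (nat_lit 0x2000020013000da001e00000001000000000000000000) (nat_lit 0x0) (nat_lit 0x1000180000000000000000000000000) := D_10 (nat_lit 104) (nat_lit 103) (nat_lit 120) (nat_lit 3) (nat_lit 1) (nat_lit 6) (nat_lit 1) (nat_lit 5) (nat_lit 6) (by decide +kernel)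
theorem L56587 : W_10 (nat_lit 3) (nat_lit 0x2000020013000da001c00000001000000000000000000) (nat_lit 0x0) (nat_lit 0x1000380010000000000000000000000) := T_10 (nat_lit 105) (nat_lit 88) (nat_lit 4) (nat_lit 4) (nat_lit 9) L56586 (by decide +kernel)
theorem L56588 : W_10 (nat_lit 4) (nat_lit 0x2000020013000da001c00000000000000000000000000) (nat_lit 0x0) (nat_lit 0x1000380030001000000000000000000) := T_10 (nat_lit 72) (nat_lit 89) (nat_lit 7) (nat_lit 4) (nat_lit 4) L56587 (by decide +kernel)
theorem L56589 : W_10 (nat_lit 5) (nat_lit 0x2000020013000d8001c00000000000000000000000000) (nat_lit 0x0) (nat_lit 0x7000380030001000000000000000000) := T_10 (nat_lit 121) (nat_lit 122) (nat_lit 2) (nat_lit 2) (nat_lit 7) L56588 (by decide +kernel)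
theorem L56590 : W_10 (nat_lit 6) (nat_lit 0x2000020013000d8000c00000000000000000000000000) (nat_lit 0x0) (nat_lit 0x7003380030001000000000000000000) := T_10 (nat_lit 108) (nat_lit 109) (nat_lit 3) (nat_lit 4) (nat_lit 6) L56589 (by decide +kernel)
theorem L56591 : W_10 (nat_lit 7) (nat_lit 0x2000020013000d8000400000000000000000000000000) (nat_lit 0x0) (nat_lit 0x7003b80070001000000000000000000) := T_10 (nat_lit 107) (nat_lit 90) (nat_lit 6) (nat_lit 4) (nat_lit 9) L56590 (by decide +kernel)
theorem L56592 : W_10 (nat_lit 8) (nat_lit 0x200002001300098000400000000000000000000000000) (nat_lit 0x0) (nat_lit 0x67003b80070001000000000000000000) := T_10 (nat_lit 126) (nat_lit 125) (nat_lit 1) (nat_lit 8) (nat_lit 7) L56591 (by decide +kernel)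
theorem L56593 : W_10 (nat_lit 2) (nat_lit 0x2800034013000d8001f00000000000000000000000000) (nat_lit 0x0) (nat_lit 0x7000000000000000000000000000000) := D_10 (nat_lit 121) (nat_lit 122) (nat_lit 120) (nat_lit 2) (nat_lit 2) (nat_lit 7) (nat_lit 1) (nat_lit 5) (nat_lit 6) (by decide +kernel)
theorem L56594 : W_10 (nat_lit 3) (nat_lit 0x2800034013000d8000f00000000000000000000000000) (nat_lit 0x0) (nat_lit 0x7003000000000000000000000000000) := T_10 (nat_lit 108) (nat_lit 109) (nat_lit 3) (nat_lit 4) (nat_lit 6) L56593 (by decide +kernel)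
theorem L56595 : W_10 (nat_lit 4) (nat_lit 0x2800034013000d8000e00000000000000000000000000) (nat_lit 0x0) (nat_lit 0x7003180000000000000000000000000) := T_10 (nat_lit 104) (nat_lit 103) (nat_lit 3) (nat_lit 1) (nat_lit 6) L56594 (by decide +kernel)
theorem L56596 : W_10 (nat_lit 5) (nat_lit 0x2800034013000d8000c00000000000000000000000000) (nat_lit 0x0) (nat_lit 0x7003380010000000000000000000000) := T_10 (nat_lit 105) (nat_lit 88) (nat_lit 4) (nat_lit 4) (nat_lit 9) L56595 (by decide +kernel)
theorem L56597 : W_10 (nat_lit 6) (nat_lit 0x2800034013000d8000400000000000000000000000000) (nat_lit 0x0) (nat_lit 0x7003b80050000000000000000000000) := T_10 (nat_lit 107) (nat_lit 90) (nat_lit 6) (nat_lit 4) (nat_lit 9) L56596 (by decide +kernel)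
theorem L56598 : W_10 (nat_lit 7) (nat_lit 0x280003401300098000400000000000000000000000000) (nat_lit 0x0) (nat_lit 0x67003b80050000000000000000000000) := T_10 (nat_lit 126) (nat_lit 125) (nat_lit 1) (nat_lit 8) (nat_lit 7) L56597 (by decide +kernel)
theorem L56599 : W_10 (nat_lit 8) (nat_lit 0x200003401300098000400000000000000000000000000) (nat_lit 0x0) (nat_lit 0x80004000000067003b80050000000000000000000000) := T_10 (nat_lit 175) (nat_lit 158) (nat_lit 7) (nat_lit 4) (nat_lit 6) L56598 (by decide +kernel)
theorem L56600 : W_10 (nat_lit 9) (nat_lit 0x200003001300098000400000000000000000000000000) (nat_lit 0x0) (nat_lit 0x80004c00000067003b80050000000000000000000000) := T_10 (nat_lit 154) (nat_lit 155) (nat_lit 2) (nat_lit 1) (nat_lit 9) L56599 (by decide +kernel)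
theorem L56601 : W_10 (nat_lit 10) (nat_lit 0x200002001300098000400000000000000000000000000) (nat_lit 0x0) (nat_lit 0xa0005c00000067003b80050000000000000000000000) := T_10 (nat_lit 156) (nat_lit 173) (nat_lit 5) (nat_lit 4) (nat_lit 6) L56600 (by decide +kernel)
theorem L56602 : W_10 (nat_lit 11) (nat_lit 0x200002001300098000000000000000000000000000000) (nat_lit 0x0) (nat_lit 0xa0005c00000067003f80070001000000000000000000) := Q_10 (nat_lit 106) (C_10 L56584 (C_10 L56585 (C_10 L56592 (C_10 L56601 N_10)))) (by decide +kernel)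
theorem L56603 : W_10 (nat_lit 2) (nat_lit 0x200002001300098000400040000000000000000000000) (nat_lit 0x0) (nat_lit 0x20003000000000000000000) := D_10 (nat_lit 89) (nat_lit 73) (nat_lit 72) (nat_lit 6) (nat_lit 4) (nat_lit 8) (nat_lit 7) (nat_lit 4) (nat_lit 4) (by decide +kernel)
theorem L56604 : W_10 (nat_lit 3) (nat_lit 0x200002001300098000400000000000000000000000000) (nat_lit 0x0) (nat_lit 0x800060003000000000000000000) := T_10 (nat_lit 90) (nat_lit 107) (nat_lit 6) (nat_lit 4) (nat_lit 9) L56603 (by decide +kernel)
theorem L56605 : W_10 (nat_lit 2) (nat_lit 0x280003801380098000700040000000000000000000000) (nat_lit 0x0) (nat_lit 0x10000000000004000000008000000000000000000000) := D_10 (nat_lit 122) (nat_lit 87) (nat_lit 172) (nat_lit 4) (nat_lit 3) (nat_lit 9) (nat_lit 5) (nat_lit 3) (nat_lit 6) (by decide +kernel)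
theorem L56606 : W_10 (nat_lit 3) (nat_lit 0x280003801300098000700040000000000000000000000) (nat_lit 0x0) (nat_lit 0x10000000480004000000008000000000000000000000) := T_10 (nat_lit 139) (nat_lit 142) (nat_lit 1) (nat_lit 6) (nat_lit 8) L56605 (by decide +kernel)
theorem L56607 : W_10 (nat_lit 4) (nat_lit 0x280003801300098000600040000000000000000000000) (nat_lit 0x0) (nat_lit 0x10000000480004000180008000000000000000000000) := T_10 (nat_lit 104) (nat_lit 103) (nat_lit 3) (nat_lit 1) (nat_lit 6) L56606 (by decide +kernel)
theorem L56608 : W_10 (nat_lit 5) (nat_lit 0x280003801300098000400040000000000000000000000) (nat_lit 0x0) (nat_lit 0x10000000480004000380018000000000000000000000) := T_10 (nat_lit 105) (nat_lit 88) (nat_lit 4) (nat_lit 4) (nat_lit 9) L56607 (by decide +kernel)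
theorem L56609 : W_10 (nat_lit 6) (nat_lit 0x280003001300098000400040000000000000000000000) (nat_lit 0x0) (nat_lit 0x10000c00480004000380018000000000000000000000) := T_10 (nat_lit 155) (nat_lit 154) (nat_lit 2) (nat_lit 1) (nat_lit 9) L56608 (by decide +kernel)
theorem L56610 : W_10 (nat_lit 7) (nat_lit 0x280002001300098000400040000000000000000000000) (nat_lit 0x0) (nat_lit 0x30001c00480004000380018000000000000000000000) := T_10 (nat_lit 156) (nat_lit 173) (nat_lit 5) (nat_lit 4) (nat_lit 6) L56609 (by decide +kernel)
theorem L56611 : W_10 (nat_lit 8) (nat_lit 0x200002001300098000400040000000000000000000000) (nat_lit 0x0) (nat_lit 0xb0005c00480004000380018000000000000000000000) := T_10 (nat_lit 175) (nat_lit 158) (nat_lit 7) (nat_lit 4) (nat_lit 6) L56610 (by decide +kernel)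
theorem L56612 : W_10 (nat_lit 9) (nat_lit 0x200002001300098000400000000000000000000000000) (nat_lit 0x0) (nat_lit 0xb0005c00480004000b80058000000000000000000000) := T_10 (nat_lit 90) (nat_lit 107) (nat_lit 6) (nat_lit 4) (nat_lit 9) L56611 (by decide +kernel)
theorem L56613 : W_10 (nat_lit 10) (nat_lit 0x200002001300098000000000000000000000000000000) (nat_lit 0x0) (nat_lit 0xb0005c00480004000f80078003000000000000000000) := Q_10 (nat_lit 106) (C_10 L56585 (C_10 L56604 (C_10 L56612 N_10))) (by decide +kernel)
theorem L56614 : W_10 (nat_lit 2) (nat_lit 0x2000030013000d8000400000000000000000000000000) (nat_lit 0x0) (nat_lit 0x80000000000020001000000000000000000) := D_10 (nat_lit 89) (nat_lit 139) (nat_lit 72) (nat_lit 5) (nat_lit 4) (nat_lit 5) (nat_lit 7) (nat_lit 4) (nat_lit 4) (by decide +kernel)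
theorem L56615 : W_10 (nat_lit 3) (nat_lit 0x2000020013000d8000400000000000000000000000000) (nat_lit 0x0) (nat_lit 0x20001000080000000000020001000000000000000000) := T_10 (nat_lit 156) (nat_lit 173) (nat_lit 5) (nat_lit 4) (nat_lit 6) L56614 (by decide +kernel)
theorem L56616 : W_10 (nat_lit 4) (nat_lit 0x200002001300098000400000000000000000000000000) (nat_lit 0x0) (nat_lit 0x20001000080060000000020001000000000000000000) := T_10 (nat_lit 126) (nat_lit 125) (nat_lit 1) (nat_lit 8) (nat_lit 7) L56615 (by decide +kernel)
theorem L56617 : W_10 (nat_lit 2) (nat_lit 0x2000070013000d8000400000000000000000000000000) (nat_lit 0x0) (nat_lit 0xc00400000000000000000000000000000000000) := D_10 (nat_lit 155) (nat_lit 142) (nat_lit 154) (nat_lit 2) (nat_lit 2) (nat_lit 9) (nat_lit 2) (nat_lit 1) (nat_lit 9) (by decide +kernel)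
theorem L56618 : W_10 (nat_lit 3) (nat_lit 0x2000060013000d8000400000000000000000000000000) (nat_lit 0x0) (nat_lit 0x20001c00400000000000000000000000000000000000) := T_10 (nat_lit 156) (nat_lit 173) (nat_lit 5) (nat_lit 4) (nat_lit 6) L56617 (by decide +kernel)
theorem L56619 : W_10 (nat_lit 4) (nat_lit 0x200006001300098000400000000000000000000000000) (nat_lit 0x0) (nat_lit 0x20001c00400060000000000000000000000000000000) := T_10 (nat_lit 126) (nat_lit 125) (nat_lit 1) (nat_lit 8) (nat_lit 7) L56618 (by decide +kernel)
theorem L56620 : W_10 (nat_lit 5) (nat_lit 0x200002001300098000400000000000000000000000000) (nat_lit 0x0) (nat_lit 0xa0005c00400060000000000000000000000000000000) := T_10 (nat_lit 158) (nat_lit 175) (nat_lit 7) (nat_lit 4) (nat_lit 6) L56619 (by decide +kernel)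
theorem L56621 : W_10 (nat_lit 6) (nat_lit 0x200002001300098000000000000000000000000000000) (nat_lit 0x0) (nat_lit 0xa0005c00480060000400020001000000000000000000) := Q_10 (nat_lit 106) (C_10 L56585 (C_10 L56616 (C_10 L56620 N_10))) (by decide +kernel)
theorem L56622 : W_10 (nat_lit 2) (nat_lit 0x2000060013000da001e00000000000000000000000000) (nat_lit 0x0) (nat_lit 0x1000180000000000000000000000000) := D_10 (nat_lit 104) (nat_lit 103) (nat_lit 120) (nat_lit 3) (nat_lit 1) (nat_lit 6) (nat_lit 1) (nat_lit 5) (nat_lit 6) (by decide +kernel)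
theorem L56623 : W_10 (nat_lit 3) (nat_lit 0x2000060013000da001c00000000000000000000000000) (nat_lit 0x0) (nat_lit 0x1000380010000000000000000000000) := T_10 (nat_lit 105) (nat_lit 88) (nat_lit 4) (nat_lit 4) (nat_lit 9) L56622 (by decide +kernel)
theorem L56624 : W_10 (nat_lit 4) (nat_lit 0x2000020013000da001c00000000000000000000000000) (nat_lit 0x0) (nat_lit 0x4000000001000380090000000000000000000000) := T_10 (nat_lit 158) (nat_lit 91) (nat_lit 6) (nat_lit 5) (nat_lit 9) L56623 (by decide +kernel)
theorem L56625 : W_10 (nat_lit 5) (nat_lit 0x2000020013000d8001c00000000000000000000000000) (nat_lit 0x0) (nat_lit 0x4000000007000380090000000000000000000000) := T_10 (nat_lit 121) (nat_lit 122) (nat_lit 2) (nat_lit 2) (nat_lit 7) L56624 (by decide +kernel)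
theorem L56626 : W_10 (nat_lit 6) (nat_lit 0x2000020013000d8000c00000000000000000000000000) (nat_lit 0x0) (nat_lit 0x4000000007003380090000000000000000000000) := T_10 (nat_lit 108) (nat_lit 109) (nat_lit 3) (nat_lit 4) (nat_lit 6) L56625 (by decide +kernel)
theorem L56627 : W_10 (nat_lit 7) (nat_lit 0x2000020013000d8000400000000000000000000000000) (nat_lit 0x0) (nat_lit 0x4000000007003b800d0000000000000000000000) := T_10 (nat_lit 107) (nat_lit 90) (nat_lit 6) (nat_lit 4) (nat_lit 9) L56626 (by decide +kernel)
theorem L56628 : W_10 (nat_lit 8) (nat_lit 0x200002001300098000400000000000000000000000000) (nat_lit 0x0) (nat_lit 0x4000000067003b800d0000000000000000000000) := T_10 (nat_lit 126) (nat_lit 125) (nat_lit 1) (nat_lit 8) (nat_lit 7) L56627 (by decide +kernel)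
theorem L56629 : W_10 (nat_lit 9) (nat_lit 0x200002001300098000000000000000000000000000000) (nat_lit 0x0) (nat_lit 0x20005000080067003f800f0003000000000000000000) := Q_10 (nat_lit 106) (C_10 L56616 (C_10 L56604 (C_10 L56628 N_10))) (by decide +kernel)
theorem L56630 : W_10 (nat_lit 2) (nat_lit 0x20000200130009c000000000000000000000000000000) (nat_lit 0x0) (nat_lit 0x400003000000000000000000000000000000) := D_10 (nat_lit 121) (nat_lit 120) (nat_lit 142) (nat_lit 3) (nat_lit 1) (nat_lit 7) (nat_lit 3) (nat_lit 2) (nat_lit 7) (by decide +kernel)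
theorem L56631 : W_10 (nat_lit 2) (nat_lit 0x2000020013000de000000000000000000000000000000) (nat_lit 0x0) (nat_lit 0x1800040000000000000000000000) := D_10 (nat_lit 107) (nat_lit 90) (nat_lit 108) (nat_lit 5) (nat_lit 5) (nat_lit 5) (nat_lit 2) (nat_lit 2) (nat_lit 7) (by decide +kernel)
theorem L56632 : W_10 (nat_lit 3) (nat_lit 0x2000020013000dc000000000000000000000000000000) (nat_lit 0x0) (nat_lit 0x3001800040000000000000000000000) := T_10 (nat_lit 121) (nat_lit 120) (nat_lit 3) (nat_lit 1) (nat_lit 7) L56631 (by decide +kernel)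
theorem L56633 : W_10 (nat_lit 4) (nat_lit 0x20000200130009c000000000000000000000000000000) (nat_lit 0x0) (nat_lit 0x63001800040000000000000000000000) := T_10 (nat_lit 126) (nat_lit 125) (nat_lit 1) (nat_lit 8) (nat_lit 7) L56632 (by decide +kernel)
theorem L56634 : W_10 (nat_lit 2) (nat_lit 0x2800020013400bc0012000c0003800000000000000000) (nat_lit 0x0) (nat_lit 0x320000000000000000000000) := D_10 (nat_lit 92) (nat_lit 93) (nat_lit 89) (nat_lit 0) (nat_lit 8) (nat_lit 5) (nat_lit 0) (nat_lit 7) (nat_lit 5) (by decide +kernel)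
theorem L56635 : W_10 (nat_lit 3) (nat_lit 0x2800020013400bc0012000c0002800000000000000000) (nat_lit 0x0) (nat_lit 0x320001400000000000000000) := T_10 (nat_lit 72) (nat_lit 70) (nat_lit 3) (nat_lit 2) (nat_lit 4) L56634 (by decide +kernel)
theorem L56636 : W_10 (nat_lit 4) (nat_lit 0x2800020013400bc0012000c0000800000000000000000) (nat_lit 0x0) (nat_lit 0x400000000000320003400000000000000000) := T_10 (nat_lit 73) (nat_lit 142) (nat_lit 4) (nat_lit 6) (nat_lit 8) L56635 (by decide +kernel)
theorem L56637 : W_10 (nat_lit 5) (nat_lit 0x2800020013400bc001200040000800000000000000000) (nat_lit 0x0) (nat_lit 0x4000000000003a0007400000000000000000) := T_10 (nat_lit 91) (nat_lit 74) (nat_lit 5) (nat_lit 6) (nat_lit 4) L56636 (by decide +kernel)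
theorem L56638 : W_10 (nat_lit 6) (nat_lit 0x2800020013400bc001200040000000000000000000000) (nat_lit 0x0) (nat_lit 0x4000000000003b0007c00000000000000000) := T_10 (nat_lit 71) (nat_lit 88) (nat_lit 7) (nat_lit 3) (nat_lit 4) L56637 (by decide +kernel)
theorem L56639 : W_10 (nat_lit 7) (nat_lit 0x2000020013400bc001200040000000000000000000000) (nat_lit 0x0) (nat_lit 0x800040004000000000003b0007c00000000000000000) := T_10 (nat_lit 175) (nat_lit 158) (nat_lit 6) (nat_lit 5) (nat_lit 10) L56638 (by decide +kernel)
theorem L56640 : W_10 (nat_lit 8) (nat_lit 0x2000020013400bc001000040000000000000000000000) (nat_lit 0x0) (nat_lit 0x800040004000000003003b0007c00000000000000000) := T_10 (nat_lit 105) (nat_lit 104) (nat_lit 0) (nat_lit 6) (nat_lit 7) L56639 (by decide +kernel)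
theorem L56641 : W_10 (nat_lit 9) (nat_lit 0x2000020013400bc000000040000000000000000000000) (nat_lit 0x0) (nat_lit 0x800040004000000033003b0007c00000000000000000) := T_10 (nat_lit 108) (nat_lit 109) (nat_lit 2) (nat_lit 3) (nat_lit 7) L56640 (by decide +kernel)
theorem L56642 : W_10 (nat_lit 10) (nat_lit 0x2000020013000bc000000040000000000000000000000) (nat_lit 0x0) (nat_lit 0x800040004c00000033003b0007c00000000000000000) := T_10 (nat_lit 138) (nat_lit 139) (nat_lit 2) (nat_lit 2) (nat_lit 8) L56641 (by decide +kernel)
theorem L56643 : W_10 (nat_lit 11) (nat_lit 0x20000200130009c000000040000000000000000000000) (nat_lit 0x0) (nat_lit 0x800040004c00600033003b0007c00000000000000000) := T_10 (nat_lit 125) (nat_lit 126) (nat_lit 1) (nat_lit 8) (nat_lit 7) L56642 (by decide +kernel)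
theorem L56644 : W_10 (nat_lit 12) (nat_lit 0x20000200130009c000000000000000000000000000000) (nat_lit 0x0) (nat_lit 0x800040004c0060003b003f0007c00000000000000000) := T_10 (nat_lit 90) (nat_lit 107) (nat_lit 5) (nat_lit 5) (nat_lit 5) L56643 (by decide +kernel)
theorem L56645 : W_10 (nat_lit 13) (nat_lit 0x200002001300098000000000000000000000000000000) (nat_lit 0x0) (nat_lit 0x800040004c0067003b003f0007c00000000000000000) := Q_10 (nat_lit 122) (C_10 L56630 (C_10 L56633 (C_10 L56644 N_10))) (by decide +kernel)
theorem L56646 : W_10 (nat_lit 2) (nat_lit 0x2000020013000da001e00000000000000000000000000) (nat_lit 0x0) (nat_lit 0x1000180000000000000000000000000) := D_10 (nat_lit 104) (nat_lit 103) (nat_lit 120) (nat_lit 3) (nat_lit 1) (nat_lit 6) (nat_lit 1) (nat_lit 5) (nat_lit 6) (by decide +kernel)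
theorem L56647 : W_10 (nat_lit 3) (nat_lit 0x2000020013000da001c00000000000000000000000000) (nat_lit 0x0) (nat_lit 0x1000380010000000000000000000000) := T_10 (nat_lit 105) (nat_lit 88) (nat_lit 4) (nat_lit 4) (nat_lit 9) L56646 (by decide +kernel)
theorem L56648 : W_10 (nat_lit 4) (nat_lit 0x2000020013000d8001c00000000000000000000000000) (nat_lit 0x0) (nat_lit 0x7000380010000000000000000000000) := T_10 (nat_lit 121) (nat_lit 122) (nat_lit 2) (nat_lit 2) (nat_lit 7) L56647 (by decide +kernel)
theorem L56649 : W_10 (nat_lit 5) (nat_lit 0x2000020013000d8000c00000000000000000000000000) (nat_lit 0x0) (nat_lit 0x7003380010000000000000000000000) := T_10 (nat_lit 108) (nat_lit 109) (nat_lit 3) (nat_lit 4) (nat_lit 6) L56648 (by decide +kernel)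
theorem L56650 : W_10 (nat_lit 6) (nat_lit 0x2000020013000d8000400000000000000000000000000) (nat_lit 0x0) (nat_lit 0x7003b80050000000000000000000000) := T_10 (nat_lit 107) (nat_lit 90) (nat_lit 6) (nat_lit 4) (nat_lit 9) L56649 (by decide +kernel)
theorem L56651 : W_10 (nat_lit 7) (nat_lit 0x200002001300098000400000000000000000000000000) (nat_lit 0x0) (nat_lit 0x67003b80050000000000000000000000) := T_10 (nat_lit 126) (nat_lit 125) (nat_lit 1) (nat_lit 8) (nat_lit 7) L56650 (by decide +kernel)
theorem L56652 : W_10 (nat_lit 8) (nat_lit 0x200002001300098000000000000000000000000000000) (nat_lit 0x0) (nat_lit 0x20001000080067003f80070003000000000000000000) := Q_10 (nat_lit 106) (C_10 L56616 (C_10 L56604 (C_10 L56651 N_10))) (by decide +kernel)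
theorem L56653 : W_10 (nat_lit 10) (nat_lit 0x200002001300098000000000000000000000000000000) (nat_lit 0x0) (nat_lit 0xb0005c00480067003f80058000000000000000000000) := Q_10 (nat_lit 106) (C_10 L56651 (C_10 L56612 (C_10 L56620 N_10))) (by decide +kernel)
theorem L56654 : W_10 (nat_lit 14) (nat_lit 0x200002001300090000000000000000000000000000000) (nat_lit 0x0) (nat_lit 0xb0005c004c006f003f803f8007c00000000000000000) := Q_10 (nat_lit 123) (C_10 L56602 (C_10 L56613 (C_10 L56621 (C_10 L56629 (C_10 L56645 (C_10 L56652 (C_10 L56653 N_10))))))) (by decide +kernel)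
theorem L56655 : W_10 (nat_lit 2) (nat_lit 0x200002001300090000800000000000000000000000000) (nat_lit 0x0) (nat_lit 0x800040004000000000000000000000000000000000000000) := D_10 (nat_lit 174) (nat_lit 191) (nat_lit 158) (nat_lit 6) (nat_lit 4) (nat_lit 11) (nat_lit 5) (nat_lit 5) (nat_lit 6) (by decide +kernel)
theorem L56656 : W_10 (nat_lit 3) (nat_lit 0x200002001300090000000000000000000000000000000) (nat_lit 0x0) (nat_lit 0x800040004000000000000800040000000000000000000000) := T_10 (nat_lit 107) (nat_lit 90) (nat_lit 5) (nat_lit 5) (nat_lit 5) L56655 (by decide +kernel)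
theorem L56657 : W_10 (nat_lit 2) (nat_lit 0x200002001380090000000000000000000000000000000) (nat_lit 0x0) (nat_lit 0x40060000000000000000000000000000000) := D_10 (nat_lit 125) (nat_lit 126) (nat_lit 138) (nat_lit 1) (nat_lit 8) (nat_lit 7) (nat_lit 2) (nat_lit 2) (nat_lit 8) (by decide +kernel)
theorem L56658 : W_10 (nat_lit 2) (nat_lit 0x200003001380090000000000000000000000000000000) (nat_lit 0x0) (nat_lit 0xc00400000000000000000000000000000000000) := D_10 (nat_lit 155) (nat_lit 142) (nat_lit 154) (nat_lit 1) (nat_lit 6) (nat_lit 8) (nat_lit 2) (nat_lit 1) (nat_lit 9) (by decide +kernel)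
theorem L56659 : W_10 (nat_lit 2) (nat_lit 0x2c0003401380098000200000000000000000000000000) (nat_lit 0x0) (nat_lit 0x4000000000000400010000000000000000000000) := D_10 (nat_lit 106) (nat_lit 158) (nat_lit 88) (nat_lit 7) (nat_lit 4) (nat_lit 6) (nat_lit 4) (nat_lit 4) (nat_lit 9) (by decide +kernel)
theorem L56660 : W_10 (nat_lit 3) (nat_lit 0x2c0003401380090000200000000000000000000000000) (nat_lit 0x0) (nat_lit 0x1000000004000000008000400010000000000000000000000) := T_10 (nat_lit 123) (nat_lit 192) (nat_lit 7) (nat_lit 4) (nat_lit 7) L56659 (by decide +kernel)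
theorem L56661 : W_10 (nat_lit 4) (nat_lit 0x2c0003401380090000000000000000000000000000000) (nat_lit 0x0) (nat_lit 0x100000000400000000c000600010000000000000000000000) := T_10 (nat_lit 105) (nat_lit 122) (nat_lit 7) (nat_lit 3) (nat_lit 6) L56660 (by decide +kernel)
theorem L56662 : W_10 (nat_lit 5) (nat_lit 0x240003401380090000000000000000000000000000000) (nat_lit 0x0) (nat_lit 0x100018000400000000c000600010000000000000000000000) := T_10 (nat_lit 175) (nat_lit 176) (nat_lit 0) (nat_lit 7) (nat_lit 10) L56661 (by decide +kernel)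
theorem L56663 : W_10 (nat_lit 6) (nat_lit 0x240003001380090000000000000000000000000000000) (nat_lit 0x0) (nat_lit 0x1000180004c0000000c000600010000000000000000000000) := T_10 (nat_lit 154) (nat_lit 155) (nat_lit 2) (nat_lit 1) (nat_lit 9) L56662 (by decide +kernel)
theorem L56664 : W_10 (nat_lit 7) (nat_lit 0x200003001380090000000000000000000000000000000) (nat_lit 0x0) (nat_lit 0x18001c0004c0000000c000600010000000000000000000000) := T_10 (nat_lit 174) (nat_lit 191) (nat_lit 6) (nat_lit 4) (nat_lit 11) L56663 (by decide +kernel)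
theorem L56665 : W_10 (nat_lit 2) (nat_lit 0x2c0003001380098000200000000000000000000000000) (nat_lit 0x0) (nat_lit 0x4000000000000400010000000000000000000000) := D_10 (nat_lit 106) (nat_lit 158) (nat_lit 88) (nat_lit 7) (nat_lit 4) (nat_lit 6) (nat_lit 4) (nat_lit 4) (nat_lit 9) (by decide +kernel)
theorem L56666 : W_10 (nat_lit 3) (nat_lit 0x2c0003001380090000200000000000000000000000000) (nat_lit 0x0) (nat_lit 0x1000000004000000008000400010000000000000000000000) := T_10 (nat_lit 123) (nat_lit 192) (nat_lit 7) (nat_lit 4) (nat_lit 7) L56665 (by decide +kernel)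
theorem L56667 : W_10 (nat_lit 4) (nat_lit 0x240003001380090000200000000000000000000000000) (nat_lit 0x0) (nat_lit 0x1000180004000000008000400010000000000000000000000) := T_10 (nat_lit 175) (nat_lit 176) (nat_lit 0) (nat_lit 7) (nat_lit 10) L56666 (by decide +kernel)
theorem L56668 : W_10 (nat_lit 5) (nat_lit 0x240003001380090000000000000000000000000000000) (nat_lit 0x0) (nat_lit 0x100018000400000000c000600010000000000000000000000) := T_10 (nat_lit 105) (nat_lit 122) (nat_lit 7) (nat_lit 3) (nat_lit 6) L56667 (by decide +kernel)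
theorem L56669 : W_10 (nat_lit 6) (nat_lit 0x200003001380090000000000000000000000000000000) (nat_lit 0x0) (nat_lit 0x18001c000400000000c000600010000000000000000000000) := T_10 (nat_lit 174) (nat_lit 191) (nat_lit 6) (nat_lit 4) (nat_lit 11) L56668 (by decide +kernel)
theorem L56670 : W_10 (nat_lit 8) (nat_lit 0x200002001380090000000000000000000000000000000) (nat_lit 0x0) (nat_lit 0x18001c0005c0040000c000600010000000000000000000000) := Q_10 (nat_lit 156) (C_10 L56658 (C_10 L56664 (C_10 L56669 N_10))) (by decide +kernel)
theorem L56671 : W_10 (nat_lit 9) (nat_lit 0x200002001300090000000000000000000000000000000) (nat_lit 0x0) (nat_lit 0x18001c0005c004c006c000600010000000000000000000000) := Q_10 (nat_lit 139) (C_10 L56657 (C_10 L56670 N_10)) (by decide +kernel)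
theorem L56674 : W_10 (nat_lit 15) (nat_lit 0x200000001300090000000000000000000000000000000) (nat_lit 0x0) (nat_lit 0x18001f0007c004c006f003f803f8007c00000000000000000) := Q_10 (nat_lit 157) (C_10 L56654 (C_10 L56656 (C_10 L56671 (C_10 L56673 N_10)))) (by decide +kernel)
theorem L56675 : W_10 (nat_lit 2) (nat_lit 0x2000070013000d0001800000000000000000000000000) (nat_lit 0x0) (nat_lit 0xc00400000000000000000000000000000000000) := D_10 (nat_lit 155) (nat_lit 154) (nat_lit 142) (nat_lit 2) (nat_lit 1) (nat_lit 9) (nat_lit 2) (nat_lit 2) (nat_lit 9) (by decide +kernel)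
theorem L56676 : W_10 (nat_lit 3) (nat_lit 0x2000050013000d0001800000000000000000000000000) (nat_lit 0x0) (nat_lit 0x40002c00400000000000000000000000000000000000) := T_10 (nat_lit 157) (nat_lit 174) (nat_lit 5) (nat_lit 5) (nat_lit 6) L56675 (by decide +kernel)
theorem L56677 : W_10 (nat_lit 4) (nat_lit 0x2000050013000d0000800000000000000000000000000) (nat_lit 0x0) (nat_lit 0x40002c00400000001000080000000000000000000000) := T_10 (nat_lit 108) (nat_lit 91) (nat_lit 6) (nat_lit 5) (nat_lit 9) L56676 (by decide +kernel)
theorem L56678 : W_10 (nat_lit 5) (nat_lit 0x200005001300090000800000000000000000000000000) (nat_lit 0x0) (nat_lit 0x40002c00400060001000080000000000000000000000) := T_10 (nat_lit 126) (nat_lit 125) (nat_lit 1) (nat_lit 8) (nat_lit 7) L56677 (by decide +kernel)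
theorem L56679 : W_10 (nat_lit 2) (nat_lit 0x20000f001340090000800000000000000000000000000) (nat_lit 0x0) (nat_lit 0xc00020000000000000000000000000000000000) := D_10 (nat_lit 155) (nat_lit 137) (nat_lit 154) (nat_lit 0) (nat_lit 5) (nat_lit 9) (nat_lit 2) (nat_lit 1) (nat_lit 9) (by decide +kernel)
theorem L56680 : W_10 (nat_lit 3) (nat_lit 0x20000f001300090000800000000000000000000000000) (nat_lit 0x0) (nat_lit 0xc000e0000000000000000000000000000000000) := T_10 (nat_lit 138) (nat_lit 139) (nat_lit 3) (nat_lit 2) (nat_lit 8) L56679 (by decide +kernel)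
theorem L56681 : W_10 (nat_lit 4) (nat_lit 0x200007001300090000800000000000000000000000000) (nat_lit 0x0) (nat_lit 0x100008c000e0000000000000000000000000000000000) := T_10 (nat_lit 159) (nat_lit 176) (nat_lit 3) (nat_lit 3) (nat_lit 9) L56680 (by decide +kernel)
theorem L56682 : W_10 (nat_lit 5) (nat_lit 0x200005001300090000800000000000000000000000000) (nat_lit 0x0) (nat_lit 0x14000ac000e0000000000000000000000000000000000) := T_10 (nat_lit 157) (nat_lit 174) (nat_lit 5) (nat_lit 5) (nat_lit 6) L56681 (by decide +kernel)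
theorem L56683 : W_10 (nat_lit 2) (nat_lit 0x20000d0017800b4001800000000000000000000000000) (nat_lit 0x0) (nat_lit 0x8002000100000000000000000000000) := D_10 (nat_lit 109) (nat_lit 92) (nat_lit 123) (nat_lit 6) (nat_lit 6) (nat_lit 9) (nat_lit 2) (nat_lit 3) (nat_lit 7) (by decide +kernel)
theorem L56684 : W_10 (nat_lit 3) (nat_lit 0x20000d0017800b0001800000000000000000000000000) (nat_lit 0x0) (nat_lit 0xe002000100000000000000000000000) := T_10 (nat_lit 122) (nat_lit 121) (nat_lit 0) (nat_lit 6) (nat_lit 8) L56683 (by decide +kernel)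
theorem L56685 : W_10 (nat_lit 4) (nat_lit 0x20000d0013800b0001800000000000000000000000000) (nat_lit 0x0) (nat_lit 0x80040000e002000100000000000000000000000) := T_10 (nat_lit 142) (nat_lit 155) (nat_lit 1) (nat_lit 6) (nat_lit 8) L56684 (by decide +kernel)
theorem L56686 : W_10 (nat_lit 5) (nat_lit 0x2000050013800b0001800000000000000000000000000) (nat_lit 0x0) (nat_lit 0x10000880040000e002000100000000000000000000000) := T_10 (nat_lit 159) (nat_lit 176) (nat_lit 7) (nat_lit 5) (nat_lit 6) L56685 (by decide +kernel)
theorem L56687 : W_10 (nat_lit 6) (nat_lit 0x2000050013000b0001800000000000000000000000000) (nat_lit 0x0) (nat_lit 0x1000088004c000e002000100000000000000000000000) := T_10 (nat_lit 139) (nat_lit 138) (nat_lit 2) (nat_lit 2) (nat_lit 8) L56686 (by decide +kernel)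
theorem L56688 : W_10 (nat_lit 7) (nat_lit 0x2000050013000b0000800000000000000000000000000) (nat_lit 0x0) (nat_lit 0x1000088004c000e003000180000000000000000000000) := T_10 (nat_lit 108) (nat_lit 91) (nat_lit 6) (nat_lit 5) (nat_lit 9) L56687 (by decide +kernel)
theorem L56689 : W_10 (nat_lit 8) (nat_lit 0x200005001300090000800000000000000000000000000) (nat_lit 0x0) (nat_lit 0x1000088004c006e003000180000000000000000000000) := T_10 (nat_lit 125) (nat_lit 126) (nat_lit 1) (nat_lit 8) (nat_lit 7) L56688 (by decide +kernel)
theorem L56690 : W_10 (nat_lit 2) (nat_lit 0x22000f0013800d0001800000000000000000000000000) (nat_lit 0x0) (nat_lit 0x8000400000000000000008000000000000000000000000000000) := D_10 (nat_lit 190) (nat_lit 123) (nat_lit 207) (nat_lit 6) (nat_lit 3) (nat_lit 11) (nat_lit 6) (nat_lit 3) (nat_lit 12) (by decide +kernel)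
theorem L56691 : W_10 (nat_lit 3) (nat_lit 0x20000f0013800d0001800000000000000000000000000) (nat_lit 0x0) (nat_lit 0x8000400030000000000008000000000000000000000000000000) := T_10 (nat_lit 173) (nat_lit 172) (nat_lit 1) (nat_lit 6) (nat_lit 9) L56690 (by decide +kernel)
theorem L56692 : W_10 (nat_lit 4) (nat_lit 0x20000f0013800d0000800000000000000000000000000) (nat_lit 0x0) (nat_lit 0x8000400030000000000008001000080000000000000000000000) := T_10 (nat_lit 108) (nat_lit 91) (nat_lit 6) (nat_lit 5) (nat_lit 9) L56691 (by decide +kernel)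
theorem L56693 : W_10 (nat_lit 5) (nat_lit 0x20000f0013000d0000800000000000000000000000000) (nat_lit 0x0) (nat_lit 0x80004000300000000c0008001000080000000000000000000000) := T_10 (nat_lit 139) (nat_lit 138) (nat_lit 3) (nat_lit 2) (nat_lit 8) L56692 (by decide +kernel)
theorem L56694 : W_10 (nat_lit 6) (nat_lit 0x2000070013000d0000800000000000000000000000000) (nat_lit 0x0) (nat_lit 0x80004001300080000c0008001000080000000000000000000000) := T_10 (nat_lit 159) (nat_lit 176) (nat_lit 3) (nat_lit 3) (nat_lit 9) L56693 (by decide +kernel)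
theorem L56695 : W_10 (nat_lit 7) (nat_lit 0x2000050013000d0000800000000000000000000000000) (nat_lit 0x0) (nat_lit 0x800040017000a0000c0008001000080000000000000000000000) := T_10 (nat_lit 157) (nat_lit 174) (nat_lit 5) (nat_lit 5) (nat_lit 6) L56694 (by decide +kernel)
theorem L56696 : W_10 (nat_lit 8) (nat_lit 0x200005001300090000800000000000000000000000000) (nat_lit 0x0) (nat_lit 0x800040017000a0000c0068001000080000000000000000000000) := T_10 (nat_lit 126) (nat_lit 125) (nat_lit 1) (nat_lit 8) (nat_lit 7) L56695 (by decide +kernel)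
theorem L56697 : W_10 (nat_lit 9) (nat_lit 0x200004001300090000800000000000000000000000000) (nat_lit 0x0) (nat_lit 0x800040017000bc004e006e003000180000000000000000000000) := Q_10 (nat_lit 156) (C_10 L56678 (C_10 L56682 (C_10 L56689 (C_10 L56696 N_10)))) (by decide +kernel)
theorem L56698 : W_10 (nat_lit 2) (nat_lit 0x20000f0013400b8000e00000000000000000000000000) (nat_lit 0x0) (nat_lit 0x800420000000000000000000000000000000000) := D_10 (nat_lit 155) (nat_lit 142) (nat_lit 137) (nat_lit 2) (nat_lit 2) (nat_lit 9) (nat_lit 0) (nat_lit 5) (nat_lit 9) (by decide +kernel)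
theorem L56699 : W_10 (nat_lit 3) (nat_lit 0x20000e0013400b8000e00000000000000000000000000) (nat_lit 0x0) (nat_lit 0x20001800420000000000000000000000000000000000) := T_10 (nat_lit 156) (nat_lit 173) (nat_lit 5) (nat_lit 4) (nat_lit 6) L56698 (by decide +kernel)
theorem L56700 : W_10 (nat_lit 4) (nat_lit 0x20000e0013400b0000e00000000000000000000000000) (nat_lit 0x0) (nat_lit 0x20001800420008000000010000000000000000000000) := T_10 (nat_lit 123) (nat_lit 88) (nat_lit 4) (nat_lit 4) (nat_lit 9) L56699 (by decide +kernel)
theorem L56701 : W_10 (nat_lit 5) (nat_lit 0x20000c0013400b0000e00000000000000000000000000) (nat_lit 0x0) (nat_lit 0x60003800420008000000010000000000000000000000) := T_10 (nat_lit 157) (nat_lit 174) (nat_lit 5) (nat_lit 5) (nat_lit 6) L56700 (by decide +kernel)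
theorem L56702 : W_10 (nat_lit 6) (nat_lit 0x20000c0013400b0000c00000000000000000000000000) (nat_lit 0x0) (nat_lit 0x60003800420008000300010000000000000000000000) := T_10 (nat_lit 105) (nat_lit 104) (nat_lit 3) (nat_lit 2) (nat_lit 6) L56701 (by decide +kernel)
theorem L56703 : W_10 (nat_lit 7) (nat_lit 0x20000c0013000b0000c00000000000000000000000000) (nat_lit 0x0) (nat_lit 0x600038004e0008000300010000000000000000000000) := T_10 (nat_lit 138) (nat_lit 139) (nat_lit 3) (nat_lit 2) (nat_lit 8) L56702 (by decide +kernel)
theorem L56704 : W_10 (nat_lit 8) (nat_lit 0x2000040013000b0000c00000000000000000000000000) (nat_lit 0x0) (nat_lit 0x16000b8004e0008000300010000000000000000000000) := T_10 (nat_lit 159) (nat_lit 176) (nat_lit 7) (nat_lit 5) (nat_lit 6) L56703 (by decide +kernel)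
theorem L56705 : W_10 (nat_lit 9) (nat_lit 0x200004001300090000c00000000000000000000000000) (nat_lit 0x0) (nat_lit 0x16000b8004e0068000300010000000000000000000000) := T_10 (nat_lit 125) (nat_lit 126) (nat_lit 1) (nat_lit 8) (nat_lit 7) L56704 (by decide +kernel)
theorem L56706 : W_10 (nat_lit 10) (nat_lit 0x200004001300090000800000000000000000000000000) (nat_lit 0x0) (nat_lit 0x16000b8004e0068000700030000000000000000000000) := T_10 (nat_lit 106) (nat_lit 89) (nat_lit 4) (nat_lit 5) (nat_lit 9) L56705 (by decide +kernel)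
theorem L56707 : W_10 (nat_lit 2) (nat_lit 0x20000e0013000bc001a00020000000000000000000000) (nat_lit 0x0) (nat_lit 0x80000000000010000800000000000000000) := D_10 (nat_lit 88) (nat_lit 71) (nat_lit 139) (nat_lit 7) (nat_lit 3) (nat_lit 4) (nat_lit 7) (nat_lit 3) (nat_lit 5) (by decide +kernel)
theorem L56708 : W_10 (nat_lit 3) (nat_lit 0x20000e0013000bc001800020000000000000000000000) (nat_lit 0x0) (nat_lit 0x80000000300010000800000000000000000) := T_10 (nat_lit 105) (nat_lit 104) (nat_lit 0) (nat_lit 6) (nat_lit 7) L56707 (by decide +kernel)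
theorem L56709 : W_10 (nat_lit 4) (nat_lit 0x20000e00130009c001800020000000000000000000000) (nat_lit 0x0) (nat_lit 0x80020002300010000800000000000000000) := T_10 (nat_lit 125) (nat_lit 109) (nat_lit 2) (nat_lit 3) (nat_lit 7) L56708 (by decide +kernel)
theorem L56710 : W_10 (nat_lit 5) (nat_lit 0x20000600130009c001800020000000000000000000000) (nat_lit 0x0) (nat_lit 0x100008000080020002300010000800000000000000000) := T_10 (nat_lit 159) (nat_lit 176) (nat_lit 7) (nat_lit 5) (nat_lit 6) L56709 (by decide +kernel)
theorem L56711 : W_10 (nat_lit 6) (nat_lit 0x200006001300098001800020000000000000000000000) (nat_lit 0x0) (nat_lit 0x100008000080026002300010000800000000000000000) := T_10 (nat_lit 122) (nat_lit 121) (nat_lit 2) (nat_lit 2) (nat_lit 7) L56710 (by decide +kernel)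
theorem L56712 : W_10 (nat_lit 7) (nat_lit 0x200006001300098000800020000000000000000000000) (nat_lit 0x0) (nat_lit 0x100008000080026003300090000800000000000000000) := T_10 (nat_lit 108) (nat_lit 91) (nat_lit 6) (nat_lit 5) (nat_lit 9) L56711 (by decide +kernel)
theorem L56713 : W_10 (nat_lit 8) (nat_lit 0x200006001300098000800000000000000000000000000) (nat_lit 0x0) (nat_lit 0x1000080000800260037000b0000800000000000000000) := T_10 (nat_lit 89) (nat_lit 106) (nat_lit 7) (nat_lit 4) (nat_lit 5) L56712 (by decide +kernel)
theorem L56714 : W_10 (nat_lit 9) (nat_lit 0x200004001300098000800000000000000000000000000) (nat_lit 0x0) (nat_lit 0x14000a0000800260037000b0000800000000000000000) := T_10 (nat_lit 157) (nat_lit 174) (nat_lit 6) (nat_lit 4) (nat_lit 10) L56713 (by decide +kernel)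
theorem L56715 : W_10 (nat_lit 2) (nat_lit 0x20000e001340098001c00000000000000000000000000) (nat_lit 0x0) (nat_lit 0x6002000000000000000000000000000) := D_10 (nat_lit 122) (nat_lit 121) (nat_lit 109) (nat_lit 2) (nat_lit 2) (nat_lit 7) (nat_lit 1) (nat_lit 7) (nat_lit 6) (by decide +kernel)
theorem L56716 : W_10 (nat_lit 3) (nat_lit 0x20000e001340098000c00000000000000000000000000) (nat_lit 0x0) (nat_lit 0x6003000080000000000000000000000) := T_10 (nat_lit 108) (nat_lit 91) (nat_lit 6) (nat_lit 5) (nat_lit 9) L56715 (by decide +kernel)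
theorem L56717 : W_10 (nat_lit 4) (nat_lit 0x20000e001340098000800000000000000000000000000) (nat_lit 0x0) (nat_lit 0x60034000a0000000000000000000000) := T_10 (nat_lit 106) (nat_lit 89) (nat_lit 7) (nat_lit 4) (nat_lit 5) L56716 (by decide +kernel)
theorem L56718 : W_10 (nat_lit 5) (nat_lit 0x20000c001340098000800000000000000000000000000) (nat_lit 0x0) (nat_lit 0x400020000000060034000a0000000000000000000000) := T_10 (nat_lit 157) (nat_lit 174) (nat_lit 6) (nat_lit 4) (nat_lit 10) L56717 (by decide +kernel)
theorem L56719 : W_10 (nat_lit 6) (nat_lit 0x20000c001300098000800000000000000000000000000) (nat_lit 0x0) (nat_lit 0x400020000c00060034000a0000000000000000000000) := T_10 (nat_lit 138) (nat_lit 139) (nat_lit 3) (nat_lit 2) (nat_lit 8) L56718 (by decide +kernel)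
theorem L56720 : W_10 (nat_lit 7) (nat_lit 0x200004001300098000800000000000000000000000000) (nat_lit 0x0) (nat_lit 0x14000a0000c00060034000a0000000000000000000000) := T_10 (nat_lit 159) (nat_lit 176) (nat_lit 7) (nat_lit 5) (nat_lit 6) L56719 (by decide +kernel)
theorem L56721 : W_10 (nat_lit 2) (nat_lit 0x20000c001340098001c00000000000000000000000000) (nat_lit 0x0) (nat_lit 0x6002000000000000000000000000000) := D_10 (nat_lit 122) (nat_lit 121) (nat_lit 109) (nat_lit 2) (nat_lit 2) (nat_lit 7) (nat_lit 1) (nat_lit 7) (nat_lit 6) (by decide +kernel)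
theorem L56722 : W_10 (nat_lit 3) (nat_lit 0x20000c001340098000c00000000000000000000000000) (nat_lit 0x0) (nat_lit 0x6003000080000000000000000000000) := T_10 (nat_lit 108) (nat_lit 91) (nat_lit 6) (nat_lit 5) (nat_lit 9) L56721 (by decide +kernel)
theorem L56723 : W_10 (nat_lit 4) (nat_lit 0x20000c001300098000c00000000000000000000000000) (nat_lit 0x0) (nat_lit 0xc0006003000080000000000000000000000) := T_10 (nat_lit 138) (nat_lit 139) (nat_lit 3) (nat_lit 2) (nat_lit 8) L56722 (by decide +kernel)
theorem L56724 : W_10 (nat_lit 5) (nat_lit 0x200004001300098000c00000000000000000000000000) (nat_lit 0x0) (nat_lit 0x1000080000c0006003000080000000000000000000000) := T_10 (nat_lit 159) (nat_lit 176) (nat_lit 7) (nat_lit 5) (nat_lit 6) L56723 (by decide +kernel)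
theorem L56725 : W_10 (nat_lit 6) (nat_lit 0x200004001300098000800000000000000000000000000) (nat_lit 0x0) (nat_lit 0x1000080000c00060034000a0000000000000000000000) := T_10 (nat_lit 106) (nat_lit 89) (nat_lit 7) (nat_lit 4) (nat_lit 5) L56724 (by decide +kernel)
theorem L56726 : W_10 (nat_lit 2) (nat_lit 0x20000600130009a001e00000000000000000000000000) (nat_lit 0x0) (nat_lit 0x20000180000000000000000000000000) := D_10 (nat_lit 104) (nat_lit 125) (nat_lit 103) (nat_lit 3) (nat_lit 2) (nat_lit 6) (nat_lit 3) (nat_lit 1) (nat_lit 6) (by decide +kernel)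
theorem L56727 : W_10 (nat_lit 3) (nat_lit 0x20000600130009a001c00000000000000000000000000) (nat_lit 0x0) (nat_lit 0x20000380010000000000000000000000) := T_10 (nat_lit 105) (nat_lit 88) (nat_lit 4) (nat_lit 4) (nat_lit 9) L56726 (by decide +kernel)
theorem L56728 : W_10 (nat_lit 4) (nat_lit 0x20000600130009a001800000000000000000000000000) (nat_lit 0x0) (nat_lit 0x20000780030000000000000000000000) := T_10 (nat_lit 106) (nat_lit 89) (nat_lit 7) (nat_lit 4) (nat_lit 5) L56727 (by decide +kernel)
theorem L56729 : W_10 (nat_lit 5) (nat_lit 0x20000400130009a001800000000000000000000000000) (nat_lit 0x0) (nat_lit 0x40002000000020000780030000000000000000000000) := T_10 (nat_lit 157) (nat_lit 174) (nat_lit 6) (nat_lit 4) (nat_lit 10) L56728 (by decide +kernel)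
theorem L56730 : W_10 (nat_lit 6) (nat_lit 0x200004001300098001800000000000000000000000000) (nat_lit 0x0) (nat_lit 0x40002000000026000780030000000000000000000000) := T_10 (nat_lit 121) (nat_lit 122) (nat_lit 2) (nat_lit 2) (nat_lit 7) L56729 (by decide +kernel)
theorem L56731 : W_10 (nat_lit 7) (nat_lit 0x200004001300098000800000000000000000000000000) (nat_lit 0x0) (nat_lit 0x400020000000260017800b0000000000000000000000) := T_10 (nat_lit 108) (nat_lit 91) (nat_lit 6) (nat_lit 5) (nat_lit 9) L56730 (by decide +kernel)
theorem L56732 : W_10 (nat_lit 2) (nat_lit 0x20000e00138009c001a00000000000000000000000000) (nat_lit 0x0) (nat_lit 0x20002100000000000000000000000000) := D_10 (nat_lit 125) (nat_lit 109) (nat_lit 104) (nat_lit 2) (nat_lit 3) (nat_lit 7) (nat_lit 0) (nat_lit 6) (nat_lit 7) (by decide +kernel)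
theorem L56733 : W_10 (nat_lit 3) (nat_lit 0x20000e00138009c001800000000000000000000000000) (nat_lit 0x0) (nat_lit 0x20002300010000000000000000000000) := T_10 (nat_lit 105) (nat_lit 88) (nat_lit 7) (nat_lit 3) (nat_lit 5) L56732 (by decide +kernel)
theorem L56734 : W_10 (nat_lit 4) (nat_lit 0x20000e001380098001800000000000000000000000000) (nat_lit 0x0) (nat_lit 0x26002300010000000000000000000000) := T_10 (nat_lit 122) (nat_lit 121) (nat_lit 2) (nat_lit 2) (nat_lit 7) L56733 (by decide +kernel)
theorem L56735 : W_10 (nat_lit 5) (nat_lit 0x20000e001380098000800000000000000000000000000) (nat_lit 0x0) (nat_lit 0x26003300090000000000000000000000) := T_10 (nat_lit 108) (nat_lit 91) (nat_lit 6) (nat_lit 5) (nat_lit 9) L56734 (by decide +kernel)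
theorem L56736 : W_10 (nat_lit 6) (nat_lit 0x20000c001380098000800000000000000000000000000) (nat_lit 0x0) (nat_lit 0x40002000000026003300090000000000000000000000) := T_10 (nat_lit 157) (nat_lit 174) (nat_lit 6) (nat_lit 4) (nat_lit 10) L56735 (by decide +kernel)
theorem L56737 : W_10 (nat_lit 7) (nat_lit 0x20000c001300098000800000000000000000000000000) (nat_lit 0x0) (nat_lit 0x400020000c0026003300090000000000000000000000) := T_10 (nat_lit 139) (nat_lit 138) (nat_lit 3) (nat_lit 2) (nat_lit 8) L56736 (by decide +kernel)
theorem L56738 : W_10 (nat_lit 8) (nat_lit 0x200004001300098000800000000000000000000000000) (nat_lit 0x0) (nat_lit 0x14000a0000c0026003300090000000000000000000000) := T_10 (nat_lit 159) (nat_lit 176) (nat_lit 7) (nat_lit 5) (nat_lit 6) L56737 (by decide +kernel)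
theorem L56739 : W_10 (nat_lit 2) (nat_lit 0x20000f001340098001c00000000000000000000000000) (nat_lit 0x0) (nat_lit 0x800420000000000000000000000000000000000) := D_10 (nat_lit 155) (nat_lit 142) (nat_lit 137) (nat_lit 2) (nat_lit 2) (nat_lit 9) (nat_lit 0) (nat_lit 5) (nat_lit 9) (by decide +kernel)
theorem L56740 : W_10 (nat_lit 3) (nat_lit 0x20000e001340098001c00000000000000000000000000) (nat_lit 0x0) (nat_lit 0x20001800420000000000000000000000000000000000) := T_10 (nat_lit 156) (nat_lit 173) (nat_lit 5) (nat_lit 4) (nat_lit 6) L56739 (by decide +kernel)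
theorem L56741 : W_10 (nat_lit 4) (nat_lit 0x20000c001340098001c00000000000000000000000000) (nat_lit 0x0) (nat_lit 0x60003800420000000000000000000000000000000000) := T_10 (nat_lit 157) (nat_lit 174) (nat_lit 6) (nat_lit 4) (nat_lit 10) L56740 (by decide +kernel)
theorem L56742 : W_10 (nat_lit 5) (nat_lit 0x20000c001300098001c00000000000000000000000000) (nat_lit 0x0) (nat_lit 0x600038004e0000000000000000000000000000000000) := T_10 (nat_lit 138) (nat_lit 139) (nat_lit 3) (nat_lit 2) (nat_lit 8) L56741 (by decide +kernel)
theorem L56743 : W_10 (nat_lit 6) (nat_lit 0x200004001300098001c00000000000000000000000000) (nat_lit 0x0) (nat_lit 0x16000b8004e0000000000000000000000000000000000) := T_10 (nat_lit 159) (nat_lit 176) (nat_lit 7) (nat_lit 5) (nat_lit 6) L56742 (by decide +kernel)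
theorem L56744 : W_10 (nat_lit 7) (nat_lit 0x200004001300098001800000000000000000000000000) (nat_lit 0x0) (nat_lit 0x16000b8004e0000000400020000000000000000000000) := T_10 (nat_lit 106) (nat_lit 89) (nat_lit 7) (nat_lit 4) (nat_lit 5) L56743 (by decide +kernel)
theorem L56745 : W_10 (nat_lit 8) (nat_lit 0x200004001300098000800000000000000000000000000) (nat_lit 0x0) (nat_lit 0x16000b8004e00000014000a0000000000000000000000) := T_10 (nat_lit 108) (nat_lit 91) (nat_lit 6) (nat_lit 5) (nat_lit 9) L56744 (by decide +kernel)
theorem L56746 : W_10 (nat_lit 2) (nat_lit 0x200006001300098000e00000000000000000000000000) (nat_lit 0x0) (nat_lit 0x20000180000000000000000000000000) := D_10 (nat_lit 104) (nat_lit 125) (nat_lit 103) (nat_lit 3) (nat_lit 2) (nat_lit 6) (nat_lit 3) (nat_lit 1) (nat_lit 6) (by decide +kernel)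
theorem L56747 : W_10 (nat_lit 3) (nat_lit 0x200006001300098000c00000000000000000000000000) (nat_lit 0x0) (nat_lit 0x20000380010000000000000000000000) := T_10 (nat_lit 105) (nat_lit 88) (nat_lit 4) (nat_lit 4) (nat_lit 9) L56746 (by decide +kernel)
theorem L56748 : W_10 (nat_lit 4) (nat_lit 0x200006001300098000800000000000000000000000000) (nat_lit 0x0) (nat_lit 0x20000780030000000000000000000000) := T_10 (nat_lit 106) (nat_lit 89) (nat_lit 7) (nat_lit 4) (nat_lit 5) L56747 (by decide +kernel)
theorem L56749 : W_10 (nat_lit 5) (nat_lit 0x200004001300098000800000000000000000000000000) (nat_lit 0x0) (nat_lit 0x40002000000020000780030000000000000000000000) := T_10 (nat_lit 157) (nat_lit 174) (nat_lit 6) (nat_lit 4) (nat_lit 10) L56748 (by decide +kernel)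
theorem L56750 : W_10 (nat_lit 10) (nat_lit 0x200004001300090000800000000000000000000000000) (nat_lit 0x0) (nat_lit 0x16000b8004e002e0037800b0000800000000000000000) := Q_10 (nat_lit 123) (C_10 L56714 (C_10 L56720 (C_10 L56725 (C_10 L56731 (C_10 L56738 (C_10 L56745 (C_10 L56749 N_10))))))) (by decide +kernel)
theorem L56751 : W_10 (nat_lit 12) (nat_lit 0x200000001300090000800000000000000000000000000) (nat_lit 0x0) (nat_lit 0x800040017000fc004e006e0037803b0000800000000000000000) := Q_10 (nat_lit 158) (C_10 L56170 (C_10 L56318 (C_10 L56697 (C_10 L56706 (C_10 L56750 N_10))))) (by decide +kernel)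
theorem L56752 : W_10 (nat_lit 13) (nat_lit 0x200000001300090000000000000000000000000000000) (nat_lit 0x0) (nat_lit 0x800040017000fc004e006e003f803f800780038000c000000000) := Q_10 (nat_lit 107) (C_10 L56365 (C_10 L56325 (C_10 L56194 (C_10 L56343 (C_10 L56751 N_10))))) (by decide +kernel)
theorem L56753 : W_10 (nat_lit 2) (nat_lit 0x3800060013000d0001800000000000000000000000000) (nat_lit 0x0) (nat_lit 0x20001000000000000000008000000000000000000000000000000) := D_10 (nat_lit 192) (nat_lit 209) (nat_lit 123) (nat_lit 4) (nat_lit 5) (nat_lit 12) (nat_lit 4) (nat_lit 5) (nat_lit 11) (by decide +kernel)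
theorem L56754 : W_10 (nat_lit 3) (nat_lit 0x3000060013000d0001800000000000000000000000000) (nat_lit 0x0) (nat_lit 0x20003000080000000000008000000000000000000000000000000) := T_10 (nat_lit 175) (nat_lit 193) (nat_lit 7) (nat_lit 5) (nat_lit 7) L56753 (by decide +kernel)
theorem L56755 : W_10 (nat_lit 4) (nat_lit 0x2000060013000d0001800000000000000000000000000) (nat_lit 0x0) (nat_lit 0x20003000180008000000008000000000000000000000000000000) := T_10 (nat_lit 176) (nat_lit 159) (nat_lit 7) (nat_lit 5) (nat_lit 6) L56754 (by decide +kernel)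
theorem L56756 : W_10 (nat_lit 5) (nat_lit 0x2000060013000d0000800000000000000000000000000) (nat_lit 0x0) (nat_lit 0x20003000180008000000008001000080000000000000000000000) := T_10 (nat_lit 108) (nat_lit 91) (nat_lit 6) (nat_lit 5) (nat_lit 9) L56755 (by decide +kernel)
theorem L56757 : W_10 (nat_lit 6) (nat_lit 0x2000060013000d0000000000000000000000000000000) (nat_lit 0x0) (nat_lit 0x200030001800080000000080018000c0000000000000000000000) := T_10 (nat_lit 107) (nat_lit 90) (nat_lit 5) (nat_lit 5) (nat_lit 5) L56756 (by decide +kernel)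
theorem L56758 : W_10 (nat_lit 7) (nat_lit 0x200006001300090000000000000000000000000000000) (nat_lit 0x0) (nat_lit 0x200030001800080000000680018000c0000000000000000000000) := T_10 (nat_lit 126) (nat_lit 125) (nat_lit 1) (nat_lit 8) (nat_lit 7) L56757 (by decide +kernel)
theorem L56759 : W_10 (nat_lit 6) (nat_lit 0x200006001300090000000000000000000000000000000) (nat_lit 0x0) (nat_lit 0x200030001800080000000080018000c0000000000000000000000) := T_10 (nat_lit 107) (nat_lit 90) (nat_lit 5) (nat_lit 5) (nat_lit 5) L56322 (by decide +kernel)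
theorem L56760 : W_10 (nat_lit 2) (nat_lit 0x2800060013400b0000000040000000000000000000000) (nat_lit 0x0) (nat_lit 0x20001000000000000400000000000000000000000000000000000) := D_10 (nat_lit 192) (nat_lit 209) (nat_lit 142) (nat_lit 4) (nat_lit 5) (nat_lit 12) (nat_lit 6) (nat_lit 5) (nat_lit 11) (by decide +kernel)
theorem L56761 : W_10 (nat_lit 3) (nat_lit 0x2000060013400b0000000040000000000000000000000) (nat_lit 0x0) (nat_lit 0x20001000080000000400000001000000000000000000000000000) := T_10 (nat_lit 175) (nat_lit 108) (nat_lit 6) (nat_lit 5) (nat_lit 10) L56760 (by decide +kernel)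
theorem L56762 : W_10 (nat_lit 4) (nat_lit 0x2000060013000b0000000040000000000000000000000) (nat_lit 0x0) (nat_lit 0x200010000800000004c0000001000000000000000000000000000) := T_10 (nat_lit 138) (nat_lit 139) (nat_lit 2) (nat_lit 2) (nat_lit 8) L56761 (by decide +kernel)
theorem L56763 : W_10 (nat_lit 5) (nat_lit 0x200006001300090000000040000000000000000000000) (nat_lit 0x0) (nat_lit 0x200010000800000004c0060001000000000000000000000000000) := T_10 (nat_lit 125) (nat_lit 126) (nat_lit 1) (nat_lit 8) (nat_lit 7) L56762 (by decide +kernel)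
theorem L56764 : W_10 (nat_lit 6) (nat_lit 0x200006001300090000000000000000000000000000000) (nat_lit 0x0) (nat_lit 0x200010000800000004c0060001800040000000000000000000000) := T_10 (nat_lit 90) (nat_lit 107) (nat_lit 5) (nat_lit 5) (nat_lit 5) L56763 (by decide +kernel)
theorem L56765 : W_10 (nat_lit 2) (nat_lit 0x2800060013400b0000000000000000000000000000000) (nat_lit 0x0) (nat_lit 0x20001000000000000000008000000000000000000000000000000) := D_10 (nat_lit 192) (nat_lit 209) (nat_lit 123) (nat_lit 4) (nat_lit 5) (nat_lit 12) (nat_lit 4) (nat_lit 5) (nat_lit 11) (by decide +kernel)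
theorem L56766 : W_10 (nat_lit 3) (nat_lit 0x2000060013400b0000000000000000000000000000000) (nat_lit 0x0) (nat_lit 0x20001000080000000000008001000000000000000000000000000) := T_10 (nat_lit 175) (nat_lit 108) (nat_lit 6) (nat_lit 5) (nat_lit 10) L56765 (by decide +kernel)
theorem L56767 : W_10 (nat_lit 4) (nat_lit 0x2000060013000b0000000000000000000000000000000) (nat_lit 0x0) (nat_lit 0x200010000800000000c0008001000000000000000000000000000) := T_10 (nat_lit 138) (nat_lit 139) (nat_lit 2) (nat_lit 2) (nat_lit 8) L56766 (by decide +kernel)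
theorem L56768 : W_10 (nat_lit 5) (nat_lit 0x200006001300090000000000000000000000000000000) (nat_lit 0x0) (nat_lit 0x200010000800000000c0068001000000000000000000000000000) := T_10 (nat_lit 125) (nat_lit 126) (nat_lit 1) (nat_lit 8) (nat_lit 7) L56767 (by decide +kernel)
theorem L56769 : W_10 (nat_lit 2) (nat_lit 0x200007001300090000000000000000000000000000000) (nat_lit 0x0) (nat_lit 0xc00400000000000000000000000000000000000) := D_10 (nat_lit 155) (nat_lit 154) (nat_lit 142) (nat_lit 2) (nat_lit 1) (nat_lit 9) (nat_lit 2) (nat_lit 2) (nat_lit 9) (by decide +kernel)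
theorem L56770 : W_10 (nat_lit 2) (nat_lit 0x20000f0013400d0000000000000000000000000000000) (nat_lit 0x0) (nat_lit 0xc00020000000000000000000000000000000000) := D_10 (nat_lit 155) (nat_lit 154) (nat_lit 137) (nat_lit 2) (nat_lit 1) (nat_lit 9) (nat_lit 0) (nat_lit 5) (nat_lit 9) (by decide +kernel)
theorem L56771 : W_10 (nat_lit 3) (nat_lit 0x20000f0013000d0000000000000000000000000000000) (nat_lit 0x0) (nat_lit 0xc000e0000000000000000000000000000000000) := T_10 (nat_lit 138) (nat_lit 139) (nat_lit 3) (nat_lit 2) (nat_lit 8) L56770 (by decide +kernel)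
theorem L56772 : W_10 (nat_lit 4) (nat_lit 0x2000070013000d0000000000000000000000000000000) (nat_lit 0x0) (nat_lit 0x100008c000e0000000000000000000000000000000000) := T_10 (nat_lit 159) (nat_lit 176) (nat_lit 3) (nat_lit 3) (nat_lit 9) L56771 (by decide +kernel)
theorem L56773 : W_10 (nat_lit 5) (nat_lit 0x200007001300090000000000000000000000000000000) (nat_lit 0x0) (nat_lit 0x100008c000e0060000000000000000000000000000000) := T_10 (nat_lit 126) (nat_lit 125) (nat_lit 1) (nat_lit 8) (nat_lit 7) L56772 (by decide +kernel)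
theorem L56774 : W_10 (nat_lit 2) (nat_lit 0x22000f001380090000000000000000000000000000000) (nat_lit 0x0) (nat_lit 0x8000400000000000000008000000000000000000000000000000) := D_10 (nat_lit 190) (nat_lit 123) (nat_lit 207) (nat_lit 6) (nat_lit 3) (nat_lit 11) (nat_lit 6) (nat_lit 3) (nat_lit 12) (by decide +kernel)
theorem L56775 : W_10 (nat_lit 3) (nat_lit 0x20000f001380090000000000000000000000000000000) (nat_lit 0x0) (nat_lit 0x8000400030000000000008000000000000000000000000000000) := T_10 (nat_lit 173) (nat_lit 172) (nat_lit 1) (nat_lit 6) (nat_lit 9) L56774 (by decide +kernel)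
theorem L56776 : W_10 (nat_lit 4) (nat_lit 0x20000f001300090000000000000000000000000000000) (nat_lit 0x0) (nat_lit 0x80004000300000000c0008000000000000000000000000000000) := T_10 (nat_lit 139) (nat_lit 138) (nat_lit 3) (nat_lit 2) (nat_lit 8) L56775 (by decide +kernel)
theorem L56777 : W_10 (nat_lit 5) (nat_lit 0x200007001300090000000000000000000000000000000) (nat_lit 0x0) (nat_lit 0x80004001300080000c0008000000000000000000000000000000) := T_10 (nat_lit 159) (nat_lit 176) (nat_lit 3) (nat_lit 3) (nat_lit 9) L56776 (by decide +kernel)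
theorem L56778 : W_10 (nat_lit 6) (nat_lit 0x200006001300090000000000000000000000000000000) (nat_lit 0x0) (nat_lit 0x8000400130009c004e0068000000000000000000000000000000) := Q_10 (nat_lit 156) (C_10 L56769 (C_10 L56773 (C_10 L56777 N_10))) (by decide +kernel)
theorem L56779 : W_10 (nat_lit 8) (nat_lit 0x200002001300090000000000000000000000000000000) (nat_lit 0x0) (nat_lit 0x280034001b000dc004e00680018000c0000000000000000000000) := Q_10 (nat_lit 158) (C_10 L56758 (C_10 L56759 (C_10 L56764 (C_10 L56768 (C_10 L56778 N_10))))) (by decide +kernel)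
theorem L56780 : W_10 (nat_lit 2) (nat_lit 0x240002001780094000000000000000000000000000000) (nat_lit 0x0) (nat_lit 0x1800000000000200000000000000000000000000) := D_10 (nat_lit 156) (nat_lit 155) (nat_lit 105) (nat_lit 1) (nat_lit 6) (nat_lit 8) (nat_lit 7) (nat_lit 3) (nat_lit 6) (by decide +kernel)
theorem L56781 : W_10 (nat_lit 3) (nat_lit 0x200002001780094000000000000000000000000000000) (nat_lit 0x0) (nat_lit 0x800040001800000000000200000000000000000000000000) := T_10 (nat_lit 174) (nat_lit 191) (nat_lit 6) (nat_lit 4) (nat_lit 11) L56780 (by decide +kernel)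
theorem L56782 : W_10 (nat_lit 4) (nat_lit 0x200002001380094000000000000000000000000000000) (nat_lit 0x0) (nat_lit 0x800040001800400002000200000000000000000000000000) := T_10 (nat_lit 142) (nat_lit 121) (nat_lit 0) (nat_lit 6) (nat_lit 8) L56781 (by decide +kernel)
theorem L56783 : W_10 (nat_lit 2) (nat_lit 0x2000030017800b4000200000000000000000000000000) (nat_lit 0x0) (nat_lit 0x8000100008000000000000000000000) := D_10 (nat_lit 104) (nat_lit 87) (nat_lit 123) (nat_lit 4) (nat_lit 3) (nat_lit 9) (nat_lit 0) (nat_lit 6) (nat_lit 7) (by decide +kernel)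
theorem L56784 : W_10 (nat_lit 3) (nat_lit 0x2000030017800b4000000000000000000000000000000) (nat_lit 0x0) (nat_lit 0x8000300018000000000000000000000) := T_10 (nat_lit 105) (nat_lit 88) (nat_lit 7) (nat_lit 3) (nat_lit 5) L56783 (by decide +kernel)
theorem L56785 : W_10 (nat_lit 4) (nat_lit 0x2000020017800b4000000000000000000000000000000) (nat_lit 0x0) (nat_lit 0x1800000008000300018000000000000000000000) := T_10 (nat_lit 156) (nat_lit 155) (nat_lit 1) (nat_lit 6) (nat_lit 8) L56784 (by decide +kernel)
theorem L56786 : W_10 (nat_lit 5) (nat_lit 0x200002001780094000000000000000000000000000000) (nat_lit 0x0) (nat_lit 0x1800000068000300018000000000000000000000) := T_10 (nat_lit 125) (nat_lit 126) (nat_lit 2) (nat_lit 3) (nat_lit 8) L56785 (by decide +kernel)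
theorem L56787 : W_10 (nat_lit 6) (nat_lit 0x200002001380094000000000000000000000000000000) (nat_lit 0x0) (nat_lit 0x180040006a000300018000000000000000000000) := T_10 (nat_lit 142) (nat_lit 121) (nat_lit 0) (nat_lit 6) (nat_lit 8) L56786 (by decide +kernel)
theorem L56788 : W_10 (nat_lit 8) (nat_lit 0x200002001380090000000000000000000000000000000) (nat_lit 0x0) (nat_lit 0x68001c000980040006f800300018000000000000000000000) := Q_10 (nat_lit 122) (C_10 L56206 (C_10 L56253 (C_10 L56782 (C_10 L56787 (C_10 L56247 N_10))))) (by decide +kernel)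
theorem L56789 : W_10 (nat_lit 2) (nat_lit 0x2000020013c0090000000000000000000000000000000) (nat_lit 0x0) (nat_lit 0x4000020008000000000000000000000000000000) := D_10 (nat_lit 137) (nat_lit 123) (nat_lit 158) (nat_lit 2) (nat_lit 1) (nat_lit 8) (nat_lit 3) (nat_lit 1) (nat_lit 8) (by decide +kernel)
theorem L56790 : W_10 (nat_lit 2) (nat_lit 0x2000020013c0090000000000000000000000000000000) (nat_lit 0x0) (nat_lit 0xc000020000000000000000000000000000000000) := D_10 (nat_lit 158) (nat_lit 159) (nat_lit 137) (nat_lit 3) (nat_lit 2) (nat_lit 8) (nat_lit 3) (nat_lit 1) (nat_lit 8) (by decide +kernel)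
theorem L56791 : W_10 (nat_lit 2) (nat_lit 0x8002000020013e0090000000000000000000000000000000) (nat_lit 0x0) (nat_lit 0xe00000000000000000000000000000000000000) := D_10 (nat_lit 154) (nat_lit 153) (nat_lit 155) (nat_lit 1) (nat_lit 4) (nat_lit 8) (nat_lit 1) (nat_lit 5) (nat_lit 8) (by decide +kernel)
theorem L56792 : W_10 (nat_lit 3) (nat_lit 0x8002000020013c0090000000000000000000000000000000) (nat_lit 0x0) (nat_lit 0xe00020008000000000000000000000000000000) := T_10 (nat_lit 137) (nat_lit 123) (nat_lit 2) (nat_lit 1) (nat_lit 8) L56791 (by decide +kernel)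
theorem L56793 : W_10 (nat_lit 4) (nat_lit 0x2000020013c0090000000000000000000000000000000) (nat_lit 0x0) (nat_lit 0x800040000e00020008000000000000000000000000000000) := T_10 (nat_lit 191) (nat_lit 174) (nat_lit 6) (nat_lit 4) (nat_lit 11) L56792 (by decide +kernel)
theorem L56794 : W_10 (nat_lit 2) (nat_lit 0x8002000068013c0092000000000000000000000000000000) (nat_lit 0x0) (nat_lit 0x1000400004000000000000000000000000000000) := D_10 (nat_lit 142) (nat_lit 156) (nat_lit 122) (nat_lit 2) (nat_lit 2) (nat_lit 9) (nat_lit 0) (nat_lit 6) (nat_lit 8) (by decide +kernel)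
theorem L56795 : W_10 (nat_lit 3) (nat_lit 0x8002000068013c0090000000000000000000000000000000) (nat_lit 0x0) (nat_lit 0x1000400007000000000000000000000000000000) := T_10 (nat_lit 121) (nat_lit 120) (nat_lit 0) (nat_lit 5) (nat_lit 8) L56794 (by decide +kernel)
theorem L56796 : W_10 (nat_lit 4) (nat_lit 0x8002000060013c0090000000000000000000000000000000) (nat_lit 0x0) (nat_lit 0x1c00400007000000000000000000000000000000) := T_10 (nat_lit 155) (nat_lit 154) (nat_lit 1) (nat_lit 5) (nat_lit 8) L56795 (by decide +kernel)
theorem L56797 : W_10 (nat_lit 5) (nat_lit 0x2000060013c0090000000000000000000000000000000) (nat_lit 0x0) (nat_lit 0x800040001c00400007000000000000000000000000000000) := T_10 (nat_lit 191) (nat_lit 174) (nat_lit 6) (nat_lit 4) (nat_lit 11) L56796 (by decide +kernel)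
theorem L56798 : W_10 (nat_lit 6) (nat_lit 0x2000020013c0090000000000000000000000000000000) (nat_lit 0x0) (nat_lit 0x80004000dc00400007000000000000000000000000000000) := T_10 (nat_lit 158) (nat_lit 159) (nat_lit 3) (nat_lit 2) (nat_lit 8) L56797 (by decide +kernel)
theorem L56799 : W_10 (nat_lit 7) (nat_lit 0x200002001380090000000000000000000000000000000) (nat_lit 0x0) (nat_lit 0x80004000de0046000f000000000000000000000000000000) := Q_10 (nat_lit 138) (C_10 L56789 (C_10 L56790 (C_10 L56793 (C_10 L56798 N_10)))) (by decide +kernel)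
theorem L56800 : W_10 (nat_lit 9) (nat_lit 0x200002001300090000000000000000000000000000000) (nat_lit 0x0) (nat_lit 0x68001c000de004e006f800300018000000000000000000000) := Q_10 (nat_lit 139) (C_10 L56788 (C_10 L56657 (C_10 L56799 N_10))) (by decide +kernel)
theorem L56801 : W_10 (nat_lit 10) (nat_lit 0x200000001300090000000000000000000000000000000) (nat_lit 0x0) (nat_lit 0x28007c001f000fe004e006f801b000d8000000000000000000000) := Q_10 (nat_lit 157) (C_10 L56779 (C_10 L56673 (C_10 L56656 (C_10 L56800 N_10)))) (by decide +kernel)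
theorem L56802 : W_10 (nat_lit 11) (nat_lit 0x200000001300090000800000000000000000000000000) (nat_lit 0x0) (nat_lit 0x200038001e000f8004e00680017000b0000000000000000000000) := Q_10 (nat_lit 158) (C_10 L56581 (C_10 L56706 (C_10 L56323 (C_10 L56349 N_10)))) (by decide +kernel)
theorem L56803 : W_10 (nat_lit 12) (nat_lit 0x200000001300090000000000000000000000000000000) (nat_lit 0x0) (nat_lit 0x200038001e000f8004e0068003f001f800700038000c000000000) := Q_10 (nat_lit 107) (C_10 L56365 (C_10 L56325 (C_10 L56194 (C_10 L56343 (C_10 L56802 N_10))))) (by decide +kernel)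
theorem L56804 : W_10 (nat_lit 7) (nat_lit 0x200002001780090000000000000000000000000000000) (nat_lit 0x0) (nat_lit 0x1800000066000f00058000000000000000000000) := T_10 (nat_lit 122) (nat_lit 121) (nat_lit 0) (nat_lit 6) (nat_lit 8) L56211 (by decide +kernel)
theorem L56805 : W_10 (nat_lit 8) (nat_lit 0x200002001380090000000000000000000000000000000) (nat_lit 0x0) (nat_lit 0x10001c0040006f800f00058000000000000000000000) := Q_10 (nat_lit 122) (C_10 L56260 (C_10 L56787 (C_10 L56277 (C_10 L56212 N_10)))) (by decide +kernel)
theorem L56806 : W_10 (nat_lit 2) (nat_lit 0x2000020013e0090000000040000000000000000000000) (nat_lit 0x0) (nat_lit 0xe00000000000000000000000000000000000000) := D_10 (nat_lit 154) (nat_lit 153) (nat_lit 155) (nat_lit 1) (nat_lit 4) (nat_lit 8) (nat_lit 1) (nat_lit 5) (nat_lit 8) (by decide +kernel)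
theorem L56807 : W_10 (nat_lit 3) (nat_lit 0x2000020013c0090000000040000000000000000000000) (nat_lit 0x0) (nat_lit 0xe00020008000000000000000000000000000000) := T_10 (nat_lit 137) (nat_lit 123) (nat_lit 2) (nat_lit 1) (nat_lit 8) L56806 (by decide +kernel)
theorem L56808 : W_10 (nat_lit 4) (nat_lit 0x2000020013c0090000000000000000000000000000000) (nat_lit 0x0) (nat_lit 0xe00020008000800040000000000000000000000) := T_10 (nat_lit 90) (nat_lit 107) (nat_lit 5) (nat_lit 5) (nat_lit 5) L56807 (by decide +kernel)
theorem L56809 : W_10 (nat_lit 2) (nat_lit 0x2000068013c0092000000040000000000000000000000) (nat_lit 0x0) (nat_lit 0x1000400004000000000000000000000000000000) := D_10 (nat_lit 142) (nat_lit 156) (nat_lit 122) (nat_lit 2) (nat_lit 2) (nat_lit 9) (nat_lit 0) (nat_lit 6) (nat_lit 8) (by decide +kernel)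
theorem L56810 : W_10 (nat_lit 3) (nat_lit 0x2000068013c0090000000040000000000000000000000) (nat_lit 0x0) (nat_lit 0x1000400007000000000000000000000000000000) := T_10 (nat_lit 121) (nat_lit 120) (nat_lit 0) (nat_lit 5) (nat_lit 8) L56809 (by decide +kernel)
theorem L56811 : W_10 (nat_lit 4) (nat_lit 0x2000060013c0090000000040000000000000000000000) (nat_lit 0x0) (nat_lit 0x1c00400007000000000000000000000000000000) := T_10 (nat_lit 155) (nat_lit 154) (nat_lit 1) (nat_lit 5) (nat_lit 8) L56810 (by decide +kernel)
theorem L56812 : W_10 (nat_lit 5) (nat_lit 0x2000060013c0090000000000000000000000000000000) (nat_lit 0x0) (nat_lit 0x1c00400007000800040000000000000000000000) := T_10 (nat_lit 90) (nat_lit 107) (nat_lit 5) (nat_lit 5) (nat_lit 5) L56811 (by decide +kernel)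
theorem L56813 : W_10 (nat_lit 6) (nat_lit 0x2000020013c0090000000000000000000000000000000) (nat_lit 0x0) (nat_lit 0xdc00400007000800040000000000000000000000) := T_10 (nat_lit 158) (nat_lit 159) (nat_lit 3) (nat_lit 2) (nat_lit 8) L56812 (by decide +kernel)
theorem L56814 : W_10 (nat_lit 7) (nat_lit 0x200002001380090000000000000000000000000000000) (nat_lit 0x0) (nat_lit 0xde0046000f000800040000000000000000000000) := Q_10 (nat_lit 138) (C_10 L56790 (C_10 L56789 (C_10 L56808 (C_10 L56813 N_10)))) (by decide +kernel)
theorem L56815 : W_10 (nat_lit 9) (nat_lit 0x200002001300090000000000000000000000000000000) (nat_lit 0x0) (nat_lit 0x1000de004e006f800f00058000000000000000000000) := Q_10 (nat_lit 139) (C_10 L56805 (C_10 L56657 (C_10 L56814 N_10))) (by decide +kernel)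
theorem L56816 : W_10 (nat_lit 10) (nat_lit 0x200000001300090000000000000000000000000000000) (nat_lit 0x0) (nat_lit 0x68001d000fe004e006f800f00058000000000000000000000) := Q_10 (nat_lit 157) (C_10 L56815 (C_10 L56673 (C_10 L56656 (C_10 L56800 N_10)))) (by decide +kernel)
theorem L56817 : W_10 (nat_lit 11) (nat_lit 0x200000001300090000800000000000000000000000000) (nat_lit 0x0) (nat_lit 0x200038001e000f8004e002e0037800b0000800000000000000000) := Q_10 (nat_lit 158) (C_10 L56581 (C_10 L56750 (C_10 L56323 (C_10 L56357 (C_10 L56297 N_10))))) (by decide +kernel)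
theorem L56818 : W_10 (nat_lit 12) (nat_lit 0x200000001300090000000000000000000000000000000) (nat_lit 0x0) (nat_lit 0x200038001e000f8004e002e003f800f000780018000c000000000) := Q_10 (nat_lit 107) (C_10 L56325 (C_10 L56156 (C_10 L56292 (C_10 L56817 (C_10 L56152 N_10))))) (by decide +kernel)
theorem L56819 : W_10 (nat_lit 16) (nat_lit 0x200000001300080000000000000000000000000000000) (nat_lit 0x0) (nat_lit 0x2c00ff801f000fe004e007f803f807f800fc003a000c000000000) := Q_10 (nat_lit 124) (C_10 L56195 (C_10 L56280 (C_10 L56326 (C_10 L56366 (C_10 L56480 (C_10 L56570 (C_10 L56583 (C_10 L56674 (C_10 L56752 (C_10 L56801 (C_10 L56803 (C_10 L56816 (C_10 L56818 N_10))))))))))))) (by decide +kernel)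
theorem L56820 : W_10 (nat_lit 2) (nat_lit 0x2400020013c0090000000000000000000000000000000) (nat_lit 0x0) (nat_lit 0x4000000000000800040000000000000000000000) := D_10 (nat_lit 107) (nat_lit 90) (nat_lit 158) (nat_lit 5) (nat_lit 5) (nat_lit 5) (nat_lit 5) (nat_lit 5) (nat_lit 6) (by decide +kernel)
theorem L56821 : W_10 (nat_lit 3) (nat_lit 0x2000020013c0090000000000000000000000000000000) (nat_lit 0x0) (nat_lit 0x800040004000000000000800040000000000000000000000) := T_10 (nat_lit 174) (nat_lit 191) (nat_lit 6) (nat_lit 4) (nat_lit 11) L56820 (by decide +kernel)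
theorem L56822 : W_10 (nat_lit 4) (nat_lit 0x2000020013c0080000000000000000000000000000000) (nat_lit 0x0) (nat_lit 0x800040004000000030000800040000000000000000000000) := T_10 (nat_lit 124) (nat_lit 125) (nat_lit 2) (nat_lit 2) (nat_lit 8) L56821 (by decide +kernel)
theorem L56823 : W_10 (nat_lit 2) (nat_lit 0x8002300028013c0086000100010000000000000000000000) (nat_lit 0x0) (nat_lit 0x8000c00000000000000000) := D_10 (nat_lit 87) (nat_lit 70) (nat_lit 71) (nat_lit 7) (nat_lit 2) (nat_lit 4) (nat_lit 6) (nat_lit 2) (nat_lit 8) (by decide +kernel)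
theorem L56824 : W_10 (nat_lit 3) (nat_lit 0x8002300028013c0086000000010000000000000000000000) (nat_lit 0x0) (nat_lit 0x1000000000000100008000c00000000000000000) := T_10 (nat_lit 104) (nat_lit 156) (nat_lit 7) (nat_lit 2) (nat_lit 6) L56823 (by decide +kernel)
theorem L56825 : W_10 (nat_lit 4) (nat_lit 0x8002100028013c0086000000010000000000000000000000) (nat_lit 0x0) (nat_lit 0x400020001000000000000100008000c00000000000000000) := T_10 (nat_lit 173) (nat_lit 190) (nat_lit 7) (nat_lit 2) (nat_lit 7) L56824 (by decide +kernel)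
theorem L56826 : W_10 (nat_lit 5) (nat_lit 0x8002100028013c0084000000010000000000000000000000) (nat_lit 0x0) (nat_lit 0x400020001000000003000100008000c00000000000000000) := T_10 (nat_lit 121) (nat_lit 120) (nat_lit 0) (nat_lit 5) (nat_lit 8) L56825 (by decide +kernel)
theorem L56827 : W_10 (nat_lit 6) (nat_lit 0x8002000028013c0084000000010000000000000000000000) (nat_lit 0x0) (nat_lit 0x600030001000000003000100008000c00000000000000000) := T_10 (nat_lit 172) (nat_lit 189) (nat_lit 6) (nat_lit 2) (nat_lit 11) L56826 (by decide +kernel)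
theorem L56828 : W_10 (nat_lit 7) (nat_lit 0x8002000028013c0084000000000000000000000000000000) (nat_lit 0x0) (nat_lit 0x600030001000000003000300018000c00000000000000000) := T_10 (nat_lit 88) (nat_lit 105) (nat_lit 7) (nat_lit 3) (nat_lit 5) L56827 (by decide +kernel)
theorem L56829 : W_10 (nat_lit 8) (nat_lit 0x2000028013c0084000000000000000000000000000000) (nat_lit 0x0) (nat_lit 0xe00070001000000003000300018000c00000000000000000) := T_10 (nat_lit 191) (nat_lit 174) (nat_lit 4) (nat_lit 4) (nat_lit 11) L56828 (by decide +kernel)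
theorem L56830 : W_10 (nat_lit 9) (nat_lit 0x2000020013c0084000000000000000000000000000000) (nat_lit 0x0) (nat_lit 0xe00070001c00000003000300018000c00000000000000000) := T_10 (nat_lit 155) (nat_lit 154) (nat_lit 1) (nat_lit 5) (nat_lit 8) L56829 (by decide +kernel)
theorem L56831 : W_10 (nat_lit 2) (nat_lit 0x2380028013c0096000000050000000000000000000000) (nat_lit 0x0) (nat_lit 0x4001000000000000100000000000000000000000000) := D_10 (nat_lit 156) (nat_lit 104) (nat_lit 170) (nat_lit 7) (nat_lit 2) (nat_lit 6) (nat_lit 2) (nat_lit 0) (nat_lit 10) (by decide +kernel)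
theorem L56832 : W_10 (nat_lit 3) (nat_lit 0x2180028013c0096000000050000000000000000000000) (nat_lit 0x0) (nat_lit 0x400024001000000000000100000000000000000000000000) := T_10 (nat_lit 173) (nat_lit 190) (nat_lit 7) (nat_lit 2) (nat_lit 7) L56831 (by decide +kernel)
theorem L56833 : W_10 (nat_lit 4) (nat_lit 0x2100028013c0096000000050000000000000000000000) (nat_lit 0x0) (nat_lit 0x50002c001000000000000100000000000000000000000000) := T_10 (nat_lit 171) (nat_lit 188) (nat_lit 5) (nat_lit 2) (nat_lit 7) L56832 (by decide +kernel)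
theorem L56834 : W_10 (nat_lit 5) (nat_lit 0x2000028013c0096000000050000000000000000000000) (nat_lit 0x0) (nat_lit 0x70003c001000000000000100000000000000000000000000) := T_10 (nat_lit 172) (nat_lit 189) (nat_lit 6) (nat_lit 2) (nat_lit 11) L56833 (by decide +kernel)
theorem L56835 : W_10 (nat_lit 6) (nat_lit 0x2000028013c0096000000010000000000000000000000) (nat_lit 0x0) (nat_lit 0x70003c001000000000000900040000000000000000000000) := T_10 (nat_lit 90) (nat_lit 107) (nat_lit 5) (nat_lit 5) (nat_lit 5) L56834 (by decide +kernel)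
theorem L56836 : W_10 (nat_lit 7) (nat_lit 0x2000028013c0086000000010000000000000000000000) (nat_lit 0x0) (nat_lit 0x70003c001000000030000900040000000000000000000000) := T_10 (nat_lit 124) (nat_lit 125) (nat_lit 2) (nat_lit 2) (nat_lit 8) L56835 (by decide +kernel)
theorem L56837 : W_10 (nat_lit 8) (nat_lit 0x2000020013c0086000000010000000000000000000000) (nat_lit 0x0) (nat_lit 0x70003c001c00000030000900040000000000000000000000) := T_10 (nat_lit 155) (nat_lit 154) (nat_lit 1) (nat_lit 5) (nat_lit 8) L56836 (by decide +kernel)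
theorem L56838 : W_10 (nat_lit 9) (nat_lit 0x2000020013c0086000000000000000000000000000000) (nat_lit 0x0) (nat_lit 0x70003c001c00000030000b00050000000000000000000000) := T_10 (nat_lit 88) (nat_lit 105) (nat_lit 7) (nat_lit 3) (nat_lit 5) L56837 (by decide +kernel)
theorem L56839 : W_10 (nat_lit 10) (nat_lit 0x2000020013c0084000000000000000000000000000000) (nat_lit 0x0) (nat_lit 0x70003c001c00000033000b00050000000000000000000000) := T_10 (nat_lit 121) (nat_lit 120) (nat_lit 0) (nat_lit 5) (nat_lit 8) L56838 (by decide +kernel)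
theorem L56840 : W_10 (nat_lit 2) (nat_lit 0x8002000028013c0084000200000000000000000000000000) (nat_lit 0x0) (nat_lit 0x200010001000000000000000000000000000000000000000) := D_10 (nat_lit 172) (nat_lit 189) (nat_lit 156) (nat_lit 6) (nat_lit 2) (nat_lit 11) (nat_lit 5) (nat_lit 3) (nat_lit 6) (by decide +kernel)
theorem L56841 : W_10 (nat_lit 3) (nat_lit 0x8002000028013c0084000000000000000000000000000000) (nat_lit 0x0) (nat_lit 0x200010001000000000000200010000000000000000000000) := T_10 (nat_lit 105) (nat_lit 88) (nat_lit 7) (nat_lit 3) (nat_lit 5) L56840 (by decide +kernel)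
theorem L56842 : W_10 (nat_lit 4) (nat_lit 0x2000028013c0084000000000000000000000000000000) (nat_lit 0x0) (nat_lit 0xa00050001000000000000200010000000000000000000000) := T_10 (nat_lit 191) (nat_lit 174) (nat_lit 4) (nat_lit 4) (nat_lit 11) L56841 (by decide +kernel)
theorem L56843 : W_10 (nat_lit 5) (nat_lit 0x2000020013c0084000000000000000000000000000000) (nat_lit 0x0) (nat_lit 0xa00050001c00000000000200010000000000000000000000) := T_10 (nat_lit 155) (nat_lit 154) (nat_lit 1) (nat_lit 5) (nat_lit 8) L56842 (by decide +kernel)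
theorem L56844 : W_10 (nat_lit 2) (nat_lit 0x8002000020013c0086000200000000000000000000000000) (nat_lit 0x0) (nat_lit 0x10000c00000000000000000000000000000000000000) := D_10 (nat_lit 155) (nat_lit 154) (nat_lit 172) (nat_lit 1) (nat_lit 5) (nat_lit 8) (nat_lit 6) (nat_lit 2) (nat_lit 10) (by decide +kernel)
theorem L56845 : W_10 (nat_lit 3) (nat_lit 0x8002000020013c0086000000000000000000000000000000) (nat_lit 0x0) (nat_lit 0x10000c00000000000200010000000000000000000000) := T_10 (nat_lit 105) (nat_lit 88) (nat_lit 7) (nat_lit 3) (nat_lit 5) L56844 (by decide +kernel)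
theorem L56846 : W_10 (nat_lit 4) (nat_lit 0x8002000020013c0084000000000000000000000000000000) (nat_lit 0x0) (nat_lit 0x10000c00000003000200010000000000000000000000) := T_10 (nat_lit 121) (nat_lit 120) (nat_lit 0) (nat_lit 5) (nat_lit 8) L56845 (by decide +kernel)
theorem L56847 : W_10 (nat_lit 5) (nat_lit 0x2000020013c0084000000000000000000000000000000) (nat_lit 0x0) (nat_lit 0x800050000c00000003000200010000000000000000000000) := T_10 (nat_lit 191) (nat_lit 174) (nat_lit 4) (nat_lit 4) (nat_lit 11) L56846 (by decide +kernel)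
theorem L56848 : W_10 (nat_lit 2) (nat_lit 0x8002300028013c0086000100008000000000000000000000) (nat_lit 0x0) (nat_lit 0x80004000200000000000000000) := D_10 (nat_lit 86) (nat_lit 103) (nat_lit 69) (nat_lit 4) (nat_lit 2) (nat_lit 9) (nat_lit 4) (nat_lit 2) (nat_lit 8) (by decide +kernel)
theorem L56849 : W_10 (nat_lit 3) (nat_lit 0x8002300028013c0086000100000000000000000000000000) (nat_lit 0x0) (nat_lit 0x8000c000600000000000000000) := T_10 (nat_lit 87) (nat_lit 70) (nat_lit 7) (nat_lit 2) (nat_lit 4) L56848 (by decide +kernel)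
theorem L56850 : W_10 (nat_lit 4) (nat_lit 0x8002300028013c0086000000000000000000000000000000) (nat_lit 0x0) (nat_lit 0x100000000000018000c000600000000000000000) := T_10 (nat_lit 104) (nat_lit 156) (nat_lit 7) (nat_lit 2) (nat_lit 6) L56849 (by decide +kernel)
theorem L56851 : W_10 (nat_lit 5) (nat_lit 0x8002100028013c0086000000000000000000000000000000) (nat_lit 0x0) (nat_lit 0x40002000100000000000018000c000600000000000000000) := T_10 (nat_lit 173) (nat_lit 190) (nat_lit 7) (nat_lit 2) (nat_lit 7) L56850 (by decide +kernel)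
theorem L56852 : W_10 (nat_lit 6) (nat_lit 0x2100028013c0086000000000000000000000000000000) (nat_lit 0x0) (nat_lit 0xc0006000100000000000018000c000600000000000000000) := T_10 (nat_lit 191) (nat_lit 174) (nat_lit 4) (nat_lit 4) (nat_lit 11) L56851 (by decide +kernel)
theorem L56853 : W_10 (nat_lit 7) (nat_lit 0x2000028013c0086000000000000000000000000000000) (nat_lit 0x0) (nat_lit 0xe0007000100000000000018000c000600000000000000000) := T_10 (nat_lit 172) (nat_lit 189) (nat_lit 6) (nat_lit 2) (nat_lit 11) L56852 (by decide +kernel)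
theorem L56854 : W_10 (nat_lit 8) (nat_lit 0x2000028013c0084000000000000000000000000000000) (nat_lit 0x0) (nat_lit 0xe0007000100000000300018000c000600000000000000000) := T_10 (nat_lit 121) (nat_lit 120) (nat_lit 0) (nat_lit 5) (nat_lit 8) L56853 (by decide +kernel)
theorem L56855 : W_10 (nat_lit 9) (nat_lit 0x2000020013c0084000000000000000000000000000000) (nat_lit 0x0) (nat_lit 0xe00070001c0000000300018000c000600000000000000000) := T_10 (nat_lit 155) (nat_lit 154) (nat_lit 1) (nat_lit 5) (nat_lit 8) L56854 (by decide +kernel)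
theorem L56856 : W_10 (nat_lit 11) (nat_lit 0x2000020013c0080000000000000000000000000000000) (nat_lit 0x0) (nat_lit 0xf0007c001c00000037001f8007c000e00000000000000000) := Q_10 (nat_lit 122) (C_10 L55554 (C_10 L56830 (C_10 L56839 (C_10 L56843 (C_10 L56847 (C_10 L56855 N_10)))))) (by decide +kernel)
theorem L56857 : W_10 (nat_lit 12) (nat_lit 0x2000000013c0080000000000000000000000000000000) (nat_lit 0x0) (nat_lit 0xf0007c00fc00000037001f8007c000e00000000000000000) := Q_10 (nat_lit 157) (C_10 L55458 (C_10 L55455 (C_10 L56822 (C_10 L56856 N_10)))) (by decide +kernel)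
theorem L56858 : W_10 (nat_lit 13) (nat_lit 0x200000001380080000000000000000000000000000000) (nat_lit 0x0) (nat_lit 0xf0007c00fe00060037801f8007c000e00000000000000000) := Q_10 (nat_lit 138) (C_10 L33742 (C_10 L55526 (C_10 L37111 (C_10 L56857 N_10)))) (by decide +kernel)
theorem L56859 : W_10 (nat_lit 2) (nat_lit 0x2000008013c00a0000000000000000000000000000000) (nat_lit 0x0) (nat_lit 0x1000400040000000000000000000000000000000) := D_10 (nat_lit 142) (nat_lit 126) (nat_lit 156) (nat_lit 2) (nat_lit 3) (nat_lit 8) (nat_lit 1) (nat_lit 6) (nat_lit 8) (by decide +kernel)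
theorem L56860 : W_10 (nat_lit 3) (nat_lit 0x2000000013c00a0000000000000000000000000000000) (nat_lit 0x0) (nat_lit 0x1c00400040000000000000000000000000000000) := T_10 (nat_lit 155) (nat_lit 154) (nat_lit 1) (nat_lit 5) (nat_lit 8) L56859 (by decide +kernel)
theorem L56861 : W_10 (nat_lit 4) (nat_lit 0x2000000013c0080000000000000000000000000000000) (nat_lit 0x0) (nat_lit 0x1c00400070000000000000000000000000000000) := T_10 (nat_lit 125) (nat_lit 124) (nat_lit 2) (nat_lit 2) (nat_lit 8) L56860 (by decide +kernel)
theorem L56862 : W_10 (nat_lit 2) (nat_lit 0x2000000013c00a2000000000000000000000000000000) (nat_lit 0x0) (nat_lit 0x400044000000000000000000000000000000) := D_10 (nat_lit 142) (nat_lit 126) (nat_lit 122) (nat_lit 2) (nat_lit 3) (nat_lit 8) (nat_lit 0) (nat_lit 6) (nat_lit 8) (by decide +kernel)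
theorem L56863 : W_10 (nat_lit 3) (nat_lit 0x2000000013c00a0000000000000000000000000000000) (nat_lit 0x0) (nat_lit 0x400047000000000000000000000000000000) := T_10 (nat_lit 121) (nat_lit 120) (nat_lit 0) (nat_lit 5) (nat_lit 8) L56862 (by decide +kernel)
theorem L56864 : W_10 (nat_lit 4) (nat_lit 0x2000000013c0080000000000000000000000000000000) (nat_lit 0x0) (nat_lit 0x400077000000000000000000000000000000) := T_10 (nat_lit 125) (nat_lit 124) (nat_lit 2) (nat_lit 2) (nat_lit 8) L56863 (by decide +kernel)
theorem L56865 : W_10 (nat_lit 7) (nat_lit 0x200000001380080000000000000000000000000000000) (nat_lit 0x0) (nat_lit 0x200010001e00460077800200000000000000000000000000) := Q_10 (nat_lit 138) (C_10 L55724 (C_10 L55526 (C_10 L56861 (C_10 L56864 N_10)))) (by decide +kernel)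
theorem L56866 : W_10 (nat_lit 7) (nat_lit 0x2c0000001780084000000000000000000000000000000) (nat_lit 0x0) (nat_lit 0x80004000f00012003c000000010000000000000000000000000000000) := T_10 (nat_lit 160) (nat_lit 159) (nat_lit 3) (nat_lit 3) (nat_lit 8) L38244 (by decide +kernel)
theorem L56867 : W_10 (nat_lit 8) (nat_lit 0x2c0000001780080000000000000000000000000000000) (nat_lit 0x0) (nat_lit 0x80004000f00012003c000000016000000000000000000000000000000) := T_10 (nat_lit 122) (nat_lit 121) (nat_lit 0) (nat_lit 6) (nat_lit 8) L56866 (by decide +kernel)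
theorem L56868 : W_10 (nat_lit 2) (nat_lit 0x28003c0000001780094000000000000000000000000000000) (nat_lit 0x0) (nat_lit 0xc000020000000000000000000000000000000000000000000) := D_10 (nat_lit 194) (nat_lit 173) (nat_lit 195) (nat_lit 3) (nat_lit 3) (nat_lit 10) (nat_lit 3) (nat_lit 4) (nat_lit 10) (by decide +kernel)
theorem L56869 : W_10 (nat_lit 3) (nat_lit 0x8003c0000001780094000000000000000000000000000000) (nat_lit 0x0) (nat_lit 0xe000020008000000000000000000000000000000000000000) := T_10 (nat_lit 193) (nat_lit 159) (nat_lit 4) (nat_lit 6) (nat_lit 11) L56868 (by decide +kernel)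
theorem L56870 : W_10 (nat_lit 4) (nat_lit 0x8003c0000001780084000000000000000000000000000000) (nat_lit 0x0) (nat_lit 0xe00002000c000000010000000000000000000000000000000) := T_10 (nat_lit 124) (nat_lit 158) (nat_lit 5) (nat_lit 5) (nat_lit 7) L56869 (by decide +kernel)
theorem L56871 : W_10 (nat_lit 5) (nat_lit 0x8002c0000001780084000000000000000000000000000000) (nat_lit 0x0) (nat_lit 0xe40012000c000000010000000000000000000000000000000) := T_10 (nat_lit 176) (nat_lit 190) (nat_lit 1) (nat_lit 7) (nat_lit 10) L56870 (by decide +kernel)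
theorem L56872 : W_10 (nat_lit 6) (nat_lit 0x2c0000001780084000000000000000000000000000000) (nat_lit 0x0) (nat_lit 0xec0012000e000000010000000000000000000000000000000) := T_10 (nat_lit 191) (nat_lit 157) (nat_lit 4) (nat_lit 4) (nat_lit 11) L56871 (by decide +kernel)
theorem L56873 : W_10 (nat_lit 7) (nat_lit 0x2c0000001780080000000000000000000000000000000) (nat_lit 0x0) (nat_lit 0xec0012000e000000016000000000000000000000000000000) := T_10 (nat_lit 122) (nat_lit 121) (nat_lit 0) (nat_lit 6) (nat_lit 8) L56872 (by decide +kernel)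
theorem L56874 : W_10 (nat_lit 9) (nat_lit 0x240000001780080000000000000000000000000000000) (nat_lit 0x0) (nat_lit 0xa000f000fc001a003e000000016000000000000000000000000000000) := Q_10 (nat_lit 175) (C_10 L38220 (C_10 L56867 (C_10 L56873 (C_10 L38225 (C_10 L38214 (C_10 L38231 (C_10 L38254 N_10))))))) (by decide +kernel)
theorem L56875 : W_10 (nat_lit 3) (nat_lit 0x240001001780080000000000000000000000000000000) (nat_lit 0x0) (nat_lit 0x800020002000000006000000000000000000000000000000) := T_10 (nat_lit 122) (nat_lit 121) (nat_lit 0) (nat_lit 6) (nat_lit 8) L38202 (by decide +kernel)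
theorem L56876 : W_10 (nat_lit 4) (nat_lit 0x240000001780080000000000000000000000000000000) (nat_lit 0x0) (nat_lit 0x800020003800000006000000000000000000000000000000) := T_10 (nat_lit 156) (nat_lit 155) (nat_lit 1) (nat_lit 6) (nat_lit 8) L56875 (by decide +kernel)
theorem L56877 : W_10 (nat_lit 7) (nat_lit 0x240008001780084000000000000000000000000000000) (nat_lit 0x0) (nat_lit 0x7a001b0005800000010000000000000000000000000000000) := T_10 (nat_lit 156) (nat_lit 155) (nat_lit 1) (nat_lit 6) (nat_lit 8) L38257 (by decide +kernel)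
theorem L56878 : W_10 (nat_lit 8) (nat_lit 0x240000001780084000000000000000000000000000000) (nat_lit 0x0) (nat_lit 0x7a001b001d800000010000000000000000000000000000000) := T_10 (nat_lit 159) (nat_lit 160) (nat_lit 3) (nat_lit 3) (nat_lit 8) L56877 (by decide +kernel)
theorem L56879 : W_10 (nat_lit 9) (nat_lit 0x240000001780080000000000000000000000000000000) (nat_lit 0x0) (nat_lit 0x7a001b001d800000016000000000000000000000000000000) := T_10 (nat_lit 122) (nat_lit 121) (nat_lit 0) (nat_lit 6) (nat_lit 8) L56878 (by decide +kernel)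
theorem L56880 : W_10 (nat_lit 2) (nat_lit 0xc0034000a001780080000000000000000000000000000000) (nat_lit 0x0) (nat_lit 0x20003000000000000000000000000000000000000000000000000) := D_10 (nat_lit 192) (nat_lit 209) (nat_lit 193) (nat_lit 7) (nat_lit 4) (nat_lit 8) (nat_lit 2) (nat_lit 3) (nat_lit 11) (by decide +kernel)
theorem L56881 : W_10 (nat_lit 3) (nat_lit 0xc0024000a001780080000000000000000000000000000000) (nat_lit 0x0) (nat_lit 0x20003000180000000000000000000000000000000000000000000) := T_10 (nat_lit 176) (nat_lit 175) (nat_lit 1) (nat_lit 7) (nat_lit 10) L56880 (by decide +kernel)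
theorem L56882 : W_10 (nat_lit 4) (nat_lit 0x80024000a001780080000000000000000000000000000000) (nat_lit 0x0) (nat_lit 0x28003400180000000000000000000000000000000000000000000) := T_10 (nat_lit 190) (nat_lit 207) (nat_lit 5) (nat_lit 4) (nat_lit 8) L56881 (by decide +kernel)
theorem L56883 : W_10 (nat_lit 5) (nat_lit 0x24000a001780080000000000000000000000000000000) (nat_lit 0x0) (nat_lit 0x28003c00180000000000010000000000000000000000000000000) := T_10 (nat_lit 191) (nat_lit 124) (nat_lit 6) (nat_lit 4) (nat_lit 11) L56882 (by decide +kernel)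
theorem L56884 : W_10 (nat_lit 6) (nat_lit 0x240002001780080000000000000000000000000000000) (nat_lit 0x0) (nat_lit 0x28003c00180018000000010000000000000000000000000000000) := T_10 (nat_lit 159) (nat_lit 160) (nat_lit 3) (nat_lit 3) (nat_lit 8) L56883 (by decide +kernel)
theorem L56885 : W_10 (nat_lit 9) (nat_lit 0x240000001780080000000000000000000000000000000) (nat_lit 0x0) (nat_lit 0x14000f8007c0018001b800000010000000000000000000000000000000) := Q_10 (nat_lit 157) (C_10 L55662 (C_10 L55125 (C_10 L55030 (C_10 L56884 N_10)))) (by decide +kernel)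
theorem L56886 : W_10 (nat_lit 10) (nat_lit 0x240001001780084000000000000000000000000000000) (nat_lit 0x0) (nat_lit 0x200010001e000000010001f0007e000400000000000000000) := T_10 (nat_lit 159) (nat_lit 160) (nat_lit 3) (nat_lit 3) (nat_lit 8) L38268 (by decide +kernel)
theorem L56887 : W_10 (nat_lit 11) (nat_lit 0x240001001780080000000000000000000000000000000) (nat_lit 0x0) (nat_lit 0x200010001e000000016001f0007e000400000000000000000) := T_10 (nat_lit 122) (nat_lit 121) (nat_lit 0) (nat_lit 6) (nat_lit 8) L56886 (by decide +kernel)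
theorem L56888 : W_10 (nat_lit 12) (nat_lit 0x240000001780080000000000000000000000000000000) (nat_lit 0x0) (nat_lit 0x200010001f800000016001f0007e000400000000000000000) := T_10 (nat_lit 156) (nat_lit 155) (nat_lit 1) (nat_lit 6) (nat_lit 8) L56887 (by decide +kernel)
theorem L56889 : W_10 (nat_lit 13) (nat_lit 0x200000001780080000000000000000000000000000000) (nat_lit 0x0) (nat_lit 0x1e000f800fe001f003f800000016001f0007e000400000000000000000) := Q_10 (nat_lit 174) (C_10 L56874 (C_10 L56876 (C_10 L56879 (C_10 L56885 (C_10 L56888 N_10))))) (by decide +kernel)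
theorem L56890 : W_10 (nat_lit 2) (nat_lit 0x2000300009001780080000000000000000000000000000000) (nat_lit 0x0) (nat_lit 0x40000000000006000000000000000000000000000000000000000) := D_10 (nat_lit 158) (nat_lit 210) (nat_lit 157) (nat_lit 4) (nat_lit 6) (nat_lit 12) (nat_lit 3) (nat_lit 3) (nat_lit 9) (by decide +kernel)
theorem L56891 : W_10 (nat_lit 2) (nat_lit 0x30000b001780084000000000000000000000000000000) (nat_lit 0x0) (nat_lit 0x8000c0000000000000000000000000000000000000000000) := D_10 (nat_lit 174) (nat_lit 175) (nat_lit 191) (nat_lit 0) (nat_lit 7) (nat_lit 10) (nat_lit 4) (nat_lit 4) (nat_lit 11) (by decide +kernel)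
theorem L56892 : W_10 (nat_lit 3) (nat_lit 0x300009001780084000000000000000000000000000000) (nat_lit 0x0) (nat_lit 0x8000c0006000000000000000000000000000000000000000) := T_10 (nat_lit 157) (nat_lit 158) (nat_lit 3) (nat_lit 3) (nat_lit 9) L56891 (by decide +kernel)
theorem L56893 : W_10 (nat_lit 4) (nat_lit 0x300009001780080000000000000000000000000000000) (nat_lit 0x0) (nat_lit 0x8000c0006000000006000000000000000000000000000000) := T_10 (nat_lit 122) (nat_lit 121) (nat_lit 0) (nat_lit 6) (nat_lit 8) L56892 (by decide +kernel)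
theorem L56894 : W_10 (nat_lit 5) (nat_lit 0x300008001780080000000000000000000000000000000) (nat_lit 0x0) (nat_lit 0x8000c0007800000006000000000000000000000000000000) := T_10 (nat_lit 156) (nat_lit 155) (nat_lit 1) (nat_lit 6) (nat_lit 8) L56893 (by decide +kernel)
theorem L56895 : W_10 (nat_lit 3) (nat_lit 0x300009001780080000000000000000000000000000000) (nat_lit 0x0) (nat_lit 0x40002000000006000000010000000000000000000000000000000) := T_10 (nat_lit 193) (nat_lit 124) (nat_lit 4) (nat_lit 6) (nat_lit 11) L56890 (by decide +kernel)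
theorem L56896 : W_10 (nat_lit 4) (nat_lit 0x300008001780080000000000000000000000000000000) (nat_lit 0x0) (nat_lit 0x40002000000007800000010000000000000000000000000000000) := T_10 (nat_lit 156) (nat_lit 155) (nat_lit 1) (nat_lit 6) (nat_lit 8) L56895 (by decide +kernel)
theorem L56897 : W_10 (nat_lit 2) (nat_lit 0x3800300009001780084000000000000000000000000000000) (nat_lit 0x0) (nat_lit 0x60002000000000000000000000000000000000000000) := D_10 (nat_lit 174) (nat_lit 157) (nat_lit 173) (nat_lit 4) (nat_lit 4) (nat_lit 11) (nat_lit 7) (nat_lit 3) (nat_lit 7) (by decide +kernel)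
theorem L56898 : W_10 (nat_lit 3) (nat_lit 0x3000300009001780084000000000000000000000000000000) (nat_lit 0x0) (nat_lit 0xc00060002000000000000000000000000000000000000000) := T_10 (nat_lit 191) (nat_lit 190) (nat_lit 2) (nat_lit 3) (nat_lit 11) L56897 (by decide +kernel)
theorem L56899 : W_10 (nat_lit 4) (nat_lit 0x2000300009001780084000000000000000000000000000000) (nat_lit 0x0) (nat_lit 0x20001c00060002000000000000000000000000000000000000000) := T_10 (nat_lit 192) (nat_lit 209) (nat_lit 5) (nat_lit 6) (nat_lit 8) L56898 (by decide +kernel)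
theorem L56900 : W_10 (nat_lit 5) (nat_lit 0x300009001780084000000000000000000000000000000) (nat_lit 0x0) (nat_lit 0x20003c00060002000000010000000000000000000000000000000) := T_10 (nat_lit 193) (nat_lit 124) (nat_lit 4) (nat_lit 6) (nat_lit 11) L56899 (by decide +kernel)
theorem L56901 : W_10 (nat_lit 6) (nat_lit 0x300009001780080000000000000000000000000000000) (nat_lit 0x0) (nat_lit 0x20003c00060002000000016000000000000000000000000000000) := T_10 (nat_lit 122) (nat_lit 121) (nat_lit 0) (nat_lit 6) (nat_lit 8) L56900 (by decide +kernel)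
theorem L56902 : W_10 (nat_lit 7) (nat_lit 0x300008001780080000000000000000000000000000000) (nat_lit 0x0) (nat_lit 0x20003c00060003800000016000000000000000000000000000000) := T_10 (nat_lit 156) (nat_lit 155) (nat_lit 1) (nat_lit 6) (nat_lit 8) L56901 (by decide +kernel)
theorem L56903 : W_10 (nat_lit 8) (nat_lit 0x300000001780080000000000000000000000000000000) (nat_lit 0x0) (nat_lit 0x400060003c000e000f800000016000000000000000000000000000000) := Q_10 (nat_lit 159) (C_10 L55358 (C_10 L56894 (C_10 L56896 (C_10 L56902 N_10)))) (by decide +kernel)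
theorem L56904 : W_10 (nat_lit 2) (nat_lit 0x3000080017800a0000000000000000000000000000000) (nat_lit 0x0) (nat_lit 0x2000000000000000010000800000000000000000000000000) := D_10 (nat_lit 124) (nat_lit 107) (nat_lit 193) (nat_lit 4) (nat_lit 6) (nat_lit 10) (nat_lit 4) (nat_lit 6) (nat_lit 11) (by decide +kernel)
theorem L56905 : W_10 (nat_lit 3) (nat_lit 0x3000000017800a0000000000000000000000000000000) (nat_lit 0x0) (nat_lit 0x6000000008000000010000800000000000000000000000000) := T_10 (nat_lit 159) (nat_lit 194) (nat_lit 7) (nat_lit 6) (nat_lit 7) L56904 (by decide +kernel)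
theorem L56906 : W_10 (nat_lit 4) (nat_lit 0x300000001780080000000000000000000000000000000) (nat_lit 0x0) (nat_lit 0x6000000008000000070000800000000000000000000000000) := T_10 (nat_lit 125) (nat_lit 126) (nat_lit 2) (nat_lit 3) (nat_lit 8) L56905 (by decide +kernel)
theorem L56907 : W_10 (nat_lit 2) (nat_lit 0x340001001780084000000000000000000000000000000) (nat_lit 0x0) (nat_lit 0x800080002000000000000000000000000000000000000000) := D_10 (nat_lit 157) (nat_lit 175) (nat_lit 191) (nat_lit 0) (nat_lit 7) (nat_lit 10) (nat_lit 4) (nat_lit 4) (nat_lit 11) (by decide +kernel)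
theorem L56908 : W_10 (nat_lit 3) (nat_lit 0x340000001780084000000000000000000000000000000) (nat_lit 0x0) (nat_lit 0x800080003800000000000000000000000000000000000000) := T_10 (nat_lit 156) (nat_lit 155) (nat_lit 1) (nat_lit 6) (nat_lit 8) L56907 (by decide +kernel)
theorem L56909 : W_10 (nat_lit 4) (nat_lit 0x340000001780080000000000000000000000000000000) (nat_lit 0x0) (nat_lit 0x800080003800000006000000000000000000000000000000) := T_10 (nat_lit 122) (nat_lit 121) (nat_lit 0) (nat_lit 6) (nat_lit 8) L56908 (by decide +kernel)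
theorem L56910 : W_10 (nat_lit 2) (nat_lit 0x2003600010017800a4000000000000000000000000000000) (nat_lit 0x0) (nat_lit 0x4000400080000000000000000000000000000000000000000000) := D_10 (nat_lit 190) (nat_lit 175) (nat_lit 206) (nat_lit 1) (nat_lit 6) (nat_lit 10) (nat_lit 5) (nat_lit 3) (nat_lit 8) (by decide +kernel)
theorem L56911 : W_10 (nat_lit 3) (nat_lit 0x3600010017800a4000000000000000000000000000000) (nat_lit 0x0) (nat_lit 0x4000600090000000000000000000000000000000000000000000) := T_10 (nat_lit 189) (nat_lit 172) (nat_lit 5) (nat_lit 3) (nat_lit 7) L56910 (by decide +kernel)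
theorem L56912 : W_10 (nat_lit 4) (nat_lit 0x3400010017800a4000000000000000000000000000000) (nat_lit 0x0) (nat_lit 0x4000e000b0000000000000000000000000000000000000000000) := T_10 (nat_lit 173) (nat_lit 191) (nat_lit 7) (nat_lit 3) (nat_lit 7) L56911 (by decide +kernel)
theorem L56913 : W_10 (nat_lit 5) (nat_lit 0x3400010017800a0000000000000000000000000000000) (nat_lit 0x0) (nat_lit 0x4000e000b0000000000006000000000000000000000000000000) := T_10 (nat_lit 122) (nat_lit 121) (nat_lit 0) (nat_lit 6) (nat_lit 8) L56912 (by decide +kernel)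
theorem L56914 : W_10 (nat_lit 6) (nat_lit 0x340001001780080000000000000000000000000000000) (nat_lit 0x0) (nat_lit 0x4000e000b0000000000066000000000000000000000000000000) := T_10 (nat_lit 125) (nat_lit 126) (nat_lit 2) (nat_lit 3) (nat_lit 8) L56913 (by decide +kernel)
theorem L56915 : W_10 (nat_lit 7) (nat_lit 0x340000001780080000000000000000000000000000000) (nat_lit 0x0) (nat_lit 0x4000e000b0001800000066000000000000000000000000000000) := T_10 (nat_lit 156) (nat_lit 155) (nat_lit 1) (nat_lit 6) (nat_lit 8) L56914 (by decide +kernel)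
theorem L56916 : W_10 (nat_lit 2) (nat_lit 0x340001001780084000000000000000000000000000000) (nat_lit 0x0) (nat_lit 0x800020002000000000000000000000000000000000000000) := D_10 (nat_lit 191) (nat_lit 157) (nat_lit 173) (nat_lit 4) (nat_lit 4) (nat_lit 11) (nat_lit 7) (nat_lit 3) (nat_lit 7) (by decide +kernel)
theorem L56917 : W_10 (nat_lit 3) (nat_lit 0x340000001780084000000000000000000000000000000) (nat_lit 0x0) (nat_lit 0x800020003800000000000000000000000000000000000000) := T_10 (nat_lit 156) (nat_lit 155) (nat_lit 1) (nat_lit 6) (nat_lit 8) L56916 (by decide +kernel)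
theorem L56918 : W_10 (nat_lit 4) (nat_lit 0x340000001780080000000000000000000000000000000) (nat_lit 0x0) (nat_lit 0x800020003800000006000000000000000000000000000000) := T_10 (nat_lit 122) (nat_lit 121) (nat_lit 0) (nat_lit 6) (nat_lit 8) L56917 (by decide +kernel)
theorem L56919 : W_10 (nat_lit 2) (nat_lit 0x50003e00010017800a0000000000000000000000000000000) (nat_lit 0x0) (nat_lit 0xe00000000000000000000000000000000000000000000000) := D_10 (nat_lit 190) (nat_lit 189) (nat_lit 191) (nat_lit 1) (nat_lit 6) (nat_lit 10) (nat_lit 1) (nat_lit 7) (nat_lit 10) (by decide +kernel)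
theorem L56920 : W_10 (nat_lit 3) (nat_lit 0x50003c00010017800a0000000000000000000000000000000) (nat_lit 0x0) (nat_lit 0x2e00020000000000000000000000000000000000000000000) := T_10 (nat_lit 173) (nat_lit 193) (nat_lit 3) (nat_lit 3) (nat_lit 10) L56919 (by decide +kernel)
theorem L56921 : W_10 (nat_lit 4) (nat_lit 0x10003c00010017800a0000000000000000000000000000000) (nat_lit 0x0) (nat_lit 0xee00020000000000000000000000000000000000000000000) := T_10 (nat_lit 194) (nat_lit 195) (nat_lit 3) (nat_lit 4) (nat_lit 10) L56920 (by decide +kernel)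
theorem L56922 : W_10 (nat_lit 5) (nat_lit 0x3c00010017800a0000000000000000000000000000000) (nat_lit 0x0) (nat_lit 0xfe00020004000000000000000000000000000000000000000) := T_10 (nat_lit 192) (nat_lit 158) (nat_lit 6) (nat_lit 5) (nat_lit 11) L56921 (by decide +kernel)
theorem L56923 : W_10 (nat_lit 6) (nat_lit 0x3c0001001780080000000000000000000000000000000) (nat_lit 0x0) (nat_lit 0xfe00020004000000060000000000000000000000000000000) := T_10 (nat_lit 125) (nat_lit 126) (nat_lit 2) (nat_lit 3) (nat_lit 8) L56922 (by decide +kernel)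
theorem L56924 : W_10 (nat_lit 7) (nat_lit 0x340001001780080000000000000000000000000000000) (nat_lit 0x0) (nat_lit 0xfe000a0006000000060000000000000000000000000000000) := T_10 (nat_lit 175) (nat_lit 157) (nat_lit 0) (nat_lit 7) (nat_lit 10) L56923 (by decide +kernel)
theorem L56925 : W_10 (nat_lit 8) (nat_lit 0x340000001780080000000000000000000000000000000) (nat_lit 0x0) (nat_lit 0xfe000a0007800000060000000000000000000000000000000) := T_10 (nat_lit 156) (nat_lit 155) (nat_lit 1) (nat_lit 6) (nat_lit 8) L56924 (by decide +kernel)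
theorem L56926 : W_10 (nat_lit 2) (nat_lit 0x8003c00000017800a4000000000000000000000000000000) (nat_lit 0x0) (nat_lit 0x1000000004000000010000000000000000000000000000000) := D_10 (nat_lit 158) (nat_lit 124) (nat_lit 192) (nat_lit 5) (nat_lit 5) (nat_lit 7) (nat_lit 6) (nat_lit 5) (nat_lit 11) (by decide +kernel)
theorem L56927 : W_10 (nat_lit 3) (nat_lit 0x8003400000017800a4000000000000000000000000000000) (nat_lit 0x0) (nat_lit 0x1400080004000000010000000000000000000000000000000) := T_10 (nat_lit 175) (nat_lit 190) (nat_lit 1) (nat_lit 7) (nat_lit 10) L56926 (by decide +kernel)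
theorem L56928 : W_10 (nat_lit 4) (nat_lit 0x3400000017800a4000000000000000000000000000000) (nat_lit 0x0) (nat_lit 0x1c00080006000000010000000000000000000000000000000) := T_10 (nat_lit 191) (nat_lit 157) (nat_lit 4) (nat_lit 4) (nat_lit 11) L56927 (by decide +kernel)
theorem L56929 : W_10 (nat_lit 5) (nat_lit 0x3400000017800a0000000000000000000000000000000) (nat_lit 0x0) (nat_lit 0x1c00080006000000016000000000000000000000000000000) := T_10 (nat_lit 122) (nat_lit 121) (nat_lit 0) (nat_lit 6) (nat_lit 8) L56928 (by decide +kernel)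
theorem L56930 : W_10 (nat_lit 6) (nat_lit 0x340000001780080000000000000000000000000000000) (nat_lit 0x0) (nat_lit 0x1c00080006000000076000000000000000000000000000000) := T_10 (nat_lit 125) (nat_lit 126) (nat_lit 2) (nat_lit 3) (nat_lit 8) L56929 (by decide +kernel)
theorem L56931 : W_10 (nat_lit 2) (nat_lit 0x340001001780084000000000000000000000000000000) (nat_lit 0x0) (nat_lit 0x80002000000000000200000000000000000000000000) := D_10 (nat_lit 157) (nat_lit 175) (nat_lit 105) (nat_lit 0) (nat_lit 7) (nat_lit 10) (nat_lit 7) (nat_lit 3) (nat_lit 6) (by decide +kernel)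
theorem L56932 : W_10 (nat_lit 3) (nat_lit 0x340000001780084000000000000000000000000000000) (nat_lit 0x0) (nat_lit 0x80003800000000000200000000000000000000000000) := T_10 (nat_lit 156) (nat_lit 155) (nat_lit 1) (nat_lit 6) (nat_lit 8) L56931 (by decide +kernel)
theorem L56933 : W_10 (nat_lit 4) (nat_lit 0x340000001780080000000000000000000000000000000) (nat_lit 0x0) (nat_lit 0x80003800000006000200000000000000000000000000) := T_10 (nat_lit 122) (nat_lit 121) (nat_lit 0) (nat_lit 6) (nat_lit 8) L56932 (by decide +kernel)
theorem L56934 : W_10 (nat_lit 9) (nat_lit 0x300000001780080000000000000000000000000000000) (nat_lit 0x0) (nat_lit 0x400fe000f0007800000076000200000000000000000000000000) := Q_10 (nat_lit 174) (C_10 L56909 (C_10 L56915 (C_10 L56918 (C_10 L56925 (C_10 L56930 (C_10 L56933 N_10)))))) (by decide +kernel)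
theorem L56935 : W_10 (nat_lit 5) (nat_lit 0x3000010017800a4000000000000000000000000000000) (nat_lit 0x0) (nat_lit 0x5c000e000a000000000000000000000000000000000000000) := T_10 (nat_lit 159) (nat_lit 194) (nat_lit 7) (nat_lit 6) (nat_lit 7) L33862 (by decide +kernel)
theorem L56936 : W_10 (nat_lit 6) (nat_lit 0x300001001780084000000000000000000000000000000) (nat_lit 0x0) (nat_lit 0x5c000e000a000000060000000000000000000000000000000) := T_10 (nat_lit 125) (nat_lit 126) (nat_lit 2) (nat_lit 3) (nat_lit 8) L56935 (by decide +kernel)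
theorem L56937 : W_10 (nat_lit 7) (nat_lit 0x300001001780080000000000000000000000000000000) (nat_lit 0x0) (nat_lit 0x5c000e000a000000066000000000000000000000000000000) := T_10 (nat_lit 122) (nat_lit 121) (nat_lit 0) (nat_lit 6) (nat_lit 8) L56936 (by decide +kernel)
theorem L56938 : W_10 (nat_lit 8) (nat_lit 0x300000001780080000000000000000000000000000000) (nat_lit 0x0) (nat_lit 0x5c000e000b800000066000000000000000000000000000000) := T_10 (nat_lit 156) (nat_lit 155) (nat_lit 1) (nat_lit 6) (nat_lit 8) L56937 (by decide +kernel)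
theorem L56939 : W_10 (nat_lit 10) (nat_lit 0x200000001780080000000000000000000000000000000) (nat_lit 0x0) (nat_lit 0x40006400fe001f000f800000076000a00000000000000000000000000) := Q_10 (nat_lit 176) (C_10 L56903 (C_10 L56906 (C_10 L56934 (C_10 L56938 N_10)))) (by decide +kernel)
theorem L56940 : W_10 (nat_lit 2) (nat_lit 0x200002001780090000800000000000000000000000000) (nat_lit 0x0) (nat_lit 0x800040004000000000000000000000000000000000000000) := D_10 (nat_lit 174) (nat_lit 158) (nat_lit 191) (nat_lit 5) (nat_lit 5) (nat_lit 6) (nat_lit 6) (nat_lit 4) (nat_lit 11) (by decide +kernel)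
theorem L56941 : W_10 (nat_lit 3) (nat_lit 0x200002001780080000800000000000000000000000000) (nat_lit 0x0) (nat_lit 0x800040004000000010000000040000000000000000000000) := T_10 (nat_lit 124) (nat_lit 90) (nat_lit 5) (nat_lit 5) (nat_lit 5) L56940 (by decide +kernel)
theorem L56942 : W_10 (nat_lit 2) (nat_lit 0x20000a001780080000800040000000000000000000000) (nat_lit 0x0) (nat_lit 0x60001000000000000000000000000000) := D_10 (nat_lit 125) (nat_lit 126) (nat_lit 108) (nat_lit 2) (nat_lit 3) (nat_lit 8) (nat_lit 4) (nat_lit 6) (nat_lit 9) (by decide +kernel)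
theorem L56943 : W_10 (nat_lit 3) (nat_lit 0x20000a001780080000800000000000000000000000000) (nat_lit 0x0) (nat_lit 0x70001000040000000000000000000000) := T_10 (nat_lit 90) (nat_lit 124) (nat_lit 7) (nat_lit 5) (nat_lit 5) L56942 (by decide +kernel)
theorem L56944 : W_10 (nat_lit 4) (nat_lit 0x200002001780080000800000000000000000000000000) (nat_lit 0x0) (nat_lit 0x18000000070001000040000000000000000000000) := T_10 (nat_lit 159) (nat_lit 160) (nat_lit 3) (nat_lit 3) (nat_lit 8) L56943 (by decide +kernel)
theorem L56945 : W_10 (nat_lit 2) (nat_lit 0x20000a0017800a0001800000000000000000000000000) (nat_lit 0x0) (nat_lit 0x80004000000000000000080000000000000000000000) := D_10 (nat_lit 158) (nat_lit 91) (nat_lit 175) (nat_lit 5) (nat_lit 6) (nat_lit 5) (nat_lit 5) (nat_lit 6) (nat_lit 6) (by decide +kernel)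
theorem L56946 : W_10 (nat_lit 3) (nat_lit 0x20000a0017800a0000800000000000000000000000000) (nat_lit 0x0) (nat_lit 0x800040000000000010000c0000000000000000000000) := T_10 (nat_lit 108) (nat_lit 90) (nat_lit 4) (nat_lit 6) (nat_lit 9) L56945 (by decide +kernel)
theorem L56947 : W_10 (nat_lit 4) (nat_lit 0x2000020017800a0000800000000000000000000000000) (nat_lit 0x0) (nat_lit 0x8001c0000000000010000c0000000000000000000000) := T_10 (nat_lit 159) (nat_lit 160) (nat_lit 3) (nat_lit 3) (nat_lit 8) L56946 (by decide +kernel)
theorem L56948 : W_10 (nat_lit 5) (nat_lit 0x200002001780080000800000000000000000000000000) (nat_lit 0x0) (nat_lit 0x8001c0000000600010000c0000000000000000000000) := T_10 (nat_lit 125) (nat_lit 126) (nat_lit 2) (nat_lit 3) (nat_lit 8) L56947 (by decide +kernel)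
theorem L56949 : W_10 (nat_lit 2) (nat_lit 0x24000e0017800a4000800010000000000000000000000) (nat_lit 0x0) (nat_lit 0x80000000000000001000080000000000000000000000) := D_10 (nat_lit 108) (nat_lit 91) (nat_lit 175) (nat_lit 5) (nat_lit 6) (nat_lit 5) (nat_lit 5) (nat_lit 6) (nat_lit 6) (by decide +kernel)
theorem L56950 : W_10 (nat_lit 3) (nat_lit 0x24000a0017800a4000800010000000000000000000000) (nat_lit 0x0) (nat_lit 0x80004000000010001000080000000000000000000000) := T_10 (nat_lit 158) (nat_lit 124) (nat_lit 5) (nat_lit 5) (nat_lit 6) L56949 (by decide +kernel)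
theorem L56951 : W_10 (nat_lit 4) (nat_lit 0x2400020017800a4000800010000000000000000000000) (nat_lit 0x0) (nat_lit 0x8001c000000010001000080000000000000000000000) := T_10 (nat_lit 159) (nat_lit 160) (nat_lit 3) (nat_lit 3) (nat_lit 8) L56950 (by decide +kernel)
theorem L56952 : W_10 (nat_lit 5) (nat_lit 0x2000020017800a4000800010000000000000000000000) (nat_lit 0x0) (nat_lit 0x8000c001c000000010001000080000000000000000000000) := T_10 (nat_lit 174) (nat_lit 191) (nat_lit 4) (nat_lit 4) (nat_lit 11) L56951 (by decide +kernel)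
theorem L56953 : W_10 (nat_lit 6) (nat_lit 0x2000020017800a4000800000000000000000000000000) (nat_lit 0x0) (nat_lit 0x8000c001c000000010001200090000000000000000000000) := T_10 (nat_lit 88) (nat_lit 105) (nat_lit 7) (nat_lit 3) (nat_lit 5) L56952 (by decide +kernel)
theorem L56954 : W_10 (nat_lit 7) (nat_lit 0x200002001780084000800000000000000000000000000) (nat_lit 0x0) (nat_lit 0x8000c001c000000070001200090000000000000000000000) := T_10 (nat_lit 125) (nat_lit 126) (nat_lit 2) (nat_lit 3) (nat_lit 8) L56953 (by decide +kernel)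
theorem L56955 : W_10 (nat_lit 8) (nat_lit 0x200002001780080000800000000000000000000000000) (nat_lit 0x0) (nat_lit 0x8000c001c000000076001200090000000000000000000000) := T_10 (nat_lit 122) (nat_lit 121) (nat_lit 0) (nat_lit 6) (nat_lit 8) L56954 (by decide +kernel)
theorem L56956 : W_10 (nat_lit 9) (nat_lit 0x200002001780080000000000000000000000000000000) (nat_lit 0x0) (nat_lit 0x8000c001c000000076001a000d0000000000000000000000) := Q_10 (nat_lit 107) (C_10 L56941 (C_10 L56944 (C_10 L56948 (C_10 L56955 N_10)))) (by decide +kernel)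
theorem L56957 : W_10 (nat_lit 2) (nat_lit 0x20000b0017800a4000f00000000000000000000000000) (nat_lit 0x0) (nat_lit 0x10000c0000000000000000000000) := D_10 (nat_lit 90) (nat_lit 91) (nat_lit 108) (nat_lit 2) (nat_lit 2) (nat_lit 6) (nat_lit 4) (nat_lit 6) (nat_lit 9) (by decide +kernel)
theorem L56958 : W_10 (nat_lit 3) (nat_lit 0x20000b0017800a4000700000000000000000000000000) (nat_lit 0x0) (nat_lit 0x100018000c0000000000000000000000) := T_10 (nat_lit 107) (nat_lit 124) (nat_lit 3) (nat_lit 2) (nat_lit 6) L56957 (by decide +kernel)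
theorem L56959 : W_10 (nat_lit 4) (nat_lit 0x20000b0017800a4000300000000000000000000000000) (nat_lit 0x0) (nat_lit 0x10001c000e0000000000000000000000) := T_10 (nat_lit 106) (nat_lit 89) (nat_lit 6) (nat_lit 3) (nat_lit 9) L56958 (by decide +kernel)
theorem L56960 : W_10 (nat_lit 5) (nat_lit 0x20000b0017800a4000200000000000000000000000000) (nat_lit 0x0) (nat_lit 0x10001d000e8000000000000000000000) := T_10 (nat_lit 104) (nat_lit 87) (nat_lit 4) (nat_lit 3) (nat_lit 9) L56959 (by decide +kernel)
theorem L56961 : W_10 (nat_lit 6) (nat_lit 0x2000030017800a4000200000000000000000000000000) (nat_lit 0x0) (nat_lit 0x18000000010001d000e8000000000000000000000) := T_10 (nat_lit 159) (nat_lit 160) (nat_lit 3) (nat_lit 3) (nat_lit 8) L56960 (by decide +kernel)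
theorem L56962 : W_10 (nat_lit 7) (nat_lit 0x2000020017800a4000200000000000000000000000000) (nat_lit 0x0) (nat_lit 0x19800000010001d000e8000000000000000000000) := T_10 (nat_lit 156) (nat_lit 155) (nat_lit 1) (nat_lit 6) (nat_lit 8) L56961 (by decide +kernel)
theorem L56963 : W_10 (nat_lit 8) (nat_lit 0x2000020017800a4000000000000000000000000000000) (nat_lit 0x0) (nat_lit 0x19800000010001f000f8000000000000000000000) := T_10 (nat_lit 105) (nat_lit 88) (nat_lit 7) (nat_lit 3) (nat_lit 5) L56962 (by decide +kernel)
theorem L56964 : W_10 (nat_lit 9) (nat_lit 0x200002001780084000000000000000000000000000000) (nat_lit 0x0) (nat_lit 0x19800000070001f000f8000000000000000000000) := T_10 (nat_lit 125) (nat_lit 126) (nat_lit 2) (nat_lit 3) (nat_lit 8) L56963 (by decide +kernel)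
theorem L56965 : W_10 (nat_lit 10) (nat_lit 0x200002001780080000000000000000000000000000000) (nat_lit 0x0) (nat_lit 0x19800000076001f000f8000000000000000000000) := T_10 (nat_lit 122) (nat_lit 121) (nat_lit 0) (nat_lit 6) (nat_lit 8) L56964 (by decide +kernel)
theorem L56966 : W_10 (nat_lit 8) (nat_lit 0x20000e001780080000000000000000000000000000000) (nat_lit 0x0) (nat_lit 0x1c000f800f0001800000010000000000000000000000000000000) := T_10 (nat_lit 156) (nat_lit 155) (nat_lit 2) (nat_lit 2) (nat_lit 9) L55100 (by decide +kernel)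
theorem L56967 : W_10 (nat_lit 9) (nat_lit 0x200006001780080000000000000000000000000000000) (nat_lit 0x0) (nat_lit 0x1c000f800f0019800000010000000000000000000000000000000) := T_10 (nat_lit 159) (nat_lit 160) (nat_lit 3) (nat_lit 3) (nat_lit 8) L56966 (by decide +kernel)
theorem L56968 : W_10 (nat_lit 2) (nat_lit 0x2000070017800a0001000000000000000000000000000) (nat_lit 0x0) (nat_lit 0x1000080000000000010000000000000000000000000000000) := D_10 (nat_lit 175) (nat_lit 192) (nat_lit 124) (nat_lit 6) (nat_lit 5) (nat_lit 11) (nat_lit 6) (nat_lit 5) (nat_lit 10) (by decide +kernel)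
theorem L56969 : W_10 (nat_lit 3) (nat_lit 0x2000070017800a0000000000000000000000000000000) (nat_lit 0x0) (nat_lit 0x1000080000000000010001000080000000000000000000000) := T_10 (nat_lit 108) (nat_lit 91) (nat_lit 5) (nat_lit 6) (nat_lit 5) L56968 (by decide +kernel)
theorem L56970 : W_10 (nat_lit 4) (nat_lit 0x200007001780080000000000000000000000000000000) (nat_lit 0x0) (nat_lit 0x1000080000000000070001000080000000000000000000000) := T_10 (nat_lit 125) (nat_lit 126) (nat_lit 2) (nat_lit 3) (nat_lit 8) L56969 (by decide +kernel)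
theorem L56971 : W_10 (nat_lit 5) (nat_lit 0x200006001780080000000000000000000000000000000) (nat_lit 0x0) (nat_lit 0x1000080001800000070001000080000000000000000000000) := T_10 (nat_lit 156) (nat_lit 155) (nat_lit 2) (nat_lit 2) (nat_lit 9) L56970 (by decide +kernel)
theorem L56972 : W_10 (nat_lit 2) (nat_lit 0xe0022000f0017800d0000c00000000000000000000000000) (nat_lit 0x0) (nat_lit 0x3000080000000000000000000000) := D_10 (nat_lit 108) (nat_lit 109) (nat_lit 91) (nat_lit 3) (nat_lit 4) (nat_lit 6) (nat_lit 6) (nat_lit 5) (nat_lit 9) (by decide +kernel)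
theorem L56973 : W_10 (nat_lit 3) (nat_lit 0xe0022000f0017800d0000800000000000000000000000000) (nat_lit 0x0) (nat_lit 0x34000a0000000000000000000000) := T_10 (nat_lit 106) (nat_lit 89) (nat_lit 4) (nat_lit 5) (nat_lit 9) L56972 (by decide +kernel)
theorem L56974 : W_10 (nat_lit 4) (nat_lit 0xe0022000f0017800d0000000000000000000000000000000) (nat_lit 0x0) (nat_lit 0x3c000e0000000000000000000000) := T_10 (nat_lit 107) (nat_lit 90) (nat_lit 7) (nat_lit 5) (nat_lit 5) L56973 (by decide +kernel)
theorem L56975 : W_10 (nat_lit 5) (nat_lit 0xe0022000f0017800c0000000000000000000000000000000) (nat_lit 0x0) (nat_lit 0x40000000000010003c000e0000000000000000000000) := T_10 (nat_lit 124) (nat_lit 174) (nat_lit 6) (nat_lit 4) (nat_lit 11) L56974 (by decide +kernel)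
theorem L56976 : W_10 (nat_lit 6) (nat_lit 0x60022000f0017800c0000000000000000000000000000000) (nat_lit 0x0) (nat_lit 0x10000800040000000000010003c000e0000000000000000000000) := T_10 (nat_lit 191) (nat_lit 208) (nat_lit 7) (nat_lit 3) (nat_lit 8) L56975 (by decide +kernel)
theorem L56977 : W_10 (nat_lit 7) (nat_lit 0x40022000f0017800c0000000000000000000000000000000) (nat_lit 0x0) (nat_lit 0x14000a00040000000000010003c000e0000000000000000000000) := T_10 (nat_lit 189) (nat_lit 206) (nat_lit 5) (nat_lit 3) (nat_lit 8) L56976 (by decide +kernel)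
theorem L56978 : W_10 (nat_lit 8) (nat_lit 0x22000f0017800c0000000000000000000000000000000) (nat_lit 0x0) (nat_lit 0x1c000e00040000000000010003c000e0000000000000000000000) := T_10 (nat_lit 190) (nat_lit 207) (nat_lit 6) (nat_lit 3) (nat_lit 12) L56977 (by decide +kernel)
theorem L56979 : W_10 (nat_lit 9) (nat_lit 0x20000f0017800c0000000000000000000000000000000) (nat_lit 0x0) (nat_lit 0x1c000e00070000000000010003c000e0000000000000000000000) := T_10 (nat_lit 173) (nat_lit 172) (nat_lit 1) (nat_lit 6) (nat_lit 9) L56978 (by decide +kernel)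
theorem L56980 : W_10 (nat_lit 10) (nat_lit 0x20000e0017800c0000000000000000000000000000000) (nat_lit 0x0) (nat_lit 0x1c000e00070001800000010003c000e0000000000000000000000) := T_10 (nat_lit 156) (nat_lit 155) (nat_lit 2) (nat_lit 2) (nat_lit 9) L56979 (by decide +kernel)
theorem L56981 : W_10 (nat_lit 11) (nat_lit 0x2000060017800c0000000000000000000000000000000) (nat_lit 0x0) (nat_lit 0x1c000e00070019800000010003c000e0000000000000000000000) := T_10 (nat_lit 159) (nat_lit 160) (nat_lit 3) (nat_lit 3) (nat_lit 8) L56980 (by decide +kernel)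
theorem L56982 : W_10 (nat_lit 12) (nat_lit 0x200006001780080000000000000000000000000000000) (nat_lit 0x0) (nat_lit 0x1c000e00070019800000070003c000e0000000000000000000000) := T_10 (nat_lit 126) (nat_lit 125) (nat_lit 2) (nat_lit 3) (nat_lit 8) L56981 (by decide +kernel)
theorem L56983 : W_10 (nat_lit 13) (nat_lit 0x200002001780080000000000000000000000000000000) (nat_lit 0x0) (nat_lit 0x1c001f800f001d800000070003c000e0000000000000000000000) := Q_10 (nat_lit 158) (C_10 L56967 (C_10 L55950 (C_10 L56971 (C_10 L56982 N_10)))) (by decide +kernel)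
theorem L56984 : W_10 (nat_lit 14) (nat_lit 0x200000001780080000000000000000000000000000000) (nat_lit 0x0) (nat_lit 0x1c001f800f001f800000076003f000f8000000000000000000000) := Q_10 (nat_lit 157) (C_10 L56956 (C_10 L37582 (C_10 L56965 (C_10 L56983 N_10)))) (by decide +kernel)
theorem L56985 : W_10 (nat_lit 2) (nat_lit 0x2000010017800a4000f00080000000000000000000000) (nat_lit 0x0) (nat_lit 0x4000000000001000100000000000000000000000) := D_10 (nat_lit 108) (nat_lit 92) (nat_lit 158) (nat_lit 2) (nat_lit 3) (nat_lit 6) (nat_lit 5) (nat_lit 6) (nat_lit 5) (by decide +kernel)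
theorem L56986 : W_10 (nat_lit 3) (nat_lit 0x2000010017800a4000f00000000000000000000000000) (nat_lit 0x0) (nat_lit 0x40000000000010001c0000000000000000000000) := T_10 (nat_lit 91) (nat_lit 90) (nat_lit 2) (nat_lit 2) (nat_lit 6) L56985 (by decide +kernel)
theorem L56987 : W_10 (nat_lit 4) (nat_lit 0x2000010017800a4000700000000000000000000000000) (nat_lit 0x0) (nat_lit 0x40000000100018001c0000000000000000000000) := T_10 (nat_lit 107) (nat_lit 124) (nat_lit 3) (nat_lit 2) (nat_lit 6) L56986 (by decide +kernel)
theorem L56988 : W_10 (nat_lit 5) (nat_lit 0x2000010017800a4000300000000000000000000000000) (nat_lit 0x0) (nat_lit 0x4000000010001c001e0000000000000000000000) := T_10 (nat_lit 106) (nat_lit 89) (nat_lit 6) (nat_lit 3) (nat_lit 9) L56987 (by decide +kernel)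
theorem L56989 : W_10 (nat_lit 6) (nat_lit 0x2000010017800a4000200000000000000000000000000) (nat_lit 0x0) (nat_lit 0x4000000010001d001e8000000000000000000000) := T_10 (nat_lit 104) (nat_lit 87) (nat_lit 4) (nat_lit 3) (nat_lit 9) L56988 (by decide +kernel)
theorem L56990 : W_10 (nat_lit 7) (nat_lit 0x2000000017800a4000200000000000000000000000000) (nat_lit 0x0) (nat_lit 0x5800000010001d001e8000000000000000000000) := T_10 (nat_lit 156) (nat_lit 155) (nat_lit 1) (nat_lit 6) (nat_lit 8) L56989 (by decide +kernel)
theorem L56991 : W_10 (nat_lit 8) (nat_lit 0x200000001780084000200000000000000000000000000) (nat_lit 0x0) (nat_lit 0x5800000070001d001e8000000000000000000000) := T_10 (nat_lit 125) (nat_lit 126) (nat_lit 2) (nat_lit 3) (nat_lit 8) L56990 (by decide +kernel)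
theorem L56992 : W_10 (nat_lit 2) (nat_lit 0x2000000017800a40012000b0004d00000000000000000) (nat_lit 0x0) (nat_lit 0x100008000400000000000000) := D_10 (nat_lit 75) (nat_lit 92) (nat_lit 58) (nat_lit 6) (nat_lit 6) (nat_lit 8) (nat_lit 6) (nat_lit 6) (nat_lit 7) (by decide +kernel)
theorem L56993 : W_10 (nat_lit 3) (nat_lit 0x2000000017800a40012000b0000d00000000000000000) (nat_lit 0x0) (nat_lit 0x1000000010000c000400000000000000) := T_10 (nat_lit 74) (nat_lit 124) (nat_lit 5) (nat_lit 6) (nat_lit 4) L56992 (by decide +kernel)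
theorem L56994 : W_10 (nat_lit 4) (nat_lit 0x2000000017800a40002000b0000d00000000000000000) (nat_lit 0x0) (nat_lit 0x400000001000100010000c000400000000000000) := T_10 (nat_lit 108) (nat_lit 158) (nat_lit 5) (nat_lit 6) (nat_lit 5) L56993 (by decide +kernel)
theorem L56995 : W_10 (nat_lit 5) (nat_lit 0x2000000017800a4000200030000d00000000000000000) (nat_lit 0x0) (nat_lit 0x40000000100010001c000c000400000000000000) := T_10 (nat_lit 91) (nat_lit 90) (nat_lit 0) (nat_lit 6) (nat_lit 5) L56994 (by decide +kernel)
theorem L56996 : W_10 (nat_lit 6) (nat_lit 0x2000000017800a4000200030000c00000000000000000) (nat_lit 0x0) (nat_lit 0x40000000100010001c000c300400000000000000) := T_10 (nat_lit 68) (nat_lit 69) (nat_lit 3) (nat_lit 0) (nat_lit 4) L56995 (by decide +kernel)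
theorem L56997 : W_10 (nat_lit 7) (nat_lit 0x2000000017800a4000200030000400000000000000000) (nat_lit 0x0) (nat_lit 0x40000000100010001c000cb00420000000000000) := T_10 (nat_lit 71) (nat_lit 53) (nat_lit 4) (nat_lit 3) (nat_lit 7) L56996 (by decide +kernel)
theorem L56998 : W_10 (nat_lit 8) (nat_lit 0x200000001780084000200030000400000000000000000) (nat_lit 0x0) (nat_lit 0x40000000700010001c000cb00420000000000000) := T_10 (nat_lit 125) (nat_lit 126) (nat_lit 2) (nat_lit 3) (nat_lit 8) L56997 (by decide +kernel)
theorem L56999 : W_10 (nat_lit 9) (nat_lit 0x200000001780084000200030000000000000000000000) (nat_lit 0x0) (nat_lit 0x40000000700010001c800cf00420000000000000) := T_10 (nat_lit 70) (nat_lit 87) (nat_lit 4) (nat_lit 3) (nat_lit 8) L56998 (by decide +kernel)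
theorem L57000 : W_10 (nat_lit 10) (nat_lit 0x200000001780084000200010000000000000000000000) (nat_lit 0x0) (nat_lit 0x40000000700010001e800df00420000000000000) := T_10 (nat_lit 89) (nat_lit 72) (nat_lit 6) (nat_lit 3) (nat_lit 8) L56999 (by decide +kernel)
theorem L57001 : W_10 (nat_lit 11) (nat_lit 0x200000001780084000200000000000000000000000000) (nat_lit 0x0) (nat_lit 0x60000000700010001f800df00420000000000000) := T_10 (nat_lit 88) (nat_lit 157) (nat_lit 7) (nat_lit 3) (nat_lit 5) L57000 (by decide +kernel)
theorem L57002 : W_10 (nat_lit 12) (nat_lit 0x200000001780084000000000000000000000000000000) (nat_lit 0x0) (nat_lit 0x40007800000070001f001f800df00420000000000000) := Q_10 (nat_lit 105) (C_10 L55015 (C_10 L56991 (C_10 L57001 (C_10 L38131 N_10)))) (by decide +kernel)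
theorem L57003 : W_10 (nat_lit 13) (nat_lit 0x200000001780080000000000000000000000000000000) (nat_lit 0x0) (nat_lit 0x40007800000076001f001f800df00420000000000000) := T_10 (nat_lit 122) (nat_lit 121) (nat_lit 0) (nat_lit 6) (nat_lit 8) L57002 (by decide +kernel)
theorem L57004 : W_10 (nat_lit 2) (nat_lit 0x3000090017800a0000000000000000000000000000000) (nat_lit 0x0) (nat_lit 0x2000000000000000010000800000000000000000000000000) := D_10 (nat_lit 124) (nat_lit 107) (nat_lit 193) (nat_lit 4) (nat_lit 6) (nat_lit 10) (nat_lit 4) (nat_lit 6) (nat_lit 11) (by decide +kernel)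
theorem L57005 : W_10 (nat_lit 3) (nat_lit 0x2000090017800a0000000000000000000000000000000) (nat_lit 0x0) (nat_lit 0x6000100000000000010000800000000000000000000000000) := T_10 (nat_lit 176) (nat_lit 194) (nat_lit 7) (nat_lit 6) (nat_lit 7) L57004 (by decide +kernel)
theorem L57006 : W_10 (nat_lit 4) (nat_lit 0x2000080017800a0000000000000000000000000000000) (nat_lit 0x0) (nat_lit 0x6000100001800000010000800000000000000000000000000) := T_10 (nat_lit 156) (nat_lit 155) (nat_lit 1) (nat_lit 6) (nat_lit 8) L57005 (by decide +kernel)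
theorem L57007 : W_10 (nat_lit 5) (nat_lit 0x2000000017800a0000000000000000000000000000000) (nat_lit 0x0) (nat_lit 0x6000100019800000010000800000000000000000000000000) := T_10 (nat_lit 159) (nat_lit 160) (nat_lit 3) (nat_lit 3) (nat_lit 8) L57006 (by decide +kernel)
theorem L57008 : W_10 (nat_lit 6) (nat_lit 0x200000001780080000000000000000000000000000000) (nat_lit 0x0) (nat_lit 0x6000100019800000070000800000000000000000000000000) := T_10 (nat_lit 125) (nat_lit 126) (nat_lit 2) (nat_lit 3) (nat_lit 8) L57007 (by decide +kernel)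
theorem L57009 : W_10 (nat_lit 15) (nat_lit 0x200000001380080000000000000000000000000000000) (nat_lit 0x0) (nat_lit 0x1e000fc00ff801f003f800400076003f001fe00df00420000000000000) := Q_10 (nat_lit 142) (C_10 L55709 (C_10 L56889 (C_10 L56939 (C_10 L55622 (C_10 L56984 (C_10 L57003 (C_10 L57008 N_10))))))) (by decide +kernel)
theorem L57010 : W_10 (nat_lit 3) (nat_lit 0x2000060013c0080000000000000000000000000000000) (nat_lit 0x0) (nat_lit 0x40000000000030000800040000000000000000000000) := T_10 (nat_lit 124) (nat_lit 125) (nat_lit 2) (nat_lit 2) (nat_lit 8) L55456 (by decide +kernel)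
theorem L57011 : W_10 (nat_lit 4) (nat_lit 0x2000040013c0080000000000000000000000000000000) (nat_lit 0x0) (nat_lit 0x40002000020030000800040000000000000000000000) := T_10 (nat_lit 157) (nat_lit 137) (nat_lit 3) (nat_lit 1) (nat_lit 8) L57010 (by decide +kernel)
theorem L57012 : W_10 (nat_lit 5) (nat_lit 0x2000000013c0080000000000000000000000000000000) (nat_lit 0x0) (nat_lit 0x4000e000020030000800040000000000000000000000) := T_10 (nat_lit 158) (nat_lit 159) (nat_lit 3) (nat_lit 2) (nat_lit 8) L57011 (by decide +kernel)
theorem L57013 : W_10 (nat_lit 6) (nat_lit 0x200000001380080000000000000000000000000000000) (nat_lit 0x0) (nat_lit 0x4000fe00460070000800040000000000000000000000) := Q_10 (nat_lit 138) (C_10 L56861 (C_10 L37111 (C_10 L57012 N_10))) (by decide +kernel)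
theorem L57014 : W_10 (nat_lit 6) (nat_lit 0x200000001380080000000000000000000000000000000) (nat_lit 0x0) (nat_lit 0x4000e000460077800800040000000000000000000000) := Q_10 (nat_lit 138) (C_10 L56864 (C_10 L57012 (C_10 L33742 N_10))) (by decide +kernel)
theorem L57015 : W_10 (nat_lit 16) (nat_lit 0x200000001300080000000000000000000000000000000) (nat_lit 0x0) (nat_lit 0x1e000fc00ff801fc03fe004e0077803f801fe00df00420000000000000) := Q_10 (nat_lit 139) (C_10 L56858 (C_10 L55623 (C_10 L56085 (C_10 L56865 (C_10 L55905 (C_10 L57009 (C_10 L57013 (C_10 L56067 (C_10 L57014 N_10))))))))) (by decide +kernel)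
theorem L57016 : W_10 (nat_lit 2) (nat_lit 0xc00340002001300080000000000000000000000000000000) (nat_lit 0x0) (nat_lit 0x20003000000000000000000000000000000000000000000000000) := D_10 (nat_lit 192) (nat_lit 193) (nat_lit 209) (nat_lit 2) (nat_lit 3) (nat_lit 11) (nat_lit 7) (nat_lit 4) (nat_lit 8) (by decide +kernel)
theorem L57017 : W_10 (nat_lit 3) (nat_lit 0xc00240002001300080000000000000000000000000000000) (nat_lit 0x0) (nat_lit 0x20003000180000000000000000000000000000000000000000000) := T_10 (nat_lit 176) (nat_lit 175) (nat_lit 1) (nat_lit 7) (nat_lit 10) L57016 (by decide +kernel)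
theorem L57018 : W_10 (nat_lit 4) (nat_lit 0x800240002001300080000000000000000000000000000000) (nat_lit 0x0) (nat_lit 0x28003400180000000000000000000000000000000000000000000) := T_10 (nat_lit 190) (nat_lit 207) (nat_lit 5) (nat_lit 4) (nat_lit 8) L57017 (by decide +kernel)
theorem L57019 : W_10 (nat_lit 5) (nat_lit 0x240002001300080000000000000000000000000000000) (nat_lit 0x0) (nat_lit 0x28003c00180000000000010000000000000000000000000000000) := T_10 (nat_lit 191) (nat_lit 124) (nat_lit 6) (nat_lit 4) (nat_lit 11) L57018 (by decide +kernel)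
theorem L57020 : W_10 (nat_lit 5) (nat_lit 0x240002001300080000000000000000000000000000000) (nat_lit 0x0) (nat_lit 0x8000c0002000000008001c000200000000000000000000000000) := T_10 (nat_lit 191) (nat_lit 124) (nat_lit 6) (nat_lit 4) (nat_lit 11) L35248 (by decide +kernel)
theorem L57021 : W_10 (nat_lit 2) (nat_lit 0x1800240003001380088000000000000000000000000000000) (nat_lit 0x0) (nat_lit 0x20000000000000000400020000000000000000000000) := D_10 (nat_lit 106) (nat_lit 89) (nat_lit 173) (nat_lit 5) (nat_lit 4) (nat_lit 5) (nat_lit 5) (nat_lit 4) (nat_lit 6) (by decide +kernel)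
theorem L57022 : W_10 (nat_lit 3) (nat_lit 0x1800240002001380088000000000000000000000000000000) (nat_lit 0x0) (nat_lit 0x10000000020001000000000000400020000000000000000000000) := T_10 (nat_lit 156) (nat_lit 208) (nat_lit 4) (nat_lit 4) (nat_lit 12) L57021 (by decide +kernel)
theorem L57023 : W_10 (nat_lit 4) (nat_lit 0x1800240002001380080000000000000000000000000000000) (nat_lit 0x0) (nat_lit 0x100000000a0001000000008000400020000000000000000000000) := T_10 (nat_lit 123) (nat_lit 175) (nat_lit 7) (nat_lit 4) (nat_lit 7) L57022 (by decide +kernel)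
theorem L57024 : W_10 (nat_lit 5) (nat_lit 0x800240002001380080000000000000000000000000000000) (nat_lit 0x0) (nat_lit 0x300010000a0001000000008000400020000000000000000000000) := T_10 (nat_lit 192) (nat_lit 209) (nat_lit 7) (nat_lit 4) (nat_lit 8) L57023 (by decide +kernel)
theorem L57025 : W_10 (nat_lit 6) (nat_lit 0x800240002001300080000000000000000000000000000000) (nat_lit 0x0) (nat_lit 0x300010000a000100008000c000400020000000000000000000000) := T_10 (nat_lit 139) (nat_lit 122) (nat_lit 4) (nat_lit 4) (nat_lit 11) L57024 (by decide +kernel)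
theorem L57026 : W_10 (nat_lit 7) (nat_lit 0x240002001300080000000000000000000000000000000) (nat_lit 0x0) (nat_lit 0x38003c001a000100008000c000600020000000000000000000000) := Q_10 (nat_lit 191) (C_10 L35248 (C_10 L57018 (C_10 L57025 N_10))) (by decide +kernel)
theorem L57027 : W_10 (nat_lit 2) (nat_lit 0x40003c000200130009d000000000000000000000000000000) (nat_lit 0x0) (nat_lit 0x2400020000000000000000000000000000000000000000000) := D_10 (nat_lit 173) (nat_lit 193) (nat_lit 190) (nat_lit 3) (nat_lit 3) (nat_lit 10) (nat_lit 5) (nat_lit 4) (nat_lit 7) (by decide +kernel)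
theorem L57028 : W_10 (nat_lit 3) (nat_lit 0x3c000200130009d000000000000000000000000000000) (nat_lit 0x0) (nat_lit 0xe400020000000000000000000000000000000000000000000) := T_10 (nat_lit 194) (nat_lit 195) (nat_lit 3) (nat_lit 4) (nat_lit 10) L57027 (by decide +kernel)
theorem L57029 : W_10 (nat_lit 4) (nat_lit 0x3c000200130008d000000000000000000000000000000) (nat_lit 0x0) (nat_lit 0xe400020000000000010000800000000000000000000000000) := T_10 (nat_lit 124) (nat_lit 107) (nat_lit 6) (nat_lit 4) (nat_lit 10) L57028 (by decide +kernel)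
theorem L57030 : W_10 (nat_lit 5) (nat_lit 0x2c000200130008d000000000000000000000000000000) (nat_lit 0x0) (nat_lit 0xe400120001000000010000800000000000000000000000000) := T_10 (nat_lit 176) (nat_lit 156) (nat_lit 0) (nat_lit 7) (nat_lit 10) L57029 (by decide +kernel)
theorem L57031 : W_10 (nat_lit 6) (nat_lit 0x24000200130008d000000000000000000000000000000) (nat_lit 0x0) (nat_lit 0xf4001a0001000000010000800000000000000000000000000) := T_10 (nat_lit 175) (nat_lit 192) (nat_lit 7) (nat_lit 4) (nat_lit 7) L57030 (by decide +kernel)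
theorem L57032 : W_10 (nat_lit 7) (nat_lit 0x24000200130008c000000000000000000000000000000) (nat_lit 0x0) (nat_lit 0xf4001a0001000000013000800000000000000000000000000) := T_10 (nat_lit 120) (nat_lit 121) (nat_lit 3) (nat_lit 1) (nat_lit 7) L57031 (by decide +kernel)
theorem L57033 : W_10 (nat_lit 8) (nat_lit 0x240002001300088000000000000000000000000000000) (nat_lit 0x0) (nat_lit 0xf4001a0001000000017000a00000000000000000000000000) := T_10 (nat_lit 122) (nat_lit 105) (nat_lit 4) (nat_lit 4) (nat_lit 10) L57032 (by decide +kernel)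
theorem L57038 : W_10 (nat_lit 6) (nat_lit 0x240002001300098000000000000000000000000000000) (nat_lit 0x0) (nat_lit 0x400020001000000060000600030001800000000000000000) := T_10 (nat_lit 126) (nat_lit 125) (nat_lit 1) (nat_lit 8) (nat_lit 7) L57037 (by decide +kernel)
theorem L57039 : W_10 (nat_lit 7) (nat_lit 0x240002001300088000000000000000000000000000000) (nat_lit 0x0) (nat_lit 0x400020001000000070000e00030001800000000000000000) := T_10 (nat_lit 124) (nat_lit 107) (nat_lit 6) (nat_lit 4) (nat_lit 10) L57038 (by decide +kernel)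
theorem L57040 : W_10 (nat_lit 2) (nat_lit 0x2c00020013000be000000000000000000000000000000) (nat_lit 0x0) (nat_lit 0xe0000000000000000000000000000000000) := D_10 (nat_lit 138) (nat_lit 137) (nat_lit 139) (nat_lit 1) (nat_lit 5) (nat_lit 7) (nat_lit 2) (nat_lit 2) (nat_lit 8) (by decide +kernel)
theorem L57041 : W_10 (nat_lit 3) (nat_lit 0x2c000200130009e000000000000000000000000000000) (nat_lit 0x0) (nat_lit 0xe0060000000000000000000000000000000) := T_10 (nat_lit 125) (nat_lit 126) (nat_lit 1) (nat_lit 8) (nat_lit 7) L57040 (by decide +kernel)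
theorem L57042 : W_10 (nat_lit 4) (nat_lit 0x2c000200130008e000000000000000000000000000000) (nat_lit 0x0) (nat_lit 0xe0070000800000000000000000000000000) := T_10 (nat_lit 124) (nat_lit 107) (nat_lit 6) (nat_lit 4) (nat_lit 10) L57041 (by decide +kernel)
theorem L57043 : W_10 (nat_lit 5) (nat_lit 0x2c000200130008c000000000000000000000000000000) (nat_lit 0x0) (nat_lit 0xe0073000800000000000000000000000000) := T_10 (nat_lit 121) (nat_lit 120) (nat_lit 3) (nat_lit 1) (nat_lit 7) L57042 (by decide +kernel)
theorem L57044 : W_10 (nat_lit 6) (nat_lit 0x2c0002001300088000000000000000000000000000000) (nat_lit 0x0) (nat_lit 0xe0077000a00000000000000000000000000) := T_10 (nat_lit 122) (nat_lit 105) (nat_lit 4) (nat_lit 4) (nat_lit 10) L57043 (by decide +kernel)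
theorem L57045 : W_10 (nat_lit 7) (nat_lit 0x240002001300088000000000000000000000000000000) (nat_lit 0x0) (nat_lit 0x10000800000000e0077000a00000000000000000000000000) := T_10 (nat_lit 175) (nat_lit 192) (nat_lit 7) (nat_lit 4) (nat_lit 7) L57044 (by decide +kernel)
theorem L57046 : W_10 (nat_lit 2) (nat_lit 0x260002001300088000400000000000000000000000000) (nat_lit 0x0) (nat_lit 0x10000800040000000000000000000000) := D_10 (nat_lit 107) (nat_lit 124) (nat_lit 90) (nat_lit 6) (nat_lit 4) (nat_lit 10) (nat_lit 6) (nat_lit 4) (nat_lit 9) (by decide +kernel)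
theorem L57047 : W_10 (nat_lit 3) (nat_lit 0x260002001300088000000000000000000000000000000) (nat_lit 0x0) (nat_lit 0x1000000010000c00040000000000000000000000) := T_10 (nat_lit 106) (nat_lit 156) (nat_lit 5) (nat_lit 4) (nat_lit 6) L57046 (by decide +kernel)
theorem L57048 : W_10 (nat_lit 4) (nat_lit 0x240002001300088000000000000000000000000000000) (nat_lit 0x0) (nat_lit 0x400020001000000010000c00040000000000000000000000) := T_10 (nat_lit 173) (nat_lit 190) (nat_lit 5) (nat_lit 4) (nat_lit 7) L57047 (by decide +kernel)
theorem L57049 : W_10 (nat_lit 9) (nat_lit 0x240002001300080000000000000000000000000000000) (nat_lit 0x0) (nat_lit 0xf4001a00010000e007f000e00070001800000000000000000) := Q_10 (nat_lit 123) (C_10 L57033 (C_10 L35281 (C_10 L35237 (C_10 L57039 (C_10 L57045 (C_10 L57048 N_10)))))) (by decide +kernel)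
theorem L57050 : W_10 (nat_lit 7) (nat_lit 0x240002001300080000000000000000000000000000000) (nat_lit 0x0) (nat_lit 0x300018000a000100008001c000400020000000000000000000000) := T_10 (nat_lit 191) (nat_lit 124) (nat_lit 6) (nat_lit 4) (nat_lit 11) L57025 (by decide +kernel)
theorem L57051 : W_10 (nat_lit 10) (nat_lit 0x200002001300080000000000000000000000000000000) (nat_lit 0x0) (nat_lit 0x3800fc001e00010000e007f000e00070001800000000000000000) := Q_10 (nat_lit 174) (C_10 L57019 (C_10 L57020 (C_10 L57026 (C_10 L57049 (C_10 L57050 N_10))))) (by decide +kernel)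
theorem L57052 : W_10 (nat_lit 2) (nat_lit 0x40003c001600130009d000000000000000000000000000000) (nat_lit 0x0) (nat_lit 0x400020008000000000000000000000000000000000000000) := D_10 (nat_lit 173) (nat_lit 159) (nat_lit 190) (nat_lit 2) (nat_lit 3) (nat_lit 10) (nat_lit 5) (nat_lit 4) (nat_lit 7) (by decide +kernel)
theorem L57053 : W_10 (nat_lit 3) (nat_lit 0x40003c000600130009d000000000000000000000000000000) (nat_lit 0x0) (nat_lit 0x400020038000000000000000000000000000000000000000) := T_10 (nat_lit 160) (nat_lit 161) (nat_lit 2) (nat_lit 4) (nat_lit 10) L57052 (by decide +kernel)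
theorem L57054 : W_10 (nat_lit 4) (nat_lit 0x3c000600130009d000000000000000000000000000000) (nat_lit 0x0) (nat_lit 0xc400020038000000000000000000000000000000000000000) := T_10 (nat_lit 194) (nat_lit 195) (nat_lit 3) (nat_lit 4) (nat_lit 10) L57053 (by decide +kernel)
theorem L57055 : W_10 (nat_lit 5) (nat_lit 0x2c000600130009d000000000000000000000000000000) (nat_lit 0x0) (nat_lit 0xe400120038000000000000000000000000000000000000000) := T_10 (nat_lit 176) (nat_lit 193) (nat_lit 7) (nat_lit 5) (nat_lit 7) L57054 (by decide +kernel)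
theorem L57056 : W_10 (nat_lit 6) (nat_lit 0x2c000200130009d000000000000000000000000000000) (nat_lit 0x0) (nat_lit 0xe40012003c000000000000400000000000000000000000000) := T_10 (nat_lit 158) (nat_lit 106) (nat_lit 7) (nat_lit 4) (nat_lit 6) L57055 (by decide +kernel)
theorem L57057 : W_10 (nat_lit 7) (nat_lit 0x24000200130009d000000000000000000000000000000) (nat_lit 0x0) (nat_lit 0xf4001a003c000000000000400000000000000000000000000) := T_10 (nat_lit 175) (nat_lit 192) (nat_lit 7) (nat_lit 4) (nat_lit 7) L57056 (by decide +kernel)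
theorem L57058 : W_10 (nat_lit 8) (nat_lit 0x24000200130008d000000000000000000000000000000) (nat_lit 0x0) (nat_lit 0xf4001a003c000000010000c00000000000000000000000000) := T_10 (nat_lit 124) (nat_lit 107) (nat_lit 6) (nat_lit 4) (nat_lit 10) L57057 (by decide +kernel)
theorem L57059 : W_10 (nat_lit 9) (nat_lit 0x24000200130008c000000000000000000000000000000) (nat_lit 0x0) (nat_lit 0xf4001a003c000000013000c00000000000000000000000000) := T_10 (nat_lit 120) (nat_lit 121) (nat_lit 3) (nat_lit 1) (nat_lit 7) L57058 (by decide +kernel)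
theorem L57060 : W_10 (nat_lit 10) (nat_lit 0x240002001300088000000000000000000000000000000) (nat_lit 0x0) (nat_lit 0xf4001a003c000000017000e00000000000000000000000000) := T_10 (nat_lit 122) (nat_lit 105) (nat_lit 4) (nat_lit 4) (nat_lit 10) L57059 (by decide +kernel)
theorem L57061 : W_10 (nat_lit 2) (nat_lit 0x2c000200130009d000400020000000000000000000000) (nat_lit 0x0) (nat_lit 0x100001000080000000000000000000000000000000000) := D_10 (nat_lit 156) (nat_lit 176) (nat_lit 139) (nat_lit 0) (nat_lit 7) (nat_lit 10) (nat_lit 5) (nat_lit 4) (nat_lit 5) (by decide +kernel)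
theorem L57062 : W_10 (nat_lit 3) (nat_lit 0x2c000200130009d000400000000000000000000000000) (nat_lit 0x0) (nat_lit 0x100001000080000000000020001000000000000000000) := T_10 (nat_lit 89) (nat_lit 72) (nat_lit 7) (nat_lit 4) (nat_lit 4) L57061 (by decide +kernel)
theorem L57063 : W_10 (nat_lit 4) (nat_lit 0x2c000200130009d000000000000000000000000000000) (nat_lit 0x0) (nat_lit 0x100005000080000000400020001000000000000000000) := T_10 (nat_lit 106) (nat_lit 158) (nat_lit 7) (nat_lit 4) (nat_lit 6) L57062 (by decide +kernel)
theorem L57064 : W_10 (nat_lit 5) (nat_lit 0x24000200130009d000000000000000000000000000000) (nat_lit 0x0) (nat_lit 0x1000180005000080000000400020001000000000000000000) := T_10 (nat_lit 175) (nat_lit 192) (nat_lit 7) (nat_lit 4) (nat_lit 7) L57063 (by decide +kernel)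
theorem L57065 : W_10 (nat_lit 6) (nat_lit 0x24000200130008d000000000000000000000000000000) (nat_lit 0x0) (nat_lit 0x1000180005000080010000c00020001000000000000000000) := T_10 (nat_lit 124) (nat_lit 107) (nat_lit 6) (nat_lit 4) (nat_lit 10) L57064 (by decide +kernel)
theorem L57066 : W_10 (nat_lit 7) (nat_lit 0x24000200130008c000000000000000000000000000000) (nat_lit 0x0) (nat_lit 0x1000180005000080013000c00020001000000000000000000) := T_10 (nat_lit 120) (nat_lit 121) (nat_lit 3) (nat_lit 1) (nat_lit 7) L57065 (by decide +kernel)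
theorem L57067 : W_10 (nat_lit 8) (nat_lit 0x240002001300088000000000000000000000000000000) (nat_lit 0x0) (nat_lit 0x1000180005000080017000e00020001000000000000000000) := T_10 (nat_lit 122) (nat_lit 105) (nat_lit 4) (nat_lit 4) (nat_lit 10) L57066 (by decide +kernel)
theorem L57068 : W_10 (nat_lit 11) (nat_lit 0x240002001300080000000000000000000000000000000) (nat_lit 0x0) (nat_lit 0xf4001a003d00008001f000e00070001000000000000000000) := Q_10 (nat_lit 123) (C_10 L57048 (C_10 L35237 (C_10 L35281 (C_10 L57060 (C_10 L57067 N_10))))) (by decide +kernel)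
theorem L57069 : W_10 (nat_lit 12) (nat_lit 0x200002001300080000000000000000000000000000000) (nat_lit 0x0) (nat_lit 0x3800fc001e003d00008001f000e00070001000000000000000000) := Q_10 (nat_lit 174) (C_10 L57019 (C_10 L57050 (C_10 L57020 (C_10 L57026 (C_10 L57068 N_10))))) (by decide +kernel)
theorem L57070 : W_10 (nat_lit 2) (nat_lit 0x20000e001300080000000000000000000000000000000) (nat_lit 0x0) (nat_lit 0x30000080000000000000000000000000000000000) := D_10 (nat_lit 160) (nat_lit 139) (nat_lit 161) (nat_lit 0) (nat_lit 7) (nat_lit 9) (nat_lit 0) (nat_lit 8) (nat_lit 9) (by decide +kernel)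
theorem L57071 : W_10 (nat_lit 2) (nat_lit 0x20000f801300080000000000000000000000000000000) (nat_lit 0x0) (nat_lit 0x38000000000000000000000000000000000000000000) := D_10 (nat_lit 172) (nat_lit 173) (nat_lit 171) (nat_lit 1) (nat_lit 6) (nat_lit 9) (nat_lit 1) (nat_lit 5) (nat_lit 9) (by decide +kernel)
theorem L57072 : W_10 (nat_lit 3) (nat_lit 0x20000f001300080000000000000000000000000000000) (nat_lit 0x0) (nat_lit 0x38000c00000000000000000000000000000000000000) := T_10 (nat_lit 155) (nat_lit 154) (nat_lit 2) (nat_lit 1) (nat_lit 9) L57071 (by decide +kernel)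
theorem L57073 : W_10 (nat_lit 4) (nat_lit 0x20000e001300080000000000000000000000000000000) (nat_lit 0x0) (nat_lit 0x138001c00000000000000000000000000000000000000) := T_10 (nat_lit 156) (nat_lit 176) (nat_lit 3) (nat_lit 3) (nat_lit 9) L57072 (by decide +kernel)
theorem L57074 : W_10 (nat_lit 5) (nat_lit 0x200006001300080000000000000000000000000000000) (nat_lit 0x0) (nat_lit 0x138039c00080000000000000000000000000000000000) := Q_10 (nat_lit 159) (C_10 L57070 (C_10 L57073 N_10)) (by decide +kernel)
theorem L57075 : W_10 (nat_lit 2) (nat_lit 0x200006001300090000000000000000000000000000000) (nat_lit 0x0) (nat_lit 0x800040000000000000000800000000000000000000000000) := D_10 (nat_lit 174) (nat_lit 191) (nat_lit 107) (nat_lit 6) (nat_lit 4) (nat_lit 11) (nat_lit 5) (nat_lit 5) (nat_lit 6) (by decide +kernel)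
theorem L57076 : W_10 (nat_lit 2) (nat_lit 0x8002800060013400b0000000000000000000000000000000) (nat_lit 0x0) (nat_lit 0x30001000000000000000000000000000000000000000000000000) := D_10 (nat_lit 192) (nat_lit 208) (nat_lit 209) (nat_lit 5) (nat_lit 5) (nat_lit 8) (nat_lit 4) (nat_lit 5) (nat_lit 12) (by decide +kernel)
theorem L57077 : W_10 (nat_lit 3) (nat_lit 0x8002000060013400b0000000000000000000000000000000) (nat_lit 0x0) (nat_lit 0x30001000080000000000000001000000000000000000000000000) := T_10 (nat_lit 175) (nat_lit 108) (nat_lit 6) (nat_lit 5) (nat_lit 10) L57076 (by decide +kernel)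
theorem L57078 : W_10 (nat_lit 4) (nat_lit 0x8002000060013000b0000000000000000000000000000000) (nat_lit 0x0) (nat_lit 0x300010000800000000c0000001000000000000000000000000000) := T_10 (nat_lit 138) (nat_lit 139) (nat_lit 2) (nat_lit 2) (nat_lit 8) L57077 (by decide +kernel)
theorem L57079 : W_10 (nat_lit 5) (nat_lit 0x800200006001300090000000000000000000000000000000) (nat_lit 0x0) (nat_lit 0x300010000800000000c0060001000000000000000000000000000) := T_10 (nat_lit 125) (nat_lit 126) (nat_lit 1) (nat_lit 8) (nat_lit 7) L57078 (by decide +kernel)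
theorem L57080 : W_10 (nat_lit 6) (nat_lit 0x200006001300090000000000000000000000000000000) (nat_lit 0x0) (nat_lit 0x300018000c00000000c0060001000000000000000000000000000) := T_10 (nat_lit 191) (nat_lit 174) (nat_lit 6) (nat_lit 4) (nat_lit 11) L57079 (by decide +kernel)
theorem L57081 : W_10 (nat_lit 2) (nat_lit 0x2000060013000d0000c00000000000000000000000000) (nat_lit 0x0) (nat_lit 0x3000080000000000000000000000) := D_10 (nat_lit 108) (nat_lit 109) (nat_lit 91) (nat_lit 3) (nat_lit 4) (nat_lit 6) (nat_lit 6) (nat_lit 5) (nat_lit 9) (by decide +kernel)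
theorem L57082 : W_10 (nat_lit 3) (nat_lit 0x2000060013000d0000800000000000000000000000000) (nat_lit 0x0) (nat_lit 0x34000a0000000000000000000000) := T_10 (nat_lit 106) (nat_lit 89) (nat_lit 4) (nat_lit 5) (nat_lit 9) L57081 (by decide +kernel)
theorem L57083 : W_10 (nat_lit 4) (nat_lit 0x2000060013000d0000000000000000000000000000000) (nat_lit 0x0) (nat_lit 0x3c000e0000000000000000000000) := T_10 (nat_lit 107) (nat_lit 90) (nat_lit 5) (nat_lit 5) (nat_lit 5) L57082 (by decide +kernel)
theorem L57084 : W_10 (nat_lit 5) (nat_lit 0x200006001300090000000000000000000000000000000) (nat_lit 0x0) (nat_lit 0x60003c000e0000000000000000000000) := T_10 (nat_lit 126) (nat_lit 125) (nat_lit 1) (nat_lit 8) (nat_lit 7) L57083 (by decide +kernel)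
theorem L57085 : W_10 (nat_lit 7) (nat_lit 0x200006001300080000000000000000000000000000000) (nat_lit 0x0) (nat_lit 0x300018000c00000000c0070003c000e0000000000000000000000) := Q_10 (nat_lit 124) (C_10 L57075 (C_10 L57080 (C_10 L57084 N_10))) (by decide +kernel)
theorem L57086 : W_10 (nat_lit 2) (nat_lit 0x8002800060013000b0000000000000000000000000000000) (nat_lit 0x0) (nat_lit 0x30001000000000000000000000000000000000000000000000000) := D_10 (nat_lit 192) (nat_lit 208) (nat_lit 209) (nat_lit 5) (nat_lit 5) (nat_lit 8) (nat_lit 4) (nat_lit 5) (nat_lit 12) (by decide +kernel)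
theorem L57087 : W_10 (nat_lit 3) (nat_lit 0x8002000060013000b0000000000000000000000000000000) (nat_lit 0x0) (nat_lit 0x30001000080000000000000001000000000000000000000000000) := T_10 (nat_lit 175) (nat_lit 108) (nat_lit 6) (nat_lit 5) (nat_lit 10) L57086 (by decide +kernel)
theorem L57088 : W_10 (nat_lit 4) (nat_lit 0x800200006001300090000000000000000000000000000000) (nat_lit 0x0) (nat_lit 0x30001000080000000000060001000000000000000000000000000) := T_10 (nat_lit 125) (nat_lit 126) (nat_lit 1) (nat_lit 8) (nat_lit 7) L57087 (by decide +kernel)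
theorem L57089 : W_10 (nat_lit 5) (nat_lit 0x200006001300090000000000000000000000000000000) (nat_lit 0x0) (nat_lit 0x300018000c0000000000060001000000000000000000000000000) := T_10 (nat_lit 191) (nat_lit 174) (nat_lit 6) (nat_lit 4) (nat_lit 11) L57088 (by decide +kernel)
theorem L57090 : W_10 (nat_lit 6) (nat_lit 0x200006001300080000000000000000000000000000000) (nat_lit 0x0) (nat_lit 0x300018000c0000000000070003c000e0000000000000000000000) := Q_10 (nat_lit 124) (C_10 L57075 (C_10 L57084 (C_10 L57089 N_10))) (by decide +kernel)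
theorem L57091 : W_10 (nat_lit 8) (nat_lit 0x200002001300080000000000000000000000000000000) (nat_lit 0x0) (nat_lit 0x300018001f803dc000c0070003c000e0000000000000000000000) := Q_10 (nat_lit 158) (C_10 L57074 (C_10 L57085 (C_10 L57090 N_10))) (by decide +kernel)
theorem L57092 : W_10 (nat_lit 2) (nat_lit 0x2c0002001300088000400000000000000000000000000) (nat_lit 0x0) (nat_lit 0x120001000000000000000000000000000000000000000) := D_10 (nat_lit 156) (nat_lit 173) (nat_lit 176) (nat_lit 5) (nat_lit 4) (nat_lit 6) (nat_lit 0) (nat_lit 7) (nat_lit 10) (by decide +kernel)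
theorem L57093 : W_10 (nat_lit 3) (nat_lit 0x2c0002001300088000000000000000000000000000000) (nat_lit 0x0) (nat_lit 0x120005000000000000400000000000000000000000000) := T_10 (nat_lit 106) (nat_lit 158) (nat_lit 7) (nat_lit 4) (nat_lit 6) L57092 (by decide +kernel)
theorem L57094 : W_10 (nat_lit 4) (nat_lit 0x240002001300088000000000000000000000000000000) (nat_lit 0x0) (nat_lit 0x10001a0005000000000000400000000000000000000000000) := T_10 (nat_lit 175) (nat_lit 192) (nat_lit 7) (nat_lit 4) (nat_lit 7) L57093 (by decide +kernel)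
theorem L57095 : W_10 (nat_lit 2) (nat_lit 0x2e000600130008d000000000000000000000000000000) (nat_lit 0x0) (nat_lit 0x18008000000000000000000000000000000000000000) := D_10 (nat_lit 172) (nat_lit 159) (nat_lit 171) (nat_lit 2) (nat_lit 2) (nat_lit 10) (nat_lit 2) (nat_lit 1) (nat_lit 10) (by decide +kernel)
theorem L57096 : W_10 (nat_lit 3) (nat_lit 0x2e000200130008d000000000000000000000000000000) (nat_lit 0x0) (nat_lit 0x1800c000000000000400000000000000000000000000) := T_10 (nat_lit 158) (nat_lit 106) (nat_lit 7) (nat_lit 4) (nat_lit 6) L57095 (by decide +kernel)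
theorem L57097 : W_10 (nat_lit 4) (nat_lit 0x26000200130008d000000000000000000000000000000) (nat_lit 0x0) (nat_lit 0x100009800c000000000000400000000000000000000000000) := T_10 (nat_lit 175) (nat_lit 192) (nat_lit 7) (nat_lit 4) (nat_lit 7) L57096 (by decide +kernel)
theorem L57098 : W_10 (nat_lit 5) (nat_lit 0x26000200130008c000000000000000000000000000000) (nat_lit 0x0) (nat_lit 0x100009800c000000003000400000000000000000000000000) := T_10 (nat_lit 120) (nat_lit 121) (nat_lit 3) (nat_lit 1) (nat_lit 7) L57097 (by decide +kernel)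
theorem L57099 : W_10 (nat_lit 6) (nat_lit 0x260002001300088000000000000000000000000000000) (nat_lit 0x0) (nat_lit 0x100009800c000000007000600000000000000000000000000) := T_10 (nat_lit 122) (nat_lit 105) (nat_lit 4) (nat_lit 4) (nat_lit 10) L57098 (by decide +kernel)
theorem L57100 : W_10 (nat_lit 7) (nat_lit 0x240002001300088000000000000000000000000000000) (nat_lit 0x0) (nat_lit 0x14000b800c000000007000600000000000000000000000000) := T_10 (nat_lit 173) (nat_lit 190) (nat_lit 5) (nat_lit 4) (nat_lit 7) L57099 (by decide +kernel)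
theorem L57101 : W_10 (nat_lit 2) (nat_lit 0x2c0002001300088000400000000000000000000000000) (nat_lit 0x0) (nat_lit 0x4000200010000000000000000000000) := D_10 (nat_lit 105) (nat_lit 88) (nat_lit 122) (nat_lit 4) (nat_lit 4) (nat_lit 9) (nat_lit 4) (nat_lit 4) (nat_lit 10) (by decide +kernel)
theorem L57102 : W_10 (nat_lit 3) (nat_lit 0x2c0002001300088000000000000000000000000000000) (nat_lit 0x0) (nat_lit 0x4000000004000600010000000000000000000000) := T_10 (nat_lit 106) (nat_lit 158) (nat_lit 7) (nat_lit 4) (nat_lit 6) L57101 (by decide +kernel)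
theorem L57103 : W_10 (nat_lit 4) (nat_lit 0x240002001300088000000000000000000000000000000) (nat_lit 0x0) (nat_lit 0x1000080004000000004000600010000000000000000000000) := T_10 (nat_lit 175) (nat_lit 192) (nat_lit 7) (nat_lit 4) (nat_lit 7) L57102 (by decide +kernel)
theorem L57104 : W_10 (nat_lit 8) (nat_lit 0x240002001300080000000000000000000000000000000) (nat_lit 0x0) (nat_lit 0xf4001b800d00000000f000600010000000000000000000000) := Q_10 (nat_lit 123) (C_10 L35237 (C_10 L35281 (C_10 L57094 (C_10 L57100 (C_10 L57103 N_10))))) (by decide +kernel)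
theorem L57105 : W_10 (nat_lit 9) (nat_lit 0x200002001300080000000000000000000000000000000) (nat_lit 0x0) (nat_lit 0x3800fc001f800d00008001f000600030000000000000000000000) := Q_10 (nat_lit 174) (C_10 L57104 (C_10 L57050 (C_10 L57019 (C_10 L57020 N_10)))) (by decide +kernel)
theorem L57109 : W_10 (nat_lit 2) (nat_lit 0x2c00020013a0098000400000000000000000000000000) (nat_lit 0x0) (nat_lit 0x1000000000000000020001000000000000000000) := D_10 (nat_lit 89) (nat_lit 72) (nat_lit 156) (nat_lit 7) (nat_lit 4) (nat_lit 4) (nat_lit 5) (nat_lit 4) (nat_lit 5) (by decide +kernel)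
theorem L57110 : W_10 (nat_lit 3) (nat_lit 0x2c00020013a0098000000000000000000000000000000) (nat_lit 0x0) (nat_lit 0x5000000000000400020001000000000000000000) := T_10 (nat_lit 106) (nat_lit 158) (nat_lit 7) (nat_lit 4) (nat_lit 6) L57109 (by decide +kernel)
theorem L57111 : W_10 (nat_lit 4) (nat_lit 0x2400020013a0098000000000000000000000000000000) (nat_lit 0x0) (nat_lit 0x1000080005000000000000400020001000000000000000000) := T_10 (nat_lit 175) (nat_lit 192) (nat_lit 7) (nat_lit 4) (nat_lit 7) L57110 (by decide +kernel)
theorem L57112 : W_10 (nat_lit 5) (nat_lit 0x240002001380098000000000000000000000000000000) (nat_lit 0x0) (nat_lit 0x1000080005000060000000400020001000000000000000000) := T_10 (nat_lit 137) (nat_lit 138) (nat_lit 2) (nat_lit 1) (nat_lit 8) L57111 (by decide +kernel)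
theorem L57113 : W_10 (nat_lit 6) (nat_lit 0x200002001380098000000000000000000000000000000) (nat_lit 0x0) (nat_lit 0x18000c0005000060000000400020001000000000000000000) := T_10 (nat_lit 174) (nat_lit 191) (nat_lit 6) (nat_lit 4) (nat_lit 11) L57112 (by decide +kernel)
theorem L57114 : W_10 (nat_lit 2) (nat_lit 0x260002001380098000400000000000000000000000000) (nat_lit 0x0) (nat_lit 0x80004000000000000000020000000000000000000000) := D_10 (nat_lit 158) (nat_lit 175) (nat_lit 89) (nat_lit 7) (nat_lit 4) (nat_lit 6) (nat_lit 7) (nat_lit 4) (nat_lit 5) (by decide +kernel)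
theorem L57115 : W_10 (nat_lit 3) (nat_lit 0x260002001380098000000000000000000000000000000) (nat_lit 0x0) (nat_lit 0x80005000000000000400020000000000000000000000) := T_10 (nat_lit 106) (nat_lit 156) (nat_lit 5) (nat_lit 4) (nat_lit 6) L57114 (by decide +kernel)
theorem L57116 : W_10 (nat_lit 4) (nat_lit 0x240002001380098000000000000000000000000000000) (nat_lit 0x0) (nat_lit 0x4000a0005000000000000400020000000000000000000000) := T_10 (nat_lit 173) (nat_lit 190) (nat_lit 5) (nat_lit 4) (nat_lit 7) L57115 (by decide +kernel)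
theorem L57117 : W_10 (nat_lit 5) (nat_lit 0x200002001380098000000000000000000000000000000) (nat_lit 0x0) (nat_lit 0xc000e0005000000000000400020000000000000000000000) := T_10 (nat_lit 174) (nat_lit 191) (nat_lit 6) (nat_lit 4) (nat_lit 11) L57116 (by decide +kernel)
theorem L57118 : W_10 (nat_lit 2) (nat_lit 0x8002100068013c009a000680000000000000000000000000) (nat_lit 0x0) (nat_lit 0x100008001000000000000000000000000000000000000000) := D_10 (nat_lit 171) (nat_lit 188) (nat_lit 156) (nat_lit 5) (nat_lit 2) (nat_lit 7) (nat_lit 1) (nat_lit 5) (nat_lit 9) (by decide +kernel)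
theorem L57119 : W_10 (nat_lit 3) (nat_lit 0x8002000068013c009a000680000000000000000000000000) (nat_lit 0x0) (nat_lit 0x100018001000000004000000000000000000000000000000) := T_10 (nat_lit 172) (nat_lit 122) (nat_lit 6) (nat_lit 2) (nat_lit 10) L57118 (by decide +kernel)
theorem L57120 : W_10 (nat_lit 4) (nat_lit 0x8002000068013c009a000600000000000000000000000000) (nat_lit 0x0) (nat_lit 0x100018001000000004000180000000000000000000000000) := T_10 (nat_lit 103) (nat_lit 104) (nat_lit 3) (nat_lit 1) (nat_lit 6) L57119 (by decide +kernel)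
theorem L57121 : W_10 (nat_lit 5) (nat_lit 0x8002000068013c009a000400000000000000000000000000) (nat_lit 0x0) (nat_lit 0x100018001000000004000380010000000000000000000000) := T_10 (nat_lit 105) (nat_lit 88) (nat_lit 4) (nat_lit 4) (nat_lit 9) L57120 (by decide +kernel)
theorem L57122 : W_10 (nat_lit 6) (nat_lit 0x8002000068013c0098000400000000000000000000000000) (nat_lit 0x0) (nat_lit 0x100018001000000007000380010000000000000000000000) := T_10 (nat_lit 121) (nat_lit 120) (nat_lit 0) (nat_lit 5) (nat_lit 8) L57121 (by decide +kernel)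
theorem L57123 : W_10 (nat_lit 7) (nat_lit 0x8002000068013c0098000000000000000000000000000000) (nat_lit 0x0) (nat_lit 0x100018001000000007000780030000000000000000000000) := T_10 (nat_lit 106) (nat_lit 89) (nat_lit 7) (nat_lit 4) (nat_lit 5) L57122 (by decide +kernel)
theorem L57124 : W_10 (nat_lit 8) (nat_lit 0x8002000028013c0098000000000000000000000000000000) (nat_lit 0x0) (nat_lit 0x10001800d000000007000780030000000000000000000000) := T_10 (nat_lit 158) (nat_lit 159) (nat_lit 3) (nat_lit 2) (nat_lit 8) L57123 (by decide +kernel)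
theorem L57125 : W_10 (nat_lit 9) (nat_lit 0x8002000020013c0098000000000000000000000000000000) (nat_lit 0x0) (nat_lit 0x10001800dc00000007000780030000000000000000000000) := T_10 (nat_lit 155) (nat_lit 154) (nat_lit 1) (nat_lit 5) (nat_lit 8) L57124 (by decide +kernel)
theorem L57126 : W_10 (nat_lit 10) (nat_lit 0x800200002001380098000000000000000000000000000000) (nat_lit 0x0) (nat_lit 0x10001800dc00060007000780030000000000000000000000) := T_10 (nat_lit 138) (nat_lit 137) (nat_lit 2) (nat_lit 1) (nat_lit 8) L57125 (by decide +kernel)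
theorem L57127 : W_10 (nat_lit 11) (nat_lit 0x200002001380098000000000000000000000000000000) (nat_lit 0x0) (nat_lit 0x90005800dc00060007000780030000000000000000000000) := T_10 (nat_lit 191) (nat_lit 174) (nat_lit 6) (nat_lit 4) (nat_lit 11) L57126 (by decide +kernel)
theorem L57128 : W_10 (nat_lit 2) (nat_lit 0x2e00020013a009e000000000000000000000000000000) (nat_lit 0x0) (nat_lit 0x1000000000000180000000000000000000000000) := D_10 (nat_lit 104) (nat_lit 156) (nat_lit 103) (nat_lit 4) (nat_lit 3) (nat_lit 10) (nat_lit 0) (nat_lit 5) (nat_lit 7) (by decide +kernel)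
theorem L57129 : W_10 (nat_lit 3) (nat_lit 0x2e00020013a009c000000000000000000000000000000) (nat_lit 0x0) (nat_lit 0x1000000003000180000000000000000000000000) := T_10 (nat_lit 121) (nat_lit 120) (nat_lit 3) (nat_lit 1) (nat_lit 7) L57128 (by decide +kernel)
theorem L57130 : W_10 (nat_lit 4) (nat_lit 0x2e00020013a0098000000000000000000000000000000) (nat_lit 0x0) (nat_lit 0x1000000007000380000000000000000000000000) := T_10 (nat_lit 122) (nat_lit 105) (nat_lit 4) (nat_lit 4) (nat_lit 10) L57129 (by decide +kernel)
theorem L57131 : W_10 (nat_lit 5) (nat_lit 0x2600020013a0098000000000000000000000000000000) (nat_lit 0x0) (nat_lit 0x1000080001000000007000380000000000000000000000000) := T_10 (nat_lit 175) (nat_lit 192) (nat_lit 7) (nat_lit 4) (nat_lit 7) L57130 (by decide +kernel)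
theorem L57132 : W_10 (nat_lit 6) (nat_lit 0x2400020013a0098000000000000000000000000000000) (nat_lit 0x0) (nat_lit 0x14000a0001000000007000380000000000000000000000000) := T_10 (nat_lit 173) (nat_lit 190) (nat_lit 5) (nat_lit 4) (nat_lit 7) L57131 (by decide +kernel)
theorem L57133 : W_10 (nat_lit 7) (nat_lit 0x2000020013a0098000000000000000000000000000000) (nat_lit 0x0) (nat_lit 0x1c000e0001000000007000380000000000000000000000000) := T_10 (nat_lit 174) (nat_lit 191) (nat_lit 6) (nat_lit 4) (nat_lit 11) L57132 (by decide +kernel)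
theorem L57134 : W_10 (nat_lit 8) (nat_lit 0x200002001380098000000000000000000000000000000) (nat_lit 0x0) (nat_lit 0x1c000e0001000060007000380000000000000000000000000) := T_10 (nat_lit 137) (nat_lit 138) (nat_lit 2) (nat_lit 1) (nat_lit 8) L57133 (by decide +kernel)
theorem L57135 : W_10 (nat_lit 2) (nat_lit 0x2000068013c0098000000000000000000000000000000) (nat_lit 0x0) (nat_lit 0x80000000000000000400020000000000000000000000) := D_10 (nat_lit 106) (nat_lit 89) (nat_lit 175) (nat_lit 7) (nat_lit 4) (nat_lit 5) (nat_lit 7) (nat_lit 4) (nat_lit 6) (by decide +kernel)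
theorem L57136 : W_10 (nat_lit 3) (nat_lit 0x2000028013c0098000000000000000000000000000000) (nat_lit 0x0) (nat_lit 0x8000c000000000000400020000000000000000000000) := T_10 (nat_lit 158) (nat_lit 159) (nat_lit 3) (nat_lit 2) (nat_lit 8) L57135 (by decide +kernel)
theorem L57137 : W_10 (nat_lit 4) (nat_lit 0x2000020013c0098000000000000000000000000000000) (nat_lit 0x0) (nat_lit 0x8000cc00000000000400020000000000000000000000) := T_10 (nat_lit 155) (nat_lit 154) (nat_lit 1) (nat_lit 5) (nat_lit 8) L57136 (by decide +kernel)
theorem L57138 : W_10 (nat_lit 5) (nat_lit 0x200002001380098000000000000000000000000000000) (nat_lit 0x0) (nat_lit 0x8000cc00060000000400020000000000000000000000) := T_10 (nat_lit 138) (nat_lit 137) (nat_lit 2) (nat_lit 1) (nat_lit 8) L57137 (by decide +kernel)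
theorem L57139 : W_10 (nat_lit 12) (nat_lit 0x200002001380090000000000000000000000000000000) (nat_lit 0x0) (nat_lit 0x1d000f800dc0006000f000780030001000000000000000000) := Q_10 (nat_lit 123) (C_10 L57113 (C_10 L57117 (C_10 L57127 (C_10 L57134 (C_10 L57138 N_10))))) (by decide +kernel)
theorem L57140 : W_10 (nat_lit 2) (nat_lit 0x8002800060013800b0000000000000000000000000000000) (nat_lit 0x0) (nat_lit 0x10001000000000000000008000000000000000000000000000000) := D_10 (nat_lit 192) (nat_lit 208) (nat_lit 123) (nat_lit 5) (nat_lit 5) (nat_lit 8) (nat_lit 4) (nat_lit 5) (nat_lit 11) (by decide +kernel)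
theorem L57141 : W_10 (nat_lit 3) (nat_lit 0x8002800020013800b0000000000000000000000000000000) (nat_lit 0x0) (nat_lit 0x10001000000004000000008001000000000000000000000000000) := T_10 (nat_lit 158) (nat_lit 108) (nat_lit 6) (nat_lit 5) (nat_lit 10) L57140 (by decide +kernel)
theorem L57142 : W_10 (nat_lit 4) (nat_lit 0x800280002001380090000000000000000000000000000000) (nat_lit 0x0) (nat_lit 0x10001000000004000000068001000000000000000000000000000) := T_10 (nat_lit 125) (nat_lit 126) (nat_lit 1) (nat_lit 8) (nat_lit 7) L57141 (by decide +kernel)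
theorem L57143 : W_10 (nat_lit 5) (nat_lit 0x280002001380090000000000000000000000000000000) (nat_lit 0x0) (nat_lit 0x10001800040004000000068001000000000000000000000000000) := T_10 (nat_lit 191) (nat_lit 174) (nat_lit 6) (nat_lit 4) (nat_lit 11) L57142 (by decide +kernel)
theorem L57144 : W_10 (nat_lit 2) (nat_lit 0x2c0002001380098000400000000000000000000000000) (nat_lit 0x0) (nat_lit 0x1000000000000000020001000000000000000000) := D_10 (nat_lit 89) (nat_lit 72) (nat_lit 156) (nat_lit 7) (nat_lit 4) (nat_lit 4) (nat_lit 5) (nat_lit 4) (nat_lit 5) (by decide +kernel)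
theorem L57145 : W_10 (nat_lit 3) (nat_lit 0x2c0002001380098000000000000000000000000000000) (nat_lit 0x0) (nat_lit 0x5000000000000400020001000000000000000000) := T_10 (nat_lit 106) (nat_lit 158) (nat_lit 7) (nat_lit 4) (nat_lit 6) L57144 (by decide +kernel)
theorem L57146 : W_10 (nat_lit 4) (nat_lit 0x2c0002001380090000000000000000000000000000000) (nat_lit 0x0) (nat_lit 0x1000000005000000008000400020001000000000000000000) := T_10 (nat_lit 123) (nat_lit 192) (nat_lit 7) (nat_lit 4) (nat_lit 7) L57145 (by decide +kernel)
theorem L57147 : W_10 (nat_lit 5) (nat_lit 0x280002001380090000000000000000000000000000000) (nat_lit 0x0) (nat_lit 0x1800040005000000008000400020001000000000000000000) := T_10 (nat_lit 174) (nat_lit 191) (nat_lit 6) (nat_lit 4) (nat_lit 11) L57146 (by decide +kernel)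
theorem L57148 : W_10 (nat_lit 2) (nat_lit 0x8002800060013800b0000000000000000000000000000000) (nat_lit 0x0) (nat_lit 0x30001000000000000000000000000000000000000000000000000) := D_10 (nat_lit 192) (nat_lit 208) (nat_lit 209) (nat_lit 5) (nat_lit 5) (nat_lit 8) (nat_lit 4) (nat_lit 5) (nat_lit 12) (by decide +kernel)
theorem L57149 : W_10 (nat_lit 3) (nat_lit 0x8002800020013800b0000000000000000000000000000000) (nat_lit 0x0) (nat_lit 0x30001000000004000000000001000000000000000000000000000) := T_10 (nat_lit 158) (nat_lit 108) (nat_lit 6) (nat_lit 5) (nat_lit 10) L57148 (by decide +kernel)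
theorem L57150 : W_10 (nat_lit 4) (nat_lit 0x800280002001380090000000000000000000000000000000) (nat_lit 0x0) (nat_lit 0x30001000000004000000060001000000000000000000000000000) := T_10 (nat_lit 125) (nat_lit 126) (nat_lit 1) (nat_lit 8) (nat_lit 7) L57149 (by decide +kernel)
theorem L57151 : W_10 (nat_lit 5) (nat_lit 0x280002001380090000000000000000000000000000000) (nat_lit 0x0) (nat_lit 0x30001800040004000000060001000000000000000000000000000) := T_10 (nat_lit 191) (nat_lit 174) (nat_lit 6) (nat_lit 4) (nat_lit 11) L57150 (by decide +kernel)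
theorem L57152 : W_10 (nat_lit 2) (nat_lit 0x2800060013800b0000000000000000000000000000000) (nat_lit 0x0) (nat_lit 0x20001000000000000000008000000000000000000000000000000) := D_10 (nat_lit 192) (nat_lit 209) (nat_lit 123) (nat_lit 4) (nat_lit 5) (nat_lit 12) (nat_lit 4) (nat_lit 5) (nat_lit 11) (by decide +kernel)
theorem L57153 : W_10 (nat_lit 3) (nat_lit 0x2800020013800b0000000000000000000000000000000) (nat_lit 0x0) (nat_lit 0x20001000000004000000008001000000000000000000000000000) := T_10 (nat_lit 158) (nat_lit 108) (nat_lit 6) (nat_lit 5) (nat_lit 10) L57152 (by decide +kernel)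
theorem L57154 : W_10 (nat_lit 4) (nat_lit 0x280002001380090000000000000000000000000000000) (nat_lit 0x0) (nat_lit 0x20001000000004000000068001000000000000000000000000000) := T_10 (nat_lit 125) (nat_lit 126) (nat_lit 1) (nat_lit 8) (nat_lit 7) L57153 (by decide +kernel)
theorem L57155 : W_10 (nat_lit 2) (nat_lit 0x2e00020013800d8000400000000000000000000000000) (nat_lit 0x0) (nat_lit 0x4000200010000000000000000000000) := D_10 (nat_lit 105) (nat_lit 122) (nat_lit 88) (nat_lit 4) (nat_lit 4) (nat_lit 10) (nat_lit 4) (nat_lit 4) (nat_lit 9) (by decide +kernel)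
theorem L57156 : W_10 (nat_lit 3) (nat_lit 0x2e00020013800d8000000000000000000000000000000) (nat_lit 0x0) (nat_lit 0x1000000004000600010000000000000000000000) := T_10 (nat_lit 106) (nat_lit 156) (nat_lit 5) (nat_lit 4) (nat_lit 6) L57155 (by decide +kernel)
theorem L57157 : W_10 (nat_lit 4) (nat_lit 0x2c00020013800d8000000000000000000000000000000) (nat_lit 0x0) (nat_lit 0x400020001000000004000600010000000000000000000000) := T_10 (nat_lit 173) (nat_lit 190) (nat_lit 5) (nat_lit 4) (nat_lit 7) L57156 (by decide +kernel)
theorem L57158 : W_10 (nat_lit 5) (nat_lit 0x2c00020013800d0000000000000000000000000000000) (nat_lit 0x0) (nat_lit 0x140002000100000000c000600010000000000000000000000) := T_10 (nat_lit 123) (nat_lit 192) (nat_lit 7) (nat_lit 4) (nat_lit 7) L57157 (by decide +kernel)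
theorem L57159 : W_10 (nat_lit 6) (nat_lit 0x2800020013800d0000000000000000000000000000000) (nat_lit 0x0) (nat_lit 0x1c0006000100000000c000600010000000000000000000000) := T_10 (nat_lit 174) (nat_lit 191) (nat_lit 6) (nat_lit 4) (nat_lit 11) L57158 (by decide +kernel)
theorem L57160 : W_10 (nat_lit 7) (nat_lit 0x280002001380090000000000000000000000000000000) (nat_lit 0x0) (nat_lit 0x1c0006000100000006c000600010000000000000000000000) := T_10 (nat_lit 126) (nat_lit 125) (nat_lit 1) (nat_lit 8) (nat_lit 7) L57159 (by decide +kernel)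
theorem L57161 : W_10 (nat_lit 2) (nat_lit 0x2e00060013800bd000000000000000000000000000000) (nat_lit 0x0) (nat_lit 0x18008000000000000000000000000000000000000000) := D_10 (nat_lit 172) (nat_lit 159) (nat_lit 171) (nat_lit 2) (nat_lit 2) (nat_lit 10) (nat_lit 2) (nat_lit 1) (nat_lit 10) (by decide +kernel)
theorem L57162 : W_10 (nat_lit 3) (nat_lit 0x2c00060013800bd000000000000000000000000000000) (nat_lit 0x0) (nat_lit 0x400038008000000000000000000000000000000000000000) := T_10 (nat_lit 173) (nat_lit 190) (nat_lit 5) (nat_lit 4) (nat_lit 7) L57161 (by decide +kernel)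
theorem L57163 : W_10 (nat_lit 4) (nat_lit 0x2c00060013800bc000000000000000000000000000000) (nat_lit 0x0) (nat_lit 0x400038008000000003000000000000000000000000000000) := T_10 (nat_lit 120) (nat_lit 121) (nat_lit 3) (nat_lit 1) (nat_lit 7) L57162 (by decide +kernel)
theorem L57164 : W_10 (nat_lit 5) (nat_lit 0x2c00060013800b8000000000000000000000000000000) (nat_lit 0x0) (nat_lit 0x400038008000000007000200000000000000000000000000) := T_10 (nat_lit 122) (nat_lit 105) (nat_lit 4) (nat_lit 4) (nat_lit 10) L57163 (by decide +kernel)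
theorem L57165 : W_10 (nat_lit 6) (nat_lit 0x2c00060013800b0000000000000000000000000000000) (nat_lit 0x0) (nat_lit 0x40003800800000000f000600000000000000000000000000) := T_10 (nat_lit 123) (nat_lit 106) (nat_lit 7) (nat_lit 4) (nat_lit 6) L57164 (by decide +kernel)
theorem L57166 : W_10 (nat_lit 7) (nat_lit 0x2c00020013800b0000000000000000000000000000000) (nat_lit 0x0) (nat_lit 0x40003800c00000000f001600000000000000000000000000) := T_10 (nat_lit 158) (nat_lit 108) (nat_lit 6) (nat_lit 5) (nat_lit 10) L57165 (by decide +kernel)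
theorem L57167 : W_10 (nat_lit 8) (nat_lit 0x2c0002001380090000000000000000000000000000000) (nat_lit 0x0) (nat_lit 0x40003800c00000006f001600000000000000000000000000) := T_10 (nat_lit 125) (nat_lit 126) (nat_lit 1) (nat_lit 8) (nat_lit 7) L57166 (by decide +kernel)
theorem L57168 : W_10 (nat_lit 9) (nat_lit 0x280002001380090000000000000000000000000000000) (nat_lit 0x0) (nat_lit 0xc0007800c00000006f001600000000000000000000000000) := T_10 (nat_lit 174) (nat_lit 191) (nat_lit 6) (nat_lit 4) (nat_lit 11) L57167 (by decide +kernel)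
theorem L57169 : W_10 (nat_lit 10) (nat_lit 0x200002001380090000000000000000000000000000000) (nat_lit 0x0) (nat_lit 0x30001c000f800d00000006f001600030001000000000000000000) := Q_10 (nat_lit 175) (C_10 L57143 (C_10 L57147 (C_10 L57151 (C_10 L57154 (C_10 L57160 (C_10 L57168 N_10)))))) (by decide +kernel)
theorem L57170 : W_10 (nat_lit 13) (nat_lit 0x200002001300090000000000000000000000000000000) (nat_lit 0x0) (nat_lit 0x30001d000f800dc000e006f001780030001000000000000000000) := Q_10 (nat_lit 139) (C_10 L56657 (C_10 L57139 (C_10 L57169 N_10))) (by decide +kernel)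
theorem L57171 : W_10 (nat_lit 2) (nat_lit 0x210007801340098000680040000000000000000000000) (nat_lit 0x0) (nat_lit 0x8000080004000000000000000000000000000000) := D_10 (nat_lit 139) (nat_lit 159) (nat_lit 122) (nat_lit 3) (nat_lit 2) (nat_lit 8) (nat_lit 5) (nat_lit 3) (nat_lit 6) (by decide +kernel)
theorem L57172 : W_10 (nat_lit 3) (nat_lit 0x200007801340098000680040000000000000000000000) (nat_lit 0x0) (nat_lit 0x18008000080004000000000000000000000000000000) := T_10 (nat_lit 172) (nat_lit 171) (nat_lit 1) (nat_lit 5) (nat_lit 9) L57171 (by decide +kernel)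
theorem L57173 : W_10 (nat_lit 4) (nat_lit 0x200007801300098000680040000000000000000000000) (nat_lit 0x0) (nat_lit 0x180080000e0004000000000000000000000000000000) := T_10 (nat_lit 138) (nat_lit 137) (nat_lit 0) (nat_lit 5) (nat_lit 9) L57172 (by decide +kernel)
theorem L57174 : W_10 (nat_lit 5) (nat_lit 0x200007801300098000600040000000000000000000000) (nat_lit 0x0) (nat_lit 0x180080000e0004000180000000000000000000000000) := T_10 (nat_lit 103) (nat_lit 104) (nat_lit 3) (nat_lit 1) (nat_lit 6) L57173 (by decide +kernel)
theorem L57175 : W_10 (nat_lit 6) (nat_lit 0x200007801300098000400040000000000000000000000) (nat_lit 0x0) (nat_lit 0x180080000e0004000380010000000000000000000000) := T_10 (nat_lit 105) (nat_lit 88) (nat_lit 4) (nat_lit 4) (nat_lit 9) L57174 (by decide +kernel)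
theorem L57176 : W_10 (nat_lit 7) (nat_lit 0x200007001300098000400040000000000000000000000) (nat_lit 0x0) (nat_lit 0x18008c000e0004000380010000000000000000000000) := T_10 (nat_lit 155) (nat_lit 154) (nat_lit 2) (nat_lit 1) (nat_lit 9) L57175 (by decide +kernel)
theorem L57177 : W_10 (nat_lit 8) (nat_lit 0x200006001300098000400040000000000000000000000) (nat_lit 0x0) (nat_lit 0x38009c000e0004000380010000000000000000000000) := T_10 (nat_lit 156) (nat_lit 173) (nat_lit 5) (nat_lit 4) (nat_lit 6) L57176 (by decide +kernel)
theorem L57178 : W_10 (nat_lit 9) (nat_lit 0x200006001300098000400000000000000000000000000) (nat_lit 0x0) (nat_lit 0x38009c000e0004000b80050000000000000000000000) := T_10 (nat_lit 90) (nat_lit 107) (nat_lit 6) (nat_lit 4) (nat_lit 9) L57177 (by decide +kernel)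
theorem L57179 : W_10 (nat_lit 10) (nat_lit 0x200002001300098000400000000000000000000000000) (nat_lit 0x0) (nat_lit 0xb800dc000e0004000b80050000000000000000000000) := T_10 (nat_lit 158) (nat_lit 175) (nat_lit 7) (nat_lit 4) (nat_lit 6) L57178 (by decide +kernel)
theorem L57180 : W_10 (nat_lit 11) (nat_lit 0x200002001300098000000000000000000000000000000) (nat_lit 0x0) (nat_lit 0xb800dc000e0004000f80070003000000000000000000) := Q_10 (nat_lit 106) (C_10 L56604 (C_10 L56585 (C_10 L57179 N_10))) (by decide +kernel)
theorem L57181 : W_10 (nat_lit 2) (nat_lit 0x2000074013000b8000600000000000000000000000000) (nat_lit 0x0) (nat_lit 0x4000180000000000000000000000000) := D_10 (nat_lit 104) (nat_lit 103) (nat_lit 122) (nat_lit 3) (nat_lit 1) (nat_lit 6) (nat_lit 0) (nat_lit 6) (nat_lit 7) (by decide +kernel)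
theorem L57182 : W_10 (nat_lit 3) (nat_lit 0x2000074013000b8000400000000000000000000000000) (nat_lit 0x0) (nat_lit 0x4000380010000000000000000000000) := T_10 (nat_lit 105) (nat_lit 88) (nat_lit 4) (nat_lit 4) (nat_lit 9) L57181 (by decide +kernel)
theorem L57183 : W_10 (nat_lit 4) (nat_lit 0x200007401300098000400000000000000000000000000) (nat_lit 0x0) (nat_lit 0x64000380010000000000000000000000) := T_10 (nat_lit 125) (nat_lit 126) (nat_lit 1) (nat_lit 8) (nat_lit 7) L57182 (by decide +kernel)
theorem L57184 : W_10 (nat_lit 5) (nat_lit 0x200007001300098000400000000000000000000000000) (nat_lit 0x0) (nat_lit 0xc00000064000380010000000000000000000000) := T_10 (nat_lit 154) (nat_lit 155) (nat_lit 2) (nat_lit 1) (nat_lit 9) L57183 (by decide +kernel)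
theorem L57185 : W_10 (nat_lit 6) (nat_lit 0x200006001300098000400000000000000000000000000) (nat_lit 0x0) (nat_lit 0x20001c00000064000380010000000000000000000000) := T_10 (nat_lit 156) (nat_lit 173) (nat_lit 5) (nat_lit 4) (nat_lit 6) L57184 (by decide +kernel)
theorem L57186 : W_10 (nat_lit 7) (nat_lit 0x200002001300098000400000000000000000000000000) (nat_lit 0x0) (nat_lit 0xa0005c00000064000380010000000000000000000000) := T_10 (nat_lit 158) (nat_lit 175) (nat_lit 7) (nat_lit 4) (nat_lit 6) L57185 (by decide +kernel)
theorem L57187 : W_10 (nat_lit 8) (nat_lit 0x200002001300098000000000000000000000000000000) (nat_lit 0x0) (nat_lit 0xa0005c00080064000780030001000000000000000000) := Q_10 (nat_lit 106) (C_10 L56616 (C_10 L56585 (C_10 L57186 N_10))) (by decide +kernel)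
theorem L57188 : W_10 (nat_lit 2) (nat_lit 0x20000200130009e000000000000000000000000000000) (nat_lit 0x0) (nat_lit 0x1800040000000000000000000000) := D_10 (nat_lit 107) (nat_lit 90) (nat_lit 108) (nat_lit 5) (nat_lit 5) (nat_lit 5) (nat_lit 2) (nat_lit 2) (nat_lit 7) (by decide +kernel)
theorem L57189 : W_10 (nat_lit 3) (nat_lit 0x20000200130009c000000000000000000000000000000) (nat_lit 0x0) (nat_lit 0x3001800040000000000000000000000) := T_10 (nat_lit 121) (nat_lit 120) (nat_lit 3) (nat_lit 1) (nat_lit 7) L57188 (by decide +kernel)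
theorem L57190 : W_10 (nat_lit 2) (nat_lit 0x2000020013800bd001000000000000000000000000000) (nat_lit 0x0) (nat_lit 0x300010000000000000000000000) := D_10 (nat_lit 105) (nat_lit 88) (nat_lit 104) (nat_lit 7) (nat_lit 3) (nat_lit 5) (nat_lit 0) (nat_lit 6) (nat_lit 7) (by decide +kernel)
theorem L57191 : W_10 (nat_lit 3) (nat_lit 0x2000020013000bd001000000000000000000000000000) (nat_lit 0x0) (nat_lit 0xc0000000300010000000000000000000000) := T_10 (nat_lit 139) (nat_lit 138) (nat_lit 2) (nat_lit 2) (nat_lit 8) L57190 (by decide +kernel)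
theorem L57192 : W_10 (nat_lit 4) (nat_lit 0x2000020013000bd000000000000000000000000000000) (nat_lit 0x0) (nat_lit 0xc0000003300010000000000000000000000) := T_10 (nat_lit 108) (nat_lit 109) (nat_lit 2) (nat_lit 3) (nat_lit 7) L57191 (by decide +kernel)
theorem L57193 : W_10 (nat_lit 5) (nat_lit 0x2000020013000bc000000000000000000000000000000) (nat_lit 0x0) (nat_lit 0xc0003003300010000000000000000000000) := T_10 (nat_lit 120) (nat_lit 121) (nat_lit 3) (nat_lit 1) (nat_lit 7) L57192 (by decide +kernel)
theorem L57194 : W_10 (nat_lit 6) (nat_lit 0x20000200130009c000000000000000000000000000000) (nat_lit 0x0) (nat_lit 0xc0063003300010000000000000000000000) := T_10 (nat_lit 125) (nat_lit 126) (nat_lit 1) (nat_lit 8) (nat_lit 7) L57193 (by decide +kernel)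
theorem L57195 : W_10 (nat_lit 2) (nat_lit 0x2000020013800bd000000040000000000000000000000) (nat_lit 0x0) (nat_lit 0x300010000000000000000000000) := D_10 (nat_lit 105) (nat_lit 104) (nat_lit 88) (nat_lit 0) (nat_lit 6) (nat_lit 7) (nat_lit 7) (nat_lit 3) (nat_lit 5) (by decide +kernel)
theorem L57196 : W_10 (nat_lit 3) (nat_lit 0x2000020013000bd000000040000000000000000000000) (nat_lit 0x0) (nat_lit 0xc0000000300010000000000000000000000) := T_10 (nat_lit 139) (nat_lit 138) (nat_lit 2) (nat_lit 2) (nat_lit 8) L57195 (by decide +kernel)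
theorem L57197 : W_10 (nat_lit 4) (nat_lit 0x20000200130009d000000040000000000000000000000) (nat_lit 0x0) (nat_lit 0xc0060000300010000000000000000000000) := T_10 (nat_lit 125) (nat_lit 126) (nat_lit 1) (nat_lit 8) (nat_lit 7) L57196 (by decide +kernel)
theorem L57198 : W_10 (nat_lit 5) (nat_lit 0x20000200130009d000000000000000000000000000000) (nat_lit 0x0) (nat_lit 0xc0060000b00050000000000000000000000) := T_10 (nat_lit 90) (nat_lit 107) (nat_lit 5) (nat_lit 5) (nat_lit 5) L57197 (by decide +kernel)
theorem L57199 : W_10 (nat_lit 6) (nat_lit 0x20000200130009c000000000000000000000000000000) (nat_lit 0x0) (nat_lit 0xc0063000b00050000000000000000000000) := T_10 (nat_lit 120) (nat_lit 121) (nat_lit 3) (nat_lit 1) (nat_lit 7) L57198 (by decide +kernel)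
theorem L57200 : W_10 (nat_lit 2) (nat_lit 0x2000020013800bc001000040000000000000000000000) (nat_lit 0x0) (nat_lit 0x300010000000000000000000000) := D_10 (nat_lit 105) (nat_lit 88) (nat_lit 104) (nat_lit 7) (nat_lit 3) (nat_lit 5) (nat_lit 0) (nat_lit 6) (nat_lit 7) (by decide +kernel)
theorem L57201 : W_10 (nat_lit 3) (nat_lit 0x2000020013000bc001000040000000000000000000000) (nat_lit 0x0) (nat_lit 0xc0000000300010000000000000000000000) := T_10 (nat_lit 139) (nat_lit 138) (nat_lit 2) (nat_lit 2) (nat_lit 8) L57200 (by decide +kernel)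
theorem L57202 : W_10 (nat_lit 4) (nat_lit 0x2000020013000bc000000040000000000000000000000) (nat_lit 0x0) (nat_lit 0xc0000003300010000000000000000000000) := T_10 (nat_lit 108) (nat_lit 109) (nat_lit 2) (nat_lit 3) (nat_lit 7) L57201 (by decide +kernel)
theorem L57203 : W_10 (nat_lit 5) (nat_lit 0x2000020013000bc000000000000000000000000000000) (nat_lit 0x0) (nat_lit 0xc0000003b00050000000000000000000000) := T_10 (nat_lit 90) (nat_lit 107) (nat_lit 5) (nat_lit 5) (nat_lit 5) L57202 (by decide +kernel)
theorem L57204 : W_10 (nat_lit 6) (nat_lit 0x20000200130009c000000000000000000000000000000) (nat_lit 0x0) (nat_lit 0xc0060003b00050000000000000000000000) := T_10 (nat_lit 125) (nat_lit 126) (nat_lit 1) (nat_lit 8) (nat_lit 7) L57203 (by decide +kernel)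
theorem L57205 : W_10 (nat_lit 7) (nat_lit 0x200002001300098000000000000000000000000000000) (nat_lit 0x0) (nat_lit 0xc0067003b00050000000000000000000000) := Q_10 (nat_lit 122) (C_10 L56633 (C_10 L57189 (C_10 L57194 (C_10 L57199 (C_10 L57204 N_10))))) (by decide +kernel)
theorem L57206 : W_10 (nat_lit 2) (nat_lit 0x2000078013000b8000680040000000000000000000000) (nat_lit 0x0) (nat_lit 0xe0000000000000000000000000000000000) := D_10 (nat_lit 138) (nat_lit 137) (nat_lit 139) (nat_lit 0) (nat_lit 5) (nat_lit 9) (nat_lit 2) (nat_lit 2) (nat_lit 8) (by decide +kernel)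
theorem L57207 : W_10 (nat_lit 3) (nat_lit 0x200007801300098000680040000000000000000000000) (nat_lit 0x0) (nat_lit 0xe0060000000000000000000000000000000) := T_10 (nat_lit 125) (nat_lit 126) (nat_lit 1) (nat_lit 8) (nat_lit 7) L57206 (by decide +kernel)
theorem L57208 : W_10 (nat_lit 4) (nat_lit 0x200007801300098000600040000000000000000000000) (nat_lit 0x0) (nat_lit 0xe0060000180000000000000000000000000) := T_10 (nat_lit 103) (nat_lit 104) (nat_lit 3) (nat_lit 1) (nat_lit 6) L57207 (by decide +kernel)
theorem L57209 : W_10 (nat_lit 5) (nat_lit 0x200007801300098000400040000000000000000000000) (nat_lit 0x0) (nat_lit 0xe0060000380010000000000000000000000) := T_10 (nat_lit 105) (nat_lit 88) (nat_lit 4) (nat_lit 4) (nat_lit 9) L57208 (by decide +kernel)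
theorem L57210 : W_10 (nat_lit 6) (nat_lit 0x200007001300098000400040000000000000000000000) (nat_lit 0x0) (nat_lit 0xc000e0060000380010000000000000000000000) := T_10 (nat_lit 155) (nat_lit 154) (nat_lit 2) (nat_lit 1) (nat_lit 9) L57209 (by decide +kernel)
theorem L57211 : W_10 (nat_lit 7) (nat_lit 0x200006001300098000400040000000000000000000000) (nat_lit 0x0) (nat_lit 0x20001c000e0060000380010000000000000000000000) := T_10 (nat_lit 156) (nat_lit 173) (nat_lit 5) (nat_lit 4) (nat_lit 6) L57210 (by decide +kernel)
theorem L57212 : W_10 (nat_lit 8) (nat_lit 0x200002001300098000400040000000000000000000000) (nat_lit 0x0) (nat_lit 0xa0005c000e0060000380010000000000000000000000) := T_10 (nat_lit 158) (nat_lit 175) (nat_lit 7) (nat_lit 4) (nat_lit 6) L57211 (by decide +kernel)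
theorem L57213 : W_10 (nat_lit 9) (nat_lit 0x200002001300098000400000000000000000000000000) (nat_lit 0x0) (nat_lit 0xa0005c000e0060000b80050000000000000000000000) := T_10 (nat_lit 90) (nat_lit 107) (nat_lit 6) (nat_lit 4) (nat_lit 9) L57212 (by decide +kernel)
theorem L57214 : W_10 (nat_lit 10) (nat_lit 0x200002001300098000000000000000000000000000000) (nat_lit 0x0) (nat_lit 0xa0005c000e0060000f80070003000000000000000000) := Q_10 (nat_lit 106) (C_10 L56604 (C_10 L56616 (C_10 L57213 N_10))) (by decide +kernel)
theorem L57215 : W_10 (nat_lit 2) (nat_lit 0x2100078013c00d8000400040000000000000000000000) (nat_lit 0x0) (nat_lit 0x4000200000000000000004000000000000000000000000000000) := D_10 (nat_lit 189) (nat_lit 206) (nat_lit 122) (nat_lit 6) (nat_lit 2) (nat_lit 12) (nat_lit 6) (nat_lit 2) (nat_lit 11) (by decide +kernel)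
theorem L57216 : W_10 (nat_lit 3) (nat_lit 0x2100078013400d8000400040000000000000000000000) (nat_lit 0x0) (nat_lit 0x4000200000008000080004000000000000000000000000000000) := T_10 (nat_lit 139) (nat_lit 159) (nat_lit 3) (nat_lit 2) (nat_lit 8) L57215 (by decide +kernel)
theorem L57217 : W_10 (nat_lit 4) (nat_lit 0x2000078013400d8000400040000000000000000000000) (nat_lit 0x0) (nat_lit 0x4000200018008000080004000000000000000000000000000000) := T_10 (nat_lit 172) (nat_lit 171) (nat_lit 1) (nat_lit 5) (nat_lit 9) L57216 (by decide +kernel)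
theorem L57218 : W_10 (nat_lit 5) (nat_lit 0x2000078013000d8000400040000000000000000000000) (nat_lit 0x0) (nat_lit 0x40002000180080000e0004000000000000000000000000000000) := T_10 (nat_lit 138) (nat_lit 137) (nat_lit 0) (nat_lit 5) (nat_lit 9) L57217 (by decide +kernel)
theorem L57219 : W_10 (nat_lit 6) (nat_lit 0x200007801300098000400040000000000000000000000) (nat_lit 0x0) (nat_lit 0x40002000180080000e0064000000000000000000000000000000) := T_10 (nat_lit 126) (nat_lit 125) (nat_lit 1) (nat_lit 8) (nat_lit 7) L57218 (by decide +kernel)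
theorem L57220 : W_10 (nat_lit 7) (nat_lit 0x200007001300098000400040000000000000000000000) (nat_lit 0x0) (nat_lit 0x4000200018008c000e0064000000000000000000000000000000) := T_10 (nat_lit 155) (nat_lit 154) (nat_lit 2) (nat_lit 1) (nat_lit 9) L57219 (by decide +kernel)
theorem L57221 : W_10 (nat_lit 8) (nat_lit 0x200006001300098000400040000000000000000000000) (nat_lit 0x0) (nat_lit 0x4000200038009c000e0064000000000000000000000000000000) := T_10 (nat_lit 156) (nat_lit 173) (nat_lit 5) (nat_lit 4) (nat_lit 6) L57220 (by decide +kernel)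
theorem L57222 : W_10 (nat_lit 9) (nat_lit 0x200002001300098000400040000000000000000000000) (nat_lit 0x0) (nat_lit 0x40002000b800dc000e0064000000000000000000000000000000) := T_10 (nat_lit 158) (nat_lit 175) (nat_lit 7) (nat_lit 4) (nat_lit 6) L57221 (by decide +kernel)
theorem L57223 : W_10 (nat_lit 10) (nat_lit 0x200002001300098000400000000000000000000000000) (nat_lit 0x0) (nat_lit 0x40002000b800dc000e0064000800040000000000000000000000) := T_10 (nat_lit 90) (nat_lit 107) (nat_lit 6) (nat_lit 4) (nat_lit 9) L57222 (by decide +kernel)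
theorem L57224 : W_10 (nat_lit 11) (nat_lit 0x200002001300098000000000000000000000000000000) (nat_lit 0x0) (nat_lit 0x40002000b800dc000e0064000c00060003000000000000000000) := Q_10 (nat_lit 106) (C_10 L56604 (C_10 L56616 (C_10 L57223 N_10))) (by decide +kernel)
theorem L57225 : W_10 (nat_lit 12) (nat_lit 0x200002001300090000000000000000000000000000000) (nat_lit 0x0) (nat_lit 0x40002000b800dc000e006f003f80070003000000000000000000) := Q_10 (nat_lit 123) (C_10 L56652 (C_10 L57180 (C_10 L57187 (C_10 L56602 (C_10 L57205 (C_10 L57214 (C_10 L57224 N_10))))))) (by decide +kernel)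
theorem L57226 : W_10 (nat_lit 14) (nat_lit 0x200002001300080000000000000000000000000000000) (nat_lit 0x0) (nat_lit 0x34001f000f800dc000e007f003f80070003000000000000000000) := Q_10 (nat_lit 124) (C_10 L57108 (C_10 L56673 (C_10 L56656 (C_10 L57170 (C_10 L57225 N_10))))) (by decide +kernel)
theorem L57229 : W_10 (nat_lit 2) (nat_lit 0x260002001300098000400000000000000000000000000) (nat_lit 0x0) (nat_lit 0x1000080004000000000000000000000000000000000000000) := D_10 (nat_lit 175) (nat_lit 158) (nat_lit 192) (nat_lit 7) (nat_lit 4) (nat_lit 6) (nat_lit 7) (nat_lit 4) (nat_lit 7) (by decide +kernel)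
theorem L57230 : W_10 (nat_lit 3) (nat_lit 0x260002001300098000000000000000000000000000000) (nat_lit 0x0) (nat_lit 0x1000080005000000000000400000000000000000000000000) := T_10 (nat_lit 106) (nat_lit 156) (nat_lit 5) (nat_lit 4) (nat_lit 6) L57229 (by decide +kernel)
theorem L57231 : W_10 (nat_lit 4) (nat_lit 0x240002001300098000000000000000000000000000000) (nat_lit 0x0) (nat_lit 0x14000a0005000000000000400000000000000000000000000) := T_10 (nat_lit 173) (nat_lit 190) (nat_lit 5) (nat_lit 4) (nat_lit 7) L57230 (by decide +kernel)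
theorem L57232 : W_10 (nat_lit 5) (nat_lit 0x200002001300098000000000000000000000000000000) (nat_lit 0x0) (nat_lit 0x1c000e0005000000000000400000000000000000000000000) := T_10 (nat_lit 174) (nat_lit 191) (nat_lit 6) (nat_lit 4) (nat_lit 11) L57231 (by decide +kernel)
theorem L57233 : W_10 (nat_lit 2) (nat_lit 0x40003c00160013000dd000000000000000000000000000000) (nat_lit 0x0) (nat_lit 0x400020008000000000000000000000000000000000000000) := D_10 (nat_lit 173) (nat_lit 159) (nat_lit 190) (nat_lit 2) (nat_lit 3) (nat_lit 10) (nat_lit 5) (nat_lit 4) (nat_lit 7) (by decide +kernel)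
theorem L57234 : W_10 (nat_lit 3) (nat_lit 0x40003c00060013000dd000000000000000000000000000000) (nat_lit 0x0) (nat_lit 0x400020038000000000000000000000000000000000000000) := T_10 (nat_lit 160) (nat_lit 161) (nat_lit 2) (nat_lit 4) (nat_lit 10) L57233 (by decide +kernel)
theorem L57235 : W_10 (nat_lit 4) (nat_lit 0x3c00060013000dd000000000000000000000000000000) (nat_lit 0x0) (nat_lit 0xc400020038000000000000000000000000000000000000000) := T_10 (nat_lit 194) (nat_lit 195) (nat_lit 3) (nat_lit 4) (nat_lit 10) L57234 (by decide +kernel)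
theorem L57236 : W_10 (nat_lit 5) (nat_lit 0x3c00020013000dd000000000000000000000000000000) (nat_lit 0x0) (nat_lit 0xe40002003c000000000000000000000000000000000000000) := T_10 (nat_lit 158) (nat_lit 193) (nat_lit 7) (nat_lit 5) (nat_lit 7) L57235 (by decide +kernel)
theorem L57237 : W_10 (nat_lit 6) (nat_lit 0x3c00020013000dc000000000000000000000000000000) (nat_lit 0x0) (nat_lit 0xe40002003c000000003000000000000000000000000000000) := T_10 (nat_lit 120) (nat_lit 121) (nat_lit 3) (nat_lit 1) (nat_lit 7) L57236 (by decide +kernel)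
theorem L57238 : W_10 (nat_lit 7) (nat_lit 0x3c00020013000d8000000000000000000000000000000) (nat_lit 0x0) (nat_lit 0xe40002003c000000007000200000000000000000000000000) := T_10 (nat_lit 122) (nat_lit 105) (nat_lit 4) (nat_lit 4) (nat_lit 10) L57237 (by decide +kernel)
theorem L57239 : W_10 (nat_lit 8) (nat_lit 0x2c00020013000d8000000000000000000000000000000) (nat_lit 0x0) (nat_lit 0xe40012003d000000007000200000000000000000000000000) := T_10 (nat_lit 176) (nat_lit 156) (nat_lit 0) (nat_lit 7) (nat_lit 10) L57238 (by decide +kernel)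
theorem L57240 : W_10 (nat_lit 9) (nat_lit 0x2400020013000d8000000000000000000000000000000) (nat_lit 0x0) (nat_lit 0xf4001a003d000000007000200000000000000000000000000) := T_10 (nat_lit 175) (nat_lit 192) (nat_lit 7) (nat_lit 4) (nat_lit 7) L57239 (by decide +kernel)
theorem L57241 : W_10 (nat_lit 10) (nat_lit 0x240002001300098000000000000000000000000000000) (nat_lit 0x0) (nat_lit 0xf4001a003d000000067000200000000000000000000000000) := T_10 (nat_lit 126) (nat_lit 125) (nat_lit 1) (nat_lit 8) (nat_lit 7) L57240 (by decide +kernel)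
theorem L57242 : W_10 (nat_lit 11) (nat_lit 0x200002001300098000000000000000000000000000000) (nat_lit 0x0) (nat_lit 0xfc001e003d000000067000200000000000000000000000000) := T_10 (nat_lit 174) (nat_lit 191) (nat_lit 6) (nat_lit 4) (nat_lit 11) L57241 (by decide +kernel)
theorem L57243 : W_10 (nat_lit 2) (nat_lit 0x2000034013000b8000600000001000000000000000000) (nat_lit 0x0) (nat_lit 0x4000180000000000000000000000000) := D_10 (nat_lit 104) (nat_lit 103) (nat_lit 122) (nat_lit 3) (nat_lit 1) (nat_lit 6) (nat_lit 0) (nat_lit 6) (nat_lit 7) (by decide +kernel)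
theorem L57244 : W_10 (nat_lit 3) (nat_lit 0x2000034013000b8000400000001000000000000000000) (nat_lit 0x0) (nat_lit 0x4000380010000000000000000000000) := T_10 (nat_lit 105) (nat_lit 88) (nat_lit 4) (nat_lit 4) (nat_lit 9) L57243 (by decide +kernel)
theorem L57245 : W_10 (nat_lit 4) (nat_lit 0x200003401300098000400000001000000000000000000) (nat_lit 0x0) (nat_lit 0x64000380010000000000000000000000) := T_10 (nat_lit 125) (nat_lit 126) (nat_lit 1) (nat_lit 8) (nat_lit 7) L57244 (by decide +kernel)
theorem L57246 : W_10 (nat_lit 5) (nat_lit 0x200003001300098000400000001000000000000000000) (nat_lit 0x0) (nat_lit 0xc00000064000380010000000000000000000000) := T_10 (nat_lit 154) (nat_lit 155) (nat_lit 2) (nat_lit 1) (nat_lit 9) L57245 (by decide +kernel)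
theorem L57247 : W_10 (nat_lit 6) (nat_lit 0x200002001300098000400000001000000000000000000) (nat_lit 0x0) (nat_lit 0x20001c00000064000380010000000000000000000000) := T_10 (nat_lit 156) (nat_lit 173) (nat_lit 5) (nat_lit 4) (nat_lit 6) L57246 (by decide +kernel)
theorem L57248 : W_10 (nat_lit 7) (nat_lit 0x200002001300098000400000000000000000000000000) (nat_lit 0x0) (nat_lit 0x20001c00000064000380030001000000000000000000) := T_10 (nat_lit 72) (nat_lit 89) (nat_lit 7) (nat_lit 4) (nat_lit 4) L57247 (by decide +kernel)
theorem L57249 : W_10 (nat_lit 8) (nat_lit 0x200002001300098000000000000000000000000000000) (nat_lit 0x0) (nat_lit 0xa0005c00000064000780030001000000000000000000) := Q_10 (nat_lit 106) (C_10 L57186 (C_10 L56585 (C_10 L57248 N_10))) (by decide +kernel)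
theorem L57250 : W_10 (nat_lit 2) (nat_lit 0x2e00020013000d8000400000000000000000000000000) (nat_lit 0x0) (nat_lit 0x4000200010000000000000000000000) := D_10 (nat_lit 105) (nat_lit 122) (nat_lit 88) (nat_lit 4) (nat_lit 4) (nat_lit 10) (nat_lit 4) (nat_lit 4) (nat_lit 9) (by decide +kernel)
theorem L57251 : W_10 (nat_lit 3) (nat_lit 0x2e00020013000d8000000000000000000000000000000) (nat_lit 0x0) (nat_lit 0x4000000004000600010000000000000000000000) := T_10 (nat_lit 106) (nat_lit 158) (nat_lit 7) (nat_lit 4) (nat_lit 6) L57250 (by decide +kernel)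
theorem L57252 : W_10 (nat_lit 4) (nat_lit 0x2600020013000d8000000000000000000000000000000) (nat_lit 0x0) (nat_lit 0x1000080004000000004000600010000000000000000000000) := T_10 (nat_lit 175) (nat_lit 192) (nat_lit 7) (nat_lit 4) (nat_lit 7) L57251 (by decide +kernel)
theorem L57253 : W_10 (nat_lit 5) (nat_lit 0x2400020013000d8000000000000000000000000000000) (nat_lit 0x0) (nat_lit 0x14000a0004000000004000600010000000000000000000000) := T_10 (nat_lit 173) (nat_lit 190) (nat_lit 5) (nat_lit 4) (nat_lit 7) L57252 (by decide +kernel)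
theorem L57254 : W_10 (nat_lit 6) (nat_lit 0x2000020013000d8000000000000000000000000000000) (nat_lit 0x0) (nat_lit 0x1c000e0004000000004000600010000000000000000000000) := T_10 (nat_lit 174) (nat_lit 191) (nat_lit 6) (nat_lit 4) (nat_lit 11) L57253 (by decide +kernel)
theorem L57255 : W_10 (nat_lit 7) (nat_lit 0x200002001300098000000000000000000000000000000) (nat_lit 0x0) (nat_lit 0x1c000e0004000000064000600010000000000000000000000) := T_10 (nat_lit 126) (nat_lit 125) (nat_lit 1) (nat_lit 8) (nat_lit 7) L57254 (by decide +kernel)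
theorem L57256 : W_10 (nat_lit 2) (nat_lit 0x2c00020013000d8000400000000000000000000000000) (nat_lit 0x0) (nat_lit 0x4000200010000000000000000000000) := D_10 (nat_lit 105) (nat_lit 122) (nat_lit 88) (nat_lit 4) (nat_lit 4) (nat_lit 10) (nat_lit 4) (nat_lit 4) (nat_lit 9) (by decide +kernel)
theorem L57257 : W_10 (nat_lit 3) (nat_lit 0x2c00020013000d8000000000000000000000000000000) (nat_lit 0x0) (nat_lit 0x4000000004000600010000000000000000000000) := T_10 (nat_lit 106) (nat_lit 158) (nat_lit 7) (nat_lit 4) (nat_lit 6) L57256 (by decide +kernel)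
theorem L57258 : W_10 (nat_lit 4) (nat_lit 0x2400020013000d8000000000000000000000000000000) (nat_lit 0x0) (nat_lit 0x1000080004000000004000600010000000000000000000000) := T_10 (nat_lit 175) (nat_lit 192) (nat_lit 7) (nat_lit 4) (nat_lit 7) L57257 (by decide +kernel)
theorem L57259 : W_10 (nat_lit 5) (nat_lit 0x240002001300098000000000000000000000000000000) (nat_lit 0x0) (nat_lit 0x1000080004000000064000600010000000000000000000000) := T_10 (nat_lit 126) (nat_lit 125) (nat_lit 1) (nat_lit 8) (nat_lit 7) L57258 (by decide +kernel)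
theorem L57260 : W_10 (nat_lit 6) (nat_lit 0x200002001300098000000000000000000000000000000) (nat_lit 0x0) (nat_lit 0x18000c0004000000064000600010000000000000000000000) := T_10 (nat_lit 174) (nat_lit 191) (nat_lit 6) (nat_lit 4) (nat_lit 11) L57259 (by decide +kernel)
theorem L57261 : W_10 (nat_lit 12) (nat_lit 0x200002001300090000000000000000000000000000000) (nat_lit 0x0) (nat_lit 0xfc001e003dc0000006f000780030001800000000000000000) := Q_10 (nat_lit 123) (C_10 L57228 (C_10 L57232 (C_10 L57242 (C_10 L57249 (C_10 L57255 (C_10 L57260 N_10)))))) (by decide +kernel)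
theorem L57262 : W_10 (nat_lit 2) (nat_lit 0x2800060013000b0000000000000000000000000000000) (nat_lit 0x0) (nat_lit 0x20001000000000000000008000000000000000000000000000000) := D_10 (nat_lit 192) (nat_lit 209) (nat_lit 123) (nat_lit 4) (nat_lit 5) (nat_lit 12) (nat_lit 4) (nat_lit 5) (nat_lit 11) (by decide +kernel)
theorem L57263 : W_10 (nat_lit 3) (nat_lit 0x2000060013000b0000000000000000000000000000000) (nat_lit 0x0) (nat_lit 0x20001000080000000000008001000000000000000000000000000) := T_10 (nat_lit 175) (nat_lit 108) (nat_lit 6) (nat_lit 5) (nat_lit 10) L57262 (by decide +kernel)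
theorem L57264 : W_10 (nat_lit 4) (nat_lit 0x200006001300090000000000000000000000000000000) (nat_lit 0x0) (nat_lit 0x20001000080000000000068001000000000000000000000000000) := T_10 (nat_lit 125) (nat_lit 126) (nat_lit 1) (nat_lit 8) (nat_lit 7) L57263 (by decide +kernel)
theorem L57265 : W_10 (nat_lit 2) (nat_lit 0x21000f8013400d8000e80000000000000000000000000) (nat_lit 0x0) (nat_lit 0x7000000000000000000000000000000) := D_10 (nat_lit 121) (nat_lit 120) (nat_lit 122) (nat_lit 4) (nat_lit 2) (nat_lit 10) (nat_lit 6) (nat_lit 2) (nat_lit 10) (by decide +kernel)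
theorem L57266 : W_10 (nat_lit 3) (nat_lit 0x21000f8013000d8000e80000000000000000000000000) (nat_lit 0x0) (nat_lit 0x60007000000000000000000000000000000) := T_10 (nat_lit 138) (nat_lit 137) (nat_lit 0) (nat_lit 5) (nat_lit 9) L57265 (by decide +kernel)
theorem L57267 : W_10 (nat_lit 4) (nat_lit 0x20000f8013000d8000e80000000000000000000000000) (nat_lit 0x0) (nat_lit 0x18000000060007000000000000000000000000000000) := T_10 (nat_lit 172) (nat_lit 171) (nat_lit 1) (nat_lit 5) (nat_lit 9) L57266 (by decide +kernel)
theorem L57268 : W_10 (nat_lit 5) (nat_lit 0x20000f0013000d8000e80000000000000000000000000) (nat_lit 0x0) (nat_lit 0x18000c00060007000000000000000000000000000000) := T_10 (nat_lit 155) (nat_lit 154) (nat_lit 2) (nat_lit 1) (nat_lit 9) L57267 (by decide +kernel)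
theorem L57269 : W_10 (nat_lit 6) (nat_lit 0x20000e0013000d8000e80000000000000000000000000) (nat_lit 0x0) (nat_lit 0x38001c00060007000000000000000000000000000000) := T_10 (nat_lit 156) (nat_lit 173) (nat_lit 5) (nat_lit 4) (nat_lit 6) L57268 (by decide +kernel)
theorem L57270 : W_10 (nat_lit 7) (nat_lit 0x20000e0013000d8000e00000000000000000000000000) (nat_lit 0x0) (nat_lit 0x38001c00060007000180000000000000000000000000) := T_10 (nat_lit 103) (nat_lit 104) (nat_lit 3) (nat_lit 1) (nat_lit 6) L57269 (by decide +kernel)
theorem L57271 : W_10 (nat_lit 8) (nat_lit 0x20000e0013000d8000c00000000000000000000000000) (nat_lit 0x0) (nat_lit 0x38001c00060007000380010000000000000000000000) := T_10 (nat_lit 105) (nat_lit 88) (nat_lit 4) (nat_lit 4) (nat_lit 9) L57270 (by decide +kernel)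
theorem L57272 : W_10 (nat_lit 9) (nat_lit 0x20000e0013000d0000c00000000000000000000000000) (nat_lit 0x0) (nat_lit 0xb8001c0006000f000380010000000000000000000000) := T_10 (nat_lit 123) (nat_lit 175) (nat_lit 7) (nat_lit 4) (nat_lit 6) L57271 (by decide +kernel)
theorem L57273 : W_10 (nat_lit 10) (nat_lit 0x2000060013000d0000c00000000000000000000000000) (nat_lit 0x0) (nat_lit 0x1b8009c0006000f000380010000000000000000000000) := T_10 (nat_lit 159) (nat_lit 176) (nat_lit 7) (nat_lit 5) (nat_lit 6) L57272 (by decide +kernel)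
theorem L57274 : W_10 (nat_lit 11) (nat_lit 0x2000060013000d0000800000000000000000000000000) (nat_lit 0x0) (nat_lit 0x1b8009c0006000f000780030000000000000000000000) := T_10 (nat_lit 106) (nat_lit 89) (nat_lit 4) (nat_lit 5) (nat_lit 9) L57273 (by decide +kernel)
theorem L57275 : W_10 (nat_lit 12) (nat_lit 0x2000060013000d0000000000000000000000000000000) (nat_lit 0x0) (nat_lit 0x1b8009c0006000f000f80070000000000000000000000) := T_10 (nat_lit 107) (nat_lit 90) (nat_lit 5) (nat_lit 5) (nat_lit 5) L57274 (by decide +kernel)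
theorem L57276 : W_10 (nat_lit 13) (nat_lit 0x200006001300090000000000000000000000000000000) (nat_lit 0x0) (nat_lit 0x1b8009c0006006f000f80070000000000000000000000) := T_10 (nat_lit 126) (nat_lit 125) (nat_lit 1) (nat_lit 8) (nat_lit 7) L57275 (by decide +kernel)
theorem L57277 : W_10 (nat_lit 14) (nat_lit 0x200002001300090000000000000000000000000000000) (nat_lit 0x0) (nat_lit 0x200030001b800dc0006006f003f800f0000000000000000000000) := Q_10 (nat_lit 158) (C_10 L56759 (C_10 L57084 (C_10 L57264 (C_10 L57276 N_10)))) (by decide +kernel)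
theorem L57278 : W_10 (nat_lit 15) (nat_lit 0x200002001300080000000000000000000000000000000) (nat_lit 0x0) (nat_lit 0x2000fc001f803dc0006007f003f800f0001800000000000000000) := Q_10 (nat_lit 124) (C_10 L57108 (C_10 L56673 (C_10 L56656 (C_10 L57261 (C_10 L57277 N_10))))) (by decide +kernel)
theorem L57283 : W_10 (nat_lit 2) (nat_lit 0x2600020013400de000100000000000000000000000000) (nat_lit 0x0) (nat_lit 0x1800080000000000000000000000000000000000) := D_10 (nat_lit 156) (nat_lit 139) (nat_lit 155) (nat_lit 4) (nat_lit 3) (nat_lit 10) (nat_lit 7) (nat_lit 2) (nat_lit 6) (by decide +kernel)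
theorem L57284 : W_10 (nat_lit 3) (nat_lit 0x2600020013000de000100000000000000000000000000) (nat_lit 0x0) (nat_lit 0x18000e0000000000000000000000000000000000) := T_10 (nat_lit 138) (nat_lit 137) (nat_lit 1) (nat_lit 5) (nat_lit 7) L57283 (by decide +kernel)
theorem L57285 : W_10 (nat_lit 4) (nat_lit 0x2600020013000de000000000000000000000000000000) (nat_lit 0x0) (nat_lit 0x18000e0000000180000000000000000000000000) := T_10 (nat_lit 104) (nat_lit 103) (nat_lit 0) (nat_lit 5) (nat_lit 7) L57284 (by decide +kernel)
theorem L57286 : W_10 (nat_lit 5) (nat_lit 0x2400020013000de000000000000000000000000000000) (nat_lit 0x0) (nat_lit 0x4000200018000e0000000180000000000000000000000000) := T_10 (nat_lit 173) (nat_lit 190) (nat_lit 5) (nat_lit 4) (nat_lit 7) L57285 (by decide +kernel)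
theorem L57287 : W_10 (nat_lit 6) (nat_lit 0x2400020013000dc000000000000000000000000000000) (nat_lit 0x0) (nat_lit 0x4000200018000e0003000180000000000000000000000000) := T_10 (nat_lit 121) (nat_lit 120) (nat_lit 3) (nat_lit 1) (nat_lit 7) L57286 (by decide +kernel)
theorem L57288 : W_10 (nat_lit 7) (nat_lit 0x2400020013000d8000000000000000000000000000000) (nat_lit 0x0) (nat_lit 0x4000200018000e0007000380000000000000000000000000) := T_10 (nat_lit 122) (nat_lit 105) (nat_lit 4) (nat_lit 4) (nat_lit 10) L57287 (by decide +kernel)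
theorem L57289 : W_10 (nat_lit 8) (nat_lit 0x240002001300098000000000000000000000000000000) (nat_lit 0x0) (nat_lit 0x4000200018000e0067000380000000000000000000000000) := T_10 (nat_lit 126) (nat_lit 125) (nat_lit 1) (nat_lit 8) (nat_lit 7) L57288 (by decide +kernel)
theorem L57290 : W_10 (nat_lit 9) (nat_lit 0x200002001300098000000000000000000000000000000) (nat_lit 0x0) (nat_lit 0xc000600018000e0067000380000000000000000000000000) := T_10 (nat_lit 174) (nat_lit 191) (nat_lit 6) (nat_lit 4) (nat_lit 11) L57289 (by decide +kernel)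
theorem L57291 : W_10 (nat_lit 2) (nat_lit 0x2000034013400b8000600000000000000000000000000) (nat_lit 0x0) (nat_lit 0x4000180000000000000000000000000) := D_10 (nat_lit 104) (nat_lit 103) (nat_lit 122) (nat_lit 3) (nat_lit 1) (nat_lit 6) (nat_lit 0) (nat_lit 6) (nat_lit 7) (by decide +kernel)
theorem L57292 : W_10 (nat_lit 3) (nat_lit 0x2000034013400b8000400000000000000000000000000) (nat_lit 0x0) (nat_lit 0x4000380010000000000000000000000) := T_10 (nat_lit 105) (nat_lit 88) (nat_lit 4) (nat_lit 4) (nat_lit 9) L57291 (by decide +kernel)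
theorem L57293 : W_10 (nat_lit 4) (nat_lit 0x2000034013000b8000400000000000000000000000000) (nat_lit 0x0) (nat_lit 0xc0004000380010000000000000000000000) := T_10 (nat_lit 138) (nat_lit 139) (nat_lit 2) (nat_lit 2) (nat_lit 8) L57292 (by decide +kernel)
theorem L57294 : W_10 (nat_lit 5) (nat_lit 0x2000030013000b8000400000000000000000000000000) (nat_lit 0x0) (nat_lit 0xc000c0004000380010000000000000000000000) := T_10 (nat_lit 154) (nat_lit 155) (nat_lit 2) (nat_lit 1) (nat_lit 9) L57293 (by decide +kernel)
theorem L57295 : W_10 (nat_lit 6) (nat_lit 0x2000020013000b8000400000000000000000000000000) (nat_lit 0x0) (nat_lit 0x20001c000c0004000380010000000000000000000000) := T_10 (nat_lit 156) (nat_lit 173) (nat_lit 5) (nat_lit 4) (nat_lit 6) L57294 (by decide +kernel)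
theorem L57296 : W_10 (nat_lit 7) (nat_lit 0x200002001300098000400000000000000000000000000) (nat_lit 0x0) (nat_lit 0x20001c000c0064000380010000000000000000000000) := T_10 (nat_lit 125) (nat_lit 126) (nat_lit 1) (nat_lit 8) (nat_lit 7) L57295 (by decide +kernel)
theorem L57297 : W_10 (nat_lit 8) (nat_lit 0x200002001300098000000000000000000000000000000) (nat_lit 0x0) (nat_lit 0x20005c000c0064000780030001000000000000000000) := Q_10 (nat_lit 106) (C_10 L57248 (C_10 L56585 (C_10 L57296 N_10))) (by decide +kernel)
theorem L57298 : W_10 (nat_lit 2) (nat_lit 0x2600020013000d8000600000000000000000000000000) (nat_lit 0x0) (nat_lit 0x4000000000000000020001000000000000000000) := D_10 (nat_lit 89) (nat_lit 72) (nat_lit 158) (nat_lit 7) (nat_lit 4) (nat_lit 4) (nat_lit 7) (nat_lit 4) (nat_lit 5) (by decide +kernel)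
theorem L57299 : W_10 (nat_lit 3) (nat_lit 0x2600020013000d8000200000000000000000000000000) (nat_lit 0x0) (nat_lit 0x4000000000000400030001000000000000000000) := T_10 (nat_lit 106) (nat_lit 88) (nat_lit 4) (nat_lit 4) (nat_lit 9) L57298 (by decide +kernel)
theorem L57300 : W_10 (nat_lit 4) (nat_lit 0x2600020013000d8000000000000000000000000000000) (nat_lit 0x0) (nat_lit 0x4000000004000600030001000000000000000000) := T_10 (nat_lit 105) (nat_lit 122) (nat_lit 4) (nat_lit 4) (nat_lit 10) L57299 (by decide +kernel)
theorem L57301 : W_10 (nat_lit 5) (nat_lit 0x2400020013000d8000000000000000000000000000000) (nat_lit 0x0) (nat_lit 0x400020004000000004000600030001000000000000000000) := T_10 (nat_lit 173) (nat_lit 190) (nat_lit 5) (nat_lit 4) (nat_lit 7) L57300 (by decide +kernel)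
theorem L57302 : W_10 (nat_lit 6) (nat_lit 0x2000020013000d8000000000000000000000000000000) (nat_lit 0x0) (nat_lit 0xc00060004000000004000600030001000000000000000000) := T_10 (nat_lit 174) (nat_lit 191) (nat_lit 6) (nat_lit 4) (nat_lit 11) L57301 (by decide +kernel)
theorem L57303 : W_10 (nat_lit 7) (nat_lit 0x200002001300098000000000000000000000000000000) (nat_lit 0x0) (nat_lit 0xc00060004000000064000600030001000000000000000000) := T_10 (nat_lit 126) (nat_lit 125) (nat_lit 1) (nat_lit 8) (nat_lit 7) L57302 (by decide +kernel)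
theorem L57304 : W_10 (nat_lit 2) (nat_lit 0x2400020013000d8000600000000000000000000000000) (nat_lit 0x0) (nat_lit 0x4000000000000000020001000000000000000000) := D_10 (nat_lit 89) (nat_lit 72) (nat_lit 158) (nat_lit 7) (nat_lit 4) (nat_lit 4) (nat_lit 7) (nat_lit 4) (nat_lit 5) (by decide +kernel)
theorem L57305 : W_10 (nat_lit 3) (nat_lit 0x2400020013000d8000200000000000000000000000000) (nat_lit 0x0) (nat_lit 0x4000000000000400030001000000000000000000) := T_10 (nat_lit 106) (nat_lit 88) (nat_lit 4) (nat_lit 4) (nat_lit 9) L57304 (by decide +kernel)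
theorem L57306 : W_10 (nat_lit 4) (nat_lit 0x2400020013000d8000000000000000000000000000000) (nat_lit 0x0) (nat_lit 0x4000000004000600030001000000000000000000) := T_10 (nat_lit 105) (nat_lit 122) (nat_lit 4) (nat_lit 4) (nat_lit 10) L57305 (by decide +kernel)
theorem L57307 : W_10 (nat_lit 5) (nat_lit 0x240002001300098000000000000000000000000000000) (nat_lit 0x0) (nat_lit 0x4000000064000600030001000000000000000000) := T_10 (nat_lit 126) (nat_lit 125) (nat_lit 1) (nat_lit 8) (nat_lit 7) L57306 (by decide +kernel)
theorem L57308 : W_10 (nat_lit 6) (nat_lit 0x200002001300098000000000000000000000000000000) (nat_lit 0x0) (nat_lit 0x800040004000000064000600030001000000000000000000) := T_10 (nat_lit 174) (nat_lit 191) (nat_lit 6) (nat_lit 4) (nat_lit 11) L57307 (by decide +kernel)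
theorem L57309 : W_10 (nat_lit 2) (nat_lit 0x2600020013000d8000400000000000000000000000000) (nat_lit 0x0) (nat_lit 0x4000000000000000020001000000000000000000) := D_10 (nat_lit 89) (nat_lit 72) (nat_lit 158) (nat_lit 7) (nat_lit 4) (nat_lit 4) (nat_lit 7) (nat_lit 4) (nat_lit 5) (by decide +kernel)
theorem L57310 : W_10 (nat_lit 3) (nat_lit 0x2600020013000d8000000000000000000000000000000) (nat_lit 0x0) (nat_lit 0x5000000000000400020001000000000000000000) := T_10 (nat_lit 106) (nat_lit 156) (nat_lit 5) (nat_lit 4) (nat_lit 6) L57309 (by decide +kernel)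
theorem L57311 : W_10 (nat_lit 4) (nat_lit 0x2400020013000d8000000000000000000000000000000) (nat_lit 0x0) (nat_lit 0x400020005000000000000400020001000000000000000000) := T_10 (nat_lit 173) (nat_lit 190) (nat_lit 5) (nat_lit 4) (nat_lit 7) L57310 (by decide +kernel)
theorem L57312 : W_10 (nat_lit 5) (nat_lit 0x2000020013000d8000000000000000000000000000000) (nat_lit 0x0) (nat_lit 0xc00060005000000000000400020001000000000000000000) := T_10 (nat_lit 174) (nat_lit 191) (nat_lit 6) (nat_lit 4) (nat_lit 11) L57311 (by decide +kernel)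
theorem L57313 : W_10 (nat_lit 6) (nat_lit 0x200002001300098000000000000000000000000000000) (nat_lit 0x0) (nat_lit 0xc00060005000000060000400020001000000000000000000) := T_10 (nat_lit 126) (nat_lit 125) (nat_lit 1) (nat_lit 8) (nat_lit 7) L57312 (by decide +kernel)
theorem L57314 : W_10 (nat_lit 10) (nat_lit 0x200002001300090000000000000000000000000000000) (nat_lit 0x0) (nat_lit 0xc00060005c000e006f000780030001800000000000000000) := Q_10 (nat_lit 123) (C_10 L57228 (C_10 L57282 (C_10 L57290 (C_10 L57297 (C_10 L57303 (C_10 L57308 (C_10 L57313 N_10))))))) (by decide +kernel)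
theorem L57315 : W_10 (nat_lit 2) (nat_lit 0x22000f4013800d0000000000000000000000000000000) (nat_lit 0x0) (nat_lit 0x400000000000000008000400000000000000000000000000) := D_10 (nat_lit 123) (nat_lit 106) (nat_lit 190) (nat_lit 5) (nat_lit 4) (nat_lit 6) (nat_lit 6) (nat_lit 3) (nat_lit 11) (by decide +kernel)
theorem L57316 : W_10 (nat_lit 3) (nat_lit 0x20000f4013800d0000000000000000000000000000000) (nat_lit 0x0) (nat_lit 0x400030000000000008000400000000000000000000000000) := T_10 (nat_lit 173) (nat_lit 172) (nat_lit 1) (nat_lit 6) (nat_lit 9) L57315 (by decide +kernel)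
theorem L57317 : W_10 (nat_lit 4) (nat_lit 0x20000f0013800d0000000000000000000000000000000) (nat_lit 0x0) (nat_lit 0x400030000c00000008000400000000000000000000000000) := T_10 (nat_lit 154) (nat_lit 155) (nat_lit 2) (nat_lit 1) (nat_lit 9) L57316 (by decide +kernel)
theorem L57318 : W_10 (nat_lit 5) (nat_lit 0x20000e0013800d0000000000000000000000000000000) (nat_lit 0x0) (nat_lit 0x400130001c00000008000400000000000000000000000000) := T_10 (nat_lit 156) (nat_lit 176) (nat_lit 3) (nat_lit 3) (nat_lit 9) L57317 (by decide +kernel)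
theorem L57319 : W_10 (nat_lit 6) (nat_lit 0x2000060013800d0000000000000000000000000000000) (nat_lit 0x0) (nat_lit 0x400130019c00000008000400000000000000000000000000) := T_10 (nat_lit 159) (nat_lit 160) (nat_lit 0) (nat_lit 7) (nat_lit 9) L57318 (by decide +kernel)
theorem L57320 : W_10 (nat_lit 7) (nat_lit 0x200006001380090000000000000000000000000000000) (nat_lit 0x0) (nat_lit 0x400130019c00000068000400000000000000000000000000) := T_10 (nat_lit 126) (nat_lit 125) (nat_lit 1) (nat_lit 8) (nat_lit 7) L57319 (by decide +kernel)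
theorem L57321 : W_10 (nat_lit 2) (nat_lit 0x2000160013800d0001800000000000000000000000000) (nat_lit 0x0) (nat_lit 0x2400020000000000000000000000) := D_10 (nat_lit 106) (nat_lit 109) (nat_lit 89) (nat_lit 3) (nat_lit 4) (nat_lit 6) (nat_lit 4) (nat_lit 5) (nat_lit 9) (by decide +kernel)
theorem L57322 : W_10 (nat_lit 3) (nat_lit 0x2000160013800d0000800000000000000000000000000) (nat_lit 0x0) (nat_lit 0x34000a0000000000000000000000) := T_10 (nat_lit 108) (nat_lit 91) (nat_lit 6) (nat_lit 5) (nat_lit 9) L57321 (by decide +kernel)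
theorem L57323 : W_10 (nat_lit 4) (nat_lit 0x200016001380090000800000000000000000000000000) (nat_lit 0x0) (nat_lit 0x600034000a0000000000000000000000) := T_10 (nat_lit 126) (nat_lit 125) (nat_lit 1) (nat_lit 8) (nat_lit 7) L57322 (by decide +kernel)
theorem L57324 : W_10 (nat_lit 5) (nat_lit 0x200016001380090000000000000000000000000000000) (nat_lit 0x0) (nat_lit 0x60003c000e0000000000000000000000) := T_10 (nat_lit 107) (nat_lit 90) (nat_lit 5) (nat_lit 5) (nat_lit 5) L57323 (by decide +kernel)
theorem L57325 : W_10 (nat_lit 6) (nat_lit 0x200006001380090000000000000000000000000000000) (nat_lit 0x0) (nat_lit 0x18000000060003c000e0000000000000000000000) := T_10 (nat_lit 160) (nat_lit 159) (nat_lit 0) (nat_lit 7) (nat_lit 9) L57324 (by decide +kernel)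
theorem L57326 : W_10 (nat_lit 2) (nat_lit 0x200016001380094003c00100000000000000000000000) (nat_lit 0x0) (nat_lit 0x2000200010000000000000000000000) := D_10 (nat_lit 105) (nat_lit 121) (nat_lit 88) (nat_lit 1) (nat_lit 6) (nat_lit 6) (nat_lit 7) (nat_lit 3) (nat_lit 5) (by decide +kernel)
theorem L57327 : W_10 (nat_lit 3) (nat_lit 0x200016001380090003c00100000000000000000000000) (nat_lit 0x0) (nat_lit 0xe000200010000000000000000000000) := T_10 (nat_lit 122) (nat_lit 123) (nat_lit 1) (nat_lit 7) (nat_lit 6) L57326 (by decide +kernel)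
theorem L57328 : W_10 (nat_lit 4) (nat_lit 0x200016001380090003c00000000000000000000000000) (nat_lit 0x0) (nat_lit 0xe000200310000000000000000000000) := T_10 (nat_lit 92) (nat_lit 93) (nat_lit 2) (nat_lit 4) (nat_lit 6) L57327 (by decide +kernel)
theorem L57329 : W_10 (nat_lit 5) (nat_lit 0x200016001380090001c00000000000000000000000000) (nat_lit 0x0) (nat_lit 0x4e002200310000000000000000000000) := T_10 (nat_lit 109) (nat_lit 126) (nat_lit 3) (nat_lit 4) (nat_lit 6) L57328 (by decide +kernel)
theorem L57330 : W_10 (nat_lit 6) (nat_lit 0x200016001380090000c00000000000000000000000000) (nat_lit 0x0) (nat_lit 0x4e003200390000000000000000000000) := T_10 (nat_lit 108) (nat_lit 91) (nat_lit 6) (nat_lit 5) (nat_lit 9) L57329 (by decide +kernel)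
theorem L57331 : W_10 (nat_lit 7) (nat_lit 0x200016001380090000800000000000000000000000000) (nat_lit 0x0) (nat_lit 0x4e0036003b0000000000000000000000) := T_10 (nat_lit 106) (nat_lit 89) (nat_lit 4) (nat_lit 5) (nat_lit 9) L57330 (by decide +kernel)
theorem L57332 : W_10 (nat_lit 8) (nat_lit 0x200016001380090000000000000000000000000000000) (nat_lit 0x0) (nat_lit 0x4e003e003f0000000000000000000000) := T_10 (nat_lit 107) (nat_lit 90) (nat_lit 5) (nat_lit 5) (nat_lit 5) L57331 (by decide +kernel)
theorem L57333 : W_10 (nat_lit 9) (nat_lit 0x200006001380090000000000000000000000000000000) (nat_lit 0x0) (nat_lit 0x1800000004e003e003f0000000000000000000000) := T_10 (nat_lit 160) (nat_lit 159) (nat_lit 0) (nat_lit 7) (nat_lit 9) L57332 (by decide +kernel)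
theorem L57334 : W_10 (nat_lit 2) (nat_lit 0x20000e0013800d0001800000000000000000000000000) (nat_lit 0x0) (nat_lit 0x2400020000000000000000000000) := D_10 (nat_lit 106) (nat_lit 109) (nat_lit 89) (nat_lit 3) (nat_lit 4) (nat_lit 6) (nat_lit 4) (nat_lit 5) (nat_lit 9) (by decide +kernel)
theorem L57335 : W_10 (nat_lit 3) (nat_lit 0x20000e0013800d0000800000000000000000000000000) (nat_lit 0x0) (nat_lit 0x34000a0000000000000000000000) := T_10 (nat_lit 108) (nat_lit 91) (nat_lit 6) (nat_lit 5) (nat_lit 9) L57334 (by decide +kernel)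
theorem L57336 : W_10 (nat_lit 4) (nat_lit 0x2000060013800d0000800000000000000000000000000) (nat_lit 0x0) (nat_lit 0x1000080000000000034000a0000000000000000000000) := T_10 (nat_lit 159) (nat_lit 176) (nat_lit 7) (nat_lit 5) (nat_lit 6) L57335 (by decide +kernel)
theorem L57337 : W_10 (nat_lit 5) (nat_lit 0x200006001380090000800000000000000000000000000) (nat_lit 0x0) (nat_lit 0x1000080000000600034000a0000000000000000000000) := T_10 (nat_lit 126) (nat_lit 125) (nat_lit 1) (nat_lit 8) (nat_lit 7) L57336 (by decide +kernel)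
theorem L57338 : W_10 (nat_lit 6) (nat_lit 0x200006001380090000000000000000000000000000000) (nat_lit 0x0) (nat_lit 0x100008000000060003c000e0000000000000000000000) := T_10 (nat_lit 107) (nat_lit 90) (nat_lit 5) (nat_lit 5) (nat_lit 5) L57337 (by decide +kernel)
theorem L57339 : W_10 (nat_lit 2) (nat_lit 0x2000060013800d0000c00000000000000000000000000) (nat_lit 0x0) (nat_lit 0x3000080000000000000000000000) := D_10 (nat_lit 108) (nat_lit 109) (nat_lit 91) (nat_lit 3) (nat_lit 4) (nat_lit 6) (nat_lit 6) (nat_lit 5) (nat_lit 9) (by decide +kernel)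
theorem L57340 : W_10 (nat_lit 3) (nat_lit 0x2000060013800d0000800000000000000000000000000) (nat_lit 0x0) (nat_lit 0x34000a0000000000000000000000) := T_10 (nat_lit 106) (nat_lit 89) (nat_lit 4) (nat_lit 5) (nat_lit 9) L57339 (by decide +kernel)
theorem L57341 : W_10 (nat_lit 4) (nat_lit 0x2000060013800d0000000000000000000000000000000) (nat_lit 0x0) (nat_lit 0x3c000e0000000000000000000000) := T_10 (nat_lit 107) (nat_lit 90) (nat_lit 5) (nat_lit 5) (nat_lit 5) L57340 (by decide +kernel)
theorem L57342 : W_10 (nat_lit 5) (nat_lit 0x200006001380090000000000000000000000000000000) (nat_lit 0x0) (nat_lit 0x60003c000e0000000000000000000000) := T_10 (nat_lit 126) (nat_lit 125) (nat_lit 1) (nat_lit 8) (nat_lit 7) L57341 (by decide +kernel)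
theorem L57343 : W_10 (nat_lit 2) (nat_lit 0x22000f4013800d0000000040000000000000000000000) (nat_lit 0x0) (nat_lit 0x8000400000000000000008000000000000000000000000000000) := D_10 (nat_lit 190) (nat_lit 123) (nat_lit 207) (nat_lit 6) (nat_lit 3) (nat_lit 11) (nat_lit 6) (nat_lit 3) (nat_lit 12) (by decide +kernel)
theorem L57344 : W_10 (nat_lit 3) (nat_lit 0x20000f4013800d0000000040000000000000000000000) (nat_lit 0x0) (nat_lit 0x8000400030000000000008000000000000000000000000000000) := T_10 (nat_lit 173) (nat_lit 172) (nat_lit 1) (nat_lit 6) (nat_lit 9) L57343 (by decide +kernel)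
theorem L57345 : W_10 (nat_lit 4) (nat_lit 0x20000f0013800d0000000040000000000000000000000) (nat_lit 0x0) (nat_lit 0x8000400030000c00000008000000000000000000000000000000) := T_10 (nat_lit 154) (nat_lit 155) (nat_lit 2) (nat_lit 1) (nat_lit 9) L57344 (by decide +kernel)
theorem L57346 : W_10 (nat_lit 5) (nat_lit 0x20000e0013800d0000000040000000000000000000000) (nat_lit 0x0) (nat_lit 0x8000400130001c00000008000000000000000000000000000000) := T_10 (nat_lit 156) (nat_lit 176) (nat_lit 3) (nat_lit 3) (nat_lit 9) L57345 (by decide +kernel)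
theorem L57347 : W_10 (nat_lit 6) (nat_lit 0x20000e001380090000000040000000000000000000000) (nat_lit 0x0) (nat_lit 0x8000400130001c00000068000000000000000000000000000000) := T_10 (nat_lit 126) (nat_lit 125) (nat_lit 1) (nat_lit 8) (nat_lit 7) L57346 (by decide +kernel)
theorem L57348 : W_10 (nat_lit 7) (nat_lit 0x200006001380090000000040000000000000000000000) (nat_lit 0x0) (nat_lit 0x8000400130019c00000068000000000000000000000000000000) := T_10 (nat_lit 159) (nat_lit 160) (nat_lit 0) (nat_lit 7) (nat_lit 9) L57347 (by decide +kernel)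
theorem L57349 : W_10 (nat_lit 8) (nat_lit 0x200006001380090000000000000000000000000000000) (nat_lit 0x0) (nat_lit 0x8000400130019c00000068000800040000000000000000000000) := T_10 (nat_lit 90) (nat_lit 107) (nat_lit 5) (nat_lit 5) (nat_lit 5) L57348 (by decide +kernel)
theorem L57350 : W_10 (nat_lit 2) (nat_lit 0x20000e001380090000000000000000000000000000000) (nat_lit 0x0) (nat_lit 0x100000000000000000800040000000000000000000000) := D_10 (nat_lit 107) (nat_lit 90) (nat_lit 176) (nat_lit 5) (nat_lit 5) (nat_lit 5) (nat_lit 7) (nat_lit 5) (nat_lit 6) (by decide +kernel)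
theorem L57351 : W_10 (nat_lit 3) (nat_lit 0x200006001380090000000000000000000000000000000) (nat_lit 0x0) (nat_lit 0x100018000000000000800040000000000000000000000) := T_10 (nat_lit 159) (nat_lit 160) (nat_lit 0) (nat_lit 7) (nat_lit 9) L57350 (by decide +kernel)
theorem L57352 : W_10 (nat_lit 10) (nat_lit 0x200002001380090000000000000000000000000000000) (nat_lit 0x0) (nat_lit 0x800040013001dc0000006e003e003f0000000000000000000000) := Q_10 (nat_lit 158) (C_10 L57320 (C_10 L57325 (C_10 L57333 (C_10 L57338 (C_10 L57342 (C_10 L57349 (C_10 L57351 N_10))))))) (by decide +kernel)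
theorem L57353 : W_10 (nat_lit 2) (nat_lit 0x2000068013c0094003c00100000000000000000000000) (nat_lit 0x0) (nat_lit 0x3000200000000000000000000000000) := D_10 (nat_lit 121) (nat_lit 120) (nat_lit 105) (nat_lit 0) (nat_lit 5) (nat_lit 8) (nat_lit 1) (nat_lit 6) (nat_lit 6) (by decide +kernel)
theorem L57354 : W_10 (nat_lit 3) (nat_lit 0x2000068013c0090003c00100000000000000000000000) (nat_lit 0x0) (nat_lit 0xf000200000000000000000000000000) := T_10 (nat_lit 122) (nat_lit 123) (nat_lit 1) (nat_lit 7) (nat_lit 6) L57353 (by decide +kernel)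
theorem L57355 : W_10 (nat_lit 4) (nat_lit 0x2000068013c0090003c00000000000000000000000000) (nat_lit 0x0) (nat_lit 0xf000200300000000000000000000000) := T_10 (nat_lit 92) (nat_lit 93) (nat_lit 2) (nat_lit 4) (nat_lit 6) L57354 (by decide +kernel)
theorem L57356 : W_10 (nat_lit 5) (nat_lit 0x2000068013c0090001c00000000000000000000000000) (nat_lit 0x0) (nat_lit 0x4f002200300000000000000000000000) := T_10 (nat_lit 109) (nat_lit 126) (nat_lit 3) (nat_lit 4) (nat_lit 6) L57355 (by decide +kernel)
theorem L57357 : W_10 (nat_lit 6) (nat_lit 0x2000068013c0090001800000000000000000000000000) (nat_lit 0x0) (nat_lit 0x4f002600320000000000000000000000) := T_10 (nat_lit 106) (nat_lit 89) (nat_lit 4) (nat_lit 5) (nat_lit 9) L57356 (by decide +kernel)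
theorem L57358 : W_10 (nat_lit 7) (nat_lit 0x2000068013c0090000800000000000000000000000000) (nat_lit 0x0) (nat_lit 0x4f0036003a0000000000000000000000) := T_10 (nat_lit 108) (nat_lit 91) (nat_lit 6) (nat_lit 5) (nat_lit 9) L57357 (by decide +kernel)
theorem L57359 : W_10 (nat_lit 8) (nat_lit 0x2000060013c0090000800000000000000000000000000) (nat_lit 0x0) (nat_lit 0xc0000004f0036003a0000000000000000000000) := T_10 (nat_lit 155) (nat_lit 154) (nat_lit 1) (nat_lit 5) (nat_lit 8) L57358 (by decide +kernel)
theorem L57360 : W_10 (nat_lit 9) (nat_lit 0x2000060013c0090000000000000000000000000000000) (nat_lit 0x0) (nat_lit 0xc0000004f003e003e0000000000000000000000) := T_10 (nat_lit 107) (nat_lit 90) (nat_lit 5) (nat_lit 5) (nat_lit 5) L57359 (by decide +kernel)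
theorem L57361 : W_10 (nat_lit 10) (nat_lit 0x2000020013c0090000000000000000000000000000000) (nat_lit 0x0) (nat_lit 0xcc0000004f003e003e0000000000000000000000) := T_10 (nat_lit 158) (nat_lit 159) (nat_lit 3) (nat_lit 2) (nat_lit 8) L57360 (by decide +kernel)
theorem L57362 : W_10 (nat_lit 11) (nat_lit 0x200002001380090000000000000000000000000000000) (nat_lit 0x0) (nat_lit 0xce0006004f003e003e0000000000000000000000) := Q_10 (nat_lit 138) (C_10 L56790 (C_10 L56808 (C_10 L57361 N_10))) (by decide +kernel)
theorem L57363 : W_10 (nat_lit 4) (nat_lit 0x200002001380090000000040000000000000000000000) (nat_lit 0x0) (nat_lit 0xe00060028000000000000000000000000000000) := T_10 (nat_lit 138) (nat_lit 125) (nat_lit 2) (nat_lit 2) (nat_lit 8) L56807 (by decide +kernel)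
theorem L57364 : W_10 (nat_lit 5) (nat_lit 0x200002001380090000000000000000000000000000000) (nat_lit 0x0) (nat_lit 0xe00060028000800040000000000000000000000) := T_10 (nat_lit 90) (nat_lit 107) (nat_lit 5) (nat_lit 5) (nat_lit 5) L57363 (by decide +kernel)
theorem L57365 : W_10 (nat_lit 12) (nat_lit 0x200002001300090000000000000000000000000000000) (nat_lit 0x0) (nat_lit 0x800040013001de000e006f003e003f0000000000000000000000) := Q_10 (nat_lit 139) (C_10 L57352 (C_10 L56657 (C_10 L57362 (C_10 L57364 N_10)))) (by decide +kernel)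
theorem L57366 : W_10 (nat_lit 13) (nat_lit 0x200002001300080000000000000000000000000000000) (nat_lit 0x0) (nat_lit 0x8000c0017001de000e007f003f803f0001800000000000000000) := Q_10 (nat_lit 124) (C_10 L57108 (C_10 L56673 (C_10 L56656 (C_10 L57314 (C_10 L57365 N_10))))) (by decide +kernel)
theorem L57368 : W_10 (nat_lit 2) (nat_lit 0x3e00120013000d0000000000000000000000000000000) (nat_lit 0x0) (nat_lit 0xe000000000000000000000000000000000000000000000000) := D_10 (nat_lit 194) (nat_lit 195) (nat_lit 193) (nat_lit 3) (nat_lit 4) (nat_lit 10) (nat_lit 3) (nat_lit 3) (nat_lit 10) (by decide +kernel)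
theorem L57369 : W_10 (nat_lit 3) (nat_lit 0x3c00120013000d0000000000000000000000000000000) (nat_lit 0x0) (nat_lit 0xe000020008000000000000000000000000000000000000000) := T_10 (nat_lit 173) (nat_lit 159) (nat_lit 2) (nat_lit 3) (nat_lit 10) L57368 (by decide +kernel)
theorem L57370 : W_10 (nat_lit 4) (nat_lit 0x3c00020013000d0000000000000000000000000000000) (nat_lit 0x0) (nat_lit 0xe000020038000000000000000000000000000000000000000) := T_10 (nat_lit 160) (nat_lit 161) (nat_lit 2) (nat_lit 4) (nat_lit 10) L57369 (by decide +kernel)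
theorem L57371 : W_10 (nat_lit 5) (nat_lit 0x2c00020013000d0000000000000000000000000000000) (nat_lit 0x0) (nat_lit 0xe000120039000000000000000000000000000000000000000) := T_10 (nat_lit 176) (nat_lit 156) (nat_lit 0) (nat_lit 7) (nat_lit 10) L57370 (by decide +kernel)
theorem L57372 : W_10 (nat_lit 6) (nat_lit 0x2c0002001300090000000000000000000000000000000) (nat_lit 0x0) (nat_lit 0xe000120039000000060000000000000000000000000000000) := T_10 (nat_lit 126) (nat_lit 125) (nat_lit 1) (nat_lit 8) (nat_lit 7) L57371 (by decide +kernel)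
theorem L57373 : W_10 (nat_lit 2) (nat_lit 0x3e0002001300098000000000000000000000000000000) (nat_lit 0x0) (nat_lit 0x6000000004000000000000000000000000000000000000000) := D_10 (nat_lit 193) (nat_lit 194) (nat_lit 158) (nat_lit 3) (nat_lit 3) (nat_lit 10) (nat_lit 7) (nat_lit 5) (nat_lit 7) (by decide +kernel)
theorem L57374 : W_10 (nat_lit 3) (nat_lit 0x3c0002001300098000000000000000000000000000000) (nat_lit 0x0) (nat_lit 0x6400020004000000000000000000000000000000000000000) := T_10 (nat_lit 173) (nat_lit 190) (nat_lit 5) (nat_lit 4) (nat_lit 7) L57373 (by decide +kernel)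
theorem L57375 : W_10 (nat_lit 4) (nat_lit 0x3c0002001300090000000000000000000000000000000) (nat_lit 0x0) (nat_lit 0x7400020004000000008000000000000000000000000000000) := T_10 (nat_lit 123) (nat_lit 192) (nat_lit 7) (nat_lit 4) (nat_lit 7) L57374 (by decide +kernel)
theorem L57376 : W_10 (nat_lit 5) (nat_lit 0x2c0002001300090000000000000000000000000000000) (nat_lit 0x0) (nat_lit 0x7400120005000000008000000000000000000000000000000) := T_10 (nat_lit 176) (nat_lit 156) (nat_lit 0) (nat_lit 7) (nat_lit 10) L57375 (by decide +kernel)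
theorem L57377 : W_10 (nat_lit 2) (nat_lit 0x2e00020013000bd000000000000000000000000000000) (nat_lit 0x0) (nat_lit 0x4000000000003000000000000000000000000000) := D_10 (nat_lit 108) (nat_lit 158) (nat_lit 109) (nat_lit 6) (nat_lit 5) (nat_lit 10) (nat_lit 2) (nat_lit 3) (nat_lit 7) (by decide +kernel)
theorem L57378 : W_10 (nat_lit 3) (nat_lit 0x2e000200130009d000000000000000000000000000000) (nat_lit 0x0) (nat_lit 0x4000000060003000000000000000000000000000) := T_10 (nat_lit 125) (nat_lit 126) (nat_lit 1) (nat_lit 8) (nat_lit 7) L57377 (by decide +kernel)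
theorem L57379 : W_10 (nat_lit 4) (nat_lit 0x2e000200130009c000000000000000000000000000000) (nat_lit 0x0) (nat_lit 0x4000000063003000000000000000000000000000) := T_10 (nat_lit 120) (nat_lit 121) (nat_lit 3) (nat_lit 1) (nat_lit 7) L57378 (by decide +kernel)
theorem L57380 : W_10 (nat_lit 5) (nat_lit 0x2e0002001300098000000000000000000000000000000) (nat_lit 0x0) (nat_lit 0x4000000067003200000000000000000000000000) := T_10 (nat_lit 122) (nat_lit 105) (nat_lit 4) (nat_lit 4) (nat_lit 10) L57379 (by decide +kernel)
theorem L57381 : W_10 (nat_lit 6) (nat_lit 0x2c0002001300098000000000000000000000000000000) (nat_lit 0x0) (nat_lit 0x400020004000000067003200000000000000000000000000) := T_10 (nat_lit 173) (nat_lit 190) (nat_lit 5) (nat_lit 4) (nat_lit 7) L57380 (by decide +kernel)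
theorem L57382 : W_10 (nat_lit 7) (nat_lit 0x2c0002001300090000000000000000000000000000000) (nat_lit 0x0) (nat_lit 0x140002000400000006f003200000000000000000000000000) := T_10 (nat_lit 123) (nat_lit 192) (nat_lit 7) (nat_lit 4) (nat_lit 7) L57381 (by decide +kernel)
theorem L57383 : W_10 (nat_lit 2) (nat_lit 0x10003c00020013000d0000000000000000000000000000000) (nat_lit 0x0) (nat_lit 0x20002000000004000000000000000000000000000000000000000) := D_10 (nat_lit 158) (nat_lit 193) (nat_lit 209) (nat_lit 7) (nat_lit 5) (nat_lit 7) (nat_lit 4) (nat_lit 5) (nat_lit 12) (by decide +kernel)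
theorem L57384 : W_10 (nat_lit 3) (nat_lit 0x3c00020013000d0000000000000000000000000000000) (nat_lit 0x0) (nat_lit 0x20003000000004000000008000000000000000000000000000000) := T_10 (nat_lit 192) (nat_lit 123) (nat_lit 7) (nat_lit 4) (nat_lit 7) L57383 (by decide +kernel)
theorem L57385 : W_10 (nat_lit 4) (nat_lit 0x2c00020013000d0000000000000000000000000000000) (nat_lit 0x0) (nat_lit 0x20003000100005000000008000000000000000000000000000000) := T_10 (nat_lit 176) (nat_lit 156) (nat_lit 0) (nat_lit 7) (nat_lit 10) L57384 (by decide +kernel)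
theorem L57386 : W_10 (nat_lit 5) (nat_lit 0x2c0002001300090000000000000000000000000000000) (nat_lit 0x0) (nat_lit 0x20003000100005000000068000000000000000000000000000000) := T_10 (nat_lit 126) (nat_lit 125) (nat_lit 1) (nat_lit 8) (nat_lit 7) L57385 (by decide +kernel)
theorem L57387 : W_10 (nat_lit 8) (nat_lit 0x240002001300090000000000000000000000000000000) (nat_lit 0x0) (nat_lit 0x2000f4001a003d00000006f003200000000000000000000000000) := Q_10 (nat_lit 175) (C_10 L57372 (C_10 L57376 (C_10 L57382 (C_10 L57386 N_10)))) (by decide +kernel)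
theorem L57388 : W_10 (nat_lit 9) (nat_lit 0x240002001300080000000000000000000000000000000) (nat_lit 0x0) (nat_lit 0x2000f4001a003d00000007f003a00040000000000000000000000) := Q_10 (nat_lit 124) (C_10 L56672 (C_10 L57367 (C_10 L57387 N_10))) (by decide +kernel)
theorem L57389 : W_10 (nat_lit 2) (nat_lit 0x800240002001380080000000000000000000000000000000) (nat_lit 0x0) (nat_lit 0x10000000000005000000000000000000000000000000000000000) := D_10 (nat_lit 208) (nat_lit 158) (nat_lit 156) (nat_lit 6) (nat_lit 4) (nat_lit 12) (nat_lit 4) (nat_lit 4) (nat_lit 12) (by decide +kernel)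
theorem L57390 : W_10 (nat_lit 3) (nat_lit 0x800240002001300080000000000000000000000000000000) (nat_lit 0x0) (nat_lit 0x10000000000005000080004000000000000000000000000000000) := T_10 (nat_lit 139) (nat_lit 122) (nat_lit 4) (nat_lit 4) (nat_lit 11) L57389 (by decide +kernel)
theorem L57391 : W_10 (nat_lit 5) (nat_lit 0x240002001300080000000000000000000000000000000) (nat_lit 0x0) (nat_lit 0x38003c001a000500008000c000200000000000000000000000000) := Q_10 (nat_lit 191) (C_10 L35248 (C_10 L57018 (C_10 L57390 N_10))) (by decide +kernel)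
theorem L57392 : W_10 (nat_lit 4) (nat_lit 0x240002001300080000000000000000000000000000000) (nat_lit 0x0) (nat_lit 0x10000800000005000080014000000000000000000000000000000) := T_10 (nat_lit 191) (nat_lit 124) (nat_lit 6) (nat_lit 4) (nat_lit 11) L57390 (by decide +kernel)
theorem L57393 : W_10 (nat_lit 10) (nat_lit 0x200002001300080000000000000000000000000000000) (nat_lit 0x0) (nat_lit 0x3800fc001e003d00008007f003a00040000000000000000000000) := Q_10 (nat_lit 174) (C_10 L57388 (C_10 L57020 (C_10 L57019 (C_10 L57391 (C_10 L57392 N_10))))) (by decide +kernel)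
theorem L57394 : W_10 (nat_lit 2) (nat_lit 0x20000f401300080000000000000000000000000000000) (nat_lit 0x0) (nat_lit 0x30000080000000000000000000000000000000000) := D_10 (nat_lit 160) (nat_lit 139) (nat_lit 161) (nat_lit 0) (nat_lit 7) (nat_lit 9) (nat_lit 0) (nat_lit 8) (nat_lit 9) (by decide +kernel)
theorem L57395 : W_10 (nat_lit 3) (nat_lit 0x200007401300080000000000000000000000000000000) (nat_lit 0x0) (nat_lit 0x100038000080000000000000000000000000000000000) := T_10 (nat_lit 159) (nat_lit 176) (nat_lit 3) (nat_lit 3) (nat_lit 9) L57394 (by decide +kernel)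
theorem L57396 : W_10 (nat_lit 4) (nat_lit 0x200007001300080000000000000000000000000000000) (nat_lit 0x0) (nat_lit 0x100038c00080000000000000000000000000000000000) := T_10 (nat_lit 154) (nat_lit 155) (nat_lit 2) (nat_lit 1) (nat_lit 9) L57395 (by decide +kernel)
theorem L57397 : W_10 (nat_lit 4) (nat_lit 0x200007001300080000000000000000000000000000000) (nat_lit 0x0) (nat_lit 0x138008c00000000000000000000000000000000000000) := T_10 (nat_lit 159) (nat_lit 176) (nat_lit 3) (nat_lit 3) (nat_lit 9) L57072 (by decide +kernel)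
theorem L57398 : W_10 (nat_lit 2) (nat_lit 0x210007801340080000000000000000000000000000000) (nat_lit 0x0) (nat_lit 0x20008000080000000000000000000000000000000000) := D_10 (nat_lit 159) (nat_lit 173) (nat_lit 139) (nat_lit 1) (nat_lit 6) (nat_lit 9) (nat_lit 3) (nat_lit 2) (nat_lit 8) (by decide +kernel)
theorem L57399 : W_10 (nat_lit 3) (nat_lit 0x210007801300080000000000000000000000000000000) (nat_lit 0x0) (nat_lit 0x200080000e0000000000000000000000000000000000) := T_10 (nat_lit 138) (nat_lit 137) (nat_lit 0) (nat_lit 5) (nat_lit 9) L57398 (by decide +kernel)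
theorem L57400 : W_10 (nat_lit 4) (nat_lit 0x200007801300080000000000000000000000000000000) (nat_lit 0x0) (nat_lit 0x380080000e0000000000000000000000000000000000) := T_10 (nat_lit 172) (nat_lit 171) (nat_lit 1) (nat_lit 5) (nat_lit 9) L57399 (by decide +kernel)
theorem L57401 : W_10 (nat_lit 5) (nat_lit 0x200007001300080000000000000000000000000000000) (nat_lit 0x0) (nat_lit 0x38008c000e0000000000000000000000000000000000) := T_10 (nat_lit 155) (nat_lit 154) (nat_lit 2) (nat_lit 1) (nat_lit 9) L57400 (by decide +kernel)
theorem L57402 : W_10 (nat_lit 5) (nat_lit 0x200007001300080000000000000000000000000000000) (nat_lit 0x0) (nat_lit 0x1000198000c00000008000400000000000000000000000000) := T_10 (nat_lit 155) (nat_lit 154) (nat_lit 2) (nat_lit 1) (nat_lit 9) L35068 (by decide +kernel)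
theorem L57403 : W_10 (nat_lit 2) (nat_lit 0x20000f001300080000000000000000000000000000000) (nat_lit 0x0) (nat_lit 0x100000c0000000000000000000000000000000000) := D_10 (nat_lit 139) (nat_lit 138) (nat_lit 160) (nat_lit 3) (nat_lit 2) (nat_lit 8) (nat_lit 0) (nat_lit 7) (nat_lit 9) (by decide +kernel)
theorem L57404 : W_10 (nat_lit 3) (nat_lit 0x200007001300080000000000000000000000000000000) (nat_lit 0x0) (nat_lit 0x1000180000c0000000000000000000000000000000000) := T_10 (nat_lit 159) (nat_lit 176) (nat_lit 3) (nat_lit 3) (nat_lit 9) L57403 (by decide +kernel)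
theorem L57405 : W_10 (nat_lit 6) (nat_lit 0x200003001300080000000000000000000000000000000) (nat_lit 0x0) (nat_lit 0x10001b803cc000e0008000400000000000000000000000000) := Q_10 (nat_lit 158) (C_10 L57396 (C_10 L57397 (C_10 L57401 (C_10 L57402 (C_10 L57404 N_10))))) (by decide +kernel)
theorem L57406 : W_10 (nat_lit 2) (nat_lit 0x800240003001300080000000000000000000000000000000) (nat_lit 0x0) (nat_lit 0x10000000000000000080004000000000000000000000000000000) := D_10 (nat_lit 139) (nat_lit 122) (nat_lit 208) (nat_lit 4) (nat_lit 4) (nat_lit 11) (nat_lit 4) (nat_lit 4) (nat_lit 12) (by decide +kernel)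
theorem L57407 : W_10 (nat_lit 2) (nat_lit 0x1c00260003401300080000000000000000000000000000000) (nat_lit 0x0) (nat_lit 0x2000018000000000000000000000000000000000000000000) := D_10 (nat_lit 172) (nat_lit 171) (nat_lit 193) (nat_lit 3) (nat_lit 1) (nat_lit 10) (nat_lit 0) (nat_lit 6) (nat_lit 11) (by decide +kernel)
theorem L57408 : W_10 (nat_lit 3) (nat_lit 0xc00260003401300080000000000000000000000000000000) (nat_lit 0x0) (nat_lit 0x20003000018000000000000000000000000000000000000000000) := T_10 (nat_lit 192) (nat_lit 209) (nat_lit 7) (nat_lit 4) (nat_lit 8) L57407 (by decide +kernel)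
theorem L57409 : W_10 (nat_lit 4) (nat_lit 0xc00240003401300080000000000000000000000000000000) (nat_lit 0x0) (nat_lit 0x20003000038000000000008000000000000000000000000000000) := T_10 (nat_lit 173) (nat_lit 123) (nat_lit 5) (nat_lit 4) (nat_lit 7) L57408 (by decide +kernel)
theorem L57410 : W_10 (nat_lit 5) (nat_lit 0x800240003401300080000000000000000000000000000000) (nat_lit 0x0) (nat_lit 0x28003400038000000000008000000000000000000000000000000) := T_10 (nat_lit 190) (nat_lit 207) (nat_lit 5) (nat_lit 4) (nat_lit 8) L57409 (by decide +kernel)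
theorem L57411 : W_10 (nat_lit 6) (nat_lit 0x800240003001300080000000000000000000000000000000) (nat_lit 0x0) (nat_lit 0x28003400038000c00000008000000000000000000000000000000) := T_10 (nat_lit 154) (nat_lit 155) (nat_lit 2) (nat_lit 1) (nat_lit 9) L57410 (by decide +kernel)
theorem L57412 : W_10 (nat_lit 7) (nat_lit 0x240003001300080000000000000000000000000000000) (nat_lit 0x0) (nat_lit 0x38003c00038000c0008000c000000000000000000000000000000) := Q_10 (nat_lit 191) (C_10 L57406 (C_10 L57411 N_10)) (by decide +kernel)
theorem L57413 : W_10 (nat_lit 2) (nat_lit 0xc00340003401300080000000000000000000000000000000) (nat_lit 0x0) (nat_lit 0x20003000000000000000000000000000000000000000000000000) := D_10 (nat_lit 192) (nat_lit 209) (nat_lit 193) (nat_lit 7) (nat_lit 4) (nat_lit 8) (nat_lit 2) (nat_lit 3) (nat_lit 11) (by decide +kernel)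
theorem L57414 : W_10 (nat_lit 3) (nat_lit 0xc00240003401300080000000000000000000000000000000) (nat_lit 0x0) (nat_lit 0x20003000180000000000000000000000000000000000000000000) := T_10 (nat_lit 176) (nat_lit 175) (nat_lit 1) (nat_lit 7) (nat_lit 10) L57413 (by decide +kernel)
theorem L57415 : W_10 (nat_lit 4) (nat_lit 0x800240003401300080000000000000000000000000000000) (nat_lit 0x0) (nat_lit 0x28003400180000000000000000000000000000000000000000000) := T_10 (nat_lit 190) (nat_lit 207) (nat_lit 5) (nat_lit 4) (nat_lit 8) L57414 (by decide +kernel)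
theorem L57416 : W_10 (nat_lit 5) (nat_lit 0x800240003001300080000000000000000000000000000000) (nat_lit 0x0) (nat_lit 0x28003400180000c00000000000000000000000000000000000000) := T_10 (nat_lit 154) (nat_lit 155) (nat_lit 2) (nat_lit 1) (nat_lit 9) L57415 (by decide +kernel)
theorem L57417 : W_10 (nat_lit 6) (nat_lit 0x240003001300080000000000000000000000000000000) (nat_lit 0x0) (nat_lit 0x38003c00180000c00080004000000000000000000000000000000) := Q_10 (nat_lit 191) (C_10 L57406 (C_10 L57416 N_10)) (by decide +kernel)
theorem L57418 : W_10 (nat_lit 2) (nat_lit 0x2c0003401300088000000000000000000000000000000) (nat_lit 0x0) (nat_lit 0x400020000000000000000400000000000000000000000000) := D_10 (nat_lit 173) (nat_lit 190) (nat_lit 106) (nat_lit 5) (nat_lit 4) (nat_lit 7) (nat_lit 5) (nat_lit 4) (nat_lit 6) (by decide +kernel)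
theorem L57419 : W_10 (nat_lit 3) (nat_lit 0x2c0003401300080000000000000000000000000000000) (nat_lit 0x0) (nat_lit 0x1400020000000000008000400000000000000000000000000) := T_10 (nat_lit 123) (nat_lit 192) (nat_lit 7) (nat_lit 4) (nat_lit 7) L57418 (by decide +kernel)
theorem L57420 : W_10 (nat_lit 4) (nat_lit 0x2c0003001300080000000000000000000000000000000) (nat_lit 0x0) (nat_lit 0x1400020000c00000008000400000000000000000000000000) := T_10 (nat_lit 154) (nat_lit 155) (nat_lit 3) (nat_lit 1) (nat_lit 9) L57419 (by decide +kernel)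
theorem L57421 : W_10 (nat_lit 5) (nat_lit 0x240003001300080000000000000000000000000000000) (nat_lit 0x0) (nat_lit 0x14001a0000c00000008000400000000000000000000000000) := T_10 (nat_lit 175) (nat_lit 176) (nat_lit 0) (nat_lit 7) (nat_lit 10) L57420 (by decide +kernel)
theorem L57422 : W_10 (nat_lit 2) (nat_lit 0x200018000800340003401300080000000000000000000000000000000) (nat_lit 0x0) (nat_lit 0x8000400020000000000000000000000000000000000000000000000000000) := D_10 (nat_lit 226) (nat_lit 209) (nat_lit 243) (nat_lit 7) (nat_lit 4) (nat_lit 9) (nat_lit 7) (nat_lit 4) (nat_lit 10) (by decide +kernel)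
theorem L57423 : W_10 (nat_lit 3) (nat_lit 0x18000800340003401300080000000000000000000000000000000) (nat_lit 0x0) (nat_lit 0x8000600020000000020000000000000000000000000000000000000000000) := T_10 (nat_lit 225) (nat_lit 173) (nat_lit 4) (nat_lit 4) (nat_lit 13) L57422 (by decide +kernel)
theorem L57424 : W_10 (nat_lit 4) (nat_lit 0x8000800340003401300080000000000000000000000000000000) (nat_lit 0x0) (nat_lit 0x8000700030000000020000000000000000000000000000000000000000000) := T_10 (nat_lit 208) (nat_lit 224) (nat_lit 5) (nat_lit 4) (nat_lit 9) L57423 (by decide +kernel)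
theorem L57425 : W_10 (nat_lit 5) (nat_lit 0x8000800340003001300080000000000000000000000000000000) (nat_lit 0x0) (nat_lit 0x8000700030000000020000c00000000000000000000000000000000000000) := T_10 (nat_lit 154) (nat_lit 155) (nat_lit 2) (nat_lit 1) (nat_lit 9) L57424 (by decide +kernel)
theorem L57426 : W_10 (nat_lit 6) (nat_lit 0x800340003001300080000000000000000000000000000000) (nat_lit 0x0) (nat_lit 0x8000700038000400020000c00000000000000000000000000000000000000) := T_10 (nat_lit 207) (nat_lit 190) (nat_lit 5) (nat_lit 4) (nat_lit 8) L57425 (by decide +kernel)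
theorem L57427 : W_10 (nat_lit 7) (nat_lit 0x800240003001300080000000000000000000000000000000) (nat_lit 0x0) (nat_lit 0x80007000380004001a0000c00000000000000000000000000000000000000) := T_10 (nat_lit 176) (nat_lit 175) (nat_lit 0) (nat_lit 7) (nat_lit 10) L57426 (by decide +kernel)
theorem L57428 : W_10 (nat_lit 2) (nat_lit 0xc00240003001300088000000000000000000000000000000) (nat_lit 0x0) (nat_lit 0x80004000200000000000000000000000000) := D_10 (nat_lit 122) (nat_lit 105) (nat_lit 139) (nat_lit 4) (nat_lit 4) (nat_lit 10) (nat_lit 4) (nat_lit 4) (nat_lit 11) (by decide +kernel)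
theorem L57429 : W_10 (nat_lit 3) (nat_lit 0xc00240003001300080000000000000000000000000000000) (nat_lit 0x0) (nat_lit 0x2000000008000c000200000000000000000000000000) := T_10 (nat_lit 123) (nat_lit 173) (nat_lit 5) (nat_lit 4) (nat_lit 7) L57428 (by decide +kernel)
theorem L57430 : W_10 (nat_lit 4) (nat_lit 0x800240003001300080000000000000000000000000000000) (nat_lit 0x0) (nat_lit 0x800040002000000008000c000200000000000000000000000000) := T_10 (nat_lit 190) (nat_lit 207) (nat_lit 5) (nat_lit 4) (nat_lit 8) L57429 (by decide +kernel)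
theorem L57431 : W_10 (nat_lit 8) (nat_lit 0x240003001300080000000000000000000000000000000) (nat_lit 0x0) (nat_lit 0x8000700038000c001a0000c0008000c000200000000000000000000000000) := Q_10 (nat_lit 191) (C_10 L57406 (C_10 L57427 (C_10 L57430 N_10))) (by decide +kernel)
theorem L57432 : W_10 (nat_lit 2) (nat_lit 0x2c0003001300088000000000000000000000000000000) (nat_lit 0x0) (nat_lit 0x400020000000000000000400000000000000000000000000) := D_10 (nat_lit 173) (nat_lit 190) (nat_lit 106) (nat_lit 5) (nat_lit 4) (nat_lit 7) (nat_lit 5) (nat_lit 4) (nat_lit 6) (by decide +kernel)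
theorem L57433 : W_10 (nat_lit 3) (nat_lit 0x2c0003001300080000000000000000000000000000000) (nat_lit 0x0) (nat_lit 0x1400020000000000008000400000000000000000000000000) := T_10 (nat_lit 123) (nat_lit 192) (nat_lit 7) (nat_lit 4) (nat_lit 7) L57432 (by decide +kernel)
theorem L57434 : W_10 (nat_lit 4) (nat_lit 0x240003001300080000000000000000000000000000000) (nat_lit 0x0) (nat_lit 0x14001a0000000000008000400000000000000000000000000) := T_10 (nat_lit 175) (nat_lit 176) (nat_lit 0) (nat_lit 7) (nat_lit 10) L57433 (by decide +kernel)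
theorem L57435 : W_10 (nat_lit 2) (nat_lit 0x2c0003401300088000400000000000000000000000000) (nat_lit 0x0) (nat_lit 0x4000200010000000000000000000000) := D_10 (nat_lit 105) (nat_lit 122) (nat_lit 88) (nat_lit 4) (nat_lit 4) (nat_lit 10) (nat_lit 4) (nat_lit 4) (nat_lit 9) (by decide +kernel)
theorem L57436 : W_10 (nat_lit 3) (nat_lit 0x2c0003401300088000000000000000000000000000000) (nat_lit 0x0) (nat_lit 0x20000000000004000600010000000000000000000000) := T_10 (nat_lit 106) (nat_lit 173) (nat_lit 5) (nat_lit 4) (nat_lit 6) L57435 (by decide +kernel)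
theorem L57437 : W_10 (nat_lit 4) (nat_lit 0x2c0003401300080000000000000000000000000000000) (nat_lit 0x0) (nat_lit 0x100002000000000000c000600010000000000000000000000) := T_10 (nat_lit 123) (nat_lit 192) (nat_lit 7) (nat_lit 4) (nat_lit 7) L57436 (by decide +kernel)
theorem L57438 : W_10 (nat_lit 5) (nat_lit 0x2c0003001300080000000000000000000000000000000) (nat_lit 0x0) (nat_lit 0x1000020000c0000000c000600010000000000000000000000) := T_10 (nat_lit 154) (nat_lit 155) (nat_lit 3) (nat_lit 1) (nat_lit 9) L57437 (by decide +kernel)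
theorem L57439 : W_10 (nat_lit 6) (nat_lit 0x240003001300080000000000000000000000000000000) (nat_lit 0x0) (nat_lit 0x10001a0000c0000000c000600010000000000000000000000) := T_10 (nat_lit 175) (nat_lit 176) (nat_lit 0) (nat_lit 7) (nat_lit 10) L57438 (by decide +kernel)
theorem L57440 : W_10 (nat_lit 9) (nat_lit 0x200003001300080000000000000000000000000000000) (nat_lit 0x0) (nat_lit 0x8000700038003c001f8000c0008000c000600010000000000000000000000) := Q_10 (nat_lit 174) (C_10 L57412 (C_10 L57417 (C_10 L57421 (C_10 L57431 (C_10 L57434 (C_10 L57439 N_10)))))) (by decide +kernel)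
theorem L57441 : W_10 (nat_lit 2) (nat_lit 0x30002b0007801340080000000000000000000000000000000) (nat_lit 0x0) (nat_lit 0x10000c00000000000000000000000000000000000000000000000) := D_10 (nat_lit 191) (nat_lit 190) (nat_lit 208) (nat_lit 0) (nat_lit 6) (nat_lit 11) (nat_lit 5) (nat_lit 5) (nat_lit 8) (by decide +kernel)
theorem L57442 : W_10 (nat_lit 3) (nat_lit 0x3000290007801340080000000000000000000000000000000) (nat_lit 0x0) (nat_lit 0x10000c00060000000000000000000000000000000000000000000) := T_10 (nat_lit 173) (nat_lit 174) (nat_lit 3) (nat_lit 2) (nat_lit 10) L57441 (by decide +kernel)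
theorem L57443 : W_10 (nat_lit 4) (nat_lit 0x1000290007801340080000000000000000000000000000000) (nat_lit 0x0) (nat_lit 0x50002c00060000000000000000000000000000000000000000000) := T_10 (nat_lit 193) (nat_lit 210) (nat_lit 7) (nat_lit 5) (nat_lit 8) L57442 (by decide +kernel)
theorem L57444 : W_10 (nat_lit 5) (nat_lit 0x1000290007801300080000000000000000000000000000000) (nat_lit 0x0) (nat_lit 0x50002c00060000000060000000000000000000000000000000000) := T_10 (nat_lit 138) (nat_lit 137) (nat_lit 0) (nat_lit 5) (nat_lit 9) L57443 (by decide +kernel)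
theorem L57445 : W_10 (nat_lit 6) (nat_lit 0x290007801300080000000000000000000000000000000) (nat_lit 0x0) (nat_lit 0x70003c00060000000060000000000000000000000000000000000) := T_10 (nat_lit 192) (nat_lit 209) (nat_lit 4) (nat_lit 5) (nat_lit 12) L57444 (by decide +kernel)
theorem L57446 : W_10 (nat_lit 7) (nat_lit 0x210007801300080000000000000000000000000000000) (nat_lit 0x0) (nat_lit 0x70003c001e0000000060000000000000000000000000000000000) := T_10 (nat_lit 175) (nat_lit 176) (nat_lit 3) (nat_lit 2) (nat_lit 9) L57445 (by decide +kernel)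
theorem L57447 : W_10 (nat_lit 8) (nat_lit 0x200007801300080000000000000000000000000000000) (nat_lit 0x0) (nat_lit 0x70003c001f8000000060000000000000000000000000000000000) := T_10 (nat_lit 172) (nat_lit 171) (nat_lit 1) (nat_lit 5) (nat_lit 9) L57446 (by decide +kernel)
theorem L57448 : W_10 (nat_lit 9) (nat_lit 0x200007001300080000000000000000000000000000000) (nat_lit 0x0) (nat_lit 0x70003c001f8000c00060000000000000000000000000000000000) := T_10 (nat_lit 155) (nat_lit 154) (nat_lit 2) (nat_lit 1) (nat_lit 9) L57447 (by decide +kernel)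
theorem L57449 : W_10 (nat_lit 10) (nat_lit 0x200003001300080000000000000000000000000000000) (nat_lit 0x0) (nat_lit 0x70003c001f801cc000e0000000000000000000000000000000000) := Q_10 (nat_lit 158) (C_10 L57397 (C_10 L57404 (C_10 L57401 (C_10 L57448 N_10)))) (by decide +kernel)
theorem L57450 : W_10 (nat_lit 2) (nat_lit 0x400220003401300080000000000000000000000000000000) (nat_lit 0x0) (nat_lit 0x80008000400000000000000000000000000) := D_10 (nat_lit 123) (nat_lit 106) (nat_lit 139) (nat_lit 5) (nat_lit 4) (nat_lit 6) (nat_lit 6) (nat_lit 3) (nat_lit 11) (by decide +kernel)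
theorem L57451 : W_10 (nat_lit 3) (nat_lit 0x220003401300080000000000000000000000000000000) (nat_lit 0x0) (nat_lit 0x8000400000000000080008000400000000000000000000000000) := T_10 (nat_lit 190) (nat_lit 207) (nat_lit 6) (nat_lit 3) (nat_lit 12) L57450 (by decide +kernel)
theorem L57452 : W_10 (nat_lit 4) (nat_lit 0x220003001300080000000000000000000000000000000) (nat_lit 0x0) (nat_lit 0x8000400000000c00080008000400000000000000000000000000) := T_10 (nat_lit 154) (nat_lit 155) (nat_lit 2) (nat_lit 1) (nat_lit 9) L57451 (by decide +kernel)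
theorem L57453 : W_10 (nat_lit 2) (nat_lit 0x238003401300080000000000000000000000000000000) (nat_lit 0x0) (nat_lit 0x4000c000000000000000000000000000000000000000) := D_10 (nat_lit 158) (nat_lit 159) (nat_lit 174) (nat_lit 1) (nat_lit 6) (nat_lit 9) (nat_lit 2) (nat_lit 1) (nat_lit 10) (by decide +kernel)
theorem L57454 : W_10 (nat_lit 3) (nat_lit 0x230003401300080000000000000000000000000000000) (nat_lit 0x0) (nat_lit 0x4c00c000000000000000000000000000000000000000) := T_10 (nat_lit 171) (nat_lit 170) (nat_lit 2) (nat_lit 0) (nat_lit 10) L57453 (by decide +kernel)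
theorem L57455 : W_10 (nat_lit 4) (nat_lit 0x230003001300080000000000000000000000000000000) (nat_lit 0x0) (nat_lit 0x4c00cc00000000000000000000000000000000000000) := T_10 (nat_lit 154) (nat_lit 155) (nat_lit 2) (nat_lit 1) (nat_lit 9) L57454 (by decide +kernel)
theorem L57456 : W_10 (nat_lit 2) (nat_lit 0x238003401300080000000000000000000000000000000) (nat_lit 0x0) (nat_lit 0x40004200000000000000000000000000000000000000) := D_10 (nat_lit 174) (nat_lit 153) (nat_lit 158) (nat_lit 0) (nat_lit 4) (nat_lit 10) (nat_lit 2) (nat_lit 1) (nat_lit 10) (by decide +kernel)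
theorem L57457 : W_10 (nat_lit 3) (nat_lit 0x230003401300080000000000000000000000000000000) (nat_lit 0x0) (nat_lit 0x4c004200000000000000000000000000000000000000) := T_10 (nat_lit 171) (nat_lit 170) (nat_lit 2) (nat_lit 0) (nat_lit 10) L57456 (by decide +kernel)
theorem L57458 : W_10 (nat_lit 4) (nat_lit 0x230003001300080000000000000000000000000000000) (nat_lit 0x0) (nat_lit 0x4c004e00000000000000000000000000000000000000) := T_10 (nat_lit 154) (nat_lit 155) (nat_lit 2) (nat_lit 1) (nat_lit 9) L57457 (by decide +kernel)
theorem L57459 : W_10 (nat_lit 2) (nat_lit 0x8000000230007001300080000000000000000000000000000000) (nat_lit 0x0) (nat_lit 0x8000c00000000000000000000000000000000000000) := D_10 (nat_lit 155) (nat_lit 154) (nat_lit 171) (nat_lit 2) (nat_lit 1) (nat_lit 9) (nat_lit 1) (nat_lit 5) (nat_lit 9) (by decide +kernel)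
theorem L57460 : W_10 (nat_lit 3) (nat_lit 0x8000000230003001300080000000000000000000000000000000) (nat_lit 0x0) (nat_lit 0x800cc00000000000000000000000000000000000000) := T_10 (nat_lit 158) (nat_lit 159) (nat_lit 1) (nat_lit 6) (nat_lit 9) L57459 (by decide +kernel)
theorem L57461 : W_10 (nat_lit 4) (nat_lit 0x230003001300080000000000000000000000000000000) (nat_lit 0x0) (nat_lit 0x800040000800cc00000000000000000000000000000000000000) := T_10 (nat_lit 207) (nat_lit 190) (nat_lit 6) (nat_lit 3) (nat_lit 12) L57460 (by decide +kernel)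
theorem L57462 : W_10 (nat_lit 2) (nat_lit 0x8000900278003401300080000000000000000000000000000000) (nat_lit 0x0) (nat_lit 0x10000000000000000080004000000000000000000000000000000) := D_10 (nat_lit 139) (nat_lit 122) (nat_lit 208) (nat_lit 7) (nat_lit 3) (nat_lit 7) (nat_lit 4) (nat_lit 4) (nat_lit 12) (by decide +kernel)
theorem L57463 : W_10 (nat_lit 3) (nat_lit 0x8000100278003401300080000000000000000000000000000000) (nat_lit 0x0) (nat_lit 0x10001800000000000080004000000000000000000000000000000) := T_10 (nat_lit 191) (nat_lit 192) (nat_lit 3) (nat_lit 1) (nat_lit 10) L57462 (by decide +kernel)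
theorem L57464 : W_10 (nat_lit 4) (nat_lit 0x8000000278003401300080000000000000000000000000000000) (nat_lit 0x0) (nat_lit 0x10001980000000000080004000000000000000000000000000000) := T_10 (nat_lit 188) (nat_lit 187) (nat_lit 1) (nat_lit 4) (nat_lit 10) L57463 (by decide +kernel)
theorem L57465 : W_10 (nat_lit 5) (nat_lit 0x8000000238003401300080000000000000000000000000000000) (nat_lit 0x0) (nat_lit 0x10001980040000200080004000000000000000000000000000000) := T_10 (nat_lit 174) (nat_lit 153) (nat_lit 0) (nat_lit 4) (nat_lit 10) L57464 (by decide +kernel)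
theorem L57466 : W_10 (nat_lit 6) (nat_lit 0x8000000230003401300080000000000000000000000000000000) (nat_lit 0x0) (nat_lit 0x1000198004c000200080004000000000000000000000000000000) := T_10 (nat_lit 171) (nat_lit 170) (nat_lit 2) (nat_lit 0) (nat_lit 10) L57465 (by decide +kernel)
theorem L57467 : W_10 (nat_lit 7) (nat_lit 0x230003401300080000000000000000000000000000000) (nat_lit 0x0) (nat_lit 0x18001d8004c000200080004000000000000000000000000000000) := T_10 (nat_lit 207) (nat_lit 190) (nat_lit 6) (nat_lit 3) (nat_lit 12) L57466 (by decide +kernel)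
theorem L57468 : W_10 (nat_lit 8) (nat_lit 0x230003001300080000000000000000000000000000000) (nat_lit 0x0) (nat_lit 0x18001d8004c000e00080004000000000000000000000000000000) := T_10 (nat_lit 154) (nat_lit 155) (nat_lit 2) (nat_lit 1) (nat_lit 9) L57467 (by decide +kernel)
theorem L57469 : W_10 (nat_lit 2) (nat_lit 0x238003001300080000000000000000000000000000000) (nat_lit 0x0) (nat_lit 0x4000c000000000000000000000000000000000000000) := D_10 (nat_lit 158) (nat_lit 159) (nat_lit 174) (nat_lit 1) (nat_lit 6) (nat_lit 9) (nat_lit 2) (nat_lit 1) (nat_lit 10) (by decide +kernel)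
theorem L57470 : W_10 (nat_lit 3) (nat_lit 0x230003001300080000000000000000000000000000000) (nat_lit 0x0) (nat_lit 0x4c00c000000000000000000000000000000000000000) := T_10 (nat_lit 171) (nat_lit 170) (nat_lit 2) (nat_lit 0) (nat_lit 10) L57469 (by decide +kernel)
theorem L57471 : W_10 (nat_lit 2) (nat_lit 0x8000000230007801340082000000000000000000000000000000) (nat_lit 0x0) (nat_lit 0x80001000080000000000000000000000000) := D_10 (nat_lit 120) (nat_lit 139) (nat_lit 103) (nat_lit 0) (nat_lit 5) (nat_lit 8) (nat_lit 4) (nat_lit 2) (nat_lit 10) (by decide +kernel)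
theorem L57472 : W_10 (nat_lit 3) (nat_lit 0x8000000230007801340080000000000000000000000000000000) (nat_lit 0x0) (nat_lit 0x80003000180000000000000000000000000) := T_10 (nat_lit 121) (nat_lit 104) (nat_lit 7) (nat_lit 2) (nat_lit 6) L57471 (by decide +kernel)
theorem L57473 : W_10 (nat_lit 4) (nat_lit 0x8000000230007801300080000000000000000000000000000000) (nat_lit 0x0) (nat_lit 0xe0003000180000000000000000000000000) := T_10 (nat_lit 138) (nat_lit 137) (nat_lit 0) (nat_lit 5) (nat_lit 9) L57472 (by decide +kernel)
theorem L57474 : W_10 (nat_lit 5) (nat_lit 0x230007801300080000000000000000000000000000000) (nat_lit 0x0) (nat_lit 0x80004000000000000e0003000180000000000000000000000000) := T_10 (nat_lit 207) (nat_lit 190) (nat_lit 6) (nat_lit 3) (nat_lit 12) L57473 (by decide +kernel)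
theorem L57475 : W_10 (nat_lit 6) (nat_lit 0x230007001300080000000000000000000000000000000) (nat_lit 0x0) (nat_lit 0x8000400000000c000e0003000180000000000000000000000000) := T_10 (nat_lit 155) (nat_lit 154) (nat_lit 2) (nat_lit 1) (nat_lit 9) L57474 (by decide +kernel)
theorem L57476 : W_10 (nat_lit 7) (nat_lit 0x230003001300080000000000000000000000000000000) (nat_lit 0x0) (nat_lit 0x800040000000cc000e0003000180000000000000000000000000) := T_10 (nat_lit 158) (nat_lit 159) (nat_lit 1) (nat_lit 6) (nat_lit 9) L57475 (by decide +kernel)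
theorem L57477 : W_10 (nat_lit 9) (nat_lit 0x220003001300080000000000000000000000000000000) (nat_lit 0x0) (nat_lit 0x18001d8005c00ce000e0007000180000000000000000000000000) := Q_10 (nat_lit 172) (C_10 L57455 (C_10 L57458 (C_10 L57461 (C_10 L57468 (C_10 L57470 (C_10 L57476 N_10)))))) (by decide +kernel)
theorem L57478 : W_10 (nat_lit 2) (nat_lit 0x400220003001300080000000000000000000000000000000) (nat_lit 0x0) (nat_lit 0x40000000000008000400000000000000000000000000) := D_10 (nat_lit 123) (nat_lit 106) (nat_lit 174) (nat_lit 5) (nat_lit 4) (nat_lit 6) (nat_lit 5) (nat_lit 4) (nat_lit 7) (by decide +kernel)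
theorem L57479 : W_10 (nat_lit 3) (nat_lit 0x220003001300080000000000000000000000000000000) (nat_lit 0x0) (nat_lit 0x8000400040000000000008000400000000000000000000000000) := T_10 (nat_lit 190) (nat_lit 207) (nat_lit 6) (nat_lit 3) (nat_lit 12) L57478 (by decide +kernel)
theorem L57480 : W_10 (nat_lit 2) (nat_lit 0x22000f001300080000400000000000000000000000000) (nat_lit 0x0) (nat_lit 0x30000080000000000000000000000000000000000) := D_10 (nat_lit 160) (nat_lit 161) (nat_lit 139) (nat_lit 0) (nat_lit 8) (nat_lit 9) (nat_lit 0) (nat_lit 7) (nat_lit 9) (by decide +kernel)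
theorem L57481 : W_10 (nat_lit 3) (nat_lit 0x220007001300080000400000000000000000000000000) (nat_lit 0x0) (nat_lit 0x10038000080000000000000000000000000000000000) := T_10 (nat_lit 159) (nat_lit 172) (nat_lit 1) (nat_lit 6) (nat_lit 9) L57480 (by decide +kernel)
theorem L57482 : W_10 (nat_lit 4) (nat_lit 0x220007001300080000000000000000000000000000000) (nat_lit 0x0) (nat_lit 0x10038000080008000400000000000000000000000000) := T_10 (nat_lit 106) (nat_lit 123) (nat_lit 5) (nat_lit 4) (nat_lit 6) L57481 (by decide +kernel)
theorem L57483 : W_10 (nat_lit 2) (nat_lit 0x22000f001340080000000000000000000000000000000) (nat_lit 0x0) (nat_lit 0xc00020000000000000000000000000000000000) := D_10 (nat_lit 155) (nat_lit 154) (nat_lit 137) (nat_lit 2) (nat_lit 1) (nat_lit 9) (nat_lit 0) (nat_lit 5) (nat_lit 9) (by decide +kernel)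
theorem L57484 : W_10 (nat_lit 3) (nat_lit 0x22000f001300080000000000000000000000000000000) (nat_lit 0x0) (nat_lit 0xc000e0000000000000000000000000000000000) := T_10 (nat_lit 138) (nat_lit 139) (nat_lit 3) (nat_lit 2) (nat_lit 8) L57483 (by decide +kernel)
theorem L57485 : W_10 (nat_lit 4) (nat_lit 0x220007001300080000000000000000000000000000000) (nat_lit 0x0) (nat_lit 0x10008c000e0000000000000000000000000000000000) := T_10 (nat_lit 159) (nat_lit 172) (nat_lit 1) (nat_lit 6) (nat_lit 9) L57484 (by decide +kernel)
theorem L57486 : W_10 (nat_lit 2) (nat_lit 0x22000f001300080000400000000000000000000000000) (nat_lit 0x0) (nat_lit 0x40030000000000000000000000000000000000000000) := D_10 (nat_lit 160) (nat_lit 161) (nat_lit 174) (nat_lit 0) (nat_lit 8) (nat_lit 9) (nat_lit 1) (nat_lit 7) (nat_lit 9) (by decide +kernel)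
theorem L57487 : W_10 (nat_lit 3) (nat_lit 0x220007001300080000400000000000000000000000000) (nat_lit 0x0) (nat_lit 0x50038000000000000000000000000000000000000000) := T_10 (nat_lit 159) (nat_lit 172) (nat_lit 1) (nat_lit 6) (nat_lit 9) L57486 (by decide +kernel)
theorem L57488 : W_10 (nat_lit 4) (nat_lit 0x220007001300080000000000000000000000000000000) (nat_lit 0x0) (nat_lit 0x50038000000008000400000000000000000000000000) := T_10 (nat_lit 106) (nat_lit 123) (nat_lit 5) (nat_lit 4) (nat_lit 6) L57487 (by decide +kernel)
theorem L57489 : W_10 (nat_lit 2) (nat_lit 0x230007801340082000400000000000000000000000000) (nat_lit 0x0) (nat_lit 0x80001000080000000000000000000000000) := D_10 (nat_lit 120) (nat_lit 139) (nat_lit 103) (nat_lit 0) (nat_lit 5) (nat_lit 8) (nat_lit 4) (nat_lit 2) (nat_lit 10) (by decide +kernel)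
theorem L57490 : W_10 (nat_lit 3) (nat_lit 0x230007801340080000400000000000000000000000000) (nat_lit 0x0) (nat_lit 0x80003000180000000000000000000000000) := T_10 (nat_lit 121) (nat_lit 104) (nat_lit 7) (nat_lit 2) (nat_lit 6) L57489 (by decide +kernel)
theorem L57491 : W_10 (nat_lit 4) (nat_lit 0x230007801300080000400000000000000000000000000) (nat_lit 0x0) (nat_lit 0xe0003000180000000000000000000000000) := T_10 (nat_lit 138) (nat_lit 137) (nat_lit 0) (nat_lit 5) (nat_lit 9) L57490 (by decide +kernel)
theorem L57492 : W_10 (nat_lit 5) (nat_lit 0x220007801300080000400000000000000000000000000) (nat_lit 0x0) (nat_lit 0x180000000e0003000180000000000000000000000000) := T_10 (nat_lit 172) (nat_lit 171) (nat_lit 1) (nat_lit 5) (nat_lit 9) L57491 (by decide +kernel)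
theorem L57493 : W_10 (nat_lit 6) (nat_lit 0x220007001300080000400000000000000000000000000) (nat_lit 0x0) (nat_lit 0x18000c000e0003000180000000000000000000000000) := T_10 (nat_lit 155) (nat_lit 154) (nat_lit 2) (nat_lit 1) (nat_lit 9) L57492 (by decide +kernel)
theorem L57494 : W_10 (nat_lit 7) (nat_lit 0x220007001300080000000000000000000000000000000) (nat_lit 0x0) (nat_lit 0x18000c000e000b000580000000000000000000000000) := T_10 (nat_lit 106) (nat_lit 123) (nat_lit 5) (nat_lit 4) (nat_lit 6) L57493 (by decide +kernel)
theorem L57495 : W_10 (nat_lit 2) (nat_lit 0x22000f801340080000400000000000000000000000000) (nat_lit 0x0) (nat_lit 0x40030000000000000000000000000000000000000000) := D_10 (nat_lit 160) (nat_lit 174) (nat_lit 161) (nat_lit 1) (nat_lit 7) (nat_lit 9) (nat_lit 0) (nat_lit 8) (nat_lit 9) (by decide +kernel)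
theorem L57496 : W_10 (nat_lit 3) (nat_lit 0x220007801340080000400000000000000000000000000) (nat_lit 0x0) (nat_lit 0x40038000080000000000000000000000000000000000) := T_10 (nat_lit 159) (nat_lit 139) (nat_lit 3) (nat_lit 2) (nat_lit 8) L57495 (by decide +kernel)
theorem L57497 : W_10 (nat_lit 4) (nat_lit 0x220007801300080000400000000000000000000000000) (nat_lit 0x0) (nat_lit 0x400380000e0000000000000000000000000000000000) := T_10 (nat_lit 138) (nat_lit 137) (nat_lit 0) (nat_lit 5) (nat_lit 9) L57496 (by decide +kernel)
theorem L57498 : W_10 (nat_lit 5) (nat_lit 0x220007801300080000000000000000000000000000000) (nat_lit 0x0) (nat_lit 0x400380000e0008000400000000000000000000000000) := T_10 (nat_lit 106) (nat_lit 123) (nat_lit 5) (nat_lit 4) (nat_lit 6) L57497 (by decide +kernel)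
theorem L57499 : W_10 (nat_lit 6) (nat_lit 0x220007001300080000000000000000000000000000000) (nat_lit 0x0) (nat_lit 0x40038c000e0008000400000000000000000000000000) := T_10 (nat_lit 155) (nat_lit 154) (nat_lit 2) (nat_lit 1) (nat_lit 9) L57498 (by decide +kernel)
theorem L57500 : W_10 (nat_lit 8) (nat_lit 0x220003001300080000000000000000000000000000000) (nat_lit 0x0) (nat_lit 0x5803cc000e000b000580000000000000000000000000) := Q_10 (nat_lit 158) (C_10 L57482 (C_10 L57485 (C_10 L57488 (C_10 L57494 (C_10 L57499 N_10))))) (by decide +kernel)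
theorem L57501 : W_10 (nat_lit 10) (nat_lit 0x200003001300080000000000000000000000000000000) (nat_lit 0x0) (nat_lit 0x18001d8007c03ce000e000f000580000000000000000000000000) := Q_10 (nat_lit 173) (C_10 L57452 (C_10 L57477 (C_10 L57479 (C_10 L57500 N_10)))) (by decide +kernel)
theorem L57502 : W_10 (nat_lit 2) (nat_lit 0x230007801340080000000000000000000000000000000) (nat_lit 0x0) (nat_lit 0x8000400000000000000002000000000000000000000000000000) := D_10 (nat_lit 190) (nat_lit 207) (nat_lit 121) (nat_lit 6) (nat_lit 3) (nat_lit 12) (nat_lit 7) (nat_lit 2) (nat_lit 7) (by decide +kernel)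
theorem L57503 : W_10 (nat_lit 3) (nat_lit 0x210007801340080000000000000000000000000000000) (nat_lit 0x0) (nat_lit 0x8000400020008000000002000000000000000000000000000000) := T_10 (nat_lit 173) (nat_lit 159) (nat_lit 1) (nat_lit 6) (nat_lit 9) L57502 (by decide +kernel)
theorem L57504 : W_10 (nat_lit 4) (nat_lit 0x210007801300080000000000000000000000000000000) (nat_lit 0x0) (nat_lit 0x8000400020008000060002000000000000000000000000000000) := T_10 (nat_lit 138) (nat_lit 137) (nat_lit 0) (nat_lit 5) (nat_lit 9) L57503 (by decide +kernel)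
theorem L57505 : W_10 (nat_lit 5) (nat_lit 0x200007801300080000000000000000000000000000000) (nat_lit 0x0) (nat_lit 0x8000400038008000060002000000000000000000000000000000) := T_10 (nat_lit 172) (nat_lit 171) (nat_lit 1) (nat_lit 5) (nat_lit 9) L57504 (by decide +kernel)
theorem L57506 : W_10 (nat_lit 6) (nat_lit 0x200007001300080000000000000000000000000000000) (nat_lit 0x0) (nat_lit 0x8000400038008c00060002000000000000000000000000000000) := T_10 (nat_lit 155) (nat_lit 154) (nat_lit 2) (nat_lit 1) (nat_lit 9) L57505 (by decide +kernel)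
theorem L57507 : W_10 (nat_lit 2) (nat_lit 0x22000f001300080000000000000000000000000000000) (nat_lit 0x0) (nat_lit 0x40030000000000000000000000000000000000000000) := D_10 (nat_lit 160) (nat_lit 161) (nat_lit 174) (nat_lit 0) (nat_lit 8) (nat_lit 9) (nat_lit 1) (nat_lit 7) (nat_lit 9) (by decide +kernel)
theorem L57508 : W_10 (nat_lit 3) (nat_lit 0x20000f001300080000000000000000000000000000000) (nat_lit 0x0) (nat_lit 0x70030000000000000000000000000000000000000000) := T_10 (nat_lit 173) (nat_lit 172) (nat_lit 1) (nat_lit 6) (nat_lit 9) L57507 (by decide +kernel)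
theorem L57509 : W_10 (nat_lit 4) (nat_lit 0x200007001300080000000000000000000000000000000) (nat_lit 0x0) (nat_lit 0x170038000000000000000000000000000000000000000) := T_10 (nat_lit 159) (nat_lit 176) (nat_lit 3) (nat_lit 3) (nat_lit 9) L57508 (by decide +kernel)
theorem L57510 : W_10 (nat_lit 2) (nat_lit 0x1c0024001f401300088000400000000000000000000000000) (nat_lit 0x0) (nat_lit 0x4000200010000000000000000000000) := D_10 (nat_lit 105) (nat_lit 122) (nat_lit 88) (nat_lit 4) (nat_lit 4) (nat_lit 10) (nat_lit 4) (nat_lit 4) (nat_lit 9) (by decide +kernel)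
theorem L57511 : W_10 (nat_lit 3) (nat_lit 0x1c0024001f401300088000000000000000000000000000000) (nat_lit 0x0) (nat_lit 0x4000600030000000000000000000000) := T_10 (nat_lit 106) (nat_lit 89) (nat_lit 7) (nat_lit 4) (nat_lit 5) L57510 (by decide +kernel)
theorem L57512 : W_10 (nat_lit 4) (nat_lit 0x1c0024001f401300080000000000000000000000000000000) (nat_lit 0x0) (nat_lit 0x8000000000000c000600030000000000000000000000) := T_10 (nat_lit 123) (nat_lit 175) (nat_lit 7) (nat_lit 4) (nat_lit 7) L57511 (by decide +kernel)
theorem L57513 : W_10 (nat_lit 5) (nat_lit 0xc0024001f401300080000000000000000000000000000000) (nat_lit 0x0) (nat_lit 0x2000100008000000000000c000600030000000000000000000000) := T_10 (nat_lit 192) (nat_lit 209) (nat_lit 7) (nat_lit 4) (nat_lit 8) L57512 (by decide +kernel)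
theorem L57514 : W_10 (nat_lit 6) (nat_lit 0x80024001f401300080000000000000000000000000000000) (nat_lit 0x0) (nat_lit 0x2800140008000000000000c000600030000000000000000000000) := T_10 (nat_lit 190) (nat_lit 207) (nat_lit 5) (nat_lit 4) (nat_lit 8) L57513 (by decide +kernel)
theorem L57515 : W_10 (nat_lit 7) (nat_lit 0x24001f401300080000000000000000000000000000000) (nat_lit 0x0) (nat_lit 0x38001c0008000000000000c000600030000000000000000000000) := T_10 (nat_lit 191) (nat_lit 208) (nat_lit 6) (nat_lit 4) (nat_lit 12) L57514 (by decide +kernel)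
theorem L57516 : W_10 (nat_lit 8) (nat_lit 0x20001f401300080000000000000000000000000000000) (nat_lit 0x0) (nat_lit 0x38001c000e000000000000c000600030000000000000000000000) := T_10 (nat_lit 174) (nat_lit 173) (nat_lit 1) (nat_lit 7) (nat_lit 9) L57515 (by decide +kernel)
theorem L57517 : W_10 (nat_lit 9) (nat_lit 0x20001f001300080000000000000000000000000000000) (nat_lit 0x0) (nat_lit 0x38001c000e0000c0000000c000600030000000000000000000000) := T_10 (nat_lit 154) (nat_lit 155) (nat_lit 2) (nat_lit 1) (nat_lit 9) L57516 (by decide +kernel)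
theorem L57518 : W_10 (nat_lit 10) (nat_lit 0x20000f001300080000000000000000000000000000000) (nat_lit 0x0) (nat_lit 0x38001c000e0030c0000000c000600030000000000000000000000) := T_10 (nat_lit 160) (nat_lit 161) (nat_lit 0) (nat_lit 8) (nat_lit 9) L57517 (by decide +kernel)
theorem L57519 : W_10 (nat_lit 11) (nat_lit 0x200007001300080000000000000000000000000000000) (nat_lit 0x0) (nat_lit 0x38001c001e0038c0000000c000600030000000000000000000000) := T_10 (nat_lit 159) (nat_lit 176) (nat_lit 3) (nat_lit 3) (nat_lit 9) L57518 (by decide +kernel)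
theorem L57520 : W_10 (nat_lit 12) (nat_lit 0x200003001300080000000000000000000000000000000) (nat_lit 0x0) (nat_lit 0x78003c001f803cc0006000e000600030000000000000000000000) := Q_10 (nat_lit 158) (C_10 L57402 (C_10 L57448 (C_10 L57506 (C_10 L57509 (C_10 L57519 N_10))))) (by decide +kernel)
theorem L57521 : W_10 (nat_lit 3) (nat_lit 0x210007801340080000000000000000000000000000000) (nat_lit 0x0) (nat_lit 0x200000008000080004000200000000000000000000000000) := T_10 (nat_lit 139) (nat_lit 159) (nat_lit 3) (nat_lit 2) (nat_lit 8) L55447 (by decide +kernel)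
theorem L57522 : W_10 (nat_lit 4) (nat_lit 0x210007801300080000000000000000000000000000000) (nat_lit 0x0) (nat_lit 0x2000000080000e0004000200000000000000000000000000) := T_10 (nat_lit 138) (nat_lit 137) (nat_lit 0) (nat_lit 5) (nat_lit 9) L57521 (by decide +kernel)
theorem L57523 : W_10 (nat_lit 5) (nat_lit 0x200007801300080000000000000000000000000000000) (nat_lit 0x0) (nat_lit 0x2000180080000e0004000200000000000000000000000000) := T_10 (nat_lit 172) (nat_lit 171) (nat_lit 1) (nat_lit 5) (nat_lit 9) L57522 (by decide +kernel)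
theorem L57524 : W_10 (nat_lit 6) (nat_lit 0x200007001300080000000000000000000000000000000) (nat_lit 0x0) (nat_lit 0x200018008c000e0004000200000000000000000000000000) := T_10 (nat_lit 155) (nat_lit 154) (nat_lit 2) (nat_lit 1) (nat_lit 9) L57523 (by decide +kernel)
theorem L57525 : W_10 (nat_lit 7) (nat_lit 0x200003001300080000000000000000000000000000000) (nat_lit 0x0) (nat_lit 0x120019801cc000e000c000600000000000000000000000000) := Q_10 (nat_lit 158) (C_10 L57402 (C_10 L57404 (C_10 L57524 N_10))) (by decide +kernel)
theorem L57526 : W_10 (nat_lit 2) (nat_lit 0x350007801380084000000000000000000000000000000) (nat_lit 0x0) (nat_lit 0x4000200020000000000000000000000000000000000000000000) := D_10 (nat_lit 189) (nat_lit 206) (nat_lit 173) (nat_lit 6) (nat_lit 2) (nat_lit 12) (nat_lit 5) (nat_lit 3) (nat_lit 7) (by decide +kernel)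
theorem L57527 : W_10 (nat_lit 3) (nat_lit 0x340007801380084000000000000000000000000000000) (nat_lit 0x0) (nat_lit 0x4000200038000000000000000000000000000000000000000000) := T_10 (nat_lit 172) (nat_lit 171) (nat_lit 1) (nat_lit 5) (nat_lit 9) L57526 (by decide +kernel)
theorem L57528 : W_10 (nat_lit 4) (nat_lit 0x340003801380084000000000000000000000000000000) (nat_lit 0x0) (nat_lit 0x400020003800c000000000000000000000000000000000000000) := T_10 (nat_lit 158) (nat_lit 159) (nat_lit 3) (nat_lit 3) (nat_lit 9) L57527 (by decide +kernel)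
theorem L57529 : W_10 (nat_lit 5) (nat_lit 0x240003801380084000000000000000000000000000000) (nat_lit 0x0) (nat_lit 0x40002001b800c000000000000000000000000000000000000000) := T_10 (nat_lit 176) (nat_lit 175) (nat_lit 0) (nat_lit 7) (nat_lit 10) L57528 (by decide +kernel)
theorem L57530 : W_10 (nat_lit 6) (nat_lit 0x240003801380080000000000000000000000000000000) (nat_lit 0x0) (nat_lit 0x40002001b800c000000004000200000000000000000000000000) := T_10 (nat_lit 122) (nat_lit 105) (nat_lit 7) (nat_lit 3) (nat_lit 6) L57529 (by decide +kernel)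
theorem L57531 : W_10 (nat_lit 7) (nat_lit 0x240003001380080000000000000000000000000000000) (nat_lit 0x0) (nat_lit 0x40002001b800cc00000004000200000000000000000000000000) := T_10 (nat_lit 155) (nat_lit 154) (nat_lit 2) (nat_lit 1) (nat_lit 9) L57530 (by decide +kernel)
theorem L57532 : W_10 (nat_lit 2) (nat_lit 0xc00240003401380088000400000000000000000000000000) (nat_lit 0x0) (nat_lit 0x180004000000000000000000000000000000000000000) := D_10 (nat_lit 175) (nat_lit 176) (nat_lit 158) (nat_lit 1) (nat_lit 7) (nat_lit 10) (nat_lit 7) (nat_lit 4) (nat_lit 6) (by decide +kernel)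
theorem L57533 : W_10 (nat_lit 3) (nat_lit 0xc00240003401380088000000000000000000000000000000) (nat_lit 0x0) (nat_lit 0x180004000000000000400020000000000000000000000) := T_10 (nat_lit 106) (nat_lit 89) (nat_lit 5) (nat_lit 4) (nat_lit 5) L57532 (by decide +kernel)
theorem L57534 : W_10 (nat_lit 4) (nat_lit 0xc00240003401380080000000000000000000000000000000) (nat_lit 0x0) (nat_lit 0x1a0004000000008000400020000000000000000000000) := T_10 (nat_lit 123) (nat_lit 173) (nat_lit 6) (nat_lit 3) (nat_lit 11) L57533 (by decide +kernel)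
theorem L57535 : W_10 (nat_lit 5) (nat_lit 0x800240003401380080000000000000000000000000000000) (nat_lit 0x0) (nat_lit 0x80004001a0004000000008000400020000000000000000000000) := T_10 (nat_lit 190) (nat_lit 207) (nat_lit 5) (nat_lit 4) (nat_lit 8) L57534 (by decide +kernel)
theorem L57536 : W_10 (nat_lit 6) (nat_lit 0x800240003001380080000000000000000000000000000000) (nat_lit 0x0) (nat_lit 0x80004001a0004c00000008000400020000000000000000000000) := T_10 (nat_lit 154) (nat_lit 155) (nat_lit 2) (nat_lit 1) (nat_lit 9) L57535 (by decide +kernel)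
theorem L57537 : W_10 (nat_lit 7) (nat_lit 0x240003001380080000000000000000000000000000000) (nat_lit 0x0) (nat_lit 0x18000c001a0004c00000008000400020000000000000000000000) := T_10 (nat_lit 191) (nat_lit 208) (nat_lit 4) (nat_lit 4) (nat_lit 12) L57536 (by decide +kernel)
theorem L57538 : W_10 (nat_lit 8) (nat_lit 0x200003001380080000000000000000000000000000000) (nat_lit 0x0) (nat_lit 0x1c000e001f800cc0000000c000600020000000000000000000000) := Q_10 (nat_lit 174) (C_10 L57531 (C_10 L34151 (C_10 L57537 N_10))) (by decide +kernel)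
theorem L57539 : W_10 (nat_lit 2) (nat_lit 0x2000034013c0080000000000000000000000000000000) (nat_lit 0x0) (nat_lit 0x200030000000000000000000000000000000000) := D_10 (nat_lit 137) (nat_lit 136) (nat_lit 153) (nat_lit 3) (nat_lit 0) (nat_lit 8) (nat_lit 1) (nat_lit 4) (nat_lit 8) (by decide +kernel)
theorem L57540 : W_10 (nat_lit 3) (nat_lit 0x2000030013c0080000000000000000000000000000000) (nat_lit 0x0) (nat_lit 0xe00030000000000000000000000000000000000) := T_10 (nat_lit 154) (nat_lit 155) (nat_lit 2) (nat_lit 1) (nat_lit 9) L57539 (by decide +kernel)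
theorem L57541 : W_10 (nat_lit 2) (nat_lit 0x2200030013d0082000000000000000000000000000000) (nat_lit 0x0) (nat_lit 0x4000100008000000000000000000000) := D_10 (nat_lit 104) (nat_lit 87) (nat_lit 122) (nat_lit 7) (nat_lit 2) (nat_lit 5) (nat_lit 4) (nat_lit 3) (nat_lit 10) (by decide +kernel)
theorem L57542 : W_10 (nat_lit 3) (nat_lit 0x2000030013d0082000000000000000000000000000000) (nat_lit 0x0) (nat_lit 0x400020000000000004000100008000000000000000000000) := T_10 (nat_lit 173) (nat_lit 190) (nat_lit 4) (nat_lit 3) (nat_lit 11) L57541 (by decide +kernel)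
theorem L57543 : W_10 (nat_lit 4) (nat_lit 0x2000030013d0080000000000000000000000000000000) (nat_lit 0x0) (nat_lit 0x400020000000000007000100008000000000000000000000) := T_10 (nat_lit 121) (nat_lit 120) (nat_lit 0) (nat_lit 5) (nat_lit 8) L57542 (by decide +kernel)
theorem L57544 : W_10 (nat_lit 5) (nat_lit 0x2000030013c0080000000000000000000000000000000) (nat_lit 0x0) (nat_lit 0x400020000000030007000100008000000000000000000000) := T_10 (nat_lit 136) (nat_lit 137) (nat_lit 3) (nat_lit 0) (nat_lit 8) L57543 (by decide +kernel)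
theorem L57545 : W_10 (nat_lit 6) (nat_lit 0x200003001380080000000000000000000000000000000) (nat_lit 0x0) (nat_lit 0x400020000e00070007000100008000000000000000000000) := Q_10 (nat_lit 138) (C_10 L55446 (C_10 L57540 (C_10 L57544 N_10))) (by decide +kernel)
theorem L57546 : W_10 (nat_lit 2) (nat_lit 0x2000030013c0080000000000000000000000000000000) (nat_lit 0x0) (nat_lit 0x4000030000000000000000000000000000000000) := D_10 (nat_lit 137) (nat_lit 136) (nat_lit 158) (nat_lit 3) (nat_lit 0) (nat_lit 8) (nat_lit 3) (nat_lit 1) (nat_lit 8) (by decide +kernel)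
theorem L57547 : W_10 (nat_lit 6) (nat_lit 0x200003001380080000000000000000000000000000000) (nat_lit 0x0) (nat_lit 0x40002000ce00070003000100000000000000000000000000) := Q_10 (nat_lit 138) (C_10 L57540 (C_10 L55442 (C_10 L57546 N_10))) (by decide +kernel)
theorem L57548 : W_10 (nat_lit 6) (nat_lit 0x200003001380080000000000000000000000000000000) (nat_lit 0x0) (nat_lit 0x20001800ce00070004000200000000000000000000000000) := Q_10 (nat_lit 138) (C_10 L57546 (C_10 L57540 (C_10 L55450 N_10))) (by decide +kernel)
theorem L57549 : W_10 (nat_lit 5) (nat_lit 0x200007001380080000000000000000000000000000000) (nat_lit 0x0) (nat_lit 0x400020000000060007000100008000000000000000000000) := T_10 (nat_lit 138) (nat_lit 137) (nat_lit 3) (nat_lit 1) (nat_lit 8) L55453 (by decide +kernel)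
theorem L57550 : W_10 (nat_lit 6) (nat_lit 0x200003001380080000000000000000000000000000000) (nat_lit 0x0) (nat_lit 0x40012001c000060007000100008000000000000000000000) := Q_10 (nat_lit 158) (C_10 L56012 (C_10 L57549 (C_10 L34198 N_10))) (by decide +kernel)
theorem L57551 : W_10 (nat_lit 9) (nat_lit 0x200003001300080000000000000000000000000000000) (nat_lit 0x0) (nat_lit 0x1c000e001f801ce000f000f000700028000000000000000000000) := Q_10 (nat_lit 139) (C_10 L57538 (C_10 L57545 (C_10 L57547 (C_10 L57548 (C_10 L57550 N_10))))) (by decide +kernel)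
theorem L57552 : W_10 (nat_lit 2) (nat_lit 0xc00340007001300080000000000000000000000000000000) (nat_lit 0x0) (nat_lit 0x20003000000000000000000000000000000000000000000000000) := D_10 (nat_lit 192) (nat_lit 193) (nat_lit 209) (nat_lit 2) (nat_lit 3) (nat_lit 11) (nat_lit 7) (nat_lit 4) (nat_lit 8) (by decide +kernel)
theorem L57553 : W_10 (nat_lit 3) (nat_lit 0x800340007001300080000000000000000000000000000000) (nat_lit 0x0) (nat_lit 0x28003400000000000000000000000000000000000000000000000) := T_10 (nat_lit 190) (nat_lit 207) (nat_lit 5) (nat_lit 4) (nat_lit 8) L57552 (by decide +kernel)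
theorem L57554 : W_10 (nat_lit 4) (nat_lit 0x340007001300080000000000000000000000000000000) (nat_lit 0x0) (nat_lit 0x38003c00000000000000000000000000000000000000000000000) := T_10 (nat_lit 191) (nat_lit 208) (nat_lit 6) (nat_lit 4) (nat_lit 12) L57553 (by decide +kernel)
theorem L57555 : W_10 (nat_lit 5) (nat_lit 0x340003001300080000000000000000000000000000000) (nat_lit 0x0) (nat_lit 0x38003c0000000c000000000000000000000000000000000000000) := T_10 (nat_lit 158) (nat_lit 159) (nat_lit 3) (nat_lit 3) (nat_lit 9) L57554 (by decide +kernel)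
theorem L57556 : W_10 (nat_lit 6) (nat_lit 0x240003001300080000000000000000000000000000000) (nat_lit 0x0) (nat_lit 0x38003c0018000c000000000000000000000000000000000000000) := T_10 (nat_lit 176) (nat_lit 175) (nat_lit 0) (nat_lit 7) (nat_lit 10) L57555 (by decide +kernel)
theorem L57557 : W_10 (nat_lit 2) (nat_lit 0x1800240003001300088000000000000000000000000000000) (nat_lit 0x0) (nat_lit 0x400020000000000000000400000000000000000000000000) := D_10 (nat_lit 173) (nat_lit 190) (nat_lit 106) (nat_lit 5) (nat_lit 4) (nat_lit 7) (nat_lit 5) (nat_lit 4) (nat_lit 6) (by decide +kernel)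
theorem L57558 : W_10 (nat_lit 3) (nat_lit 0x1800240003001300080000000000000000000000000000000) (nat_lit 0x0) (nat_lit 0x4000a0000000000008000400000000000000000000000000) := T_10 (nat_lit 123) (nat_lit 175) (nat_lit 7) (nat_lit 4) (nat_lit 7) L57557 (by decide +kernel)
theorem L57559 : W_10 (nat_lit 4) (nat_lit 0x800240003001300080000000000000000000000000000000) (nat_lit 0x0) (nat_lit 0x200014000a0000000000008000400000000000000000000000000) := T_10 (nat_lit 192) (nat_lit 209) (nat_lit 7) (nat_lit 4) (nat_lit 8) L57558 (by decide +kernel)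
theorem L57560 : W_10 (nat_lit 5) (nat_lit 0x240003001300080000000000000000000000000000000) (nat_lit 0x0) (nat_lit 0x38001c000a000000008000c000600000000000000000000000000) := Q_10 (nat_lit 191) (C_10 L57430 (C_10 L57406 (C_10 L57559 N_10))) (by decide +kernel)
theorem L57561 : W_10 (nat_lit 2) (nat_lit 0x1c0034000300130008d000000000000000000000000000000) (nat_lit 0x0) (nat_lit 0x1000000000000c000000000000000000000000000000000000000) := D_10 (nat_lit 158) (nat_lit 208) (nat_lit 159) (nat_lit 6) (nat_lit 4) (nat_lit 12) (nat_lit 3) (nat_lit 3) (nat_lit 9) (by decide +kernel)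
theorem L57562 : W_10 (nat_lit 3) (nat_lit 0x1c0024000300130008d000000000000000000000000000000) (nat_lit 0x0) (nat_lit 0x1000200010000c000000000000000000000000000000000000000) := T_10 (nat_lit 176) (nat_lit 193) (nat_lit 2) (nat_lit 3) (nat_lit 11) L57561 (by decide +kernel)
theorem L57563 : W_10 (nat_lit 4) (nat_lit 0x1c0024000300130008c000000000000000000000000000000) (nat_lit 0x0) (nat_lit 0x1000200010000c000000003000000000000000000000000000000) := T_10 (nat_lit 120) (nat_lit 121) (nat_lit 3) (nat_lit 1) (nat_lit 7) L57562 (by decide +kernel)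
theorem L57564 : W_10 (nat_lit 5) (nat_lit 0x1c00240003001300088000000000000000000000000000000) (nat_lit 0x0) (nat_lit 0x1000200010000c000000007000200000000000000000000000000) := T_10 (nat_lit 122) (nat_lit 105) (nat_lit 4) (nat_lit 4) (nat_lit 10) L57563 (by decide +kernel)
theorem L57565 : W_10 (nat_lit 6) (nat_lit 0x1c00240003001300080000000000000000000000000000000) (nat_lit 0x0) (nat_lit 0x1000200012000c00000000f000200000000000000000000000000) := T_10 (nat_lit 123) (nat_lit 173) (nat_lit 5) (nat_lit 4) (nat_lit 7) L57564 (by decide +kernel)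
theorem L57566 : W_10 (nat_lit 7) (nat_lit 0x1800240003001300080000000000000000000000000000000) (nat_lit 0x0) (nat_lit 0x1800240012000c00000000f000200000000000000000000000000) := T_10 (nat_lit 190) (nat_lit 207) (nat_lit 5) (nat_lit 4) (nat_lit 8) L57565 (by decide +kernel)
theorem L57567 : W_10 (nat_lit 8) (nat_lit 0x800240003001300080000000000000000000000000000000) (nat_lit 0x0) (nat_lit 0x3800340012000c00000000f000200000000000000000000000000) := T_10 (nat_lit 192) (nat_lit 209) (nat_lit 7) (nat_lit 4) (nat_lit 8) L57566 (by decide +kernel)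
theorem L57568 : W_10 (nat_lit 2) (nat_lit 0x800240003001300080000000000000000000000000000000) (nat_lit 0x0) (nat_lit 0x10000000000004000080000000000000000000000000000000000) := D_10 (nat_lit 208) (nat_lit 158) (nat_lit 139) (nat_lit 6) (nat_lit 4) (nat_lit 12) (nat_lit 4) (nat_lit 4) (nat_lit 12) (by decide +kernel)
theorem L57569 : W_10 (nat_lit 9) (nat_lit 0x240003001300080000000000000000000000000000000) (nat_lit 0x0) (nat_lit 0x38003c0012000c00008000f000200000000000000000000000000) := Q_10 (nat_lit 191) (C_10 L57430 (C_10 L57406 (C_10 L57567 (C_10 L57568 N_10)))) (by decide +kernel)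
theorem L57570 : W_10 (nat_lit 2) (nat_lit 0xc00340007001300088000000000000000000000000000000) (nat_lit 0x0) (nat_lit 0x80004000200000000000000000000000000) := D_10 (nat_lit 122) (nat_lit 139) (nat_lit 105) (nat_lit 4) (nat_lit 4) (nat_lit 11) (nat_lit 4) (nat_lit 4) (nat_lit 10) (by decide +kernel)
theorem L57571 : W_10 (nat_lit 3) (nat_lit 0xc00340007001300080000000000000000000000000000000) (nat_lit 0x0) (nat_lit 0x2000000008000c000200000000000000000000000000) := T_10 (nat_lit 123) (nat_lit 173) (nat_lit 5) (nat_lit 4) (nat_lit 7) L57570 (by decide +kernel)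
theorem L57572 : W_10 (nat_lit 4) (nat_lit 0x800340007001300080000000000000000000000000000000) (nat_lit 0x0) (nat_lit 0x800040002000000008000c000200000000000000000000000000) := T_10 (nat_lit 190) (nat_lit 207) (nat_lit 5) (nat_lit 4) (nat_lit 8) L57571 (by decide +kernel)
theorem L57573 : W_10 (nat_lit 5) (nat_lit 0x340007001300080000000000000000000000000000000) (nat_lit 0x0) (nat_lit 0x18000c0002000000008000c000200000000000000000000000000) := T_10 (nat_lit 191) (nat_lit 208) (nat_lit 6) (nat_lit 4) (nat_lit 12) L57572 (by decide +kernel)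
theorem L57574 : W_10 (nat_lit 6) (nat_lit 0x340003001300080000000000000000000000000000000) (nat_lit 0x0) (nat_lit 0x18000c0002000c00008000c000200000000000000000000000000) := T_10 (nat_lit 158) (nat_lit 159) (nat_lit 3) (nat_lit 3) (nat_lit 9) L57573 (by decide +kernel)
theorem L57575 : W_10 (nat_lit 7) (nat_lit 0x240003001300080000000000000000000000000000000) (nat_lit 0x0) (nat_lit 0x18000c001a000c00008000c000200000000000000000000000000) := T_10 (nat_lit 176) (nat_lit 175) (nat_lit 0) (nat_lit 7) (nat_lit 10) L57574 (by decide +kernel)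
theorem L57576 : W_10 (nat_lit 2) (nat_lit 0x180034000700130008c000000000000000000000000000000) (nat_lit 0x0) (nat_lit 0x20000000000000000400020000000000000000000000) := D_10 (nat_lit 106) (nat_lit 173) (nat_lit 89) (nat_lit 5) (nat_lit 4) (nat_lit 6) (nat_lit 7) (nat_lit 4) (nat_lit 5) (by decide +kernel)
theorem L57577 : W_10 (nat_lit 3) (nat_lit 0x1800340007001300084000000000000000000000000000000) (nat_lit 0x0) (nat_lit 0x20000000000008000600020000000000000000000000) := T_10 (nat_lit 123) (nat_lit 105) (nat_lit 4) (nat_lit 4) (nat_lit 10) L57576 (by decide +kernel)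
theorem L57578 : W_10 (nat_lit 4) (nat_lit 0x1800340007001300080000000000000000000000000000000) (nat_lit 0x0) (nat_lit 0x2000000008000c000600020000000000000000000000) := T_10 (nat_lit 122) (nat_lit 139) (nat_lit 4) (nat_lit 4) (nat_lit 11) L57577 (by decide +kernel)
theorem L57579 : W_10 (nat_lit 5) (nat_lit 0x800340007001300080000000000000000000000000000000) (nat_lit 0x0) (nat_lit 0x2000100002000000008000c000600020000000000000000000000) := T_10 (nat_lit 192) (nat_lit 209) (nat_lit 7) (nat_lit 4) (nat_lit 8) L57578 (by decide +kernel)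
theorem L57580 : W_10 (nat_lit 6) (nat_lit 0x340007001300080000000000000000000000000000000) (nat_lit 0x0) (nat_lit 0x3000180002000000008000c000600020000000000000000000000) := T_10 (nat_lit 191) (nat_lit 208) (nat_lit 6) (nat_lit 4) (nat_lit 12) L57579 (by decide +kernel)
theorem L57581 : W_10 (nat_lit 7) (nat_lit 0x340003001300080000000000000000000000000000000) (nat_lit 0x0) (nat_lit 0x3000180002000c00008000c000600020000000000000000000000) := T_10 (nat_lit 158) (nat_lit 159) (nat_lit 3) (nat_lit 3) (nat_lit 9) L57580 (by decide +kernel)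
theorem L57582 : W_10 (nat_lit 8) (nat_lit 0x240003001300080000000000000000000000000000000) (nat_lit 0x0) (nat_lit 0x300018001a000c00008000c000600020000000000000000000000) := T_10 (nat_lit 176) (nat_lit 175) (nat_lit 0) (nat_lit 7) (nat_lit 10) L57581 (by decide +kernel)
theorem L57583 : W_10 (nat_lit 10) (nat_lit 0x200003001300080000000000000000000000000000000) (nat_lit 0x0) (nat_lit 0x38003c001e000c00008000f000600020000000000000000000000) := Q_10 (nat_lit 174) (C_10 L57434 (C_10 L57556 (C_10 L57560 (C_10 L57569 (C_10 L57575 (C_10 L57582 N_10)))))) (by decide +kernel)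
theorem L57584 : W_10 (nat_lit 13) (nat_lit 0x200002001300080000000000000000000000000000000) (nat_lit 0x0) (nat_lit 0x800070007c003f801fc03de000f000f000780038000000000000000000000) := Q_10 (nat_lit 156) (C_10 L57405 (C_10 L57440 (C_10 L57449 (C_10 L57501 (C_10 L57520 (C_10 L57525 (C_10 L57551 (C_10 L57583 N_10)))))))) (by decide +kernel)
theorem L57585 : W_10 (nat_lit 5) (nat_lit 0x2000020013800b0000200040000000000000000000000) (nat_lit 0x0) (nat_lit 0x10001c0000000c000100018000000000000000000000) := T_10 (nat_lit 122) (nat_lit 88) (nat_lit 7) (nat_lit 3) (nat_lit 5) L56257 (by decide +kernel)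
theorem L57586 : W_10 (nat_lit 6) (nat_lit 0x2000020013000b0000200040000000000000000000000) (nat_lit 0x0) (nat_lit 0x10001c000c000c000100018000000000000000000000) := T_10 (nat_lit 139) (nat_lit 138) (nat_lit 2) (nat_lit 2) (nat_lit 8) L57585 (by decide +kernel)
theorem L57587 : W_10 (nat_lit 7) (nat_lit 0x2000020013000b0000200000000000000000000000000) (nat_lit 0x0) (nat_lit 0x10001c000c000c000900058000000000000000000000) := T_10 (nat_lit 90) (nat_lit 107) (nat_lit 5) (nat_lit 5) (nat_lit 5) L57586 (by decide +kernel)
theorem L57588 : W_10 (nat_lit 2) (nat_lit 0x2000030013800b4000300000000000000000000000000) (nat_lit 0x0) (nat_lit 0x10000c00000000000000000000000000000000000000) := D_10 (nat_lit 155) (nat_lit 154) (nat_lit 172) (nat_lit 2) (nat_lit 1) (nat_lit 9) (nat_lit 5) (nat_lit 3) (nat_lit 6) (by decide +kernel)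
theorem L57589 : W_10 (nat_lit 3) (nat_lit 0x2000020013800b4000300000000000000000000000000) (nat_lit 0x0) (nat_lit 0x10001c00000000000000008000000000000000000000) := T_10 (nat_lit 156) (nat_lit 87) (nat_lit 4) (nat_lit 3) (nat_lit 9) L57588 (by decide +kernel)
theorem L57590 : W_10 (nat_lit 4) (nat_lit 0x2000020013800b4000200000000000000000000000000) (nat_lit 0x0) (nat_lit 0x10001c00000008000100008000000000000000000000) := T_10 (nat_lit 104) (nat_lit 123) (nat_lit 0) (nat_lit 6) (nat_lit 7) L57589 (by decide +kernel)
theorem L57591 : W_10 (nat_lit 5) (nat_lit 0x2000020013800b0000200000000000000000000000000) (nat_lit 0x0) (nat_lit 0x10001c0000000c000100018000000000000000000000) := T_10 (nat_lit 122) (nat_lit 88) (nat_lit 7) (nat_lit 3) (nat_lit 5) L57590 (by decide +kernel)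
theorem L57592 : W_10 (nat_lit 6) (nat_lit 0x2000020013000b0000200000000000000000000000000) (nat_lit 0x0) (nat_lit 0x10001c000c000c000100018000000000000000000000) := T_10 (nat_lit 139) (nat_lit 138) (nat_lit 2) (nat_lit 2) (nat_lit 8) L57591 (by decide +kernel)
theorem L57593 : W_10 (nat_lit 2) (nat_lit 0x2000020013800b0001e00010000000000000000000000) (nat_lit 0x0) (nat_lit 0x180004000000000000000000) := D_10 (nat_lit 91) (nat_lit 92) (nat_lit 74) (nat_lit 2) (nat_lit 3) (nat_lit 6) (nat_lit 5) (nat_lit 6) (nat_lit 4) (by decide +kernel)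
theorem L57594 : W_10 (nat_lit 3) (nat_lit 0x2000020013800b0000e00010000000000000000000000) (nat_lit 0x0) (nat_lit 0x1000188004000000000000000000) := T_10 (nat_lit 108) (nat_lit 87) (nat_lit 0) (nat_lit 6) (nat_lit 6) L57593 (by decide +kernel)
theorem L57595 : W_10 (nat_lit 4) (nat_lit 0x2000020013800b0000a00010000000000000000000000) (nat_lit 0x0) (nat_lit 0x1500188004000000000000000000) := T_10 (nat_lit 106) (nat_lit 104) (nat_lit 3) (nat_lit 2) (nat_lit 6) L57594 (by decide +kernel)
theorem L57596 : W_10 (nat_lit 5) (nat_lit 0x2000020013800b0000a00000000000000000000000000) (nat_lit 0x0) (nat_lit 0x4001500198004000000000000000000) := T_10 (nat_lit 88) (nat_lit 122) (nat_lit 7) (nat_lit 3) (nat_lit 5) L57595 (by decide +kernel)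
theorem L57597 : W_10 (nat_lit 6) (nat_lit 0x2000020013800b0000200000000000000000000000000) (nat_lit 0x0) (nat_lit 0x4001d001d8004000000000000000000) := T_10 (nat_lit 107) (nat_lit 90) (nat_lit 5) (nat_lit 5) (nat_lit 5) L57596 (by decide +kernel)
theorem L57598 : W_10 (nat_lit 7) (nat_lit 0x2000020013000b0000200000000000000000000000000) (nat_lit 0x0) (nat_lit 0xc0004001d001d8004000000000000000000) := T_10 (nat_lit 139) (nat_lit 138) (nat_lit 2) (nat_lit 2) (nat_lit 8) L57597 (by decide +kernel)
theorem L57599 : W_10 (nat_lit 2) (nat_lit 0x2000020013000b0001e00010000000000000000000000) (nat_lit 0x0) (nat_lit 0x180004000000000000000000) := D_10 (nat_lit 91) (nat_lit 92) (nat_lit 74) (nat_lit 2) (nat_lit 3) (nat_lit 6) (nat_lit 5) (nat_lit 6) (nat_lit 4) (by decide +kernel)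
theorem L57600 : W_10 (nat_lit 3) (nat_lit 0x2000020013000b0000e00010000000000000000000000) (nat_lit 0x0) (nat_lit 0x1000188004000000000000000000) := T_10 (nat_lit 108) (nat_lit 87) (nat_lit 0) (nat_lit 6) (nat_lit 6) L57599 (by decide +kernel)
theorem L57601 : W_10 (nat_lit 4) (nat_lit 0x2000020013000b0000e00000000000000000000000000) (nat_lit 0x0) (nat_lit 0x8001000198004000000000000000000) := T_10 (nat_lit 88) (nat_lit 123) (nat_lit 4) (nat_lit 4) (nat_lit 9) L57600 (by decide +kernel)
theorem L57602 : W_10 (nat_lit 5) (nat_lit 0x2000020013000b0000a00000000000000000000000000) (nat_lit 0x0) (nat_lit 0x8001500198004000000000000000000) := T_10 (nat_lit 106) (nat_lit 104) (nat_lit 3) (nat_lit 2) (nat_lit 6) L57601 (by decide +kernel)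
theorem L57603 : W_10 (nat_lit 6) (nat_lit 0x2000020013000b0000200000000000000000000000000) (nat_lit 0x0) (nat_lit 0x8001d001d8004000000000000000000) := T_10 (nat_lit 107) (nat_lit 90) (nat_lit 5) (nat_lit 5) (nat_lit 5) L57602 (by decide +kernel)
theorem L57604 : W_10 (nat_lit 2) (nat_lit 0x2000030013800b4000b00000000000000000000000000) (nat_lit 0x0) (nat_lit 0x10000c00000000000000000000000000000000000000) := D_10 (nat_lit 155) (nat_lit 154) (nat_lit 172) (nat_lit 2) (nat_lit 1) (nat_lit 9) (nat_lit 5) (nat_lit 3) (nat_lit 6) (by decide +kernel)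
theorem L57605 : W_10 (nat_lit 3) (nat_lit 0x2000020013800b4000b00000000000000000000000000) (nat_lit 0x0) (nat_lit 0x10001c00000000000000008000000000000000000000) := T_10 (nat_lit 156) (nat_lit 87) (nat_lit 4) (nat_lit 3) (nat_lit 9) L57604 (by decide +kernel)
theorem L57606 : W_10 (nat_lit 4) (nat_lit 0x2000020013800b0000b00000000000000000000000000) (nat_lit 0x0) (nat_lit 0x10001c0000000c000000008000000000000000000000) := T_10 (nat_lit 122) (nat_lit 123) (nat_lit 0) (nat_lit 6) (nat_lit 7) L57605 (by decide +kernel)
theorem L57607 : W_10 (nat_lit 5) (nat_lit 0x2000020013800b0000a00000000000000000000000000) (nat_lit 0x0) (nat_lit 0x10001c0000000c000500008000000000000000000000) := T_10 (nat_lit 104) (nat_lit 106) (nat_lit 3) (nat_lit 2) (nat_lit 6) L57606 (by decide +kernel)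
theorem L57608 : W_10 (nat_lit 6) (nat_lit 0x2000020013000b0000a00000000000000000000000000) (nat_lit 0x0) (nat_lit 0x10001c000c000c000500008000000000000000000000) := T_10 (nat_lit 139) (nat_lit 138) (nat_lit 2) (nat_lit 2) (nat_lit 8) L57607 (by decide +kernel)
theorem L57609 : W_10 (nat_lit 7) (nat_lit 0x2000020013000b0000200000000000000000000000000) (nat_lit 0x0) (nat_lit 0x10001c000c000c000d00048000000000000000000000) := T_10 (nat_lit 107) (nat_lit 90) (nat_lit 5) (nat_lit 5) (nat_lit 5) L57608 (by decide +kernel)
theorem L57610 : W_10 (nat_lit 4) (nat_lit 0x2000020013800b0000a00010000000000000000000000) (nat_lit 0x0) (nat_lit 0x8001400188004000000000000000000) := T_10 (nat_lit 106) (nat_lit 123) (nat_lit 4) (nat_lit 4) (nat_lit 9) L57594 (by decide +kernel)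
theorem L57611 : W_10 (nat_lit 5) (nat_lit 0x2000020013800b0000a00000000000000000000000000) (nat_lit 0x0) (nat_lit 0xc001400198004000000000000000000) := T_10 (nat_lit 88) (nat_lit 122) (nat_lit 7) (nat_lit 3) (nat_lit 5) L57610 (by decide +kernel)
theorem L57612 : W_10 (nat_lit 6) (nat_lit 0x2000020013800b0000200000000000000000000000000) (nat_lit 0x0) (nat_lit 0xc001c001d8004000000000000000000) := T_10 (nat_lit 107) (nat_lit 90) (nat_lit 5) (nat_lit 5) (nat_lit 5) L57611 (by decide +kernel)
theorem L57613 : W_10 (nat_lit 7) (nat_lit 0x2000020013000b0000200000000000000000000000000) (nat_lit 0x0) (nat_lit 0xc000c001c001d8004000000000000000000) := T_10 (nat_lit 139) (nat_lit 138) (nat_lit 2) (nat_lit 2) (nat_lit 8) L57612 (by decide +kernel)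
theorem L57614 : W_10 (nat_lit 2) (nat_lit 0x2000020013800b0000a00010000000000000000000000) (nat_lit 0x0) (nat_lit 0x8000500000000000000000000000000) := D_10 (nat_lit 106) (nat_lit 123) (nat_lit 104) (nat_lit 4) (nat_lit 4) (nat_lit 9) (nat_lit 3) (nat_lit 2) (nat_lit 6) (by decide +kernel)
theorem L57615 : W_10 (nat_lit 3) (nat_lit 0x2000020013800b0000a00000000000000000000000000) (nat_lit 0x0) (nat_lit 0xc000500010000000000000000000000) := T_10 (nat_lit 88) (nat_lit 122) (nat_lit 7) (nat_lit 3) (nat_lit 5) L57614 (by decide +kernel)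
theorem L57616 : W_10 (nat_lit 4) (nat_lit 0x2000020013800b0000200000000000000000000000000) (nat_lit 0x0) (nat_lit 0xc000d00050000000000000000000000) := T_10 (nat_lit 107) (nat_lit 90) (nat_lit 5) (nat_lit 5) (nat_lit 5) L57615 (by decide +kernel)
theorem L57617 : W_10 (nat_lit 5) (nat_lit 0x2000020013000b0000200000000000000000000000000) (nat_lit 0x0) (nat_lit 0xc000c000d00050000000000000000000000) := T_10 (nat_lit 139) (nat_lit 138) (nat_lit 2) (nat_lit 2) (nat_lit 8) L57616 (by decide +kernel)
theorem L57618 : W_10 (nat_lit 8) (nat_lit 0x2000020013000b0000000000000000000000000000000) (nat_lit 0x0) (nat_lit 0x10001c000c000c001f001d8004000000000000000000) := Q_10 (nat_lit 105) (C_10 L57587 (C_10 L57592 (C_10 L57598 (C_10 L57603 (C_10 L57609 (C_10 L57613 (C_10 L57617 N_10))))))) (by decide +kernel)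
theorem L57619 : W_10 (nat_lit 9) (nat_lit 0x200002001300090000000000000000000000000000000) (nat_lit 0x0) (nat_lit 0x10001c000c006c001f001d8004000000000000000000) := T_10 (nat_lit 125) (nat_lit 126) (nat_lit 1) (nat_lit 8) (nat_lit 7) L57618 (by decide +kernel)
theorem L57620 : W_10 (nat_lit 4) (nat_lit 0x200006001300090000800000000000000000000000000) (nat_lit 0x0) (nat_lit 0x1000180000c0000000400020000000000000000000000) := T_10 (nat_lit 106) (nat_lit 89) (nat_lit 4) (nat_lit 5) (nat_lit 9) L31910 (by decide +kernel)
theorem L57621 : W_10 (nat_lit 5) (nat_lit 0x200006001300090000000000000000000000000000000) (nat_lit 0x0) (nat_lit 0x1000180000c0000000c00060000000000000000000000) := T_10 (nat_lit 107) (nat_lit 90) (nat_lit 5) (nat_lit 5) (nat_lit 5) L57620 (by decide +kernel)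
theorem L57622 : W_10 (nat_lit 2) (nat_lit 0x280006001300090000000000000000000000000000000) (nat_lit 0x0) (nat_lit 0x1000000000000000008000400000000000000000000000000) := D_10 (nat_lit 123) (nat_lit 106) (nat_lit 192) (nat_lit 7) (nat_lit 4) (nat_lit 6) (nat_lit 4) (nat_lit 5) (nat_lit 11) (by decide +kernel)
theorem L57623 : W_10 (nat_lit 2) (nat_lit 0x380006001300090000000000000000000000000000000) (nat_lit 0x0) (nat_lit 0x9800000000000000000000000000000000000000) := D_10 (nat_lit 156) (nat_lit 159) (nat_lit 155) (nat_lit 3) (nat_lit 3) (nat_lit 9) (nat_lit 3) (nat_lit 2) (nat_lit 9) (by decide +kernel)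
theorem L57624 : W_10 (nat_lit 3) (nat_lit 0x280006001300090000000000000000000000000000000) (nat_lit 0x0) (nat_lit 0x2000100009800000000000000000000000000000000000000) := T_10 (nat_lit 176) (nat_lit 193) (nat_lit 7) (nat_lit 5) (nat_lit 7) L57623 (by decide +kernel)
theorem L57625 : W_10 (nat_lit 4) (nat_lit 0x200006001300090000000000000000000000000000000) (nat_lit 0x0) (nat_lit 0x3000180009800000008000400000000000000000000000000) := Q_10 (nat_lit 175) (C_10 L57622 (C_10 L57624 N_10)) (by decide +kernel)
theorem L57626 : W_10 (nat_lit 2) (nat_lit 0x200006001300090003c00000000000000000000000000) (nat_lit 0x0) (nat_lit 0x8000000000000c000000000000000000000000000000) := D_10 (nat_lit 123) (nat_lit 175) (nat_lit 122) (nat_lit 7) (nat_lit 4) (nat_lit 6) (nat_lit 1) (nat_lit 7) (nat_lit 6) (by decide +kernel)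
theorem L57627 : W_10 (nat_lit 3) (nat_lit 0x200006001300090001c00000000000000000000000000) (nat_lit 0x0) (nat_lit 0x8000000000004c002000000000000000000000000000) := T_10 (nat_lit 109) (nat_lit 126) (nat_lit 3) (nat_lit 4) (nat_lit 6) L57626 (by decide +kernel)
theorem L57628 : W_10 (nat_lit 4) (nat_lit 0x200006001300090000c00000000000000000000000000) (nat_lit 0x0) (nat_lit 0x8000000000004c003000080000000000000000000000) := T_10 (nat_lit 108) (nat_lit 91) (nat_lit 6) (nat_lit 5) (nat_lit 9) L57627 (by decide +kernel)
theorem L57629 : W_10 (nat_lit 5) (nat_lit 0x200006001300090000800000000000000000000000000) (nat_lit 0x0) (nat_lit 0x8000000000004c0034000a0000000000000000000000) := T_10 (nat_lit 106) (nat_lit 89) (nat_lit 4) (nat_lit 5) (nat_lit 9) L57628 (by decide +kernel)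
theorem L57630 : W_10 (nat_lit 6) (nat_lit 0x200006001300090000000000000000000000000000000) (nat_lit 0x0) (nat_lit 0x8000000000004c003c000e0000000000000000000000) := T_10 (nat_lit 107) (nat_lit 90) (nat_lit 5) (nat_lit 5) (nat_lit 5) L57629 (by decide +kernel)
theorem L57631 : W_10 (nat_lit 7) (nat_lit 0x200002001300090000000000000000000000000000000) (nat_lit 0x0) (nat_lit 0x2000300018001d8000c004c003c000e0000000000000000000000) := Q_10 (nat_lit 158) (C_10 L56759 (C_10 L57621 (C_10 L57625 (C_10 L57630 N_10)))) (by decide +kernel)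
theorem L57632 : W_10 (nat_lit 2) (nat_lit 0x200000003800060013400b0000000000000000000000000000000) (nat_lit 0x0) (nat_lit 0x9800000000000000000000000000000000000000) := D_10 (nat_lit 156) (nat_lit 159) (nat_lit 155) (nat_lit 3) (nat_lit 3) (nat_lit 9) (nat_lit 3) (nat_lit 2) (nat_lit 9) (by decide +kernel)
theorem L57633 : W_10 (nat_lit 3) (nat_lit 0x200000002800060013400b0000000000000000000000000000000) (nat_lit 0x0) (nat_lit 0x2000100009800000000000000000000000000000000000000) := T_10 (nat_lit 176) (nat_lit 193) (nat_lit 7) (nat_lit 5) (nat_lit 7) L57632 (by decide +kernel)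
theorem L57634 : W_10 (nat_lit 4) (nat_lit 0x2800060013400b0000000000000000000000000000000) (nat_lit 0x0) (nat_lit 0x20003000100009800000000000000000000000000000000000000) := T_10 (nat_lit 209) (nat_lit 192) (nat_lit 4) (nat_lit 5) (nat_lit 12) L57633 (by decide +kernel)
theorem L57635 : W_10 (nat_lit 5) (nat_lit 0x2000060013400b0000000000000000000000000000000) (nat_lit 0x0) (nat_lit 0x20003000180009800000000001000000000000000000000000000) := T_10 (nat_lit 175) (nat_lit 108) (nat_lit 6) (nat_lit 5) (nat_lit 10) L57634 (by decide +kernel)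
theorem L57636 : W_10 (nat_lit 6) (nat_lit 0x2000060013000b0000000000000000000000000000000) (nat_lit 0x0) (nat_lit 0x200030001800098000c0000001000000000000000000000000000) := T_10 (nat_lit 138) (nat_lit 139) (nat_lit 2) (nat_lit 2) (nat_lit 8) L57635 (by decide +kernel)
theorem L57637 : W_10 (nat_lit 7) (nat_lit 0x200006001300090000000000000000000000000000000) (nat_lit 0x0) (nat_lit 0x200030001800098000c0060001000000000000000000000000000) := T_10 (nat_lit 125) (nat_lit 126) (nat_lit 1) (nat_lit 8) (nat_lit 7) L57636 (by decide +kernel)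
theorem L57638 : W_10 (nat_lit 8) (nat_lit 0x200002001300090000000000000000000000000000000) (nat_lit 0x0) (nat_lit 0x2000300018001d8000c0060003c000e0000000000000000000000) := Q_10 (nat_lit 158) (C_10 L57621 (C_10 L57084 (C_10 L57637 N_10))) (by decide +kernel)
theorem L57639 : W_10 (nat_lit 2) (nat_lit 0x22000f4013800b0000000000000000000000000000000) (nat_lit 0x0) (nat_lit 0x400000000000000008000400000000000000000000000000) := D_10 (nat_lit 123) (nat_lit 106) (nat_lit 190) (nat_lit 5) (nat_lit 4) (nat_lit 6) (nat_lit 6) (nat_lit 3) (nat_lit 11) (by decide +kernel)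
theorem L57640 : W_10 (nat_lit 3) (nat_lit 0x20000f4013800b0000000000000000000000000000000) (nat_lit 0x0) (nat_lit 0x400030000000000008000400000000000000000000000000) := T_10 (nat_lit 173) (nat_lit 172) (nat_lit 1) (nat_lit 6) (nat_lit 9) L57639 (by decide +kernel)
theorem L57641 : W_10 (nat_lit 4) (nat_lit 0x20000f0013800b0000000000000000000000000000000) (nat_lit 0x0) (nat_lit 0x400030000c00000008000400000000000000000000000000) := T_10 (nat_lit 154) (nat_lit 155) (nat_lit 2) (nat_lit 1) (nat_lit 9) L57640 (by decide +kernel)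
theorem L57642 : W_10 (nat_lit 5) (nat_lit 0x20000e0013800b0000000000000000000000000000000) (nat_lit 0x0) (nat_lit 0x400130001c00000008000400000000000000000000000000) := T_10 (nat_lit 156) (nat_lit 176) (nat_lit 3) (nat_lit 3) (nat_lit 9) L57641 (by decide +kernel)
theorem L57643 : W_10 (nat_lit 6) (nat_lit 0x2000060013800b0000000000000000000000000000000) (nat_lit 0x0) (nat_lit 0x400130019c00000008000400000000000000000000000000) := T_10 (nat_lit 159) (nat_lit 160) (nat_lit 0) (nat_lit 7) (nat_lit 9) L57642 (by decide +kernel)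
theorem L57644 : W_10 (nat_lit 7) (nat_lit 0x2000060013000b0000000000000000000000000000000) (nat_lit 0x0) (nat_lit 0x400130019c000c0008000400000000000000000000000000) := T_10 (nat_lit 139) (nat_lit 138) (nat_lit 2) (nat_lit 2) (nat_lit 8) L57643 (by decide +kernel)
theorem L57645 : W_10 (nat_lit 8) (nat_lit 0x200006001300090000000000000000000000000000000) (nat_lit 0x0) (nat_lit 0x400130019c000c0068000400000000000000000000000000) := T_10 (nat_lit 125) (nat_lit 126) (nat_lit 1) (nat_lit 8) (nat_lit 7) L57644 (by decide +kernel)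
theorem L57646 : W_10 (nat_lit 9) (nat_lit 0x200002001300090000000000000000000000000000000) (nat_lit 0x0) (nat_lit 0x200034001b001dc000c0068001400000000000000000000000000) := Q_10 (nat_lit 158) (C_10 L57625 (C_10 L57637 (C_10 L57264 (C_10 L57645 N_10)))) (by decide +kernel)
theorem L57647 : W_10 (nat_lit 2) (nat_lit 0x2000068013c0096001800000000000000000000000000) (nat_lit 0x0) (nat_lit 0x10000000000000000200010000000000000000000000) := D_10 (nat_lit 105) (nat_lit 88) (nat_lit 172) (nat_lit 7) (nat_lit 3) (nat_lit 5) (nat_lit 6) (nat_lit 2) (nat_lit 10) (by decide +kernel)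
theorem L57648 : W_10 (nat_lit 3) (nat_lit 0x2000068013c0092001800000000000000000000000000) (nat_lit 0x0) (nat_lit 0x1000000000000c000200010000000000000000000000) := T_10 (nat_lit 122) (nat_lit 123) (nat_lit 2) (nat_lit 2) (nat_lit 7) L57647 (by decide +kernel)
theorem L57649 : W_10 (nat_lit 4) (nat_lit 0x2000068013c0090001800000000000000000000000000) (nat_lit 0x0) (nat_lit 0x1000000000000f000200010000000000000000000000) := T_10 (nat_lit 121) (nat_lit 120) (nat_lit 0) (nat_lit 5) (nat_lit 8) L57648 (by decide +kernel)
theorem L57650 : W_10 (nat_lit 5) (nat_lit 0x2000068013c0090000800000000000000000000000000) (nat_lit 0x0) (nat_lit 0x1000000000000f001200090000000000000000000000) := T_10 (nat_lit 108) (nat_lit 91) (nat_lit 6) (nat_lit 5) (nat_lit 9) L57649 (by decide +kernel)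
theorem L57651 : W_10 (nat_lit 6) (nat_lit 0x2000060013c0090000800000000000000000000000000) (nat_lit 0x0) (nat_lit 0x10000c0000000f001200090000000000000000000000) := T_10 (nat_lit 155) (nat_lit 154) (nat_lit 1) (nat_lit 5) (nat_lit 8) L57650 (by decide +kernel)
theorem L57652 : W_10 (nat_lit 7) (nat_lit 0x2000060013c0090000000000000000000000000000000) (nat_lit 0x0) (nat_lit 0x10000c0000000f001a000d0000000000000000000000) := T_10 (nat_lit 107) (nat_lit 90) (nat_lit 5) (nat_lit 5) (nat_lit 5) L57651 (by decide +kernel)
theorem L57653 : W_10 (nat_lit 8) (nat_lit 0x2000020013c0090000000000000000000000000000000) (nat_lit 0x0) (nat_lit 0x1000cc0000000f001a000d0000000000000000000000) := T_10 (nat_lit 158) (nat_lit 159) (nat_lit 3) (nat_lit 2) (nat_lit 8) L57652 (by decide +kernel)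
theorem L57654 : W_10 (nat_lit 9) (nat_lit 0x200002001380090000000000000000000000000000000) (nat_lit 0x0) (nat_lit 0x1000ce0006000f001a000d0000000000000000000000) := Q_10 (nat_lit 138) (C_10 L56808 (C_10 L56790 (C_10 L57653 N_10))) (by decide +kernel)
theorem L57655 : W_10 (nat_lit 2) (nat_lit 0x2800160013800b0000000000000000000000000000000) (nat_lit 0x0) (nat_lit 0x20001000000000000000008000000000000000000000000000000) := D_10 (nat_lit 192) (nat_lit 209) (nat_lit 123) (nat_lit 4) (nat_lit 5) (nat_lit 12) (nat_lit 4) (nat_lit 5) (nat_lit 11) (by decide +kernel)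
theorem L57656 : W_10 (nat_lit 3) (nat_lit 0x2000160013800b0000000000000000000000000000000) (nat_lit 0x0) (nat_lit 0x20001000080000000000008001000000000000000000000000000) := T_10 (nat_lit 175) (nat_lit 108) (nat_lit 6) (nat_lit 5) (nat_lit 10) L57655 (by decide +kernel)
theorem L57657 : W_10 (nat_lit 4) (nat_lit 0x200016001380090000000000000000000000000000000) (nat_lit 0x0) (nat_lit 0x20001000080000000000068001000000000000000000000000000) := T_10 (nat_lit 125) (nat_lit 126) (nat_lit 1) (nat_lit 8) (nat_lit 7) L57656 (by decide +kernel)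
theorem L57658 : W_10 (nat_lit 5) (nat_lit 0x200006001380090000000000000000000000000000000) (nat_lit 0x0) (nat_lit 0x20001000080018000000068001000000000000000000000000000) := T_10 (nat_lit 160) (nat_lit 159) (nat_lit 0) (nat_lit 7) (nat_lit 9) L57657 (by decide +kernel)
theorem L57659 : W_10 (nat_lit 2) (nat_lit 0x3800060013800d0001800000000000000000000000000) (nat_lit 0x0) (nat_lit 0x20001000000000000000008000000000000000000000000000000) := D_10 (nat_lit 192) (nat_lit 209) (nat_lit 123) (nat_lit 4) (nat_lit 5) (nat_lit 12) (nat_lit 4) (nat_lit 5) (nat_lit 11) (by decide +kernel)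
theorem L57660 : W_10 (nat_lit 3) (nat_lit 0x3000060013800d0001800000000000000000000000000) (nat_lit 0x0) (nat_lit 0x20003000080000000000008000000000000000000000000000000) := T_10 (nat_lit 175) (nat_lit 193) (nat_lit 7) (nat_lit 5) (nat_lit 7) L57659 (by decide +kernel)
theorem L57661 : W_10 (nat_lit 4) (nat_lit 0x2000060013800d0001800000000000000000000000000) (nat_lit 0x0) (nat_lit 0x20003000180008000000008000000000000000000000000000000) := T_10 (nat_lit 176) (nat_lit 159) (nat_lit 7) (nat_lit 5) (nat_lit 6) L57660 (by decide +kernel)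
theorem L57662 : W_10 (nat_lit 5) (nat_lit 0x2000060013800d0000800000000000000000000000000) (nat_lit 0x0) (nat_lit 0x20003000180008000000008001000080000000000000000000000) := T_10 (nat_lit 108) (nat_lit 91) (nat_lit 6) (nat_lit 5) (nat_lit 9) L57661 (by decide +kernel)
theorem L57663 : W_10 (nat_lit 6) (nat_lit 0x2000060013800d0000000000000000000000000000000) (nat_lit 0x0) (nat_lit 0x200030001800080000000080018000c0000000000000000000000) := T_10 (nat_lit 107) (nat_lit 90) (nat_lit 5) (nat_lit 5) (nat_lit 5) L57662 (by decide +kernel)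
theorem L57664 : W_10 (nat_lit 7) (nat_lit 0x200006001380090000000000000000000000000000000) (nat_lit 0x0) (nat_lit 0x200030001800080000000680018000c0000000000000000000000) := T_10 (nat_lit 126) (nat_lit 125) (nat_lit 1) (nat_lit 8) (nat_lit 7) L57663 (by decide +kernel)
theorem L57665 : W_10 (nat_lit 2) (nat_lit 0x2800060013800b0000000040000000000000000000000) (nat_lit 0x0) (nat_lit 0x20001000000000000000008000000000000000000000000000000) := D_10 (nat_lit 192) (nat_lit 209) (nat_lit 123) (nat_lit 4) (nat_lit 5) (nat_lit 12) (nat_lit 4) (nat_lit 5) (nat_lit 11) (by decide +kernel)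
theorem L57666 : W_10 (nat_lit 3) (nat_lit 0x2000060013800b0000000040000000000000000000000) (nat_lit 0x0) (nat_lit 0x20001000080000000000008001000000000000000000000000000) := T_10 (nat_lit 175) (nat_lit 108) (nat_lit 6) (nat_lit 5) (nat_lit 10) L57665 (by decide +kernel)
theorem L57667 : W_10 (nat_lit 4) (nat_lit 0x200006001380090000000040000000000000000000000) (nat_lit 0x0) (nat_lit 0x20001000080000000000068001000000000000000000000000000) := T_10 (nat_lit 125) (nat_lit 126) (nat_lit 1) (nat_lit 8) (nat_lit 7) L57666 (by decide +kernel)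
theorem L57668 : W_10 (nat_lit 5) (nat_lit 0x200006001380090000000000000000000000000000000) (nat_lit 0x0) (nat_lit 0x20001000080000000000068001800040000000000000000000000) := T_10 (nat_lit 90) (nat_lit 107) (nat_lit 5) (nat_lit 5) (nat_lit 5) L57667 (by decide +kernel)
theorem L57669 : W_10 (nat_lit 8) (nat_lit 0x200002001380090000000000000000000000000000000) (nat_lit 0x0) (nat_lit 0x2000300018001c0000000680018000c0000000000000000000000) := Q_10 (nat_lit 158) (C_10 L57351 (C_10 L57658 (C_10 L57664 (C_10 L57668 N_10)))) (by decide +kernel)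
theorem L57670 : W_10 (nat_lit 10) (nat_lit 0x200002001300090000000000000000000000000000000) (nat_lit 0x0) (nat_lit 0x2000300019001ce000e006f001a000d0000000000000000000000) := Q_10 (nat_lit 139) (C_10 L57654 (C_10 L57364 (C_10 L56657 (C_10 L57669 N_10)))) (by decide +kernel)
theorem L57671 : W_10 (nat_lit 2) (nat_lit 0x2100078013c009a000c00008000000000000000000000) (nat_lit 0x0) (nat_lit 0x4000200010000000000000000000000) := D_10 (nat_lit 105) (nat_lit 88) (nat_lit 122) (nat_lit 4) (nat_lit 4) (nat_lit 9) (nat_lit 6) (nat_lit 2) (nat_lit 10) (by decide +kernel)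
theorem L57672 : W_10 (nat_lit 3) (nat_lit 0x2000078013c009a000c00008000000000000000000000) (nat_lit 0x0) (nat_lit 0x18000000000004000200010000000000000000000000) := T_10 (nat_lit 172) (nat_lit 171) (nat_lit 1) (nat_lit 5) (nat_lit 9) L57671 (by decide +kernel)
theorem L57673 : W_10 (nat_lit 4) (nat_lit 0x2000078013c009a000c00000000000000000000000000) (nat_lit 0x0) (nat_lit 0x18000000000004000300018000000000000000000000) := T_10 (nat_lit 87) (nat_lit 104) (nat_lit 7) (nat_lit 2) (nat_lit 5) L57672 (by decide +kernel)
theorem L57674 : W_10 (nat_lit 5) (nat_lit 0x2000068013c009a000c00000000000000000000000000) (nat_lit 0x0) (nat_lit 0x38001000000004000300018000000000000000000000) := T_10 (nat_lit 156) (nat_lit 173) (nat_lit 5) (nat_lit 4) (nat_lit 6) L57673 (by decide +kernel)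
theorem L57675 : W_10 (nat_lit 6) (nat_lit 0x2000068013c0092000c00000000000000000000000000) (nat_lit 0x0) (nat_lit 0xb800100000000c000300018000000000000000000000) := T_10 (nat_lit 123) (nat_lit 175) (nat_lit 7) (nat_lit 4) (nat_lit 6) L57674 (by decide +kernel)
theorem L57676 : W_10 (nat_lit 7) (nat_lit 0x2000068013c0090000c00000000000000000000000000) (nat_lit 0x0) (nat_lit 0xb800100000000f000300018000000000000000000000) := T_10 (nat_lit 121) (nat_lit 120) (nat_lit 0) (nat_lit 5) (nat_lit 8) L57675 (by decide +kernel)
theorem L57677 : W_10 (nat_lit 8) (nat_lit 0x2000068013c0090000800000000000000000000000000) (nat_lit 0x0) (nat_lit 0xb800100000000f000700038000000000000000000000) := T_10 (nat_lit 106) (nat_lit 89) (nat_lit 4) (nat_lit 5) (nat_lit 9) L57676 (by decide +kernel)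
theorem L57678 : W_10 (nat_lit 9) (nat_lit 0x2000060013c0090000800000000000000000000000000) (nat_lit 0x0) (nat_lit 0xb8001c0000000f000700038000000000000000000000) := T_10 (nat_lit 155) (nat_lit 154) (nat_lit 1) (nat_lit 5) (nat_lit 8) L57677 (by decide +kernel)
theorem L57679 : W_10 (nat_lit 10) (nat_lit 0x2000060013c0090000000000000000000000000000000) (nat_lit 0x0) (nat_lit 0xb8001c0000000f000f00078000000000000000000000) := T_10 (nat_lit 107) (nat_lit 90) (nat_lit 5) (nat_lit 5) (nat_lit 5) L57678 (by decide +kernel)
theorem L57680 : W_10 (nat_lit 11) (nat_lit 0x2000020013c0090000000000000000000000000000000) (nat_lit 0x0) (nat_lit 0xb800dc0000000f000f00078000000000000000000000) := T_10 (nat_lit 158) (nat_lit 159) (nat_lit 3) (nat_lit 2) (nat_lit 8) L57679 (by decide +kernel)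
theorem L57681 : W_10 (nat_lit 12) (nat_lit 0x200002001380090000000000000000000000000000000) (nat_lit 0x0) (nat_lit 0xb800de0006000f000f00078000000000000000000000) := Q_10 (nat_lit 138) (C_10 L56808 (C_10 L56790 (C_10 L57680 N_10))) (by decide +kernel)
theorem L57682 : W_10 (nat_lit 2) (nat_lit 0x2000174013800d8000f00000000000000000000000000) (nat_lit 0x0) (nat_lit 0x400000000c000000000000000000000) := D_10 (nat_lit 87) (nat_lit 86) (nat_lit 122) (nat_lit 0) (nat_lit 5) (nat_lit 6) (nat_lit 4) (nat_lit 3) (nat_lit 9) (by decide +kernel)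
theorem L57683 : W_10 (nat_lit 3) (nat_lit 0x2000174013800d8000e00000000000000000000000000) (nat_lit 0x0) (nat_lit 0x400018000c000000000000000000000) := T_10 (nat_lit 104) (nat_lit 103) (nat_lit 3) (nat_lit 1) (nat_lit 6) L57682 (by decide +kernel)
theorem L57684 : W_10 (nat_lit 4) (nat_lit 0x2000174013800d8000c00000000000000000000000000) (nat_lit 0x0) (nat_lit 0x400038001c000000000000000000000) := T_10 (nat_lit 105) (nat_lit 88) (nat_lit 4) (nat_lit 4) (nat_lit 9) L57683 (by decide +kernel)
theorem L57685 : W_10 (nat_lit 5) (nat_lit 0x2000170013800d8000c00000000000000000000000000) (nat_lit 0x0) (nat_lit 0xc0000000400038001c000000000000000000000) := T_10 (nat_lit 154) (nat_lit 155) (nat_lit 2) (nat_lit 1) (nat_lit 9) L57684 (by decide +kernel)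
theorem L57686 : W_10 (nat_lit 6) (nat_lit 0x2000160013800d8000c00000000000000000000000000) (nat_lit 0x0) (nat_lit 0x20001c0000000400038001c000000000000000000000) := T_10 (nat_lit 156) (nat_lit 173) (nat_lit 5) (nat_lit 4) (nat_lit 6) L57685 (by decide +kernel)
theorem L57687 : W_10 (nat_lit 7) (nat_lit 0x2000160013800d0000c00000000000000000000000000) (nat_lit 0x0) (nat_lit 0xa0001c0000000c00038001c000000000000000000000) := T_10 (nat_lit 123) (nat_lit 175) (nat_lit 7) (nat_lit 4) (nat_lit 6) L57686 (by decide +kernel)
theorem L57688 : W_10 (nat_lit 8) (nat_lit 0x200016001380090000c00000000000000000000000000) (nat_lit 0x0) (nat_lit 0xa0001c0000006c00038001c000000000000000000000) := T_10 (nat_lit 126) (nat_lit 125) (nat_lit 1) (nat_lit 8) (nat_lit 7) L57687 (by decide +kernel)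
theorem L57689 : W_10 (nat_lit 9) (nat_lit 0x200016001380090000800000000000000000000000000) (nat_lit 0x0) (nat_lit 0xa0001c0000006c00078003c000000000000000000000) := T_10 (nat_lit 106) (nat_lit 89) (nat_lit 4) (nat_lit 5) (nat_lit 9) L57688 (by decide +kernel)
theorem L57690 : W_10 (nat_lit 10) (nat_lit 0x200006001380090000800000000000000000000000000) (nat_lit 0x0) (nat_lit 0xa0019c0000006c00078003c000000000000000000000) := T_10 (nat_lit 160) (nat_lit 159) (nat_lit 0) (nat_lit 7) (nat_lit 9) L57689 (by decide +kernel)
theorem L57691 : W_10 (nat_lit 11) (nat_lit 0x200006001380090000000000000000000000000000000) (nat_lit 0x0) (nat_lit 0xa0019c0000006c000f8007c000000000000000000000) := T_10 (nat_lit 107) (nat_lit 90) (nat_lit 5) (nat_lit 5) (nat_lit 5) L57690 (by decide +kernel)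
theorem L57692 : W_10 (nat_lit 2) (nat_lit 0x20000f4013800d8000f00000000000000000000000000) (nat_lit 0x0) (nat_lit 0x400000000c000000000000000000000) := D_10 (nat_lit 87) (nat_lit 86) (nat_lit 122) (nat_lit 0) (nat_lit 5) (nat_lit 6) (nat_lit 4) (nat_lit 3) (nat_lit 9) (by decide +kernel)
theorem L57693 : W_10 (nat_lit 3) (nat_lit 0x20000f4013800d8000e00000000000000000000000000) (nat_lit 0x0) (nat_lit 0x400018000c000000000000000000000) := T_10 (nat_lit 104) (nat_lit 103) (nat_lit 3) (nat_lit 1) (nat_lit 6) L57692 (by decide +kernel)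
theorem L57694 : W_10 (nat_lit 4) (nat_lit 0x20000f4013800d8000c00000000000000000000000000) (nat_lit 0x0) (nat_lit 0x400038001c000000000000000000000) := T_10 (nat_lit 105) (nat_lit 88) (nat_lit 4) (nat_lit 4) (nat_lit 9) L57693 (by decide +kernel)
theorem L57695 : W_10 (nat_lit 5) (nat_lit 0x20000f0013800d8000c00000000000000000000000000) (nat_lit 0x0) (nat_lit 0xc0000000400038001c000000000000000000000) := T_10 (nat_lit 154) (nat_lit 155) (nat_lit 2) (nat_lit 1) (nat_lit 9) L57694 (by decide +kernel)
theorem L57696 : W_10 (nat_lit 6) (nat_lit 0x20000e0013800d8000c00000000000000000000000000) (nat_lit 0x0) (nat_lit 0x20001c0000000400038001c000000000000000000000) := T_10 (nat_lit 156) (nat_lit 173) (nat_lit 5) (nat_lit 4) (nat_lit 6) L57695 (by decide +kernel)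
theorem L57697 : W_10 (nat_lit 7) (nat_lit 0x20000e0013800d0000c00000000000000000000000000) (nat_lit 0x0) (nat_lit 0xa0001c0000000c00038001c000000000000000000000) := T_10 (nat_lit 123) (nat_lit 175) (nat_lit 7) (nat_lit 4) (nat_lit 6) L57696 (by decide +kernel)
theorem L57698 : W_10 (nat_lit 8) (nat_lit 0x2000060013800d0000c00000000000000000000000000) (nat_lit 0x0) (nat_lit 0x1a0009c0000000c00038001c000000000000000000000) := T_10 (nat_lit 159) (nat_lit 176) (nat_lit 7) (nat_lit 5) (nat_lit 6) L57697 (by decide +kernel)
theorem L57699 : W_10 (nat_lit 9) (nat_lit 0x2000060013800d0000800000000000000000000000000) (nat_lit 0x0) (nat_lit 0x1a0009c0000000c00078003c000000000000000000000) := T_10 (nat_lit 106) (nat_lit 89) (nat_lit 4) (nat_lit 5) (nat_lit 9) L57698 (by decide +kernel)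
theorem L57700 : W_10 (nat_lit 10) (nat_lit 0x2000060013800d0000000000000000000000000000000) (nat_lit 0x0) (nat_lit 0x1a0009c0000000c000f8007c000000000000000000000) := T_10 (nat_lit 107) (nat_lit 90) (nat_lit 5) (nat_lit 5) (nat_lit 5) L57699 (by decide +kernel)
theorem L57701 : W_10 (nat_lit 11) (nat_lit 0x200006001380090000000000000000000000000000000) (nat_lit 0x0) (nat_lit 0x1a0009c0000006c000f8007c000000000000000000000) := T_10 (nat_lit 126) (nat_lit 125) (nat_lit 1) (nat_lit 8) (nat_lit 7) L57700 (by decide +kernel)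
theorem L57702 : W_10 (nat_lit 2) (nat_lit 0x10002800060013800d0000c00000000000000000000000000) (nat_lit 0x0) (nat_lit 0x40002000100000000000000000000000000000000000000000000) := D_10 (nat_lit 193) (nat_lit 176) (nat_lit 210) (nat_lit 7) (nat_lit 5) (nat_lit 7) (nat_lit 7) (nat_lit 5) (nat_lit 8) (by decide +kernel)
theorem L57703 : W_10 (nat_lit 3) (nat_lit 0x2800060013800d0000c00000000000000000000000000) (nat_lit 0x0) (nat_lit 0x60003000100000000000000000000000000000000000000000000) := T_10 (nat_lit 192) (nat_lit 209) (nat_lit 4) (nat_lit 5) (nat_lit 12) L57702 (by decide +kernel)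
theorem L57704 : W_10 (nat_lit 4) (nat_lit 0x2000060013800d0000c00000000000000000000000000) (nat_lit 0x0) (nat_lit 0x60003000180000000000008000000000000000000000000000000) := T_10 (nat_lit 175) (nat_lit 123) (nat_lit 7) (nat_lit 4) (nat_lit 6) L57703 (by decide +kernel)
theorem L57705 : W_10 (nat_lit 5) (nat_lit 0x2000060013800d0000800000000000000000000000000) (nat_lit 0x0) (nat_lit 0x60003000180000000000008000400020000000000000000000000) := T_10 (nat_lit 106) (nat_lit 89) (nat_lit 4) (nat_lit 5) (nat_lit 9) L57704 (by decide +kernel)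
theorem L57706 : W_10 (nat_lit 6) (nat_lit 0x200006001380090000800000000000000000000000000) (nat_lit 0x0) (nat_lit 0x60003000180000000000068000400020000000000000000000000) := T_10 (nat_lit 126) (nat_lit 125) (nat_lit 1) (nat_lit 8) (nat_lit 7) L57705 (by decide +kernel)
theorem L57707 : W_10 (nat_lit 7) (nat_lit 0x200006001380090000000000000000000000000000000) (nat_lit 0x0) (nat_lit 0x60003000180000000000068000c00060000000000000000000000) := T_10 (nat_lit 107) (nat_lit 90) (nat_lit 5) (nat_lit 5) (nat_lit 5) L57706 (by decide +kernel)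
theorem L57708 : W_10 (nat_lit 12) (nat_lit 0x200002001380090000000000000000000000000000000) (nat_lit 0x0) (nat_lit 0x600034001b001dc0000006c000f8007c000000000000000000000) := Q_10 (nat_lit 158) (C_10 L57691 (C_10 L57351 (C_10 L57701 (C_10 L57320 (C_10 L57707 N_10))))) (by decide +kernel)
theorem L57709 : W_10 (nat_lit 13) (nat_lit 0x200002001300090000000000000000000000000000000) (nat_lit 0x0) (nat_lit 0x600034001b801de000e006f000f8007c000000000000000000000) := Q_10 (nat_lit 139) (C_10 L57364 (C_10 L57681 (C_10 L56657 (C_10 L57708 N_10)))) (by decide +kernel)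
theorem L57710 : W_10 (nat_lit 7) (nat_lit 0x200002001300090000000000000000000000000000000) (nat_lit 0x0) (nat_lit 0x2000300018000d80000006c003c000e0000000000000000000000) := Q_10 (nat_lit 158) (C_10 L57264 (C_10 L57630 (C_10 L57084 (C_10 L57625 N_10)))) (by decide +kernel)
theorem L57711 : W_10 (nat_lit 2) (nat_lit 0x200006001300090001c00000000000000000000000000) (nat_lit 0x0) (nat_lit 0x80000000000028000000000000000000000000000000) := D_10 (nat_lit 175) (nat_lit 123) (nat_lit 125) (nat_lit 7) (nat_lit 4) (nat_lit 6) (nat_lit 6) (nat_lit 5) (nat_lit 10) (by decide +kernel)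
theorem L57712 : W_10 (nat_lit 3) (nat_lit 0x200006001300090000c00000000000000000000000000) (nat_lit 0x0) (nat_lit 0x80000000000028001000080000000000000000000000) := T_10 (nat_lit 108) (nat_lit 91) (nat_lit 6) (nat_lit 5) (nat_lit 9) L57711 (by decide +kernel)
theorem L57713 : W_10 (nat_lit 4) (nat_lit 0x200006001300090000800000000000000000000000000) (nat_lit 0x0) (nat_lit 0x800000000000280014000a0000000000000000000000) := T_10 (nat_lit 106) (nat_lit 89) (nat_lit 4) (nat_lit 5) (nat_lit 9) L57712 (by decide +kernel)
theorem L57714 : W_10 (nat_lit 5) (nat_lit 0x200006001300090000000000000000000000000000000) (nat_lit 0x0) (nat_lit 0x80000000000028001c000e0000000000000000000000) := T_10 (nat_lit 107) (nat_lit 90) (nat_lit 5) (nat_lit 5) (nat_lit 5) L57713 (by decide +kernel)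
theorem L57715 : W_10 (nat_lit 7) (nat_lit 0x200002001300090000000000000000000000000000000) (nat_lit 0x0) (nat_lit 0x2000300018001d8000c0028001c000e0000000000000000000000) := Q_10 (nat_lit 158) (C_10 L56759 (C_10 L57625 (C_10 L57621 (C_10 L57714 N_10)))) (by decide +kernel)
theorem L57716 : W_10 (nat_lit 7) (nat_lit 0x200002001300090000000000000000000000000000000) (nat_lit 0x0) (nat_lit 0x2000100018001c0000c006c003c000e0000000000000000000000) := Q_10 (nat_lit 158) (C_10 L57264 (C_10 L57630 (C_10 L57714 (C_10 L57621 N_10)))) (by decide +kernel)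
theorem L57717 : W_10 (nat_lit 15) (nat_lit 0x200002001300080000000000000000000000000000000) (nat_lit 0x0) (nat_lit 0x680034001b801de000e007f003f803fc004000000000000000000) := Q_10 (nat_lit 124) (C_10 L57365 (C_10 L57619 (C_10 L57631 (C_10 L57638 (C_10 L57646 (C_10 L57277 (C_10 L57670 (C_10 L57709 (C_10 L57710 (C_10 L57715 (C_10 L57716 N_10))))))))))) (by decide +kernel)
theorem L57718 : W_10 (nat_lit 2) (nat_lit 0x2c00060013400bc000000000000000000000000000000) (nat_lit 0x0) (nat_lit 0x20003000000000000000000000000000000) := D_10 (nat_lit 121) (nat_lit 120) (nat_lit 137) (nat_lit 3) (nat_lit 1) (nat_lit 7) (nat_lit 1) (nat_lit 5) (nat_lit 7) (by decide +kernel)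
theorem L57719 : W_10 (nat_lit 3) (nat_lit 0x2c00060013400b8000000000000000000000000000000) (nat_lit 0x0) (nat_lit 0x20007000200000000000000000000000000) := T_10 (nat_lit 122) (nat_lit 105) (nat_lit 4) (nat_lit 4) (nat_lit 10) L57718 (by decide +kernel)
theorem L57720 : W_10 (nat_lit 4) (nat_lit 0x2c00020013400b8000000000000000000000000000000) (nat_lit 0x0) (nat_lit 0x4000020007001200000000000000000000000000) := T_10 (nat_lit 158) (nat_lit 108) (nat_lit 6) (nat_lit 5) (nat_lit 10) L57719 (by decide +kernel)
theorem L57721 : W_10 (nat_lit 5) (nat_lit 0x2400020013400b8000000000000000000000000000000) (nat_lit 0x0) (nat_lit 0x1000080004000020007001200000000000000000000000000) := T_10 (nat_lit 175) (nat_lit 192) (nat_lit 7) (nat_lit 4) (nat_lit 7) L57720 (by decide +kernel)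
theorem L57722 : W_10 (nat_lit 6) (nat_lit 0x2400020013000b8000000000000000000000000000000) (nat_lit 0x0) (nat_lit 0x10000800040000e0007001200000000000000000000000000) := T_10 (nat_lit 138) (nat_lit 139) (nat_lit 2) (nat_lit 2) (nat_lit 8) L57721 (by decide +kernel)
theorem L57723 : W_10 (nat_lit 7) (nat_lit 0x2000020013000b8000000000000000000000000000000) (nat_lit 0x0) (nat_lit 0x18000c00040000e0007001200000000000000000000000000) := T_10 (nat_lit 174) (nat_lit 191) (nat_lit 6) (nat_lit 4) (nat_lit 11) L57722 (by decide +kernel)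
theorem L57724 : W_10 (nat_lit 8) (nat_lit 0x200002001300098000000000000000000000000000000) (nat_lit 0x0) (nat_lit 0x18000c00040000e0067001200000000000000000000000000) := T_10 (nat_lit 125) (nat_lit 126) (nat_lit 1) (nat_lit 8) (nat_lit 7) L57723 (by decide +kernel)
theorem L57725 : W_10 (nat_lit 2) (nat_lit 0x2e0002001300098000400000000000000000000000000) (nat_lit 0x0) (nat_lit 0x4000200010000000000000000000000) := D_10 (nat_lit 105) (nat_lit 122) (nat_lit 88) (nat_lit 4) (nat_lit 4) (nat_lit 10) (nat_lit 4) (nat_lit 4) (nat_lit 9) (by decide +kernel)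
theorem L57726 : W_10 (nat_lit 3) (nat_lit 0x2e0002001300098000000000000000000000000000000) (nat_lit 0x0) (nat_lit 0x4000000004000600010000000000000000000000) := T_10 (nat_lit 106) (nat_lit 158) (nat_lit 7) (nat_lit 4) (nat_lit 6) L57725 (by decide +kernel)
theorem L57727 : W_10 (nat_lit 4) (nat_lit 0x260002001300098000000000000000000000000000000) (nat_lit 0x0) (nat_lit 0x1000080004000000004000600010000000000000000000000) := T_10 (nat_lit 175) (nat_lit 192) (nat_lit 7) (nat_lit 4) (nat_lit 7) L57726 (by decide +kernel)
theorem L57728 : W_10 (nat_lit 5) (nat_lit 0x240002001300098000000000000000000000000000000) (nat_lit 0x0) (nat_lit 0x14000a0004000000004000600010000000000000000000000) := T_10 (nat_lit 173) (nat_lit 190) (nat_lit 5) (nat_lit 4) (nat_lit 7) L57727 (by decide +kernel)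
theorem L57729 : W_10 (nat_lit 6) (nat_lit 0x200002001300098000000000000000000000000000000) (nat_lit 0x0) (nat_lit 0x1c000e0004000000004000600010000000000000000000000) := T_10 (nat_lit 174) (nat_lit 191) (nat_lit 6) (nat_lit 4) (nat_lit 11) L57728 (by decide +kernel)
theorem L57730 : W_10 (nat_lit 2) (nat_lit 0x2000020013000d8000400020000000000000000000000) (nat_lit 0x0) (nat_lit 0x200010000800000000000000000) := D_10 (nat_lit 88) (nat_lit 105) (nat_lit 71) (nat_lit 4) (nat_lit 4) (nat_lit 9) (nat_lit 4) (nat_lit 4) (nat_lit 8) (by decide +kernel)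
theorem L57731 : W_10 (nat_lit 3) (nat_lit 0x2000020013000d8000400000000000000000000000000) (nat_lit 0x0) (nat_lit 0x200030001800000000000000000) := T_10 (nat_lit 89) (nat_lit 72) (nat_lit 7) (nat_lit 4) (nat_lit 4) L57730 (by decide +kernel)
theorem L57732 : W_10 (nat_lit 4) (nat_lit 0x200002001300098000400000000000000000000000000) (nat_lit 0x0) (nat_lit 0x60000200030001800000000000000000) := T_10 (nat_lit 126) (nat_lit 125) (nat_lit 1) (nat_lit 8) (nat_lit 7) L57731 (by decide +kernel)
theorem L57733 : W_10 (nat_lit 2) (nat_lit 0x200002001300098000700000000000000000000000000) (nat_lit 0x0) (nat_lit 0x64000000000000000000000000000000) := D_10 (nat_lit 125) (nat_lit 126) (nat_lit 122) (nat_lit 1) (nat_lit 8) (nat_lit 7) (nat_lit 0) (nat_lit 6) (nat_lit 7) (by decide +kernel)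
theorem L57734 : W_10 (nat_lit 3) (nat_lit 0x200002001300098000600000000000000000000000000) (nat_lit 0x0) (nat_lit 0x64000180000000000000000000000000) := T_10 (nat_lit 104) (nat_lit 103) (nat_lit 3) (nat_lit 1) (nat_lit 6) L57733 (by decide +kernel)
theorem L57735 : W_10 (nat_lit 4) (nat_lit 0x200002001300098000400000000000000000000000000) (nat_lit 0x0) (nat_lit 0x64000380010000000000000000000000) := T_10 (nat_lit 105) (nat_lit 88) (nat_lit 4) (nat_lit 4) (nat_lit 9) L57734 (by decide +kernel)
theorem L57736 : W_10 (nat_lit 5) (nat_lit 0x200002001300098000000000000000000000000000000) (nat_lit 0x0) (nat_lit 0x4000000064000780030001800000000000000000) := Q_10 (nat_lit 106) (C_10 L56585 (C_10 L57732 (C_10 L57735 N_10))) (by decide +kernel)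
theorem L57737 : W_10 (nat_lit 2) (nat_lit 0x2e00020013000d8000400020000000000000000000000) (nat_lit 0x0) (nat_lit 0x200010000800000000000000000) := D_10 (nat_lit 88) (nat_lit 105) (nat_lit 71) (nat_lit 4) (nat_lit 4) (nat_lit 9) (nat_lit 4) (nat_lit 4) (nat_lit 8) (by decide +kernel)
theorem L57738 : W_10 (nat_lit 3) (nat_lit 0x2e00020013000d8000400000000000000000000000000) (nat_lit 0x0) (nat_lit 0x200030001800000000000000000) := T_10 (nat_lit 89) (nat_lit 72) (nat_lit 7) (nat_lit 4) (nat_lit 4) L57737 (by decide +kernel)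
theorem L57739 : W_10 (nat_lit 4) (nat_lit 0x2e00020013000d8000000000000000000000000000000) (nat_lit 0x0) (nat_lit 0x4000000000000600030001800000000000000000) := T_10 (nat_lit 106) (nat_lit 158) (nat_lit 7) (nat_lit 4) (nat_lit 6) L57738 (by decide +kernel)
theorem L57740 : W_10 (nat_lit 5) (nat_lit 0x2600020013000d8000000000000000000000000000000) (nat_lit 0x0) (nat_lit 0x1000080004000000000000600030001800000000000000000) := T_10 (nat_lit 175) (nat_lit 192) (nat_lit 7) (nat_lit 4) (nat_lit 7) L57739 (by decide +kernel)
theorem L57741 : W_10 (nat_lit 6) (nat_lit 0x2400020013000d8000000000000000000000000000000) (nat_lit 0x0) (nat_lit 0x14000a0004000000000000600030001800000000000000000) := T_10 (nat_lit 173) (nat_lit 190) (nat_lit 5) (nat_lit 4) (nat_lit 7) L57740 (by decide +kernel)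
theorem L57742 : W_10 (nat_lit 7) (nat_lit 0x2000020013000d8000000000000000000000000000000) (nat_lit 0x0) (nat_lit 0x1c000e0004000000000000600030001800000000000000000) := T_10 (nat_lit 174) (nat_lit 191) (nat_lit 6) (nat_lit 4) (nat_lit 11) L57741 (by decide +kernel)
theorem L57743 : W_10 (nat_lit 8) (nat_lit 0x200002001300098000000000000000000000000000000) (nat_lit 0x0) (nat_lit 0x1c000e0004000000060000600030001800000000000000000) := T_10 (nat_lit 126) (nat_lit 125) (nat_lit 1) (nat_lit 8) (nat_lit 7) L57742 (by decide +kernel)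
theorem L57744 : W_10 (nat_lit 2) (nat_lit 0x2c00020013400bc000000000000000000000000000000) (nat_lit 0x0) (nat_lit 0x20003000000000000000000000000000000) := D_10 (nat_lit 121) (nat_lit 120) (nat_lit 137) (nat_lit 3) (nat_lit 1) (nat_lit 7) (nat_lit 1) (nat_lit 5) (nat_lit 7) (by decide +kernel)
theorem L57745 : W_10 (nat_lit 3) (nat_lit 0x2c00020013400b8000000000000000000000000000000) (nat_lit 0x0) (nat_lit 0x20007000200000000000000000000000000) := T_10 (nat_lit 122) (nat_lit 105) (nat_lit 4) (nat_lit 4) (nat_lit 10) L57744 (by decide +kernel)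
theorem L57746 : W_10 (nat_lit 4) (nat_lit 0x2c00020013000b8000000000000000000000000000000) (nat_lit 0x0) (nat_lit 0xe0007000200000000000000000000000000) := T_10 (nat_lit 138) (nat_lit 139) (nat_lit 2) (nat_lit 2) (nat_lit 8) L57745 (by decide +kernel)
theorem L57747 : W_10 (nat_lit 5) (nat_lit 0x2400020013000b8000000000000000000000000000000) (nat_lit 0x0) (nat_lit 0x10000800000000e0007000200000000000000000000000000) := T_10 (nat_lit 175) (nat_lit 192) (nat_lit 7) (nat_lit 4) (nat_lit 7) L57746 (by decide +kernel)
theorem L57748 : W_10 (nat_lit 6) (nat_lit 0x240002001300098000000000000000000000000000000) (nat_lit 0x0) (nat_lit 0x10000800000000e0067000200000000000000000000000000) := T_10 (nat_lit 125) (nat_lit 126) (nat_lit 1) (nat_lit 8) (nat_lit 7) L57747 (by decide +kernel)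
theorem L57749 : W_10 (nat_lit 7) (nat_lit 0x200002001300098000000000000000000000000000000) (nat_lit 0x0) (nat_lit 0x18000c00000000e0067000200000000000000000000000000) := T_10 (nat_lit 174) (nat_lit 191) (nat_lit 6) (nat_lit 4) (nat_lit 11) L57748 (by decide +kernel)
theorem L57750 : W_10 (nat_lit 2) (nat_lit 0x2e00060013000d8000000000000000000000000000000) (nat_lit 0x0) (nat_lit 0x18008000000000000000000000000000000000000000) := D_10 (nat_lit 172) (nat_lit 159) (nat_lit 171) (nat_lit 2) (nat_lit 2) (nat_lit 10) (nat_lit 2) (nat_lit 1) (nat_lit 10) (by decide +kernel)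
theorem L57751 : W_10 (nat_lit 3) (nat_lit 0x2e00020013000d8000000000000000000000000000000) (nat_lit 0x0) (nat_lit 0x1800c000000000000400000000000000000000000000) := T_10 (nat_lit 158) (nat_lit 106) (nat_lit 7) (nat_lit 4) (nat_lit 6) L57750 (by decide +kernel)
theorem L57752 : W_10 (nat_lit 4) (nat_lit 0x2600020013000d8000000000000000000000000000000) (nat_lit 0x0) (nat_lit 0x100009800c000000000000400000000000000000000000000) := T_10 (nat_lit 175) (nat_lit 192) (nat_lit 7) (nat_lit 4) (nat_lit 7) L57751 (by decide +kernel)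
theorem L57753 : W_10 (nat_lit 5) (nat_lit 0x2400020013000d8000000000000000000000000000000) (nat_lit 0x0) (nat_lit 0x14000b800c000000000000400000000000000000000000000) := T_10 (nat_lit 173) (nat_lit 190) (nat_lit 5) (nat_lit 4) (nat_lit 7) L57752 (by decide +kernel)
theorem L57754 : W_10 (nat_lit 6) (nat_lit 0x2000020013000d8000000000000000000000000000000) (nat_lit 0x0) (nat_lit 0x1c000f800c000000000000400000000000000000000000000) := T_10 (nat_lit 174) (nat_lit 191) (nat_lit 6) (nat_lit 4) (nat_lit 11) L57753 (by decide +kernel)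
theorem L57755 : W_10 (nat_lit 7) (nat_lit 0x200002001300098000000000000000000000000000000) (nat_lit 0x0) (nat_lit 0x1c000f800c000000060000400000000000000000000000000) := T_10 (nat_lit 126) (nat_lit 125) (nat_lit 1) (nat_lit 8) (nat_lit 7) L57754 (by decide +kernel)
theorem L57756 : W_10 (nat_lit 9) (nat_lit 0x200002001300090000000000000000000000000000000) (nat_lit 0x0) (nat_lit 0x1c000f800c0000e006f001780030001800000000000000000) := Q_10 (nat_lit 123) (C_10 L57724 (C_10 L57729 (C_10 L57308 (C_10 L57736 (C_10 L57743 (C_10 L57749 (C_10 L57755 N_10))))))) (by decide +kernel)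
theorem L57757 : W_10 (nat_lit 10) (nat_lit 0x200002001300080000000000000000000000000000000) (nat_lit 0x0) (nat_lit 0x20001c001f801c0000e007f003f800f0001800000000000000000) := Q_10 (nat_lit 124) (C_10 L57716 (C_10 L56673 (C_10 L56656 (C_10 L57756 N_10)))) (by decide +kernel)
theorem L57758 : W_10 (nat_lit 4) (nat_lit 0x240002001380098000000000000000000000000000000) (nat_lit 0x0) (nat_lit 0x1000080005000000000000400020001000000000000000000) := T_10 (nat_lit 175) (nat_lit 192) (nat_lit 7) (nat_lit 4) (nat_lit 7) L57145 (by decide +kernel)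
theorem L57759 : W_10 (nat_lit 5) (nat_lit 0x200002001380098000000000000000000000000000000) (nat_lit 0x0) (nat_lit 0x18000c0005000000000000400020001000000000000000000) := T_10 (nat_lit 174) (nat_lit 191) (nat_lit 6) (nat_lit 4) (nat_lit 11) L57758 (by decide +kernel)
theorem L57760 : W_10 (nat_lit 2) (nat_lit 0x8002800068013c0098000000000000000000000000000000) (nat_lit 0x0) (nat_lit 0x2000100001000000000000000000000000000000000000000) := D_10 (nat_lit 176) (nat_lit 156) (nat_lit 193) (nat_lit 3) (nat_lit 2) (nat_lit 9) (nat_lit 7) (nat_lit 5) (nat_lit 7) (by decide +kernel)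
theorem L57761 : W_10 (nat_lit 3) (nat_lit 0x8002000068013c0098000000000000000000000000000000) (nat_lit 0x0) (nat_lit 0x3000180001000000000000000000000000000000000000000) := T_10 (nat_lit 175) (nat_lit 192) (nat_lit 4) (nat_lit 5) (nat_lit 11) L57760 (by decide +kernel)
theorem L57762 : W_10 (nat_lit 4) (nat_lit 0x8002000028013c0098000000000000000000000000000000) (nat_lit 0x0) (nat_lit 0x300018000d000000000000000000000000000000000000000) := T_10 (nat_lit 158) (nat_lit 159) (nat_lit 3) (nat_lit 2) (nat_lit 8) L57761 (by decide +kernel)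
theorem L57763 : W_10 (nat_lit 5) (nat_lit 0x8002000020013c0098000000000000000000000000000000) (nat_lit 0x0) (nat_lit 0x300018000dc00000000000000000000000000000000000000) := T_10 (nat_lit 155) (nat_lit 154) (nat_lit 1) (nat_lit 5) (nat_lit 8) L57762 (by decide +kernel)
theorem L57764 : W_10 (nat_lit 6) (nat_lit 0x800200002001380098000000000000000000000000000000) (nat_lit 0x0) (nat_lit 0x300018000dc00060000000000000000000000000000000000) := T_10 (nat_lit 138) (nat_lit 137) (nat_lit 2) (nat_lit 1) (nat_lit 8) L57763 (by decide +kernel)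
theorem L57765 : W_10 (nat_lit 7) (nat_lit 0x200002001380098000000000000000000000000000000) (nat_lit 0x0) (nat_lit 0x38001c000dc00060000000000000000000000000000000000) := T_10 (nat_lit 191) (nat_lit 174) (nat_lit 6) (nat_lit 4) (nat_lit 11) L57764 (by decide +kernel)
theorem L57766 : W_10 (nat_lit 2) (nat_lit 0x2c00030013a0098000200000000000000000000000000) (nat_lit 0x0) (nat_lit 0x400030000000000000000000000) := D_10 (nat_lit 106) (nat_lit 88) (nat_lit 89) (nat_lit 4) (nat_lit 4) (nat_lit 9) (nat_lit 5) (nat_lit 4) (nat_lit 5) (by decide +kernel)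
theorem L57767 : W_10 (nat_lit 3) (nat_lit 0x2c00030013a0098000000000000000000000000000000) (nat_lit 0x0) (nat_lit 0x4000600030000000000000000000000) := T_10 (nat_lit 105) (nat_lit 122) (nat_lit 7) (nat_lit 3) (nat_lit 6) L57766 (by decide +kernel)
theorem L57768 : W_10 (nat_lit 4) (nat_lit 0x2c00020013a0098000000000000000000000000000000) (nat_lit 0x0) (nat_lit 0x100001000000004000600030000000000000000000000) := T_10 (nat_lit 156) (nat_lit 176) (nat_lit 0) (nat_lit 7) (nat_lit 10) L57767 (by decide +kernel)
theorem L57769 : W_10 (nat_lit 5) (nat_lit 0x2400020013a0098000000000000000000000000000000) (nat_lit 0x0) (nat_lit 0x1000180001000000004000600030000000000000000000000) := T_10 (nat_lit 175) (nat_lit 192) (nat_lit 7) (nat_lit 4) (nat_lit 7) L57768 (by decide +kernel)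
theorem L57770 : W_10 (nat_lit 6) (nat_lit 0x2000020013a0098000000000000000000000000000000) (nat_lit 0x0) (nat_lit 0x18001c0001000000004000600030000000000000000000000) := T_10 (nat_lit 174) (nat_lit 191) (nat_lit 6) (nat_lit 4) (nat_lit 11) L57769 (by decide +kernel)
theorem L57771 : W_10 (nat_lit 7) (nat_lit 0x200002001380098000000000000000000000000000000) (nat_lit 0x0) (nat_lit 0x18001c0001000060004000600030000000000000000000000) := T_10 (nat_lit 137) (nat_lit 138) (nat_lit 2) (nat_lit 1) (nat_lit 8) L57770 (by decide +kernel)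
theorem L57772 : W_10 (nat_lit 12) (nat_lit 0x200002001380090000000000000000000000000000000) (nat_lit 0x0) (nat_lit 0x39001d800dc0006000f000780030001000000000000000000) := Q_10 (nat_lit 123) (C_10 L57113 (C_10 L57759 (C_10 L57127 (C_10 L57765 (C_10 L57138 (C_10 L57771 N_10)))))) (by decide +kernel)
theorem L57773 : W_10 (nat_lit 2) (nat_lit 0x2c00030013800d8000400000000000000000000000000) (nat_lit 0x0) (nat_lit 0x4000200010000000000000000000000) := D_10 (nat_lit 105) (nat_lit 122) (nat_lit 88) (nat_lit 7) (nat_lit 3) (nat_lit 6) (nat_lit 4) (nat_lit 4) (nat_lit 9) (by decide +kernel)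
theorem L57774 : W_10 (nat_lit 3) (nat_lit 0x2c00030013800d8000000000000000000000000000000) (nat_lit 0x0) (nat_lit 0x4000600030000000000000000000000) := T_10 (nat_lit 106) (nat_lit 89) (nat_lit 5) (nat_lit 4) (nat_lit 5) L57773 (by decide +kernel)
theorem L57775 : W_10 (nat_lit 4) (nat_lit 0x2c00030013800d0000000000000000000000000000000) (nat_lit 0x0) (nat_lit 0x100000000000000000c000600030000000000000000000000) := T_10 (nat_lit 123) (nat_lit 192) (nat_lit 7) (nat_lit 4) (nat_lit 7) L57774 (by decide +kernel)
theorem L57776 : W_10 (nat_lit 5) (nat_lit 0x2c00020013800d0000000000000000000000000000000) (nat_lit 0x0) (nat_lit 0x100010000100000000c000600030000000000000000000000) := T_10 (nat_lit 156) (nat_lit 176) (nat_lit 0) (nat_lit 7) (nat_lit 10) L57775 (by decide +kernel)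
theorem L57777 : W_10 (nat_lit 6) (nat_lit 0x2c0002001380090000000000000000000000000000000) (nat_lit 0x0) (nat_lit 0x100010000100000006c000600030000000000000000000000) := T_10 (nat_lit 126) (nat_lit 125) (nat_lit 1) (nat_lit 8) (nat_lit 7) L57776 (by decide +kernel)
theorem L57778 : W_10 (nat_lit 7) (nat_lit 0x280002001380090000000000000000000000000000000) (nat_lit 0x0) (nat_lit 0x180014000100000006c000600030000000000000000000000) := T_10 (nat_lit 174) (nat_lit 191) (nat_lit 6) (nat_lit 4) (nat_lit 11) L57777 (by decide +kernel)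
theorem L57779 : W_10 (nat_lit 2) (nat_lit 0x8003800060013800b8000000000000000000000000000000) (nat_lit 0x0) (nat_lit 0x9800000000000000000000000000000000000000) := D_10 (nat_lit 156) (nat_lit 159) (nat_lit 155) (nat_lit 3) (nat_lit 3) (nat_lit 9) (nat_lit 3) (nat_lit 2) (nat_lit 9) (by decide +kernel)
theorem L57780 : W_10 (nat_lit 3) (nat_lit 0x8002800060013800b8000000000000000000000000000000) (nat_lit 0x0) (nat_lit 0x2000100009800000000000000000000000000000000000000) := T_10 (nat_lit 176) (nat_lit 193) (nat_lit 7) (nat_lit 5) (nat_lit 7) L57779 (by decide +kernel)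
theorem L57781 : W_10 (nat_lit 4) (nat_lit 0x8002800060013800b0000000000000000000000000000000) (nat_lit 0x0) (nat_lit 0x2000100009800000008000400000000000000000000000000) := T_10 (nat_lit 123) (nat_lit 106) (nat_lit 7) (nat_lit 4) (nat_lit 6) L57780 (by decide +kernel)
theorem L57782 : W_10 (nat_lit 5) (nat_lit 0x8002800020013800b0000000000000000000000000000000) (nat_lit 0x0) (nat_lit 0x200010000d800000008001400000000000000000000000000) := T_10 (nat_lit 158) (nat_lit 108) (nat_lit 6) (nat_lit 5) (nat_lit 10) L57781 (by decide +kernel)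
theorem L57783 : W_10 (nat_lit 6) (nat_lit 0x800280002001380090000000000000000000000000000000) (nat_lit 0x0) (nat_lit 0x200010000d800000068001400000000000000000000000000) := T_10 (nat_lit 125) (nat_lit 126) (nat_lit 1) (nat_lit 8) (nat_lit 7) L57782 (by decide +kernel)
theorem L57784 : W_10 (nat_lit 7) (nat_lit 0x280002001380090000000000000000000000000000000) (nat_lit 0x0) (nat_lit 0x280014000d800000068001400000000000000000000000000) := T_10 (nat_lit 191) (nat_lit 174) (nat_lit 6) (nat_lit 4) (nat_lit 11) L57783 (by decide +kernel)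
theorem L57785 : W_10 (nat_lit 8) (nat_lit 0x200002001380090000000000000000000000000000000) (nat_lit 0x0) (nat_lit 0x300038001c000d80000006c001600030001000000000000000000) := Q_10 (nat_lit 175) (C_10 L57154 (C_10 L57147 (C_10 L57151 (C_10 L57778 (C_10 L57784 N_10))))) (by decide +kernel)
theorem L57786 : W_10 (nat_lit 13) (nat_lit 0x200002001300090000000000000000000000000000000) (nat_lit 0x0) (nat_lit 0x300039001d800dc000e006f001780030001000000000000000000) := Q_10 (nat_lit 139) (C_10 L56657 (C_10 L57772 (C_10 L57785 N_10))) (by decide +kernel)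
theorem L57787 : W_10 (nat_lit 14) (nat_lit 0x200002001300080000000000000000000000000000000) (nat_lit 0x0) (nat_lit 0x300039001d801de000e007f003f801f8005000000000000000000) := Q_10 (nat_lit 124) (C_10 L57716 (C_10 L57619 (C_10 L57631 (C_10 L57638 (C_10 L57786 (C_10 L57710 (C_10 L57670 (C_10 L57108 (C_10 L57715 N_10))))))))) (by decide +kernel)
theorem L57788 : W_10 (nat_lit 16) (nat_lit 0x200000001300080000000000000000000000000000000) (nat_lit 0x0) (nat_lit 0x800070007c00ff801fc03fe000f007f003f803fc007800000000000000000) := Q_10 (nat_lit 157) (C_10 L57051 (C_10 L57069 (C_10 L57091 (C_10 L57105 (C_10 L57226 (C_10 L57278 (C_10 L57366 (C_10 L57393 (C_10 L57584 (C_10 L57717 (C_10 L57757 (C_10 L57787 N_10)))))))))))) (by decide +kernel)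
theorem L57789 : W_10 (nat_lit 2) (nat_lit 0x40003e00148013c009a000000000000000000000000000000) (nat_lit 0x0) (nat_lit 0x600010000000000000000000000000000000000000000000) := D_10 (nat_lit 190) (nat_lit 189) (nat_lit 172) (nat_lit 1) (nat_lit 6) (nat_lit 10) (nat_lit 7) (nat_lit 2) (nat_lit 7) (by decide +kernel)
theorem L57790 : W_10 (nat_lit 3) (nat_lit 0x40003c00148013c009a000000000000000000000000000000) (nat_lit 0x0) (nat_lit 0x600030001000000000000000000000000000000000000000) := T_10 (nat_lit 173) (nat_lit 156) (nat_lit 0) (nat_lit 6) (nat_lit 10) L57789 (by decide +kernel)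
theorem L57791 : W_10 (nat_lit 4) (nat_lit 0x40003c00048013c009a000000000000000000000000000000) (nat_lit 0x0) (nat_lit 0x600030031000000000000000000000000000000000000000) := T_10 (nat_lit 160) (nat_lit 161) (nat_lit 2) (nat_lit 4) (nat_lit 10) L57790 (by decide +kernel)
theorem L57792 : W_10 (nat_lit 5) (nat_lit 0x3c00048013c009a000000000000000000000000000000) (nat_lit 0x0) (nat_lit 0xc600030031000000000000000000000000000000000000000) := T_10 (nat_lit 194) (nat_lit 195) (nat_lit 3) (nat_lit 4) (nat_lit 10) L57791 (by decide +kernel)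
theorem L57793 : W_10 (nat_lit 6) (nat_lit 0x2c00048013c009a000000000000000000000000000000) (nat_lit 0x0) (nat_lit 0xe600130031000000000000000000000000000000000000000) := T_10 (nat_lit 176) (nat_lit 193) (nat_lit 7) (nat_lit 5) (nat_lit 7) L57792 (by decide +kernel)
theorem L57794 : W_10 (nat_lit 7) (nat_lit 0x2800048013c009a000000000000000000000000000000) (nat_lit 0x0) (nat_lit 0xee00170031000000000000000000000000000000000000000) := T_10 (nat_lit 174) (nat_lit 191) (nat_lit 5) (nat_lit 5) (nat_lit 7) L57793 (by decide +kernel)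
theorem L57795 : W_10 (nat_lit 8) (nat_lit 0x2000048013c009a000000000000000000000000000000) (nat_lit 0x0) (nat_lit 0xfe001f0031000000000000000000000000000000000000000) := T_10 (nat_lit 175) (nat_lit 192) (nat_lit 4) (nat_lit 5) (nat_lit 11) L57794 (by decide +kernel)
theorem L57796 : W_10 (nat_lit 9) (nat_lit 0x2000040013c009a000000000000000000000000000000) (nat_lit 0x0) (nat_lit 0xfe001f0031c00000000000000000000000000000000000000) := T_10 (nat_lit 155) (nat_lit 154) (nat_lit 1) (nat_lit 5) (nat_lit 8) L57795 (by decide +kernel)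
theorem L57797 : W_10 (nat_lit 10) (nat_lit 0x2000000013c009a000000000000000000000000000000) (nat_lit 0x0) (nat_lit 0xfe001f003dc00000000000000000000000000000000000000) := T_10 (nat_lit 158) (nat_lit 159) (nat_lit 3) (nat_lit 2) (nat_lit 8) L57796 (by decide +kernel)
theorem L57798 : W_10 (nat_lit 11) (nat_lit 0x2000000013c0098000000000000000000000000000000) (nat_lit 0x0) (nat_lit 0xfe001f003dc00000003000000000000000000000000000000) := T_10 (nat_lit 121) (nat_lit 120) (nat_lit 0) (nat_lit 5) (nat_lit 8) L57797 (by decide +kernel)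
theorem L57799 : W_10 (nat_lit 12) (nat_lit 0x2000000013c0088000000000000000000000000000000) (nat_lit 0x0) (nat_lit 0xfe001f003dc00000033000000000000000000000000000000) := T_10 (nat_lit 124) (nat_lit 125) (nat_lit 2) (nat_lit 2) (nat_lit 8) L57798 (by decide +kernel)
theorem L57800 : W_10 (nat_lit 2) (nat_lit 0x2000008013c008d000200000000000000000000000000) (nat_lit 0x0) (nat_lit 0x200010001000000000000000000000000000000000000000) := D_10 (nat_lit 172) (nat_lit 189) (nat_lit 156) (nat_lit 6) (nat_lit 2) (nat_lit 11) (nat_lit 5) (nat_lit 3) (nat_lit 6) (by decide +kernel)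
theorem L57801 : W_10 (nat_lit 3) (nat_lit 0x2000008013c008d000000000000000000000000000000) (nat_lit 0x0) (nat_lit 0x200010001000000000000200010000000000000000000000) := T_10 (nat_lit 105) (nat_lit 88) (nat_lit 5) (nat_lit 3) (nat_lit 5) L57800 (by decide +kernel)
theorem L57802 : W_10 (nat_lit 4) (nat_lit 0x2000008013c008c000000000000000000000000000000) (nat_lit 0x0) (nat_lit 0x200010001000000003000200010000000000000000000000) := T_10 (nat_lit 120) (nat_lit 121) (nat_lit 3) (nat_lit 1) (nat_lit 7) L57801 (by decide +kernel)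
theorem L57803 : W_10 (nat_lit 5) (nat_lit 0x2000000013c008c000000000000000000000000000000) (nat_lit 0x0) (nat_lit 0x200010001c00000003000200010000000000000000000000) := T_10 (nat_lit 155) (nat_lit 154) (nat_lit 1) (nat_lit 5) (nat_lit 8) L57802 (by decide +kernel)
theorem L57804 : W_10 (nat_lit 2) (nat_lit 0x2380008013c00ae000000000000000000000000000000) (nat_lit 0x0) (nat_lit 0x1000000000000500000000000000000000000000) := D_10 (nat_lit 156) (nat_lit 104) (nat_lit 106) (nat_lit 7) (nat_lit 2) (nat_lit 6) (nat_lit 6) (nat_lit 3) (nat_lit 10) (by decide +kernel)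
theorem L57805 : W_10 (nat_lit 3) (nat_lit 0x2180008013c00ae000000000000000000000000000000) (nat_lit 0x0) (nat_lit 0x400020001000000000000500000000000000000000000000) := T_10 (nat_lit 173) (nat_lit 190) (nat_lit 7) (nat_lit 2) (nat_lit 7) L57804 (by decide +kernel)
theorem L57806 : W_10 (nat_lit 4) (nat_lit 0x2100008013c00ae000000000000000000000000000000) (nat_lit 0x0) (nat_lit 0x500028001000000000000500000000000000000000000000) := T_10 (nat_lit 171) (nat_lit 188) (nat_lit 5) (nat_lit 2) (nat_lit 7) L57805 (by decide +kernel)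
theorem L57807 : W_10 (nat_lit 5) (nat_lit 0x2000008013c00ae000000000000000000000000000000) (nat_lit 0x0) (nat_lit 0x700038001000000000000500000000000000000000000000) := T_10 (nat_lit 172) (nat_lit 189) (nat_lit 6) (nat_lit 2) (nat_lit 11) L57806 (by decide +kernel)
theorem L57808 : W_10 (nat_lit 6) (nat_lit 0x2000000013c00ae000000000000000000000000000000) (nat_lit 0x0) (nat_lit 0x700038001c00000000000500000000000000000000000000) := T_10 (nat_lit 155) (nat_lit 154) (nat_lit 1) (nat_lit 5) (nat_lit 8) L57807 (by decide +kernel)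
theorem L57809 : W_10 (nat_lit 7) (nat_lit 0x2000000013c00ac000000000000000000000000000000) (nat_lit 0x0) (nat_lit 0x700038001c00000003000500000000000000000000000000) := T_10 (nat_lit 121) (nat_lit 120) (nat_lit 3) (nat_lit 1) (nat_lit 7) L57808 (by decide +kernel)
theorem L57810 : W_10 (nat_lit 8) (nat_lit 0x2000000013c008c000000000000000000000000000000) (nat_lit 0x0) (nat_lit 0x700038001c00000033000500000000000000000000000000) := T_10 (nat_lit 125) (nat_lit 124) (nat_lit 2) (nat_lit 2) (nat_lit 8) L57809 (by decide +kernel)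
theorem L57811 : W_10 (nat_lit 2) (nat_lit 0x2100008013c00ac000000000000000000000000000000) (nat_lit 0x0) (nat_lit 0x1000000000000200010000000000000000000000) := D_10 (nat_lit 105) (nat_lit 88) (nat_lit 156) (nat_lit 5) (nat_lit 3) (nat_lit 5) (nat_lit 5) (nat_lit 3) (nat_lit 6) (by decide +kernel)
theorem L57812 : W_10 (nat_lit 3) (nat_lit 0x2000008013c00ac000000000000000000000000000000) (nat_lit 0x0) (nat_lit 0x200010001000000000000200010000000000000000000000) := T_10 (nat_lit 172) (nat_lit 189) (nat_lit 6) (nat_lit 2) (nat_lit 11) L57811 (by decide +kernel)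
theorem L57813 : W_10 (nat_lit 4) (nat_lit 0x2000008013c008c000000000000000000000000000000) (nat_lit 0x0) (nat_lit 0x200010001000000030000200010000000000000000000000) := T_10 (nat_lit 125) (nat_lit 124) (nat_lit 2) (nat_lit 2) (nat_lit 8) L57812 (by decide +kernel)
theorem L57814 : W_10 (nat_lit 5) (nat_lit 0x2000000013c008c000000000000000000000000000000) (nat_lit 0x0) (nat_lit 0x200010001c00000030000200010000000000000000000000) := T_10 (nat_lit 155) (nat_lit 154) (nat_lit 1) (nat_lit 5) (nat_lit 8) L57813 (by decide +kernel)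
theorem L57815 : W_10 (nat_lit 2) (nat_lit 0x2000008013c008e000000000000000000000000000000) (nat_lit 0x0) (nat_lit 0x10000000000000000200010000000000000000000000) := D_10 (nat_lit 105) (nat_lit 88) (nat_lit 172) (nat_lit 5) (nat_lit 3) (nat_lit 5) (nat_lit 6) (nat_lit 2) (nat_lit 10) (by decide +kernel)
theorem L57816 : W_10 (nat_lit 3) (nat_lit 0x2000008013c008c000000000000000000000000000000) (nat_lit 0x0) (nat_lit 0x10000000000003000200010000000000000000000000) := T_10 (nat_lit 121) (nat_lit 120) (nat_lit 3) (nat_lit 1) (nat_lit 7) L57815 (by decide +kernel)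
theorem L57817 : W_10 (nat_lit 4) (nat_lit 0x2000000013c008c000000000000000000000000000000) (nat_lit 0x0) (nat_lit 0x10000c00000003000200010000000000000000000000) := T_10 (nat_lit 155) (nat_lit 154) (nat_lit 1) (nat_lit 5) (nat_lit 8) L57816 (by decide +kernel)
theorem L57818 : W_10 (nat_lit 2) (nat_lit 0x2000000013c009e000100000000000000000000000000) (nat_lit 0x0) (nat_lit 0x20001000000000000000008000000000000000000000) := D_10 (nat_lit 156) (nat_lit 173) (nat_lit 87) (nat_lit 4) (nat_lit 3) (nat_lit 10) (nat_lit 7) (nat_lit 2) (nat_lit 5) (by decide +kernel)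
theorem L57819 : W_10 (nat_lit 3) (nat_lit 0x2000000013c009e000000000000000000000000000000) (nat_lit 0x0) (nat_lit 0x20001000000000000180008000000000000000000000) := T_10 (nat_lit 104) (nat_lit 103) (nat_lit 0) (nat_lit 5) (nat_lit 7) L57818 (by decide +kernel)
theorem L57820 : W_10 (nat_lit 4) (nat_lit 0x2000000013c009c000000000000000000000000000000) (nat_lit 0x0) (nat_lit 0x20001000000003000180008000000000000000000000) := T_10 (nat_lit 121) (nat_lit 120) (nat_lit 3) (nat_lit 1) (nat_lit 7) L57819 (by decide +kernel)
theorem L57821 : W_10 (nat_lit 5) (nat_lit 0x2000000013c008c000000000000000000000000000000) (nat_lit 0x0) (nat_lit 0x20001000000033000180008000000000000000000000) := T_10 (nat_lit 124) (nat_lit 125) (nat_lit 2) (nat_lit 2) (nat_lit 8) L57820 (by decide +kernel)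
theorem L57822 : W_10 (nat_lit 9) (nat_lit 0x2000000013c0088000000000000000000000000000000) (nat_lit 0x0) (nat_lit 0x700038001c00000037000780018000000000000000000000) := Q_10 (nat_lit 122) (C_10 L57803 (C_10 L57810 (C_10 L57814 (C_10 L57817 (C_10 L57821 N_10))))) (by decide +kernel)
theorem L57823 : W_10 (nat_lit 2) (nat_lit 0x2200010013c008a000000000000000000000000000000) (nat_lit 0x0) (nat_lit 0x800000000000100008000000000000000000000) := D_10 (nat_lit 104) (nat_lit 87) (nat_lit 155) (nat_lit 7) (nat_lit 2) (nat_lit 5) (nat_lit 7) (nat_lit 2) (nat_lit 6) (by decide +kernel)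
theorem L57824 : W_10 (nat_lit 3) (nat_lit 0x2000010013c008a000000000000000000000000000000) (nat_lit 0x0) (nat_lit 0x400020000800000000000100008000000000000000000000) := T_10 (nat_lit 173) (nat_lit 190) (nat_lit 6) (nat_lit 3) (nat_lit 11) L57823 (by decide +kernel)
theorem L57825 : W_10 (nat_lit 4) (nat_lit 0x2000010013c0088000000000000000000000000000000) (nat_lit 0x0) (nat_lit 0x400020000800000003000100008000000000000000000000) := T_10 (nat_lit 121) (nat_lit 120) (nat_lit 0) (nat_lit 5) (nat_lit 8) L57824 (by decide +kernel)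
theorem L57826 : W_10 (nat_lit 2) (nat_lit 0x10002000058013c008a000380020000000000000000000000) (nat_lit 0x0) (nat_lit 0x10000000000004000040000000000000000000000000) := D_10 (nat_lit 122) (nat_lit 172) (nat_lit 102) (nat_lit 6) (nat_lit 2) (nat_lit 10) (nat_lit 3) (nat_lit 0) (nat_lit 6) (by decide +kernel)
theorem L57827 : W_10 (nat_lit 3) (nat_lit 0x10002000058013c008a000180020000000000000000000000) (nat_lit 0x0) (nat_lit 0x10000000000004000240010000000000000000000000) := T_10 (nat_lit 105) (nat_lit 88) (nat_lit 6) (nat_lit 2) (nat_lit 9) L57826 (by decide +kernel)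
theorem L57828 : W_10 (nat_lit 4) (nat_lit 0x2000058013c008a000180020000000000000000000000) (nat_lit 0x0) (nat_lit 0x1000090000000000004000240010000000000000000000000) := T_10 (nat_lit 192) (nat_lit 175) (nat_lit 4) (nat_lit 5) (nat_lit 11) L57827 (by decide +kernel)
theorem L57829 : W_10 (nat_lit 5) (nat_lit 0x2000058013c008a000100020000000000000000000000) (nat_lit 0x0) (nat_lit 0x10000900000000000040002c0014000000000000000000000) := T_10 (nat_lit 103) (nat_lit 86) (nat_lit 4) (nat_lit 2) (nat_lit 9) L57828 (by decide +kernel)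
theorem L57830 : W_10 (nat_lit 6) (nat_lit 0x2000018013c008a000100020000000000000000000000) (nat_lit 0x0) (nat_lit 0x100009000c0000000040002c0014000000000000000000000) := T_10 (nat_lit 158) (nat_lit 159) (nat_lit 3) (nat_lit 2) (nat_lit 8) L57829 (by decide +kernel)
theorem L57831 : W_10 (nat_lit 7) (nat_lit 0x2000010013c008a000100020000000000000000000000) (nat_lit 0x0) (nat_lit 0x100009000cc000000040002c0014000000000000000000000) := T_10 (nat_lit 155) (nat_lit 154) (nat_lit 1) (nat_lit 5) (nat_lit 8) L57830 (by decide +kernel)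
theorem L57832 : W_10 (nat_lit 8) (nat_lit 0x2000010013c008a000000020000000000000000000000) (nat_lit 0x0) (nat_lit 0x100009000cc000000040003c001c000000000000000000000) := T_10 (nat_lit 104) (nat_lit 87) (nat_lit 7) (nat_lit 2) (nat_lit 5) L57831 (by decide +kernel)
theorem L57833 : W_10 (nat_lit 9) (nat_lit 0x2000010013c008a000000000000000000000000000000) (nat_lit 0x0) (nat_lit 0x100009000cc000000040007c003c000000000000000000000) := T_10 (nat_lit 89) (nat_lit 106) (nat_lit 5) (nat_lit 4) (nat_lit 5) L57832 (by decide +kernel)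
theorem L57834 : W_10 (nat_lit 10) (nat_lit 0x2000010013c0088000000000000000000000000000000) (nat_lit 0x0) (nat_lit 0x100009000cc000000070007c003c000000000000000000000) := T_10 (nat_lit 121) (nat_lit 120) (nat_lit 0) (nat_lit 5) (nat_lit 8) L57833 (by decide +kernel)
theorem L57835 : W_10 (nat_lit 11) (nat_lit 0x2000000013c0088000000000000000000000000000000) (nat_lit 0x0) (nat_lit 0x14000b000dc000000070007c003c000000000000000000000) := Q_10 (nat_lit 156) (C_10 L37177 (C_10 L57825 (C_10 L33747 (C_10 L57834 N_10)))) (by decide +kernel)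
theorem L57836 : W_10 (nat_lit 13) (nat_lit 0x2000000013c0080000000000000000000000000000000) (nat_lit 0x0) (nat_lit 0xff001f803dc0000003f0007c003c000000000000000000000) := Q_10 (nat_lit 123) (C_10 L57799 (C_10 L37231 (C_10 L57822 (C_10 L57835 N_10)))) (by decide +kernel)
theorem L57837 : W_10 (nat_lit 14) (nat_lit 0x200000001380080000000000000000000000000000000) (nat_lit 0x0) (nat_lit 0xff001f803de0006003f8007c003c000000000000000000000) := Q_10 (nat_lit 138) (C_10 L55573 (C_10 L55526 (C_10 L55478 (C_10 L57836 N_10)))) (by decide +kernel)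
theorem L57838 : W_10 (nat_lit 6) (nat_lit 0xd000c00220009001780080000000000000000000000000000000) (nat_lit 0x0) (nat_lit 0x10000c00070001c0004000000010000000000000000000000000000000) := T_10 (nat_lit 193) (nat_lit 192) (nat_lit 1) (nat_lit 6) (nat_lit 11) L38190 (by decide +kernel)
theorem L57839 : W_10 (nat_lit 7) (nat_lit 0xc000c00220009001780080000000000000000000000000000000) (nat_lit 0x0) (nat_lit 0x10000c30070001c0004000000010000000000000000000000000000000) := T_10 (nat_lit 204) (nat_lit 205) (nat_lit 2) (nat_lit 0) (nat_lit 12) L57838 (by decide +kernel)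
theorem L57840 : W_10 (nat_lit 8) (nat_lit 0x4000c00220009001780080000000000000000000000000000000) (nat_lit 0x0) (nat_lit 0x10800cb0070001c0004000000010000000000000000000000000000000) := T_10 (nat_lit 207) (nat_lit 223) (nat_lit 5) (nat_lit 3) (nat_lit 9) L57839 (by decide +kernel)
theorem L57841 : W_10 (nat_lit 9) (nat_lit 0x4000400220009001780080000000000000000000000000000000) (nat_lit 0x0) (nat_lit 0x10800db0078001c0004000000010000000000000000000000000000000) := T_10 (nat_lit 191) (nat_lit 208) (nat_lit 7) (nat_lit 3) (nat_lit 8) L57840 (by decide +kernel)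
theorem L57842 : W_10 (nat_lit 10) (nat_lit 0x400220009001780080000000000000000000000000000000) (nat_lit 0x0) (nat_lit 0x10800df007a001c0004000000010000000000000000000000000000000) := T_10 (nat_lit 206) (nat_lit 189) (nat_lit 5) (nat_lit 3) (nat_lit 8) L57841 (by decide +kernel)
theorem L57843 : W_10 (nat_lit 11) (nat_lit 0x220009001780080000000000000000000000000000000) (nat_lit 0x0) (nat_lit 0x10800df007e001c0004000000018000000000000000000000000000000) := T_10 (nat_lit 190) (nat_lit 123) (nat_lit 6) (nat_lit 3) (nat_lit 11) L57842 (by decide +kernel)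
theorem L57844 : W_10 (nat_lit 12) (nat_lit 0x220001001780080000000000000000000000000000000) (nat_lit 0x0) (nat_lit 0x10800df007e001c001c000000018000000000000000000000000000000) := T_10 (nat_lit 159) (nat_lit 160) (nat_lit 3) (nat_lit 3) (nat_lit 8) L57843 (by decide +kernel)
theorem L57845 : W_10 (nat_lit 13) (nat_lit 0x200001001780080000000000000000000000000000000) (nat_lit 0x0) (nat_lit 0x10800df007e001f001c00000001e000400000000000000000000000000) := Q_10 (nat_lit 173) (C_10 L55000 (C_10 L54985 (C_10 L54988 (C_10 L57844 N_10)))) (by decide +kernel)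
theorem L57846 : W_10 (nat_lit 14) (nat_lit 0x200000001780080000000000000000000000000000000) (nat_lit 0x0) (nat_lit 0x10800df007e001f001d80000001e000400000000000000000000000000) := T_10 (nat_lit 156) (nat_lit 155) (nat_lit 1) (nat_lit 6) (nat_lit 8) L57845 (by decide +kernel)
theorem L57847 : W_10 (nat_lit 2) (nat_lit 0x200004001780088000400000000000000000000000000) (nat_lit 0x0) (nat_lit 0x1000080000000000010000000000000000000000000000000) := D_10 (nat_lit 175) (nat_lit 192) (nat_lit 124) (nat_lit 4) (nat_lit 5) (nat_lit 11) (nat_lit 4) (nat_lit 5) (nat_lit 10) (by decide +kernel)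
theorem L57848 : W_10 (nat_lit 3) (nat_lit 0x200004001780088000000000000000000000000000000) (nat_lit 0x0) (nat_lit 0x1000080000000000010000400020000000000000000000000) := T_10 (nat_lit 106) (nat_lit 89) (nat_lit 7) (nat_lit 4) (nat_lit 5) L57847 (by decide +kernel)
theorem L57849 : W_10 (nat_lit 2) (nat_lit 0x200005001780088000400000000000000000000000000) (nat_lit 0x0) (nat_lit 0x400020000000000004000000000000000000000000000000) := D_10 (nat_lit 173) (nat_lit 190) (nat_lit 122) (nat_lit 6) (nat_lit 3) (nat_lit 11) (nat_lit 6) (nat_lit 3) (nat_lit 10) (by decide +kernel)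
theorem L57850 : W_10 (nat_lit 3) (nat_lit 0x200005001780088000000000000000000000000000000) (nat_lit 0x0) (nat_lit 0x400020000000000004000400020000000000000000000000) := T_10 (nat_lit 106) (nat_lit 89) (nat_lit 7) (nat_lit 4) (nat_lit 5) L57849 (by decide +kernel)
theorem L57851 : W_10 (nat_lit 4) (nat_lit 0x200004001780088000000000000000000000000000000) (nat_lit 0x0) (nat_lit 0x400020001800000004000400020000000000000000000000) := T_10 (nat_lit 156) (nat_lit 155) (nat_lit 1) (nat_lit 6) (nat_lit 8) L57850 (by decide +kernel)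
theorem L57852 : W_10 (nat_lit 2) (nat_lit 0x2b000500178008c000000000000000000000000000000) (nat_lit 0x0) (nat_lit 0x800040008000000000000000000000000000000000000000) := D_10 (nat_lit 174) (nat_lit 159) (nat_lit 191) (nat_lit 2) (nat_lit 2) (nat_lit 10) (nat_lit 7) (nat_lit 3) (nat_lit 7) (by decide +kernel)
theorem L57853 : W_10 (nat_lit 3) (nat_lit 0x2a000500178008c000000000000000000000000000000) (nat_lit 0x0) (nat_lit 0xa00050008000000000000000000000000000000000000000) := T_10 (nat_lit 172) (nat_lit 189) (nat_lit 5) (nat_lit 3) (nat_lit 7) L57852 (by decide +kernel)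
theorem L57854 : W_10 (nat_lit 4) (nat_lit 0x28000500178008c000000000000000000000000000000) (nat_lit 0x0) (nat_lit 0xe00070008000000000000000000000000000000000000000) := T_10 (nat_lit 173) (nat_lit 190) (nat_lit 6) (nat_lit 3) (nat_lit 11) L57853 (by decide +kernel)
theorem L57855 : W_10 (nat_lit 5) (nat_lit 0x280005001780088000000000000000000000000000000) (nat_lit 0x0) (nat_lit 0xe00070008000000006000000000000000000000000000000) := T_10 (nat_lit 122) (nat_lit 121) (nat_lit 0) (nat_lit 6) (nat_lit 8) L57854 (by decide +kernel)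
theorem L57856 : W_10 (nat_lit 6) (nat_lit 0x280004001780088000000000000000000000000000000) (nat_lit 0x0) (nat_lit 0xe00070009800000006000000000000000000000000000000) := T_10 (nat_lit 156) (nat_lit 155) (nat_lit 1) (nat_lit 6) (nat_lit 8) L57855 (by decide +kernel)
theorem L57857 : W_10 (nat_lit 7) (nat_lit 0x200004001780088000000000000000000000000000000) (nat_lit 0x0) (nat_lit 0x1e000f0009800000006000000000000000000000000000000) := T_10 (nat_lit 175) (nat_lit 192) (nat_lit 4) (nat_lit 5) (nat_lit 11) L57856 (by decide +kernel)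
theorem L57858 : W_10 (nat_lit 8) (nat_lit 0x200004001780080000000000000000000000000000000) (nat_lit 0x0) (nat_lit 0x1e000f000980000001e000400020000000000000000000000) := Q_10 (nat_lit 123) (C_10 L57848 (C_10 L57851 (C_10 L57857 N_10))) (by decide +kernel)
theorem L57859 : W_10 (nat_lit 2) (nat_lit 0x2000050017800a0001000000000000000000000000000) (nat_lit 0x0) (nat_lit 0x1000080000000000010000000000000000000000000000000) := D_10 (nat_lit 175) (nat_lit 192) (nat_lit 124) (nat_lit 6) (nat_lit 5) (nat_lit 11) (nat_lit 6) (nat_lit 5) (nat_lit 10) (by decide +kernel)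
theorem L57860 : W_10 (nat_lit 3) (nat_lit 0x2000050017800a0000000000000000000000000000000) (nat_lit 0x0) (nat_lit 0x1000080000000000010001000080000000000000000000000) := T_10 (nat_lit 108) (nat_lit 91) (nat_lit 5) (nat_lit 6) (nat_lit 5) L57859 (by decide +kernel)
theorem L57861 : W_10 (nat_lit 4) (nat_lit 0x200005001780080000000000000000000000000000000) (nat_lit 0x0) (nat_lit 0x1000080000000000070001000080000000000000000000000) := T_10 (nat_lit 125) (nat_lit 126) (nat_lit 2) (nat_lit 3) (nat_lit 8) L57860 (by decide +kernel)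
theorem L57862 : W_10 (nat_lit 5) (nat_lit 0x200004001780080000000000000000000000000000000) (nat_lit 0x0) (nat_lit 0x1000080001800000070001000080000000000000000000000) := T_10 (nat_lit 156) (nat_lit 155) (nat_lit 1) (nat_lit 6) (nat_lit 8) L57861 (by decide +kernel)
theorem L57863 : W_10 (nat_lit 2) (nat_lit 0x2000050017800a0003c00020000000000000000000000) (nat_lit 0x0) (nat_lit 0x8000000000000000140000000000000000000000) := D_10 (nat_lit 159) (nat_lit 90) (nat_lit 92) (nat_lit 4) (nat_lit 6) (nat_lit 9) (nat_lit 6) (nat_lit 6) (nat_lit 9) (by decide +kernel)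
theorem L57864 : W_10 (nat_lit 3) (nat_lit 0x2000050017800a0001c00020000000000000000000000) (nat_lit 0x0) (nat_lit 0x8000000000002000150000000000000000000000) := T_10 (nat_lit 109) (nat_lit 88) (nat_lit 0) (nat_lit 7) (nat_lit 6) L57863 (by decide +kernel)
theorem L57865 : W_10 (nat_lit 4) (nat_lit 0x2000050017800a0001400020000000000000000000000) (nat_lit 0x0) (nat_lit 0x8000000010002800150000000000000000000000) := T_10 (nat_lit 107) (nat_lit 124) (nat_lit 4) (nat_lit 5) (nat_lit 9) L57864 (by decide +kernel)
theorem L57866 : W_10 (nat_lit 5) (nat_lit 0x2000050017800a0001400000000000000000000000000) (nat_lit 0x0) (nat_lit 0x8000000018002800170000000000000000000000) := T_10 (nat_lit 89) (nat_lit 123) (nat_lit 7) (nat_lit 4) (nat_lit 5) L57865 (by decide +kernel)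
theorem L57867 : W_10 (nat_lit 6) (nat_lit 0x2000050017800a0000400000000000000000000000000) (nat_lit 0x0) (nat_lit 0x80000000180038001f0000000000000000000000) := T_10 (nat_lit 108) (nat_lit 91) (nat_lit 5) (nat_lit 6) (nat_lit 5) L57866 (by decide +kernel)
theorem L57868 : W_10 (nat_lit 7) (nat_lit 0x200005001780080000400000000000000000000000000) (nat_lit 0x0) (nat_lit 0x80000000780038001f0000000000000000000000) := T_10 (nat_lit 125) (nat_lit 126) (nat_lit 2) (nat_lit 3) (nat_lit 8) L57867 (by decide +kernel)
theorem L57869 : W_10 (nat_lit 8) (nat_lit 0x200004001780080000400000000000000000000000000) (nat_lit 0x0) (nat_lit 0x98000000780038001f0000000000000000000000) := T_10 (nat_lit 156) (nat_lit 155) (nat_lit 1) (nat_lit 6) (nat_lit 8) L57868 (by decide +kernel)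
theorem L57870 : W_10 (nat_lit 2) (nat_lit 0x2000050017800a4000700080000000000000000000000) (nat_lit 0x0) (nat_lit 0x10000800040000000000000000000000) := D_10 (nat_lit 107) (nat_lit 124) (nat_lit 90) (nat_lit 3) (nat_lit 2) (nat_lit 6) (nat_lit 2) (nat_lit 2) (nat_lit 6) (by decide +kernel)
theorem L57871 : W_10 (nat_lit 3) (nat_lit 0x2000050017800a4000600080000000000000000000000) (nat_lit 0x0) (nat_lit 0x10000900048000000000000000000000) := T_10 (nat_lit 104) (nat_lit 87) (nat_lit 4) (nat_lit 3) (nat_lit 9) L57870 (by decide +kernel)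
theorem L57872 : W_10 (nat_lit 4) (nat_lit 0x2000050017800a4000400080000000000000000000000) (nat_lit 0x0) (nat_lit 0x10000b00068000000000000000000000) := T_10 (nat_lit 105) (nat_lit 89) (nat_lit 6) (nat_lit 3) (nat_lit 9) L57871 (by decide +kernel)
theorem L57873 : W_10 (nat_lit 5) (nat_lit 0x2000050017800a4000400000000000000000000000000) (nat_lit 0x0) (nat_lit 0x10001b000e8000000000000000000000) := T_10 (nat_lit 91) (nat_lit 108) (nat_lit 5) (nat_lit 6) (nat_lit 5) L57872 (by decide +kernel)
theorem L57874 : W_10 (nat_lit 6) (nat_lit 0x200005001780084000400000000000000000000000000) (nat_lit 0x0) (nat_lit 0x70001b000e8000000000000000000000) := T_10 (nat_lit 125) (nat_lit 126) (nat_lit 2) (nat_lit 3) (nat_lit 8) L57873 (by decide +kernel)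
theorem L57875 : W_10 (nat_lit 7) (nat_lit 0x200005001780080000400000000000000000000000000) (nat_lit 0x0) (nat_lit 0x76001b000e8000000000000000000000) := T_10 (nat_lit 122) (nat_lit 121) (nat_lit 0) (nat_lit 6) (nat_lit 8) L57874 (by decide +kernel)
theorem L57876 : W_10 (nat_lit 8) (nat_lit 0x200004001780080000400000000000000000000000000) (nat_lit 0x0) (nat_lit 0x1800000076001b000e8000000000000000000000) := T_10 (nat_lit 156) (nat_lit 155) (nat_lit 1) (nat_lit 6) (nat_lit 8) L57875 (by decide +kernel)
theorem L57877 : W_10 (nat_lit 2) (nat_lit 0xa002200050017800a4000400080000000000000000000000) (nat_lit 0x0) (nat_lit 0x14000400000000000000000000000000000000000000000000000) := D_10 (nat_lit 190) (nat_lit 206) (nat_lit 208) (nat_lit 5) (nat_lit 3) (nat_lit 8) (nat_lit 7) (nat_lit 3) (nat_lit 8) (by decide +kernel)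
theorem L57878 : W_10 (nat_lit 3) (nat_lit 0x2002200050017800a4000400080000000000000000000000) (nat_lit 0x0) (nat_lit 0x14000c00040000000000000000000000000000000000000000000) := T_10 (nat_lit 191) (nat_lit 174) (nat_lit 7) (nat_lit 3) (nat_lit 7) L57877 (by decide +kernel)
theorem L57879 : W_10 (nat_lit 4) (nat_lit 0x2200050017800a4000400080000000000000000000000) (nat_lit 0x0) (nat_lit 0x14000e00050000000000000000000000000000000000000000000) := T_10 (nat_lit 189) (nat_lit 172) (nat_lit 5) (nat_lit 3) (nat_lit 7) L57878 (by decide +kernel)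
theorem L57880 : W_10 (nat_lit 5) (nat_lit 0x2000050017800a4000400080000000000000000000000) (nat_lit 0x0) (nat_lit 0x14000e00070000000000008000000000000000000000000000000) := T_10 (nat_lit 173) (nat_lit 123) (nat_lit 6) (nat_lit 3) (nat_lit 10) L57879 (by decide +kernel)
theorem L57881 : W_10 (nat_lit 6) (nat_lit 0x2000050017800a4000400000000000000000000000000) (nat_lit 0x0) (nat_lit 0x14000e00070000000000008001000080000000000000000000000) := T_10 (nat_lit 91) (nat_lit 108) (nat_lit 5) (nat_lit 6) (nat_lit 5) L57880 (by decide +kernel)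
theorem L57882 : W_10 (nat_lit 7) (nat_lit 0x200005001780084000400000000000000000000000000) (nat_lit 0x0) (nat_lit 0x14000e00070000000000068001000080000000000000000000000) := T_10 (nat_lit 125) (nat_lit 126) (nat_lit 2) (nat_lit 3) (nat_lit 8) L57881 (by decide +kernel)
theorem L57883 : W_10 (nat_lit 8) (nat_lit 0x200004001780084000400000000000000000000000000) (nat_lit 0x0) (nat_lit 0x14000e00070001800000068001000080000000000000000000000) := T_10 (nat_lit 156) (nat_lit 155) (nat_lit 1) (nat_lit 6) (nat_lit 8) L57882 (by decide +kernel)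
theorem L57884 : W_10 (nat_lit 9) (nat_lit 0x200004001780080000400000000000000000000000000) (nat_lit 0x0) (nat_lit 0x14000e0007000180000006e001000080000000000000000000000) := T_10 (nat_lit 122) (nat_lit 121) (nat_lit 0) (nat_lit 6) (nat_lit 8) L57883 (by decide +kernel)
theorem L57885 : W_10 (nat_lit 2) (nat_lit 0x20000c0017800a4001c00020000000000000000000000) (nat_lit 0x0) (nat_lit 0x2000110000000000000000000000) := D_10 (nat_lit 109) (nat_lit 88) (nat_lit 92) (nat_lit 0) (nat_lit 7) (nat_lit 6) (nat_lit 6) (nat_lit 6) (nat_lit 9) (by decide +kernel)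
theorem L57886 : W_10 (nat_lit 3) (nat_lit 0x2000040017800a4001c00020000000000000000000000) (nat_lit 0x0) (nat_lit 0x8000000000002000150000000000000000000000) := T_10 (nat_lit 159) (nat_lit 90) (nat_lit 4) (nat_lit 6) (nat_lit 9) L57885 (by decide +kernel)
theorem L57887 : W_10 (nat_lit 4) (nat_lit 0x2000040017800a4000c00020000000000000000000000) (nat_lit 0x0) (nat_lit 0x80000000000030001d0000000000000000000000) := T_10 (nat_lit 108) (nat_lit 91) (nat_lit 5) (nat_lit 6) (nat_lit 5) L57886 (by decide +kernel)
theorem L57888 : W_10 (nat_lit 5) (nat_lit 0x200004001780084000c00020000000000000000000000) (nat_lit 0x0) (nat_lit 0x80000000600030001d0000000000000000000000) := T_10 (nat_lit 125) (nat_lit 126) (nat_lit 2) (nat_lit 3) (nat_lit 8) L57887 (by decide +kernel)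
theorem L57889 : W_10 (nat_lit 6) (nat_lit 0x200004001780080000c00020000000000000000000000) (nat_lit 0x0) (nat_lit 0x80000000660030001d0000000000000000000000) := T_10 (nat_lit 122) (nat_lit 121) (nat_lit 0) (nat_lit 6) (nat_lit 8) L57888 (by decide +kernel)
theorem L57890 : W_10 (nat_lit 7) (nat_lit 0x200004001780080000400020000000000000000000000) (nat_lit 0x0) (nat_lit 0x80000000760038001d0000000000000000000000) := T_10 (nat_lit 107) (nat_lit 124) (nat_lit 4) (nat_lit 5) (nat_lit 9) L57889 (by decide +kernel)
theorem L57891 : W_10 (nat_lit 8) (nat_lit 0x200004001780080000400000000000000000000000000) (nat_lit 0x0) (nat_lit 0x800000007e0038001f0000000000000000000000) := T_10 (nat_lit 89) (nat_lit 123) (nat_lit 7) (nat_lit 4) (nat_lit 5) L57890 (by decide +kernel)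
theorem L57892 : W_10 (nat_lit 10) (nat_lit 0x200004001780080000000000000000000000000000000) (nat_lit 0x0) (nat_lit 0x14000e0007000980000007e003f001f8000000000000000000000) := Q_10 (nat_lit 106) (C_10 L57869 (C_10 L55194 (C_10 L57876 (C_10 L57884 (C_10 L57891 N_10))))) (by decide +kernel)
theorem L57893 : W_10 (nat_lit 11) (nat_lit 0x200000001780080000000000000000000000000000000) (nat_lit 0x0) (nat_lit 0x14001e000f000d80000007e003f001f8000000000000000000000) := Q_10 (nat_lit 158) (C_10 L55955 (C_10 L57858 (C_10 L57862 (C_10 L57892 N_10)))) (by decide +kernel)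
theorem L57894 : W_10 (nat_lit 2) (nat_lit 0x6802e00050017800a4000000000000000000000000000000) (nat_lit 0x0) (nat_lit 0x10001000080000000000000000000000) := D_10 (nat_lit 108) (nat_lit 124) (nat_lit 91) (nat_lit 6) (nat_lit 5) (nat_lit 10) (nat_lit 5) (nat_lit 6) (nat_lit 5) (by decide +kernel)
theorem L57895 : W_10 (nat_lit 3) (nat_lit 0x6802e00010017800a4000000000000000000000000000000) (nat_lit 0x0) (nat_lit 0x1000000004000000010001000080000000000000000000000) := T_10 (nat_lit 158) (nat_lit 192) (nat_lit 6) (nat_lit 5) (nat_lit 11) L57894 (by decide +kernel)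
theorem L57896 : W_10 (nat_lit 4) (nat_lit 0x6802600010017800a4000000000000000000000000000000) (nat_lit 0x0) (nat_lit 0x1000180004000000010001000080000000000000000000000) := T_10 (nat_lit 175) (nat_lit 176) (nat_lit 1) (nat_lit 6) (nat_lit 10) L57895 (by decide +kernel)
theorem L57897 : W_10 (nat_lit 5) (nat_lit 0x6002600010017800a4000000000000000000000000000000) (nat_lit 0x0) (nat_lit 0x1180180004000000010001000080000000000000000000000) := T_10 (nat_lit 187) (nat_lit 188) (nat_lit 2) (nat_lit 0) (nat_lit 11) L57896 (by decide +kernel)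
theorem L57898 : W_10 (nat_lit 6) (nat_lit 0x2002600010017800a4000000000000000000000000000000) (nat_lit 0x0) (nat_lit 0x4001580180004000000010001000080000000000000000000000) := T_10 (nat_lit 190) (nat_lit 206) (nat_lit 5) (nat_lit 3) (nat_lit 8) L57897 (by decide +kernel)
theorem L57899 : W_10 (nat_lit 7) (nat_lit 0x2002200010017800a4000000000000000000000000000000) (nat_lit 0x0) (nat_lit 0x4001d801c0004000000010001000080000000000000000000000) := T_10 (nat_lit 174) (nat_lit 191) (nat_lit 7) (nat_lit 3) (nat_lit 7) L57898 (by decide +kernel)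
theorem L57900 : W_10 (nat_lit 8) (nat_lit 0x2200010017800a4000000000000000000000000000000) (nat_lit 0x0) (nat_lit 0x4001f801d0004000000010001000080000000000000000000000) := T_10 (nat_lit 189) (nat_lit 172) (nat_lit 5) (nat_lit 3) (nat_lit 7) L57899 (by decide +kernel)
theorem L57901 : W_10 (nat_lit 9) (nat_lit 0x220001001780084000000000000000000000000000000) (nat_lit 0x0) (nat_lit 0x4001f801d0004000000070001000080000000000000000000000) := T_10 (nat_lit 125) (nat_lit 126) (nat_lit 2) (nat_lit 3) (nat_lit 8) L57900 (by decide +kernel)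
theorem L57902 : W_10 (nat_lit 10) (nat_lit 0x220001001780080000000000000000000000000000000) (nat_lit 0x0) (nat_lit 0x4001f801d0004000000076001000080000000000000000000000) := T_10 (nat_lit 122) (nat_lit 121) (nat_lit 0) (nat_lit 6) (nat_lit 8) L57901 (by decide +kernel)
theorem L57903 : W_10 (nat_lit 2) (nat_lit 0x140004002200010017800a0000000000000000000000000000000) (nat_lit 0x0) (nat_lit 0x280008000000000000000000000000000000000000000000000000000) := D_10 (nat_lit 207) (nat_lit 223) (nat_lit 225) (nat_lit 5) (nat_lit 3) (nat_lit 9) (nat_lit 7) (nat_lit 3) (nat_lit 9) (by decide +kernel)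
theorem L57904 : W_10 (nat_lit 3) (nat_lit 0x40004002200010017800a0000000000000000000000000000000) (nat_lit 0x0) (nat_lit 0x280018000800000000000000000000000000000000000000000000000) := T_10 (nat_lit 208) (nat_lit 191) (nat_lit 7) (nat_lit 3) (nat_lit 8) L57903 (by decide +kernel)
theorem L57905 : W_10 (nat_lit 4) (nat_lit 0x4002200010017800a0000000000000000000000000000000) (nat_lit 0x0) (nat_lit 0x28001c000a00000000000000000000000000000000000000000000000) := T_10 (nat_lit 206) (nat_lit 189) (nat_lit 5) (nat_lit 3) (nat_lit 8) L57904 (by decide +kernel)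
theorem L57906 : W_10 (nat_lit 5) (nat_lit 0x2200010017800a0000000000000000000000000000000) (nat_lit 0x0) (nat_lit 0x28001c000e00000000000000008000000000000000000000000000000) := T_10 (nat_lit 190) (nat_lit 123) (nat_lit 6) (nat_lit 3) (nat_lit 11) L57905 (by decide +kernel)
theorem L57907 : W_10 (nat_lit 6) (nat_lit 0x220001001780080000000000000000000000000000000) (nat_lit 0x0) (nat_lit 0x28001c000e00000000000000068000000000000000000000000000000) := T_10 (nat_lit 125) (nat_lit 126) (nat_lit 2) (nat_lit 3) (nat_lit 8) L57906 (by decide +kernel)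
theorem L57908 : W_10 (nat_lit 2) (nat_lit 0x2300010017800a4000f00080000000000000000000000) (nat_lit 0x0) (nat_lit 0x4000000000001000100000000000000000000000) := D_10 (nat_lit 108) (nat_lit 92) (nat_lit 158) (nat_lit 2) (nat_lit 3) (nat_lit 6) (nat_lit 5) (nat_lit 6) (nat_lit 5) (by decide +kernel)
theorem L57909 : W_10 (nat_lit 3) (nat_lit 0x2300010017800a4000f00000000000000000000000000) (nat_lit 0x0) (nat_lit 0x40000000000010001c0000000000000000000000) := T_10 (nat_lit 91) (nat_lit 90) (nat_lit 2) (nat_lit 2) (nat_lit 6) L57908 (by decide +kernel)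
theorem L57910 : W_10 (nat_lit 4) (nat_lit 0x2300010017800a4000700000000000000000000000000) (nat_lit 0x0) (nat_lit 0x40000000100018001c0000000000000000000000) := T_10 (nat_lit 107) (nat_lit 124) (nat_lit 3) (nat_lit 2) (nat_lit 6) L57909 (by decide +kernel)
theorem L57911 : W_10 (nat_lit 5) (nat_lit 0x2300010017800a4000600000000000000000000000000) (nat_lit 0x0) (nat_lit 0x40000000100019001c8000000000000000000000) := T_10 (nat_lit 104) (nat_lit 87) (nat_lit 4) (nat_lit 3) (nat_lit 9) L57910 (by decide +kernel)
theorem L57912 : W_10 (nat_lit 6) (nat_lit 0x2300010017800a4000400000000000000000000000000) (nat_lit 0x0) (nat_lit 0x4000000010001b001e8000000000000000000000) := T_10 (nat_lit 105) (nat_lit 89) (nat_lit 6) (nat_lit 3) (nat_lit 9) L57911 (by decide +kernel)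
theorem L57913 : W_10 (nat_lit 7) (nat_lit 0x2200010017800a4000400000000000000000000000000) (nat_lit 0x0) (nat_lit 0x200010004000000010001b001e8000000000000000000000) := T_10 (nat_lit 172) (nat_lit 189) (nat_lit 5) (nat_lit 3) (nat_lit 7) L57912 (by decide +kernel)
theorem L57914 : W_10 (nat_lit 8) (nat_lit 0x2200010017800a4000000000000000000000000000000) (nat_lit 0x0) (nat_lit 0x200010004000000018001f001e8000000000000000000000) := T_10 (nat_lit 106) (nat_lit 123) (nat_lit 6) (nat_lit 3) (nat_lit 10) L57913 (by decide +kernel)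
theorem L57915 : W_10 (nat_lit 9) (nat_lit 0x220001001780084000000000000000000000000000000) (nat_lit 0x0) (nat_lit 0x200010004000000078001f001e8000000000000000000000) := T_10 (nat_lit 125) (nat_lit 126) (nat_lit 2) (nat_lit 3) (nat_lit 8) L57914 (by decide +kernel)
theorem L57916 : W_10 (nat_lit 10) (nat_lit 0x220001001780080000000000000000000000000000000) (nat_lit 0x0) (nat_lit 0x20001000400000007e001f001e8000000000000000000000) := T_10 (nat_lit 122) (nat_lit 121) (nat_lit 0) (nat_lit 6) (nat_lit 8) L57915 (by decide +kernel)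
theorem L57917 : W_10 (nat_lit 2) (nat_lit 0x4002200010017800a4000000000000000000000000000000) (nat_lit 0x0) (nat_lit 0x10000800040000000000000000000000000000000000000000000) := D_10 (nat_lit 191) (nat_lit 208) (nat_lit 174) (nat_lit 7) (nat_lit 3) (nat_lit 8) (nat_lit 7) (nat_lit 3) (nat_lit 7) (by decide +kernel)
theorem L57918 : W_10 (nat_lit 3) (nat_lit 0x4002200010017800a0000000000000000000000000000000) (nat_lit 0x0) (nat_lit 0x10000800040000000000006000000000000000000000000000000) := T_10 (nat_lit 122) (nat_lit 121) (nat_lit 0) (nat_lit 6) (nat_lit 8) L57917 (by decide +kernel)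
theorem L57919 : W_10 (nat_lit 4) (nat_lit 0x2200010017800a0000000000000000000000000000000) (nat_lit 0x0) (nat_lit 0x10000c0004000000000000e000000000000000000000000000000) := T_10 (nat_lit 190) (nat_lit 123) (nat_lit 6) (nat_lit 3) (nat_lit 11) L57918 (by decide +kernel)
theorem L57920 : W_10 (nat_lit 5) (nat_lit 0x220001001780080000000000000000000000000000000) (nat_lit 0x0) (nat_lit 0x10000c0004000000000006e000000000000000000000000000000) := T_10 (nat_lit 125) (nat_lit 126) (nat_lit 2) (nat_lit 3) (nat_lit 8) L57919 (by decide +kernel)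
theorem L57921 : W_10 (nat_lit 11) (nat_lit 0x200001001780080000000000000000000000000000000) (nat_lit 0x0) (nat_lit 0x28001c001f801f000400000007e001f001e8000000000000000000000) := Q_10 (nat_lit 173) (C_10 L57902 (C_10 L54985 (C_10 L57907 (C_10 L57916 (C_10 L57920 N_10))))) (by decide +kernel)
theorem L57922 : W_10 (nat_lit 12) (nat_lit 0x200000001780080000000000000000000000000000000) (nat_lit 0x0) (nat_lit 0x28001c001f801f000580000007e001f001e8000000000000000000000) := T_10 (nat_lit 156) (nat_lit 155) (nat_lit 1) (nat_lit 6) (nat_lit 8) L57921 (by decide +kernel)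
theorem L57923 : W_10 (nat_lit 15) (nat_lit 0x200000001380080000000000000000000000000000000) (nat_lit 0x0) (nat_lit 0x12800df007f801f001d80040007e003f001f8000000000000000000000) := Q_10 (nat_lit 142) (C_10 L57008 (C_10 L57846 (C_10 L57893 (C_10 L57922 (C_10 L55804 (C_10 L55709 N_10)))))) (by decide +kernel)
theorem L57924 : W_10 (nat_lit 2) (nat_lit 0x20000d0017800a0000000000000000000000000000000) (nat_lit 0x0) (nat_lit 0x80000000000000001000080000000000000000000000) := D_10 (nat_lit 108) (nat_lit 91) (nat_lit 175) (nat_lit 5) (nat_lit 6) (nat_lit 5) (nat_lit 5) (nat_lit 6) (nat_lit 6) (by decide +kernel)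
theorem L57925 : W_10 (nat_lit 3) (nat_lit 0x2000090017800a0000000000000000000000000000000) (nat_lit 0x0) (nat_lit 0x80004000040000001000080000000000000000000000) := T_10 (nat_lit 158) (nat_lit 138) (nat_lit 3) (nat_lit 2) (nat_lit 8) L57924 (by decide +kernel)
theorem L57926 : W_10 (nat_lit 4) (nat_lit 0x2000010017800a0000000000000000000000000000000) (nat_lit 0x0) (nat_lit 0x8001c000040000001000080000000000000000000000) := T_10 (nat_lit 159) (nat_lit 160) (nat_lit 3) (nat_lit 3) (nat_lit 8) L57925 (by decide +kernel)
theorem L57927 : W_10 (nat_lit 5) (nat_lit 0x2000000017800a0000000000000000000000000000000) (nat_lit 0x0) (nat_lit 0x8001d800040000001000080000000000000000000000) := T_10 (nat_lit 156) (nat_lit 155) (nat_lit 1) (nat_lit 6) (nat_lit 8) L57926 (by decide +kernel)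
theorem L57928 : W_10 (nat_lit 6) (nat_lit 0x2000000013800a0000000000000000000000000000000) (nat_lit 0x0) (nat_lit 0x8001d800440040001000080000000000000000000000) := T_10 (nat_lit 142) (nat_lit 126) (nat_lit 2) (nat_lit 3) (nat_lit 8) L57927 (by decide +kernel)
theorem L57929 : W_10 (nat_lit 2) (nat_lit 0x2000088013c00a0000000000000000000000000000000) (nat_lit 0x0) (nat_lit 0x11000400000000000000000000000000000000000) := D_10 (nat_lit 142) (nat_lit 156) (nat_lit 160) (nat_lit 1) (nat_lit 6) (nat_lit 8) (nat_lit 3) (nat_lit 3) (nat_lit 8) (by decide +kernel)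
theorem L57930 : W_10 (nat_lit 3) (nat_lit 0x2000008013c00a0000000000000000000000000000000) (nat_lit 0x0) (nat_lit 0x1d000400000000000000000000000000000000000) := T_10 (nat_lit 159) (nat_lit 158) (nat_lit 3) (nat_lit 2) (nat_lit 8) L57929 (by decide +kernel)
theorem L57931 : W_10 (nat_lit 4) (nat_lit 0x2000000013c00a0000000000000000000000000000000) (nat_lit 0x0) (nat_lit 0x1dc00400000000000000000000000000000000000) := T_10 (nat_lit 155) (nat_lit 154) (nat_lit 1) (nat_lit 5) (nat_lit 8) L57930 (by decide +kernel)
theorem L57932 : W_10 (nat_lit 5) (nat_lit 0x2000000013800a0000000000000000000000000000000) (nat_lit 0x0) (nat_lit 0x1dc00440010000000000000000000000000000000) := T_10 (nat_lit 138) (nat_lit 124) (nat_lit 2) (nat_lit 2) (nat_lit 8) L57931 (by decide +kernel)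
theorem L57933 : W_10 (nat_lit 7) (nat_lit 0x200000001380080000000000000000000000000000000) (nat_lit 0x0) (nat_lit 0x8001dc00440070001000080000000000000000000000) := Q_10 (nat_lit 125) (C_10 L55712 (C_10 L57928 (C_10 L55711 (C_10 L57932 N_10)))) (by decide +kernel)
theorem L57934 : W_10 (nat_lit 5) (nat_lit 0x2000000013800a0000000000000000000000000000000) (nat_lit 0x0) (nat_lit 0x1c000440047000000000000000000000000000000) := T_10 (nat_lit 142) (nat_lit 126) (nat_lit 2) (nat_lit 3) (nat_lit 8) L55791 (by decide +kernel)
theorem L57935 : W_10 (nat_lit 2) (nat_lit 0x2000080013c00a2000000000000000000000000000000) (nat_lit 0x0) (nat_lit 0x10000400004000000000000000000000000000000) := D_10 (nat_lit 142) (nat_lit 122) (nat_lit 160) (nat_lit 0) (nat_lit 6) (nat_lit 8) (nat_lit 3) (nat_lit 3) (nat_lit 8) (by decide +kernel)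
theorem L57936 : W_10 (nat_lit 3) (nat_lit 0x2000000013c00a2000000000000000000000000000000) (nat_lit 0x0) (nat_lit 0x1c000400004000000000000000000000000000000) := T_10 (nat_lit 159) (nat_lit 158) (nat_lit 3) (nat_lit 2) (nat_lit 8) L57935 (by decide +kernel)
theorem L57937 : W_10 (nat_lit 4) (nat_lit 0x2000000013c00a0000000000000000000000000000000) (nat_lit 0x0) (nat_lit 0x1c000400007000000000000000000000000000000) := T_10 (nat_lit 121) (nat_lit 120) (nat_lit 0) (nat_lit 5) (nat_lit 8) L57936 (by decide +kernel)
theorem L57938 : W_10 (nat_lit 5) (nat_lit 0x2000000013800a0000000000000000000000000000000) (nat_lit 0x0) (nat_lit 0x1c000440017000000000000000000000000000000) := T_10 (nat_lit 138) (nat_lit 124) (nat_lit 2) (nat_lit 2) (nat_lit 8) L57937 (by decide +kernel)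
theorem L57939 : W_10 (nat_lit 6) (nat_lit 0x200000001380080000000000000000000000000000000) (nat_lit 0x0) (nat_lit 0x1c000440077000000000000000000000000000000) := Q_10 (nat_lit 125) (C_10 L55712 (C_10 L57934 (C_10 L55711 (C_10 L57938 N_10)))) (by decide +kernel)
theorem L57940 : W_10 (nat_lit 16) (nat_lit 0x200000001300080000000000000000000000000000000) (nat_lit 0x0) (nat_lit 0x12800df00ff801f803de004e007f803fc01fc000000000000000000000) := Q_10 (nat_lit 139) (C_10 L56865 (C_10 L57837 (C_10 L56085 (C_10 L55655 (C_10 L57923 (C_10 L57933 (C_10 L55725 (C_10 L57939 N_10)))))))) (by decide +kernel)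
theorem L57941 : W_10 (nat_lit 2) (nat_lit 0x3800080017800a4003000000000000000000000000000) (nat_lit 0x0) (nat_lit 0x2000000000000000018000000000000000000000000000000) := D_10 (nat_lit 124) (nat_lit 123) (nat_lit 193) (nat_lit 2) (nat_lit 3) (nat_lit 7) (nat_lit 4) (nat_lit 6) (nat_lit 11) (by decide +kernel)
theorem L57942 : W_10 (nat_lit 3) (nat_lit 0x3800080017800a4001000000000000000000000000000) (nat_lit 0x0) (nat_lit 0x2000000000000000018002000100000000000000000000000) := T_10 (nat_lit 109) (nat_lit 92) (nat_lit 6) (nat_lit 6) (nat_lit 9) L57941 (by decide +kernel)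
theorem L57943 : W_10 (nat_lit 4) (nat_lit 0x3800080017800a4000000000000000000000000000000) (nat_lit 0x0) (nat_lit 0x2000000004000000018003000100000000000000000000000) := T_10 (nat_lit 108) (nat_lit 158) (nat_lit 5) (nat_lit 6) (nat_lit 6) L57942 (by decide +kernel)
theorem L57944 : W_10 (nat_lit 5) (nat_lit 0x3000080017800a4000000000000000000000000000000) (nat_lit 0x0) (nat_lit 0x3000080004000000018003000100000000000000000000000) := T_10 (nat_lit 175) (nat_lit 192) (nat_lit 5) (nat_lit 6) (nat_lit 7) L57943 (by decide +kernel)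
theorem L57945 : W_10 (nat_lit 6) (nat_lit 0x2000080017800a4000000000000000000000000000000) (nat_lit 0x0) (nat_lit 0x7000180004000000018003000100000000000000000000000) := T_10 (nat_lit 176) (nat_lit 194) (nat_lit 7) (nat_lit 6) (nat_lit 7) L57944 (by decide +kernel)
theorem L57946 : W_10 (nat_lit 7) (nat_lit 0x200008001780084000000000000000000000000000000) (nat_lit 0x0) (nat_lit 0x7000180004000000078003000100000000000000000000000) := T_10 (nat_lit 125) (nat_lit 126) (nat_lit 2) (nat_lit 3) (nat_lit 8) L57945 (by decide +kernel)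
theorem L57947 : W_10 (nat_lit 8) (nat_lit 0x200000001780084000000000000000000000000000000) (nat_lit 0x0) (nat_lit 0x700018001c000000078003000100000000000000000000000) := T_10 (nat_lit 159) (nat_lit 160) (nat_lit 3) (nat_lit 3) (nat_lit 8) L57946 (by decide +kernel)
theorem L57948 : W_10 (nat_lit 9) (nat_lit 0x200000001780080000000000000000000000000000000) (nat_lit 0x0) (nat_lit 0x700018001c00000007e003000100000000000000000000000) := T_10 (nat_lit 122) (nat_lit 121) (nat_lit 0) (nat_lit 6) (nat_lit 8) L57947 (by decide +kernel)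
theorem L57949 : W_10 (nat_lit 15) (nat_lit 0x200000001380080000000000000000000000000000000) (nat_lit 0x0) (nat_lit 0x10800ff007f801f001f80040007e003700138000000000000000000000) := Q_10 (nat_lit 142) (C_10 L57948 (C_10 L55705 (C_10 L57846 (C_10 L55622 (C_10 L55120 (C_10 L55178 (C_10 L55626 N_10))))))) (by decide +kernel)
theorem L57950 : W_10 (nat_lit 16) (nat_lit 0x200000001300080000000000000000000000000000000) (nat_lit 0x0) (nat_lit 0x10800ff00ff801f803fe004e007f8037c01bc000000000000000000000) := Q_10 (nat_lit 139) (C_10 L56865 (C_10 L57837 (C_10 L57939 (C_10 L56085 (C_10 L57933 (C_10 L57949 N_10)))))) (by decide +kernel)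
theorem L57951 : W_10 (nat_lit 2) (nat_lit 0x200000001380084000200010000800000000000000000) (nat_lit 0x0) (nat_lit 0x20001000080000000000000) := D_10 (nat_lit 72) (nat_lit 55) (nat_lit 89) (nat_lit 6) (nat_lit 3) (nat_lit 7) (nat_lit 6) (nat_lit 3) (nat_lit 8) (by decide +kernel)
theorem L57952 : W_10 (nat_lit 3) (nat_lit 0x200000001380084000200010000000000000000000000) (nat_lit 0x0) (nat_lit 0x8000000020001800080000000000000) := T_10 (nat_lit 71) (nat_lit 123) (nat_lit 7) (nat_lit 3) (nat_lit 4) L57951 (by decide +kernel)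
theorem L57953 : W_10 (nat_lit 4) (nat_lit 0x200000001380084000200000000000000000000000000) (nat_lit 0x0) (nat_lit 0x2000000008000000030001800080000000000000) := T_10 (nat_lit 88) (nat_lit 157) (nat_lit 7) (nat_lit 3) (nat_lit 5) L57952 (by decide +kernel)
theorem L57954 : W_10 (nat_lit 2) (nat_lit 0x200000001380084000200038000000000000000000000) (nat_lit 0x0) (nat_lit 0x1000000000000500000000000000000000000000) := D_10 (nat_lit 156) (nat_lit 106) (nat_lit 104) (nat_lit 6) (nat_lit 3) (nat_lit 9) (nat_lit 4) (nat_lit 3) (nat_lit 9) (by decide +kernel)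
theorem L57955 : W_10 (nat_lit 3) (nat_lit 0x200000001380084000200030000000000000000000000) (nat_lit 0x0) (nat_lit 0x1000000000000500008000400000000000000000) := T_10 (nat_lit 87) (nat_lit 70) (nat_lit 4) (nat_lit 3) (nat_lit 8) L57954 (by decide +kernel)
theorem L57956 : W_10 (nat_lit 4) (nat_lit 0x200000001380084000200010000000000000000000000) (nat_lit 0x0) (nat_lit 0x1000000000000500028001400000000000000000) := T_10 (nat_lit 89) (nat_lit 72) (nat_lit 6) (nat_lit 3) (nat_lit 8) L57955 (by decide +kernel)
theorem L57957 : W_10 (nat_lit 5) (nat_lit 0x200000001380084000200000000000000000000000000) (nat_lit 0x0) (nat_lit 0x3000000000000500038001400000000000000000) := T_10 (nat_lit 88) (nat_lit 157) (nat_lit 7) (nat_lit 3) (nat_lit 5) L57956 (by decide +kernel)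
theorem L57958 : W_10 (nat_lit 2) (nat_lit 0x220001001380084000700000000000000000000000000) (nat_lit 0x0) (nat_lit 0x200010000800000000000000000000000000000000000000) := D_10 (nat_lit 172) (nat_lit 155) (nat_lit 189) (nat_lit 5) (nat_lit 3) (nat_lit 6) (nat_lit 5) (nat_lit 3) (nat_lit 7) (by decide +kernel)
theorem L57959 : W_10 (nat_lit 3) (nat_lit 0x200001001380084000700000000000000000000000000) (nat_lit 0x0) (nat_lit 0x200030000800000002000000000000000000000000000000) := T_10 (nat_lit 173) (nat_lit 121) (nat_lit 4) (nat_lit 3) (nat_lit 10) L57958 (by decide +kernel)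
theorem L57960 : W_10 (nat_lit 4) (nat_lit 0x200001001380084000300000000000000000000000000) (nat_lit 0x0) (nat_lit 0x200030000800000002000400020000000000000000000000) := T_10 (nat_lit 106) (nat_lit 89) (nat_lit 6) (nat_lit 3) (nat_lit 9) L57959 (by decide +kernel)
theorem L57961 : W_10 (nat_lit 5) (nat_lit 0x200001001380084000200000000000000000000000000) (nat_lit 0x0) (nat_lit 0x200030000800000002000500028000000000000000000000) := T_10 (nat_lit 104) (nat_lit 87) (nat_lit 4) (nat_lit 3) (nat_lit 9) L57960 (by decide +kernel)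
theorem L57962 : W_10 (nat_lit 2) (nat_lit 0x400220001a01380084000300000000000000000000000000) (nat_lit 0x0) (nat_lit 0x10000800040000000000000000000000000000000000000000000) := D_10 (nat_lit 191) (nat_lit 174) (nat_lit 208) (nat_lit 7) (nat_lit 3) (nat_lit 7) (nat_lit 7) (nat_lit 3) (nat_lit 8) (by decide +kernel)
theorem L57963 : W_10 (nat_lit 3) (nat_lit 0x220001a01380084000300000000000000000000000000) (nat_lit 0x0) (nat_lit 0x10000c00040000000000008000000000000000000000000000000) := T_10 (nat_lit 190) (nat_lit 123) (nat_lit 6) (nat_lit 3) (nat_lit 11) L57962 (by decide +kernel)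
theorem L57964 : W_10 (nat_lit 4) (nat_lit 0x200001a01380084000300000000000000000000000000) (nat_lit 0x0) (nat_lit 0x10000c0006000000000000a000000000000000000000000000000) := T_10 (nat_lit 173) (nat_lit 121) (nat_lit 4) (nat_lit 3) (nat_lit 10) L57963 (by decide +kernel)
theorem L57965 : W_10 (nat_lit 5) (nat_lit 0x200001a01380084000200000000000000000000000000) (nat_lit 0x0) (nat_lit 0x10000c0006000000000000a000100008000000000000000000000) := T_10 (nat_lit 104) (nat_lit 87) (nat_lit 4) (nat_lit 3) (nat_lit 9) L57964 (by decide +kernel)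
theorem L57966 : W_10 (nat_lit 6) (nat_lit 0x200001801380084000200000000000000000000000000) (nat_lit 0x0) (nat_lit 0x10000c0006000060000000a000100008000000000000000000000) := T_10 (nat_lit 153) (nat_lit 154) (nat_lit 2) (nat_lit 0) (nat_lit 9) L57965 (by decide +kernel)
theorem L57967 : W_10 (nat_lit 7) (nat_lit 0x200001001380084000200000000000000000000000000) (nat_lit 0x0) (nat_lit 0x10000c00070000e0000000a000100008000000000000000000000) := T_10 (nat_lit 155) (nat_lit 172) (nat_lit 5) (nat_lit 3) (nat_lit 6) L57966 (by decide +kernel)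
theorem L57968 : W_10 (nat_lit 3) (nat_lit 0x200001001380084000700000000000000000000000000) (nat_lit 0x0) (nat_lit 0x200030000800000008000000000000000000000000000000) := T_10 (nat_lit 173) (nat_lit 123) (nat_lit 6) (nat_lit 3) (nat_lit 10) L57958 (by decide +kernel)
theorem L57969 : W_10 (nat_lit 4) (nat_lit 0x200001001380084000300000000000000000000000000) (nat_lit 0x0) (nat_lit 0x200030000800000008000400020000000000000000000000) := T_10 (nat_lit 106) (nat_lit 89) (nat_lit 6) (nat_lit 3) (nat_lit 9) L57968 (by decide +kernel)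
theorem L57970 : W_10 (nat_lit 5) (nat_lit 0x200001001380084000200000000000000000000000000) (nat_lit 0x0) (nat_lit 0x200030000800000008000500028000000000000000000000) := T_10 (nat_lit 104) (nat_lit 87) (nat_lit 4) (nat_lit 3) (nat_lit 9) L57969 (by decide +kernel)
theorem L57971 : W_10 (nat_lit 2) (nat_lit 0x200001001380084000340030000800040000000000000) (nat_lit 0x0) (nat_lit 0x400020001000000000) := D_10 (nat_lit 53) (nat_lit 36) (nat_lit 70) (nat_lit 4) (nat_lit 3) (nat_lit 6) (nat_lit 4) (nat_lit 3) (nat_lit 7) (by decide +kernel)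
theorem L57972 : W_10 (nat_lit 3) (nat_lit 0x200001001380084000340030000800000000000000000) (nat_lit 0x0) (nat_lit 0x2000000000000400060001000000000) := T_10 (nat_lit 54) (nat_lit 121) (nat_lit 5) (nat_lit 3) (nat_lit 3) L57971 (by decide +kernel)
theorem L57973 : W_10 (nat_lit 4) (nat_lit 0x200001001380084000340030000000000000000000000) (nat_lit 0x0) (nat_lit 0xa000000000000c00060001000000000) := T_10 (nat_lit 71) (nat_lit 123) (nat_lit 7) (nat_lit 3) (nat_lit 4) L57972 (by decide +kernel)
theorem L57974 : W_10 (nat_lit 5) (nat_lit 0x200001001380084000300030000000000000000000000) (nat_lit 0x0) (nat_lit 0xa0000c0000000c00060001000000000) := T_10 (nat_lit 102) (nat_lit 103) (nat_lit 2) (nat_lit 0) (nat_lit 6) L57973 (by decide +kernel)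
theorem L57975 : W_10 (nat_lit 6) (nat_lit 0x200001001380084000300020000000000000000000000) (nat_lit 0x0) (nat_lit 0xa0000c0010001c00060001000000000) := T_10 (nat_lit 88) (nat_lit 72) (nat_lit 6) (nat_lit 3) (nat_lit 8) L57974 (by decide +kernel)
theorem L57976 : W_10 (nat_lit 7) (nat_lit 0x200001001380084000200020000000000000000000000) (nat_lit 0x0) (nat_lit 0xa0001c0018001c00060001000000000) := T_10 (nat_lit 104) (nat_lit 87) (nat_lit 4) (nat_lit 3) (nat_lit 9) L57975 (by decide +kernel)
theorem L57977 : W_10 (nat_lit 8) (nat_lit 0x200001001380084000200000000000000000000000000) (nat_lit 0x0) (nat_lit 0xa0005c0038001c00060001000000000) := T_10 (nat_lit 89) (nat_lit 106) (nat_lit 6) (nat_lit 3) (nat_lit 9) L57976 (by decide +kernel)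
theorem L57978 : W_10 (nat_lit 2) (nat_lit 0x220001001380084000600000000000000000000000000) (nat_lit 0x0) (nat_lit 0x200010000800000000000000000000000000000000000000) := D_10 (nat_lit 172) (nat_lit 189) (nat_lit 155) (nat_lit 5) (nat_lit 3) (nat_lit 7) (nat_lit 5) (nat_lit 3) (nat_lit 6) (by decide +kernel)
theorem L57979 : W_10 (nat_lit 3) (nat_lit 0x200001001380084000600000000000000000000000000) (nat_lit 0x0) (nat_lit 0x200030000800000008000000000000000000000000000000) := T_10 (nat_lit 173) (nat_lit 123) (nat_lit 6) (nat_lit 3) (nat_lit 10) L57978 (by decide +kernel)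
theorem L57980 : W_10 (nat_lit 4) (nat_lit 0x200001001380084000200000000000000000000000000) (nat_lit 0x0) (nat_lit 0x200030000800000008000400020000000000000000000000) := T_10 (nat_lit 106) (nat_lit 89) (nat_lit 6) (nat_lit 3) (nat_lit 9) L57979 (by decide +kernel)
theorem L57981 : W_10 (nat_lit 9) (nat_lit 0x200000001380084000200000000000000000000000000) (nat_lit 0x0) (nat_lit 0x10000e00070001e0000000a0005c0038001c00060001000000000) := Q_10 (nat_lit 156) (C_10 L57961 (C_10 L57967 (C_10 L57970 (C_10 L57977 (C_10 L57980 N_10))))) (by decide +kernel)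
theorem L57982 : W_10 (nat_lit 2) (nat_lit 0x200000001380084000200010000800000000000000000) (nat_lit 0x0) (nat_lit 0x8000400020000000000000) := D_10 (nat_lit 70) (nat_lit 87) (nat_lit 53) (nat_lit 4) (nat_lit 3) (nat_lit 8) (nat_lit 4) (nat_lit 3) (nat_lit 7) (by decide +kernel)
theorem L57983 : W_10 (nat_lit 3) (nat_lit 0x200000001380084000200010000000000000000000000) (nat_lit 0x0) (nat_lit 0x8000000008000c00020000000000000) := T_10 (nat_lit 71) (nat_lit 123) (nat_lit 7) (nat_lit 3) (nat_lit 4) L57982 (by decide +kernel)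
theorem L57984 : W_10 (nat_lit 4) (nat_lit 0x200000001380084000200000000000000000000000000) (nat_lit 0x0) (nat_lit 0x2000000008000000018000c00020000000000000) := T_10 (nat_lit 88) (nat_lit 157) (nat_lit 7) (nat_lit 3) (nat_lit 5) L57983 (by decide +kernel)
theorem L57985 : W_10 (nat_lit 2) (nat_lit 0x200003001380084000700000000000000000000000000) (nat_lit 0x0) (nat_lit 0x10000c00000000000000000000000000000000000000) := D_10 (nat_lit 155) (nat_lit 154) (nat_lit 172) (nat_lit 2) (nat_lit 1) (nat_lit 9) (nat_lit 5) (nat_lit 3) (nat_lit 6) (by decide +kernel)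
theorem L57986 : W_10 (nat_lit 3) (nat_lit 0x200001001380084000700000000000000000000000000) (nat_lit 0x0) (nat_lit 0x50002c00000000000000000000000000000000000000) := T_10 (nat_lit 157) (nat_lit 174) (nat_lit 7) (nat_lit 3) (nat_lit 6) L57985 (by decide +kernel)
theorem L57987 : W_10 (nat_lit 4) (nat_lit 0x200001001380084000300000000000000000000000000) (nat_lit 0x0) (nat_lit 0x50002c00000000000400020000000000000000000000) := T_10 (nat_lit 106) (nat_lit 89) (nat_lit 6) (nat_lit 3) (nat_lit 9) L57986 (by decide +kernel)
theorem L57988 : W_10 (nat_lit 5) (nat_lit 0x200001001380084000200000000000000000000000000) (nat_lit 0x0) (nat_lit 0x50002c00000000000500028000000000000000000000) := T_10 (nat_lit 104) (nat_lit 87) (nat_lit 4) (nat_lit 3) (nat_lit 9) L57987 (by decide +kernel)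
theorem L57989 : W_10 (nat_lit 2) (nat_lit 0x200001001380084000700000000000000000000000000) (nat_lit 0x0) (nat_lit 0x2000000000000a000000000000000000000000000000) := D_10 (nat_lit 173) (nat_lit 123) (nat_lit 121) (nat_lit 6) (nat_lit 3) (nat_lit 10) (nat_lit 4) (nat_lit 3) (nat_lit 10) (by decide +kernel)
theorem L57990 : W_10 (nat_lit 3) (nat_lit 0x200001001380084000300000000000000000000000000) (nat_lit 0x0) (nat_lit 0x2000000000000a000400020000000000000000000000) := T_10 (nat_lit 106) (nat_lit 89) (nat_lit 6) (nat_lit 3) (nat_lit 9) L57989 (by decide +kernel)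
theorem L57991 : W_10 (nat_lit 4) (nat_lit 0x200001001380084000200000000000000000000000000) (nat_lit 0x0) (nat_lit 0x2000000000000a000500028000000000000000000000) := T_10 (nat_lit 104) (nat_lit 87) (nat_lit 4) (nat_lit 3) (nat_lit 9) L57990 (by decide +kernel)
theorem L57992 : W_10 (nat_lit 8) (nat_lit 0x200000001380084000200000000000000000000000000) (nat_lit 0x0) (nat_lit 0x10000e00070003e0000000a000500028000000000000000000000) := Q_10 (nat_lit 156) (C_10 L57961 (C_10 L57980 (C_10 L57967 (C_10 L57988 (C_10 L57991 N_10))))) (by decide +kernel)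
theorem L57993 : W_10 (nat_lit 10) (nat_lit 0x200000001380084000000000000000000000000000000) (nat_lit 0x0) (nat_lit 0x10000e00070003e0000000a0007c0038001c000e0001000000000) := Q_10 (nat_lit 105) (C_10 L57953 (C_10 L57957 (C_10 L57981 (C_10 L57984 (C_10 L57992 N_10))))) (by decide +kernel)
theorem L57994 : W_10 (nat_lit 13) (nat_lit 0x200000001380084000000000000000000000000000000) (nat_lit 0x0) (nat_lit 0x40007800400072001f001f800df00420000000000000) := T_10 (nat_lit 142) (nat_lit 121) (nat_lit 0) (nat_lit 6) (nat_lit 8) L57002 (by decide +kernel)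
theorem L57995 : W_10 (nat_lit 2) (nat_lit 0x200000001380086000000000000000000000000000000) (nat_lit 0x0) (nat_lit 0x9800000000000000000000000000000) := D_10 (nat_lit 120) (nat_lit 119) (nat_lit 123) (nat_lit 3) (nat_lit 0) (nat_lit 7) (nat_lit 3) (nat_lit 1) (nat_lit 7) (by decide +kernel)
theorem L57996 : W_10 (nat_lit 3) (nat_lit 0x200000001380084000000000000000000000000000000) (nat_lit 0x0) (nat_lit 0x40000b800000000000000000000000000000) := T_10 (nat_lit 121) (nat_lit 142) (nat_lit 0) (nat_lit 6) (nat_lit 8) L57995 (by decide +kernel)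
theorem L57997 : W_10 (nat_lit 2) (nat_lit 0x200001801380084000000000000000000000000000000) (nat_lit 0x0) (nat_lit 0x2600000000000000000000000000000000000000) := D_10 (nat_lit 154) (nat_lit 153) (nat_lit 157) (nat_lit 2) (nat_lit 0) (nat_lit 9) (nat_lit 2) (nat_lit 1) (nat_lit 9) (by decide +kernel)
theorem L57998 : W_10 (nat_lit 3) (nat_lit 0x200001001380084000000000000000000000000000000) (nat_lit 0x0) (nat_lit 0x2e00400000000000000000000000000000000000) := T_10 (nat_lit 155) (nat_lit 142) (nat_lit 1) (nat_lit 6) (nat_lit 8) L57997 (by decide +kernel)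
theorem L57999 : W_10 (nat_lit 2) (nat_lit 0x200001001380084000200000000000000000000000000) (nat_lit 0x0) (nat_lit 0x40002000000000000000010000000000000000000000) := D_10 (nat_lit 157) (nat_lit 174) (nat_lit 88) (nat_lit 7) (nat_lit 3) (nat_lit 6) (nat_lit 7) (nat_lit 3) (nat_lit 5) (by decide +kernel)
theorem L58000 : W_10 (nat_lit 6) (nat_lit 0x200001001380084000000000000000000000000000000) (nat_lit 0x0) (nat_lit 0x200070002c00000008000700038000000000000000000000) := Q_10 (nat_lit 105) (C_10 L57988 (C_10 L57980 (C_10 L57999 N_10))) (by decide +kernel)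
theorem L58001 : W_10 (nat_lit 2) (nat_lit 0xa00220001001380084000700000000000000000000000000) (nat_lit 0x0) (nat_lit 0x14000400000000000000000000000000000000000000000000000) := D_10 (nat_lit 190) (nat_lit 206) (nat_lit 208) (nat_lit 5) (nat_lit 3) (nat_lit 8) (nat_lit 7) (nat_lit 3) (nat_lit 8) (by decide +kernel)
theorem L58002 : W_10 (nat_lit 3) (nat_lit 0x200220001001380084000700000000000000000000000000) (nat_lit 0x0) (nat_lit 0x14000c00040000000000000000000000000000000000000000000) := T_10 (nat_lit 191) (nat_lit 174) (nat_lit 7) (nat_lit 3) (nat_lit 7) L58001 (by decide +kernel)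
theorem L58003 : W_10 (nat_lit 4) (nat_lit 0x220001001380084000700000000000000000000000000) (nat_lit 0x0) (nat_lit 0x14000e00050000000000000000000000000000000000000000000) := T_10 (nat_lit 189) (nat_lit 172) (nat_lit 5) (nat_lit 3) (nat_lit 7) L58002 (by decide +kernel)
theorem L58004 : W_10 (nat_lit 5) (nat_lit 0x200001001380084000700000000000000000000000000) (nat_lit 0x0) (nat_lit 0x14000e00070000000000008000000000000000000000000000000) := T_10 (nat_lit 173) (nat_lit 123) (nat_lit 6) (nat_lit 3) (nat_lit 10) L58003 (by decide +kernel)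
theorem L58005 : W_10 (nat_lit 6) (nat_lit 0x200001001380084000300000000000000000000000000) (nat_lit 0x0) (nat_lit 0x14000e00070000000000008000400020000000000000000000000) := T_10 (nat_lit 106) (nat_lit 89) (nat_lit 6) (nat_lit 3) (nat_lit 9) L58004 (by decide +kernel)
theorem L58006 : W_10 (nat_lit 7) (nat_lit 0x200001001380084000200000000000000000000000000) (nat_lit 0x0) (nat_lit 0x14000e00070000000000008000500028000000000000000000000) := T_10 (nat_lit 104) (nat_lit 87) (nat_lit 4) (nat_lit 3) (nat_lit 9) L58005 (by decide +kernel)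
theorem L58007 : W_10 (nat_lit 2) (nat_lit 0x230001001380084000600010000000000000000000000) (nat_lit 0x0) (nat_lit 0x100008000400000000000000000) := D_10 (nat_lit 87) (nat_lit 70) (nat_lit 104) (nat_lit 4) (nat_lit 3) (nat_lit 8) (nat_lit 4) (nat_lit 3) (nat_lit 9) (by decide +kernel)
theorem L58008 : W_10 (nat_lit 3) (nat_lit 0x230001001380084000600000000000000000000000000) (nat_lit 0x0) (nat_lit 0x2000000000000100018000400000000000000000) := T_10 (nat_lit 88) (nat_lit 157) (nat_lit 7) (nat_lit 3) (nat_lit 5) L58007 (by decide +kernel)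
theorem L58009 : W_10 (nat_lit 4) (nat_lit 0x220001001380084000600000000000000000000000000) (nat_lit 0x0) (nat_lit 0x200010002000000000000100018000400000000000000000) := T_10 (nat_lit 172) (nat_lit 189) (nat_lit 5) (nat_lit 3) (nat_lit 7) L58008 (by decide +kernel)
theorem L58010 : W_10 (nat_lit 5) (nat_lit 0x200001001380084000600000000000000000000000000) (nat_lit 0x0) (nat_lit 0x200030002000000008000100018000400000000000000000) := T_10 (nat_lit 173) (nat_lit 123) (nat_lit 6) (nat_lit 3) (nat_lit 10) L58009 (by decide +kernel)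
theorem L58011 : W_10 (nat_lit 6) (nat_lit 0x200001001380084000200000000000000000000000000) (nat_lit 0x0) (nat_lit 0x200030002000000008000500038000400000000000000000) := T_10 (nat_lit 106) (nat_lit 89) (nat_lit 6) (nat_lit 3) (nat_lit 9) L58010 (by decide +kernel)
theorem L58012 : W_10 (nat_lit 8) (nat_lit 0x200001001380084000000000000000000000000000000) (nat_lit 0x0) (nat_lit 0x14000e00070002000000008000700038000400000000000000000) := Q_10 (nat_lit 105) (C_10 L57999 (C_10 L58006 (C_10 L58011 N_10))) (by decide +kernel)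
theorem L58013 : W_10 (nat_lit 9) (nat_lit 0x200000001380084000000000000000000000000000000) (nat_lit 0x0) (nat_lit 0x14000e00070003e004000180007c0038000400000000000000000) := Q_10 (nat_lit 156) (C_10 L37253 (C_10 L57998 (C_10 L58000 (C_10 L58012 N_10)))) (by decide +kernel)
theorem L58014 : W_10 (nat_lit 14) (nat_lit 0x200000001380080000000000000000000000000000000) (nat_lit 0x0) (nat_lit 0x14000e00070007e0040007f801fc01f800df004e0001000000000) := Q_10 (nat_lit 122) (C_10 L57993 (C_10 L57994 (C_10 L57996 (C_10 L58013 N_10)))) (by decide +kernel)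
theorem L58015 : W_10 (nat_lit 15) (nat_lit 0x200000001300080000000000000000000000000000000) (nat_lit 0x0) (nat_lit 0x14001f000fc01fe004f007f801fc01fc00ff005e0001000000000) := Q_10 (nat_lit 139) (C_10 L56865 (C_10 L56858 (C_10 L57939 (C_10 L56150 (C_10 L56085 (C_10 L57933 (C_10 L58014 N_10))))))) (by decide +kernel)
theorem L58016 : W_10 (nat_lit 2) (nat_lit 0x20000000130009c000000000000000000000000000000) (nat_lit 0x0) (nat_lit 0x400003000000000000000000000000000000) := D_10 (nat_lit 121) (nat_lit 142) (nat_lit 120) (nat_lit 3) (nat_lit 2) (nat_lit 7) (nat_lit 3) (nat_lit 1) (nat_lit 7) (by decide +kernel)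
theorem L58017 : W_10 (nat_lit 2) (nat_lit 0x2000000013000bd001200010004000000000000000000) (nat_lit 0x0) (nat_lit 0x40002000000000000400000000000000000000000000) := D_10 (nat_lit 157) (nat_lit 174) (nat_lit 106) (nat_lit 4) (nat_lit 4) (nat_lit 10) (nat_lit 4) (nat_lit 4) (nat_lit 9) (by decide +kernel)
theorem L58018 : W_10 (nat_lit 3) (nat_lit 0x2000000013000bd001200000004000000000000000000) (nat_lit 0x0) (nat_lit 0x40002000000000000400010000800000000000000000) := T_10 (nat_lit 88) (nat_lit 71) (nat_lit 7) (nat_lit 3) (nat_lit 4) L58017 (by decide +kernel)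
theorem L58019 : W_10 (nat_lit 4) (nat_lit 0x2000000013000bd001200000000000000000000000000) (nat_lit 0x0) (nat_lit 0x40002000000000000400090004800000000000000000) := T_10 (nat_lit 74) (nat_lit 91) (nat_lit 5) (nat_lit 6) (nat_lit 4) L58018 (by decide +kernel)
theorem L58020 : W_10 (nat_lit 5) (nat_lit 0x2000000013000bd001000000000000000000000000000) (nat_lit 0x0) (nat_lit 0x40002000000000000700090004800000000000000000) := T_10 (nat_lit 105) (nat_lit 104) (nat_lit 0) (nat_lit 6) (nat_lit 7) L58019 (by decide +kernel)
theorem L58021 : W_10 (nat_lit 6) (nat_lit 0x2000000013000bd000000000000000000000000000000) (nat_lit 0x0) (nat_lit 0x40002000000000003700090004800000000000000000) := T_10 (nat_lit 108) (nat_lit 109) (nat_lit 2) (nat_lit 3) (nat_lit 7) L58020 (by decide +kernel)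
theorem L58022 : W_10 (nat_lit 7) (nat_lit 0x2000000013000bc000000000000000000000000000000) (nat_lit 0x0) (nat_lit 0x40002000000003003700090004800000000000000000) := T_10 (nat_lit 120) (nat_lit 121) (nat_lit 3) (nat_lit 1) (nat_lit 7) L58021 (by decide +kernel)
theorem L58023 : W_10 (nat_lit 8) (nat_lit 0x20000000130009c000000000000000000000000000000) (nat_lit 0x0) (nat_lit 0x40002000000063003700090004800000000000000000) := T_10 (nat_lit 125) (nat_lit 126) (nat_lit 1) (nat_lit 8) (nat_lit 7) L58022 (by decide +kernel)
theorem L58024 : W_10 (nat_lit 2) (nat_lit 0x2000000013000bc001200010000000000000000000000) (nat_lit 0x0) (nat_lit 0x40002000000000000400000000000000000000000000) := D_10 (nat_lit 157) (nat_lit 174) (nat_lit 106) (nat_lit 4) (nat_lit 4) (nat_lit 10) (nat_lit 4) (nat_lit 4) (nat_lit 9) (by decide +kernel)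
theorem L58025 : W_10 (nat_lit 3) (nat_lit 0x2000000013000bc001200000000000000000000000000) (nat_lit 0x0) (nat_lit 0x40002000000000000400010000800000000000000000) := T_10 (nat_lit 88) (nat_lit 71) (nat_lit 7) (nat_lit 3) (nat_lit 4) L58024 (by decide +kernel)
theorem L58026 : W_10 (nat_lit 4) (nat_lit 0x2000000013000bc000200000000000000000000000000) (nat_lit 0x0) (nat_lit 0x40002000000000003400010000800000000000000000) := T_10 (nat_lit 108) (nat_lit 109) (nat_lit 2) (nat_lit 3) (nat_lit 7) L58025 (by decide +kernel)
theorem L58027 : W_10 (nat_lit 5) (nat_lit 0x2000000013000bc000000000000000000000000000000) (nat_lit 0x0) (nat_lit 0x40002000000000003700010000800000000000000000) := T_10 (nat_lit 105) (nat_lit 104) (nat_lit 0) (nat_lit 6) (nat_lit 7) L58026 (by decide +kernel)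
theorem L58028 : W_10 (nat_lit 6) (nat_lit 0x20000000130009c000000000000000000000000000000) (nat_lit 0x0) (nat_lit 0x40002000000060003700010000800000000000000000) := T_10 (nat_lit 125) (nat_lit 126) (nat_lit 1) (nat_lit 8) (nat_lit 7) L58027 (by decide +kernel)
theorem L58029 : W_10 (nat_lit 9) (nat_lit 0x200000001300098000000000000000000000000000000) (nat_lit 0x0) (nat_lit 0x40002000400067003700090004800000000000000000) := Q_10 (nat_lit 122) (C_10 L58016 (C_10 L58023 (C_10 L58028 N_10))) (by decide +kernel)
theorem L58030 : W_10 (nat_lit 2) (nat_lit 0x200002001300098000000000000000000000000000000) (nat_lit 0x0) (nat_lit 0x40000000000000000800040000000000000000000000) := D_10 (nat_lit 107) (nat_lit 90) (nat_lit 174) (nat_lit 5) (nat_lit 5) (nat_lit 5) (nat_lit 6) (nat_lit 4) (nat_lit 10) (by decide +kernel)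
theorem L58031 : W_10 (nat_lit 2) (nat_lit 0x200003401300098000400020000000000000000000000) (nat_lit 0x0) (nat_lit 0x200010000800000000000000000) := D_10 (nat_lit 88) (nat_lit 105) (nat_lit 71) (nat_lit 4) (nat_lit 4) (nat_lit 9) (nat_lit 4) (nat_lit 4) (nat_lit 8) (by decide +kernel)
theorem L58032 : W_10 (nat_lit 3) (nat_lit 0x200003401300098000400000000000000000000000000) (nat_lit 0x0) (nat_lit 0x200030001800000000000000000) := T_10 (nat_lit 89) (nat_lit 72) (nat_lit 7) (nat_lit 4) (nat_lit 4) L58031 (by decide +kernel)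
theorem L58033 : W_10 (nat_lit 4) (nat_lit 0x200003001300098000400000000000000000000000000) (nat_lit 0x0) (nat_lit 0xc00000000000200030001800000000000000000) := T_10 (nat_lit 154) (nat_lit 155) (nat_lit 2) (nat_lit 1) (nat_lit 9) L58032 (by decide +kernel)
theorem L58034 : W_10 (nat_lit 5) (nat_lit 0x200002001300098000400000000000000000000000000) (nat_lit 0x0) (nat_lit 0x20001c00000000000200030001800000000000000000) := T_10 (nat_lit 156) (nat_lit 173) (nat_lit 5) (nat_lit 4) (nat_lit 6) L58033 (by decide +kernel)
theorem L58035 : W_10 (nat_lit 2) (nat_lit 0x20000340130009a000f00000000000000000000000000) (nat_lit 0x0) (nat_lit 0x400004001000000000000000000000000000) := D_10 (nat_lit 122) (nat_lit 108) (nat_lit 142) (nat_lit 2) (nat_lit 2) (nat_lit 7) (nat_lit 3) (nat_lit 2) (nat_lit 7) (by decide +kernel)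
theorem L58036 : W_10 (nat_lit 3) (nat_lit 0x200003401300098000f00000000000000000000000000) (nat_lit 0x0) (nat_lit 0x400007001000000000000000000000000000) := T_10 (nat_lit 121) (nat_lit 120) (nat_lit 1) (nat_lit 5) (nat_lit 6) L58035 (by decide +kernel)
theorem L58037 : W_10 (nat_lit 4) (nat_lit 0x200003001300098000f00000000000000000000000000) (nat_lit 0x0) (nat_lit 0xc00400007001000000000000000000000000000) := T_10 (nat_lit 154) (nat_lit 155) (nat_lit 2) (nat_lit 1) (nat_lit 9) L58036 (by decide +kernel)
theorem L58038 : W_10 (nat_lit 5) (nat_lit 0x200002001300098000f00000000000000000000000000) (nat_lit 0x0) (nat_lit 0x20001c00400007001000000000000000000000000000) := T_10 (nat_lit 156) (nat_lit 173) (nat_lit 5) (nat_lit 4) (nat_lit 6) L58037 (by decide +kernel)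
theorem L58039 : W_10 (nat_lit 6) (nat_lit 0x200002001300098000700000000000000000000000000) (nat_lit 0x0) (nat_lit 0x20001c00400007001800040000000000000000000000) := T_10 (nat_lit 107) (nat_lit 90) (nat_lit 6) (nat_lit 4) (nat_lit 9) L58038 (by decide +kernel)
theorem L58040 : W_10 (nat_lit 7) (nat_lit 0x200002001300098000600000000000000000000000000) (nat_lit 0x0) (nat_lit 0x20001c00400007001980040000000000000000000000) := T_10 (nat_lit 104) (nat_lit 103) (nat_lit 3) (nat_lit 1) (nat_lit 6) L58039 (by decide +kernel)
theorem L58041 : W_10 (nat_lit 8) (nat_lit 0x200002001300098000400000000000000000000000000) (nat_lit 0x0) (nat_lit 0x20001c00400007001b80050000000000000000000000) := T_10 (nat_lit 105) (nat_lit 88) (nat_lit 4) (nat_lit 4) (nat_lit 9) L58040 (by decide +kernel)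
theorem L58042 : W_10 (nat_lit 9) (nat_lit 0x200002001300098000000000000000000000000000000) (nat_lit 0x0) (nat_lit 0x20001c00400007001f80070003800000000000000000) := Q_10 (nat_lit 106) (C_10 L56604 (C_10 L58034 (C_10 L58041 N_10))) (by decide +kernel)
theorem L58043 : W_10 (nat_lit 10) (nat_lit 0x200000001300098000000000000000000000000000000) (nat_lit 0x0) (nat_lit 0xc00060003c00400007001f80070003800000000000000000) := Q_10 (nat_lit 157) (C_10 L57282 (C_10 L58030 (C_10 L58042 N_10))) (by decide +kernel)
theorem L58045 : W_10 (nat_lit 2) (nat_lit 0x2000000013000da001c000c0001000000000000000000) (nat_lit 0x0) (nat_lit 0x300100000000000000000000000) := D_10 (nat_lit 105) (nat_lit 92) (nat_lit 104) (nat_lit 2) (nat_lit 3) (nat_lit 6) (nat_lit 2) (nat_lit 2) (nat_lit 6) (by decide +kernel)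
theorem L58046 : W_10 (nat_lit 3) (nat_lit 0x2000000013000da001c00040001000000000000000000) (nat_lit 0x0) (nat_lit 0x300180004000000000000000000) := T_10 (nat_lit 91) (nat_lit 74) (nat_lit 6) (nat_lit 5) (nat_lit 8) L58045 (by decide +kernel)
theorem L58047 : W_10 (nat_lit 4) (nat_lit 0x2000000013000da001c00000001000000000000000000) (nat_lit 0x0) (nat_lit 0x3001c0006000000000000000000) := T_10 (nat_lit 90) (nat_lit 73) (nat_lit 5) (nat_lit 5) (nat_lit 4) L58046 (by decide +kernel)
theorem L58048 : W_10 (nat_lit 5) (nat_lit 0x2000000013000d8001c00000001000000000000000000) (nat_lit 0x0) (nat_lit 0x60003001c0006000000000000000000) := T_10 (nat_lit 121) (nat_lit 122) (nat_lit 2) (nat_lit 2) (nat_lit 7) L58047 (by decide +kernel)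
theorem L58049 : W_10 (nat_lit 6) (nat_lit 0x2000000013000d8000c00000001000000000000000000) (nat_lit 0x0) (nat_lit 0x60033001c0006000000000000000000) := T_10 (nat_lit 108) (nat_lit 109) (nat_lit 3) (nat_lit 4) (nat_lit 6) L58048 (by decide +kernel)
theorem L58050 : W_10 (nat_lit 7) (nat_lit 0x2000000013000d8000c00000000000000000000000000) (nat_lit 0x0) (nat_lit 0x60033001e0007000000000000000000) := T_10 (nat_lit 72) (nat_lit 89) (nat_lit 7) (nat_lit 4) (nat_lit 4) L58049 (by decide +kernel)
theorem L58051 : W_10 (nat_lit 8) (nat_lit 0x200000001300098000c00000000000000000000000000) (nat_lit 0x0) (nat_lit 0x660033001e0007000000000000000000) := T_10 (nat_lit 126) (nat_lit 125) (nat_lit 1) (nat_lit 8) (nat_lit 7) L58050 (by decide +kernel)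
theorem L58052 : W_10 (nat_lit 2) (nat_lit 0x200000001300098000c00038002000000000000000000) (nat_lit 0x0) (nat_lit 0x3200000000000000000000000000) := D_10 (nat_lit 108) (nat_lit 109) (nat_lit 105) (nat_lit 0) (nat_lit 7) (nat_lit 6) (nat_lit 0) (nat_lit 6) (nat_lit 6) (by decide +kernel)
theorem L58053 : W_10 (nat_lit 3) (nat_lit 0x200000001300098000c00030002000000000000000000) (nat_lit 0x0) (nat_lit 0x320000c000000000000000000000) := T_10 (nat_lit 87) (nat_lit 86) (nat_lit 3) (nat_lit 1) (nat_lit 5) L58052 (by decide +kernel)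
theorem L58054 : W_10 (nat_lit 4) (nat_lit 0x200000001300098000c00020002000000000000000000) (nat_lit 0x0) (nat_lit 0x320001c000800000000000000000) := T_10 (nat_lit 88) (nat_lit 71) (nat_lit 4) (nat_lit 4) (nat_lit 8) L58053 (by decide +kernel)
theorem L58055 : W_10 (nat_lit 5) (nat_lit 0x200000001300098000c00000002000000000000000000) (nat_lit 0x0) (nat_lit 0x320003c001800000000000000000) := T_10 (nat_lit 89) (nat_lit 72) (nat_lit 7) (nat_lit 4) (nat_lit 4) L58054 (by decide +kernel)
theorem L58056 : W_10 (nat_lit 6) (nat_lit 0x200000001300098000c00000000000000000000000000) (nat_lit 0x0) (nat_lit 0x320007c003800000000000000000) := T_10 (nat_lit 73) (nat_lit 90) (nat_lit 5) (nat_lit 5) (nat_lit 4) L58055 (by decide +kernel)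
theorem L58057 : W_10 (nat_lit 2) (nat_lit 0x2000000013000da001c00030000000000000000000000) (nat_lit 0x0) (nat_lit 0x20000c000000000000000000000) := D_10 (nat_lit 87) (nat_lit 86) (nat_lit 105) (nat_lit 3) (nat_lit 1) (nat_lit 5) (nat_lit 0) (nat_lit 6) (nat_lit 6) (by decide +kernel)
theorem L58058 : W_10 (nat_lit 3) (nat_lit 0x2000000013000da001c00020000000000000000000000) (nat_lit 0x0) (nat_lit 0x20001c000800000000000000000) := T_10 (nat_lit 88) (nat_lit 71) (nat_lit 4) (nat_lit 4) (nat_lit 8) L58057 (by decide +kernel)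
theorem L58059 : W_10 (nat_lit 4) (nat_lit 0x2000000013000d8001c00020000000000000000000000) (nat_lit 0x0) (nat_lit 0x600020001c000800000000000000000) := T_10 (nat_lit 121) (nat_lit 122) (nat_lit 2) (nat_lit 2) (nat_lit 7) L58058 (by decide +kernel)
theorem L58060 : W_10 (nat_lit 5) (nat_lit 0x2000000013000d8000c00020000000000000000000000) (nat_lit 0x0) (nat_lit 0x600320001c000800000000000000000) := T_10 (nat_lit 108) (nat_lit 109) (nat_lit 3) (nat_lit 4) (nat_lit 6) L58059 (by decide +kernel)
theorem L58061 : W_10 (nat_lit 6) (nat_lit 0x200000001300098000c00020000000000000000000000) (nat_lit 0x0) (nat_lit 0x6600320001c000800000000000000000) := T_10 (nat_lit 126) (nat_lit 125) (nat_lit 1) (nat_lit 8) (nat_lit 7) L58060 (by decide +kernel)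
theorem L58062 : W_10 (nat_lit 7) (nat_lit 0x200000001300098000c00000000000000000000000000) (nat_lit 0x0) (nat_lit 0x6600320003c001800000000000000000) := T_10 (nat_lit 89) (nat_lit 72) (nat_lit 7) (nat_lit 4) (nat_lit 4) L58061 (by decide +kernel)
theorem L58063 : W_10 (nat_lit 2) (nat_lit 0x2000000013000d8000c000f4000000000000000000000) (nat_lit 0x0) (nat_lit 0x300100000000000000000000000) := D_10 (nat_lit 105) (nat_lit 104) (nat_lit 92) (nat_lit 2) (nat_lit 2) (nat_lit 6) (nat_lit 1) (nat_lit 7) (nat_lit 5) (by decide +kernel)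
theorem L58064 : W_10 (nat_lit 3) (nat_lit 0x2000000013000d8000c00074000000000000000000000) (nat_lit 0x0) (nat_lit 0x300180004000000000000000000) := T_10 (nat_lit 91) (nat_lit 74) (nat_lit 6) (nat_lit 5) (nat_lit 8) L58063 (by decide +kernel)
theorem L58065 : W_10 (nat_lit 4) (nat_lit 0x2000000013000d8000c00070000000000000000000000) (nat_lit 0x0) (nat_lit 0x30018c004000000000000000000) := T_10 (nat_lit 86) (nat_lit 87) (nat_lit 3) (nat_lit 1) (nat_lit 5) L58064 (by decide +kernel)
theorem L58066 : W_10 (nat_lit 5) (nat_lit 0x2000000013000d8000c00060000000000000000000000) (nat_lit 0x0) (nat_lit 0x30019c004800000000000000000) := T_10 (nat_lit 88) (nat_lit 71) (nat_lit 4) (nat_lit 4) (nat_lit 8) L58065 (by decide +kernel)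
theorem L58067 : W_10 (nat_lit 6) (nat_lit 0x2000000013000d8000c00020000000000000000000000) (nat_lit 0x0) (nat_lit 0x3001dc006800000000000000000) := T_10 (nat_lit 90) (nat_lit 73) (nat_lit 6) (nat_lit 4) (nat_lit 8) L58066 (by decide +kernel)
theorem L58068 : W_10 (nat_lit 7) (nat_lit 0x2000000013000d8000c00000000000000000000000000) (nat_lit 0x0) (nat_lit 0x3001fc007800000000000000000) := T_10 (nat_lit 89) (nat_lit 72) (nat_lit 7) (nat_lit 4) (nat_lit 4) L58067 (by decide +kernel)
theorem L58069 : W_10 (nat_lit 8) (nat_lit 0x200000001300098000c00000000000000000000000000) (nat_lit 0x0) (nat_lit 0x600003001fc007800000000000000000) := T_10 (nat_lit 126) (nat_lit 125) (nat_lit 1) (nat_lit 8) (nat_lit 7) L58068 (by decide +kernel)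
theorem L58070 : W_10 (nat_lit 2) (nat_lit 0x2000000013000da001c000c0000000000000000000000) (nat_lit 0x0) (nat_lit 0x300100000000000000000000000) := D_10 (nat_lit 105) (nat_lit 92) (nat_lit 104) (nat_lit 2) (nat_lit 3) (nat_lit 6) (nat_lit 2) (nat_lit 2) (nat_lit 6) (by decide +kernel)
theorem L58071 : W_10 (nat_lit 3) (nat_lit 0x2000000013000da001c00040000000000000000000000) (nat_lit 0x0) (nat_lit 0x300180004000000000000000000) := T_10 (nat_lit 91) (nat_lit 74) (nat_lit 6) (nat_lit 5) (nat_lit 8) L58070 (by decide +kernel)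
theorem L58072 : W_10 (nat_lit 4) (nat_lit 0x2000000013000d8001c00040000000000000000000000) (nat_lit 0x0) (nat_lit 0x6000300180004000000000000000000) := T_10 (nat_lit 121) (nat_lit 122) (nat_lit 2) (nat_lit 2) (nat_lit 7) L58071 (by decide +kernel)
theorem L58073 : W_10 (nat_lit 5) (nat_lit 0x2000000013000d8000c00040000000000000000000000) (nat_lit 0x0) (nat_lit 0x6003300180004000000000000000000) := T_10 (nat_lit 108) (nat_lit 109) (nat_lit 3) (nat_lit 4) (nat_lit 6) L58072 (by decide +kernel)
theorem L58074 : W_10 (nat_lit 6) (nat_lit 0x200000001300098000c00040000000000000000000000) (nat_lit 0x0) (nat_lit 0x66003300180004000000000000000000) := T_10 (nat_lit 126) (nat_lit 125) (nat_lit 1) (nat_lit 8) (nat_lit 7) L58073 (by decide +kernel)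
theorem L58075 : W_10 (nat_lit 7) (nat_lit 0x200000001300098000c00000000000000000000000000) (nat_lit 0x0) (nat_lit 0x660033001c0006000000000000000000) := T_10 (nat_lit 90) (nat_lit 73) (nat_lit 5) (nat_lit 5) (nat_lit 4) L58074 (by decide +kernel)
theorem L58076 : W_10 (nat_lit 2) (nat_lit 0x2000000013000d8000c001c0001000000000000000000) (nat_lit 0x0) (nat_lit 0x3000000008000000000000000000) := D_10 (nat_lit 109) (nat_lit 108) (nat_lit 75) (nat_lit 3) (nat_lit 4) (nat_lit 6) (nat_lit 7) (nat_lit 7) (nat_lit 4) (by decide +kernel)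
theorem L58077 : W_10 (nat_lit 3) (nat_lit 0x200000001300098000c001c0001000000000000000000) (nat_lit 0x0) (nat_lit 0x60003000000008000000000000000000) := T_10 (nat_lit 126) (nat_lit 125) (nat_lit 1) (nat_lit 8) (nat_lit 7) L58076 (by decide +kernel)
theorem L58078 : W_10 (nat_lit 4) (nat_lit 0x200000001300098000c000c0001000000000000000000) (nat_lit 0x0) (nat_lit 0x60003000300008000000000000000000) := T_10 (nat_lit 92) (nat_lit 93) (nat_lit 1) (nat_lit 8) (nat_lit 5) L58077 (by decide +kernel)
theorem L58079 : W_10 (nat_lit 5) (nat_lit 0x200000001300098000c00040001000000000000000000) (nat_lit 0x0) (nat_lit 0x6000300038000c000000000000000000) := T_10 (nat_lit 91) (nat_lit 74) (nat_lit 6) (nat_lit 5) (nat_lit 8) L58078 (by decide +kernel)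
theorem L58080 : W_10 (nat_lit 6) (nat_lit 0x200000001300098000c00040000000000000000000000) (nat_lit 0x0) (nat_lit 0x600030003a000d000000000000000000) := T_10 (nat_lit 72) (nat_lit 89) (nat_lit 7) (nat_lit 4) (nat_lit 4) L58079 (by decide +kernel)
theorem L58081 : W_10 (nat_lit 7) (nat_lit 0x200000001300098000c00000000000000000000000000) (nat_lit 0x0) (nat_lit 0x600030003e000f000000000000000000) := T_10 (nat_lit 90) (nat_lit 73) (nat_lit 5) (nat_lit 5) (nat_lit 4) L58080 (by decide +kernel)
theorem L58082 : W_10 (nat_lit 9) (nat_lit 0x200000001300098000800000000000000000000000000) (nat_lit 0x0) (nat_lit 0x660037003fc00f800000000000000000) := Q_10 (nat_lit 106) (C_10 L58051 (C_10 L58056 (C_10 L58062 (C_10 L58069 (C_10 L58075 (C_10 L58081 N_10)))))) (by decide +kernel)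
theorem L58083 : W_10 (nat_lit 2) (nat_lit 0x20000000130009c000800000000000000000000000000) (nat_lit 0x0) (nat_lit 0x3001000000000000000000000000000) := D_10 (nat_lit 121) (nat_lit 108) (nat_lit 120) (nat_lit 2) (nat_lit 2) (nat_lit 7) (nat_lit 3) (nat_lit 1) (nat_lit 7) (by decide +kernel)
theorem L58084 : W_10 (nat_lit 2) (nat_lit 0x2000020013000bd000a00000000000000000000000000) (nat_lit 0x0) (nat_lit 0x400010000800000000000000000) := D_10 (nat_lit 88) (nat_lit 71) (nat_lit 106) (nat_lit 7) (nat_lit 3) (nat_lit 4) (nat_lit 4) (nat_lit 4) (nat_lit 9) (by decide +kernel)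
theorem L58085 : W_10 (nat_lit 3) (nat_lit 0x2000000013000bd000a00000000000000000000000000) (nat_lit 0x0) (nat_lit 0x40002000000000000400010000800000000000000000) := T_10 (nat_lit 157) (nat_lit 174) (nat_lit 6) (nat_lit 4) (nat_lit 10) L58084 (by decide +kernel)
theorem L58086 : W_10 (nat_lit 4) (nat_lit 0x2000000013000bd000800000000000000000000000000) (nat_lit 0x0) (nat_lit 0x40002000000000000700010000800000000000000000) := T_10 (nat_lit 105) (nat_lit 104) (nat_lit 0) (nat_lit 6) (nat_lit 7) L58085 (by decide +kernel)
theorem L58087 : W_10 (nat_lit 5) (nat_lit 0x2000000013000bc000800000000000000000000000000) (nat_lit 0x0) (nat_lit 0x40002000000003000700010000800000000000000000) := T_10 (nat_lit 120) (nat_lit 121) (nat_lit 3) (nat_lit 1) (nat_lit 7) L58086 (by decide +kernel)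
theorem L58088 : W_10 (nat_lit 6) (nat_lit 0x20000000130009c000800000000000000000000000000) (nat_lit 0x0) (nat_lit 0x40002000000063000700010000800000000000000000) := T_10 (nat_lit 125) (nat_lit 126) (nat_lit 1) (nat_lit 8) (nat_lit 7) L58087 (by decide +kernel)
theorem L58089 : W_10 (nat_lit 2) (nat_lit 0x2400000013000bc001a00090000000000000000000000) (nat_lit 0x0) (nat_lit 0x400108000000000000000000000) := D_10 (nat_lit 106) (nat_lit 92) (nat_lit 87) (nat_lit 2) (nat_lit 3) (nat_lit 6) (nat_lit 0) (nat_lit 6) (nat_lit 6) (by decide +kernel)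
theorem L58090 : W_10 (nat_lit 3) (nat_lit 0x2400000013000bc001a00080000000000000000000000) (nat_lit 0x0) (nat_lit 0x400118000800000000000000000) := T_10 (nat_lit 88) (nat_lit 71) (nat_lit 7) (nat_lit 3) (nat_lit 4) L58089 (by decide +kernel)
theorem L58091 : W_10 (nat_lit 4) (nat_lit 0x2400000013000bc001a00000000000000000000000000) (nat_lit 0x0) (nat_lit 0x400198004800000000000000000) := T_10 (nat_lit 91) (nat_lit 74) (nat_lit 5) (nat_lit 6) (nat_lit 4) L58090 (by decide +kernel)
theorem L58092 : W_10 (nat_lit 5) (nat_lit 0x2400000013000bc000a00000000000000000000000000) (nat_lit 0x0) (nat_lit 0x3400198004800000000000000000) := T_10 (nat_lit 108) (nat_lit 109) (nat_lit 2) (nat_lit 3) (nat_lit 7) L58091 (by decide +kernel)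
theorem L58093 : W_10 (nat_lit 6) (nat_lit 0x2400000013000bc000800000000000000000000000000) (nat_lit 0x0) (nat_lit 0x3700198004800000000000000000) := T_10 (nat_lit 105) (nat_lit 104) (nat_lit 0) (nat_lit 6) (nat_lit 7) L58092 (by decide +kernel)
theorem L58094 : W_10 (nat_lit 7) (nat_lit 0x2000000013000bc000800000000000000000000000000) (nat_lit 0x0) (nat_lit 0x40002000000000003700198004800000000000000000) := T_10 (nat_lit 174) (nat_lit 157) (nat_lit 6) (nat_lit 4) (nat_lit 10) L58093 (by decide +kernel)
theorem L58095 : W_10 (nat_lit 8) (nat_lit 0x20000000130009c000800000000000000000000000000) (nat_lit 0x0) (nat_lit 0x40002000000060003700198004800000000000000000) := T_10 (nat_lit 125) (nat_lit 126) (nat_lit 1) (nat_lit 8) (nat_lit 7) L58094 (by decide +kernel)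
theorem L58096 : W_10 (nat_lit 9) (nat_lit 0x200000001300098000800000000000000000000000000) (nat_lit 0x0) (nat_lit 0x40002000000067003700198004800000000000000000) := Q_10 (nat_lit 122) (C_10 L58083 (C_10 L58088 (C_10 L58095 N_10))) (by decide +kernel)
theorem L58097 : W_10 (nat_lit 10) (nat_lit 0x200000001300098000000000000000000000000000000) (nat_lit 0x0) (nat_lit 0x40002000000067003f003fc00f800000000000000000) := Q_10 (nat_lit 107) (C_10 L58044 (C_10 L58082 (C_10 L58096 N_10))) (by decide +kernel)
theorem L58098 : W_10 (nat_lit 2) (nat_lit 0x2000000013000d8000c00038000000000000000000000) (nat_lit 0x0) (nat_lit 0x3200000000000000000000000000) := D_10 (nat_lit 108) (nat_lit 109) (nat_lit 105) (nat_lit 3) (nat_lit 4) (nat_lit 6) (nat_lit 0) (nat_lit 6) (nat_lit 6) (by decide +kernel)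
theorem L58099 : W_10 (nat_lit 3) (nat_lit 0x2000000013000d8000c00030000000000000000000000) (nat_lit 0x0) (nat_lit 0x320000c000000000000000000000) := T_10 (nat_lit 87) (nat_lit 86) (nat_lit 3) (nat_lit 1) (nat_lit 5) L58098 (by decide +kernel)
theorem L58100 : W_10 (nat_lit 4) (nat_lit 0x2000000013000d8000c00020000000000000000000000) (nat_lit 0x0) (nat_lit 0x320001c000800000000000000000) := T_10 (nat_lit 88) (nat_lit 71) (nat_lit 4) (nat_lit 4) (nat_lit 8) L58099 (by decide +kernel)
theorem L58101 : W_10 (nat_lit 5) (nat_lit 0x200000001300098000c00020000000000000000000000) (nat_lit 0x0) (nat_lit 0x6000320001c000800000000000000000) := T_10 (nat_lit 126) (nat_lit 125) (nat_lit 1) (nat_lit 8) (nat_lit 7) L58100 (by decide +kernel)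
theorem L58102 : W_10 (nat_lit 6) (nat_lit 0x200000001300098000c00000000000000000000000000) (nat_lit 0x0) (nat_lit 0x6000320003c001800000000000000000) := T_10 (nat_lit 89) (nat_lit 72) (nat_lit 7) (nat_lit 4) (nat_lit 4) L58101 (by decide +kernel)
theorem L58103 : W_10 (nat_lit 2) (nat_lit 0x2000000013000d8001c000c0000000000000000000000) (nat_lit 0x0) (nat_lit 0x300100000000000000000000000) := D_10 (nat_lit 105) (nat_lit 92) (nat_lit 104) (nat_lit 2) (nat_lit 3) (nat_lit 6) (nat_lit 2) (nat_lit 2) (nat_lit 6) (by decide +kernel)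
theorem L58104 : W_10 (nat_lit 3) (nat_lit 0x2000000013000d8001c00040000000000000000000000) (nat_lit 0x0) (nat_lit 0x300180004000000000000000000) := T_10 (nat_lit 91) (nat_lit 74) (nat_lit 6) (nat_lit 5) (nat_lit 8) L58103 (by decide +kernel)
theorem L58105 : W_10 (nat_lit 4) (nat_lit 0x2000000013000d8000c00040000000000000000000000) (nat_lit 0x0) (nat_lit 0x3300180004000000000000000000) := T_10 (nat_lit 108) (nat_lit 109) (nat_lit 3) (nat_lit 4) (nat_lit 6) L58104 (by decide +kernel)
theorem L58106 : W_10 (nat_lit 5) (nat_lit 0x2000000013000d8000c00000000000000000000000000) (nat_lit 0x0) (nat_lit 0x33001c0006000000000000000000) := T_10 (nat_lit 90) (nat_lit 73) (nat_lit 5) (nat_lit 5) (nat_lit 4) L58105 (by decide +kernel)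
theorem L58107 : W_10 (nat_lit 6) (nat_lit 0x200000001300098000c00000000000000000000000000) (nat_lit 0x0) (nat_lit 0x600033001c0006000000000000000000) := T_10 (nat_lit 126) (nat_lit 125) (nat_lit 1) (nat_lit 8) (nat_lit 7) L58106 (by decide +kernel)
theorem L58108 : W_10 (nat_lit 9) (nat_lit 0x200000001300098000800000000000000000000000000) (nat_lit 0x0) (nat_lit 0x600037003fc00f800000000000000000) := Q_10 (nat_lit 106) (C_10 L58081 (C_10 L58056 (C_10 L58102 (C_10 L58069 (C_10 L58107 N_10))))) (by decide +kernel)
theorem L58109 : W_10 (nat_lit 2) (nat_lit 0x200000001300098000c00038000000000000000000000) (nat_lit 0x0) (nat_lit 0x3200000000000000000000000000) := D_10 (nat_lit 108) (nat_lit 109) (nat_lit 105) (nat_lit 0) (nat_lit 7) (nat_lit 6) (nat_lit 0) (nat_lit 6) (nat_lit 6) (by decide +kernel)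
theorem L58110 : W_10 (nat_lit 3) (nat_lit 0x200000001300098000c00030000000000000000000000) (nat_lit 0x0) (nat_lit 0x320000c000000000000000000000) := T_10 (nat_lit 87) (nat_lit 86) (nat_lit 3) (nat_lit 1) (nat_lit 5) L58109 (by decide +kernel)
theorem L58111 : W_10 (nat_lit 4) (nat_lit 0x200000001300098000c00020000000000000000000000) (nat_lit 0x0) (nat_lit 0x320001c000800000000000000000) := T_10 (nat_lit 88) (nat_lit 71) (nat_lit 4) (nat_lit 4) (nat_lit 8) L58110 (by decide +kernel)
theorem L58112 : W_10 (nat_lit 5) (nat_lit 0x200000001300098000c00000000000000000000000000) (nat_lit 0x0) (nat_lit 0x320003c001800000000000000000) := T_10 (nat_lit 89) (nat_lit 72) (nat_lit 7) (nat_lit 4) (nat_lit 4) L58111 (by decide +kernel)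
theorem L58113 : W_10 (nat_lit 2) (nat_lit 0x200000001300098000c000f4000000000000000000000) (nat_lit 0x0) (nat_lit 0x300100000000000000000000000) := D_10 (nat_lit 105) (nat_lit 104) (nat_lit 92) (nat_lit 2) (nat_lit 2) (nat_lit 6) (nat_lit 1) (nat_lit 7) (nat_lit 5) (by decide +kernel)
theorem L58114 : W_10 (nat_lit 3) (nat_lit 0x200000001300098000c00074000000000000000000000) (nat_lit 0x0) (nat_lit 0x300180004000000000000000000) := T_10 (nat_lit 91) (nat_lit 74) (nat_lit 6) (nat_lit 5) (nat_lit 8) L58113 (by decide +kernel)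
theorem L58115 : W_10 (nat_lit 4) (nat_lit 0x200000001300098000c00070000000000000000000000) (nat_lit 0x0) (nat_lit 0x30018c004000000000000000000) := T_10 (nat_lit 86) (nat_lit 87) (nat_lit 3) (nat_lit 1) (nat_lit 5) L58114 (by decide +kernel)
theorem L58116 : W_10 (nat_lit 5) (nat_lit 0x200000001300098000c00060000000000000000000000) (nat_lit 0x0) (nat_lit 0x30019c004800000000000000000) := T_10 (nat_lit 88) (nat_lit 71) (nat_lit 4) (nat_lit 4) (nat_lit 8) L58115 (by decide +kernel)
theorem L58117 : W_10 (nat_lit 6) (nat_lit 0x200000001300098000c00020000000000000000000000) (nat_lit 0x0) (nat_lit 0x3001dc006800000000000000000) := T_10 (nat_lit 90) (nat_lit 73) (nat_lit 6) (nat_lit 4) (nat_lit 8) L58116 (by decide +kernel)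
theorem L58118 : W_10 (nat_lit 7) (nat_lit 0x200000001300098000c00000000000000000000000000) (nat_lit 0x0) (nat_lit 0x3001fc007800000000000000000) := T_10 (nat_lit 89) (nat_lit 72) (nat_lit 7) (nat_lit 4) (nat_lit 4) L58117 (by decide +kernel)
theorem L58119 : W_10 (nat_lit 2) (nat_lit 0x20000000170009a000e000c0000000000000000000000) (nat_lit 0x0) (nat_lit 0x1000300000000000000000000000) := D_10 (nat_lit 92) (nat_lit 93) (nat_lit 108) (nat_lit 1) (nat_lit 8) (nat_lit 5) (nat_lit 2) (nat_lit 3) (nat_lit 6) (by decide +kernel)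
theorem L58120 : W_10 (nat_lit 3) (nat_lit 0x20000000170009a000c000c0000000000000000000000) (nat_lit 0x0) (nat_lit 0x1300300000000000000000000000) := T_10 (nat_lit 105) (nat_lit 104) (nat_lit 2) (nat_lit 2) (nat_lit 6) L58119 (by decide +kernel)
theorem L58121 : W_10 (nat_lit 4) (nat_lit 0x20000000170009a000c00040000000000000000000000) (nat_lit 0x0) (nat_lit 0x1300380004000000000000000000) := T_10 (nat_lit 91) (nat_lit 74) (nat_lit 6) (nat_lit 5) (nat_lit 8) L58120 (by decide +kernel)
theorem L58122 : W_10 (nat_lit 5) (nat_lit 0x200000001700098000c00040000000000000000000000) (nat_lit 0x0) (nat_lit 0x6001300380004000000000000000000) := T_10 (nat_lit 121) (nat_lit 122) (nat_lit 3) (nat_lit 2) (nat_lit 7) L58121 (by decide +kernel)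
theorem L58123 : W_10 (nat_lit 6) (nat_lit 0x200000001300098000c00040000000000000000000000) (nat_lit 0x0) (nat_lit 0x8000400006001300380004000000000000000000) := T_10 (nat_lit 142) (nat_lit 159) (nat_lit 7) (nat_lit 5) (nat_lit 5) L58122 (by decide +kernel)
theorem L58124 : W_10 (nat_lit 7) (nat_lit 0x200000001300098000c00000000000000000000000000) (nat_lit 0x0) (nat_lit 0x80004000060013003c0006000000000000000000) := T_10 (nat_lit 90) (nat_lit 73) (nat_lit 5) (nat_lit 5) (nat_lit 4) L58123 (by decide +kernel)
theorem L58125 : W_10 (nat_lit 2) (nat_lit 0x200000001300098000c002f0000000000000000000000) (nat_lit 0x0) (nat_lit 0x3000008000000000000000000000) := D_10 (nat_lit 108) (nat_lit 109) (nat_lit 87) (nat_lit 3) (nat_lit 3) (nat_lit 5) (nat_lit 3) (nat_lit 2) (nat_lit 5) (by decide +kernel)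
theorem L58126 : W_10 (nat_lit 3) (nat_lit 0x200000001300098000c002e0000000000000000000000) (nat_lit 0x0) (nat_lit 0x3000018000800000000000000000) := T_10 (nat_lit 88) (nat_lit 71) (nat_lit 4) (nat_lit 4) (nat_lit 8) L58125 (by decide +kernel)
theorem L58127 : W_10 (nat_lit 4) (nat_lit 0x200000001300098000c000e0000000000000000000000) (nat_lit 0x0) (nat_lit 0x3000318000800000000000000000) := T_10 (nat_lit 93) (nat_lit 92) (nat_lit 1) (nat_lit 8) (nat_lit 5) L58126 (by decide +kernel)
theorem L58128 : W_10 (nat_lit 5) (nat_lit 0x200000001300098000c00060000000000000000000000) (nat_lit 0x0) (nat_lit 0x3000398004800000000000000000) := T_10 (nat_lit 91) (nat_lit 74) (nat_lit 6) (nat_lit 5) (nat_lit 8) L58127 (by decide +kernel)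
theorem L58129 : W_10 (nat_lit 6) (nat_lit 0x200000001300098000c00040000000000000000000000) (nat_lit 0x0) (nat_lit 0x30003b8005800000000000000000) := T_10 (nat_lit 89) (nat_lit 72) (nat_lit 7) (nat_lit 4) (nat_lit 4) L58128 (by decide +kernel)
theorem L58130 : W_10 (nat_lit 7) (nat_lit 0x200000001300098000c00000000000000000000000000) (nat_lit 0x0) (nat_lit 0x30003f8007800000000000000000) := T_10 (nat_lit 90) (nat_lit 73) (nat_lit 5) (nat_lit 5) (nat_lit 4) L58129 (by decide +kernel)
theorem L58131 : W_10 (nat_lit 8) (nat_lit 0x200000001300098000800000000000000000000000000) (nat_lit 0x0) (nat_lit 0x80004000060037003fc007800000000000000000) := Q_10 (nat_lit 106) (C_10 L58056 (C_10 L58112 (C_10 L58118 (C_10 L58124 (C_10 L58130 N_10))))) (by decide +kernel)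
theorem L58132 : W_10 (nat_lit 2) (nat_lit 0x2000000017000bc001a000d0000000000000000000000) (nat_lit 0x0) (nat_lit 0x28001000000000000000000) := D_10 (nat_lit 89) (nat_lit 72) (nat_lit 87) (nat_lit 4) (nat_lit 5) (nat_lit 8) (nat_lit 3) (nat_lit 2) (nat_lit 5) (by decide +kernel)
theorem L58133 : W_10 (nat_lit 3) (nat_lit 0x2000000017000bc001a000c0000000000000000000000) (nat_lit 0x0) (nat_lit 0x38001800000000000000000) := T_10 (nat_lit 88) (nat_lit 71) (nat_lit 7) (nat_lit 3) (nat_lit 4) L58132 (by decide +kernel)
theorem L58134 : W_10 (nat_lit 4) (nat_lit 0x2000000017000bc000a000c0000000000000000000000) (nat_lit 0x0) (nat_lit 0x3000038001800000000000000000) := T_10 (nat_lit 108) (nat_lit 109) (nat_lit 2) (nat_lit 3) (nat_lit 7) L58133 (by decide +kernel)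
theorem L58135 : W_10 (nat_lit 5) (nat_lit 0x2000000017000bc0008000c0000000000000000000000) (nat_lit 0x0) (nat_lit 0x3300038001800000000000000000) := T_10 (nat_lit 105) (nat_lit 104) (nat_lit 0) (nat_lit 6) (nat_lit 7) L58134 (by decide +kernel)
theorem L58136 : W_10 (nat_lit 6) (nat_lit 0x2000000017000bc000800040000000000000000000000) (nat_lit 0x0) (nat_lit 0x33000b8005800000000000000000) := T_10 (nat_lit 91) (nat_lit 74) (nat_lit 6) (nat_lit 5) (nat_lit 8) L58135 (by decide +kernel)
theorem L58137 : W_10 (nat_lit 7) (nat_lit 0x2000000017000b8000800040000000000000000000000) (nat_lit 0x0) (nat_lit 0x60033000b8005800000000000000000) := T_10 (nat_lit 122) (nat_lit 121) (nat_lit 3) (nat_lit 2) (nat_lit 7) L58136 (by decide +kernel)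
theorem L58138 : W_10 (nat_lit 8) (nat_lit 0x2000000013000b8000800040000000000000000000000) (nat_lit 0x0) (nat_lit 0x80004000060033000b8005800000000000000000) := T_10 (nat_lit 142) (nat_lit 159) (nat_lit 7) (nat_lit 5) (nat_lit 5) L58137 (by decide +kernel)
theorem L58139 : W_10 (nat_lit 9) (nat_lit 0x200000001300098000800040000000000000000000000) (nat_lit 0x0) (nat_lit 0x80004000660033000b8005800000000000000000) := T_10 (nat_lit 125) (nat_lit 126) (nat_lit 1) (nat_lit 8) (nat_lit 7) L58138 (by decide +kernel)
theorem L58140 : W_10 (nat_lit 10) (nat_lit 0x200000001300098000800000000000000000000000000) (nat_lit 0x0) (nat_lit 0x80004000660033000f8007800000000000000000) := T_10 (nat_lit 90) (nat_lit 73) (nat_lit 5) (nat_lit 5) (nat_lit 4) L58139 (by decide +kernel)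
theorem L58141 : W_10 (nat_lit 2) (nat_lit 0x2000000013000bc001e00080000000000000000000000) (nat_lit 0x0) (nat_lit 0x18000800000000000000000) := D_10 (nat_lit 88) (nat_lit 87) (nat_lit 71) (nat_lit 0) (nat_lit 6) (nat_lit 6) (nat_lit 7) (nat_lit 3) (nat_lit 4) (by decide +kernel)
theorem L58142 : W_10 (nat_lit 3) (nat_lit 0x2000000013000bc001a00080000000000000000000000) (nat_lit 0x0) (nat_lit 0x400118000800000000000000000) := T_10 (nat_lit 106) (nat_lit 92) (nat_lit 2) (nat_lit 3) (nat_lit 6) L58141 (by decide +kernel)
theorem L58143 : W_10 (nat_lit 4) (nat_lit 0x2000000013000bc001800080000000000000000000000) (nat_lit 0x0) (nat_lit 0x700118000800000000000000000) := T_10 (nat_lit 105) (nat_lit 104) (nat_lit 0) (nat_lit 6) (nat_lit 7) L58142 (by decide +kernel)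
theorem L58144 : W_10 (nat_lit 5) (nat_lit 0x2000000013000bc001800000000000000000000000000) (nat_lit 0x0) (nat_lit 0x700198004800000000000000000) := T_10 (nat_lit 91) (nat_lit 74) (nat_lit 5) (nat_lit 6) (nat_lit 4) L58143 (by decide +kernel)
theorem L58145 : W_10 (nat_lit 6) (nat_lit 0x2000000013000bc000800000000000000000000000000) (nat_lit 0x0) (nat_lit 0x3700198004800000000000000000) := T_10 (nat_lit 108) (nat_lit 109) (nat_lit 2) (nat_lit 3) (nat_lit 7) L58144 (by decide +kernel)
theorem L58146 : W_10 (nat_lit 7) (nat_lit 0x20000000130009c000800000000000000000000000000) (nat_lit 0x0) (nat_lit 0x60003700198004800000000000000000) := T_10 (nat_lit 125) (nat_lit 126) (nat_lit 1) (nat_lit 8) (nat_lit 7) L58145 (by decide +kernel)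
theorem L58147 : W_10 (nat_lit 2) (nat_lit 0x20000000130009c000800000000000000000000000000) (nat_lit 0x0) (nat_lit 0x400003000000000000000000000000000000) := D_10 (nat_lit 121) (nat_lit 142) (nat_lit 120) (nat_lit 3) (nat_lit 2) (nat_lit 7) (nat_lit 3) (nat_lit 1) (nat_lit 7) (by decide +kernel)
theorem L58148 : W_10 (nat_lit 8) (nat_lit 0x200000001300098000800000000000000000000000000) (nat_lit 0x0) (nat_lit 0x400067003700198004800000000000000000) := Q_10 (nat_lit 122) (C_10 L58146 (C_10 L58083 (C_10 L58147 N_10))) (by decide +kernel)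
theorem L58149 : W_10 (nat_lit 2) (nat_lit 0x2000000013000b8000a00000000000000000000000000) (nat_lit 0x0) (nat_lit 0x4000500000000000000000000000000) := D_10 (nat_lit 104) (nat_lit 106) (nat_lit 122) (nat_lit 3) (nat_lit 2) (nat_lit 6) (nat_lit 0) (nat_lit 6) (nat_lit 7) (by decide +kernel)
theorem L58150 : W_10 (nat_lit 3) (nat_lit 0x200000001300098000a00000000000000000000000000) (nat_lit 0x0) (nat_lit 0x64000500000000000000000000000000) := T_10 (nat_lit 125) (nat_lit 126) (nat_lit 1) (nat_lit 8) (nat_lit 7) L58149 (by decide +kernel)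
theorem L58151 : W_10 (nat_lit 2) (nat_lit 0x2000000017000d8000a000e0000000000000000000000) (nat_lit 0x0) (nat_lit 0x500010000000000000000000000) := D_10 (nat_lit 104) (nat_lit 106) (nat_lit 88) (nat_lit 2) (nat_lit 2) (nat_lit 6) (nat_lit 1) (nat_lit 6) (nat_lit 5) (by decide +kernel)
theorem L58152 : W_10 (nat_lit 3) (nat_lit 0x2000000017000d8000a00060000000000000000000000) (nat_lit 0x0) (nat_lit 0x500090004000000000000000000) := T_10 (nat_lit 91) (nat_lit 74) (nat_lit 6) (nat_lit 5) (nat_lit 8) L58151 (by decide +kernel)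
theorem L58153 : W_10 (nat_lit 4) (nat_lit 0x2000000013000d8000a00060000000000000000000000) (nat_lit 0x0) (nat_lit 0x8000400000000500090004000000000000000000) := T_10 (nat_lit 142) (nat_lit 159) (nat_lit 7) (nat_lit 5) (nat_lit 5) L58152 (by decide +kernel)
theorem L58154 : W_10 (nat_lit 5) (nat_lit 0x2000000013000d8000a00040000000000000000000000) (nat_lit 0x0) (nat_lit 0x80004000000005000b0005000000000000000000) := T_10 (nat_lit 89) (nat_lit 72) (nat_lit 4) (nat_lit 5) (nat_lit 8) L58153 (by decide +kernel)
theorem L58155 : W_10 (nat_lit 6) (nat_lit 0x2000000013000d8000a00000000000000000000000000) (nat_lit 0x0) (nat_lit 0x80004000000005000f0007000000000000000000) := T_10 (nat_lit 90) (nat_lit 73) (nat_lit 5) (nat_lit 5) (nat_lit 4) L58154 (by decide +kernel)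
theorem L58156 : W_10 (nat_lit 7) (nat_lit 0x200000001300098000a00000000000000000000000000) (nat_lit 0x0) (nat_lit 0x80004000600005000f0007000000000000000000) := T_10 (nat_lit 126) (nat_lit 125) (nat_lit 1) (nat_lit 8) (nat_lit 7) L58155 (by decide +kernel)
theorem L58157 : W_10 (nat_lit 2) (nat_lit 0x20000000170009a000a000e0000000000000000000000) (nat_lit 0x0) (nat_lit 0x500010000000000000000000000) := D_10 (nat_lit 104) (nat_lit 106) (nat_lit 88) (nat_lit 2) (nat_lit 2) (nat_lit 6) (nat_lit 1) (nat_lit 6) (nat_lit 5) (by decide +kernel)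
theorem L58158 : W_10 (nat_lit 3) (nat_lit 0x20000000170009a000a00060000000000000000000000) (nat_lit 0x0) (nat_lit 0x500090004000000000000000000) := T_10 (nat_lit 91) (nat_lit 74) (nat_lit 6) (nat_lit 5) (nat_lit 8) L58157 (by decide +kernel)
theorem L58159 : W_10 (nat_lit 4) (nat_lit 0x200000001700098000a00060000000000000000000000) (nat_lit 0x0) (nat_lit 0x6000500090004000000000000000000) := T_10 (nat_lit 121) (nat_lit 122) (nat_lit 3) (nat_lit 2) (nat_lit 7) L58158 (by decide +kernel)
theorem L58160 : W_10 (nat_lit 5) (nat_lit 0x200000001300098000a00060000000000000000000000) (nat_lit 0x0) (nat_lit 0x8000400006000500090004000000000000000000) := T_10 (nat_lit 142) (nat_lit 159) (nat_lit 7) (nat_lit 5) (nat_lit 5) L58159 (by decide +kernel)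
theorem L58161 : W_10 (nat_lit 6) (nat_lit 0x200000001300098000a00040000000000000000000000) (nat_lit 0x0) (nat_lit 0x80004000060005000b0005000000000000000000) := T_10 (nat_lit 89) (nat_lit 72) (nat_lit 4) (nat_lit 5) (nat_lit 8) L58160 (by decide +kernel)
theorem L58162 : W_10 (nat_lit 7) (nat_lit 0x200000001300098000a00000000000000000000000000) (nat_lit 0x0) (nat_lit 0x80004000060005000f0007000000000000000000) := T_10 (nat_lit 90) (nat_lit 73) (nat_lit 5) (nat_lit 5) (nat_lit 4) L58161 (by decide +kernel)
theorem L58163 : W_10 (nat_lit 2) (nat_lit 0x2000000013000bc000a00000002000000000000000000) (nat_lit 0x0) (nat_lit 0x400003000000000000000000000000000000) := D_10 (nat_lit 121) (nat_lit 120) (nat_lit 142) (nat_lit 3) (nat_lit 1) (nat_lit 7) (nat_lit 3) (nat_lit 2) (nat_lit 7) (by decide +kernel)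
theorem L58164 : W_10 (nat_lit 3) (nat_lit 0x2000000013000b8000a00000002000000000000000000) (nat_lit 0x0) (nat_lit 0x400007000100000000000000000000000000) := T_10 (nat_lit 122) (nat_lit 104) (nat_lit 0) (nat_lit 6) (nat_lit 7) L58163 (by decide +kernel)
theorem L58165 : W_10 (nat_lit 4) (nat_lit 0x200000001300098000a00000002000000000000000000) (nat_lit 0x0) (nat_lit 0x400067000100000000000000000000000000) := T_10 (nat_lit 125) (nat_lit 126) (nat_lit 1) (nat_lit 8) (nat_lit 7) L58164 (by decide +kernel)
theorem L58166 : W_10 (nat_lit 5) (nat_lit 0x200000001300098000a00000000000000000000000000) (nat_lit 0x0) (nat_lit 0x400067000100040002000000000000000000) := T_10 (nat_lit 73) (nat_lit 90) (nat_lit 5) (nat_lit 5) (nat_lit 4) L58165 (by decide +kernel)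
theorem L58167 : W_10 (nat_lit 2) (nat_lit 0x2000000017000da000a001e0000000000000000000000) (nat_lit 0x0) (nat_lit 0x2000000018000000000000000000) := D_10 (nat_lit 75) (nat_lit 109) (nat_lit 76) (nat_lit 7) (nat_lit 7) (nat_lit 4) (nat_lit 2) (nat_lit 4) (nat_lit 5) (by decide +kernel)
theorem L58168 : W_10 (nat_lit 3) (nat_lit 0x2000000017000da000a000e0000000000000000000000) (nat_lit 0x0) (nat_lit 0x2400100018000000000000000000) := T_10 (nat_lit 92) (nat_lit 106) (nat_lit 1) (nat_lit 7) (nat_lit 5) L58167 (by decide +kernel)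
theorem L58169 : W_10 (nat_lit 4) (nat_lit 0x2000000017000da000a00060000000000000000000000) (nat_lit 0x0) (nat_lit 0x240018001c000000000000000000) := T_10 (nat_lit 91) (nat_lit 74) (nat_lit 6) (nat_lit 5) (nat_lit 8) L58168 (by decide +kernel)
theorem L58170 : W_10 (nat_lit 5) (nat_lit 0x2000000017000d8000a00060000000000000000000000) (nat_lit 0x0) (nat_lit 0x600240018001c000000000000000000) := T_10 (nat_lit 121) (nat_lit 122) (nat_lit 3) (nat_lit 2) (nat_lit 7) L58169 (by decide +kernel)
theorem L58171 : W_10 (nat_lit 6) (nat_lit 0x2000000013000d8000a00060000000000000000000000) (nat_lit 0x0) (nat_lit 0x800040000600240018001c000000000000000000) := T_10 (nat_lit 142) (nat_lit 159) (nat_lit 7) (nat_lit 5) (nat_lit 5) L58170 (by decide +kernel)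
theorem L58172 : W_10 (nat_lit 7) (nat_lit 0x2000000013000d8000a00040000000000000000000000) (nat_lit 0x0) (nat_lit 0x80004000060024001a001d000000000000000000) := T_10 (nat_lit 89) (nat_lit 72) (nat_lit 4) (nat_lit 5) (nat_lit 8) L58171 (by decide +kernel)
theorem L58173 : W_10 (nat_lit 8) (nat_lit 0x2000000013000d8000a00000000000000000000000000) (nat_lit 0x0) (nat_lit 0x80004000060024001e001f000000000000000000) := T_10 (nat_lit 90) (nat_lit 73) (nat_lit 5) (nat_lit 5) (nat_lit 4) L58172 (by decide +kernel)
theorem L58174 : W_10 (nat_lit 9) (nat_lit 0x200000001300098000a00000000000000000000000000) (nat_lit 0x0) (nat_lit 0x80004000660024001e001f000000000000000000) := T_10 (nat_lit 126) (nat_lit 125) (nat_lit 1) (nat_lit 8) (nat_lit 7) L58173 (by decide +kernel)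
theorem L58175 : W_10 (nat_lit 10) (nat_lit 0x200000001300098000800000000000000000000000000) (nat_lit 0x0) (nat_lit 0x80004000670027001f001f000000000000000000) := Q_10 (nat_lit 105) (C_10 L58150 (C_10 L58156 (C_10 L58162 (C_10 L58166 (C_10 L58174 N_10))))) (by decide +kernel)
theorem L58176 : W_10 (nat_lit 2) (nat_lit 0x2000000017000bc001a00060000000000000000000000) (nat_lit 0x0) (nat_lit 0x18000800000000000000000) := D_10 (nat_lit 88) (nat_lit 87) (nat_lit 71) (nat_lit 3) (nat_lit 2) (nat_lit 5) (nat_lit 7) (nat_lit 3) (nat_lit 4) (by decide +kernel)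
theorem L58177 : W_10 (nat_lit 3) (nat_lit 0x2000000017000bc000a00060000000000000000000000) (nat_lit 0x0) (nat_lit 0x3000018000800000000000000000) := T_10 (nat_lit 108) (nat_lit 109) (nat_lit 2) (nat_lit 3) (nat_lit 7) L58176 (by decide +kernel)
theorem L58178 : W_10 (nat_lit 4) (nat_lit 0x2000000017000bc000800060000000000000000000000) (nat_lit 0x0) (nat_lit 0x3300018000800000000000000000) := T_10 (nat_lit 105) (nat_lit 104) (nat_lit 0) (nat_lit 6) (nat_lit 7) L58177 (by decide +kernel)
theorem L58179 : W_10 (nat_lit 5) (nat_lit 0x2000000017000bc000800040000000000000000000000) (nat_lit 0x0) (nat_lit 0x3300038001800000000000000000) := T_10 (nat_lit 89) (nat_lit 72) (nat_lit 4) (nat_lit 5) (nat_lit 8) L58178 (by decide +kernel)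
theorem L58180 : W_10 (nat_lit 6) (nat_lit 0x2000000017000b8000800040000000000000000000000) (nat_lit 0x0) (nat_lit 0x6003300038001800000000000000000) := T_10 (nat_lit 122) (nat_lit 121) (nat_lit 3) (nat_lit 2) (nat_lit 7) L58179 (by decide +kernel)
theorem L58181 : W_10 (nat_lit 7) (nat_lit 0x2000000013000b8000800040000000000000000000000) (nat_lit 0x0) (nat_lit 0x8000400006003300038001800000000000000000) := T_10 (nat_lit 142) (nat_lit 159) (nat_lit 7) (nat_lit 5) (nat_lit 5) L58180 (by decide +kernel)
theorem L58182 : W_10 (nat_lit 8) (nat_lit 0x200000001300098000800040000000000000000000000) (nat_lit 0x0) (nat_lit 0x8000400066003300038001800000000000000000) := T_10 (nat_lit 125) (nat_lit 126) (nat_lit 1) (nat_lit 8) (nat_lit 7) L58181 (by decide +kernel)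
theorem L58183 : W_10 (nat_lit 9) (nat_lit 0x200000001300098000800000000000000000000000000) (nat_lit 0x0) (nat_lit 0x8000400066003300078003800000000000000000) := T_10 (nat_lit 90) (nat_lit 73) (nat_lit 5) (nat_lit 5) (nat_lit 4) L58182 (by decide +kernel)
theorem L58184 : W_10 (nat_lit 2) (nat_lit 0x2000000017000bc000a001e0000800000000000000000) (nat_lit 0x0) (nat_lit 0x1000000018000000000000000000) := D_10 (nat_lit 75) (nat_lit 108) (nat_lit 76) (nat_lit 6) (nat_lit 6) (nat_lit 8) (nat_lit 2) (nat_lit 4) (nat_lit 5) (by decide +kernel)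
theorem L58185 : W_10 (nat_lit 3) (nat_lit 0x2000000017000bc000a000e0000800000000000000000) (nat_lit 0x0) (nat_lit 0x1400100018000000000000000000) := T_10 (nat_lit 92) (nat_lit 106) (nat_lit 1) (nat_lit 7) (nat_lit 5) L58184 (by decide +kernel)
theorem L58186 : W_10 (nat_lit 4) (nat_lit 0x2000000017000bc000a000e0000000000000000000000) (nat_lit 0x0) (nat_lit 0x1400110018800000000000000000) := T_10 (nat_lit 71) (nat_lit 88) (nat_lit 7) (nat_lit 3) (nat_lit 4) L58185 (by decide +kernel)
theorem L58187 : W_10 (nat_lit 5) (nat_lit 0x2000000017000bc0008000e0000000000000000000000) (nat_lit 0x0) (nat_lit 0x1700110018800000000000000000) := T_10 (nat_lit 105) (nat_lit 104) (nat_lit 0) (nat_lit 6) (nat_lit 7) L58186 (by decide +kernel)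
theorem L58188 : W_10 (nat_lit 6) (nat_lit 0x2000000017000bc000800060000000000000000000000) (nat_lit 0x0) (nat_lit 0x170019001c800000000000000000) := T_10 (nat_lit 91) (nat_lit 74) (nat_lit 6) (nat_lit 5) (nat_lit 8) L58187 (by decide +kernel)
theorem L58189 : W_10 (nat_lit 7) (nat_lit 0x2000000017000b8000800060000000000000000000000) (nat_lit 0x0) (nat_lit 0x600170019001c800000000000000000) := T_10 (nat_lit 122) (nat_lit 121) (nat_lit 3) (nat_lit 2) (nat_lit 7) L58188 (by decide +kernel)
theorem L58190 : W_10 (nat_lit 8) (nat_lit 0x2000000013000b8000800060000000000000000000000) (nat_lit 0x0) (nat_lit 0x800040000600170019001c800000000000000000) := T_10 (nat_lit 142) (nat_lit 159) (nat_lit 7) (nat_lit 5) (nat_lit 5) L58189 (by decide +kernel)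
theorem L58191 : W_10 (nat_lit 9) (nat_lit 0x2000000013000b8000800040000000000000000000000) (nat_lit 0x0) (nat_lit 0x80004000060017001b001d800000000000000000) := T_10 (nat_lit 89) (nat_lit 72) (nat_lit 4) (nat_lit 5) (nat_lit 8) L58190 (by decide +kernel)
theorem L58192 : W_10 (nat_lit 10) (nat_lit 0x2000000013000b8000800000000000000000000000000) (nat_lit 0x0) (nat_lit 0x80004000060017001f001f800000000000000000) := T_10 (nat_lit 90) (nat_lit 73) (nat_lit 5) (nat_lit 5) (nat_lit 4) L58191 (by decide +kernel)
theorem L58193 : W_10 (nat_lit 11) (nat_lit 0x200000001300098000800000000000000000000000000) (nat_lit 0x0) (nat_lit 0x80004000660017001f001f800000000000000000) := T_10 (nat_lit 125) (nat_lit 126) (nat_lit 1) (nat_lit 8) (nat_lit 7) L58192 (by decide +kernel)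
theorem L58194 : W_10 (nat_lit 2) (nat_lit 0x2000000017000bc0018001e0000000000000000000000) (nat_lit 0x0) (nat_lit 0x400600000000000000000000000) := D_10 (nat_lit 93) (nat_lit 94) (nat_lit 106) (nat_lit 1) (nat_lit 9) (nat_lit 5) (nat_lit 1) (nat_lit 8) (nat_lit 5) (by decide +kernel)
theorem L58195 : W_10 (nat_lit 3) (nat_lit 0x2000000017000bc0018000e0000000000000000000000) (nat_lit 0x0) (nat_lit 0x400700008000000000000000000) := T_10 (nat_lit 92) (nat_lit 75) (nat_lit 6) (nat_lit 6) (nat_lit 8) L58194 (by decide +kernel)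
theorem L58196 : W_10 (nat_lit 4) (nat_lit 0x2000000017000bc0008000e0000000000000000000000) (nat_lit 0x0) (nat_lit 0x3400700008000000000000000000) := T_10 (nat_lit 108) (nat_lit 109) (nat_lit 2) (nat_lit 3) (nat_lit 7) L58195 (by decide +kernel)
theorem L58197 : W_10 (nat_lit 5) (nat_lit 0x2000000017000b80008000e0000000000000000000000) (nat_lit 0x0) (nat_lit 0x6003400700008000000000000000000) := T_10 (nat_lit 122) (nat_lit 121) (nat_lit 3) (nat_lit 2) (nat_lit 7) L58196 (by decide +kernel)
theorem L58198 : W_10 (nat_lit 6) (nat_lit 0x2000000013000b80008000e0000000000000000000000) (nat_lit 0x0) (nat_lit 0x8000400006003400700008000000000000000000) := T_10 (nat_lit 142) (nat_lit 159) (nat_lit 7) (nat_lit 5) (nat_lit 5) L58197 (by decide +kernel)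
theorem L58199 : W_10 (nat_lit 7) (nat_lit 0x2000000013000b8000800060000000000000000000000) (nat_lit 0x0) (nat_lit 0x800040000600340078000c000000000000000000) := T_10 (nat_lit 91) (nat_lit 74) (nat_lit 6) (nat_lit 5) (nat_lit 8) L58198 (by decide +kernel)
theorem L58200 : W_10 (nat_lit 8) (nat_lit 0x2000000013000b8000800040000000000000000000000) (nat_lit 0x0) (nat_lit 0x80004000060034007a000d000000000000000000) := T_10 (nat_lit 89) (nat_lit 72) (nat_lit 4) (nat_lit 5) (nat_lit 8) L58199 (by decide +kernel)
theorem L58201 : W_10 (nat_lit 9) (nat_lit 0x200000001300098000800040000000000000000000000) (nat_lit 0x0) (nat_lit 0x80004000660034007a000d000000000000000000) := T_10 (nat_lit 125) (nat_lit 126) (nat_lit 1) (nat_lit 8) (nat_lit 7) L58200 (by decide +kernel)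
theorem L58202 : W_10 (nat_lit 10) (nat_lit 0x200000001300098000800000000000000000000000000) (nat_lit 0x0) (nat_lit 0x80004000660034007e000f000000000000000000) := T_10 (nat_lit 90) (nat_lit 73) (nat_lit 5) (nat_lit 5) (nat_lit 4) L58201 (by decide +kernel)
theorem L58203 : W_10 (nat_lit 12) (nat_lit 0x200000001300098000000000000000000000000000000) (nat_lit 0x0) (nat_lit 0x8000400067003f007fc01f800000000000000000) := Q_10 (nat_lit 107) (C_10 L58108 (C_10 L58131 (C_10 L58140 (C_10 L58148 (C_10 L58175 (C_10 L58183 (C_10 L58193 (C_10 L58202 N_10)))))))) (by decide +kernel)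
theorem L58205 : W_10 (nat_lit 2) (nat_lit 0x3e00020013000d8000000000000000000000000000000) (nat_lit 0x0) (nat_lit 0xe000000000000000000000000000000000000000000000000) := D_10 (nat_lit 194) (nat_lit 195) (nat_lit 193) (nat_lit 3) (nat_lit 4) (nat_lit 10) (nat_lit 3) (nat_lit 3) (nat_lit 10) (by decide +kernel)
theorem L58206 : W_10 (nat_lit 3) (nat_lit 0x2e00020013000d8000000000000000000000000000000) (nat_lit 0x0) (nat_lit 0xe000100001000000000000000000000000000000000000000) := T_10 (nat_lit 176) (nat_lit 156) (nat_lit 0) (nat_lit 7) (nat_lit 10) L58205 (by decide +kernel)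
theorem L58207 : W_10 (nat_lit 4) (nat_lit 0x2600020013000d8000000000000000000000000000000) (nat_lit 0x0) (nat_lit 0xf000180001000000000000000000000000000000000000000) := T_10 (nat_lit 175) (nat_lit 192) (nat_lit 7) (nat_lit 4) (nat_lit 7) L58206 (by decide +kernel)
theorem L58208 : W_10 (nat_lit 5) (nat_lit 0x2400020013000d8000000000000000000000000000000) (nat_lit 0x0) (nat_lit 0xf4001a0001000000000000000000000000000000000000000) := T_10 (nat_lit 173) (nat_lit 190) (nat_lit 5) (nat_lit 4) (nat_lit 7) L58207 (by decide +kernel)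
theorem L58209 : W_10 (nat_lit 6) (nat_lit 0x2000020013000d8000000000000000000000000000000) (nat_lit 0x0) (nat_lit 0xfc001e0001000000000000000000000000000000000000000) := T_10 (nat_lit 174) (nat_lit 191) (nat_lit 6) (nat_lit 4) (nat_lit 11) L58208 (by decide +kernel)
theorem L58210 : W_10 (nat_lit 7) (nat_lit 0x200002001300098000000000000000000000000000000) (nat_lit 0x0) (nat_lit 0xfc001e0001000000060000000000000000000000000000000) := T_10 (nat_lit 126) (nat_lit 125) (nat_lit 1) (nat_lit 8) (nat_lit 7) L58209 (by decide +kernel)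
theorem L58211 : W_10 (nat_lit 2) (nat_lit 0x20000a0017000bc0012001e0000800000000000000000) (nat_lit 0x0) (nat_lit 0x6000100000000000000000000000000000000000000000000) := D_10 (nat_lit 176) (nat_lit 193) (nat_lit 194) (nat_lit 4) (nat_lit 6) (nat_lit 11) (nat_lit 7) (nat_lit 6) (nat_lit 7) (by decide +kernel)
theorem L58212 : W_10 (nat_lit 3) (nat_lit 0x2000020017000bc0012001e0000800000000000000000) (nat_lit 0x0) (nat_lit 0x6000100018000000000000000000000000000000000000000) := T_10 (nat_lit 159) (nat_lit 160) (nat_lit 7) (nat_lit 6) (nat_lit 6) L58211 (by decide +kernel)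
theorem L58213 : W_10 (nat_lit 4) (nat_lit 0x2000020017000bc0012001c0000800000000000000000) (nat_lit 0x0) (nat_lit 0x6000100018000000000000000020001000000000000000000) := T_10 (nat_lit 89) (nat_lit 72) (nat_lit 0) (nat_lit 7) (nat_lit 5) L58212 (by decide +kernel)
theorem L58214 : W_10 (nat_lit 5) (nat_lit 0x2000020017000bc0012000c0000800000000000000000) (nat_lit 0x0) (nat_lit 0x6000100018000000000000000120009000000000000000000) := T_10 (nat_lit 92) (nat_lit 75) (nat_lit 6) (nat_lit 6) (nat_lit 8) L58213 (by decide +kernel)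
theorem L58215 : W_10 (nat_lit 6) (nat_lit 0x2000020013000bc0012000c0000800000000000000000) (nat_lit 0x0) (nat_lit 0x600010001800040000000000012000b000000000000000000) := T_10 (nat_lit 142) (nat_lit 73) (nat_lit 4) (nat_lit 6) (nat_lit 8) L58214 (by decide +kernel)
theorem L58216 : W_10 (nat_lit 7) (nat_lit 0x2000020013000bc001200040000800000000000000000) (nat_lit 0x0) (nat_lit 0x60001000180004000000000001a000f000000000000000000) := T_10 (nat_lit 91) (nat_lit 74) (nat_lit 5) (nat_lit 6) (nat_lit 4) L58215 (by decide +kernel)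
theorem L58217 : W_10 (nat_lit 8) (nat_lit 0x2000020013000bc001200040000000000000000000000) (nat_lit 0x0) (nat_lit 0x60001000180004000000000001b000f800000000000000000) := T_10 (nat_lit 71) (nat_lit 88) (nat_lit 7) (nat_lit 3) (nat_lit 4) L58216 (by decide +kernel)
theorem L58218 : W_10 (nat_lit 9) (nat_lit 0x2000020013000bc000200040000000000000000000000) (nat_lit 0x0) (nat_lit 0x60001000180004000000030001b000f800000000000000000) := T_10 (nat_lit 108) (nat_lit 109) (nat_lit 2) (nat_lit 3) (nat_lit 7) L58217 (by decide +kernel)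
theorem L58219 : W_10 (nat_lit 10) (nat_lit 0x2000020013000bc000000040000000000000000000000) (nat_lit 0x0) (nat_lit 0x60001000180004000000033001b000f800000000000000000) := T_10 (nat_lit 105) (nat_lit 104) (nat_lit 0) (nat_lit 6) (nat_lit 7) L58218 (by decide +kernel)
theorem L58220 : W_10 (nat_lit 11) (nat_lit 0x20000200130009c000000040000000000000000000000) (nat_lit 0x0) (nat_lit 0x60001000180004000600033001b000f800000000000000000) := T_10 (nat_lit 125) (nat_lit 126) (nat_lit 1) (nat_lit 8) (nat_lit 7) L58219 (by decide +kernel)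
theorem L58221 : W_10 (nat_lit 12) (nat_lit 0x20000200130009c000000000000000000000000000000) (nat_lit 0x0) (nat_lit 0x6000100018000400060003b001f000f800000000000000000) := T_10 (nat_lit 90) (nat_lit 107) (nat_lit 5) (nat_lit 5) (nat_lit 5) L58220 (by decide +kernel)
theorem L58222 : W_10 (nat_lit 13) (nat_lit 0x200002001300098000000000000000000000000000000) (nat_lit 0x0) (nat_lit 0x6000100018000400067003b001f000f800000000000000000) := Q_10 (nat_lit 122) (C_10 L56630 (C_10 L57189 (C_10 L58221 N_10))) (by decide +kernel)
theorem L58223 : W_10 (nat_lit 14) (nat_lit 0x200000001300098000000000000000000000000000000) (nat_lit 0x0) (nat_lit 0xfc001e001b000400067003b001f000f800000000000000000) := Q_10 (nat_lit 157) (C_10 L58204 (C_10 L58210 (C_10 L58222 N_10))) (by decide +kernel)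
theorem L58225 : W_10 (nat_lit 3) (nat_lit 0x200002001300098000c00000000000000000000000000) (nat_lit 0x0) (nat_lit 0x60000300010000000000000000000000) := T_10 (nat_lit 125) (nat_lit 126) (nat_lit 1) (nat_lit 8) (nat_lit 7) L58224 (by decide +kernel)
theorem L58226 : W_10 (nat_lit 4) (nat_lit 0x200002001300098000400000000000000000000000000) (nat_lit 0x0) (nat_lit 0x60000b00050000000000000000000000) := T_10 (nat_lit 107) (nat_lit 90) (nat_lit 6) (nat_lit 4) (nat_lit 9) L58225 (by decide +kernel)
theorem L58227 : W_10 (nat_lit 6) (nat_lit 0x200002001300098000000000000000000000000000000) (nat_lit 0x0) (nat_lit 0x20001c00000060000f00070003800000000000000000) := Q_10 (nat_lit 106) (C_10 L58034 (C_10 L58226 (C_10 L56604 N_10))) (by decide +kernel)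
theorem L58228 : W_10 (nat_lit 8) (nat_lit 0x200000001300098000000000000000000000000000000) (nat_lit 0x0) (nat_lit 0xfc001e0003c00000060000f00070003800000000000000000) := Q_10 (nat_lit 157) (C_10 L58210 (C_10 L58204 (C_10 L58227 N_10))) (by decide +kernel)
theorem L58229 : W_10 (nat_lit 2) (nat_lit 0x20000a0017000bc0010001c0000000000000000000000) (nat_lit 0x0) (nat_lit 0x6000100000000000000000000000000000000000000000000) := D_10 (nat_lit 176) (nat_lit 193) (nat_lit 194) (nat_lit 4) (nat_lit 6) (nat_lit 11) (nat_lit 7) (nat_lit 6) (nat_lit 7) (by decide +kernel)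
theorem L58230 : W_10 (nat_lit 3) (nat_lit 0x2000020017000bc0010001c0000000000000000000000) (nat_lit 0x0) (nat_lit 0x6000100018000000000000000000000000000000000000000) := T_10 (nat_lit 159) (nat_lit 160) (nat_lit 7) (nat_lit 6) (nat_lit 6) L58229 (by decide +kernel)
theorem L58231 : W_10 (nat_lit 4) (nat_lit 0x2000020017000bc0010000c0000000000000000000000) (nat_lit 0x0) (nat_lit 0x6000100018000000000000000100008000000000000000000) := T_10 (nat_lit 92) (nat_lit 75) (nat_lit 6) (nat_lit 6) (nat_lit 8) L58230 (by decide +kernel)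
theorem L58232 : W_10 (nat_lit 5) (nat_lit 0x2000020013000bc0010000c0000000000000000000000) (nat_lit 0x0) (nat_lit 0x600010001800040000000000010000a000000000000000000) := T_10 (nat_lit 142) (nat_lit 73) (nat_lit 4) (nat_lit 6) (nat_lit 8) L58231 (by decide +kernel)
theorem L58233 : W_10 (nat_lit 6) (nat_lit 0x2000020013000bc001000040000000000000000000000) (nat_lit 0x0) (nat_lit 0x600010001800040000000000018000e000000000000000000) := T_10 (nat_lit 91) (nat_lit 74) (nat_lit 5) (nat_lit 6) (nat_lit 4) L58232 (by decide +kernel)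
theorem L58234 : W_10 (nat_lit 7) (nat_lit 0x2000020013000bc000000040000000000000000000000) (nat_lit 0x0) (nat_lit 0x600010001800040000000300018000e000000000000000000) := T_10 (nat_lit 108) (nat_lit 109) (nat_lit 2) (nat_lit 3) (nat_lit 7) L58233 (by decide +kernel)
theorem L58235 : W_10 (nat_lit 8) (nat_lit 0x20000200130009c000000040000000000000000000000) (nat_lit 0x0) (nat_lit 0x600010001800040006000300018000e000000000000000000) := T_10 (nat_lit 125) (nat_lit 126) (nat_lit 1) (nat_lit 8) (nat_lit 7) L58234 (by decide +kernel)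
theorem L58236 : W_10 (nat_lit 9) (nat_lit 0x20000200130009c000000000000000000000000000000) (nat_lit 0x0) (nat_lit 0x60001000180004000600038001c000e000000000000000000) := T_10 (nat_lit 90) (nat_lit 107) (nat_lit 5) (nat_lit 5) (nat_lit 5) L58235 (by decide +kernel)
theorem L58237 : W_10 (nat_lit 10) (nat_lit 0x200002001300098000000000000000000000000000000) (nat_lit 0x0) (nat_lit 0x60001000180004000670038001c000e000000000000000000) := Q_10 (nat_lit 122) (C_10 L56630 (C_10 L57189 (C_10 L58236 N_10))) (by decide +kernel)
theorem L58238 : W_10 (nat_lit 11) (nat_lit 0x200000001300098000000000000000000000000000000) (nat_lit 0x0) (nat_lit 0xfc001e001b0004000670038001c000e000000000000000000) := Q_10 (nat_lit 157) (C_10 L58210 (C_10 L58204 (C_10 L58237 N_10))) (by decide +kernel)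
theorem L58239 : W_10 (nat_lit 15) (nat_lit 0x200000001300090000000000000000000000000000000) (nat_lit 0x0) (nat_lit 0xfc001e001bc0040006f003f807fc01f800000000000000000) := Q_10 (nat_lit 123) (C_10 L58029 (C_10 L58043 (C_10 L58097 (C_10 L58203 (C_10 L58223 (C_10 L58228 (C_10 L58238 N_10))))))) (by decide +kernel)
theorem L58240 : W_10 (nat_lit 6) (nat_lit 0x200000001300090000800000000000000000000000000) (nat_lit 0x0) (nat_lit 0x200018000c00000006c0034000a0000000000000000000000) := Q_10 (nat_lit 158) (C_10 L56581 (C_10 L56308 (C_10 L56188 (C_10 L56170 (C_10 L56181 N_10))))) (by decide +kernel)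
theorem L58241 : W_10 (nat_lit 7) (nat_lit 0x200000001300090000000000000000000000000000000) (nat_lit 0x0) (nat_lit 0x200018000e00000006c003c000e0007000280000000000000) := Q_10 (nat_lit 107) (C_10 L56156 (C_10 L56194 (C_10 L58240 (C_10 L56152 N_10)))) (by decide +kernel)
theorem L58242 : W_10 (nat_lit 2) (nat_lit 0x20002f001300098003e80100000000000000000000000) (nat_lit 0x0) (nat_lit 0xc00400000000000000000000000000000000000) := D_10 (nat_lit 155) (nat_lit 142) (nat_lit 154) (nat_lit 2) (nat_lit 2) (nat_lit 9) (nat_lit 2) (nat_lit 1) (nat_lit 9) (by decide +kernel)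
theorem L58243 : W_10 (nat_lit 3) (nat_lit 0x20002e001300098003e80100000000000000000000000) (nat_lit 0x0) (nat_lit 0x20001c00400000000000000000000000000000000000) := T_10 (nat_lit 156) (nat_lit 173) (nat_lit 5) (nat_lit 4) (nat_lit 6) L58242 (by decide +kernel)
theorem L58244 : W_10 (nat_lit 4) (nat_lit 0x20002e001300098003e00100000000000000000000000) (nat_lit 0x0) (nat_lit 0x20001c00400000000180000000000000000000000000) := T_10 (nat_lit 103) (nat_lit 104) (nat_lit 3) (nat_lit 1) (nat_lit 6) L58243 (by decide +kernel)
theorem L58245 : W_10 (nat_lit 5) (nat_lit 0x20002e001300098003c00100000000000000000000000) (nat_lit 0x0) (nat_lit 0x20001c00400000000380010000000000000000000000) := T_10 (nat_lit 105) (nat_lit 88) (nat_lit 4) (nat_lit 4) (nat_lit 9) L58244 (by decide +kernel)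
theorem L58246 : W_10 (nat_lit 6) (nat_lit 0x20000e001300098003c00100000000000000000000000) (nat_lit 0x0) (nat_lit 0x20031c00400000000380010000000000000000000000) := T_10 (nat_lit 161) (nat_lit 160) (nat_lit 0) (nat_lit 8) (nat_lit 9) L58245 (by decide +kernel)
theorem L58247 : W_10 (nat_lit 7) (nat_lit 0x200006001300098003c00100000000000000000000000) (nat_lit 0x0) (nat_lit 0x120039c00400000000380010000000000000000000000) := T_10 (nat_lit 159) (nat_lit 176) (nat_lit 7) (nat_lit 5) (nat_lit 6) L58246 (by decide +kernel)
theorem L58248 : W_10 (nat_lit 8) (nat_lit 0x200006001300090003c00100000000000000000000000) (nat_lit 0x0) (nat_lit 0x120039c0040000c000380010000000000000000000000) := T_10 (nat_lit 123) (nat_lit 122) (nat_lit 1) (nat_lit 7) (nat_lit 6) L58247 (by decide +kernel)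
theorem L58249 : W_10 (nat_lit 9) (nat_lit 0x200006001300090003c00000000000000000000000000) (nat_lit 0x0) (nat_lit 0x120039c0040000c000380310000000000000000000000) := T_10 (nat_lit 92) (nat_lit 93) (nat_lit 2) (nat_lit 4) (nat_lit 6) L58248 (by decide +kernel)
theorem L58250 : W_10 (nat_lit 10) (nat_lit 0x200006001300090001c00000000000000000000000000) (nat_lit 0x0) (nat_lit 0x120039c0040004c002380310000000000000000000000) := T_10 (nat_lit 109) (nat_lit 126) (nat_lit 3) (nat_lit 4) (nat_lit 6) L58249 (by decide +kernel)
theorem L58251 : W_10 (nat_lit 11) (nat_lit 0x200006001300090000c00000000000000000000000000) (nat_lit 0x0) (nat_lit 0x120039c0040004c003380390000000000000000000000) := T_10 (nat_lit 108) (nat_lit 91) (nat_lit 6) (nat_lit 5) (nat_lit 9) L58250 (by decide +kernel)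
theorem L58252 : W_10 (nat_lit 12) (nat_lit 0x200004001300090000c00000000000000000000000000) (nat_lit 0x0) (nat_lit 0x16003bc0040004c003380390000000000000000000000) := T_10 (nat_lit 157) (nat_lit 174) (nat_lit 5) (nat_lit 5) (nat_lit 6) L58251 (by decide +kernel)
theorem L58253 : W_10 (nat_lit 13) (nat_lit 0x200004001300090000800000000000000000000000000) (nat_lit 0x0) (nat_lit 0x16003bc0040004c0037803b0000000000000000000000) := T_10 (nat_lit 106) (nat_lit 89) (nat_lit 4) (nat_lit 5) (nat_lit 9) L58252 (by decide +kernel)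
theorem L58254 : W_10 (nat_lit 2) (nat_lit 0x20002f001300098000e80000000000000000000000000) (nat_lit 0x0) (nat_lit 0xc00400000000000000000000000000000000000) := D_10 (nat_lit 155) (nat_lit 142) (nat_lit 154) (nat_lit 2) (nat_lit 2) (nat_lit 9) (nat_lit 2) (nat_lit 1) (nat_lit 9) (by decide +kernel)
theorem L58255 : W_10 (nat_lit 3) (nat_lit 0x20002e001300098000e80000000000000000000000000) (nat_lit 0x0) (nat_lit 0x20001c00400000000000000000000000000000000000) := T_10 (nat_lit 156) (nat_lit 173) (nat_lit 5) (nat_lit 4) (nat_lit 6) L58254 (by decide +kernel)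
theorem L58256 : W_10 (nat_lit 4) (nat_lit 0x20002e001300098000e00000000000000000000000000) (nat_lit 0x0) (nat_lit 0x20001c00400000000180000000000000000000000000) := T_10 (nat_lit 103) (nat_lit 104) (nat_lit 3) (nat_lit 1) (nat_lit 6) L58255 (by decide +kernel)
theorem L58257 : W_10 (nat_lit 5) (nat_lit 0x20002e001300098000c00000000000000000000000000) (nat_lit 0x0) (nat_lit 0x20001c00400000000380010000000000000000000000) := T_10 (nat_lit 105) (nat_lit 88) (nat_lit 4) (nat_lit 4) (nat_lit 9) L58256 (by decide +kernel)
theorem L58258 : W_10 (nat_lit 6) (nat_lit 0x20002e001300090000c00000000000000000000000000) (nat_lit 0x0) (nat_lit 0xa0001c00400008000380010000000000000000000000) := T_10 (nat_lit 123) (nat_lit 175) (nat_lit 7) (nat_lit 4) (nat_lit 6) L58257 (by decide +kernel)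
theorem L58259 : W_10 (nat_lit 7) (nat_lit 0x20002e001300090000800000000000000000000000000) (nat_lit 0x0) (nat_lit 0xa0001c00400008000780030000000000000000000000) := T_10 (nat_lit 106) (nat_lit 89) (nat_lit 4) (nat_lit 5) (nat_lit 9) L58258 (by decide +kernel)
theorem L58260 : W_10 (nat_lit 8) (nat_lit 0x20002c001300090000800000000000000000000000000) (nat_lit 0x0) (nat_lit 0xe0003c00400008000780030000000000000000000000) := T_10 (nat_lit 157) (nat_lit 174) (nat_lit 5) (nat_lit 5) (nat_lit 6) L58259 (by decide +kernel)
theorem L58261 : W_10 (nat_lit 9) (nat_lit 0x20000c001300090000800000000000000000000000000) (nat_lit 0x0) (nat_lit 0xe0033c00400008000780030000000000000000000000) := T_10 (nat_lit 161) (nat_lit 160) (nat_lit 0) (nat_lit 8) (nat_lit 9) L58260 (by decide +kernel)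
theorem L58262 : W_10 (nat_lit 10) (nat_lit 0x200004001300090000800000000000000000000000000) (nat_lit 0x0) (nat_lit 0x1e003bc00400008000780030000000000000000000000) := T_10 (nat_lit 159) (nat_lit 176) (nat_lit 7) (nat_lit 5) (nat_lit 6) L58261 (by decide +kernel)
theorem L58263 : W_10 (nat_lit 14) (nat_lit 0x200000001300090000800000000000000000000000000) (nat_lit 0x0) (nat_lit 0x200038001e003fc0040004c0037803b0000000000000000000000) := Q_10 (nat_lit 158) (C_10 L56323 (C_10 L56304 (C_10 L56308 (C_10 L58253 (C_10 L58262 N_10))))) (by decide +kernel)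
theorem L58264 : W_10 (nat_lit 15) (nat_lit 0x200000001300090000000000000000000000000000000) (nat_lit 0x0) (nat_lit 0x200038001e003fc0040004c003f803f000700018000c000000000) := Q_10 (nat_lit 107) (C_10 L56156 (C_10 L56325 (C_10 L56292 (C_10 L58263 (C_10 L56152 N_10))))) (by decide +kernel)
theorem L58265 : W_10 (nat_lit 2) (nat_lit 0x24002c001300090001800000000000000000000000000) (nat_lit 0x0) (nat_lit 0x800080000000000020000000000000000000000000000000) := D_10 (nat_lit 175) (nat_lit 125) (nat_lit 191) (nat_lit 6) (nat_lit 5) (nat_lit 10) (nat_lit 5) (nat_lit 5) (nat_lit 7) (by decide +kernel)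
theorem L58266 : W_10 (nat_lit 3) (nat_lit 0x20002c001300090001800000000000000000000000000) (nat_lit 0x0) (nat_lit 0x8000c0002000000020000000000000000000000000000000) := T_10 (nat_lit 174) (nat_lit 157) (nat_lit 5) (nat_lit 5) (nat_lit 6) L58265 (by decide +kernel)
theorem L58267 : W_10 (nat_lit 4) (nat_lit 0x20002c001300090000800000000000000000000000000) (nat_lit 0x0) (nat_lit 0x8000c0002000000020001000080000000000000000000000) := T_10 (nat_lit 108) (nat_lit 91) (nat_lit 6) (nat_lit 5) (nat_lit 9) L58266 (by decide +kernel)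
theorem L58268 : W_10 (nat_lit 5) (nat_lit 0x20000c001300090000800000000000000000000000000) (nat_lit 0x0) (nat_lit 0x8000c0032000000020001000080000000000000000000000) := T_10 (nat_lit 161) (nat_lit 160) (nat_lit 0) (nat_lit 8) (nat_lit 9) L58267 (by decide +kernel)
theorem L58269 : W_10 (nat_lit 6) (nat_lit 0x200004001300090000800000000000000000000000000) (nat_lit 0x0) (nat_lit 0x8001c003a000000020001000080000000000000000000000) := T_10 (nat_lit 159) (nat_lit 176) (nat_lit 7) (nat_lit 5) (nat_lit 6) L58268 (by decide +kernel)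
theorem L58270 : W_10 (nat_lit 9) (nat_lit 0x200000001300090000800000000000000000000000000) (nat_lit 0x0) (nat_lit 0x28001c003e0000000600034003a0000000000000000000000) := Q_10 (nat_lit 158) (C_10 L56349 (C_10 L56304 (C_10 L56188 (C_10 L56170 (C_10 L58269 N_10))))) (by decide +kernel)
theorem L58271 : W_10 (nat_lit 10) (nat_lit 0x200000001300090000000000000000000000000000000) (nat_lit 0x0) (nat_lit 0x28001c003e000400060003f003f8007000000000000000000) := Q_10 (nat_lit 107) (C_10 L56365 (C_10 L56156 (C_10 L56343 (C_10 L58270 N_10)))) (by decide +kernel)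
theorem L58272 : W_10 (nat_lit 3) (nat_lit 0x2000000013000d0000c00000000000000000000000000) (nat_lit 0x0) (nat_lit 0x40000000000030000a0000000000000000000000) := T_10 (nat_lit 158) (nat_lit 89) (nat_lit 4) (nat_lit 5) (nat_lit 9) L56168 (by decide +kernel)
theorem L58273 : W_10 (nat_lit 4) (nat_lit 0x200000001300090000c00000000000000000000000000) (nat_lit 0x0) (nat_lit 0x40000000600030000a0000000000000000000000) := T_10 (nat_lit 126) (nat_lit 125) (nat_lit 1) (nat_lit 8) (nat_lit 7) L58272 (by decide +kernel)
theorem L58274 : W_10 (nat_lit 2) (nat_lit 0x2800280004001300090003c00100000000000000000000000) (nat_lit 0x0) (nat_lit 0x50001000000000000000000000000000000000000000000000000) := D_10 (nat_lit 192) (nat_lit 208) (nat_lit 210) (nat_lit 5) (nat_lit 5) (nat_lit 8) (nat_lit 7) (nat_lit 5) (nat_lit 8) (by decide +kernel)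
theorem L58275 : W_10 (nat_lit 3) (nat_lit 0x800280004001300090003c00100000000000000000000000) (nat_lit 0x0) (nat_lit 0x50003000100000000000000000000000000000000000000000000) := T_10 (nat_lit 193) (nat_lit 176) (nat_lit 7) (nat_lit 5) (nat_lit 7) L58274 (by decide +kernel)
theorem L58276 : W_10 (nat_lit 4) (nat_lit 0x280004001300090003c00100000000000000000000000) (nat_lit 0x0) (nat_lit 0x50003800140000000000000000000000000000000000000000000) := T_10 (nat_lit 191) (nat_lit 174) (nat_lit 5) (nat_lit 5) (nat_lit 7) L58275 (by decide +kernel)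
theorem L58277 : W_10 (nat_lit 5) (nat_lit 0x280004001300090003c00000000000000000000000000) (nat_lit 0x0) (nat_lit 0x50003800140000000000000000000300000000000000000000000) := T_10 (nat_lit 92) (nat_lit 93) (nat_lit 2) (nat_lit 4) (nat_lit 6) L58276 (by decide +kernel)
theorem L58278 : W_10 (nat_lit 6) (nat_lit 0x280004001300090001c00000000000000000000000000) (nat_lit 0x0) (nat_lit 0x50003800140000000000040002000300000000000000000000000) := T_10 (nat_lit 109) (nat_lit 126) (nat_lit 3) (nat_lit 4) (nat_lit 6) L58277 (by decide +kernel)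
theorem L58279 : W_10 (nat_lit 7) (nat_lit 0x280004001300090000c00000000000000000000000000) (nat_lit 0x0) (nat_lit 0x50003800140000000000040003000380000000000000000000000) := T_10 (nat_lit 108) (nat_lit 91) (nat_lit 6) (nat_lit 5) (nat_lit 9) L58278 (by decide +kernel)
theorem L58280 : W_10 (nat_lit 8) (nat_lit 0x200004001300090000c00000000000000000000000000) (nat_lit 0x0) (nat_lit 0x500038001c0000000000048003000380000000000000000000000) := T_10 (nat_lit 175) (nat_lit 123) (nat_lit 4) (nat_lit 5) (nat_lit 10) L58279 (by decide +kernel)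
theorem L58281 : W_10 (nat_lit 9) (nat_lit 0x200000001300090000c00000000000000000000000000) (nat_lit 0x0) (nat_lit 0x500038001c00040000000480030003a0000000000000000000000) := T_10 (nat_lit 158) (nat_lit 89) (nat_lit 4) (nat_lit 5) (nat_lit 9) L58280 (by decide +kernel)
theorem L58282 : W_10 (nat_lit 6) (nat_lit 0x200004001300090000c00000000000000000000000000) (nat_lit 0x0) (nat_lit 0x500038001c0000000000068000000000000000000000000000000) := T_10 (nat_lit 126) (nat_lit 125) (nat_lit 1) (nat_lit 8) (nat_lit 7) L32360 (by decide +kernel)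
theorem L58283 : W_10 (nat_lit 7) (nat_lit 0x200000001300090000c00000000000000000000000000) (nat_lit 0x0) (nat_lit 0x500038001c0004000000068000000020000000000000000000000) := T_10 (nat_lit 158) (nat_lit 89) (nat_lit 4) (nat_lit 5) (nat_lit 9) L58282 (by decide +kernel)
theorem L58284 : W_10 (nat_lit 8) (nat_lit 0x200000001300090000c00000000000000000000000000) (nat_lit 0x0) (nat_lit 0x680033003fc007800000000000000000) := Q_10 (nat_lit 123) (C_10 L58112 (C_10 L58130 (C_10 L58118 (C_10 L58107 N_10)))) (by decide +kernel)
theorem L58285 : W_10 (nat_lit 4) (nat_lit 0x200000001300090000c00000000000000000000000000) (nat_lit 0x0) (nat_lit 0x800040000000280010000a0000000000000000000000) := T_10 (nat_lit 158) (nat_lit 89) (nat_lit 4) (nat_lit 5) (nat_lit 9) L56580 (by decide +kernel)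
theorem L58286 : W_10 (nat_lit 2) (nat_lit 0x28002800040013000d0001c00000000000000000000000000) (nat_lit 0x0) (nat_lit 0x50001000000000000000000000000000000000000000000000000) := D_10 (nat_lit 192) (nat_lit 210) (nat_lit 208) (nat_lit 7) (nat_lit 5) (nat_lit 8) (nat_lit 5) (nat_lit 5) (nat_lit 8) (by decide +kernel)
theorem L58287 : W_10 (nat_lit 3) (nat_lit 0x20002800040013000d0001c00000000000000000000000000) (nat_lit 0x0) (nat_lit 0x50001800040000000000000000000000000000000000000000000) := T_10 (nat_lit 191) (nat_lit 174) (nat_lit 5) (nat_lit 5) (nat_lit 7) L58286 (by decide +kernel)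
theorem L58288 : W_10 (nat_lit 4) (nat_lit 0x2800040013000d0001c00000000000000000000000000) (nat_lit 0x0) (nat_lit 0x50003800140000000000000000000000000000000000000000000) := T_10 (nat_lit 193) (nat_lit 176) (nat_lit 7) (nat_lit 5) (nat_lit 7) L58287 (by decide +kernel)
theorem L58289 : W_10 (nat_lit 5) (nat_lit 0x2000040013000d0001c00000000000000000000000000) (nat_lit 0x0) (nat_lit 0x500038001c0000000000008000000000000000000000000000000) := T_10 (nat_lit 175) (nat_lit 123) (nat_lit 4) (nat_lit 5) (nat_lit 10) L58288 (by decide +kernel)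
theorem L58290 : W_10 (nat_lit 6) (nat_lit 0x2000000013000d0001c00000000000000000000000000) (nat_lit 0x0) (nat_lit 0x500038001c0004000000008000000080000000000000000000000) := T_10 (nat_lit 158) (nat_lit 91) (nat_lit 6) (nat_lit 5) (nat_lit 9) L58289 (by decide +kernel)
theorem L58291 : W_10 (nat_lit 7) (nat_lit 0x2000000013000d0000c00000000000000000000000000) (nat_lit 0x0) (nat_lit 0x500038001c0004000000008003000080000000000000000000000) := T_10 (nat_lit 108) (nat_lit 109) (nat_lit 3) (nat_lit 4) (nat_lit 6) L58290 (by decide +kernel)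
theorem L58292 : W_10 (nat_lit 8) (nat_lit 0x200000001300090000c00000000000000000000000000) (nat_lit 0x0) (nat_lit 0x500038001c0004000000068003000080000000000000000000000) := T_10 (nat_lit 126) (nat_lit 125) (nat_lit 1) (nat_lit 8) (nat_lit 7) L58291 (by decide +kernel)
theorem L58293 : W_10 (nat_lit 10) (nat_lit 0x200000001300090000800000000000000000000000000) (nat_lit 0x0) (nat_lit 0x500038001c00040000000680037003fc007800000000000000000) := Q_10 (nat_lit 106) (C_10 L58273 (C_10 L58281 (C_10 L58283 (C_10 L58284 (C_10 L58285 (C_10 L58292 N_10)))))) (by decide +kernel)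
theorem L58294 : W_10 (nat_lit 8) (nat_lit 0x200000001300090000800000000000000000000000000) (nat_lit 0x0) (nat_lit 0xc0004000680030000f800700018000c000000000) := Q_10 (nat_lit 90) (C_10 L56342 (C_10 L56286 (C_10 L31982 (C_10 L56332 N_10)))) (by decide +kernel)
theorem L58295 : W_10 (nat_lit 8) (nat_lit 0x200000001300090000800000000000000000000000000) (nat_lit 0x0) (nat_lit 0xc0004000680007001e0007000080000000000000) := Q_10 (nat_lit 90) (C_10 L56342 (C_10 L31982 (C_10 L56336 N_10))) (by decide +kernel)
theorem L58296 : W_10 (nat_lit 4) (nat_lit 0x2000000017000900018000c0000000000000000000000) (nat_lit 0x0) (nat_lit 0x60002700100000000000000000000000) := T_10 (nat_lit 126) (nat_lit 125) (nat_lit 1) (nat_lit 8) (nat_lit 7) L39645 (by decide +kernel)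
theorem L58297 : W_10 (nat_lit 5) (nat_lit 0x200000001700090001800040000000000000000000000) (nat_lit 0x0) (nat_lit 0x60002700180004000000000000000000) := T_10 (nat_lit 91) (nat_lit 74) (nat_lit 6) (nat_lit 5) (nat_lit 8) L58296 (by decide +kernel)
theorem L58298 : W_10 (nat_lit 6) (nat_lit 0x200000001300090001800040000000000000000000000) (nat_lit 0x0) (nat_lit 0x8000400060002700180004000000000000000000) := T_10 (nat_lit 142) (nat_lit 159) (nat_lit 7) (nat_lit 5) (nat_lit 5) L58297 (by decide +kernel)
theorem L58299 : W_10 (nat_lit 2) (nat_lit 0x200000001300090001800070000000000000000000000) (nat_lit 0x0) (nat_lit 0x2000080004000000000000000000) := D_10 (nat_lit 91) (nat_lit 74) (nat_lit 109) (nat_lit 6) (nat_lit 5) (nat_lit 8) (nat_lit 3) (nat_lit 3) (nat_lit 5) (by decide +kernel)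
theorem L58300 : W_10 (nat_lit 3) (nat_lit 0x200000001300090001800060000000000000000000000) (nat_lit 0x0) (nat_lit 0x2000098004000000000000000000) := T_10 (nat_lit 88) (nat_lit 87) (nat_lit 3) (nat_lit 2) (nat_lit 5) L58299 (by decide +kernel)
theorem L58301 : W_10 (nat_lit 4) (nat_lit 0x200000001300090001800040000000000000000000000) (nat_lit 0x0) (nat_lit 0x20000b8005000000000000000000) := T_10 (nat_lit 89) (nat_lit 72) (nat_lit 4) (nat_lit 5) (nat_lit 8) L58300 (by decide +kernel)
theorem L58302 : W_10 (nat_lit 2) (nat_lit 0x2000000017000b4001e00070000800040000000000000) (nat_lit 0x0) (nat_lit 0x400020001000000000) := D_10 (nat_lit 53) (nat_lit 70) (nat_lit 36) (nat_lit 4) (nat_lit 3) (nat_lit 7) (nat_lit 4) (nat_lit 3) (nat_lit 6) (by decide +kernel)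
theorem L58303 : W_10 (nat_lit 3) (nat_lit 0x2000000017000b4001e00070000800000000000000000) (nat_lit 0x0) (nat_lit 0x400060003000000000) := T_10 (nat_lit 54) (nat_lit 37) (nat_lit 7) (nat_lit 3) (nat_lit 2) L58302 (by decide +kernel)
theorem L58304 : W_10 (nat_lit 4) (nat_lit 0x2000000017000b0001e00070000800000000000000000) (nat_lit 0x0) (nat_lit 0x6000000000000400060003000000000) := T_10 (nat_lit 122) (nat_lit 121) (nat_lit 1) (nat_lit 6) (nat_lit 6) L58303 (by decide +kernel)
theorem L58305 : W_10 (nat_lit 5) (nat_lit 0x2000000017000b0001e00070000000000000000000000) (nat_lit 0x0) (nat_lit 0xe000000000000c00060003000000000) := T_10 (nat_lit 71) (nat_lit 123) (nat_lit 4) (nat_lit 4) (nat_lit 8) L58304 (by decide +kernel)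
theorem L58306 : W_10 (nat_lit 6) (nat_lit 0x2000000017000b0001c00070000000000000000000000) (nat_lit 0x0) (nat_lit 0xe000300000000c00060003000000000) := T_10 (nat_lit 105) (nat_lit 104) (nat_lit 3) (nat_lit 2) (nat_lit 6) L58305 (by decide +kernel)
theorem L58307 : W_10 (nat_lit 7) (nat_lit 0x2000000017000b0001800070000000000000000000000) (nat_lit 0x0) (nat_lit 0xe002700000000c00060003000000000) := T_10 (nat_lit 106) (nat_lit 109) (nat_lit 0) (nat_lit 7) (nat_lit 6) L58306 (by decide +kernel)
theorem L58308 : W_10 (nat_lit 8) (nat_lit 0x2000000017000b0001800060000000000000000000000) (nat_lit 0x0) (nat_lit 0xe002700018000c00060003000000000) := T_10 (nat_lit 88) (nat_lit 87) (nat_lit 3) (nat_lit 2) (nat_lit 5) L58307 (by decide +kernel)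
theorem L58309 : W_10 (nat_lit 9) (nat_lit 0x2000000017000b0001800040000000000000000000000) (nat_lit 0x0) (nat_lit 0xe002700038001c00060003000000000) := T_10 (nat_lit 89) (nat_lit 72) (nat_lit 4) (nat_lit 5) (nat_lit 8) L58308 (by decide +kernel)
theorem L58310 : W_10 (nat_lit 10) (nat_lit 0x2000000013000b0001800040000000000000000000000) (nat_lit 0x0) (nat_lit 0x800040000e002700038001c00060003000000000) := T_10 (nat_lit 142) (nat_lit 159) (nat_lit 7) (nat_lit 5) (nat_lit 5) L58309 (by decide +kernel)
theorem L58311 : W_10 (nat_lit 11) (nat_lit 0x200000001300090001800040000000000000000000000) (nat_lit 0x0) (nat_lit 0x800040006e002700038001c00060003000000000) := T_10 (nat_lit 125) (nat_lit 126) (nat_lit 1) (nat_lit 8) (nat_lit 7) L58310 (by decide +kernel)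
theorem L58312 : W_10 (nat_lit 2) (nat_lit 0x2000000017000b00018001e8000000000000000000000) (nat_lit 0x0) (nat_lit 0x600200000000000000000000000) := D_10 (nat_lit 106) (nat_lit 105) (nat_lit 93) (nat_lit 2) (nat_lit 3) (nat_lit 6) (nat_lit 1) (nat_lit 8) (nat_lit 5) (by decide +kernel)
theorem L58313 : W_10 (nat_lit 3) (nat_lit 0x2000000017000b00018000e8000000000000000000000) (nat_lit 0x0) (nat_lit 0x600300008000000000000000000) := T_10 (nat_lit 92) (nat_lit 75) (nat_lit 6) (nat_lit 6) (nat_lit 8) L58312 (by decide +kernel)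
theorem L58314 : W_10 (nat_lit 4) (nat_lit 0x2000000017000900018000e8000000000000000000000) (nat_lit 0x0) (nat_lit 0x60000600300008000000000000000000) := T_10 (nat_lit 125) (nat_lit 126) (nat_lit 1) (nat_lit 8) (nat_lit 7) L58313 (by decide +kernel)
theorem L58315 : W_10 (nat_lit 5) (nat_lit 0x2000000013000900018000e8000000000000000000000) (nat_lit 0x0) (nat_lit 0x8000400060000600300008000000000000000000) := T_10 (nat_lit 142) (nat_lit 159) (nat_lit 7) (nat_lit 5) (nat_lit 5) L58314 (by decide +kernel)
theorem L58316 : W_10 (nat_lit 6) (nat_lit 0x200000001300090001800068000000000000000000000) (nat_lit 0x0) (nat_lit 0x800040006000060038000c000000000000000000) := T_10 (nat_lit 91) (nat_lit 74) (nat_lit 6) (nat_lit 5) (nat_lit 8) L58315 (by decide +kernel)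
theorem L58317 : W_10 (nat_lit 7) (nat_lit 0x200000001300090001800060000000000000000000000) (nat_lit 0x0) (nat_lit 0x800040006000060039800c000000000000000000) := T_10 (nat_lit 87) (nat_lit 88) (nat_lit 3) (nat_lit 2) (nat_lit 5) L58316 (by decide +kernel)
theorem L58318 : W_10 (nat_lit 8) (nat_lit 0x200000001300090001800040000000000000000000000) (nat_lit 0x0) (nat_lit 0x80004000600006003b800d000000000000000000) := T_10 (nat_lit 89) (nat_lit 72) (nat_lit 4) (nat_lit 5) (nat_lit 8) L58317 (by decide +kernel)
theorem L58319 : W_10 (nat_lit 12) (nat_lit 0x200000001300090000800040000000000000000000000) (nat_lit 0x0) (nat_lit 0x800040006e0037003b800dc00060003000000000) := Q_10 (nat_lit 108) (C_10 L58298 (C_10 L58301 (C_10 L58311 (C_10 L58318 N_10)))) (by decide +kernel)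
theorem L58320 : W_10 (nat_lit 13) (nat_lit 0x200000001300090000800000000000000000000000000) (nat_lit 0x0) (nat_lit 0x800040006e0037003f800fc000e0003000000000) := Q_10 (nat_lit 90) (C_10 L56342 (C_10 L31982 (C_10 L58319 N_10))) (by decide +kernel)
theorem L58321 : W_10 (nat_lit 2) (nat_lit 0x2000040017000b0000800060000000000000000000000) (nat_lit 0x0) (nat_lit 0x1000080000000000000001000000000000000000000000000) := D_10 (nat_lit 175) (nat_lit 108) (nat_lit 192) (nat_lit 6) (nat_lit 5) (nat_lit 10) (nat_lit 6) (nat_lit 5) (nat_lit 11) (by decide +kernel)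
theorem L58322 : W_10 (nat_lit 3) (nat_lit 0x2000000017000b0000800060000000000000000000000) (nat_lit 0x0) (nat_lit 0x1000080004000000000001400000000000000000000000000) := T_10 (nat_lit 158) (nat_lit 106) (nat_lit 4) (nat_lit 5) (nat_lit 9) L58321 (by decide +kernel)
theorem L58323 : W_10 (nat_lit 4) (nat_lit 0x2000000017000b0000800040000000000000000000000) (nat_lit 0x0) (nat_lit 0x1000080004000000000001400020001000000000000000000) := T_10 (nat_lit 89) (nat_lit 72) (nat_lit 4) (nat_lit 5) (nat_lit 8) L58322 (by decide +kernel)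
theorem L58324 : W_10 (nat_lit 5) (nat_lit 0x200000001700090000800040000000000000000000000) (nat_lit 0x0) (nat_lit 0x1000080004000000060001400020001000000000000000000) := T_10 (nat_lit 125) (nat_lit 126) (nat_lit 1) (nat_lit 8) (nat_lit 7) L58323 (by decide +kernel)
theorem L58325 : W_10 (nat_lit 6) (nat_lit 0x200000001300090000800040000000000000000000000) (nat_lit 0x0) (nat_lit 0x100008000c000400060001400020001000000000000000000) := T_10 (nat_lit 142) (nat_lit 159) (nat_lit 7) (nat_lit 5) (nat_lit 5) L58324 (by decide +kernel)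
theorem L58326 : W_10 (nat_lit 7) (nat_lit 0x200000001300090000800000000000000000000000000) (nat_lit 0x0) (nat_lit 0x100008000c000400068001400060003000080000000000000) := Q_10 (nat_lit 90) (C_10 L56342 (C_10 L31982 (C_10 L58325 N_10))) (by decide +kernel)
theorem L58327 : W_10 (nat_lit 4) (nat_lit 0x200000001300090000800040000000000000000000000) (nat_lit 0x0) (nat_lit 0x68000000080006000200000000000000) := T_10 (nat_lit 126) (nat_lit 125) (nat_lit 1) (nat_lit 8) (nat_lit 7) L56192 (by decide +kernel)
theorem L58328 : W_10 (nat_lit 2) (nat_lit 0x2000040013000d00008000c0000000000000000000000) (nat_lit 0x0) (nat_lit 0x100008000400000000000000000000000000000000000) := D_10 (nat_lit 159) (nat_lit 142) (nat_lit 176) (nat_lit 7) (nat_lit 5) (nat_lit 5) (nat_lit 7) (nat_lit 5) (nat_lit 6) (by decide +kernel)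
theorem L58329 : W_10 (nat_lit 3) (nat_lit 0x2000000013000d00008000c0000000000000000000000) (nat_lit 0x0) (nat_lit 0x10000c000400000001000000000000000000000000000) := T_10 (nat_lit 158) (nat_lit 108) (nat_lit 6) (nat_lit 5) (nat_lit 9) L58328 (by decide +kernel)
theorem L58330 : W_10 (nat_lit 4) (nat_lit 0x2000000013000900008000c0000000000000000000000) (nat_lit 0x0) (nat_lit 0x10000c000400060001000000000000000000000000000) := T_10 (nat_lit 126) (nat_lit 125) (nat_lit 1) (nat_lit 8) (nat_lit 7) L58329 (by decide +kernel)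
theorem L58331 : W_10 (nat_lit 5) (nat_lit 0x200000001300090000800040000000000000000000000) (nat_lit 0x0) (nat_lit 0x10000c000400060001000080004000000000000000000) := T_10 (nat_lit 91) (nat_lit 74) (nat_lit 6) (nat_lit 5) (nat_lit 8) L58330 (by decide +kernel)
theorem L58332 : W_10 (nat_lit 8) (nat_lit 0x200000001300090000800000000000000000000000000) (nat_lit 0x0) (nat_lit 0x10000c0004000680010000c000700038000c000000000) := Q_10 (nat_lit 90) (C_10 L56342 (C_10 L56286 (C_10 L58327 (C_10 L58331 N_10)))) (by decide +kernel)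
theorem L58333 : W_10 (nat_lit 14) (nat_lit 0x200000001300090000000000000000000000000000000) (nat_lit 0x0) (nat_lit 0x500038001c000c00040006e003f003fc00fc003e000f000000000) := Q_10 (nat_lit 107) (C_10 L56343 (C_10 L58240 (C_10 L56292 (C_10 L58293 (C_10 L58294 (C_10 L58295 (C_10 L58320 (C_10 L58326 (C_10 L58332 N_10))))))))) (by decide +kernel)
theorem L58334 : W_10 (nat_lit 2) (nat_lit 0x240003401300098000400070000000000000000000000) (nat_lit 0x0) (nat_lit 0x1000180000000000000000000000000000000000000000000) := D_10 (nat_lit 175) (nat_lit 176) (nat_lit 192) (nat_lit 0) (nat_lit 7) (nat_lit 10) (nat_lit 7) (nat_lit 4) (nat_lit 7) (by decide +kernel)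
theorem L58335 : W_10 (nat_lit 3) (nat_lit 0x200003401300098000400070000000000000000000000) (nat_lit 0x0) (nat_lit 0x18001c0000000000000000000000000000000000000000000) := T_10 (nat_lit 174) (nat_lit 191) (nat_lit 6) (nat_lit 4) (nat_lit 11) L58334 (by decide +kernel)
theorem L58336 : W_10 (nat_lit 4) (nat_lit 0x200003001300098000400070000000000000000000000) (nat_lit 0x0) (nat_lit 0x18001c0000c00000000000000000000000000000000000000) := T_10 (nat_lit 154) (nat_lit 155) (nat_lit 2) (nat_lit 1) (nat_lit 9) L58335 (by decide +kernel)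
theorem L58337 : W_10 (nat_lit 5) (nat_lit 0x200002001300098000400070000000000000000000000) (nat_lit 0x0) (nat_lit 0x18001e0001c00000000000000000000000000000000000000) := T_10 (nat_lit 156) (nat_lit 173) (nat_lit 5) (nat_lit 4) (nat_lit 6) L58336 (by decide +kernel)
theorem L58338 : W_10 (nat_lit 6) (nat_lit 0x200000001300098000400070000000000000000000000) (nat_lit 0x0) (nat_lit 0x18001e0003c00000000000200000000000000000000000000) := T_10 (nat_lit 157) (nat_lit 105) (nat_lit 4) (nat_lit 4) (nat_lit 9) L58337 (by decide +kernel)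
theorem L58339 : W_10 (nat_lit 7) (nat_lit 0x200000001300098000400060000000000000000000000) (nat_lit 0x0) (nat_lit 0x18001e0003c00000000000200010000800000000000000000) := T_10 (nat_lit 88) (nat_lit 71) (nat_lit 4) (nat_lit 4) (nat_lit 8) L58338 (by decide +kernel)
theorem L58340 : W_10 (nat_lit 8) (nat_lit 0x200000001300098000400020000000000000000000000) (nat_lit 0x0) (nat_lit 0x18001e0003c00000000000200050002800000000000000000) := T_10 (nat_lit 90) (nat_lit 73) (nat_lit 6) (nat_lit 4) (nat_lit 8) L58339 (by decide +kernel)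
theorem L58341 : W_10 (nat_lit 9) (nat_lit 0x200000001300098000400000000000000000000000000) (nat_lit 0x0) (nat_lit 0x18001e0003c00000000000200070003800000000000000000) := T_10 (nat_lit 89) (nat_lit 72) (nat_lit 7) (nat_lit 4) (nat_lit 4) L58340 (by decide +kernel)
theorem L58342 : W_10 (nat_lit 2) (nat_lit 0x280002001300098000400000000000000000000000000) (nat_lit 0x0) (nat_lit 0x1800040000000000000000000000000000000000000000000) := D_10 (nat_lit 174) (nat_lit 192) (nat_lit 191) (nat_lit 7) (nat_lit 4) (nat_lit 7) (nat_lit 6) (nat_lit 4) (nat_lit 11) (by decide +kernel)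
theorem L58343 : W_10 (nat_lit 3) (nat_lit 0x200002001300098000400000000000000000000000000) (nat_lit 0x0) (nat_lit 0x18000c0004000000000000000000000000000000000000000) := T_10 (nat_lit 175) (nat_lit 158) (nat_lit 7) (nat_lit 4) (nat_lit 6) L58342 (by decide +kernel)
theorem L58344 : W_10 (nat_lit 2) (nat_lit 0x80021002f801340098000680000000000000000000000000) (nat_lit 0x0) (nat_lit 0x7000000000000000000000000000000) := D_10 (nat_lit 121) (nat_lit 120) (nat_lit 122) (nat_lit 4) (nat_lit 2) (nat_lit 10) (nat_lit 6) (nat_lit 2) (nat_lit 10) (by decide +kernel)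
theorem L58345 : W_10 (nat_lit 3) (nat_lit 0x80021002f801300098000680000000000000000000000000) (nat_lit 0x0) (nat_lit 0x60007000000000000000000000000000000) := T_10 (nat_lit 138) (nat_lit 137) (nat_lit 0) (nat_lit 5) (nat_lit 9) L58344 (by decide +kernel)
theorem L58346 : W_10 (nat_lit 4) (nat_lit 0x80021000f801300098000680000000000000000000000000) (nat_lit 0x0) (nat_lit 0x30000060007000000000000000000000000000000) := T_10 (nat_lit 161) (nat_lit 160) (nat_lit 0) (nat_lit 8) (nat_lit 9) L58345 (by decide +kernel)
theorem L58347 : W_10 (nat_lit 5) (nat_lit 0x800210007801300098000680000000000000000000000000) (nat_lit 0x0) (nat_lit 0x100038000060007000000000000000000000000000000) := T_10 (nat_lit 159) (nat_lit 176) (nat_lit 3) (nat_lit 3) (nat_lit 9) L58346 (by decide +kernel)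
theorem L58348 : W_10 (nat_lit 6) (nat_lit 0x800200007801300098000680000000000000000000000000) (nat_lit 0x0) (nat_lit 0x118038000060007000000000000000000000000000000) := T_10 (nat_lit 172) (nat_lit 171) (nat_lit 1) (nat_lit 5) (nat_lit 9) L58347 (by decide +kernel)
theorem L58349 : W_10 (nat_lit 7) (nat_lit 0x800200003801300098000680000000000000000000000000) (nat_lit 0x0) (nat_lit 0x11803c000460007000000000000000000000000000000) := T_10 (nat_lit 158) (nat_lit 142) (nat_lit 2) (nat_lit 2) (nat_lit 9) L58348 (by decide +kernel)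
theorem L58350 : W_10 (nat_lit 8) (nat_lit 0x800200003801300098000600000000000000000000000000) (nat_lit 0x0) (nat_lit 0x11803c000460007000180000000000000000000000000) := T_10 (nat_lit 103) (nat_lit 104) (nat_lit 3) (nat_lit 1) (nat_lit 6) L58349 (by decide +kernel)
theorem L58351 : W_10 (nat_lit 9) (nat_lit 0x800200003801300098000400000000000000000000000000) (nat_lit 0x0) (nat_lit 0x11803c000460007000380010000000000000000000000) := T_10 (nat_lit 105) (nat_lit 88) (nat_lit 4) (nat_lit 4) (nat_lit 9) L58350 (by decide +kernel)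
theorem L58352 : W_10 (nat_lit 10) (nat_lit 0x800200003001300098000400000000000000000000000000) (nat_lit 0x0) (nat_lit 0x11803cc00460007000380010000000000000000000000) := T_10 (nat_lit 155) (nat_lit 154) (nat_lit 2) (nat_lit 1) (nat_lit 9) L58351 (by decide +kernel)
theorem L58353 : W_10 (nat_lit 11) (nat_lit 0x800200002001300098000400000000000000000000000000) (nat_lit 0x0) (nat_lit 0x13803dc00460007000380010000000000000000000000) := T_10 (nat_lit 156) (nat_lit 173) (nat_lit 5) (nat_lit 4) (nat_lit 6) L58352 (by decide +kernel)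
theorem L58354 : W_10 (nat_lit 12) (nat_lit 0x200002001300098000400000000000000000000000000) (nat_lit 0x0) (nat_lit 0x80017803dc00460007000380010000000000000000000000) := T_10 (nat_lit 191) (nat_lit 174) (nat_lit 6) (nat_lit 4) (nat_lit 11) L58353 (by decide +kernel)
theorem L58355 : W_10 (nat_lit 2) (nat_lit 0x200007001300098000680000000000000000000000000) (nat_lit 0x0) (nat_lit 0xc00400000000000000000000000000000000000) := D_10 (nat_lit 155) (nat_lit 154) (nat_lit 142) (nat_lit 2) (nat_lit 1) (nat_lit 9) (nat_lit 2) (nat_lit 2) (nat_lit 9) (by decide +kernel)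
theorem L58356 : W_10 (nat_lit 3) (nat_lit 0x200006001300098000680000000000000000000000000) (nat_lit 0x0) (nat_lit 0x20001c00400000000000000000000000000000000000) := T_10 (nat_lit 156) (nat_lit 173) (nat_lit 5) (nat_lit 4) (nat_lit 6) L58355 (by decide +kernel)
theorem L58357 : W_10 (nat_lit 4) (nat_lit 0x200002001300098000680000000000000000000000000) (nat_lit 0x0) (nat_lit 0xa0005c00400000000000000000000000000000000000) := T_10 (nat_lit 158) (nat_lit 175) (nat_lit 7) (nat_lit 4) (nat_lit 6) L58356 (by decide +kernel)
theorem L58358 : W_10 (nat_lit 5) (nat_lit 0x200002001300098000600000000000000000000000000) (nat_lit 0x0) (nat_lit 0xa0005c00400000000180000000000000000000000000) := T_10 (nat_lit 103) (nat_lit 104) (nat_lit 3) (nat_lit 1) (nat_lit 6) L58357 (by decide +kernel)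
theorem L58359 : W_10 (nat_lit 6) (nat_lit 0x200002001300098000400000000000000000000000000) (nat_lit 0x0) (nat_lit 0xa0005c00400000000380010000000000000000000000) := T_10 (nat_lit 105) (nat_lit 88) (nat_lit 4) (nat_lit 4) (nat_lit 9) L58358 (by decide +kernel)
theorem L58360 : W_10 (nat_lit 2) (nat_lit 0x200003401300098000600000000000000000000000000) (nat_lit 0x0) (nat_lit 0x800040000000000004000000000000000000000000000000) := D_10 (nat_lit 174) (nat_lit 191) (nat_lit 122) (nat_lit 6) (nat_lit 4) (nat_lit 11) (nat_lit 4) (nat_lit 4) (nat_lit 10) (by decide +kernel)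
theorem L58361 : W_10 (nat_lit 3) (nat_lit 0x200003401300098000400000000000000000000000000) (nat_lit 0x0) (nat_lit 0x800040000000000004000200010000000000000000000000) := T_10 (nat_lit 105) (nat_lit 88) (nat_lit 4) (nat_lit 4) (nat_lit 9) L58360 (by decide +kernel)
theorem L58362 : W_10 (nat_lit 4) (nat_lit 0x200003001300098000400000000000000000000000000) (nat_lit 0x0) (nat_lit 0x800040000c00000004000200010000000000000000000000) := T_10 (nat_lit 154) (nat_lit 155) (nat_lit 2) (nat_lit 1) (nat_lit 9) L58361 (by decide +kernel)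
theorem L58363 : W_10 (nat_lit 5) (nat_lit 0x200002001300098000400000000000000000000000000) (nat_lit 0x0) (nat_lit 0x800060001c00000004000200010000000000000000000000) := T_10 (nat_lit 156) (nat_lit 173) (nat_lit 5) (nat_lit 4) (nat_lit 6) L58362 (by decide +kernel)
theorem L58364 : W_10 (nat_lit 13) (nat_lit 0x200000001300098000400000000000000000000000000) (nat_lit 0x0) (nat_lit 0x18001f803fc00460007000380010000000000000000000000) := Q_10 (nat_lit 157) (C_10 L58343 (C_10 L58354 (C_10 L58359 (C_10 L58363 N_10)))) (by decide +kernel)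
theorem L58365 : W_10 (nat_lit 14) (nat_lit 0x200000001300098000000000000000000000000000000) (nat_lit 0x0) (nat_lit 0x18001f803fc00460007000780070003800000000000000000) := Q_10 (nat_lit 106) (C_10 L58341 (C_10 L32493 (C_10 L58364 N_10))) (by decide +kernel)
theorem L58366 : W_10 (nat_lit 6) (nat_lit 0x200000001300098000400000000000000000000000000) (nat_lit 0x0) (nat_lit 0x18000e0007c00000064000380010000000000000000000000) := Q_10 (nat_lit 157) (C_10 L58363 (C_10 L57735 (C_10 L58343 N_10))) (by decide +kernel)
theorem L58367 : W_10 (nat_lit 10) (nat_lit 0x200000001300098000000000000000000000000000000) (nat_lit 0x0) (nat_lit 0x18001e0007c00000064000780070003800000000000000000) := Q_10 (nat_lit 106) (C_10 L58341 (C_10 L32493 (C_10 L58366 N_10))) (by decide +kernel)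
theorem L58368 : W_10 (nat_lit 2) (nat_lit 0x200004001300098000000000000000000000000000000) (nat_lit 0x0) (nat_lit 0x1000080000000000000000400000000000000000000000000) := D_10 (nat_lit 175) (nat_lit 106) (nat_lit 192) (nat_lit 4) (nat_lit 5) (nat_lit 10) (nat_lit 4) (nat_lit 5) (nat_lit 11) (by decide +kernel)
theorem L58369 : W_10 (nat_lit 2) (nat_lit 0x20000400130009c000000000000000000000000000000) (nat_lit 0x0) (nat_lit 0x400003000000000000000000000000000000) := D_10 (nat_lit 121) (nat_lit 120) (nat_lit 142) (nat_lit 3) (nat_lit 1) (nat_lit 7) (nat_lit 3) (nat_lit 2) (nat_lit 7) (by decide +kernel)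
theorem L58370 : W_10 (nat_lit 2) (nat_lit 0x2000040013000be000000000000000000000000000000) (nat_lit 0x0) (nat_lit 0x380000000000000000000000000) := D_10 (nat_lit 104) (nat_lit 105) (nat_lit 103) (nat_lit 0) (nat_lit 6) (nat_lit 7) (nat_lit 0) (nat_lit 5) (nat_lit 7) (by decide +kernel)
theorem L58371 : W_10 (nat_lit 3) (nat_lit 0x2000040013000bc000000000000000000000000000000) (nat_lit 0x0) (nat_lit 0x3000380000000000000000000000000) := T_10 (nat_lit 121) (nat_lit 120) (nat_lit 3) (nat_lit 1) (nat_lit 7) L58370 (by decide +kernel)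
theorem L58372 : W_10 (nat_lit 4) (nat_lit 0x20000400130009c000000000000000000000000000000) (nat_lit 0x0) (nat_lit 0x63000380000000000000000000000000) := T_10 (nat_lit 125) (nat_lit 126) (nat_lit 1) (nat_lit 8) (nat_lit 7) L58371 (by decide +kernel)
theorem L58373 : W_10 (nat_lit 2) (nat_lit 0x2000040013000bc001000020000000000000000000000) (nat_lit 0x0) (nat_lit 0x400000000000080004000000000000000000) := D_10 (nat_lit 91) (nat_lit 74) (nat_lit 142) (nat_lit 5) (nat_lit 6) (nat_lit 4) (nat_lit 5) (nat_lit 6) (nat_lit 5) (by decide +kernel)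
theorem L58374 : W_10 (nat_lit 3) (nat_lit 0x2000040013000bc000000020000000000000000000000) (nat_lit 0x0) (nat_lit 0x400000003000080004000000000000000000) := T_10 (nat_lit 108) (nat_lit 109) (nat_lit 2) (nat_lit 3) (nat_lit 7) L58373 (by decide +kernel)
theorem L58375 : W_10 (nat_lit 4) (nat_lit 0x2000040013000bc000000000000000000000000000000) (nat_lit 0x0) (nat_lit 0x4000000034000a0004000000000000000000) := T_10 (nat_lit 89) (nat_lit 106) (nat_lit 7) (nat_lit 4) (nat_lit 5) L58374 (by decide +kernel)
theorem L58376 : W_10 (nat_lit 5) (nat_lit 0x20000400130009c000000000000000000000000000000) (nat_lit 0x0) (nat_lit 0x4000600034000a0004000000000000000000) := T_10 (nat_lit 125) (nat_lit 126) (nat_lit 1) (nat_lit 8) (nat_lit 7) L58375 (by decide +kernel)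
theorem L58377 : W_10 (nat_lit 6) (nat_lit 0x200004001300098000000000000000000000000000000) (nat_lit 0x0) (nat_lit 0x4000670037800a0004000000000000000000) := Q_10 (nat_lit 122) (C_10 L58369 (C_10 L58372 (C_10 L58376 N_10))) (by decide +kernel)
theorem L58378 : W_10 (nat_lit 2) (nat_lit 0x280004001300098000000000000000000000000000000) (nat_lit 0x0) (nat_lit 0x60001000000000000000000000000000) := D_10 (nat_lit 125) (nat_lit 126) (nat_lit 108) (nat_lit 1) (nat_lit 8) (nat_lit 7) (nat_lit 6) (nat_lit 5) (nat_lit 10) (by decide +kernel)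
theorem L58379 : W_10 (nat_lit 3) (nat_lit 0x200004001300098000000000000000000000000000000) (nat_lit 0x0) (nat_lit 0x1000080000000000060001000000000000000000000000000) := T_10 (nat_lit 175) (nat_lit 192) (nat_lit 4) (nat_lit 5) (nat_lit 11) L58378 (by decide +kernel)
theorem L58380 : W_10 (nat_lit 7) (nat_lit 0x200000001300098000000000000000000000000000000) (nat_lit 0x0) (nat_lit 0x10000800040004000670037800a0004000000000000000000) := Q_10 (nat_lit 158) (C_10 L58368 (C_10 L58377 (C_10 L58379 N_10))) (by decide +kernel)
theorem L58381 : W_10 (nat_lit 2) (nat_lit 0x2000000013000be000000000000000000000000000000) (nat_lit 0x0) (nat_lit 0x380000000000000000000000000) := D_10 (nat_lit 104) (nat_lit 105) (nat_lit 103) (nat_lit 0) (nat_lit 6) (nat_lit 7) (nat_lit 0) (nat_lit 5) (nat_lit 7) (by decide +kernel)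
theorem L58382 : W_10 (nat_lit 3) (nat_lit 0x2000000013000bc000000000000000000000000000000) (nat_lit 0x0) (nat_lit 0x3000380000000000000000000000000) := T_10 (nat_lit 121) (nat_lit 120) (nat_lit 3) (nat_lit 1) (nat_lit 7) L58381 (by decide +kernel)
theorem L58383 : W_10 (nat_lit 4) (nat_lit 0x20000000130009c000000000000000000000000000000) (nat_lit 0x0) (nat_lit 0x63000380000000000000000000000000) := T_10 (nat_lit 125) (nat_lit 126) (nat_lit 1) (nat_lit 8) (nat_lit 7) L58382 (by decide +kernel)
theorem L58384 : W_10 (nat_lit 2) (nat_lit 0x2000040013000bc001200000000800000000000000000) (nat_lit 0x0) (nat_lit 0x400000000000080004000000000000000000) := D_10 (nat_lit 91) (nat_lit 74) (nat_lit 142) (nat_lit 5) (nat_lit 6) (nat_lit 4) (nat_lit 5) (nat_lit 6) (nat_lit 5) (by decide +kernel)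
theorem L58385 : W_10 (nat_lit 3) (nat_lit 0x2000000013000bc001200000000800000000000000000) (nat_lit 0x0) (nat_lit 0x80004000400000000000080004000000000000000000) := T_10 (nat_lit 158) (nat_lit 175) (nat_lit 6) (nat_lit 5) (nat_lit 10) L58384 (by decide +kernel)
theorem L58386 : W_10 (nat_lit 4) (nat_lit 0x2000000013000bc001200000000000000000000000000) (nat_lit 0x0) (nat_lit 0x80004000400000000000090004800000000000000000) := T_10 (nat_lit 71) (nat_lit 88) (nat_lit 7) (nat_lit 3) (nat_lit 4) L58385 (by decide +kernel)
theorem L58387 : W_10 (nat_lit 5) (nat_lit 0x2000000013000bc000200000000000000000000000000) (nat_lit 0x0) (nat_lit 0x80004000400000003000090004800000000000000000) := T_10 (nat_lit 108) (nat_lit 109) (nat_lit 2) (nat_lit 3) (nat_lit 7) L58386 (by decide +kernel)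
theorem L58388 : W_10 (nat_lit 6) (nat_lit 0x2000000013000bc000000000000000000000000000000) (nat_lit 0x0) (nat_lit 0x80004000400000003300090004800000000000000000) := T_10 (nat_lit 105) (nat_lit 104) (nat_lit 0) (nat_lit 6) (nat_lit 7) L58387 (by decide +kernel)
theorem L58389 : W_10 (nat_lit 7) (nat_lit 0x20000000130009c000000000000000000000000000000) (nat_lit 0x0) (nat_lit 0x80004000400060003300090004800000000000000000) := T_10 (nat_lit 125) (nat_lit 126) (nat_lit 1) (nat_lit 8) (nat_lit 7) L58388 (by decide +kernel)
theorem L58390 : W_10 (nat_lit 8) (nat_lit 0x200000001300098000000000000000000000000000000) (nat_lit 0x0) (nat_lit 0x80004000400067003380090004800000000000000000) := Q_10 (nat_lit 122) (C_10 L58016 (C_10 L58383 (C_10 L58389 N_10))) (by decide +kernel)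
theorem L58391 : W_10 (nat_lit 2) (nat_lit 0x2200020013000d8000400000000000000000000000000) (nat_lit 0x0) (nat_lit 0xc00040000000000000000000000000000000000000000000) := D_10 (nat_lit 174) (nat_lit 191) (nat_lit 190) (nat_lit 6) (nat_lit 4) (nat_lit 11) (nat_lit 5) (nat_lit 4) (nat_lit 7) (by decide +kernel)
theorem L58392 : W_10 (nat_lit 3) (nat_lit 0x2000020013000d8000400000000000000000000000000) (nat_lit 0x0) (nat_lit 0xc00060001000000000000000000000000000000000000000) := T_10 (nat_lit 173) (nat_lit 156) (nat_lit 5) (nat_lit 4) (nat_lit 6) L58391 (by decide +kernel)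
theorem L58393 : W_10 (nat_lit 4) (nat_lit 0x200002001300098000400000000000000000000000000) (nat_lit 0x0) (nat_lit 0xc00060001000000060000000000000000000000000000000) := T_10 (nat_lit 126) (nat_lit 125) (nat_lit 1) (nat_lit 8) (nat_lit 7) L58392 (by decide +kernel)
theorem L58394 : W_10 (nat_lit 7) (nat_lit 0x200000001300098000400000000000000000000000000) (nat_lit 0x0) (nat_lit 0x1c000e0007c00400060000380010000000000000000000000) := Q_10 (nat_lit 157) (C_10 L58359 (C_10 L58343 (C_10 L58393 N_10))) (by decide +kernel)
theorem L58395 : W_10 (nat_lit 10) (nat_lit 0x200000001300098000000000000000000000000000000) (nat_lit 0x0) (nat_lit 0x1c001e0007c00400060000780070003800000000000000000) := Q_10 (nat_lit 106) (C_10 L58341 (C_10 L32493 (C_10 L58394 N_10))) (by decide +kernel)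
theorem L58396 : W_10 (nat_lit 2) (nat_lit 0x200006001300098000000000000000000000000000000) (nat_lit 0x0) (nat_lit 0x1000080000000000000000400000000000000000000000000) := D_10 (nat_lit 175) (nat_lit 106) (nat_lit 192) (nat_lit 7) (nat_lit 4) (nat_lit 6) (nat_lit 4) (nat_lit 5) (nat_lit 11) (by decide +kernel)
theorem L58397 : W_10 (nat_lit 4) (nat_lit 0x2000060013000d8000000000000000000000000000000) (nat_lit 0x0) (nat_lit 0x20001c00400000000400020000000000000000000000) := T_10 (nat_lit 106) (nat_lit 89) (nat_lit 7) (nat_lit 4) (nat_lit 5) L56618 (by decide +kernel)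
theorem L58398 : W_10 (nat_lit 5) (nat_lit 0x200006001300098000000000000000000000000000000) (nat_lit 0x0) (nat_lit 0x20001c00400060000400020000000000000000000000) := T_10 (nat_lit 126) (nat_lit 125) (nat_lit 1) (nat_lit 8) (nat_lit 7) L58397 (by decide +kernel)
theorem L58399 : W_10 (nat_lit 2) (nat_lit 0x280006001300098000000000000000000000000000000) (nat_lit 0x0) (nat_lit 0x60001000000000000000000000000000) := D_10 (nat_lit 125) (nat_lit 126) (nat_lit 108) (nat_lit 1) (nat_lit 8) (nat_lit 7) (nat_lit 6) (nat_lit 5) (nat_lit 10) (by decide +kernel)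
theorem L58400 : W_10 (nat_lit 3) (nat_lit 0x200006001300098000000000000000000000000000000) (nat_lit 0x0) (nat_lit 0x1000080000000000060001000000000000000000000000000) := T_10 (nat_lit 175) (nat_lit 192) (nat_lit 4) (nat_lit 5) (nat_lit 11) L58399 (by decide +kernel)
theorem L58401 : W_10 (nat_lit 6) (nat_lit 0x200002001300098000000000000000000000000000000) (nat_lit 0x0) (nat_lit 0x10000a0005c00400060001400020000000000000000000000) := Q_10 (nat_lit 158) (C_10 L58396 (C_10 L58398 (C_10 L58400 N_10))) (by decide +kernel)
theorem L58402 : W_10 (nat_lit 2) (nat_lit 0x2c00060013000d8000000000000000000000000000000) (nat_lit 0x0) (nat_lit 0x2000100001000000000000000000000000000000000000000) := D_10 (nat_lit 176) (nat_lit 193) (nat_lit 156) (nat_lit 7) (nat_lit 5) (nat_lit 7) (nat_lit 0) (nat_lit 7) (nat_lit 10) (by decide +kernel)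
theorem L58403 : W_10 (nat_lit 3) (nat_lit 0x2c00020013000d8000000000000000000000000000000) (nat_lit 0x0) (nat_lit 0x2000100005000000000000400000000000000000000000000) := T_10 (nat_lit 158) (nat_lit 106) (nat_lit 7) (nat_lit 4) (nat_lit 6) L58402 (by decide +kernel)
theorem L58404 : W_10 (nat_lit 4) (nat_lit 0x2400020013000d8000000000000000000000000000000) (nat_lit 0x0) (nat_lit 0x3000180005000000000000400000000000000000000000000) := T_10 (nat_lit 175) (nat_lit 192) (nat_lit 7) (nat_lit 4) (nat_lit 7) L58403 (by decide +kernel)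
theorem L58405 : W_10 (nat_lit 5) (nat_lit 0x2000020013000d8000000000000000000000000000000) (nat_lit 0x0) (nat_lit 0x38001c0005000000000000400000000000000000000000000) := T_10 (nat_lit 174) (nat_lit 191) (nat_lit 6) (nat_lit 4) (nat_lit 11) L58404 (by decide +kernel)
theorem L58406 : W_10 (nat_lit 6) (nat_lit 0x200002001300098000000000000000000000000000000) (nat_lit 0x0) (nat_lit 0x38001c0005000000060000400000000000000000000000000) := T_10 (nat_lit 126) (nat_lit 125) (nat_lit 1) (nat_lit 8) (nat_lit 7) L58405 (by decide +kernel)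
theorem L58407 : W_10 (nat_lit 8) (nat_lit 0x200000001300098000000000000000000000000000000) (nat_lit 0x0) (nat_lit 0xfc001f800fc00400060001400020001000000000000000000) := Q_10 (nat_lit 157) (C_10 L58210 (C_10 L57313 (C_10 L57232 (C_10 L58401 (C_10 L57755 (C_10 L58406 N_10)))))) (by decide +kernel)
theorem L58408 : W_10 (nat_lit 15) (nat_lit 0x200000001300090000000000000000000000000000000) (nat_lit 0x0) (nat_lit 0xfc001f803fc0046006f0037800f0007800000000000000000) := Q_10 (nat_lit 123) (C_10 L58029 (C_10 L58365 (C_10 L58367 (C_10 L58380 (C_10 L58390 (C_10 L58395 (C_10 L58407 N_10))))))) (by decide +kernel)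
theorem L58409 : W_10 (nat_lit 11) (nat_lit 0x200000001300090000000000000000000000000000000) (nat_lit 0x0) (nat_lit 0x500038001e0007c0040006c003f803fc007800280000000000000) := Q_10 (nat_lit 107) (C_10 L56194 (C_10 L58293 (C_10 L56156 (C_10 L56582 (C_10 L56152 N_10))))) (by decide +kernel)
theorem L58410 : W_10 (nat_lit 2) (nat_lit 0x20000e0013000b0001800000000000000000000000000) (nat_lit 0x0) (nat_lit 0x30000400000000000000000000000000000000000) := D_10 (nat_lit 160) (nat_lit 142) (nat_lit 161) (nat_lit 7) (nat_lit 6) (nat_lit 6) (nat_lit 0) (nat_lit 8) (nat_lit 9) (by decide +kernel)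
theorem L58411 : W_10 (nat_lit 3) (nat_lit 0x2000060013000b0001800000000000000000000000000) (nat_lit 0x0) (nat_lit 0x100038000400000000000000000000000000000000000) := T_10 (nat_lit 159) (nat_lit 176) (nat_lit 7) (nat_lit 5) (nat_lit 6) L58410 (by decide +kernel)
theorem L58412 : W_10 (nat_lit 4) (nat_lit 0x2000040013000b0001800000000000000000000000000) (nat_lit 0x0) (nat_lit 0x14003a000400000000000000000000000000000000000) := T_10 (nat_lit 157) (nat_lit 174) (nat_lit 5) (nat_lit 5) (nat_lit 6) L58411 (by decide +kernel)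
theorem L58413 : W_10 (nat_lit 5) (nat_lit 0x2000040013000b0000800000000000000000000000000) (nat_lit 0x0) (nat_lit 0x14003a000400000001000080000000000000000000000) := T_10 (nat_lit 108) (nat_lit 91) (nat_lit 6) (nat_lit 5) (nat_lit 9) L58412 (by decide +kernel)
theorem L58414 : W_10 (nat_lit 6) (nat_lit 0x200004001300090000800000000000000000000000000) (nat_lit 0x0) (nat_lit 0x14003a000400060001000080000000000000000000000) := T_10 (nat_lit 125) (nat_lit 126) (nat_lit 1) (nat_lit 8) (nat_lit 7) L58413 (by decide +kernel)
theorem L58415 : W_10 (nat_lit 5) (nat_lit 0x20002c0013000b0000e00000000000000000000000000) (nat_lit 0x0) (nat_lit 0x60003c00400008000000010000000000000000000000) := T_10 (nat_lit 157) (nat_lit 174) (nat_lit 5) (nat_lit 5) (nat_lit 6) L31918 (by decide +kernel)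
theorem L58416 : W_10 (nat_lit 6) (nat_lit 0x20002c0013000b0000c00000000000000000000000000) (nat_lit 0x0) (nat_lit 0x60003c00400008000300010000000000000000000000) := T_10 (nat_lit 105) (nat_lit 104) (nat_lit 3) (nat_lit 2) (nat_lit 6) L58415 (by decide +kernel)
theorem L58417 : W_10 (nat_lit 7) (nat_lit 0x20002c0013000b0000800000000000000000000000000) (nat_lit 0x0) (nat_lit 0x60003c00400008000700030000000000000000000000) := T_10 (nat_lit 106) (nat_lit 89) (nat_lit 4) (nat_lit 5) (nat_lit 9) L58416 (by decide +kernel)
theorem L58418 : W_10 (nat_lit 8) (nat_lit 0x20002c001300090000800000000000000000000000000) (nat_lit 0x0) (nat_lit 0x60003c00400068000700030000000000000000000000) := T_10 (nat_lit 125) (nat_lit 126) (nat_lit 1) (nat_lit 8) (nat_lit 7) L58417 (by decide +kernel)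
theorem L58419 : W_10 (nat_lit 9) (nat_lit 0x20000c001300090000800000000000000000000000000) (nat_lit 0x0) (nat_lit 0x60033c00400068000700030000000000000000000000) := T_10 (nat_lit 161) (nat_lit 160) (nat_lit 0) (nat_lit 8) (nat_lit 9) L58418 (by decide +kernel)
theorem L58420 : W_10 (nat_lit 10) (nat_lit 0x200004001300090000800000000000000000000000000) (nat_lit 0x0) (nat_lit 0x16003bc00400068000700030000000000000000000000) := T_10 (nat_lit 159) (nat_lit 176) (nat_lit 7) (nat_lit 5) (nat_lit 6) L58419 (by decide +kernel)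
theorem L58421 : W_10 (nat_lit 2) (nat_lit 0x20001e0013000b0001e00000000000000000000000000) (nat_lit 0x0) (nat_lit 0x8000000018000000000000000000000) := D_10 (nat_lit 88) (nat_lit 87) (nat_lit 123) (nat_lit 0) (nat_lit 6) (nat_lit 6) (nat_lit 4) (nat_lit 4) (nat_lit 9) (by decide +kernel)
theorem L58422 : W_10 (nat_lit 3) (nat_lit 0x20001e0013000b0001c00000000000000000000000000) (nat_lit 0x0) (nat_lit 0x8000300018000000000000000000000) := T_10 (nat_lit 105) (nat_lit 104) (nat_lit 3) (nat_lit 2) (nat_lit 6) L58421 (by decide +kernel)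
theorem L58423 : W_10 (nat_lit 4) (nat_lit 0x20001e001300090001c00000000000000000000000000) (nat_lit 0x0) (nat_lit 0x400028000300018000000000000000000000) := T_10 (nat_lit 125) (nat_lit 142) (nat_lit 7) (nat_lit 6) (nat_lit 6) L58422 (by decide +kernel)
theorem L58424 : W_10 (nat_lit 5) (nat_lit 0x20001e001300090001800000000000000000000000000) (nat_lit 0x0) (nat_lit 0x400028000700038000000000000000000000) := T_10 (nat_lit 106) (nat_lit 89) (nat_lit 4) (nat_lit 5) (nat_lit 9) L58423 (by decide +kernel)
theorem L58425 : W_10 (nat_lit 6) (nat_lit 0x20001e001300090000800000000000000000000000000) (nat_lit 0x0) (nat_lit 0x4000280017000b8000000000000000000000) := T_10 (nat_lit 108) (nat_lit 91) (nat_lit 6) (nat_lit 5) (nat_lit 9) L58424 (by decide +kernel)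
theorem L58426 : W_10 (nat_lit 7) (nat_lit 0x20000e001300090000800000000000000000000000000) (nat_lit 0x0) (nat_lit 0x300004000280017000b8000000000000000000000) := T_10 (nat_lit 160) (nat_lit 161) (nat_lit 0) (nat_lit 8) (nat_lit 9) L58425 (by decide +kernel)
theorem L58427 : W_10 (nat_lit 8) (nat_lit 0x200006001300090000800000000000000000000000000) (nat_lit 0x0) (nat_lit 0x1000380004000280017000b8000000000000000000000) := T_10 (nat_lit 159) (nat_lit 176) (nat_lit 7) (nat_lit 5) (nat_lit 6) L58426 (by decide +kernel)
theorem L58428 : W_10 (nat_lit 9) (nat_lit 0x200004001300090000800000000000000000000000000) (nat_lit 0x0) (nat_lit 0x14003a0004000280017000b8000000000000000000000) := T_10 (nat_lit 157) (nat_lit 174) (nat_lit 5) (nat_lit 5) (nat_lit 6) L58427 (by decide +kernel)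
theorem L58429 : W_10 (nat_lit 14) (nat_lit 0x200000001300090000800000000000000000000000000) (nat_lit 0x0) (nat_lit 0x16003fc0040006c0037803b8000000000000000000000) := Q_10 (nat_lit 158) (C_10 L58253 (C_10 L56170 (C_10 L58414 (C_10 L58420 (C_10 L58428 N_10))))) (by decide +kernel)
theorem L58430 : W_10 (nat_lit 15) (nat_lit 0x200000001300090000000000000000000000000000000) (nat_lit 0x0) (nat_lit 0x16003fc0040006c003f803f800700038000c000000000) := Q_10 (nat_lit 107) (C_10 L58332 (C_10 L56325 (C_10 L56365 (C_10 L56194 (C_10 L58429 N_10))))) (by decide +kernel)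
theorem L58431 : W_10 (nat_lit 9) (nat_lit 0x200002001300090000000000000000000000000000000) (nat_lit 0x0) (nat_lit 0x2000fc001e003d00000006f003200000000000000000000000000) := T_10 (nat_lit 174) (nat_lit 191) (nat_lit 6) (nat_lit 4) (nat_lit 11) L57387 (by decide +kernel)
theorem L58432 : W_10 (nat_lit 2) (nat_lit 0x20001e0013000b0000800000000000000000000000000) (nat_lit 0x0) (nat_lit 0x400000001000080000000000000000000000) := D_10 (nat_lit 108) (nat_lit 91) (nat_lit 142) (nat_lit 6) (nat_lit 5) (nat_lit 9) (nat_lit 7) (nat_lit 6) (nat_lit 6) (by decide +kernel)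
theorem L58433 : W_10 (nat_lit 3) (nat_lit 0x20000e0013000b0000800000000000000000000000000) (nat_lit 0x0) (nat_lit 0x30000400000001000080000000000000000000000) := T_10 (nat_lit 160) (nat_lit 161) (nat_lit 0) (nat_lit 8) (nat_lit 9) L58432 (by decide +kernel)
theorem L58434 : W_10 (nat_lit 4) (nat_lit 0x2000060013000b0000800000000000000000000000000) (nat_lit 0x0) (nat_lit 0x100038000400000001000080000000000000000000000) := T_10 (nat_lit 159) (nat_lit 176) (nat_lit 7) (nat_lit 5) (nat_lit 6) L58433 (by decide +kernel)
theorem L58435 : W_10 (nat_lit 5) (nat_lit 0x200006001300090000800000000000000000000000000) (nat_lit 0x0) (nat_lit 0x100038000400060001000080000000000000000000000) := T_10 (nat_lit 125) (nat_lit 126) (nat_lit 1) (nat_lit 8) (nat_lit 7) L58434 (by decide +kernel)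
theorem L58436 : W_10 (nat_lit 6) (nat_lit 0x200006001300090000000000000000000000000000000) (nat_lit 0x0) (nat_lit 0x1000380004000600018000c0000000000000000000000) := T_10 (nat_lit 107) (nat_lit 90) (nat_lit 5) (nat_lit 5) (nat_lit 5) L58435 (by decide +kernel)
theorem L58437 : W_10 (nat_lit 2) (nat_lit 0x3800060013000d0000800000000000000000000000000) (nat_lit 0x0) (nat_lit 0x20001000000000000000008000000000000000000000000000000) := D_10 (nat_lit 192) (nat_lit 209) (nat_lit 123) (nat_lit 4) (nat_lit 5) (nat_lit 12) (nat_lit 4) (nat_lit 5) (nat_lit 11) (by decide +kernel)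
theorem L58438 : W_10 (nat_lit 3) (nat_lit 0x3000060013000d0000800000000000000000000000000) (nat_lit 0x0) (nat_lit 0x20003000080000000000008000000000000000000000000000000) := T_10 (nat_lit 175) (nat_lit 193) (nat_lit 7) (nat_lit 5) (nat_lit 7) L58437 (by decide +kernel)
theorem L58439 : W_10 (nat_lit 4) (nat_lit 0x2000060013000d0000800000000000000000000000000) (nat_lit 0x0) (nat_lit 0x20003000180008000000008000000000000000000000000000000) := T_10 (nat_lit 176) (nat_lit 159) (nat_lit 7) (nat_lit 5) (nat_lit 6) L58438 (by decide +kernel)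
theorem L58440 : W_10 (nat_lit 5) (nat_lit 0x2000060013000d0000000000000000000000000000000) (nat_lit 0x0) (nat_lit 0x20003000180008000000008000800040000000000000000000000) := T_10 (nat_lit 107) (nat_lit 90) (nat_lit 5) (nat_lit 5) (nat_lit 5) L58439 (by decide +kernel)
theorem L58441 : W_10 (nat_lit 6) (nat_lit 0x200006001300090000000000000000000000000000000) (nat_lit 0x0) (nat_lit 0x20003000180008000000068000800040000000000000000000000) := T_10 (nat_lit 126) (nat_lit 125) (nat_lit 1) (nat_lit 8) (nat_lit 7) L58440 (by decide +kernel)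
theorem L58442 : W_10 (nat_lit 7) (nat_lit 0x200002001300090000000000000000000000000000000) (nat_lit 0x0) (nat_lit 0x2000300018003c0004000680018000c0000000000000000000000) := Q_10 (nat_lit 158) (C_10 L58436 (C_10 L56759 (C_10 L57264 (C_10 L58441 N_10)))) (by decide +kernel)
theorem L58443 : W_10 (nat_lit 10) (nat_lit 0x200000001300090000000000000000000000000000000) (nat_lit 0x0) (nat_lit 0x2000fc001e003f00040006f003a000c0000000000000000000000) := Q_10 (nat_lit 157) (C_10 L57108 (C_10 L58431 (C_10 L56673 (C_10 L56656 (C_10 L58442 N_10))))) (by decide +kernel)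
theorem L58444 : W_10 (nat_lit 14) (nat_lit 0x200004001300090000000000000000000000000000000) (nat_lit 0x0) (nat_lit 0x16003bc0040006c003f803b8000000000000000000000) := Q_10 (nat_lit 107) (C_10 L58428 (C_10 L58253 (C_10 L56170 (C_10 L58414 (C_10 L58420 N_10))))) (by decide +kernel)
theorem L58445 : W_10 (nat_lit 2) (nat_lit 0x2800040013000b0000000000000000000000000000000) (nat_lit 0x0) (nat_lit 0x1000000000000000008000400000000000000000000000000) := D_10 (nat_lit 123) (nat_lit 106) (nat_lit 192) (nat_lit 4) (nat_lit 5) (nat_lit 10) (nat_lit 4) (nat_lit 5) (nat_lit 11) (by decide +kernel)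
theorem L58446 : W_10 (nat_lit 3) (nat_lit 0x2000040013000b0000000000000000000000000000000) (nat_lit 0x0) (nat_lit 0x1000080000000000008001400000000000000000000000000) := T_10 (nat_lit 175) (nat_lit 108) (nat_lit 6) (nat_lit 5) (nat_lit 10) L58445 (by decide +kernel)
theorem L58447 : W_10 (nat_lit 4) (nat_lit 0x200004001300090000000000000000000000000000000) (nat_lit 0x0) (nat_lit 0x1000080000000000068001400000000000000000000000000) := T_10 (nat_lit 125) (nat_lit 126) (nat_lit 1) (nat_lit 8) (nat_lit 7) L58446 (by decide +kernel)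
theorem L58448 : W_10 (nat_lit 2) (nat_lit 0x280004001300090000000000000000000000000000000) (nat_lit 0x0) (nat_lit 0x1000000000000000008000400000000000000000000000000) := D_10 (nat_lit 123) (nat_lit 106) (nat_lit 192) (nat_lit 4) (nat_lit 5) (nat_lit 10) (nat_lit 4) (nat_lit 5) (nat_lit 11) (by decide +kernel)
theorem L58449 : W_10 (nat_lit 2) (nat_lit 0x380004001300090000800000000000000000000000000) (nat_lit 0x0) (nat_lit 0x800040002000000000000000000000000000000000000000) := D_10 (nat_lit 174) (nat_lit 191) (nat_lit 157) (nat_lit 5) (nat_lit 5) (nat_lit 7) (nat_lit 5) (nat_lit 5) (nat_lit 6) (by decide +kernel)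
theorem L58450 : W_10 (nat_lit 3) (nat_lit 0x380004001300090000000000000000000000000000000) (nat_lit 0x0) (nat_lit 0x80004000a000000000000800000000000000000000000000) := T_10 (nat_lit 107) (nat_lit 159) (nat_lit 7) (nat_lit 5) (nat_lit 6) L58449 (by decide +kernel)
theorem L58451 : W_10 (nat_lit 4) (nat_lit 0x280004001300090000000000000000000000000000000) (nat_lit 0x0) (nat_lit 0x280014000a000000000000800000000000000000000000000) := T_10 (nat_lit 176) (nat_lit 193) (nat_lit 7) (nat_lit 5) (nat_lit 7) L58450 (by decide +kernel)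
theorem L58452 : W_10 (nat_lit 5) (nat_lit 0x200004001300090000000000000000000000000000000) (nat_lit 0x0) (nat_lit 0x38001c000a000000008000c00000000000000000000000000) := Q_10 (nat_lit 175) (C_10 L58448 (C_10 L58451 N_10)) (by decide +kernel)
theorem L58453 : W_10 (nat_lit 2) (nat_lit 0x2c00040013000b0000800000000000000000000000000) (nat_lit 0x0) (nat_lit 0x2000100008000000000000000000000000000000000000000) := D_10 (nat_lit 176) (nat_lit 193) (nat_lit 159) (nat_lit 7) (nat_lit 5) (nat_lit 7) (nat_lit 7) (nat_lit 5) (nat_lit 6) (by decide +kernel)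
theorem L58454 : W_10 (nat_lit 3) (nat_lit 0x2c00040013000b0000000000000000000000000000000) (nat_lit 0x0) (nat_lit 0x200010000a000000000000800000000000000000000000000) := T_10 (nat_lit 107) (nat_lit 157) (nat_lit 5) (nat_lit 5) (nat_lit 6) L58453 (by decide +kernel)
theorem L58455 : W_10 (nat_lit 4) (nat_lit 0x2800040013000b0000000000000000000000000000000) (nat_lit 0x0) (nat_lit 0x280014000a000000000000800000000000000000000000000) := T_10 (nat_lit 174) (nat_lit 191) (nat_lit 5) (nat_lit 5) (nat_lit 7) L58454 (by decide +kernel)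
theorem L58456 : W_10 (nat_lit 5) (nat_lit 0x2000040013000b0000000000000000000000000000000) (nat_lit 0x0) (nat_lit 0x28001c000a000000000001800000000000000000000000000) := T_10 (nat_lit 175) (nat_lit 108) (nat_lit 6) (nat_lit 5) (nat_lit 10) L58455 (by decide +kernel)
theorem L58457 : W_10 (nat_lit 6) (nat_lit 0x200004001300090000000000000000000000000000000) (nat_lit 0x0) (nat_lit 0x28001c000a000000060001800000000000000000000000000) := T_10 (nat_lit 125) (nat_lit 126) (nat_lit 1) (nat_lit 8) (nat_lit 7) L58456 (by decide +kernel)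
theorem L58458 : W_10 (nat_lit 15) (nat_lit 0x200000001300090000000000000000000000000000000) (nat_lit 0x0) (nat_lit 0x38001e003fc0040006c003f803b8000000000000000000000) := Q_10 (nat_lit 158) (C_10 L58444 (C_10 L58447 (C_10 L58452 (C_10 L58457 N_10)))) (by decide +kernel)
theorem L58459 : W_10 (nat_lit 2) (nat_lit 0x3800060013000b0000d00000000000000000000000000) (nat_lit 0x0) (nat_lit 0x20001000000000000400000000000000000000000000000000000) := D_10 (nat_lit 192) (nat_lit 142) (nat_lit 209) (nat_lit 6) (nat_lit 5) (nat_lit 11) (nat_lit 4) (nat_lit 5) (nat_lit 12) (by decide +kernel)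
theorem L58460 : W_10 (nat_lit 3) (nat_lit 0x3000060013000b0000d00000000000000000000000000) (nat_lit 0x0) (nat_lit 0x20003000080000000400000000000000000000000000000000000) := T_10 (nat_lit 175) (nat_lit 193) (nat_lit 7) (nat_lit 5) (nat_lit 7) L58459 (by decide +kernel)
theorem L58461 : W_10 (nat_lit 4) (nat_lit 0x3000060013000b0000c00000000000000000000000000) (nat_lit 0x0) (nat_lit 0x20003000080000000400000000300000000000000000000000000) := T_10 (nat_lit 104) (nat_lit 105) (nat_lit 3) (nat_lit 2) (nat_lit 6) L58460 (by decide +kernel)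
theorem L58462 : W_10 (nat_lit 5) (nat_lit 0x3000060013000b0000800000000000000000000000000) (nat_lit 0x0) (nat_lit 0x20003000080000000400000000700020000000000000000000000) := T_10 (nat_lit 106) (nat_lit 89) (nat_lit 4) (nat_lit 5) (nat_lit 9) L58461 (by decide +kernel)
theorem L58463 : W_10 (nat_lit 6) (nat_lit 0x2000060013000b0000800000000000000000000000000) (nat_lit 0x0) (nat_lit 0x20003000180008000400000000700020000000000000000000000) := T_10 (nat_lit 176) (nat_lit 159) (nat_lit 7) (nat_lit 5) (nat_lit 6) L58462 (by decide +kernel)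
theorem L58464 : W_10 (nat_lit 7) (nat_lit 0x200006001300090000800000000000000000000000000) (nat_lit 0x0) (nat_lit 0x20003000180008000400060000700020000000000000000000000) := T_10 (nat_lit 125) (nat_lit 126) (nat_lit 1) (nat_lit 8) (nat_lit 7) L58463 (by decide +kernel)
theorem L58465 : W_10 (nat_lit 8) (nat_lit 0x200006001300090000000000000000000000000000000) (nat_lit 0x0) (nat_lit 0x20003000180008000400060000f00060000000000000000000000) := T_10 (nat_lit 107) (nat_lit 90) (nat_lit 5) (nat_lit 5) (nat_lit 5) L58464 (by decide +kernel)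
theorem L58466 : W_10 (nat_lit 8) (nat_lit 0x200006001300090000800000000000000000000000000) (nat_lit 0x0) (nat_lit 0xa0001c00400068000780030000000000000000000000) := T_10 (nat_lit 126) (nat_lit 125) (nat_lit 1) (nat_lit 8) (nat_lit 7) L56576 (by decide +kernel)
theorem L58467 : W_10 (nat_lit 9) (nat_lit 0x200006001300090000000000000000000000000000000) (nat_lit 0x0) (nat_lit 0xa0001c00400068000f80070000000000000000000000) := T_10 (nat_lit 107) (nat_lit 90) (nat_lit 5) (nat_lit 5) (nat_lit 5) L58466 (by decide +kernel)
theorem L58468 : W_10 (nat_lit 8) (nat_lit 0x2000060013000b0000800000000000000000000000000) (nat_lit 0x0) (nat_lit 0x120039c00400008000700030000000000000000000000) := T_10 (nat_lit 106) (nat_lit 89) (nat_lit 4) (nat_lit 5) (nat_lit 9) L31921 (by decide +kernel)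
theorem L58469 : W_10 (nat_lit 9) (nat_lit 0x2000060013000b0000000000000000000000000000000) (nat_lit 0x0) (nat_lit 0x120039c00400008000f00070000000000000000000000) := T_10 (nat_lit 107) (nat_lit 90) (nat_lit 5) (nat_lit 5) (nat_lit 5) L58468 (by decide +kernel)
theorem L58470 : W_10 (nat_lit 10) (nat_lit 0x200006001300090000000000000000000000000000000) (nat_lit 0x0) (nat_lit 0x120039c00400068000f00070000000000000000000000) := T_10 (nat_lit 125) (nat_lit 126) (nat_lit 1) (nat_lit 8) (nat_lit 7) L58469 (by decide +kernel)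
theorem L58471 : W_10 (nat_lit 11) (nat_lit 0x200002001300090000000000000000000000000000000) (nat_lit 0x0) (nat_lit 0x200030001a003dc00400068000f80070000000000000000000000) := Q_10 (nat_lit 158) (C_10 L58441 (C_10 L57625 (C_10 L58465 (C_10 L58467 (C_10 L58470 N_10))))) (by decide +kernel)
theorem L58472 : W_10 (nat_lit 13) (nat_lit 0x200000001300090000000000000000000000000000000) (nat_lit 0x0) (nat_lit 0x2000fc001e003fc0040006f000f80070001800000000000000000) := Q_10 (nat_lit 157) (C_10 L57108 (C_10 L57261 (C_10 L56673 (C_10 L56656 (C_10 L58471 N_10))))) (by decide +kernel)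
theorem L58473 : W_10 (nat_lit 11) (nat_lit 0x200000001300090000800000000000000000000000000) (nat_lit 0x0) (nat_lit 0x8001e003fc004000280017800b8000000000000000000000) := Q_10 (nat_lit 158) (C_10 L58269 (C_10 L58428 (C_10 L58262 (C_10 L56581 N_10)))) (by decide +kernel)
theorem L58474 : W_10 (nat_lit 12) (nat_lit 0x200000001300090000000000000000000000000000000) (nat_lit 0x0) (nat_lit 0x8001e003fc00400028001f800f800700018000c000000000) := Q_10 (nat_lit 107) (C_10 L56325 (C_10 L56156 (C_10 L56292 (C_10 L58473 (C_10 L56152 N_10))))) (by decide +kernel)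
theorem L58475 : W_10 (nat_lit 16) (nat_lit 0x200000001300080000000000000000000000000000000) (nat_lit 0x0) (nat_lit 0x7000fc001f803fc0046007f003f807fc01fc003e000f000000000) := Q_10 (nat_lit 124) (C_10 L58239 (C_10 L58241 (C_10 L58264 (C_10 L58271 (C_10 L58333 (C_10 L58408 (C_10 L56583 (C_10 L58409 (C_10 L58430 (C_10 L58443 (C_10 L58458 (C_10 L58472 (C_10 L58474 N_10))))))))))))) (by decide +kernel)
theorem L58476 : W_10 (nat_lit 2) (nat_lit 0x2000010017800d4000200028000000000000000000000) (nat_lit 0x0) (nat_lit 0x10001400000000000000000) := D_10 (nat_lit 88) (nat_lit 70) (nat_lit 72) (nat_lit 4) (nat_lit 3) (nat_lit 8) (nat_lit 6) (nat_lit 3) (nat_lit 8) (by decide +kernel)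
theorem L58477 : W_10 (nat_lit 3) (nat_lit 0x2000010017800d4000200008000000000000000000000) (nat_lit 0x0) (nat_lit 0x400030001400000000000000000) := T_10 (nat_lit 89) (nat_lit 106) (nat_lit 6) (nat_lit 3) (nat_lit 9) L58476 (by decide +kernel)
theorem L58478 : W_10 (nat_lit 4) (nat_lit 0x2000010017800d4000200000000000000000000000000) (nat_lit 0x0) (nat_lit 0x500038001400000000000000000) := T_10 (nat_lit 87) (nat_lit 104) (nat_lit 4) (nat_lit 3) (nat_lit 9) L58477 (by decide +kernel)
theorem L58479 : W_10 (nat_lit 5) (nat_lit 0x2000000017800d4000200000000000000000000000000) (nat_lit 0x0) (nat_lit 0x1800000000000500038001400000000000000000) := T_10 (nat_lit 156) (nat_lit 155) (nat_lit 1) (nat_lit 6) (nat_lit 8) L58478 (by decide +kernel)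
theorem L58480 : W_10 (nat_lit 6) (nat_lit 0x2000000013800d4000200000000000000000000000000) (nat_lit 0x0) (nat_lit 0x1800400002000500038001400000000000000000) := T_10 (nat_lit 142) (nat_lit 121) (nat_lit 0) (nat_lit 6) (nat_lit 8) L58479 (by decide +kernel)
theorem L58481 : W_10 (nat_lit 7) (nat_lit 0x200000001380094000200000000000000000000000000) (nat_lit 0x0) (nat_lit 0x1800400062000500038001400000000000000000) := T_10 (nat_lit 126) (nat_lit 125) (nat_lit 1) (nat_lit 8) (nat_lit 7) L58480 (by decide +kernel)
theorem L58482 : W_10 (nat_lit 2) (nat_lit 0x200000001780094000200038000000000000000000000) (nat_lit 0x0) (nat_lit 0x1800000000000100000000000000000000000000) := D_10 (nat_lit 156) (nat_lit 104) (nat_lit 155) (nat_lit 4) (nat_lit 3) (nat_lit 9) (nat_lit 1) (nat_lit 6) (nat_lit 8) (by decide +kernel)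
theorem L58483 : W_10 (nat_lit 3) (nat_lit 0x200000001380094000200038000000000000000000000) (nat_lit 0x0) (nat_lit 0x1800400002000100000000000000000000000000) := T_10 (nat_lit 142) (nat_lit 121) (nat_lit 0) (nat_lit 6) (nat_lit 8) L58482 (by decide +kernel)
theorem L58484 : W_10 (nat_lit 4) (nat_lit 0x200000001380094000200030000000000000000000000) (nat_lit 0x0) (nat_lit 0x1800400002000100008000400000000000000000) := T_10 (nat_lit 87) (nat_lit 70) (nat_lit 4) (nat_lit 3) (nat_lit 8) L58483 (by decide +kernel)
theorem L58485 : W_10 (nat_lit 5) (nat_lit 0x200000001380094000200010000000000000000000000) (nat_lit 0x0) (nat_lit 0x1800400002000100028001400000000000000000) := T_10 (nat_lit 89) (nat_lit 72) (nat_lit 6) (nat_lit 3) (nat_lit 8) L58484 (by decide +kernel)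
theorem L58486 : W_10 (nat_lit 6) (nat_lit 0x200000001380094000200000000000000000000000000) (nat_lit 0x0) (nat_lit 0x3800400002000100038001400000000000000000) := T_10 (nat_lit 88) (nat_lit 157) (nat_lit 7) (nat_lit 3) (nat_lit 5) L58485 (by decide +kernel)
theorem L58487 : W_10 (nat_lit 2) (nat_lit 0x200000001780094000200018000000000000000000000) (nat_lit 0x0) (nat_lit 0x1800000000000100000000000000000000000000) := D_10 (nat_lit 156) (nat_lit 155) (nat_lit 104) (nat_lit 1) (nat_lit 6) (nat_lit 8) (nat_lit 4) (nat_lit 3) (nat_lit 9) (by decide +kernel)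
theorem L58488 : W_10 (nat_lit 3) (nat_lit 0x200000001780094000200010000000000000000000000) (nat_lit 0x0) (nat_lit 0x1800000000000100008000400000000000000000) := T_10 (nat_lit 87) (nat_lit 70) (nat_lit 4) (nat_lit 3) (nat_lit 8) L58487 (by decide +kernel)
theorem L58489 : W_10 (nat_lit 4) (nat_lit 0x200000001780094000200000000000000000000000000) (nat_lit 0x0) (nat_lit 0x3800000000000100018000400000000000000000) := T_10 (nat_lit 88) (nat_lit 157) (nat_lit 7) (nat_lit 3) (nat_lit 5) L58488 (by decide +kernel)
theorem L58490 : W_10 (nat_lit 5) (nat_lit 0x200000001380094000200000000000000000000000000) (nat_lit 0x0) (nat_lit 0x3800400002000100018000400000000000000000) := T_10 (nat_lit 142) (nat_lit 121) (nat_lit 0) (nat_lit 6) (nat_lit 8) L58489 (by decide +kernel)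
theorem L58491 : W_10 (nat_lit 2) (nat_lit 0x2000000013800960002000b0000d00040002000000000) (nat_lit 0x0) (nat_lit 0x80004000200000) := D_10 (nat_lit 38) (nat_lit 21) (nat_lit 55) (nat_lit 6) (nat_lit 3) (nat_lit 5) (nat_lit 6) (nat_lit 3) (nat_lit 6) (by decide +kernel)
theorem L58492 : W_10 (nat_lit 3) (nat_lit 0x2000000013800960002000b0000d00040000000000000) (nat_lit 0x0) (nat_lit 0x400000000000080006000200000) := T_10 (nat_lit 37) (nat_lit 106) (nat_lit 7) (nat_lit 3) (nat_lit 2) L58491 (by decide +kernel)
theorem L58493 : W_10 (nat_lit 4) (nat_lit 0x200000001380096000200030000d00040000000000000) (nat_lit 0x0) (nat_lit 0x4000c0000000080006000200000) := T_10 (nat_lit 91) (nat_lit 90) (nat_lit 0) (nat_lit 6) (nat_lit 5) L58492 (by decide +kernel)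
theorem L58494 : W_10 (nat_lit 5) (nat_lit 0x200000001380096000200030000d00000000000000000) (nat_lit 0x0) (nat_lit 0x5000c00000000c0006000200000) := T_10 (nat_lit 54) (nat_lit 104) (nat_lit 5) (nat_lit 3) (nat_lit 3) L58493 (by decide +kernel)
theorem L58495 : W_10 (nat_lit 6) (nat_lit 0x200000001380096000200030000c00000000000000000) (nat_lit 0x0) (nat_lit 0x5000c00003000c0006000200000) := T_10 (nat_lit 68) (nat_lit 69) (nat_lit 3) (nat_lit 0) (nat_lit 4) L58494 (by decide +kernel)
theorem L58496 : W_10 (nat_lit 7) (nat_lit 0x200000001380096000200030000400000000000000000) (nat_lit 0x0) (nat_lit 0x5000c0000b000e0006000200000) := T_10 (nat_lit 71) (nat_lit 53) (nat_lit 4) (nat_lit 3) (nat_lit 7) L58495 (by decide +kernel)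
theorem L58497 : W_10 (nat_lit 8) (nat_lit 0x200000001380094000200030000400000000000000000) (nat_lit 0x0) (nat_lit 0x4000020005000c0000b000e0006000200000) := T_10 (nat_lit 121) (nat_lit 142) (nat_lit 0) (nat_lit 6) (nat_lit 8) L58496 (by decide +kernel)
theorem L58498 : W_10 (nat_lit 9) (nat_lit 0x200000001380094000200030000000000000000000000) (nat_lit 0x0) (nat_lit 0x4000020005000c8000f000e0006000200000) := T_10 (nat_lit 70) (nat_lit 87) (nat_lit 4) (nat_lit 3) (nat_lit 8) L58497 (by decide +kernel)
theorem L58499 : W_10 (nat_lit 10) (nat_lit 0x200000001380094000200010000000000000000000000) (nat_lit 0x0) (nat_lit 0x4000020005000e8001f000e0006000200000) := T_10 (nat_lit 89) (nat_lit 72) (nat_lit 6) (nat_lit 3) (nat_lit 8) L58498 (by decide +kernel)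
theorem L58500 : W_10 (nat_lit 11) (nat_lit 0x200000001380094000200000000000000000000000000) (nat_lit 0x0) (nat_lit 0x20004000020005000f8001f000e0006000200000) := T_10 (nat_lit 88) (nat_lit 157) (nat_lit 7) (nat_lit 3) (nat_lit 5) L58499 (by decide +kernel)
theorem L58501 : W_10 (nat_lit 2) (nat_lit 0x2000010017800b4000300000000000000000000000000) (nat_lit 0x0) (nat_lit 0xc00020000000000000000000000) := D_10 (nat_lit 106) (nat_lit 107) (nat_lit 89) (nat_lit 3) (nat_lit 2) (nat_lit 6) (nat_lit 6) (nat_lit 3) (nat_lit 9) (by decide +kernel)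
theorem L58502 : W_10 (nat_lit 3) (nat_lit 0x2000010017800b4000200000000000000000000000000) (nat_lit 0x0) (nat_lit 0xd00028000000000000000000000) := T_10 (nat_lit 104) (nat_lit 87) (nat_lit 4) (nat_lit 3) (nat_lit 9) L58501 (by decide +kernel)
theorem L58503 : W_10 (nat_lit 4) (nat_lit 0x2000000017800b4000200000000000000000000000000) (nat_lit 0x0) (nat_lit 0x1800000000000d00028000000000000000000000) := T_10 (nat_lit 156) (nat_lit 155) (nat_lit 1) (nat_lit 6) (nat_lit 8) L58502 (by decide +kernel)
theorem L58504 : W_10 (nat_lit 5) (nat_lit 0x200000001780094000200000000000000000000000000) (nat_lit 0x0) (nat_lit 0x1800000060000d00028000000000000000000000) := T_10 (nat_lit 125) (nat_lit 126) (nat_lit 2) (nat_lit 3) (nat_lit 8) L58503 (by decide +kernel)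
theorem L58505 : W_10 (nat_lit 6) (nat_lit 0x200000001380094000200000000000000000000000000) (nat_lit 0x0) (nat_lit 0x1800400062000d00028000000000000000000000) := T_10 (nat_lit 142) (nat_lit 121) (nat_lit 0) (nat_lit 6) (nat_lit 8) L58504 (by decide +kernel)
theorem L58506 : W_10 (nat_lit 2) (nat_lit 0x200000001780094000200030000000000000000000000) (nat_lit 0x0) (nat_lit 0x1800000000000400000000000000000000000000) := D_10 (nat_lit 156) (nat_lit 155) (nat_lit 106) (nat_lit 1) (nat_lit 6) (nat_lit 8) (nat_lit 6) (nat_lit 3) (nat_lit 9) (by decide +kernel)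
theorem L58507 : W_10 (nat_lit 3) (nat_lit 0x200000001780094000200010000000000000000000000) (nat_lit 0x0) (nat_lit 0x1800000000000400020001000000000000000000) := T_10 (nat_lit 89) (nat_lit 72) (nat_lit 6) (nat_lit 3) (nat_lit 8) L58506 (by decide +kernel)
theorem L58508 : W_10 (nat_lit 4) (nat_lit 0x200000001780094000200000000000000000000000000) (nat_lit 0x0) (nat_lit 0x3800000000000400030001000000000000000000) := T_10 (nat_lit 88) (nat_lit 157) (nat_lit 7) (nat_lit 3) (nat_lit 5) L58507 (by decide +kernel)
theorem L58509 : W_10 (nat_lit 5) (nat_lit 0x200000001380094000200000000000000000000000000) (nat_lit 0x0) (nat_lit 0x3800400002000400030001000000000000000000) := T_10 (nat_lit 142) (nat_lit 121) (nat_lit 0) (nat_lit 6) (nat_lit 8) L58508 (by decide +kernel)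
theorem L58510 : W_10 (nat_lit 12) (nat_lit 0x200000001380094000000000000000000000000000000) (nat_lit 0x0) (nat_lit 0x3800400062000f000f8001f000e0006000200000) := Q_10 (nat_lit 105) (C_10 L58481 (C_10 L56491 (C_10 L58486 (C_10 L58490 (C_10 L58500 (C_10 L58505 (C_10 L58509 N_10))))))) (by decide +kernel)
theorem L58511 : W_10 (nat_lit 2) (nat_lit 0x2000000013800de000900008002000000000000000000) (nat_lit 0x0) (nat_lit 0x20001000000000000200000000000000000000000000) := D_10 (nat_lit 156) (nat_lit 173) (nat_lit 105) (nat_lit 4) (nat_lit 3) (nat_lit 10) (nat_lit 4) (nat_lit 3) (nat_lit 9) (by decide +kernel)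
theorem L58512 : W_10 (nat_lit 3) (nat_lit 0x2000000013800de000900000002000000000000000000) (nat_lit 0x0) (nat_lit 0x20001000000000000200008000400000000000000000) := T_10 (nat_lit 87) (nat_lit 70) (nat_lit 7) (nat_lit 2) (nat_lit 4) L58511 (by decide +kernel)
theorem L58513 : W_10 (nat_lit 4) (nat_lit 0x2000000013800de000900000000000000000000000000) (nat_lit 0x0) (nat_lit 0x20001000000000000200048002400000000000000000) := T_10 (nat_lit 73) (nat_lit 90) (nat_lit 5) (nat_lit 5) (nat_lit 4) L58512 (by decide +kernel)
theorem L58514 : W_10 (nat_lit 5) (nat_lit 0x2000000013800de000800000000000000000000000000) (nat_lit 0x0) (nat_lit 0x20001000000000000380048002400000000000000000) := T_10 (nat_lit 104) (nat_lit 103) (nat_lit 0) (nat_lit 5) (nat_lit 7) L58513 (by decide +kernel)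
theorem L58515 : W_10 (nat_lit 6) (nat_lit 0x2000000013800de000000000000000000000000000000) (nat_lit 0x0) (nat_lit 0x20001000000000001b80048002400000000000000000) := T_10 (nat_lit 107) (nat_lit 108) (nat_lit 2) (nat_lit 2) (nat_lit 7) L58514 (by decide +kernel)
theorem L58516 : W_10 (nat_lit 7) (nat_lit 0x2000000013800dc000000000000000000000000000000) (nat_lit 0x0) (nat_lit 0x20001000000003001b80048002400000000000000000) := T_10 (nat_lit 121) (nat_lit 120) (nat_lit 3) (nat_lit 1) (nat_lit 7) L58515 (by decide +kernel)
theorem L58517 : W_10 (nat_lit 8) (nat_lit 0x20000000138009c000000000000000000000000000000) (nat_lit 0x0) (nat_lit 0x20001000000063001b80048002400000000000000000) := T_10 (nat_lit 126) (nat_lit 125) (nat_lit 1) (nat_lit 7) (nat_lit 7) L58516 (by decide +kernel)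
theorem L58518 : W_10 (nat_lit 2) (nat_lit 0x20000000138009e000800000000000000000000000000) (nat_lit 0x0) (nat_lit 0x2000000000000000040002000000000000000000) := D_10 (nat_lit 90) (nat_lit 73) (nat_lit 157) (nat_lit 5) (nat_lit 5) (nat_lit 4) (nat_lit 5) (nat_lit 5) (nat_lit 5) (by decide +kernel)
theorem L58519 : W_10 (nat_lit 3) (nat_lit 0x20000000138009e000000000000000000000000000000) (nat_lit 0x0) (nat_lit 0x2000000000001800040002000000000000000000) := T_10 (nat_lit 107) (nat_lit 108) (nat_lit 2) (nat_lit 2) (nat_lit 7) L58518 (by decide +kernel)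
theorem L58520 : W_10 (nat_lit 4) (nat_lit 0x20000000138009c000000000000000000000000000000) (nat_lit 0x0) (nat_lit 0x2000000003001800040002000000000000000000) := T_10 (nat_lit 121) (nat_lit 120) (nat_lit 3) (nat_lit 1) (nat_lit 7) L58519 (by decide +kernel)
theorem L58521 : W_10 (nat_lit 2) (nat_lit 0x2000000013800bd000200000000000000000000000000) (nat_lit 0x0) (nat_lit 0x40002000000000000000010000000000000000000000) := D_10 (nat_lit 157) (nat_lit 174) (nat_lit 88) (nat_lit 4) (nat_lit 4) (nat_lit 10) (nat_lit 7) (nat_lit 3) (nat_lit 5) (by decide +kernel)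
theorem L58522 : W_10 (nat_lit 3) (nat_lit 0x2000000013800bd000000000000000000000000000000) (nat_lit 0x0) (nat_lit 0x40002000000000000300010000000000000000000000) := T_10 (nat_lit 105) (nat_lit 104) (nat_lit 0) (nat_lit 6) (nat_lit 7) L58521 (by decide +kernel)
theorem L58523 : W_10 (nat_lit 4) (nat_lit 0x20000000138009d000000000000000000000000000000) (nat_lit 0x0) (nat_lit 0x40002000000060000300010000000000000000000000) := T_10 (nat_lit 125) (nat_lit 126) (nat_lit 1) (nat_lit 7) (nat_lit 7) L58522 (by decide +kernel)
theorem L58524 : W_10 (nat_lit 5) (nat_lit 0x20000000138009c000000000000000000000000000000) (nat_lit 0x0) (nat_lit 0x40002000000063000300010000000000000000000000) := T_10 (nat_lit 120) (nat_lit 121) (nat_lit 3) (nat_lit 1) (nat_lit 7) L58523 (by decide +kernel)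
theorem L58525 : W_10 (nat_lit 2) (nat_lit 0x2000000013800bc000200000000000000000000000000) (nat_lit 0x0) (nat_lit 0x40002000000000000000010000000000000000000000) := D_10 (nat_lit 157) (nat_lit 174) (nat_lit 88) (nat_lit 4) (nat_lit 4) (nat_lit 10) (nat_lit 7) (nat_lit 3) (nat_lit 5) (by decide +kernel)
theorem L58526 : W_10 (nat_lit 3) (nat_lit 0x2000000013800bc000000000000000000000000000000) (nat_lit 0x0) (nat_lit 0x40002000000000000300010000000000000000000000) := T_10 (nat_lit 105) (nat_lit 104) (nat_lit 0) (nat_lit 6) (nat_lit 7) L58525 (by decide +kernel)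
theorem L58527 : W_10 (nat_lit 4) (nat_lit 0x20000000138009c000000000000000000000000000000) (nat_lit 0x0) (nat_lit 0x40002000000060000300010000000000000000000000) := T_10 (nat_lit 125) (nat_lit 126) (nat_lit 1) (nat_lit 7) (nat_lit 7) L58526 (by decide +kernel)
theorem L58528 : W_10 (nat_lit 9) (nat_lit 0x200000001380094000000000000000000000000000000) (nat_lit 0x0) (nat_lit 0x6000300000006b001b80058002400000000000000000) := Q_10 (nat_lit 123) (C_10 L58517 (C_10 L58520 (C_10 L58524 (C_10 L58527 N_10)))) (by decide +kernel)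
theorem L58529 : W_10 (nat_lit 2) (nat_lit 0x200002001380094000800010000000000000000000000) (nat_lit 0x0) (nat_lit 0x800040000000000008000000000000000000000000000000) := D_10 (nat_lit 174) (nat_lit 191) (nat_lit 123) (nat_lit 6) (nat_lit 4) (nat_lit 11) (nat_lit 6) (nat_lit 4) (nat_lit 10) (by decide +kernel)
theorem L58530 : W_10 (nat_lit 3) (nat_lit 0x200002001380094000000010000000000000000000000) (nat_lit 0x0) (nat_lit 0x800040000000000008000800040000000000000000000000) := T_10 (nat_lit 107) (nat_lit 90) (nat_lit 5) (nat_lit 5) (nat_lit 5) L58529 (by decide +kernel)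
theorem L58531 : W_10 (nat_lit 4) (nat_lit 0x200002001380094000000000000000000000000000000) (nat_lit 0x0) (nat_lit 0x800040000000000008000a00050000000000000000000000) := T_10 (nat_lit 88) (nat_lit 105) (nat_lit 7) (nat_lit 3) (nat_lit 5) L58530 (by decide +kernel)
theorem L58532 : W_10 (nat_lit 2) (nat_lit 0x240002001380094000000000000000000000000000000) (nat_lit 0x0) (nat_lit 0x8000800040000000000000000000000) := D_10 (nat_lit 107) (nat_lit 90) (nat_lit 123) (nat_lit 5) (nat_lit 5) (nat_lit 5) (nat_lit 6) (nat_lit 4) (nat_lit 10) (by decide +kernel)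
theorem L58533 : W_10 (nat_lit 3) (nat_lit 0x200002001380094000000000000000000000000000000) (nat_lit 0x0) (nat_lit 0x800040000000000008000800040000000000000000000000) := T_10 (nat_lit 174) (nat_lit 191) (nat_lit 6) (nat_lit 4) (nat_lit 11) L58532 (by decide +kernel)
theorem L58534 : W_10 (nat_lit 8) (nat_lit 0x200000001380094000000000000000000000000000000) (nat_lit 0x0) (nat_lit 0x800050003c00000068000b00058000000000000000000000) := Q_10 (nat_lit 157) (C_10 L56260 (C_10 L56203 (C_10 L56206 (C_10 L58531 (C_10 L58533 N_10))))) (by decide +kernel)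
theorem L58535 : W_10 (nat_lit 13) (nat_lit 0x200000001380090000000000000000000000000000000) (nat_lit 0x0) (nat_lit 0x800070003c0040006f801f800f8003f000e0006000200000) := Q_10 (nat_lit 122) (C_10 L56519 (C_10 L58510 (C_10 L58528 (C_10 L58534 N_10)))) (by decide +kernel)
theorem L58536 : W_10 (nat_lit 14) (nat_lit 0x200000001300090000000000000000000000000000000) (nat_lit 0x0) (nat_lit 0xe00070003e004e006f801f800f8003f000e0006000200000) := Q_10 (nat_lit 139) (C_10 L56197 (C_10 L56196 (C_10 L58535 N_10))) (by decide +kernel)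
theorem L58537 : W_10 (nat_lit 11) (nat_lit 0x200000001300090000000000000000000000000000000) (nat_lit 0x0) (nat_lit 0xc00070007c000e006f001f801f8005800000000000000000) := Q_10 (nat_lit 157) (C_10 L57619 (C_10 L57314 (C_10 L56673 (C_10 L56656 N_10)))) (by decide +kernel)
theorem L58542 : W_10 (nat_lit 6) (nat_lit 0x200000001300090000800040000000000000000000000) (nat_lit 0x0) (nat_lit 0x400000000800100008000700018000c000000000) := T_10 (nat_lit 91) (nat_lit 74) (nat_lit 6) (nat_lit 5) (nat_lit 8) L58541 (by decide +kernel)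
theorem L58546 : W_10 (nat_lit 5) (nat_lit 0x200000001300090000800040000000000000000000000) (nat_lit 0x0) (nat_lit 0x1000080004000000008001400080006000000000000000000) := T_10 (nat_lit 91) (nat_lit 74) (nat_lit 6) (nat_lit 5) (nat_lit 8) L58545 (by decide +kernel)
theorem L58547 : W_10 (nat_lit 7) (nat_lit 0x200000001300090000800000000000000000000000000) (nat_lit 0x0) (nat_lit 0x10000800040000000080014000e000700018000c000000000) := Q_10 (nat_lit 90) (C_10 L56155 (C_10 L31982 (C_10 L58542 (C_10 L58546 N_10)))) (by decide +kernel)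
theorem L58548 : W_10 (nat_lit 8) (nat_lit 0x280004001300090000800000000000000000000000000) (nat_lit 0x0) (nat_lit 0x500038001400000000000400034003a0000000000000000000000) := T_10 (nat_lit 106) (nat_lit 89) (nat_lit 4) (nat_lit 5) (nat_lit 9) L58279 (by decide +kernel)
theorem L58549 : W_10 (nat_lit 2) (nat_lit 0x280004001300090000800000000000000000000000000) (nat_lit 0x0) (nat_lit 0x800040002000000000000000000000000000000000000000) := D_10 (nat_lit 174) (nat_lit 191) (nat_lit 157) (nat_lit 5) (nat_lit 5) (nat_lit 7) (nat_lit 5) (nat_lit 5) (nat_lit 6) (by decide +kernel)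
theorem L58550 : W_10 (nat_lit 2) (nat_lit 0x10003000280004001300090003c00100000000000000000000000) (nat_lit 0x0) (nat_lit 0x200020000000000002000000000000000000000000000000000000000) := D_10 (nat_lit 209) (nat_lit 157) (nat_lit 225) (nat_lit 4) (nat_lit 5) (nat_lit 12) (nat_lit 5) (nat_lit 5) (nat_lit 9) (by decide +kernel)
theorem L58551 : W_10 (nat_lit 3) (nat_lit 0x3000280004001300090003c00100000000000000000000000) (nat_lit 0x0) (nat_lit 0x200030000800000002000000000000000000000000000000000000000) := T_10 (nat_lit 208) (nat_lit 191) (nat_lit 5) (nat_lit 5) (nat_lit 8) L58550 (by decide +kernel)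
theorem L58552 : W_10 (nat_lit 4) (nat_lit 0x2000280004001300090003c00100000000000000000000000) (nat_lit 0x0) (nat_lit 0x200070001800000002000000000000000000000000000000000000000) := T_10 (nat_lit 192) (nat_lit 210) (nat_lit 7) (nat_lit 5) (nat_lit 8) L58551 (by decide +kernel)
theorem L58553 : W_10 (nat_lit 5) (nat_lit 0x280004001300090003c00100000000000000000000000) (nat_lit 0x0) (nat_lit 0x200070003800100002000000000000000000000000000000000000000) := T_10 (nat_lit 193) (nat_lit 176) (nat_lit 7) (nat_lit 5) (nat_lit 7) L58552 (by decide +kernel)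
theorem L58554 : W_10 (nat_lit 6) (nat_lit 0x280004001300090003c00000000000000000000000000) (nat_lit 0x0) (nat_lit 0x200070003800100002000000000000000300000000000000000000000) := T_10 (nat_lit 92) (nat_lit 93) (nat_lit 2) (nat_lit 4) (nat_lit 6) L58553 (by decide +kernel)
theorem L58555 : W_10 (nat_lit 7) (nat_lit 0x280004001300090001c00000000000000000000000000) (nat_lit 0x0) (nat_lit 0x200070003800100002000000040002000300000000000000000000000) := T_10 (nat_lit 109) (nat_lit 126) (nat_lit 3) (nat_lit 4) (nat_lit 6) L58554 (by decide +kernel)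
theorem L58556 : W_10 (nat_lit 8) (nat_lit 0x280004001300090000c00000000000000000000000000) (nat_lit 0x0) (nat_lit 0x200070003800100002000000040003000380000000000000000000000) := T_10 (nat_lit 108) (nat_lit 91) (nat_lit 6) (nat_lit 5) (nat_lit 9) L58555 (by decide +kernel)
theorem L58557 : W_10 (nat_lit 9) (nat_lit 0x280004001300090000800000000000000000000000000) (nat_lit 0x0) (nat_lit 0x2000700038001000020000000400034003a0000000000000000000000) := T_10 (nat_lit 106) (nat_lit 89) (nat_lit 4) (nat_lit 5) (nat_lit 9) L58556 (by decide +kernel)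
theorem L58558 : W_10 (nat_lit 2) (nat_lit 0x3000280004001300090001800000000000000000000000000) (nat_lit 0x0) (nat_lit 0x20000000040002000000000000000000000000000000000000000) := D_10 (nat_lit 157) (nat_lit 209) (nat_lit 174) (nat_lit 4) (nat_lit 5) (nat_lit 12) (nat_lit 5) (nat_lit 5) (nat_lit 6) (by decide +kernel)
theorem L58559 : W_10 (nat_lit 3) (nat_lit 0x2000280004001300090001800000000000000000000000000) (nat_lit 0x0) (nat_lit 0x60001000040002000000000000000000000000000000000000000) := T_10 (nat_lit 192) (nat_lit 210) (nat_lit 7) (nat_lit 5) (nat_lit 8) L58558 (by decide +kernel)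
theorem L58560 : W_10 (nat_lit 4) (nat_lit 0x2000280004001300090000800000000000000000000000000) (nat_lit 0x0) (nat_lit 0x60001000040002000000000001000080000000000000000000000) := T_10 (nat_lit 108) (nat_lit 91) (nat_lit 6) (nat_lit 5) (nat_lit 9) L58559 (by decide +kernel)
theorem L58561 : W_10 (nat_lit 5) (nat_lit 0x280004001300090000800000000000000000000000000) (nat_lit 0x0) (nat_lit 0x60003000140002000000000001000080000000000000000000000) := T_10 (nat_lit 193) (nat_lit 176) (nat_lit 7) (nat_lit 5) (nat_lit 7) L58560 (by decide +kernel)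
theorem L58562 : W_10 (nat_lit 10) (nat_lit 0x200004001300090000800000000000000000000000000) (nat_lit 0x0) (nat_lit 0x2000700038001c00020000000400034003a0000000000000000000000) := Q_10 (nat_lit 175) (C_10 L58548 (C_10 L58549 (C_10 L58557 (C_10 L58561 N_10)))) (by decide +kernel)
theorem L58563 : W_10 (nat_lit 2) (nat_lit 0x200007001300098003c00100000000000000000000000) (nat_lit 0x0) (nat_lit 0xc00400000000000000000000000000000000000) := D_10 (nat_lit 155) (nat_lit 142) (nat_lit 154) (nat_lit 2) (nat_lit 2) (nat_lit 9) (nat_lit 2) (nat_lit 1) (nat_lit 9) (by decide +kernel)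
theorem L58564 : W_10 (nat_lit 3) (nat_lit 0x200006001300098003c00100000000000000000000000) (nat_lit 0x0) (nat_lit 0x20001c00400000000000000000000000000000000000) := T_10 (nat_lit 156) (nat_lit 173) (nat_lit 5) (nat_lit 4) (nat_lit 6) L58563 (by decide +kernel)
theorem L58565 : W_10 (nat_lit 4) (nat_lit 0x200004001300098003c00100000000000000000000000) (nat_lit 0x0) (nat_lit 0x60003c00400000000000000000000000000000000000) := T_10 (nat_lit 157) (nat_lit 174) (nat_lit 6) (nat_lit 4) (nat_lit 10) L58564 (by decide +kernel)
theorem L58566 : W_10 (nat_lit 5) (nat_lit 0x200004001300090003c00100000000000000000000000) (nat_lit 0x0) (nat_lit 0x60003c0040000c000000000000000000000000000000) := T_10 (nat_lit 123) (nat_lit 122) (nat_lit 1) (nat_lit 7) (nat_lit 6) L58565 (by decide +kernel)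
theorem L58567 : W_10 (nat_lit 6) (nat_lit 0x200004001300090003c00000000000000000000000000) (nat_lit 0x0) (nat_lit 0x60003c0040000c000000300000000000000000000000) := T_10 (nat_lit 92) (nat_lit 93) (nat_lit 2) (nat_lit 4) (nat_lit 6) L58566 (by decide +kernel)
theorem L58568 : W_10 (nat_lit 7) (nat_lit 0x200004001300090001c00000000000000000000000000) (nat_lit 0x0) (nat_lit 0x60003c0040004c002000300000000000000000000000) := T_10 (nat_lit 109) (nat_lit 126) (nat_lit 3) (nat_lit 4) (nat_lit 6) L58567 (by decide +kernel)
theorem L58569 : W_10 (nat_lit 8) (nat_lit 0x200004001300090000c00000000000000000000000000) (nat_lit 0x0) (nat_lit 0x60003c0040004c003000380000000000000000000000) := T_10 (nat_lit 108) (nat_lit 91) (nat_lit 6) (nat_lit 5) (nat_lit 9) L58568 (by decide +kernel)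
theorem L58570 : W_10 (nat_lit 9) (nat_lit 0x200004001300090000800000000000000000000000000) (nat_lit 0x0) (nat_lit 0x60003c0040004c0034003a0000000000000000000000) := T_10 (nat_lit 106) (nat_lit 89) (nat_lit 4) (nat_lit 5) (nat_lit 9) L58569 (by decide +kernel)
theorem L58571 : W_10 (nat_lit 2) (nat_lit 0x10002c0004001300090001800000000000000000000000000) (nat_lit 0x0) (nat_lit 0x40002000100000000000000000000000000000000000000000000) := D_10 (nat_lit 193) (nat_lit 176) (nat_lit 210) (nat_lit 7) (nat_lit 5) (nat_lit 7) (nat_lit 7) (nat_lit 5) (nat_lit 8) (by decide +kernel)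
theorem L58572 : W_10 (nat_lit 3) (nat_lit 0x2c0004001300090001800000000000000000000000000) (nat_lit 0x0) (nat_lit 0x40003000100000000000008000000000000000000000000000000) := T_10 (nat_lit 192) (nat_lit 123) (nat_lit 4) (nat_lit 5) (nat_lit 11) L58571 (by decide +kernel)
theorem L58573 : W_10 (nat_lit 4) (nat_lit 0x240004001300090001800000000000000000000000000) (nat_lit 0x0) (nat_lit 0x40003800180000000000008000000000000000000000000000000) := T_10 (nat_lit 175) (nat_lit 191) (nat_lit 5) (nat_lit 5) (nat_lit 7) L58572 (by decide +kernel)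
theorem L58574 : W_10 (nat_lit 5) (nat_lit 0x240004001300090000800000000000000000000000000) (nat_lit 0x0) (nat_lit 0x40003800180000000000008001000080000000000000000000000) := T_10 (nat_lit 108) (nat_lit 91) (nat_lit 6) (nat_lit 5) (nat_lit 9) L58573 (by decide +kernel)
theorem L58575 : W_10 (nat_lit 6) (nat_lit 0x200004001300090000800000000000000000000000000) (nat_lit 0x0) (nat_lit 0x400038001c0002000000008001000080000000000000000000000) := T_10 (nat_lit 174) (nat_lit 157) (nat_lit 5) (nat_lit 5) (nat_lit 6) L58574 (by decide +kernel)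
theorem L58576 : W_10 (nat_lit 5) (nat_lit 0x200006001300090000800000000000000000000000000) (nat_lit 0x0) (nat_lit 0x60003000180000000000008000400020000000000000000000000) := T_10 (nat_lit 106) (nat_lit 89) (nat_lit 4) (nat_lit 5) (nat_lit 9) L32365 (by decide +kernel)
theorem L58577 : W_10 (nat_lit 6) (nat_lit 0x200004001300090000800000000000000000000000000) (nat_lit 0x0) (nat_lit 0x600030001c0002000000008000400020000000000000000000000) := T_10 (nat_lit 157) (nat_lit 174) (nat_lit 5) (nat_lit 5) (nat_lit 6) L58576 (by decide +kernel)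
theorem L58578 : W_10 (nat_lit 11) (nat_lit 0x200000001300090000800000000000000000000000000) (nat_lit 0x0) (nat_lit 0x2000700038001e0007c0040004c0034003a0000000000000000000000) := Q_10 (nat_lit 158) (C_10 L56308 (C_10 L58562 (C_10 L58570 (C_10 L58575 (C_10 L58577 N_10))))) (by decide +kernel)
theorem L58579 : W_10 (nat_lit 6) (nat_lit 0x200000001300090000800000000000000000000000000) (nat_lit 0x0) (nat_lit 0x10000800060000000080014000c0006000000000000000000) := T_10 (nat_lit 90) (nat_lit 157) (nat_lit 5) (nat_lit 5) (nat_lit 5) L58546 (by decide +kernel)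
theorem L58580 : W_10 (nat_lit 12) (nat_lit 0x200000001300090000000000000000000000000000000) (nat_lit 0x0) (nat_lit 0x2000700038001e0007c0040004c003c003e000700018000c000000000) := Q_10 (nat_lit 107) (C_10 L56156 (C_10 L58547 (C_10 L56152 (C_10 L58578 (C_10 L58579 N_10))))) (by decide +kernel)
theorem L58581 : W_10 (nat_lit 2) (nat_lit 0x2000000013000d0000800040005000000000000000000) (nat_lit 0x0) (nat_lit 0x2000280000000000000) := D_10 (nat_lit 73) (nat_lit 55) (nat_lit 57) (nat_lit 4) (nat_lit 5) (nat_lit 7) (nat_lit 6) (nat_lit 5) (nat_lit 7) (by decide +kernel)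
theorem L58582 : W_10 (nat_lit 3) (nat_lit 0x2000000013000d0000800040001000000000000000000) (nat_lit 0x0) (nat_lit 0x80006000280000000000000) := T_10 (nat_lit 74) (nat_lit 91) (nat_lit 6) (nat_lit 5) (nat_lit 8) L58581 (by decide +kernel)
theorem L58583 : W_10 (nat_lit 4) (nat_lit 0x2000000013000d0000800040000000000000000000000) (nat_lit 0x0) (nat_lit 0xa0007000280000000000000) := T_10 (nat_lit 72) (nat_lit 89) (nat_lit 4) (nat_lit 5) (nat_lit 8) L58582 (by decide +kernel)
theorem L58584 : W_10 (nat_lit 5) (nat_lit 0x2000000013000d0000800000000000000000000000000) (nat_lit 0x0) (nat_lit 0x20000000000000000e0007000280000000000000) := T_10 (nat_lit 90) (nat_lit 157) (nat_lit 5) (nat_lit 5) (nat_lit 5) L58583 (by decide +kernel)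
theorem L58585 : W_10 (nat_lit 6) (nat_lit 0x200000001300090000800000000000000000000000000) (nat_lit 0x0) (nat_lit 0x20000000600000000e0007000280000000000000) := T_10 (nat_lit 126) (nat_lit 125) (nat_lit 1) (nat_lit 8) (nat_lit 7) L58584 (by decide +kernel)
theorem L58586 : W_10 (nat_lit 5) (nat_lit 0x200000001300090000800040000000000000000000000) (nat_lit 0x0) (nat_lit 0x600000000a0007000280000000000000) := T_10 (nat_lit 126) (nat_lit 125) (nat_lit 1) (nat_lit 8) (nat_lit 7) L58583 (by decide +kernel)
theorem L58587 : W_10 (nat_lit 2) (nat_lit 0x2000040013400b0000800060002000000000000000000) (nat_lit 0x0) (nat_lit 0x80000000000000001000000000000100000000000000) := D_10 (nat_lit 108) (nat_lit 56) (nat_lit 175) (nat_lit 7) (nat_lit 5) (nat_lit 3) (nat_lit 6) (nat_lit 5) (nat_lit 10) (by decide +kernel)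
theorem L58588 : W_10 (nat_lit 3) (nat_lit 0x2000040013400b0000800060000000000000000000000) (nat_lit 0x0) (nat_lit 0x80000000400000001000000002000100000000000000) := T_10 (nat_lit 73) (nat_lit 142) (nat_lit 7) (nat_lit 5) (nat_lit 4) L58587 (by decide +kernel)
theorem L58589 : W_10 (nat_lit 4) (nat_lit 0x2000000013400b0000800060000000000000000000000) (nat_lit 0x0) (nat_lit 0x80004000400000001400000002000100000000000000) := T_10 (nat_lit 158) (nat_lit 106) (nat_lit 4) (nat_lit 5) (nat_lit 9) L58588 (by decide +kernel)
theorem L58590 : W_10 (nat_lit 5) (nat_lit 0x2000000013000b0000800060000000000000000000000) (nat_lit 0x0) (nat_lit 0x800040004c0000001400000002000100000000000000) := T_10 (nat_lit 138) (nat_lit 139) (nat_lit 2) (nat_lit 2) (nat_lit 8) L58589 (by decide +kernel)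
theorem L58591 : W_10 (nat_lit 6) (nat_lit 0x2000000013000b0000800040000000000000000000000) (nat_lit 0x0) (nat_lit 0x800040004c0000001400020003000100000000000000) := T_10 (nat_lit 89) (nat_lit 72) (nat_lit 4) (nat_lit 5) (nat_lit 8) L58590 (by decide +kernel)
theorem L58592 : W_10 (nat_lit 7) (nat_lit 0x200000001300090000800040000000000000000000000) (nat_lit 0x0) (nat_lit 0x800040004c0060001400020003000100000000000000) := T_10 (nat_lit 125) (nat_lit 126) (nat_lit 1) (nat_lit 8) (nat_lit 7) L58591 (by decide +kernel)
theorem L58597 : W_10 (nat_lit 6) (nat_lit 0x200000001300090000800040000000000000000000000) (nat_lit 0x0) (nat_lit 0x4000000060003700180004000000000000000000) := T_10 (nat_lit 91) (nat_lit 74) (nat_lit 6) (nat_lit 5) (nat_lit 8) L58596 (by decide +kernel)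
theorem L58598 : W_10 (nat_lit 8) (nat_lit 0x200000001300090000800000000000000000000000000) (nat_lit 0x0) (nat_lit 0x800040004c00600037001e0007000380000000000000) := Q_10 (nat_lit 90) (C_10 L56155 (C_10 L58586 (C_10 L58592 (C_10 L58597 N_10)))) (by decide +kernel)
theorem L58599 : W_10 (nat_lit 4) (nat_lit 0x2c00040013400b0000c00000000000000000000000000) (nat_lit 0x0) (nat_lit 0x40003000100000000400000000300000000000000000000000000) := T_10 (nat_lit 104) (nat_lit 105) (nat_lit 3) (nat_lit 2) (nat_lit 6) L32376 (by decide +kernel)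
theorem L58600 : W_10 (nat_lit 5) (nat_lit 0x2c00040013400b0000800000000000000000000000000) (nat_lit 0x0) (nat_lit 0x40003000100000000400000000700020000000000000000000000) := T_10 (nat_lit 106) (nat_lit 89) (nat_lit 4) (nat_lit 5) (nat_lit 9) L58599 (by decide +kernel)
theorem L58601 : W_10 (nat_lit 6) (nat_lit 0x2400040013400b0000800000000000000000000000000) (nat_lit 0x0) (nat_lit 0x40003800180000000400000000700020000000000000000000000) := T_10 (nat_lit 175) (nat_lit 191) (nat_lit 5) (nat_lit 5) (nat_lit 7) L58600 (by decide +kernel)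
theorem L58602 : W_10 (nat_lit 7) (nat_lit 0x2400040013000b0000800000000000000000000000000) (nat_lit 0x0) (nat_lit 0x400038001800000004c0000000700020000000000000000000000) := T_10 (nat_lit 138) (nat_lit 139) (nat_lit 2) (nat_lit 2) (nat_lit 8) L58601 (by decide +kernel)
theorem L58603 : W_10 (nat_lit 8) (nat_lit 0x2000040013000b0000800000000000000000000000000) (nat_lit 0x0) (nat_lit 0x400038001c00020004c0000000700020000000000000000000000) := T_10 (nat_lit 174) (nat_lit 157) (nat_lit 5) (nat_lit 5) (nat_lit 6) L58602 (by decide +kernel)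
theorem L58604 : W_10 (nat_lit 9) (nat_lit 0x200004001300090000800000000000000000000000000) (nat_lit 0x0) (nat_lit 0x400038001c00020004c0060000700020000000000000000000000) := T_10 (nat_lit 125) (nat_lit 126) (nat_lit 1) (nat_lit 8) (nat_lit 7) L58603 (by decide +kernel)
theorem L58605 : W_10 (nat_lit 2) (nat_lit 0x1000280006001300090001c00000000000000000000000000) (nat_lit 0x0) (nat_lit 0x40002000100000000000000000000000000000000000000000000) := D_10 (nat_lit 193) (nat_lit 176) (nat_lit 210) (nat_lit 7) (nat_lit 5) (nat_lit 7) (nat_lit 7) (nat_lit 5) (nat_lit 8) (by decide +kernel)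
theorem L58606 : W_10 (nat_lit 3) (nat_lit 0x280006001300090001c00000000000000000000000000) (nat_lit 0x0) (nat_lit 0x60003000100000000000000000000000000000000000000000000) := T_10 (nat_lit 192) (nat_lit 209) (nat_lit 4) (nat_lit 5) (nat_lit 12) L58605 (by decide +kernel)
theorem L58607 : W_10 (nat_lit 4) (nat_lit 0x200006001300090001c00000000000000000000000000) (nat_lit 0x0) (nat_lit 0x60003000180000000000020000000000000000000000000000000) := T_10 (nat_lit 175) (nat_lit 125) (nat_lit 6) (nat_lit 5) (nat_lit 10) L58606 (by decide +kernel)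
theorem L58608 : W_10 (nat_lit 5) (nat_lit 0x200006001300090001800000000000000000000000000) (nat_lit 0x0) (nat_lit 0x60003000180000000000020000400020000000000000000000000) := T_10 (nat_lit 106) (nat_lit 89) (nat_lit 4) (nat_lit 5) (nat_lit 9) L58607 (by decide +kernel)
theorem L58609 : W_10 (nat_lit 6) (nat_lit 0x200006001300090000800000000000000000000000000) (nat_lit 0x0) (nat_lit 0x600030001800000000000200014000a0000000000000000000000) := T_10 (nat_lit 108) (nat_lit 91) (nat_lit 6) (nat_lit 5) (nat_lit 9) L58608 (by decide +kernel)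
theorem L58610 : W_10 (nat_lit 7) (nat_lit 0x200004001300090000800000000000000000000000000) (nat_lit 0x0) (nat_lit 0x600030001c00020000000200014000a0000000000000000000000) := T_10 (nat_lit 157) (nat_lit 174) (nat_lit 5) (nat_lit 5) (nat_lit 6) L58609 (by decide +kernel)
theorem L58611 : W_10 (nat_lit 11) (nat_lit 0x200000001300090000800000000000000000000000000) (nat_lit 0x0) (nat_lit 0x2000700038001c00060004c00600037003a0000000000000000000000) := Q_10 (nat_lit 158) (C_10 L58562 (C_10 L56188 (C_10 L56170 (C_10 L58604 (C_10 L58610 N_10))))) (by decide +kernel)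
theorem L58612 : W_10 (nat_lit 2) (nat_lit 0x2000020013000d0000800000000000000000000000000) (nat_lit 0x0) (nat_lit 0x800040004000000000000000000000000000000000000000) := D_10 (nat_lit 174) (nat_lit 158) (nat_lit 191) (nat_lit 5) (nat_lit 5) (nat_lit 6) (nat_lit 6) (nat_lit 4) (nat_lit 11) (by decide +kernel)
theorem L58613 : W_10 (nat_lit 3) (nat_lit 0x2000000013000d0000800000000000000000000000000) (nat_lit 0x0) (nat_lit 0x800040006000000000000000040000000000000000000000) := T_10 (nat_lit 157) (nat_lit 90) (nat_lit 5) (nat_lit 5) (nat_lit 5) L58612 (by decide +kernel)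
theorem L58614 : W_10 (nat_lit 4) (nat_lit 0x200000001300090000800000000000000000000000000) (nat_lit 0x0) (nat_lit 0x800040006000000060000000040000000000000000000000) := T_10 (nat_lit 126) (nat_lit 125) (nat_lit 1) (nat_lit 8) (nat_lit 7) L58613 (by decide +kernel)
theorem L58615 : W_10 (nat_lit 12) (nat_lit 0x200000001300090000000000000000000000000000000) (nat_lit 0x0) (nat_lit 0x2000700038001c00060004c0060003f003e0007000380000000000000) := Q_10 (nat_lit 107) (C_10 L58585 (C_10 L56156 (C_10 L58598 (C_10 L58611 (C_10 L58614 N_10))))) (by decide +kernel)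
theorem L58616 : W_10 (nat_lit 2) (nat_lit 0x200000001380098000000000000000000000000000000) (nat_lit 0x0) (nat_lit 0x40060000000000000000000000000000000) := D_10 (nat_lit 125) (nat_lit 126) (nat_lit 138) (nat_lit 1) (nat_lit 7) (nat_lit 7) (nat_lit 2) (nat_lit 2) (nat_lit 8) (by decide +kernel)
theorem L58617 : W_10 (nat_lit 2) (nat_lit 0x2000008013c009a000000000000000000000000000000) (nat_lit 0x0) (nat_lit 0x1000400004000000000000000000000000000000) := D_10 (nat_lit 142) (nat_lit 156) (nat_lit 122) (nat_lit 1) (nat_lit 6) (nat_lit 8) (nat_lit 3) (nat_lit 2) (nat_lit 7) (by decide +kernel)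
theorem L58618 : W_10 (nat_lit 3) (nat_lit 0x2000008013c0098000000000000000000000000000000) (nat_lit 0x0) (nat_lit 0x1000400007000000000000000000000000000000) := T_10 (nat_lit 121) (nat_lit 120) (nat_lit 0) (nat_lit 5) (nat_lit 8) L58617 (by decide +kernel)
theorem L58619 : W_10 (nat_lit 4) (nat_lit 0x2000000013c0098000000000000000000000000000000) (nat_lit 0x0) (nat_lit 0x1c00400007000000000000000000000000000000) := T_10 (nat_lit 155) (nat_lit 154) (nat_lit 1) (nat_lit 5) (nat_lit 8) L58618 (by decide +kernel)
theorem L58620 : W_10 (nat_lit 5) (nat_lit 0x200000001380098000000000000000000000000000000) (nat_lit 0x0) (nat_lit 0x1c00460007000000000000000000000000000000) := T_10 (nat_lit 138) (nat_lit 137) (nat_lit 2) (nat_lit 1) (nat_lit 8) L58619 (by decide +kernel)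
theorem L58621 : W_10 (nat_lit 2) (nat_lit 0x20000000138009c000000000000000000000000000000) (nat_lit 0x0) (nat_lit 0x400003000000000000000000000000000000) := D_10 (nat_lit 121) (nat_lit 142) (nat_lit 120) (nat_lit 3) (nat_lit 2) (nat_lit 7) (nat_lit 3) (nat_lit 1) (nat_lit 7) (by decide +kernel)
theorem L58622 : W_10 (nat_lit 2) (nat_lit 0x2000000013800bc001a00018004000000000000000000) (nat_lit 0x0) (nat_lit 0x60001000000000000000000) := D_10 (nat_lit 89) (nat_lit 72) (nat_lit 90) (nat_lit 6) (nat_lit 3) (nat_lit 8) (nat_lit 3) (nat_lit 2) (nat_lit 5) (by decide +kernel)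
theorem L58623 : W_10 (nat_lit 3) (nat_lit 0x2000000013800bc001200018004000000000000000000) (nat_lit 0x0) (nat_lit 0xc00060001000000000000000000) := T_10 (nat_lit 107) (nat_lit 106) (nat_lit 0) (nat_lit 6) (nat_lit 6) L58622 (by decide +kernel)
theorem L58624 : W_10 (nat_lit 4) (nat_lit 0x2000000013800bc001200010004000000000000000000) (nat_lit 0x0) (nat_lit 0xc00068001400000000000000000) := T_10 (nat_lit 87) (nat_lit 70) (nat_lit 4) (nat_lit 3) (nat_lit 8) L58623 (by decide +kernel)
theorem L58625 : W_10 (nat_lit 5) (nat_lit 0x2000000013800bc001200010000000000000000000000) (nat_lit 0x0) (nat_lit 0xc000e8005400000000000000000) := T_10 (nat_lit 74) (nat_lit 91) (nat_lit 5) (nat_lit 6) (nat_lit 4) L58624 (by decide +kernel)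
theorem L58626 : W_10 (nat_lit 6) (nat_lit 0x2000000013800bc001200000000000000000000000000) (nat_lit 0x0) (nat_lit 0xc000f8005c00000000000000000) := T_10 (nat_lit 88) (nat_lit 71) (nat_lit 7) (nat_lit 3) (nat_lit 4) L58625 (by decide +kernel)
theorem L58627 : W_10 (nat_lit 7) (nat_lit 0x2000000013800bc000200000000000000000000000000) (nat_lit 0x0) (nat_lit 0x3c000f8005c00000000000000000) := T_10 (nat_lit 108) (nat_lit 109) (nat_lit 2) (nat_lit 3) (nat_lit 7) L58626 (by decide +kernel)
theorem L58628 : W_10 (nat_lit 8) (nat_lit 0x2000000013800bc000000000000000000000000000000) (nat_lit 0x0) (nat_lit 0x3f000f8005c00000000000000000) := T_10 (nat_lit 105) (nat_lit 104) (nat_lit 0) (nat_lit 6) (nat_lit 7) L58627 (by decide +kernel)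
theorem L58629 : W_10 (nat_lit 9) (nat_lit 0x20000000138009c000000000000000000000000000000) (nat_lit 0x0) (nat_lit 0x60003f000f8005c00000000000000000) := T_10 (nat_lit 125) (nat_lit 126) (nat_lit 1) (nat_lit 7) (nat_lit 7) L58628 (by decide +kernel)
theorem L58630 : W_10 (nat_lit 10) (nat_lit 0x200000001380098000000000000000000000000000000) (nat_lit 0x0) (nat_lit 0x20001000400067003f800f8007c00000000000000000) := Q_10 (nat_lit 122) (C_10 L58517 (C_10 L58621 (C_10 L58629 N_10))) (by decide +kernel)
theorem L58631 : W_10 (nat_lit 11) (nat_lit 0x200000001300098000000000000000000000000000000) (nat_lit 0x0) (nat_lit 0x20001c004e0067003f800f8007c00000000000000000) := Q_10 (nat_lit 139) (C_10 L58616 (C_10 L58620 (C_10 L58630 N_10))) (by decide +kernel)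
theorem L58632 : W_10 (nat_lit 2) (nat_lit 0x2000000013000980018000e0000000000000000000000) (nat_lit 0x0) (nat_lit 0x2000018000000000000000000000) := D_10 (nat_lit 88) (nat_lit 109) (nat_lit 87) (nat_lit 3) (nat_lit 3) (nat_lit 5) (nat_lit 3) (nat_lit 2) (nat_lit 5) (by decide +kernel)
theorem L58633 : W_10 (nat_lit 3) (nat_lit 0x2000000013000980008000e0000000000000000000000) (nat_lit 0x0) (nat_lit 0x4000000000003000018000000000000000000000) := T_10 (nat_lit 108) (nat_lit 158) (nat_lit 6) (nat_lit 5) (nat_lit 9) L58632 (by decide +kernel)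
theorem L58634 : W_10 (nat_lit 4) (nat_lit 0x200000001300098000800060000000000000000000000) (nat_lit 0x0) (nat_lit 0x4000000000003000098004000000000000000000) := T_10 (nat_lit 91) (nat_lit 74) (nat_lit 6) (nat_lit 5) (nat_lit 8) L58633 (by decide +kernel)
theorem L58635 : W_10 (nat_lit 5) (nat_lit 0x200000001300098000800040000000000000000000000) (nat_lit 0x0) (nat_lit 0x40000000000030000b8005000000000000000000) := T_10 (nat_lit 89) (nat_lit 72) (nat_lit 4) (nat_lit 5) (nat_lit 8) L58634 (by decide +kernel)
theorem L58636 : W_10 (nat_lit 6) (nat_lit 0x200000001300098000800000000000000000000000000) (nat_lit 0x0) (nat_lit 0x40000000000030000f8007000000000000000000) := T_10 (nat_lit 90) (nat_lit 73) (nat_lit 5) (nat_lit 5) (nat_lit 4) L58635 (by decide +kernel)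
theorem L58637 : W_10 (nat_lit 2) (nat_lit 0x200000001300098000c00000000000000000000000000) (nat_lit 0x0) (nat_lit 0x80004000000000000000020000000000000000000000) := D_10 (nat_lit 158) (nat_lit 89) (nat_lit 175) (nat_lit 7) (nat_lit 4) (nat_lit 5) (nat_lit 4) (nat_lit 5) (nat_lit 10) (by decide +kernel)
theorem L58638 : W_10 (nat_lit 2) (nat_lit 0x200004001300098001c00000000000000000000000000) (nat_lit 0x0) (nat_lit 0x44002000000000000000000000000000) := D_10 (nat_lit 109) (nat_lit 126) (nat_lit 122) (nat_lit 3) (nat_lit 4) (nat_lit 6) (nat_lit 1) (nat_lit 7) (nat_lit 6) (by decide +kernel)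
theorem L58639 : W_10 (nat_lit 3) (nat_lit 0x200004001300098000c00000000000000000000000000) (nat_lit 0x0) (nat_lit 0x44003000080000000000000000000000) := T_10 (nat_lit 108) (nat_lit 91) (nat_lit 6) (nat_lit 5) (nat_lit 9) L58638 (by decide +kernel)
theorem L58640 : W_10 (nat_lit 4) (nat_lit 0x200000001300098000c00000000000000000000000000) (nat_lit 0x0) (nat_lit 0x80004000000044003000080000000000000000000000) := T_10 (nat_lit 158) (nat_lit 175) (nat_lit 4) (nat_lit 5) (nat_lit 10) L58639 (by decide +kernel)
theorem L58641 : W_10 (nat_lit 6) (nat_lit 0x200000001300098000800000000000000000000000000) (nat_lit 0x0) (nat_lit 0x800040000000440036000bc001800000000000000000) := Q_10 (nat_lit 106) (C_10 L58112 (C_10 L58637 (C_10 L58640 N_10))) (by decide +kernel)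
theorem L58642 : W_10 (nat_lit 2) (nat_lit 0x200000001300098000c000e0000000000000000000000) (nat_lit 0x0) (nat_lit 0x200300000000000000000000000) := D_10 (nat_lit 92) (nat_lit 105) (nat_lit 93) (nat_lit 1) (nat_lit 7) (nat_lit 5) (nat_lit 1) (nat_lit 8) (nat_lit 5) (by decide +kernel)
theorem L58643 : W_10 (nat_lit 3) (nat_lit 0x2000000013000980008000e0000000000000000000000) (nat_lit 0x0) (nat_lit 0x4000000000000600300000000000000000000000) := T_10 (nat_lit 106) (nat_lit 158) (nat_lit 7) (nat_lit 4) (nat_lit 5) L58642 (by decide +kernel)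
theorem L58644 : W_10 (nat_lit 4) (nat_lit 0x200000001300098000800060000000000000000000000) (nat_lit 0x0) (nat_lit 0x4000000000000600380004000000000000000000) := T_10 (nat_lit 91) (nat_lit 74) (nat_lit 6) (nat_lit 5) (nat_lit 8) L58643 (by decide +kernel)
theorem L58645 : W_10 (nat_lit 5) (nat_lit 0x200000001300098000800040000000000000000000000) (nat_lit 0x0) (nat_lit 0x40000000000006003a0005000000000000000000) := T_10 (nat_lit 89) (nat_lit 72) (nat_lit 4) (nat_lit 5) (nat_lit 8) L58644 (by decide +kernel)
theorem L58646 : W_10 (nat_lit 6) (nat_lit 0x200000001300098000800000000000000000000000000) (nat_lit 0x0) (nat_lit 0x40000000000006003e0007000000000000000000) := T_10 (nat_lit 90) (nat_lit 73) (nat_lit 5) (nat_lit 5) (nat_lit 4) L58645 (by decide +kernel)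
theorem L58647 : W_10 (nat_lit 2) (nat_lit 0x200000001300098000e000c0000000000000000000000) (nat_lit 0x0) (nat_lit 0x1000300000000000000000000000) := D_10 (nat_lit 92) (nat_lit 93) (nat_lit 108) (nat_lit 1) (nat_lit 8) (nat_lit 5) (nat_lit 2) (nat_lit 3) (nat_lit 6) (by decide +kernel)
theorem L58648 : W_10 (nat_lit 3) (nat_lit 0x200000001300098000c000c0000000000000000000000) (nat_lit 0x0) (nat_lit 0x1300300000000000000000000000) := T_10 (nat_lit 105) (nat_lit 104) (nat_lit 2) (nat_lit 2) (nat_lit 6) L58647 (by decide +kernel)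
theorem L58649 : W_10 (nat_lit 4) (nat_lit 0x200000001300098000c00040000000000000000000000) (nat_lit 0x0) (nat_lit 0x1300380004000000000000000000) := T_10 (nat_lit 91) (nat_lit 74) (nat_lit 6) (nat_lit 5) (nat_lit 8) L58648 (by decide +kernel)
theorem L58650 : W_10 (nat_lit 5) (nat_lit 0x200000001300098000c00000000000000000000000000) (nat_lit 0x0) (nat_lit 0x13003c0006000000000000000000) := T_10 (nat_lit 90) (nat_lit 73) (nat_lit 5) (nat_lit 5) (nat_lit 4) L58649 (by decide +kernel)
theorem L58651 : W_10 (nat_lit 8) (nat_lit 0x200000001300098000800000000000000000000000000) (nat_lit 0x0) (nat_lit 0x37003fc007800000000000000000) := Q_10 (nat_lit 106) (C_10 L58130 (C_10 L58112 (C_10 L58118 (C_10 L58650 N_10)))) (by decide +kernel)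
theorem L58655 : W_10 (nat_lit 5) (nat_lit 0x200000001300098000800040000000000000000000000) (nat_lit 0x0) (nat_lit 0x400000000000140003c001800000000000000000) := T_10 (nat_lit 89) (nat_lit 72) (nat_lit 4) (nat_lit 5) (nat_lit 8) L58654 (by decide +kernel)
theorem L58656 : W_10 (nat_lit 6) (nat_lit 0x200000001300098000800000000000000000000000000) (nat_lit 0x0) (nat_lit 0x400000000000140007c003800000000000000000) := T_10 (nat_lit 90) (nat_lit 73) (nat_lit 5) (nat_lit 5) (nat_lit 4) L58655 (by decide +kernel)
theorem L58657 : W_10 (nat_lit 4) (nat_lit 0x200000001300098000800040000000000000000000000) (nat_lit 0x0) (nat_lit 0x1000080004000000000001400080004000000000000000000) := T_10 (nat_lit 91) (nat_lit 74) (nat_lit 6) (nat_lit 5) (nat_lit 8) L58544 (by decide +kernel)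
theorem L58658 : W_10 (nat_lit 5) (nat_lit 0x200000001300098000800000000000000000000000000) (nat_lit 0x0) (nat_lit 0x10000800040000000000014000c0006000000000000000000) := T_10 (nat_lit 90) (nat_lit 73) (nat_lit 5) (nat_lit 5) (nat_lit 4) L58657 (by decide +kernel)
theorem L58659 : W_10 (nat_lit 9) (nat_lit 0x200000001300098000000000000000000000000000000) (nat_lit 0x0) (nat_lit 0x1000080004000000044003f003fc007800000000000000000) := Q_10 (nat_lit 107) (C_10 L58636 (C_10 L58641 (C_10 L58646 (C_10 L58651 (C_10 L58656 (C_10 L58658 N_10)))))) (by decide +kernel)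
theorem L58660 : W_10 (nat_lit 2) (nat_lit 0x200004001300098000800020000000000000000000000) (nat_lit 0x0) (nat_lit 0x40003000000000000000000) := D_10 (nat_lit 90) (nat_lit 72) (nat_lit 73) (nat_lit 4) (nat_lit 5) (nat_lit 8) (nat_lit 5) (nat_lit 5) (nat_lit 4) (by decide +kernel)
theorem L58661 : W_10 (nat_lit 3) (nat_lit 0x200004001300098000800000000000000000000000000) (nat_lit 0x0) (nat_lit 0x400060003000000000000000000) := T_10 (nat_lit 89) (nat_lit 106) (nat_lit 7) (nat_lit 4) (nat_lit 5) L58660 (by decide +kernel)
theorem L58662 : W_10 (nat_lit 2) (nat_lit 0x200004001300098000800080000000000000000000000) (nat_lit 0x0) (nat_lit 0x40006000000000000000000) := D_10 (nat_lit 90) (nat_lit 73) (nat_lit 74) (nat_lit 5) (nat_lit 5) (nat_lit 4) (nat_lit 6) (nat_lit 5) (nat_lit 8) (by decide +kernel)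
theorem L58663 : W_10 (nat_lit 3) (nat_lit 0x200004001300098000800000000000000000000000000) (nat_lit 0x0) (nat_lit 0x10000c0006000000000000000000) := T_10 (nat_lit 91) (nat_lit 108) (nat_lit 6) (nat_lit 5) (nat_lit 9) L58662 (by decide +kernel)
theorem L58664 : W_10 (nat_lit 2) (nat_lit 0x200004001300098001c00000000000000000000000000) (nat_lit 0x0) (nat_lit 0x60002000000000000000000000000000) := D_10 (nat_lit 126) (nat_lit 109) (nat_lit 125) (nat_lit 3) (nat_lit 4) (nat_lit 6) (nat_lit 1) (nat_lit 8) (nat_lit 7) (by decide +kernel)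
theorem L58665 : W_10 (nat_lit 3) (nat_lit 0x200004001300098000c00000000000000000000000000) (nat_lit 0x0) (nat_lit 0x60003000080000000000000000000000) := T_10 (nat_lit 108) (nat_lit 91) (nat_lit 6) (nat_lit 5) (nat_lit 9) L58664 (by decide +kernel)
theorem L58666 : W_10 (nat_lit 4) (nat_lit 0x200004001300098000800000000000000000000000000) (nat_lit 0x0) (nat_lit 0x600034000a0000000000000000000000) := T_10 (nat_lit 106) (nat_lit 89) (nat_lit 7) (nat_lit 4) (nat_lit 5) L58665 (by decide +kernel)
theorem L58667 : W_10 (nat_lit 5) (nat_lit 0x200004001300098000000000000000000000000000000) (nat_lit 0x0) (nat_lit 0x60003c000e0007000000000000000000) := Q_10 (nat_lit 107) (C_10 L58661 (C_10 L58663 (C_10 L58666 N_10))) (by decide +kernel)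
theorem L58668 : W_10 (nat_lit 6) (nat_lit 0x200000001300098000000000000000000000000000000) (nat_lit 0x0) (nat_lit 0x1000080004000000060003c000e0007000000000000000000) := Q_10 (nat_lit 158) (C_10 L58379 (C_10 L58368 (C_10 L58667 N_10))) (by decide +kernel)
theorem L58669 : W_10 (nat_lit 2) (nat_lit 0x2000010013800de000100000000000000000000000000) (nat_lit 0x0) (nat_lit 0x200008000400000000000000000) := D_10 (nat_lit 87) (nat_lit 70) (nat_lit 105) (nat_lit 7) (nat_lit 2) (nat_lit 4) (nat_lit 4) (nat_lit 3) (nat_lit 9) (by decide +kernel)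
theorem L58670 : W_10 (nat_lit 3) (nat_lit 0x2000000013800de000100000000000000000000000000) (nat_lit 0x0) (nat_lit 0x20001000000000000200008000400000000000000000) := T_10 (nat_lit 156) (nat_lit 173) (nat_lit 4) (nat_lit 3) (nat_lit 10) L58669 (by decide +kernel)
theorem L58671 : W_10 (nat_lit 4) (nat_lit 0x2000000013800de000000000000000000000000000000) (nat_lit 0x0) (nat_lit 0x20001000000000000380008000400000000000000000) := T_10 (nat_lit 104) (nat_lit 103) (nat_lit 0) (nat_lit 5) (nat_lit 7) L58670 (by decide +kernel)
theorem L58672 : W_10 (nat_lit 5) (nat_lit 0x2000000013800dc000000000000000000000000000000) (nat_lit 0x0) (nat_lit 0x20001000000003000380008000400000000000000000) := T_10 (nat_lit 121) (nat_lit 120) (nat_lit 3) (nat_lit 1) (nat_lit 7) L58671 (by decide +kernel)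
theorem L58673 : W_10 (nat_lit 6) (nat_lit 0x20000000138009c000000000000000000000000000000) (nat_lit 0x0) (nat_lit 0x20001000000063000380008000400000000000000000) := T_10 (nat_lit 126) (nat_lit 125) (nat_lit 1) (nat_lit 7) (nat_lit 7) L58672 (by decide +kernel)
theorem L58678 : W_10 (nat_lit 6) (nat_lit 0x20000000138009c000000000000000000000000000000) (nat_lit 0x0) (nat_lit 0x5000000060000700030001800000000000000000) := T_10 (nat_lit 125) (nat_lit 126) (nat_lit 1) (nat_lit 7) (nat_lit 7) L58677 (by decide +kernel)
theorem L58679 : W_10 (nat_lit 7) (nat_lit 0x200000001380098000000000000000000000000000000) (nat_lit 0x0) (nat_lit 0x20005000400067000780038001c00000000000000000) := Q_10 (nat_lit 122) (C_10 L58621 (C_10 L58673 (C_10 L58678 N_10))) (by decide +kernel)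
theorem L58680 : W_10 (nat_lit 8) (nat_lit 0x200000001300098000000000000000000000000000000) (nat_lit 0x0) (nat_lit 0x20005c004e0067000780038001c00000000000000000) := Q_10 (nat_lit 139) (C_10 L58679 (C_10 L58620 (C_10 L58616 N_10))) (by decide +kernel)
theorem L58681 : W_10 (nat_lit 2) (nat_lit 0x2000008013c009e000800000002000000000000000000) (nat_lit 0x0) (nat_lit 0x10000000000000000200010000000000000000000000) := D_10 (nat_lit 105) (nat_lit 88) (nat_lit 172) (nat_lit 5) (nat_lit 3) (nat_lit 5) (nat_lit 6) (nat_lit 2) (nat_lit 10) (by decide +kernel)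
theorem L58682 : W_10 (nat_lit 3) (nat_lit 0x2000000013c009e000800000002000000000000000000) (nat_lit 0x0) (nat_lit 0x10000c00000000000200010000000000000000000000) := T_10 (nat_lit 155) (nat_lit 154) (nat_lit 1) (nat_lit 5) (nat_lit 8) L58681 (by decide +kernel)
theorem L58683 : W_10 (nat_lit 4) (nat_lit 0x20000000134009e000800000002000000000000000000) (nat_lit 0x0) (nat_lit 0x10000c00080020000200010000000000000000000000) := T_10 (nat_lit 139) (nat_lit 125) (nat_lit 2) (nat_lit 2) (nat_lit 8) L58682 (by decide +kernel)
theorem L58684 : W_10 (nat_lit 5) (nat_lit 0x20000000134009e000800000000000000000000000000) (nat_lit 0x0) (nat_lit 0x10000c00080020000200050002000000000000000000) := T_10 (nat_lit 73) (nat_lit 90) (nat_lit 5) (nat_lit 5) (nat_lit 4) L58683 (by decide +kernel)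
theorem L58685 : W_10 (nat_lit 6) (nat_lit 0x20000000130009e000800000000000000000000000000) (nat_lit 0x0) (nat_lit 0x10000c000e0020000200050002000000000000000000) := T_10 (nat_lit 138) (nat_lit 137) (nat_lit 1) (nat_lit 5) (nat_lit 7) L58684 (by decide +kernel)
theorem L58686 : W_10 (nat_lit 7) (nat_lit 0x20000000130009e000000000000000000000000000000) (nat_lit 0x0) (nat_lit 0x10000c000e0020001a00050002000000000000000000) := T_10 (nat_lit 107) (nat_lit 108) (nat_lit 2) (nat_lit 2) (nat_lit 7) L58685 (by decide +kernel)
theorem L58687 : W_10 (nat_lit 8) (nat_lit 0x20000000130009c000000000000000000000000000000) (nat_lit 0x0) (nat_lit 0x10000c000e0023001a00050002000000000000000000) := T_10 (nat_lit 121) (nat_lit 120) (nat_lit 3) (nat_lit 1) (nat_lit 7) L58686 (by decide +kernel)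
theorem L58688 : W_10 (nat_lit 2) (nat_lit 0x2000040013400bc001200000000800000000000000000) (nat_lit 0x0) (nat_lit 0x800080004000000000000000000) := D_10 (nat_lit 91) (nat_lit 74) (nat_lit 107) (nat_lit 5) (nat_lit 6) (nat_lit 4) (nat_lit 6) (nat_lit 5) (nat_lit 9) (by decide +kernel)
theorem L58689 : W_10 (nat_lit 3) (nat_lit 0x2000000013400bc001200000000800000000000000000) (nat_lit 0x0) (nat_lit 0x80004000000000000800080004000000000000000000) := T_10 (nat_lit 158) (nat_lit 175) (nat_lit 6) (nat_lit 5) (nat_lit 10) L58688 (by decide +kernel)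
theorem L58690 : W_10 (nat_lit 4) (nat_lit 0x2000000013400bc001200000000000000000000000000) (nat_lit 0x0) (nat_lit 0x80004000000000000800090004800000000000000000) := T_10 (nat_lit 71) (nat_lit 88) (nat_lit 7) (nat_lit 3) (nat_lit 4) L58689 (by decide +kernel)
theorem L58691 : W_10 (nat_lit 5) (nat_lit 0x2000000013400bc000200000000000000000000000000) (nat_lit 0x0) (nat_lit 0x80004000000000003800090004800000000000000000) := T_10 (nat_lit 108) (nat_lit 109) (nat_lit 2) (nat_lit 3) (nat_lit 7) L58690 (by decide +kernel)
theorem L58692 : W_10 (nat_lit 6) (nat_lit 0x2000000013000bc000200000000000000000000000000) (nat_lit 0x0) (nat_lit 0x800040000c0000003800090004800000000000000000) := T_10 (nat_lit 138) (nat_lit 139) (nat_lit 2) (nat_lit 2) (nat_lit 8) L58691 (by decide +kernel)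
theorem L58693 : W_10 (nat_lit 7) (nat_lit 0x2000000013000bc000000000000000000000000000000) (nat_lit 0x0) (nat_lit 0x800040000c0000003b00090004800000000000000000) := T_10 (nat_lit 105) (nat_lit 104) (nat_lit 0) (nat_lit 6) (nat_lit 7) L58692 (by decide +kernel)
theorem L58694 : W_10 (nat_lit 2) (nat_lit 0x2000000013400bc001000080000000000000000000000) (nat_lit 0x0) (nat_lit 0x4000400000000800000000000000000000000000) := D_10 (nat_lit 158) (nat_lit 142) (nat_lit 107) (nat_lit 5) (nat_lit 6) (nat_lit 5) (nat_lit 6) (nat_lit 5) (nat_lit 9) (by decide +kernel)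
theorem L58695 : W_10 (nat_lit 3) (nat_lit 0x2000000013400bc001000000000000000000000000000) (nat_lit 0x0) (nat_lit 0x4000400000000800080004000000000000000000) := T_10 (nat_lit 91) (nat_lit 74) (nat_lit 5) (nat_lit 6) (nat_lit 4) L58694 (by decide +kernel)
theorem L58696 : W_10 (nat_lit 4) (nat_lit 0x2000000013000bc001000000000000000000000000000) (nat_lit 0x0) (nat_lit 0x40004c0000000800080004000000000000000000) := T_10 (nat_lit 138) (nat_lit 139) (nat_lit 2) (nat_lit 2) (nat_lit 8) L58695 (by decide +kernel)
theorem L58697 : W_10 (nat_lit 5) (nat_lit 0x2000000013000bc000000000000000000000000000000) (nat_lit 0x0) (nat_lit 0x40004c0000003800080004000000000000000000) := T_10 (nat_lit 108) (nat_lit 109) (nat_lit 2) (nat_lit 3) (nat_lit 7) L58696 (by decide +kernel)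
theorem L58698 : W_10 (nat_lit 5) (nat_lit 0x2000000013000bc000200000000000000000000000000) (nat_lit 0x0) (nat_lit 0x50000c0000000400030001800000000000000000) := T_10 (nat_lit 139) (nat_lit 138) (nat_lit 2) (nat_lit 2) (nat_lit 8) L58676 (by decide +kernel)
theorem L58699 : W_10 (nat_lit 6) (nat_lit 0x2000000013000bc000000000000000000000000000000) (nat_lit 0x0) (nat_lit 0x50000c0000000700030001800000000000000000) := T_10 (nat_lit 105) (nat_lit 104) (nat_lit 0) (nat_lit 6) (nat_lit 7) L58698 (by decide +kernel)
theorem L58700 : W_10 (nat_lit 5) (nat_lit 0x2000000013000bc001200010004000000000000000000) (nat_lit 0x0) (nat_lit 0xc0000000c00068001400000000000000000) := T_10 (nat_lit 139) (nat_lit 138) (nat_lit 2) (nat_lit 2) (nat_lit 8) L58624 (by decide +kernel)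
theorem L58701 : W_10 (nat_lit 6) (nat_lit 0x2000000013000bc001200010000000000000000000000) (nat_lit 0x0) (nat_lit 0xc0000000c000e8005400000000000000000) := T_10 (nat_lit 74) (nat_lit 91) (nat_lit 5) (nat_lit 6) (nat_lit 4) L58700 (by decide +kernel)
theorem L58702 : W_10 (nat_lit 7) (nat_lit 0x2000000013000bc001200000000000000000000000000) (nat_lit 0x0) (nat_lit 0xc0000000c000f8005c00000000000000000) := T_10 (nat_lit 88) (nat_lit 71) (nat_lit 7) (nat_lit 3) (nat_lit 4) L58701 (by decide +kernel)
theorem L58703 : W_10 (nat_lit 8) (nat_lit 0x2000000013000bc000200000000000000000000000000) (nat_lit 0x0) (nat_lit 0xc0000003c000f8005c00000000000000000) := T_10 (nat_lit 108) (nat_lit 109) (nat_lit 2) (nat_lit 3) (nat_lit 7) L58702 (by decide +kernel)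
theorem L58704 : W_10 (nat_lit 9) (nat_lit 0x2000000013000bc000000000000000000000000000000) (nat_lit 0x0) (nat_lit 0xc0000003f000f8005c00000000000000000) := T_10 (nat_lit 105) (nat_lit 104) (nat_lit 0) (nat_lit 6) (nat_lit 7) L58703 (by decide +kernel)
theorem L58705 : W_10 (nat_lit 10) (nat_lit 0x20000000130009c000000000000000000000000000000) (nat_lit 0x0) (nat_lit 0x800050004c0020003f000f8005c00000000000000000) := Q_10 (nat_lit 125) (C_10 L58388 (C_10 L58693 (C_10 L58697 (C_10 L58699 (C_10 L58704 N_10))))) (by decide +kernel)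
theorem L58706 : W_10 (nat_lit 11) (nat_lit 0x200000001300098000000000000000000000000000000) (nat_lit 0x0) (nat_lit 0x90005c004e0027003f000f8007c00000000000000000) := Q_10 (nat_lit 122) (C_10 L58016 (C_10 L58687 (C_10 L58705 N_10))) (by decide +kernel)
theorem L58707 : W_10 (nat_lit 12) (nat_lit 0x200000001300090000000000000000000000000000000) (nat_lit 0x0) (nat_lit 0x10000b0005c004e006f003f803fc007c00000000000000000) := Q_10 (nat_lit 123) (C_10 L58390 (C_10 L58631 (C_10 L58659 (C_10 L58668 (C_10 L58680 (C_10 L58706 N_10)))))) (by decide +kernel)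
theorem L58708 : W_10 (nat_lit 2) (nat_lit 0x6002e00010017800b4000700000000000000000000000000) (nat_lit 0x0) (nat_lit 0x1000000004000000000001000000000000000000000000000) := D_10 (nat_lit 158) (nat_lit 108) (nat_lit 192) (nat_lit 6) (nat_lit 5) (nat_lit 10) (nat_lit 6) (nat_lit 5) (nat_lit 11) (by decide +kernel)
theorem L58709 : W_10 (nat_lit 3) (nat_lit 0x6002600010017800b4000700000000000000000000000000) (nat_lit 0x0) (nat_lit 0x1000180004000000000001000000000000000000000000000) := T_10 (nat_lit 175) (nat_lit 176) (nat_lit 1) (nat_lit 6) (nat_lit 10) L58708 (by decide +kernel)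
theorem L58710 : W_10 (nat_lit 4) (nat_lit 0x2002600010017800b4000700000000000000000000000000) (nat_lit 0x0) (nat_lit 0x4001400180004000000000001000000000000000000000000000) := T_10 (nat_lit 190) (nat_lit 206) (nat_lit 5) (nat_lit 3) (nat_lit 8) L58709 (by decide +kernel)
theorem L58711 : W_10 (nat_lit 5) (nat_lit 0x2600010017800b4000700000000000000000000000000) (nat_lit 0x0) (nat_lit 0x4001600190004000000000001000000000000000000000000000) := T_10 (nat_lit 189) (nat_lit 172) (nat_lit 5) (nat_lit 3) (nat_lit 7) L58710 (by decide +kernel)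
theorem L58712 : W_10 (nat_lit 6) (nat_lit 0x2400010017800b4000700000000000000000000000000) (nat_lit 0x0) (nat_lit 0x4001e001b0004000000000001000000000000000000000000000) := T_10 (nat_lit 173) (nat_lit 191) (nat_lit 7) (nat_lit 3) (nat_lit 7) L58711 (by decide +kernel)
theorem L58713 : W_10 (nat_lit 7) (nat_lit 0x2000010017800b4000700000000000000000000000000) (nat_lit 0x0) (nat_lit 0x4001e001f0006000000000001000000000000000000000000000) := T_10 (nat_lit 174) (nat_lit 157) (nat_lit 7) (nat_lit 3) (nat_lit 6) L58712 (by decide +kernel)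
theorem L58714 : W_10 (nat_lit 8) (nat_lit 0x2000010017800b4000300000000000000000000000000) (nat_lit 0x0) (nat_lit 0x4001e001f0006000000000001400020000000000000000000000) := T_10 (nat_lit 106) (nat_lit 89) (nat_lit 6) (nat_lit 3) (nat_lit 9) L58713 (by decide +kernel)
theorem L58715 : W_10 (nat_lit 9) (nat_lit 0x2000010017800b4000200000000000000000000000000) (nat_lit 0x0) (nat_lit 0x4001e001f0006000000000001500028000000000000000000000) := T_10 (nat_lit 104) (nat_lit 87) (nat_lit 4) (nat_lit 3) (nat_lit 9) L58714 (by decide +kernel)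
theorem L58716 : W_10 (nat_lit 10) (nat_lit 0x2000000017800b4000200000000000000000000000000) (nat_lit 0x0) (nat_lit 0x4001e001f0007800000000001500028000000000000000000000) := T_10 (nat_lit 156) (nat_lit 155) (nat_lit 1) (nat_lit 6) (nat_lit 8) L58715 (by decide +kernel)
theorem L58717 : W_10 (nat_lit 11) (nat_lit 0x2000000013800b4000200000000000000000000000000) (nat_lit 0x0) (nat_lit 0x4001e001f0007800400002001500028000000000000000000000) := T_10 (nat_lit 142) (nat_lit 121) (nat_lit 0) (nat_lit 6) (nat_lit 8) L58716 (by decide +kernel)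
theorem L58718 : W_10 (nat_lit 12) (nat_lit 0x200000001380094000200000000000000000000000000) (nat_lit 0x0) (nat_lit 0x4001e001f0007800400062001500028000000000000000000000) := T_10 (nat_lit 125) (nat_lit 126) (nat_lit 1) (nat_lit 8) (nat_lit 7) L58717 (by decide +kernel)
theorem L58719 : W_10 (nat_lit 13) (nat_lit 0x200000001380094000000000000000000000000000000) (nat_lit 0x0) (nat_lit 0x4001e001f00078004000620017000f8001f000e0006000200000) := Q_10 (nat_lit 105) (C_10 L58500 (C_10 L56491 (C_10 L58509 (C_10 L58481 (C_10 L58490 (C_10 L58718 N_10)))))) (by decide +kernel)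
theorem L58720 : W_10 (nat_lit 14) (nat_lit 0x200000001380090000000000000000000000000000000) (nat_lit 0x0) (nat_lit 0x4001e001f0007c0040006f8037000f8005f000e0006000200000) := Q_10 (nat_lit 122) (C_10 L58719 (C_10 L56514 (C_10 L56519 (C_10 L56568 N_10)))) (by decide +kernel)
theorem L58721 : W_10 (nat_lit 15) (nat_lit 0x200000001300090000000000000000000000000000000) (nat_lit 0x0) (nat_lit 0x4001e001f0007e004e006f8037000f8005f000e0006000200000) := Q_10 (nat_lit 139) (C_10 L58720 (C_10 L56197 (C_10 L56196 N_10))) (by decide +kernel)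
theorem L58722 : W_10 (nat_lit 3) (nat_lit 0x8002000020013c0090000000000000000000000000000000) (nat_lit 0x0) (nat_lit 0x4e00020000000000000000000000000000000000) := T_10 (nat_lit 137) (nat_lit 158) (nat_lit 3) (nat_lit 1) (nat_lit 8) L56791 (by decide +kernel)
theorem L58723 : W_10 (nat_lit 4) (nat_lit 0x2000020013c0090000000000000000000000000000000) (nat_lit 0x0) (nat_lit 0x800040004e00020000000000000000000000000000000000) := T_10 (nat_lit 191) (nat_lit 174) (nat_lit 6) (nat_lit 4) (nat_lit 11) L58722 (by decide +kernel)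
theorem L58724 : W_10 (nat_lit 2) (nat_lit 0x8002000028017c0090000000000000000000000000000000) (nat_lit 0x0) (nat_lit 0x7000000000000000000000000000000) := D_10 (nat_lit 121) (nat_lit 122) (nat_lit 120) (nat_lit 0) (nat_lit 6) (nat_lit 8) (nat_lit 0) (nat_lit 5) (nat_lit 8) (by decide +kernel)
theorem L58725 : W_10 (nat_lit 3) (nat_lit 0x8002000028013c0090000000000000000000000000000000) (nat_lit 0x0) (nat_lit 0x1000400007000000000000000000000000000000) := T_10 (nat_lit 142) (nat_lit 156) (nat_lit 1) (nat_lit 6) (nat_lit 8) L58724 (by decide +kernel)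
theorem L58726 : W_10 (nat_lit 4) (nat_lit 0x2000028013c0090000000000000000000000000000000) (nat_lit 0x0) (nat_lit 0x800040001000400007000000000000000000000000000000) := T_10 (nat_lit 191) (nat_lit 174) (nat_lit 6) (nat_lit 4) (nat_lit 11) L58725 (by decide +kernel)
theorem L58727 : W_10 (nat_lit 5) (nat_lit 0x2000020013c0090000000000000000000000000000000) (nat_lit 0x0) (nat_lit 0x800040001c00400007000000000000000000000000000000) := T_10 (nat_lit 155) (nat_lit 154) (nat_lit 1) (nat_lit 5) (nat_lit 8) L58726 (by decide +kernel)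
theorem L58728 : W_10 (nat_lit 6) (nat_lit 0x200002001380090000000000000000000000000000000) (nat_lit 0x0) (nat_lit 0x800040005e0046000f000000000000000000000000000000) := Q_10 (nat_lit 138) (C_10 L56793 (C_10 L58723 (C_10 L56789 (C_10 L58727 N_10)))) (by decide +kernel)
theorem L58729 : W_10 (nat_lit 2) (nat_lit 0x8002000020013800d6000000000000000000000000000000) (nat_lit 0x0) (nat_lit 0x9800000000000000000000000000000) := D_10 (nat_lit 120) (nat_lit 119) (nat_lit 123) (nat_lit 3) (nat_lit 0) (nat_lit 7) (nat_lit 3) (nat_lit 1) (nat_lit 7) (by decide +kernel)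
theorem L58730 : W_10 (nat_lit 3) (nat_lit 0x8002000020013800d4000000000000000000000000000000) (nat_lit 0x0) (nat_lit 0x40000b800000000000000000000000000000) := T_10 (nat_lit 121) (nat_lit 142) (nat_lit 0) (nat_lit 6) (nat_lit 8) L58729 (by decide +kernel)
theorem L58731 : W_10 (nat_lit 4) (nat_lit 0x800200002001380094000000000000000000000000000000) (nat_lit 0x0) (nat_lit 0x40006b800000000000000000000000000000) := T_10 (nat_lit 126) (nat_lit 125) (nat_lit 1) (nat_lit 8) (nat_lit 7) L58730 (by decide +kernel)
theorem L58732 : W_10 (nat_lit 5) (nat_lit 0x200002001380094000000000000000000000000000000) (nat_lit 0x0) (nat_lit 0x80004000000040006b800000000000000000000000000000) := T_10 (nat_lit 191) (nat_lit 174) (nat_lit 6) (nat_lit 4) (nat_lit 11) L58731 (by decide +kernel)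
theorem L58733 : W_10 (nat_lit 7) (nat_lit 0x200002001380090000000000000000000000000000000) (nat_lit 0x0) (nat_lit 0x80004000180040006f800300018000000000000000000000) := Q_10 (nat_lit 122) (C_10 L56247 (C_10 L56206 (C_10 L56787 (C_10 L56782 (C_10 L58732 N_10))))) (by decide +kernel)
theorem L58734 : W_10 (nat_lit 8) (nat_lit 0x200002001300090000000000000000000000000000000) (nat_lit 0x0) (nat_lit 0x800040005e004e006f800300018000000000000000000000) := Q_10 (nat_lit 139) (C_10 L56657 (C_10 L58728 (C_10 L58733 N_10))) (by decide +kernel)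
theorem L58735 : W_10 (nat_lit 2) (nat_lit 0x200002001300096000000000000000000000000000000) (nat_lit 0x0) (nat_lit 0x480008000000000000000000000000000000) := D_10 (nat_lit 142) (nat_lit 139) (nat_lit 123) (nat_lit 0) (nat_lit 6) (nat_lit 8) (nat_lit 3) (nat_lit 2) (nat_lit 7) (by decide +kernel)
theorem L58736 : W_10 (nat_lit 2) (nat_lit 0x200002001300097000000040000000000000000000000) (nat_lit 0x0) (nat_lit 0xc0000800000000000000000000000000000) := D_10 (nat_lit 139) (nat_lit 119) (nat_lit 138) (nat_lit 3) (nat_lit 0) (nat_lit 7) (nat_lit 0) (nat_lit 5) (nat_lit 8) (by decide +kernel)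
theorem L58737 : W_10 (nat_lit 3) (nat_lit 0x200002001300096000000040000000000000000000000) (nat_lit 0x0) (nat_lit 0xc0009800000000000000000000000000000) := T_10 (nat_lit 120) (nat_lit 123) (nat_lit 3) (nat_lit 1) (nat_lit 7) L58736 (by decide +kernel)
theorem L58738 : W_10 (nat_lit 4) (nat_lit 0x200002001300096000000000000000000000000000000) (nat_lit 0x0) (nat_lit 0xc0009800800040000000000000000000000) := T_10 (nat_lit 90) (nat_lit 107) (nat_lit 5) (nat_lit 5) (nat_lit 5) L58737 (by decide +kernel)
theorem L58739 : W_10 (nat_lit 2) (nat_lit 0x200002001380096000000000000000000000000000000) (nat_lit 0x0) (nat_lit 0x40001800000000000000000000000000000) := D_10 (nat_lit 120) (nat_lit 138) (nat_lit 119) (nat_lit 0) (nat_lit 5) (nat_lit 8) (nat_lit 3) (nat_lit 0) (nat_lit 7) (by decide +kernel)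
theorem L58740 : W_10 (nat_lit 3) (nat_lit 0x200002001300096000000000000000000000000000000) (nat_lit 0x0) (nat_lit 0x4c0001800000000000000000000000000000) := T_10 (nat_lit 139) (nat_lit 142) (nat_lit 0) (nat_lit 6) (nat_lit 8) L58739 (by decide +kernel)
theorem L58741 : W_10 (nat_lit 2) (nat_lit 0x200002001300096000000000000000000000000000000) (nat_lit 0x0) (nat_lit 0x400009000000000000000000000000000000) := D_10 (nat_lit 123) (nat_lit 142) (nat_lit 120) (nat_lit 3) (nat_lit 2) (nat_lit 7) (nat_lit 3) (nat_lit 1) (nat_lit 7) (by decide +kernel)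
theorem L58742 : W_10 (nat_lit 5) (nat_lit 0x200002001300094000000000000000000000000000000) (nat_lit 0x0) (nat_lit 0x4c000b800800040000000000000000000000) := Q_10 (nat_lit 121) (C_10 L58735 (C_10 L58738 (C_10 L58740 (C_10 L58741 N_10)))) (by decide +kernel)
theorem L58743 : W_10 (nat_lit 2) (nat_lit 0x2002200034013800b4000300040000000000000000000000) (nat_lit 0x0) (nat_lit 0xc000400000000000000000000000000000000000000000000000) := D_10 (nat_lit 190) (nat_lit 207) (nat_lit 206) (nat_lit 6) (nat_lit 3) (nat_lit 12) (nat_lit 5) (nat_lit 3) (nat_lit 8) (by decide +kernel)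
theorem L58744 : W_10 (nat_lit 3) (nat_lit 0x2200034013800b4000300040000000000000000000000) (nat_lit 0x0) (nat_lit 0xc000600010000000000000000000000000000000000000000000) := T_10 (nat_lit 189) (nat_lit 172) (nat_lit 5) (nat_lit 3) (nat_lit 7) L58743 (by decide +kernel)
theorem L58745 : W_10 (nat_lit 4) (nat_lit 0x2000034013800b4000300040000000000000000000000) (nat_lit 0x0) (nat_lit 0xc000600030000000000002000000000000000000000000000000) := T_10 (nat_lit 173) (nat_lit 121) (nat_lit 4) (nat_lit 3) (nat_lit 10) L58744 (by decide +kernel)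
theorem L58746 : W_10 (nat_lit 5) (nat_lit 0x2000034013800b4000200040000000000000000000000) (nat_lit 0x0) (nat_lit 0xc000600030000000000002000100008000000000000000000000) := T_10 (nat_lit 104) (nat_lit 87) (nat_lit 4) (nat_lit 3) (nat_lit 9) L58745 (by decide +kernel)
theorem L58747 : W_10 (nat_lit 6) (nat_lit 0x2000034013800b4000000040000000000000000000000) (nat_lit 0x0) (nat_lit 0xc000600030000000000002000300018000000000000000000000) := T_10 (nat_lit 105) (nat_lit 88) (nat_lit 7) (nat_lit 3) (nat_lit 5) L58746 (by decide +kernel)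
theorem L58748 : W_10 (nat_lit 7) (nat_lit 0x2000034013000b4000000040000000000000000000000) (nat_lit 0x0) (nat_lit 0xc0006000300000000c0002000300018000000000000000000000) := T_10 (nat_lit 139) (nat_lit 138) (nat_lit 2) (nat_lit 2) (nat_lit 8) L58747 (by decide +kernel)
theorem L58749 : W_10 (nat_lit 8) (nat_lit 0x200003401300094000000040000000000000000000000) (nat_lit 0x0) (nat_lit 0xc0006000300000000c0062000300018000000000000000000000) := T_10 (nat_lit 125) (nat_lit 126) (nat_lit 1) (nat_lit 8) (nat_lit 7) L58748 (by decide +kernel)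
theorem L58750 : W_10 (nat_lit 9) (nat_lit 0x200003001300094000000040000000000000000000000) (nat_lit 0x0) (nat_lit 0xc000600030000c000c0062000300018000000000000000000000) := T_10 (nat_lit 154) (nat_lit 155) (nat_lit 2) (nat_lit 1) (nat_lit 9) L58749 (by decide +kernel)
theorem L58751 : W_10 (nat_lit 10) (nat_lit 0x200003001300094000000000000000000000000000000) (nat_lit 0x0) (nat_lit 0xc000600030000c000c0062000b00058000000000000000000000) := T_10 (nat_lit 90) (nat_lit 107) (nat_lit 5) (nat_lit 5) (nat_lit 5) L58750 (by decide +kernel)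
theorem L58752 : W_10 (nat_lit 2) (nat_lit 0x200003801300094000000040000000000000000000000) (nat_lit 0x0) (nat_lit 0x4000480000000000000000000000000000000000) := D_10 (nat_lit 142) (nat_lit 139) (nat_lit 158) (nat_lit 1) (nat_lit 6) (nat_lit 8) (nat_lit 2) (nat_lit 2) (nat_lit 9) (by decide +kernel)
theorem L58753 : W_10 (nat_lit 3) (nat_lit 0x200003001300094000000040000000000000000000000) (nat_lit 0x0) (nat_lit 0x4c00480000000000000000000000000000000000) := T_10 (nat_lit 155) (nat_lit 154) (nat_lit 2) (nat_lit 1) (nat_lit 9) L58752 (by decide +kernel)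
theorem L58754 : W_10 (nat_lit 4) (nat_lit 0x200003001300094000000000000000000000000000000) (nat_lit 0x0) (nat_lit 0x4c00480000000800040000000000000000000000) := T_10 (nat_lit 90) (nat_lit 107) (nat_lit 5) (nat_lit 5) (nat_lit 5) L58753 (by decide +kernel)
theorem L58755 : W_10 (nat_lit 2) (nat_lit 0x4002200034013800b6800000010000000000000000000000) (nat_lit 0x0) (nat_lit 0x4000200010000000000000000000000000000000000000000000) := D_10 (nat_lit 189) (nat_lit 172) (nat_lit 206) (nat_lit 5) (nat_lit 3) (nat_lit 7) (nat_lit 5) (nat_lit 3) (nat_lit 8) (by decide +kernel)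
theorem L58756 : W_10 (nat_lit 3) (nat_lit 0x2200034013800b6800000010000000000000000000000) (nat_lit 0x0) (nat_lit 0xc000600010000000000000000000000000000000000000000000) := T_10 (nat_lit 190) (nat_lit 207) (nat_lit 6) (nat_lit 3) (nat_lit 12) L58755 (by decide +kernel)
theorem L58757 : W_10 (nat_lit 4) (nat_lit 0x2200034013800b6000000010000000000000000000000) (nat_lit 0x0) (nat_lit 0xc000600010000000000001800000000000000000000000000000) := T_10 (nat_lit 119) (nat_lit 120) (nat_lit 3) (nat_lit 0) (nat_lit 7) L58756 (by decide +kernel)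
theorem L58758 : W_10 (nat_lit 5) (nat_lit 0x2000034013800b6000000010000000000000000000000) (nat_lit 0x0) (nat_lit 0xc000600030000000000001800100000000000000000000000000) := T_10 (nat_lit 173) (nat_lit 104) (nat_lit 4) (nat_lit 3) (nat_lit 10) L58757 (by decide +kernel)
theorem L58759 : W_10 (nat_lit 6) (nat_lit 0x2000034013800b6000000000000000000000000000000) (nat_lit 0x0) (nat_lit 0xc000600030000000000001800300010000000000000000000000) := T_10 (nat_lit 88) (nat_lit 105) (nat_lit 7) (nat_lit 3) (nat_lit 5) L58758 (by decide +kernel)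
theorem L58760 : W_10 (nat_lit 7) (nat_lit 0x2000034013800b4000000000000000000000000000000) (nat_lit 0x0) (nat_lit 0xc000600030000000400003800300010000000000000000000000) := T_10 (nat_lit 121) (nat_lit 142) (nat_lit 0) (nat_lit 6) (nat_lit 8) L58759 (by decide +kernel)
theorem L58761 : W_10 (nat_lit 8) (nat_lit 0x2000034013000b4000000000000000000000000000000) (nat_lit 0x0) (nat_lit 0xc0006000300000004c0003800300010000000000000000000000) := T_10 (nat_lit 139) (nat_lit 138) (nat_lit 2) (nat_lit 2) (nat_lit 8) L58760 (by decide +kernel)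
theorem L58762 : W_10 (nat_lit 9) (nat_lit 0x200003401300094000000000000000000000000000000) (nat_lit 0x0) (nat_lit 0xc0006000300000004c0063800300010000000000000000000000) := T_10 (nat_lit 125) (nat_lit 126) (nat_lit 1) (nat_lit 8) (nat_lit 7) L58761 (by decide +kernel)
theorem L58763 : W_10 (nat_lit 10) (nat_lit 0x200003001300094000000000000000000000000000000) (nat_lit 0x0) (nat_lit 0xc000600030000c004c0063800300010000000000000000000000) := T_10 (nat_lit 154) (nat_lit 155) (nat_lit 2) (nat_lit 1) (nat_lit 9) L58762 (by decide +kernel)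
theorem L58764 : W_10 (nat_lit 2) (nat_lit 0x200000002900078013400d6000000040000000000000000000000) (nat_lit 0x0) (nat_lit 0x400020000000000000000100000000000000000000000000) := D_10 (nat_lit 173) (nat_lit 104) (nat_lit 190) (nat_lit 7) (nat_lit 2) (nat_lit 6) (nat_lit 7) (nat_lit 2) (nat_lit 7) (by decide +kernel)
theorem L58765 : W_10 (nat_lit 3) (nat_lit 0x200000002900078013400d4000000040000000000000000000000) (nat_lit 0x0) (nat_lit 0x400020000000000002000300000000000000000000000000) := T_10 (nat_lit 121) (nat_lit 105) (nat_lit 6) (nat_lit 2) (nat_lit 10) L58764 (by decide +kernel)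
theorem L58766 : W_10 (nat_lit 4) (nat_lit 0x2900078013400d4000000040000000000000000000000) (nat_lit 0x0) (nat_lit 0x20001400020000000000002000300000000000000000000000000) := T_10 (nat_lit 209) (nat_lit 192) (nat_lit 4) (nat_lit 5) (nat_lit 12) L58765 (by decide +kernel)
theorem L58767 : W_10 (nat_lit 5) (nat_lit 0x2900078013000d4000000040000000000000000000000) (nat_lit 0x0) (nat_lit 0x20001400020000000060002000300000000000000000000000000) := T_10 (nat_lit 138) (nat_lit 137) (nat_lit 0) (nat_lit 5) (nat_lit 9) L58766 (by decide +kernel)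
theorem L58768 : W_10 (nat_lit 6) (nat_lit 0x2100078013000d4000000040000000000000000000000) (nat_lit 0x0) (nat_lit 0x200014001a0000000060002000300000000000000000000000000) := T_10 (nat_lit 175) (nat_lit 176) (nat_lit 3) (nat_lit 2) (nat_lit 9) L58767 (by decide +kernel)
theorem L58769 : W_10 (nat_lit 7) (nat_lit 0x2000078013000d4000000040000000000000000000000) (nat_lit 0x0) (nat_lit 0x200014001b8000000060002000300000000000000000000000000) := T_10 (nat_lit 172) (nat_lit 171) (nat_lit 1) (nat_lit 5) (nat_lit 9) L58768 (by decide +kernel)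
theorem L58770 : W_10 (nat_lit 8) (nat_lit 0x2000038013000d4000000040000000000000000000000) (nat_lit 0x0) (nat_lit 0x200014001b8004000460002000300000000000000000000000000) := T_10 (nat_lit 158) (nat_lit 142) (nat_lit 2) (nat_lit 2) (nat_lit 9) L58769 (by decide +kernel)
theorem L58771 : W_10 (nat_lit 9) (nat_lit 0x2000030013000d4000000040000000000000000000000) (nat_lit 0x0) (nat_lit 0x200014001b8004c00460002000300000000000000000000000000) := T_10 (nat_lit 155) (nat_lit 154) (nat_lit 2) (nat_lit 1) (nat_lit 9) L58770 (by decide +kernel)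
theorem L58772 : W_10 (nat_lit 10) (nat_lit 0x2000030013000d4000000000000000000000000000000) (nat_lit 0x0) (nat_lit 0x200014001b8004c00460002000b00040000000000000000000000) := T_10 (nat_lit 90) (nat_lit 107) (nat_lit 5) (nat_lit 5) (nat_lit 5) L58771 (by decide +kernel)
theorem L58773 : W_10 (nat_lit 11) (nat_lit 0x200003001300094000000000000000000000000000000) (nat_lit 0x0) (nat_lit 0x200014001b8004c00460062000b00040000000000000000000000) := T_10 (nat_lit 126) (nat_lit 125) (nat_lit 1) (nat_lit 8) (nat_lit 7) L58772 (by decide +kernel)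
theorem L58774 : W_10 (nat_lit 2) (nat_lit 0x4002200030013800b6800000050000000000000000000000) (nat_lit 0x0) (nat_lit 0x4000200010000000000000000000000000000000000000000000) := D_10 (nat_lit 189) (nat_lit 172) (nat_lit 206) (nat_lit 5) (nat_lit 3) (nat_lit 7) (nat_lit 5) (nat_lit 3) (nat_lit 8) (by decide +kernel)
theorem L58775 : W_10 (nat_lit 3) (nat_lit 0x2200030013800b6800000050000000000000000000000) (nat_lit 0x0) (nat_lit 0xc000600010000000000000000000000000000000000000000000) := T_10 (nat_lit 190) (nat_lit 207) (nat_lit 6) (nat_lit 3) (nat_lit 12) L58774 (by decide +kernel)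
theorem L58776 : W_10 (nat_lit 4) (nat_lit 0x2200030013800b6000000050000000000000000000000) (nat_lit 0x0) (nat_lit 0xc000600010000000000001800000000000000000000000000000) := T_10 (nat_lit 119) (nat_lit 120) (nat_lit 3) (nat_lit 0) (nat_lit 7) L58775 (by decide +kernel)
theorem L58777 : W_10 (nat_lit 5) (nat_lit 0x2000030013800b6000000050000000000000000000000) (nat_lit 0x0) (nat_lit 0xc000600030000000000001800100000000000000000000000000) := T_10 (nat_lit 173) (nat_lit 104) (nat_lit 4) (nat_lit 3) (nat_lit 10) L58776 (by decide +kernel)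
theorem L58778 : W_10 (nat_lit 6) (nat_lit 0x2000030013800b6000000040000000000000000000000) (nat_lit 0x0) (nat_lit 0xc000600030000000000001800300010000000000000000000000) := T_10 (nat_lit 88) (nat_lit 105) (nat_lit 7) (nat_lit 3) (nat_lit 5) L58777 (by decide +kernel)
theorem L58779 : W_10 (nat_lit 7) (nat_lit 0x2000030013800b4000000040000000000000000000000) (nat_lit 0x0) (nat_lit 0xc000600030000000400003800300010000000000000000000000) := T_10 (nat_lit 121) (nat_lit 142) (nat_lit 0) (nat_lit 6) (nat_lit 8) L58778 (by decide +kernel)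
theorem L58780 : W_10 (nat_lit 8) (nat_lit 0x2000030013000b4000000040000000000000000000000) (nat_lit 0x0) (nat_lit 0xc0006000300000004c0003800300010000000000000000000000) := T_10 (nat_lit 139) (nat_lit 138) (nat_lit 2) (nat_lit 2) (nat_lit 8) L58779 (by decide +kernel)
theorem L58781 : W_10 (nat_lit 9) (nat_lit 0x2000030013000b4000000000000000000000000000000) (nat_lit 0x0) (nat_lit 0xc0006000300000004c0003800b00050000000000000000000000) := T_10 (nat_lit 90) (nat_lit 107) (nat_lit 5) (nat_lit 5) (nat_lit 5) L58780 (by decide +kernel)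
theorem L58782 : W_10 (nat_lit 10) (nat_lit 0x200003001300094000000000000000000000000000000) (nat_lit 0x0) (nat_lit 0xc0006000300000004c0063800b00050000000000000000000000) := T_10 (nat_lit 125) (nat_lit 126) (nat_lit 1) (nat_lit 8) (nat_lit 7) L58781 (by decide +kernel)
theorem L58783 : W_10 (nat_lit 12) (nat_lit 0x200002001300094000000000000000000000000000000) (nat_lit 0x0) (nat_lit 0x2c0016001b8005c004e0063800b00058000000000000000000000) := Q_10 (nat_lit 156) (C_10 L58751 (C_10 L58754 (C_10 L58763 (C_10 L58773 (C_10 L58782 N_10))))) (by decide +kernel)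
theorem L58784 : W_10 (nat_lit 5) (nat_lit 0x2000020013800b4000000040000000000000000000000) (nat_lit 0x0) (nat_lit 0x10001c00000008000300018000000000000000000000) := T_10 (nat_lit 105) (nat_lit 88) (nat_lit 7) (nat_lit 3) (nat_lit 5) L56257 (by decide +kernel)
theorem L58785 : W_10 (nat_lit 6) (nat_lit 0x2000020013000b4000000040000000000000000000000) (nat_lit 0x0) (nat_lit 0x10001c000c0008000300018000000000000000000000) := T_10 (nat_lit 139) (nat_lit 138) (nat_lit 2) (nat_lit 2) (nat_lit 8) L58784 (by decide +kernel)
theorem L58786 : W_10 (nat_lit 7) (nat_lit 0x2000020013000b4000000000000000000000000000000) (nat_lit 0x0) (nat_lit 0x10001c000c0008000b00058000000000000000000000) := T_10 (nat_lit 90) (nat_lit 107) (nat_lit 5) (nat_lit 5) (nat_lit 5) L58785 (by decide +kernel)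
theorem L58787 : W_10 (nat_lit 8) (nat_lit 0x200002001300094000000000000000000000000000000) (nat_lit 0x0) (nat_lit 0x10001c000c0068000b00058000000000000000000000) := T_10 (nat_lit 125) (nat_lit 126) (nat_lit 1) (nat_lit 8) (nat_lit 7) L58786 (by decide +kernel)
theorem L58788 : W_10 (nat_lit 2) (nat_lit 0x2000020013800b6000000010000000000000000000000) (nat_lit 0x0) (nat_lit 0x9800000000000000000000000000000) := D_10 (nat_lit 120) (nat_lit 119) (nat_lit 123) (nat_lit 3) (nat_lit 0) (nat_lit 7) (nat_lit 3) (nat_lit 1) (nat_lit 7) (by decide +kernel)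
theorem L58789 : W_10 (nat_lit 3) (nat_lit 0x2000020013800b4000000010000000000000000000000) (nat_lit 0x0) (nat_lit 0x40000b800000000000000000000000000000) := T_10 (nat_lit 121) (nat_lit 142) (nat_lit 0) (nat_lit 6) (nat_lit 8) L58788 (by decide +kernel)
theorem L58790 : W_10 (nat_lit 4) (nat_lit 0x2000020013800b4000000000000000000000000000000) (nat_lit 0x0) (nat_lit 0x40000b800200010000000000000000000000) := T_10 (nat_lit 88) (nat_lit 105) (nat_lit 7) (nat_lit 3) (nat_lit 5) L58789 (by decide +kernel)
theorem L58791 : W_10 (nat_lit 5) (nat_lit 0x2000020013000b4000000000000000000000000000000) (nat_lit 0x0) (nat_lit 0x4c000b800200010000000000000000000000) := T_10 (nat_lit 139) (nat_lit 138) (nat_lit 2) (nat_lit 2) (nat_lit 8) L58790 (by decide +kernel)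
theorem L58792 : W_10 (nat_lit 6) (nat_lit 0x200002001300094000000000000000000000000000000) (nat_lit 0x0) (nat_lit 0x4c006b800200010000000000000000000000) := T_10 (nat_lit 125) (nat_lit 126) (nat_lit 1) (nat_lit 8) (nat_lit 7) L58791 (by decide +kernel)
theorem L58793 : W_10 (nat_lit 2) (nat_lit 0x2800020013000bc0012000c0003800000000000000000) (nat_lit 0x0) (nat_lit 0x320000000000000000000000) := D_10 (nat_lit 92) (nat_lit 93) (nat_lit 89) (nat_lit 0) (nat_lit 8) (nat_lit 5) (nat_lit 0) (nat_lit 7) (nat_lit 5) (by decide +kernel)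
theorem L58794 : W_10 (nat_lit 3) (nat_lit 0x2800020013000bc0012000c0002800000000000000000) (nat_lit 0x0) (nat_lit 0x320001400000000000000000) := T_10 (nat_lit 72) (nat_lit 70) (nat_lit 3) (nat_lit 2) (nat_lit 4) L58793 (by decide +kernel)
theorem L58795 : W_10 (nat_lit 4) (nat_lit 0x2800020013000bc0012000c0000800000000000000000) (nat_lit 0x0) (nat_lit 0x400000000000320003400000000000000000) := T_10 (nat_lit 73) (nat_lit 142) (nat_lit 4) (nat_lit 6) (nat_lit 8) L58794 (by decide +kernel)
theorem L58796 : W_10 (nat_lit 5) (nat_lit 0x2800020013000bc001200040000800000000000000000) (nat_lit 0x0) (nat_lit 0x4000000000003a0007400000000000000000) := T_10 (nat_lit 91) (nat_lit 74) (nat_lit 5) (nat_lit 6) (nat_lit 4) L58795 (by decide +kernel)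
theorem L58797 : W_10 (nat_lit 6) (nat_lit 0x2800020013000bc001200040000000000000000000000) (nat_lit 0x0) (nat_lit 0x4000000000003b0007c00000000000000000) := T_10 (nat_lit 71) (nat_lit 88) (nat_lit 7) (nat_lit 3) (nat_lit 4) L58796 (by decide +kernel)
theorem L58798 : W_10 (nat_lit 7) (nat_lit 0x2000020013000bc001200040000000000000000000000) (nat_lit 0x0) (nat_lit 0x800040004000000000003b0007c00000000000000000) := T_10 (nat_lit 175) (nat_lit 158) (nat_lit 6) (nat_lit 5) (nat_lit 10) L58797 (by decide +kernel)
theorem L58799 : W_10 (nat_lit 8) (nat_lit 0x2000020013000bc001000040000000000000000000000) (nat_lit 0x0) (nat_lit 0x800040004000000003003b0007c00000000000000000) := T_10 (nat_lit 105) (nat_lit 104) (nat_lit 0) (nat_lit 6) (nat_lit 7) L58798 (by decide +kernel)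
theorem L58800 : W_10 (nat_lit 9) (nat_lit 0x2000020013000bc000000040000000000000000000000) (nat_lit 0x0) (nat_lit 0x800040004000000033003b0007c00000000000000000) := T_10 (nat_lit 108) (nat_lit 109) (nat_lit 2) (nat_lit 3) (nat_lit 7) L58799 (by decide +kernel)
theorem L58801 : W_10 (nat_lit 10) (nat_lit 0x2000020013000bc000000000000000000000000000000) (nat_lit 0x0) (nat_lit 0x80004000400000003b003f0007c00000000000000000) := T_10 (nat_lit 90) (nat_lit 107) (nat_lit 5) (nat_lit 5) (nat_lit 5) L58800 (by decide +kernel)
theorem L58802 : W_10 (nat_lit 11) (nat_lit 0x20000200130009c000000000000000000000000000000) (nat_lit 0x0) (nat_lit 0x80004000400060003b003f0007c00000000000000000) := T_10 (nat_lit 125) (nat_lit 126) (nat_lit 1) (nat_lit 8) (nat_lit 7) L58801 (by decide +kernel)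
theorem L58803 : W_10 (nat_lit 12) (nat_lit 0x200002001300094000000000000000000000000000000) (nat_lit 0x0) (nat_lit 0x8000400040006b003b003f0007c00000000000000000) := Q_10 (nat_lit 123) (C_10 L57189 (C_10 L56630 (C_10 L58802 N_10))) (by decide +kernel)
theorem L58804 : W_10 (nat_lit 13) (nat_lit 0x200002001300090000000000000000000000000000000) (nat_lit 0x0) (nat_lit 0x2c0016001b8005c004e006f803b003f8007c00000000000000000) := Q_10 (nat_lit 122) (C_10 L58742 (C_10 L58783 (C_10 L58787 (C_10 L58792 (C_10 L58803 N_10))))) (by decide +kernel)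
theorem L58805 : W_10 (nat_lit 14) (nat_lit 0x200000001300090000000000000000000000000000000) (nat_lit 0x0) (nat_lit 0x2c001e001f8007e004e006f803b003f8007c00000000000000000) := Q_10 (nat_lit 157) (C_10 L57108 (C_10 L56673 (C_10 L56656 (C_10 L58734 (C_10 L58804 N_10))))) (by decide +kernel)
theorem L58806 : W_10 (nat_lit 2) (nat_lit 0x24000000138009e000900008000000000000000000000) (nat_lit 0x0) (nat_lit 0x20001000000000000200000000000000000000000000) := D_10 (nat_lit 156) (nat_lit 173) (nat_lit 105) (nat_lit 4) (nat_lit 3) (nat_lit 10) (nat_lit 4) (nat_lit 3) (nat_lit 9) (by decide +kernel)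
theorem L58807 : W_10 (nat_lit 3) (nat_lit 0x24000000138009e000900000000000000000000000000) (nat_lit 0x0) (nat_lit 0x20001000000000000200008000400000000000000000) := T_10 (nat_lit 87) (nat_lit 70) (nat_lit 7) (nat_lit 2) (nat_lit 4) L58806 (by decide +kernel)
theorem L58808 : W_10 (nat_lit 4) (nat_lit 0x20000000138009e000900000000000000000000000000) (nat_lit 0x0) (nat_lit 0x60003000000000000200008000400000000000000000) := T_10 (nat_lit 174) (nat_lit 157) (nat_lit 6) (nat_lit 4) (nat_lit 10) L58807 (by decide +kernel)
theorem L58809 : W_10 (nat_lit 5) (nat_lit 0x20000000138009e000800000000000000000000000000) (nat_lit 0x0) (nat_lit 0x60003000000000000380008000400000000000000000) := T_10 (nat_lit 104) (nat_lit 103) (nat_lit 0) (nat_lit 5) (nat_lit 7) L58808 (by decide +kernel)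
theorem L58810 : W_10 (nat_lit 6) (nat_lit 0x20000000138009e000000000000000000000000000000) (nat_lit 0x0) (nat_lit 0x60003000000000001b80008000400000000000000000) := T_10 (nat_lit 107) (nat_lit 108) (nat_lit 2) (nat_lit 2) (nat_lit 7) L58809 (by decide +kernel)
theorem L58811 : W_10 (nat_lit 7) (nat_lit 0x20000000138009c000000000000000000000000000000) (nat_lit 0x0) (nat_lit 0x60003000000003001b80008000400000000000000000) := T_10 (nat_lit 121) (nat_lit 120) (nat_lit 3) (nat_lit 1) (nat_lit 7) L58810 (by decide +kernel)
theorem L58812 : W_10 (nat_lit 2) (nat_lit 0x20000100178009c000000000000000000000000000000) (nat_lit 0x0) (nat_lit 0x400020000000000000000400000000000000000000000000) := D_10 (nat_lit 173) (nat_lit 106) (nat_lit 190) (nat_lit 6) (nat_lit 3) (nat_lit 10) (nat_lit 6) (nat_lit 3) (nat_lit 11) (by decide +kernel)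
theorem L58813 : W_10 (nat_lit 3) (nat_lit 0x200001001780098000000000000000000000000000000) (nat_lit 0x0) (nat_lit 0x400020000000000006000400000000000000000000000000) := T_10 (nat_lit 122) (nat_lit 121) (nat_lit 3) (nat_lit 2) (nat_lit 7) L58812 (by decide +kernel)
theorem L58814 : W_10 (nat_lit 4) (nat_lit 0x200001001380098000000000000000000000000000000) (nat_lit 0x0) (nat_lit 0x400020000800400006000400000000000000000000000000) := T_10 (nat_lit 142) (nat_lit 155) (nat_lit 1) (nat_lit 6) (nat_lit 8) L58813 (by decide +kernel)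
theorem L58815 : W_10 (nat_lit 2) (nat_lit 0x220001001780098000000000000000000000000000000) (nat_lit 0x0) (nat_lit 0x4000400020000000000000000000000) := D_10 (nat_lit 106) (nat_lit 89) (nat_lit 122) (nat_lit 5) (nat_lit 4) (nat_lit 5) (nat_lit 6) (nat_lit 3) (nat_lit 10) (by decide +kernel)
theorem L58816 : W_10 (nat_lit 3) (nat_lit 0x200001001780098000000000000000000000000000000) (nat_lit 0x0) (nat_lit 0x400020000000000004000400020000000000000000000000) := T_10 (nat_lit 173) (nat_lit 190) (nat_lit 6) (nat_lit 3) (nat_lit 11) L58815 (by decide +kernel)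
theorem L58817 : W_10 (nat_lit 4) (nat_lit 0x200001001380098000000000000000000000000000000) (nat_lit 0x0) (nat_lit 0x400020000800400004000400020000000000000000000000) := T_10 (nat_lit 142) (nat_lit 155) (nat_lit 1) (nat_lit 6) (nat_lit 8) L58816 (by decide +kernel)
theorem L58818 : W_10 (nat_lit 2) (nat_lit 0x200001001380098000400000000000000000000000000) (nat_lit 0x0) (nat_lit 0x400020002000000000000000000000000000000000000000) := D_10 (nat_lit 173) (nat_lit 190) (nat_lit 157) (nat_lit 6) (nat_lit 3) (nat_lit 11) (nat_lit 5) (nat_lit 4) (nat_lit 6) (by decide +kernel)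
theorem L58819 : W_10 (nat_lit 3) (nat_lit 0x200001001380098000000000000000000000000000000) (nat_lit 0x0) (nat_lit 0x400020002000000000000400020000000000000000000000) := T_10 (nat_lit 106) (nat_lit 89) (nat_lit 5) (nat_lit 4) (nat_lit 5) L58818 (by decide +kernel)
theorem L58820 : W_10 (nat_lit 2) (nat_lit 0x400200001801380098000000000000000000000000000000) (nat_lit 0x0) (nat_lit 0x2600000000000000000000000000000000000000) := D_10 (nat_lit 154) (nat_lit 153) (nat_lit 157) (nat_lit 2) (nat_lit 0) (nat_lit 9) (nat_lit 2) (nat_lit 1) (nat_lit 9) (by decide +kernel)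
theorem L58821 : W_10 (nat_lit 3) (nat_lit 0x400200001001380098000000000000000000000000000000) (nat_lit 0x0) (nat_lit 0x2e00400000000000000000000000000000000000) := T_10 (nat_lit 155) (nat_lit 142) (nat_lit 1) (nat_lit 6) (nat_lit 8) L58820 (by decide +kernel)
theorem L58822 : W_10 (nat_lit 4) (nat_lit 0x200001001380098000000000000000000000000000000) (nat_lit 0x0) (nat_lit 0x400020002e00400000000000000000000000000000000000) := T_10 (nat_lit 190) (nat_lit 173) (nat_lit 6) (nat_lit 3) (nat_lit 11) L58821 (by decide +kernel)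
theorem L58823 : W_10 (nat_lit 2) (nat_lit 0x200001801380098000000000000000000000000000000) (nat_lit 0x0) (nat_lit 0x2600000000000000000000000000000000000000) := D_10 (nat_lit 154) (nat_lit 153) (nat_lit 157) (nat_lit 2) (nat_lit 0) (nat_lit 9) (nat_lit 2) (nat_lit 1) (nat_lit 9) (by decide +kernel)
theorem L58824 : W_10 (nat_lit 3) (nat_lit 0x200001001380098000000000000000000000000000000) (nat_lit 0x0) (nat_lit 0x2e00400000000000000000000000000000000000) := T_10 (nat_lit 155) (nat_lit 142) (nat_lit 1) (nat_lit 6) (nat_lit 8) L58823 (by decide +kernel)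
theorem L58825 : W_10 (nat_lit 5) (nat_lit 0x200000001380098000000000000000000000000000000) (nat_lit 0x0) (nat_lit 0x400020003e00400006000400020000000000000000000000) := Q_10 (nat_lit 156) (C_10 L58814 (C_10 L58817 (C_10 L58819 (C_10 L58822 (C_10 L58824 N_10))))) (by decide +kernel)
theorem L58826 : W_10 (nat_lit 5) (nat_lit 0x200000001380098000000000000000000000000000000) (nat_lit 0x0) (nat_lit 0x40002000400067000300010000000000000000000000) := Q_10 (nat_lit 122) (C_10 L58621 (C_10 L58527 N_10)) (by decide +kernel)
theorem L58827 : W_10 (nat_lit 2) (nat_lit 0x2000000013800bd001000080000000000000000000000) (nat_lit 0x0) (nat_lit 0x80004000000000000800000000000000000000000000) := D_10 (nat_lit 158) (nat_lit 175) (nat_lit 107) (nat_lit 6) (nat_lit 5) (nat_lit 10) (nat_lit 6) (nat_lit 5) (nat_lit 9) (by decide +kernel)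
theorem L58828 : W_10 (nat_lit 3) (nat_lit 0x2000000013800bd001000000000000000000000000000) (nat_lit 0x0) (nat_lit 0x80004000000000000800080004000000000000000000) := T_10 (nat_lit 91) (nat_lit 74) (nat_lit 5) (nat_lit 6) (nat_lit 4) L58827 (by decide +kernel)
theorem L58829 : W_10 (nat_lit 4) (nat_lit 0x2000000013800bd000000000000000000000000000000) (nat_lit 0x0) (nat_lit 0x80004000000000003800080004000000000000000000) := T_10 (nat_lit 108) (nat_lit 109) (nat_lit 2) (nat_lit 3) (nat_lit 7) L58828 (by decide +kernel)
theorem L58830 : W_10 (nat_lit 5) (nat_lit 0x2000000013800bc000000000000000000000000000000) (nat_lit 0x0) (nat_lit 0x80004000000003003800080004000000000000000000) := T_10 (nat_lit 120) (nat_lit 121) (nat_lit 3) (nat_lit 1) (nat_lit 7) L58829 (by decide +kernel)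
theorem L58831 : W_10 (nat_lit 6) (nat_lit 0x20000000138009c000000000000000000000000000000) (nat_lit 0x0) (nat_lit 0x80004000000063003800080004000000000000000000) := T_10 (nat_lit 125) (nat_lit 126) (nat_lit 1) (nat_lit 7) (nat_lit 7) L58830 (by decide +kernel)
theorem L58832 : W_10 (nat_lit 8) (nat_lit 0x200000001380098000000000000000000000000000000) (nat_lit 0x0) (nat_lit 0xe0007000000067003f800b8005c00000000000000000) := Q_10 (nat_lit 122) (C_10 L58811 (C_10 L58678 (C_10 L58527 (C_10 L58831 N_10)))) (by decide +kernel)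
theorem L58833 : W_10 (nat_lit 2) (nat_lit 0x2e00018013800d8000400000000000000000000000000) (nat_lit 0x0) (nat_lit 0x10000600000000000000000000000000000000000000) := D_10 (nat_lit 154) (nat_lit 153) (nat_lit 172) (nat_lit 3) (nat_lit 0) (nat_lit 9) (nat_lit 0) (nat_lit 5) (nat_lit 10) (by decide +kernel)
theorem L58834 : W_10 (nat_lit 3) (nat_lit 0x2a00018013800d8000400000000000000000000000000) (nat_lit 0x0) (nat_lit 0x150000600000000000000000000000000000000000000) := T_10 (nat_lit 174) (nat_lit 176) (nat_lit 0) (nat_lit 6) (nat_lit 10) L58833 (by decide +kernel)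
theorem L58835 : W_10 (nat_lit 4) (nat_lit 0x2a00010013800d8000400000000000000000000000000) (nat_lit 0x0) (nat_lit 0x150000e00400000000000000000000000000000000000) := T_10 (nat_lit 155) (nat_lit 142) (nat_lit 1) (nat_lit 6) (nat_lit 8) L58834 (by decide +kernel)
theorem L58836 : W_10 (nat_lit 5) (nat_lit 0x2200010013800d8000400000000000000000000000000) (nat_lit 0x0) (nat_lit 0x1d0004e00400000000000000000000000000000000000) := T_10 (nat_lit 175) (nat_lit 158) (nat_lit 4) (nat_lit 5) (nat_lit 10) L58835 (by decide +kernel)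
theorem L58837 : W_10 (nat_lit 6) (nat_lit 0x2000010013800d8000400000000000000000000000000) (nat_lit 0x0) (nat_lit 0x4001f0004e00400000000000000000000000000000000000) := T_10 (nat_lit 173) (nat_lit 190) (nat_lit 6) (nat_lit 3) (nat_lit 11) L58836 (by decide +kernel)
theorem L58838 : W_10 (nat_lit 7) (nat_lit 0x2000010013800d8000000000000000000000000000000) (nat_lit 0x0) (nat_lit 0x4001f0004e00400000000400020000000000000000000000) := T_10 (nat_lit 106) (nat_lit 89) (nat_lit 5) (nat_lit 4) (nat_lit 5) L58837 (by decide +kernel)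
theorem L58839 : W_10 (nat_lit 8) (nat_lit 0x200001001380098000000000000000000000000000000) (nat_lit 0x0) (nat_lit 0x4001f0004e00400060000400020000000000000000000000) := T_10 (nat_lit 126) (nat_lit 125) (nat_lit 1) (nat_lit 7) (nat_lit 7) L58838 (by decide +kernel)
theorem L58840 : W_10 (nat_lit 9) (nat_lit 0x200000001380098000000000000000000000000000000) (nat_lit 0x0) (nat_lit 0x4001f0007e00400060000400020000000000000000000000) := Q_10 (nat_lit 156) (C_10 L58824 (C_10 L58819 (C_10 L58839 N_10))) (by decide +kernel)
theorem L58841 : W_10 (nat_lit 10) (nat_lit 0x200000001380090000000000000000000000000000000) (nat_lit 0x0) (nat_lit 0x4001f0007e0040006f003f800b8005c00000000000000000) := Q_10 (nat_lit 123) (C_10 L58825 (C_10 L58826 (C_10 L58832 (C_10 L58679 (C_10 L58840 N_10))))) (by decide +kernel)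
theorem L58842 : W_10 (nat_lit 11) (nat_lit 0x200000001300090000000000000000000000000000000) (nat_lit 0x0) (nat_lit 0x6001f0007e004e006f803f800b8005c00000000000000000) := Q_10 (nat_lit 139) (C_10 L58841 (C_10 L56197 (C_10 L56196 N_10))) (by decide +kernel)
theorem L58843 : W_10 (nat_lit 2) (nat_lit 0x2000020013800bc000000040000000000000000000000) (nat_lit 0x0) (nat_lit 0x300010000000000000000000000) := D_10 (nat_lit 105) (nat_lit 104) (nat_lit 88) (nat_lit 0) (nat_lit 6) (nat_lit 7) (nat_lit 7) (nat_lit 3) (nat_lit 5) (by decide +kernel)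
theorem L58844 : W_10 (nat_lit 3) (nat_lit 0x2000020013000bc000000040000000000000000000000) (nat_lit 0x0) (nat_lit 0xc0000000300010000000000000000000000) := T_10 (nat_lit 139) (nat_lit 138) (nat_lit 2) (nat_lit 2) (nat_lit 8) L58843 (by decide +kernel)
theorem L58845 : W_10 (nat_lit 4) (nat_lit 0x20000200130009c000000040000000000000000000000) (nat_lit 0x0) (nat_lit 0xc0060000300010000000000000000000000) := T_10 (nat_lit 125) (nat_lit 126) (nat_lit 1) (nat_lit 8) (nat_lit 7) L58844 (by decide +kernel)
theorem L58846 : W_10 (nat_lit 5) (nat_lit 0x20000200130009c000000000000000000000000000000) (nat_lit 0x0) (nat_lit 0xc0060000b00050000000000000000000000) := T_10 (nat_lit 90) (nat_lit 107) (nat_lit 5) (nat_lit 5) (nat_lit 5) L58845 (by decide +kernel)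
theorem L58847 : W_10 (nat_lit 7) (nat_lit 0x200002001300098000000000000000000000000000000) (nat_lit 0x0) (nat_lit 0x4c0067000b00050000000000000000000000) := Q_10 (nat_lit 122) (C_10 L56630 (C_10 L57199 (C_10 L58846 N_10))) (by decide +kernel)
theorem L58848 : W_10 (nat_lit 11) (nat_lit 0x200002001300090000000000000000000000000000000) (nat_lit 0x0) (nat_lit 0xb0005c004c006f000f80078003800000000000000000) := Q_10 (nat_lit 123) (C_10 L56613 (C_10 L57736 (C_10 L58227 (C_10 L58847 (C_10 L56621 N_10))))) (by decide +kernel)
theorem L58849 : W_10 (nat_lit 12) (nat_lit 0x200000001300090000000000000000000000000000000) (nat_lit 0x0) (nat_lit 0x8000f0007e004e006f800f80078003800000000000000000) := Q_10 (nat_lit 157) (C_10 L57108 (C_10 L56673 (C_10 L58734 (C_10 L56656 (C_10 L58848 N_10))))) (by decide +kernel)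
theorem L58850 : W_10 (nat_lit 3) (nat_lit 0x2e0002001300098000000000000000000000000000000) (nat_lit 0x0) (nat_lit 0x6000100005000000000000000000000000000000000000000) := T_10 (nat_lit 176) (nat_lit 156) (nat_lit 0) (nat_lit 7) (nat_lit 10) L57373 (by decide +kernel)
theorem L58851 : W_10 (nat_lit 4) (nat_lit 0x260002001300098000000000000000000000000000000) (nat_lit 0x0) (nat_lit 0x7000180005000000000000000000000000000000000000000) := T_10 (nat_lit 175) (nat_lit 192) (nat_lit 7) (nat_lit 4) (nat_lit 7) L58850 (by decide +kernel)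
theorem L58852 : W_10 (nat_lit 5) (nat_lit 0x240002001300098000000000000000000000000000000) (nat_lit 0x0) (nat_lit 0x74001a0005000000000000000000000000000000000000000) := T_10 (nat_lit 173) (nat_lit 190) (nat_lit 5) (nat_lit 4) (nat_lit 7) L58851 (by decide +kernel)
theorem L58853 : W_10 (nat_lit 6) (nat_lit 0x200002001300098000000000000000000000000000000) (nat_lit 0x0) (nat_lit 0x7c001e0005000000000000000000000000000000000000000) := T_10 (nat_lit 174) (nat_lit 191) (nat_lit 6) (nat_lit 4) (nat_lit 11) L58852 (by decide +kernel)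
theorem L58854 : W_10 (nat_lit 7) (nat_lit 0x200002001300098000000000000000000000000000000) (nat_lit 0x0) (nat_lit 0xa0005c00400000000780030001800000000000000000) := Q_10 (nat_lit 106) (C_10 L58359 (C_10 L58034 (C_10 L56585 N_10))) (by decide +kernel)
theorem L58855 : W_10 (nat_lit 2) (nat_lit 0x24000200130009c000000000000000000000000000000) (nat_lit 0x0) (nat_lit 0x400003000000000000000000000000000000) := D_10 (nat_lit 121) (nat_lit 142) (nat_lit 120) (nat_lit 3) (nat_lit 2) (nat_lit 7) (nat_lit 3) (nat_lit 1) (nat_lit 7) (by decide +kernel)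
theorem L58856 : W_10 (nat_lit 3) (nat_lit 0x240002001300098000000000000000000000000000000) (nat_lit 0x0) (nat_lit 0x400007000200000000000000000000000000) := T_10 (nat_lit 122) (nat_lit 105) (nat_lit 4) (nat_lit 4) (nat_lit 10) L58855 (by decide +kernel)
theorem L58857 : W_10 (nat_lit 4) (nat_lit 0x200002001300098000000000000000000000000000000) (nat_lit 0x0) (nat_lit 0x800040000000400007000200000000000000000000000000) := T_10 (nat_lit 174) (nat_lit 191) (nat_lit 6) (nat_lit 4) (nat_lit 11) L58856 (by decide +kernel)
theorem L58858 : W_10 (nat_lit 8) (nat_lit 0x200002001300090000000000000000000000000000000) (nat_lit 0x0) (nat_lit 0x7c001e0005c0040000f000780030001800000000000000000) := Q_10 (nat_lit 123) (C_10 L57729 (C_10 L57282 (C_10 L58853 (C_10 L58854 (C_10 L58857 N_10))))) (by decide +kernel)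
theorem L58859 : W_10 (nat_lit 2) (nat_lit 0x200003801300090000000000000000000000000000000) (nat_lit 0x0) (nat_lit 0x4000480000000000000000000000000000000000) := D_10 (nat_lit 142) (nat_lit 139) (nat_lit 158) (nat_lit 1) (nat_lit 6) (nat_lit 8) (nat_lit 2) (nat_lit 2) (nat_lit 9) (by decide +kernel)
theorem L58860 : W_10 (nat_lit 3) (nat_lit 0x200003001300090000000000000000000000000000000) (nat_lit 0x0) (nat_lit 0x4c00480000000000000000000000000000000000) := T_10 (nat_lit 155) (nat_lit 154) (nat_lit 2) (nat_lit 1) (nat_lit 9) L58859 (by decide +kernel)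
theorem L58861 : W_10 (nat_lit 4) (nat_lit 0x200003401300090000400000000000000000000000000) (nat_lit 0x0) (nat_lit 0x20000000000008000200030001800000000000000000) := T_10 (nat_lit 123) (nat_lit 173) (nat_lit 5) (nat_lit 4) (nat_lit 6) L58032 (by decide +kernel)
theorem L58862 : W_10 (nat_lit 5) (nat_lit 0x200003001300090000400000000000000000000000000) (nat_lit 0x0) (nat_lit 0x20000c00000008000200030001800000000000000000) := T_10 (nat_lit 154) (nat_lit 155) (nat_lit 2) (nat_lit 1) (nat_lit 9) L58861 (by decide +kernel)
theorem L58863 : W_10 (nat_lit 2) (nat_lit 0x1000280007401300090001c00000000000000000000000000) (nat_lit 0x0) (nat_lit 0x40002000100000000000000000000000000000000000000000000) := D_10 (nat_lit 193) (nat_lit 176) (nat_lit 210) (nat_lit 7) (nat_lit 5) (nat_lit 7) (nat_lit 7) (nat_lit 5) (nat_lit 8) (by decide +kernel)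
theorem L58864 : W_10 (nat_lit 3) (nat_lit 0x280007401300090001c00000000000000000000000000) (nat_lit 0x0) (nat_lit 0x60003000100000000000000000000000000000000000000000000) := T_10 (nat_lit 192) (nat_lit 209) (nat_lit 4) (nat_lit 5) (nat_lit 12) L58863 (by decide +kernel)
theorem L58865 : W_10 (nat_lit 4) (nat_lit 0x200007401300090001c00000000000000000000000000) (nat_lit 0x0) (nat_lit 0x60003000180000000000020000000000000000000000000000000) := T_10 (nat_lit 175) (nat_lit 125) (nat_lit 6) (nat_lit 5) (nat_lit 10) L58864 (by decide +kernel)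
theorem L58866 : W_10 (nat_lit 5) (nat_lit 0x200007401300090000c00000000000000000000000000) (nat_lit 0x0) (nat_lit 0x60003000180000000000020001000080000000000000000000000) := T_10 (nat_lit 108) (nat_lit 91) (nat_lit 6) (nat_lit 5) (nat_lit 9) L58865 (by decide +kernel)
theorem L58867 : W_10 (nat_lit 6) (nat_lit 0x200003401300090000c00000000000000000000000000) (nat_lit 0x0) (nat_lit 0x600030001800040000000200010000a0000000000000000000000) := T_10 (nat_lit 158) (nat_lit 89) (nat_lit 4) (nat_lit 5) (nat_lit 9) L58866 (by decide +kernel)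
theorem L58868 : W_10 (nat_lit 7) (nat_lit 0x200003401300090000400000000000000000000000000) (nat_lit 0x0) (nat_lit 0x600030001800040000000200018000e0000000000000000000000) := T_10 (nat_lit 107) (nat_lit 90) (nat_lit 5) (nat_lit 5) (nat_lit 5) L58867 (by decide +kernel)
theorem L58869 : W_10 (nat_lit 8) (nat_lit 0x200003001300090000400000000000000000000000000) (nat_lit 0x0) (nat_lit 0x60003000180004c000000200018000e0000000000000000000000) := T_10 (nat_lit 154) (nat_lit 155) (nat_lit 2) (nat_lit 1) (nat_lit 9) L58868 (by decide +kernel)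
theorem L58870 : W_10 (nat_lit 2) (nat_lit 0x28000380130009c000700040000000000000000000000) (nat_lit 0x0) (nat_lit 0x10000000080000000000008000000000000000000000) := D_10 (nat_lit 139) (nat_lit 87) (nat_lit 172) (nat_lit 4) (nat_lit 3) (nat_lit 9) (nat_lit 5) (nat_lit 3) (nat_lit 6) (by decide +kernel)
theorem L58871 : W_10 (nat_lit 3) (nat_lit 0x280003801300098000700040000000000000000000000) (nat_lit 0x0) (nat_lit 0x10000000080024000000008000000000000000000000) := T_10 (nat_lit 122) (nat_lit 125) (nat_lit 0) (nat_lit 6) (nat_lit 7) L58870 (by decide +kernel)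
theorem L58872 : W_10 (nat_lit 4) (nat_lit 0x280003001300098000700040000000000000000000000) (nat_lit 0x0) (nat_lit 0x10000c00080024000000008000000000000000000000) := T_10 (nat_lit 155) (nat_lit 154) (nat_lit 2) (nat_lit 1) (nat_lit 9) L58871 (by decide +kernel)
theorem L58873 : W_10 (nat_lit 5) (nat_lit 0x280003001300098000600040000000000000000000000) (nat_lit 0x0) (nat_lit 0x10000c00080024000180008000000000000000000000) := T_10 (nat_lit 104) (nat_lit 103) (nat_lit 3) (nat_lit 1) (nat_lit 6) L58872 (by decide +kernel)
theorem L58874 : W_10 (nat_lit 6) (nat_lit 0x280003001300098000400040000000000000000000000) (nat_lit 0x0) (nat_lit 0x10000c00080024000380018000000000000000000000) := T_10 (nat_lit 105) (nat_lit 88) (nat_lit 4) (nat_lit 4) (nat_lit 9) L58873 (by decide +kernel)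
theorem L58875 : W_10 (nat_lit 7) (nat_lit 0x200003001300098000400040000000000000000000000) (nat_lit 0x0) (nat_lit 0x90004c00080024000380018000000000000000000000) := T_10 (nat_lit 175) (nat_lit 158) (nat_lit 7) (nat_lit 4) (nat_lit 6) L58874 (by decide +kernel)
theorem L58876 : W_10 (nat_lit 8) (nat_lit 0x200003001300090000400040000000000000000000000) (nat_lit 0x0) (nat_lit 0xb0004c0008002c000380018000000000000000000000) := T_10 (nat_lit 123) (nat_lit 173) (nat_lit 5) (nat_lit 4) (nat_lit 6) L58875 (by decide +kernel)
theorem L58877 : W_10 (nat_lit 9) (nat_lit 0x200003001300090000400000000000000000000000000) (nat_lit 0x0) (nat_lit 0xb0004c0008002c000b80058000000000000000000000) := T_10 (nat_lit 90) (nat_lit 107) (nat_lit 5) (nat_lit 5) (nat_lit 5) L58876 (by decide +kernel)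
theorem L58878 : W_10 (nat_lit 2) (nat_lit 0x200003001300098000400040000000000000000000000) (nat_lit 0x0) (nat_lit 0x80000000000020002000000000000000000) := D_10 (nat_lit 89) (nat_lit 139) (nat_lit 73) (nat_lit 5) (nat_lit 4) (nat_lit 5) (nat_lit 6) (nat_lit 4) (nat_lit 8) (by decide +kernel)
theorem L58879 : W_10 (nat_lit 3) (nat_lit 0x200003001300090000400040000000000000000000000) (nat_lit 0x0) (nat_lit 0x20000000080008000000020002000000000000000000) := T_10 (nat_lit 123) (nat_lit 173) (nat_lit 5) (nat_lit 4) (nat_lit 6) L58878 (by decide +kernel)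
theorem L58880 : W_10 (nat_lit 4) (nat_lit 0x200003001300090000400000000000000000000000000) (nat_lit 0x0) (nat_lit 0x20000000080008000800060002000000000000000000) := T_10 (nat_lit 90) (nat_lit 107) (nat_lit 5) (nat_lit 5) (nat_lit 5) L58879 (by decide +kernel)
theorem L58881 : W_10 (nat_lit 10) (nat_lit 0x200003001300090000000000000000000000000000000) (nat_lit 0x0) (nat_lit 0x600030001b0004c0008002c001f800f8003800000000000000000) := Q_10 (nat_lit 106) (C_10 L58862 (C_10 L58869 (C_10 L58877 (C_10 L58880 N_10)))) (by decide +kernel)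
theorem L58882 : W_10 (nat_lit 2) (nat_lit 0x290007801300090000000040000000000000000000000) (nat_lit 0x0) (nat_lit 0x1000000000000000008000400000000000000000000000000) := D_10 (nat_lit 123) (nat_lit 106) (nat_lit 192) (nat_lit 7) (nat_lit 4) (nat_lit 6) (nat_lit 4) (nat_lit 5) (nat_lit 11) (by decide +kernel)
theorem L58883 : W_10 (nat_lit 3) (nat_lit 0x210007801300090000000040000000000000000000000) (nat_lit 0x0) (nat_lit 0x1000180000000000008000400000000000000000000000000) := T_10 (nat_lit 175) (nat_lit 176) (nat_lit 3) (nat_lit 2) (nat_lit 9) L58882 (by decide +kernel)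
theorem L58884 : W_10 (nat_lit 4) (nat_lit 0x200007801300090000000040000000000000000000000) (nat_lit 0x0) (nat_lit 0x1000198000000000008000400000000000000000000000000) := T_10 (nat_lit 172) (nat_lit 171) (nat_lit 1) (nat_lit 5) (nat_lit 9) L58883 (by decide +kernel)
theorem L58885 : W_10 (nat_lit 5) (nat_lit 0x200003801300090000000040000000000000000000000) (nat_lit 0x0) (nat_lit 0x1000198004000400008000400000000000000000000000000) := T_10 (nat_lit 158) (nat_lit 142) (nat_lit 2) (nat_lit 2) (nat_lit 9) L58884 (by decide +kernel)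
theorem L58886 : W_10 (nat_lit 6) (nat_lit 0x200003801300090000000000000000000000000000000) (nat_lit 0x0) (nat_lit 0x1000198004000400008000c00040000000000000000000000) := T_10 (nat_lit 90) (nat_lit 107) (nat_lit 5) (nat_lit 5) (nat_lit 5) L58885 (by decide +kernel)
theorem L58887 : W_10 (nat_lit 7) (nat_lit 0x200003001300090000000000000000000000000000000) (nat_lit 0x0) (nat_lit 0x1000198004c00400008000c00040000000000000000000000) := T_10 (nat_lit 155) (nat_lit 154) (nat_lit 2) (nat_lit 1) (nat_lit 9) L58886 (by decide +kernel)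
theorem L58888 : W_10 (nat_lit 2) (nat_lit 0x2000038013c0090000000040000000000000000000000) (nat_lit 0x0) (nat_lit 0x30008000000000000000000000000000000) := D_10 (nat_lit 137) (nat_lit 123) (nat_lit 136) (nat_lit 2) (nat_lit 1) (nat_lit 8) (nat_lit 3) (nat_lit 0) (nat_lit 8) (by decide +kernel)
theorem L58889 : W_10 (nat_lit 3) (nat_lit 0x200003801380090000000040000000000000000000000) (nat_lit 0x0) (nat_lit 0x70028000000000000000000000000000000) := T_10 (nat_lit 138) (nat_lit 125) (nat_lit 2) (nat_lit 2) (nat_lit 8) L58888 (by decide +kernel)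
theorem L58890 : W_10 (nat_lit 4) (nat_lit 0x200003801300090000000040000000000000000000000) (nat_lit 0x0) (nat_lit 0x4f0028000000000000000000000000000000) := T_10 (nat_lit 139) (nat_lit 142) (nat_lit 1) (nat_lit 6) (nat_lit 8) L58889 (by decide +kernel)
theorem L58891 : W_10 (nat_lit 5) (nat_lit 0x200003801300090000000000000000000000000000000) (nat_lit 0x0) (nat_lit 0x4f0028000800040000000000000000000000) := T_10 (nat_lit 90) (nat_lit 107) (nat_lit 5) (nat_lit 5) (nat_lit 5) L58890 (by decide +kernel)
theorem L58892 : W_10 (nat_lit 6) (nat_lit 0x200003001300090000000000000000000000000000000) (nat_lit 0x0) (nat_lit 0xc004f0028000800040000000000000000000000) := T_10 (nat_lit 155) (nat_lit 154) (nat_lit 2) (nat_lit 1) (nat_lit 9) L58891 (by decide +kernel)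
theorem L58893 : W_10 (nat_lit 2) (nat_lit 0x1000280007001300090001c00000000000000000000000000) (nat_lit 0x0) (nat_lit 0x40002000100000000000000000000000000000000000000000000) := D_10 (nat_lit 193) (nat_lit 176) (nat_lit 210) (nat_lit 7) (nat_lit 5) (nat_lit 7) (nat_lit 7) (nat_lit 5) (nat_lit 8) (by decide +kernel)
theorem L58894 : W_10 (nat_lit 3) (nat_lit 0x280007001300090001c00000000000000000000000000) (nat_lit 0x0) (nat_lit 0x60003000100000000000000000000000000000000000000000000) := T_10 (nat_lit 192) (nat_lit 209) (nat_lit 4) (nat_lit 5) (nat_lit 12) L58893 (by decide +kernel)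
theorem L58895 : W_10 (nat_lit 4) (nat_lit 0x200007001300090001c00000000000000000000000000) (nat_lit 0x0) (nat_lit 0x60003000180000000000020000000000000000000000000000000) := T_10 (nat_lit 175) (nat_lit 125) (nat_lit 6) (nat_lit 5) (nat_lit 10) L58894 (by decide +kernel)
theorem L58896 : W_10 (nat_lit 5) (nat_lit 0x200007001300090000c00000000000000000000000000) (nat_lit 0x0) (nat_lit 0x60003000180000000000020001000080000000000000000000000) := T_10 (nat_lit 108) (nat_lit 91) (nat_lit 6) (nat_lit 5) (nat_lit 9) L58895 (by decide +kernel)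
theorem L58897 : W_10 (nat_lit 6) (nat_lit 0x200003001300090000c00000000000000000000000000) (nat_lit 0x0) (nat_lit 0x600030001800040000000200010000a0000000000000000000000) := T_10 (nat_lit 158) (nat_lit 89) (nat_lit 4) (nat_lit 5) (nat_lit 9) L58896 (by decide +kernel)
theorem L58898 : W_10 (nat_lit 7) (nat_lit 0x200003001300090000400000000000000000000000000) (nat_lit 0x0) (nat_lit 0x600030001800040000000200018000e0000000000000000000000) := T_10 (nat_lit 107) (nat_lit 90) (nat_lit 5) (nat_lit 5) (nat_lit 5) L58897 (by decide +kernel)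
theorem L58899 : W_10 (nat_lit 2) (nat_lit 0x200003001300098000400000000000000000000000000) (nat_lit 0x0) (nat_lit 0x80000000000020001000000000000000000) := D_10 (nat_lit 89) (nat_lit 139) (nat_lit 72) (nat_lit 5) (nat_lit 4) (nat_lit 5) (nat_lit 7) (nat_lit 4) (nat_lit 4) (by decide +kernel)
theorem L58900 : W_10 (nat_lit 3) (nat_lit 0x200003001300090000400000000000000000000000000) (nat_lit 0x0) (nat_lit 0x20000000080008000000020001000000000000000000) := T_10 (nat_lit 123) (nat_lit 173) (nat_lit 5) (nat_lit 4) (nat_lit 6) L58899 (by decide +kernel)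
theorem L58901 : W_10 (nat_lit 2) (nat_lit 0x280003001300098000e00000000000000000000000000) (nat_lit 0x0) (nat_lit 0x20000180000000000000000000000000) := D_10 (nat_lit 104) (nat_lit 125) (nat_lit 103) (nat_lit 3) (nat_lit 2) (nat_lit 6) (nat_lit 3) (nat_lit 1) (nat_lit 6) (by decide +kernel)
theorem L58902 : W_10 (nat_lit 3) (nat_lit 0x280003001300098000c00000000000000000000000000) (nat_lit 0x0) (nat_lit 0x20000380010000000000000000000000) := T_10 (nat_lit 105) (nat_lit 88) (nat_lit 4) (nat_lit 4) (nat_lit 9) L58901 (by decide +kernel)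
theorem L58903 : W_10 (nat_lit 4) (nat_lit 0x280003001300098000400000000000000000000000000) (nat_lit 0x0) (nat_lit 0x20000b80050000000000000000000000) := T_10 (nat_lit 107) (nat_lit 90) (nat_lit 6) (nat_lit 4) (nat_lit 9) L58902 (by decide +kernel)
theorem L58904 : W_10 (nat_lit 5) (nat_lit 0x200003001300098000400000000000000000000000000) (nat_lit 0x0) (nat_lit 0x80004000000020000b80050000000000000000000000) := T_10 (nat_lit 175) (nat_lit 158) (nat_lit 7) (nat_lit 4) (nat_lit 6) L58903 (by decide +kernel)
theorem L58905 : W_10 (nat_lit 6) (nat_lit 0x200003001300090000400000000000000000000000000) (nat_lit 0x0) (nat_lit 0xa0004000000028000b80050000000000000000000000) := T_10 (nat_lit 123) (nat_lit 173) (nat_lit 5) (nat_lit 4) (nat_lit 6) L58904 (by decide +kernel)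
theorem L58906 : W_10 (nat_lit 8) (nat_lit 0x200003001300090000000000000000000000000000000) (nat_lit 0x0) (nat_lit 0x600030001a0004000080028001f800f0003000000000000000000) := Q_10 (nat_lit 106) (C_10 L58880 (C_10 L58898 (C_10 L58900 (C_10 L58905 N_10)))) (by decide +kernel)
theorem L58907 : W_10 (nat_lit 11) (nat_lit 0x200002001300090000000000000000000000000000000) (nat_lit 0x0) (nat_lit 0x600030001b8005c004f002c001f800f8003800000000000000000) := Q_10 (nat_lit 156) (C_10 L58860 (C_10 L58881 (C_10 L58887 (C_10 L58892 (C_10 L58906 N_10))))) (by decide +kernel)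
theorem L58908 : W_10 (nat_lit 12) (nat_lit 0x200000001300090000000000000000000000000000000) (nat_lit 0x0) (nat_lit 0x60007c001f8007c004f002f001f800f8003800000000000000000) := Q_10 (nat_lit 157) (C_10 L56673 (C_10 L56656 (C_10 L58858 (C_10 L58907 N_10)))) (by decide +kernel)
theorem L58909 : W_10 (nat_lit 10) (nat_lit 0x200000001300090000000000000000000000000000000) (nat_lit 0x0) (nat_lit 0x800050007e004e006f801f001d8004000000000000000000) := Q_10 (nat_lit 157) (C_10 L57108 (C_10 L57619 (C_10 L58734 (C_10 L56673 (C_10 L56656 N_10))))) (by decide +kernel)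
theorem L58910 : W_10 (nat_lit 16) (nat_lit 0x200000001300080000000000000000000000000000000) (nat_lit 0x0) (nat_lit 0x20007c007e001f8007e004f007f803f803fc007f003e000e000200000) := Q_10 (nat_lit 124) (C_10 L58536 (C_10 L58537 (C_10 L58580 (C_10 L58615 (C_10 L58707 (C_10 L58721 (C_10 L58805 (C_10 L58842 (C_10 L58849 (C_10 L58908 (C_10 L58909 N_10))))))))))) (by decide +kernel)
theorem L58911 : W_10 (nat_lit 15) (nat_lit 0x200000001300080000000000000000000000000000000) (nat_lit 0x0) (nat_lit 0x14000f0007c01fe004e007f801fc01fc00df004e0001000000000) := Q_10 (nat_lit 139) (C_10 L56865 (C_10 L56858 (C_10 L58014 (C_10 L56085 (C_10 L57013 (C_10 L57939 N_10)))))) (by decide +kernel)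
theorem L58912 : W_10 (nat_lit 2) (nat_lit 0x22000f001780084000000010000000000000000000000) (nat_lit 0x0) (nat_lit 0x8000400000000000000008000000000000000000000000000000) := D_10 (nat_lit 190) (nat_lit 207) (nat_lit 123) (nat_lit 6) (nat_lit 3) (nat_lit 12) (nat_lit 6) (nat_lit 3) (nat_lit 11) (by decide +kernel)
theorem L58913 : W_10 (nat_lit 3) (nat_lit 0x20000f001780084000000010000000000000000000000) (nat_lit 0x0) (nat_lit 0x8000400030000000000008000000000000000000000000000000) := T_10 (nat_lit 173) (nat_lit 172) (nat_lit 1) (nat_lit 6) (nat_lit 9) L58912 (by decide +kernel)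
theorem L58914 : W_10 (nat_lit 4) (nat_lit 0x20000b001780084000000010000000000000000000000) (nat_lit 0x0) (nat_lit 0x8000400130004000000008000000000000000000000000000000) := T_10 (nat_lit 158) (nat_lit 176) (nat_lit 3) (nat_lit 3) (nat_lit 9) L58913 (by decide +kernel)
theorem L58915 : W_10 (nat_lit 5) (nat_lit 0x20000a001780084000000010000000000000000000000) (nat_lit 0x0) (nat_lit 0x8000400130005800000008000000000000000000000000000000) := T_10 (nat_lit 156) (nat_lit 155) (nat_lit 1) (nat_lit 6) (nat_lit 8) L58914 (by decide +kernel)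
theorem L58916 : W_10 (nat_lit 6) (nat_lit 0x20000a001780084000000000000000000000000000000) (nat_lit 0x0) (nat_lit 0x8000400130005800000008000200010000000000000000000000) := T_10 (nat_lit 88) (nat_lit 105) (nat_lit 7) (nat_lit 3) (nat_lit 5) L58915 (by decide +kernel)
theorem L58917 : W_10 (nat_lit 7) (nat_lit 0x200002001780084000000000000000000000000000000) (nat_lit 0x0) (nat_lit 0x800040013001d800000008000200010000000000000000000000) := T_10 (nat_lit 159) (nat_lit 160) (nat_lit 3) (nat_lit 3) (nat_lit 8) L58916 (by decide +kernel)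
theorem L58918 : W_10 (nat_lit 8) (nat_lit 0x200002001780080000000000000000000000000000000) (nat_lit 0x0) (nat_lit 0x800040013001d80000000e000200010000000000000000000000) := T_10 (nat_lit 122) (nat_lit 121) (nat_lit 0) (nat_lit 6) (nat_lit 8) L58917 (by decide +kernel)
theorem L58919 : W_10 (nat_lit 10) (nat_lit 0x200000001780080000000000000000000000000000000) (nat_lit 0x0) (nat_lit 0x14000f8007c001f001f80000001e000200010000000000000000000000) := Q_10 (nat_lit 157) (C_10 L55663 (C_10 L37582 (C_10 L58918 (C_10 L37570 N_10)))) (by decide +kernel)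
theorem L58920 : W_10 (nat_lit 2) (nat_lit 0x22000b0017800ac000340000000000000000000000000) (nat_lit 0x0) (nat_lit 0x200010004000000000000000000000000000000000000000) := D_10 (nat_lit 172) (nat_lit 189) (nat_lit 158) (nat_lit 5) (nat_lit 3) (nat_lit 7) (nat_lit 1) (nat_lit 6) (nat_lit 9) (by decide +kernel)
theorem L58921 : W_10 (nat_lit 3) (nat_lit 0x20000b0017800ac000340000000000000000000000000) (nat_lit 0x0) (nat_lit 0x600030004000000000000000000000000000000000000000) := T_10 (nat_lit 173) (nat_lit 190) (nat_lit 6) (nat_lit 3) (nat_lit 11) L58920 (by decide +kernel)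
theorem L58922 : W_10 (nat_lit 4) (nat_lit 0x20000b0017800ac000300000000000000000000000000) (nat_lit 0x0) (nat_lit 0x6000300040000000000000c0000000000000000000000000) := T_10 (nat_lit 102) (nat_lit 103) (nat_lit 3) (nat_lit 0) (nat_lit 6) L58921 (by decide +kernel)
theorem L58923 : W_10 (nat_lit 5) (nat_lit 0x20000b0017800a4000300000000000000000000000000) (nat_lit 0x0) (nat_lit 0x6000300040000000180000c0000000000000000000000000) := T_10 (nat_lit 123) (nat_lit 124) (nat_lit 0) (nat_lit 6) (nat_lit 7) L58922 (by decide +kernel)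
theorem L58924 : W_10 (nat_lit 6) (nat_lit 0x20000b0017800a4000200000000000000000000000000) (nat_lit 0x0) (nat_lit 0x6000300040000000180001c0008000000000000000000000) := T_10 (nat_lit 104) (nat_lit 87) (nat_lit 4) (nat_lit 3) (nat_lit 9) L58923 (by decide +kernel)
theorem L58925 : W_10 (nat_lit 7) (nat_lit 0x20000b0017800a4000000000000000000000000000000) (nat_lit 0x0) (nat_lit 0x6000300040000000180003c0018000000000000000000000) := T_10 (nat_lit 105) (nat_lit 88) (nat_lit 7) (nat_lit 3) (nat_lit 5) L58924 (by decide +kernel)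
theorem L58926 : W_10 (nat_lit 8) (nat_lit 0x20000b0017800a0000000000000000000000000000000) (nat_lit 0x0) (nat_lit 0x60003000400000001e0003c0018000000000000000000000) := T_10 (nat_lit 122) (nat_lit 121) (nat_lit 0) (nat_lit 6) (nat_lit 8) L58925 (by decide +kernel)
theorem L58927 : W_10 (nat_lit 9) (nat_lit 0x20000a0017800a0000000000000000000000000000000) (nat_lit 0x0) (nat_lit 0x60003000580000001e0003c0018000000000000000000000) := T_10 (nat_lit 156) (nat_lit 155) (nat_lit 1) (nat_lit 6) (nat_lit 8) L58926 (by decide +kernel)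
theorem L58928 : W_10 (nat_lit 10) (nat_lit 0x2000020017800a0000000000000000000000000000000) (nat_lit 0x0) (nat_lit 0x60003001d80000001e0003c0018000000000000000000000) := T_10 (nat_lit 159) (nat_lit 160) (nat_lit 3) (nat_lit 3) (nat_lit 8) L58927 (by decide +kernel)
theorem L58929 : W_10 (nat_lit 11) (nat_lit 0x200002001780080000000000000000000000000000000) (nat_lit 0x0) (nat_lit 0x60003001d80000007e0003c0018000000000000000000000) := T_10 (nat_lit 125) (nat_lit 126) (nat_lit 2) (nat_lit 3) (nat_lit 8) L58928 (by decide +kernel)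
theorem L58930 : W_10 (nat_lit 2) (nat_lit 0x1c0026000e8017800a0001800000000000000000000000000) (nat_lit 0x0) (nat_lit 0x2000018000000000000000000000000000000000000000000) := D_10 (nat_lit 172) (nat_lit 171) (nat_lit 193) (nat_lit 3) (nat_lit 1) (nat_lit 10) (nat_lit 0) (nat_lit 6) (nat_lit 11) (by decide +kernel)
theorem L58931 : W_10 (nat_lit 3) (nat_lit 0x1c0024000e8017800a0001800000000000000000000000000) (nat_lit 0x0) (nat_lit 0x2000038000000000008000000000000000000000000000000) := T_10 (nat_lit 173) (nat_lit 123) (nat_lit 5) (nat_lit 4) (nat_lit 7) L58930 (by decide +kernel)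
theorem L58932 : W_10 (nat_lit 4) (nat_lit 0xc0024000e8017800a0001800000000000000000000000000) (nat_lit 0x0) (nat_lit 0x20003000038000000000008000000000000000000000000000000) := T_10 (nat_lit 192) (nat_lit 209) (nat_lit 7) (nat_lit 4) (nat_lit 8) L58931 (by decide +kernel)
theorem L58933 : W_10 (nat_lit 5) (nat_lit 0x80024000e8017800a0001800000000000000000000000000) (nat_lit 0x0) (nat_lit 0x28003400038000000000008000000000000000000000000000000) := T_10 (nat_lit 190) (nat_lit 207) (nat_lit 5) (nat_lit 4) (nat_lit 8) L58932 (by decide +kernel)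
theorem L58934 : W_10 (nat_lit 6) (nat_lit 0x24000e8017800a0001800000000000000000000000000) (nat_lit 0x0) (nat_lit 0x38003c00038000000000008000000000000000000000000000000) := T_10 (nat_lit 191) (nat_lit 208) (nat_lit 6) (nat_lit 4) (nat_lit 12) L58933 (by decide +kernel)
theorem L58935 : W_10 (nat_lit 7) (nat_lit 0x20000e8017800a0001800000000000000000000000000) (nat_lit 0x0) (nat_lit 0x38003c00078000000000018000000000000000000000000000000) := T_10 (nat_lit 174) (nat_lit 124) (nat_lit 5) (nat_lit 5) (nat_lit 6) L58934 (by decide +kernel)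
theorem L58936 : W_10 (nat_lit 8) (nat_lit 0x20000e8017800a0001000000000000000000000000000) (nat_lit 0x0) (nat_lit 0x38003c00078000000000018000800040000000000000000000000) := T_10 (nat_lit 107) (nat_lit 90) (nat_lit 4) (nat_lit 6) (nat_lit 9) L58935 (by decide +kernel)
theorem L58937 : W_10 (nat_lit 9) (nat_lit 0x20000e8017800a0000000000000000000000000000000) (nat_lit 0x0) (nat_lit 0x38003c000780000000000180018000c0000000000000000000000) := T_10 (nat_lit 108) (nat_lit 91) (nat_lit 5) (nat_lit 6) (nat_lit 5) L58936 (by decide +kernel)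
theorem L58938 : W_10 (nat_lit 10) (nat_lit 0x20000e801780080000000000000000000000000000000) (nat_lit 0x0) (nat_lit 0x38003c000780000000000780018000c0000000000000000000000) := T_10 (nat_lit 125) (nat_lit 126) (nat_lit 2) (nat_lit 3) (nat_lit 8) L58937 (by decide +kernel)
theorem L58939 : W_10 (nat_lit 11) (nat_lit 0x200006801780080000000000000000000000000000000) (nat_lit 0x0) (nat_lit 0x38003c000780180000000780018000c0000000000000000000000) := T_10 (nat_lit 159) (nat_lit 160) (nat_lit 3) (nat_lit 3) (nat_lit 8) L58938 (by decide +kernel)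
theorem L58940 : W_10 (nat_lit 12) (nat_lit 0x200006001780080000000000000000000000000000000) (nat_lit 0x0) (nat_lit 0x38003c000780198000000780018000c0000000000000000000000) := T_10 (nat_lit 155) (nat_lit 156) (nat_lit 2) (nat_lit 2) (nat_lit 9) L58939 (by decide +kernel)
theorem L58941 : W_10 (nat_lit 13) (nat_lit 0x200002001780080000000000000000000000000000000) (nat_lit 0x0) (nat_lit 0x3c003f800f801d8000000780018000c0000000000000000000000) := Q_10 (nat_lit 158) (C_10 L56971 (C_10 L56967 (C_10 L58940 (C_10 L55950 N_10)))) (by decide +kernel)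
theorem L58942 : W_10 (nat_lit 14) (nat_lit 0x200000001780080000000000000000000000000000000) (nat_lit 0x0) (nat_lit 0x3c003f800f801f80000007e001bc00d8000000000000000000000) := Q_10 (nat_lit 157) (C_10 L56956 (C_10 L37582 (C_10 L58929 (C_10 L58941 N_10)))) (by decide +kernel)
theorem L58943 : W_10 (nat_lit 2) (nat_lit 0x4002600010017800a4000000000000000000000000000000) (nat_lit 0x0) (nat_lit 0x4000200010000000000000000000000000000000000000000000) := D_10 (nat_lit 189) (nat_lit 206) (nat_lit 172) (nat_lit 5) (nat_lit 3) (nat_lit 8) (nat_lit 5) (nat_lit 3) (nat_lit 7) (by decide +kernel)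
theorem L58944 : W_10 (nat_lit 3) (nat_lit 0x2600010017800a4000000000000000000000000000000) (nat_lit 0x0) (nat_lit 0x4000600010000000000008000000000000000000000000000000) := T_10 (nat_lit 190) (nat_lit 123) (nat_lit 6) (nat_lit 3) (nat_lit 11) L58943 (by decide +kernel)
theorem L58945 : W_10 (nat_lit 4) (nat_lit 0x2400010017800a4000000000000000000000000000000) (nat_lit 0x0) (nat_lit 0x4000e00030000000000008000000000000000000000000000000) := T_10 (nat_lit 173) (nat_lit 191) (nat_lit 7) (nat_lit 3) (nat_lit 7) L58944 (by decide +kernel)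
theorem L58946 : W_10 (nat_lit 5) (nat_lit 0x2400000017800a4000000000000000000000000000000) (nat_lit 0x0) (nat_lit 0x4000e00030001800000008000000000000000000000000000000) := T_10 (nat_lit 156) (nat_lit 155) (nat_lit 1) (nat_lit 6) (nat_lit 8) L58945 (by decide +kernel)
theorem L58947 : W_10 (nat_lit 6) (nat_lit 0x2400000017800a0000000000000000000000000000000) (nat_lit 0x0) (nat_lit 0x4000e0003000180000000e000000000000000000000000000000) := T_10 (nat_lit 122) (nat_lit 121) (nat_lit 0) (nat_lit 6) (nat_lit 8) L58946 (by decide +kernel)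
theorem L58948 : W_10 (nat_lit 7) (nat_lit 0x240000001780080000000000000000000000000000000) (nat_lit 0x0) (nat_lit 0x4000e0003000180000006e000000000000000000000000000000) := T_10 (nat_lit 125) (nat_lit 126) (nat_lit 2) (nat_lit 3) (nat_lit 8) L58947 (by decide +kernel)
theorem L58949 : W_10 (nat_lit 2) (nat_lit 0x2c00030017800a0000000000000000000000000000000) (nat_lit 0x0) (nat_lit 0x1000000004000000008000000000000000000000000000000) := D_10 (nat_lit 192) (nat_lit 158) (nat_lit 123) (nat_lit 6) (nat_lit 5) (nat_lit 11) (nat_lit 7) (nat_lit 4) (nat_lit 7) (by decide +kernel)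
theorem L58950 : W_10 (nat_lit 3) (nat_lit 0x2c0003001780080000000000000000000000000000000) (nat_lit 0x0) (nat_lit 0x1000000004000000068000000000000000000000000000000) := T_10 (nat_lit 125) (nat_lit 126) (nat_lit 2) (nat_lit 3) (nat_lit 8) L58949 (by decide +kernel)
theorem L58951 : W_10 (nat_lit 4) (nat_lit 0x240003001780080000000000000000000000000000000) (nat_lit 0x0) (nat_lit 0x1000180004000000068000000000000000000000000000000) := T_10 (nat_lit 175) (nat_lit 176) (nat_lit 0) (nat_lit 7) (nat_lit 10) L58950 (by decide +kernel)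
theorem L58952 : W_10 (nat_lit 5) (nat_lit 0x240002001780080000000000000000000000000000000) (nat_lit 0x0) (nat_lit 0x1000180005800000068000000000000000000000000000000) := T_10 (nat_lit 156) (nat_lit 155) (nat_lit 1) (nat_lit 6) (nat_lit 8) L58951 (by decide +kernel)
theorem L58953 : W_10 (nat_lit 7) (nat_lit 0x240000001780080000000000000000000000000000000) (nat_lit 0x0) (nat_lit 0x38003c001a0007800000078000000000000000000000000000000) := Q_10 (nat_lit 157) (C_10 L55125 (C_10 L55030 (C_10 L55040 (C_10 L58952 N_10)))) (by decide +kernel)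
theorem L58954 : W_10 (nat_lit 2) (nat_lit 0x2400010017800a4000200018001000000000000000000) (nat_lit 0x0) (nat_lit 0x8000000000000800080000000000000) := D_10 (nat_lit 71) (nat_lit 123) (nat_lit 55) (nat_lit 7) (nat_lit 3) (nat_lit 4) (nat_lit 6) (nat_lit 3) (nat_lit 7) (by decide +kernel)
theorem L58955 : W_10 (nat_lit 3) (nat_lit 0x2400010017800a4000200018000000000000000000000) (nat_lit 0x0) (nat_lit 0x8000000020001800080000000000000) := T_10 (nat_lit 72) (nat_lit 89) (nat_lit 6) (nat_lit 3) (nat_lit 8) L58954 (by decide +kernel)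
theorem L58956 : W_10 (nat_lit 4) (nat_lit 0x2400010017800a4000200008000000000000000000000) (nat_lit 0x0) (nat_lit 0x8000000030001c00080000000000000) := T_10 (nat_lit 88) (nat_lit 70) (nat_lit 4) (nat_lit 3) (nat_lit 8) L58955 (by decide +kernel)
theorem L58957 : W_10 (nat_lit 5) (nat_lit 0x2400010017800a4000200000000000000000000000000) (nat_lit 0x0) (nat_lit 0x8000100038001c00080000000000000) := T_10 (nat_lit 87) (nat_lit 104) (nat_lit 4) (nat_lit 3) (nat_lit 9) L58956 (by decide +kernel)
theorem L58958 : W_10 (nat_lit 6) (nat_lit 0x2400010017800a4000000000000000000000000000000) (nat_lit 0x0) (nat_lit 0x2000000008000300038001c00080000000000000) := T_10 (nat_lit 105) (nat_lit 157) (nat_lit 7) (nat_lit 3) (nat_lit 6) L58957 (by decide +kernel)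
theorem L58959 : W_10 (nat_lit 7) (nat_lit 0x2400010017800a0000000000000000000000000000000) (nat_lit 0x0) (nat_lit 0x200000000e000300038001c00080000000000000) := T_10 (nat_lit 122) (nat_lit 121) (nat_lit 0) (nat_lit 6) (nat_lit 8) L58958 (by decide +kernel)
theorem L58960 : W_10 (nat_lit 8) (nat_lit 0x2400000017800a0000000000000000000000000000000) (nat_lit 0x0) (nat_lit 0x380000000e000300038001c00080000000000000) := T_10 (nat_lit 156) (nat_lit 155) (nat_lit 1) (nat_lit 6) (nat_lit 8) L58959 (by decide +kernel)
theorem L58961 : W_10 (nat_lit 9) (nat_lit 0x240000001780080000000000000000000000000000000) (nat_lit 0x0) (nat_lit 0x380000006e000300038001c00080000000000000) := T_10 (nat_lit 125) (nat_lit 126) (nat_lit 2) (nat_lit 3) (nat_lit 8) L58960 (by decide +kernel)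
theorem L58962 : W_10 (nat_lit 10) (nat_lit 0x200000001780080000000000000000000000000000000) (nat_lit 0x0) (nat_lit 0x3c003e001f000780000007e000300038001c00080000000000000) := Q_10 (nat_lit 174) (C_10 L56876 (C_10 L58948 (C_10 L58953 (C_10 L33909 (C_10 L58961 N_10))))) (by decide +kernel)
theorem L58963 : W_10 (nat_lit 15) (nat_lit 0x200000001380080000000000000000000000000000000) (nat_lit 0x0) (nat_lit 0x14000fc00ff801f801f80040007e003bc01f8001c00080000000000000) := Q_10 (nat_lit 142) (C_10 L57008 (C_10 L57948 (C_10 L58919 (C_10 L56939 (C_10 L58942 (C_10 L58962 (C_10 L55626 N_10))))))) (by decide +kernel)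
theorem L58964 : W_10 (nat_lit 16) (nat_lit 0x200000001300080000000000000000000000000000000) (nat_lit 0x0) (nat_lit 0x14000fc00ff801f801fe004e007f803bc01f8001c00080000000000000) := Q_10 (nat_lit 139) (C_10 L56865 (C_10 L55463 (C_10 L57939 (C_10 L56085 (C_10 L57933 (C_10 L58963 N_10)))))) (by decide +kernel)
theorem L58965 : W_10 (nat_lit 2) (nat_lit 0x2000058013c009a000180000000000000000000000000) (nat_lit 0x0) (nat_lit 0x600010000000000000000000000) := D_10 (nat_lit 105) (nat_lit 88) (nat_lit 106) (nat_lit 6) (nat_lit 2) (nat_lit 9) (nat_lit 3) (nat_lit 1) (nat_lit 6) (by decide +kernel)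
theorem L58966 : W_10 (nat_lit 3) (nat_lit 0x2000058013c0092000180000000000000000000000000) (nat_lit 0x0) (nat_lit 0xc000600010000000000000000000000) := T_10 (nat_lit 123) (nat_lit 122) (nat_lit 0) (nat_lit 5) (nat_lit 7) L58965 (by decide +kernel)
theorem L58967 : W_10 (nat_lit 4) (nat_lit 0x2000058013c0092000100000000000000000000000000) (nat_lit 0x0) (nat_lit 0xc000680014000000000000000000000) := T_10 (nat_lit 103) (nat_lit 86) (nat_lit 4) (nat_lit 2) (nat_lit 9) L58966 (by decide +kernel)
theorem L58968 : W_10 (nat_lit 5) (nat_lit 0x2000018013c0092000100000000000000000000000000) (nat_lit 0x0) (nat_lit 0xc00000000c000680014000000000000000000000) := T_10 (nat_lit 158) (nat_lit 159) (nat_lit 3) (nat_lit 2) (nat_lit 8) L58967 (by decide +kernel)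
theorem L58969 : W_10 (nat_lit 6) (nat_lit 0x2000018013c0092000000000000000000000000000000) (nat_lit 0x0) (nat_lit 0xc00000000c00078001c000000000000000000000) := T_10 (nat_lit 104) (nat_lit 87) (nat_lit 7) (nat_lit 2) (nat_lit 5) L58968 (by decide +kernel)
theorem L58970 : W_10 (nat_lit 7) (nat_lit 0x2000010013c0092000000000000000000000000000000) (nat_lit 0x0) (nat_lit 0xcc0000000c00078001c000000000000000000000) := T_10 (nat_lit 155) (nat_lit 154) (nat_lit 1) (nat_lit 5) (nat_lit 8) L58969 (by decide +kernel)
theorem L58971 : W_10 (nat_lit 8) (nat_lit 0x2000010013c0090000000000000000000000000000000) (nat_lit 0x0) (nat_lit 0xcc0000000f00078001c000000000000000000000) := T_10 (nat_lit 121) (nat_lit 120) (nat_lit 0) (nat_lit 5) (nat_lit 8) L58970 (by decide +kernel)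
theorem L58972 : W_10 (nat_lit 9) (nat_lit 0x2000010013c0080000000000000000000000000000000) (nat_lit 0x0) (nat_lit 0xcc0000003f00078001c000000000000000000000) := T_10 (nat_lit 124) (nat_lit 125) (nat_lit 2) (nat_lit 2) (nat_lit 8) L58971 (by decide +kernel)
theorem L58973 : W_10 (nat_lit 10) (nat_lit 0x2000000013c0080000000000000000000000000000000) (nat_lit 0x0) (nat_lit 0x16001b800fc0000003f00078003c000000000000000000000) := Q_10 (nat_lit 156) (C_10 L33777 (C_10 L33773 (C_10 L55787 (C_10 L58972 N_10)))) (by decide +kernel)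
theorem L58974 : W_10 (nat_lit 11) (nat_lit 0x200000001380080000000000000000000000000000000) (nat_lit 0x0) (nat_lit 0x16001b800fc0007003f80078003c000000000000000000000) := Q_10 (nat_lit 138) (C_10 L55573 (C_10 L56149 (C_10 L33742 (C_10 L58973 N_10)))) (by decide +kernel)
theorem L58975 : W_10 (nat_lit 2) (nat_lit 0x20000900178008c000700000000000000000000000000) (nat_lit 0x0) (nat_lit 0x100000c0000000000000000000000000) := D_10 (nat_lit 103) (nat_lit 124) (nat_lit 102) (nat_lit 3) (nat_lit 1) (nat_lit 6) (nat_lit 3) (nat_lit 0) (nat_lit 6) (by decide +kernel)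
theorem L58976 : W_10 (nat_lit 3) (nat_lit 0x200009001780084000700000000000000000000000000) (nat_lit 0x0) (nat_lit 0x200000000000180000c0000000000000000000000000) := T_10 (nat_lit 123) (nat_lit 173) (nat_lit 6) (nat_lit 3) (nat_lit 10) L58975 (by decide +kernel)
theorem L58977 : W_10 (nat_lit 4) (nat_lit 0x200009001780084000300000000000000000000000000) (nat_lit 0x0) (nat_lit 0x200000000000180004c0020000000000000000000000) := T_10 (nat_lit 106) (nat_lit 89) (nat_lit 6) (nat_lit 3) (nat_lit 9) L58976 (by decide +kernel)
theorem L58978 : W_10 (nat_lit 5) (nat_lit 0x200009001780084000200000000000000000000000000) (nat_lit 0x0) (nat_lit 0x200000000000180005c0028000000000000000000000) := T_10 (nat_lit 104) (nat_lit 87) (nat_lit 4) (nat_lit 3) (nat_lit 9) L58977 (by decide +kernel)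
theorem L58979 : W_10 (nat_lit 6) (nat_lit 0x200008001780084000200000000000000000000000000) (nat_lit 0x0) (nat_lit 0x200018000000180005c0028000000000000000000000) := T_10 (nat_lit 156) (nat_lit 155) (nat_lit 1) (nat_lit 6) (nat_lit 8) L58978 (by decide +kernel)
theorem L58980 : W_10 (nat_lit 7) (nat_lit 0x200000001780084000200000000000000000000000000) (nat_lit 0x0) (nat_lit 0x200198000000180005c0028000000000000000000000) := T_10 (nat_lit 159) (nat_lit 160) (nat_lit 3) (nat_lit 3) (nat_lit 8) L58979 (by decide +kernel)
theorem L58981 : W_10 (nat_lit 8) (nat_lit 0x200000001780084000000000000000000000000000000) (nat_lit 0x0) (nat_lit 0x2001b8000000180007c0038001c00080000000000000) := Q_10 (nat_lit 105) (C_10 L38121 (C_10 L55015 (C_10 L58980 N_10))) (by decide +kernel)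
theorem L58982 : W_10 (nat_lit 9) (nat_lit 0x200000001780080000000000000000000000000000000) (nat_lit 0x0) (nat_lit 0x2001b80000001e0007c0038001c00080000000000000) := T_10 (nat_lit 122) (nat_lit 121) (nat_lit 0) (nat_lit 6) (nat_lit 8) L58981 (by decide +kernel)
theorem L58983 : W_10 (nat_lit 2) (nat_lit 0x33000d0017800ac000000080000000000000000000000) (nat_lit 0x0) (nat_lit 0x2000000000000000010000800000000000000000000000000) := D_10 (nat_lit 124) (nat_lit 107) (nat_lit 193) (nat_lit 7) (nat_lit 5) (nat_lit 6) (nat_lit 4) (nat_lit 6) (nat_lit 11) (by decide +kernel)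
theorem L58984 : W_10 (nat_lit 3) (nat_lit 0x23000d0017800ac000000080000000000000000000000) (nat_lit 0x0) (nat_lit 0x6000100000000000010000800000000000000000000000000) := T_10 (nat_lit 176) (nat_lit 194) (nat_lit 7) (nat_lit 6) (nat_lit 7) L58983 (by decide +kernel)
theorem L58985 : W_10 (nat_lit 4) (nat_lit 0x2300050017800ac000000080000000000000000000000) (nat_lit 0x0) (nat_lit 0x600010000a000000010000800000000000000000000000000) := T_10 (nat_lit 159) (nat_lit 157) (nat_lit 1) (nat_lit 6) (nat_lit 9) L58984 (by decide +kernel)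
theorem L58986 : W_10 (nat_lit 5) (nat_lit 0x2200050017800ac000000080000000000000000000000) (nat_lit 0x0) (nat_lit 0x620011000a000000010000800000000000000000000000000) := T_10 (nat_lit 172) (nat_lit 189) (nat_lit 5) (nat_lit 3) (nat_lit 7) L58985 (by decide +kernel)
theorem L58987 : W_10 (nat_lit 6) (nat_lit 0x2200050017800a8000000080000000000000000000000) (nat_lit 0x0) (nat_lit 0x620011000a000000016000800000000000000000000000000) := T_10 (nat_lit 122) (nat_lit 121) (nat_lit 0) (nat_lit 6) (nat_lit 8) L58986 (by decide +kernel)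
theorem L58988 : W_10 (nat_lit 7) (nat_lit 0x2000050017800a8000000080000000000000000000000) (nat_lit 0x0) (nat_lit 0x660013000a000000016000800000000000000000000000000) := T_10 (nat_lit 173) (nat_lit 190) (nat_lit 6) (nat_lit 3) (nat_lit 11) L58987 (by decide +kernel)
theorem L58989 : W_10 (nat_lit 8) (nat_lit 0x2000050017800a8000000000000000000000000000000) (nat_lit 0x0) (nat_lit 0x660013000a000000016001800080000000000000000000000) := T_10 (nat_lit 91) (nat_lit 108) (nat_lit 5) (nat_lit 6) (nat_lit 5) L58988 (by decide +kernel)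
theorem L58990 : W_10 (nat_lit 9) (nat_lit 0x200005001780088000000000000000000000000000000) (nat_lit 0x0) (nat_lit 0x660013000a000000076001800080000000000000000000000) := T_10 (nat_lit 125) (nat_lit 126) (nat_lit 2) (nat_lit 3) (nat_lit 8) L58989 (by decide +kernel)
theorem L58991 : W_10 (nat_lit 10) (nat_lit 0x200004001780088000000000000000000000000000000) (nat_lit 0x0) (nat_lit 0x660013000b800000076001800080000000000000000000000) := T_10 (nat_lit 156) (nat_lit 155) (nat_lit 1) (nat_lit 6) (nat_lit 8) L58990 (by decide +kernel)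
theorem L58992 : W_10 (nat_lit 2) (nat_lit 0x2000050017800a8000400080000000000000000000000) (nat_lit 0x0) (nat_lit 0x400020002000000000000000000000000000000000000000) := D_10 (nat_lit 173) (nat_lit 190) (nat_lit 157) (nat_lit 6) (nat_lit 3) (nat_lit 11) (nat_lit 5) (nat_lit 4) (nat_lit 6) (by decide +kernel)
theorem L58993 : W_10 (nat_lit 3) (nat_lit 0x2000040017800a8000400080000000000000000000000) (nat_lit 0x0) (nat_lit 0x400020003800000000000000000000000000000000000000) := T_10 (nat_lit 156) (nat_lit 155) (nat_lit 1) (nat_lit 6) (nat_lit 8) L58992 (by decide +kernel)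
theorem L58994 : W_10 (nat_lit 4) (nat_lit 0x2000040017800a8000400000000000000000000000000) (nat_lit 0x0) (nat_lit 0x400020003800000000001000080000000000000000000000) := T_10 (nat_lit 91) (nat_lit 108) (nat_lit 5) (nat_lit 6) (nat_lit 5) L58993 (by decide +kernel)
theorem L58995 : W_10 (nat_lit 5) (nat_lit 0x200004001780088000400000000000000000000000000) (nat_lit 0x0) (nat_lit 0x400020003800000060001000080000000000000000000000) := T_10 (nat_lit 125) (nat_lit 126) (nat_lit 2) (nat_lit 3) (nat_lit 8) L58994 (by decide +kernel)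
theorem L58996 : W_10 (nat_lit 6) (nat_lit 0x200004001780088000000000000000000000000000000) (nat_lit 0x0) (nat_lit 0x4000200038000000600014000a0000000000000000000000) := T_10 (nat_lit 106) (nat_lit 89) (nat_lit 7) (nat_lit 4) (nat_lit 5) L58995 (by decide +kernel)
theorem L58997 : W_10 (nat_lit 2) (nat_lit 0x2000040017800bc001200020000000000000000000000) (nat_lit 0x0) (nat_lit 0x10001800000000000000000) := D_10 (nat_lit 88) (nat_lit 72) (nat_lit 71) (nat_lit 6) (nat_lit 3) (nat_lit 8) (nat_lit 7) (nat_lit 3) (nat_lit 4) (by decide +kernel)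
theorem L58998 : W_10 (nat_lit 3) (nat_lit 0x2000040017800bc001000020000000000000000000000) (nat_lit 0x0) (nat_lit 0x300010001800000000000000000) := T_10 (nat_lit 105) (nat_lit 104) (nat_lit 0) (nat_lit 6) (nat_lit 7) L58997 (by decide +kernel)
theorem L58999 : W_10 (nat_lit 4) (nat_lit 0x2000040017800ac001000020000000000000000000000) (nat_lit 0x0) (nat_lit 0x10002300010001800000000000000000) := T_10 (nat_lit 124) (nat_lit 109) (nat_lit 2) (nat_lit 3) (nat_lit 7) L58998 (by decide +kernel)
theorem L59000 : W_10 (nat_lit 5) (nat_lit 0x2000040017800ac000000020000000000000000000000) (nat_lit 0x0) (nat_lit 0x10003300090001800000000000000000) := T_10 (nat_lit 108) (nat_lit 91) (nat_lit 5) (nat_lit 6) (nat_lit 5) L58999 (by decide +kernel)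
theorem L59001 : W_10 (nat_lit 6) (nat_lit 0x20000400178008c000000020000000000000000000000) (nat_lit 0x0) (nat_lit 0x70003300090001800000000000000000) := T_10 (nat_lit 125) (nat_lit 126) (nat_lit 2) (nat_lit 3) (nat_lit 8) L59000 (by decide +kernel)
theorem L59002 : W_10 (nat_lit 7) (nat_lit 0x20000400178008c000000000000000000000000000000) (nat_lit 0x0) (nat_lit 0x700037000b0001800000000000000000) := T_10 (nat_lit 89) (nat_lit 106) (nat_lit 7) (nat_lit 4) (nat_lit 5) L59001 (by decide +kernel)
theorem L59003 : W_10 (nat_lit 8) (nat_lit 0x200004001780088000000000000000000000000000000) (nat_lit 0x0) (nat_lit 0x760037000b0001800000000000000000) := T_10 (nat_lit 122) (nat_lit 121) (nat_lit 0) (nat_lit 6) (nat_lit 8) L59002 (by decide +kernel)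
theorem L59004 : W_10 (nat_lit 11) (nat_lit 0x200004001780080000000000000000000000000000000) (nat_lit 0x0) (nat_lit 0x660013000b80000007e003f000b0001800000000000000000) := Q_10 (nat_lit 123) (C_10 L57851 (C_10 L58991 (C_10 L58996 (C_10 L59003 N_10)))) (by decide +kernel)
theorem L59005 : W_10 (nat_lit 12) (nat_lit 0x200000001780080000000000000000000000000000000) (nat_lit 0x0) (nat_lit 0x20001c007e001b000f80000007e003f000b8001c00000000000000000) := Q_10 (nat_lit 158) (C_10 L57862 (C_10 L55221 (C_10 L59004 (C_10 L55955 N_10)))) (by decide +kernel)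
theorem L59006 : W_10 (nat_lit 2) (nat_lit 0x2000050017800bc001200000000000000000000000000) (nat_lit 0x0) (nat_lit 0x2000000000000000010000800000000000000000) := D_10 (nat_lit 88) (nat_lit 157) (nat_lit 71) (nat_lit 7) (nat_lit 3) (nat_lit 5) (nat_lit 7) (nat_lit 3) (nat_lit 4) (by decide +kernel)
theorem L59007 : W_10 (nat_lit 3) (nat_lit 0x2000050017800bc001000000000000000000000000000) (nat_lit 0x0) (nat_lit 0x2000000000000300010000800000000000000000) := T_10 (nat_lit 105) (nat_lit 104) (nat_lit 0) (nat_lit 6) (nat_lit 7) L59006 (by decide +kernel)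
theorem L59008 : W_10 (nat_lit 4) (nat_lit 0x2000050017800ac001000000000000000000000000000) (nat_lit 0x0) (nat_lit 0x2000000010002300010000800000000000000000) := T_10 (nat_lit 124) (nat_lit 109) (nat_lit 2) (nat_lit 3) (nat_lit 7) L59007 (by decide +kernel)
theorem L59009 : W_10 (nat_lit 5) (nat_lit 0x2000040017800ac001000000000000000000000000000) (nat_lit 0x0) (nat_lit 0x3800000010002300010000800000000000000000) := T_10 (nat_lit 156) (nat_lit 155) (nat_lit 1) (nat_lit 6) (nat_lit 8) L59008 (by decide +kernel)
theorem L59010 : W_10 (nat_lit 6) (nat_lit 0x2000040017800ac000000000000000000000000000000) (nat_lit 0x0) (nat_lit 0x3800000010003300090000800000000000000000) := T_10 (nat_lit 108) (nat_lit 91) (nat_lit 5) (nat_lit 6) (nat_lit 5) L59009 (by decide +kernel)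
theorem L59011 : W_10 (nat_lit 7) (nat_lit 0x20000400178008c000000000000000000000000000000) (nat_lit 0x0) (nat_lit 0x3800000070003300090000800000000000000000) := T_10 (nat_lit 125) (nat_lit 126) (nat_lit 2) (nat_lit 3) (nat_lit 8) L59010 (by decide +kernel)
theorem L59012 : W_10 (nat_lit 8) (nat_lit 0x200004001780088000000000000000000000000000000) (nat_lit 0x0) (nat_lit 0x3800000076003300090000800000000000000000) := T_10 (nat_lit 122) (nat_lit 121) (nat_lit 0) (nat_lit 6) (nat_lit 8) L59011 (by decide +kernel)
theorem L59013 : W_10 (nat_lit 9) (nat_lit 0x200004001780080000000000000000000000000000000) (nat_lit 0x0) (nat_lit 0x40002000380000007e0037000b0001800000000000000000) := Q_10 (nat_lit 123) (C_10 L59003 (C_10 L57851 (C_10 L59012 (C_10 L58996 N_10)))) (by decide +kernel)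
theorem L59014 : W_10 (nat_lit 3) (nat_lit 0x200004001780080000400000000000000000000000000) (nat_lit 0x0) (nat_lit 0x1000080002000000008000000020000000000000000000000) := T_10 (nat_lit 123) (nat_lit 89) (nat_lit 7) (nat_lit 4) (nat_lit 5) L34030 (by decide +kernel)
theorem L59015 : W_10 (nat_lit 9) (nat_lit 0x200004001780080000000000000000000000000000000) (nat_lit 0x0) (nat_lit 0x20001c001e000b000380000000e000700038000400000000000000000) := Q_10 (nat_lit 106) (C_10 L55967 (C_10 L55199 (C_10 L55194 (C_10 L55220 (C_10 L59014 N_10))))) (by decide +kernel)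
theorem L59016 : W_10 (nat_lit 2) (nat_lit 0x2000040017800a4001000000000000000000000000000) (nat_lit 0x0) (nat_lit 0x1000080000000000010000000000000000000000000000000) := D_10 (nat_lit 175) (nat_lit 192) (nat_lit 124) (nat_lit 6) (nat_lit 5) (nat_lit 11) (nat_lit 6) (nat_lit 5) (nat_lit 10) (by decide +kernel)
theorem L59017 : W_10 (nat_lit 3) (nat_lit 0x2000040017800a4000000000000000000000000000000) (nat_lit 0x0) (nat_lit 0x1000080000000000010001000080000000000000000000000) := T_10 (nat_lit 108) (nat_lit 91) (nat_lit 5) (nat_lit 6) (nat_lit 5) L59016 (by decide +kernel)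
theorem L59018 : W_10 (nat_lit 4) (nat_lit 0x200004001780084000000000000000000000000000000) (nat_lit 0x0) (nat_lit 0x1000080000000000070001000080000000000000000000000) := T_10 (nat_lit 125) (nat_lit 126) (nat_lit 2) (nat_lit 3) (nat_lit 8) L59017 (by decide +kernel)
theorem L59019 : W_10 (nat_lit 5) (nat_lit 0x200004001780080000000000000000000000000000000) (nat_lit 0x0) (nat_lit 0x1000080000000000076001000080000000000000000000000) := T_10 (nat_lit 122) (nat_lit 121) (nat_lit 0) (nat_lit 6) (nat_lit 8) L59018 (by decide +kernel)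
theorem L59020 : W_10 (nat_lit 10) (nat_lit 0x200000001780080000000000000000000000000000000) (nat_lit 0x0) (nat_lit 0x20001c001e000b000780000007e0037000b8001c00000000000000000) := Q_10 (nat_lit 158) (C_10 L57862 (C_10 L55221 (C_10 L59013 (C_10 L59015 (C_10 L59019 N_10))))) (by decide +kernel)
theorem L59021 : W_10 (nat_lit 13) (nat_lit 0x200000001380080000000000000000000000000000000) (nat_lit 0x0) (nat_lit 0x20001c007e001b001f80040007e003fc01f8001c00080000000000000) := Q_10 (nat_lit 142) (C_10 L57008 (C_10 L57948 (C_10 L58982 (C_10 L59005 (C_10 L59020 (C_10 L55994 N_10)))))) (by decide +kernel)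
theorem L59022 : W_10 (nat_lit 14) (nat_lit 0x200000001300080000000000000000000000000000000) (nat_lit 0x0) (nat_lit 0x20001c007e001b801fe004f007f803fc01fc001c00080000000000000) := Q_10 (nat_lit 139) (C_10 L56865 (C_10 L58974 (C_10 L56085 (C_10 L57933 (C_10 L59021 (C_10 L57939 N_10)))))) (by decide +kernel)
theorem L59023 : W_10 (nat_lit 2) (nat_lit 0x2000000013000e0000000000000000000000000000000) (nat_lit 0x0) (nat_lit 0x480100000000000000000000000000000000) := D_10 (nat_lit 142) (nat_lit 128) (nat_lit 139) (nat_lit 1) (nat_lit 9) (nat_lit 7) (nat_lit 2) (nat_lit 3) (nat_lit 8) (by decide +kernel)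
theorem L59024 : W_10 (nat_lit 3) (nat_lit 0x2000000013000a0000000000000000000000000000000) (nat_lit 0x0) (nat_lit 0x480150000000000000000000000000000000) := T_10 (nat_lit 126) (nat_lit 124) (nat_lit 1) (nat_lit 8) (nat_lit 7) L59023 (by decide +kernel)
theorem L59025 : W_10 (nat_lit 2) (nat_lit 0x2000020013000b0000800000000000000000000000000) (nat_lit 0x0) (nat_lit 0x800040004000000000000000000000000000000000000000) := D_10 (nat_lit 174) (nat_lit 191) (nat_lit 158) (nat_lit 6) (nat_lit 4) (nat_lit 11) (nat_lit 5) (nat_lit 5) (nat_lit 6) (by decide +kernel)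
theorem L59026 : W_10 (nat_lit 3) (nat_lit 0x2000020013000b0000000000000000000000000000000) (nat_lit 0x0) (nat_lit 0x800040004000000000000800040000000000000000000000) := T_10 (nat_lit 107) (nat_lit 90) (nat_lit 5) (nat_lit 5) (nat_lit 5) L59025 (by decide +kernel)
theorem L59027 : W_10 (nat_lit 4) (nat_lit 0x2000020013000a0000000000000000000000000000000) (nat_lit 0x0) (nat_lit 0x800040004000000050000800040000000000000000000000) := T_10 (nat_lit 124) (nat_lit 126) (nat_lit 1) (nat_lit 8) (nat_lit 7) L59026 (by decide +kernel)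
theorem L59028 : W_10 (nat_lit 2) (nat_lit 0x2400020013400b0000000000000000000000000000000) (nat_lit 0x0) (nat_lit 0x8000800040000000000000000000000) := D_10 (nat_lit 107) (nat_lit 90) (nat_lit 123) (nat_lit 5) (nat_lit 5) (nat_lit 5) (nat_lit 6) (nat_lit 4) (nat_lit 10) (by decide +kernel)
theorem L59029 : W_10 (nat_lit 3) (nat_lit 0x2000020013400b0000000000000000000000000000000) (nat_lit 0x0) (nat_lit 0x800040000000000008000800040000000000000000000000) := T_10 (nat_lit 174) (nat_lit 191) (nat_lit 6) (nat_lit 4) (nat_lit 11) L59028 (by decide +kernel)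
theorem L59030 : W_10 (nat_lit 4) (nat_lit 0x2000020013000b0000000000000000000000000000000) (nat_lit 0x0) (nat_lit 0x8000400000000c0008000800040000000000000000000000) := T_10 (nat_lit 138) (nat_lit 139) (nat_lit 2) (nat_lit 2) (nat_lit 8) L59029 (by decide +kernel)
theorem L59031 : W_10 (nat_lit 5) (nat_lit 0x2000020013000a0000000000000000000000000000000) (nat_lit 0x0) (nat_lit 0x8000400000000c0058000800040000000000000000000000) := T_10 (nat_lit 124) (nat_lit 126) (nat_lit 1) (nat_lit 8) (nat_lit 7) L59030 (by decide +kernel)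
theorem L59032 : W_10 (nat_lit 8) (nat_lit 0x2000060013000a0000000000000000000000000000000) (nat_lit 0x0) (nat_lit 0x400130019c000c0058000400000000000000000000000000) := T_10 (nat_lit 124) (nat_lit 126) (nat_lit 1) (nat_lit 8) (nat_lit 7) L57644 (by decide +kernel)
theorem L59033 : W_10 (nat_lit 7) (nat_lit 0x2000060013000a0000000000000000000000000000000) (nat_lit 0x0) (nat_lit 0x200030001800098000c0050001000000000000000000000000000) := T_10 (nat_lit 124) (nat_lit 126) (nat_lit 1) (nat_lit 8) (nat_lit 7) L57636 (by decide +kernel)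
theorem L59034 : W_10 (nat_lit 4) (nat_lit 0x2000060013000a0000000000000000000000000000000) (nat_lit 0x0) (nat_lit 0x20001000080000000000058001000000000000000000000000000) := T_10 (nat_lit 124) (nat_lit 126) (nat_lit 1) (nat_lit 8) (nat_lit 7) L57263 (by decide +kernel)
theorem L59035 : W_10 (nat_lit 2) (nat_lit 0x20000e0013000a0000000000000000000000000000000) (nat_lit 0x0) (nat_lit 0x30000080000000000000000000000000000000000) := D_10 (nat_lit 160) (nat_lit 139) (nat_lit 161) (nat_lit 0) (nat_lit 7) (nat_lit 9) (nat_lit 0) (nat_lit 8) (nat_lit 9) (by decide +kernel)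
theorem L59036 : W_10 (nat_lit 2) (nat_lit 0x20000f0013400a0000000000000000000000000000000) (nat_lit 0x0) (nat_lit 0xc00020000000000000000000000000000000000) := D_10 (nat_lit 155) (nat_lit 154) (nat_lit 137) (nat_lit 2) (nat_lit 1) (nat_lit 9) (nat_lit 0) (nat_lit 5) (nat_lit 9) (by decide +kernel)
theorem L59037 : W_10 (nat_lit 3) (nat_lit 0x20000e0013400a0000000000000000000000000000000) (nat_lit 0x0) (nat_lit 0x100001c00020000000000000000000000000000000000) := T_10 (nat_lit 156) (nat_lit 176) (nat_lit 3) (nat_lit 3) (nat_lit 9) L59036 (by decide +kernel)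
theorem L59038 : W_10 (nat_lit 4) (nat_lit 0x20000e0013000a0000000000000000000000000000000) (nat_lit 0x0) (nat_lit 0x100001c000e0000000000000000000000000000000000) := T_10 (nat_lit 138) (nat_lit 139) (nat_lit 3) (nat_lit 2) (nat_lit 8) L59037 (by decide +kernel)
theorem L59039 : W_10 (nat_lit 2) (nat_lit 0x22000f4013000a0000000000000000000000000000000) (nat_lit 0x0) (nat_lit 0x40030000000000000000000000000000000000000000) := D_10 (nat_lit 160) (nat_lit 161) (nat_lit 174) (nat_lit 0) (nat_lit 8) (nat_lit 9) (nat_lit 1) (nat_lit 7) (nat_lit 9) (by decide +kernel)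
theorem L59040 : W_10 (nat_lit 3) (nat_lit 0x20000f4013000a0000000000000000000000000000000) (nat_lit 0x0) (nat_lit 0x70030000000000000000000000000000000000000000) := T_10 (nat_lit 173) (nat_lit 172) (nat_lit 1) (nat_lit 6) (nat_lit 9) L59039 (by decide +kernel)
theorem L59041 : W_10 (nat_lit 4) (nat_lit 0x20000f0013000a0000000000000000000000000000000) (nat_lit 0x0) (nat_lit 0x70030c00000000000000000000000000000000000000) := T_10 (nat_lit 154) (nat_lit 155) (nat_lit 2) (nat_lit 1) (nat_lit 9) L59040 (by decide +kernel)
theorem L59042 : W_10 (nat_lit 5) (nat_lit 0x20000e0013000a0000000000000000000000000000000) (nat_lit 0x0) (nat_lit 0x170031c00000000000000000000000000000000000000) := T_10 (nat_lit 156) (nat_lit 176) (nat_lit 3) (nat_lit 3) (nat_lit 9) L59041 (by decide +kernel)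
theorem L59043 : W_10 (nat_lit 6) (nat_lit 0x2000060013000a0000000000000000000000000000000) (nat_lit 0x0) (nat_lit 0x170039c000e0000000000000000000000000000000000) := Q_10 (nat_lit 159) (C_10 L59035 (C_10 L59038 (C_10 L59042 N_10))) (by decide +kernel)
theorem L59044 : W_10 (nat_lit 9) (nat_lit 0x2000020013000a0000000000000000000000000000000) (nat_lit 0x0) (nat_lit 0x200034001f003dc000e0058001400000000000000000000000000) := Q_10 (nat_lit 158) (C_10 L59032 (C_10 L59033 (C_10 L59034 (C_10 L59043 N_10)))) (by decide +kernel)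
theorem L59045 : W_10 (nat_lit 2) (nat_lit 0xc002400020013000a8000000000000000000000000000000) (nat_lit 0x0) (nat_lit 0x1000180000000000000000000000000000000000000000000) := D_10 (nat_lit 175) (nat_lit 176) (nat_lit 192) (nat_lit 1) (nat_lit 7) (nat_lit 10) (nat_lit 7) (nat_lit 4) (nat_lit 7) (by decide +kernel)
theorem L59046 : W_10 (nat_lit 3) (nat_lit 0xc002400020013000a0000000000000000000000000000000) (nat_lit 0x0) (nat_lit 0x10001a0000000000008000000000000000000000000000000) := T_10 (nat_lit 123) (nat_lit 173) (nat_lit 5) (nat_lit 4) (nat_lit 7) L59045 (by decide +kernel)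
theorem L59047 : W_10 (nat_lit 4) (nat_lit 0x8002400020013000a0000000000000000000000000000000) (nat_lit 0x0) (nat_lit 0x80014001a0000000000008000000000000000000000000000000) := T_10 (nat_lit 190) (nat_lit 207) (nat_lit 5) (nat_lit 4) (nat_lit 8) L59046 (by decide +kernel)
theorem L59048 : W_10 (nat_lit 2) (nat_lit 0x1c002400020013000a0000000000000000000000000000000) (nat_lit 0x0) (nat_lit 0x2000180000000000000000000000000000000000000000000) := D_10 (nat_lit 176) (nat_lit 193) (nat_lit 175) (nat_lit 2) (nat_lit 3) (nat_lit 11) (nat_lit 1) (nat_lit 7) (nat_lit 10) (by decide +kernel)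
theorem L59049 : W_10 (nat_lit 3) (nat_lit 0x18002400020013000a0000000000000000000000000000000) (nat_lit 0x0) (nat_lit 0x8002400180000000000000000000000000000000000000000000) := T_10 (nat_lit 190) (nat_lit 207) (nat_lit 5) (nat_lit 4) (nat_lit 8) L59048 (by decide +kernel)
theorem L59050 : W_10 (nat_lit 4) (nat_lit 0x8002400020013000a0000000000000000000000000000000) (nat_lit 0x0) (nat_lit 0x28003400180000000000000000000000000000000000000000000) := T_10 (nat_lit 192) (nat_lit 209) (nat_lit 7) (nat_lit 4) (nat_lit 8) L59049 (by decide +kernel)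
theorem L59051 : W_10 (nat_lit 2) (nat_lit 0x100008002400020013000a0000000000000000000000000000000) (nat_lit 0x0) (nat_lit 0x100008000400000000000000000000000000000000000000000000000) := D_10 (nat_lit 207) (nat_lit 224) (nat_lit 190) (nat_lit 5) (nat_lit 4) (nat_lit 9) (nat_lit 5) (nat_lit 4) (nat_lit 8) (by decide +kernel)
theorem L59052 : W_10 (nat_lit 3) (nat_lit 0x8002400020013000a0000000000000000000000000000000) (nat_lit 0x0) (nat_lit 0x100018000400000004000000000000000000000000000000000000000) := T_10 (nat_lit 208) (nat_lit 158) (nat_lit 6) (nat_lit 4) (nat_lit 12) L59051 (by decide +kernel)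
theorem L59053 : W_10 (nat_lit 2) (nat_lit 0x100008002400020013000a0000000000000000000000000000000) (nat_lit 0x0) (nat_lit 0x400020001000000000000000000000000000000000000000000000000) := D_10 (nat_lit 209) (nat_lit 192) (nat_lit 226) (nat_lit 7) (nat_lit 4) (nat_lit 8) (nat_lit 7) (nat_lit 4) (nat_lit 9) (by decide +kernel)
theorem L59054 : W_10 (nat_lit 3) (nat_lit 0x8002400020013000a0000000000000000000000000000000) (nat_lit 0x0) (nat_lit 0x400030001000000004000000000000000000000000000000000000000) := T_10 (nat_lit 208) (nat_lit 158) (nat_lit 6) (nat_lit 4) (nat_lit 12) L59053 (by decide +kernel)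
theorem L59055 : W_10 (nat_lit 5) (nat_lit 0x2400020013000a0000000000000000000000000000000) (nat_lit 0x0) (nat_lit 0x500038003c001a0004000000008000000000000000000000000000000) := Q_10 (nat_lit 191) (C_10 L59047 (C_10 L59050 (C_10 L59052 (C_10 L59054 N_10)))) (by decide +kernel)
theorem L59056 : W_10 (nat_lit 5) (nat_lit 0x2400020013000a0000000000000000000000000000000) (nat_lit 0x0) (nat_lit 0x500038003c00180004000000000000000000000000000000000000000) := Q_10 (nat_lit 191) (C_10 L59054 (C_10 L59050 (C_10 L59052 N_10))) (by decide +kernel)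
theorem L59057 : W_10 (nat_lit 2) (nat_lit 0xc002400020013000a8000000000000000000000000000000) (nat_lit 0x0) (nat_lit 0x20001000080000000000000000000000000000000000000000000) := D_10 (nat_lit 192) (nat_lit 209) (nat_lit 175) (nat_lit 7) (nat_lit 4) (nat_lit 8) (nat_lit 7) (nat_lit 4) (nat_lit 7) (by decide +kernel)
theorem L59058 : W_10 (nat_lit 3) (nat_lit 0xc002400020013000a0000000000000000000000000000000) (nat_lit 0x0) (nat_lit 0x200010000a0000000000008000000000000000000000000000000) := T_10 (nat_lit 123) (nat_lit 173) (nat_lit 5) (nat_lit 4) (nat_lit 7) L59057 (by decide +kernel)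
theorem L59059 : W_10 (nat_lit 4) (nat_lit 0x8002400020013000a0000000000000000000000000000000) (nat_lit 0x0) (nat_lit 0x280014000a0000000000008000000000000000000000000000000) := T_10 (nat_lit 190) (nat_lit 207) (nat_lit 5) (nat_lit 4) (nat_lit 8) L59058 (by decide +kernel)
theorem L59060 : W_10 (nat_lit 5) (nat_lit 0x2400020013000a0000000000000000000000000000000) (nat_lit 0x0) (nat_lit 0x500038001c000a0004000000008000000000000000000000000000000) := Q_10 (nat_lit 191) (C_10 L59054 (C_10 L59059 (C_10 L59052 N_10))) (by decide +kernel)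
theorem L59061 : W_10 (nat_lit 2) (nat_lit 0x1c002600020013000a0000000000000000000000000000000) (nat_lit 0x0) (nat_lit 0x2000018000000000000000000000000000000000000000000) := D_10 (nat_lit 172) (nat_lit 171) (nat_lit 193) (nat_lit 3) (nat_lit 1) (nat_lit 10) (nat_lit 0) (nat_lit 6) (nat_lit 11) (by decide +kernel)
theorem L59062 : W_10 (nat_lit 3) (nat_lit 0xc002600020013000a0000000000000000000000000000000) (nat_lit 0x0) (nat_lit 0x20003000018000000000000000000000000000000000000000000) := T_10 (nat_lit 192) (nat_lit 209) (nat_lit 7) (nat_lit 4) (nat_lit 8) L59061 (by decide +kernel)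
theorem L59063 : W_10 (nat_lit 4) (nat_lit 0xc002400020013000a0000000000000000000000000000000) (nat_lit 0x0) (nat_lit 0x20003000038000000000008000000000000000000000000000000) := T_10 (nat_lit 173) (nat_lit 123) (nat_lit 5) (nat_lit 4) (nat_lit 7) L59062 (by decide +kernel)
theorem L59064 : W_10 (nat_lit 5) (nat_lit 0x8002400020013000a0000000000000000000000000000000) (nat_lit 0x0) (nat_lit 0x28003400038000000000008000000000000000000000000000000) := T_10 (nat_lit 190) (nat_lit 207) (nat_lit 5) (nat_lit 4) (nat_lit 8) L59063 (by decide +kernel)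
theorem L59065 : W_10 (nat_lit 6) (nat_lit 0x2400020013000a0000000000000000000000000000000) (nat_lit 0x0) (nat_lit 0x500038003c00038004000000008000000000000000000000000000000) := Q_10 (nat_lit 191) (C_10 L59054 (C_10 L59064 (C_10 L59052 N_10))) (by decide +kernel)
theorem L59066 : W_10 (nat_lit 2) (nat_lit 0x3c00020013000a8000000000000000000000000000000) (nat_lit 0x0) (nat_lit 0xc00020000000000000000000000000000000000000000000) := D_10 (nat_lit 190) (nat_lit 173) (nat_lit 191) (nat_lit 5) (nat_lit 4) (nat_lit 7) (nat_lit 1) (nat_lit 7) (nat_lit 10) (by decide +kernel)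
theorem L59067 : W_10 (nat_lit 3) (nat_lit 0x3c00020013000a0000000000000000000000000000000) (nat_lit 0x0) (nat_lit 0x1c00020000000000008000000000000000000000000000000) := T_10 (nat_lit 123) (nat_lit 192) (nat_lit 7) (nat_lit 4) (nat_lit 7) L59066 (by decide +kernel)
theorem L59068 : W_10 (nat_lit 4) (nat_lit 0x2c00020013000a0000000000000000000000000000000) (nat_lit 0x0) (nat_lit 0x1c00120001000000008000000000000000000000000000000) := T_10 (nat_lit 176) (nat_lit 156) (nat_lit 0) (nat_lit 7) (nat_lit 10) L59067 (by decide +kernel)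
theorem L59069 : W_10 (nat_lit 2) (nat_lit 0x48003e00020013000a0000000000000000000000000000000) (nat_lit 0x0) (nat_lit 0x38000000000000000000000000000000000000000) := D_10 (nat_lit 160) (nat_lit 159) (nat_lit 161) (nat_lit 2) (nat_lit 3) (nat_lit 10) (nat_lit 2) (nat_lit 4) (nat_lit 10) (by decide +kernel)
theorem L59070 : W_10 (nat_lit 3) (nat_lit 0x48003c00020013000a0000000000000000000000000000000) (nat_lit 0x0) (nat_lit 0x2000020038000000000000000000000000000000000000000) := T_10 (nat_lit 173) (nat_lit 193) (nat_lit 3) (nat_lit 3) (nat_lit 10) L59069 (by decide +kernel)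
theorem L59071 : W_10 (nat_lit 4) (nat_lit 0x8003c00020013000a0000000000000000000000000000000) (nat_lit 0x0) (nat_lit 0xe000020038000000000000000000000000000000000000000) := T_10 (nat_lit 194) (nat_lit 195) (nat_lit 3) (nat_lit 4) (nat_lit 10) L59070 (by decide +kernel)
theorem L59072 : W_10 (nat_lit 5) (nat_lit 0x3c00020013000a0000000000000000000000000000000) (nat_lit 0x0) (nat_lit 0xec00020038000000000000000000000000000000000000000) := T_10 (nat_lit 191) (nat_lit 190) (nat_lit 1) (nat_lit 7) (nat_lit 10) L59071 (by decide +kernel)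
theorem L59073 : W_10 (nat_lit 6) (nat_lit 0x2c00020013000a0000000000000000000000000000000) (nat_lit 0x0) (nat_lit 0xec00120039000000000000000000000000000000000000000) := T_10 (nat_lit 176) (nat_lit 156) (nat_lit 0) (nat_lit 7) (nat_lit 10) L59072 (by decide +kernel)
theorem L59074 : W_10 (nat_lit 2) (nat_lit 0x2e00020013000a8000400050000000000000000000000) (nat_lit 0x0) (nat_lit 0x20002800000000000000000) := D_10 (nat_lit 89) (nat_lit 71) (nat_lit 73) (nat_lit 4) (nat_lit 4) (nat_lit 8) (nat_lit 6) (nat_lit 4) (nat_lit 8) (by decide +kernel)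
theorem L59075 : W_10 (nat_lit 3) (nat_lit 0x2e00020013000a8000400010000000000000000000000) (nat_lit 0x0) (nat_lit 0x800060002800000000000000000) := T_10 (nat_lit 90) (nat_lit 107) (nat_lit 6) (nat_lit 4) (nat_lit 9) L59074 (by decide +kernel)
theorem L59076 : W_10 (nat_lit 4) (nat_lit 0x2e00020013000a8000400000000000000000000000000) (nat_lit 0x0) (nat_lit 0xa00070002800000000000000000) := T_10 (nat_lit 88) (nat_lit 105) (nat_lit 4) (nat_lit 4) (nat_lit 9) L59075 (by decide +kernel)
theorem L59077 : W_10 (nat_lit 5) (nat_lit 0x2e00020013000a8000000000000000000000000000000) (nat_lit 0x0) (nat_lit 0x1000000000000e00070002800000000000000000) := T_10 (nat_lit 106) (nat_lit 156) (nat_lit 5) (nat_lit 4) (nat_lit 6) L59076 (by decide +kernel)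
theorem L59078 : W_10 (nat_lit 6) (nat_lit 0x2c00020013000a8000000000000000000000000000000) (nat_lit 0x0) (nat_lit 0x400020001000000000000e00070002800000000000000000) := T_10 (nat_lit 173) (nat_lit 190) (nat_lit 5) (nat_lit 4) (nat_lit 7) L59077 (by decide +kernel)
theorem L59079 : W_10 (nat_lit 7) (nat_lit 0x2c00020013000a0000000000000000000000000000000) (nat_lit 0x0) (nat_lit 0x1400020001000000008000e00070002800000000000000000) := T_10 (nat_lit 123) (nat_lit 192) (nat_lit 7) (nat_lit 4) (nat_lit 7) L59078 (by decide +kernel)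
theorem L59080 : W_10 (nat_lit 2) (nat_lit 0x4002c00020013000a8000000000000000000000000000000) (nat_lit 0x0) (nat_lit 0x8000800100000000000000000000000000000000000000000000) := D_10 (nat_lit 191) (nat_lit 176) (nat_lit 207) (nat_lit 1) (nat_lit 7) (nat_lit 10) (nat_lit 5) (nat_lit 4) (nat_lit 8) (by decide +kernel)
theorem L59081 : W_10 (nat_lit 3) (nat_lit 0x2c00020013000a8000000000000000000000000000000) (nat_lit 0x0) (nat_lit 0x8000c00120000000000000000000000000000000000000000000) := T_10 (nat_lit 190) (nat_lit 173) (nat_lit 5) (nat_lit 4) (nat_lit 7) L59080 (by decide +kernel)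
theorem L59082 : W_10 (nat_lit 4) (nat_lit 0x2c00020013000a0000000000000000000000000000000) (nat_lit 0x0) (nat_lit 0x8001c00120000000000008000000000000000000000000000000) := T_10 (nat_lit 123) (nat_lit 192) (nat_lit 7) (nat_lit 4) (nat_lit 7) L59081 (by decide +kernel)
theorem L59083 : W_10 (nat_lit 2) (nat_lit 0x10002c00020013000a0000000000000000000000000000000) (nat_lit 0x0) (nat_lit 0x400020000800000000000000000000000000000000000000000000000) := D_10 (nat_lit 209) (nat_lit 226) (nat_lit 191) (nat_lit 4) (nat_lit 5) (nat_lit 13) (nat_lit 7) (nat_lit 4) (nat_lit 8) (by decide +kernel)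
theorem L59084 : W_10 (nat_lit 3) (nat_lit 0x2c00020013000a0000000000000000000000000000000) (nat_lit 0x0) (nat_lit 0x400020001800000000000000008000000000000000000000000000000) := T_10 (nat_lit 192) (nat_lit 123) (nat_lit 7) (nat_lit 4) (nat_lit 7) L59083 (by decide +kernel)
theorem L59085 : W_10 (nat_lit 8) (nat_lit 0x2400020013000a0000000000000000000000000000000) (nat_lit 0x0) (nat_lit 0x40002800fc001a0039000000008000e00070002800000000000000000) := Q_10 (nat_lit 175) (C_10 L59068 (C_10 L59073 (C_10 L59079 (C_10 L59082 (C_10 L59084 N_10))))) (by decide +kernel)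
theorem L59086 : W_10 (nat_lit 2) (nat_lit 0x2000180008002400034013000a0000000000000000000000000000000) (nat_lit 0x0) (nat_lit 0x8000400020000000000000000000000000000000000000000000000000000) := D_10 (nat_lit 226) (nat_lit 209) (nat_lit 243) (nat_lit 7) (nat_lit 4) (nat_lit 9) (nat_lit 7) (nat_lit 4) (nat_lit 10) (by decide +kernel)
theorem L59087 : W_10 (nat_lit 3) (nat_lit 0x180008002400034013000a0000000000000000000000000000000) (nat_lit 0x0) (nat_lit 0x8000600020000000020000000000000000000000000000000000000000000) := T_10 (nat_lit 225) (nat_lit 173) (nat_lit 4) (nat_lit 4) (nat_lit 13) L59086 (by decide +kernel)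
theorem L59088 : W_10 (nat_lit 4) (nat_lit 0x180008002400030013000a0000000000000000000000000000000) (nat_lit 0x0) (nat_lit 0x8000600020000000020000c00000000000000000000000000000000000000) := T_10 (nat_lit 154) (nat_lit 155) (nat_lit 2) (nat_lit 1) (nat_lit 9) L59087 (by decide +kernel)
theorem L59089 : W_10 (nat_lit 5) (nat_lit 0x180008002400020013000a0000000000000000000000000000000) (nat_lit 0x0) (nat_lit 0x8000600020000000020001c00080000000000000000000000000000000000) := T_10 (nat_lit 156) (nat_lit 139) (nat_lit 4) (nat_lit 4) (nat_lit 12) L59088 (by decide +kernel)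
theorem L59090 : W_10 (nat_lit 6) (nat_lit 0x80008002400020013000a0000000000000000000000000000000) (nat_lit 0x0) (nat_lit 0x8000700030000000020001c00080000000000000000000000000000000000) := T_10 (nat_lit 208) (nat_lit 224) (nat_lit 5) (nat_lit 4) (nat_lit 9) L59089 (by decide +kernel)
theorem L59091 : W_10 (nat_lit 7) (nat_lit 0x8002400020013000a0000000000000000000000000000000) (nat_lit 0x0) (nat_lit 0x8000700038000400020001c00080000000000000000000000000000000000) := T_10 (nat_lit 207) (nat_lit 190) (nat_lit 5) (nat_lit 4) (nat_lit 8) L59090 (by decide +kernel)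
theorem L59092 : W_10 (nat_lit 6) (nat_lit 0x100008002400020013000a0000000000000000000000000000000) (nat_lit 0x0) (nat_lit 0x8000700028000000020001c00080000000000000000000000000000000000) := T_10 (nat_lit 207) (nat_lit 224) (nat_lit 5) (nat_lit 4) (nat_lit 9) L59089 (by decide +kernel)
theorem L59093 : W_10 (nat_lit 7) (nat_lit 0x8002400020013000a0000000000000000000000000000000) (nat_lit 0x0) (nat_lit 0x8000700038000000020005c00080000000000000000000000000000000000) := T_10 (nat_lit 208) (nat_lit 158) (nat_lit 6) (nat_lit 4) (nat_lit 12) L59092 (by decide +kernel)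
theorem L59094 : W_10 (nat_lit 2) (nat_lit 0xc002c00020013000a8000400050000000000000000000000) (nat_lit 0x0) (nat_lit 0x20002800000000000000000) := D_10 (nat_lit 89) (nat_lit 73) (nat_lit 71) (nat_lit 6) (nat_lit 4) (nat_lit 8) (nat_lit 4) (nat_lit 4) (nat_lit 8) (by decide +kernel)
theorem L59095 : W_10 (nat_lit 3) (nat_lit 0xc002c00020013000a8000400040000000000000000000000) (nat_lit 0x0) (nat_lit 0x200030002800000000000000000) := T_10 (nat_lit 88) (nat_lit 105) (nat_lit 4) (nat_lit 4) (nat_lit 9) L59094 (by decide +kernel)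
theorem L59096 : W_10 (nat_lit 4) (nat_lit 0xc002c00020013000a8000400000000000000000000000000) (nat_lit 0x0) (nat_lit 0xa00070002800000000000000000) := T_10 (nat_lit 90) (nat_lit 107) (nat_lit 6) (nat_lit 4) (nat_lit 9) L59095 (by decide +kernel)
theorem L59097 : W_10 (nat_lit 5) (nat_lit 0xc002c00020013000a8000000000000000000000000000000) (nat_lit 0x0) (nat_lit 0x4000000000000e00070002800000000000000000) := T_10 (nat_lit 106) (nat_lit 158) (nat_lit 7) (nat_lit 4) (nat_lit 6) L59096 (by decide +kernel)
theorem L59098 : W_10 (nat_lit 6) (nat_lit 0xc002400020013000a8000000000000000000000000000000) (nat_lit 0x0) (nat_lit 0x180004000000000000e00070002800000000000000000) := T_10 (nat_lit 175) (nat_lit 176) (nat_lit 1) (nat_lit 7) (nat_lit 10) L59097 (by decide +kernel)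
theorem L59099 : W_10 (nat_lit 7) (nat_lit 0xc002400020013000a0000000000000000000000000000000) (nat_lit 0x0) (nat_lit 0x1a0004000000008000e00070002800000000000000000) := T_10 (nat_lit 123) (nat_lit 173) (nat_lit 5) (nat_lit 4) (nat_lit 7) L59098 (by decide +kernel)
theorem L59100 : W_10 (nat_lit 8) (nat_lit 0x8002400020013000a0000000000000000000000000000000) (nat_lit 0x0) (nat_lit 0x80004001a0004000000008000e00070002800000000000000000) := T_10 (nat_lit 190) (nat_lit 207) (nat_lit 5) (nat_lit 4) (nat_lit 8) L59099 (by decide +kernel)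
theorem L59101 : W_10 (nat_lit 2) (nat_lit 0x2000100008002400034013000a0000000000000000000000000000000) (nat_lit 0x0) (nat_lit 0x8000400020000000000000000000000000000000000000000000000000000) := D_10 (nat_lit 226) (nat_lit 209) (nat_lit 243) (nat_lit 7) (nat_lit 4) (nat_lit 9) (nat_lit 7) (nat_lit 4) (nat_lit 10) (by decide +kernel)
theorem L59102 : W_10 (nat_lit 3) (nat_lit 0x100008002400034013000a0000000000000000000000000000000) (nat_lit 0x0) (nat_lit 0x8000600020000000020000000000000000000000000000000000000000000) := T_10 (nat_lit 225) (nat_lit 173) (nat_lit 4) (nat_lit 4) (nat_lit 13) L59101 (by decide +kernel)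
theorem L59103 : W_10 (nat_lit 4) (nat_lit 0x100008002400030013000a0000000000000000000000000000000) (nat_lit 0x0) (nat_lit 0x8000600020000000020000c00000000000000000000000000000000000000) := T_10 (nat_lit 154) (nat_lit 155) (nat_lit 2) (nat_lit 1) (nat_lit 9) L59102 (by decide +kernel)
theorem L59104 : W_10 (nat_lit 5) (nat_lit 0x100008002400020013000a0000000000000000000000000000000) (nat_lit 0x0) (nat_lit 0x8000600020000000020001c00080000000000000000000000000000000000) := T_10 (nat_lit 156) (nat_lit 139) (nat_lit 4) (nat_lit 4) (nat_lit 12) L59103 (by decide +kernel)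
theorem L59105 : W_10 (nat_lit 6) (nat_lit 0x8002400020013000a0000000000000000000000000000000) (nat_lit 0x0) (nat_lit 0x8000600030000000020005c00080000000000000000000000000000000000) := T_10 (nat_lit 208) (nat_lit 158) (nat_lit 6) (nat_lit 4) (nat_lit 12) L59104 (by decide +kernel)
theorem L59106 : W_10 (nat_lit 9) (nat_lit 0x2400020013000a0000000000000000000000000000000) (nat_lit 0x0) (nat_lit 0x8000700038000c001a0005c00080008000e00070002800000000000000000) := Q_10 (nat_lit 191) (C_10 L59052 (C_10 L59091 (C_10 L59093 (C_10 L59100 (C_10 L59105 N_10))))) (by decide +kernel)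
theorem L59107 : W_10 (nat_lit 2) (nat_lit 0x3e00120013000a0000000000000000000000000000000) (nat_lit 0x0) (nat_lit 0xe000000000000000000000000000000000000000000000000) := D_10 (nat_lit 194) (nat_lit 195) (nat_lit 193) (nat_lit 3) (nat_lit 4) (nat_lit 10) (nat_lit 3) (nat_lit 3) (nat_lit 10) (by decide +kernel)
theorem L59108 : W_10 (nat_lit 3) (nat_lit 0x3c00120013000a0000000000000000000000000000000) (nat_lit 0x0) (nat_lit 0xe000020008000000000000000000000000000000000000000) := T_10 (nat_lit 173) (nat_lit 159) (nat_lit 2) (nat_lit 3) (nat_lit 10) L59107 (by decide +kernel)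
theorem L59109 : W_10 (nat_lit 4) (nat_lit 0x3c00020013000a0000000000000000000000000000000) (nat_lit 0x0) (nat_lit 0xe000020038000000000000000000000000000000000000000) := T_10 (nat_lit 160) (nat_lit 161) (nat_lit 2) (nat_lit 4) (nat_lit 10) L59108 (by decide +kernel)
theorem L59110 : W_10 (nat_lit 5) (nat_lit 0x2c00020013000a0000000000000000000000000000000) (nat_lit 0x0) (nat_lit 0xe000120039000000000000000000000000000000000000000) := T_10 (nat_lit 176) (nat_lit 156) (nat_lit 0) (nat_lit 7) (nat_lit 10) L59109 (by decide +kernel)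
theorem L59111 : W_10 (nat_lit 2) (nat_lit 0x2c00020013000a8000400050000000000000000000000) (nat_lit 0x0) (nat_lit 0x20002800000000000000000) := D_10 (nat_lit 89) (nat_lit 73) (nat_lit 71) (nat_lit 6) (nat_lit 4) (nat_lit 8) (nat_lit 4) (nat_lit 4) (nat_lit 8) (by decide +kernel)
theorem L59112 : W_10 (nat_lit 3) (nat_lit 0x2c00020013000a8000400040000000000000000000000) (nat_lit 0x0) (nat_lit 0x200030002800000000000000000) := T_10 (nat_lit 88) (nat_lit 105) (nat_lit 4) (nat_lit 4) (nat_lit 9) L59111 (by decide +kernel)
theorem L59113 : W_10 (nat_lit 4) (nat_lit 0x2c00020013000a8000400000000000000000000000000) (nat_lit 0x0) (nat_lit 0xa00070002800000000000000000) := T_10 (nat_lit 90) (nat_lit 107) (nat_lit 6) (nat_lit 4) (nat_lit 9) L59112 (by decide +kernel)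
theorem L59114 : W_10 (nat_lit 5) (nat_lit 0x2c00020013000a8000000000000000000000000000000) (nat_lit 0x0) (nat_lit 0x4000000000000e00070002800000000000000000) := T_10 (nat_lit 106) (nat_lit 158) (nat_lit 7) (nat_lit 4) (nat_lit 6) L59113 (by decide +kernel)
theorem L59115 : W_10 (nat_lit 6) (nat_lit 0x2c00020013000a0000000000000000000000000000000) (nat_lit 0x0) (nat_lit 0x1000000004000000008000e00070002800000000000000000) := T_10 (nat_lit 123) (nat_lit 192) (nat_lit 7) (nat_lit 4) (nat_lit 7) L59114 (by decide +kernel)
theorem L59116 : W_10 (nat_lit 8) (nat_lit 0x2400020013000a0000000000000000000000000000000) (nat_lit 0x0) (nat_lit 0xf4001a003d000000008000e00070002800000000000000000) := Q_10 (nat_lit 175) (C_10 L59079 (C_10 L59110 (C_10 L59115 N_10))) (by decide +kernel)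
theorem L59117 : W_10 (nat_lit 7) (nat_lit 0x2400020013000a0000000000000000000000000000000) (nat_lit 0x0) (nat_lit 0xf0001a003d000000008000e00070002800000000000000000) := Q_10 (nat_lit 175) (C_10 L59115 (C_10 L59110 N_10)) (by decide +kernel)
theorem L59118 : W_10 (nat_lit 10) (nat_lit 0x2000020013000a0000000000000000000000000000000) (nat_lit 0x0) (nat_lit 0x800070003800fc001f803dc00080008000e00070002800000000000000000) := Q_10 (nat_lit 174) (C_10 L59055 (C_10 L59056 (C_10 L59060 (C_10 L59065 (C_10 L59085 (C_10 L59106 (C_10 L59116 (C_10 L59117 N_10)))))))) (by decide +kernel)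
theorem L59119 : W_10 (nat_lit 2) (nat_lit 0x20000f8013000a0000000000000000000000000000000) (nat_lit 0x0) (nat_lit 0x38000000000000000000000000000000000000000000) := D_10 (nat_lit 172) (nat_lit 173) (nat_lit 171) (nat_lit 1) (nat_lit 6) (nat_lit 9) (nat_lit 1) (nat_lit 5) (nat_lit 9) (by decide +kernel)
theorem L59120 : W_10 (nat_lit 3) (nat_lit 0x20000f0013000a0000000000000000000000000000000) (nat_lit 0x0) (nat_lit 0x38000c00000000000000000000000000000000000000) := T_10 (nat_lit 155) (nat_lit 154) (nat_lit 2) (nat_lit 1) (nat_lit 9) L59119 (by decide +kernel)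
theorem L59121 : W_10 (nat_lit 4) (nat_lit 0x20000e0013000a0000000000000000000000000000000) (nat_lit 0x0) (nat_lit 0x138001c00000000000000000000000000000000000000) := T_10 (nat_lit 156) (nat_lit 176) (nat_lit 3) (nat_lit 3) (nat_lit 9) L59120 (by decide +kernel)
theorem L59122 : W_10 (nat_lit 5) (nat_lit 0x2000060013000a0000000000000000000000000000000) (nat_lit 0x0) (nat_lit 0x138039c000e0000000000000000000000000000000000) := Q_10 (nat_lit 159) (C_10 L59035 (C_10 L59038 (C_10 L59121 N_10))) (by decide +kernel)
theorem L59123 : W_10 (nat_lit 9) (nat_lit 0x2000020013000a0000000000000000000000000000000) (nat_lit 0x0) (nat_lit 0x200034001b803dc000e0058001400000000000000000000000000) := Q_10 (nat_lit 158) (C_10 L59034 (C_10 L59033 (C_10 L59032 (C_10 L59122 N_10)))) (by decide +kernel)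
theorem L59124 : W_10 (nat_lit 11) (nat_lit 0x2000000013000a0000000000000000000000000000000) (nat_lit 0x0) (nat_lit 0x800070003800fc001f803fc000e0058001e00070002800000000000000000) := Q_10 (nat_lit 157) (C_10 L59027 (C_10 L59031 (C_10 L59044 (C_10 L59118 (C_10 L59123 N_10))))) (by decide +kernel)
theorem L59125 : W_10 (nat_lit 2) (nat_lit 0x2000000013001e0011000000000000000000000000000) (nat_lit 0x0) (nat_lit 0x200022000000000000000000000000000) := D_10 (nat_lit 129) (nat_lit 109) (nat_lit 113) (nat_lit 0) (nat_lit 10) (nat_lit 7) (nat_lit 2) (nat_lit 7) (nat_lit 7) (by decide +kernel)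
theorem L59126 : W_10 (nat_lit 3) (nat_lit 0x2000000013001e0001000000000000000000000000000) (nat_lit 0x0) (nat_lit 0x20003a000000000000000000000000000) := T_10 (nat_lit 112) (nat_lit 111) (nat_lit 2) (nat_lit 6) (nat_lit 7) L59125 (by decide +kernel)
theorem L59127 : W_10 (nat_lit 4) (nat_lit 0x2000000013001e0000000000000000000000000000000) (nat_lit 0x0) (nat_lit 0x20003b800000000000000000000000000) := T_10 (nat_lit 108) (nat_lit 107) (nat_lit 0) (nat_lit 9) (nat_lit 7) L59126 (by decide +kernel)
theorem L59128 : W_10 (nat_lit 5) (nat_lit 0x2000000013000e0000000000000000000000000000000) (nat_lit 0x0) (nat_lit 0x40030003b800000000000000000000000000) := T_10 (nat_lit 128) (nat_lit 142) (nat_lit 1) (nat_lit 9) (nat_lit 7) L59127 (by decide +kernel)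
theorem L59129 : W_10 (nat_lit 6) (nat_lit 0x2000000013000a0000000000000000000000000000000) (nat_lit 0x0) (nat_lit 0x40035003b800000000000000000000000000) := T_10 (nat_lit 126) (nat_lit 124) (nat_lit 1) (nat_lit 8) (nat_lit 7) L59128 (by decide +kernel)
theorem L59130 : W_10 (nat_lit 2) (nat_lit 0x3800080017001a0001000140000000000000000000000) (nat_lit 0x0) (nat_lit 0x8000a000000000000000000) := D_10 (nat_lit 91) (nat_lit 75) (nat_lit 73) (nat_lit 6) (nat_lit 6) (nat_lit 8) (nat_lit 4) (nat_lit 6) (nat_lit 8) (by decide +kernel)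
theorem L59131 : W_10 (nat_lit 3) (nat_lit 0x3800080017001a0001000100000000000000000000000) (nat_lit 0x0) (nat_lit 0x8000c000a000000000000000000) := T_10 (nat_lit 90) (nat_lit 107) (nat_lit 4) (nat_lit 6) (nat_lit 9) L59130 (by decide +kernel)
theorem L59132 : W_10 (nat_lit 4) (nat_lit 0x3800080017001a0001000000000000000000000000000) (nat_lit 0x0) (nat_lit 0x28001c000a000000000000000000) := T_10 (nat_lit 92) (nat_lit 109) (nat_lit 6) (nat_lit 6) (nat_lit 9) L59131 (by decide +kernel)
theorem L59133 : W_10 (nat_lit 5) (nat_lit 0x3800080017001a0000000000000000000000000000000) (nat_lit 0x0) (nat_lit 0x40000000000038001c000a000000000000000000) := T_10 (nat_lit 108) (nat_lit 158) (nat_lit 5) (nat_lit 6) (nat_lit 6) L59132 (by decide +kernel)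
theorem L59134 : W_10 (nat_lit 6) (nat_lit 0x3000080017001a0000000000000000000000000000000) (nat_lit 0x0) (nat_lit 0x10000800040000000000038001c000a000000000000000000) := T_10 (nat_lit 175) (nat_lit 192) (nat_lit 5) (nat_lit 6) (nat_lit 7) L59133 (by decide +kernel)
theorem L59135 : W_10 (nat_lit 7) (nat_lit 0x2000080017001a0000000000000000000000000000000) (nat_lit 0x0) (nat_lit 0x50001800040000000000038001c000a000000000000000000) := T_10 (nat_lit 176) (nat_lit 194) (nat_lit 7) (nat_lit 6) (nat_lit 7) L59134 (by decide +kernel)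
theorem L59136 : W_10 (nat_lit 8) (nat_lit 0x2000080017000a0000000000000000000000000000000) (nat_lit 0x0) (nat_lit 0x50001800040000001400038001c000a000000000000000000) := T_10 (nat_lit 128) (nat_lit 126) (nat_lit 1) (nat_lit 9) (nat_lit 7) L59135 (by decide +kernel)
theorem L59137 : W_10 (nat_lit 2) (nat_lit 0x3000080017001a0003000080000000000000000000000) (nat_lit 0x0) (nat_lit 0x800040002000000000000000000) := D_10 (nat_lit 90) (nat_lit 73) (nat_lit 107) (nat_lit 4) (nat_lit 6) (nat_lit 8) (nat_lit 4) (nat_lit 6) (nat_lit 9) (by decide +kernel)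
theorem L59138 : W_10 (nat_lit 3) (nat_lit 0x3000080017001a0003000000000000000000000000000) (nat_lit 0x0) (nat_lit 0x40000000000008000c0002000000000000000000) := T_10 (nat_lit 91) (nat_lit 158) (nat_lit 5) (nat_lit 6) (nat_lit 5) L59137 (by decide +kernel)
theorem L59139 : W_10 (nat_lit 4) (nat_lit 0x3000080017001a0001000000000000000000000000000) (nat_lit 0x0) (nat_lit 0x40000000000028001c0002000000000000000000) := T_10 (nat_lit 109) (nat_lit 92) (nat_lit 6) (nat_lit 6) (nat_lit 9) L59138 (by decide +kernel)
theorem L59140 : W_10 (nat_lit 5) (nat_lit 0x3000080017001a0000000000000000000000000000000) (nat_lit 0x0) (nat_lit 0x140000000000038001c0002000000000000000000) := T_10 (nat_lit 108) (nat_lit 160) (nat_lit 7) (nat_lit 6) (nat_lit 6) L59139 (by decide +kernel)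
theorem L59141 : W_10 (nat_lit 6) (nat_lit 0x2000080017001a0000000000000000000000000000000) (nat_lit 0x0) (nat_lit 0x40001000140000000000038001c0002000000000000000000) := T_10 (nat_lit 176) (nat_lit 194) (nat_lit 7) (nat_lit 6) (nat_lit 7) L59140 (by decide +kernel)
theorem L59142 : W_10 (nat_lit 7) (nat_lit 0x2000080017000a0000000000000000000000000000000) (nat_lit 0x0) (nat_lit 0x40001000140000001400038001c0002000000000000000000) := T_10 (nat_lit 128) (nat_lit 126) (nat_lit 1) (nat_lit 9) (nat_lit 7) L59141 (by decide +kernel)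
theorem L59143 : W_10 (nat_lit 2) (nat_lit 0x10000400034003000080017001a0000000000000000000000000000000) (nat_lit 0x0) (nat_lit 0x20000800000000000000010000000000000000000000000000000000000000) := D_10 (nat_lit 227) (nat_lit 160) (nat_lit 245) (nat_lit 6) (nat_lit 6) (nat_lit 13) (nat_lit 7) (nat_lit 6) (nat_lit 10) (by decide +kernel)
theorem L59144 : W_10 (nat_lit 3) (nat_lit 0x400034003000080017001a0000000000000000000000000000000) (nat_lit 0x0) (nat_lit 0x20001800080000000000010000000000000000000000000000000000000000) := T_10 (nat_lit 228) (nat_lit 211) (nat_lit 7) (nat_lit 6) (nat_lit 9) L59143 (by decide +kernel)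
theorem L59145 : W_10 (nat_lit 4) (nat_lit 0x400030003000080017001a0000000000000000000000000000000) (nat_lit 0x0) (nat_lit 0x20001800080000c00000010000000000000000000000000000000000000000) := T_10 (nat_lit 190) (nat_lit 191) (nat_lit 2) (nat_lit 3) (nat_lit 11) L59144 (by decide +kernel)
theorem L59146 : W_10 (nat_lit 5) (nat_lit 0x30003000080017001a0000000000000000000000000000000) (nat_lit 0x0) (nat_lit 0x200018000c0000c00000014000000000000000000000000000000000000000) := T_10 (nat_lit 210) (nat_lit 158) (nat_lit 4) (nat_lit 6) (nat_lit 12) L59145 (by decide +kernel)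
theorem L59147 : W_10 (nat_lit 6) (nat_lit 0x10003000080017001a0000000000000000000000000000000) (nat_lit 0x0) (nat_lit 0x200018000e0002c00000014000000000000000000000000000000000000000) := T_10 (nat_lit 193) (nat_lit 209) (nat_lit 5) (nat_lit 6) (nat_lit 8) L59146 (by decide +kernel)
theorem L59148 : W_10 (nat_lit 7) (nat_lit 0x3000080017001a0000000000000000000000000000000) (nat_lit 0x0) (nat_lit 0x200018000e0003c00080014000000000000000000000000000000000000000) := T_10 (nat_lit 192) (nat_lit 175) (nat_lit 5) (nat_lit 6) (nat_lit 7) L59147 (by decide +kernel)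
theorem L59149 : W_10 (nat_lit 8) (nat_lit 0x2000080017001a0000000000000000000000000000000) (nat_lit 0x0) (nat_lit 0x200018000e0007c00180014000000000000000000000000000000000000000) := T_10 (nat_lit 176) (nat_lit 194) (nat_lit 7) (nat_lit 6) (nat_lit 7) L59148 (by decide +kernel)
theorem L59150 : W_10 (nat_lit 9) (nat_lit 0x2000080017000a0000000000000000000000000000000) (nat_lit 0x0) (nat_lit 0x200018000e0007c00180014000000140000000000000000000000000000000) := T_10 (nat_lit 128) (nat_lit 126) (nat_lit 1) (nat_lit 9) (nat_lit 7) L59149 (by decide +kernel)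
theorem L59151 : W_10 (nat_lit 10) (nat_lit 0x2000000017000a0000000000000000000000000000000) (nat_lit 0x0) (nat_lit 0x200018000e0007c0018001c0000001400038001c000a000000000000000000) := Q_10 (nat_lit 159) (C_10 L35725 (C_10 L59136 (C_10 L35733 (C_10 L59142 (C_10 L59150 (C_10 L35735 N_10)))))) (by decide +kernel)
theorem L59152 : W_10 (nat_lit 2) (nat_lit 0x3800080017c00a0000000000000000000000000000000) (nat_lit 0x0) (nat_lit 0x1c00000000000000000000000000000000000000) := D_10 (nat_lit 155) (nat_lit 154) (nat_lit 156) (nat_lit 1) (nat_lit 5) (nat_lit 8) (nat_lit 1) (nat_lit 6) (nat_lit 8) (by decide +kernel)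
theorem L59153 : W_10 (nat_lit 3) (nat_lit 0x3800080017800a0000000000000000000000000000000) (nat_lit 0x0) (nat_lit 0x5c00040000000000000000000000000000000000) := T_10 (nat_lit 138) (nat_lit 158) (nat_lit 3) (nat_lit 2) (nat_lit 8) L59152 (by decide +kernel)
theorem L59154 : W_10 (nat_lit 4) (nat_lit 0x3800080017000a0000000000000000000000000000000) (nat_lit 0x0) (nat_lit 0x15c000c0000000000000000000000000000000000) := T_10 (nat_lit 139) (nat_lit 160) (nat_lit 3) (nat_lit 3) (nat_lit 8) L59153 (by decide +kernel)
theorem L59155 : W_10 (nat_lit 5) (nat_lit 0x3000080017000a0000000000000000000000000000000) (nat_lit 0x0) (nat_lit 0x1000080015c000c0000000000000000000000000000000000) := T_10 (nat_lit 175) (nat_lit 192) (nat_lit 5) (nat_lit 6) (nat_lit 7) L59154 (by decide +kernel)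
theorem L59156 : W_10 (nat_lit 6) (nat_lit 0x2000080017000a0000000000000000000000000000000) (nat_lit 0x0) (nat_lit 0x5000180015c000c0000000000000000000000000000000000) := T_10 (nat_lit 176) (nat_lit 194) (nat_lit 7) (nat_lit 6) (nat_lit 7) L59155 (by decide +kernel)
theorem L59157 : W_10 (nat_lit 8) (nat_lit 0x2000000017000a0000000000000000000000000000000) (nat_lit 0x0) (nat_lit 0x500018001dc000c00000038001c000a000000000000000000) := Q_10 (nat_lit 159) (C_10 L35733 (C_10 L35743 (C_10 L35737 (C_10 L59156 N_10)))) (by decide +kernel)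
theorem L59158 : W_10 (nat_lit 11) (nat_lit 0x2000000013000a0000000000000000000000000000000) (nat_lit 0x0) (nat_lit 0x200018000e0007c0018001dc004c01400038001c000a000000000000000000) := Q_10 (nat_lit 142) (C_10 L35719 (C_10 L59151 (C_10 L59157 N_10))) (by decide +kernel)
theorem L59159 : W_10 (nat_lit 2) (nat_lit 0x2800040013000a0000000000000000000000000000000) (nat_lit 0x0) (nat_lit 0x1000000000000400008000000000000000000000000000000) := D_10 (nat_lit 192) (nat_lit 123) (nat_lit 142) (nat_lit 4) (nat_lit 5) (nat_lit 11) (nat_lit 6) (nat_lit 5) (nat_lit 11) (by decide +kernel)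
theorem L59160 : W_10 (nat_lit 2) (nat_lit 0x18002800040013000a0000000000000000000000000000000) (nat_lit 0x0) (nat_lit 0x40000000000010001000000000000000000000000000) := D_10 (nat_lit 124) (nat_lit 174) (nat_lit 108) (nat_lit 5) (nat_lit 5) (nat_lit 7) (nat_lit 6) (nat_lit 5) (nat_lit 10) (by decide +kernel)
theorem L59161 : W_10 (nat_lit 3) (nat_lit 0x10002800040013000a0000000000000000000000000000000) (nat_lit 0x0) (nat_lit 0x10000800040000000000010001000000000000000000000000000) := T_10 (nat_lit 191) (nat_lit 208) (nat_lit 5) (nat_lit 5) (nat_lit 8) L59160 (by decide +kernel)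
theorem L59162 : W_10 (nat_lit 4) (nat_lit 0x2800040013000a0000000000000000000000000000000) (nat_lit 0x0) (nat_lit 0x10001800040000000400010001000000000000000000000000000) := T_10 (nat_lit 192) (nat_lit 142) (nat_lit 6) (nat_lit 5) (nat_lit 11) L59161 (by decide +kernel)
theorem L59163 : W_10 (nat_lit 4) (nat_lit 0x2800040013000a0000000000000000000000000000000) (nat_lit 0x0) (nat_lit 0x10001800040000000000018001000000000000000000000000000) := T_10 (nat_lit 192) (nat_lit 123) (nat_lit 4) (nat_lit 5) (nat_lit 11) L59161 (by decide +kernel)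
theorem L59164 : W_10 (nat_lit 5) (nat_lit 0x2800040013000a0000000000000000000000000000000) (nat_lit 0x0) (nat_lit 0x280014000a000000010001800000000000000000000000000) := T_10 (nat_lit 124) (nat_lit 108) (nat_lit 6) (nat_lit 5) (nat_lit 10) L58455 (by decide +kernel)
theorem L59165 : W_10 (nat_lit 6) (nat_lit 0x2000040013000a0000000000000000000000000000000) (nat_lit 0x0) (nat_lit 0x100038001c000a000400018001800000000000000000000000000) := Q_10 (nat_lit 175) (C_10 L59159 (C_10 L59162 (C_10 L59163 (C_10 L59164 N_10)))) (by decide +kernel)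
theorem L59166 : W_10 (nat_lit 2) (nat_lit 0x20001c0013000a0000000000000000000000000000000) (nat_lit 0x0) (nat_lit 0x4c0000000000000000000000000000000000) := D_10 (nat_lit 139) (nat_lit 138) (nat_lit 142) (nat_lit 3) (nat_lit 2) (nat_lit 8) (nat_lit 3) (nat_lit 3) (nat_lit 8) (by decide +kernel)
theorem L59167 : W_10 (nat_lit 3) (nat_lit 0x20000c0013000a0000000000000000000000000000000) (nat_lit 0x0) (nat_lit 0x300004c0000000000000000000000000000000000) := T_10 (nat_lit 160) (nat_lit 161) (nat_lit 0) (nat_lit 8) (nat_lit 9) L59166 (by decide +kernel)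
theorem L59168 : W_10 (nat_lit 2) (nat_lit 0x20000c0017000a0000000000000000000000000000000) (nat_lit 0x0) (nat_lit 0x80000000000000001000080000000000000000000000) := D_10 (nat_lit 108) (nat_lit 91) (nat_lit 175) (nat_lit 5) (nat_lit 6) (nat_lit 5) (nat_lit 5) (nat_lit 6) (nat_lit 6) (by decide +kernel)
theorem L59169 : W_10 (nat_lit 2) (nat_lit 0x30000c0017000a0000000000000000000000000000000) (nat_lit 0x0) (nat_lit 0x2000000000000000010000800000000000000000000000000) := D_10 (nat_lit 124) (nat_lit 107) (nat_lit 193) (nat_lit 7) (nat_lit 5) (nat_lit 6) (nat_lit 4) (nat_lit 6) (nat_lit 11) (by decide +kernel)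
theorem L59170 : W_10 (nat_lit 3) (nat_lit 0x20000c0017000a0000000000000000000000000000000) (nat_lit 0x0) (nat_lit 0x6000100000000000010000800000000000000000000000000) := T_10 (nat_lit 176) (nat_lit 194) (nat_lit 7) (nat_lit 6) (nat_lit 7) L59169 (by decide +kernel)
theorem L59171 : W_10 (nat_lit 4) (nat_lit 0x20000c0013000a0000000000000000000000000000000) (nat_lit 0x0) (nat_lit 0x6000180000000400010001800080000000000000000000000) := Q_10 (nat_lit 142) (C_10 L59168 (C_10 L59170 N_10)) (by decide +kernel)
theorem L59172 : W_10 (nat_lit 2) (nat_lit 0x20000c0013800a0000000000000000000000000000000) (nat_lit 0x0) (nat_lit 0x32000000000000000000000000000000000000000) := D_10 (nat_lit 160) (nat_lit 161) (nat_lit 157) (nat_lit 0) (nat_lit 8) (nat_lit 9) (nat_lit 0) (nat_lit 7) (nat_lit 9) (by decide +kernel)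
theorem L59173 : W_10 (nat_lit 3) (nat_lit 0x20000c0013000a0000000000000000000000000000000) (nat_lit 0x0) (nat_lit 0x320000c0000000000000000000000000000000000) := T_10 (nat_lit 139) (nat_lit 138) (nat_lit 3) (nat_lit 2) (nat_lit 8) L59172 (by decide +kernel)
theorem L59174 : W_10 (nat_lit 5) (nat_lit 0x2000040013000a0000000000000000000000000000000) (nat_lit 0x0) (nat_lit 0x600018003a0004c0010001800080000000000000000000000) := Q_10 (nat_lit 159) (C_10 L59167 (C_10 L59171 (C_10 L59173 N_10))) (by decide +kernel)
theorem L59175 : W_10 (nat_lit 2) (nat_lit 0x2000040013000b0000800000000000000000000000000) (nat_lit 0x0) (nat_lit 0x40002000000000000000040000000000000000000000) := D_10 (nat_lit 157) (nat_lit 90) (nat_lit 174) (nat_lit 5) (nat_lit 5) (nat_lit 5) (nat_lit 5) (nat_lit 5) (nat_lit 6) (by decide +kernel)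
theorem L59176 : W_10 (nat_lit 2) (nat_lit 0x20002c0013400b0001800040000000000000000000000) (nat_lit 0x0) (nat_lit 0x8000000000002000100000000000000) := D_10 (nat_lit 73) (nat_lit 123) (nat_lit 56) (nat_lit 5) (nat_lit 5) (nat_lit 4) (nat_lit 7) (nat_lit 5) (nat_lit 3) (by decide +kernel)
theorem L59177 : W_10 (nat_lit 3) (nat_lit 0x20002c0013400b0001800000000000000000000000000) (nat_lit 0x0) (nat_lit 0x2000000008000000040002000100000000000000) := T_10 (nat_lit 90) (nat_lit 157) (nat_lit 5) (nat_lit 5) (nat_lit 5) L59176 (by decide +kernel)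
theorem L59178 : W_10 (nat_lit 4) (nat_lit 0x20000c0013400b0001800000000000000000000000000) (nat_lit 0x0) (nat_lit 0x32000000008000000040002000100000000000000) := T_10 (nat_lit 161) (nat_lit 160) (nat_lit 0) (nat_lit 8) (nat_lit 9) L59177 (by decide +kernel)
theorem L59179 : W_10 (nat_lit 5) (nat_lit 0x20000c0013400b0000800000000000000000000000000) (nat_lit 0x0) (nat_lit 0x320000000080010000c0002000100000000000000) := T_10 (nat_lit 108) (nat_lit 91) (nat_lit 6) (nat_lit 5) (nat_lit 9) L59178 (by decide +kernel)
theorem L59180 : W_10 (nat_lit 6) (nat_lit 0x20000c0013000b0000800000000000000000000000000) (nat_lit 0x0) (nat_lit 0x320000c00080010000c0002000100000000000000) := T_10 (nat_lit 138) (nat_lit 139) (nat_lit 3) (nat_lit 2) (nat_lit 8) L59179 (by decide +kernel)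
theorem L59181 : W_10 (nat_lit 7) (nat_lit 0x2000040013000b0000800000000000000000000000000) (nat_lit 0x0) (nat_lit 0x10003a0000c00080010000c0002000100000000000000) := T_10 (nat_lit 159) (nat_lit 176) (nat_lit 7) (nat_lit 5) (nat_lit 6) L59180 (by decide +kernel)
theorem L59182 : W_10 (nat_lit 2) (nat_lit 0x20002c0013400b0001800060000000000000000000000) (nat_lit 0x0) (nat_lit 0x8000000000002000100000000000000) := D_10 (nat_lit 73) (nat_lit 123) (nat_lit 56) (nat_lit 5) (nat_lit 5) (nat_lit 4) (nat_lit 7) (nat_lit 5) (nat_lit 3) (by decide +kernel)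
theorem L59183 : W_10 (nat_lit 3) (nat_lit 0x20002c0013400b0001800020000000000000000000000) (nat_lit 0x0) (nat_lit 0x8000000040003000100000000000000) := T_10 (nat_lit 90) (nat_lit 72) (nat_lit 4) (nat_lit 5) (nat_lit 8) L59182 (by decide +kernel)
theorem L59184 : W_10 (nat_lit 4) (nat_lit 0x20002c0013400b0001800000000000000000000000000) (nat_lit 0x0) (nat_lit 0x8000400060003000100000000000000) := T_10 (nat_lit 89) (nat_lit 106) (nat_lit 4) (nat_lit 5) (nat_lit 9) L59183 (by decide +kernel)
theorem L59185 : W_10 (nat_lit 5) (nat_lit 0x20000c0013400b0001800000000000000000000000000) (nat_lit 0x0) (nat_lit 0x30000000008000400060003000100000000000000) := T_10 (nat_lit 161) (nat_lit 160) (nat_lit 0) (nat_lit 8) (nat_lit 9) L59184 (by decide +kernel)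
theorem L59186 : W_10 (nat_lit 6) (nat_lit 0x20000c0013400b0000800000000000000000000000000) (nat_lit 0x0) (nat_lit 0x300000000080014000e0003000100000000000000) := T_10 (nat_lit 108) (nat_lit 91) (nat_lit 6) (nat_lit 5) (nat_lit 9) L59185 (by decide +kernel)
theorem L59187 : W_10 (nat_lit 7) (nat_lit 0x20000c0013000b0000800000000000000000000000000) (nat_lit 0x0) (nat_lit 0x300000c00080014000e0003000100000000000000) := T_10 (nat_lit 138) (nat_lit 139) (nat_lit 3) (nat_lit 2) (nat_lit 8) L59186 (by decide +kernel)
theorem L59188 : W_10 (nat_lit 8) (nat_lit 0x2000040013000b0000800000000000000000000000000) (nat_lit 0x0) (nat_lit 0x1000380000c00080014000e0003000100000000000000) := T_10 (nat_lit 159) (nat_lit 176) (nat_lit 7) (nat_lit 5) (nat_lit 6) L59187 (by decide +kernel)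
theorem L59189 : W_10 (nat_lit 2) (nat_lit 0x20000e0013000b0000d00000000000000000000000000) (nat_lit 0x0) (nat_lit 0x100000c0000000000000000000000000000000000) := D_10 (nat_lit 139) (nat_lit 138) (nat_lit 160) (nat_lit 3) (nat_lit 2) (nat_lit 8) (nat_lit 0) (nat_lit 7) (nat_lit 9) (by decide +kernel)
theorem L59190 : W_10 (nat_lit 3) (nat_lit 0x2000060013000b0000d00000000000000000000000000) (nat_lit 0x0) (nat_lit 0x1000180000c0000000000000000000000000000000000) := T_10 (nat_lit 159) (nat_lit 176) (nat_lit 7) (nat_lit 5) (nat_lit 6) L59189 (by decide +kernel)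
theorem L59191 : W_10 (nat_lit 4) (nat_lit 0x2000040013000b0000d00000000000000000000000000) (nat_lit 0x0) (nat_lit 0x14001a0000c0000000000000000000000000000000000) := T_10 (nat_lit 157) (nat_lit 174) (nat_lit 5) (nat_lit 5) (nat_lit 6) L59190 (by decide +kernel)
theorem L59192 : W_10 (nat_lit 5) (nat_lit 0x2000040013000b0000c00000000000000000000000000) (nat_lit 0x0) (nat_lit 0x14001a0000c0000000300000000000000000000000000) := T_10 (nat_lit 104) (nat_lit 105) (nat_lit 3) (nat_lit 2) (nat_lit 6) L59191 (by decide +kernel)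
theorem L59193 : W_10 (nat_lit 6) (nat_lit 0x2000040013000b0000800000000000000000000000000) (nat_lit 0x0) (nat_lit 0x14001a0000c0000000700020000000000000000000000) := T_10 (nat_lit 106) (nat_lit 89) (nat_lit 4) (nat_lit 5) (nat_lit 9) L59192 (by decide +kernel)
theorem L59194 : W_10 (nat_lit 9) (nat_lit 0x2000040013000b0000000000000000000000000000000) (nat_lit 0x0) (nat_lit 0x14003a0000c0008001f000e0003000100000000000000) := Q_10 (nat_lit 107) (C_10 L59175 (C_10 L59181 (C_10 L59188 (C_10 L59193 N_10)))) (by decide +kernel)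
theorem L59195 : W_10 (nat_lit 2) (nat_lit 0x2000060013000b0000000000000000000000000000000) (nat_lit 0x0) (nat_lit 0x800040000000000000000800000000000000000000000000) := D_10 (nat_lit 174) (nat_lit 191) (nat_lit 107) (nat_lit 6) (nat_lit 4) (nat_lit 11) (nat_lit 5) (nat_lit 5) (nat_lit 6) (by decide +kernel)
theorem L59196 : W_10 (nat_lit 8) (nat_lit 0x2000040013000b0000000000000000000000000000000) (nat_lit 0x0) (nat_lit 0xc0017001bc000c0008000c00000000000000000000000000) := Q_10 (nat_lit 157) (C_10 L59195 (C_10 L57644 N_10)) (by decide +kernel)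
theorem L59197 : W_10 (nat_lit 10) (nat_lit 0x2000040013000a0000000000000000000000000000000) (nat_lit 0x0) (nat_lit 0x3c001f003bc000c0018001f000e0003000100000000000000) := Q_10 (nat_lit 124) (C_10 L58446 (C_10 L58456 (C_10 L59194 (C_10 L59196 N_10)))) (by decide +kernel)
theorem L59198 : W_10 (nat_lit 2) (nat_lit 0x3c00040013000b0000800000000000000000000000000) (nat_lit 0x0) (nat_lit 0x8000400020000000000000000000000) := D_10 (nat_lit 106) (nat_lit 89) (nat_lit 123) (nat_lit 4) (nat_lit 5) (nat_lit 9) (nat_lit 4) (nat_lit 5) (nat_lit 10) (by decide +kernel)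
theorem L59199 : W_10 (nat_lit 3) (nat_lit 0x3c00040013000b0000000000000000000000000000000) (nat_lit 0x0) (nat_lit 0x8000000008000c00020000000000000000000000) := T_10 (nat_lit 107) (nat_lit 159) (nat_lit 7) (nat_lit 5) (nat_lit 6) L59198 (by decide +kernel)
theorem L59200 : W_10 (nat_lit 4) (nat_lit 0x2c00040013000b0000000000000000000000000000000) (nat_lit 0x0) (nat_lit 0x2000100008000000008000c00020000000000000000000000) := T_10 (nat_lit 176) (nat_lit 193) (nat_lit 7) (nat_lit 5) (nat_lit 7) L59199 (by decide +kernel)
theorem L59201 : W_10 (nat_lit 5) (nat_lit 0x2800040013000b0000000000000000000000000000000) (nat_lit 0x0) (nat_lit 0x2800140008000000008000c00020000000000000000000000) := T_10 (nat_lit 174) (nat_lit 191) (nat_lit 5) (nat_lit 5) (nat_lit 7) L59200 (by decide +kernel)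
theorem L59202 : W_10 (nat_lit 6) (nat_lit 0x2800040013000a0000000000000000000000000000000) (nat_lit 0x0) (nat_lit 0x2800140008000000018001c00020000000000000000000000) := T_10 (nat_lit 124) (nat_lit 108) (nat_lit 6) (nat_lit 5) (nat_lit 10) L59201 (by decide +kernel)
theorem L59203 : W_10 (nat_lit 7) (nat_lit 0x2000040013000a0000000000000000000000000000000) (nat_lit 0x0) (nat_lit 0x100038001c0008000400018001c00020000000000000000000000) := Q_10 (nat_lit 175) (C_10 L59163 (C_10 L59162 (C_10 L59159 (C_10 L59202 N_10)))) (by decide +kernel)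
theorem L59204 : W_10 (nat_lit 2) (nat_lit 0x40003c00140013000b0000000000000000000000000000000) (nat_lit 0x0) (nat_lit 0x20008000400000000000000000000000000000000000) := D_10 (nat_lit 159) (nat_lit 173) (nat_lit 142) (nat_lit 2) (nat_lit 3) (nat_lit 10) (nat_lit 7) (nat_lit 6) (nat_lit 7) (by decide +kernel)
theorem L59205 : W_10 (nat_lit 3) (nat_lit 0x40003c00040013000b0000000000000000000000000000000) (nat_lit 0x0) (nat_lit 0x20038000400000000000000000000000000000000000) := T_10 (nat_lit 160) (nat_lit 161) (nat_lit 2) (nat_lit 4) (nat_lit 10) L59204 (by decide +kernel)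
theorem L59206 : W_10 (nat_lit 4) (nat_lit 0x3c00040013000b0000000000000000000000000000000) (nat_lit 0x0) (nat_lit 0xc000020038000400000000000000000000000000000000000) := T_10 (nat_lit 194) (nat_lit 195) (nat_lit 3) (nat_lit 4) (nat_lit 10) L59205 (by decide +kernel)
theorem L59207 : W_10 (nat_lit 5) (nat_lit 0x2c00040013000b0000000000000000000000000000000) (nat_lit 0x0) (nat_lit 0xe000120038000400000000000000000000000000000000000) := T_10 (nat_lit 176) (nat_lit 193) (nat_lit 7) (nat_lit 5) (nat_lit 7) L59206 (by decide +kernel)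
theorem L59208 : W_10 (nat_lit 6) (nat_lit 0x2800040013000b0000000000000000000000000000000) (nat_lit 0x0) (nat_lit 0xe800160038000400000000000000000000000000000000000) := T_10 (nat_lit 174) (nat_lit 191) (nat_lit 5) (nat_lit 5) (nat_lit 7) L59207 (by decide +kernel)
theorem L59209 : W_10 (nat_lit 7) (nat_lit 0x2800040013000a0000000000000000000000000000000) (nat_lit 0x0) (nat_lit 0xe800160038000400010001000000000000000000000000000) := T_10 (nat_lit 124) (nat_lit 108) (nat_lit 6) (nat_lit 5) (nat_lit 10) L59208 (by decide +kernel)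
theorem L59210 : W_10 (nat_lit 8) (nat_lit 0x2000040013000a0000000000000000000000000000000) (nat_lit 0x0) (nat_lit 0x1000f8001e0038000400018001000000000000000000000000000) := Q_10 (nat_lit 175) (C_10 L59163 (C_10 L59162 (C_10 L59159 (C_10 L59209 N_10)))) (by decide +kernel)
theorem L59211 : W_10 (nat_lit 2) (nat_lit 0x2c00040013000b0000800000000000000000000000000) (nat_lit 0x0) (nat_lit 0x8000400020000000000000000000000) := D_10 (nat_lit 106) (nat_lit 89) (nat_lit 123) (nat_lit 4) (nat_lit 5) (nat_lit 9) (nat_lit 4) (nat_lit 5) (nat_lit 10) (by decide +kernel)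
theorem L59212 : W_10 (nat_lit 3) (nat_lit 0x2c00040013000b0000000000000000000000000000000) (nat_lit 0x0) (nat_lit 0x2000000008000c00020000000000000000000000) := T_10 (nat_lit 107) (nat_lit 157) (nat_lit 5) (nat_lit 5) (nat_lit 6) L59211 (by decide +kernel)
theorem L59213 : W_10 (nat_lit 4) (nat_lit 0x2800040013000b0000000000000000000000000000000) (nat_lit 0x0) (nat_lit 0x800040002000000008000c00020000000000000000000000) := T_10 (nat_lit 174) (nat_lit 191) (nat_lit 5) (nat_lit 5) (nat_lit 7) L59212 (by decide +kernel)
theorem L59214 : W_10 (nat_lit 5) (nat_lit 0x2800040013000a0000000000000000000000000000000) (nat_lit 0x0) (nat_lit 0x800040002000000018001c00020000000000000000000000) := T_10 (nat_lit 124) (nat_lit 108) (nat_lit 6) (nat_lit 5) (nat_lit 10) L59213 (by decide +kernel)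
theorem L59215 : W_10 (nat_lit 6) (nat_lit 0x2000040013000a0000000000000000000000000000000) (nat_lit 0x0) (nat_lit 0x100018000c0002000400018001c00020000000000000000000000) := Q_10 (nat_lit 175) (C_10 L59163 (C_10 L59162 (C_10 L59159 (C_10 L59214 N_10)))) (by decide +kernel)
theorem L59216 : W_10 (nat_lit 4) (nat_lit 0x20000d0013000a0000000000000000000000000000000) (nat_lit 0x0) (nat_lit 0x138002c00000000000000000000000000000000000000) := T_10 (nat_lit 157) (nat_lit 176) (nat_lit 3) (nat_lit 3) (nat_lit 9) L59120 (by decide +kernel)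
theorem L59217 : W_10 (nat_lit 2) (nat_lit 0x30000d0017800a0000000080000000000000000000000) (nat_lit 0x0) (nat_lit 0x2000000000000000010000800000000000000000000000000) := D_10 (nat_lit 124) (nat_lit 107) (nat_lit 193) (nat_lit 7) (nat_lit 5) (nat_lit 6) (nat_lit 4) (nat_lit 6) (nat_lit 11) (by decide +kernel)
theorem L59218 : W_10 (nat_lit 3) (nat_lit 0x20000d0017800a0000000080000000000000000000000) (nat_lit 0x0) (nat_lit 0x6000100000000000010000800000000000000000000000000) := T_10 (nat_lit 176) (nat_lit 194) (nat_lit 7) (nat_lit 6) (nat_lit 7) L59217 (by decide +kernel)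
theorem L59219 : W_10 (nat_lit 4) (nat_lit 0x20000d0017800a0000000000000000000000000000000) (nat_lit 0x0) (nat_lit 0x6000100000000000010001800080000000000000000000000) := T_10 (nat_lit 91) (nat_lit 108) (nat_lit 5) (nat_lit 6) (nat_lit 5) L59218 (by decide +kernel)
theorem L59220 : W_10 (nat_lit 5) (nat_lit 0x20000d0013800a0000000000000000000000000000000) (nat_lit 0x0) (nat_lit 0x6000100000800400010001800080000000000000000000000) := T_10 (nat_lit 142) (nat_lit 155) (nat_lit 1) (nat_lit 6) (nat_lit 8) L59219 (by decide +kernel)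
theorem L59221 : W_10 (nat_lit 6) (nat_lit 0x20000d0013000a0000000000000000000000000000000) (nat_lit 0x0) (nat_lit 0x60001000008004c0010001800080000000000000000000000) := T_10 (nat_lit 139) (nat_lit 138) (nat_lit 3) (nat_lit 2) (nat_lit 8) L59220 (by decide +kernel)
theorem L59222 : W_10 (nat_lit 2) (nat_lit 0x20000d8013800a0000000000000000000000000000000) (nat_lit 0x0) (nat_lit 0x2600000000000000000000000000000000000000) := D_10 (nat_lit 154) (nat_lit 153) (nat_lit 157) (nat_lit 2) (nat_lit 0) (nat_lit 9) (nat_lit 2) (nat_lit 1) (nat_lit 9) (by decide +kernel)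
theorem L59223 : W_10 (nat_lit 3) (nat_lit 0x20000d0013800a0000000000000000000000000000000) (nat_lit 0x0) (nat_lit 0x2e00400000000000000000000000000000000000) := T_10 (nat_lit 155) (nat_lit 142) (nat_lit 1) (nat_lit 6) (nat_lit 8) L59222 (by decide +kernel)
theorem L59224 : W_10 (nat_lit 4) (nat_lit 0x20000d0013000a0000000000000000000000000000000) (nat_lit 0x0) (nat_lit 0x2e004c0000000000000000000000000000000000) := T_10 (nat_lit 139) (nat_lit 138) (nat_lit 3) (nat_lit 2) (nat_lit 8) L59223 (by decide +kernel)
theorem L59225 : W_10 (nat_lit 2) (nat_lit 0x22000f0013400a8000000000000000000000000000000) (nat_lit 0x0) (nat_lit 0x8000400040000000000000000000000000000000000000000000) := D_10 (nat_lit 190) (nat_lit 207) (nat_lit 174) (nat_lit 6) (nat_lit 3) (nat_lit 12) (nat_lit 5) (nat_lit 4) (nat_lit 7) (by decide +kernel)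
theorem L59226 : W_10 (nat_lit 3) (nat_lit 0x22000f0013400a0000000000000000000000000000000) (nat_lit 0x0) (nat_lit 0x8000400040000000000008000400000000000000000000000000) := T_10 (nat_lit 123) (nat_lit 106) (nat_lit 5) (nat_lit 4) (nat_lit 6) L59225 (by decide +kernel)
theorem L59227 : W_10 (nat_lit 4) (nat_lit 0x20000f0013400a0000000000000000000000000000000) (nat_lit 0x0) (nat_lit 0x8000400070000000000008000400000000000000000000000000) := T_10 (nat_lit 173) (nat_lit 172) (nat_lit 1) (nat_lit 6) (nat_lit 9) L59226 (by decide +kernel)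
theorem L59228 : W_10 (nat_lit 5) (nat_lit 0x20000d0013400a0000000000000000000000000000000) (nat_lit 0x0) (nat_lit 0x8000400170002000000008000400000000000000000000000000) := T_10 (nat_lit 157) (nat_lit 176) (nat_lit 3) (nat_lit 3) (nat_lit 9) L59227 (by decide +kernel)
theorem L59229 : W_10 (nat_lit 6) (nat_lit 0x20000d0013000a0000000000000000000000000000000) (nat_lit 0x0) (nat_lit 0x80004001700020000c0008000400000000000000000000000000) := T_10 (nat_lit 138) (nat_lit 139) (nat_lit 3) (nat_lit 2) (nat_lit 8) L59228 (by decide +kernel)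
theorem L59230 : W_10 (nat_lit 7) (nat_lit 0x20000c0013000a0000000000000000000000000000000) (nat_lit 0x0) (nat_lit 0x8006400178003e004c0018001c00080000000000000000000000) := Q_10 (nat_lit 156) (C_10 L59216 (C_10 L59221 (C_10 L59224 (C_10 L59229 N_10)))) (by decide +kernel)
theorem L59231 : W_10 (nat_lit 2) (nat_lit 0x20001c0017000a0000000000000000000000000000000) (nat_lit 0x0) (nat_lit 0x80004000100000000000000000000000000000000000000000000) := D_10 (nat_lit 194) (nat_lit 176) (nat_lit 211) (nat_lit 7) (nat_lit 6) (nat_lit 7) (nat_lit 4) (nat_lit 7) (nat_lit 12) (by decide +kernel)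
theorem L59232 : W_10 (nat_lit 3) (nat_lit 0x20001c0013000a0000000000000000000000000000000) (nat_lit 0x0) (nat_lit 0x80004000100000000400000001000000000000000000000000000) := T_10 (nat_lit 142) (nat_lit 108) (nat_lit 7) (nat_lit 6) (nat_lit 6) L59231 (by decide +kernel)
theorem L59233 : W_10 (nat_lit 4) (nat_lit 0x20000c0013000a0000000000000000000000000000000) (nat_lit 0x0) (nat_lit 0x80004000100030000400000001000000000000000000000000000) := T_10 (nat_lit 160) (nat_lit 161) (nat_lit 0) (nat_lit 8) (nat_lit 9) L59232 (by decide +kernel)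
theorem L59234 : W_10 (nat_lit 8) (nat_lit 0x2000040013000a0000000000000000000000000000000) (nat_lit 0x0) (nat_lit 0x8800640017803be004c0018001c00080000000000000000000000) := Q_10 (nat_lit 159) (C_10 L59167 (C_10 L59173 (C_10 L59230 (C_10 L59233 N_10)))) (by decide +kernel)
theorem L59235 : W_10 (nat_lit 2) (nat_lit 0x4000000030000d0017000a0000000000000000000000000000000) (nat_lit 0x0) (nat_lit 0x8000c0000000000000000000000000000000000) := D_10 (nat_lit 139) (nat_lit 155) (nat_lit 138) (nat_lit 1) (nat_lit 6) (nat_lit 8) (nat_lit 3) (nat_lit 2) (nat_lit 8) (by decide +kernel)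
theorem L59236 : W_10 (nat_lit 3) (nat_lit 0x4000000030000c0017000a0000000000000000000000000000000) (nat_lit 0x0) (nat_lit 0x38000c0000000000000000000000000000000000) := T_10 (nat_lit 156) (nat_lit 157) (nat_lit 3) (nat_lit 3) (nat_lit 9) L59235 (by decide +kernel)
theorem L59237 : W_10 (nat_lit 4) (nat_lit 0x30000c0017000a0000000000000000000000000000000) (nat_lit 0x0) (nat_lit 0x400020000000038000c0000000000000000000000000000000000) := T_10 (nat_lit 210) (nat_lit 193) (nat_lit 4) (nat_lit 6) (nat_lit 12) L59236 (by decide +kernel)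
theorem L59238 : W_10 (nat_lit 5) (nat_lit 0x20000c0017000a0000000000000000000000000000000) (nat_lit 0x0) (nat_lit 0x400060001000038000c0000000000000000000000000000000000) := T_10 (nat_lit 176) (nat_lit 194) (nat_lit 7) (nat_lit 6) (nat_lit 7) L59237 (by decide +kernel)
theorem L59239 : W_10 (nat_lit 6) (nat_lit 0x20000c0013000a0000000000000000000000000000000) (nat_lit 0x0) (nat_lit 0x400060001800038004c0000001000080000000000000000000000) := Q_10 (nat_lit 142) (C_10 L59168 (C_10 L59238 N_10)) (by decide +kernel)
theorem L59240 : W_10 (nat_lit 7) (nat_lit 0x2000040013000a0000000000000000000000000000000) (nat_lit 0x0) (nat_lit 0xc000600018003b8004c0000001000080000000000000000000000) := Q_10 (nat_lit 159) (C_10 L59233 (C_10 L59239 (C_10 L59173 N_10))) (by decide +kernel)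
theorem L59241 : W_10 (nat_lit 2) (nat_lit 0x18002800040013000b0000000000000000000000000000000) (nat_lit 0x0) (nat_lit 0x40002000100000000000000000000000000000000000000000000) := D_10 (nat_lit 193) (nat_lit 210) (nat_lit 176) (nat_lit 7) (nat_lit 5) (nat_lit 8) (nat_lit 7) (nat_lit 5) (nat_lit 7) (by decide +kernel)
theorem L59242 : W_10 (nat_lit 3) (nat_lit 0x18002800040013000a0000000000000000000000000000000) (nat_lit 0x0) (nat_lit 0x40002000140000000000010000000000000000000000000000000) := T_10 (nat_lit 124) (nat_lit 174) (nat_lit 5) (nat_lit 5) (nat_lit 7) L59241 (by decide +kernel)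
theorem L59243 : W_10 (nat_lit 4) (nat_lit 0x10002800040013000a0000000000000000000000000000000) (nat_lit 0x0) (nat_lit 0x50002800140000000000010000000000000000000000000000000) := T_10 (nat_lit 191) (nat_lit 208) (nat_lit 5) (nat_lit 5) (nat_lit 8) L59242 (by decide +kernel)
theorem L59244 : W_10 (nat_lit 5) (nat_lit 0x2800040013000a0000000000000000000000000000000) (nat_lit 0x0) (nat_lit 0x50003800140000000400010000000000000000000000000000000) := T_10 (nat_lit 192) (nat_lit 142) (nat_lit 6) (nat_lit 5) (nat_lit 11) L59243 (by decide +kernel)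
theorem L59245 : W_10 (nat_lit 5) (nat_lit 0x2800040013000a0000000000000000000000000000000) (nat_lit 0x0) (nat_lit 0x50003800140000000000018000000000000000000000000000000) := T_10 (nat_lit 192) (nat_lit 123) (nat_lit 4) (nat_lit 5) (nat_lit 11) L59243 (by decide +kernel)
theorem L59246 : W_10 (nat_lit 2) (nat_lit 0x3800040013000b0000800000000000000000000000000) (nat_lit 0x0) (nat_lit 0x8000400020000000000000000000000) := D_10 (nat_lit 106) (nat_lit 123) (nat_lit 89) (nat_lit 4) (nat_lit 5) (nat_lit 10) (nat_lit 4) (nat_lit 5) (nat_lit 9) (by decide +kernel)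
theorem L59247 : W_10 (nat_lit 3) (nat_lit 0x3800040013000b0000000000000000000000000000000) (nat_lit 0x0) (nat_lit 0x8000000008000c00020000000000000000000000) := T_10 (nat_lit 107) (nat_lit 159) (nat_lit 7) (nat_lit 5) (nat_lit 6) L59246 (by decide +kernel)
theorem L59248 : W_10 (nat_lit 4) (nat_lit 0x2800040013000b0000000000000000000000000000000) (nat_lit 0x0) (nat_lit 0x2000100008000000008000c00020000000000000000000000) := T_10 (nat_lit 176) (nat_lit 193) (nat_lit 7) (nat_lit 5) (nat_lit 7) L59247 (by decide +kernel)
theorem L59249 : W_10 (nat_lit 7) (nat_lit 0x2800040013000a0000000000000000000000000000000) (nat_lit 0x0) (nat_lit 0xe80016003a000400018000c00020000000000000000000000) := Q_10 (nat_lit 124) (C_10 L59213 (C_10 L59248 (C_10 L59208 N_10))) (by decide +kernel)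
theorem L59250 : W_10 (nat_lit 8) (nat_lit 0x2000040013000a0000000000000000000000000000000) (nat_lit 0x0) (nat_lit 0x5000f8001e003a000400018000c00020000000000000000000000) := Q_10 (nat_lit 175) (C_10 L59159 (C_10 L59244 (C_10 L59245 (C_10 L59249 N_10)))) (by decide +kernel)
theorem L59251 : W_10 (nat_lit 11) (nat_lit 0x2000000013000a0000000000000000000000000000000) (nat_lit 0x0) (nat_lit 0xd800fc001f803fe004c0018001f000e0003000100000000000000) := Q_10 (nat_lit 158) (C_10 L59165 (C_10 L59174 (C_10 L59197 (C_10 L59203 (C_10 L59210 (C_10 L59215 (C_10 L59234 (C_10 L59240 (C_10 L59250 N_10))))))))) (by decide +kernel)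
theorem L59252 : W_10 (nat_lit 12) (nat_lit 0x200000001300080000000000000000000000000000000) (nat_lit 0x0) (nat_lit 0x28001f000f800fc001f803fe004e037803bf001f000b800100000000000000) := Q_10 (nat_lit 125) (C_10 L59024 (C_10 L59124 (C_10 L59129 (C_10 L59158 (C_10 L59251 N_10))))) (by decide +kernel)
theorem L59253 : W_10 (nat_lit 11) (nat_lit 0x200000001380080000000000000000000000000000000) (nat_lit 0x0) (nat_lit 0x3c007e001f001f80040007e000fc0038001c00080000000000000) := Q_10 (nat_lit 142) (C_10 L58982 (C_10 L58962 (C_10 L57008 (C_10 L55626 (C_10 L55709 N_10))))) (by decide +kernel)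
theorem L59254 : W_10 (nat_lit 12) (nat_lit 0x200000001300080000000000000000000000000000000) (nat_lit 0x0) (nat_lit 0x3c007e001f801fe004f007f800fc007c001c00080000000000000) := Q_10 (nat_lit 139) (C_10 L56865 (C_10 L58974 (C_10 L56085 (C_10 L57013 (C_10 L59253 (C_10 L57939 N_10)))))) (by decide +kernel)
theorem L59255 : W_10 (nat_lit 7) (nat_lit 0x200000001300098000400000000000000000000000000) (nat_lit 0x0) (nat_lit 0x18000e0007c00400004000380010000000000000000000000) := Q_10 (nat_lit 157) (C_10 L58359 (C_10 L58363 (C_10 L58343 N_10))) (by decide +kernel)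
theorem L59256 : W_10 (nat_lit 10) (nat_lit 0x200000001300098000000000000000000000000000000) (nat_lit 0x0) (nat_lit 0x18001e0007c00400004000780070003800000000000000000) := Q_10 (nat_lit 106) (C_10 L32493 (C_10 L58341 (C_10 L59255 N_10))) (by decide +kernel)
theorem L59257 : W_10 (nat_lit 11) (nat_lit 0x200000001300090000000000000000000000000000000) (nat_lit 0x0) (nat_lit 0xfc001f800fc0040006f0037800f0007800000000000000000) := Q_10 (nat_lit 123) (C_10 L58029 (C_10 L58407 (C_10 L59256 (C_10 L58367 (C_10 L58390 N_10))))) (by decide +kernel)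
theorem L59258 : W_10 (nat_lit 16) (nat_lit 0x200000001300080000000000000000000000000000000) (nat_lit 0x0) (nat_lit 0x20007000fc001f803fc0040007f003f807fc01fc003e000f000000000) := Q_10 (nat_lit 124) (C_10 L58239 (C_10 L58241 (C_10 L58580 (C_10 L58271 (C_10 L58333 (C_10 L59257 (C_10 L56583 (C_10 L58430 (C_10 L58443 (C_10 L58458 (C_10 L58472 (C_10 L58474 N_10)))))))))))) (by decide +kernel)
theorem L59259 : W_10 (nat_lit 4) (nat_lit 0x200000001780090000000000000000000000000000000) (nat_lit 0x0) (nat_lit 0x2000100018000000060000800000000000000000000000000) := T_10 (nat_lit 125) (nat_lit 126) (nat_lit 2) (nat_lit 3) (nat_lit 8) L55716 (by decide +kernel)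
theorem L59260 : W_10 (nat_lit 2) (nat_lit 0x240002001780090000000000000000000000000000000) (nat_lit 0x0) (nat_lit 0x8000800040000000000000000000000) := D_10 (nat_lit 107) (nat_lit 123) (nat_lit 90) (nat_lit 6) (nat_lit 4) (nat_lit 10) (nat_lit 5) (nat_lit 5) (nat_lit 5) (by decide +kernel)
theorem L59261 : W_10 (nat_lit 3) (nat_lit 0x240000001780090000000000000000000000000000000) (nat_lit 0x0) (nat_lit 0x800000002000000008000800040000000000000000000000) := T_10 (nat_lit 157) (nat_lit 191) (nat_lit 6) (nat_lit 4) (nat_lit 11) L59260 (by decide +kernel)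
theorem L59262 : W_10 (nat_lit 4) (nat_lit 0x240000001780090000000000000000000000000000000) (nat_lit 0x0) (nat_lit 0x800020003800000006000000000000000000000000000000) := T_10 (nat_lit 122) (nat_lit 121) (nat_lit 0) (nat_lit 6) (nat_lit 8) L56540 (by decide +kernel)
theorem L59263 : W_10 (nat_lit 2) (nat_lit 0x260009001780094000000000000000000000000000000) (nat_lit 0x0) (nat_lit 0x400000000000000008000400000000000000000000000000) := D_10 (nat_lit 123) (nat_lit 190) (nat_lit 106) (nat_lit 6) (nat_lit 3) (nat_lit 11) (nat_lit 6) (nat_lit 3) (nat_lit 10) (by decide +kernel)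
theorem L59264 : W_10 (nat_lit 3) (nat_lit 0x240009001780094000000000000000000000000000000) (nat_lit 0x0) (nat_lit 0xc00020000000000008000400000000000000000000000000) := T_10 (nat_lit 173) (nat_lit 191) (nat_lit 7) (nat_lit 3) (nat_lit 7) L59263 (by decide +kernel)
theorem L59265 : W_10 (nat_lit 4) (nat_lit 0x240001001780094000000000000000000000000000000) (nat_lit 0x0) (nat_lit 0xc00020018000000008000400000000000000000000000000) := T_10 (nat_lit 159) (nat_lit 160) (nat_lit 3) (nat_lit 3) (nat_lit 8) L59264 (by decide +kernel)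
theorem L59266 : W_10 (nat_lit 5) (nat_lit 0x240001001780090000000000000000000000000000000) (nat_lit 0x0) (nat_lit 0xc0002001800000000e000400000000000000000000000000) := T_10 (nat_lit 122) (nat_lit 121) (nat_lit 0) (nat_lit 6) (nat_lit 8) L59265 (by decide +kernel)
theorem L59267 : W_10 (nat_lit 6) (nat_lit 0x240000001780090000000000000000000000000000000) (nat_lit 0x0) (nat_lit 0xc0002001980000000e000400000000000000000000000000) := T_10 (nat_lit 156) (nat_lit 155) (nat_lit 1) (nat_lit 6) (nat_lit 8) L59266 (by decide +kernel)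
theorem L59268 : W_10 (nat_lit 2) (nat_lit 0x200024000900178009c000200058000000000000000000000) (nat_lit 0x0) (nat_lit 0x400020000000000000000400000000000000000000000000) := D_10 (nat_lit 173) (nat_lit 190) (nat_lit 106) (nat_lit 6) (nat_lit 3) (nat_lit 11) (nat_lit 6) (nat_lit 3) (nat_lit 10) (by decide +kernel)
theorem L59269 : W_10 (nat_lit 3) (nat_lit 0x2000240009001780094000200058000000000000000000000) (nat_lit 0x0) (nat_lit 0x400020000000000008000400000000800000000000000000) := T_10 (nat_lit 123) (nat_lit 71) (nat_lit 7) (nat_lit 3) (nat_lit 4) L59268 (by decide +kernel)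
theorem L59270 : W_10 (nat_lit 4) (nat_lit 0x240009001780094000200058000000000000000000000) (nat_lit 0x0) (nat_lit 0x2400120000000000008000400000000800000000000000000) := T_10 (nat_lit 193) (nat_lit 176) (nat_lit 4) (nat_lit 6) (nat_lit 11) L59269 (by decide +kernel)
theorem L59271 : W_10 (nat_lit 5) (nat_lit 0x240009001780094000200048000000000000000000000) (nat_lit 0x0) (nat_lit 0x2400120000000000008000400010000c00000000000000000) := T_10 (nat_lit 88) (nat_lit 70) (nat_lit 4) (nat_lit 3) (nat_lit 8) L59270 (by decide +kernel)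
theorem L59272 : W_10 (nat_lit 6) (nat_lit 0x240009001780094000200008000000000000000000000) (nat_lit 0x0) (nat_lit 0x2400120000000000008000c00050000c00000000000000000) := T_10 (nat_lit 90) (nat_lit 107) (nat_lit 7) (nat_lit 5) (nat_lit 5) L59271 (by decide +kernel)
theorem L59273 : W_10 (nat_lit 7) (nat_lit 0x240009001780094000200000000000000000000000000) (nat_lit 0x0) (nat_lit 0x2400120000000000008000d00058000c00000000000000000) := T_10 (nat_lit 87) (nat_lit 104) (nat_lit 4) (nat_lit 3) (nat_lit 9) L59272 (by decide +kernel)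
theorem L59274 : W_10 (nat_lit 8) (nat_lit 0x240009001780094000000000000000000000000000000) (nat_lit 0x0) (nat_lit 0x2400120002000000008000f00058000c00000000000000000) := T_10 (nat_lit 105) (nat_lit 157) (nat_lit 7) (nat_lit 3) (nat_lit 6) L59273 (by decide +kernel)
theorem L59275 : W_10 (nat_lit 9) (nat_lit 0x240001001780094000000000000000000000000000000) (nat_lit 0x0) (nat_lit 0x240012001a000000008000f00058000c00000000000000000) := T_10 (nat_lit 159) (nat_lit 160) (nat_lit 3) (nat_lit 3) (nat_lit 8) L59274 (by decide +kernel)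
theorem L59276 : W_10 (nat_lit 10) (nat_lit 0x240000001780094000000000000000000000000000000) (nat_lit 0x0) (nat_lit 0x240012001b800000008000f00058000c00000000000000000) := T_10 (nat_lit 156) (nat_lit 155) (nat_lit 1) (nat_lit 6) (nat_lit 8) L59275 (by decide +kernel)
theorem L59277 : W_10 (nat_lit 11) (nat_lit 0x240000001780090000000000000000000000000000000) (nat_lit 0x0) (nat_lit 0x240012001b80000000e000f00058000c00000000000000000) := T_10 (nat_lit 122) (nat_lit 121) (nat_lit 0) (nat_lit 6) (nat_lit 8) L59276 (by decide +kernel)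
theorem L59278 : W_10 (nat_lit 12) (nat_lit 0x200000001780090000000000000000000000000000000) (nat_lit 0x0) (nat_lit 0x2c0016001b80000000e000f00058000c00000000000000000) := Q_10 (nat_lit 174) (C_10 L59261 (C_10 L59262 (C_10 L59267 (C_10 L59277 N_10)))) (by decide +kernel)
theorem L59279 : W_10 (nat_lit 4) (nat_lit 0x200000001780098000000000000000000000000000000) (nat_lit 0x0) (nat_lit 0x400020001800000006000400000000000000000000000000) := T_10 (nat_lit 156) (nat_lit 155) (nat_lit 1) (nat_lit 6) (nat_lit 8) L58813 (by decide +kernel)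
theorem L59280 : W_10 (nat_lit 2) (nat_lit 0x2000000017800bc001200000000000000000000000000) (nat_lit 0x0) (nat_lit 0x40002000000000000000010000000000000000000000) := D_10 (nat_lit 157) (nat_lit 174) (nat_lit 88) (nat_lit 4) (nat_lit 4) (nat_lit 10) (nat_lit 7) (nat_lit 3) (nat_lit 5) (by decide +kernel)
theorem L59281 : W_10 (nat_lit 3) (nat_lit 0x2000000017800bc001000000000000000000000000000) (nat_lit 0x0) (nat_lit 0x40002000000000000300010000000000000000000000) := T_10 (nat_lit 105) (nat_lit 104) (nat_lit 0) (nat_lit 6) (nat_lit 7) L59280 (by decide +kernel)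
theorem L59282 : W_10 (nat_lit 4) (nat_lit 0x2000000017800bc000000000000000000000000000000) (nat_lit 0x0) (nat_lit 0x40002000000000003300010000000000000000000000) := T_10 (nat_lit 108) (nat_lit 109) (nat_lit 2) (nat_lit 3) (nat_lit 7) L59281 (by decide +kernel)
theorem L59283 : W_10 (nat_lit 5) (nat_lit 0x20000000178009c000000000000000000000000000000) (nat_lit 0x0) (nat_lit 0x40002000000060003300010000000000000000000000) := T_10 (nat_lit 125) (nat_lit 126) (nat_lit 2) (nat_lit 3) (nat_lit 8) L59282 (by decide +kernel)
theorem L59284 : W_10 (nat_lit 6) (nat_lit 0x200000001780098000000000000000000000000000000) (nat_lit 0x0) (nat_lit 0x40002000000066003300010000000000000000000000) := T_10 (nat_lit 122) (nat_lit 121) (nat_lit 3) (nat_lit 2) (nat_lit 7) L59283 (by decide +kernel)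
theorem L59285 : W_10 (nat_lit 2) (nat_lit 0x2200030017800d8000000000000000000000000000000) (nat_lit 0x0) (nat_lit 0x40000000000000000800040000000000000000000000) := D_10 (nat_lit 107) (nat_lit 90) (nat_lit 174) (nat_lit 5) (nat_lit 5) (nat_lit 5) (nat_lit 6) (nat_lit 4) (nat_lit 10) (by decide +kernel)
theorem L59286 : W_10 (nat_lit 3) (nat_lit 0x2200010017800d8000000000000000000000000000000) (nat_lit 0x0) (nat_lit 0x40002000000000000c00040000000000000000000000) := T_10 (nat_lit 157) (nat_lit 106) (nat_lit 5) (nat_lit 4) (nat_lit 6) L59285 (by decide +kernel)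
theorem L59287 : W_10 (nat_lit 4) (nat_lit 0x2000010017800d8000000000000000000000000000000) (nat_lit 0x0) (nat_lit 0x400060002000000000000c00040000000000000000000000) := T_10 (nat_lit 173) (nat_lit 190) (nat_lit 6) (nat_lit 3) (nat_lit 11) L59286 (by decide +kernel)
theorem L59288 : W_10 (nat_lit 5) (nat_lit 0x2000000017800d8000000000000000000000000000000) (nat_lit 0x0) (nat_lit 0x400060003800000000000c00040000000000000000000000) := T_10 (nat_lit 156) (nat_lit 155) (nat_lit 1) (nat_lit 6) (nat_lit 8) L59287 (by decide +kernel)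
theorem L59289 : W_10 (nat_lit 6) (nat_lit 0x200000001780098000000000000000000000000000000) (nat_lit 0x0) (nat_lit 0x400060003800000060000c00040000000000000000000000) := T_10 (nat_lit 126) (nat_lit 125) (nat_lit 2) (nat_lit 3) (nat_lit 8) L59288 (by decide +kernel)
theorem L59290 : W_10 (nat_lit 7) (nat_lit 0x200000001780090000000000000000000000000000000) (nat_lit 0x0) (nat_lit 0x40006000380000006e003f00050000000000000000000000) := Q_10 (nat_lit 123) (C_10 L59279 (C_10 L59284 (C_10 L59289 N_10))) (by decide +kernel)
theorem L59291 : W_10 (nat_lit 2) (nat_lit 0x2000090017800b0000000000000000000000000000000) (nat_lit 0x0) (nat_lit 0x6000100000000000000000000000000000000000000000000) := D_10 (nat_lit 176) (nat_lit 193) (nat_lit 194) (nat_lit 4) (nat_lit 6) (nat_lit 11) (nat_lit 7) (nat_lit 6) (nat_lit 7) (by decide +kernel)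
theorem L59292 : W_10 (nat_lit 3) (nat_lit 0x200009001780090000000000000000000000000000000) (nat_lit 0x0) (nat_lit 0x6000100000000000060000000000000000000000000000000) := T_10 (nat_lit 125) (nat_lit 126) (nat_lit 2) (nat_lit 3) (nat_lit 8) L59291 (by decide +kernel)
theorem L59293 : W_10 (nat_lit 4) (nat_lit 0x200001001780090000000000000000000000000000000) (nat_lit 0x0) (nat_lit 0x6000100018000000060000000000000000000000000000000) := T_10 (nat_lit 159) (nat_lit 160) (nat_lit 3) (nat_lit 3) (nat_lit 8) L59292 (by decide +kernel)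
theorem L59294 : W_10 (nat_lit 5) (nat_lit 0x200000001780090000000000000000000000000000000) (nat_lit 0x0) (nat_lit 0x6000100019800000060000000000000000000000000000000) := T_10 (nat_lit 156) (nat_lit 155) (nat_lit 1) (nat_lit 6) (nat_lit 8) L59293 (by decide +kernel)
theorem L59295 : W_10 (nat_lit 13) (nat_lit 0x200000001380090000000000000000000000000000000) (nat_lit 0x0) (nat_lit 0x6c0016001b80040006e003f00058000c00000000000000000) := Q_10 (nat_lit 142) (C_10 L59259 (C_10 L59278 (C_10 L59290 (C_10 L59294 N_10)))) (by decide +kernel)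
theorem L59296 : W_10 (nat_lit 14) (nat_lit 0x200000001300090000000000000000000000000000000) (nat_lit 0x0) (nat_lit 0x6e0017001be004e006f803f00058000c00000000000000000) := Q_10 (nat_lit 139) (C_10 L59295 (C_10 L56197 (C_10 L56196 N_10))) (by decide +kernel)
theorem L59297 : W_10 (nat_lit 10) (nat_lit 0x200000001300090000000000000000000000000000000) (nat_lit 0x0) (nat_lit 0x2000fc001f003fc000c006f003f001d8004000000000000000000) := Q_10 (nat_lit 157) (C_10 L58431 (C_10 L57619 (C_10 L56673 (C_10 L56656 N_10)))) (by decide +kernel)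
theorem L59298 : W_10 (nat_lit 2) (nat_lit 0x2000080013000900008000c0000000000000000000000) (nat_lit 0x0) (nat_lit 0x100004000000000001000000000000000000000000000) := D_10 (nat_lit 158) (nat_lit 108) (nat_lit 176) (nat_lit 6) (nat_lit 5) (nat_lit 9) (nat_lit 7) (nat_lit 5) (nat_lit 6) (by decide +kernel)
theorem L59299 : W_10 (nat_lit 3) (nat_lit 0x2000000013000900008000c0000000000000000000000) (nat_lit 0x0) (nat_lit 0x10000c000400000001000000000000000000000000000) := T_10 (nat_lit 159) (nat_lit 142) (nat_lit 7) (nat_lit 5) (nat_lit 5) L59298 (by decide +kernel)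
theorem L59300 : W_10 (nat_lit 4) (nat_lit 0x200000001300090000800040000000000000000000000) (nat_lit 0x0) (nat_lit 0x10000c000400000001000080004000000000000000000) := T_10 (nat_lit 91) (nat_lit 74) (nat_lit 6) (nat_lit 5) (nat_lit 8) L59299 (by decide +kernel)
theorem L59301 : W_10 (nat_lit 5) (nat_lit 0x200000001300090000800000000000000000000000000) (nat_lit 0x0) (nat_lit 0x10000e0004000000010000c0004000000000000000000) := T_10 (nat_lit 90) (nat_lit 157) (nat_lit 5) (nat_lit 5) (nat_lit 5) L59300 (by decide +kernel)
theorem L59302 : W_10 (nat_lit 2) (nat_lit 0x200000001300090000800040002000280000000000000) (nat_lit 0x0) (nat_lit 0x100014000000000) := D_10 (nat_lit 56) (nat_lit 38) (nat_lit 40) (nat_lit 4) (nat_lit 5) (nat_lit 6) (nat_lit 6) (nat_lit 5) (nat_lit 6) (by decide +kernel)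
theorem L59303 : W_10 (nat_lit 3) (nat_lit 0x200000001300090000800040002000080000000000000) (nat_lit 0x0) (nat_lit 0x4000300014000000000) := T_10 (nat_lit 57) (nat_lit 74) (nat_lit 6) (nat_lit 5) (nat_lit 7) L59302 (by decide +kernel)
theorem L59304 : W_10 (nat_lit 4) (nat_lit 0x200000001300090000800040002000000000000000000) (nat_lit 0x0) (nat_lit 0x5000380014000000000) := T_10 (nat_lit 55) (nat_lit 72) (nat_lit 4) (nat_lit 5) (nat_lit 7) L59303 (by decide +kernel)
theorem L59305 : W_10 (nat_lit 5) (nat_lit 0x200000001300090000800040000000000000000000000) (nat_lit 0x0) (nat_lit 0x8000000000007000380014000000000) := T_10 (nat_lit 73) (nat_lit 123) (nat_lit 5) (nat_lit 5) (nat_lit 4) L59304 (by decide +kernel)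
theorem L59306 : W_10 (nat_lit 2) (nat_lit 0x20000c001300098000800040000000000000000000000) (nat_lit 0x0) (nat_lit 0x1000080000000000000000400000000000000000000000000) := D_10 (nat_lit 175) (nat_lit 106) (nat_lit 192) (nat_lit 4) (nat_lit 5) (nat_lit 10) (nat_lit 4) (nat_lit 5) (nat_lit 11) (by decide +kernel)
theorem L59307 : W_10 (nat_lit 3) (nat_lit 0x200008001300098000800040000000000000000000000) (nat_lit 0x0) (nat_lit 0x1000180004000000000000400000000000000000000000000) := T_10 (nat_lit 158) (nat_lit 176) (nat_lit 7) (nat_lit 5) (nat_lit 6) L59306 (by decide +kernel)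
theorem L59308 : W_10 (nat_lit 4) (nat_lit 0x200000001300098000800040000000000000000000000) (nat_lit 0x0) (nat_lit 0x100018000c000400000000400000000000000000000000000) := T_10 (nat_lit 159) (nat_lit 142) (nat_lit 7) (nat_lit 5) (nat_lit 5) L59307 (by decide +kernel)
theorem L59309 : W_10 (nat_lit 5) (nat_lit 0x200000001300090000800040000000000000000000000) (nat_lit 0x0) (nat_lit 0x100018000c000400008000400000002000000000000000000) := T_10 (nat_lit 123) (nat_lit 73) (nat_lit 5) (nat_lit 5) (nat_lit 4) L59308 (by decide +kernel)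
theorem L59310 : W_10 (nat_lit 6) (nat_lit 0x200000001300090000800000000000000000000000000) (nat_lit 0x0) (nat_lit 0x100018000c0004000080014000c0007000380014000000000) := Q_10 (nat_lit 90) (C_10 L59300 (C_10 L58546 (C_10 L31985 (C_10 L59305 (C_10 L59309 N_10))))) (by decide +kernel)
theorem L59311 : W_10 (nat_lit 2) (nat_lit 0x2c0004001300090001800000000000000000000000000) (nat_lit 0x0) (nat_lit 0x1000000000000000008000400000000000000000000000000) := D_10 (nat_lit 123) (nat_lit 192) (nat_lit 106) (nat_lit 4) (nat_lit 5) (nat_lit 11) (nat_lit 4) (nat_lit 5) (nat_lit 10) (by decide +kernel)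
theorem L59312 : W_10 (nat_lit 3) (nat_lit 0x240004001300090001800000000000000000000000000) (nat_lit 0x0) (nat_lit 0x1800080000000000008000400000000000000000000000000) := T_10 (nat_lit 175) (nat_lit 191) (nat_lit 5) (nat_lit 5) (nat_lit 7) L59311 (by decide +kernel)
theorem L59313 : W_10 (nat_lit 4) (nat_lit 0x200004001300090001800000000000000000000000000) (nat_lit 0x0) (nat_lit 0x18000c0002000000008000400000000000000000000000000) := T_10 (nat_lit 174) (nat_lit 157) (nat_lit 5) (nat_lit 5) (nat_lit 6) L59312 (by decide +kernel)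
theorem L59314 : W_10 (nat_lit 5) (nat_lit 0x200004001300090000800000000000000000000000000) (nat_lit 0x0) (nat_lit 0x18000c0002000000008001400080000000000000000000000) := T_10 (nat_lit 108) (nat_lit 91) (nat_lit 6) (nat_lit 5) (nat_lit 9) L59313 (by decide +kernel)
theorem L59315 : W_10 (nat_lit 7) (nat_lit 0x200000001300090000800000000000000000000000000) (nat_lit 0x0) (nat_lit 0x400038001c003e0004c0008001400080000000000000000000000) := Q_10 (nat_lit 158) (C_10 L58575 (C_10 L31915 (C_10 L59314 N_10))) (by decide +kernel)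
theorem L59316 : W_10 (nat_lit 6) (nat_lit 0x200000001300090000800000000000000000000000000) (nat_lit 0x0) (nat_lit 0x100018000e000400008000400040002000000000000000000) := T_10 (nat_lit 90) (nat_lit 157) (nat_lit 5) (nat_lit 5) (nat_lit 5) L59309 (by decide +kernel)
theorem L59317 : W_10 (nat_lit 6) (nat_lit 0x200000001300090000800000000000000000000000000) (nat_lit 0x0) (nat_lit 0x2000000008000000040007000380014000000000) := T_10 (nat_lit 90) (nat_lit 157) (nat_lit 5) (nat_lit 5) (nat_lit 5) L59305 (by decide +kernel)
theorem L59318 : W_10 (nat_lit 8) (nat_lit 0x200000001300090000000000000000000000000000000) (nat_lit 0x0) (nat_lit 0x400038001c003e0004c0008001c000c0007000380014000000000) := Q_10 (nat_lit 107) (C_10 L58579 (C_10 L59301 (C_10 L59310 (C_10 L59315 (C_10 L59316 (C_10 L59317 N_10)))))) (by decide +kernel)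
theorem L59319 : W_10 (nat_lit 2) (nat_lit 0x300009001780094000000000000000000000000000000) (nat_lit 0x0) (nat_lit 0x4000000000000800040000000000000000000000) := D_10 (nat_lit 107) (nat_lit 90) (nat_lit 158) (nat_lit 7) (nat_lit 5) (nat_lit 5) (nat_lit 7) (nat_lit 5) (nat_lit 6) (by decide +kernel)
theorem L59320 : W_10 (nat_lit 3) (nat_lit 0x200009001780094000000000000000000000000000000) (nat_lit 0x0) (nat_lit 0x2000100004000000000000800040000000000000000000000) := T_10 (nat_lit 176) (nat_lit 193) (nat_lit 4) (nat_lit 6) (nat_lit 11) L59319 (by decide +kernel)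
theorem L59321 : W_10 (nat_lit 4) (nat_lit 0x200001001780094000000000000000000000000000000) (nat_lit 0x0) (nat_lit 0x200010001c000000000000800040000000000000000000000) := T_10 (nat_lit 159) (nat_lit 160) (nat_lit 3) (nat_lit 3) (nat_lit 8) L59320 (by decide +kernel)
theorem L59322 : W_10 (nat_lit 5) (nat_lit 0x200000001780094000000000000000000000000000000) (nat_lit 0x0) (nat_lit 0x200010001d800000000000800040000000000000000000000) := T_10 (nat_lit 156) (nat_lit 155) (nat_lit 1) (nat_lit 6) (nat_lit 8) L59321 (by decide +kernel)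
theorem L59323 : W_10 (nat_lit 6) (nat_lit 0x200000001780090000000000000000000000000000000) (nat_lit 0x0) (nat_lit 0x200010001d800000006000800040000000000000000000000) := T_10 (nat_lit 122) (nat_lit 121) (nat_lit 0) (nat_lit 6) (nat_lit 8) L59322 (by decide +kernel)
theorem L59324 : W_10 (nat_lit 2) (nat_lit 0x240003001780090000000000000000000000000000000) (nat_lit 0x0) (nat_lit 0x6000200000000000000000000000000) := D_10 (nat_lit 122) (nat_lit 121) (nat_lit 105) (nat_lit 0) (nat_lit 6) (nat_lit 8) (nat_lit 7) (nat_lit 3) (nat_lit 6) (by decide +kernel)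
theorem L59325 : W_10 (nat_lit 3) (nat_lit 0x200003001780090000000000000000000000000000000) (nat_lit 0x0) (nat_lit 0x800040000000000006000200000000000000000000000000) := T_10 (nat_lit 174) (nat_lit 191) (nat_lit 6) (nat_lit 4) (nat_lit 11) L59324 (by decide +kernel)
theorem L59326 : W_10 (nat_lit 4) (nat_lit 0x200002001780090000000000000000000000000000000) (nat_lit 0x0) (nat_lit 0x800040001800000006000200000000000000000000000000) := T_10 (nat_lit 156) (nat_lit 155) (nat_lit 1) (nat_lit 6) (nat_lit 8) L59325 (by decide +kernel)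
theorem L59327 : W_10 (nat_lit 2) (nat_lit 0x240002001780090000000000000000000000000000000) (nat_lit 0x0) (nat_lit 0x4000000000000800040000000000000000000000) := D_10 (nat_lit 107) (nat_lit 90) (nat_lit 158) (nat_lit 5) (nat_lit 5) (nat_lit 5) (nat_lit 5) (nat_lit 5) (nat_lit 6) (by decide +kernel)
theorem L59328 : W_10 (nat_lit 3) (nat_lit 0x200002001780090000000000000000000000000000000) (nat_lit 0x0) (nat_lit 0x800040004000000000000800040000000000000000000000) := T_10 (nat_lit 174) (nat_lit 191) (nat_lit 6) (nat_lit 4) (nat_lit 11) L59327 (by decide +kernel)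
theorem L59329 : W_10 (nat_lit 8) (nat_lit 0x200000001780090000000000000000000000000000000) (nat_lit 0x0) (nat_lit 0x800040007800000066000f00058000000000000000000000) := Q_10 (nat_lit 157) (C_10 L59326 (C_10 L55064 (C_10 L56804 (C_10 L59328 N_10)))) (by decide +kernel)
theorem L59330 : W_10 (nat_lit 9) (nat_lit 0x200000001380090000000000000000000000000000000) (nat_lit 0x0) (nat_lit 0x680014001f800400066000f00058000000000000000000000) := Q_10 (nat_lit 142) (C_10 L59294 (C_10 L59323 (C_10 L59329 (C_10 L59259 N_10)))) (by decide +kernel)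
theorem L59331 : W_10 (nat_lit 2) (nat_lit 0x200002001380090000800000000000000000000000000) (nat_lit 0x0) (nat_lit 0x800040004000000000000000000000000000000000000000) := D_10 (nat_lit 174) (nat_lit 191) (nat_lit 158) (nat_lit 6) (nat_lit 4) (nat_lit 11) (nat_lit 5) (nat_lit 5) (nat_lit 6) (by decide +kernel)
theorem L59332 : W_10 (nat_lit 3) (nat_lit 0x200002001380090000000000000000000000000000000) (nat_lit 0x0) (nat_lit 0x800040004000000000000800040000000000000000000000) := T_10 (nat_lit 107) (nat_lit 90) (nat_lit 5) (nat_lit 5) (nat_lit 5) L59331 (by decide +kernel)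
theorem L59333 : W_10 (nat_lit 2) (nat_lit 0x200006001380090000000000000000000000000000000) (nat_lit 0x0) (nat_lit 0x18000040000000000000000000000000000000000) := D_10 (nat_lit 159) (nat_lit 160) (nat_lit 138) (nat_lit 0) (nat_lit 7) (nat_lit 9) (nat_lit 3) (nat_lit 2) (nat_lit 8) (by decide +kernel)
theorem L59334 : W_10 (nat_lit 2) (nat_lit 0x200006001380090000000000000000000000000000000) (nat_lit 0x0) (nat_lit 0x8000060000000000000000000000000000000000) := D_10 (nat_lit 138) (nat_lit 159) (nat_lit 137) (nat_lit 3) (nat_lit 2) (nat_lit 8) (nat_lit 3) (nat_lit 1) (nat_lit 8) (by decide +kernel)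
theorem L59335 : W_10 (nat_lit 5) (nat_lit 0x800200006001380090000000000000000000000000000000) (nat_lit 0x0) (nat_lit 0x1c00460007000000000000000000000000000000) := T_10 (nat_lit 138) (nat_lit 137) (nat_lit 3) (nat_lit 1) (nat_lit 8) L56796 (by decide +kernel)
theorem L59336 : W_10 (nat_lit 6) (nat_lit 0x200006001380090000000000000000000000000000000) (nat_lit 0x0) (nat_lit 0x800040001c00460007000000000000000000000000000000) := T_10 (nat_lit 191) (nat_lit 174) (nat_lit 6) (nat_lit 4) (nat_lit 11) L59335 (by decide +kernel)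
theorem L59337 : W_10 (nat_lit 2) (nat_lit 0x80020000f001380090000000000000000000000000000000) (nat_lit 0x0) (nat_lit 0xc00400000000000000000000000000000000000) := D_10 (nat_lit 155) (nat_lit 142) (nat_lit 154) (nat_lit 2) (nat_lit 2) (nat_lit 9) (nat_lit 2) (nat_lit 1) (nat_lit 9) (by decide +kernel)
theorem L59338 : W_10 (nat_lit 3) (nat_lit 0x80020000e001380090000000000000000000000000000000) (nat_lit 0x0) (nat_lit 0x100001c00400000000000000000000000000000000000) := T_10 (nat_lit 156) (nat_lit 176) (nat_lit 3) (nat_lit 3) (nat_lit 9) L59337 (by decide +kernel)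
theorem L59339 : W_10 (nat_lit 4) (nat_lit 0x20000e001380090000000000000000000000000000000) (nat_lit 0x0) (nat_lit 0x800140001c00400000000000000000000000000000000000) := T_10 (nat_lit 191) (nat_lit 174) (nat_lit 6) (nat_lit 4) (nat_lit 11) L59338 (by decide +kernel)
theorem L59340 : W_10 (nat_lit 5) (nat_lit 0x200006001380090000000000000000000000000000000) (nat_lit 0x0) (nat_lit 0x800140019c00400000000000000000000000000000000000) := T_10 (nat_lit 159) (nat_lit 160) (nat_lit 0) (nat_lit 7) (nat_lit 9) L59339 (by decide +kernel)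
theorem L59341 : W_10 (nat_lit 7) (nat_lit 0x200002001380090000000000000000000000000000000) (nat_lit 0x0) (nat_lit 0x80014001dc00460007000000000000000000000000000000) := Q_10 (nat_lit 158) (C_10 L59333 (C_10 L59334 (C_10 L59336 (C_10 L59340 N_10)))) (by decide +kernel)
theorem L59342 : W_10 (nat_lit 3) (nat_lit 0x2000020013c0090000000040000000000000000000000) (nat_lit 0x0) (nat_lit 0x4e00020000000000000000000000000000000000) := T_10 (nat_lit 137) (nat_lit 158) (nat_lit 3) (nat_lit 1) (nat_lit 8) L56806 (by decide +kernel)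
theorem L59343 : W_10 (nat_lit 4) (nat_lit 0x2000020013c0090000000000000000000000000000000) (nat_lit 0x0) (nat_lit 0x4e00020000000800040000000000000000000000) := T_10 (nat_lit 90) (nat_lit 107) (nat_lit 5) (nat_lit 5) (nat_lit 5) L59342 (by decide +kernel)
theorem L59344 : W_10 (nat_lit 2) (nat_lit 0x2000028017c0090000000040000000000000000000000) (nat_lit 0x0) (nat_lit 0x7000000000000000000000000000000) := D_10 (nat_lit 121) (nat_lit 122) (nat_lit 120) (nat_lit 0) (nat_lit 6) (nat_lit 8) (nat_lit 0) (nat_lit 5) (nat_lit 8) (by decide +kernel)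
theorem L59345 : W_10 (nat_lit 3) (nat_lit 0x2000028013c0090000000040000000000000000000000) (nat_lit 0x0) (nat_lit 0x1000400007000000000000000000000000000000) := T_10 (nat_lit 142) (nat_lit 156) (nat_lit 1) (nat_lit 6) (nat_lit 8) L59344 (by decide +kernel)
theorem L59346 : W_10 (nat_lit 4) (nat_lit 0x2000028013c0090000000000000000000000000000000) (nat_lit 0x0) (nat_lit 0x1000400007000800040000000000000000000000) := T_10 (nat_lit 90) (nat_lit 107) (nat_lit 5) (nat_lit 5) (nat_lit 5) L59345 (by decide +kernel)
theorem L59347 : W_10 (nat_lit 5) (nat_lit 0x2000020013c0090000000000000000000000000000000) (nat_lit 0x0) (nat_lit 0x1c00400007000800040000000000000000000000) := T_10 (nat_lit 155) (nat_lit 154) (nat_lit 1) (nat_lit 5) (nat_lit 8) L59346 (by decide +kernel)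
theorem L59348 : W_10 (nat_lit 7) (nat_lit 0x200002001380090000000000000000000000000000000) (nat_lit 0x0) (nat_lit 0xde00460007000800040000000000000000000000) := Q_10 (nat_lit 138) (C_10 L56790 (C_10 L56813 (C_10 L59343 (C_10 L59347 N_10)))) (by decide +kernel)
theorem L59349 : W_10 (nat_lit 3) (nat_lit 0x200002001380094000000000000000000000000000000) (nat_lit 0x0) (nat_lit 0x440003800000000000000000000000000000) := T_10 (nat_lit 121) (nat_lit 142) (nat_lit 0) (nat_lit 6) (nat_lit 8) L58739 (by decide +kernel)
theorem L59350 : W_10 (nat_lit 5) (nat_lit 0x200002001380090000000000000000000000000000000) (nat_lit 0x0) (nat_lit 0x800040001800440007800a00050000000000000000000000) := Q_10 (nat_lit 122) (C_10 L56203 (C_10 L56782 (C_10 L59349 N_10))) (by decide +kernel)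
theorem L59351 : W_10 (nat_lit 8) (nat_lit 0x200000001380090000000000000000000000000000000) (nat_lit 0x0) (nat_lit 0x80014001fe00460007800a00050000000000000000000000) := Q_10 (nat_lit 157) (C_10 L59332 (C_10 L59341 (C_10 L59348 (C_10 L59350 N_10)))) (by decide +kernel)
theorem L59352 : W_10 (nat_lit 10) (nat_lit 0x200000001300090000000000000000000000000000000) (nat_lit 0x0) (nat_lit 0x680014001fe004e0067800f00058000000000000000000000) := Q_10 (nat_lit 139) (C_10 L56196 (C_10 L59330 (C_10 L59351 N_10))) (by decide +kernel)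
theorem L59353 : W_10 (nat_lit 2) (nat_lit 0x2800040013800b0000000000000000000000000000000) (nat_lit 0x0) (nat_lit 0x1000000000000000008000400000000000000000000000000) := D_10 (nat_lit 123) (nat_lit 106) (nat_lit 192) (nat_lit 4) (nat_lit 5) (nat_lit 10) (nat_lit 4) (nat_lit 5) (nat_lit 11) (by decide +kernel)
theorem L59354 : W_10 (nat_lit 3) (nat_lit 0x2000040013800b0000000000000000000000000000000) (nat_lit 0x0) (nat_lit 0x1000080000000000008001400000000000000000000000000) := T_10 (nat_lit 175) (nat_lit 108) (nat_lit 6) (nat_lit 5) (nat_lit 10) L59353 (by decide +kernel)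
theorem L59355 : W_10 (nat_lit 4) (nat_lit 0x200004001380090000000000000000000000000000000) (nat_lit 0x0) (nat_lit 0x1000080000000000068001400000000000000000000000000) := T_10 (nat_lit 125) (nat_lit 126) (nat_lit 1) (nat_lit 8) (nat_lit 7) L59354 (by decide +kernel)
theorem L59356 : W_10 (nat_lit 2) (nat_lit 0x280004001380090000000000000000000000000000000) (nat_lit 0x0) (nat_lit 0x1000000000000000008000400000000000000000000000000) := D_10 (nat_lit 123) (nat_lit 106) (nat_lit 192) (nat_lit 4) (nat_lit 5) (nat_lit 10) (nat_lit 4) (nat_lit 5) (nat_lit 11) (by decide +kernel)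
theorem L59357 : W_10 (nat_lit 2) (nat_lit 0x38000c001380090000000000000000000000000000000) (nat_lit 0x0) (nat_lit 0x30000400000000000000000000000000000000000) := D_10 (nat_lit 160) (nat_lit 142) (nat_lit 161) (nat_lit 3) (nat_lit 3) (nat_lit 8) (nat_lit 0) (nat_lit 8) (nat_lit 9) (by decide +kernel)
theorem L59358 : W_10 (nat_lit 3) (nat_lit 0x380004001380090000000000000000000000000000000) (nat_lit 0x0) (nat_lit 0x38000400000000800000000000000000000000000) := T_10 (nat_lit 159) (nat_lit 107) (nat_lit 7) (nat_lit 5) (nat_lit 6) L59357 (by decide +kernel)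
theorem L59359 : W_10 (nat_lit 4) (nat_lit 0x280004001380090000000000000000000000000000000) (nat_lit 0x0) (nat_lit 0x2000100038000400000000800000000000000000000000000) := T_10 (nat_lit 176) (nat_lit 193) (nat_lit 7) (nat_lit 5) (nat_lit 7) L59358 (by decide +kernel)
theorem L59360 : W_10 (nat_lit 8) (nat_lit 0x200004001380090000000000000000000000000000000) (nat_lit 0x0) (nat_lit 0x38001c0038000400008001c000c0006000000000000000000) := Q_10 (nat_lit 175) (C_10 L56139 (C_10 L59356 (C_10 L59359 N_10))) (by decide +kernel)
theorem L59361 : W_10 (nat_lit 2) (nat_lit 0x3c000c0013800b0000000000000000000000000000000) (nat_lit 0x0) (nat_lit 0xc000000000000400000000000000000000000000000000000) := D_10 (nat_lit 194) (nat_lit 195) (nat_lit 142) (nat_lit 3) (nat_lit 4) (nat_lit 10) (nat_lit 7) (nat_lit 6) (nat_lit 7) (by decide +kernel)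
theorem L59362 : W_10 (nat_lit 3) (nat_lit 0x3c00040013800b0000000000000000000000000000000) (nat_lit 0x0) (nat_lit 0xc000000008000400000000800000000000000000000000000) := T_10 (nat_lit 159) (nat_lit 107) (nat_lit 7) (nat_lit 5) (nat_lit 6) L59361 (by decide +kernel)
theorem L59363 : W_10 (nat_lit 4) (nat_lit 0x2c00040013800b0000000000000000000000000000000) (nat_lit 0x0) (nat_lit 0xe000100008000400000000800000000000000000000000000) := T_10 (nat_lit 176) (nat_lit 193) (nat_lit 7) (nat_lit 5) (nat_lit 7) L59362 (by decide +kernel)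
theorem L59364 : W_10 (nat_lit 5) (nat_lit 0x2800040013800b0000000000000000000000000000000) (nat_lit 0x0) (nat_lit 0xe800140008000400000000800000000000000000000000000) := T_10 (nat_lit 174) (nat_lit 191) (nat_lit 5) (nat_lit 5) (nat_lit 7) L59363 (by decide +kernel)
theorem L59365 : W_10 (nat_lit 6) (nat_lit 0x2000040013800b0000000000000000000000000000000) (nat_lit 0x0) (nat_lit 0xe8001c0008000400000001800000000000000000000000000) := T_10 (nat_lit 175) (nat_lit 108) (nat_lit 6) (nat_lit 5) (nat_lit 10) L59364 (by decide +kernel)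
theorem L59366 : W_10 (nat_lit 7) (nat_lit 0x200004001380090000000000000000000000000000000) (nat_lit 0x0) (nat_lit 0xe8001c0008000400060001800000000000000000000000000) := T_10 (nat_lit 125) (nat_lit 126) (nat_lit 1) (nat_lit 8) (nat_lit 7) L59365 (by decide +kernel)
theorem L59367 : W_10 (nat_lit 2) (nat_lit 0x20000c0017800d0000000000000000000000000000000) (nat_lit 0x0) (nat_lit 0x2000100000000000000000800000000000000000000000000) := D_10 (nat_lit 176) (nat_lit 107) (nat_lit 193) (nat_lit 7) (nat_lit 5) (nat_lit 6) (nat_lit 4) (nat_lit 6) (nat_lit 11) (by decide +kernel)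
theorem L59368 : W_10 (nat_lit 3) (nat_lit 0x2000040017800d0000000000000000000000000000000) (nat_lit 0x0) (nat_lit 0x2000100018000000000000800000000000000000000000000) := T_10 (nat_lit 159) (nat_lit 160) (nat_lit 3) (nat_lit 3) (nat_lit 8) L59367 (by decide +kernel)
theorem L59369 : W_10 (nat_lit 4) (nat_lit 0x200004001780090000000000000000000000000000000) (nat_lit 0x0) (nat_lit 0x2000100018000000060000800000000000000000000000000) := T_10 (nat_lit 126) (nat_lit 125) (nat_lit 2) (nat_lit 3) (nat_lit 8) L59368 (by decide +kernel)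
theorem L59370 : W_10 (nat_lit 2) (nat_lit 0x20000c001780090000000000000000000000000000000) (nat_lit 0x0) (nat_lit 0x100000000000000000800040000000000000000000000) := D_10 (nat_lit 107) (nat_lit 176) (nat_lit 90) (nat_lit 7) (nat_lit 5) (nat_lit 6) (nat_lit 7) (nat_lit 5) (nat_lit 5) (by decide +kernel)
theorem L59371 : W_10 (nat_lit 3) (nat_lit 0x200004001780090000000000000000000000000000000) (nat_lit 0x0) (nat_lit 0x100018000000000000800040000000000000000000000) := T_10 (nat_lit 159) (nat_lit 160) (nat_lit 3) (nat_lit 3) (nat_lit 8) L59370 (by decide +kernel)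
theorem L59372 : W_10 (nat_lit 2) (nat_lit 0x2000050017800bc001000000000000000000000000000) (nat_lit 0x0) (nat_lit 0x400020000000000000000400000000000000000000000000) := D_10 (nat_lit 173) (nat_lit 106) (nat_lit 190) (nat_lit 6) (nat_lit 3) (nat_lit 10) (nat_lit 6) (nat_lit 3) (nat_lit 11) (by decide +kernel)
theorem L59373 : W_10 (nat_lit 3) (nat_lit 0x2000050017800b4001000000000000000000000000000) (nat_lit 0x0) (nat_lit 0x400020000000000008002400000000000000000000000000) := T_10 (nat_lit 123) (nat_lit 109) (nat_lit 2) (nat_lit 3) (nat_lit 7) L59372 (by decide +kernel)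
theorem L59374 : W_10 (nat_lit 4) (nat_lit 0x2000050017800b0001000000000000000000000000000) (nat_lit 0x0) (nat_lit 0x40002000000000000e002400000000000000000000000000) := T_10 (nat_lit 122) (nat_lit 121) (nat_lit 0) (nat_lit 6) (nat_lit 8) L59373 (by decide +kernel)
theorem L59375 : W_10 (nat_lit 5) (nat_lit 0x2000040017800b0001000000000000000000000000000) (nat_lit 0x0) (nat_lit 0x40002000180000000e002400000000000000000000000000) := T_10 (nat_lit 156) (nat_lit 155) (nat_lit 1) (nat_lit 6) (nat_lit 8) L59374 (by decide +kernel)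
theorem L59376 : W_10 (nat_lit 6) (nat_lit 0x2000040017800b0000000000000000000000000000000) (nat_lit 0x0) (nat_lit 0x40002000180000000e003400080000000000000000000000) := T_10 (nat_lit 108) (nat_lit 91) (nat_lit 5) (nat_lit 6) (nat_lit 5) L59375 (by decide +kernel)
theorem L59377 : W_10 (nat_lit 7) (nat_lit 0x200004001780090000000000000000000000000000000) (nat_lit 0x0) (nat_lit 0x40002000180000006e003400080000000000000000000000) := T_10 (nat_lit 125) (nat_lit 126) (nat_lit 2) (nat_lit 3) (nat_lit 8) L59376 (by decide +kernel)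
theorem L59378 : W_10 (nat_lit 8) (nat_lit 0x200004001380090000000000000000000000000000000) (nat_lit 0x0) (nat_lit 0x240012001980040006e003c000c0000000000000000000000) := Q_10 (nat_lit 142) (C_10 L59369 (C_10 L59371 (C_10 L59377 N_10))) (by decide +kernel)
theorem L59379 : W_10 (nat_lit 5) (nat_lit 0x200004001380090000000000000000000000000000000) (nat_lit 0x0) (nat_lit 0x3000180038000400008000c00000000000000000000000000) := Q_10 (nat_lit 175) (C_10 L59356 (C_10 L59359 N_10)) (by decide +kernel)
theorem L59380 : W_10 (nat_lit 9) (nat_lit 0x200000001380090000000000000000000000000000000) (nat_lit 0x0) (nat_lit 0xfc001e003d80040006e003c000c0006000000000000000000) := Q_10 (nat_lit 158) (C_10 L59355 (C_10 L59360 (C_10 L59366 (C_10 L59378 (C_10 L59379 N_10))))) (by decide +kernel)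
theorem L59381 : W_10 (nat_lit 10) (nat_lit 0x200000001300090000000000000000000000000000000) (nat_lit 0x0) (nat_lit 0xfe001f003de004e006f803f000c0006000000000000000000) := Q_10 (nat_lit 139) (C_10 L56197 (C_10 L59380 (C_10 L56196 N_10))) (by decide +kernel)
theorem L59382 : W_10 (nat_lit 2) (nat_lit 0x30000b001780094000000000000000000000000000000) (nat_lit 0x0) (nat_lit 0x8000c0000000000000000000000000000000000000000000) := D_10 (nat_lit 174) (nat_lit 175) (nat_lit 191) (nat_lit 0) (nat_lit 7) (nat_lit 10) (nat_lit 6) (nat_lit 4) (nat_lit 11) (by decide +kernel)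
theorem L59383 : W_10 (nat_lit 3) (nat_lit 0x300009001780094000000000000000000000000000000) (nat_lit 0x0) (nat_lit 0x8000c0006000000000000000000000000000000000000000) := T_10 (nat_lit 157) (nat_lit 158) (nat_lit 3) (nat_lit 3) (nat_lit 9) L59382 (by decide +kernel)
theorem L59384 : W_10 (nat_lit 4) (nat_lit 0x200009001780094000000000000000000000000000000) (nat_lit 0x0) (nat_lit 0x28001c0006000000000000000000000000000000000000000) := T_10 (nat_lit 176) (nat_lit 193) (nat_lit 4) (nat_lit 6) (nat_lit 11) L59383 (by decide +kernel)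
theorem L59385 : W_10 (nat_lit 5) (nat_lit 0x200001001780094000000000000000000000000000000) (nat_lit 0x0) (nat_lit 0x28001c001e000000000000000000000000000000000000000) := T_10 (nat_lit 159) (nat_lit 160) (nat_lit 3) (nat_lit 3) (nat_lit 8) L59384 (by decide +kernel)
theorem L59386 : W_10 (nat_lit 6) (nat_lit 0x200000001780094000000000000000000000000000000) (nat_lit 0x0) (nat_lit 0x28001c001f800000000000000000000000000000000000000) := T_10 (nat_lit 156) (nat_lit 155) (nat_lit 1) (nat_lit 6) (nat_lit 8) L59385 (by decide +kernel)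
theorem L59387 : W_10 (nat_lit 7) (nat_lit 0x200000001780090000000000000000000000000000000) (nat_lit 0x0) (nat_lit 0x28001c001f800000006000000000000000000000000000000) := T_10 (nat_lit 122) (nat_lit 121) (nat_lit 0) (nat_lit 6) (nat_lit 8) L59386 (by decide +kernel)
theorem L59388 : W_10 (nat_lit 2) (nat_lit 0x2600030017800d8000000000000000000000000000000) (nat_lit 0x0) (nat_lit 0x1000180000000000000000000000000000000000000000000) := D_10 (nat_lit 175) (nat_lit 192) (nat_lit 176) (nat_lit 7) (nat_lit 4) (nat_lit 7) (nat_lit 0) (nat_lit 7) (nat_lit 10) (by decide +kernel)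
theorem L59389 : W_10 (nat_lit 3) (nat_lit 0x2200030017800d8000000000000000000000000000000) (nat_lit 0x0) (nat_lit 0x18001c0000000000000000000000000000000000000000000) := T_10 (nat_lit 174) (nat_lit 191) (nat_lit 6) (nat_lit 4) (nat_lit 11) L59388 (by decide +kernel)
theorem L59390 : W_10 (nat_lit 4) (nat_lit 0x2200010017800d8000000000000000000000000000000) (nat_lit 0x0) (nat_lit 0x18001c0002000000000000400000000000000000000000000) := T_10 (nat_lit 157) (nat_lit 106) (nat_lit 5) (nat_lit 4) (nat_lit 6) L59389 (by decide +kernel)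
theorem L59391 : W_10 (nat_lit 5) (nat_lit 0x2000010017800d8000000000000000000000000000000) (nat_lit 0x0) (nat_lit 0x1c001e0002000000000000400000000000000000000000000) := T_10 (nat_lit 173) (nat_lit 190) (nat_lit 6) (nat_lit 3) (nat_lit 11) L59390 (by decide +kernel)
theorem L59392 : W_10 (nat_lit 6) (nat_lit 0x2000000017800d8000000000000000000000000000000) (nat_lit 0x0) (nat_lit 0x1c001e0003800000000000400000000000000000000000000) := T_10 (nat_lit 156) (nat_lit 155) (nat_lit 1) (nat_lit 6) (nat_lit 8) L59391 (by decide +kernel)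
theorem L59393 : W_10 (nat_lit 7) (nat_lit 0x200000001780098000000000000000000000000000000) (nat_lit 0x0) (nat_lit 0x1c001e0003800000060000400000000000000000000000000) := T_10 (nat_lit 126) (nat_lit 125) (nat_lit 2) (nat_lit 3) (nat_lit 8) L59392 (by decide +kernel)
theorem L59394 : W_10 (nat_lit 8) (nat_lit 0x200000001780090000000000000000000000000000000) (nat_lit 0x0) (nat_lit 0x1c001e000380000006e003700010000000000000000000000) := Q_10 (nat_lit 123) (C_10 L59284 (C_10 L59279 (C_10 L59393 N_10))) (by decide +kernel)
theorem L59395 : W_10 (nat_lit 2) (nat_lit 0x2f800b0017800d8000000000000000000000000000000) (nat_lit 0x0) (nat_lit 0x380000000000000000000000000000000000000000000000) := D_10 (nat_lit 188) (nat_lit 189) (nat_lit 187) (nat_lit 1) (nat_lit 5) (nat_lit 10) (nat_lit 1) (nat_lit 4) (nat_lit 10) (by decide +kernel)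
theorem L59396 : W_10 (nat_lit 3) (nat_lit 0x27800b0017800d8000000000000000000000000000000) (nat_lit 0x0) (nat_lit 0x1380080000000000000000000000000000000000000000000) := T_10 (nat_lit 175) (nat_lit 192) (nat_lit 7) (nat_lit 4) (nat_lit 7) L59395 (by decide +kernel)
theorem L59397 : W_10 (nat_lit 4) (nat_lit 0x27000b0017800d8000000000000000000000000000000) (nat_lit 0x0) (nat_lit 0x138008c000000000000000000000000000000000000000000) := T_10 (nat_lit 171) (nat_lit 170) (nat_lit 2) (nat_lit 0) (nat_lit 10) L59396 (by decide +kernel)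
theorem L59398 : W_10 (nat_lit 5) (nat_lit 0x23000b0017800d8000000000000000000000000000000) (nat_lit 0x0) (nat_lit 0x1b800cc000000000000000000000000000000000000000000) := T_10 (nat_lit 174) (nat_lit 191) (nat_lit 6) (nat_lit 4) (nat_lit 11) L59397 (by decide +kernel)
theorem L59399 : W_10 (nat_lit 6) (nat_lit 0x22000b0017800d8000000000000000000000000000000) (nat_lit 0x0) (nat_lit 0x1b800dc004000000000000000000000000000000000000000) := T_10 (nat_lit 172) (nat_lit 158) (nat_lit 1) (nat_lit 6) (nat_lit 9) L59398 (by decide +kernel)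
theorem L59400 : W_10 (nat_lit 7) (nat_lit 0x2200090017800d8000000000000000000000000000000) (nat_lit 0x0) (nat_lit 0x1b800dc006000000000000400000000000000000000000000) := T_10 (nat_lit 157) (nat_lit 106) (nat_lit 5) (nat_lit 4) (nat_lit 6) L59399 (by decide +kernel)
theorem L59401 : W_10 (nat_lit 8) (nat_lit 0x2200010017800d8000000000000000000000000000000) (nat_lit 0x0) (nat_lit 0x1b800dc01e000000000000400000000000000000000000000) := T_10 (nat_lit 159) (nat_lit 160) (nat_lit 3) (nat_lit 3) (nat_lit 8) L59400 (by decide +kernel)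
theorem L59402 : W_10 (nat_lit 9) (nat_lit 0x2000010017800d8000000000000000000000000000000) (nat_lit 0x0) (nat_lit 0x1f800fc01e000000000000400000000000000000000000000) := T_10 (nat_lit 173) (nat_lit 190) (nat_lit 6) (nat_lit 3) (nat_lit 11) L59401 (by decide +kernel)
theorem L59403 : W_10 (nat_lit 10) (nat_lit 0x200001001780098000000000000000000000000000000) (nat_lit 0x0) (nat_lit 0x1f800fc01e000000060000400000000000000000000000000) := T_10 (nat_lit 126) (nat_lit 125) (nat_lit 2) (nat_lit 3) (nat_lit 8) L59402 (by decide +kernel)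
theorem L59404 : W_10 (nat_lit 11) (nat_lit 0x200000001780098000000000000000000000000000000) (nat_lit 0x0) (nat_lit 0x1f800fc01f800000060000400000000000000000000000000) := T_10 (nat_lit 156) (nat_lit 155) (nat_lit 1) (nat_lit 6) (nat_lit 8) L59403 (by decide +kernel)
theorem L59405 : W_10 (nat_lit 12) (nat_lit 0x200000001780090000000000000000000000000000000) (nat_lit 0x0) (nat_lit 0x1f800fc01f80000006e003700010000000000000000000000) := Q_10 (nat_lit 123) (C_10 L59284 (C_10 L59279 (C_10 L59404 N_10))) (by decide +kernel)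
theorem L59406 : W_10 (nat_lit 2) (nat_lit 0x300008001780094000000000000000000000000000000) (nat_lit 0x0) (nat_lit 0x4000000000000000060000000000000000000000000000000) := D_10 (nat_lit 125) (nat_lit 126) (nat_lit 194) (nat_lit 2) (nat_lit 3) (nat_lit 8) (nat_lit 7) (nat_lit 6) (nat_lit 7) (by decide +kernel)
theorem L59407 : W_10 (nat_lit 3) (nat_lit 0x200008001780094000000000000000000000000000000) (nat_lit 0x0) (nat_lit 0x6000100000000000060000000000000000000000000000000) := T_10 (nat_lit 176) (nat_lit 193) (nat_lit 4) (nat_lit 6) (nat_lit 11) L59406 (by decide +kernel)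
theorem L59408 : W_10 (nat_lit 4) (nat_lit 0x200008001780090000000000000000000000000000000) (nat_lit 0x0) (nat_lit 0x6000100000000000066000000000000000000000000000000) := T_10 (nat_lit 122) (nat_lit 121) (nat_lit 0) (nat_lit 6) (nat_lit 8) L59407 (by decide +kernel)
theorem L59409 : W_10 (nat_lit 5) (nat_lit 0x200000001780090000000000000000000000000000000) (nat_lit 0x0) (nat_lit 0x6000100018000000066000000000000000000000000000000) := T_10 (nat_lit 159) (nat_lit 160) (nat_lit 3) (nat_lit 3) (nat_lit 8) L59408 (by decide +kernel)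
theorem L59410 : W_10 (nat_lit 13) (nat_lit 0x200000001380090000000000000000000000000000000) (nat_lit 0x0) (nat_lit 0x7f801fc01f80040006e003700010000000000000000000000) := Q_10 (nat_lit 142) (C_10 L59294 (C_10 L59387 (C_10 L59394 (C_10 L59405 (C_10 L59409 N_10))))) (by decide +kernel)
theorem L59411 : W_10 (nat_lit 14) (nat_lit 0x200000001300090000000000000000000000000000000) (nat_lit 0x0) (nat_lit 0x7f801fc01fe004e006f803700010000000000000000000000) := Q_10 (nat_lit 139) (C_10 L56197 (C_10 L59410 (C_10 L56196 N_10))) (by decide +kernel)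
theorem L59412 : W_10 (nat_lit 2) (nat_lit 0x2000000013800d0000800040002000000000000000000) (nat_lit 0x0) (nat_lit 0x80004000200000000000000) := D_10 (nat_lit 74) (nat_lit 91) (nat_lit 57) (nat_lit 6) (nat_lit 5) (nat_lit 8) (nat_lit 6) (nat_lit 5) (nat_lit 7) (by decide +kernel)
theorem L59413 : W_10 (nat_lit 3) (nat_lit 0x2000000013800d0000800040000000000000000000000) (nat_lit 0x0) (nat_lit 0x8000000080006000200000000000000) := T_10 (nat_lit 73) (nat_lit 123) (nat_lit 5) (nat_lit 5) (nat_lit 4) L59412 (by decide +kernel)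
theorem L59414 : W_10 (nat_lit 4) (nat_lit 0x2000000013800d0000800000000000000000000000000) (nat_lit 0x0) (nat_lit 0x20000000080000000c0006000200000000000000) := T_10 (nat_lit 90) (nat_lit 157) (nat_lit 5) (nat_lit 5) (nat_lit 5) L59413 (by decide +kernel)
theorem L59415 : W_10 (nat_lit 5) (nat_lit 0x200000001380090000800000000000000000000000000) (nat_lit 0x0) (nat_lit 0x20000000680000000c0006000200000000000000) := T_10 (nat_lit 126) (nat_lit 125) (nat_lit 1) (nat_lit 8) (nat_lit 7) L59414 (by decide +kernel)
theorem L59416 : W_10 (nat_lit 4) (nat_lit 0x200000001380090000800000000000000000000000000) (nat_lit 0x0) (nat_lit 0x20000000080000000c0006000200000000000000) := T_10 (nat_lit 90) (nat_lit 157) (nat_lit 5) (nat_lit 5) (nat_lit 5) L56477 (by decide +kernel)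
theorem L59417 : W_10 (nat_lit 10) (nat_lit 0x200000001380090000800000000000000000000000000) (nat_lit 0x0) (nat_lit 0xf8004000660037001c0004000000000000000000) := T_10 (nat_lit 90) (nat_lit 157) (nat_lit 5) (nat_lit 5) (nat_lit 5) L56419 (by decide +kernel)
theorem L59418 : W_10 (nat_lit 3) (nat_lit 0x200004001380090000800000000000000000000000000) (nat_lit 0x0) (nat_lit 0x100038000400000000000000000000000000000000000) := T_10 (nat_lit 159) (nat_lit 176) (nat_lit 7) (nat_lit 5) (nat_lit 6) L31913 (by decide +kernel)
theorem L59419 : W_10 (nat_lit 4) (nat_lit 0x200000001380090000800000000000000000000000000) (nat_lit 0x0) (nat_lit 0x18003c000400060001000080000000000000000000000) := Q_10 (nat_lit 158) (C_10 L56448 (C_10 L59418 N_10)) (by decide +kernel)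
theorem L59420 : W_10 (nat_lit 2) (nat_lit 0x2000000013800d0000800040002000280000000000000) (nat_lit 0x0) (nat_lit 0x100014000000000) := D_10 (nat_lit 56) (nat_lit 38) (nat_lit 40) (nat_lit 4) (nat_lit 5) (nat_lit 6) (nat_lit 6) (nat_lit 5) (nat_lit 6) (by decide +kernel)
theorem L59421 : W_10 (nat_lit 3) (nat_lit 0x2000000013800d0000800040002000080000000000000) (nat_lit 0x0) (nat_lit 0x4000300014000000000) := T_10 (nat_lit 57) (nat_lit 74) (nat_lit 6) (nat_lit 5) (nat_lit 7) L59420 (by decide +kernel)
theorem L59422 : W_10 (nat_lit 4) (nat_lit 0x2000000013800d0000800040002000000000000000000) (nat_lit 0x0) (nat_lit 0x5000380014000000000) := T_10 (nat_lit 55) (nat_lit 72) (nat_lit 4) (nat_lit 5) (nat_lit 7) L59421 (by decide +kernel)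
theorem L59423 : W_10 (nat_lit 5) (nat_lit 0x2000000013800d0000800040000000000000000000000) (nat_lit 0x0) (nat_lit 0x8000000000007000380014000000000) := T_10 (nat_lit 73) (nat_lit 123) (nat_lit 5) (nat_lit 5) (nat_lit 4) L59422 (by decide +kernel)
theorem L59424 : W_10 (nat_lit 6) (nat_lit 0x2000000013800d0000800000000000000000000000000) (nat_lit 0x0) (nat_lit 0x2000000008000000040007000380014000000000) := T_10 (nat_lit 90) (nat_lit 157) (nat_lit 5) (nat_lit 5) (nat_lit 5) L59423 (by decide +kernel)
theorem L59425 : W_10 (nat_lit 7) (nat_lit 0x200000001380090000800000000000000000000000000) (nat_lit 0x0) (nat_lit 0x2000000068000000040007000380014000000000) := T_10 (nat_lit 126) (nat_lit 125) (nat_lit 1) (nat_lit 8) (nat_lit 7) L59424 (by decide +kernel)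
theorem L59426 : W_10 (nat_lit 11) (nat_lit 0x200000001380090000000000000000000000000000000) (nat_lit 0x0) (nat_lit 0x100018003f80040006e003f001c0007000380014000000000) := Q_10 (nat_lit 107) (C_10 L59415 (C_10 L59416 (C_10 L59417 (C_10 L56478 (C_10 L59419 (C_10 L59425 N_10)))))) (by decide +kernel)
theorem L59427 : W_10 (nat_lit 12) (nat_lit 0x200000001300090000000000000000000000000000000) (nat_lit 0x0) (nat_lit 0x16001b003fe004e006f803f001c0007000380014000000000) := Q_10 (nat_lit 139) (C_10 L59426 (C_10 L56197 (C_10 L56196 N_10))) (by decide +kernel)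
theorem L59428 : W_10 (nat_lit 15) (nat_lit 0x200000001300080000000000000000000000000000000) (nat_lit 0x0) (nat_lit 0x6000ff801fc03fe004e007f803f001d8007c00380014000000000) := Q_10 (nat_lit 124) (C_10 L59296 (C_10 L59297 (C_10 L59318 (C_10 L58909 (C_10 L59352 (C_10 L59381 (C_10 L59411 (C_10 L58443 (C_10 L59427 N_10))))))))) (by decide +kernel)
theorem L59429 : W_10 (nat_lit 6) (nat_lit 0x200000001380090000000000000000000000000000000) (nat_lit 0x0) (nat_lit 0x200010000e0046000f800200000000000000000000000000) := Q_10 (nat_lit 138) (C_10 L55723 (C_10 L55572 (C_10 L55477 N_10))) (by decide +kernel)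
theorem L59430 : W_10 (nat_lit 2) (nat_lit 0x2000080017800b4000000000000000000000000000000) (nat_lit 0x0) (nat_lit 0x2000100000000000000000800000000000000000000000000) := D_10 (nat_lit 176) (nat_lit 107) (nat_lit 193) (nat_lit 4) (nat_lit 6) (nat_lit 10) (nat_lit 4) (nat_lit 6) (nat_lit 11) (by decide +kernel)
theorem L59431 : W_10 (nat_lit 3) (nat_lit 0x2000000017800b4000000000000000000000000000000) (nat_lit 0x0) (nat_lit 0x2000100018000000000000800000000000000000000000000) := T_10 (nat_lit 159) (nat_lit 160) (nat_lit 3) (nat_lit 3) (nat_lit 8) L59430 (by decide +kernel)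
theorem L59432 : W_10 (nat_lit 4) (nat_lit 0x2000000013800b4000000000000000000000000000000) (nat_lit 0x0) (nat_lit 0x2000100018000400002000800000000000000000000000000) := T_10 (nat_lit 142) (nat_lit 121) (nat_lit 0) (nat_lit 6) (nat_lit 8) L59431 (by decide +kernel)
theorem L59433 : W_10 (nat_lit 5) (nat_lit 0x200000001380094000000000000000000000000000000) (nat_lit 0x0) (nat_lit 0x2000100018000400062000800000000000000000000000000) := T_10 (nat_lit 125) (nat_lit 126) (nat_lit 1) (nat_lit 8) (nat_lit 7) L59432 (by decide +kernel)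
theorem L59434 : W_10 (nat_lit 10) (nat_lit 0x200000001380094000000000000000000000000000000) (nat_lit 0x0) (nat_lit 0x4000200000006b003f000f8007c00000000000000000) := Q_10 (nat_lit 123) (C_10 L58629 (C_10 L58520 (C_10 L58527 N_10))) (by decide +kernel)
theorem L59435 : W_10 (nat_lit 2) (nat_lit 0x200000001380094000200010001400000000000000000) (nat_lit 0x0) (nat_lit 0x8000a0000000000000) := D_10 (nat_lit 71) (nat_lit 55) (nat_lit 53) (nat_lit 6) (nat_lit 3) (nat_lit 7) (nat_lit 4) (nat_lit 3) (nat_lit 7) (by decide +kernel)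
theorem L59436 : W_10 (nat_lit 3) (nat_lit 0x200000001380094000200010001000000000000000000) (nat_lit 0x0) (nat_lit 0x8000c000a0000000000000) := T_10 (nat_lit 70) (nat_lit 87) (nat_lit 4) (nat_lit 3) (nat_lit 8) L59435 (by decide +kernel)
theorem L59437 : W_10 (nat_lit 4) (nat_lit 0x200000001380094000200010000000000000000000000) (nat_lit 0x0) (nat_lit 0x28001c000a0000000000000) := T_10 (nat_lit 72) (nat_lit 89) (nat_lit 6) (nat_lit 3) (nat_lit 8) L59436 (by decide +kernel)
theorem L59438 : W_10 (nat_lit 5) (nat_lit 0x200000001380094000200000000000000000000000000) (nat_lit 0x0) (nat_lit 0x2000000000000000038001c000a0000000000000) := T_10 (nat_lit 88) (nat_lit 157) (nat_lit 7) (nat_lit 3) (nat_lit 5) L59437 (by decide +kernel)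
theorem L59439 : W_10 (nat_lit 8) (nat_lit 0x2000000013800b4000200000000000000000000000000) (nat_lit 0x0) (nat_lit 0x8003d000f8005c00000000000000000) := T_10 (nat_lit 123) (nat_lit 104) (nat_lit 0) (nat_lit 6) (nat_lit 7) L58627 (by decide +kernel)
theorem L59440 : W_10 (nat_lit 9) (nat_lit 0x200000001380094000200000000000000000000000000) (nat_lit 0x0) (nat_lit 0x68003d000f8005c00000000000000000) := T_10 (nat_lit 125) (nat_lit 126) (nat_lit 1) (nat_lit 8) (nat_lit 7) L59439 (by decide +kernel)
theorem L59441 : W_10 (nat_lit 5) (nat_lit 0x2000020013800bc001200080000000000000000000000) (nat_lit 0x0) (nat_lit 0x6000100018000400000000800040002000000000000000000) := T_10 (nat_lit 90) (nat_lit 107) (nat_lit 5) (nat_lit 5) (nat_lit 5) L55759 (by decide +kernel)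
theorem L59442 : W_10 (nat_lit 6) (nat_lit 0x2000020013800bc001200000000000000000000000000) (nat_lit 0x0) (nat_lit 0x60001000180004000000008000c0006000000000000000000) := T_10 (nat_lit 91) (nat_lit 74) (nat_lit 5) (nat_lit 6) (nat_lit 4) L59441 (by decide +kernel)
theorem L59443 : W_10 (nat_lit 7) (nat_lit 0x2000000013800bc001200000000000000000000000000) (nat_lit 0x0) (nat_lit 0x600014001a0004000000008000c0006000000000000000000) := T_10 (nat_lit 157) (nat_lit 174) (nat_lit 4) (nat_lit 4) (nat_lit 10) L59442 (by decide +kernel)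
theorem L59444 : W_10 (nat_lit 8) (nat_lit 0x2000000013800bc000200000000000000000000000000) (nat_lit 0x0) (nat_lit 0x600014001a0004000000038000c0006000000000000000000) := T_10 (nat_lit 108) (nat_lit 109) (nat_lit 2) (nat_lit 3) (nat_lit 7) L59443 (by decide +kernel)
theorem L59445 : W_10 (nat_lit 9) (nat_lit 0x2000000013800b4000200000000000000000000000000) (nat_lit 0x0) (nat_lit 0x600014001a0004000080039000c0006000000000000000000) := T_10 (nat_lit 123) (nat_lit 104) (nat_lit 0) (nat_lit 6) (nat_lit 7) L59444 (by decide +kernel)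
theorem L59446 : W_10 (nat_lit 10) (nat_lit 0x200000001380094000200000000000000000000000000) (nat_lit 0x0) (nat_lit 0x600014001a0004000680039000c0006000000000000000000) := T_10 (nat_lit 125) (nat_lit 126) (nat_lit 1) (nat_lit 8) (nat_lit 7) L59445 (by decide +kernel)
theorem L59447 : W_10 (nat_lit 11) (nat_lit 0x200000001380094000000000000000000000000000000) (nat_lit 0x0) (nat_lit 0x600014001a000400068003f000f8007c000a0000000000000) := Q_10 (nat_lit 105) (C_10 L56503 (C_10 L56487 (C_10 L59438 (C_10 L59440 (C_10 L59446 N_10))))) (by decide +kernel)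
theorem L59448 : W_10 (nat_lit 12) (nat_lit 0x200000001380090000000000000000000000000000000) (nat_lit 0x0) (nat_lit 0x600014001a00040006f803f000f8007c000a0000000000000) := Q_10 (nat_lit 122) (C_10 L59433 (C_10 L56519 (C_10 L59434 (C_10 L59447 N_10)))) (by decide +kernel)
theorem L59449 : W_10 (nat_lit 13) (nat_lit 0x200000001300090000000000000000000000000000000) (nat_lit 0x0) (nat_lit 0x620015001ae004e006f803f000f8007c000a0000000000000) := Q_10 (nat_lit 139) (C_10 L56196 (C_10 L59429 (C_10 L59448 N_10))) (by decide +kernel)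
theorem L59450 : W_10 (nat_lit 2) (nat_lit 0x42003f0014401300090000000000000000000000000000000) (nat_lit 0x0) (nat_lit 0x8002200000000000000000000000000000000000000) := D_10 (nat_lit 171) (nat_lit 157) (nat_lit 153) (nat_lit 2) (nat_lit 1) (nat_lit 10) (nat_lit 0) (nat_lit 4) (nat_lit 10) (by decide +kernel)
theorem L59451 : W_10 (nat_lit 3) (nat_lit 0x42003f0014001300090000000000000000000000000000000) (nat_lit 0x0) (nat_lit 0x8002e00000000000000000000000000000000000000) := T_10 (nat_lit 154) (nat_lit 155) (nat_lit 0) (nat_lit 5) (nat_lit 10) L59450 (by decide +kernel)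
theorem L59452 : W_10 (nat_lit 4) (nat_lit 0x42003e0014001300090000000000000000000000000000000) (nat_lit 0x0) (nat_lit 0x100018002e00000000000000000000000000000000000000) := T_10 (nat_lit 172) (nat_lit 188) (nat_lit 1) (nat_lit 5) (nat_lit 10) L59451 (by decide +kernel)
theorem L59453 : W_10 (nat_lit 5) (nat_lit 0x40003e0014001300090000000000000000000000000000000) (nat_lit 0x0) (nat_lit 0x700018002e00000000000000000000000000000000000000) := T_10 (nat_lit 189) (nat_lit 190) (nat_lit 1) (nat_lit 6) (nat_lit 10) L59452 (by decide +kernel)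
theorem L59454 : W_10 (nat_lit 6) (nat_lit 0x40003c0014001300090000000000000000000000000000000) (nat_lit 0x0) (nat_lit 0x70003800ae00000000000000000000000000000000000000) := T_10 (nat_lit 173) (nat_lit 159) (nat_lit 2) (nat_lit 3) (nat_lit 10) L59453 (by decide +kernel)
theorem L59455 : W_10 (nat_lit 7) (nat_lit 0x40003c0004001300090000000000000000000000000000000) (nat_lit 0x0) (nat_lit 0x70003803ae00000000000000000000000000000000000000) := T_10 (nat_lit 160) (nat_lit 161) (nat_lit 2) (nat_lit 4) (nat_lit 10) L59454 (by decide +kernel)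
theorem L59456 : W_10 (nat_lit 8) (nat_lit 0x3c0004001300090000000000000000000000000000000) (nat_lit 0x0) (nat_lit 0xc70003803ae00000000000000000000000000000000000000) := T_10 (nat_lit 194) (nat_lit 195) (nat_lit 3) (nat_lit 4) (nat_lit 10) L59455 (by decide +kernel)
theorem L59457 : W_10 (nat_lit 9) (nat_lit 0x380004001300090000000000000000000000000000000) (nat_lit 0x0) (nat_lit 0xcf0007803ae00000000000000000000000000000000000000) := T_10 (nat_lit 174) (nat_lit 191) (nat_lit 5) (nat_lit 5) (nat_lit 7) L59456 (by decide +kernel)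
theorem L59458 : W_10 (nat_lit 10) (nat_lit 0x280004001300090000000000000000000000000000000) (nat_lit 0x0) (nat_lit 0xef0017803ae00000000000000000000000000000000000000) := T_10 (nat_lit 176) (nat_lit 193) (nat_lit 7) (nat_lit 5) (nat_lit 7) L59457 (by decide +kernel)
theorem L59459 : W_10 (nat_lit 11) (nat_lit 0x200004001300090000000000000000000000000000000) (nat_lit 0x0) (nat_lit 0xff001f803ae00000008000400000000000000000000000000) := Q_10 (nat_lit 175) (C_10 L59458 (C_10 L58448 N_10)) (by decide +kernel)
theorem L59460 : W_10 (nat_lit 2) (nat_lit 0x40003c00040013400b0000000000000000000000000000000) (nat_lit 0x0) (nat_lit 0x1000000008000400000000000000000000000000000000000) := D_10 (nat_lit 142) (nat_lit 192) (nat_lit 159) (nat_lit 6) (nat_lit 5) (nat_lit 11) (nat_lit 7) (nat_lit 6) (nat_lit 7) (by decide +kernel)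
theorem L59461 : W_10 (nat_lit 3) (nat_lit 0x3c00040013400b0000000000000000000000000000000) (nat_lit 0x0) (nat_lit 0xd000000008000400000000000000000000000000000000000) := T_10 (nat_lit 194) (nat_lit 195) (nat_lit 3) (nat_lit 4) (nat_lit 10) L59460 (by decide +kernel)
theorem L59462 : W_10 (nat_lit 4) (nat_lit 0x2c00040013400b0000000000000000000000000000000) (nat_lit 0x0) (nat_lit 0xf000100008000400000000000000000000000000000000000) := T_10 (nat_lit 176) (nat_lit 193) (nat_lit 7) (nat_lit 5) (nat_lit 7) L59461 (by decide +kernel)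
theorem L59463 : W_10 (nat_lit 5) (nat_lit 0x2800040013400b0000000000000000000000000000000) (nat_lit 0x0) (nat_lit 0xf800140008000400000000000000000000000000000000000) := T_10 (nat_lit 174) (nat_lit 191) (nat_lit 5) (nat_lit 5) (nat_lit 7) L59462 (by decide +kernel)
theorem L59464 : W_10 (nat_lit 6) (nat_lit 0x2000040013400b0000000000000000000000000000000) (nat_lit 0x0) (nat_lit 0xf8001c0008000400000001000000000000000000000000000) := T_10 (nat_lit 175) (nat_lit 108) (nat_lit 6) (nat_lit 5) (nat_lit 10) L59463 (by decide +kernel)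
theorem L59465 : W_10 (nat_lit 7) (nat_lit 0x2000040013000b0000000000000000000000000000000) (nat_lit 0x0) (nat_lit 0xf8001c00080004c0000001000000000000000000000000000) := T_10 (nat_lit 138) (nat_lit 139) (nat_lit 2) (nat_lit 2) (nat_lit 8) L59464 (by decide +kernel)
theorem L59466 : W_10 (nat_lit 8) (nat_lit 0x200004001300090000000000000000000000000000000) (nat_lit 0x0) (nat_lit 0xf8001c00080004c0060001000000000000000000000000000) := T_10 (nat_lit 125) (nat_lit 126) (nat_lit 1) (nat_lit 8) (nat_lit 7) L59465 (by decide +kernel)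
theorem L59467 : W_10 (nat_lit 2) (nat_lit 0x2000040017800bc001200000000000000000000000000) (nat_lit 0x0) (nat_lit 0x40002000000000000000010000000000000000000000) := D_10 (nat_lit 157) (nat_lit 174) (nat_lit 88) (nat_lit 4) (nat_lit 4) (nat_lit 10) (nat_lit 7) (nat_lit 3) (nat_lit 5) (by decide +kernel)
theorem L59468 : W_10 (nat_lit 3) (nat_lit 0x2000040017800bc001000000000000000000000000000) (nat_lit 0x0) (nat_lit 0x40002000000000000300010000000000000000000000) := T_10 (nat_lit 105) (nat_lit 104) (nat_lit 0) (nat_lit 6) (nat_lit 7) L59467 (by decide +kernel)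
theorem L59469 : W_10 (nat_lit 4) (nat_lit 0x2000040017800b4001000000000000000000000000000) (nat_lit 0x0) (nat_lit 0x40002000000008002300010000000000000000000000) := T_10 (nat_lit 123) (nat_lit 109) (nat_lit 2) (nat_lit 3) (nat_lit 7) L59468 (by decide +kernel)
theorem L59470 : W_10 (nat_lit 5) (nat_lit 0x2000040017800b0001000000000000000000000000000) (nat_lit 0x0) (nat_lit 0x4000200000000e002300010000000000000000000000) := T_10 (nat_lit 122) (nat_lit 121) (nat_lit 0) (nat_lit 6) (nat_lit 8) L59469 (by decide +kernel)
theorem L59471 : W_10 (nat_lit 6) (nat_lit 0x2000040017800b0000000000000000000000000000000) (nat_lit 0x0) (nat_lit 0x4000200000000e003300090000000000000000000000) := T_10 (nat_lit 108) (nat_lit 91) (nat_lit 5) (nat_lit 6) (nat_lit 5) L59470 (by decide +kernel)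
theorem L59472 : W_10 (nat_lit 7) (nat_lit 0x2000040017000b0000000000000000000000000000000) (nat_lit 0x0) (nat_lit 0x400020000c000e003300090000000000000000000000) := T_10 (nat_lit 139) (nat_lit 138) (nat_lit 2) (nat_lit 2) (nat_lit 8) L59471 (by decide +kernel)
theorem L59473 : W_10 (nat_lit 2) (nat_lit 0x20000c0017400b0001000000000000000000000000000) (nat_lit 0x0) (nat_lit 0x6000100000000000000000000000000000000000000000000) := D_10 (nat_lit 176) (nat_lit 194) (nat_lit 193) (nat_lit 7) (nat_lit 6) (nat_lit 7) (nat_lit 4) (nat_lit 6) (nat_lit 11) (by decide +kernel)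
theorem L59474 : W_10 (nat_lit 3) (nat_lit 0x2000040017400b0001000000000000000000000000000) (nat_lit 0x0) (nat_lit 0x6000100018000000000000000000000000000000000000000) := T_10 (nat_lit 159) (nat_lit 160) (nat_lit 7) (nat_lit 6) (nat_lit 6) L59473 (by decide +kernel)
theorem L59475 : W_10 (nat_lit 4) (nat_lit 0x2000040017400b0000000000000000000000000000000) (nat_lit 0x0) (nat_lit 0x6000100018000000000001000080000000000000000000000) := T_10 (nat_lit 108) (nat_lit 91) (nat_lit 5) (nat_lit 6) (nat_lit 5) L59474 (by decide +kernel)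
theorem L59476 : W_10 (nat_lit 5) (nat_lit 0x2000040017000b0000000000000000000000000000000) (nat_lit 0x0) (nat_lit 0x60001000180000c0000001000080000000000000000000000) := T_10 (nat_lit 138) (nat_lit 139) (nat_lit 2) (nat_lit 2) (nat_lit 8) L59475 (by decide +kernel)
theorem L59477 : W_10 (nat_lit 2) (nat_lit 0x20000c0017000b0001000000000000000000000000000) (nat_lit 0x0) (nat_lit 0x6000100000000000000000000000000000000000000000000) := D_10 (nat_lit 176) (nat_lit 194) (nat_lit 193) (nat_lit 7) (nat_lit 6) (nat_lit 7) (nat_lit 4) (nat_lit 6) (nat_lit 11) (by decide +kernel)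
theorem L59478 : W_10 (nat_lit 3) (nat_lit 0x2000040017000b0001000000000000000000000000000) (nat_lit 0x0) (nat_lit 0x6000100018000000000000000000000000000000000000000) := T_10 (nat_lit 159) (nat_lit 160) (nat_lit 7) (nat_lit 6) (nat_lit 6) L59477 (by decide +kernel)
theorem L59479 : W_10 (nat_lit 4) (nat_lit 0x2000040017000b0000000000000000000000000000000) (nat_lit 0x0) (nat_lit 0x6000100018000000000001000080000000000000000000000) := T_10 (nat_lit 108) (nat_lit 91) (nat_lit 5) (nat_lit 6) (nat_lit 5) L59478 (by decide +kernel)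
theorem L59480 : W_10 (nat_lit 2) (nat_lit 0x20000c0017800b4000000000000000000000000000000) (nat_lit 0x0) (nat_lit 0x6000100000000000000000000000000000000000000000000) := D_10 (nat_lit 176) (nat_lit 193) (nat_lit 194) (nat_lit 4) (nat_lit 6) (nat_lit 11) (nat_lit 7) (nat_lit 6) (nat_lit 7) (by decide +kernel)
theorem L59481 : W_10 (nat_lit 3) (nat_lit 0x2000040017800b4000000000000000000000000000000) (nat_lit 0x0) (nat_lit 0x6000100018000000000000000000000000000000000000000) := T_10 (nat_lit 159) (nat_lit 160) (nat_lit 3) (nat_lit 3) (nat_lit 8) L59480 (by decide +kernel)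
theorem L59482 : W_10 (nat_lit 4) (nat_lit 0x2000040017800b0000000000000000000000000000000) (nat_lit 0x0) (nat_lit 0x6000100018000000006000000000000000000000000000000) := T_10 (nat_lit 122) (nat_lit 121) (nat_lit 0) (nat_lit 6) (nat_lit 8) L59481 (by decide +kernel)
theorem L59483 : W_10 (nat_lit 5) (nat_lit 0x2000040017000b0000000000000000000000000000000) (nat_lit 0x0) (nat_lit 0x60001000180000c0006000000000000000000000000000000) := T_10 (nat_lit 139) (nat_lit 138) (nat_lit 2) (nat_lit 2) (nat_lit 8) L59482 (by decide +kernel)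
theorem L59484 : W_10 (nat_lit 8) (nat_lit 0x2000040013000b0000000000000000000000000000000) (nat_lit 0x0) (nat_lit 0x600014001a0004c000e003300090000000000000000000000) := Q_10 (nat_lit 142) (C_10 L59472 (C_10 L59476 (C_10 L59479 (C_10 L59483 N_10)))) (by decide +kernel)
theorem L59485 : W_10 (nat_lit 9) (nat_lit 0x200004001300090000000000000000000000000000000) (nat_lit 0x0) (nat_lit 0x600014001a0004c006e003300090000000000000000000000) := T_10 (nat_lit 125) (nat_lit 126) (nat_lit 1) (nat_lit 8) (nat_lit 7) L59484 (by decide +kernel)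
theorem L59486 : W_10 (nat_lit 12) (nat_lit 0x200000001300090000000000000000000000000000000) (nat_lit 0x0) (nat_lit 0xff001f803ee004c006e003700090000000000000000000000) := Q_10 (nat_lit 158) (C_10 L59459 (C_10 L58447 (C_10 L59466 (C_10 L59485 N_10)))) (by decide +kernel)
theorem L59487 : W_10 (nat_lit 2) (nat_lit 0x2000060013000de000f00008000000000000000000000) (nat_lit 0x0) (nat_lit 0x80000000000000000400020000000000000) := D_10 (nat_lit 70) (nat_lit 139) (nat_lit 53) (nat_lit 7) (nat_lit 2) (nat_lit 4) (nat_lit 7) (nat_lit 2) (nat_lit 3) (by decide +kernel)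
theorem L59488 : W_10 (nat_lit 3) (nat_lit 0x2000060013000da000f00008000000000000000000000) (nat_lit 0x0) (nat_lit 0x480004000000000000400020000000000000) := T_10 (nat_lit 122) (nat_lit 142) (nat_lit 3) (nat_lit 2) (nat_lit 7) L59487 (by decide +kernel)
theorem L59489 : W_10 (nat_lit 4) (nat_lit 0x2000060013000da000f00000000000000000000000000) (nat_lit 0x0) (nat_lit 0x48000400000000c000400020000000000000) := T_10 (nat_lit 87) (nat_lit 86) (nat_lit 0) (nat_lit 5) (nat_lit 6) L59488 (by decide +kernel)
theorem L59490 : W_10 (nat_lit 5) (nat_lit 0x2000060013000d8000f00000000000000000000000000) (nat_lit 0x0) (nat_lit 0x48000700000000c000400020000000000000) := T_10 (nat_lit 121) (nat_lit 120) (nat_lit 1) (nat_lit 5) (nat_lit 6) L59489 (by decide +kernel)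
theorem L59491 : W_10 (nat_lit 6) (nat_lit 0x2000060013000d8000e00000000000000000000000000) (nat_lit 0x0) (nat_lit 0x48000700018000c000400020000000000000) := T_10 (nat_lit 104) (nat_lit 103) (nat_lit 3) (nat_lit 1) (nat_lit 6) L59490 (by decide +kernel)
theorem L59492 : W_10 (nat_lit 7) (nat_lit 0x2000060013000d8000c00000000000000000000000000) (nat_lit 0x0) (nat_lit 0x48000700038001c000400020000000000000) := T_10 (nat_lit 105) (nat_lit 88) (nat_lit 4) (nat_lit 4) (nat_lit 9) L59491 (by decide +kernel)
theorem L59493 : W_10 (nat_lit 8) (nat_lit 0x2000060013000d0000c00000000000000000000000000) (nat_lit 0x0) (nat_lit 0x8000000048000f00038001c000400020000000000000) := T_10 (nat_lit 123) (nat_lit 175) (nat_lit 7) (nat_lit 4) (nat_lit 6) L59492 (by decide +kernel)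
theorem L59494 : W_10 (nat_lit 9) (nat_lit 0x2000060013000d0000800000000000000000000000000) (nat_lit 0x0) (nat_lit 0x8000000048000f00078003c000400020000000000000) := T_10 (nat_lit 106) (nat_lit 89) (nat_lit 4) (nat_lit 5) (nat_lit 9) L59493 (by decide +kernel)
theorem L59495 : W_10 (nat_lit 10) (nat_lit 0x2000040013000d0000800000000000000000000000000) (nat_lit 0x0) (nat_lit 0xc000200048000f00078003c000400020000000000000) := T_10 (nat_lit 157) (nat_lit 174) (nat_lit 5) (nat_lit 5) (nat_lit 6) L59494 (by decide +kernel)
theorem L59496 : W_10 (nat_lit 11) (nat_lit 0x200004001300090000800000000000000000000000000) (nat_lit 0x0) (nat_lit 0xc000200048006f00078003c000400020000000000000) := T_10 (nat_lit 126) (nat_lit 125) (nat_lit 1) (nat_lit 8) (nat_lit 7) L59495 (by decide +kernel)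
theorem L59497 : W_10 (nat_lit 12) (nat_lit 0x200000001300090000800000000000000000000000000) (nat_lit 0x0) (nat_lit 0x18000c000600048006f0037800bc000400020000000000000) := Q_10 (nat_lit 158) (C_10 L56188 (C_10 L59314 (C_10 L56170 (C_10 L59496 N_10)))) (by decide +kernel)
theorem L59498 : W_10 (nat_lit 13) (nat_lit 0x200000001300090000000000000000000000000000000) (nat_lit 0x0) (nat_lit 0x18000c00060004c006f003f801fc0074003a0014000000000) := Q_10 (nat_lit 107) (C_10 L59317 (C_10 L58614 (C_10 L58598 (C_10 L59497 N_10)))) (by decide +kernel)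
theorem L59499 : W_10 (nat_lit 2) (nat_lit 0x200008001780094000800000000000000000000000000) (nat_lit 0x0) (nat_lit 0x2000100004000000000000000000000000000000000000000) := D_10 (nat_lit 176) (nat_lit 193) (nat_lit 158) (nat_lit 4) (nat_lit 6) (nat_lit 11) (nat_lit 7) (nat_lit 5) (nat_lit 6) (by decide +kernel)
theorem L59500 : W_10 (nat_lit 3) (nat_lit 0x200008001780094000000000000000000000000000000) (nat_lit 0x0) (nat_lit 0x2000100004000000000000800040000000000000000000000) := T_10 (nat_lit 107) (nat_lit 90) (nat_lit 7) (nat_lit 5) (nat_lit 5) L59499 (by decide +kernel)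
theorem L59501 : W_10 (nat_lit 4) (nat_lit 0x200008001780090000000000000000000000000000000) (nat_lit 0x0) (nat_lit 0x2000100004000000006000800040000000000000000000000) := T_10 (nat_lit 122) (nat_lit 121) (nat_lit 0) (nat_lit 6) (nat_lit 8) L59500 (by decide +kernel)
theorem L59502 : W_10 (nat_lit 5) (nat_lit 0x200000001780090000000000000000000000000000000) (nat_lit 0x0) (nat_lit 0x200010001c000000006000800040000000000000000000000) := T_10 (nat_lit 159) (nat_lit 160) (nat_lit 3) (nat_lit 3) (nat_lit 8) L59501 (by decide +kernel)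
theorem L59503 : W_10 (nat_lit 2) (nat_lit 0x8002000020017800bc001200000000000000000000000000) (nat_lit 0x0) (nat_lit 0x4000000000000000080004000000000000000000) := D_10 (nat_lit 91) (nat_lit 74) (nat_lit 158) (nat_lit 5) (nat_lit 6) (nat_lit 4) (nat_lit 5) (nat_lit 6) (nat_lit 5) (by decide +kernel)
theorem L59504 : W_10 (nat_lit 3) (nat_lit 0x8002000020017800bc000200000000000000000000000000) (nat_lit 0x0) (nat_lit 0x4000000000003000080004000000000000000000) := T_10 (nat_lit 108) (nat_lit 109) (nat_lit 2) (nat_lit 3) (nat_lit 7) L59503 (by decide +kernel)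
theorem L59505 : W_10 (nat_lit 4) (nat_lit 0x8002000020017800b4000200000000000000000000000000) (nat_lit 0x0) (nat_lit 0x4000000008003100080004000000000000000000) := T_10 (nat_lit 123) (nat_lit 104) (nat_lit 0) (nat_lit 6) (nat_lit 7) L59504 (by decide +kernel)
theorem L59506 : W_10 (nat_lit 5) (nat_lit 0x8002000020017800b4000000000000000000000000000000) (nat_lit 0x0) (nat_lit 0x4000000008003300090004000000000000000000) := T_10 (nat_lit 105) (nat_lit 88) (nat_lit 7) (nat_lit 3) (nat_lit 5) L59505 (by decide +kernel)
theorem L59507 : W_10 (nat_lit 6) (nat_lit 0x8002000020017800b0000000000000000000000000000000) (nat_lit 0x0) (nat_lit 0x400000000e003300090004000000000000000000) := T_10 (nat_lit 122) (nat_lit 121) (nat_lit 0) (nat_lit 6) (nat_lit 8) L59506 (by decide +kernel)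
theorem L59508 : W_10 (nat_lit 7) (nat_lit 0x800200002001780090000000000000000000000000000000) (nat_lit 0x0) (nat_lit 0x400000006e003300090004000000000000000000) := T_10 (nat_lit 125) (nat_lit 126) (nat_lit 2) (nat_lit 3) (nat_lit 8) L59507 (by decide +kernel)
theorem L59509 : W_10 (nat_lit 8) (nat_lit 0x200002001780090000000000000000000000000000000) (nat_lit 0x0) (nat_lit 0x80004000400000006e003300090004000000000000000000) := T_10 (nat_lit 191) (nat_lit 174) (nat_lit 6) (nat_lit 4) (nat_lit 11) L59508 (by decide +kernel)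
theorem L59510 : W_10 (nat_lit 8) (nat_lit 0x200002001780090000000000000000000000000000000) (nat_lit 0x0) (nat_lit 0x6e003b000d0006000000000000000000) := T_10 (nat_lit 122) (nat_lit 121) (nat_lit 0) (nat_lit 6) (nat_lit 8) L56273 (by decide +kernel)
theorem L59511 : W_10 (nat_lit 9) (nat_lit 0x200000001780090000000000000000000000000000000) (nat_lit 0x0) (nat_lit 0x80004000600000006e003b000d0006000000000000000000) := Q_10 (nat_lit 157) (C_10 L59328 (C_10 L59509 (C_10 L59510 N_10))) (by decide +kernel)
theorem L59512 : W_10 (nat_lit 10) (nat_lit 0x200000001380090000000000000000000000000000000) (nat_lit 0x0) (nat_lit 0x680014001e00040006e003b000d0006000000000000000000) := Q_10 (nat_lit 142) (C_10 L59409 (C_10 L59502 (C_10 L59511 (C_10 L59259 N_10)))) (by decide +kernel)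
theorem L59513 : W_10 (nat_lit 11) (nat_lit 0x200000001300090000000000000000000000000000000) (nat_lit 0x0) (nat_lit 0x6a0015001ee004e006f803b000d0006000000000000000000) := Q_10 (nat_lit 139) (C_10 L59429 (C_10 L59512 (C_10 L56196 N_10))) (by decide +kernel)
theorem L59514 : W_10 (nat_lit 12) (nat_lit 0x200000001300090000800000000000000000000000000) (nat_lit 0x0) (nat_lit 0x600030001c003e0004c006f00078003c000400020000000000000) := Q_10 (nat_lit 158) (C_10 L31915 (C_10 L59496 (C_10 L58577 N_10))) (by decide +kernel)
theorem L59515 : W_10 (nat_lit 13) (nat_lit 0x200000001300090000000000000000000000000000000) (nat_lit 0x0) (nat_lit 0x600038001c003e0004c006f000f801fc0074003a0014000000000) := Q_10 (nat_lit 107) (C_10 L59317 (C_10 L58614 (C_10 L58295 (C_10 L59514 N_10)))) (by decide +kernel)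
theorem L59516 : W_10 (nat_lit 13) (nat_lit 0x200000001300090000000000000000000000000000000) (nat_lit 0x0) (nat_lit 0x600038001c003e0004c006f001f8007c0074003a0014000000000) := Q_10 (nat_lit 107) (C_10 L59317 (C_10 L59514 (C_10 L58614 (C_10 L58326 N_10)))) (by decide +kernel)
theorem L59517 : W_10 (nat_lit 15) (nat_lit 0x200000001300080000000000000000000000000000000) (nat_lit 0x0) (nat_lit 0x20007000ff001f803ee004e007f803f803fc00fc003e001f000000000) := Q_10 (nat_lit 124) (C_10 L59449 (C_10 L58241 (C_10 L59318 (C_10 L58615 (C_10 L58333 (C_10 L59486 (C_10 L59498 (C_10 L59513 (C_10 L59515 (C_10 L59516 N_10)))))))))) (by decide +kernel)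
theorem L59518 : W_10 (nat_lit 7) (nat_lit 0x200000001380094000000000000000000000000000000) (nat_lit 0x0) (nat_lit 0x28001c001f800400002000000000000000000000000000000) := T_10 (nat_lit 142) (nat_lit 121) (nat_lit 0) (nat_lit 6) (nat_lit 8) L59386 (by decide +kernel)
theorem L59519 : W_10 (nat_lit 2) (nat_lit 0x20000f0013800bc001200020004000000000000000000) (nat_lit 0x0) (nat_lit 0x10000c00000000000000000000000000000000000000) := D_10 (nat_lit 155) (nat_lit 154) (nat_lit 172) (nat_lit 2) (nat_lit 1) (nat_lit 9) (nat_lit 5) (nat_lit 3) (nat_lit 6) (by decide +kernel)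
theorem L59520 : W_10 (nat_lit 3) (nat_lit 0x20000e0013800bc001200020004000000000000000000) (nat_lit 0x0) (nat_lit 0x110001c00000000000000000000000000000000000000) := T_10 (nat_lit 156) (nat_lit 176) (nat_lit 3) (nat_lit 3) (nat_lit 9) L59519 (by decide +kernel)
theorem L59521 : W_10 (nat_lit 4) (nat_lit 0x20000e0013800bc001200000004000000000000000000) (nat_lit 0x0) (nat_lit 0x110001c00000000000400020000000000000000000000) := T_10 (nat_lit 89) (nat_lit 106) (nat_lit 7) (nat_lit 4) (nat_lit 5) L59520 (by decide +kernel)
theorem L59522 : W_10 (nat_lit 5) (nat_lit 0x2000060013800bc001200000004000000000000000000) (nat_lit 0x0) (nat_lit 0x110019c00000000000400020000000000000000000000) := T_10 (nat_lit 159) (nat_lit 160) (nat_lit 0) (nat_lit 7) (nat_lit 9) L59521 (by decide +kernel)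
theorem L59523 : W_10 (nat_lit 6) (nat_lit 0x2000060013800bc001200000000000000000000000000) (nat_lit 0x0) (nat_lit 0x110019c000000000004000a0004000000000000000000) := T_10 (nat_lit 74) (nat_lit 91) (nat_lit 5) (nat_lit 6) (nat_lit 4) L59522 (by decide +kernel)
theorem L59524 : W_10 (nat_lit 7) (nat_lit 0x2000020013800bc001200000000000000000000000000) (nat_lit 0x0) (nat_lit 0x19001dc000000000004000a0004000000000000000000) := T_10 (nat_lit 158) (nat_lit 175) (nat_lit 6) (nat_lit 5) (nat_lit 10) L59523 (by decide +kernel)
theorem L59525 : W_10 (nat_lit 8) (nat_lit 0x2000000013800bc001200000000000000000000000000) (nat_lit 0x0) (nat_lit 0x1d001fc000000000004000a0004000000000000000000) := T_10 (nat_lit 157) (nat_lit 174) (nat_lit 4) (nat_lit 4) (nat_lit 10) L59524 (by decide +kernel)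
theorem L59526 : W_10 (nat_lit 9) (nat_lit 0x2000000013800bc000200000000000000000000000000) (nat_lit 0x0) (nat_lit 0x1d001fc000000000034000a0004000000000000000000) := T_10 (nat_lit 108) (nat_lit 109) (nat_lit 2) (nat_lit 3) (nat_lit 7) L59525 (by decide +kernel)
theorem L59527 : W_10 (nat_lit 10) (nat_lit 0x2000000013800b4000200000000000000000000000000) (nat_lit 0x0) (nat_lit 0x1d001fc000000080035000a0004000000000000000000) := T_10 (nat_lit 123) (nat_lit 104) (nat_lit 0) (nat_lit 6) (nat_lit 7) L59526 (by decide +kernel)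
theorem L59528 : W_10 (nat_lit 11) (nat_lit 0x200000001380094000200000000000000000000000000) (nat_lit 0x0) (nat_lit 0x1d001fc000000680035000a0004000000000000000000) := T_10 (nat_lit 125) (nat_lit 126) (nat_lit 1) (nat_lit 8) (nat_lit 7) L59527 (by decide +kernel)
theorem L59529 : W_10 (nat_lit 12) (nat_lit 0x200000001380094000000000000000000000000000000) (nat_lit 0x0) (nat_lit 0x1d001fc0000006b0037000b8005c000a0000000000000) := Q_10 (nat_lit 105) (C_10 L59438 (C_10 L56499 (C_10 L56503 (C_10 L59528 N_10)))) (by decide +kernel)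
theorem L59530 : W_10 (nat_lit 13) (nat_lit 0x200000001380090000000000000000000000000000000) (nat_lit 0x0) (nat_lit 0x28001d001fc0040006f8037000b8005c000a0000000000000) := Q_10 (nat_lit 122) (C_10 L56519 (C_10 L56568 (C_10 L59518 (C_10 L59529 N_10)))) (by decide +kernel)
theorem L59531 : W_10 (nat_lit 14) (nat_lit 0x200000001300090000000000000000000000000000000) (nat_lit 0x0) (nat_lit 0x2a001d001fe004e006f8037000b8005c000a0000000000000) := Q_10 (nat_lit 139) (C_10 L59429 (C_10 L59530 (C_10 L56196 N_10))) (by decide +kernel)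
theorem L59532 : W_10 (nat_lit 15) (nat_lit 0x200000001300080000000000000000000000000000000) (nat_lit 0x0) (nat_lit 0x70007a001d003fe004e007f803f803fc00fc003e001f000000000) := Q_10 (nat_lit 124) (C_10 L59449 (C_10 L58241 (C_10 L59516 (C_10 L59318 (C_10 L59352 (C_10 L58333 (C_10 L59531 (C_10 L59498 (C_10 L59513 N_10))))))))) (by decide +kernel)
theorem L59533 : W_10 (nat_lit 6) (nat_lit 0x200000001380090000000000000000000000000000000) (nat_lit 0x0) (nat_lit 0x400020001e0046000b800100000000000000000000000000) := Q_10 (nat_lit 138) (C_10 L55653 (C_10 L55572 (C_10 L55477 N_10))) (by decide +kernel)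
theorem L59534 : W_10 (nat_lit 2) (nat_lit 0x200024000900178009c000800000000000000000000000000) (nat_lit 0x0) (nat_lit 0x400020000000000000000400000000000000000000000000) := D_10 (nat_lit 173) (nat_lit 190) (nat_lit 106) (nat_lit 6) (nat_lit 3) (nat_lit 11) (nat_lit 6) (nat_lit 3) (nat_lit 10) (by decide +kernel)
theorem L59535 : W_10 (nat_lit 3) (nat_lit 0x2000240009001780098000800000000000000000000000000) (nat_lit 0x0) (nat_lit 0x400020000000000006000400000000000000000000000000) := T_10 (nat_lit 122) (nat_lit 121) (nat_lit 3) (nat_lit 2) (nat_lit 7) L59534 (by decide +kernel)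
theorem L59536 : W_10 (nat_lit 4) (nat_lit 0x2000240009001780090000800000000000000000000000000) (nat_lit 0x0) (nat_lit 0x40002000200000000e000400000000000000000000000000) := T_10 (nat_lit 123) (nat_lit 157) (nat_lit 6) (nat_lit 4) (nat_lit 10) L59535 (by decide +kernel)
theorem L59537 : W_10 (nat_lit 5) (nat_lit 0x240009001780090000800000000000000000000000000) (nat_lit 0x0) (nat_lit 0x240012000200000000e000400000000000000000000000000) := T_10 (nat_lit 193) (nat_lit 176) (nat_lit 4) (nat_lit 6) (nat_lit 11) L59536 (by decide +kernel)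
theorem L59538 : W_10 (nat_lit 6) (nat_lit 0x240009001780090000000000000000000000000000000) (nat_lit 0x0) (nat_lit 0x240012000200000000e000c00040000000000000000000000) := T_10 (nat_lit 107) (nat_lit 90) (nat_lit 7) (nat_lit 5) (nat_lit 5) L59537 (by decide +kernel)
theorem L59539 : W_10 (nat_lit 7) (nat_lit 0x240008001780090000000000000000000000000000000) (nat_lit 0x0) (nat_lit 0x240012000380000000e000c00040000000000000000000000) := T_10 (nat_lit 156) (nat_lit 155) (nat_lit 1) (nat_lit 6) (nat_lit 8) L59538 (by decide +kernel)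
theorem L59540 : W_10 (nat_lit 8) (nat_lit 0x240000001780090000000000000000000000000000000) (nat_lit 0x0) (nat_lit 0x240012001b80000000e000c00040000000000000000000000) := T_10 (nat_lit 159) (nat_lit 160) (nat_lit 3) (nat_lit 3) (nat_lit 8) L59539 (by decide +kernel)
theorem L59541 : W_10 (nat_lit 9) (nat_lit 0x200000001780090000000000000000000000000000000) (nat_lit 0x0) (nat_lit 0x2c0016001b80000000e000c00040000000000000000000000) := Q_10 (nat_lit 174) (C_10 L59261 (C_10 L59267 (C_10 L59262 (C_10 L59540 N_10)))) (by decide +kernel)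
theorem L59542 : W_10 (nat_lit 2) (nat_lit 0x2000080017800bc001000040000000000000000000000) (nat_lit 0x0) (nat_lit 0x80006000000000000000000) := D_10 (nat_lit 91) (nat_lit 73) (nat_lit 74) (nat_lit 4) (nat_lit 6) (nat_lit 8) (nat_lit 5) (nat_lit 6) (nat_lit 4) (by decide +kernel)
theorem L59543 : W_10 (nat_lit 3) (nat_lit 0x2000080017800bc000000040000000000000000000000) (nat_lit 0x0) (nat_lit 0x3000080006000000000000000000) := T_10 (nat_lit 108) (nat_lit 109) (nat_lit 2) (nat_lit 3) (nat_lit 7) L59542 (by decide +kernel)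
theorem L59544 : W_10 (nat_lit 4) (nat_lit 0x2000080017800b8000000040000000000000000000000) (nat_lit 0x0) (nat_lit 0x6003000080006000000000000000000) := T_10 (nat_lit 122) (nat_lit 121) (nat_lit 3) (nat_lit 2) (nat_lit 7) L59543 (by decide +kernel)
theorem L59545 : W_10 (nat_lit 5) (nat_lit 0x2000080017800b8000000000000000000000000000000) (nat_lit 0x0) (nat_lit 0x60038000c0006000000000000000000) := T_10 (nat_lit 90) (nat_lit 107) (nat_lit 7) (nat_lit 5) (nat_lit 5) L59544 (by decide +kernel)
theorem L59546 : W_10 (nat_lit 6) (nat_lit 0x200008001780098000000000000000000000000000000) (nat_lit 0x0) (nat_lit 0x660038000c0006000000000000000000) := T_10 (nat_lit 125) (nat_lit 126) (nat_lit 2) (nat_lit 3) (nat_lit 8) L59545 (by decide +kernel)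
theorem L59547 : W_10 (nat_lit 7) (nat_lit 0x200000001780098000000000000000000000000000000) (nat_lit 0x0) (nat_lit 0x180000000660038000c0006000000000000000000) := T_10 (nat_lit 159) (nat_lit 160) (nat_lit 3) (nat_lit 3) (nat_lit 8) L59546 (by decide +kernel)
theorem L59548 : W_10 (nat_lit 8) (nat_lit 0x200000001780090000000000000000000000000000000) (nat_lit 0x0) (nat_lit 0x40006001b80000006e003c000c0006000000000000000000) := Q_10 (nat_lit 123) (C_10 L59547 (C_10 L59279 (C_10 L59289 N_10))) (by decide +kernel)
theorem L59549 : W_10 (nat_lit 2) (nat_lit 0x2000000017800bc0010000c0000000000000000000000) (nat_lit 0x0) (nat_lit 0xa000000000000800000000000000000000000000) := D_10 (nat_lit 107) (nat_lit 159) (nat_lit 157) (nat_lit 7) (nat_lit 5) (nat_lit 5) (nat_lit 5) (nat_lit 5) (nat_lit 5) (by decide +kernel)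
theorem L59550 : W_10 (nat_lit 3) (nat_lit 0x2000000017800bc001000080000000000000000000000) (nat_lit 0x0) (nat_lit 0xa000000000000800040002000000000000000000) := T_10 (nat_lit 90) (nat_lit 73) (nat_lit 4) (nat_lit 6) (nat_lit 8) L59549 (by decide +kernel)
theorem L59551 : W_10 (nat_lit 4) (nat_lit 0x2000000017800bc001000000000000000000000000000) (nat_lit 0x0) (nat_lit 0xa0000000000008000c0006000000000000000000) := T_10 (nat_lit 91) (nat_lit 74) (nat_lit 5) (nat_lit 6) (nat_lit 4) L59550 (by decide +kernel)
theorem L59552 : W_10 (nat_lit 5) (nat_lit 0x2000000017800bc000000000000000000000000000000) (nat_lit 0x0) (nat_lit 0xa0000000000038000c0006000000000000000000) := T_10 (nat_lit 108) (nat_lit 109) (nat_lit 2) (nat_lit 3) (nat_lit 7) L59551 (by decide +kernel)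
theorem L59553 : W_10 (nat_lit 6) (nat_lit 0x20000000178009c000000000000000000000000000000) (nat_lit 0x0) (nat_lit 0xa0000000600038000c0006000000000000000000) := T_10 (nat_lit 125) (nat_lit 126) (nat_lit 2) (nat_lit 3) (nat_lit 8) L59552 (by decide +kernel)
theorem L59554 : W_10 (nat_lit 7) (nat_lit 0x200000001780098000000000000000000000000000000) (nat_lit 0x0) (nat_lit 0xa0000000660038000c0006000000000000000000) := T_10 (nat_lit 122) (nat_lit 121) (nat_lit 3) (nat_lit 2) (nat_lit 7) L59553 (by decide +kernel)
theorem L59555 : W_10 (nat_lit 8) (nat_lit 0x200000001780090000000000000000000000000000000) (nat_lit 0x0) (nat_lit 0x1c001e000b80000006e003c000c0006000000000000000000) := Q_10 (nat_lit 123) (C_10 L59393 (C_10 L59554 (C_10 L59279 N_10))) (by decide +kernel)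
theorem L59556 : W_10 (nat_lit 2) (nat_lit 0x2000000017800bc0018001c0000000000000000000000) (nat_lit 0x0) (nat_lit 0x400600000000000000000000000) := D_10 (nat_lit 93) (nat_lit 106) (nat_lit 94) (nat_lit 1) (nat_lit 8) (nat_lit 5) (nat_lit 1) (nat_lit 9) (nat_lit 5) (by decide +kernel)
theorem L59557 : W_10 (nat_lit 3) (nat_lit 0x2000000017800bc0010001c0000000000000000000000) (nat_lit 0x0) (nat_lit 0x2000000000000c00600000000000000000000000) := T_10 (nat_lit 107) (nat_lit 157) (nat_lit 5) (nat_lit 5) (nat_lit 5) L59556 (by decide +kernel)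
theorem L59558 : W_10 (nat_lit 4) (nat_lit 0x2000000017800bc0010000c0000000000000000000000) (nat_lit 0x0) (nat_lit 0x2000000000000c00700008000000000000000000) := T_10 (nat_lit 92) (nat_lit 75) (nat_lit 6) (nat_lit 6) (nat_lit 8) L59557 (by decide +kernel)
theorem L59559 : W_10 (nat_lit 5) (nat_lit 0x2000000017800bc001000080000000000000000000000) (nat_lit 0x0) (nat_lit 0x2000000000000c0074000a000000000000000000) := T_10 (nat_lit 90) (nat_lit 73) (nat_lit 4) (nat_lit 6) (nat_lit 8) L59558 (by decide +kernel)
theorem L59560 : W_10 (nat_lit 6) (nat_lit 0x2000000017800bc001000000000000000000000000000) (nat_lit 0x0) (nat_lit 0x2000000000000c007c000e000000000000000000) := T_10 (nat_lit 91) (nat_lit 74) (nat_lit 5) (nat_lit 6) (nat_lit 4) L59559 (by decide +kernel)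
theorem L59561 : W_10 (nat_lit 7) (nat_lit 0x2000000017800bc000000000000000000000000000000) (nat_lit 0x0) (nat_lit 0x2000000000003c007c000e000000000000000000) := T_10 (nat_lit 108) (nat_lit 109) (nat_lit 2) (nat_lit 3) (nat_lit 7) L59560 (by decide +kernel)
theorem L59562 : W_10 (nat_lit 8) (nat_lit 0x20000000178009c000000000000000000000000000000) (nat_lit 0x0) (nat_lit 0x2000000060003c007c000e000000000000000000) := T_10 (nat_lit 125) (nat_lit 126) (nat_lit 2) (nat_lit 3) (nat_lit 8) L59561 (by decide +kernel)
theorem L59563 : W_10 (nat_lit 9) (nat_lit 0x200000001780098000000000000000000000000000000) (nat_lit 0x0) (nat_lit 0x2000000066003c007c000e000000000000000000) := T_10 (nat_lit 122) (nat_lit 121) (nat_lit 3) (nat_lit 2) (nat_lit 7) L59562 (by decide +kernel)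
theorem L59564 : W_10 (nat_lit 2) (nat_lit 0x4002400030017800bc0010001c0000000000000000000000) (nat_lit 0x0) (nat_lit 0x1000180000000000000000000000000000000000000000000) := D_10 (nat_lit 175) (nat_lit 176) (nat_lit 192) (nat_lit 0) (nat_lit 7) (nat_lit 10) (nat_lit 7) (nat_lit 4) (nat_lit 7) (by decide +kernel)
theorem L59565 : W_10 (nat_lit 3) (nat_lit 0x4002000030017800bc0010001c0000000000000000000000) (nat_lit 0x0) (nat_lit 0x18001c0000000000000000000000000000000000000000000) := T_10 (nat_lit 174) (nat_lit 191) (nat_lit 6) (nat_lit 4) (nat_lit 11) L59564 (by decide +kernel)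
theorem L59566 : W_10 (nat_lit 4) (nat_lit 0x4002000010017800bc0010001c0000000000000000000000) (nat_lit 0x0) (nat_lit 0x18001c0002000000000000800000000000000000000000000) := T_10 (nat_lit 157) (nat_lit 107) (nat_lit 5) (nat_lit 5) (nat_lit 5) L59565 (by decide +kernel)
theorem L59567 : W_10 (nat_lit 5) (nat_lit 0x4002000010017800bc0010000c0000000000000000000000) (nat_lit 0x0) (nat_lit 0x18001c0002000000000000800100008000000000000000000) := T_10 (nat_lit 92) (nat_lit 75) (nat_lit 6) (nat_lit 6) (nat_lit 8) L59566 (by decide +kernel)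
theorem L59568 : W_10 (nat_lit 6) (nat_lit 0x4002000010017800bc001000080000000000000000000000) (nat_lit 0x0) (nat_lit 0x18001c000200000000000080014000a000000000000000000) := T_10 (nat_lit 90) (nat_lit 73) (nat_lit 4) (nat_lit 6) (nat_lit 8) L59567 (by decide +kernel)
theorem L59569 : W_10 (nat_lit 7) (nat_lit 0x4002000010017800bc001000000000000000000000000000) (nat_lit 0x0) (nat_lit 0x18001c00020000000000008001c000e000000000000000000) := T_10 (nat_lit 91) (nat_lit 74) (nat_lit 5) (nat_lit 6) (nat_lit 4) L59568 (by decide +kernel)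
theorem L59570 : W_10 (nat_lit 8) (nat_lit 0x4002000010017800bc000000000000000000000000000000) (nat_lit 0x0) (nat_lit 0x18001c00020000000000038001c000e000000000000000000) := T_10 (nat_lit 108) (nat_lit 109) (nat_lit 2) (nat_lit 3) (nat_lit 7) L59569 (by decide +kernel)
theorem L59571 : W_10 (nat_lit 9) (nat_lit 0x4002000010017800b8000000000000000000000000000000) (nat_lit 0x0) (nat_lit 0x18001c00020000000060038001c000e000000000000000000) := T_10 (nat_lit 122) (nat_lit 121) (nat_lit 3) (nat_lit 2) (nat_lit 7) L59570 (by decide +kernel)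
theorem L59572 : W_10 (nat_lit 10) (nat_lit 0x2000010017800b8000000000000000000000000000000) (nat_lit 0x0) (nat_lit 0x1c001e00020000000060038001c000e000000000000000000) := T_10 (nat_lit 190) (nat_lit 173) (nat_lit 6) (nat_lit 3) (nat_lit 11) L59571 (by decide +kernel)
theorem L59573 : W_10 (nat_lit 11) (nat_lit 0x200001001780098000000000000000000000000000000) (nat_lit 0x0) (nat_lit 0x1c001e00020000000660038001c000e000000000000000000) := T_10 (nat_lit 125) (nat_lit 126) (nat_lit 2) (nat_lit 3) (nat_lit 8) L59572 (by decide +kernel)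
theorem L59574 : W_10 (nat_lit 12) (nat_lit 0x200000001780098000000000000000000000000000000) (nat_lit 0x0) (nat_lit 0x1c001e00038000000660038001c000e000000000000000000) := T_10 (nat_lit 156) (nat_lit 155) (nat_lit 1) (nat_lit 6) (nat_lit 8) L59573 (by decide +kernel)
theorem L59575 : W_10 (nat_lit 13) (nat_lit 0x200000001780090000000000000000000000000000000) (nat_lit 0x0) (nat_lit 0x1c001e000380000006e003c007c000e000000000000000000) := Q_10 (nat_lit 123) (C_10 L59393 (C_10 L59563 (C_10 L59279 (C_10 L59574 N_10)))) (by decide +kernel)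
theorem L59576 : W_10 (nat_lit 14) (nat_lit 0x200000001380090000000000000000000000000000000) (nat_lit 0x0) (nat_lit 0x7c001e001b80040006e003c007c000e000000000000000000) := Q_10 (nat_lit 142) (C_10 L59541 (C_10 L59548 (C_10 L59555 (C_10 L59409 (C_10 L59575 (C_10 L59294 N_10)))))) (by decide +kernel)
theorem L59577 : W_10 (nat_lit 15) (nat_lit 0x200000001300090000000000000000000000000000000) (nat_lit 0x0) (nat_lit 0x7c001e001be004e006f803d007c000e000000000000000000) := Q_10 (nat_lit 139) (C_10 L59533 (C_10 L59576 (C_10 L56196 N_10))) (by decide +kernel)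
theorem L59578 : W_10 (nat_lit 5) (nat_lit 0x200000001300090000800000000000000000000000000) (nat_lit 0x0) (nat_lit 0x18003c0004c0060001000080000000000000000000000) := Q_10 (nat_lit 158) (C_10 L31915 (C_10 L56188 N_10)) (by decide +kernel)
theorem L59579 : W_10 (nat_lit 7) (nat_lit 0x200000001300090000000000000000000000000000000) (nat_lit 0x0) (nat_lit 0x8001c003e0004c00600018000e0007000280000000000000) := Q_10 (nat_lit 107) (C_10 L59301 (C_10 L58614 (C_10 L59578 (C_10 L58585 N_10)))) (by decide +kernel)
theorem L59580 : W_10 (nat_lit 10) (nat_lit 0x200000001300090000000000000000000000000000000) (nat_lit 0x0) (nat_lit 0xfc001e003de004e006f803d000c0006000000000000000000) := Q_10 (nat_lit 139) (C_10 L59533 (C_10 L59380 (C_10 L56196 N_10))) (by decide +kernel)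
theorem L59581 : W_10 (nat_lit 2) (nat_lit 0x2000080017800bc001000000000000000000000000000) (nat_lit 0x0) (nat_lit 0x4000000000000000080004000000000000000000) := D_10 (nat_lit 91) (nat_lit 74) (nat_lit 158) (nat_lit 5) (nat_lit 6) (nat_lit 4) (nat_lit 5) (nat_lit 6) (nat_lit 5) (by decide +kernel)
theorem L59582 : W_10 (nat_lit 3) (nat_lit 0x2000080017800bc000000000000000000000000000000) (nat_lit 0x0) (nat_lit 0x4000000000003000080004000000000000000000) := T_10 (nat_lit 108) (nat_lit 109) (nat_lit 2) (nat_lit 3) (nat_lit 7) L59581 (by decide +kernel)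
theorem L59583 : W_10 (nat_lit 4) (nat_lit 0x2000080017800b8000000000000000000000000000000) (nat_lit 0x0) (nat_lit 0x4000000006003000080004000000000000000000) := T_10 (nat_lit 122) (nat_lit 121) (nat_lit 3) (nat_lit 2) (nat_lit 7) L59582 (by decide +kernel)
theorem L59584 : W_10 (nat_lit 5) (nat_lit 0x200008001780098000000000000000000000000000000) (nat_lit 0x0) (nat_lit 0x4000000066003000080004000000000000000000) := T_10 (nat_lit 125) (nat_lit 126) (nat_lit 2) (nat_lit 3) (nat_lit 8) L59583 (by decide +kernel)
theorem L59585 : W_10 (nat_lit 6) (nat_lit 0x200000001780098000000000000000000000000000000) (nat_lit 0x0) (nat_lit 0x1c000000066003000080004000000000000000000) := T_10 (nat_lit 159) (nat_lit 160) (nat_lit 3) (nat_lit 3) (nat_lit 8) L59584 (by decide +kernel)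
theorem L59586 : W_10 (nat_lit 12) (nat_lit 0x200000001780090000000000000000000000000000000) (nat_lit 0x0) (nat_lit 0x1f800fc01f80000006e003400080004000000000000000000) := Q_10 (nat_lit 123) (C_10 L59404 (C_10 L59585 (C_10 L59279 N_10))) (by decide +kernel)
theorem L59587 : W_10 (nat_lit 2) (nat_lit 0x2000000017800bc001000000000000000000000000000) (nat_lit 0x0) (nat_lit 0x4000000000000000080004000000000000000000) := D_10 (nat_lit 91) (nat_lit 74) (nat_lit 158) (nat_lit 5) (nat_lit 6) (nat_lit 4) (nat_lit 5) (nat_lit 6) (nat_lit 5) (by decide +kernel)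
theorem L59588 : W_10 (nat_lit 3) (nat_lit 0x2000000017800bc000000000000000000000000000000) (nat_lit 0x0) (nat_lit 0x4000000000003000080004000000000000000000) := T_10 (nat_lit 108) (nat_lit 109) (nat_lit 2) (nat_lit 3) (nat_lit 7) L59587 (by decide +kernel)
theorem L59589 : W_10 (nat_lit 4) (nat_lit 0x20000000178009c000000000000000000000000000000) (nat_lit 0x0) (nat_lit 0x4000000060003000080004000000000000000000) := T_10 (nat_lit 125) (nat_lit 126) (nat_lit 2) (nat_lit 3) (nat_lit 8) L59588 (by decide +kernel)
theorem L59590 : W_10 (nat_lit 5) (nat_lit 0x200000001780098000000000000000000000000000000) (nat_lit 0x0) (nat_lit 0x4000000066003000080004000000000000000000) := T_10 (nat_lit 122) (nat_lit 121) (nat_lit 3) (nat_lit 2) (nat_lit 7) L59589 (by decide +kernel)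
theorem L59591 : W_10 (nat_lit 8) (nat_lit 0x200000001780090000000000000000000000000000000) (nat_lit 0x0) (nat_lit 0x1c001e000780000006e003400080004000000000000000000) := Q_10 (nat_lit 123) (C_10 L59393 (C_10 L59590 (C_10 L59279 N_10))) (by decide +kernel)
theorem L59592 : W_10 (nat_lit 13) (nat_lit 0x200000001380090000000000000000000000000000000) (nat_lit 0x0) (nat_lit 0x7f801fc01f80040006e003400080004000000000000000000) := Q_10 (nat_lit 142) (C_10 L59387 (C_10 L59586 (C_10 L59591 (C_10 L59409 (C_10 L59294 N_10))))) (by decide +kernel)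
theorem L59593 : W_10 (nat_lit 14) (nat_lit 0x200000001300090000000000000000000000000000000) (nat_lit 0x0) (nat_lit 0x7f801fc01fe004e006f803500080004000000000000000000) := Q_10 (nat_lit 139) (C_10 L59533 (C_10 L59592 (C_10 L56196 N_10))) (by decide +kernel)
theorem L59594 : W_10 (nat_lit 2) (nat_lit 0x240009001780090000800000000000000000000000000) (nat_lit 0x0) (nat_lit 0x6000000008000000000000000000000000000000) := D_10 (nat_lit 157) (nat_lit 123) (nat_lit 158) (nat_lit 6) (nat_lit 4) (nat_lit 10) (nat_lit 5) (nat_lit 5) (nat_lit 6) (by decide +kernel)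
theorem L59595 : W_10 (nat_lit 3) (nat_lit 0x240009001780090000000000000000000000000000000) (nat_lit 0x0) (nat_lit 0x6000000008000800040000000000000000000000) := T_10 (nat_lit 107) (nat_lit 90) (nat_lit 7) (nat_lit 5) (nat_lit 5) L59594 (by decide +kernel)
theorem L59596 : W_10 (nat_lit 4) (nat_lit 0x240008001780090000000000000000000000000000000) (nat_lit 0x0) (nat_lit 0x7800000008000800040000000000000000000000) := T_10 (nat_lit 156) (nat_lit 155) (nat_lit 1) (nat_lit 6) (nat_lit 8) L59595 (by decide +kernel)
theorem L59597 : W_10 (nat_lit 5) (nat_lit 0x240000001780090000000000000000000000000000000) (nat_lit 0x0) (nat_lit 0x1f800000008000800040000000000000000000000) := T_10 (nat_lit 159) (nat_lit 160) (nat_lit 3) (nat_lit 3) (nat_lit 8) L59596 (by decide +kernel)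
theorem L59598 : W_10 (nat_lit 7) (nat_lit 0x200000001780090000000000000000000000000000000) (nat_lit 0x0) (nat_lit 0xc0006001f80000000e000c00040000000000000000000000) := Q_10 (nat_lit 174) (C_10 L59267 (C_10 L59261 (C_10 L59262 (C_10 L59597 N_10)))) (by decide +kernel)
theorem L59599 : W_10 (nat_lit 7) (nat_lit 0x200000001780090000000000000000000000000000000) (nat_lit 0x0) (nat_lit 0x40006000780000006e003c000c0004000000000000000000) := Q_10 (nat_lit 123) (C_10 L59590 (C_10 L59279 (C_10 L59289 N_10))) (by decide +kernel)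
theorem L59600 : W_10 (nat_lit 2) (nat_lit 0x2000040017800b0000000000000000000000000000000) (nat_lit 0x0) (nat_lit 0x1000080000000000000001000000000000000000000000000) := D_10 (nat_lit 175) (nat_lit 192) (nat_lit 108) (nat_lit 6) (nat_lit 5) (nat_lit 11) (nat_lit 6) (nat_lit 5) (nat_lit 10) (by decide +kernel)
theorem L59601 : W_10 (nat_lit 3) (nat_lit 0x200004001780090000000000000000000000000000000) (nat_lit 0x0) (nat_lit 0x1000080000000000060001000000000000000000000000000) := T_10 (nat_lit 125) (nat_lit 126) (nat_lit 2) (nat_lit 3) (nat_lit 8) L59600 (by decide +kernel)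
theorem L59602 : W_10 (nat_lit 2) (nat_lit 0x24000d001780094001800000000000000000000000000) (nat_lit 0x0) (nat_lit 0x8000a0000000000000000000000000000000000000000000) := D_10 (nat_lit 191) (nat_lit 173) (nat_lit 175) (nat_lit 7) (nat_lit 3) (nat_lit 7) (nat_lit 5) (nat_lit 5) (nat_lit 7) (by decide +kernel)
theorem L59603 : W_10 (nat_lit 3) (nat_lit 0x20000d001780094001800000000000000000000000000) (nat_lit 0x0) (nat_lit 0x8000e0002000000000000000000000000000000000000000) := T_10 (nat_lit 174) (nat_lit 157) (nat_lit 5) (nat_lit 5) (nat_lit 6) L59602 (by decide +kernel)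
theorem L59604 : W_10 (nat_lit 4) (nat_lit 0x20000d001780094000800000000000000000000000000) (nat_lit 0x0) (nat_lit 0x8000e0002000000000001000080000000000000000000000) := T_10 (nat_lit 108) (nat_lit 91) (nat_lit 6) (nat_lit 5) (nat_lit 9) L59603 (by decide +kernel)
theorem L59605 : W_10 (nat_lit 5) (nat_lit 0x20000d001780094000000000000000000000000000000) (nat_lit 0x0) (nat_lit 0x8000e00020000000000018000c0000000000000000000000) := T_10 (nat_lit 107) (nat_lit 90) (nat_lit 7) (nat_lit 5) (nat_lit 5) L59604 (by decide +kernel)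
theorem L59606 : W_10 (nat_lit 6) (nat_lit 0x200005001780094000000000000000000000000000000) (nat_lit 0x0) (nat_lit 0x8000e001a0000000000018000c0000000000000000000000) := T_10 (nat_lit 159) (nat_lit 160) (nat_lit 3) (nat_lit 3) (nat_lit 8) L59605 (by decide +kernel)
theorem L59607 : W_10 (nat_lit 7) (nat_lit 0x200004001780094000000000000000000000000000000) (nat_lit 0x0) (nat_lit 0x8000e001b8000000000018000c0000000000000000000000) := T_10 (nat_lit 156) (nat_lit 155) (nat_lit 1) (nat_lit 6) (nat_lit 8) L59606 (by decide +kernel)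
theorem L59608 : W_10 (nat_lit 8) (nat_lit 0x200004001780090000000000000000000000000000000) (nat_lit 0x0) (nat_lit 0x8000e001b8000000060018000c0000000000000000000000) := T_10 (nat_lit 122) (nat_lit 121) (nat_lit 0) (nat_lit 6) (nat_lit 8) L59607 (by decide +kernel)
theorem L59609 : W_10 (nat_lit 2) (nat_lit 0x20000c0017800d0000c00000000000000000000000000) (nat_lit 0x0) (nat_lit 0x3000080000000000000000000000) := D_10 (nat_lit 108) (nat_lit 109) (nat_lit 91) (nat_lit 3) (nat_lit 4) (nat_lit 6) (nat_lit 6) (nat_lit 5) (nat_lit 9) (by decide +kernel)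
theorem L59610 : W_10 (nat_lit 3) (nat_lit 0x20000c0017800d0000800000000000000000000000000) (nat_lit 0x0) (nat_lit 0x34000a0000000000000000000000) := T_10 (nat_lit 106) (nat_lit 89) (nat_lit 4) (nat_lit 5) (nat_lit 9) L59609 (by decide +kernel)
theorem L59611 : W_10 (nat_lit 4) (nat_lit 0x20000c001780090000800000000000000000000000000) (nat_lit 0x0) (nat_lit 0x600034000a0000000000000000000000) := T_10 (nat_lit 126) (nat_lit 125) (nat_lit 2) (nat_lit 3) (nat_lit 8) L59610 (by decide +kernel)
theorem L59612 : W_10 (nat_lit 5) (nat_lit 0x20000c001780090000000000000000000000000000000) (nat_lit 0x0) (nat_lit 0x60003c000e0000000000000000000000) := T_10 (nat_lit 107) (nat_lit 90) (nat_lit 7) (nat_lit 5) (nat_lit 5) L59611 (by decide +kernel)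
theorem L59613 : W_10 (nat_lit 6) (nat_lit 0x200004001780090000000000000000000000000000000) (nat_lit 0x0) (nat_lit 0x18000000060003c000e0000000000000000000000) := T_10 (nat_lit 159) (nat_lit 160) (nat_lit 3) (nat_lit 3) (nat_lit 8) L59612 (by decide +kernel)
theorem L59614 : W_10 (nat_lit 2) (nat_lit 0x24000d0017800b0000c00000000000000000000000000) (nat_lit 0x0) (nat_lit 0x1800080000000000000000000000000000000000000000000) := D_10 (nat_lit 175) (nat_lit 192) (nat_lit 191) (nat_lit 6) (nat_lit 5) (nat_lit 11) (nat_lit 5) (nat_lit 5) (nat_lit 7) (by decide +kernel)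
theorem L59615 : W_10 (nat_lit 3) (nat_lit 0x20000d0017800b0000c00000000000000000000000000) (nat_lit 0x0) (nat_lit 0x18000c0002000000000000000000000000000000000000000) := T_10 (nat_lit 174) (nat_lit 157) (nat_lit 5) (nat_lit 5) (nat_lit 6) L59614 (by decide +kernel)
theorem L59616 : W_10 (nat_lit 4) (nat_lit 0x20000d0017800b0000800000000000000000000000000) (nat_lit 0x0) (nat_lit 0x18000c0002000000000000400020000000000000000000000) := T_10 (nat_lit 106) (nat_lit 89) (nat_lit 4) (nat_lit 5) (nat_lit 9) L59615 (by decide +kernel)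
theorem L59617 : W_10 (nat_lit 5) (nat_lit 0x20000d001780090000800000000000000000000000000) (nat_lit 0x0) (nat_lit 0x18000c0002000000060000400020000000000000000000000) := T_10 (nat_lit 125) (nat_lit 126) (nat_lit 2) (nat_lit 3) (nat_lit 8) L59616 (by decide +kernel)
theorem L59618 : W_10 (nat_lit 6) (nat_lit 0x20000d001780090000000000000000000000000000000) (nat_lit 0x0) (nat_lit 0x18000c0002000000060000c00060000000000000000000000) := T_10 (nat_lit 107) (nat_lit 90) (nat_lit 7) (nat_lit 5) (nat_lit 5) L59617 (by decide +kernel)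
theorem L59619 : W_10 (nat_lit 7) (nat_lit 0x200005001780090000000000000000000000000000000) (nat_lit 0x0) (nat_lit 0x18000c001a000000060000c00060000000000000000000000) := T_10 (nat_lit 159) (nat_lit 160) (nat_lit 3) (nat_lit 3) (nat_lit 8) L59618 (by decide +kernel)
theorem L59620 : W_10 (nat_lit 8) (nat_lit 0x200004001780090000000000000000000000000000000) (nat_lit 0x0) (nat_lit 0x18000c001b800000060000c00060000000000000000000000) := T_10 (nat_lit 156) (nat_lit 155) (nat_lit 1) (nat_lit 6) (nat_lit 8) L59619 (by decide +kernel)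
theorem L59621 : W_10 (nat_lit 9) (nat_lit 0x200000001780090000000000000000000000000000000) (nat_lit 0x0) (nat_lit 0x18000e001f800000066003c000e0000000000000000000000) := Q_10 (nat_lit 158) (C_10 L59601 (C_10 L59608 (C_10 L59613 (C_10 L59620 N_10)))) (by decide +kernel)
theorem L59622 : W_10 (nat_lit 2) (nat_lit 0x40020000d0017800d8000c00000000000000000000000000) (nat_lit 0x0) (nat_lit 0x3000080000000000000000000000) := D_10 (nat_lit 108) (nat_lit 91) (nat_lit 109) (nat_lit 6) (nat_lit 5) (nat_lit 9) (nat_lit 3) (nat_lit 4) (nat_lit 6) (by decide +kernel)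
theorem L59623 : W_10 (nat_lit 3) (nat_lit 0x40020000d0017800d8000400000000000000000000000000) (nat_lit 0x0) (nat_lit 0x38000c0000000000000000000000) := T_10 (nat_lit 107) (nat_lit 90) (nat_lit 7) (nat_lit 5) (nat_lit 5) L59622 (by decide +kernel)
theorem L59624 : W_10 (nat_lit 4) (nat_lit 0x4002000090017800d8000400000000000000000000000000) (nat_lit 0x0) (nat_lit 0x800040000000000038000c0000000000000000000000) := T_10 (nat_lit 158) (nat_lit 175) (nat_lit 4) (nat_lit 5) (nat_lit 10) L59623 (by decide +kernel)
theorem L59625 : W_10 (nat_lit 5) (nat_lit 0x4002000010017800d8000400000000000000000000000000) (nat_lit 0x0) (nat_lit 0x8001c0000000000038000c0000000000000000000000) := T_10 (nat_lit 159) (nat_lit 160) (nat_lit 3) (nat_lit 3) (nat_lit 8) L59624 (by decide +kernel)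
theorem L59626 : W_10 (nat_lit 6) (nat_lit 0x4002000010017800d8000000000000000000000000000000) (nat_lit 0x0) (nat_lit 0x8001c000000000003c000e0000000000000000000000) := T_10 (nat_lit 106) (nat_lit 89) (nat_lit 5) (nat_lit 4) (nat_lit 5) L59625 (by decide +kernel)
theorem L59627 : W_10 (nat_lit 7) (nat_lit 0x2000010017800d8000000000000000000000000000000) (nat_lit 0x0) (nat_lit 0x4000a001c000000000003c000e0000000000000000000000) := T_10 (nat_lit 190) (nat_lit 173) (nat_lit 6) (nat_lit 3) (nat_lit 11) L59626 (by decide +kernel)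
theorem L59628 : W_10 (nat_lit 8) (nat_lit 0x200001001780098000000000000000000000000000000) (nat_lit 0x0) (nat_lit 0x4000a001c000000060003c000e0000000000000000000000) := T_10 (nat_lit 126) (nat_lit 125) (nat_lit 2) (nat_lit 3) (nat_lit 8) L59627 (by decide +kernel)
theorem L59629 : W_10 (nat_lit 9) (nat_lit 0x200000001780098000000000000000000000000000000) (nat_lit 0x0) (nat_lit 0x4000a001d800000060003c000e0000000000000000000000) := T_10 (nat_lit 156) (nat_lit 155) (nat_lit 1) (nat_lit 6) (nat_lit 8) L59628 (by decide +kernel)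
theorem L59630 : W_10 (nat_lit 10) (nat_lit 0x200000001780090000000000000000000000000000000) (nat_lit 0x0) (nat_lit 0x4000a001d80000006e003c000e0004000000000000000000) := Q_10 (nat_lit 123) (C_10 L59590 (C_10 L59279 (C_10 L59629 N_10))) (by decide +kernel)
theorem L59631 : W_10 (nat_lit 2) (nat_lit 0x23000d00178009c000000040000000000000000000000) (nat_lit 0x0) (nat_lit 0x8000c0000000000000000000000000000000000000000000) := D_10 (nat_lit 174) (nat_lit 191) (nat_lit 175) (nat_lit 7) (nat_lit 3) (nat_lit 7) (nat_lit 2) (nat_lit 2) (nat_lit 10) (by decide +kernel)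
theorem L59632 : W_10 (nat_lit 3) (nat_lit 0x23000900178009c000000040000000000000000000000) (nat_lit 0x0) (nat_lit 0x8000c0006000000000000000000000000000000000000000) := T_10 (nat_lit 158) (nat_lit 157) (nat_lit 1) (nat_lit 6) (nat_lit 9) L59631 (by decide +kernel)
theorem L59633 : W_10 (nat_lit 4) (nat_lit 0x22000900178009c000000040000000000000000000000) (nat_lit 0x0) (nat_lit 0xa000d0006000000000000000000000000000000000000000) := T_10 (nat_lit 172) (nat_lit 189) (nat_lit 5) (nat_lit 3) (nat_lit 7) L59632 (by decide +kernel)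
theorem L59634 : W_10 (nat_lit 5) (nat_lit 0x20000900178009c000000040000000000000000000000) (nat_lit 0x0) (nat_lit 0xe000f0006000000000000000000000000000000000000000) := T_10 (nat_lit 173) (nat_lit 190) (nat_lit 6) (nat_lit 3) (nat_lit 11) L59633 (by decide +kernel)
theorem L59635 : W_10 (nat_lit 6) (nat_lit 0x20000800178009c000000040000000000000000000000) (nat_lit 0x0) (nat_lit 0xe000f0007800000000000000000000000000000000000000) := T_10 (nat_lit 156) (nat_lit 155) (nat_lit 1) (nat_lit 6) (nat_lit 8) L59634 (by decide +kernel)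
theorem L59636 : W_10 (nat_lit 7) (nat_lit 0x20000800178009c000000000000000000000000000000) (nat_lit 0x0) (nat_lit 0xe000f0007800000000000800040000000000000000000000) := T_10 (nat_lit 90) (nat_lit 107) (nat_lit 7) (nat_lit 5) (nat_lit 5) L59635 (by decide +kernel)
theorem L59637 : W_10 (nat_lit 8) (nat_lit 0x200008001780098000000000000000000000000000000) (nat_lit 0x0) (nat_lit 0xe000f0007800000006000800040000000000000000000000) := T_10 (nat_lit 122) (nat_lit 121) (nat_lit 3) (nat_lit 2) (nat_lit 7) L59636 (by decide +kernel)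
theorem L59638 : W_10 (nat_lit 9) (nat_lit 0x200000001780098000000000000000000000000000000) (nat_lit 0x0) (nat_lit 0xe000f001f800000006000800040000000000000000000000) := T_10 (nat_lit 159) (nat_lit 160) (nat_lit 3) (nat_lit 3) (nat_lit 8) L59637 (by decide +kernel)
theorem L59639 : W_10 (nat_lit 2) (nat_lit 0x22000f0017800b8000800000000000000000000000000) (nat_lit 0x0) (nat_lit 0x1000080000000000000001000000000000000000000000000) := D_10 (nat_lit 175) (nat_lit 192) (nat_lit 108) (nat_lit 6) (nat_lit 5) (nat_lit 11) (nat_lit 6) (nat_lit 5) (nat_lit 10) (by decide +kernel)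
theorem L59640 : W_10 (nat_lit 3) (nat_lit 0x22000b0017800b8000800000000000000000000000000) (nat_lit 0x0) (nat_lit 0x1000090004000000000001000000000000000000000000000) := T_10 (nat_lit 158) (nat_lit 172) (nat_lit 1) (nat_lit 6) (nat_lit 9) L59639 (by decide +kernel)
theorem L59641 : W_10 (nat_lit 4) (nat_lit 0x2200090017800b8000800000000000000000000000000) (nat_lit 0x0) (nat_lit 0x10000d0006000000000001000000000000000000000000000) := T_10 (nat_lit 157) (nat_lit 174) (nat_lit 6) (nat_lit 4) (nat_lit 10) L59640 (by decide +kernel)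
theorem L59642 : W_10 (nat_lit 5) (nat_lit 0x2200090017800b8000000000000000000000000000000) (nat_lit 0x0) (nat_lit 0x10000d0006000000000001800040000000000000000000000) := T_10 (nat_lit 107) (nat_lit 90) (nat_lit 7) (nat_lit 5) (nat_lit 5) L59641 (by decide +kernel)
theorem L59643 : W_10 (nat_lit 6) (nat_lit 0x2200010017800b8000000000000000000000000000000) (nat_lit 0x0) (nat_lit 0x10000d001e000000000001800040000000000000000000000) := T_10 (nat_lit 159) (nat_lit 160) (nat_lit 3) (nat_lit 3) (nat_lit 8) L59642 (by decide +kernel)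
theorem L59644 : W_10 (nat_lit 7) (nat_lit 0x2000010017800b8000000000000000000000000000000) (nat_lit 0x0) (nat_lit 0x14000f001e000000000001800040000000000000000000000) := T_10 (nat_lit 173) (nat_lit 190) (nat_lit 6) (nat_lit 3) (nat_lit 11) L59643 (by decide +kernel)
theorem L59645 : W_10 (nat_lit 8) (nat_lit 0x200001001780098000000000000000000000000000000) (nat_lit 0x0) (nat_lit 0x14000f001e000000060001800040000000000000000000000) := T_10 (nat_lit 125) (nat_lit 126) (nat_lit 2) (nat_lit 3) (nat_lit 8) L59644 (by decide +kernel)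
theorem L59646 : W_10 (nat_lit 9) (nat_lit 0x200000001780098000000000000000000000000000000) (nat_lit 0x0) (nat_lit 0x14000f001f800000060001800040000000000000000000000) := T_10 (nat_lit 156) (nat_lit 155) (nat_lit 1) (nat_lit 6) (nat_lit 8) L59645 (by decide +kernel)
theorem L59647 : W_10 (nat_lit 10) (nat_lit 0x200000001780090000000000000000000000000000000) (nat_lit 0x0) (nat_lit 0x1e000f001f80000006e0038000c0006000000000000000000) := Q_10 (nat_lit 123) (C_10 L59590 (C_10 L59638 (C_10 L59646 (C_10 L59554 N_10)))) (by decide +kernel)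
theorem L59648 : W_10 (nat_lit 2) (nat_lit 0x22000f001780090000800000000000000000000000000) (nat_lit 0x0) (nat_lit 0x8000400020000000000000000000000) := D_10 (nat_lit 106) (nat_lit 89) (nat_lit 123) (nat_lit 4) (nat_lit 5) (nat_lit 9) (nat_lit 5) (nat_lit 4) (nat_lit 6) (by decide +kernel)
theorem L59649 : W_10 (nat_lit 3) (nat_lit 0x20000f001780090000800000000000000000000000000) (nat_lit 0x0) (nat_lit 0x30000000000008000400020000000000000000000000) := T_10 (nat_lit 173) (nat_lit 172) (nat_lit 1) (nat_lit 6) (nat_lit 9) L59648 (by decide +kernel)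
theorem L59650 : W_10 (nat_lit 4) (nat_lit 0x20000d001780090000800000000000000000000000000) (nat_lit 0x0) (nat_lit 0x70002000000008000400020000000000000000000000) := T_10 (nat_lit 157) (nat_lit 174) (nat_lit 5) (nat_lit 5) (nat_lit 6) L59649 (by decide +kernel)
theorem L59651 : W_10 (nat_lit 5) (nat_lit 0x20000c001780090000800000000000000000000000000) (nat_lit 0x0) (nat_lit 0x70003800000008000400020000000000000000000000) := T_10 (nat_lit 156) (nat_lit 155) (nat_lit 1) (nat_lit 6) (nat_lit 8) L59650 (by decide +kernel)
theorem L59652 : W_10 (nat_lit 6) (nat_lit 0x20000c001780090000000000000000000000000000000) (nat_lit 0x0) (nat_lit 0x70003800000008000c00060000000000000000000000) := T_10 (nat_lit 107) (nat_lit 90) (nat_lit 7) (nat_lit 5) (nat_lit 5) L59651 (by decide +kernel)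
theorem L59653 : W_10 (nat_lit 7) (nat_lit 0x200004001780090000000000000000000000000000000) (nat_lit 0x0) (nat_lit 0x7001b800000008000c00060000000000000000000000) := T_10 (nat_lit 159) (nat_lit 160) (nat_lit 3) (nat_lit 3) (nat_lit 8) L59652 (by decide +kernel)
theorem L59654 : W_10 (nat_lit 9) (nat_lit 0x200000001780090000000000000000000000000000000) (nat_lit 0x0) (nat_lit 0x18000f001f800000068001c00060000000000000000000000) := Q_10 (nat_lit 158) (C_10 L59601 (C_10 L59620 (C_10 L59653 N_10))) (by decide +kernel)
theorem L59655 : W_10 (nat_lit 2) (nat_lit 0x20000e001780094001c00000000000000000000000000) (nat_lit 0x0) (nat_lit 0x48002000000000000000000000000000) := D_10 (nat_lit 109) (nat_lit 126) (nat_lit 123) (nat_lit 3) (nat_lit 4) (nat_lit 6) (nat_lit 1) (nat_lit 7) (nat_lit 6) (by decide +kernel)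
theorem L59656 : W_10 (nat_lit 3) (nat_lit 0x20000e001780094001800000000000000000000000000) (nat_lit 0x0) (nat_lit 0x48002400020000000000000000000000) := T_10 (nat_lit 106) (nat_lit 89) (nat_lit 4) (nat_lit 5) (nat_lit 9) L59655 (by decide +kernel)
theorem L59657 : W_10 (nat_lit 4) (nat_lit 0x20000c001780094001800000000000000000000000000) (nat_lit 0x0) (nat_lit 0x40002000000048002400020000000000000000000000) := T_10 (nat_lit 157) (nat_lit 174) (nat_lit 5) (nat_lit 5) (nat_lit 6) L59656 (by decide +kernel)
theorem L59658 : W_10 (nat_lit 5) (nat_lit 0x20000c001780094000800000000000000000000000000) (nat_lit 0x0) (nat_lit 0x400020000000480034000a0000000000000000000000) := T_10 (nat_lit 108) (nat_lit 91) (nat_lit 6) (nat_lit 5) (nat_lit 9) L59657 (by decide +kernel)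
theorem L59659 : W_10 (nat_lit 6) (nat_lit 0x20000c001780094000000000000000000000000000000) (nat_lit 0x0) (nat_lit 0x40002000000048003c000e0000000000000000000000) := T_10 (nat_lit 107) (nat_lit 90) (nat_lit 7) (nat_lit 5) (nat_lit 5) L59658 (by decide +kernel)
theorem L59660 : W_10 (nat_lit 7) (nat_lit 0x200004001780094000000000000000000000000000000) (nat_lit 0x0) (nat_lit 0x4001a000000048003c000e0000000000000000000000) := T_10 (nat_lit 159) (nat_lit 160) (nat_lit 3) (nat_lit 3) (nat_lit 8) L59659 (by decide +kernel)
theorem L59661 : W_10 (nat_lit 8) (nat_lit 0x200004001780090000000000000000000000000000000) (nat_lit 0x0) (nat_lit 0x4001a00000004e003c000e0000000000000000000000) := T_10 (nat_lit 122) (nat_lit 121) (nat_lit 0) (nat_lit 6) (nat_lit 8) L59660 (by decide +kernel)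
theorem L59662 : W_10 (nat_lit 2) (nat_lit 0x20000c0017800b0000c00000000000000000000000000) (nat_lit 0x0) (nat_lit 0x1000080000000000008000000000000000000000000000000) := D_10 (nat_lit 175) (nat_lit 192) (nat_lit 123) (nat_lit 6) (nat_lit 5) (nat_lit 11) (nat_lit 4) (nat_lit 5) (nat_lit 10) (by decide +kernel)
theorem L59663 : W_10 (nat_lit 3) (nat_lit 0x20000c0017800b0000800000000000000000000000000) (nat_lit 0x0) (nat_lit 0x1000080000000000008000400020000000000000000000000) := T_10 (nat_lit 106) (nat_lit 89) (nat_lit 4) (nat_lit 5) (nat_lit 9) L59662 (by decide +kernel)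
theorem L59664 : W_10 (nat_lit 4) (nat_lit 0x20000c001780090000800000000000000000000000000) (nat_lit 0x0) (nat_lit 0x1000080000000000068000400020000000000000000000000) := T_10 (nat_lit 125) (nat_lit 126) (nat_lit 2) (nat_lit 3) (nat_lit 8) L59663 (by decide +kernel)
theorem L59665 : W_10 (nat_lit 5) (nat_lit 0x20000c001780090000000000000000000000000000000) (nat_lit 0x0) (nat_lit 0x1000080000000000068000c00060000000000000000000000) := T_10 (nat_lit 107) (nat_lit 90) (nat_lit 7) (nat_lit 5) (nat_lit 5) L59664 (by decide +kernel)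
theorem L59666 : W_10 (nat_lit 6) (nat_lit 0x200004001780090000000000000000000000000000000) (nat_lit 0x0) (nat_lit 0x1000080018000000068000c00060000000000000000000000) := T_10 (nat_lit 159) (nat_lit 160) (nat_lit 3) (nat_lit 3) (nat_lit 8) L59665 (by decide +kernel)
theorem L59667 : W_10 (nat_lit 2) (nat_lit 0x20000e001780094001c00000000000000000000000000) (nat_lit 0x0) (nat_lit 0x80000000000028000000000000000000000000000000) := D_10 (nat_lit 175) (nat_lit 125) (nat_lit 123) (nat_lit 6) (nat_lit 5) (nat_lit 10) (nat_lit 7) (nat_lit 4) (nat_lit 6) (by decide +kernel)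
theorem L59668 : W_10 (nat_lit 3) (nat_lit 0x20000e001780094000c00000000000000000000000000) (nat_lit 0x0) (nat_lit 0x80000000000028001000080000000000000000000000) := T_10 (nat_lit 108) (nat_lit 91) (nat_lit 6) (nat_lit 5) (nat_lit 9) L59667 (by decide +kernel)
theorem L59669 : W_10 (nat_lit 4) (nat_lit 0x20000e001780094000800000000000000000000000000) (nat_lit 0x0) (nat_lit 0x800000000000280014000a0000000000000000000000) := T_10 (nat_lit 106) (nat_lit 89) (nat_lit 4) (nat_lit 5) (nat_lit 9) L59668 (by decide +kernel)
theorem L59670 : W_10 (nat_lit 5) (nat_lit 0x20000c001780094000800000000000000000000000000) (nat_lit 0x0) (nat_lit 0xc00020000000280014000a0000000000000000000000) := T_10 (nat_lit 157) (nat_lit 174) (nat_lit 5) (nat_lit 5) (nat_lit 6) L59669 (by decide +kernel)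
theorem L59671 : W_10 (nat_lit 6) (nat_lit 0x20000c001780090000800000000000000000000000000) (nat_lit 0x0) (nat_lit 0xc000200000002e0014000a0000000000000000000000) := T_10 (nat_lit 122) (nat_lit 121) (nat_lit 0) (nat_lit 6) (nat_lit 8) L59670 (by decide +kernel)
theorem L59672 : W_10 (nat_lit 7) (nat_lit 0x20000c001780090000000000000000000000000000000) (nat_lit 0x0) (nat_lit 0xc000200000002e001c000e0000000000000000000000) := T_10 (nat_lit 107) (nat_lit 90) (nat_lit 7) (nat_lit 5) (nat_lit 5) L59671 (by decide +kernel)
theorem L59673 : W_10 (nat_lit 8) (nat_lit 0x200004001780090000000000000000000000000000000) (nat_lit 0x0) (nat_lit 0xc001a00000002e001c000e0000000000000000000000) := T_10 (nat_lit 159) (nat_lit 160) (nat_lit 3) (nat_lit 3) (nat_lit 8) L59672 (by decide +kernel)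
theorem L59674 : W_10 (nat_lit 9) (nat_lit 0x200000001780090000000000000000000000000000000) (nat_lit 0x0) (nat_lit 0x10000c001e00000006e003c000e0000000000000000000000) := Q_10 (nat_lit 158) (C_10 L59601 (C_10 L59661 (C_10 L59666 (C_10 L59673 N_10)))) (by decide +kernel)
theorem L59675 : W_10 (nat_lit 13) (nat_lit 0x200000001380090000000000000000000000000000000) (nat_lit 0x0) (nat_lit 0x1f800fc01f80040006e003c000e0006000000000000000000) := Q_10 (nat_lit 142) (C_10 L59598 (C_10 L59599 (C_10 L59621 (C_10 L59630 (C_10 L59586 (C_10 L59647 (C_10 L59654 (C_10 L59548 (C_10 L59674 N_10))))))))) (by decide +kernel)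
theorem L59676 : W_10 (nat_lit 14) (nat_lit 0x200000001300090000000000000000000000000000000) (nat_lit 0x0) (nat_lit 0x1f800fc01fe004e006f803d000e0006000000000000000000) := Q_10 (nat_lit 139) (C_10 L59533 (C_10 L59675 (C_10 L56196 N_10))) (by decide +kernel)
theorem L59677 : W_10 (nat_lit 8) (nat_lit 0x200000001380090000000000000000000000000000000) (nat_lit 0x0) (nat_lit 0x6c0016001f80040006e003c000c0004000000000000000000) := Q_10 (nat_lit 142) (C_10 L59598 (C_10 L59599 (C_10 L59502 (C_10 L59409 (C_10 L59294 N_10))))) (by decide +kernel)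
theorem L59678 : W_10 (nat_lit 9) (nat_lit 0x200000001300090000000000000000000000000000000) (nat_lit 0x0) (nat_lit 0x6c0016001fe004e006f803d000c0004000000000000000000) := Q_10 (nat_lit 139) (C_10 L59533 (C_10 L59677 (C_10 L56196 N_10))) (by decide +kernel)
theorem L59679 : W_10 (nat_lit 2) (nat_lit 0x2c00034013800d8000000000000000000000000000000) (nat_lit 0x0) (nat_lit 0x4000000000000400020000000000000000000000) := D_10 (nat_lit 106) (nat_lit 158) (nat_lit 89) (nat_lit 7) (nat_lit 4) (nat_lit 6) (nat_lit 5) (nat_lit 4) (nat_lit 5) (by decide +kernel)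
theorem L59680 : W_10 (nat_lit 3) (nat_lit 0x2c00034013800d0000000000000000000000000000000) (nat_lit 0x0) (nat_lit 0x1000000004000000008000400020000000000000000000000) := T_10 (nat_lit 123) (nat_lit 192) (nat_lit 7) (nat_lit 4) (nat_lit 7) L59679 (by decide +kernel)
theorem L59681 : W_10 (nat_lit 4) (nat_lit 0x2400034013800d0000000000000000000000000000000) (nat_lit 0x0) (nat_lit 0x1000180004000000008000400020000000000000000000000) := T_10 (nat_lit 175) (nat_lit 176) (nat_lit 0) (nat_lit 7) (nat_lit 10) L59680 (by decide +kernel)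
theorem L59682 : W_10 (nat_lit 5) (nat_lit 0x2000034013800d0000000000000000000000000000000) (nat_lit 0x0) (nat_lit 0x18001c0004000000008000400020000000000000000000000) := T_10 (nat_lit 174) (nat_lit 191) (nat_lit 6) (nat_lit 4) (nat_lit 11) L59681 (by decide +kernel)
theorem L59683 : W_10 (nat_lit 6) (nat_lit 0x2000030013800d0000000000000000000000000000000) (nat_lit 0x0) (nat_lit 0x18001c0004c00000008000400020000000000000000000000) := T_10 (nat_lit 154) (nat_lit 155) (nat_lit 2) (nat_lit 1) (nat_lit 9) L59682 (by decide +kernel)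
theorem L59684 : W_10 (nat_lit 7) (nat_lit 0x200003001380090000000000000000000000000000000) (nat_lit 0x0) (nat_lit 0x18001c0004c00000068000400020000000000000000000000) := T_10 (nat_lit 126) (nat_lit 125) (nat_lit 1) (nat_lit 8) (nat_lit 7) L59683 (by decide +kernel)
theorem L59685 : W_10 (nat_lit 2) (nat_lit 0x34000b0013800d0000000000000000000000000000000) (nat_lit 0x0) (nat_lit 0x2000000010000400000000000000000000000000000000000) := D_10 (nat_lit 142) (nat_lit 160) (nat_lit 193) (nat_lit 3) (nat_lit 3) (nat_lit 8) (nat_lit 4) (nat_lit 6) (nat_lit 11) (by decide +kernel)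
theorem L59686 : W_10 (nat_lit 3) (nat_lit 0x3400030013800d0000000000000000000000000000000) (nat_lit 0x0) (nat_lit 0x200000001c000400000000000000000000000000000000000) := T_10 (nat_lit 159) (nat_lit 158) (nat_lit 3) (nat_lit 3) (nat_lit 9) L59685 (by decide +kernel)
theorem L59687 : W_10 (nat_lit 4) (nat_lit 0x2400030013800d0000000000000000000000000000000) (nat_lit 0x0) (nat_lit 0x200018001c000400000000000000000000000000000000000) := T_10 (nat_lit 176) (nat_lit 175) (nat_lit 0) (nat_lit 7) (nat_lit 10) L59686 (by decide +kernel)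
theorem L59688 : W_10 (nat_lit 5) (nat_lit 0x240003001380090000000000000000000000000000000) (nat_lit 0x0) (nat_lit 0x200018001c000400060000000000000000000000000000000) := T_10 (nat_lit 126) (nat_lit 125) (nat_lit 1) (nat_lit 8) (nat_lit 7) L59687 (by decide +kernel)
theorem L59689 : W_10 (nat_lit 6) (nat_lit 0x200003001380090000000000000000000000000000000) (nat_lit 0x0) (nat_lit 0x28001c001c000400060000000000000000000000000000000) := T_10 (nat_lit 174) (nat_lit 191) (nat_lit 6) (nat_lit 4) (nat_lit 11) L59688 (by decide +kernel)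
theorem L59690 : W_10 (nat_lit 8) (nat_lit 0x200002001380090000000000000000000000000000000) (nat_lit 0x0) (nat_lit 0x38001c001dc00400068000400020000000000000000000000) := Q_10 (nat_lit 156) (C_10 L56658 (C_10 L59684 (C_10 L59689 N_10))) (by decide +kernel)
theorem L59691 : W_10 (nat_lit 2) (nat_lit 0x20000a001380090000000000000000000000000000000) (nat_lit 0x0) (nat_lit 0x14000400000000000000000000000000000000000) := D_10 (nat_lit 160) (nat_lit 158) (nat_lit 142) (nat_lit 0) (nat_lit 7) (nat_lit 9) (nat_lit 3) (nat_lit 3) (nat_lit 8) (by decide +kernel)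
theorem L59692 : W_10 (nat_lit 2) (nat_lit 0x20000f0013800d8000c00000000000000000000000000) (nat_lit 0x0) (nat_lit 0xc00400000000000000000000000000000000000) := D_10 (nat_lit 155) (nat_lit 142) (nat_lit 154) (nat_lit 2) (nat_lit 2) (nat_lit 9) (nat_lit 2) (nat_lit 1) (nat_lit 9) (by decide +kernel)
theorem L59693 : W_10 (nat_lit 3) (nat_lit 0x20000e0013800d8000c00000000000000000000000000) (nat_lit 0x0) (nat_lit 0x20001c00400000000000000000000000000000000000) := T_10 (nat_lit 156) (nat_lit 173) (nat_lit 5) (nat_lit 4) (nat_lit 6) L59692 (by decide +kernel)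
theorem L59694 : W_10 (nat_lit 4) (nat_lit 0x20000e0013800d0000c00000000000000000000000000) (nat_lit 0x0) (nat_lit 0xa0001c00400008000000000000000000000000000000) := T_10 (nat_lit 123) (nat_lit 175) (nat_lit 7) (nat_lit 4) (nat_lit 6) L59693 (by decide +kernel)
theorem L59695 : W_10 (nat_lit 5) (nat_lit 0x20000e0013800d0000800000000000000000000000000) (nat_lit 0x0) (nat_lit 0xa0001c00400008000400020000000000000000000000) := T_10 (nat_lit 106) (nat_lit 89) (nat_lit 4) (nat_lit 5) (nat_lit 9) L59694 (by decide +kernel)
theorem L59696 : W_10 (nat_lit 6) (nat_lit 0x20000a0013800d0000800000000000000000000000000) (nat_lit 0x0) (nat_lit 0x1a0005c00400008000400020000000000000000000000) := T_10 (nat_lit 158) (nat_lit 176) (nat_lit 7) (nat_lit 5) (nat_lit 6) L59695 (by decide +kernel)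
theorem L59697 : W_10 (nat_lit 7) (nat_lit 0x20000a0013800d0000000000000000000000000000000) (nat_lit 0x0) (nat_lit 0x1a0005c00400008000c00060000000000000000000000) := T_10 (nat_lit 107) (nat_lit 90) (nat_lit 5) (nat_lit 5) (nat_lit 5) L59696 (by decide +kernel)
theorem L59698 : W_10 (nat_lit 8) (nat_lit 0x20000a001380090000000000000000000000000000000) (nat_lit 0x0) (nat_lit 0x1a0005c00400068000c00060000000000000000000000) := T_10 (nat_lit 126) (nat_lit 125) (nat_lit 1) (nat_lit 8) (nat_lit 7) L59697 (by decide +kernel)
theorem L59699 : W_10 (nat_lit 7) (nat_lit 0x20000a001380090000000040000000000000000000000) (nat_lit 0x0) (nat_lit 0x8000400130015c00000068000000000000000000000000000000) := T_10 (nat_lit 158) (nat_lit 160) (nat_lit 0) (nat_lit 7) (nat_lit 9) L57347 (by decide +kernel)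
theorem L59700 : W_10 (nat_lit 8) (nat_lit 0x20000a001380090000000000000000000000000000000) (nat_lit 0x0) (nat_lit 0x8000400130015c00000068000800040000000000000000000000) := T_10 (nat_lit 90) (nat_lit 107) (nat_lit 5) (nat_lit 5) (nat_lit 5) L59699 (by decide +kernel)
theorem L59701 : W_10 (nat_lit 2) (nat_lit 0x20000a0017800b0000000040000000000000000000000) (nat_lit 0x0) (nat_lit 0x6000100000000000000000000000000000000000000000000) := D_10 (nat_lit 176) (nat_lit 193) (nat_lit 194) (nat_lit 4) (nat_lit 6) (nat_lit 11) (nat_lit 7) (nat_lit 6) (nat_lit 7) (by decide +kernel)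
theorem L59702 : W_10 (nat_lit 3) (nat_lit 0x20000a0013800b0000000040000000000000000000000) (nat_lit 0x0) (nat_lit 0x6000100010000400000000000000000000000000000000000) := T_10 (nat_lit 142) (nat_lit 160) (nat_lit 3) (nat_lit 3) (nat_lit 8) L59701 (by decide +kernel)
theorem L59703 : W_10 (nat_lit 4) (nat_lit 0x20000a0013800b0000000000000000000000000000000) (nat_lit 0x0) (nat_lit 0x6000100010000400000000800040000000000000000000000) := T_10 (nat_lit 90) (nat_lit 107) (nat_lit 5) (nat_lit 5) (nat_lit 5) L59702 (by decide +kernel)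
theorem L59704 : W_10 (nat_lit 5) (nat_lit 0x20000a001380090000000000000000000000000000000) (nat_lit 0x0) (nat_lit 0x6000100010000400060000800040000000000000000000000) := T_10 (nat_lit 125) (nat_lit 126) (nat_lit 1) (nat_lit 8) (nat_lit 7) L59703 (by decide +kernel)
theorem L59705 : W_10 (nat_lit 9) (nat_lit 0x200002001380090000000000000000000000000000000) (nat_lit 0x0) (nat_lit 0x80064001b001dc00400068000c00060000000000000000000000) := Q_10 (nat_lit 159) (C_10 L59691 (C_10 L59698 (C_10 L59700 (C_10 L59704 N_10)))) (by decide +kernel)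
theorem L59706 : W_10 (nat_lit 10) (nat_lit 0x200000001380090000000000000000000000000000000) (nat_lit 0x0) (nat_lit 0x8007c001f001fc00400068000c00060000000000000000000000) := Q_10 (nat_lit 157) (C_10 L59332 (C_10 L59690 (C_10 L59705 (C_10 L56228 N_10)))) (by decide +kernel)
theorem L59707 : W_10 (nat_lit 11) (nat_lit 0x200000001300090000000000000000000000000000000) (nat_lit 0x0) (nat_lit 0x8007c001f001fe004e006b800d00060000000000000000000000) := Q_10 (nat_lit 139) (C_10 L59533 (C_10 L59706 (C_10 L56196 N_10))) (by decide +kernel)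
theorem L59708 : W_10 (nat_lit 16) (nat_lit 0x200000001300080000000000000000000000000000000) (nat_lit 0x0) (nat_lit 0x20007800ff801fc03fe004e007f803d007e000f00038001c000000000) := Q_10 (nat_lit 124) (C_10 L59577 (C_10 L58241 (C_10 L59318 (C_10 L59579 (C_10 L59580 (C_10 L59593 (C_10 L59676 (C_10 L58580 (C_10 L59678 (C_10 L59707 N_10)))))))))) (by decide +kernel)
theorem L59709 : W_10 (nat_lit 2) (nat_lit 0x2000000017800b4000800000000000000000000000000) (nat_lit 0x0) (nat_lit 0x100018000000000000000000000000000000000000000) := D_10 (nat_lit 159) (nat_lit 160) (nat_lit 176) (nat_lit 3) (nat_lit 3) (nat_lit 8) (nat_lit 4) (nat_lit 6) (nat_lit 10) (by decide +kernel)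
theorem L59710 : W_10 (nat_lit 3) (nat_lit 0x2000000013800b4000800000000000000000000000000) (nat_lit 0x0) (nat_lit 0x100018000400002000000000000000000000000000000) := T_10 (nat_lit 142) (nat_lit 121) (nat_lit 0) (nat_lit 6) (nat_lit 8) L59709 (by decide +kernel)
theorem L59711 : W_10 (nat_lit 4) (nat_lit 0x2000000013000b4000800000000000000000000000000) (nat_lit 0x0) (nat_lit 0x1000180004c0002000000000000000000000000000000) := T_10 (nat_lit 139) (nat_lit 138) (nat_lit 2) (nat_lit 2) (nat_lit 8) L59710 (by decide +kernel)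
theorem L59712 : W_10 (nat_lit 5) (nat_lit 0x200000001300094000800000000000000000000000000) (nat_lit 0x0) (nat_lit 0x1000180004c0062000000000000000000000000000000) := T_10 (nat_lit 125) (nat_lit 126) (nat_lit 1) (nat_lit 8) (nat_lit 7) L59711 (by decide +kernel)
theorem L59713 : W_10 (nat_lit 2) (nat_lit 0x200000001380096000800000000000000000000000000) (nat_lit 0x0) (nat_lit 0x40001800000000000000000000000000000) := D_10 (nat_lit 120) (nat_lit 138) (nat_lit 119) (nat_lit 0) (nat_lit 5) (nat_lit 8) (nat_lit 3) (nat_lit 0) (nat_lit 7) (by decide +kernel)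
theorem L59714 : W_10 (nat_lit 3) (nat_lit 0x200000001300096000800000000000000000000000000) (nat_lit 0x0) (nat_lit 0x4c0001800000000000000000000000000000) := T_10 (nat_lit 139) (nat_lit 142) (nat_lit 0) (nat_lit 6) (nat_lit 8) L59713 (by decide +kernel)
theorem L59715 : W_10 (nat_lit 2) (nat_lit 0x200000001300096000800000000000000000000000000) (nat_lit 0x0) (nat_lit 0x9001000000000000000000000000000) := D_10 (nat_lit 123) (nat_lit 120) (nat_lit 108) (nat_lit 3) (nat_lit 1) (nat_lit 7) (nat_lit 2) (nat_lit 2) (nat_lit 7) (by decide +kernel)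
theorem L59716 : W_10 (nat_lit 2) (nat_lit 0x200000001300096000800000000000000000000000000) (nat_lit 0x0) (nat_lit 0x400008001000000000000000000000000000) := D_10 (nat_lit 123) (nat_lit 142) (nat_lit 108) (nat_lit 3) (nat_lit 2) (nat_lit 7) (nat_lit 2) (nat_lit 2) (nat_lit 7) (by decide +kernel)
theorem L59717 : W_10 (nat_lit 4) (nat_lit 0x200000001300094000800000000000000000000000000) (nat_lit 0x0) (nat_lit 0x4c000b801000000000000000000000000000) := Q_10 (nat_lit 121) (C_10 L59714 (C_10 L59715 (C_10 L59716 N_10))) (by decide +kernel)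
theorem L59718 : W_10 (nat_lit 2) (nat_lit 0x200002001300094000800000000000000000000000000) (nat_lit 0x0) (nat_lit 0x800040000000000008000000000000000000000000000000) := D_10 (nat_lit 174) (nat_lit 123) (nat_lit 191) (nat_lit 6) (nat_lit 4) (nat_lit 10) (nat_lit 6) (nat_lit 4) (nat_lit 11) (by decide +kernel)
theorem L59719 : W_10 (nat_lit 2) (nat_lit 0x8002200030013800b4000b00000000000000000000000000) (nat_lit 0x0) (nat_lit 0x18000400000000000000000000000000000000000000000000000) := D_10 (nat_lit 190) (nat_lit 207) (nat_lit 208) (nat_lit 6) (nat_lit 3) (nat_lit 12) (nat_lit 7) (nat_lit 3) (nat_lit 8) (by decide +kernel)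
theorem L59720 : W_10 (nat_lit 3) (nat_lit 0x8002000030013800b4000b00000000000000000000000000) (nat_lit 0x0) (nat_lit 0x18000400020000000000002000000000000000000000000000000) := T_10 (nat_lit 173) (nat_lit 121) (nat_lit 4) (nat_lit 3) (nat_lit 10) L59719 (by decide +kernel)
theorem L59721 : W_10 (nat_lit 4) (nat_lit 0x8002000020013800b4000b00000000000000000000000000) (nat_lit 0x0) (nat_lit 0x18000400020001000000002000000008000000000000000000000) := T_10 (nat_lit 156) (nat_lit 87) (nat_lit 4) (nat_lit 3) (nat_lit 9) L59720 (by decide +kernel)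
theorem L59722 : W_10 (nat_lit 5) (nat_lit 0x8002000020013800b4000a00000000000000000000000000) (nat_lit 0x0) (nat_lit 0x18000400020001000000002000500008000000000000000000000) := T_10 (nat_lit 104) (nat_lit 106) (nat_lit 3) (nat_lit 2) (nat_lit 6) L59721 (by decide +kernel)
theorem L59723 : W_10 (nat_lit 6) (nat_lit 0x8002000020013800b4000800000000000000000000000000) (nat_lit 0x0) (nat_lit 0x18000400020001000000002000700018000000000000000000000) := T_10 (nat_lit 105) (nat_lit 88) (nat_lit 7) (nat_lit 3) (nat_lit 5) L59722 (by decide +kernel)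
theorem L59724 : W_10 (nat_lit 7) (nat_lit 0x8002000020013000b4000800000000000000000000000000) (nat_lit 0x0) (nat_lit 0x180004000200010000c0002000700018000000000000000000000) := T_10 (nat_lit 139) (nat_lit 138) (nat_lit 2) (nat_lit 2) (nat_lit 8) L59723 (by decide +kernel)
theorem L59725 : W_10 (nat_lit 8) (nat_lit 0x2000020013000b4000800000000000000000000000000) (nat_lit 0x0) (nat_lit 0x18000c000600010000c0002000700018000000000000000000000) := T_10 (nat_lit 191) (nat_lit 174) (nat_lit 6) (nat_lit 4) (nat_lit 11) L59724 (by decide +kernel)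
theorem L59726 : W_10 (nat_lit 9) (nat_lit 0x200002001300094000800000000000000000000000000) (nat_lit 0x0) (nat_lit 0x18000c000600010000c0062000700018000000000000000000000) := T_10 (nat_lit 125) (nat_lit 126) (nat_lit 1) (nat_lit 8) (nat_lit 7) L59725 (by decide +kernel)
theorem L59727 : W_10 (nat_lit 2) (nat_lit 0x2000020013800b4000a00000000000000000000000000) (nat_lit 0x0) (nat_lit 0x8000500000000000000000000000000) := D_10 (nat_lit 104) (nat_lit 106) (nat_lit 123) (nat_lit 3) (nat_lit 2) (nat_lit 6) (nat_lit 0) (nat_lit 6) (nat_lit 7) (by decide +kernel)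
theorem L59728 : W_10 (nat_lit 3) (nat_lit 0x2000020013800b4000800000000000000000000000000) (nat_lit 0x0) (nat_lit 0x8000700010000000000000000000000) := T_10 (nat_lit 105) (nat_lit 88) (nat_lit 7) (nat_lit 3) (nat_lit 5) L59727 (by decide +kernel)
theorem L59729 : W_10 (nat_lit 4) (nat_lit 0x2000020013000b4000800000000000000000000000000) (nat_lit 0x0) (nat_lit 0xc0008000700010000000000000000000000) := T_10 (nat_lit 139) (nat_lit 138) (nat_lit 2) (nat_lit 2) (nat_lit 8) L59728 (by decide +kernel)
theorem L59730 : W_10 (nat_lit 5) (nat_lit 0x200002001300094000800000000000000000000000000) (nat_lit 0x0) (nat_lit 0xc0068000700010000000000000000000000) := T_10 (nat_lit 125) (nat_lit 126) (nat_lit 1) (nat_lit 8) (nat_lit 7) L59729 (by decide +kernel)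
theorem L59731 : W_10 (nat_lit 10) (nat_lit 0x200000001300094000800000000000000000000000000) (nat_lit 0x0) (nat_lit 0x18000c000600030000c006a000700018000000000000000000000) := Q_10 (nat_lit 157) (C_10 L59718 (C_10 L59726 (C_10 L59730 N_10))) (by decide +kernel)
theorem L59732 : W_10 (nat_lit 8) (nat_lit 0x200000001300094000800000000000000000000000000) (nat_lit 0x0) (nat_lit 0x40006b003700198004800000000000000000) := Q_10 (nat_lit 123) (C_10 L58146 (C_10 L58147 N_10)) (by decide +kernel)
theorem L59733 : W_10 (nat_lit 2) (nat_lit 0x2400020013800b4000800000000000000000000000000) (nat_lit 0x0) (nat_lit 0x1000000000000200010000000000000000000000) := D_10 (nat_lit 105) (nat_lit 88) (nat_lit 156) (nat_lit 7) (nat_lit 3) (nat_lit 5) (nat_lit 7) (nat_lit 3) (nat_lit 6) (by decide +kernel)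
theorem L59734 : W_10 (nat_lit 3) (nat_lit 0x2400020013000b4000800000000000000000000000000) (nat_lit 0x0) (nat_lit 0x10000c0000000200010000000000000000000000) := T_10 (nat_lit 139) (nat_lit 138) (nat_lit 2) (nat_lit 2) (nat_lit 8) L59733 (by decide +kernel)
theorem L59735 : W_10 (nat_lit 4) (nat_lit 0x2000020013000b4000800000000000000000000000000) (nat_lit 0x0) (nat_lit 0x8000400010000c0000000200010000000000000000000000) := T_10 (nat_lit 174) (nat_lit 191) (nat_lit 6) (nat_lit 4) (nat_lit 11) L59734 (by decide +kernel)
theorem L59736 : W_10 (nat_lit 5) (nat_lit 0x200002001300094000800000000000000000000000000) (nat_lit 0x0) (nat_lit 0x8000400010000c0060000200010000000000000000000000) := T_10 (nat_lit 125) (nat_lit 126) (nat_lit 1) (nat_lit 8) (nat_lit 7) L59735 (by decide +kernel)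
theorem L59737 : W_10 (nat_lit 6) (nat_lit 0x200000001300094000800000000000000000000000000) (nat_lit 0x0) (nat_lit 0x8000400030000c0068000700010000000000000000000000) := Q_10 (nat_lit 157) (C_10 L59736 (C_10 L59718 (C_10 L59730 N_10))) (by decide +kernel)
theorem L59738 : W_10 (nat_lit 11) (nat_lit 0x200000001300090000800000000000000000000000000) (nat_lit 0x0) (nat_lit 0x18000c0016001b0004c006f803700198004800000000000000000) := Q_10 (nat_lit 122) (C_10 L59712 (C_10 L59717 (C_10 L59731 (C_10 L59732 (C_10 L59737 N_10))))) (by decide +kernel)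
theorem L59739 : W_10 (nat_lit 14) (nat_lit 0x200000001300090000000000000000000000000000000) (nat_lit 0x0) (nat_lit 0x18000c0016001b0004c006f803f003f800fc003e0017000000000) := Q_10 (nat_lit 107) (C_10 L59317 (C_10 L58585 (C_10 L58320 (C_10 L59738 (C_10 L56365 N_10))))) (by decide +kernel)
theorem L59740 : W_10 (nat_lit 2) (nat_lit 0x2400060013c0096000000000000000000000000000000) (nat_lit 0x0) (nat_lit 0x1000000000000200010000000000000000000000) := D_10 (nat_lit 105) (nat_lit 88) (nat_lit 156) (nat_lit 7) (nat_lit 3) (nat_lit 5) (nat_lit 7) (nat_lit 3) (nat_lit 6) (by decide +kernel)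
theorem L59741 : W_10 (nat_lit 3) (nat_lit 0x2000060013c0096000000000000000000000000000000) (nat_lit 0x0) (nat_lit 0x800040001000000000000200010000000000000000000000) := T_10 (nat_lit 174) (nat_lit 191) (nat_lit 6) (nat_lit 4) (nat_lit 11) L59740 (by decide +kernel)
theorem L59742 : W_10 (nat_lit 4) (nat_lit 0x2000060013c0092000000000000000000000000000000) (nat_lit 0x0) (nat_lit 0x800040001000400004000200010000000000000000000000) := T_10 (nat_lit 122) (nat_lit 142) (nat_lit 0) (nat_lit 6) (nat_lit 8) L59741 (by decide +kernel)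
theorem L59743 : W_10 (nat_lit 5) (nat_lit 0x2000040013c0092000000000000000000000000000000) (nat_lit 0x0) (nat_lit 0x800040003000420004000200010000000000000000000000) := T_10 (nat_lit 157) (nat_lit 137) (nat_lit 3) (nat_lit 1) (nat_lit 8) L59742 (by decide +kernel)
theorem L59744 : W_10 (nat_lit 6) (nat_lit 0x2000000013c0092000000000000000000000000000000) (nat_lit 0x0) (nat_lit 0x80004000f000420004000200010000000000000000000000) := T_10 (nat_lit 158) (nat_lit 159) (nat_lit 3) (nat_lit 2) (nat_lit 8) L59743 (by decide +kernel)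
theorem L59745 : W_10 (nat_lit 7) (nat_lit 0x2000000013c0090000000000000000000000000000000) (nat_lit 0x0) (nat_lit 0x80004000f000420007000200010000000000000000000000) := T_10 (nat_lit 121) (nat_lit 120) (nat_lit 0) (nat_lit 5) (nat_lit 8) L59744 (by decide +kernel)
theorem L59746 : W_10 (nat_lit 2) (nat_lit 0x2000000013e0090000000000000000000000000000000) (nat_lit 0x0) (nat_lit 0xe000000000000000000000000000000000000000) := D_10 (nat_lit 158) (nat_lit 159) (nat_lit 157) (nat_lit 3) (nat_lit 2) (nat_lit 8) (nat_lit 3) (nat_lit 1) (nat_lit 8) (by decide +kernel)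
theorem L59747 : W_10 (nat_lit 3) (nat_lit 0x2000000013c0090000000000000000000000000000000) (nat_lit 0x0) (nat_lit 0xe000020008000000000000000000000000000000) := T_10 (nat_lit 137) (nat_lit 123) (nat_lit 2) (nat_lit 1) (nat_lit 8) L59746 (by decide +kernel)
theorem L59748 : W_10 (nat_lit 2) (nat_lit 0x2000080013c0092000000000000000000000000000000) (nat_lit 0x0) (nat_lit 0x10000400004000000000000000000000000000000) := D_10 (nat_lit 142) (nat_lit 122) (nat_lit 160) (nat_lit 0) (nat_lit 6) (nat_lit 8) (nat_lit 3) (nat_lit 3) (nat_lit 8) (by decide +kernel)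
theorem L59749 : W_10 (nat_lit 3) (nat_lit 0x2000000013c0092000000000000000000000000000000) (nat_lit 0x0) (nat_lit 0x1c000400004000000000000000000000000000000) := T_10 (nat_lit 159) (nat_lit 158) (nat_lit 3) (nat_lit 2) (nat_lit 8) L59748 (by decide +kernel)
theorem L59750 : W_10 (nat_lit 4) (nat_lit 0x2000000013c0090000000000000000000000000000000) (nat_lit 0x0) (nat_lit 0x1c000400007000000000000000000000000000000) := T_10 (nat_lit 121) (nat_lit 120) (nat_lit 0) (nat_lit 5) (nat_lit 8) L59749 (by decide +kernel)
theorem L59751 : W_10 (nat_lit 8) (nat_lit 0x200000001380090000000000000000000000000000000) (nat_lit 0x0) (nat_lit 0x80004001f00046000f800200010000000000000000000000) := Q_10 (nat_lit 138) (C_10 L59745 (C_10 L55572 (C_10 L59747 (C_10 L59750 N_10)))) (by decide +kernel)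
theorem L59752 : W_10 (nat_lit 2) (nat_lit 0x2000080017800b4000000000000000000000000000000) (nat_lit 0x0) (nat_lit 0x6000100000000000000000000000000000000000000000000) := D_10 (nat_lit 176) (nat_lit 193) (nat_lit 194) (nat_lit 4) (nat_lit 6) (nat_lit 11) (nat_lit 7) (nat_lit 6) (nat_lit 7) (by decide +kernel)
theorem L59753 : W_10 (nat_lit 3) (nat_lit 0x2000000017800b4000000000000000000000000000000) (nat_lit 0x0) (nat_lit 0x6000100018000000000000000000000000000000000000000) := T_10 (nat_lit 159) (nat_lit 160) (nat_lit 3) (nat_lit 3) (nat_lit 8) L59752 (by decide +kernel)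
theorem L59754 : W_10 (nat_lit 4) (nat_lit 0x200000001780094000000000000000000000000000000) (nat_lit 0x0) (nat_lit 0x6000100018000000060000000000000000000000000000000) := T_10 (nat_lit 125) (nat_lit 126) (nat_lit 2) (nat_lit 3) (nat_lit 8) L59753 (by decide +kernel)
theorem L59755 : W_10 (nat_lit 5) (nat_lit 0x200000001380094000000000000000000000000000000) (nat_lit 0x0) (nat_lit 0x6000100018000400062000000000000000000000000000000) := T_10 (nat_lit 142) (nat_lit 121) (nat_lit 0) (nat_lit 6) (nat_lit 8) L59754 (by decide +kernel)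
theorem L59756 : W_10 (nat_lit 2) (nat_lit 0x20000f0013800bc001200020004000000000000000000) (nat_lit 0x0) (nat_lit 0x400030000000000000000000000000000000000000000000) := D_10 (nat_lit 173) (nat_lit 172) (nat_lit 190) (nat_lit 1) (nat_lit 6) (nat_lit 9) (nat_lit 6) (nat_lit 3) (nat_lit 11) (by decide +kernel)
theorem L59757 : W_10 (nat_lit 3) (nat_lit 0x20000e0013800bc001200020004000000000000000000) (nat_lit 0x0) (nat_lit 0x400130001000000000000000000000000000000000000000) := T_10 (nat_lit 156) (nat_lit 176) (nat_lit 3) (nat_lit 3) (nat_lit 9) L59756 (by decide +kernel)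
theorem L59758 : W_10 (nat_lit 4) (nat_lit 0x20000e0013800bc001200000004000000000000000000) (nat_lit 0x0) (nat_lit 0x400130001000000000000400020000000000000000000000) := T_10 (nat_lit 89) (nat_lit 106) (nat_lit 7) (nat_lit 4) (nat_lit 5) L59757 (by decide +kernel)
theorem L59759 : W_10 (nat_lit 5) (nat_lit 0x2000060013800bc001200000004000000000000000000) (nat_lit 0x0) (nat_lit 0x400130019000000000000400020000000000000000000000) := T_10 (nat_lit 159) (nat_lit 160) (nat_lit 0) (nat_lit 7) (nat_lit 9) L59758 (by decide +kernel)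
theorem L59760 : W_10 (nat_lit 6) (nat_lit 0x2000060013800bc001200000000000000000000000000) (nat_lit 0x0) (nat_lit 0x4001300190000000000004000a0004000000000000000000) := T_10 (nat_lit 74) (nat_lit 91) (nat_lit 5) (nat_lit 6) (nat_lit 4) L59759 (by decide +kernel)
theorem L59761 : W_10 (nat_lit 7) (nat_lit 0x2000020013800bc001200000000000000000000000000) (nat_lit 0x0) (nat_lit 0x4001b001d0000000000004000a0004000000000000000000) := T_10 (nat_lit 158) (nat_lit 175) (nat_lit 6) (nat_lit 5) (nat_lit 10) L59760 (by decide +kernel)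
theorem L59762 : W_10 (nat_lit 8) (nat_lit 0x2000000013800bc001200000000000000000000000000) (nat_lit 0x0) (nat_lit 0x4001f001f0000000000004000a0004000000000000000000) := T_10 (nat_lit 157) (nat_lit 174) (nat_lit 4) (nat_lit 4) (nat_lit 10) L59761 (by decide +kernel)
theorem L59763 : W_10 (nat_lit 9) (nat_lit 0x2000000013800bc000200000000000000000000000000) (nat_lit 0x0) (nat_lit 0x4001f001f0000000000034000a0004000000000000000000) := T_10 (nat_lit 108) (nat_lit 109) (nat_lit 2) (nat_lit 3) (nat_lit 7) L59762 (by decide +kernel)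
theorem L59764 : W_10 (nat_lit 10) (nat_lit 0x2000000013800b4000200000000000000000000000000) (nat_lit 0x0) (nat_lit 0x4001f001f0000000080035000a0004000000000000000000) := T_10 (nat_lit 123) (nat_lit 104) (nat_lit 0) (nat_lit 6) (nat_lit 7) L59763 (by decide +kernel)
theorem L59765 : W_10 (nat_lit 11) (nat_lit 0x200000001380094000200000000000000000000000000) (nat_lit 0x0) (nat_lit 0x4001f001f0000000680035000a0004000000000000000000) := T_10 (nat_lit 125) (nat_lit 126) (nat_lit 1) (nat_lit 8) (nat_lit 7) L59764 (by decide +kernel)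
theorem L59766 : W_10 (nat_lit 12) (nat_lit 0x200000001380094000000000000000000000000000000) (nat_lit 0x0) (nat_lit 0x4001f001f00000006b0037000b8005c000a0000000000000) := Q_10 (nat_lit 105) (C_10 L59438 (C_10 L56499 (C_10 L56503 (C_10 L59765 N_10)))) (by decide +kernel)
theorem L59767 : W_10 (nat_lit 13) (nat_lit 0x200000001380090000000000000000000000000000000) (nat_lit 0x0) (nat_lit 0x64001f001f00040006f8037000b8005c000a0000000000000) := Q_10 (nat_lit 122) (C_10 L56519 (C_10 L56568 (C_10 L59755 (C_10 L59766 N_10)))) (by decide +kernel)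
theorem L59768 : W_10 (nat_lit 14) (nat_lit 0x200000001300090000000000000000000000000000000) (nat_lit 0x0) (nat_lit 0x6c001f001f0004e006f8037000b8005c000a0000000000000) := Q_10 (nat_lit 139) (C_10 L59751 (C_10 L59767 (C_10 L56196 N_10))) (by decide +kernel)
theorem L59769 : W_10 (nat_lit 15) (nat_lit 0x200000001300080000000000000000000000000000000) (nat_lit 0x0) (nat_lit 0x7800fc001f003f0004e007f803f803fc00fc003e001f000000000) := Q_10 (nat_lit 124) (C_10 L59739 (C_10 L58241 (C_10 L59318 (C_10 L59579 (C_10 L58333 (C_10 L59768 (C_10 L59498 (C_10 L59515 (C_10 L59516 (C_10 L58443 N_10)))))))))) (by decide +kernel)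
theorem L59770 : W_10 (nat_lit 14) (nat_lit 0x200000001380080000000000000000000000000000000) (nat_lit 0x0) (nat_lit 0x70001e001f80040007e003fc01f800df004a0000000000000) := Q_10 (nat_lit 142) (C_10 L58982 (C_10 L57003 (C_10 L57948 (C_10 L55994 (C_10 L57008 N_10))))) (by decide +kernel)
theorem L59771 : W_10 (nat_lit 15) (nat_lit 0x200000001300080000000000000000000000000000000) (nat_lit 0x0) (nat_lit 0x76001f801fe004f007f803fc01fc00df004a0000000000000) := Q_10 (nat_lit 139) (C_10 L56865 (C_10 L58974 (C_10 L56085 (C_10 L57933 (C_10 L59770 (C_10 L57939 N_10)))))) (by decide +kernel)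
theorem L59772 : W_10 (nat_lit 15) (nat_lit 0x200000001300090000000000000000000000000000000) (nat_lit 0x0) (nat_lit 0x7e001f001be004e006f803e007c000e000000000000000000) := Q_10 (nat_lit 139) (C_10 L59429 (C_10 L59576 (C_10 L56196 N_10))) (by decide +kernel)
theorem L59773 : W_10 (nat_lit 10) (nat_lit 0x200000001300090000000000000000000000000000000) (nat_lit 0x0) (nat_lit 0xfe001f003de004e006f803e000c0006000000000000000000) := Q_10 (nat_lit 139) (C_10 L59429 (C_10 L59380 (C_10 L56196 N_10))) (by decide +kernel)
theorem L59774 : W_10 (nat_lit 14) (nat_lit 0x200000001300090000000000000000000000000000000) (nat_lit 0x0) (nat_lit 0x7f801fc01fe004e006f803600090004000000000000000000) := Q_10 (nat_lit 139) (C_10 L59751 (C_10 L59592 (C_10 L59429 (C_10 L56196 N_10)))) (by decide +kernel)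
theorem L59775 : W_10 (nat_lit 14) (nat_lit 0x200000001300090000000000000000000000000000000) (nat_lit 0x0) (nat_lit 0x1f800fc01fe004e006f803e000f0006000000000000000000) := Q_10 (nat_lit 139) (C_10 L59751 (C_10 L59675 (C_10 L59429 (C_10 L56196 N_10)))) (by decide +kernel)
theorem L59776 : W_10 (nat_lit 9) (nat_lit 0x200000001300090000000000000000000000000000000) (nat_lit 0x0) (nat_lit 0x6e0017001fe004e006f803e000d0004000000000000000000) := Q_10 (nat_lit 139) (C_10 L59751 (C_10 L59677 (C_10 L59429 (C_10 L59351 (C_10 L56196 N_10))))) (by decide +kernel)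
theorem L59777 : W_10 (nat_lit 11) (nat_lit 0x200000001300090000000000000000000000000000000) (nat_lit 0x0) (nat_lit 0x8007e001f001fe004e006f800e00070000000000000000000000) := Q_10 (nat_lit 139) (C_10 L59751 (C_10 L59706 (C_10 L59429 (C_10 L59351 (C_10 L56196 N_10))))) (by decide +kernel)
theorem L59778 : W_10 (nat_lit 16) (nat_lit 0x200000001300080000000000000000000000000000000) (nat_lit 0x0) (nat_lit 0x20007800ff801fc03fe004e007f803e007f000f00038001c000000000) := Q_10 (nat_lit 124) (C_10 L59772 (C_10 L58241 (C_10 L59318 (C_10 L59579 (C_10 L59773 (C_10 L59774 (C_10 L59775 (C_10 L58580 (C_10 L59776 (C_10 L59777 N_10)))))))))) (by decide +kernel)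
theorem L59779 : W_10 (nat_lit 2) (nat_lit 0x40020000d0017800b8001400000000000000000000000000) (nat_lit 0x0) (nat_lit 0x4002000100000000000000000000000) := D_10 (nat_lit 109) (nat_lit 92) (nat_lit 122) (nat_lit 6) (nat_lit 6) (nat_lit 9) (nat_lit 2) (nat_lit 3) (nat_lit 7) (by decide +kernel)
theorem L59780 : W_10 (nat_lit 3) (nat_lit 0x40020000d0017800b8000400000000000000000000000000) (nat_lit 0x0) (nat_lit 0x4003000180000000000000000000000) := T_10 (nat_lit 108) (nat_lit 91) (nat_lit 5) (nat_lit 6) (nat_lit 5) L59779 (by decide +kernel)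
theorem L59781 : W_10 (nat_lit 4) (nat_lit 0x4002000090017800b8000400000000000000000000000000) (nat_lit 0x0) (nat_lit 0x80004000000004003000180000000000000000000000) := T_10 (nat_lit 158) (nat_lit 175) (nat_lit 4) (nat_lit 5) (nat_lit 10) L59780 (by decide +kernel)
theorem L59782 : W_10 (nat_lit 5) (nat_lit 0x4002000090017800b8000000000000000000000000000000) (nat_lit 0x0) (nat_lit 0x800040000000040034001a0000000000000000000000) := T_10 (nat_lit 106) (nat_lit 89) (nat_lit 5) (nat_lit 4) (nat_lit 5) L59781 (by decide +kernel)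
theorem L59783 : W_10 (nat_lit 6) (nat_lit 0x2000090017800b8000000000000000000000000000000) (nat_lit 0x0) (nat_lit 0x4000a00040000000040034001a0000000000000000000000) := T_10 (nat_lit 190) (nat_lit 173) (nat_lit 6) (nat_lit 3) (nat_lit 11) L59782 (by decide +kernel)
theorem L59784 : W_10 (nat_lit 7) (nat_lit 0x2000010017800b8000000000000000000000000000000) (nat_lit 0x0) (nat_lit 0x4000a001c0000000040034001a0000000000000000000000) := T_10 (nat_lit 159) (nat_lit 160) (nat_lit 3) (nat_lit 3) (nat_lit 8) L59783 (by decide +kernel)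
theorem L59785 : W_10 (nat_lit 8) (nat_lit 0x2000000017800b8000000000000000000000000000000) (nat_lit 0x0) (nat_lit 0x4000a001d8000000040034001a0000000000000000000000) := T_10 (nat_lit 156) (nat_lit 155) (nat_lit 1) (nat_lit 6) (nat_lit 8) L59784 (by decide +kernel)
theorem L59786 : W_10 (nat_lit 9) (nat_lit 0x200000001780098000000000000000000000000000000) (nat_lit 0x0) (nat_lit 0x4000a001d8000000640034001a0000000000000000000000) := T_10 (nat_lit 125) (nat_lit 126) (nat_lit 2) (nat_lit 3) (nat_lit 8) L59785 (by decide +kernel)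
theorem L59787 : W_10 (nat_lit 2) (nat_lit 0x2200010017800d8000000000000000000000000000000) (nat_lit 0x0) (nat_lit 0x2000000000000400020000000000000000000000) := D_10 (nat_lit 106) (nat_lit 89) (nat_lit 157) (nat_lit 5) (nat_lit 4) (nat_lit 5) (nat_lit 5) (nat_lit 4) (nat_lit 6) (by decide +kernel)
theorem L59788 : W_10 (nat_lit 3) (nat_lit 0x2000010017800d8000000000000000000000000000000) (nat_lit 0x0) (nat_lit 0x400020002000000000000400020000000000000000000000) := T_10 (nat_lit 173) (nat_lit 190) (nat_lit 6) (nat_lit 3) (nat_lit 11) L59787 (by decide +kernel)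
theorem L59789 : W_10 (nat_lit 4) (nat_lit 0x200001001780098000000000000000000000000000000) (nat_lit 0x0) (nat_lit 0x400020002000000060000400020000000000000000000000) := T_10 (nat_lit 126) (nat_lit 125) (nat_lit 2) (nat_lit 3) (nat_lit 8) L59788 (by decide +kernel)
theorem L59790 : W_10 (nat_lit 5) (nat_lit 0x200000001780098000000000000000000000000000000) (nat_lit 0x0) (nat_lit 0x400020003800000060000400020000000000000000000000) := T_10 (nat_lit 156) (nat_lit 155) (nat_lit 1) (nat_lit 6) (nat_lit 8) L59789 (by decide +kernel)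
theorem L59791 : W_10 (nat_lit 10) (nat_lit 0x200000001780090000000000000000000000000000000) (nat_lit 0x0) (nat_lit 0x4000a001f80000006e0034001a0004000000000000000000) := Q_10 (nat_lit 123) (C_10 L59786 (C_10 L59279 (C_10 L59590 (C_10 L59790 N_10)))) (by decide +kernel)
theorem L59792 : W_10 (nat_lit 11) (nat_lit 0x200000001380090000000000000000000000000000000) (nat_lit 0x0) (nat_lit 0x7c001e001f80040006e0034001a0004000000000000000000) := Q_10 (nat_lit 142) (C_10 L59387 (C_10 L59591 (C_10 L59409 (C_10 L59791 (C_10 L59294 N_10))))) (by decide +kernel)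
theorem L59793 : W_10 (nat_lit 12) (nat_lit 0x200000001300090000000000000000000000000000000) (nat_lit 0x0) (nat_lit 0x7c001e001fe004e006f8037001b0004000000000000000000) := Q_10 (nat_lit 139) (C_10 L59751 (C_10 L59792 (C_10 L59533 (C_10 L56196 N_10)))) (by decide +kernel)
theorem L59794 : W_10 (nat_lit 15) (nat_lit 0x200000001300080000000000000000000000000000000) (nat_lit 0x0) (nat_lit 0x7800fc001e003fe004e007f803f803fc00fc003e0017000000000) := Q_10 (nat_lit 124) (C_10 L59739 (C_10 L58241 (C_10 L59318 (C_10 L59579 (C_10 L59580 (C_10 L59793 (C_10 L59498 (C_10 L59515 (C_10 L59516 (C_10 L59352 N_10)))))))))) (by decide +kernel)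
theorem L59795 : W_10 (nat_lit 17) (nat_lit 0x200000001200080000000000000000000000000000000) (nat_lit 0x0) (nat_lit 0x38001f800ff00ff801fc03fe005f037f83bfc07fe01ff007e001f000200000) := Q_10 (nat_lit 140) (C_10 L55519 (C_10 L55774 (C_10 L56081 (C_10 L56151 (C_10 L56819 (C_10 L57015 (C_10 L57788 (C_10 L57940 (C_10 L57950 (C_10 L58015 (C_10 L58475 (C_10 L58910 (C_10 L58911 (C_10 L58964 (C_10 L59022 (C_10 L59252 (C_10 L59254 (C_10 L59258 (C_10 L59428 (C_10 L59517 (C_10 L59532 (C_10 L59708 (C_10 L59769 (C_10 L59771 (C_10 L59778 (C_10 L59794 N_10)))))))))))))))))))))))))) (by decide +kernel)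
theorem L59807 : W_10 (nat_lit 10) (nat_lit 0x200000001200080000000000000000000000000000000) (nat_lit 0x0) (nat_lit 0x600010007e000d0077c03bc00100008000000000000000000) := Q_10 (nat_lit 143) (C_10 L31886 (C_10 L59798 (C_10 L31832 (C_10 L31829 (C_10 L59806 N_10))))) (by decide +kernel)
theorem L59828 : W_10 (nat_lit 2) (nat_lit 0x4000200000001f00080000000000000000000000000000000) (nat_lit 0x0) (nat_lit 0x1c000000000000000000000000000000) := D_10 (nat_lit 123) (nat_lit 124) (nat_lit 122) (nat_lit 0) (nat_lit 8) (nat_lit 8) (nat_lit 0) (nat_lit 7) (nat_lit 8) (by decide +kernel)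
theorem L59829 : W_10 (nat_lit 3) (nat_lit 0x4000200000001e00080000000000000000000000000000000) (nat_lit 0x0) (nat_lit 0x10005c000000000000000000000000000000) := T_10 (nat_lit 140) (nat_lit 126) (nat_lit 2) (nat_lit 4) (nat_lit 8) L59828 (by decide +kernel)
theorem L59830 : W_10 (nat_lit 4) (nat_lit 0x4000200000001a00080000000000000000000000000000000) (nat_lit 0x0) (nat_lit 0x50015c000000000000000000000000000000) := T_10 (nat_lit 142) (nat_lit 128) (nat_lit 2) (nat_lit 5) (nat_lit 8) L59829 (by decide +kernel)
theorem L59831 : W_10 (nat_lit 5) (nat_lit 0x200000001a00080000000000000000000000000000000) (nat_lit 0x0) (nat_lit 0x400000001000050015c000000000000000000000000000000) := T_10 (nat_lit 194) (nat_lit 160) (nat_lit 6) (nat_lit 7) (nat_lit 11) L59830 (by decide +kernel)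
theorem L59834 : W_10 (nat_lit 2) (nat_lit 0x4000200001001f00084000000000000000000000000000000) (nat_lit 0x0) (nat_lit 0x800080002000000000000000000000000000000) := D_10 (nat_lit 139) (nat_lit 155) (nat_lit 121) (nat_lit 1) (nat_lit 6) (nat_lit 8) (nat_lit 0) (nat_lit 6) (nat_lit 8) (by decide +kernel)
theorem L59835 : W_10 (nat_lit 3) (nat_lit 0x4000200001001f00080000000000000000000000000000000) (nat_lit 0x0) (nat_lit 0x80008000e000000000000000000000000000000) := T_10 (nat_lit 122) (nat_lit 123) (nat_lit 0) (nat_lit 7) (nat_lit 8) L59834 (by decide +kernel)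
theorem L59836 : W_10 (nat_lit 4) (nat_lit 0x4000200000001f00080000000000000000000000000000000) (nat_lit 0x0) (nat_lit 0x380008000e000000000000000000000000000000) := T_10 (nat_lit 156) (nat_lit 157) (nat_lit 1) (nat_lit 7) (nat_lit 8) L59835 (by decide +kernel)
theorem L59837 : W_10 (nat_lit 5) (nat_lit 0x4000200000001e00080000000000000000000000000000000) (nat_lit 0x0) (nat_lit 0x380018004e000000000000000000000000000000) := T_10 (nat_lit 140) (nat_lit 126) (nat_lit 2) (nat_lit 4) (nat_lit 8) L59836 (by decide +kernel)
theorem L59838 : W_10 (nat_lit 6) (nat_lit 0x4000200000001a00080000000000000000000000000000000) (nat_lit 0x0) (nat_lit 0x380058014e000000000000000000000000000000) := T_10 (nat_lit 142) (nat_lit 128) (nat_lit 2) (nat_lit 5) (nat_lit 8) L59837 (by decide +kernel)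
theorem L59839 : W_10 (nat_lit 7) (nat_lit 0x200000001a00080000000000000000000000000000000) (nat_lit 0x0) (nat_lit 0x400000001380058014e000000000000000000000000000000) := T_10 (nat_lit 194) (nat_lit 160) (nat_lit 6) (nat_lit 7) (nat_lit 11) L59838 (by decide +kernel)
theorem L59840 : W_10 (nat_lit 10) (nat_lit 0x200000001200080000000000000000000000000000000) (nat_lit 0x0) (nat_lit 0x600010007b800d8077e03bc00100008000000000000000000) := Q_10 (nat_lit 143) (C_10 L31886 (C_10 L59831 (C_10 L59833 (C_10 L59811 (C_10 L59839 (C_10 L59806 (C_10 L33723 N_10))))))) (by decide +kernel)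
theorem L61493 : W_10 (nat_lit 2) (nat_lit 0x40003e00020016000a0000000000000000000000000000000) (nat_lit 0x0) (nat_lit 0xe00000000000000000000000000000000000000000000000) := D_10 (nat_lit 190) (nat_lit 189) (nat_lit 191) (nat_lit 1) (nat_lit 6) (nat_lit 10) (nat_lit 1) (nat_lit 7) (nat_lit 10) (by decide +kernel)
theorem L61494 : W_10 (nat_lit 3) (nat_lit 0x40003c00020016000a0000000000000000000000000000000) (nat_lit 0x0) (nat_lit 0x2e00020000000000000000000000000000000000000000000) := T_10 (nat_lit 173) (nat_lit 193) (nat_lit 3) (nat_lit 3) (nat_lit 10) L61493 (by decide +kernel)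
theorem L61495 : W_10 (nat_lit 4) (nat_lit 0x3c00020016000a0000000000000000000000000000000) (nat_lit 0x0) (nat_lit 0xee00020000000000000000000000000000000000000000000) := T_10 (nat_lit 194) (nat_lit 195) (nat_lit 3) (nat_lit 4) (nat_lit 10) L61494 (by decide +kernel)
theorem L61496 : W_10 (nat_lit 5) (nat_lit 0x3c00000016000a0000000000000000000000000000000) (nat_lit 0x0) (nat_lit 0xee00020003000000000000000000000000000000000000000) := T_10 (nat_lit 157) (nat_lit 156) (nat_lit 0) (nat_lit 7) (nat_lit 10) L61495 (by decide +kernel)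
theorem L61497 : W_10 (nat_lit 2) (nat_lit 0x49003f00008016000a0000000000000000000000000000000) (nat_lit 0x0) (nat_lit 0x1080008000000000000000000000000000000000000000000) := D_10 (nat_lit 171) (nat_lit 192) (nat_lit 187) (nat_lit 3) (nat_lit 1) (nat_lit 10) (nat_lit 1) (nat_lit 4) (nat_lit 10) (by decide +kernel)
theorem L61498 : W_10 (nat_lit 3) (nat_lit 0x48003f00008016000a0000000000000000000000000000000) (nat_lit 0x0) (nat_lit 0x1380008000000000000000000000000000000000000000000) := T_10 (nat_lit 188) (nat_lit 189) (nat_lit 1) (nat_lit 5) (nat_lit 10) L61497 (by decide +kernel)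
theorem L61499 : W_10 (nat_lit 4) (nat_lit 0x48003e00008016000a0000000000000000000000000000000) (nat_lit 0x0) (nat_lit 0x1380018000400000000000000000000000000000000000000) := T_10 (nat_lit 172) (nat_lit 154) (nat_lit 0) (nat_lit 5) (nat_lit 10) L61498 (by decide +kernel)
theorem L61500 : W_10 (nat_lit 5) (nat_lit 0x48003e00000016000a0000000000000000000000000000000) (nat_lit 0x0) (nat_lit 0x1380018001c00000000000000000000000000000000000000) := T_10 (nat_lit 155) (nat_lit 156) (nat_lit 0) (nat_lit 6) (nat_lit 10) L61499 (by decide +kernel)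
theorem L61501 : W_10 (nat_lit 6) (nat_lit 0x48003c00000016000a0000000000000000000000000000000) (nat_lit 0x0) (nat_lit 0x3380038001c00000000000000000000000000000000000000) := T_10 (nat_lit 173) (nat_lit 193) (nat_lit 3) (nat_lit 3) (nat_lit 10) L61500 (by decide +kernel)
theorem L61502 : W_10 (nat_lit 7) (nat_lit 0x8003c00000016000a0000000000000000000000000000000) (nat_lit 0x0) (nat_lit 0xf380038001c00000000000000000000000000000000000000) := T_10 (nat_lit 194) (nat_lit 195) (nat_lit 3) (nat_lit 4) (nat_lit 10) L61501 (by decide +kernel)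
theorem L61503 : W_10 (nat_lit 8) (nat_lit 0x3c00000016000a0000000000000000000000000000000) (nat_lit 0x0) (nat_lit 0xff80038001c00000000000000000000000000000000000000) := T_10 (nat_lit 191) (nat_lit 190) (nat_lit 1) (nat_lit 7) (nat_lit 10) L61502 (by decide +kernel)
theorem L61504 : W_10 (nat_lit 4) (nat_lit 0x40003c00020016000a0000000000000000000000000000000) (nat_lit 0x0) (nat_lit 0x20001c00000000000100018000000000000000000000000000000) := T_10 (nat_lit 191) (nat_lit 190) (nat_lit 1) (nat_lit 7) (nat_lit 10) L38952 (by decide +kernel)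
theorem L61505 : W_10 (nat_lit 5) (nat_lit 0x40003c00000016000a0000000000000000000000000000000) (nat_lit 0x0) (nat_lit 0x20001c00000003000100018000000000000000000000000000000) := T_10 (nat_lit 157) (nat_lit 156) (nat_lit 0) (nat_lit 7) (nat_lit 10) L61504 (by decide +kernel)
theorem L61506 : W_10 (nat_lit 6) (nat_lit 0x3c00000016000a0000000000000000000000000000000) (nat_lit 0x0) (nat_lit 0x2000dc00000003000100018000000000000000000000000000000) := T_10 (nat_lit 194) (nat_lit 195) (nat_lit 3) (nat_lit 4) (nat_lit 10) L61505 (by decide +kernel)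
theorem L61507 : W_10 (nat_lit 2) (nat_lit 0x40003e00000016000a0000000000000000000000000000000) (nat_lit 0x0) (nat_lit 0x3800000000000000000000000000000000000000) := D_10 (nat_lit 156) (nat_lit 157) (nat_lit 155) (nat_lit 0) (nat_lit 7) (nat_lit 10) (nat_lit 0) (nat_lit 6) (nat_lit 10) (by decide +kernel)
theorem L61508 : W_10 (nat_lit 3) (nat_lit 0x40003c00000016000a0000000000000000000000000000000) (nat_lit 0x0) (nat_lit 0x2000020003800000000000000000000000000000000000000) := T_10 (nat_lit 173) (nat_lit 193) (nat_lit 3) (nat_lit 3) (nat_lit 10) L61507 (by decide +kernel)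
theorem L61509 : W_10 (nat_lit 4) (nat_lit 0x3c00000016000a0000000000000000000000000000000) (nat_lit 0x0) (nat_lit 0xe000020003800000000000000000000000000000000000000) := T_10 (nat_lit 194) (nat_lit 195) (nat_lit 3) (nat_lit 4) (nat_lit 10) L61508 (by decide +kernel)
theorem L61510 : W_10 (nat_lit 2) (nat_lit 0x8003c00020017000a0000000000000000000000000000000) (nat_lit 0x0) (nat_lit 0x20001000000000000000008000000000000000000000000000000) := D_10 (nat_lit 192) (nat_lit 123) (nat_lit 209) (nat_lit 7) (nat_lit 4) (nat_lit 7) (nat_lit 7) (nat_lit 4) (nat_lit 8) (by decide +kernel)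
theorem L61511 : W_10 (nat_lit 3) (nat_lit 0x8003c00020016000a0000000000000000000000000000000) (nat_lit 0x0) (nat_lit 0x20001000000000000100018000000000000000000000000000000) := T_10 (nat_lit 140) (nat_lit 124) (nat_lit 6) (nat_lit 4) (nat_lit 11) L61510 (by decide +kernel)
theorem L61512 : W_10 (nat_lit 4) (nat_lit 0x3c00020016000a0000000000000000000000000000000) (nat_lit 0x0) (nat_lit 0x20001c00000000000100018000000000000000000000000000000) := T_10 (nat_lit 191) (nat_lit 190) (nat_lit 1) (nat_lit 7) (nat_lit 10) L61511 (by decide +kernel)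
theorem L61513 : W_10 (nat_lit 5) (nat_lit 0x3c00000016000a0000000000000000000000000000000) (nat_lit 0x0) (nat_lit 0x20001c00000003000100018000000000000000000000000000000) := T_10 (nat_lit 157) (nat_lit 156) (nat_lit 0) (nat_lit 7) (nat_lit 10) L61512 (by decide +kernel)
theorem L61514 : W_10 (nat_lit 2) (nat_lit 0x44003c00000016000a0000000000000000000000000000000) (nat_lit 0x0) (nat_lit 0x2200020000000000000000000000000000000000000000000) := D_10 (nat_lit 173) (nat_lit 193) (nat_lit 189) (nat_lit 3) (nat_lit 3) (nat_lit 10) (nat_lit 1) (nat_lit 6) (nat_lit 10) (by decide +kernel)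
theorem L61515 : W_10 (nat_lit 3) (nat_lit 0x4003c00000016000a0000000000000000000000000000000) (nat_lit 0x0) (nat_lit 0xe200020000000000000000000000000000000000000000000) := T_10 (nat_lit 194) (nat_lit 195) (nat_lit 3) (nat_lit 4) (nat_lit 10) L61514 (by decide +kernel)
theorem L61516 : W_10 (nat_lit 4) (nat_lit 0x3c00000016000a0000000000000000000000000000000) (nat_lit 0x0) (nat_lit 0xee00020000000000000000000000000000000000000000000) := T_10 (nat_lit 190) (nat_lit 191) (nat_lit 1) (nat_lit 7) (nat_lit 10) L61515 (by decide +kernel)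
theorem L61517 : W_10 (nat_lit 9) (nat_lit 0x3800000016000a0000000000000000000000000000000) (nat_lit 0x0) (nat_lit 0x2000ff80078003c00100018000000000000000000000000000000) := Q_10 (nat_lit 174) (C_10 L61496 (C_10 L61503 (C_10 L61506 (C_10 L61509 (C_10 L61513 (C_10 L61516 N_10)))))) (by decide +kernel)
theorem L61518 : W_10 (nat_lit 2) (nat_lit 0x3800080016000a0000000000000000000000000000000) (nat_lit 0x0) (nat_lit 0x2000000000000000010000800000000000000000000000000) := D_10 (nat_lit 124) (nat_lit 193) (nat_lit 107) (nat_lit 4) (nat_lit 6) (nat_lit 11) (nat_lit 4) (nat_lit 6) (nat_lit 10) (by decide +kernel)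
theorem L61519 : W_10 (nat_lit 3) (nat_lit 0x3800000016000a0000000000000000000000000000000) (nat_lit 0x0) (nat_lit 0x6000000008000000010000800000000000000000000000000) := T_10 (nat_lit 159) (nat_lit 194) (nat_lit 7) (nat_lit 6) (nat_lit 7) L61518 (by decide +kernel)
theorem L61520 : W_10 (nat_lit 3) (nat_lit 0x3800000016000a0000000000000000000000000000000) (nat_lit 0x0) (nat_lit 0x3000000008000000010000800000000000000000000000000) := T_10 (nat_lit 159) (nat_lit 192) (nat_lit 5) (nat_lit 6) (nat_lit 7) L61518 (by decide +kernel)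
theorem L61521 : W_10 (nat_lit 10) (nat_lit 0x2800000016000a0000000000000000000000000000000) (nat_lit 0x0) (nat_lit 0x2000ff8017800bc00100018000800000000000000000000000000) := Q_10 (nat_lit 176) (C_10 L61517 (C_10 L39498 (C_10 L61519 (C_10 L61520 N_10)))) (by decide +kernel)
theorem L61522 : W_10 (nat_lit 2) (nat_lit 0x2800040016000a0000000000000000000000000000000) (nat_lit 0x0) (nat_lit 0x8000000000001000080000000000000000000000) := D_10 (nat_lit 108) (nat_lit 159) (nat_lit 91) (nat_lit 5) (nat_lit 6) (nat_lit 6) (nat_lit 5) (nat_lit 6) (nat_lit 5) (by decide +kernel)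
theorem L61523 : W_10 (nat_lit 3) (nat_lit 0x2800000016000a0000000000000000000000000000000) (nat_lit 0x0) (nat_lit 0x100000000c000000000001000080000000000000000000000) := T_10 (nat_lit 158) (nat_lit 192) (nat_lit 6) (nat_lit 5) (nat_lit 11) L61522 (by decide +kernel)
theorem L61524 : W_10 (nat_lit 2) (nat_lit 0x3800040016000ba000000000000000000000000000000) (nat_lit 0x0) (nat_lit 0x4000000008000000000000800000000000000000000000000) := D_10 (nat_lit 159) (nat_lit 107) (nat_lit 194) (nat_lit 7) (nat_lit 5) (nat_lit 6) (nat_lit 7) (nat_lit 6) (nat_lit 7) (by decide +kernel)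
theorem L61525 : W_10 (nat_lit 3) (nat_lit 0x2800040016000ba000000000000000000000000000000) (nat_lit 0x0) (nat_lit 0x6000100008000000000000800000000000000000000000000) := T_10 (nat_lit 176) (nat_lit 193) (nat_lit 7) (nat_lit 5) (nat_lit 7) L61524 (by decide +kernel)
theorem L61526 : W_10 (nat_lit 4) (nat_lit 0x2800040016000b8000000000000000000000000000000) (nat_lit 0x0) (nat_lit 0x6000100008000000006000800000000000000000000000000) := T_10 (nat_lit 121) (nat_lit 122) (nat_lit 3) (nat_lit 2) (nat_lit 7) L61525 (by decide +kernel)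
theorem L61527 : W_10 (nat_lit 5) (nat_lit 0x2800040016000b0000000000000000000000000000000) (nat_lit 0x0) (nat_lit 0x600010000800000000e000c00000000000000000000000000) := T_10 (nat_lit 123) (nat_lit 106) (nat_lit 4) (nat_lit 5) (nat_lit 10) L61526 (by decide +kernel)
theorem L61528 : W_10 (nat_lit 2) (nat_lit 0x2c00040016000ba000800000000000000000000000000) (nat_lit 0x0) (nat_lit 0x8000000000000000040002000000000000000000) := D_10 (nat_lit 90) (nat_lit 159) (nat_lit 73) (nat_lit 7) (nat_lit 5) (nat_lit 5) (nat_lit 7) (nat_lit 5) (nat_lit 4) (by decide +kernel)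
theorem L61529 : W_10 (nat_lit 3) (nat_lit 0x2c00040016000ba000000000000000000000000000000) (nat_lit 0x0) (nat_lit 0xa000000000000800040002000000000000000000) := T_10 (nat_lit 107) (nat_lit 157) (nat_lit 5) (nat_lit 5) (nat_lit 6) L61528 (by decide +kernel)
theorem L61530 : W_10 (nat_lit 4) (nat_lit 0x2800040016000ba000000000000000000000000000000) (nat_lit 0x0) (nat_lit 0x80004000a000000000000800040002000000000000000000) := T_10 (nat_lit 174) (nat_lit 191) (nat_lit 5) (nat_lit 5) (nat_lit 7) L61529 (by decide +kernel)
theorem L61531 : W_10 (nat_lit 5) (nat_lit 0x2800040016000b8000000000000000000000000000000) (nat_lit 0x0) (nat_lit 0x80004000a000000006000800040002000000000000000000) := T_10 (nat_lit 121) (nat_lit 122) (nat_lit 3) (nat_lit 2) (nat_lit 7) L61530 (by decide +kernel)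
theorem L61532 : W_10 (nat_lit 6) (nat_lit 0x2800040016000b0000000000000000000000000000000) (nat_lit 0x0) (nat_lit 0x80004000a00000000e000c00040002000000000000000000) := T_10 (nat_lit 123) (nat_lit 106) (nat_lit 4) (nat_lit 5) (nat_lit 10) L61531 (by decide +kernel)
theorem L61533 : W_10 (nat_lit 2) (nat_lit 0x2c00040016000b0000800000000000000000000000000) (nat_lit 0x0) (nat_lit 0x8000400020000000000000000000000) := D_10 (nat_lit 106) (nat_lit 89) (nat_lit 123) (nat_lit 4) (nat_lit 5) (nat_lit 9) (nat_lit 4) (nat_lit 5) (nat_lit 10) (by decide +kernel)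
theorem L61534 : W_10 (nat_lit 3) (nat_lit 0x2c00040016000b0000000000000000000000000000000) (nat_lit 0x0) (nat_lit 0x2000000008000c00020000000000000000000000) := T_10 (nat_lit 107) (nat_lit 157) (nat_lit 5) (nat_lit 5) (nat_lit 6) L61533 (by decide +kernel)
theorem L61535 : W_10 (nat_lit 4) (nat_lit 0x2800040016000b0000000000000000000000000000000) (nat_lit 0x0) (nat_lit 0x800040002000000008000c00020000000000000000000000) := T_10 (nat_lit 174) (nat_lit 191) (nat_lit 5) (nat_lit 5) (nat_lit 7) L61534 (by decide +kernel)
theorem L61539 : W_10 (nat_lit 5) (nat_lit 0x3800040016000b0000000000000000000000000000000) (nat_lit 0x0) (nat_lit 0x480007000b800000000000000000000000000000000000000) := T_10 (nat_lit 159) (nat_lit 194) (nat_lit 7) (nat_lit 6) (nat_lit 7) L61538 (by decide +kernel)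
theorem L61540 : W_10 (nat_lit 6) (nat_lit 0x2800040016000b0000000000000000000000000000000) (nat_lit 0x0) (nat_lit 0x680017000b800000000000000000000000000000000000000) := T_10 (nat_lit 176) (nat_lit 193) (nat_lit 7) (nat_lit 5) (nat_lit 7) L61539 (by decide +kernel)
theorem L61541 : W_10 (nat_lit 7) (nat_lit 0x2800040016000a0000000000000000000000000000000) (nat_lit 0x0) (nat_lit 0x680017000b80000001e000c00060002000000000000000000) := Q_10 (nat_lit 124) (C_10 L61527 (C_10 L61532 (C_10 L61535 (C_10 L61540 N_10)))) (by decide +kernel)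
theorem L61542 : W_10 (nat_lit 8) (nat_lit 0x2800000016000a0000000000000000000000000000000) (nat_lit 0x0) (nat_lit 0x680017000f80000001e001c000e0002000000000000000000) := Q_10 (nat_lit 158) (C_10 L33654 (C_10 L61522 (C_10 L61541 N_10))) (by decide +kernel)
theorem L61543 : W_10 (nat_lit 11) (nat_lit 0x2000000016000a0000000000000000000000000000000) (nat_lit 0x0) (nat_lit 0x2000ff801f800fc0010001e001c000e0002000000000000000000) := Q_10 (nat_lit 175) (C_10 L61521 (C_10 L61523 (C_10 L33655 (C_10 L61542 N_10)))) (by decide +kernel)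
theorem L61546 : W_10 (nat_lit 2) (nat_lit 0x2000000016001a00010001c0000000000000000000000) (nat_lit 0x0) (nat_lit 0x8000000000002800000000000000000000000000) := D_10 (nat_lit 159) (nat_lit 107) (nat_lit 109) (nat_lit 4) (nat_lit 6) (nat_lit 9) (nat_lit 6) (nat_lit 6) (nat_lit 9) (by decide +kernel)
theorem L61547 : W_10 (nat_lit 3) (nat_lit 0x2000000016001a00010000c0000000000000000000000) (nat_lit 0x0) (nat_lit 0x8000000000002800100008000000000000000000) := T_10 (nat_lit 92) (nat_lit 75) (nat_lit 6) (nat_lit 6) (nat_lit 8) L61546 (by decide +kernel)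
theorem L61548 : W_10 (nat_lit 4) (nat_lit 0x2000000016001a0001000080000000000000000000000) (nat_lit 0x0) (nat_lit 0x800000000000280014000a000000000000000000) := T_10 (nat_lit 90) (nat_lit 73) (nat_lit 4) (nat_lit 6) (nat_lit 8) L61547 (by decide +kernel)
theorem L61549 : W_10 (nat_lit 5) (nat_lit 0x2000000016001a0001000000000000000000000000000) (nat_lit 0x0) (nat_lit 0xc0000000000028001c000a000000000000000000) := T_10 (nat_lit 91) (nat_lit 158) (nat_lit 5) (nat_lit 6) (nat_lit 5) L61548 (by decide +kernel)
theorem L61550 : W_10 (nat_lit 6) (nat_lit 0x2000000016000a0001000000000000000000000000000) (nat_lit 0x0) (nat_lit 0xc0000001400028001c000a000000000000000000) := T_10 (nat_lit 128) (nat_lit 126) (nat_lit 1) (nat_lit 9) (nat_lit 7) L61549 (by decide +kernel)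
theorem L61551 : W_10 (nat_lit 2) (nat_lit 0x2000000016001a00018001c0000000000000000000000) (nat_lit 0x0) (nat_lit 0x600200000000000000000000000) := D_10 (nat_lit 106) (nat_lit 105) (nat_lit 93) (nat_lit 2) (nat_lit 3) (nat_lit 6) (nat_lit 1) (nat_lit 8) (nat_lit 5) (by decide +kernel)
theorem L61552 : W_10 (nat_lit 3) (nat_lit 0x2000000016001a00010001c0000000000000000000000) (nat_lit 0x0) (nat_lit 0x8000000000000e00200000000000000000000000) := T_10 (nat_lit 107) (nat_lit 159) (nat_lit 4) (nat_lit 6) (nat_lit 9) L61551 (by decide +kernel)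
theorem L61553 : W_10 (nat_lit 4) (nat_lit 0x2000000016001a0001000180000000000000000000000) (nat_lit 0x0) (nat_lit 0x8000000000000e00240002000000000000000000) := T_10 (nat_lit 90) (nat_lit 73) (nat_lit 4) (nat_lit 6) (nat_lit 8) L61552 (by decide +kernel)
theorem L61554 : W_10 (nat_lit 5) (nat_lit 0x2000000016001a0001000100000000000000000000000) (nat_lit 0x0) (nat_lit 0x8000000000000e002c000a000000000000000000) := T_10 (nat_lit 91) (nat_lit 75) (nat_lit 6) (nat_lit 6) (nat_lit 8) L61553 (by decide +kernel)
theorem L61555 : W_10 (nat_lit 6) (nat_lit 0x2000000016000a0001000100000000000000000000000) (nat_lit 0x0) (nat_lit 0x8000000140000e002c000a000000000000000000) := T_10 (nat_lit 128) (nat_lit 126) (nat_lit 1) (nat_lit 9) (nat_lit 7) L61554 (by decide +kernel)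
theorem L61556 : W_10 (nat_lit 2) (nat_lit 0x2000000016000a00010001c0000000000000000000000) (nat_lit 0x0) (nat_lit 0x8000000000002800000000000000000000000000) := D_10 (nat_lit 159) (nat_lit 109) (nat_lit 107) (nat_lit 6) (nat_lit 6) (nat_lit 9) (nat_lit 4) (nat_lit 6) (nat_lit 9) (by decide +kernel)
theorem L61557 : W_10 (nat_lit 3) (nat_lit 0x2000000016000a0001000180000000000000000000000) (nat_lit 0x0) (nat_lit 0x8000000000002800040002000000000000000000) := T_10 (nat_lit 90) (nat_lit 73) (nat_lit 4) (nat_lit 6) (nat_lit 8) L61556 (by decide +kernel)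
theorem L61558 : W_10 (nat_lit 4) (nat_lit 0x2000000016000a0001000100000000000000000000000) (nat_lit 0x0) (nat_lit 0x80000000000028000c000a000000000000000000) := T_10 (nat_lit 91) (nat_lit 75) (nat_lit 6) (nat_lit 6) (nat_lit 8) L61557 (by decide +kernel)
theorem L61559 : W_10 (nat_lit 2) (nat_lit 0x2000000016000e0001000100000000000000000000000) (nat_lit 0x0) (nat_lit 0x2000080008000000000000000000) := D_10 (nat_lit 75) (nat_lit 91) (nat_lit 109) (nat_lit 6) (nat_lit 6) (nat_lit 8) (nat_lit 7) (nat_lit 7) (nat_lit 4) (by decide +kernel)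
theorem L61560 : W_10 (nat_lit 3) (nat_lit 0x2000000016000a0001000100000000000000000000000) (nat_lit 0x0) (nat_lit 0x140002000080008000000000000000000) := T_10 (nat_lit 126) (nat_lit 128) (nat_lit 1) (nat_lit 9) (nat_lit 7) L61559 (by decide +kernel)
theorem L61561 : W_10 (nat_lit 2) (nat_lit 0x2000000016000a0003000100000000000000000000000) (nat_lit 0x0) (nat_lit 0x40000000000008000400000000000000) := D_10 (nat_lit 75) (nat_lit 126) (nat_lit 58) (nat_lit 7) (nat_lit 7) (nat_lit 4) (nat_lit 5) (nat_lit 7) (nat_lit 3) (by decide +kernel)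
theorem L61562 : W_10 (nat_lit 3) (nat_lit 0x2000000016000a0001000100000000000000000000000) (nat_lit 0x0) (nat_lit 0x8000000040002000000008000400000000000000) := T_10 (nat_lit 109) (nat_lit 159) (nat_lit 6) (nat_lit 6) (nat_lit 9) L61561 (by decide +kernel)
theorem L61563 : W_10 (nat_lit 2) (nat_lit 0x2000000016000a0003800100000000000000000000000) (nat_lit 0x0) (nat_lit 0x140000400000000000000000000000000) := D_10 (nat_lit 126) (nat_lit 128) (nat_lit 106) (nat_lit 1) (nat_lit 9) (nat_lit 7) (nat_lit 3) (nat_lit 4) (nat_lit 6) (by decide +kernel)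
theorem L61564 : W_10 (nat_lit 3) (nat_lit 0x2000000016000a0001800100000000000000000000000) (nat_lit 0x0) (nat_lit 0x8000000140002400000000000000000000000000) := T_10 (nat_lit 109) (nat_lit 159) (nat_lit 6) (nat_lit 6) (nat_lit 9) L61563 (by decide +kernel)
theorem L61565 : W_10 (nat_lit 2) (nat_lit 0x2000000016001a0001800140000000000000000000000) (nat_lit 0x0) (nat_lit 0x80002000100000000000000) := D_10 (nat_lit 73) (nat_lit 91) (nat_lit 56) (nat_lit 4) (nat_lit 6) (nat_lit 8) (nat_lit 7) (nat_lit 5) (nat_lit 3) (by decide +kernel)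
theorem L61566 : W_10 (nat_lit 3) (nat_lit 0x2000000016001a0001800100000000000000000000000) (nat_lit 0x0) (nat_lit 0x80000000000000000c0002000100000000000000) := T_10 (nat_lit 90) (nat_lit 159) (nat_lit 4) (nat_lit 6) (nat_lit 9) L61565 (by decide +kernel)
theorem L61567 : W_10 (nat_lit 4) (nat_lit 0x2000000016000a0001800100000000000000000000000) (nat_lit 0x0) (nat_lit 0x80000001400000000c0002000100000000000000) := T_10 (nat_lit 128) (nat_lit 126) (nat_lit 1) (nat_lit 9) (nat_lit 7) L61566 (by decide +kernel)
theorem L61568 : W_10 (nat_lit 2) (nat_lit 0x2000000016000e0001800100000000000000000000000) (nat_lit 0x0) (nat_lit 0x2600000000000000000000000000) := D_10 (nat_lit 106) (nat_lit 105) (nat_lit 109) (nat_lit 3) (nat_lit 3) (nat_lit 6) (nat_lit 3) (nat_lit 4) (nat_lit 6) (by decide +kernel)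
theorem L61569 : W_10 (nat_lit 3) (nat_lit 0x2000000016000a0001800100000000000000000000000) (nat_lit 0x0) (nat_lit 0x140002600000000000000000000000000) := T_10 (nat_lit 126) (nat_lit 128) (nat_lit 1) (nat_lit 9) (nat_lit 7) L61568 (by decide +kernel)
theorem L61570 : W_10 (nat_lit 2) (nat_lit 0x2000000016000a0001800100000000000000000000000) (nat_lit 0x0) (nat_lit 0x8000000000002000040000000000000000000000) := D_10 (nat_lit 159) (nat_lit 90) (nat_lit 109) (nat_lit 4) (nat_lit 6) (nat_lit 9) (nat_lit 6) (nat_lit 6) (nat_lit 9) (by decide +kernel)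
theorem L61571 : W_10 (nat_lit 5) (nat_lit 0x2000000016000a0001000100000000000000000000000) (nat_lit 0x0) (nat_lit 0x8000000140002e000c0002000100000000000000) := Q_10 (nat_lit 107) (C_10 L61564 (C_10 L61567 (C_10 L61569 (C_10 L61570 N_10)))) (by decide +kernel)
theorem L61572 : W_10 (nat_lit 7) (nat_lit 0x2000000016000a0001000000000000000000000000000) (nat_lit 0x0) (nat_lit 0x8000000140002e003c000a000500000000000000) := Q_10 (nat_lit 92) (C_10 L61555 (C_10 L61558 (C_10 L61560 (C_10 L61562 (C_10 L61571 N_10))))) (by decide +kernel)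
theorem L61573 : W_10 (nat_lit 4) (nat_lit 0x2000000016001a00010000c0000000000000000000000) (nat_lit 0x0) (nat_lit 0x8000000000000e00300008000000000000000000) := T_10 (nat_lit 92) (nat_lit 75) (nat_lit 6) (nat_lit 6) (nat_lit 8) L61552 (by decide +kernel)
theorem L61574 : W_10 (nat_lit 5) (nat_lit 0x2000000016001a0001000080000000000000000000000) (nat_lit 0x0) (nat_lit 0x8000000000000e0034000a000000000000000000) := T_10 (nat_lit 90) (nat_lit 73) (nat_lit 4) (nat_lit 6) (nat_lit 8) L61573 (by decide +kernel)
theorem L61575 : W_10 (nat_lit 6) (nat_lit 0x2000000016001a0001000000000000000000000000000) (nat_lit 0x0) (nat_lit 0xc000000000000e003c000a000000000000000000) := T_10 (nat_lit 91) (nat_lit 158) (nat_lit 5) (nat_lit 6) (nat_lit 5) L61574 (by decide +kernel)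
theorem L61576 : W_10 (nat_lit 7) (nat_lit 0x2000000016000a0001000000000000000000000000000) (nat_lit 0x0) (nat_lit 0xc000000140000e003c000a000000000000000000) := T_10 (nat_lit 128) (nat_lit 126) (nat_lit 1) (nat_lit 9) (nat_lit 7) L61575 (by decide +kernel)
theorem L61586 : W_10 (nat_lit 3) (nat_lit 0x2000000016000a00010000c0000000000000000000000) (nat_lit 0x0) (nat_lit 0x8000000000002800100008000000000000000000) := T_10 (nat_lit 92) (nat_lit 75) (nat_lit 6) (nat_lit 6) (nat_lit 8) L61556 (by decide +kernel)
theorem L61587 : W_10 (nat_lit 4) (nat_lit 0x2000000016000a0001000080000000000000000000000) (nat_lit 0x0) (nat_lit 0x800000000000280014000a000000000000000000) := T_10 (nat_lit 90) (nat_lit 73) (nat_lit 4) (nat_lit 6) (nat_lit 8) L61586 (by decide +kernel)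
theorem L61588 : W_10 (nat_lit 5) (nat_lit 0x2000000016000a0001000000000000000000000000000) (nat_lit 0x0) (nat_lit 0xc0000000000028001c000a000000000000000000) := T_10 (nat_lit 91) (nat_lit 158) (nat_lit 5) (nat_lit 6) (nat_lit 5) L61587 (by decide +kernel)
theorem L61589 : W_10 (nat_lit 2) (nat_lit 0x2000000016000a0003000580006800000000000000000) (nat_lit 0x0) (nat_lit 0x140000000000000000200000000000000) := D_10 (nat_lit 126) (nat_lit 128) (nat_lit 57) (nat_lit 1) (nat_lit 9) (nat_lit 7) (nat_lit 7) (nat_lit 6) (nat_lit 3) (by decide +kernel)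
theorem L61590 : W_10 (nat_lit 3) (nat_lit 0x2000000016000a0001000580006800000000000000000) (nat_lit 0x0) (nat_lit 0x8000000140002000000000000200000000000000) := T_10 (nat_lit 109) (nat_lit 159) (nat_lit 6) (nat_lit 6) (nat_lit 9) L61589 (by decide +kernel)
theorem L61591 : W_10 (nat_lit 4) (nat_lit 0x2000000016000a0001000180006800000000000000000) (nat_lit 0x0) (nat_lit 0x8000000140002000600000000200000000000000) := T_10 (nat_lit 94) (nat_lit 93) (nat_lit 0) (nat_lit 9) (nat_lit 5) L61590 (by decide +kernel)
theorem L61592 : W_10 (nat_lit 5) (nat_lit 0x2000000016000a0001000180006000000000000000000) (nat_lit 0x0) (nat_lit 0x8000000140002000600001800200000000000000) := T_10 (nat_lit 71) (nat_lit 72) (nat_lit 3) (nat_lit 3) (nat_lit 4) L61591 (by decide +kernel)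
theorem L61593 : W_10 (nat_lit 6) (nat_lit 0x2000000016000a0001000180002000000000000000000) (nat_lit 0x0) (nat_lit 0x8000000140002000600005800300000000000000) := T_10 (nat_lit 74) (nat_lit 56) (nat_lit 4) (nat_lit 6) (nat_lit 7) L61592 (by decide +kernel)
theorem L61594 : W_10 (nat_lit 7) (nat_lit 0x2000000016000a0001000080002000000000000000000) (nat_lit 0x0) (nat_lit 0x800000014000200070000d800300000000000000) := T_10 (nat_lit 92) (nat_lit 75) (nat_lit 6) (nat_lit 6) (nat_lit 8) L61593 (by decide +kernel)
theorem L61595 : W_10 (nat_lit 8) (nat_lit 0x2000000016000a0001000080000000000000000000000) (nat_lit 0x0) (nat_lit 0x800000014000200074000f800300000000000000) := T_10 (nat_lit 73) (nat_lit 90) (nat_lit 4) (nat_lit 6) (nat_lit 8) L61594 (by decide +kernel)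
theorem L61596 : W_10 (nat_lit 9) (nat_lit 0x2000000016000a0001000000000000000000000000000) (nat_lit 0x0) (nat_lit 0xc0000001400020007c000f800300000000000000) := T_10 (nat_lit 91) (nat_lit 158) (nat_lit 5) (nat_lit 6) (nat_lit 5) L61595 (by decide +kernel)
theorem L61597 : W_10 (nat_lit 2) (nat_lit 0x2000040016001a0001000000000000000000000000000) (nat_lit 0x0) (nat_lit 0x1000080008000000000000000000000000000000000000000) := D_10 (nat_lit 175) (nat_lit 159) (nat_lit 192) (nat_lit 5) (nat_lit 6) (nat_lit 6) (nat_lit 6) (nat_lit 5) (nat_lit 11) (by decide +kernel)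
theorem L61598 : W_10 (nat_lit 3) (nat_lit 0x2000000016001a0001000000000000000000000000000) (nat_lit 0x0) (nat_lit 0x100008000c000000000000000080000000000000000000000) := T_10 (nat_lit 158) (nat_lit 91) (nat_lit 5) (nat_lit 6) (nat_lit 5) L61597 (by decide +kernel)
theorem L61599 : W_10 (nat_lit 4) (nat_lit 0x2000000016000a0001000000000000000000000000000) (nat_lit 0x0) (nat_lit 0x100008000c000000140000000080000000000000000000000) := T_10 (nat_lit 128) (nat_lit 126) (nat_lit 1) (nat_lit 9) (nat_lit 7) L61598 (by decide +kernel)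
theorem L61603 : W_10 (nat_lit 2) (nat_lit 0x2800080016000a0001000000000000000000000000000) (nat_lit 0x0) (nat_lit 0x5000100000000000000000000000000000000000000000000) := D_10 (nat_lit 176) (nat_lit 194) (nat_lit 192) (nat_lit 7) (nat_lit 6) (nat_lit 7) (nat_lit 5) (nat_lit 6) (nat_lit 7) (by decide +kernel)
theorem L61604 : W_10 (nat_lit 3) (nat_lit 0x2000080016000a0001000000000000000000000000000) (nat_lit 0x0) (nat_lit 0x5000180004000000000000000000000000000000000000000) := T_10 (nat_lit 175) (nat_lit 158) (nat_lit 5) (nat_lit 6) (nat_lit 6) L61603 (by decide +kernel)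
theorem L61607 : W_10 (nat_lit 2) (nat_lit 0x2000080016000e0001800000000000000000000000000) (nat_lit 0x0) (nat_lit 0x2600000000000000000000000000) := D_10 (nat_lit 106) (nat_lit 109) (nat_lit 105) (nat_lit 3) (nat_lit 4) (nat_lit 6) (nat_lit 3) (nat_lit 3) (nat_lit 6) (by decide +kernel)
theorem L61608 : W_10 (nat_lit 3) (nat_lit 0x2000080016000e0001000000000000000000000000000) (nat_lit 0x0) (nat_lit 0x2e00040000000000000000000000) := T_10 (nat_lit 107) (nat_lit 90) (nat_lit 4) (nat_lit 6) (nat_lit 9) L61607 (by decide +kernel)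
theorem L61609 : W_10 (nat_lit 4) (nat_lit 0x2000080016000a0001000000000000000000000000000) (nat_lit 0x0) (nat_lit 0x140002e00040000000000000000000000) := T_10 (nat_lit 126) (nat_lit 128) (nat_lit 1) (nat_lit 9) (nat_lit 7) L61608 (by decide +kernel)
theorem L61610 : W_10 (nat_lit 5) (nat_lit 0x2000000016000a0001000000000000000000000000000) (nat_lit 0x0) (nat_lit 0x500018000c000000140002e00140000000000000000000000) := Q_10 (nat_lit 159) (C_10 L61602 (C_10 L61604 (C_10 L61606 (C_10 L61609 N_10)))) (by decide +kernel)
theorem L61611 : W_10 (nat_lit 11) (nat_lit 0x2000000016000a0000000000000000000000000000000) (nat_lit 0x0) (nat_lit 0x500018000c000000140003e007f000f800700018000400000) := Q_10 (nat_lit 108) (C_10 L61550 (C_10 L61572 (C_10 L61576 (C_10 L61585 (C_10 L61588 (C_10 L61596 (C_10 L61599 (C_10 L61610 N_10)))))))) (by decide +kernel)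
theorem L61612 : W_10 (nat_lit 12) (nat_lit 0x200000001600080000000000000000000000000000000) (nat_lit 0x0) (nat_lit 0x2000ff801f800fc0018017e003e007f000f800700018000400000) := Q_10 (nat_lit 125) (C_10 L61543 (C_10 L61545 (C_10 L61611 N_10))) (by decide +kernel)
theorem L61615 : W_10 (nat_lit 2) (nat_lit 0x200000001600090000000000000000000000000000000) (nat_lit 0x0) (nat_lit 0x800108000000000000000000000000000000) := D_10 (nat_lit 143) (nat_lit 128) (nat_lit 123) (nat_lit 2) (nat_lit 5) (nat_lit 8) (nat_lit 0) (nat_lit 8) (nat_lit 8) (by decide +kernel)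
theorem L61620 : W_10 (nat_lit 2) (nat_lit 0x2000000016000b0000800000000000000000000000000) (nat_lit 0x0) (nat_lit 0x140000400000000000000000000000000) := D_10 (nat_lit 126) (nat_lit 106) (nat_lit 128) (nat_lit 0) (nat_lit 8) (nat_lit 7) (nat_lit 1) (nat_lit 9) (nat_lit 7) (by decide +kernel)
theorem L61621 : W_10 (nat_lit 2) (nat_lit 0x2000000016000b00018001c0000000000000000000000) (nat_lit 0x0) (nat_lit 0x600200000000000000000000000) := D_10 (nat_lit 106) (nat_lit 105) (nat_lit 93) (nat_lit 2) (nat_lit 3) (nat_lit 6) (nat_lit 1) (nat_lit 8) (nat_lit 5) (by decide +kernel)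
theorem L61622 : W_10 (nat_lit 3) (nat_lit 0x2000000016000b00018000c0000000000000000000000) (nat_lit 0x0) (nat_lit 0x600300008000000000000000000) := T_10 (nat_lit 92) (nat_lit 75) (nat_lit 6) (nat_lit 6) (nat_lit 8) L61621 (by decide +kernel)
theorem L61623 : W_10 (nat_lit 4) (nat_lit 0x2000000016000b00008000c0000000000000000000000) (nat_lit 0x0) (nat_lit 0x4000000000001600300008000000000000000000) := T_10 (nat_lit 108) (nat_lit 158) (nat_lit 6) (nat_lit 5) (nat_lit 9) L61622 (by decide +kernel)
theorem L61624 : W_10 (nat_lit 5) (nat_lit 0x2000000016000b0000800040000000000000000000000) (nat_lit 0x0) (nat_lit 0x400000000000160038000c000000000000000000) := T_10 (nat_lit 91) (nat_lit 74) (nat_lit 6) (nat_lit 5) (nat_lit 8) L61623 (by decide +kernel)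
theorem L61625 : W_10 (nat_lit 6) (nat_lit 0x2000000016000b0000800000000000000000000000000) (nat_lit 0x0) (nat_lit 0x40000000000016003c000e000000000000000000) := T_10 (nat_lit 90) (nat_lit 73) (nat_lit 7) (nat_lit 5) (nat_lit 4) L61624 (by decide +kernel)
theorem L61626 : W_10 (nat_lit 2) (nat_lit 0x2000000016001b00018000e0000000000000000000000) (nat_lit 0x0) (nat_lit 0x2000018000000000000000000000) := D_10 (nat_lit 88) (nat_lit 109) (nat_lit 87) (nat_lit 3) (nat_lit 3) (nat_lit 5) (nat_lit 3) (nat_lit 2) (nat_lit 5) (by decide +kernel)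
theorem L61627 : W_10 (nat_lit 3) (nat_lit 0x2000000016001b00008000e0000000000000000000000) (nat_lit 0x0) (nat_lit 0x4000000000003000018000000000000000000000) := T_10 (nat_lit 108) (nat_lit 158) (nat_lit 6) (nat_lit 5) (nat_lit 9) L61626 (by decide +kernel)
theorem L61628 : W_10 (nat_lit 4) (nat_lit 0x2000000016001b0000800060000000000000000000000) (nat_lit 0x0) (nat_lit 0x4000000000003000098004000000000000000000) := T_10 (nat_lit 91) (nat_lit 74) (nat_lit 6) (nat_lit 5) (nat_lit 8) L61627 (by decide +kernel)
theorem L61629 : W_10 (nat_lit 5) (nat_lit 0x2000000016001b0000800040000000000000000000000) (nat_lit 0x0) (nat_lit 0x40000000000030000b8005000000000000000000) := T_10 (nat_lit 89) (nat_lit 72) (nat_lit 4) (nat_lit 5) (nat_lit 8) L61628 (by decide +kernel)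
theorem L61630 : W_10 (nat_lit 6) (nat_lit 0x2000000016000b0000800040000000000000000000000) (nat_lit 0x0) (nat_lit 0x40000001400030000b8005000000000000000000) := T_10 (nat_lit 128) (nat_lit 126) (nat_lit 1) (nat_lit 9) (nat_lit 7) L61629 (by decide +kernel)
theorem L61631 : W_10 (nat_lit 7) (nat_lit 0x2000000016000b0000800000000000000000000000000) (nat_lit 0x0) (nat_lit 0x40000001400030000f8007000000000000000000) := T_10 (nat_lit 90) (nat_lit 73) (nat_lit 7) (nat_lit 5) (nat_lit 4) L61630 (by decide +kernel)
theorem L61632 : W_10 (nat_lit 8) (nat_lit 0x200000001600090000800000000000000000000000000) (nat_lit 0x0) (nat_lit 0x40000001600036003f800f000000000000000000) := Q_10 (nat_lit 125) (C_10 L61620 (C_10 L61625 (C_10 L61631 N_10))) (by decide +kernel)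
theorem L61633 : W_10 (nat_lit 2) (nat_lit 0x20000c001600090001c00000000000000000000000000) (nat_lit 0x0) (nat_lit 0x80000000000028000000000000000000000000000000) := D_10 (nat_lit 175) (nat_lit 125) (nat_lit 123) (nat_lit 6) (nat_lit 5) (nat_lit 10) (nat_lit 4) (nat_lit 5) (nat_lit 10) (by decide +kernel)
theorem L61634 : W_10 (nat_lit 3) (nat_lit 0x20000c001600090000c00000000000000000000000000) (nat_lit 0x0) (nat_lit 0x80000000000028001000080000000000000000000000) := T_10 (nat_lit 108) (nat_lit 91) (nat_lit 6) (nat_lit 5) (nat_lit 9) L61633 (by decide +kernel)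
theorem L61635 : W_10 (nat_lit 4) (nat_lit 0x20000c001600090000800000000000000000000000000) (nat_lit 0x0) (nat_lit 0x800000000000280014000a0000000000000000000000) := T_10 (nat_lit 106) (nat_lit 89) (nat_lit 4) (nat_lit 5) (nat_lit 9) L61634 (by decide +kernel)
theorem L61636 : W_10 (nat_lit 5) (nat_lit 0x200004001600090000800000000000000000000000000) (nat_lit 0x0) (nat_lit 0x1800080000000280014000a0000000000000000000000) := T_10 (nat_lit 159) (nat_lit 176) (nat_lit 7) (nat_lit 5) (nat_lit 6) L61635 (by decide +kernel)
theorem L61637 : W_10 (nat_lit 2) (nat_lit 0x20000c001600090003c00000000000000000000000000) (nat_lit 0x0) (nat_lit 0x8000000000000c000000000000000000000000000000) := D_10 (nat_lit 123) (nat_lit 175) (nat_lit 122) (nat_lit 4) (nat_lit 5) (nat_lit 10) (nat_lit 1) (nat_lit 7) (nat_lit 6) (by decide +kernel)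
theorem L61638 : W_10 (nat_lit 3) (nat_lit 0x20000c001600090001c00000000000000000000000000) (nat_lit 0x0) (nat_lit 0x8000000000004c002000000000000000000000000000) := T_10 (nat_lit 109) (nat_lit 126) (nat_lit 3) (nat_lit 4) (nat_lit 6) L61637 (by decide +kernel)
theorem L61639 : W_10 (nat_lit 4) (nat_lit 0x20000c001600090001800000000000000000000000000) (nat_lit 0x0) (nat_lit 0x8000000000004c002400020000000000000000000000) := T_10 (nat_lit 106) (nat_lit 89) (nat_lit 4) (nat_lit 5) (nat_lit 9) L61638 (by decide +kernel)
theorem L61640 : W_10 (nat_lit 5) (nat_lit 0x200004001600090001800000000000000000000000000) (nat_lit 0x0) (nat_lit 0x18000800000004c002400020000000000000000000000) := T_10 (nat_lit 159) (nat_lit 176) (nat_lit 7) (nat_lit 5) (nat_lit 6) L61639 (by decide +kernel)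
theorem L61641 : W_10 (nat_lit 6) (nat_lit 0x200004001600090000800000000000000000000000000) (nat_lit 0x0) (nat_lit 0x18000800000004c0034000a0000000000000000000000) := T_10 (nat_lit 108) (nat_lit 91) (nat_lit 6) (nat_lit 5) (nat_lit 9) L61640 (by decide +kernel)
theorem L61642 : W_10 (nat_lit 2) (nat_lit 0x2000040016000d0000c00000000000000000000000000) (nat_lit 0x0) (nat_lit 0x3000080000000000000000000000) := D_10 (nat_lit 108) (nat_lit 91) (nat_lit 109) (nat_lit 6) (nat_lit 5) (nat_lit 9) (nat_lit 3) (nat_lit 4) (nat_lit 6) (by decide +kernel)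
theorem L61643 : W_10 (nat_lit 3) (nat_lit 0x200004001600090000c00000000000000000000000000) (nat_lit 0x0) (nat_lit 0x60003000080000000000000000000000) := T_10 (nat_lit 126) (nat_lit 125) (nat_lit 0) (nat_lit 8) (nat_lit 7) L61642 (by decide +kernel)
theorem L61644 : W_10 (nat_lit 4) (nat_lit 0x200004001600090000800000000000000000000000000) (nat_lit 0x0) (nat_lit 0x600034000a0000000000000000000000) := T_10 (nat_lit 106) (nat_lit 89) (nat_lit 4) (nat_lit 5) (nat_lit 9) L61643 (by decide +kernel)
theorem L61645 : W_10 (nat_lit 2) (nat_lit 0x28000c001600090001800000000000000000000000000) (nat_lit 0x0) (nat_lit 0x800040002000000000000000000000000000000000000000) := D_10 (nat_lit 174) (nat_lit 157) (nat_lit 191) (nat_lit 5) (nat_lit 5) (nat_lit 6) (nat_lit 5) (nat_lit 5) (nat_lit 7) (by decide +kernel)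
theorem L61646 : W_10 (nat_lit 3) (nat_lit 0x20000c001600090001800000000000000000000000000) (nat_lit 0x0) (nat_lit 0x8000c0002000000020000000000000000000000000000000) := T_10 (nat_lit 175) (nat_lit 125) (nat_lit 6) (nat_lit 5) (nat_lit 10) L61645 (by decide +kernel)
theorem L61647 : W_10 (nat_lit 4) (nat_lit 0x20000c001600090000800000000000000000000000000) (nat_lit 0x0) (nat_lit 0x8000c0002000000020001000080000000000000000000000) := T_10 (nat_lit 108) (nat_lit 91) (nat_lit 6) (nat_lit 5) (nat_lit 9) L61646 (by decide +kernel)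
theorem L61648 : W_10 (nat_lit 5) (nat_lit 0x200004001600090000800000000000000000000000000) (nat_lit 0x0) (nat_lit 0x8001c000a000000020001000080000000000000000000000) := T_10 (nat_lit 159) (nat_lit 176) (nat_lit 7) (nat_lit 5) (nat_lit 6) L61647 (by decide +kernel)
theorem L61649 : W_10 (nat_lit 7) (nat_lit 0x200000001600090000800000000000000000000000000) (nat_lit 0x0) (nat_lit 0x28001c000e00000006c0034000a0000000000000000000000) := Q_10 (nat_lit 158) (C_10 L32921 (C_10 L61636 (C_10 L61641 (C_10 L61644 (C_10 L61648 N_10))))) (by decide +kernel)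
theorem L61653 : W_10 (nat_lit 9) (nat_lit 0x200000001600090000000000000000000000000000000) (nat_lit 0x0) (nat_lit 0x28001c000e00000016c003e003f800f000280000000000000) := Q_10 (nat_lit 107) (C_10 L32909 (C_10 L61619 (C_10 L61632 (C_10 L61649 (C_10 L61652 N_10))))) (by decide +kernel)
theorem L61654 : W_10 (nat_lit 2) (nat_lit 0x200004001600090000000000000000000000000000000) (nat_lit 0x0) (nat_lit 0x2000800008000000000000000000000000000000) := D_10 (nat_lit 143) (nat_lit 123) (nat_lit 157) (nat_lit 0) (nat_lit 8) (nat_lit 8) (nat_lit 1) (nat_lit 8) (nat_lit 8) (by decide +kernel)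
theorem L61655 : W_10 (nat_lit 7) (nat_lit 0x200004001600090000000000000000000000000000000) (nat_lit 0x0) (nat_lit 0x28001c000a00000006c003c000a0000000000000000000000) := Q_10 (nat_lit 107) (C_10 L61648 (C_10 L61641 (C_10 L61644 (C_10 L32921 N_10)))) (by decide +kernel)
theorem L61656 : W_10 (nat_lit 2) (nat_lit 0x28000400160009a000000000000000000000000000000) (nat_lit 0x0) (nat_lit 0x1000000000000000020001000000000000000000000000000) := D_10 (nat_lit 125) (nat_lit 108) (nat_lit 192) (nat_lit 6) (nat_lit 5) (nat_lit 10) (nat_lit 6) (nat_lit 5) (nat_lit 11) (by decide +kernel)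
theorem L61657 : W_10 (nat_lit 3) (nat_lit 0x20000400160009a000000000000000000000000000000) (nat_lit 0x0) (nat_lit 0x1000080000000000020001400000000000000000000000000) := T_10 (nat_lit 175) (nat_lit 106) (nat_lit 4) (nat_lit 5) (nat_lit 10) L61656 (by decide +kernel)
theorem L61658 : W_10 (nat_lit 4) (nat_lit 0x200004001600098000000000000000000000000000000) (nat_lit 0x0) (nat_lit 0x1000080000000000026001400000000000000000000000000) := T_10 (nat_lit 121) (nat_lit 122) (nat_lit 3) (nat_lit 2) (nat_lit 7) L61657 (by decide +kernel)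
theorem L61659 : W_10 (nat_lit 5) (nat_lit 0x200004001600090000000000000000000000000000000) (nat_lit 0x0) (nat_lit 0x100008000000080002e001400000000000000000000000000) := T_10 (nat_lit 123) (nat_lit 143) (nat_lit 0) (nat_lit 8) (nat_lit 8) L61658 (by decide +kernel)
theorem L61660 : W_10 (nat_lit 2) (nat_lit 0x200006801600090000800000000000000000000000000) (nat_lit 0x0) (nat_lit 0x100008000000000000000040000000000000000000000) := D_10 (nat_lit 159) (nat_lit 90) (nat_lit 176) (nat_lit 7) (nat_lit 5) (nat_lit 5) (nat_lit 7) (nat_lit 5) (nat_lit 6) (by decide +kernel)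
theorem L61661 : W_10 (nat_lit 3) (nat_lit 0x200006801600090000000000000000000000000000000) (nat_lit 0x0) (nat_lit 0x140008000000000000800040000000000000000000000) := T_10 (nat_lit 107) (nat_lit 174) (nat_lit 5) (nat_lit 5) (nat_lit 6) L61660 (by decide +kernel)
theorem L61662 : W_10 (nat_lit 4) (nat_lit 0x200006001600090000000000000000000000000000000) (nat_lit 0x0) (nat_lit 0x140009800000000000800040000000000000000000000) := T_10 (nat_lit 155) (nat_lit 156) (nat_lit 2) (nat_lit 2) (nat_lit 9) L61661 (by decide +kernel)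
theorem L61663 : W_10 (nat_lit 5) (nat_lit 0x200004001600090000000000000000000000000000000) (nat_lit 0x0) (nat_lit 0x14000b800800000000800040000000000000000000000) := T_10 (nat_lit 157) (nat_lit 143) (nat_lit 1) (nat_lit 8) (nat_lit 8) L61662 (by decide +kernel)
theorem L61664 : W_10 (nat_lit 8) (nat_lit 0x200000001600090000000000000000000000000000000) (nat_lit 0x0) (nat_lit 0x38001c000f80080006e003c000e0000000000000000000000) := Q_10 (nat_lit 158) (C_10 L61654 (C_10 L61655 (C_10 L61659 (C_10 L61663 N_10)))) (by decide +kernel)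
theorem L61665 : W_10 (nat_lit 2) (nat_lit 0x200004001600090000800000000000000000000000000) (nat_lit 0x0) (nat_lit 0x100008000000000000000040000000000000000000000) := D_10 (nat_lit 159) (nat_lit 90) (nat_lit 176) (nat_lit 7) (nat_lit 5) (nat_lit 5) (nat_lit 7) (nat_lit 5) (nat_lit 6) (by decide +kernel)
theorem L61666 : W_10 (nat_lit 6) (nat_lit 0x200004001600090000000000000000000000000000000) (nat_lit 0x0) (nat_lit 0x8001c000a000000060003c000e0000000000000000000000) := Q_10 (nat_lit 107) (C_10 L61648 (C_10 L61665 (C_10 L61644 N_10))) (by decide +kernel)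
theorem L61667 : W_10 (nat_lit 2) (nat_lit 0x2000040016001b0000000000000000000000000000000) (nat_lit 0x0) (nat_lit 0x80000000000000001000080000000000000000000000) := D_10 (nat_lit 108) (nat_lit 91) (nat_lit 175) (nat_lit 5) (nat_lit 6) (nat_lit 5) (nat_lit 6) (nat_lit 5) (nat_lit 10) (by decide +kernel)
theorem L61668 : W_10 (nat_lit 3) (nat_lit 0x200004001600190000000000000000000000000000000) (nat_lit 0x0) (nat_lit 0x80000000000060001000080000000000000000000000) := T_10 (nat_lit 125) (nat_lit 126) (nat_lit 1) (nat_lit 9) (nat_lit 7) L61667 (by decide +kernel)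
theorem L61669 : W_10 (nat_lit 4) (nat_lit 0x200004001600090000000000000000000000000000000) (nat_lit 0x0) (nat_lit 0x80000000800160001000080000000000000000000000) := T_10 (nat_lit 128) (nat_lit 143) (nat_lit 2) (nat_lit 5) (nat_lit 8) L61668 (by decide +kernel)
theorem L61670 : W_10 (nat_lit 7) (nat_lit 0x200000001600090000000000000000000000000000000) (nat_lit 0x0) (nat_lit 0x8001c000f800800160003c000e0000000000000000000000) := Q_10 (nat_lit 158) (C_10 L61663 (C_10 L61666 (C_10 L61669 N_10))) (by decide +kernel)
theorem L61671 : W_10 (nat_lit 10) (nat_lit 0x200000001600080000000000000000000000000000000) (nat_lit 0x0) (nat_lit 0x38001c000f80080017e003e003f800f000280000000000000) := Q_10 (nat_lit 124) (C_10 L61615 (C_10 L61653 (C_10 L61664 (C_10 L61670 N_10)))) (by decide +kernel)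
theorem L61672 : W_10 (nat_lit 2) (nat_lit 0x200022001f00080000000000000000000000000000000) (nat_lit 0x0) (nat_lit 0x1c000000000000000000000000000000) := D_10 (nat_lit 123) (nat_lit 122) (nat_lit 124) (nat_lit 0) (nat_lit 7) (nat_lit 8) (nat_lit 0) (nat_lit 8) (nat_lit 8) (by decide +kernel)
theorem L61673 : W_10 (nat_lit 3) (nat_lit 0x200022001e00080000000000000000000000000000000) (nat_lit 0x0) (nat_lit 0x100010001c000000000000000000000000000000) := T_10 (nat_lit 140) (nat_lit 156) (nat_lit 1) (nat_lit 7) (nat_lit 8) L61672 (by decide +kernel)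
theorem L61674 : W_10 (nat_lit 4) (nat_lit 0x200002001e00080000000000000000000000000000000) (nat_lit 0x0) (nat_lit 0x6100010001c000000000000000000000000000000) := T_10 (nat_lit 161) (nat_lit 162) (nat_lit 3) (nat_lit 5) (nat_lit 8) L61673 (by decide +kernel)
theorem L61675 : W_10 (nat_lit 5) (nat_lit 0x200000001e00080000000000000000000000000000000) (nat_lit 0x0) (nat_lit 0x6700010001c000000000000000000000000000000) := T_10 (nat_lit 157) (nat_lit 158) (nat_lit 1) (nat_lit 8) (nat_lit 8) L61674 (by decide +kernel)
theorem L61676 : W_10 (nat_lit 6) (nat_lit 0x200000001600080000000000000000000000000000000) (nat_lit 0x0) (nat_lit 0x6700090011c000000000000000000000000000000) := T_10 (nat_lit 143) (nat_lit 128) (nat_lit 2) (nat_lit 5) (nat_lit 8) L61675 (by decide +kernel)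
theorem L61677 : W_10 (nat_lit 2) (nat_lit 0x300028001e00090000000000000000000000000000000) (nat_lit 0x0) (nat_lit 0x20000800040000000000000000000000) := D_10 (nat_lit 107) (nat_lit 90) (nat_lit 125) (nat_lit 7) (nat_lit 5) (nat_lit 5) (nat_lit 4) (nat_lit 6) (nat_lit 10) (by decide +kernel)
theorem L61678 : W_10 (nat_lit 3) (nat_lit 0x200028001e00090000000000000000000000000000000) (nat_lit 0x0) (nat_lit 0x2000100000000000020000800040000000000000000000000) := T_10 (nat_lit 176) (nat_lit 193) (nat_lit 4) (nat_lit 6) (nat_lit 11) L61677 (by decide +kernel)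
theorem L61679 : W_10 (nat_lit 4) (nat_lit 0x200028001e00080000000000000000000000000000000) (nat_lit 0x0) (nat_lit 0x2000100000000000038000800040000000000000000000000) := T_10 (nat_lit 124) (nat_lit 123) (nat_lit 0) (nat_lit 8) (nat_lit 8) L61678 (by decide +kernel)
theorem L61680 : W_10 (nat_lit 5) (nat_lit 0x200008001e00080000000000000000000000000000000) (nat_lit 0x0) (nat_lit 0x2000100060000000038000800040000000000000000000000) := T_10 (nat_lit 161) (nat_lit 162) (nat_lit 3) (nat_lit 5) (nat_lit 8) L61679 (by decide +kernel)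
theorem L61681 : W_10 (nat_lit 2) (nat_lit 0x380008001e000a0000000000000000000000000000000) (nat_lit 0x0) (nat_lit 0x6000000000001000000000000000000000000000) := D_10 (nat_lit 158) (nat_lit 108) (nat_lit 157) (nat_lit 5) (nat_lit 6) (nat_lit 6) (nat_lit 1) (nat_lit 8) (nat_lit 8) (by decide +kernel)
theorem L61682 : W_10 (nat_lit 3) (nat_lit 0x300008001e000a0000000000000000000000000000000) (nat_lit 0x0) (nat_lit 0x1000080006000000000001000000000000000000000000000) := T_10 (nat_lit 175) (nat_lit 192) (nat_lit 5) (nat_lit 6) (nat_lit 7) L61681 (by decide +kernel)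
theorem L61683 : W_10 (nat_lit 4) (nat_lit 0x300008001e00080000000000000000000000000000000) (nat_lit 0x0) (nat_lit 0x5000080006000000020001000000000000000000000000000) := T_10 (nat_lit 125) (nat_lit 194) (nat_lit 7) (nat_lit 6) (nat_lit 7) L61682 (by decide +kernel)
theorem L61684 : W_10 (nat_lit 2) (nat_lit 0x2000300008001e00080000000000000000000000000000000) (nat_lit 0x0) (nat_lit 0x80004000000000000000020000000000000000000000000000000) := D_10 (nat_lit 194) (nat_lit 125) (nat_lit 211) (nat_lit 7) (nat_lit 6) (nat_lit 7) (nat_lit 7) (nat_lit 6) (nat_lit 8) (by decide +kernel)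
theorem L61685 : W_10 (nat_lit 3) (nat_lit 0x300008001e00080000000000000000000000000000000) (nat_lit 0x0) (nat_lit 0x80006000000000000000060000000000000000000000000000000) := T_10 (nat_lit 193) (nat_lit 126) (nat_lit 6) (nat_lit 6) (nat_lit 11) L61684 (by decide +kernel)
theorem L61686 : W_10 (nat_lit 5) (nat_lit 0x200008001e00080000000000000000000000000000000) (nat_lit 0x0) (nat_lit 0xc0007000180006000000060001000000000000000000000000000) := Q_10 (nat_lit 176) (C_10 L40062 (C_10 L61683 (C_10 L61685 N_10))) (by decide +kernel)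
theorem L61687 : W_10 (nat_lit 6) (nat_lit 0x20000c001e00090000000000000000000000000000000) (nat_lit 0x0) (nat_lit 0x80060000000060001c000e0000000000000000000000) := T_10 (nat_lit 161) (nat_lit 162) (nat_lit 3) (nat_lit 5) (nat_lit 8) L40072 (by decide +kernel)
theorem L61688 : W_10 (nat_lit 7) (nat_lit 0x20000c001e00080000000000000000000000000000000) (nat_lit 0x0) (nat_lit 0x80060000000078001c000e0000000000000000000000) := T_10 (nat_lit 124) (nat_lit 123) (nat_lit 0) (nat_lit 8) (nat_lit 8) L61687 (by decide +kernel)
theorem L61689 : W_10 (nat_lit 8) (nat_lit 0x200008001e00080000000000000000000000000000000) (nat_lit 0x0) (nat_lit 0x80066000000078001c000e0000000000000000000000) := T_10 (nat_lit 158) (nat_lit 157) (nat_lit 1) (nat_lit 8) (nat_lit 8) L61688 (by decide +kernel)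
theorem L61690 : W_10 (nat_lit 9) (nat_lit 0x200000001e00080000000000000000000000000000000) (nat_lit 0x0) (nat_lit 0xc000700018006e000000078001c000e0000000000000000000000) := Q_10 (nat_lit 159) (C_10 L40068 (C_10 L61680 (C_10 L61686 (C_10 L61689 N_10)))) (by decide +kernel)
theorem L61691 : W_10 (nat_lit 10) (nat_lit 0x200000001600080000000000000000000000000000000) (nat_lit 0x0) (nat_lit 0xc000700018006f00090007c001c000e0000000000000000000000) := Q_10 (nat_lit 143) (C_10 L59832 (C_10 L61675 (C_10 L31824 (C_10 L61690 N_10)))) (by decide +kernel)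
theorem L61692 : W_10 (nat_lit 13) (nat_lit 0x200000001200080000000000000000000000000000000) (nat_lit 0x0) (nat_lit 0xe000ff801f806fc00d8017e003e007f800f800780018000400000) := Q_10 (nat_lit 142) (C_10 L61612 (C_10 L61613 (C_10 L61614 (C_10 L61671 (C_10 L61676 (C_10 L61691 N_10)))))) (by decide +kernel)
theorem L61693 : W_10 (nat_lit 7) (nat_lit 0x200010001a00080000000000000000000000000000000) (nat_lit 0x0) (nat_lit 0x200010000e00010007800380018000c000000000000000000) := Q_10 (nat_lit 126) (C_10 L31808 (C_10 L51321 (C_10 L51326 N_10))) (by decide +kernel)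
theorem L61694 : W_10 (nat_lit 8) (nat_lit 0x200000001a00080000000000000000000000000000000) (nat_lit 0x0) (nat_lit 0x600010001e00010007800380018000c000000000000000000) := T_10 (nat_lit 160) (nat_lit 194) (nat_lit 6) (nat_lit 7) (nat_lit 11) L61693 (by decide +kernel)
theorem L61695 : W_10 (nat_lit 2) (nat_lit 0x800200012001fc0090000000000000000000000000000000) (nat_lit 0x0) (nat_lit 0x7000000000000000000000000000000) := D_10 (nat_lit 121) (nat_lit 122) (nat_lit 120) (nat_lit 0) (nat_lit 6) (nat_lit 8) (nat_lit 0) (nat_lit 5) (nat_lit 8) (by decide +kernel)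
theorem L61696 : W_10 (nat_lit 3) (nat_lit 0x800200012001f80090000000000000000000000000000000) (nat_lit 0x0) (nat_lit 0x40027000000000000000000000000000000) := T_10 (nat_lit 138) (nat_lit 125) (nat_lit 2) (nat_lit 2) (nat_lit 8) L61695 (by decide +kernel)
theorem L61697 : W_10 (nat_lit 4) (nat_lit 0x800200012001f00090000000000000000000000000000000) (nat_lit 0x0) (nat_lit 0x80000c0027000000000000000000000000000000) := T_10 (nat_lit 139) (nat_lit 159) (nat_lit 3) (nat_lit 3) (nat_lit 8) L61696 (by decide +kernel)
theorem L61698 : W_10 (nat_lit 5) (nat_lit 0x200012001f00090000000000000000000000000000000) (nat_lit 0x0) (nat_lit 0x8000400080000c0027000000000000000000000000000000) := T_10 (nat_lit 191) (nat_lit 174) (nat_lit 6) (nat_lit 4) (nat_lit 11) L61697 (by decide +kernel)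
theorem L61699 : W_10 (nat_lit 6) (nat_lit 0x200002001f00090000000000000000000000000000000) (nat_lit 0x0) (nat_lit 0x48000400180000c0027000000000000000000000000000000) := T_10 (nat_lit 160) (nat_lit 194) (nat_lit 6) (nat_lit 7) (nat_lit 11) L61698 (by decide +kernel)
theorem L61700 : W_10 (nat_lit 7) (nat_lit 0x200002001e00090000000000000000000000000000000) (nat_lit 0x0) (nat_lit 0x48000400190001c0027000000000000000000000000000000) := T_10 (nat_lit 140) (nat_lit 156) (nat_lit 1) (nat_lit 7) (nat_lit 8) L61699 (by decide +kernel)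
theorem L61701 : W_10 (nat_lit 8) (nat_lit 0x200002001e00080000000000000000000000000000000) (nat_lit 0x0) (nat_lit 0x48000400190001c003f000000000000000000000000000000) := T_10 (nat_lit 124) (nat_lit 123) (nat_lit 0) (nat_lit 8) (nat_lit 8) L61700 (by decide +kernel)
theorem L61702 : W_10 (nat_lit 9) (nat_lit 0x200000001e00080000000000000000000000000000000) (nat_lit 0x0) (nat_lit 0x480004001f0001c003f000000000000000000000000000000) := T_10 (nat_lit 157) (nat_lit 158) (nat_lit 1) (nat_lit 8) (nat_lit 8) L61701 (by decide +kernel)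
theorem L61703 : W_10 (nat_lit 10) (nat_lit 0x200000001a00080000000000000000000000000000000) (nat_lit 0x0) (nat_lit 0x480004001f0005c013f000000000000000000000000000000) := T_10 (nat_lit 142) (nat_lit 128) (nat_lit 2) (nat_lit 5) (nat_lit 8) L61702 (by decide +kernel)
theorem L61704 : W_10 (nat_lit 2) (nat_lit 0x300010001a000d8002000080000000000000000000000) (nat_lit 0x0) (nat_lit 0x10000c000000000000000000) := D_10 (nat_lit 92) (nat_lit 75) (nat_lit 74) (nat_lit 7) (nat_lit 7) (nat_lit 4) (nat_lit 4) (nat_lit 7) (nat_lit 8) (by decide +kernel)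
theorem L61705 : W_10 (nat_lit 3) (nat_lit 0x300010001a000d8002000000000000000000000000000) (nat_lit 0x0) (nat_lit 0x100018000c000000000000000000) := T_10 (nat_lit 91) (nat_lit 108) (nat_lit 4) (nat_lit 7) (nat_lit 9) L61704 (by decide +kernel)
theorem L61706 : W_10 (nat_lit 4) (nat_lit 0x300010001a000d8000000000000000000000000000000) (nat_lit 0x0) (nat_lit 0x800000000000300018000c000000000000000000) := T_10 (nat_lit 109) (nat_lit 159) (nat_lit 5) (nat_lit 7) (nat_lit 6) L61705 (by decide +kernel)
theorem L61707 : W_10 (nat_lit 5) (nat_lit 0x200010001a000d8000000000000000000000000000000) (nat_lit 0x0) (nat_lit 0x200010000800000000000300018000c000000000000000000) := T_10 (nat_lit 176) (nat_lit 193) (nat_lit 5) (nat_lit 7) (nat_lit 7) L61706 (by decide +kernel)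
theorem L61708 : W_10 (nat_lit 6) (nat_lit 0x200010001a00098000000000000000000000000000000) (nat_lit 0x0) (nat_lit 0x200010000800000006000300018000c000000000000000000) := T_10 (nat_lit 126) (nat_lit 125) (nat_lit 3) (nat_lit 4) (nat_lit 7) L61707 (by decide +kernel)
theorem L61709 : W_10 (nat_lit 7) (nat_lit 0x200010001a00090000000000000000000000000000000) (nat_lit 0x0) (nat_lit 0x200010000800040006800300018000c000000000000000000) := T_10 (nat_lit 123) (nat_lit 142) (nat_lit 0) (nat_lit 8) (nat_lit 8) L61708 (by decide +kernel)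
theorem L61710 : W_10 (nat_lit 8) (nat_lit 0x200000001a00090000000000000000000000000000000) (nat_lit 0x0) (nat_lit 0x600010001800040006800300018000c000000000000000000) := T_10 (nat_lit 160) (nat_lit 194) (nat_lit 6) (nat_lit 7) (nat_lit 11) L61709 (by decide +kernel)
theorem L61711 : W_10 (nat_lit 5) (nat_lit 0x200000001a000d8000000000000000000000000000000) (nat_lit 0x0) (nat_lit 0x600010001e000000000002800000000000000000000000000) := T_10 (nat_lit 160) (nat_lit 194) (nat_lit 6) (nat_lit 7) (nat_lit 11) L40415 (by decide +kernel)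
theorem L61712 : W_10 (nat_lit 6) (nat_lit 0x200000001a000d0000000000000000000000000000000) (nat_lit 0x0) (nat_lit 0x600010001e000000028002800000000000000000000000000) := T_10 (nat_lit 123) (nat_lit 125) (nat_lit 3) (nat_lit 4) (nat_lit 7) L61711 (by decide +kernel)
theorem L61713 : W_10 (nat_lit 7) (nat_lit 0x200000001a00090000000000000000000000000000000) (nat_lit 0x0) (nat_lit 0x600010001e00000076803bc0018000c000000000000000000) := Q_10 (nat_lit 126) (C_10 L39952 (C_10 L40412 (C_10 L31848 (C_10 L61712 N_10)))) (by decide +kernel)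
theorem L61714 : W_10 (nat_lit 2) (nat_lit 0x200000005a003d001a000000008000000000000000000) (nat_lit 0x0) (nat_lit 0x1000080000000000000000400000000000000000000000) := D_10 (nat_lit 163) (nat_lit 94) (nat_lit 180) (nat_lit 4) (nat_lit 10) (nat_lit 9) (nat_lit 4) (nat_lit 10) (nat_lit 10) (by decide +kernel)
theorem L61715 : W_10 (nat_lit 3) (nat_lit 0x200000005a003d0012000000008000000000000000000) (nat_lit 0x0) (nat_lit 0x1000080000000020008000400000000000000000000000) := T_10 (nat_lit 111) (nat_lit 125) (nat_lit 2) (nat_lit 6) (nat_lit 7) L61714 (by decide +kernel)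
theorem L61716 : W_10 (nat_lit 4) (nat_lit 0x200000005a003d0002000000008000000000000000000) (nat_lit 0x0) (nat_lit 0x1000080000000020038000400000000000000000000000) := T_10 (nat_lit 112) (nat_lit 113) (nat_lit 2) (nat_lit 7) (nat_lit 7) L61715 (by decide +kernel)
theorem L61717 : W_10 (nat_lit 5) (nat_lit 0x200000005a003d0002000000000000000000000000000) (nat_lit 0x0) (nat_lit 0x1000080000000020038000500008000000000000000000) := T_10 (nat_lit 75) (nat_lit 92) (nat_lit 7) (nat_lit 7) (nat_lit 4) L61716 (by decide +kernel)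
theorem L61718 : W_10 (nat_lit 6) (nat_lit 0x200000001a003d0002000000000000000000000000000) (nat_lit 0x0) (nat_lit 0x100008000c000020038000500008000000000000000000) := T_10 (nat_lit 146) (nat_lit 147) (nat_lit 3) (nat_lit 7) (nat_lit 7) L61717 (by decide +kernel)
theorem L61719 : W_10 (nat_lit 7) (nat_lit 0x200000001a003d0000000000000000000000000000000) (nat_lit 0x0) (nat_lit 0x100008000c00002003b000500008000000000000000000) := T_10 (nat_lit 109) (nat_lit 108) (nat_lit 0) (nat_lit 10) (nat_lit 7) L61718 (by decide +kernel)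
theorem L61720 : W_10 (nat_lit 8) (nat_lit 0x200000001a001d0000000000000000000000000000000) (nat_lit 0x0) (nat_lit 0x100008000c00062003b000500008000000000000000000) := T_10 (nat_lit 129) (nat_lit 130) (nat_lit 1) (nat_lit 11) (nat_lit 7) L61719 (by decide +kernel)
theorem L61721 : W_10 (nat_lit 9) (nat_lit 0x200000001a000d0000000000000000000000000000000) (nat_lit 0x0) (nat_lit 0x100008000c40072003b000500008000000000000000000) := T_10 (nat_lit 128) (nat_lit 142) (nat_lit 2) (nat_lit 5) (nat_lit 8) L61720 (by decide +kernel)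
theorem L61722 : W_10 (nat_lit 2) (nat_lit 0x300014001e000d0000000000000000000000000000000) (nat_lit 0x0) (nat_lit 0x8000000000002800000000000000000000000000) := D_10 (nat_lit 159) (nat_lit 109) (nat_lit 107) (nat_lit 5) (nat_lit 7) (nat_lit 6) (nat_lit 7) (nat_lit 5) (nat_lit 6) (by decide +kernel)
theorem L61723 : W_10 (nat_lit 3) (nat_lit 0x200014001e000d0000000000000000000000000000000) (nat_lit 0x0) (nat_lit 0x2000100008000000000002800000000000000000000000000) := T_10 (nat_lit 176) (nat_lit 193) (nat_lit 5) (nat_lit 7) (nat_lit 7) L61722 (by decide +kernel)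
theorem L61724 : W_10 (nat_lit 4) (nat_lit 0x200004001e000d0000000000000000000000000000000) (nat_lit 0x0) (nat_lit 0x6000100018000000000002800000000000000000000000000) := T_10 (nat_lit 160) (nat_lit 194) (nat_lit 6) (nat_lit 7) (nat_lit 11) L61723 (by decide +kernel)
theorem L61725 : W_10 (nat_lit 5) (nat_lit 0x200000001e000d0000000000000000000000000000000) (nat_lit 0x0) (nat_lit 0x600010001e000000000002800000000000000000000000000) := T_10 (nat_lit 158) (nat_lit 157) (nat_lit 1) (nat_lit 8) (nat_lit 8) L61724 (by decide +kernel)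
theorem L61726 : W_10 (nat_lit 6) (nat_lit 0x200000001a000d0000000000000000000000000000000) (nat_lit 0x0) (nat_lit 0x600010001e000400100002800000000000000000000000000) := T_10 (nat_lit 142) (nat_lit 128) (nat_lit 2) (nat_lit 5) (nat_lit 8) L61725 (by decide +kernel)
theorem L61727 : W_10 (nat_lit 2) (nat_lit 0x4000200000001a003f0010000000000000000000000000000) (nat_lit 0x0) (nat_lit 0x1c00000000000000000000000000) := D_10 (nat_lit 107) (nat_lit 108) (nat_lit 106) (nat_lit 0) (nat_lit 9) (nat_lit 7) (nat_lit 0) (nat_lit 8) (nat_lit 7) (by decide +kernel)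
theorem L61728 : W_10 (nat_lit 3) (nat_lit 0x4000200000001a003d0010000000000000000000000000000) (nat_lit 0x0) (nat_lit 0x20009c00000000000000000000000000) := T_10 (nat_lit 125) (nat_lit 111) (nat_lit 2) (nat_lit 6) (nat_lit 7) L61727 (by decide +kernel)
theorem L61729 : W_10 (nat_lit 4) (nat_lit 0x4000200000001a003d0000000000000000000000000000000) (nat_lit 0x0) (nat_lit 0x20039c00000000000000000000000000) := T_10 (nat_lit 112) (nat_lit 113) (nat_lit 2) (nat_lit 7) (nat_lit 7) L61728 (by decide +kernel)
theorem L61730 : W_10 (nat_lit 5) (nat_lit 0x4000200000001a001d0000000000000000000000000000000) (nat_lit 0x0) (nat_lit 0x620039c00000000000000000000000000) := T_10 (nat_lit 129) (nat_lit 130) (nat_lit 1) (nat_lit 11) (nat_lit 7) L61729 (by decide +kernel)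
theorem L61731 : W_10 (nat_lit 6) (nat_lit 0x4000200000001a000d0000000000000000000000000000000) (nat_lit 0x0) (nat_lit 0x400720039c00000000000000000000000000) := T_10 (nat_lit 128) (nat_lit 142) (nat_lit 2) (nat_lit 5) (nat_lit 8) L61730 (by decide +kernel)
theorem L61732 : W_10 (nat_lit 7) (nat_lit 0x200000001a000d0000000000000000000000000000000) (nat_lit 0x0) (nat_lit 0x4000000010000400720039c00000000000000000000000000) := T_10 (nat_lit 194) (nat_lit 160) (nat_lit 6) (nat_lit 7) (nat_lit 11) L61731 (by decide +kernel)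
theorem L61733 : W_10 (nat_lit 10) (nat_lit 0x200000001a00090000000000000000000000000000000) (nat_lit 0x0) (nat_lit 0x600110009e00c40076003bc0058000c000000000000000000) := Q_10 (nat_lit 126) (C_10 L40412 (C_10 L61721 (C_10 L61726 (C_10 L61732 N_10)))) (by decide +kernel)
theorem L61734 : W_10 (nat_lit 11) (nat_lit 0x200000001a00080000000000000000000000000000000) (nat_lit 0x0) (nat_lit 0x600110009e00c40077803bc0058000c000000000000000000) := Q_10 (nat_lit 124) (C_10 L31833 (C_10 L61710 (C_10 L61713 (C_10 L61733 N_10)))) (by decide +kernel)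
theorem L61735 : W_10 (nat_lit 12) (nat_lit 0x200000001200080000000000000000000000000000000) (nat_lit 0x0) (nat_lit 0x680114009f00cdc077f03bc0058000c000000000000000000) := Q_10 (nat_lit 143) (C_10 L61694 (C_10 L31822 (C_10 L31825 (C_10 L61703 (C_10 L59798 (C_10 L61734 N_10)))))) (by decide +kernel)
end Crest.Agent.Helper32.Snaky.R1_0
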