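import Crest.Agent.Helper32.Snaky.Gen.R1_0_p3
set_option autoImplicit false
set_option maxRecDepth 100000
set_option linter.all false
set_option Elab.async false
namespace Crest.Agent.Helper32.Snaky.R1_0
@[reducible] def W_11 (d M Bz Z : Nat) : Prop := Crest.Agent.Helper32.Snaky.Wins (nat_lit 17) d M Bz Z
theorem D_11 {d M Bz Z : Nat} (m t1 t2 o1 x1 y1 o2 x2 y2 : Nat) (h : Crest.Agent.Helper32.Snaky.chkDoubleC (nat_lit 17) d M Bz Z m t1 t2 o1 x1 y1 o2 x2 y2 = true) : W_11 d M Bz Z := Crest.Agent.Helper32.Snaky.doubleC m t1 t2 o1 x1 y1 o2 x2 y2 h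
theorem T_11 {d M Bz Z cd cM cBz cZ : Nat} (m t o x y : Nat) (child : W_11 cd cM cBz cZ) (h : Crest.Agent.Helper32.Snaky.chkThreatC (nat_lit 17) d M Bz Z cd cM cBz cZ m t o x y = true) : W_11 d M Bz Z := Crest.Agent.Helper32.Snaky.threatC m t o x y child h
theorem Q_11 {d M Bz Z : Nat} (m : Nat) {l : List Crest.Agent.Helper32.Snaky.Spec} (kids : Crest.Agent.Helper32.Snaky.AllWins (nat_lit 17) l) (h : Crest.Agent.Helper32.Snaky.chkQuiet d M Bz Z m l = true) : W_11 d M Bz Z := Crest.Agent.Helper32.Snaky.quiet m kids h
theorem C_11 {cd cM cBz cZ : Nat} {l : List Crest.Agent.Helper32.Snaky.Spec} (h : W_11 cd cM cBz cZ) (hl : Crest.Agent.Helper32.Snaky.AllWins (nat_lit 17) l) : Crest.Agent.Helper32.Snaky.AllWins (nat_lit 17) ((cd, cM, cBz, cZ) :: l) := Crest.Agent.Helper32.Snaky.AllWins.cons h hl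
theorem N_11 : Crest.Agent.Helper32.Snaky.AllWins (nat_lit 17) [] := Crest.Agent.Helper32.Snaky.AllWins.nil
theorem L31899 : W_11 (nat_lit 9) (nat_lit 0x200000001a00080000000000000000000000000000000) (nat_lit 0x0) (nat_lit 0x60001000b800c40076003b000500028000000000000000000) := Q_11 (nat_lit 126) (C_11 L31890 (C_11 L31891 (C_11 L31898 N_11))) (by decide +kernel)
theorem L31900 : W_11 (nat_lit 10) (nat_lit 0x200000001200080000000000000000000000000000000) (nat_lit 0x0) (nat_lit 0x60001000ff00cd0077803b000500028000000000000000000) := Q_11 (nat_lit 143) (C_11 L31886 (C_11 L31822 (C_11 L31825 (C_11 L31829 (C_11 L31899 N_11))))) (by decide +kernel)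
theorem L33698 : W_11 (nat_lit 5) (nat_lit 0x200010001a000e0000000000000000000000000000000) (nat_lit 0x0) (nat_lit 0x200010000c000100010002c00000000000000000000000000) := T_11 (nat_lit 124) (nat_lit 140) (nat_lit 1) (nat_lit 8) (nat_lit 7) L31862 (by decide +kernel)
theorem L33699 : W_11 (nat_lit 6) (nat_lit 0x200010001a000c0000000000000000000000000000000) (nat_lit 0x0) (nat_lit 0x200010000c000100030003c00000000000000000000000000) := T_11 (nat_lit 125) (nat_lit 108) (nat_lit 4) (nat_lit 7) (nat_lit 10) L33698 (by decide +kernel)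
theorem L33704 : W_11 (nat_lit 6) (nat_lit 0x300010001a000e0000000000000000000000000000000) (nat_lit 0x0) (nat_lit 0x8000c002e000100010000c00000000000000000000000000) := T_11 (nat_lit 124) (nat_lit 140) (nat_lit 1) (nat_lit 8) (nat_lit 7) L33703 (by decide +kernel)
theorem L33705 : W_11 (nat_lit 7) (nat_lit 0x300010001a000c0000000000000000000000000000000) (nat_lit 0x0) (nat_lit 0x8000c002e000100030001c00000000000000000000000000) := T_11 (nat_lit 125) (nat_lit 108) (nat_lit 4) (nat_lit 7) (nat_lit 10) L33704 (by decide +kernel)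
theorem L33706 : W_11 (nat_lit 8) (nat_lit 0x200010001a000c0000000000000000000000000000000) (nat_lit 0x0) (nat_lit 0x28001c002e000100030001c00000000000000000000000000) := T_11 (nat_lit 176) (nat_lit 193) (nat_lit 5) (nat_lit 7) (nat_lit 7) L33705 (by decide +kernel)
theorem L33710 : W_11 (nat_lit 9) (nat_lit 0x200010001a00080000000000000000000000000000000) (nat_lit 0x0) (nat_lit 0x28001c002e000100070003c00180008000000000000000000) := Q_11 (nat_lit 126) (C_11 L33699 (C_11 L31884 (C_11 L33706 (C_11 L33709 N_11)))) (by decide +kernel)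
theorem L33711 : W_11 (nat_lit 10) (nat_lit 0x200000001a00080000000000000000000000000000000) (nat_lit 0x0) (nat_lit 0x68001c003e000100070003c00180008000000000000000000) := T_11 (nat_lit 160) (nat_lit 194) (nat_lit 6) (nat_lit 7) (nat_lit 11) L33710 (by decide +kernel)
theorem L33713 : W_11 (nat_lit 2) (nat_lit 0x380034001e000c0000000000000000000000000000000) (nat_lit 0x0) (nat_lit 0x1000000000000000020001000000000000000000000000000) := D_11 (nat_lit 125) (nat_lit 108) (nat_lit 192) (nat_lit 4) (nat_lit 7) (nat_lit 10) (nat_lit 6) (nat_lit 5) (nat_lit 11) (by decide +kernel)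
theorem L33714 : W_11 (nat_lit 3) (nat_lit 0x300034001e000c0000000000000000000000000000000) (nat_lit 0x0) (nat_lit 0x10000c0000000000020001000000000000000000000000000) := T_11 (nat_lit 175) (nat_lit 174) (nat_lit 2) (nat_lit 4) (nat_lit 10) L33713 (by decide +kernel)
theorem L33715 : W_11 (nat_lit 4) (nat_lit 0x200034001e000c0000000000000000000000000000000) (nat_lit 0x0) (nat_lit 0x30001c0000000000020001000000000000000000000000000) := T_11 (nat_lit 176) (nat_lit 193) (nat_lit 5) (nat_lit 7) (nat_lit 7) L33714 (by decide +kernel)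
theorem L33716 : W_11 (nat_lit 5) (nat_lit 0x200024001e000c0000000000000000000000000000000) (nat_lit 0x0) (nat_lit 0x70001c0010000000020001000000000000000000000000000) := T_11 (nat_lit 160) (nat_lit 194) (nat_lit 6) (nat_lit 7) (nat_lit 11) L33715 (by decide +kernel)
theorem L33717 : W_11 (nat_lit 6) (nat_lit 0x200004001e000c0000000000000000000000000000000) (nat_lit 0x0) (nat_lit 0x70001c0070000000020001000000000000000000000000000) := T_11 (nat_lit 161) (nat_lit 162) (nat_lit 3) (nat_lit 5) (nat_lit 8) L33716 (by decide +kernel)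
theorem L33718 : W_11 (nat_lit 7) (nat_lit 0x200000001e000c0000000000000000000000000000000) (nat_lit 0x0) (nat_lit 0x70001c0076000000020001000000000000000000000000000) := T_11 (nat_lit 158) (nat_lit 157) (nat_lit 1) (nat_lit 8) (nat_lit 8) L33717 (by decide +kernel)
theorem L33719 : W_11 (nat_lit 8) (nat_lit 0x200000001a000c0000000000000000000000000000000) (nat_lit 0x0) (nat_lit 0x70001c0076000400120001000000000000000000000000000) := T_11 (nat_lit 142) (nat_lit 128) (nat_lit 2) (nat_lit 5) (nat_lit 8) L33718 (by decide +kernel)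
theorem L33720 : W_11 (nat_lit 9) (nat_lit 0x200000001a00080000000000000000000000000000000) (nat_lit 0x0) (nat_lit 0x70001c00f600c40076003b000580028000000000000000000) := Q_11 (nat_lit 126) (C_11 L33712 (C_11 L31890 (C_11 L33719 (C_11 L31898 N_11)))) (by decide +kernel)
theorem L33724 : W_11 (nat_lit 11) (nat_lit 0x200000001200080000000000000000000000000000000) (nat_lit 0x0) (nat_lit 0x78001c00ff00cd0077003bc00580028000000000000000000) := Q_11 (nat_lit 143) (C_11 L33711 (C_11 L31822 (C_11 L31825 (C_11 L31829 (C_11 L33720 (C_11 L33723 N_11)))))) (by decide +kernel)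
theorem L33725 : W_11 (nat_lit 2) (nat_lit 0x2380034013e0086000400008000000000000000000000) (nat_lit 0x0) (nat_lit 0x800040000000000000000200000000000000000000000000) := D_11 (nat_lit 174) (nat_lit 191) (nat_lit 105) (nat_lit 7) (nat_lit 3) (nat_lit 7) (nat_lit 7) (nat_lit 3) (nat_lit 6) (by decide +kernel)
theorem L33726 : W_11 (nat_lit 3) (nat_lit 0x2380034013e0082000400008000000000000000000000) (nat_lit 0x0) (nat_lit 0xa00040000000000004000200000000000000000000000000) := T_11 (nat_lit 122) (nat_lit 189) (nat_lit 5) (nat_lit 3) (nat_lit 7) L33725 (by decide +kernel)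
theorem L33727 : W_11 (nat_lit 4) (nat_lit 0x2280034013e0082000400008000000000000000000000) (nat_lit 0x0) (nat_lit 0xa00054000000000004000200000000000000000000000000) := T_11 (nat_lit 172) (nat_lit 170) (nat_lit 2) (nat_lit 0) (nat_lit 10) L33726 (by decide +kernel)
theorem L33728 : W_11 (nat_lit 5) (nat_lit 0x2280034013e0082000000008000000000000000000000) (nat_lit 0x0) (nat_lit 0xa0005400000000000c000600000000000000000000000000) := T_11 (nat_lit 106) (nat_lit 123) (nat_lit 5) (nat_lit 4) (nat_lit 6) L33727 (by decide +kernel)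
theorem L33729 : W_11 (nat_lit 6) (nat_lit 0x2200034013e0082000000008000000000000000000000) (nat_lit 0x0) (nat_lit 0xb0005c00000000000c000600000000000000000000000000) := T_11 (nat_lit 171) (nat_lit 188) (nat_lit 6) (nat_lit 1) (nat_lit 11) L33728 (by decide +kernel)
theorem L33730 : W_11 (nat_lit 7) (nat_lit 0x2000034013e0082000000008000000000000000000000) (nat_lit 0x0) (nat_lit 0xf0007c00000000000c000600000000000000000000000000) := T_11 (nat_lit 173) (nat_lit 190) (nat_lit 4) (nat_lit 3) (nat_lit 11) L33729 (by decide +kernel)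
theorem L33731 : W_11 (nat_lit 8) (nat_lit 0x2000034013e0082000000000000000000000000000000) (nat_lit 0x0) (nat_lit 0xf0007c00000000000c000700008000000000000000000000) := T_11 (nat_lit 87) (nat_lit 104) (nat_lit 7) (nat_lit 2) (nat_lit 5) L33730 (by decide +kernel)
theorem L33732 : W_11 (nat_lit 9) (nat_lit 0x2000024013e0082000000000000000000000000000000) (nat_lit 0x0) (nat_lit 0xf0007c00100001000c000700008000000000000000000000) := T_11 (nat_lit 156) (nat_lit 136) (nat_lit 3) (nat_lit 0) (nat_lit 8) L33731 (by decide +kernel)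
theorem L33733 : W_11 (nat_lit 10) (nat_lit 0x2000004013e0082000000000000000000000000000000) (nat_lit 0x0) (nat_lit 0xf0007c00700001000c000700008000000000000000000000) := T_11 (nat_lit 157) (nat_lit 158) (nat_lit 3) (nat_lit 1) (nat_lit 8) L33732 (by decide +kernel)
theorem L33734 : W_11 (nat_lit 11) (nat_lit 0x2000004013c0082000000000000000000000000000000) (nat_lit 0x0) (nat_lit 0xf0007c00720003000c000700008000000000000000000000) := T_11 (nat_lit 137) (nat_lit 153) (nat_lit 1) (nat_lit 4) (nat_lit 8) L33733 (by decide +kernel)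
theorem L33735 : W_11 (nat_lit 12) (nat_lit 0x2000000013c0082000000000000000000000000000000) (nat_lit 0x0) (nat_lit 0xf0007c007e0003000c000700008000000000000000000000) := T_11 (nat_lit 154) (nat_lit 155) (nat_lit 1) (nat_lit 5) (nat_lit 8) L33734 (by decide +kernel)
theorem L33736 : W_11 (nat_lit 13) (nat_lit 0x2000000013c0080000000000000000000000000000000) (nat_lit 0x0) (nat_lit 0xf0007c007e0003000f000700008000000000000000000000) := T_11 (nat_lit 121) (nat_lit 120) (nat_lit 0) (nat_lit 5) (nat_lit 8) L33735 (by decide +kernel)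
theorem L33737 : W_11 (nat_lit 2) (nat_lit 0x2000004013c0081000000000000000000000000000000) (nat_lit 0x0) (nat_lit 0x200020000800000000000000000000000000000) := D_11 (nat_lit 137) (nat_lit 153) (nat_lit 119) (nat_lit 1) (nat_lit 4) (nat_lit 8) (nat_lit 0) (nat_lit 4) (nat_lit 8) (by decide +kernel)
theorem L33738 : W_11 (nat_lit 3) (nat_lit 0x2000004013c0080000000000000000000000000000000) (nat_lit 0x0) (nat_lit 0x200020003800000000000000000000000000000) := T_11 (nat_lit 120) (nat_lit 121) (nat_lit 0) (nat_lit 5) (nat_lit 8) L33737 (by decide +kernel)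
theorem L33739 : W_11 (nat_lit 4) (nat_lit 0x2000000013c0080000000000000000000000000000000) (nat_lit 0x0) (nat_lit 0xe00020003800000000000000000000000000000) := T_11 (nat_lit 154) (nat_lit 155) (nat_lit 1) (nat_lit 5) (nat_lit 8) L33738 (by decide +kernel)
theorem L33743 : W_11 (nat_lit 2) (nat_lit 0x2000040013e0080000000000000000000000000000000) (nat_lit 0x0) (nat_lit 0xe00000000000000000000000000000000000000) := D_11 (nat_lit 154) (nat_lit 153) (nat_lit 155) (nat_lit 1) (nat_lit 4) (nat_lit 8) (nat_lit 1) (nat_lit 5) (nat_lit 8) (by decide +kernel)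
theorem L33744 : W_11 (nat_lit 3) (nat_lit 0x2000040013c0080000000000000000000000000000000) (nat_lit 0x0) (nat_lit 0x2e00020000000000000000000000000000000000) := T_11 (nat_lit 137) (nat_lit 157) (nat_lit 3) (nat_lit 1) (nat_lit 8) L33743 (by decide +kernel)
theorem L33745 : W_11 (nat_lit 4) (nat_lit 0x2000000013c0080000000000000000000000000000000) (nat_lit 0x0) (nat_lit 0xee00020000000000000000000000000000000000) := T_11 (nat_lit 158) (nat_lit 159) (nat_lit 3) (nat_lit 2) (nat_lit 8) L33744 (by decide +kernel)
theorem L33751 : W_11 (nat_lit 5) (nat_lit 0x2800050013c0088000000020000000000000000000000) (nat_lit 0x0) (nat_lit 0x200118002c00000004000200000000000000000000000000) := T_11 (nat_lit 155) (nat_lit 154) (nat_lit 1) (nat_lit 5) (nat_lit 8) L33750 (by decide +kernel)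
theorem L33752 : W_11 (nat_lit 6) (nat_lit 0x2000050013c0088000000020000000000000000000000) (nat_lit 0x0) (nat_lit 0x1200198002c00000004000200000000000000000000000000) := T_11 (nat_lit 175) (nat_lit 192) (nat_lit 4) (nat_lit 5) (nat_lit 11) L33751 (by decide +kernel)
theorem L33753 : W_11 (nat_lit 7) (nat_lit 0x2000010013c0088000000020000000000000000000000) (nat_lit 0x0) (nat_lit 0x120019800ec00000004000200000000000000000000000000) := T_11 (nat_lit 158) (nat_lit 159) (nat_lit 3) (nat_lit 2) (nat_lit 8) L33752 (by decide +kernel)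
theorem L33754 : W_11 (nat_lit 8) (nat_lit 0x2000010013c0088000000000000000000000000000000) (nat_lit 0x0) (nat_lit 0x120019800ec00000004000600020000000000000000000000) := T_11 (nat_lit 89) (nat_lit 106) (nat_lit 5) (nat_lit 4) (nat_lit 5) L33753 (by decide +kernel)
theorem L33762 : W_11 (nat_lit 2) (nat_lit 0x4002900078013c0088000000020000000000000000000000) (nat_lit 0x0) (nat_lit 0xc000200000000000000000000000000000000000000000000000) := D_11 (nat_lit 189) (nat_lit 206) (nat_lit 207) (nat_lit 6) (nat_lit 2) (nat_lit 12) (nat_lit 7) (nat_lit 2) (nat_lit 8) (by decide +kernel)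
theorem L33763 : W_11 (nat_lit 3) (nat_lit 0x4002800078013c0088000000020000000000000000000000) (nat_lit 0x0) (nat_lit 0xc000200018000000000000000000000000000000000000000000) := T_11 (nat_lit 172) (nat_lit 171) (nat_lit 1) (nat_lit 5) (nat_lit 9) L33762 (by decide +kernel)
theorem L33764 : W_11 (nat_lit 4) (nat_lit 0x4002800058013c0088000000020000000000000000000000) (nat_lit 0x0) (nat_lit 0xc000200118002000000000000000000000000000000000000000) := T_11 (nat_lit 157) (nat_lit 176) (nat_lit 3) (nat_lit 2) (nat_lit 9) L33763 (by decide +kernel)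
theorem L33765 : W_11 (nat_lit 5) (nat_lit 0x2800058013c0088000000020000000000000000000000) (nat_lit 0x0) (nat_lit 0xc000600138002000000000000000000000000000000000000000) := T_11 (nat_lit 190) (nat_lit 173) (nat_lit 6) (nat_lit 3) (nat_lit 11) L33764 (by decide +kernel)
theorem L33766 : W_11 (nat_lit 6) (nat_lit 0x2800050013c0088000000020000000000000000000000) (nat_lit 0x0) (nat_lit 0xc000600138002c00000000000000000000000000000000000000) := T_11 (nat_lit 155) (nat_lit 154) (nat_lit 1) (nat_lit 5) (nat_lit 8) L33765 (by decide +kernel)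
theorem L33767 : W_11 (nat_lit 7) (nat_lit 0x2000050013c0088000000020000000000000000000000) (nat_lit 0x0) (nat_lit 0xc0016001b8002c00000000000000000000000000000000000000) := T_11 (nat_lit 175) (nat_lit 192) (nat_lit 4) (nat_lit 5) (nat_lit 11) L33766 (by decide +kernel)
theorem L33768 : W_11 (nat_lit 8) (nat_lit 0x2000050013c0088000000000000000000000000000000) (nat_lit 0x0) (nat_lit 0xc0016001b8002c00000000000400020000000000000000000000) := T_11 (nat_lit 89) (nat_lit 106) (nat_lit 7) (nat_lit 4) (nat_lit 5) L33767 (by decide +kernel)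
theorem L33769 : W_11 (nat_lit 9) (nat_lit 0x2000010013c0088000000000000000000000000000000) (nat_lit 0x0) (nat_lit 0xc0016001b800ec00000000000400020000000000000000000000) := T_11 (nat_lit 158) (nat_lit 159) (nat_lit 3) (nat_lit 2) (nat_lit 8) L33768 (by decide +kernel)
theorem L33770 : W_11 (nat_lit 10) (nat_lit 0x2000010013c0080000000000000000000000000000000) (nat_lit 0x0) (nat_lit 0xc0016001b800ec0000000c000600020000000000000000000000) := Q_11 (nat_lit 123) (C_11 L33747 (C_11 L33754 (C_11 L33761 (C_11 L33769 N_11)))) (by decide +kernel)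
theorem L33778 : W_11 (nat_lit 2) (nat_lit 0x2000078013c008e000380000000000000000000000000) (nat_lit 0x0) (nat_lit 0x80000000000000000400020000000000000000000000) := D_11 (nat_lit 106) (nat_lit 175) (nat_lit 89) (nat_lit 7) (nat_lit 4) (nat_lit 6) (nat_lit 7) (nat_lit 4) (nat_lit 5) (by decide +kernel)
theorem L33779 : W_11 (nat_lit 3) (nat_lit 0x2000058013c008e000380000000000000000000000000) (nat_lit 0x0) (nat_lit 0xc0002000000000000400020000000000000000000000) := T_11 (nat_lit 157) (nat_lit 174) (nat_lit 7) (nat_lit 3) (nat_lit 6) L33778 (by decide +kernel)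
theorem L33780 : W_11 (nat_lit 4) (nat_lit 0x2000058013c0086000380000000000000000000000000) (nat_lit 0x0) (nat_lit 0xc0002000000008000440020000000000000000000000) := T_11 (nat_lit 123) (nat_lit 102) (nat_lit 3) (nat_lit 0) (nat_lit 6) L33779 (by decide +kernel)
theorem L33781 : W_11 (nat_lit 5) (nat_lit 0x2000058013c0082000380000000000000000000000000) (nat_lit 0x0) (nat_lit 0xd000200000000c000440020000000000000000000000) := T_11 (nat_lit 122) (nat_lit 172) (nat_lit 6) (nat_lit 2) (nat_lit 10) L33780 (by decide +kernel)
theorem L33782 : W_11 (nat_lit 6) (nat_lit 0x2000058013c0082000180000000000000000000000000) (nat_lit 0x0) (nat_lit 0xd000200000000c000640030000000000000000000000) := T_11 (nat_lit 105) (nat_lit 88) (nat_lit 6) (nat_lit 2) (nat_lit 9) L33781 (by decide +kernel)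
theorem L33783 : W_11 (nat_lit 7) (nat_lit 0x2000058013c0082000100000000000000000000000000) (nat_lit 0x0) (nat_lit 0xd000200000000c0006c0034000000000000000000000) := T_11 (nat_lit 103) (nat_lit 86) (nat_lit 4) (nat_lit 2) (nat_lit 9) L33782 (by decide +kernel)
theorem L33784 : W_11 (nat_lit 8) (nat_lit 0x2000018013c0082000100000000000000000000000000) (nat_lit 0x0) (nat_lit 0xd000e00000000c0006c0034000000000000000000000) := T_11 (nat_lit 158) (nat_lit 159) (nat_lit 3) (nat_lit 2) (nat_lit 8) L33783 (by decide +kernel)
theorem L33785 : W_11 (nat_lit 9) (nat_lit 0x2000018013c0082000000000000000000000000000000) (nat_lit 0x0) (nat_lit 0xd000e00000000c0007c003c000000000000000000000) := T_11 (nat_lit 104) (nat_lit 87) (nat_lit 7) (nat_lit 2) (nat_lit 5) L33784 (by decide +kernel)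
theorem L33786 : W_11 (nat_lit 10) (nat_lit 0x2000010013c0082000000000000000000000000000000) (nat_lit 0x0) (nat_lit 0xd000ec0000000c0007c003c000000000000000000000) := T_11 (nat_lit 155) (nat_lit 154) (nat_lit 1) (nat_lit 5) (nat_lit 8) L33785 (by decide +kernel)
theorem L33787 : W_11 (nat_lit 11) (nat_lit 0x2000010013c0080000000000000000000000000000000) (nat_lit 0x0) (nat_lit 0xd000ec0000000f0007c003c000000000000000000000) := T_11 (nat_lit 121) (nat_lit 120) (nat_lit 0) (nat_lit 5) (nat_lit 8) L33786 (by decide +kernel)
theorem L33788 : W_11 (nat_lit 12) (nat_lit 0x2000000013c0080000000000000000000000000000000) (nat_lit 0x0) (nat_lit 0xc0016001f800fc0000000f0007c003c000000000000000000000) := Q_11 (nat_lit 156) (C_11 L33770 (C_11 L33773 (C_11 L33777 (C_11 L33787 N_11)))) (by decide +kernel)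
theorem L33789 : W_11 (nat_lit 14) (nat_lit 0x200000001380080000000000000000000000000000000) (nat_lit 0x0) (nat_lit 0xc001f001fc00fe0007000f8007c003c000000000000000000000) := Q_11 (nat_lit 138) (C_11 L33736 (C_11 L33739 (C_11 L33742 (C_11 L33745 (C_11 L33788 N_11))))) (by decide +kernel)
theorem L33794 : W_11 (nat_lit 2) (nat_lit 0x200009001780082000000000000000000000000000000) (nat_lit 0x0) (nat_lit 0x4000040001000000000000000000000000000000) := D_11 (nat_lit 138) (nat_lit 158) (nat_lit 120) (nat_lit 3) (nat_lit 2) (nat_lit 8) (nat_lit 0) (nat_lit 5) (nat_lit 8) (by decide +kernel)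
theorem L33795 : W_11 (nat_lit 3) (nat_lit 0x200001001780082000000000000000000000000000000) (nat_lit 0x0) (nat_lit 0x1c000040001000000000000000000000000000000) := T_11 (nat_lit 159) (nat_lit 160) (nat_lit 3) (nat_lit 3) (nat_lit 8) L33794 (by decide +kernel)
theorem L33796 : W_11 (nat_lit 4) (nat_lit 0x200001001780080000000000000000000000000000000) (nat_lit 0x0) (nat_lit 0x1c000040007000000000000000000000000000000) := T_11 (nat_lit 121) (nat_lit 122) (nat_lit 0) (nat_lit 6) (nat_lit 8) L33795 (by decide +kernel)
theorem L33797 : W_11 (nat_lit 5) (nat_lit 0x200000001780080000000000000000000000000000000) (nat_lit 0x0) (nat_lit 0x1d800040007000000000000000000000000000000) := T_11 (nat_lit 156) (nat_lit 155) (nat_lit 1) (nat_lit 6) (nat_lit 8) L33796 (by decide +kernel)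
theorem L33800 : W_11 (nat_lit 4) (nat_lit 0x200000001780080000000000000000000000000000000) (nat_lit 0x0) (nat_lit 0x1c000040007000000000000000000000000000000) := T_11 (nat_lit 159) (nat_lit 160) (nat_lit 3) (nat_lit 3) (nat_lit 8) L33799 (by decide +kernel)
theorem L33801 : W_11 (nat_lit 2) (nat_lit 0x2000080017c00a0000000000000000000000000000000) (nat_lit 0x0) (nat_lit 0x1c00000000000000000000000000000000000000) := D_11 (nat_lit 155) (nat_lit 154) (nat_lit 156) (nat_lit 1) (nat_lit 5) (nat_lit 8) (nat_lit 1) (nat_lit 6) (nat_lit 8) (by decide +kernel)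
theorem L33802 : W_11 (nat_lit 3) (nat_lit 0x2000080017800a0000000000000000000000000000000) (nat_lit 0x0) (nat_lit 0x5c00040000000000000000000000000000000000) := T_11 (nat_lit 138) (nat_lit 158) (nat_lit 3) (nat_lit 2) (nat_lit 8) L33801 (by decide +kernel)
theorem L33803 : W_11 (nat_lit 4) (nat_lit 0x2000000017800a0000000000000000000000000000000) (nat_lit 0x0) (nat_lit 0x1dc00040000000000000000000000000000000000) := T_11 (nat_lit 159) (nat_lit 160) (nat_lit 3) (nat_lit 3) (nat_lit 8) L33802 (by decide +kernel)
theorem L33804 : W_11 (nat_lit 5) (nat_lit 0x200000001780080000000000000000000000000000000) (nat_lit 0x0) (nat_lit 0x1dc00040060000000000000000000000000000000) := T_11 (nat_lit 125) (nat_lit 126) (nat_lit 2) (nat_lit 3) (nat_lit 8) L33803 (by decide +kernel)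
theorem L33805 : W_11 (nat_lit 2) (nat_lit 0x3800080017800a4003c00020000000000000000000000) (nat_lit 0x0) (nat_lit 0x1800000000000200000000000000000000000000) := D_11 (nat_lit 156) (nat_lit 155) (nat_lit 105) (nat_lit 1) (nat_lit 6) (nat_lit 8) (nat_lit 6) (nat_lit 3) (nat_lit 9) (by decide +kernel)
theorem L33806 : W_11 (nat_lit 3) (nat_lit 0x3800080017800a4003c00000000000000000000000000) (nat_lit 0x0) (nat_lit 0x1800000000000200030000000000000000000000) := T_11 (nat_lit 89) (nat_lit 88) (nat_lit 0) (nat_lit 7) (nat_lit 6) L33805 (by decide +kernel)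
theorem L33807 : W_11 (nat_lit 4) (nat_lit 0x3800080017800a4003800000000000000000000000000) (nat_lit 0x0) (nat_lit 0x1800000008000600030000000000000000000000) := T_11 (nat_lit 106) (nat_lit 123) (nat_lit 1) (nat_lit 7) (nat_lit 6) L33806 (by decide +kernel)
theorem L33808 : W_11 (nat_lit 5) (nat_lit 0x3800080017800a4003000000000000000000000000000) (nat_lit 0x0) (nat_lit 0x1800000008000e00070000000000000000000000) := T_11 (nat_lit 107) (nat_lit 90) (nat_lit 4) (nat_lit 6) (nat_lit 9) L33807 (by decide +kernel)
theorem L33809 : W_11 (nat_lit 6) (nat_lit 0x3800080017800a4001000000000000000000000000000) (nat_lit 0x0) (nat_lit 0x1800000008002e00170000000000000000000000) := T_11 (nat_lit 109) (nat_lit 92) (nat_lit 6) (nat_lit 6) (nat_lit 9) L33808 (by decide +kernel)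
theorem L33810 : W_11 (nat_lit 7) (nat_lit 0x3800080017800a4000000000000000000000000000000) (nat_lit 0x0) (nat_lit 0x5800000008003e00170000000000000000000000) := T_11 (nat_lit 108) (nat_lit 158) (nat_lit 5) (nat_lit 6) (nat_lit 6) L33809 (by decide +kernel)
theorem L33811 : W_11 (nat_lit 8) (nat_lit 0x3000080017800a4000000000000000000000000000000) (nat_lit 0x0) (nat_lit 0x1000080005800000008003e00170000000000000000000000) := T_11 (nat_lit 175) (nat_lit 192) (nat_lit 5) (nat_lit 6) (nat_lit 7) L33810 (by decide +kernel)
theorem L33812 : W_11 (nat_lit 9) (nat_lit 0x2000080017800a4000000000000000000000000000000) (nat_lit 0x0) (nat_lit 0x5000180005800000008003e00170000000000000000000000) := T_11 (nat_lit 176) (nat_lit 194) (nat_lit 7) (nat_lit 6) (nat_lit 7) L33811 (by decide +kernel)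
theorem L33813 : W_11 (nat_lit 10) (nat_lit 0x200008001780084000000000000000000000000000000) (nat_lit 0x0) (nat_lit 0x5000180005800000068003e00170000000000000000000000) := T_11 (nat_lit 125) (nat_lit 126) (nat_lit 2) (nat_lit 3) (nat_lit 8) L33812 (by decide +kernel)
theorem L33814 : W_11 (nat_lit 11) (nat_lit 0x200008001780080000000000000000000000000000000) (nat_lit 0x0) (nat_lit 0x500018000580000006e003e00170000000000000000000000) := T_11 (nat_lit 122) (nat_lit 121) (nat_lit 0) (nat_lit 6) (nat_lit 8) L33813 (by decide +kernel)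
theorem L33815 : W_11 (nat_lit 12) (nat_lit 0x200000001780080000000000000000000000000000000) (nat_lit 0x0) (nat_lit 0x500018001d80000006e003e00170000000000000000000000) := T_11 (nat_lit 159) (nat_lit 160) (nat_lit 3) (nat_lit 3) (nat_lit 8) L33814 (by decide +kernel)
theorem L33816 : W_11 (nat_lit 13) (nat_lit 0x200000001380080000000000000000000000000000000) (nat_lit 0x0) (nat_lit 0x500018001dc0044006f003e00170000000000000000000000) := Q_11 (nat_lit 142) (C_11 L33793 (C_11 L33797 (C_11 L33800 (C_11 L33804 (C_11 L33815 N_11))))) (by decide +kernel)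
theorem L33821 : W_11 (nat_lit 2) (nat_lit 0x200002001780088000400000000000000000000000000) (nat_lit 0x0) (nat_lit 0x20001000000000000000020000000000000000000000) := D_11 (nat_lit 156) (nat_lit 89) (nat_lit 173) (nat_lit 5) (nat_lit 4) (nat_lit 5) (nat_lit 5) (nat_lit 4) (nat_lit 6) (by decide +kernel)
theorem L33822 : W_11 (nat_lit 2) (nat_lit 0x20000200178008c000400000000000000000000000000) (nat_lit 0x0) (nat_lit 0x1000000000000000020001000000000000000000) := D_11 (nat_lit 89) (nat_lit 156) (nat_lit 72) (nat_lit 5) (nat_lit 4) (nat_lit 5) (nat_lit 5) (nat_lit 4) (nat_lit 4) (by decide +kernel)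
theorem L33823 : W_11 (nat_lit 3) (nat_lit 0x200002001780088000400000000000000000000000000) (nat_lit 0x0) (nat_lit 0x1000000006000000020001000000000000000000) := T_11 (nat_lit 122) (nat_lit 121) (nat_lit 0) (nat_lit 6) (nat_lit 8) L33822 (by decide +kernel)
theorem L33824 : W_11 (nat_lit 2) (nat_lit 0x20000200178008c000c00010000000000000000000000) (nat_lit 0x0) (nat_lit 0x20001800000000000000000) := D_11 (nat_lit 89) (nat_lit 72) (nat_lit 71) (nat_lit 5) (nat_lit 4) (nat_lit 4) (nat_lit 4) (nat_lit 4) (nat_lit 8) (by decide +kernel)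
theorem L33825 : W_11 (nat_lit 3) (nat_lit 0x20000200178008c000c00000000000000000000000000) (nat_lit 0x0) (nat_lit 0x200030001800000000000000000) := T_11 (nat_lit 88) (nat_lit 105) (nat_lit 7) (nat_lit 3) (nat_lit 5) L33824 (by decide +kernel)
theorem L33826 : W_11 (nat_lit 4) (nat_lit 0x200002001780088000c00000000000000000000000000) (nat_lit 0x0) (nat_lit 0x6000200030001800000000000000000) := T_11 (nat_lit 122) (nat_lit 121) (nat_lit 0) (nat_lit 6) (nat_lit 8) L33825 (by decide +kernel)
theorem L33827 : W_11 (nat_lit 5) (nat_lit 0x200002001780088000400000000000000000000000000) (nat_lit 0x0) (nat_lit 0x6000a00070001800000000000000000) := T_11 (nat_lit 107) (nat_lit 90) (nat_lit 6) (nat_lit 4) (nat_lit 9) L33826 (by decide +kernel)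
theorem L33828 : W_11 (nat_lit 2) (nat_lit 0x20000300178008a000e00000000000000000000000000) (nat_lit 0x0) (nat_lit 0x40001000100000000000000000000000000) := D_11 (nat_lit 120) (nat_lit 138) (nat_lit 104) (nat_lit 0) (nat_lit 5) (nat_lit 8) (nat_lit 1) (nat_lit 5) (nat_lit 6) (by decide +kernel)
theorem L33829 : W_11 (nat_lit 3) (nat_lit 0x200003001780088000e00000000000000000000000000) (nat_lit 0x0) (nat_lit 0x40007000100000000000000000000000000) := T_11 (nat_lit 121) (nat_lit 122) (nat_lit 0) (nat_lit 6) (nat_lit 8) L33828 (by decide +kernel)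
theorem L33830 : W_11 (nat_lit 4) (nat_lit 0x200003001780088000600000000000000000000000000) (nat_lit 0x0) (nat_lit 0x40007000900040000000000000000000000) := T_11 (nat_lit 107) (nat_lit 90) (nat_lit 6) (nat_lit 4) (nat_lit 9) L33829 (by decide +kernel)
theorem L33831 : W_11 (nat_lit 5) (nat_lit 0x200002001780088000600000000000000000000000000) (nat_lit 0x0) (nat_lit 0x20001000040007000900040000000000000000000000) := T_11 (nat_lit 156) (nat_lit 173) (nat_lit 5) (nat_lit 4) (nat_lit 6) L33830 (by decide +kernel)
theorem L33832 : W_11 (nat_lit 6) (nat_lit 0x200002001780088000400000000000000000000000000) (nat_lit 0x0) (nat_lit 0x20001000040007000b00050000000000000000000000) := T_11 (nat_lit 105) (nat_lit 88) (nat_lit 4) (nat_lit 4) (nat_lit 9) L33831 (by decide +kernel)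
theorem L33833 : W_11 (nat_lit 7) (nat_lit 0x200002001780088000000000000000000000000000000) (nat_lit 0x0) (nat_lit 0x20001000040007000f00070001800000000000000000) := Q_11 (nat_lit 106) (C_11 L33821 (C_11 L33823 (C_11 L33827 (C_11 L33832 N_11)))) (by decide +kernel)
theorem L33834 : W_11 (nat_lit 2) (nat_lit 0x200000001780088000400020001000000000000000000) (nat_lit 0x0) (nat_lit 0x10000800040000000000000) := D_11 (nat_lit 71) (nat_lit 54) (nat_lit 88) (nat_lit 4) (nat_lit 4) (nat_lit 7) (nat_lit 4) (nat_lit 4) (nat_lit 8) (by decide +kernel)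
theorem L33835 : W_11 (nat_lit 3) (nat_lit 0x200000001780088000400020000000000000000000000) (nat_lit 0x0) (nat_lit 0x4000000010001800040000000000000) := T_11 (nat_lit 72) (nat_lit 122) (nat_lit 5) (nat_lit 4) (nat_lit 4) L33834 (by decide +kernel)
theorem L33836 : W_11 (nat_lit 2) (nat_lit 0x2000000017800a8000400070000000000000000000000) (nat_lit 0x0) (nat_lit 0x2000000000000a00000000000000000000000000) := D_11 (nat_lit 157) (nat_lit 105) (nat_lit 107) (nat_lit 4) (nat_lit 4) (nat_lit 9) (nat_lit 6) (nat_lit 4) (nat_lit 9) (by decide +kernel)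
theorem L33837 : W_11 (nat_lit 3) (nat_lit 0x2000000017800a8000400030000000000000000000000) (nat_lit 0x0) (nat_lit 0x2000000000000a00040002000000000000000000) := T_11 (nat_lit 90) (nat_lit 73) (nat_lit 6) (nat_lit 4) (nat_lit 8) L33836 (by decide +kernel)
theorem L33838 : W_11 (nat_lit 4) (nat_lit 0x2000000017800a8000400020000000000000000000000) (nat_lit 0x0) (nat_lit 0x2000000000000a00050002800000000000000000) := T_11 (nat_lit 88) (nat_lit 71) (nat_lit 4) (nat_lit 4) (nat_lit 8) L33837 (by decide +kernel)
theorem L33839 : W_11 (nat_lit 5) (nat_lit 0x2000000017800a8000400000000000000000000000000) (nat_lit 0x0) (nat_lit 0x3000000000000a00070002800000000000000000) := T_11 (nat_lit 89) (nat_lit 156) (nat_lit 5) (nat_lit 4) (nat_lit 5) L33838 (by decide +kernel)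
theorem L33840 : W_11 (nat_lit 6) (nat_lit 0x200000001780088000400000000000000000000000000) (nat_lit 0x0) (nat_lit 0x3000000060000a00070002800000000000000000) := T_11 (nat_lit 125) (nat_lit 126) (nat_lit 2) (nat_lit 3) (nat_lit 8) L33839 (by decide +kernel)
theorem L33841 : W_11 (nat_lit 2) (nat_lit 0x220001001780088000000000000000000000000000000) (nat_lit 0x0) (nat_lit 0x4000400020000000000000000000000) := D_11 (nat_lit 106) (nat_lit 89) (nat_lit 122) (nat_lit 5) (nat_lit 4) (nat_lit 5) (nat_lit 6) (nat_lit 3) (nat_lit 10) (by decide +kernel)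
theorem L33842 : W_11 (nat_lit 3) (nat_lit 0x200001001780088000000000000000000000000000000) (nat_lit 0x0) (nat_lit 0x400020000000000004000400020000000000000000000000) := T_11 (nat_lit 173) (nat_lit 190) (nat_lit 6) (nat_lit 3) (nat_lit 11) L33841 (by decide +kernel)
theorem L33843 : W_11 (nat_lit 2) (nat_lit 0x2000000017800ac000400070000000000000000000000) (nat_lit 0x0) (nat_lit 0x2000000000000a00000000000000000000000000) := D_11 (nat_lit 157) (nat_lit 107) (nat_lit 105) (nat_lit 6) (nat_lit 4) (nat_lit 9) (nat_lit 7) (nat_lit 3) (nat_lit 5) (by decide +kernel)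
theorem L33844 : W_11 (nat_lit 3) (nat_lit 0x2000000017800ac000400060000000000000000000000) (nat_lit 0x0) (nat_lit 0x2000000000000a00010000800000000000000000) := T_11 (nat_lit 88) (nat_lit 71) (nat_lit 4) (nat_lit 4) (nat_lit 8) L33843 (by decide +kernel)
theorem L33845 : W_11 (nat_lit 4) (nat_lit 0x2000000017800ac000400020000000000000000000000) (nat_lit 0x0) (nat_lit 0x2000000000000a00050002800000000000000000) := T_11 (nat_lit 90) (nat_lit 73) (nat_lit 6) (nat_lit 4) (nat_lit 8) L33844 (by decide +kernel)
theorem L33846 : W_11 (nat_lit 5) (nat_lit 0x20000000178008c000400020000000000000000000000) (nat_lit 0x0) (nat_lit 0x2000000060000a00050002800000000000000000) := T_11 (nat_lit 125) (nat_lit 126) (nat_lit 2) (nat_lit 3) (nat_lit 8) L33845 (by decide +kernel)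
theorem L33847 : W_11 (nat_lit 6) (nat_lit 0x20000000178008c000400000000000000000000000000) (nat_lit 0x0) (nat_lit 0x2000000060000a00070003800000000000000000) := T_11 (nat_lit 89) (nat_lit 72) (nat_lit 5) (nat_lit 4) (nat_lit 4) L33846 (by decide +kernel)
theorem L33848 : W_11 (nat_lit 2) (nat_lit 0x20000200178008c000400000000000000000000000000) (nat_lit 0x0) (nat_lit 0x40000000000000000200010000000000000000000000) := D_11 (nat_lit 105) (nat_lit 88) (nat_lit 174) (nat_lit 7) (nat_lit 3) (nat_lit 5) (nat_lit 4) (nat_lit 4) (nat_lit 10) (by decide +kernel)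
theorem L33849 : W_11 (nat_lit 3) (nat_lit 0x200002001780088000400000000000000000000000000) (nat_lit 0x0) (nat_lit 0x40000000000006000200010000000000000000000000) := T_11 (nat_lit 122) (nat_lit 121) (nat_lit 0) (nat_lit 6) (nat_lit 8) L33848 (by decide +kernel)
theorem L33850 : W_11 (nat_lit 2) (nat_lit 0x20000000178008c000400000000000000000000000000) (nat_lit 0x0) (nat_lit 0x1000000000000000020001000000000000000000) := D_11 (nat_lit 89) (nat_lit 156) (nat_lit 72) (nat_lit 5) (nat_lit 4) (nat_lit 5) (nat_lit 5) (nat_lit 4) (nat_lit 4) (by decide +kernel)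
theorem L33851 : W_11 (nat_lit 3) (nat_lit 0x200000001780088000400000000000000000000000000) (nat_lit 0x0) (nat_lit 0x1000000006000000020001000000000000000000) := T_11 (nat_lit 122) (nat_lit 121) (nat_lit 0) (nat_lit 6) (nat_lit 8) L33850 (by decide +kernel)
theorem L33852 : W_11 (nat_lit 7) (nat_lit 0x200000001780088000400000000000000000000000000) (nat_lit 0x0) (nat_lit 0x2000000066000a00070003800000000000000000) := T_11 (nat_lit 122) (nat_lit 121) (nat_lit 0) (nat_lit 6) (nat_lit 8) L33847 (by decide +kernel)
theorem L33859 : W_11 (nat_lit 8) (nat_lit 0x200001001780080000000000000000000000000000000) (nat_lit 0x0) (nat_lit 0x5e001e001a000000068000000000000000000000000000000) := T_11 (nat_lit 125) (nat_lit 126) (nat_lit 2) (nat_lit 3) (nat_lit 8) L33858 (by decide +kernel)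
theorem L33864 : W_11 (nat_lit 6) (nat_lit 0x200009001780084000000000000000000000000000000) (nat_lit 0x0) (nat_lit 0x5c001e0002000000060000000000000000000000000000000) := T_11 (nat_lit 125) (nat_lit 126) (nat_lit 2) (nat_lit 3) (nat_lit 8) L33863 (by decide +kernel)
theorem L33865 : W_11 (nat_lit 7) (nat_lit 0x200009001780080000000000000000000000000000000) (nat_lit 0x0) (nat_lit 0x5c001e0002000000066000000000000000000000000000000) := T_11 (nat_lit 122) (nat_lit 121) (nat_lit 0) (nat_lit 6) (nat_lit 8) L33864 (by decide +kernel)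
theorem L33866 : W_11 (nat_lit 8) (nat_lit 0x200001001780080000000000000000000000000000000) (nat_lit 0x0) (nat_lit 0x5c001e001a000000066000000000000000000000000000000) := T_11 (nat_lit 159) (nat_lit 160) (nat_lit 3) (nat_lit 3) (nat_lit 8) L33865 (by decide +kernel)
theorem L33867 : W_11 (nat_lit 2) (nat_lit 0x30000b0017800a0000000000000000000000000000000) (nat_lit 0x0) (nat_lit 0x10000c0000000000000000000000000000000000000000000) := D_11 (nat_lit 175) (nat_lit 192) (nat_lit 174) (nat_lit 5) (nat_lit 6) (nat_lit 7) (nat_lit 0) (nat_lit 7) (nat_lit 10) (by decide +kernel)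
theorem L33868 : W_11 (nat_lit 3) (nat_lit 0x20000b0017800a0000000000000000000000000000000) (nat_lit 0x0) (nat_lit 0x50001c0000000000000000000000000000000000000000000) := T_11 (nat_lit 176) (nat_lit 194) (nat_lit 7) (nat_lit 6) (nat_lit 7) L33867 (by decide +kernel)
theorem L33869 : W_11 (nat_lit 4) (nat_lit 0x20000b001780080000000000000000000000000000000) (nat_lit 0x0) (nat_lit 0x50001c0000000000060000000000000000000000000000000) := T_11 (nat_lit 125) (nat_lit 126) (nat_lit 2) (nat_lit 3) (nat_lit 8) L33868 (by decide +kernel)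
theorem L33870 : W_11 (nat_lit 2) (nat_lit 0x200003001780084000000000000000000000000000000) (nat_lit 0x0) (nat_lit 0x800040000000000000000200000000000000000000000000) := D_11 (nat_lit 174) (nat_lit 191) (nat_lit 105) (nat_lit 4) (nat_lit 4) (nat_lit 11) (nat_lit 7) (nat_lit 3) (nat_lit 6) (by decide +kernel)
theorem L33871 : W_11 (nat_lit 3) (nat_lit 0x200003001780080000000000000000000000000000000) (nat_lit 0x0) (nat_lit 0x800040000000000006000200000000000000000000000000) := T_11 (nat_lit 122) (nat_lit 121) (nat_lit 0) (nat_lit 6) (nat_lit 8) L33870 (by decide +kernel)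
theorem L33872 : W_11 (nat_lit 2) (nat_lit 0x20000a001780084000200000000000000000000000000) (nat_lit 0x0) (nat_lit 0x800040000000000008000000000000000000000000000000) := D_11 (nat_lit 174) (nat_lit 191) (nat_lit 123) (nat_lit 4) (nat_lit 4) (nat_lit 11) (nat_lit 4) (nat_lit 4) (nat_lit 10) (by decide +kernel)
theorem L33873 : W_11 (nat_lit 3) (nat_lit 0x20000a001780084000000000000000000000000000000) (nat_lit 0x0) (nat_lit 0x800040000000000008000200010000000000000000000000) := T_11 (nat_lit 105) (nat_lit 88) (nat_lit 7) (nat_lit 3) (nat_lit 5) L33872 (by decide +kernel)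
theorem L33874 : W_11 (nat_lit 4) (nat_lit 0x200002001780084000000000000000000000000000000) (nat_lit 0x0) (nat_lit 0x800040018000000008000200010000000000000000000000) := T_11 (nat_lit 159) (nat_lit 160) (nat_lit 3) (nat_lit 3) (nat_lit 8) L33873 (by decide +kernel)
theorem L33875 : W_11 (nat_lit 5) (nat_lit 0x200002001780080000000000000000000000000000000) (nat_lit 0x0) (nat_lit 0x80004001800000000e000200010000000000000000000000) := T_11 (nat_lit 122) (nat_lit 121) (nat_lit 0) (nat_lit 6) (nat_lit 8) L33874 (by decide +kernel)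
theorem L33876 : W_11 (nat_lit 2) (nat_lit 0x2000020017800a4000200000000000000000000000000) (nat_lit 0x0) (nat_lit 0x800040000000000008000000000000000000000000000000) := D_11 (nat_lit 174) (nat_lit 191) (nat_lit 123) (nat_lit 4) (nat_lit 4) (nat_lit 11) (nat_lit 4) (nat_lit 4) (nat_lit 10) (by decide +kernel)
theorem L33877 : W_11 (nat_lit 3) (nat_lit 0x2000020017800a4000000000000000000000000000000) (nat_lit 0x0) (nat_lit 0x800040000000000008000200010000000000000000000000) := T_11 (nat_lit 105) (nat_lit 88) (nat_lit 7) (nat_lit 3) (nat_lit 5) L33876 (by decide +kernel)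
theorem L33878 : W_11 (nat_lit 4) (nat_lit 0x200002001780084000000000000000000000000000000) (nat_lit 0x0) (nat_lit 0x800040000000000068000200010000000000000000000000) := T_11 (nat_lit 125) (nat_lit 126) (nat_lit 2) (nat_lit 3) (nat_lit 8) L33877 (by decide +kernel)
theorem L33879 : W_11 (nat_lit 5) (nat_lit 0x200002001780080000000000000000000000000000000) (nat_lit 0x0) (nat_lit 0x80004000000000006e000200010000000000000000000000) := T_11 (nat_lit 122) (nat_lit 121) (nat_lit 0) (nat_lit 6) (nat_lit 8) L33878 (by decide +kernel)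
theorem L33880 : W_11 (nat_lit 2) (nat_lit 0x2002200030017800a4000700000000000000000000000000) (nat_lit 0x0) (nat_lit 0xc000400000000000000000000000000000000000000000000000) := D_11 (nat_lit 190) (nat_lit 207) (nat_lit 206) (nat_lit 6) (nat_lit 3) (nat_lit 12) (nat_lit 5) (nat_lit 3) (nat_lit 8) (by decide +kernel)
theorem L33881 : W_11 (nat_lit 3) (nat_lit 0x2200030017800a4000700000000000000000000000000) (nat_lit 0x0) (nat_lit 0xc000600010000000000000000000000000000000000000000000) := T_11 (nat_lit 189) (nat_lit 172) (nat_lit 5) (nat_lit 3) (nat_lit 7) L33880 (by decide +kernel)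
theorem L33882 : W_11 (nat_lit 4) (nat_lit 0x2000030017800a4000700000000000000000000000000) (nat_lit 0x0) (nat_lit 0xc000600030000000000008000000000000000000000000000000) := T_11 (nat_lit 173) (nat_lit 123) (nat_lit 6) (nat_lit 3) (nat_lit 10) L33881 (by decide +kernel)
theorem L33883 : W_11 (nat_lit 5) (nat_lit 0x2000030017800a4000300000000000000000000000000) (nat_lit 0x0) (nat_lit 0xc000600030000000000008000400020000000000000000000000) := T_11 (nat_lit 106) (nat_lit 89) (nat_lit 6) (nat_lit 3) (nat_lit 9) L33882 (by decide +kernel)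
theorem L33884 : W_11 (nat_lit 6) (nat_lit 0x2000030017800a4000200000000000000000000000000) (nat_lit 0x0) (nat_lit 0xc000600030000000000008000500028000000000000000000000) := T_11 (nat_lit 104) (nat_lit 87) (nat_lit 4) (nat_lit 3) (nat_lit 9) L33883 (by decide +kernel)
theorem L33885 : W_11 (nat_lit 2) (nat_lit 0x340030000b0017800a0000000000000000000000000000000) (nat_lit 0x0) (nat_lit 0x8000000020000000000008000000000000000000000000000000) := D_11 (nat_lit 173) (nat_lit 123) (nat_lit 207) (nat_lit 6) (nat_lit 3) (nat_lit 11) (nat_lit 6) (nat_lit 3) (nat_lit 12) (by decide +kernel)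
theorem L33886 : W_11 (nat_lit 3) (nat_lit 0x300030000b0017800a0000000000000000000000000000000) (nat_lit 0x0) (nat_lit 0x8000c00020000000000008000000000000000000000000000000) := T_11 (nat_lit 190) (nat_lit 191) (nat_lit 2) (nat_lit 3) (nat_lit 11) L33885 (by decide +kernel)
theorem L33887 : W_11 (nat_lit 4) (nat_lit 0x100030000b0017800a0000000000000000000000000000000) (nat_lit 0x0) (nat_lit 0x28002c00020000000000008000000000000000000000000000000) := T_11 (nat_lit 193) (nat_lit 209) (nat_lit 5) (nat_lit 6) (nat_lit 8) L33886 (by decide +kernel)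
theorem L33888 : W_11 (nat_lit 5) (nat_lit 0x30000b0017800a0000000000000000000000000000000) (nat_lit 0x0) (nat_lit 0x28003c000a0000000000008000000000000000000000000000000) := T_11 (nat_lit 192) (nat_lit 175) (nat_lit 5) (nat_lit 6) (nat_lit 7) L33887 (by decide +kernel)
theorem L33889 : W_11 (nat_lit 6) (nat_lit 0x20000b0017800a0000000000000000000000000000000) (nat_lit 0x0) (nat_lit 0x28007c001a0000000000008000000000000000000000000000000) := T_11 (nat_lit 176) (nat_lit 194) (nat_lit 7) (nat_lit 6) (nat_lit 7) L33888 (by decide +kernel)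
theorem L33890 : W_11 (nat_lit 2) (nat_lit 0x20032000b0017800a4000600000000000000000000000000) (nat_lit 0x0) (nat_lit 0xc000400000000000000000000000000000000000000000000000) := D_11 (nat_lit 190) (nat_lit 207) (nat_lit 206) (nat_lit 6) (nat_lit 3) (nat_lit 12) (nat_lit 5) (nat_lit 3) (nat_lit 8) (by decide +kernel)
theorem L33891 : W_11 (nat_lit 3) (nat_lit 0x32000b0017800a4000600000000000000000000000000) (nat_lit 0x0) (nat_lit 0xc000600010000000000000000000000000000000000000000000) := T_11 (nat_lit 189) (nat_lit 172) (nat_lit 5) (nat_lit 3) (nat_lit 7) L33890 (by decide +kernel)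
theorem L33892 : W_11 (nat_lit 4) (nat_lit 0x30000b0017800a4000600000000000000000000000000) (nat_lit 0x0) (nat_lit 0xc000600030000000000008000000000000000000000000000000) := T_11 (nat_lit 173) (nat_lit 123) (nat_lit 6) (nat_lit 3) (nat_lit 10) L33891 (by decide +kernel)
theorem L33893 : W_11 (nat_lit 5) (nat_lit 0x30000b0017800a4000200000000000000000000000000) (nat_lit 0x0) (nat_lit 0xc000600030000000000008000400020000000000000000000000) := T_11 (nat_lit 106) (nat_lit 89) (nat_lit 6) (nat_lit 3) (nat_lit 9) L33892 (by decide +kernel)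
theorem L33894 : W_11 (nat_lit 6) (nat_lit 0x30000b0017800a4000000000000000000000000000000) (nat_lit 0x0) (nat_lit 0xc000600030000000000008000600030000000000000000000000) := T_11 (nat_lit 105) (nat_lit 88) (nat_lit 7) (nat_lit 3) (nat_lit 5) L33893 (by decide +kernel)
theorem L33895 : W_11 (nat_lit 7) (nat_lit 0x20000b001780080000000000000000000000000000000) (nat_lit 0x0) (nat_lit 0x28007c001a0000000000068000000000000000000000000000000) := T_11 (nat_lit 125) (nat_lit 126) (nat_lit 2) (nat_lit 3) (nat_lit 8) L33889 (by decide +kernel)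
theorem L33896 : W_11 (nat_lit 2) (nat_lit 0x3c00080017800a4000000000000000000000000000000) (nat_lit 0x0) (nat_lit 0xc00000002000000000000000000000000000000000000000) := D_11 (nat_lit 191) (nat_lit 190) (nat_lit 157) (nat_lit 1) (nat_lit 7) (nat_lit 10) (nat_lit 4) (nat_lit 4) (nat_lit 11) (by decide +kernel)
theorem L33897 : W_11 (nat_lit 3) (nat_lit 0x3400080017800a4000000000000000000000000000000) (nat_lit 0x0) (nat_lit 0x1c00080002000000000000000000000000000000000000000) := T_11 (nat_lit 175) (nat_lit 192) (nat_lit 5) (nat_lit 6) (nat_lit 7) L33896 (by decide +kernel)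
theorem L33898 : W_11 (nat_lit 4) (nat_lit 0x2400080017800a4000000000000000000000000000000) (nat_lit 0x0) (nat_lit 0x5c00180002000000000000000000000000000000000000000) := T_11 (nat_lit 176) (nat_lit 194) (nat_lit 7) (nat_lit 6) (nat_lit 7) L33897 (by decide +kernel)
theorem L33899 : W_11 (nat_lit 5) (nat_lit 0x2400080017800a0000000000000000000000000000000) (nat_lit 0x0) (nat_lit 0x5c00180002000000006000000000000000000000000000000) := T_11 (nat_lit 122) (nat_lit 121) (nat_lit 0) (nat_lit 6) (nat_lit 8) L33898 (by decide +kernel)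
theorem L33900 : W_11 (nat_lit 6) (nat_lit 0x2400000017800a0000000000000000000000000000000) (nat_lit 0x0) (nat_lit 0x5c0018001a000000006000000000000000000000000000000) := T_11 (nat_lit 159) (nat_lit 160) (nat_lit 3) (nat_lit 3) (nat_lit 8) L33899 (by decide +kernel)
theorem L33901 : W_11 (nat_lit 7) (nat_lit 0x240000001780080000000000000000000000000000000) (nat_lit 0x0) (nat_lit 0x5c0018001a000000066000000000000000000000000000000) := T_11 (nat_lit 125) (nat_lit 126) (nat_lit 2) (nat_lit 3) (nat_lit 8) L33900 (by decide +kernel)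
theorem L33902 : W_11 (nat_lit 2) (nat_lit 0x24000a001780084000000000000000000000000000000) (nat_lit 0x0) (nat_lit 0x8000200010000000000000000000000) := D_11 (nat_lit 105) (nat_lit 123) (nat_lit 88) (nat_lit 4) (nat_lit 4) (nat_lit 10) (nat_lit 7) (nat_lit 3) (nat_lit 5) (by decide +kernel)
theorem L33903 : W_11 (nat_lit 3) (nat_lit 0x240008001780084000000000000000000000000000000) (nat_lit 0x0) (nat_lit 0x800000002000000008000200010000000000000000000000) := T_11 (nat_lit 157) (nat_lit 191) (nat_lit 4) (nat_lit 4) (nat_lit 11) L33902 (by decide +kernel)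
theorem L33904 : W_11 (nat_lit 4) (nat_lit 0x240000001780084000000000000000000000000000000) (nat_lit 0x0) (nat_lit 0x80000001a000000008000200010000000000000000000000) := T_11 (nat_lit 159) (nat_lit 160) (nat_lit 3) (nat_lit 3) (nat_lit 8) L33903 (by decide +kernel)
theorem L33905 : W_11 (nat_lit 5) (nat_lit 0x240000001780080000000000000000000000000000000) (nat_lit 0x0) (nat_lit 0x80000001a00000000e000200010000000000000000000000) := T_11 (nat_lit 122) (nat_lit 121) (nat_lit 0) (nat_lit 6) (nat_lit 8) L33904 (by decide +kernel)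
theorem L33910 : W_11 (nat_lit 2) (nat_lit 0x4003c00080017c00a2000000000000000000000000000000) (nat_lit 0x0) (nat_lit 0x200020001000000000000000000000000000000000000000) := D_11 (nat_lit 173) (nat_lit 189) (nat_lit 156) (nat_lit 1) (nat_lit 6) (nat_lit 10) (nat_lit 4) (nat_lit 3) (nat_lit 11) (by decide +kernel)
theorem L33911 : W_11 (nat_lit 3) (nat_lit 0x3c00080017c00a2000000000000000000000000000000) (nat_lit 0x0) (nat_lit 0xe00020001000000000000000000000000000000000000000) := T_11 (nat_lit 190) (nat_lit 191) (nat_lit 1) (nat_lit 7) (nat_lit 10) L33910 (by decide +kernel)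
theorem L33912 : W_11 (nat_lit 4) (nat_lit 0x3400080017c00a2000000000000000000000000000000) (nat_lit 0x0) (nat_lit 0x1e000a0001000000000000000000000000000000000000000) := T_11 (nat_lit 175) (nat_lit 192) (nat_lit 5) (nat_lit 6) (nat_lit 7) L33911 (by decide +kernel)
theorem L33913 : W_11 (nat_lit 5) (nat_lit 0x2400080017c00a2000000000000000000000000000000) (nat_lit 0x0) (nat_lit 0x5e001a0001000000000000000000000000000000000000000) := T_11 (nat_lit 176) (nat_lit 194) (nat_lit 7) (nat_lit 6) (nat_lit 7) L33912 (by decide +kernel)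
theorem L33914 : W_11 (nat_lit 6) (nat_lit 0x2400080017c0082000000000000000000000000000000) (nat_lit 0x0) (nat_lit 0x5e001a0001000000060000000000000000000000000000000) := T_11 (nat_lit 125) (nat_lit 126) (nat_lit 2) (nat_lit 3) (nat_lit 8) L33913 (by decide +kernel)
theorem L33915 : W_11 (nat_lit 7) (nat_lit 0x240008001780082000000000000000000000000000000) (nat_lit 0x0) (nat_lit 0x5e001a0001000040061000000000000000000000000000000) := T_11 (nat_lit 138) (nat_lit 120) (nat_lit 0) (nat_lit 5) (nat_lit 8) L33914 (by decide +kernel)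
theorem L33916 : W_11 (nat_lit 8) (nat_lit 0x240000001780082000000000000000000000000000000) (nat_lit 0x0) (nat_lit 0x5e001a0019000040061000000000000000000000000000000) := T_11 (nat_lit 159) (nat_lit 160) (nat_lit 3) (nat_lit 3) (nat_lit 8) L33915 (by decide +kernel)
theorem L33917 : W_11 (nat_lit 9) (nat_lit 0x240000001780080000000000000000000000000000000) (nat_lit 0x0) (nat_lit 0x5e001a0019000040067000000000000000000000000000000) := T_11 (nat_lit 121) (nat_lit 122) (nat_lit 0) (nat_lit 6) (nat_lit 8) L33916 (by decide +kernel)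
theorem L33918 : W_11 (nat_lit 2) (nat_lit 0x8003c00080017800a0000000000000000000000000000000) (nat_lit 0x0) (nat_lit 0x3000000004000000000000000000000000000000) := D_11 (nat_lit 157) (nat_lit 156) (nat_lit 122) (nat_lit 0) (nat_lit 7) (nat_lit 10) (nat_lit 4) (nat_lit 4) (nat_lit 11) (by decide +kernel)
theorem L33919 : W_11 (nat_lit 3) (nat_lit 0x3c00080017800a0000000000000000000000000000000) (nat_lit 0x0) (nat_lit 0xc00000003000000004000000000000000000000000000000) := T_11 (nat_lit 191) (nat_lit 190) (nat_lit 1) (nat_lit 7) (nat_lit 10) L33918 (by decide +kernel)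
theorem L33920 : W_11 (nat_lit 4) (nat_lit 0x3400080017800a0000000000000000000000000000000) (nat_lit 0x0) (nat_lit 0x1c00080003000000004000000000000000000000000000000) := T_11 (nat_lit 175) (nat_lit 192) (nat_lit 5) (nat_lit 6) (nat_lit 7) L33919 (by decide +kernel)
theorem L33921 : W_11 (nat_lit 5) (nat_lit 0x2400080017800a0000000000000000000000000000000) (nat_lit 0x0) (nat_lit 0x5c00180003000000004000000000000000000000000000000) := T_11 (nat_lit 176) (nat_lit 194) (nat_lit 7) (nat_lit 6) (nat_lit 7) L33920 (by decide +kernel)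
theorem L33922 : W_11 (nat_lit 6) (nat_lit 0x2400000017800a0000000000000000000000000000000) (nat_lit 0x0) (nat_lit 0x5c0018001b000000004000000000000000000000000000000) := T_11 (nat_lit 159) (nat_lit 160) (nat_lit 3) (nat_lit 3) (nat_lit 8) L33921 (by decide +kernel)
theorem L33923 : W_11 (nat_lit 7) (nat_lit 0x240000001780080000000000000000000000000000000) (nat_lit 0x0) (nat_lit 0x5c0018001b000000064000000000000000000000000000000) := T_11 (nat_lit 125) (nat_lit 126) (nat_lit 2) (nat_lit 3) (nat_lit 8) L33922 (by decide +kernel)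
theorem L33938 : W_11 (nat_lit 10) (nat_lit 0x200000001780080000000000000000000000000000000) (nat_lit 0x0) (nat_lit 0x5e001e001b00004006f000200010000000000000000000000) := Q_11 (nat_lit 174) (C_11 L33901 (C_11 L33905 (C_11 L33909 (C_11 L33917 (C_11 L33923 (C_11 L33930 (C_11 L33937 N_11))))))) (by decide +kernel)
theorem L33939 : W_11 (nat_lit 5) (nat_lit 0x3800080017800a0000000000000000000000000000000) (nat_lit 0x0) (nat_lit 0xe00060003800000008000000000000000000000000000000) := T_11 (nat_lit 156) (nat_lit 155) (nat_lit 1) (nat_lit 6) (nat_lit 8) L33855 (by decide +kernel)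
theorem L33940 : W_11 (nat_lit 6) (nat_lit 0x3000080017800a0000000000000000000000000000000) (nat_lit 0x0) (nat_lit 0x1e000e0003800000008000000000000000000000000000000) := T_11 (nat_lit 175) (nat_lit 192) (nat_lit 5) (nat_lit 6) (nat_lit 7) L33939 (by decide +kernel)
theorem L33941 : W_11 (nat_lit 7) (nat_lit 0x2000080017800a0000000000000000000000000000000) (nat_lit 0x0) (nat_lit 0x5e001e0003800000008000000000000000000000000000000) := T_11 (nat_lit 176) (nat_lit 194) (nat_lit 7) (nat_lit 6) (nat_lit 7) L33940 (by decide +kernel)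
theorem L33942 : W_11 (nat_lit 8) (nat_lit 0x200008001780080000000000000000000000000000000) (nat_lit 0x0) (nat_lit 0x5e001e0003800000068000000000000000000000000000000) := T_11 (nat_lit 125) (nat_lit 126) (nat_lit 2) (nat_lit 3) (nat_lit 8) L33941 (by decide +kernel)
theorem L33943 : W_11 (nat_lit 9) (nat_lit 0x200000001780080000000000000000000000000000000) (nat_lit 0x0) (nat_lit 0x5e001e001b800000068000000000000000000000000000000) := T_11 (nat_lit 159) (nat_lit 160) (nat_lit 3) (nat_lit 3) (nat_lit 8) L33942 (by decide +kernel)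
theorem L33952 : W_11 (nat_lit 10) (nat_lit 0x2000080017c0082000000000000000000000000000000) (nat_lit 0x0) (nat_lit 0x2a007f001b8000c00000060000000000000000000000000000000) := T_11 (nat_lit 125) (nat_lit 126) (nat_lit 2) (nat_lit 3) (nat_lit 8) L33951 (by decide +kernel)
theorem L33953 : W_11 (nat_lit 11) (nat_lit 0x200008001780082000000000000000000000000000000) (nat_lit 0x0) (nat_lit 0x2a007f001b8000c00040061000000000000000000000000000000) := T_11 (nat_lit 138) (nat_lit 120) (nat_lit 0) (nat_lit 5) (nat_lit 8) L33952 (by decide +kernel)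
theorem L33954 : W_11 (nat_lit 12) (nat_lit 0x200000001780082000000000000000000000000000000) (nat_lit 0x0) (nat_lit 0x2a007f001b8018c00040061000000000000000000000000000000) := T_11 (nat_lit 159) (nat_lit 160) (nat_lit 3) (nat_lit 3) (nat_lit 8) L33953 (by decide +kernel)
theorem L33955 : W_11 (nat_lit 13) (nat_lit 0x200000001780080000000000000000000000000000000) (nat_lit 0x0) (nat_lit 0x2a007f001b8018c00040067000000000000000000000000000000) := T_11 (nat_lit 121) (nat_lit 122) (nat_lit 0) (nat_lit 6) (nat_lit 8) L33954 (by decide +kernel)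
theorem L33956 : W_11 (nat_lit 14) (nat_lit 0x200000001380080000000000000000000000000000000) (nat_lit 0x0) (nat_lit 0x2a007f001f801bc0044006f000200010000000000000000000000) := Q_11 (nat_lit 142) (C_11 L33793 (C_11 L33820 (C_11 L33938 (C_11 L33943 (C_11 L33955 N_11))))) (by decide +kernel)
theorem L33957 : W_11 (nat_lit 7) (nat_lit 0x3000090017800a4000000000000000000000000000000) (nat_lit 0x0) (nat_lit 0xc000600030006000000008000600030000000000000000000000) := T_11 (nat_lit 157) (nat_lit 158) (nat_lit 3) (nat_lit 3) (nat_lit 9) L33894 (by decide +kernel)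
theorem L33958 : W_11 (nat_lit 8) (nat_lit 0x2000090017800a4000000000000000000000000000000) (nat_lit 0x0) (nat_lit 0xc004600130006000000008000600030000000000000000000000) := T_11 (nat_lit 176) (nat_lit 194) (nat_lit 7) (nat_lit 6) (nat_lit 7) L33957 (by decide +kernel)
theorem L33959 : W_11 (nat_lit 9) (nat_lit 0x2000010017800a4000000000000000000000000000000) (nat_lit 0x0) (nat_lit 0xc00460013001e000000008000600030000000000000000000000) := T_11 (nat_lit 159) (nat_lit 160) (nat_lit 3) (nat_lit 3) (nat_lit 8) L33958 (by decide +kernel)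
theorem L33960 : W_11 (nat_lit 10) (nat_lit 0x200001001780084000000000000000000000000000000) (nat_lit 0x0) (nat_lit 0xc00460013001e000000068000600030000000000000000000000) := T_11 (nat_lit 125) (nat_lit 126) (nat_lit 2) (nat_lit 3) (nat_lit 8) L33959 (by decide +kernel)
theorem L33961 : W_11 (nat_lit 11) (nat_lit 0x200001001780080000000000000000000000000000000) (nat_lit 0x0) (nat_lit 0xc00460013001e00000006e000600030000000000000000000000) := T_11 (nat_lit 122) (nat_lit 121) (nat_lit 0) (nat_lit 6) (nat_lit 8) L33960 (by decide +kernel)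
theorem L33962 : W_11 (nat_lit 12) (nat_lit 0x200000001780080000000000000000000000000000000) (nat_lit 0x0) (nat_lit 0xc00460013001f80000006e000600030000000000000000000000) := T_11 (nat_lit 156) (nat_lit 155) (nat_lit 1) (nat_lit 6) (nat_lit 8) L33961 (by decide +kernel)
theorem L33963 : W_11 (nat_lit 13) (nat_lit 0x200000001380080000000000000000000000000000000) (nat_lit 0x0) (nat_lit 0xc00460013001fc0044006f000600030000000000000000000000) := Q_11 (nat_lit 142) (C_11 L33793 (C_11 L33820 (C_11 L33800 (C_11 L33804 (C_11 L33962 N_11))))) (by decide +kernel)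
theorem L33964 : W_11 (nat_lit 2) (nat_lit 0x100020000d0017800a4003c00000000000000000000000000) (nat_lit 0x0) (nat_lit 0x200030000000000000000000000) := D_11 (nat_lit 89) (nat_lit 88) (nat_lit 105) (nat_lit 0) (nat_lit 7) (nat_lit 6) (nat_lit 6) (nat_lit 3) (nat_lit 9) (by decide +kernel)
theorem L33965 : W_11 (nat_lit 3) (nat_lit 0x100020000d0017800a4003800000000000000000000000000) (nat_lit 0x0) (nat_lit 0x8000600030000000000000000000000) := T_11 (nat_lit 106) (nat_lit 123) (nat_lit 1) (nat_lit 7) (nat_lit 6) L33964 (by decide +kernel)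
theorem L33966 : W_11 (nat_lit 4) (nat_lit 0x100020000d0017800a4001800000000000000000000000000) (nat_lit 0x0) (nat_lit 0x8002600130000000000000000000000) := T_11 (nat_lit 109) (nat_lit 92) (nat_lit 6) (nat_lit 6) (nat_lit 9) L33965 (by decide +kernel)
theorem L33967 : W_11 (nat_lit 5) (nat_lit 0x100020000d0017800a4001000000000000000000000000000) (nat_lit 0x0) (nat_lit 0x8002e00170000000000000000000000) := T_11 (nat_lit 107) (nat_lit 90) (nat_lit 4) (nat_lit 6) (nat_lit 9) L33966 (by decide +kernel)
theorem L33968 : W_11 (nat_lit 6) (nat_lit 0x10002000050017800a4001000000000000000000000000000) (nat_lit 0x0) (nat_lit 0x18000000008002e00170000000000000000000000) := T_11 (nat_lit 159) (nat_lit 160) (nat_lit 3) (nat_lit 3) (nat_lit 8) L33967 (by decide +kernel)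
theorem L33969 : W_11 (nat_lit 7) (nat_lit 0x10002000050017800a4000000000000000000000000000000) (nat_lit 0x0) (nat_lit 0x18000000008003e001f0000000000000000000000) := T_11 (nat_lit 108) (nat_lit 91) (nat_lit 5) (nat_lit 6) (nat_lit 5) L33968 (by decide +kernel)
theorem L33970 : W_11 (nat_lit 8) (nat_lit 0x2000050017800a4000000000000000000000000000000) (nat_lit 0x0) (nat_lit 0x1000080018000000008003e001f0000000000000000000000) := T_11 (nat_lit 192) (nat_lit 175) (nat_lit 6) (nat_lit 5) (nat_lit 11) L33969 (by decide +kernel)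
theorem L33971 : W_11 (nat_lit 9) (nat_lit 0x200005001780084000000000000000000000000000000) (nat_lit 0x0) (nat_lit 0x1000080018000000068003e001f0000000000000000000000) := T_11 (nat_lit 125) (nat_lit 126) (nat_lit 2) (nat_lit 3) (nat_lit 8) L33970 (by decide +kernel)
theorem L33972 : W_11 (nat_lit 10) (nat_lit 0x200005001780080000000000000000000000000000000) (nat_lit 0x0) (nat_lit 0x100008001800000006e003e001f0000000000000000000000) := T_11 (nat_lit 122) (nat_lit 121) (nat_lit 0) (nat_lit 6) (nat_lit 8) L33971 (by decide +kernel)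
theorem L33973 : W_11 (nat_lit 11) (nat_lit 0x200004001780080000000000000000000000000000000) (nat_lit 0x0) (nat_lit 0x100008001980000006e003e001f0000000000000000000000) := T_11 (nat_lit 156) (nat_lit 155) (nat_lit 1) (nat_lit 6) (nat_lit 8) L33972 (by decide +kernel)
theorem L33974 : W_11 (nat_lit 2) (nat_lit 0x240006801780084000000000000000000000000000000) (nat_lit 0x0) (nat_lit 0x8000200010000000000000000000000) := D_11 (nat_lit 105) (nat_lit 88) (nat_lit 123) (nat_lit 7) (nat_lit 3) (nat_lit 5) (nat_lit 4) (nat_lit 4) (nat_lit 10) (by decide +kernel)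
theorem L33975 : W_11 (nat_lit 3) (nat_lit 0x200006801780084000000000000000000000000000000) (nat_lit 0x0) (nat_lit 0x800040000000000008000200010000000000000000000000) := T_11 (nat_lit 174) (nat_lit 191) (nat_lit 4) (nat_lit 4) (nat_lit 11) L33974 (by decide +kernel)
theorem L33976 : W_11 (nat_lit 4) (nat_lit 0x200006801780080000000000000000000000000000000) (nat_lit 0x0) (nat_lit 0x80004000000000000e000200010000000000000000000000) := T_11 (nat_lit 122) (nat_lit 121) (nat_lit 0) (nat_lit 6) (nat_lit 8) L33975 (by decide +kernel)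
theorem L33977 : W_11 (nat_lit 5) (nat_lit 0x200006001780080000000000000000000000000000000) (nat_lit 0x0) (nat_lit 0x80004000180000000e000200010000000000000000000000) := T_11 (nat_lit 155) (nat_lit 156) (nat_lit 2) (nat_lit 2) (nat_lit 9) L33976 (by decide +kernel)
theorem L33980 : W_11 (nat_lit 4) (nat_lit 0x20000e001780080000000000000000000000000000000) (nat_lit 0x0) (nat_lit 0x400030001800000008000400000000000000000000000000) := T_11 (nat_lit 156) (nat_lit 155) (nat_lit 2) (nat_lit 2) (nat_lit 9) L33979 (by decide +kernel)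
theorem L33981 : W_11 (nat_lit 5) (nat_lit 0x200006001780080000000000000000000000000000000) (nat_lit 0x0) (nat_lit 0x400030019800000008000400000000000000000000000000) := T_11 (nat_lit 159) (nat_lit 160) (nat_lit 3) (nat_lit 3) (nat_lit 8) L33980 (by decide +kernel)
theorem L33982 : W_11 (nat_lit 2) (nat_lit 0x200016001780084000200000000000000000000000000) (nat_lit 0x0) (nat_lit 0x800040000000000008000000000000000000000000000000) := D_11 (nat_lit 174) (nat_lit 191) (nat_lit 123) (nat_lit 4) (nat_lit 4) (nat_lit 11) (nat_lit 4) (nat_lit 4) (nat_lit 10) (by decide +kernel)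
theorem L33983 : W_11 (nat_lit 3) (nat_lit 0x200016001780084000000000000000000000000000000) (nat_lit 0x0) (nat_lit 0x800040000000000008000200010000000000000000000000) := T_11 (nat_lit 105) (nat_lit 88) (nat_lit 7) (nat_lit 3) (nat_lit 5) L33982 (by decide +kernel)
theorem L33984 : W_11 (nat_lit 4) (nat_lit 0x200006001780084000000000000000000000000000000) (nat_lit 0x0) (nat_lit 0x800040018000000008000200010000000000000000000000) := T_11 (nat_lit 160) (nat_lit 159) (nat_lit 3) (nat_lit 3) (nat_lit 8) L33983 (by decide +kernel)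
theorem L33985 : W_11 (nat_lit 5) (nat_lit 0x200006001780080000000000000000000000000000000) (nat_lit 0x0) (nat_lit 0x80004001800000000e000200010000000000000000000000) := T_11 (nat_lit 122) (nat_lit 121) (nat_lit 0) (nat_lit 6) (nat_lit 8) L33984 (by decide +kernel)
theorem L33986 : W_11 (nat_lit 2) (nat_lit 0x200007001780084000000000000000000000000000000) (nat_lit 0x0) (nat_lit 0x800040000000000000000200000000000000000000000000) := D_11 (nat_lit 174) (nat_lit 191) (nat_lit 105) (nat_lit 4) (nat_lit 4) (nat_lit 11) (nat_lit 7) (nat_lit 3) (nat_lit 6) (by decide +kernel)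
theorem L33987 : W_11 (nat_lit 3) (nat_lit 0x200006001780084000000000000000000000000000000) (nat_lit 0x0) (nat_lit 0x800040001800000000000200000000000000000000000000) := T_11 (nat_lit 156) (nat_lit 155) (nat_lit 2) (nat_lit 2) (nat_lit 9) L33986 (by decide +kernel)
theorem L33988 : W_11 (nat_lit 4) (nat_lit 0x200006001780080000000000000000000000000000000) (nat_lit 0x0) (nat_lit 0x800040001800000006000200000000000000000000000000) := T_11 (nat_lit 122) (nat_lit 121) (nat_lit 0) (nat_lit 6) (nat_lit 8) L33987 (by decide +kernel)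
theorem L33989 : W_11 (nat_lit 6) (nat_lit 0x200004001780080000000000000000000000000000000) (nat_lit 0x0) (nat_lit 0xc0007001b80000000e000600010000000000000000000000) := Q_11 (nat_lit 157) (C_11 L33977 (C_11 L33981 (C_11 L33985 (C_11 L33988 N_11)))) (by decide +kernel)
theorem L33990 : W_11 (nat_lit 2) (nat_lit 0x1000200005001780088000400000000000000000000000000) (nat_lit 0x0) (nat_lit 0x400020000000000004000000000000000000000000000000) := D_11 (nat_lit 173) (nat_lit 190) (nat_lit 122) (nat_lit 6) (nat_lit 3) (nat_lit 11) (nat_lit 6) (nat_lit 3) (nat_lit 10) (by decide +kernel)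
theorem L33991 : W_11 (nat_lit 3) (nat_lit 0x1000200005001780088000000000000000000000000000000) (nat_lit 0x0) (nat_lit 0x400020000000000004000400020000000000000000000000) := T_11 (nat_lit 106) (nat_lit 89) (nat_lit 7) (nat_lit 4) (nat_lit 5) L33990 (by decide +kernel)
theorem L33992 : W_11 (nat_lit 4) (nat_lit 0x200005001780088000000000000000000000000000000) (nat_lit 0x0) (nat_lit 0x14000a0000000000004000400020000000000000000000000) := T_11 (nat_lit 192) (nat_lit 175) (nat_lit 4) (nat_lit 5) (nat_lit 11) L33991 (by decide +kernel)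
theorem L33993 : W_11 (nat_lit 5) (nat_lit 0x200004001780088000000000000000000000000000000) (nat_lit 0x0) (nat_lit 0x14000a0001800000004000400020000000000000000000000) := T_11 (nat_lit 156) (nat_lit 155) (nat_lit 1) (nat_lit 6) (nat_lit 8) L33992 (by decide +kernel)
theorem L33994 : W_11 (nat_lit 2) (nat_lit 0x2700050017800ac0000000a0000000000000000000000) (nat_lit 0x0) (nat_lit 0x8002000000000000200000000000000000000000000) := D_11 (nat_lit 157) (nat_lit 105) (nat_lit 171) (nat_lit 7) (nat_lit 3) (nat_lit 6) (nat_lit 2) (nat_lit 1) (nat_lit 10) (by decide +kernel)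
theorem L33995 : W_11 (nat_lit 3) (nat_lit 0x2300050017800ac0000000a0000000000000000000000) (nat_lit 0x0) (nat_lit 0x800048002000000000000200000000000000000000000000) := T_11 (nat_lit 174) (nat_lit 191) (nat_lit 7) (nat_lit 3) (nat_lit 7) L33994 (by decide +kernel)
theorem L33996 : W_11 (nat_lit 4) (nat_lit 0x2200050017800ac0000000a0000000000000000000000) (nat_lit 0x0) (nat_lit 0xa00058002000000000000200000000000000000000000000) := T_11 (nat_lit 172) (nat_lit 189) (nat_lit 5) (nat_lit 3) (nat_lit 7) L33995 (by decide +kernel)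
theorem L33997 : W_11 (nat_lit 5) (nat_lit 0x2000050017800ac0000000a0000000000000000000000) (nat_lit 0x0) (nat_lit 0xe00078002000000000000200000000000000000000000000) := T_11 (nat_lit 173) (nat_lit 190) (nat_lit 6) (nat_lit 3) (nat_lit 11) L33996 (by decide +kernel)
theorem L33998 : W_11 (nat_lit 6) (nat_lit 0x2000050017800ac000000020000000000000000000000) (nat_lit 0x0) (nat_lit 0xe00078002000000000001200080000000000000000000000) := T_11 (nat_lit 91) (nat_lit 108) (nat_lit 5) (nat_lit 6) (nat_lit 5) L33997 (by decide +kernel)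
theorem L33999 : W_11 (nat_lit 7) (nat_lit 0x20000500178008c000000020000000000000000000000) (nat_lit 0x0) (nat_lit 0xe00078002000000060001200080000000000000000000000) := T_11 (nat_lit 125) (nat_lit 126) (nat_lit 2) (nat_lit 3) (nat_lit 8) L33998 (by decide +kernel)
theorem L34000 : W_11 (nat_lit 8) (nat_lit 0x20000400178008c000000020000000000000000000000) (nat_lit 0x0) (nat_lit 0xe00078003800000060001200080000000000000000000000) := T_11 (nat_lit 156) (nat_lit 155) (nat_lit 1) (nat_lit 6) (nat_lit 8) L33999 (by decide +kernel)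
theorem L34001 : W_11 (nat_lit 9) (nat_lit 0x20000400178008c000000000000000000000000000000) (nat_lit 0x0) (nat_lit 0xe000780038000000600016000a0000000000000000000000) := T_11 (nat_lit 89) (nat_lit 106) (nat_lit 7) (nat_lit 4) (nat_lit 5) L34000 (by decide +kernel)
theorem L34002 : W_11 (nat_lit 10) (nat_lit 0x200004001780088000000000000000000000000000000) (nat_lit 0x0) (nat_lit 0xe000780038000000660016000a0000000000000000000000) := T_11 (nat_lit 122) (nat_lit 121) (nat_lit 0) (nat_lit 6) (nat_lit 8) L34001 (by decide +kernel)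
theorem L34003 : W_11 (nat_lit 2) (nat_lit 0x10002200060017800ac001c00000000000000000000000000) (nat_lit 0x0) (nat_lit 0x400040000000000000000200000000000000000000000000) := D_11 (nat_lit 174) (nat_lit 190) (nat_lit 105) (nat_lit 5) (nat_lit 4) (nat_lit 7) (nat_lit 4) (nat_lit 4) (nat_lit 10) (by decide +kernel)
theorem L34004 : W_11 (nat_lit 3) (nat_lit 0x10002200040017800ac001c00000000000000000000000000) (nat_lit 0x0) (nat_lit 0x400040002000000000000200040000000000000000000000) := T_11 (nat_lit 157) (nat_lit 90) (nat_lit 6) (nat_lit 4) (nat_lit 9) L34003 (by decide +kernel)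
theorem L34005 : W_11 (nat_lit 4) (nat_lit 0x10002200040017800ac001400000000000000000000000000) (nat_lit 0x0) (nat_lit 0x400040002000000000002a00040000000000000000000000) := T_11 (nat_lit 107) (nat_lit 109) (nat_lit 1) (nat_lit 7) (nat_lit 6) L34004 (by decide +kernel)
theorem L34006 : W_11 (nat_lit 5) (nat_lit 0x10002000040017800ac001400000000000000000000000000) (nat_lit 0x0) (nat_lit 0x400060003000000000002a00040000000000000000000000) := T_11 (nat_lit 173) (nat_lit 156) (nat_lit 6) (nat_lit 3) (nat_lit 10) L34005 (by decide +kernel)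
theorem L34007 : W_11 (nat_lit 6) (nat_lit 0x10002000040017800ac000400000000000000000000000000) (nat_lit 0x0) (nat_lit 0x400060003000000000003a000c0000000000000000000000) := T_11 (nat_lit 108) (nat_lit 91) (nat_lit 5) (nat_lit 6) (nat_lit 5) L34006 (by decide +kernel)
theorem L34008 : W_11 (nat_lit 7) (nat_lit 0x100020000400178008c000400000000000000000000000000) (nat_lit 0x0) (nat_lit 0x400060003000000060003a000c0000000000000000000000) := T_11 (nat_lit 125) (nat_lit 126) (nat_lit 2) (nat_lit 3) (nat_lit 8) L34007 (by decide +kernel)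
theorem L34009 : W_11 (nat_lit 8) (nat_lit 0x100020000400178008c000000000000000000000000000000) (nat_lit 0x0) (nat_lit 0x400060003000000060003e000e0000000000000000000000) := T_11 (nat_lit 106) (nat_lit 89) (nat_lit 7) (nat_lit 4) (nat_lit 5) L34008 (by decide +kernel)
theorem L34010 : W_11 (nat_lit 9) (nat_lit 0x1000200004001780088000000000000000000000000000000) (nat_lit 0x0) (nat_lit 0x400060003000000066003e000e0000000000000000000000) := T_11 (nat_lit 122) (nat_lit 121) (nat_lit 0) (nat_lit 6) (nat_lit 8) L34009 (by decide +kernel)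
theorem L34011 : W_11 (nat_lit 10) (nat_lit 0x200004001780088000000000000000000000000000000) (nat_lit 0x0) (nat_lit 0x14000e0003000000066003e000e0000000000000000000000) := T_11 (nat_lit 192) (nat_lit 175) (nat_lit 4) (nat_lit 5) (nat_lit 11) L34010 (by decide +kernel)
theorem L34012 : W_11 (nat_lit 2) (nat_lit 0x10002000070017800ac001c00000000000000000000000000) (nat_lit 0x0) (nat_lit 0x800040000000000000000200000000000000000000000000) := D_11 (nat_lit 174) (nat_lit 191) (nat_lit 105) (nat_lit 4) (nat_lit 4) (nat_lit 11) (nat_lit 7) (nat_lit 3) (nat_lit 6) (by decide +kernel)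
theorem L34013 : W_11 (nat_lit 3) (nat_lit 0x10002000050017800ac001c00000000000000000000000000) (nat_lit 0x0) (nat_lit 0x800040002000000000000200040000000000000000000000) := T_11 (nat_lit 157) (nat_lit 90) (nat_lit 6) (nat_lit 4) (nat_lit 9) L34012 (by decide +kernel)
theorem L34014 : W_11 (nat_lit 4) (nat_lit 0x10002000050017800ac001400000000000000000000000000) (nat_lit 0x0) (nat_lit 0x800040002000000000002a00040000000000000000000000) := T_11 (nat_lit 107) (nat_lit 109) (nat_lit 1) (nat_lit 7) (nat_lit 6) L34013 (by decide +kernel)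
theorem L34015 : W_11 (nat_lit 5) (nat_lit 0x10002000050017800a8001400000000000000000000000000) (nat_lit 0x0) (nat_lit 0x800040002000000006002a00040000000000000000000000) := T_11 (nat_lit 122) (nat_lit 121) (nat_lit 0) (nat_lit 6) (nat_lit 8) L34014 (by decide +kernel)
theorem L34016 : W_11 (nat_lit 6) (nat_lit 0x10002000050017800a8001000000000000000000000000000) (nat_lit 0x0) (nat_lit 0x800040002000000006002e00060000000000000000000000) := T_11 (nat_lit 106) (nat_lit 89) (nat_lit 7) (nat_lit 4) (nat_lit 5) L34015 (by decide +kernel)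
theorem L34017 : W_11 (nat_lit 7) (nat_lit 0x10002000050017800a8000000000000000000000000000000) (nat_lit 0x0) (nat_lit 0x800040002000000006003e000e0000000000000000000000) := T_11 (nat_lit 108) (nat_lit 91) (nat_lit 5) (nat_lit 6) (nat_lit 5) L34016 (by decide +kernel)
theorem L34018 : W_11 (nat_lit 8) (nat_lit 0x10002000040017800a8000000000000000000000000000000) (nat_lit 0x0) (nat_lit 0x800040003800000006003e000e0000000000000000000000) := T_11 (nat_lit 156) (nat_lit 155) (nat_lit 1) (nat_lit 6) (nat_lit 8) L34017 (by decide +kernel)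
theorem L34019 : W_11 (nat_lit 9) (nat_lit 0x2000040017800a8000000000000000000000000000000) (nat_lit 0x0) (nat_lit 0x18000c0003800000006003e000e0000000000000000000000) := T_11 (nat_lit 192) (nat_lit 175) (nat_lit 6) (nat_lit 5) (nat_lit 11) L34018 (by decide +kernel)
theorem L34020 : W_11 (nat_lit 10) (nat_lit 0x200004001780088000000000000000000000000000000) (nat_lit 0x0) (nat_lit 0x18000c0003800000066003e000e0000000000000000000000) := T_11 (nat_lit 125) (nat_lit 126) (nat_lit 2) (nat_lit 3) (nat_lit 8) L34019 (by decide +kernel)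
theorem L34021 : W_11 (nat_lit 2) (nat_lit 0x10002700050017800ac000000080000000000000000000000) (nat_lit 0x0) (nat_lit 0x8002000000000000200000000000000000000000000) := D_11 (nat_lit 157) (nat_lit 105) (nat_lit 171) (nat_lit 7) (nat_lit 3) (nat_lit 6) (nat_lit 2) (nat_lit 1) (nat_lit 10) (by decide +kernel)
theorem L34022 : W_11 (nat_lit 3) (nat_lit 0x10002300050017800ac000000080000000000000000000000) (nat_lit 0x0) (nat_lit 0x800048002000000000000200000000000000000000000000) := T_11 (nat_lit 174) (nat_lit 191) (nat_lit 7) (nat_lit 3) (nat_lit 7) L34021 (by decide +kernel)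
theorem L34023 : W_11 (nat_lit 4) (nat_lit 0x10002200050017800ac000000080000000000000000000000) (nat_lit 0x0) (nat_lit 0xa00058002000000000000200000000000000000000000000) := T_11 (nat_lit 172) (nat_lit 189) (nat_lit 5) (nat_lit 3) (nat_lit 7) L34022 (by decide +kernel)
theorem L34024 : W_11 (nat_lit 5) (nat_lit 0x10002000050017800ac000000080000000000000000000000) (nat_lit 0x0) (nat_lit 0xe00078002000000000000200000000000000000000000000) := T_11 (nat_lit 173) (nat_lit 190) (nat_lit 6) (nat_lit 3) (nat_lit 11) L34023 (by decide +kernel)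
theorem L34025 : W_11 (nat_lit 6) (nat_lit 0x10002000040017800ac000000080000000000000000000000) (nat_lit 0x0) (nat_lit 0xe00078003800000000000200000000000000000000000000) := T_11 (nat_lit 156) (nat_lit 155) (nat_lit 1) (nat_lit 6) (nat_lit 8) L34024 (by decide +kernel)
theorem L34026 : W_11 (nat_lit 7) (nat_lit 0x10002000040017800ac000000000000000000000000000000) (nat_lit 0x0) (nat_lit 0xe00078003800000000001200080000000000000000000000) := T_11 (nat_lit 91) (nat_lit 108) (nat_lit 5) (nat_lit 6) (nat_lit 5) L34025 (by decide +kernel)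
theorem L34027 : W_11 (nat_lit 8) (nat_lit 0x2000040017800ac000000000000000000000000000000) (nat_lit 0x0) (nat_lit 0x1e000f8003800000000001200080000000000000000000000) := T_11 (nat_lit 192) (nat_lit 175) (nat_lit 6) (nat_lit 5) (nat_lit 11) L34026 (by decide +kernel)
theorem L34028 : W_11 (nat_lit 9) (nat_lit 0x20000400178008c000000000000000000000000000000) (nat_lit 0x0) (nat_lit 0x1e000f8003800000060001200080000000000000000000000) := T_11 (nat_lit 125) (nat_lit 126) (nat_lit 2) (nat_lit 3) (nat_lit 8) L34027 (by decide +kernel)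
theorem L34029 : W_11 (nat_lit 10) (nat_lit 0x200004001780088000000000000000000000000000000) (nat_lit 0x0) (nat_lit 0x1e000f8003800000066001200080000000000000000000000) := T_11 (nat_lit 122) (nat_lit 121) (nat_lit 0) (nat_lit 6) (nat_lit 8) L34028 (by decide +kernel)
theorem L34031 : W_11 (nat_lit 3) (nat_lit 0x200004001780088000000000000000000000000000000) (nat_lit 0x0) (nat_lit 0x1000080002000000000000400020000000000000000000000) := T_11 (nat_lit 106) (nat_lit 89) (nat_lit 7) (nat_lit 4) (nat_lit 5) L34030 (by decide +kernel)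
theorem L34032 : W_11 (nat_lit 11) (nat_lit 0x200004001780080000000000000000000000000000000) (nat_lit 0x0) (nat_lit 0x1e000f800380000006e003e000e0000000000000000000000) := Q_11 (nat_lit 123) (C_11 L33993 (C_11 L34002 (C_11 L34011 (C_11 L34020 (C_11 L34029 (C_11 L34031 N_11)))))) (by decide +kernel)
theorem L34033 : W_11 (nat_lit 2) (nat_lit 0x20000c0017800a4000000000000000000000000000000) (nat_lit 0x0) (nat_lit 0x1000080000000000000001000000000000000000000000000) := D_11 (nat_lit 175) (nat_lit 192) (nat_lit 108) (nat_lit 6) (nat_lit 5) (nat_lit 11) (nat_lit 5) (nat_lit 6) (nat_lit 6) (by decide +kernel)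
theorem L34034 : W_11 (nat_lit 3) (nat_lit 0x20000c001780084000000000000000000000000000000) (nat_lit 0x0) (nat_lit 0x1000080000000000060001000000000000000000000000000) := T_11 (nat_lit 125) (nat_lit 126) (nat_lit 2) (nat_lit 3) (nat_lit 8) L34033 (by decide +kernel)
theorem L34035 : W_11 (nat_lit 4) (nat_lit 0x200004001780084000000000000000000000000000000) (nat_lit 0x0) (nat_lit 0x1000080018000000060001000000000000000000000000000) := T_11 (nat_lit 159) (nat_lit 160) (nat_lit 3) (nat_lit 3) (nat_lit 8) L34034 (by decide +kernel)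
theorem L34036 : W_11 (nat_lit 5) (nat_lit 0x200004001780080000000000000000000000000000000) (nat_lit 0x0) (nat_lit 0x1000080018000000066001000000000000000000000000000) := T_11 (nat_lit 122) (nat_lit 121) (nat_lit 0) (nat_lit 6) (nat_lit 8) L34035 (by decide +kernel)
theorem L34037 : W_11 (nat_lit 2) (nat_lit 0x2800040017800a0000000000000000000000000000000) (nat_lit 0x0) (nat_lit 0x18000000000001000000000000000000000000000) := D_11 (nat_lit 159) (nat_lit 160) (nat_lit 108) (nat_lit 3) (nat_lit 3) (nat_lit 8) (nat_lit 5) (nat_lit 6) (nat_lit 6) (by decide +kernel)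
theorem L34038 : W_11 (nat_lit 3) (nat_lit 0x2000040017800a0000000000000000000000000000000) (nat_lit 0x0) (nat_lit 0x1000080018000000000001000000000000000000000000000) := T_11 (nat_lit 175) (nat_lit 192) (nat_lit 6) (nat_lit 5) (nat_lit 11) L34037 (by decide +kernel)
theorem L34039 : W_11 (nat_lit 4) (nat_lit 0x200004001780080000000000000000000000000000000) (nat_lit 0x0) (nat_lit 0x1000080018000000060001000000000000000000000000000) := T_11 (nat_lit 125) (nat_lit 126) (nat_lit 2) (nat_lit 3) (nat_lit 8) L34038 (by decide +kernel)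
theorem L34040 : W_11 (nat_lit 12) (nat_lit 0x200000001780080000000000000000000000000000000) (nat_lit 0x0) (nat_lit 0x1e000f801f80000006e003e001f0000000000000000000000) := Q_11 (nat_lit 158) (C_11 L33973 (C_11 L33989 (C_11 L34032 (C_11 L34036 (C_11 L34039 N_11))))) (by decide +kernel)
theorem L34041 : W_11 (nat_lit 13) (nat_lit 0x200000001380080000000000000000000000000000000) (nat_lit 0x0) (nat_lit 0x1e000f801fc0044006f003e001f0000000000000000000000) := Q_11 (nat_lit 142) (C_11 L33793 (C_11 L33820 (C_11 L33800 (C_11 L33804 (C_11 L34040 N_11))))) (by decide +kernel)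
theorem L34043 : W_11 (nat_lit 2) (nat_lit 0x2400020013e0085000000000000000000000000000000) (nat_lit 0x0) (nat_lit 0x1000000000000200010000000000000000000000) := D_11 (nat_lit 105) (nat_lit 88) (nat_lit 156) (nat_lit 7) (nat_lit 3) (nat_lit 5) (nat_lit 7) (nat_lit 3) (nat_lit 6) (by decide +kernel)
theorem L34044 : W_11 (nat_lit 3) (nat_lit 0x2000020013e0085000000000000000000000000000000) (nat_lit 0x0) (nat_lit 0x800040001000000000000200010000000000000000000000) := T_11 (nat_lit 174) (nat_lit 191) (nat_lit 4) (nat_lit 4) (nat_lit 11) L34043 (by decide +kernel)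
theorem L34045 : W_11 (nat_lit 4) (nat_lit 0x2000020013e0084000000000000000000000000000000) (nat_lit 0x0) (nat_lit 0x800040001000000001800200010000000000000000000000) := T_11 (nat_lit 120) (nat_lit 119) (nat_lit 0) (nat_lit 4) (nat_lit 8) L34044 (by decide +kernel)
theorem L34046 : W_11 (nat_lit 2) (nat_lit 0x2000020013e0084000200000000000000000000000000) (nat_lit 0x0) (nat_lit 0x40000000010008000000000000000000000000000000) := D_11 (nat_lit 123) (nat_lit 136) (nat_lit 174) (nat_lit 2) (nat_lit 0) (nat_lit 8) (nat_lit 4) (nat_lit 4) (nat_lit 10) (by decide +kernel)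
theorem L34047 : W_11 (nat_lit 3) (nat_lit 0x2000020013e0084000000000000000000000000000000) (nat_lit 0x0) (nat_lit 0x40000000010008000200010000000000000000000000) := T_11 (nat_lit 105) (nat_lit 88) (nat_lit 7) (nat_lit 3) (nat_lit 5) L34046 (by decide +kernel)
theorem L34048 : W_11 (nat_lit 5) (nat_lit 0x2000020013e0080000000000000000000000000000000) (nat_lit 0x0) (nat_lit 0x80004000100001000d800200010000000000000000000000) := Q_11 (nat_lit 122) (C_11 L34042 (C_11 L34045 (C_11 L34047 N_11))) (by decide +kernel)
theorem L34049 : W_11 (nat_lit 6) (nat_lit 0x2000000013e0080000000000000000000000000000000) (nat_lit 0x0) (nat_lit 0x80004000700001000d800200010000000000000000000000) := T_11 (nat_lit 157) (nat_lit 158) (nat_lit 3) (nat_lit 1) (nat_lit 8) L34048 (by decide +kernel)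
theorem L34050 : W_11 (nat_lit 2) (nat_lit 0x2000000013e0080000000000000000000000000000000) (nat_lit 0x0) (nat_lit 0x3800000000000000000000000000000) := D_11 (nat_lit 120) (nat_lit 119) (nat_lit 121) (nat_lit 0) (nat_lit 4) (nat_lit 8) (nat_lit 0) (nat_lit 5) (nat_lit 8) (by decide +kernel)
theorem L34051 : W_11 (nat_lit 2) (nat_lit 0x2400024017e0084000000000000000000000000000000) (nat_lit 0x0) (nat_lit 0x1000010000000200000000000000000000000000) := D_11 (nat_lit 156) (nat_lit 136) (nat_lit 105) (nat_lit 3) (nat_lit 0) (nat_lit 8) (nat_lit 7) (nat_lit 3) (nat_lit 6) (by decide +kernel)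
theorem L34052 : W_11 (nat_lit 3) (nat_lit 0x2000024017e0084000000000000000000000000000000) (nat_lit 0x0) (nat_lit 0x800040001000010000000200000000000000000000000000) := T_11 (nat_lit 174) (nat_lit 191) (nat_lit 4) (nat_lit 4) (nat_lit 11) L34051 (by decide +kernel)
theorem L34053 : W_11 (nat_lit 4) (nat_lit 0x2000024013e0084000000000000000000000000000000) (nat_lit 0x0) (nat_lit 0x800040001000410002000200000000000000000000000000) := T_11 (nat_lit 142) (nat_lit 121) (nat_lit 0) (nat_lit 6) (nat_lit 8) L34052 (by decide +kernel)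
theorem L34054 : W_11 (nat_lit 5) (nat_lit 0x2000020013e0084000000000000000000000000000000) (nat_lit 0x0) (nat_lit 0x800040001600410002000200000000000000000000000000) := T_11 (nat_lit 154) (nat_lit 153) (nat_lit 1) (nat_lit 4) (nat_lit 8) L34053 (by decide +kernel)
theorem L34055 : W_11 (nat_lit 2) (nat_lit 0x9002000034013e0086000f00000000000000000000000000) (nat_lit 0x0) (nat_lit 0x80000000c0000000000000000000000) := D_11 (nat_lit 90) (nat_lit 91) (nat_lit 123) (nat_lit 2) (nat_lit 2) (nat_lit 6) (nat_lit 6) (nat_lit 4) (nat_lit 9) (by decide +kernel)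
theorem L34056 : W_11 (nat_lit 3) (nat_lit 0x9002000034013e0086000700000000000000000000000000) (nat_lit 0x0) (nat_lit 0x80018000c0000000000000000000000) := T_11 (nat_lit 107) (nat_lit 108) (nat_lit 1) (nat_lit 6) (nat_lit 6) L34055 (by decide +kernel)
theorem L34057 : W_11 (nat_lit 4) (nat_lit 0x9002000034013e0086000300000000000000000000000000) (nat_lit 0x0) (nat_lit 0x8001c000e0000000000000000000000) := T_11 (nat_lit 106) (nat_lit 89) (nat_lit 6) (nat_lit 3) (nat_lit 9) L34056 (by decide +kernel)
theorem L34058 : W_11 (nat_lit 5) (nat_lit 0x9002000024013e0086000300000000000000000000000000) (nat_lit 0x0) (nat_lit 0x20001000000008001c000e0000000000000000000000) := T_11 (nat_lit 156) (nat_lit 173) (nat_lit 4) (nat_lit 3) (nat_lit 10) L34057 (by decide +kernel)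
theorem L34059 : W_11 (nat_lit 6) (nat_lit 0x8002000024013e0086000300000000000000000000000000) (nat_lit 0x0) (nat_lit 0x100028001000000008001c000e0000000000000000000000) := T_11 (nat_lit 188) (nat_lit 171) (nat_lit 6) (nat_lit 1) (nat_lit 11) L34058 (by decide +kernel)
theorem L34060 : W_11 (nat_lit 7) (nat_lit 0x8002000024013e0086000200000000000000000000000000) (nat_lit 0x0) (nat_lit 0x100028001000000008001d000e8000000000000000000000) := T_11 (nat_lit 104) (nat_lit 87) (nat_lit 5) (nat_lit 2) (nat_lit 5) L34059 (by decide +kernel)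
theorem L34061 : W_11 (nat_lit 8) (nat_lit 0x8002000024013e0084000200000000000000000000000000) (nat_lit 0x0) (nat_lit 0x10002800100040000a001d000e8000000000000000000000) := T_11 (nat_lit 121) (nat_lit 142) (nat_lit 0) (nat_lit 6) (nat_lit 8) L34060 (by decide +kernel)
theorem L34062 : W_11 (nat_lit 9) (nat_lit 0x8002000024013e0084000000000000000000000000000000) (nat_lit 0x0) (nat_lit 0x10002800100040000a001f000f8000000000000000000000) := T_11 (nat_lit 105) (nat_lit 88) (nat_lit 7) (nat_lit 3) (nat_lit 5) L34061 (by decide +kernel)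
theorem L34063 : W_11 (nat_lit 10) (nat_lit 0x2000024013e0084000000000000000000000000000000) (nat_lit 0x0) (nat_lit 0x90006800100040000a001f000f8000000000000000000000) := T_11 (nat_lit 191) (nat_lit 174) (nat_lit 4) (nat_lit 4) (nat_lit 11) L34062 (by decide +kernel)
theorem L34064 : W_11 (nat_lit 11) (nat_lit 0x2000020013e0084000000000000000000000000000000) (nat_lit 0x0) (nat_lit 0x90006800160040000a001f000f8000000000000000000000) := T_11 (nat_lit 154) (nat_lit 153) (nat_lit 1) (nat_lit 4) (nat_lit 8) L34063 (by decide +kernel)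
theorem L34065 : W_11 (nat_lit 12) (nat_lit 0x2000020013e0080000000000000000000000000000000) (nat_lit 0x0) (nat_lit 0x90006800160041000e001f000f8000000000000000000000) := Q_11 (nat_lit 122) (C_11 L34047 (C_11 L34042 (C_11 L34054 (C_11 L34064 N_11)))) (by decide +kernel)
theorem L34066 : W_11 (nat_lit 13) (nat_lit 0x2000000013e0080000000000000000000000000000000) (nat_lit 0x0) (nat_lit 0x90006800760041000e001f000f8000000000000000000000) := T_11 (nat_lit 157) (nat_lit 158) (nat_lit 3) (nat_lit 1) (nat_lit 8) L34065 (by decide +kernel)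
theorem L34067 : W_11 (nat_lit 14) (nat_lit 0x2000000013c0080000000000000000000000000000000) (nat_lit 0x0) (nat_lit 0x90006800760043000f801f000f8000000000000000000000) := Q_11 (nat_lit 137) (C_11 L34049 (C_11 L34050 (C_11 L34066 N_11))) (by decide +kernel)
theorem L34068 : W_11 (nat_lit 2) (nat_lit 0x2000000013e0080000000000000000000000000000000) (nat_lit 0x0) (nat_lit 0xe00000000000000000000000000000000000000) := D_11 (nat_lit 154) (nat_lit 155) (nat_lit 153) (nat_lit 1) (nat_lit 5) (nat_lit 8) (nat_lit 1) (nat_lit 4) (nat_lit 8) (by decide +kernel)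
theorem L34069 : W_11 (nat_lit 7) (nat_lit 0x2000000013c0080000000000000000000000000000000) (nat_lit 0x0) (nat_lit 0x800040007e0003000d800200010000000000000000000000) := Q_11 (nat_lit 137) (C_11 L34068 (C_11 L34049 N_11)) (by decide +kernel)
theorem L34070 : W_11 (nat_lit 2) (nat_lit 0x2000008013c0082000000000000000000000000000000) (nat_lit 0x0) (nat_lit 0x1000400004000000000000000000000000000000) := D_11 (nat_lit 142) (nat_lit 156) (nat_lit 122) (nat_lit 1) (nat_lit 6) (nat_lit 8) (nat_lit 0) (nat_lit 6) (nat_lit 8) (by decide +kernel)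
theorem L34071 : W_11 (nat_lit 3) (nat_lit 0x2000008013c0080000000000000000000000000000000) (nat_lit 0x0) (nat_lit 0x1000400007000000000000000000000000000000) := T_11 (nat_lit 121) (nat_lit 120) (nat_lit 0) (nat_lit 5) (nat_lit 8) L34070 (by decide +kernel)
theorem L34072 : W_11 (nat_lit 4) (nat_lit 0x2000000013c0080000000000000000000000000000000) (nat_lit 0x0) (nat_lit 0x1c00400007000000000000000000000000000000) := T_11 (nat_lit 155) (nat_lit 154) (nat_lit 1) (nat_lit 5) (nat_lit 8) L34071 (by decide +kernel)
theorem L34081 : W_11 (nat_lit 10) (nat_lit 0x2000020013e0081000000000000000000000000000000) (nat_lit 0x0) (nat_lit 0x1e001f000180041000c000680004000000000000000000000) := T_11 (nat_lit 156) (nat_lit 136) (nat_lit 3) (nat_lit 0) (nat_lit 8) L34080 (by decide +kernel)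
theorem L34082 : W_11 (nat_lit 11) (nat_lit 0x2000000013e0081000000000000000000000000000000) (nat_lit 0x0) (nat_lit 0x1e001f000780041000c000680004000000000000000000000) := T_11 (nat_lit 157) (nat_lit 158) (nat_lit 3) (nat_lit 1) (nat_lit 8) L34081 (by decide +kernel)
theorem L34083 : W_11 (nat_lit 12) (nat_lit 0x2000000013c0081000000000000000000000000000000) (nat_lit 0x0) (nat_lit 0x1e001f000780043000c800680004000000000000000000000) := T_11 (nat_lit 137) (nat_lit 119) (nat_lit 0) (nat_lit 4) (nat_lit 8) L34082 (by decide +kernel)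
theorem L34084 : W_11 (nat_lit 13) (nat_lit 0x2000000013c0080000000000000000000000000000000) (nat_lit 0x0) (nat_lit 0x1e001f000780043000f800680004000000000000000000000) := T_11 (nat_lit 120) (nat_lit 121) (nat_lit 0) (nat_lit 5) (nat_lit 8) L34083 (by decide +kernel)
theorem L34085 : W_11 (nat_lit 2) (nat_lit 0x2000028013e0080000000000000000000000000000000) (nat_lit 0x0) (nat_lit 0x1000410000000000000000000000000000000000) := D_11 (nat_lit 156) (nat_lit 136) (nat_lit 142) (nat_lit 3) (nat_lit 0) (nat_lit 8) (nat_lit 1) (nat_lit 6) (nat_lit 8) (by decide +kernel)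
theorem L34086 : W_11 (nat_lit 3) (nat_lit 0x2000028013c0080000000000000000000000000000000) (nat_lit 0x0) (nat_lit 0x5000430000000000000000000000000000000000) := T_11 (nat_lit 137) (nat_lit 158) (nat_lit 3) (nat_lit 1) (nat_lit 8) L34085 (by decide +kernel)
theorem L34087 : W_11 (nat_lit 4) (nat_lit 0x2000020013c0080000000000000000000000000000000) (nat_lit 0x0) (nat_lit 0x5c00430000000000000000000000000000000000) := T_11 (nat_lit 155) (nat_lit 154) (nat_lit 1) (nat_lit 5) (nat_lit 8) L34086 (by decide +kernel)
theorem L34088 : W_11 (nat_lit 2) (nat_lit 0x2000028017c00a4000200000000000000000000000000) (nat_lit 0x0) (nat_lit 0x800040000000000008000000000000000000000000000000) := D_11 (nat_lit 174) (nat_lit 191) (nat_lit 123) (nat_lit 4) (nat_lit 4) (nat_lit 11) (nat_lit 4) (nat_lit 4) (nat_lit 10) (by decide +kernel)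
theorem L34089 : W_11 (nat_lit 3) (nat_lit 0x2000028017c00a4000000000000000000000000000000) (nat_lit 0x0) (nat_lit 0x800040000000000008000200010000000000000000000000) := T_11 (nat_lit 105) (nat_lit 88) (nat_lit 7) (nat_lit 3) (nat_lit 5) L34088 (by decide +kernel)
theorem L34090 : W_11 (nat_lit 4) (nat_lit 0x2000028017c0084000000000000000000000000000000) (nat_lit 0x0) (nat_lit 0x800040000000000068000200010000000000000000000000) := T_11 (nat_lit 125) (nat_lit 126) (nat_lit 2) (nat_lit 3) (nat_lit 8) L34089 (by decide +kernel)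
theorem L34091 : W_11 (nat_lit 5) (nat_lit 0x2000028017c0080000000000000000000000000000000) (nat_lit 0x0) (nat_lit 0x80004000000000006e000200010000000000000000000000) := T_11 (nat_lit 122) (nat_lit 121) (nat_lit 0) (nat_lit 6) (nat_lit 8) L34090 (by decide +kernel)
theorem L34092 : W_11 (nat_lit 6) (nat_lit 0x2000028013c0080000000000000000000000000000000) (nat_lit 0x0) (nat_lit 0x80004000100040006e000200010000000000000000000000) := T_11 (nat_lit 142) (nat_lit 156) (nat_lit 1) (nat_lit 6) (nat_lit 8) L34091 (by decide +kernel)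
theorem L34093 : W_11 (nat_lit 7) (nat_lit 0x2000020013c0080000000000000000000000000000000) (nat_lit 0x0) (nat_lit 0x800040001c0040006e000200010000000000000000000000) := T_11 (nat_lit 155) (nat_lit 154) (nat_lit 1) (nat_lit 5) (nat_lit 8) L34092 (by decide +kernel)
theorem L34094 : W_11 (nat_lit 13) (nat_lit 0x2000020013c0080000000000000000000000000000000) (nat_lit 0x0) (nat_lit 0x90006800560043000e001f000f8000000000000000000000) := T_11 (nat_lit 137) (nat_lit 158) (nat_lit 3) (nat_lit 1) (nat_lit 8) L34065 (by decide +kernel)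
theorem L34095 : W_11 (nat_lit 2) (nat_lit 0x2000020013e0080000000000000000000000000000000) (nat_lit 0x0) (nat_lit 0xe00000000000000000000000000000000000000) := D_11 (nat_lit 154) (nat_lit 155) (nat_lit 153) (nat_lit 1) (nat_lit 5) (nat_lit 8) (nat_lit 1) (nat_lit 4) (nat_lit 8) (by decide +kernel)
theorem L34096 : W_11 (nat_lit 3) (nat_lit 0x2000020013c0080000000000000000000000000000000) (nat_lit 0x0) (nat_lit 0x4e00020000000000000000000000000000000000) := T_11 (nat_lit 137) (nat_lit 158) (nat_lit 3) (nat_lit 1) (nat_lit 8) L34095 (by decide +kernel)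
theorem L34097 : W_11 (nat_lit 2) (nat_lit 0x2000030017e0084000000000000000000000000000000) (nat_lit 0x0) (nat_lit 0x800040000000000000000200000000000000000000000000) := D_11 (nat_lit 174) (nat_lit 191) (nat_lit 105) (nat_lit 4) (nat_lit 4) (nat_lit 11) (nat_lit 7) (nat_lit 3) (nat_lit 6) (by decide +kernel)
theorem L34098 : W_11 (nat_lit 3) (nat_lit 0x2000030017e0080000000000000000000000000000000) (nat_lit 0x0) (nat_lit 0x800040000000000006000200000000000000000000000000) := T_11 (nat_lit 122) (nat_lit 121) (nat_lit 0) (nat_lit 6) (nat_lit 8) L34097 (by decide +kernel)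
theorem L34099 : W_11 (nat_lit 4) (nat_lit 0x2000030013e0080000000000000000000000000000000) (nat_lit 0x0) (nat_lit 0x800040000800400006000200000000000000000000000000) := T_11 (nat_lit 142) (nat_lit 155) (nat_lit 1) (nat_lit 6) (nat_lit 8) L34098 (by decide +kernel)
theorem L34100 : W_11 (nat_lit 5) (nat_lit 0x2000020013e0080000000000000000000000000000000) (nat_lit 0x0) (nat_lit 0x800040001800410006000200000000000000000000000000) := T_11 (nat_lit 156) (nat_lit 136) (nat_lit 3) (nat_lit 0) (nat_lit 8) L34099 (by decide +kernel)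
theorem L34101 : W_11 (nat_lit 6) (nat_lit 0x2000020013c0080000000000000000000000000000000) (nat_lit 0x0) (nat_lit 0x800040005800430006000200000000000000000000000000) := T_11 (nat_lit 137) (nat_lit 158) (nat_lit 3) (nat_lit 1) (nat_lit 8) L34100 (by decide +kernel)
theorem L34102 : W_11 (nat_lit 14) (nat_lit 0x2000000013c0080000000000000000000000000000000) (nat_lit 0x0) (nat_lit 0x900068007e0043006e001f000f8000000000000000000000) := Q_11 (nat_lit 157) (C_11 L34087 (C_11 L34093 (C_11 L34094 (C_11 L34096 (C_11 L34101 N_11))))) (by decide +kernel)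
theorem L34103 : W_11 (nat_lit 15) (nat_lit 0x200000001380080000000000000000000000000000000) (nat_lit 0x0) (nat_lit 0x1f001f8007e0047006f801f800fc000000000000000000000) := Q_11 (nat_lit 138) (C_11 L34067 (C_11 L33739 (C_11 L34069 (C_11 L34072 (C_11 L34084 (C_11 L34102 N_11)))))) (by decide +kernel)
theorem L34106 : W_11 (nat_lit 4) (nat_lit 0x200008001380080000000000000000000000000000000) (nat_lit 0x0) (nat_lit 0x14000440007000000000000000000000000000000) := T_11 (nat_lit 138) (nat_lit 158) (nat_lit 3) (nat_lit 2) (nat_lit 8) L34105 (by decide +kernel)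
theorem L34107 : W_11 (nat_lit 2) (nat_lit 0x200008001380086000000000000000000000000000000) (nat_lit 0x0) (nat_lit 0x40001800000000000000000000000000000) := D_11 (nat_lit 120) (nat_lit 138) (nat_lit 119) (nat_lit 0) (nat_lit 5) (nat_lit 8) (nat_lit 3) (nat_lit 0) (nat_lit 7) (by decide +kernel)
theorem L34108 : W_11 (nat_lit 3) (nat_lit 0x200008001380082000000000000000000000000000000) (nat_lit 0x0) (nat_lit 0x440005800000000000000000000000000000) := T_11 (nat_lit 122) (nat_lit 142) (nat_lit 0) (nat_lit 6) (nat_lit 8) L34107 (by decide +kernel)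
theorem L34109 : W_11 (nat_lit 2) (nat_lit 0x200008001380083000000000000000000000000000000) (nat_lit 0x0) (nat_lit 0xc800000000000000000000000000000) := D_11 (nat_lit 122) (nat_lit 119) (nat_lit 123) (nat_lit 3) (nat_lit 0) (nat_lit 7) (nat_lit 3) (nat_lit 1) (nat_lit 7) (by decide +kernel)
theorem L34110 : W_11 (nat_lit 3) (nat_lit 0x200008001380082000000000000000000000000000000) (nat_lit 0x0) (nat_lit 0x4000d800000000000000000000000000000) := T_11 (nat_lit 120) (nat_lit 138) (nat_lit 0) (nat_lit 5) (nat_lit 8) L34109 (by decide +kernel)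
theorem L34111 : W_11 (nat_lit 2) (nat_lit 0x38000a0017800a40010000d000c000000000000000000) (nat_lit 0x0) (nat_lit 0x800040001000000000000000000000000000000000000000) := D_11 (nat_lit 174) (nat_lit 191) (nat_lit 156) (nat_lit 4) (nat_lit 4) (nat_lit 11) (nat_lit 0) (nat_lit 7) (nat_lit 10) (by decide +kernel)
theorem L34112 : W_11 (nat_lit 3) (nat_lit 0x3800080017800a40010000d000c000000000000000000) (nat_lit 0x0) (nat_lit 0x800040003000000000000200000000000000000000000000) := T_11 (nat_lit 157) (nat_lit 105) (nat_lit 7) (nat_lit 3) (nat_lit 5) L34111 (by decide +kernel)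
theorem L34113 : W_11 (nat_lit 4) (nat_lit 0x3800080017800a40010000c000c000000000000000000) (nat_lit 0x0) (nat_lit 0x800040003000000000000200030000000000000000000000) := T_11 (nat_lit 88) (nat_lit 89) (nat_lit 2) (nat_lit 3) (nat_lit 5) L34112 (by decide +kernel)
theorem L34114 : W_11 (nat_lit 5) (nat_lit 0x3800080017800a40010000c0008000000000000000000) (nat_lit 0x0) (nat_lit 0x800040003000000000000200030004000400000000000000) := T_11 (nat_lit 74) (nat_lit 58) (nat_lit 6) (nat_lit 6) (nat_lit 7) L34113 (by decide +kernel)
theorem L34115 : W_11 (nat_lit 6) (nat_lit 0x3800080017800a40010000c0000000000000000000000) (nat_lit 0x0) (nat_lit 0x80004000300000000000020013000c000400000000000000) := T_11 (nat_lit 75) (nat_lit 92) (nat_lit 6) (nat_lit 6) (nat_lit 8) L34114 (by decide +kernel)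
theorem L34116 : W_11 (nat_lit 7) (nat_lit 0x3800080017800a4001000040000000000000000000000) (nat_lit 0x0) (nat_lit 0x8000400030000000000002001b000e000400000000000000) := T_11 (nat_lit 91) (nat_lit 73) (nat_lit 4) (nat_lit 6) (nat_lit 8) L34115 (by decide +kernel)
theorem L34117 : W_11 (nat_lit 8) (nat_lit 0x3800080017800a0001000040000000000000000000000) (nat_lit 0x0) (nat_lit 0x8000400030000000060002001b000e000400000000000000) := T_11 (nat_lit 122) (nat_lit 121) (nat_lit 0) (nat_lit 6) (nat_lit 8) L34116 (by decide +kernel)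
theorem L34118 : W_11 (nat_lit 9) (nat_lit 0x3800080017800a0001000000000000000000000000000) (nat_lit 0x0) (nat_lit 0x800040003000000006000a001f000e000400000000000000) := T_11 (nat_lit 90) (nat_lit 107) (nat_lit 4) (nat_lit 6) (nat_lit 9) L34117 (by decide +kernel)
theorem L34119 : W_11 (nat_lit 6) (nat_lit 0x240008001780080000000000000000000000000000000) (nat_lit 0x0) (nat_lit 0x5c00180002000000066000000000000000000000000000000) := T_11 (nat_lit 125) (nat_lit 126) (nat_lit 2) (nat_lit 3) (nat_lit 8) L33899 (by decide +kernel)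
theorem L34120 : W_11 (nat_lit 4) (nat_lit 0x240008001780080000000000000000000000000000000) (nat_lit 0x0) (nat_lit 0x80000000200000000e000200010000000000000000000000) := T_11 (nat_lit 122) (nat_lit 121) (nat_lit 0) (nat_lit 6) (nat_lit 8) L33903 (by decide +kernel)
theorem L34121 : W_11 (nat_lit 8) (nat_lit 0x240008001780080000000000000000000000000000000) (nat_lit 0x0) (nat_lit 0x5e001a0001000040067000000000000000000000000000000) := T_11 (nat_lit 121) (nat_lit 122) (nat_lit 0) (nat_lit 6) (nat_lit 8) L33915 (by decide +kernel)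
theorem L34122 : W_11 (nat_lit 3) (nat_lit 0x3c000a0017800a0000000000000000000000000000000) (nat_lit 0x0) (nat_lit 0xe000200010000000000000000000000) := T_11 (nat_lit 122) (nat_lit 121) (nat_lit 0) (nat_lit 6) (nat_lit 8) L33931 (by decide +kernel)
theorem L34123 : W_11 (nat_lit 4) (nat_lit 0x3c00080017800a0000000000000000000000000000000) (nat_lit 0x0) (nat_lit 0x300000000e000200010000000000000000000000) := T_11 (nat_lit 157) (nat_lit 156) (nat_lit 0) (nat_lit 7) (nat_lit 10) L34122 (by decide +kernel)
theorem L34124 : W_11 (nat_lit 5) (nat_lit 0x3400080017800a0000000000000000000000000000000) (nat_lit 0x0) (nat_lit 0x100008000300000000e000200010000000000000000000000) := T_11 (nat_lit 175) (nat_lit 192) (nat_lit 5) (nat_lit 6) (nat_lit 7) L34123 (by decide +kernel)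
theorem L34125 : W_11 (nat_lit 6) (nat_lit 0x2400080017800a0000000000000000000000000000000) (nat_lit 0x0) (nat_lit 0x500018000300000000e000200010000000000000000000000) := T_11 (nat_lit 176) (nat_lit 194) (nat_lit 7) (nat_lit 6) (nat_lit 7) L34124 (by decide +kernel)
theorem L34126 : W_11 (nat_lit 7) (nat_lit 0x240008001780080000000000000000000000000000000) (nat_lit 0x0) (nat_lit 0x500018000300000006e000200010000000000000000000000) := T_11 (nat_lit 125) (nat_lit 126) (nat_lit 2) (nat_lit 3) (nat_lit 8) L34125 (by decide +kernel)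
theorem L34127 : W_11 (nat_lit 9) (nat_lit 0x200008001780080000000000000000000000000000000) (nat_lit 0x0) (nat_lit 0x5e001e000300004006f000200010000000000000000000000) := Q_11 (nat_lit 174) (C_11 L34119 (C_11 L34120 (C_11 L34121 (C_11 L33929 (C_11 L34126 N_11))))) (by decide +kernel)
theorem L34128 : W_11 (nat_lit 10) (nat_lit 0x200008001380080000000000000000000000000000000) (nat_lit 0x0) (nat_lit 0x5e001e001300044006f000200010000000000000000000000) := T_11 (nat_lit 142) (nat_lit 160) (nat_lit 3) (nat_lit 3) (nat_lit 8) L34127 (by decide +kernel)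
theorem L34129 : W_11 (nat_lit 2) (nat_lit 0x3800080017800a2001000140000000000000000000000) (nat_lit 0x0) (nat_lit 0x8000a000000000000000000) := D_11 (nat_lit 91) (nat_lit 75) (nat_lit 73) (nat_lit 6) (nat_lit 6) (nat_lit 8) (nat_lit 4) (nat_lit 6) (nat_lit 8) (by decide +kernel)
theorem L34130 : W_11 (nat_lit 3) (nat_lit 0x3800080017800a2001000100000000000000000000000) (nat_lit 0x0) (nat_lit 0x8000c000a000000000000000000) := T_11 (nat_lit 90) (nat_lit 107) (nat_lit 4) (nat_lit 6) (nat_lit 9) L34129 (by decide +kernel)
theorem L34131 : W_11 (nat_lit 4) (nat_lit 0x3800080017800a2001000000000000000000000000000) (nat_lit 0x0) (nat_lit 0x28001c000a000000000000000000) := T_11 (nat_lit 92) (nat_lit 109) (nat_lit 6) (nat_lit 6) (nat_lit 9) L34130 (by decide +kernel)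
theorem L34132 : W_11 (nat_lit 5) (nat_lit 0x3800080017800a2000000000000000000000000000000) (nat_lit 0x0) (nat_lit 0x40000000000038001c000a000000000000000000) := T_11 (nat_lit 108) (nat_lit 158) (nat_lit 5) (nat_lit 6) (nat_lit 6) L34131 (by decide +kernel)
theorem L34133 : W_11 (nat_lit 6) (nat_lit 0x3000080017800a2000000000000000000000000000000) (nat_lit 0x0) (nat_lit 0x10000800040000000000038001c000a000000000000000000) := T_11 (nat_lit 175) (nat_lit 192) (nat_lit 5) (nat_lit 6) (nat_lit 7) L34132 (by decide +kernel)
theorem L34134 : W_11 (nat_lit 7) (nat_lit 0x2000080017800a2000000000000000000000000000000) (nat_lit 0x0) (nat_lit 0x50001800040000000000038001c000a000000000000000000) := T_11 (nat_lit 176) (nat_lit 194) (nat_lit 7) (nat_lit 6) (nat_lit 7) L34133 (by decide +kernel)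
theorem L34135 : W_11 (nat_lit 8) (nat_lit 0x200008001780082000000000000000000000000000000) (nat_lit 0x0) (nat_lit 0x50001800040000000600038001c000a000000000000000000) := T_11 (nat_lit 125) (nat_lit 126) (nat_lit 2) (nat_lit 3) (nat_lit 8) L34134 (by decide +kernel)
theorem L34136 : W_11 (nat_lit 9) (nat_lit 0x200008001380082000000000000000000000000000000) (nat_lit 0x0) (nat_lit 0x50001800040004000640038001c000a000000000000000000) := T_11 (nat_lit 142) (nat_lit 122) (nat_lit 0) (nat_lit 6) (nat_lit 8) L34135 (by decide +kernel)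
theorem L34137 : W_11 (nat_lit 2) (nat_lit 0x200008001380082000000000000000000000000000000) (nat_lit 0x0) (nat_lit 0x4000040001000000000000000000000000000000) := D_11 (nat_lit 138) (nat_lit 158) (nat_lit 120) (nat_lit 3) (nat_lit 2) (nat_lit 8) (nat_lit 0) (nat_lit 5) (nat_lit 8) (by decide +kernel)
theorem L34138 : W_11 (nat_lit 10) (nat_lit 0x200008001380080000000000000000000000000000000) (nat_lit 0x0) (nat_lit 0x500018000400044006f8038001c000a000000000000000000) := Q_11 (nat_lit 121) (C_11 L34110 (C_11 L34108 (C_11 L34136 (C_11 L34137 N_11)))) (by decide +kernel)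
theorem L34143 : W_11 (nat_lit 10) (nat_lit 0x3800080017800a0000000000000000000000000000000) (nat_lit 0x0) (nat_lit 0x800040007000000006001a001f000e000400000000000000) := T_11 (nat_lit 108) (nat_lit 158) (nat_lit 5) (nat_lit 6) (nat_lit 6) L34118 (by decide +kernel)
theorem L34144 : W_11 (nat_lit 11) (nat_lit 0x3000080017800a0000000000000000000000000000000) (nat_lit 0x0) (nat_lit 0x18000c0007000000006001a001f000e000400000000000000) := T_11 (nat_lit 175) (nat_lit 192) (nat_lit 5) (nat_lit 6) (nat_lit 7) L34143 (by decide +kernel)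
theorem L34145 : W_11 (nat_lit 12) (nat_lit 0x2000080017800a0000000000000000000000000000000) (nat_lit 0x0) (nat_lit 0x58001c0007000000006001a001f000e000400000000000000) := T_11 (nat_lit 176) (nat_lit 194) (nat_lit 7) (nat_lit 6) (nat_lit 7) L34144 (by decide +kernel)
theorem L34146 : W_11 (nat_lit 13) (nat_lit 0x200008001780080000000000000000000000000000000) (nat_lit 0x0) (nat_lit 0x58001c0007000000066001a001f000e000400000000000000) := T_11 (nat_lit 125) (nat_lit 126) (nat_lit 2) (nat_lit 3) (nat_lit 8) L34145 (by decide +kernel)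
theorem L34147 : W_11 (nat_lit 14) (nat_lit 0x200008001380080000000000000000000000000000000) (nat_lit 0x0) (nat_lit 0x58001c0017000400066001a001f000e000400000000000000) := T_11 (nat_lit 142) (nat_lit 160) (nat_lit 3) (nat_lit 3) (nat_lit 8) L34146 (by decide +kernel)
theorem L34148 : W_11 (nat_lit 15) (nat_lit 0x200000001380080000000000000000000000000000000) (nat_lit 0x0) (nat_lit 0x5e001e003f00044006f803a001f000e000400000000000000) := Q_11 (nat_lit 159) (C_11 L34106 (C_11 L34128 (C_11 L34138 (C_11 L34140 (C_11 L34142 (C_11 L34147 N_11)))))) (by decide +kernel)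
theorem L34162 : W_11 (nat_lit 8) (nat_lit 0x200003001380080000000000000000000000000000000) (nat_lit 0x0) (nat_lit 0x38003c001c000c00006000c000600010000000000000000000000) := Q_11 (nat_lit 174) (C_11 L34151 (C_11 L34157 (C_11 L34161 N_11))) (by decide +kernel)
theorem L34163 : W_11 (nat_lit 2) (nat_lit 0xc00340003001380080000000000000000000000000000000) (nat_lit 0x0) (nat_lit 0x20003000000000000000000000000000000000000000000000000) := D_11 (nat_lit 192) (nat_lit 209) (nat_lit 193) (nat_lit 7) (nat_lit 4) (nat_lit 8) (nat_lit 2) (nat_lit 3) (nat_lit 11) (by decide +kernel)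
theorem L34164 : W_11 (nat_lit 3) (nat_lit 0x800340003001380080000000000000000000000000000000) (nat_lit 0x0) (nat_lit 0x28003400000000000000000000000000000000000000000000000) := T_11 (nat_lit 190) (nat_lit 207) (nat_lit 5) (nat_lit 4) (nat_lit 8) L34163 (by decide +kernel)
theorem L34165 : W_11 (nat_lit 4) (nat_lit 0x340003001380080000000000000000000000000000000) (nat_lit 0x0) (nat_lit 0x38003c00000000000000000000000000000000000000000000000) := T_11 (nat_lit 191) (nat_lit 208) (nat_lit 4) (nat_lit 4) (nat_lit 12) L34164 (by decide +kernel)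
theorem L34166 : W_11 (nat_lit 5) (nat_lit 0x240003001380080000000000000000000000000000000) (nat_lit 0x0) (nat_lit 0x38003c00180000000000000000000000000000000000000000000) := T_11 (nat_lit 176) (nat_lit 175) (nat_lit 0) (nat_lit 7) (nat_lit 10) L34165 (by decide +kernel)
theorem L34167 : W_11 (nat_lit 2) (nat_lit 0x2c0003001380088000200000000000000000000000000) (nat_lit 0x0) (nat_lit 0x400020000000000000000400000000000000000000000000) := D_11 (nat_lit 173) (nat_lit 190) (nat_lit 106) (nat_lit 6) (nat_lit 3) (nat_lit 11) (nat_lit 5) (nat_lit 4) (nat_lit 6) (by decide +kernel)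
theorem L34168 : W_11 (nat_lit 3) (nat_lit 0x2c0003001380080000200000000000000000000000000) (nat_lit 0x0) (nat_lit 0x1400020000000000008000400000000000000000000000000) := T_11 (nat_lit 123) (nat_lit 192) (nat_lit 7) (nat_lit 4) (nat_lit 7) L34167 (by decide +kernel)
theorem L34169 : W_11 (nat_lit 4) (nat_lit 0x240003001380080000200000000000000000000000000) (nat_lit 0x0) (nat_lit 0x14001a0000000000008000400000000000000000000000000) := T_11 (nat_lit 175) (nat_lit 176) (nat_lit 0) (nat_lit 7) (nat_lit 10) L34168 (by decide +kernel)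
theorem L34170 : W_11 (nat_lit 5) (nat_lit 0x240003001380080000000000000000000000000000000) (nat_lit 0x0) (nat_lit 0x14001a000000000000c000600000000000000000000000000) := T_11 (nat_lit 105) (nat_lit 122) (nat_lit 7) (nat_lit 3) (nat_lit 6) L34169 (by decide +kernel)
theorem L34171 : W_11 (nat_lit 6) (nat_lit 0x200003001380080000000000000000000000000000000) (nat_lit 0x0) (nat_lit 0x38003c001e000000000000c000600000000000000000000000000) := Q_11 (nat_lit 174) (C_11 L34151 (C_11 L34166 (C_11 L34170 N_11))) (by decide +kernel)
theorem L34173 : W_11 (nat_lit 2) (nat_lit 0x220003001380084000000000000000000000000000000) (nat_lit 0x0) (nat_lit 0x800040000000000000000200000000000000000000000000) := D_11 (nat_lit 174) (nat_lit 191) (nat_lit 105) (nat_lit 7) (nat_lit 3) (nat_lit 7) (nat_lit 7) (nat_lit 3) (nat_lit 6) (by decide +kernel)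
theorem L34174 : W_11 (nat_lit 2) (nat_lit 0x220003001380084000400000000000000000000000000) (nat_lit 0x0) (nat_lit 0x200030000000000000000000000) := D_11 (nat_lit 105) (nat_lit 89) (nat_lit 88) (nat_lit 6) (nat_lit 3) (nat_lit 9) (nat_lit 7) (nat_lit 3) (nat_lit 5) (by decide +kernel)
theorem L34175 : W_11 (nat_lit 3) (nat_lit 0x220003001380084000000000000000000000000000000) (nat_lit 0x0) (nat_lit 0x8000600030000000000000000000000) := T_11 (nat_lit 106) (nat_lit 123) (nat_lit 6) (nat_lit 3) (nat_lit 10) L34174 (by decide +kernel)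
theorem L34176 : W_11 (nat_lit 2) (nat_lit 0x270003001380084000400000000000000000000000000) (nat_lit 0x0) (nat_lit 0xc004000000000000000000000000000000000000000) := D_11 (nat_lit 171) (nat_lit 158) (nat_lit 170) (nat_lit 2) (nat_lit 1) (nat_lit 10) (nat_lit 2) (nat_lit 0) (nat_lit 10) (by decide +kernel)
theorem L34177 : W_11 (nat_lit 3) (nat_lit 0x260003001380084000400000000000000000000000000) (nat_lit 0x0) (nat_lit 0x20001c004000000000000000000000000000000000000000) := T_11 (nat_lit 172) (nat_lit 189) (nat_lit 5) (nat_lit 3) (nat_lit 7) L34176 (by decide +kernel)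
theorem L34178 : W_11 (nat_lit 4) (nat_lit 0x220003001380084000400000000000000000000000000) (nat_lit 0x0) (nat_lit 0xa0005c004000000000000000000000000000000000000000) := T_11 (nat_lit 174) (nat_lit 191) (nat_lit 7) (nat_lit 3) (nat_lit 7) L34177 (by decide +kernel)
theorem L34179 : W_11 (nat_lit 5) (nat_lit 0x220003001380084000000000000000000000000000000) (nat_lit 0x0) (nat_lit 0xa0005c004000000008000400000000000000000000000000) := T_11 (nat_lit 106) (nat_lit 123) (nat_lit 6) (nat_lit 3) (nat_lit 10) L34178 (by decide +kernel)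
theorem L34180 : W_11 (nat_lit 6) (nat_lit 0x220003001380080000000000000000000000000000000) (nat_lit 0x0) (nat_lit 0xa0005c00400000000c000600030000000000000000000000) := Q_11 (nat_lit 122) (C_11 L34173 (C_11 L34175 (C_11 L34179 N_11))) (by decide +kernel)
theorem L34181 : W_11 (nat_lit 2) (nat_lit 0x220003001380080000000000000000000000000000000) (nat_lit 0x0) (nat_lit 0x400000000000000008000400000000000000000000000000) := D_11 (nat_lit 123) (nat_lit 106) (nat_lit 190) (nat_lit 5) (nat_lit 4) (nat_lit 6) (nat_lit 6) (nat_lit 3) (nat_lit 11) (by decide +kernel)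
theorem L34182 : W_11 (nat_lit 2) (nat_lit 0x600220003001380084000000000000000000000000000000) (nat_lit 0x0) (nat_lit 0x10000800040000000000000000000000000000000000000000000) := D_11 (nat_lit 191) (nat_lit 174) (nat_lit 208) (nat_lit 7) (nat_lit 3) (nat_lit 7) (nat_lit 7) (nat_lit 3) (nat_lit 8) (by decide +kernel)
theorem L34183 : W_11 (nat_lit 3) (nat_lit 0x600220003001380080000000000000000000000000000000) (nat_lit 0x0) (nat_lit 0x10000800050000000000004000000000000000000000000000000) := T_11 (nat_lit 122) (nat_lit 172) (nat_lit 5) (nat_lit 3) (nat_lit 7) L34182 (by decide +kernel)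
theorem L34184 : W_11 (nat_lit 4) (nat_lit 0x400220003001380080000000000000000000000000000000) (nat_lit 0x0) (nat_lit 0x14000a00050000000000004000000000000000000000000000000) := T_11 (nat_lit 189) (nat_lit 206) (nat_lit 5) (nat_lit 3) (nat_lit 8) L34183 (by decide +kernel)
theorem L34185 : W_11 (nat_lit 5) (nat_lit 0x220003001380080000000000000000000000000000000) (nat_lit 0x0) (nat_lit 0x1c000e00050000000000004000000000000000000000000000000) := T_11 (nat_lit 190) (nat_lit 207) (nat_lit 6) (nat_lit 3) (nat_lit 12) L34184 (by decide +kernel)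
theorem L34186 : W_11 (nat_lit 7) (nat_lit 0x200003001380080000000000000000000000000000000) (nat_lit 0x0) (nat_lit 0x1c000e0007c00400000000c000600030000000000000000000000) := Q_11 (nat_lit 173) (C_11 L34180 (C_11 L34181 (C_11 L34185 N_11))) (by decide +kernel)
theorem L34187 : W_11 (nat_lit 8) (nat_lit 0x20000b001380080000000000000000000000000000000) (nat_lit 0x0) (nat_lit 0x28007c001a0010000400068000000000000000000000000000000) := T_11 (nat_lit 142) (nat_lit 160) (nat_lit 3) (nat_lit 3) (nat_lit 8) L33895 (by decide +kernel)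
theorem L34188 : W_11 (nat_lit 2) (nat_lit 0x20000b001380080000000000000000000000000000000) (nat_lit 0x0) (nat_lit 0x14000400000000000000000000000000000000000) := D_11 (nat_lit 160) (nat_lit 142) (nat_lit 158) (nat_lit 3) (nat_lit 3) (nat_lit 8) (nat_lit 0) (nat_lit 7) (nat_lit 9) (by decide +kernel)
theorem L34190 : W_11 (nat_lit 9) (nat_lit 0x200003001380080000000000000000000000000000000) (nat_lit 0x0) (nat_lit 0x28007c001a001c000440068000000000000000000000000000000) := Q_11 (nat_lit 159) (C_11 L34187 (C_11 L34188 (C_11 L34189 N_11))) (by decide +kernel)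
theorem L34191 : W_11 (nat_lit 5) (nat_lit 0x20000b001380080000000000000000000000000000000) (nat_lit 0x0) (nat_lit 0x50001c0010000400060000000000000000000000000000000) := T_11 (nat_lit 142) (nat_lit 160) (nat_lit 3) (nat_lit 3) (nat_lit 8) L33869 (by decide +kernel)
theorem L34192 : W_11 (nat_lit 6) (nat_lit 0x200003001380080000000000000000000000000000000) (nat_lit 0x0) (nat_lit 0x50001c001c000440060000000000000000000000000000000) := Q_11 (nat_lit 159) (C_11 L34191 (C_11 L34189 (C_11 L34188 N_11))) (by decide +kernel)
theorem L34193 : W_11 (nat_lit 10) (nat_lit 0x200001001380080000000000000000000000000000000) (nat_lit 0x0) (nat_lit 0x3c007e001fc01e00046006c000600030000000000000000000000) := Q_11 (nat_lit 157) (C_11 L34162 (C_11 L34171 (C_11 L34186 (C_11 L34190 (C_11 L34192 N_11))))) (by decide +kernel)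
theorem L34194 : W_11 (nat_lit 2) (nat_lit 0x2800078013a0080000000000000000000000000000000) (nat_lit 0x0) (nat_lit 0x20001000000000000000008000000000000000000000000000000) := D_11 (nat_lit 192) (nat_lit 123) (nat_lit 209) (nat_lit 4) (nat_lit 5) (nat_lit 11) (nat_lit 4) (nat_lit 5) (nat_lit 12) (by decide +kernel)
theorem L34195 : W_11 (nat_lit 3) (nat_lit 0x2000078013a0080000000000000000000000000000000) (nat_lit 0x0) (nat_lit 0x20001000180000000000008000000000000000000000000000000) := T_11 (nat_lit 175) (nat_lit 176) (nat_lit 3) (nat_lit 2) (nat_lit 9) L34194 (by decide +kernel)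
theorem L34196 : W_11 (nat_lit 4) (nat_lit 0x200007801380080000000000000000000000000000000) (nat_lit 0x0) (nat_lit 0x20001000180000000060008000000000000000000000000000000) := T_11 (nat_lit 137) (nat_lit 138) (nat_lit 3) (nat_lit 1) (nat_lit 8) L34195 (by decide +kernel)
theorem L34197 : W_11 (nat_lit 5) (nat_lit 0x200007001380080000000000000000000000000000000) (nat_lit 0x0) (nat_lit 0x20001000180000c00060008000000000000000000000000000000) := T_11 (nat_lit 155) (nat_lit 154) (nat_lit 2) (nat_lit 1) (nat_lit 9) L34196 (by decide +kernel)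
theorem L34199 : W_11 (nat_lit 6) (nat_lit 0x200003001380080000000000000000000000000000000) (nat_lit 0x0) (nat_lit 0x2000100018001cc00060008000000000000000000000000000000) := Q_11 (nat_lit 158) (C_11 L34197 (C_11 L34172 (C_11 L34198 N_11))) (by decide +kernel)
theorem L34207 : W_11 (nat_lit 9) (nat_lit 0x200003001380080000000000000000000000000000000) (nat_lit 0x0) (nat_lit 0x240012001b801cc00060004000200000000000000000000000000) := Q_11 (nat_lit 158) (C_11 L34206 (C_11 L34198 (C_11 L34172 N_11))) (by decide +kernel)
theorem L34208 : W_11 (nat_lit 10) (nat_lit 0x200001001380080000000000000000000000000000000) (nat_lit 0x0) (nat_lit 0x3c003e001fc01ec0006000c000600030000000000000000000000) := Q_11 (nat_lit 157) (C_11 L34186 (C_11 L34171 (C_11 L34199 (C_11 L34207 N_11)))) (by decide +kernel)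
theorem L34209 : W_11 (nat_lit 9) (nat_lit 0x200001001380080000000000000000000000000000000) (nat_lit 0x0) (nat_lit 0x5e001e001a800400068000000000000000000000000000000) := T_11 (nat_lit 142) (nat_lit 155) (nat_lit 1) (nat_lit 6) (nat_lit 8) L33859 (by decide +kernel)
theorem L34210 : W_11 (nat_lit 11) (nat_lit 0x200000001380080000000000000000000000000000000) (nat_lit 0x0) (nat_lit 0x3c007e001fc01fe0046006c000600030000000000000000000000) := Q_11 (nat_lit 156) (C_11 L34150 (C_11 L34193 (C_11 L34208 (C_11 L34209 N_11)))) (by decide +kernel)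
theorem L34211 : W_11 (nat_lit 9) (nat_lit 0x200000001780080000000000000000000000000000000) (nat_lit 0x0) (nat_lit 0x5c001e001b800000066000000000000000000000000000000) := T_11 (nat_lit 156) (nat_lit 155) (nat_lit 1) (nat_lit 6) (nat_lit 8) L33866 (by decide +kernel)
theorem L34212 : W_11 (nat_lit 14) (nat_lit 0x200000001380080000000000000000000000000000000) (nat_lit 0x0) (nat_lit 0x2a007f001f801fc00440067000000000000000000000000000000) := Q_11 (nat_lit 142) (C_11 L33793 (C_11 L33800 (C_11 L33955 (C_11 L33804 (C_11 L34211 N_11))))) (by decide +kernel)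
theorem L34213 : W_11 (nat_lit 4) (nat_lit 0x200000001780088000000000000000000000000000000) (nat_lit 0x0) (nat_lit 0x400020001800000004000400020000000000000000000000) := T_11 (nat_lit 156) (nat_lit 155) (nat_lit 1) (nat_lit 6) (nat_lit 8) L33842 (by decide +kernel)
theorem L34214 : W_11 (nat_lit 2) (nat_lit 0x2c0002001780088000c00000000000000000000000000) (nat_lit 0x0) (nat_lit 0x400020001000000000000000000000000000000000000000) := D_11 (nat_lit 173) (nat_lit 190) (nat_lit 156) (nat_lit 5) (nat_lit 4) (nat_lit 7) (nat_lit 5) (nat_lit 4) (nat_lit 6) (by decide +kernel)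
theorem L34215 : W_11 (nat_lit 3) (nat_lit 0x280002001780088000c00000000000000000000000000) (nat_lit 0x0) (nat_lit 0x1400060001000000000000000000000000000000000000000) := T_11 (nat_lit 174) (nat_lit 192) (nat_lit 7) (nat_lit 4) (nat_lit 7) L34214 (by decide +kernel)
theorem L34216 : W_11 (nat_lit 4) (nat_lit 0x280002001780088000400000000000000000000000000) (nat_lit 0x0) (nat_lit 0x1400060001000000000000800040000000000000000000000) := T_11 (nat_lit 107) (nat_lit 90) (nat_lit 6) (nat_lit 4) (nat_lit 9) L34215 (by decide +kernel)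
theorem L34217 : W_11 (nat_lit 5) (nat_lit 0x200002001780088000400000000000000000000000000) (nat_lit 0x0) (nat_lit 0x14000e0005000000000000800040000000000000000000000) := T_11 (nat_lit 175) (nat_lit 158) (nat_lit 7) (nat_lit 4) (nat_lit 6) L34216 (by decide +kernel)
theorem L34218 : W_11 (nat_lit 2) (nat_lit 0x20000700178008c001f40000000000000000000000000) (nat_lit 0x0) (nat_lit 0x60000000080000000000000000000000) := D_11 (nat_lit 125) (nat_lit 126) (nat_lit 91) (nat_lit 3) (nat_lit 3) (nat_lit 6) (nat_lit 5) (nat_lit 6) (nat_lit 5) (by decide +kernel)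
theorem L34219 : W_11 (nat_lit 3) (nat_lit 0x20000700178008c000f40000000000000000000000000) (nat_lit 0x0) (nat_lit 0x60003000080000000000000000000000) := T_11 (nat_lit 108) (nat_lit 109) (nat_lit 1) (nat_lit 7) (nat_lit 6) L34218 (by decide +kernel)
theorem L34220 : W_11 (nat_lit 4) (nat_lit 0x20000700178008c000f00000000000000000000000000) (nat_lit 0x0) (nat_lit 0x600030c0080000000000000000000000) := T_11 (nat_lit 102) (nat_lit 103) (nat_lit 3) (nat_lit 0) (nat_lit 6) L34219 (by decide +kernel)
theorem L34221 : W_11 (nat_lit 5) (nat_lit 0x20000700178008c000e00000000000000000000000000) (nat_lit 0x0) (nat_lit 0x600031c0088000000000000000000000) := T_11 (nat_lit 104) (nat_lit 87) (nat_lit 4) (nat_lit 3) (nat_lit 9) L34220 (by decide +kernel)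
theorem L34222 : W_11 (nat_lit 6) (nat_lit 0x20000700178008c000c00000000000000000000000000) (nat_lit 0x0) (nat_lit 0x600033c0098000000000000000000000) := T_11 (nat_lit 105) (nat_lit 88) (nat_lit 7) (nat_lit 3) (nat_lit 5) L34221 (by decide +kernel)
theorem L34223 : W_11 (nat_lit 7) (nat_lit 0x200007001780088000c00000000000000000000000000) (nat_lit 0x0) (nat_lit 0x660033c0098000000000000000000000) := T_11 (nat_lit 122) (nat_lit 121) (nat_lit 0) (nat_lit 6) (nat_lit 8) L34222 (by decide +kernel)
theorem L34224 : W_11 (nat_lit 8) (nat_lit 0x200007001780088000400000000000000000000000000) (nat_lit 0x0) (nat_lit 0x66003bc00d8000000000000000000000) := T_11 (nat_lit 107) (nat_lit 90) (nat_lit 6) (nat_lit 4) (nat_lit 9) L34223 (by decide +kernel)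
theorem L34225 : W_11 (nat_lit 9) (nat_lit 0x200003001780088000400000000000000000000000000) (nat_lit 0x0) (nat_lit 0x80004000000066003bc00d8000000000000000000000) := T_11 (nat_lit 158) (nat_lit 175) (nat_lit 7) (nat_lit 4) (nat_lit 6) L34224 (by decide +kernel)
theorem L34226 : W_11 (nat_lit 10) (nat_lit 0x200002001780088000400000000000000000000000000) (nat_lit 0x0) (nat_lit 0xa0005000000066003bc00d8000000000000000000000) := T_11 (nat_lit 156) (nat_lit 173) (nat_lit 5) (nat_lit 4) (nat_lit 6) L34225 (by decide +kernel)
theorem L34227 : W_11 (nat_lit 11) (nat_lit 0x200000001780088000400000000000000000000000000) (nat_lit 0x0) (nat_lit 0x14000e0007000000066003bc00d8000000000000000000000) := Q_11 (nat_lit 157) (C_11 L34217 (C_11 L33849 (C_11 L34226 N_11))) (by decide +kernel)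
theorem L34228 : W_11 (nat_lit 12) (nat_lit 0x200000001780088000000000000000000000000000000) (nat_lit 0x0) (nat_lit 0x14000e0007000000066003fc00f8003800000000000000000) := Q_11 (nat_lit 106) (C_11 L33852 (C_11 L33851 (C_11 L33840 (C_11 L34227 N_11)))) (by decide +kernel)
theorem L34229 : W_11 (nat_lit 2) (nat_lit 0x2800030017800a8000e00000000000000000000000000) (nat_lit 0x0) (nat_lit 0x1000140000000000000000000000000000000000000000000) := D_11 (nat_lit 174) (nat_lit 192) (nat_lit 176) (nat_lit 7) (nat_lit 4) (nat_lit 7) (nat_lit 0) (nat_lit 7) (nat_lit 10) (by decide +kernel)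
theorem L34230 : W_11 (nat_lit 3) (nat_lit 0x2000030017800a8000e00000000000000000000000000) (nat_lit 0x0) (nat_lit 0x10001c0004000000000000000000000000000000000000000) := T_11 (nat_lit 175) (nat_lit 158) (nat_lit 7) (nat_lit 4) (nat_lit 6) L34229 (by decide +kernel)
theorem L34231 : W_11 (nat_lit 4) (nat_lit 0x2000020017800a8000e00000000000000000000000000) (nat_lit 0x0) (nat_lit 0x10001c0005800000000000000000000000000000000000000) := T_11 (nat_lit 156) (nat_lit 155) (nat_lit 1) (nat_lit 6) (nat_lit 8) L34230 (by decide +kernel)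
theorem L34232 : W_11 (nat_lit 5) (nat_lit 0x2000020017800a8000c00000000000000000000000000) (nat_lit 0x0) (nat_lit 0x10001c0005800000000000200010000000000000000000000) := T_11 (nat_lit 105) (nat_lit 88) (nat_lit 4) (nat_lit 4) (nat_lit 9) L34231 (by decide +kernel)
theorem L34233 : W_11 (nat_lit 6) (nat_lit 0x2000020017800a8000400000000000000000000000000) (nat_lit 0x0) (nat_lit 0x10001c0005800000000000a00050000000000000000000000) := T_11 (nat_lit 107) (nat_lit 90) (nat_lit 6) (nat_lit 4) (nat_lit 9) L34232 (by decide +kernel)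
theorem L34234 : W_11 (nat_lit 7) (nat_lit 0x200002001780088000400000000000000000000000000) (nat_lit 0x0) (nat_lit 0x10001c0005800000060000a00050000000000000000000000) := T_11 (nat_lit 125) (nat_lit 126) (nat_lit 2) (nat_lit 3) (nat_lit 8) L34233 (by decide +kernel)
theorem L34235 : W_11 (nat_lit 2) (nat_lit 0x2000068017800ac001400000000000000000000000000) (nat_lit 0x0) (nat_lit 0x2800040000000000000000000000) := D_11 (nat_lit 107) (nat_lit 90) (nat_lit 109) (nat_lit 6) (nat_lit 4) (nat_lit 9) (nat_lit 1) (nat_lit 7) (nat_lit 6) (by decide +kernel)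
theorem L34236 : W_11 (nat_lit 3) (nat_lit 0x2000068017800ac000400000000000000000000000000) (nat_lit 0x0) (nat_lit 0x38000c0000000000000000000000) := T_11 (nat_lit 108) (nat_lit 91) (nat_lit 5) (nat_lit 6) (nat_lit 5) L34235 (by decide +kernel)
theorem L34237 : W_11 (nat_lit 4) (nat_lit 0x20000680178008c000400000000000000000000000000) (nat_lit 0x0) (nat_lit 0x600038000c0000000000000000000000) := T_11 (nat_lit 125) (nat_lit 126) (nat_lit 2) (nat_lit 3) (nat_lit 8) L34236 (by decide +kernel)
theorem L34238 : W_11 (nat_lit 5) (nat_lit 0x20000600178008c000400000000000000000000000000) (nat_lit 0x0) (nat_lit 0x18000000600038000c0000000000000000000000) := T_11 (nat_lit 155) (nat_lit 156) (nat_lit 2) (nat_lit 2) (nat_lit 9) L34237 (by decide +kernel)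
theorem L34239 : W_11 (nat_lit 6) (nat_lit 0x20000200178008c000400000000000000000000000000) (nat_lit 0x0) (nat_lit 0x800058000000600038000c0000000000000000000000) := T_11 (nat_lit 158) (nat_lit 175) (nat_lit 7) (nat_lit 4) (nat_lit 6) L34238 (by decide +kernel)
theorem L34240 : W_11 (nat_lit 7) (nat_lit 0x200002001780088000400000000000000000000000000) (nat_lit 0x0) (nat_lit 0x800058000000660038000c0000000000000000000000) := T_11 (nat_lit 122) (nat_lit 121) (nat_lit 0) (nat_lit 6) (nat_lit 8) L34239 (by decide +kernel)
theorem L34241 : W_11 (nat_lit 8) (nat_lit 0x200000001780088000400000000000000000000000000) (nat_lit 0x0) (nat_lit 0x10001c0007800000066003a000d0000000000000000000000) := Q_11 (nat_lit 157) (C_11 L34234 (C_11 L33849 (C_11 L34240 N_11))) (by decide +kernel)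
theorem L34242 : W_11 (nat_lit 9) (nat_lit 0x200000001780088000000000000000000000000000000) (nat_lit 0x0) (nat_lit 0x10001c0007800000066003e000f0003800000000000000000) := Q_11 (nat_lit 106) (C_11 L33852 (C_11 L33851 (C_11 L33840 (C_11 L34241 N_11)))) (by decide +kernel)
theorem L34243 : W_11 (nat_lit 2) (nat_lit 0x2600010017800ac000200010000000000000000000000) (nat_lit 0x0) (nat_lit 0x100008000400000000000000000) := D_11 (nat_lit 87) (nat_lit 104) (nat_lit 70) (nat_lit 4) (nat_lit 3) (nat_lit 9) (nat_lit 4) (nat_lit 3) (nat_lit 8) (by decide +kernel)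
theorem L34244 : W_11 (nat_lit 3) (nat_lit 0x2600010017800ac000200000000000000000000000000) (nat_lit 0x0) (nat_lit 0x100018000c00000000000000000) := T_11 (nat_lit 88) (nat_lit 71) (nat_lit 7) (nat_lit 3) (nat_lit 4) L34243 (by decide +kernel)
theorem L34245 : W_11 (nat_lit 4) (nat_lit 0x2600010017800ac000000000000000000000000000000) (nat_lit 0x0) (nat_lit 0x2000000000000300018000c00000000000000000) := T_11 (nat_lit 105) (nat_lit 157) (nat_lit 7) (nat_lit 3) (nat_lit 6) L34244 (by decide +kernel)
theorem L34246 : W_11 (nat_lit 5) (nat_lit 0x2200010017800ac000000000000000000000000000000) (nat_lit 0x0) (nat_lit 0x800040002000000000000300018000c00000000000000000) := T_11 (nat_lit 174) (nat_lit 191) (nat_lit 7) (nat_lit 3) (nat_lit 7) L34245 (by decide +kernel)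
theorem L34247 : W_11 (nat_lit 6) (nat_lit 0x22000100178008c000000000000000000000000000000) (nat_lit 0x0) (nat_lit 0x800040002000000060000300018000c00000000000000000) := T_11 (nat_lit 125) (nat_lit 126) (nat_lit 2) (nat_lit 3) (nat_lit 8) L34246 (by decide +kernel)
theorem L34248 : W_11 (nat_lit 7) (nat_lit 0x20000100178008c000000000000000000000000000000) (nat_lit 0x0) (nat_lit 0xc00060002000000060000300018000c00000000000000000) := T_11 (nat_lit 173) (nat_lit 190) (nat_lit 6) (nat_lit 3) (nat_lit 11) L34247 (by decide +kernel)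
theorem L34249 : W_11 (nat_lit 8) (nat_lit 0x200001001780088000000000000000000000000000000) (nat_lit 0x0) (nat_lit 0xc00060002000000066000300018000c00000000000000000) := T_11 (nat_lit 122) (nat_lit 121) (nat_lit 0) (nat_lit 6) (nat_lit 8) L34248 (by decide +kernel)
theorem L34250 : W_11 (nat_lit 9) (nat_lit 0x200000001780088000000000000000000000000000000) (nat_lit 0x0) (nat_lit 0xc00060003800000066000300018000c00000000000000000) := T_11 (nat_lit 156) (nat_lit 155) (nat_lit 1) (nat_lit 6) (nat_lit 8) L34249 (by decide +kernel)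
theorem L34251 : W_11 (nat_lit 4) (nat_lit 0x200000001780088000400000000000000000000000000) (nat_lit 0x0) (nat_lit 0x4000000004000000030001800040000000000000) := T_11 (nat_lit 89) (nat_lit 158) (nat_lit 7) (nat_lit 4) (nat_lit 5) L33835 (by decide +kernel)
theorem L34252 : W_11 (nat_lit 5) (nat_lit 0x2000000017800a8000400000000000000000000000000) (nat_lit 0x0) (nat_lit 0x6000000000000a00070002800000000000000000) := T_11 (nat_lit 89) (nat_lit 158) (nat_lit 7) (nat_lit 4) (nat_lit 5) L33838 (by decide +kernel)
theorem L34253 : W_11 (nat_lit 6) (nat_lit 0x200000001780088000400000000000000000000000000) (nat_lit 0x0) (nat_lit 0x6000000060000a00070002800000000000000000) := T_11 (nat_lit 125) (nat_lit 126) (nat_lit 2) (nat_lit 3) (nat_lit 8) L34252 (by decide +kernel)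
theorem L34254 : W_11 (nat_lit 2) (nat_lit 0x4002c00020017800a8000400000000000000000000000000) (nat_lit 0x0) (nat_lit 0x8000800100000000000000000000000000000000000000000000) := D_11 (nat_lit 191) (nat_lit 176) (nat_lit 207) (nat_lit 1) (nat_lit 7) (nat_lit 10) (nat_lit 5) (nat_lit 4) (nat_lit 8) (by decide +kernel)
theorem L34255 : W_11 (nat_lit 3) (nat_lit 0x2c00020017800a8000400000000000000000000000000) (nat_lit 0x0) (nat_lit 0x8000c00120000000000000000000000000000000000000000000) := T_11 (nat_lit 190) (nat_lit 173) (nat_lit 5) (nat_lit 4) (nat_lit 7) L34254 (by decide +kernel)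
theorem L34256 : W_11 (nat_lit 4) (nat_lit 0x2800020017800a8000400000000000000000000000000) (nat_lit 0x0) (nat_lit 0x8001c00160000000000000000000000000000000000000000000) := T_11 (nat_lit 174) (nat_lit 192) (nat_lit 7) (nat_lit 4) (nat_lit 7) L34255 (by decide +kernel)
theorem L34257 : W_11 (nat_lit 5) (nat_lit 0x280002001780088000400000000000000000000000000) (nat_lit 0x0) (nat_lit 0x8001c00160000000000060000000000000000000000000000000) := T_11 (nat_lit 125) (nat_lit 126) (nat_lit 2) (nat_lit 3) (nat_lit 8) L34256 (by decide +kernel)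
theorem L34258 : W_11 (nat_lit 6) (nat_lit 0x200002001780088000400000000000000000000000000) (nat_lit 0x0) (nat_lit 0x8001c001e0004000000060000000000000000000000000000000) := T_11 (nat_lit 175) (nat_lit 158) (nat_lit 7) (nat_lit 4) (nat_lit 6) L34257 (by decide +kernel)
theorem L34259 : W_11 (nat_lit 2) (nat_lit 0x2000060017800ac001600000000000000000000000000) (nat_lit 0x0) (nat_lit 0x2800040000000000000000000000) := D_11 (nat_lit 107) (nat_lit 90) (nat_lit 109) (nat_lit 6) (nat_lit 4) (nat_lit 9) (nat_lit 1) (nat_lit 7) (nat_lit 6) (by decide +kernel)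
theorem L34260 : W_11 (nat_lit 3) (nat_lit 0x2000060017800ac000600000000000000000000000000) (nat_lit 0x0) (nat_lit 0x38000c0000000000000000000000) := T_11 (nat_lit 108) (nat_lit 91) (nat_lit 5) (nat_lit 6) (nat_lit 5) L34259 (by decide +kernel)
theorem L34261 : W_11 (nat_lit 4) (nat_lit 0x2000020017800ac000600000000000000000000000000) (nat_lit 0x0) (nat_lit 0x800040000000000038000c0000000000000000000000) := T_11 (nat_lit 158) (nat_lit 175) (nat_lit 7) (nat_lit 4) (nat_lit 6) L34260 (by decide +kernel)
theorem L34262 : W_11 (nat_lit 5) (nat_lit 0x20000200178008c000600000000000000000000000000) (nat_lit 0x0) (nat_lit 0x800040000000600038000c0000000000000000000000) := T_11 (nat_lit 125) (nat_lit 126) (nat_lit 2) (nat_lit 3) (nat_lit 8) L34261 (by decide +kernel)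
theorem L34263 : W_11 (nat_lit 6) (nat_lit 0x200002001780088000600000000000000000000000000) (nat_lit 0x0) (nat_lit 0x800040000000660038000c0000000000000000000000) := T_11 (nat_lit 122) (nat_lit 121) (nat_lit 0) (nat_lit 6) (nat_lit 8) L34262 (by decide +kernel)
theorem L34264 : W_11 (nat_lit 7) (nat_lit 0x200002001780088000400000000000000000000000000) (nat_lit 0x0) (nat_lit 0x80004000000066003a000d0000000000000000000000) := T_11 (nat_lit 105) (nat_lit 88) (nat_lit 4) (nat_lit 4) (nat_lit 9) L34263 (by decide +kernel)
theorem L34265 : W_11 (nat_lit 8) (nat_lit 0x200000001780088000400000000000000000000000000) (nat_lit 0x0) (nat_lit 0x8001c001e0006000000066003a000d0000000000000000000000) := Q_11 (nat_lit 157) (C_11 L34258 (C_11 L33849 (C_11 L34264 N_11))) (by decide +kernel)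
theorem L34266 : W_11 (nat_lit 2) (nat_lit 0x20000000178008c000400000000000000000000000000) (nat_lit 0x0) (nat_lit 0x4000000000000000020001000000000000000000) := D_11 (nat_lit 89) (nat_lit 158) (nat_lit 72) (nat_lit 7) (nat_lit 4) (nat_lit 5) (nat_lit 5) (nat_lit 4) (nat_lit 4) (by decide +kernel)
theorem L34267 : W_11 (nat_lit 3) (nat_lit 0x200000001780088000400000000000000000000000000) (nat_lit 0x0) (nat_lit 0x4000000006000000020001000000000000000000) := T_11 (nat_lit 122) (nat_lit 121) (nat_lit 0) (nat_lit 6) (nat_lit 8) L34266 (by decide +kernel)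
theorem L34268 : W_11 (nat_lit 9) (nat_lit 0x200000001780088000000000000000000000000000000) (nat_lit 0x0) (nat_lit 0x8001c001e0006000000066003e000f0003800040000000000000) := Q_11 (nat_lit 106) (C_11 L33852 (C_11 L34251 (C_11 L34253 (C_11 L34265 (C_11 L34267 N_11))))) (by decide +kernel)
theorem L34269 : W_11 (nat_lit 2) (nat_lit 0x2200010017800a8000000000000000000000000000000) (nat_lit 0x0) (nat_lit 0x2000000000000400020000000000000000000000) := D_11 (nat_lit 106) (nat_lit 89) (nat_lit 157) (nat_lit 5) (nat_lit 4) (nat_lit 5) (nat_lit 5) (nat_lit 4) (nat_lit 6) (by decide +kernel)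
theorem L34270 : W_11 (nat_lit 3) (nat_lit 0x2000010017800a8000000000000000000000000000000) (nat_lit 0x0) (nat_lit 0x400020002000000000000400020000000000000000000000) := T_11 (nat_lit 173) (nat_lit 190) (nat_lit 6) (nat_lit 3) (nat_lit 11) L34269 (by decide +kernel)
theorem L34271 : W_11 (nat_lit 4) (nat_lit 0x200001001780088000000000000000000000000000000) (nat_lit 0x0) (nat_lit 0x400020002000000060000400020000000000000000000000) := T_11 (nat_lit 125) (nat_lit 126) (nat_lit 2) (nat_lit 3) (nat_lit 8) L34270 (by decide +kernel)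
theorem L34272 : W_11 (nat_lit 5) (nat_lit 0x200000001780088000000000000000000000000000000) (nat_lit 0x0) (nat_lit 0x400020003800000060000400020000000000000000000000) := T_11 (nat_lit 156) (nat_lit 155) (nat_lit 1) (nat_lit 6) (nat_lit 8) L34271 (by decide +kernel)
theorem L34273 : W_11 (nat_lit 13) (nat_lit 0x200000001780080000000000000000000000000000000) (nat_lit 0x0) (nat_lit 0x8001c001e000780000006e003fc00f8003c00040000000000000) := Q_11 (nat_lit 123) (C_11 L34213 (C_11 L34228 (C_11 L34242 (C_11 L34250 (C_11 L34268 (C_11 L34272 N_11)))))) (by decide +kernel)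
theorem L34274 : W_11 (nat_lit 14) (nat_lit 0x200000001780080000000000000000000000000000000) (nat_lit 0x0) (nat_lit 0x58001c001f000000066001a001f000e000400000000000000) := T_11 (nat_lit 159) (nat_lit 160) (nat_lit 3) (nat_lit 3) (nat_lit 8) L34146 (by decide +kernel)
theorem L34275 : W_11 (nat_lit 4) (nat_lit 0x200002001780080000000000000000000000000000000) (nat_lit 0x0) (nat_lit 0x800040001800000006000200000000000000000000000000) := T_11 (nat_lit 156) (nat_lit 155) (nat_lit 1) (nat_lit 6) (nat_lit 8) L33871 (by decide +kernel)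
theorem L34279 : W_11 (nat_lit 5) (nat_lit 0x20000a001780084000000010000000000000000000000) (nat_lit 0x0) (nat_lit 0x400130005800000008000400000000000000000000000000) := T_11 (nat_lit 156) (nat_lit 155) (nat_lit 1) (nat_lit 6) (nat_lit 8) L34278 (by decide +kernel)
theorem L34280 : W_11 (nat_lit 6) (nat_lit 0x20000a001780084000000000000000000000000000000) (nat_lit 0x0) (nat_lit 0x400130005800000008000600010000000000000000000000) := T_11 (nat_lit 88) (nat_lit 105) (nat_lit 7) (nat_lit 3) (nat_lit 5) L34279 (by decide +kernel)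
theorem L34281 : W_11 (nat_lit 7) (nat_lit 0x200002001780084000000000000000000000000000000) (nat_lit 0x0) (nat_lit 0x40013001d800000008000600010000000000000000000000) := T_11 (nat_lit 159) (nat_lit 160) (nat_lit 3) (nat_lit 3) (nat_lit 8) L34280 (by decide +kernel)
theorem L34282 : W_11 (nat_lit 8) (nat_lit 0x200002001780080000000000000000000000000000000) (nat_lit 0x0) (nat_lit 0x40013001d80000000e000600010000000000000000000000) := T_11 (nat_lit 122) (nat_lit 121) (nat_lit 0) (nat_lit 6) (nat_lit 8) L34281 (by decide +kernel)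
theorem L34284 : W_11 (nat_lit 5) (nat_lit 0x20000a001780080000000000000000000000000000000) (nat_lit 0x0) (nat_lit 0x400130005800000008000400000000000000000000000000) := T_11 (nat_lit 156) (nat_lit 155) (nat_lit 1) (nat_lit 6) (nat_lit 8) L34283 (by decide +kernel)
theorem L34285 : W_11 (nat_lit 6) (nat_lit 0x200002001780080000000000000000000000000000000) (nat_lit 0x0) (nat_lit 0x40013001d800000008000400000000000000000000000000) := T_11 (nat_lit 159) (nat_lit 160) (nat_lit 3) (nat_lit 3) (nat_lit 8) L34284 (by decide +kernel)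
theorem L34286 : W_11 (nat_lit 9) (nat_lit 0x200000001780080000000000000000000000000000000) (nat_lit 0x0) (nat_lit 0xc0017001f80000000e000600010000000000000000000000) := Q_11 (nat_lit 157) (C_11 L34275 (C_11 L34282 (C_11 L33875 (C_11 L34285 N_11)))) (by decide +kernel)
theorem L34296 : W_11 (nat_lit 11) (nat_lit 0x200000001780084000000000000000000000000000000) (nat_lit 0x0) (nat_lit 0x500018001e000000068003e00178000000000000000000000) := T_11 (nat_lit 125) (nat_lit 126) (nat_lit 2) (nat_lit 3) (nat_lit 8) L34295 (by decide +kernel)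
theorem L34297 : W_11 (nat_lit 12) (nat_lit 0x200000001780080000000000000000000000000000000) (nat_lit 0x0) (nat_lit 0x500018001e00000006e003e00178000000000000000000000) := T_11 (nat_lit 122) (nat_lit 121) (nat_lit 0) (nat_lit 6) (nat_lit 8) L34296 (by decide +kernel)
theorem L34298 : W_11 (nat_lit 15) (nat_lit 0x200000001380080000000000000000000000000000000) (nat_lit 0x0) (nat_lit 0xc005e001f801f80040006e003fc01f800fc00440000000000000) := Q_11 (nat_lit 142) (C_11 L34273 (C_11 L34274 (C_11 L34211 (C_11 L34286 (C_11 L34040 (C_11 L33962 (C_11 L33815 (C_11 L33943 (C_11 L34297 N_11))))))))) (by decide +kernel)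
theorem L34299 : W_11 (nat_lit 2) (nat_lit 0x2000008017c0082000000000000000000000000000000) (nat_lit 0x0) (nat_lit 0x1c000000000000000000000000000000000000000) := D_11 (nat_lit 159) (nat_lit 158) (nat_lit 160) (nat_lit 3) (nat_lit 2) (nat_lit 8) (nat_lit 3) (nat_lit 3) (nat_lit 8) (by decide +kernel)
theorem L34300 : W_11 (nat_lit 3) (nat_lit 0x2000008013c0082000000000000000000000000000000) (nat_lit 0x0) (nat_lit 0x1c000400004000000000000000000000000000000) := T_11 (nat_lit 142) (nat_lit 122) (nat_lit 0) (nat_lit 6) (nat_lit 8) L34299 (by decide +kernel)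
theorem L34301 : W_11 (nat_lit 4) (nat_lit 0x2000000013c0082000000000000000000000000000000) (nat_lit 0x0) (nat_lit 0x1cc00400004000000000000000000000000000000) := T_11 (nat_lit 155) (nat_lit 154) (nat_lit 1) (nat_lit 5) (nat_lit 8) L34300 (by decide +kernel)
theorem L34302 : W_11 (nat_lit 5) (nat_lit 0x2000000013c0080000000000000000000000000000000) (nat_lit 0x0) (nat_lit 0x1cc00400007000000000000000000000000000000) := T_11 (nat_lit 121) (nat_lit 120) (nat_lit 0) (nat_lit 5) (nat_lit 8) L34301 (by decide +kernel)
theorem L34303 : W_11 (nat_lit 6) (nat_lit 0x200000001380080000000000000000000000000000000) (nat_lit 0x0) (nat_lit 0x1ee00460007800000000000000000000000000000) := Q_11 (nat_lit 138) (C_11 L33739 (C_11 L33742 (C_11 L33745 (C_11 L34302 N_11)))) (by decide +kernel)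
theorem L34304 : W_11 (nat_lit 2) (nat_lit 0x2000058013c0082000000000000000000000000000000) (nat_lit 0x0) (nat_lit 0x20000000000000000100008000000000000000000000) := D_11 (nat_lit 104) (nat_lit 173) (nat_lit 87) (nat_lit 7) (nat_lit 2) (nat_lit 6) (nat_lit 7) (nat_lit 2) (nat_lit 5) (by decide +kernel)
theorem L34305 : W_11 (nat_lit 3) (nat_lit 0x2000048013c0082000000000000000000000000000000) (nat_lit 0x0) (nat_lit 0x20001000400000000100008000000000000000000000) := T_11 (nat_lit 156) (nat_lit 142) (nat_lit 1) (nat_lit 6) (nat_lit 8) L34304 (by decide +kernel)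
theorem L34306 : W_11 (nat_lit 4) (nat_lit 0x2000008013c0082000000000000000000000000000000) (nat_lit 0x0) (nat_lit 0x2000d000400000000100008000000000000000000000) := T_11 (nat_lit 158) (nat_lit 159) (nat_lit 3) (nat_lit 2) (nat_lit 8) L34305 (by decide +kernel)
theorem L34307 : W_11 (nat_lit 5) (nat_lit 0x2000000013c0082000000000000000000000000000000) (nat_lit 0x0) (nat_lit 0x2000dc00400000000100008000000000000000000000) := T_11 (nat_lit 155) (nat_lit 154) (nat_lit 1) (nat_lit 5) (nat_lit 8) L34306 (by decide +kernel)
theorem L34308 : W_11 (nat_lit 6) (nat_lit 0x2000000013c0080000000000000000000000000000000) (nat_lit 0x0) (nat_lit 0x2000dc00400003000100008000000000000000000000) := T_11 (nat_lit 121) (nat_lit 120) (nat_lit 0) (nat_lit 5) (nat_lit 8) L34307 (by decide +kernel)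
theorem L34309 : W_11 (nat_lit 7) (nat_lit 0x200000001380080000000000000000000000000000000) (nat_lit 0x0) (nat_lit 0x2000fe00460003800100008000000000000000000000) := Q_11 (nat_lit 138) (C_11 L33739 (C_11 L33742 (C_11 L33745 (C_11 L34308 N_11)))) (by decide +kernel)
theorem L34310 : W_11 (nat_lit 16) (nat_lit 0x200000001300080000000000000000000000000000000) (nat_lit 0x0) (nat_lit 0x3e007f001fc03fe004f006f803fc01fc00fc00440000000000000) := Q_11 (nat_lit 139) (C_11 L33789 (C_11 L33816 (C_11 L33956 (C_11 L33963 (C_11 L34041 (C_11 L34103 (C_11 L34148 (C_11 L34210 (C_11 L34212 (C_11 L34298 (C_11 L34303 (C_11 L34309 N_11)))))))))))) (by decide +kernel)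
theorem L34315 : W_11 (nat_lit 2) (nat_lit 0x20000c0017800a0000000000000000000000000000000) (nat_lit 0x0) (nat_lit 0x80000000000000001000080000000000000000000000) := D_11 (nat_lit 108) (nat_lit 91) (nat_lit 175) (nat_lit 5) (nat_lit 6) (nat_lit 5) (nat_lit 5) (nat_lit 6) (nat_lit 6) (by decide +kernel)
theorem L34316 : W_11 (nat_lit 3) (nat_lit 0x20000c001780080000000000000000000000000000000) (nat_lit 0x0) (nat_lit 0x80000000000060001000080000000000000000000000) := T_11 (nat_lit 125) (nat_lit 126) (nat_lit 2) (nat_lit 3) (nat_lit 8) L34315 (by decide +kernel)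
theorem L34317 : W_11 (nat_lit 4) (nat_lit 0x200008001780080000000000000000000000000000000) (nat_lit 0x0) (nat_lit 0x80004000040060001000080000000000000000000000) := T_11 (nat_lit 158) (nat_lit 138) (nat_lit 3) (nat_lit 2) (nat_lit 8) L34316 (by decide +kernel)
theorem L34318 : W_11 (nat_lit 14) (nat_lit 0x200000001780080000000000000000000000000000000) (nat_lit 0x0) (nat_lit 0x5e001e000f00004006f001a001f000e000400000000000000) := Q_11 (nat_lit 159) (C_11 L33799 (C_11 L34146 (C_11 L34127 (C_11 L34317 N_11)))) (by decide +kernel)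
theorem L34319 : W_11 (nat_lit 2) (nat_lit 0x2002000068017c0084000200000000000000000000000000) (nat_lit 0x0) (nat_lit 0x800040000000000008000000000000000000000000000000) := D_11 (nat_lit 174) (nat_lit 191) (nat_lit 123) (nat_lit 4) (nat_lit 4) (nat_lit 11) (nat_lit 4) (nat_lit 4) (nat_lit 10) (by decide +kernel)
theorem L34320 : W_11 (nat_lit 3) (nat_lit 0x2002000068017c0084000000000000000000000000000000) (nat_lit 0x0) (nat_lit 0x800040000000000008000200010000000000000000000000) := T_11 (nat_lit 105) (nat_lit 88) (nat_lit 7) (nat_lit 3) (nat_lit 5) L34319 (by decide +kernel)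
theorem L34321 : W_11 (nat_lit 4) (nat_lit 0x2000068017c0084000000000000000000000000000000) (nat_lit 0x0) (nat_lit 0xa00050000000000008000200010000000000000000000000) := T_11 (nat_lit 189) (nat_lit 172) (nat_lit 6) (nat_lit 2) (nat_lit 11) L34320 (by decide +kernel)
theorem L34322 : W_11 (nat_lit 5) (nat_lit 0x2000048017c0084000000000000000000000000000000) (nat_lit 0x0) (nat_lit 0xa00050002000020008000200010000000000000000000000) := T_11 (nat_lit 157) (nat_lit 137) (nat_lit 3) (nat_lit 1) (nat_lit 8) L34321 (by decide +kernel)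
theorem L34323 : W_11 (nat_lit 6) (nat_lit 0x2000008017c0084000000000000000000000000000000) (nat_lit 0x0) (nat_lit 0xa0005000e000020008000200010000000000000000000000) := T_11 (nat_lit 158) (nat_lit 159) (nat_lit 3) (nat_lit 2) (nat_lit 8) L34322 (by decide +kernel)
theorem L34324 : W_11 (nat_lit 7) (nat_lit 0x200000801780084000000000000000000000000000000) (nat_lit 0x0) (nat_lit 0xa0005000e400060008000200010000000000000000000000) := T_11 (nat_lit 138) (nat_lit 154) (nat_lit 1) (nat_lit 5) (nat_lit 8) L34323 (by decide +kernel)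
theorem L34325 : W_11 (nat_lit 8) (nat_lit 0x200000801780080000000000000000000000000000000) (nat_lit 0x0) (nat_lit 0xa0005000e40006000e000200010000000000000000000000) := T_11 (nat_lit 122) (nat_lit 121) (nat_lit 0) (nat_lit 6) (nat_lit 8) L34324 (by decide +kernel)
theorem L34326 : W_11 (nat_lit 9) (nat_lit 0x200000001780080000000000000000000000000000000) (nat_lit 0x0) (nat_lit 0xa0005000fc0006000e000200010000000000000000000000) := T_11 (nat_lit 155) (nat_lit 156) (nat_lit 1) (nat_lit 6) (nat_lit 8) L34325 (by decide +kernel)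
theorem L34329 : W_11 (nat_lit 9) (nat_lit 0x200000001780080000000000000000000000000000000) (nat_lit 0x0) (nat_lit 0x5e001e000fc00040068001000080000000000000000000000) := Q_11 (nat_lit 159) (C_11 L34328 (C_11 L33942 (C_11 L34317 N_11))) (by decide +kernel)
theorem L34330 : W_11 (nat_lit 7) (nat_lit 0x3000088017c00a2000000000000000000000000000000) (nat_lit 0x0) (nat_lit 0x2a003f000b8000000000000000000000000000000000000000000) := T_11 (nat_lit 192) (nat_lit 175) (nat_lit 5) (nat_lit 6) (nat_lit 7) L33948 (by decide +kernel)
theorem L34331 : W_11 (nat_lit 8) (nat_lit 0x2000088017c00a2000000000000000000000000000000) (nat_lit 0x0) (nat_lit 0x2a007f001b8000000000000000000000000000000000000000000) := T_11 (nat_lit 176) (nat_lit 194) (nat_lit 7) (nat_lit 6) (nat_lit 7) L34330 (by decide +kernel)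
theorem L34332 : W_11 (nat_lit 9) (nat_lit 0x2000008017c00a2000000000000000000000000000000) (nat_lit 0x0) (nat_lit 0x2a007f001b800c000000000000000000000000000000000000000) := T_11 (nat_lit 159) (nat_lit 158) (nat_lit 3) (nat_lit 2) (nat_lit 8) L34331 (by decide +kernel)
theorem L34333 : W_11 (nat_lit 10) (nat_lit 0x2000000017c00a2000000000000000000000000000000) (nat_lit 0x0) (nat_lit 0x2a007f001b800cc00000000000000000000000000000000000000) := T_11 (nat_lit 155) (nat_lit 154) (nat_lit 1) (nat_lit 5) (nat_lit 8) L34332 (by decide +kernel)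
theorem L34334 : W_11 (nat_lit 11) (nat_lit 0x2000000017800a2000000000000000000000000000000) (nat_lit 0x0) (nat_lit 0x2a007f001b800cc00040001000000000000000000000000000000) := T_11 (nat_lit 138) (nat_lit 120) (nat_lit 0) (nat_lit 5) (nat_lit 8) L34333 (by decide +kernel)
theorem L34335 : W_11 (nat_lit 12) (nat_lit 0x200000001780082000000000000000000000000000000) (nat_lit 0x0) (nat_lit 0x2a007f001b800cc00040061000000000000000000000000000000) := T_11 (nat_lit 125) (nat_lit 126) (nat_lit 2) (nat_lit 3) (nat_lit 8) L34334 (by decide +kernel)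
theorem L34336 : W_11 (nat_lit 13) (nat_lit 0x200000001780080000000000000000000000000000000) (nat_lit 0x0) (nat_lit 0x2a007f001b800cc00040067000000000000000000000000000000) := T_11 (nat_lit 121) (nat_lit 122) (nat_lit 0) (nat_lit 6) (nat_lit 8) L34335 (by decide +kernel)
theorem L34337 : W_11 (nat_lit 15) (nat_lit 0x200000001700080000000000000000000000000000000) (nat_lit 0x0) (nat_lit 0x2a007f001f800fc000e006f003fc01f800fc00440000000000000) := Q_11 (nat_lit 139) (C_11 L34318 (C_11 L34273 (C_11 L33793 (C_11 L34326 (C_11 L34329 (C_11 L34336 N_11)))))) (by decide +kernel)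
theorem L34338 : W_11 (nat_lit 16) (nat_lit 0x200000001300080000000000000000000000000000000) (nat_lit 0x0) (nat_lit 0x2a007f001f800fc00ce016f003fc01f800fc00440000000000000) := Q_11 (nat_lit 142) (C_11 L34311 (C_11 L34313 (C_11 L34314 (C_11 L34337 N_11)))) (by decide +kernel)
theorem L34339 : W_11 (nat_lit 2) (nat_lit 0x200000001f00080000000000000000000000000000000) (nat_lit 0x0) (nat_lit 0x4000000030000000000000000000000000000000000000000) := D_11 (nat_lit 160) (nat_lit 161) (nat_lit 194) (nat_lit 3) (nat_lit 4) (nat_lit 8) (nat_lit 6) (nat_lit 7) (nat_lit 11) (by decide +kernel)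
theorem L34340 : W_11 (nat_lit 3) (nat_lit 0x200000001700080000000000000000000000000000000) (nat_lit 0x0) (nat_lit 0x4000000030000800040000000000000000000000000000000) := T_11 (nat_lit 143) (nat_lit 126) (nat_lit 2) (nat_lit 4) (nat_lit 8) L34339 (by decide +kernel)
theorem L34341 : W_11 (nat_lit 3) (nat_lit 0x200000001700080000000000000000000000000000000) (nat_lit 0x0) (nat_lit 0x4000000030000800100000000000000000000000000000000) := T_11 (nat_lit 143) (nat_lit 128) (nat_lit 2) (nat_lit 5) (nat_lit 8) L34339 (by decide +kernel)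
theorem L34342 : W_11 (nat_lit 14) (nat_lit 0x200000001700080000000000000000000000000000000) (nat_lit 0x0) (nat_lit 0x2a007f001f801bc000c006f000200010000000000000000000000) := Q_11 (nat_lit 139) (C_11 L33793 (C_11 L33938 (C_11 L34211 (C_11 L33820 (C_11 L33943 (C_11 L33955 N_11)))))) (by decide +kernel)
theorem L34343 : W_11 (nat_lit 15) (nat_lit 0x200000001300080000000000000000000000000000000) (nat_lit 0x0) (nat_lit 0x2a007f001f803bc00cc016f000200010000000000000000000000) := Q_11 (nat_lit 142) (C_11 L34311 (C_11 L34340 (C_11 L34341 (C_11 L34342 N_11)))) (by decide +kernel)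
theorem L34344 : W_11 (nat_lit 2) (nat_lit 0x10003c0014001b000c0000000000000000000000000000000) (nat_lit 0x0) (nat_lit 0x10000c00000000000000000000000000000000000000000000000) := D_11 (nat_lit 191) (nat_lit 190) (nat_lit 208) (nat_lit 1) (nat_lit 7) (nat_lit 10) (nat_lit 5) (nat_lit 5) (nat_lit 8) (by decide +kernel)
theorem L34345 : W_11 (nat_lit 3) (nat_lit 0x1000380014001b000c0000000000000000000000000000000) (nat_lit 0x0) (nat_lit 0x10000c00040020000000000000000000000000000000000000000) := T_11 (nat_lit 174) (nat_lit 161) (nat_lit 2) (nat_lit 4) (nat_lit 10) L34344 (by decide +kernel)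
theorem L34346 : W_11 (nat_lit 4) (nat_lit 0x380014001b000c0000000000000000000000000000000) (nat_lit 0x0) (nat_lit 0x10001c00040020000000008000000000000000000000000000000) := T_11 (nat_lit 192) (nat_lit 123) (nat_lit 4) (nat_lit 5) (nat_lit 11) L34345 (by decide +kernel)
theorem L34347 : W_11 (nat_lit 2) (nat_lit 0x5800240002001b00088000000000000000000000000000000) (nat_lit 0x0) (nat_lit 0x8000400020000000000000000000000000000000000000000000) := D_11 (nat_lit 190) (nat_lit 173) (nat_lit 207) (nat_lit 5) (nat_lit 4) (nat_lit 7) (nat_lit 5) (nat_lit 4) (nat_lit 8) (by decide +kernel)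
theorem L34348 : W_11 (nat_lit 3) (nat_lit 0x5800240002001b00080000000000000000000000000000000) (nat_lit 0x0) (nat_lit 0x80004000a0000000000008000000000000000000000000000000) := T_11 (nat_lit 123) (nat_lit 175) (nat_lit 7) (nat_lit 4) (nat_lit 7) L34347 (by decide +kernel)
theorem L34349 : W_11 (nat_lit 4) (nat_lit 0x4800240002001b00080000000000000000000000000000000) (nat_lit 0x0) (nat_lit 0x280014000a0000000000008000000000000000000000000000000) := T_11 (nat_lit 192) (nat_lit 209) (nat_lit 7) (nat_lit 4) (nat_lit 8) L34348 (by decide +kernel)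
theorem L34350 : W_11 (nat_lit 5) (nat_lit 0x800240002001b00080000000000000000000000000000000) (nat_lit 0x0) (nat_lit 0x280054000a0010000000008000000000000000000000000000000) := T_11 (nat_lit 194) (nat_lit 160) (nat_lit 6) (nat_lit 7) (nat_lit 11) L34349 (by decide +kernel)
theorem L34351 : W_11 (nat_lit 2) (nat_lit 0x10000800240002001b00080000000000000000000000000000000) (nat_lit 0x0) (nat_lit 0x100008000400000000000000000000000000000000000000000000000) := D_11 (nat_lit 207) (nat_lit 224) (nat_lit 190) (nat_lit 5) (nat_lit 4) (nat_lit 9) (nat_lit 5) (nat_lit 4) (nat_lit 8) (by decide +kernel)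
theorem L34352 : W_11 (nat_lit 3) (nat_lit 0x800240002001b00080000000000000000000000000000000) (nat_lit 0x0) (nat_lit 0x100018000400000004000000000000000000000000000000000000000) := T_11 (nat_lit 208) (nat_lit 158) (nat_lit 6) (nat_lit 4) (nat_lit 12) L34351 (by decide +kernel)
theorem L34353 : W_11 (nat_lit 2) (nat_lit 0x10000800240002001b00080000000000000000000000000000000) (nat_lit 0x0) (nat_lit 0x1000080004000000000000000000000000000000) := D_11 (nat_lit 139) (nat_lit 122) (nat_lit 156) (nat_lit 4) (nat_lit 4) (nat_lit 11) (nat_lit 4) (nat_lit 4) (nat_lit 12) (by decide +kernel)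
theorem L34354 : W_11 (nat_lit 3) (nat_lit 0x800240002001b00080000000000000000000000000000000) (nat_lit 0x0) (nat_lit 0x10000000000005000080004000000000000000000000000000000) := T_11 (nat_lit 208) (nat_lit 158) (nat_lit 6) (nat_lit 4) (nat_lit 12) L34353 (by decide +kernel)
theorem L34355 : W_11 (nat_lit 6) (nat_lit 0x240002001b00080000000000000000000000000000000) (nat_lit 0x0) (nat_lit 0x100038005c000a001500008000c000000000000000000000000000000) := Q_11 (nat_lit 191) (C_11 L34350 (C_11 L34352 (C_11 L34354 N_11))) (by decide +kernel)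
theorem L34356 : W_11 (nat_lit 2) (nat_lit 0x7800240002001b00080000000000000000000000000000000) (nat_lit 0x0) (nat_lit 0x8000400100000000000000000000000000000000000000000000) := D_11 (nat_lit 190) (nat_lit 207) (nat_lit 176) (nat_lit 5) (nat_lit 4) (nat_lit 8) (nat_lit 2) (nat_lit 3) (nat_lit 11) (by decide +kernel)
theorem L34357 : W_11 (nat_lit 3) (nat_lit 0x5800240002001b00080000000000000000000000000000000) (nat_lit 0x0) (nat_lit 0x8002400120000000000000000000000000000000000000000000) := T_11 (nat_lit 193) (nat_lit 173) (nat_lit 0) (nat_lit 7) (nat_lit 11) L34356 (by decide +kernel)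
theorem L34358 : W_11 (nat_lit 4) (nat_lit 0x4800240002001b00080000000000000000000000000000000) (nat_lit 0x0) (nat_lit 0x28003400120000000000000000000000000000000000000000000) := T_11 (nat_lit 192) (nat_lit 209) (nat_lit 7) (nat_lit 4) (nat_lit 8) L34357 (by decide +kernel)
theorem L34359 : W_11 (nat_lit 5) (nat_lit 0x800240002001b00080000000000000000000000000000000) (nat_lit 0x0) (nat_lit 0x28007400120010000000000000000000000000000000000000000) := T_11 (nat_lit 194) (nat_lit 160) (nat_lit 6) (nat_lit 7) (nat_lit 11) L34358 (by decide +kernel)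
theorem L34363 : W_11 (nat_lit 2) (nat_lit 0x1800240002001b00088000000000000000000000000000000) (nat_lit 0x0) (nat_lit 0x80004000200000000000000000000000000) := D_11 (nat_lit 122) (nat_lit 105) (nat_lit 139) (nat_lit 4) (nat_lit 4) (nat_lit 10) (nat_lit 4) (nat_lit 4) (nat_lit 11) (by decide +kernel)
theorem L34364 : W_11 (nat_lit 3) (nat_lit 0x1800240002001b00080000000000000000000000000000000) (nat_lit 0x0) (nat_lit 0x8000000008000c000200000000000000000000000000) := T_11 (nat_lit 123) (nat_lit 175) (nat_lit 7) (nat_lit 4) (nat_lit 7) L34363 (by decide +kernel)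
theorem L34365 : W_11 (nat_lit 4) (nat_lit 0x800240002001b00080000000000000000000000000000000) (nat_lit 0x0) (nat_lit 0x2000100008000000008000c000200000000000000000000000000) := T_11 (nat_lit 192) (nat_lit 209) (nat_lit 7) (nat_lit 4) (nat_lit 8) L34364 (by decide +kernel)
theorem L34366 : W_11 (nat_lit 6) (nat_lit 0x240002001b00080000000000000000000000000000000) (nat_lit 0x0) (nat_lit 0x28007c001a001000008000c000200000000000000000000000000) := Q_11 (nat_lit 191) (C_11 L34350 (C_11 L34359 (C_11 L34362 (C_11 L34365 N_11)))) (by decide +kernel)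
theorem L34367 : W_11 (nat_lit 6) (nat_lit 0x240002001b00080000000000000000000000000000000) (nat_lit 0x0) (nat_lit 0x38007c0012001500008000c000200000000000000000000000000) := Q_11 (nat_lit 191) (C_11 L34362 (C_11 L34359 (C_11 L34354 N_11))) (by decide +kernel)
theorem L34368 : W_11 (nat_lit 2) (nat_lit 0x40002c0002001b00088000000000000000000000000000000) (nat_lit 0x0) (nat_lit 0x8000100001000000000000000000000000000000000000000) := D_11 (nat_lit 176) (nat_lit 156) (nat_lit 195) (nat_lit 0) (nat_lit 7) (nat_lit 10) (nat_lit 3) (nat_lit 4) (nat_lit 10) (by decide +kernel)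
theorem L34369 : W_11 (nat_lit 3) (nat_lit 0x4000240002001b00088000000000000000000000000000000) (nat_lit 0x0) (nat_lit 0x9000180001000000000000000000000000000000000000000) := T_11 (nat_lit 175) (nat_lit 192) (nat_lit 7) (nat_lit 4) (nat_lit 7) L34368 (by decide +kernel)
theorem L34370 : W_11 (nat_lit 4) (nat_lit 0x240002001b00088000000000000000000000000000000) (nat_lit 0x0) (nat_lit 0xd000180011000000000000000000000000000000000000000) := T_11 (nat_lit 194) (nat_lit 160) (nat_lit 6) (nat_lit 7) (nat_lit 11) L34369 (by decide +kernel)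
theorem L34371 : W_11 (nat_lit 2) (nat_lit 0x260002001b00088000400000000000000000000000000) (nat_lit 0x0) (nat_lit 0x4000200010000000000000000000000) := D_11 (nat_lit 105) (nat_lit 88) (nat_lit 122) (nat_lit 4) (nat_lit 4) (nat_lit 9) (nat_lit 4) (nat_lit 4) (nat_lit 10) (by decide +kernel)
theorem L34372 : W_11 (nat_lit 3) (nat_lit 0x260002001b00088000000000000000000000000000000) (nat_lit 0x0) (nat_lit 0x1000000004000600010000000000000000000000) := T_11 (nat_lit 106) (nat_lit 156) (nat_lit 5) (nat_lit 4) (nat_lit 6) L34371 (by decide +kernel)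
theorem L34373 : W_11 (nat_lit 4) (nat_lit 0x240002001b00088000000000000000000000000000000) (nat_lit 0x0) (nat_lit 0x400020001000000004000600010000000000000000000000) := T_11 (nat_lit 173) (nat_lit 190) (nat_lit 5) (nat_lit 4) (nat_lit 7) L34372 (by decide +kernel)
theorem L34374 : W_11 (nat_lit 2) (nat_lit 0x40002c0002001b00088000400000000000000000000000000) (nat_lit 0x0) (nat_lit 0x4000200010000000000000000000000) := D_11 (nat_lit 105) (nat_lit 122) (nat_lit 88) (nat_lit 4) (nat_lit 4) (nat_lit 10) (nat_lit 4) (nat_lit 4) (nat_lit 9) (by decide +kernel)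
theorem L34375 : W_11 (nat_lit 3) (nat_lit 0x40002c0002001b00088000000000000000000000000000000) (nat_lit 0x0) (nat_lit 0x4000000004000600010000000000000000000000) := T_11 (nat_lit 106) (nat_lit 158) (nat_lit 7) (nat_lit 4) (nat_lit 6) L34374 (by decide +kernel)
theorem L34376 : W_11 (nat_lit 4) (nat_lit 0x4000240002001b00088000000000000000000000000000000) (nat_lit 0x0) (nat_lit 0x1000080004000000004000600010000000000000000000000) := T_11 (nat_lit 175) (nat_lit 192) (nat_lit 7) (nat_lit 4) (nat_lit 7) L34375 (by decide +kernel)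
theorem L34377 : W_11 (nat_lit 5) (nat_lit 0x240002001b00088000000000000000000000000000000) (nat_lit 0x0) (nat_lit 0x5000080014000000004000600010000000000000000000000) := T_11 (nat_lit 194) (nat_lit 160) (nat_lit 6) (nat_lit 7) (nat_lit 11) L34376 (by decide +kernel)
theorem L34378 : W_11 (nat_lit 6) (nat_lit 0x240002001b00080000000000000000000000000000000) (nat_lit 0x0) (nat_lit 0xd4001a001500000000c000600010000000000000000000000) := Q_11 (nat_lit 123) (C_11 L34370 (C_11 L34373 (C_11 L34377 N_11))) (by decide +kernel)
theorem L34379 : W_11 (nat_lit 5) (nat_lit 0x240002001b00080000000000000000000000000000000) (nat_lit 0x0) (nat_lit 0x100038001c000a000400008000c000200000000000000000000000000) := Q_11 (nat_lit 191) (C_11 L34365 (C_11 L34362 (C_11 L34352 N_11))) (by decide +kernel)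
theorem L34380 : W_11 (nat_lit 5) (nat_lit 0x240002001b00080000000000000000000000000000000) (nat_lit 0x0) (nat_lit 0x100018000c0002000500008000c000200000000000000000000000000) := Q_11 (nat_lit 191) (C_11 L34362 (C_11 L34352 (C_11 L34354 N_11))) (by decide +kernel)
theorem L34381 : W_11 (nat_lit 6) (nat_lit 0x240002001b00080000000000000000000000000000000) (nat_lit 0x0) (nat_lit 0x38007c00120015000080004000000000000000000000000000000) := Q_11 (nat_lit 191) (C_11 L34354 (C_11 L34359 N_11)) (by decide +kernel)
theorem L34382 : W_11 (nat_lit 5) (nat_lit 0x240002001b00080000000000000000000000000000000) (nat_lit 0x0) (nat_lit 0x100038001c0008000500008000c000200000000000000000000000000) := Q_11 (nat_lit 191) (C_11 L34365 (C_11 L34354 (C_11 L34352 N_11))) (by decide +kernel)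
theorem L34383 : W_11 (nat_lit 2) (nat_lit 0x10004800240002001b00080000000000000000000000000000000) (nat_lit 0x0) (nat_lit 0x400020001000000000000000000000000000000000000000000000000) := D_11 (nat_lit 209) (nat_lit 192) (nat_lit 226) (nat_lit 7) (nat_lit 4) (nat_lit 8) (nat_lit 7) (nat_lit 4) (nat_lit 9) (by decide +kernel)
theorem L34384 : W_11 (nat_lit 3) (nat_lit 0x4800240002001b00080000000000000000000000000000000) (nat_lit 0x0) (nat_lit 0x400030001000000004000000000000000000000000000000000000000) := T_11 (nat_lit 208) (nat_lit 158) (nat_lit 6) (nat_lit 4) (nat_lit 12) L34383 (by decide +kernel)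
theorem L34385 : W_11 (nat_lit 4) (nat_lit 0x800240002001b00080000000000000000000000000000000) (nat_lit 0x0) (nat_lit 0x400030005000000014000000000000000000000000000000000000000) := T_11 (nat_lit 194) (nat_lit 160) (nat_lit 6) (nat_lit 7) (nat_lit 11) L34384 (by decide +kernel)
theorem L34386 : W_11 (nat_lit 6) (nat_lit 0x240002001b00080000000000000000000000000000000) (nat_lit 0x0) (nat_lit 0x500038007c00120014000000000000000000000000000000000000000) := Q_11 (nat_lit 191) (C_11 L34352 (C_11 L34359 (C_11 L34385 N_11))) (by decide +kernel)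
theorem L34387 : W_11 (nat_lit 5) (nat_lit 0x240002001b00080000000000000000000000000000000) (nat_lit 0x0) (nat_lit 0x40003000580008001500008000c000200000000000000000000000000) := Q_11 (nat_lit 191) (C_11 L34385 (C_11 L34365 (C_11 L34354 N_11))) (by decide +kernel)
theorem L34388 : W_11 (nat_lit 7) (nat_lit 0x200002001b00080000000000000000000000000000000) (nat_lit 0x0) (nat_lit 0x50003800fc001e001500008000c000600010000000000000000000000) := Q_11 (nat_lit 174) (C_11 L34355 (C_11 L34366 (C_11 L34367 (C_11 L34378 (C_11 L34379 (C_11 L34380 (C_11 L34381 (C_11 L34382 (C_11 L34386 (C_11 L34387 N_11)))))))))) (by decide +kernel)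
theorem L34389 : W_11 (nat_lit 2) (nat_lit 0x10004c00240002001b80080000000000000000000000000000000) (nat_lit 0x0) (nat_lit 0x400020001000000000000000000000000000000000000000000000000) := D_11 (nat_lit 209) (nat_lit 192) (nat_lit 226) (nat_lit 7) (nat_lit 4) (nat_lit 8) (nat_lit 7) (nat_lit 4) (nat_lit 9) (by decide +kernel)
theorem L34390 : W_11 (nat_lit 3) (nat_lit 0x4c00240002001b80080000000000000000000000000000000) (nat_lit 0x0) (nat_lit 0x400030001000000001000000000000000000000000000000000000000) := T_11 (nat_lit 208) (nat_lit 156) (nat_lit 4) (nat_lit 4) (nat_lit 12) L34389 (by decide +kernel)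
theorem L34391 : W_11 (nat_lit 4) (nat_lit 0x4800240002001b80080000000000000000000000000000000) (nat_lit 0x0) (nat_lit 0x400038001400000001000000000000000000000000000000000000000) := T_11 (nat_lit 190) (nat_lit 207) (nat_lit 5) (nat_lit 4) (nat_lit 8) L34390 (by decide +kernel)
theorem L34392 : W_11 (nat_lit 5) (nat_lit 0x4800240002001b00080000000000000000000000000000000) (nat_lit 0x0) (nat_lit 0x400038001400000001000080004000000000000000000000000000000) := T_11 (nat_lit 139) (nat_lit 122) (nat_lit 4) (nat_lit 4) (nat_lit 11) L34391 (by decide +kernel)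
theorem L34393 : W_11 (nat_lit 6) (nat_lit 0x800240002001b00080000000000000000000000000000000) (nat_lit 0x0) (nat_lit 0x400038005400000011000080004000000000000000000000000000000) := T_11 (nat_lit 194) (nat_lit 160) (nat_lit 6) (nat_lit 7) (nat_lit 11) L34392 (by decide +kernel)
theorem L34394 : W_11 (nat_lit 7) (nat_lit 0x240002001b00080000000000000000000000000000000) (nat_lit 0x0) (nat_lit 0x400038005c000a001100008000c000200000000000000000000000000) := Q_11 (nat_lit 191) (C_11 L34365 (C_11 L34362 (C_11 L34350 (C_11 L34393 N_11)))) (by decide +kernel)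
theorem L34399 : W_11 (nat_lit 7) (nat_lit 0x240002001b00080000000000000000000000000000000) (nat_lit 0x0) (nat_lit 0x400038007c0012001100008000c000200000000000000000000000000) := Q_11 (nat_lit 191) (C_11 L34393 (C_11 L34359 (C_11 L34362 (C_11 L34398 N_11)))) (by decide +kernel)
theorem L34400 : W_11 (nat_lit 2) (nat_lit 0x40002e0002001b00088000000000000000000000000000000) (nat_lit 0x0) (nat_lit 0xa000100000000000000000000000000000000000000000000) := D_11 (nat_lit 176) (nat_lit 195) (nat_lit 193) (nat_lit 3) (nat_lit 4) (nat_lit 10) (nat_lit 3) (nat_lit 3) (nat_lit 10) (by decide +kernel)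
theorem L34401 : W_11 (nat_lit 3) (nat_lit 0x4000260002001b00088000000000000000000000000000000) (nat_lit 0x0) (nat_lit 0xb000180000000000000000000000000000000000000000000) := T_11 (nat_lit 175) (nat_lit 192) (nat_lit 7) (nat_lit 4) (nat_lit 7) L34400 (by decide +kernel)
theorem L34402 : W_11 (nat_lit 4) (nat_lit 0x4000240002001b00088000000000000000000000000000000) (nat_lit 0x0) (nat_lit 0xb4001a0000000000000000000000000000000000000000000) := T_11 (nat_lit 173) (nat_lit 190) (nat_lit 5) (nat_lit 4) (nat_lit 7) L34401 (by decide +kernel)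
theorem L34403 : W_11 (nat_lit 5) (nat_lit 0x240002001b00088000000000000000000000000000000) (nat_lit 0x0) (nat_lit 0xf4001a0010000000000000000000000000000000000000000) := T_11 (nat_lit 194) (nat_lit 160) (nat_lit 6) (nat_lit 7) (nat_lit 11) L34402 (by decide +kernel)
theorem L34404 : W_11 (nat_lit 6) (nat_lit 0x240002001b00080000000000000000000000000000000) (nat_lit 0x0) (nat_lit 0xf4001a001100000000c000600010000000000000000000000) := Q_11 (nat_lit 123) (C_11 L34373 (C_11 L34370 (C_11 L34403 N_11))) (by decide +kernel)
theorem L34405 : W_11 (nat_lit 2) (nat_lit 0x1800240002001b00088000000000000000000000000000000) (nat_lit 0x0) (nat_lit 0x8000400020000000000000000000000000000000000000000000) := D_11 (nat_lit 190) (nat_lit 173) (nat_lit 207) (nat_lit 5) (nat_lit 4) (nat_lit 7) (nat_lit 5) (nat_lit 4) (nat_lit 8) (by decide +kernel)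
theorem L34406 : W_11 (nat_lit 3) (nat_lit 0x1800240002001b00080000000000000000000000000000000) (nat_lit 0x0) (nat_lit 0x80004000a0000000000008000000000000000000000000000000) := T_11 (nat_lit 123) (nat_lit 175) (nat_lit 7) (nat_lit 4) (nat_lit 7) L34405 (by decide +kernel)
theorem L34407 : W_11 (nat_lit 4) (nat_lit 0x800240002001b00080000000000000000000000000000000) (nat_lit 0x0) (nat_lit 0x280014000a0000000000008000000000000000000000000000000) := T_11 (nat_lit 192) (nat_lit 209) (nat_lit 7) (nat_lit 4) (nat_lit 8) L34406 (by decide +kernel)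
theorem L34408 : W_11 (nat_lit 2) (nat_lit 0xc00340002001b00080000000000000000000000000000000) (nat_lit 0x0) (nat_lit 0x20003000000000000000000000000000000000000000000000000) := D_11 (nat_lit 192) (nat_lit 193) (nat_lit 209) (nat_lit 2) (nat_lit 3) (nat_lit 11) (nat_lit 7) (nat_lit 4) (nat_lit 8) (by decide +kernel)
theorem L34409 : W_11 (nat_lit 3) (nat_lit 0xc00240002001b00080000000000000000000000000000000) (nat_lit 0x0) (nat_lit 0x20003000180000000000000000000000000000000000000000000) := T_11 (nat_lit 176) (nat_lit 175) (nat_lit 1) (nat_lit 7) (nat_lit 10) L34408 (by decide +kernel)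
theorem L34410 : W_11 (nat_lit 4) (nat_lit 0x800240002001b00080000000000000000000000000000000) (nat_lit 0x0) (nat_lit 0x28003400180000000000000000000000000000000000000000000) := T_11 (nat_lit 190) (nat_lit 207) (nat_lit 5) (nat_lit 4) (nat_lit 8) L34409 (by decide +kernel)
theorem L34411 : W_11 (nat_lit 5) (nat_lit 0x240002001b00080000000000000000000000000000000) (nat_lit 0x0) (nat_lit 0x28003c001a000000008000c000200000000000000000000000000) := Q_11 (nat_lit 191) (C_11 L34365 (C_11 L34362 (C_11 L34407 (C_11 L34410 N_11)))) (by decide +kernel)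
theorem L34412 : W_11 (nat_lit 2) (nat_lit 0x800240003001b00080000000000000000000000000000000) (nat_lit 0x0) (nat_lit 0x10000000000000000080004000000000000000000000000000000) := D_11 (nat_lit 139) (nat_lit 122) (nat_lit 208) (nat_lit 4) (nat_lit 4) (nat_lit 11) (nat_lit 4) (nat_lit 4) (nat_lit 12) (by decide +kernel)
theorem L34413 : W_11 (nat_lit 2) (nat_lit 0x200018000800340003401b00080000000000000000000000000000000) (nat_lit 0x0) (nat_lit 0x8000400020000000000000000000000000000000000000000000000000000) := D_11 (nat_lit 226) (nat_lit 209) (nat_lit 243) (nat_lit 7) (nat_lit 4) (nat_lit 9) (nat_lit 7) (nat_lit 4) (nat_lit 10) (by decide +kernel)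
theorem L34414 : W_11 (nat_lit 3) (nat_lit 0x18000800340003401b00080000000000000000000000000000000) (nat_lit 0x0) (nat_lit 0x8000600020000000020000000000000000000000000000000000000000000) := T_11 (nat_lit 225) (nat_lit 173) (nat_lit 4) (nat_lit 4) (nat_lit 13) L34413 (by decide +kernel)
theorem L34415 : W_11 (nat_lit 4) (nat_lit 0x8000800340003401b00080000000000000000000000000000000) (nat_lit 0x0) (nat_lit 0x8000700030000000020000000000000000000000000000000000000000000) := T_11 (nat_lit 208) (nat_lit 224) (nat_lit 5) (nat_lit 4) (nat_lit 9) L34414 (by decide +kernel)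
theorem L34416 : W_11 (nat_lit 5) (nat_lit 0x8000800340003001b00080000000000000000000000000000000) (nat_lit 0x0) (nat_lit 0x8000700030000000020000c00000000000000000000000000000000000000) := T_11 (nat_lit 154) (nat_lit 155) (nat_lit 2) (nat_lit 1) (nat_lit 9) L34415 (by decide +kernel)
theorem L34417 : W_11 (nat_lit 6) (nat_lit 0x800340003001b00080000000000000000000000000000000) (nat_lit 0x0) (nat_lit 0x8000700038000400020000c00000000000000000000000000000000000000) := T_11 (nat_lit 207) (nat_lit 190) (nat_lit 5) (nat_lit 4) (nat_lit 8) L34416 (by decide +kernel)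
theorem L34418 : W_11 (nat_lit 7) (nat_lit 0x800240003001b00080000000000000000000000000000000) (nat_lit 0x0) (nat_lit 0x80007000380004001a0000c00000000000000000000000000000000000000) := T_11 (nat_lit 176) (nat_lit 175) (nat_lit 0) (nat_lit 7) (nat_lit 10) L34417 (by decide +kernel)
theorem L34419 : W_11 (nat_lit 2) (nat_lit 0xc00240003001b00088000000000000000000000000000000) (nat_lit 0x0) (nat_lit 0x80004000200000000000000000000000000) := D_11 (nat_lit 122) (nat_lit 105) (nat_lit 139) (nat_lit 4) (nat_lit 4) (nat_lit 10) (nat_lit 4) (nat_lit 4) (nat_lit 11) (by decide +kernel)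
theorem L34420 : W_11 (nat_lit 3) (nat_lit 0xc00240003001b00080000000000000000000000000000000) (nat_lit 0x0) (nat_lit 0x2000000008000c000200000000000000000000000000) := T_11 (nat_lit 123) (nat_lit 173) (nat_lit 5) (nat_lit 4) (nat_lit 7) L34419 (by decide +kernel)
theorem L34421 : W_11 (nat_lit 4) (nat_lit 0x800240003001b00080000000000000000000000000000000) (nat_lit 0x0) (nat_lit 0x800040002000000008000c000200000000000000000000000000) := T_11 (nat_lit 190) (nat_lit 207) (nat_lit 5) (nat_lit 4) (nat_lit 8) L34420 (by decide +kernel)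
theorem L34422 : W_11 (nat_lit 8) (nat_lit 0x240003001b00080000000000000000000000000000000) (nat_lit 0x0) (nat_lit 0x8000700038000c001a0000c0008000c000200000000000000000000000000) := Q_11 (nat_lit 191) (C_11 L34412 (C_11 L34418 (C_11 L34421 N_11))) (by decide +kernel)
theorem L34423 : W_11 (nat_lit 2) (nat_lit 0x240003001b00088000000000000000000000000000000) (nat_lit 0x0) (nat_lit 0x400020000000000000000400000000000000000000000000) := D_11 (nat_lit 173) (nat_lit 106) (nat_lit 190) (nat_lit 5) (nat_lit 4) (nat_lit 6) (nat_lit 5) (nat_lit 4) (nat_lit 7) (by decide +kernel)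
theorem L34424 : W_11 (nat_lit 2) (nat_lit 0xf8004800240003401b0008c000000000000000000000000000000) (nat_lit 0x0) (nat_lit 0x3800000000000000000000000000000000000000000000000000000000) := D_11 (nat_lit 228) (nat_lit 227) (nat_lit 229) (nat_lit 3) (nat_lit 3) (nat_lit 12) (nat_lit 3) (nat_lit 4) (nat_lit 12) (by decide +kernel)
theorem L34425 : W_11 (nat_lit 3) (nat_lit 0x78004800240003401b0008c000000000000000000000000000000) (nat_lit 0x0) (nat_lit 0x3800080008000000000000000000000000000000000000000000000000) := T_11 (nat_lit 211) (nat_lit 195) (nat_lit 2) (nat_lit 4) (nat_lit 12) L34424 (by decide +kernel)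
theorem L34426 : W_11 (nat_lit 4) (nat_lit 0x38004800240003401b0008c000000000000000000000000000000) (nat_lit 0x0) (nat_lit 0x38000c000a000000000000000000000000000000000000000000000000) := T_11 (nat_lit 210) (nat_lit 193) (nat_lit 2) (nat_lit 3) (nat_lit 12) L34425 (by decide +kernel)
theorem L34427 : W_11 (nat_lit 5) (nat_lit 0x18004800240003401b0008c000000000000000000000000000000) (nat_lit 0x0) (nat_lit 0x3c000e000a000000000000000000000000000000000000000000000000) := T_11 (nat_lit 209) (nat_lit 226) (nat_lit 7) (nat_lit 4) (nat_lit 9) L34426 (by decide +kernel)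
theorem L34428 : W_11 (nat_lit 6) (nat_lit 0x8004800240003401b0008c000000000000000000000000000000) (nat_lit 0x0) (nat_lit 0x3d000f000a000000000000000000000000000000000000000000000000) := T_11 (nat_lit 208) (nat_lit 224) (nat_lit 5) (nat_lit 4) (nat_lit 9) L34427 (by decide +kernel)
theorem L34429 : W_11 (nat_lit 7) (nat_lit 0x4800240003401b0008c000000000000000000000000000000) (nat_lit 0x0) (nat_lit 0x3d000f800a400000000000000000000000000000000000000000000000) := T_11 (nat_lit 207) (nat_lit 190) (nat_lit 5) (nat_lit 4) (nat_lit 8) L34428 (by decide +kernel)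
theorem L34430 : W_11 (nat_lit 8) (nat_lit 0x4000240003401b0008c000000000000000000000000000000) (nat_lit 0x0) (nat_lit 0x3d000f800ac00000000000080000000000000000000000000000000000) := T_11 (nat_lit 191) (nat_lit 139) (nat_lit 4) (nat_lit 4) (nat_lit 11) L34429 (by decide +kernel)
theorem L34431 : W_11 (nat_lit 9) (nat_lit 0x240003401b0008c000000000000000000000000000000) (nat_lit 0x0) (nat_lit 0x3d000f800ec00000010000080000000000000000000000000000000000) := T_11 (nat_lit 194) (nat_lit 160) (nat_lit 6) (nat_lit 7) (nat_lit 11) L34430 (by decide +kernel)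
theorem L34432 : W_11 (nat_lit 10) (nat_lit 0x240003401b00088000000000000000000000000000000) (nat_lit 0x0) (nat_lit 0x3d000f800ec00000010000080004000200000000000000000000000000) := T_11 (nat_lit 122) (nat_lit 105) (nat_lit 4) (nat_lit 4) (nat_lit 10) L34431 (by decide +kernel)
theorem L34433 : W_11 (nat_lit 11) (nat_lit 0x240003001b00088000000000000000000000000000000) (nat_lit 0x0) (nat_lit 0x3d000f800ec00000010c00080004000200000000000000000000000000) := T_11 (nat_lit 154) (nat_lit 155) (nat_lit 2) (nat_lit 1) (nat_lit 9) L34432 (by decide +kernel)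
theorem L34434 : W_11 (nat_lit 2) (nat_lit 0x4000240003001b00088000400000000000000000000000000) (nat_lit 0x0) (nat_lit 0x4000200010000000000000000000000) := D_11 (nat_lit 105) (nat_lit 122) (nat_lit 88) (nat_lit 4) (nat_lit 4) (nat_lit 10) (nat_lit 4) (nat_lit 4) (nat_lit 9) (by decide +kernel)
theorem L34435 : W_11 (nat_lit 3) (nat_lit 0x4000240003001b00088000000000000000000000000000000) (nat_lit 0x0) (nat_lit 0x20000000000004000600010000000000000000000000) := T_11 (nat_lit 106) (nat_lit 173) (nat_lit 5) (nat_lit 4) (nat_lit 6) L34434 (by decide +kernel)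
theorem L34436 : W_11 (nat_lit 4) (nat_lit 0x240003001b00088000000000000000000000000000000) (nat_lit 0x0) (nat_lit 0x4000020010000000004000600010000000000000000000000) := T_11 (nat_lit 194) (nat_lit 160) (nat_lit 6) (nat_lit 7) (nat_lit 11) L34435 (by decide +kernel)
theorem L34437 : W_11 (nat_lit 12) (nat_lit 0x240003001b00080000000000000000000000000000000) (nat_lit 0x0) (nat_lit 0x3d000f800ec00020010c0008000c000600010000000000000000000000) := Q_11 (nat_lit 123) (C_11 L34423 (C_11 L34433 (C_11 L34436 N_11))) (by decide +kernel)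
theorem L34438 : W_11 (nat_lit 2) (nat_lit 0x10004800240002001b80080000000000000000000000000000000) (nat_lit 0x0) (nat_lit 0x100008000400000000000000000000000000000000000000000000000) := D_11 (nat_lit 207) (nat_lit 190) (nat_lit 224) (nat_lit 5) (nat_lit 4) (nat_lit 8) (nat_lit 5) (nat_lit 4) (nat_lit 9) (by decide +kernel)
theorem L34439 : W_11 (nat_lit 3) (nat_lit 0x4800240002001b80080000000000000000000000000000000) (nat_lit 0x0) (nat_lit 0x100018000400000001000000000000000000000000000000000000000) := T_11 (nat_lit 208) (nat_lit 156) (nat_lit 4) (nat_lit 4) (nat_lit 12) L34438 (by decide +kernel)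
theorem L34440 : W_11 (nat_lit 4) (nat_lit 0x800240002001b80080000000000000000000000000000000) (nat_lit 0x0) (nat_lit 0x100018004400000011000000000000000000000000000000000000000) := T_11 (nat_lit 194) (nat_lit 160) (nat_lit 6) (nat_lit 7) (nat_lit 11) L34439 (by decide +kernel)
theorem L34441 : W_11 (nat_lit 5) (nat_lit 0x800240002001b00080000000000000000000000000000000) (nat_lit 0x0) (nat_lit 0x100018004400000011000080004000000000000000000000000000000) := T_11 (nat_lit 139) (nat_lit 122) (nat_lit 4) (nat_lit 4) (nat_lit 11) L34440 (by decide +kernel)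
theorem L34442 : W_11 (nat_lit 2) (nat_lit 0x40002c0002001b00080000000000000000000000000000000) (nat_lit 0x0) (nat_lit 0x8000100001000000000000000000000000000000000000000) := D_11 (nat_lit 176) (nat_lit 195) (nat_lit 156) (nat_lit 3) (nat_lit 4) (nat_lit 10) (nat_lit 0) (nat_lit 7) (nat_lit 10) (by decide +kernel)
theorem L34443 : W_11 (nat_lit 3) (nat_lit 0x2c0002001b00080000000000000000000000000000000) (nat_lit 0x0) (nat_lit 0xc000100011000000000000000000000000000000000000000) := T_11 (nat_lit 194) (nat_lit 160) (nat_lit 6) (nat_lit 7) (nat_lit 11) L34442 (by decide +kernel)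
theorem L34444 : W_11 (nat_lit 2) (nat_lit 0x2e0002001b00088000400050000000000000000000000) (nat_lit 0x0) (nat_lit 0x20002800000000000000000) := D_11 (nat_lit 89) (nat_lit 71) (nat_lit 73) (nat_lit 4) (nat_lit 4) (nat_lit 8) (nat_lit 6) (nat_lit 4) (nat_lit 8) (by decide +kernel)
theorem L34445 : W_11 (nat_lit 3) (nat_lit 0x2e0002001b00088000400010000000000000000000000) (nat_lit 0x0) (nat_lit 0x800060002800000000000000000) := T_11 (nat_lit 90) (nat_lit 107) (nat_lit 6) (nat_lit 4) (nat_lit 9) L34444 (by decide +kernel)
theorem L34446 : W_11 (nat_lit 4) (nat_lit 0x2e0002001b00088000400000000000000000000000000) (nat_lit 0x0) (nat_lit 0xa00070002800000000000000000) := T_11 (nat_lit 88) (nat_lit 105) (nat_lit 4) (nat_lit 4) (nat_lit 9) L34445 (by decide +kernel)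
theorem L34447 : W_11 (nat_lit 5) (nat_lit 0x2e0002001b00088000000000000000000000000000000) (nat_lit 0x0) (nat_lit 0x1000000000000e00070002800000000000000000) := T_11 (nat_lit 106) (nat_lit 156) (nat_lit 5) (nat_lit 4) (nat_lit 6) L34446 (by decide +kernel)
theorem L34448 : W_11 (nat_lit 6) (nat_lit 0x2c0002001b00088000000000000000000000000000000) (nat_lit 0x0) (nat_lit 0x400020001000000000000e00070002800000000000000000) := T_11 (nat_lit 173) (nat_lit 190) (nat_lit 5) (nat_lit 4) (nat_lit 7) L34447 (by decide +kernel)
theorem L34449 : W_11 (nat_lit 7) (nat_lit 0x2c0002001b00080000000000000000000000000000000) (nat_lit 0x0) (nat_lit 0x1400020001000000008000e00070002800000000000000000) := T_11 (nat_lit 123) (nat_lit 192) (nat_lit 7) (nat_lit 4) (nat_lit 7) L34448 (by decide +kernel)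
theorem L34450 : W_11 (nat_lit 2) (nat_lit 0x40003e0002001b00080000000000000000000000000000000) (nat_lit 0x0) (nat_lit 0xe00000000000000000000000000000000000000000000000) := D_11 (nat_lit 190) (nat_lit 189) (nat_lit 191) (nat_lit 1) (nat_lit 6) (nat_lit 10) (nat_lit 1) (nat_lit 7) (nat_lit 10) (by decide +kernel)
theorem L34451 : W_11 (nat_lit 3) (nat_lit 0x40003c0002001b00080000000000000000000000000000000) (nat_lit 0x0) (nat_lit 0x2e00020000000000000000000000000000000000000000000) := T_11 (nat_lit 173) (nat_lit 193) (nat_lit 3) (nat_lit 3) (nat_lit 10) L34450 (by decide +kernel)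
theorem L34452 : W_11 (nat_lit 4) (nat_lit 0x40002c0002001b00080000000000000000000000000000000) (nat_lit 0x0) (nat_lit 0xae00120000000000000000000000000000000000000000000) := T_11 (nat_lit 176) (nat_lit 195) (nat_lit 3) (nat_lit 4) (nat_lit 10) L34451 (by decide +kernel)
theorem L34453 : W_11 (nat_lit 5) (nat_lit 0x2c0002001b00080000000000000000000000000000000) (nat_lit 0x0) (nat_lit 0xee00120010000000000000000000000000000000000000000) := T_11 (nat_lit 194) (nat_lit 160) (nat_lit 6) (nat_lit 7) (nat_lit 11) L34452 (by decide +kernel)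
theorem L34454 : W_11 (nat_lit 8) (nat_lit 0x240002001b00080000000000000000000000000000000) (nat_lit 0x0) (nat_lit 0xfe001a0011000000008000e00070002800000000000000000) := Q_11 (nat_lit 175) (C_11 L34443 (C_11 L34449 (C_11 L34453 N_11))) (by decide +kernel)
theorem L34455 : W_11 (nat_lit 2) (nat_lit 0x1200078004800240003401b00080000000000000000000000000000000) (nat_lit 0x0) (nat_lit 0x2000080008000000000000000000000000000000000000000000000000) := D_11 (nat_lit 211) (nat_lit 195) (nat_lit 229) (nat_lit 2) (nat_lit 4) (nat_lit 12) (nat_lit 3) (nat_lit 4) (nat_lit 12) (by decide +kernel)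
theorem L34456 : W_11 (nat_lit 3) (nat_lit 0x200078004800240003401b00080000000000000000000000000000000) (nat_lit 0x0) (nat_lit 0x3800080008000000000000000000000000000000000000000000000000) := T_11 (nat_lit 228) (nat_lit 227) (nat_lit 3) (nat_lit 3) (nat_lit 12) L34455 (by decide +kernel)
theorem L34457 : W_11 (nat_lit 4) (nat_lit 0x78004800240003401b00080000000000000000000000000000000) (nat_lit 0x0) (nat_lit 0x3a00080008000020000000000000000000000000000000000000000000) := T_11 (nat_lit 225) (nat_lit 173) (nat_lit 4) (nat_lit 4) (nat_lit 13) L34456 (by decide +kernel)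
theorem L34458 : W_11 (nat_lit 5) (nat_lit 0x38004800240003401b00080000000000000000000000000000000) (nat_lit 0x0) (nat_lit 0x3a000c000a000020000000000000000000000000000000000000000000) := T_11 (nat_lit 210) (nat_lit 193) (nat_lit 2) (nat_lit 3) (nat_lit 12) L34457 (by decide +kernel)
theorem L34459 : W_11 (nat_lit 6) (nat_lit 0x30004800240003401b00080000000000000000000000000000000) (nat_lit 0x0) (nat_lit 0x3b000c800a000020000000000000000000000000000000000000000000) := T_11 (nat_lit 207) (nat_lit 224) (nat_lit 5) (nat_lit 4) (nat_lit 9) L34458 (by decide +kernel)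
theorem L34460 : W_11 (nat_lit 7) (nat_lit 0x20004800240003401b00080000000000000000000000000000000) (nat_lit 0x0) (nat_lit 0x3f000d800a000020000000000000000000000000000000000000000000) := T_11 (nat_lit 208) (nat_lit 226) (nat_lit 7) (nat_lit 4) (nat_lit 9) L34459 (by decide +kernel)
theorem L34461 : W_11 (nat_lit 8) (nat_lit 0x20000800240003401b00080000000000000000000000000000000) (nat_lit 0x0) (nat_lit 0x3f000d800e000020010000000000000000000000000000000000000000) := T_11 (nat_lit 194) (nat_lit 160) (nat_lit 6) (nat_lit 7) (nat_lit 11) L34460 (by decide +kernel)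
theorem L34462 : W_11 (nat_lit 9) (nat_lit 0x800240003401b00080000000000000000000000000000000) (nat_lit 0x0) (nat_lit 0x3f000f800f000020010000000000000000000000000000000000000000) := T_11 (nat_lit 209) (nat_lit 192) (nat_lit 7) (nat_lit 4) (nat_lit 8) L34461 (by decide +kernel)
theorem L34463 : W_11 (nat_lit 10) (nat_lit 0x800240003001b00080000000000000000000000000000000) (nat_lit 0x0) (nat_lit 0x3f000f800f000020010c00000000000000000000000000000000000000) := T_11 (nat_lit 154) (nat_lit 155) (nat_lit 2) (nat_lit 1) (nat_lit 9) L34462 (by decide +kernel)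
theorem L34464 : W_11 (nat_lit 2) (nat_lit 0x1800260003401b0008d000000000000000000000000000000) (nat_lit 0x0) (nat_lit 0x6000000010000000000000000000000000000000000000000) := D_11 (nat_lit 194) (nat_lit 160) (nat_lit 193) (nat_lit 6) (nat_lit 7) (nat_lit 11) (nat_lit 0) (nat_lit 7) (nat_lit 11) (by decide +kernel)
theorem L34465 : W_11 (nat_lit 3) (nat_lit 0x1800240003401b0008d000000000000000000000000000000) (nat_lit 0x0) (nat_lit 0x6000020010000000000000400000000000000000000000000) := T_11 (nat_lit 173) (nat_lit 106) (nat_lit 5) (nat_lit 4) (nat_lit 6) L34464 (by decide +kernel)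
theorem L34466 : W_11 (nat_lit 4) (nat_lit 0x1800240003401b0008c000000000000000000000000000000) (nat_lit 0x0) (nat_lit 0x6000020010000000003000400000000000000000000000000) := T_11 (nat_lit 120) (nat_lit 121) (nat_lit 3) (nat_lit 1) (nat_lit 7) L34465 (by decide +kernel)
theorem L34467 : W_11 (nat_lit 5) (nat_lit 0x1800240003401b00084000000000000000000000000000000) (nat_lit 0x0) (nat_lit 0x600002001000000000b000600000000000000000000000000) := T_11 (nat_lit 123) (nat_lit 105) (nat_lit 4) (nat_lit 4) (nat_lit 10) L34466 (by decide +kernel)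
theorem L34468 : W_11 (nat_lit 6) (nat_lit 0x1800240003001b00084000000000000000000000000000000) (nat_lit 0x0) (nat_lit 0x6000020010c0000000b000600000000000000000000000000) := T_11 (nat_lit 154) (nat_lit 155) (nat_lit 2) (nat_lit 1) (nat_lit 9) L34467 (by decide +kernel)
theorem L34469 : W_11 (nat_lit 7) (nat_lit 0x1800240003001b00080000000000000000000000000000000) (nat_lit 0x0) (nat_lit 0x6000020010c0008000f000600000000000000000000000000) := T_11 (nat_lit 122) (nat_lit 139) (nat_lit 4) (nat_lit 4) (nat_lit 11) L34468 (by decide +kernel)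
theorem L34470 : W_11 (nat_lit 8) (nat_lit 0x800240003001b00080000000000000000000000000000000) (nat_lit 0x0) (nat_lit 0x20007000020010c0008000f000600000000000000000000000000) := T_11 (nat_lit 192) (nat_lit 209) (nat_lit 7) (nat_lit 4) (nat_lit 8) L34469 (by decide +kernel)
theorem L34471 : W_11 (nat_lit 11) (nat_lit 0x240003001b00080000000000000000000000000000000) (nat_lit 0x0) (nat_lit 0x3f000f800f800020010c0008000f000600000000000000000000000000) := Q_11 (nat_lit 191) (C_11 L34463 (C_11 L34412 (C_11 L34470 N_11))) (by decide +kernel)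
theorem L34472 : W_11 (nat_lit 2) (nat_lit 0x2c0003401b00088000400000000000000000000000000) (nat_lit 0x0) (nat_lit 0x4000200010000000000000000000000) := D_11 (nat_lit 105) (nat_lit 122) (nat_lit 88) (nat_lit 4) (nat_lit 4) (nat_lit 10) (nat_lit 4) (nat_lit 4) (nat_lit 9) (by decide +kernel)
theorem L34473 : W_11 (nat_lit 3) (nat_lit 0x2c0003401b00088000000000000000000000000000000) (nat_lit 0x0) (nat_lit 0x20000000000004000600010000000000000000000000) := T_11 (nat_lit 106) (nat_lit 173) (nat_lit 5) (nat_lit 4) (nat_lit 6) L34472 (by decide +kernel)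
theorem L34474 : W_11 (nat_lit 4) (nat_lit 0x2c0003401b00080000000000000000000000000000000) (nat_lit 0x0) (nat_lit 0x100002000000000000c000600010000000000000000000000) := T_11 (nat_lit 123) (nat_lit 192) (nat_lit 7) (nat_lit 4) (nat_lit 7) L34473 (by decide +kernel)
theorem L34475 : W_11 (nat_lit 5) (nat_lit 0x2c0003001b00080000000000000000000000000000000) (nat_lit 0x0) (nat_lit 0x1000020000c0000000c000600010000000000000000000000) := T_11 (nat_lit 154) (nat_lit 155) (nat_lit 3) (nat_lit 1) (nat_lit 9) L34474 (by decide +kernel)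
theorem L34476 : W_11 (nat_lit 6) (nat_lit 0x240003001b00080000000000000000000000000000000) (nat_lit 0x0) (nat_lit 0x10001a0000c0000000c000600010000000000000000000000) := T_11 (nat_lit 175) (nat_lit 176) (nat_lit 0) (nat_lit 7) (nat_lit 10) L34475 (by decide +kernel)
theorem L34477 : W_11 (nat_lit 2) (nat_lit 0x238003401b00080000000000000000000000000000000) (nat_lit 0x0) (nat_lit 0x40004200000000000000000000000000000000000000) := D_11 (nat_lit 174) (nat_lit 153) (nat_lit 158) (nat_lit 0) (nat_lit 4) (nat_lit 10) (nat_lit 2) (nat_lit 1) (nat_lit 10) (by decide +kernel)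
theorem L34478 : W_11 (nat_lit 3) (nat_lit 0x230003401b00080000000000000000000000000000000) (nat_lit 0x0) (nat_lit 0x4c004200000000000000000000000000000000000000) := T_11 (nat_lit 171) (nat_lit 170) (nat_lit 2) (nat_lit 0) (nat_lit 10) L34477 (by decide +kernel)
theorem L34479 : W_11 (nat_lit 4) (nat_lit 0x230003001b00080000000000000000000000000000000) (nat_lit 0x0) (nat_lit 0x4c004e00000000000000000000000000000000000000) := T_11 (nat_lit 154) (nat_lit 155) (nat_lit 2) (nat_lit 1) (nat_lit 9) L34478 (by decide +kernel)
theorem L34480 : W_11 (nat_lit 2) (nat_lit 0x2004600230003801b70080000000000000000000000000000000) (nat_lit 0x0) (nat_lit 0xc0004000000000000000000000000000000000000000000000000000) := D_11 (nat_lit 206) (nat_lit 223) (nat_lit 222) (nat_lit 6) (nat_lit 2) (nat_lit 13) (nat_lit 5) (nat_lit 2) (nat_lit 9) (by decide +kernel)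
theorem L34481 : W_11 (nat_lit 3) (nat_lit 0x4600230003801b70080000000000000000000000000000000) (nat_lit 0x0) (nat_lit 0xc0006000100000000000000000000000000000000000000000000000) := T_11 (nat_lit 205) (nat_lit 188) (nat_lit 5) (nat_lit 2) (nat_lit 8) L34480 (by decide +kernel)
theorem L34482 : W_11 (nat_lit 4) (nat_lit 0x4400230003801b70080000000000000000000000000000000) (nat_lit 0x0) (nat_lit 0xc0006000300000000000000001000000000000000000000000000000) := T_11 (nat_lit 189) (nat_lit 120) (nat_lit 4) (nat_lit 2) (nat_lit 11) L34481 (by decide +kernel)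
theorem L34483 : W_11 (nat_lit 5) (nat_lit 0x4400230003801b60080000000000000000000000000000000) (nat_lit 0x0) (nat_lit 0xc0006000300000000000090001000000000000000000000000000000) := T_11 (nat_lit 136) (nat_lit 139) (nat_lit 3) (nat_lit 0) (nat_lit 8) L34482 (by decide +kernel)
theorem L34484 : W_11 (nat_lit 6) (nat_lit 0x4400230003801b40080000000000000000000000000000000) (nat_lit 0x0) (nat_lit 0xc00060003000000040000b0001000000000000000000000000000000) := T_11 (nat_lit 137) (nat_lit 158) (nat_lit 0) (nat_lit 5) (nat_lit 9) L34483 (by decide +kernel)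
theorem L34485 : W_11 (nat_lit 7) (nat_lit 0x4400230003801b00080000000000000000000000000000000) (nat_lit 0x0) (nat_lit 0xc00060003000000040000f0003000000000000000000000000000000) := T_11 (nat_lit 138) (nat_lit 121) (nat_lit 7) (nat_lit 2) (nat_lit 7) L34484 (by decide +kernel)
theorem L34486 : W_11 (nat_lit 8) (nat_lit 0x4000230003801b00080000000000000000000000000000000) (nat_lit 0x0) (nat_lit 0xc000e0007000000040000f0003000000000000000000000000000000) := T_11 (nat_lit 190) (nat_lit 207) (nat_lit 6) (nat_lit 3) (nat_lit 12) L34485 (by decide +kernel)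
theorem L34487 : W_11 (nat_lit 9) (nat_lit 0x230003801b00080000000000000000000000000000000) (nat_lit 0x0) (nat_lit 0xc000e0047000000140000f0003000000000000000000000000000000) := T_11 (nat_lit 194) (nat_lit 160) (nat_lit 6) (nat_lit 7) (nat_lit 11) L34486 (by decide +kernel)
theorem L34488 : W_11 (nat_lit 10) (nat_lit 0x230003001b00080000000000000000000000000000000) (nat_lit 0x0) (nat_lit 0xc000e004700000014c000f0003000000000000000000000000000000) := T_11 (nat_lit 155) (nat_lit 154) (nat_lit 2) (nat_lit 1) (nat_lit 9) L34487 (by decide +kernel)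
theorem L34489 : W_11 (nat_lit 2) (nat_lit 0x4000230003801b00080000000000000000000000000000000) (nat_lit 0x0) (nat_lit 0xc004000000000000000000000000000000000000000) := D_11 (nat_lit 171) (nat_lit 170) (nat_lit 158) (nat_lit 2) (nat_lit 0) (nat_lit 10) (nat_lit 1) (nat_lit 5) (nat_lit 9) (by decide +kernel)
theorem L34490 : W_11 (nat_lit 3) (nat_lit 0x4000230003001b00080000000000000000000000000000000) (nat_lit 0x0) (nat_lit 0xc004c00000000000000000000000000000000000000) := T_11 (nat_lit 155) (nat_lit 154) (nat_lit 2) (nat_lit 1) (nat_lit 9) L34489 (by decide +kernel)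
theorem L34491 : W_11 (nat_lit 4) (nat_lit 0x230003001b00080000000000000000000000000000000) (nat_lit 0x0) (nat_lit 0x400000c014c00000000000000000000000000000000000000) := T_11 (nat_lit 194) (nat_lit 160) (nat_lit 6) (nat_lit 7) (nat_lit 11) L34490 (by decide +kernel)
theorem L34492 : W_11 (nat_lit 2) (nat_lit 0x4000230003801b40083000400000000000000000000000000) (nat_lit 0x0) (nat_lit 0x10000c000000000000000000000000000000000000000000) := D_11 (nat_lit 171) (nat_lit 170) (nat_lit 188) (nat_lit 2) (nat_lit 0) (nat_lit 10) (nat_lit 5) (nat_lit 2) (nat_lit 7) (by decide +kernel)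
theorem L34493 : W_11 (nat_lit 3) (nat_lit 0x4000220003801b40083000400000000000000000000000000) (nat_lit 0x0) (nat_lit 0x10001c000000000000000080000000000000000000000000) := T_11 (nat_lit 172) (nat_lit 103) (nat_lit 4) (nat_lit 2) (nat_lit 10) L34492 (by decide +kernel)
theorem L34494 : W_11 (nat_lit 4) (nat_lit 0x4000220003801b40082000400000000000000000000000000) (nat_lit 0x0) (nat_lit 0x10001c000000080001000080000000000000000000000000) := T_11 (nat_lit 120) (nat_lit 139) (nat_lit 0) (nat_lit 5) (nat_lit 8) L34493 (by decide +kernel)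
theorem L34495 : W_11 (nat_lit 5) (nat_lit 0x220003801b40082000400000000000000000000000000) (nat_lit 0x0) (nat_lit 0x410001c010000080001000080000000000000000000000000) := T_11 (nat_lit 194) (nat_lit 160) (nat_lit 6) (nat_lit 7) (nat_lit 11) L34494 (by decide +kernel)
theorem L34496 : W_11 (nat_lit 6) (nat_lit 0x220003801b40080000400000000000000000000000000) (nat_lit 0x0) (nat_lit 0x410001c010000080003000180000000000000000000000000) := T_11 (nat_lit 121) (nat_lit 104) (nat_lit 7) (nat_lit 2) (nat_lit 6) L34495 (by decide +kernel)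
theorem L34497 : W_11 (nat_lit 7) (nat_lit 0x220003801b40080000000000000000000000000000000) (nat_lit 0x0) (nat_lit 0x410001c01000008000b000580000000000000000000000000) := T_11 (nat_lit 106) (nat_lit 123) (nat_lit 5) (nat_lit 4) (nat_lit 6) L34496 (by decide +kernel)
theorem L34498 : W_11 (nat_lit 8) (nat_lit 0x220003001b40080000000000000000000000000000000) (nat_lit 0x0) (nat_lit 0x410001c010c0008000b000580000000000000000000000000) := T_11 (nat_lit 155) (nat_lit 154) (nat_lit 2) (nat_lit 1) (nat_lit 9) L34497 (by decide +kernel)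
theorem L34499 : W_11 (nat_lit 2) (nat_lit 0x4000230007801b4008a000000000000000000000000000000) (nat_lit 0x0) (nat_lit 0x5000080000000000000000000000000) := D_11 (nat_lit 120) (nat_lit 122) (nat_lit 103) (nat_lit 3) (nat_lit 1) (nat_lit 7) (nat_lit 4) (nat_lit 2) (nat_lit 10) (by decide +kernel)
theorem L34500 : W_11 (nat_lit 3) (nat_lit 0x4000220007801b4008a000000000000000000000000000000) (nat_lit 0x0) (nat_lit 0x18000000000005000080000000000000000000000000) := T_11 (nat_lit 172) (nat_lit 171) (nat_lit 1) (nat_lit 5) (nat_lit 9) L34499 (by decide +kernel)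
theorem L34501 : W_11 (nat_lit 4) (nat_lit 0x4000220007801b40088000000000000000000000000000000) (nat_lit 0x0) (nat_lit 0x18000000000007000180000000000000000000000000) := T_11 (nat_lit 121) (nat_lit 104) (nat_lit 7) (nat_lit 2) (nat_lit 6) L34500 (by decide +kernel)
theorem L34502 : W_11 (nat_lit 5) (nat_lit 0x4000220003801b40088000000000000000000000000000000) (nat_lit 0x0) (nat_lit 0x18004000020007000180000000000000000000000000) := T_11 (nat_lit 158) (nat_lit 137) (nat_lit 0) (nat_lit 5) (nat_lit 9) L34501 (by decide +kernel)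
theorem L34503 : W_11 (nat_lit 6) (nat_lit 0x4000220003001b40088000000000000000000000000000000) (nat_lit 0x0) (nat_lit 0x18004c00020007000180000000000000000000000000) := T_11 (nat_lit 155) (nat_lit 154) (nat_lit 2) (nat_lit 1) (nat_lit 9) L34502 (by decide +kernel)
theorem L34504 : W_11 (nat_lit 7) (nat_lit 0x4000220003001b40080000000000000000000000000000000) (nat_lit 0x0) (nat_lit 0x18004c0002000f000580000000000000000000000000) := T_11 (nat_lit 123) (nat_lit 106) (nat_lit 5) (nat_lit 4) (nat_lit 6) L34503 (by decide +kernel)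
theorem L34505 : W_11 (nat_lit 8) (nat_lit 0x220003001b40080000000000000000000000000000000) (nat_lit 0x0) (nat_lit 0x4000018014c0002000f000580000000000000000000000000) := T_11 (nat_lit 194) (nat_lit 160) (nat_lit 6) (nat_lit 7) (nat_lit 11) L34504 (by decide +kernel)
theorem L34506 : W_11 (nat_lit 2) (nat_lit 0x200003001bc0080000000000000000000000000000000) (nat_lit 0x0) (nat_lit 0x4000030000000000000000000000000000000000) := D_11 (nat_lit 137) (nat_lit 136) (nat_lit 158) (nat_lit 3) (nat_lit 0) (nat_lit 8) (nat_lit 3) (nat_lit 1) (nat_lit 8) (by decide +kernel)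
theorem L34507 : W_11 (nat_lit 2) (nat_lit 0x200003401bc0080000000000000000000000000000000) (nat_lit 0x0) (nat_lit 0x200030000000000000000000000000000000000) := D_11 (nat_lit 137) (nat_lit 136) (nat_lit 153) (nat_lit 3) (nat_lit 0) (nat_lit 8) (nat_lit 1) (nat_lit 4) (nat_lit 8) (by decide +kernel)
theorem L34508 : W_11 (nat_lit 3) (nat_lit 0x200003001bc0080000000000000000000000000000000) (nat_lit 0x0) (nat_lit 0xe00030000000000000000000000000000000000) := T_11 (nat_lit 154) (nat_lit 155) (nat_lit 2) (nat_lit 1) (nat_lit 9) L34507 (by decide +kernel)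
theorem L34509 : W_11 (nat_lit 2) (nat_lit 0x4000200003001bd0082000100000000000000000000000000) (nat_lit 0x0) (nat_lit 0x400020000000000004000000000000000000000000000000) := D_11 (nat_lit 173) (nat_lit 190) (nat_lit 122) (nat_lit 4) (nat_lit 3) (nat_lit 11) (nat_lit 4) (nat_lit 3) (nat_lit 10) (by decide +kernel)
theorem L34510 : W_11 (nat_lit 3) (nat_lit 0x4000200003001bd0082000000000000000000000000000000) (nat_lit 0x0) (nat_lit 0x400020000000000004000100008000000000000000000000) := T_11 (nat_lit 104) (nat_lit 87) (nat_lit 7) (nat_lit 2) (nat_lit 5) L34509 (by decide +kernel)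
theorem L34511 : W_11 (nat_lit 4) (nat_lit 0x4000200003001bc0082000000000000000000000000000000) (nat_lit 0x0) (nat_lit 0x400020000000030004000100008000000000000000000000) := T_11 (nat_lit 136) (nat_lit 137) (nat_lit 3) (nat_lit 0) (nat_lit 8) L34510 (by decide +kernel)
theorem L34512 : W_11 (nat_lit 5) (nat_lit 0x4000200003001bc0080000000000000000000000000000000) (nat_lit 0x0) (nat_lit 0x400020000000030007000100008000000000000000000000) := T_11 (nat_lit 121) (nat_lit 120) (nat_lit 0) (nat_lit 5) (nat_lit 8) L34511 (by decide +kernel)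
theorem L34513 : W_11 (nat_lit 6) (nat_lit 0x200003001bc0080000000000000000000000000000000) (nat_lit 0x0) (nat_lit 0x4400020010000030007000100008000000000000000000000) := T_11 (nat_lit 194) (nat_lit 160) (nat_lit 6) (nat_lit 7) (nat_lit 11) L34512 (by decide +kernel)
theorem L34514 : W_11 (nat_lit 2) (nat_lit 0x4000220003001bc0082000000000000000000000000000000) (nat_lit 0x0) (nat_lit 0x4000100008000000000000000000000) := D_11 (nat_lit 104) (nat_lit 87) (nat_lit 122) (nat_lit 7) (nat_lit 2) (nat_lit 5) (nat_lit 4) (nat_lit 3) (nat_lit 10) (by decide +kernel)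
theorem L34515 : W_11 (nat_lit 3) (nat_lit 0x4000200003001bc0082000000000000000000000000000000) (nat_lit 0x0) (nat_lit 0x400020000000000004000100008000000000000000000000) := T_11 (nat_lit 173) (nat_lit 190) (nat_lit 4) (nat_lit 3) (nat_lit 11) L34514 (by decide +kernel)
theorem L34516 : W_11 (nat_lit 4) (nat_lit 0x4000200003001bc0080000000000000000000000000000000) (nat_lit 0x0) (nat_lit 0x400020000000000007000100008000000000000000000000) := T_11 (nat_lit 121) (nat_lit 120) (nat_lit 0) (nat_lit 5) (nat_lit 8) L34515 (by decide +kernel)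
theorem L34517 : W_11 (nat_lit 5) (nat_lit 0x200003001bc0080000000000000000000000000000000) (nat_lit 0x0) (nat_lit 0x4400020010000000007000100008000000000000000000000) := T_11 (nat_lit 194) (nat_lit 160) (nat_lit 6) (nat_lit 7) (nat_lit 11) L34516 (by decide +kernel)
theorem L34518 : W_11 (nat_lit 7) (nat_lit 0x200003001b80080000000000000000000000000000000) (nat_lit 0x0) (nat_lit 0x4400020014000070007000100008000000000000000000000) := Q_11 (nat_lit 138) (C_11 L34513 (C_11 L34506 (C_11 L34517 N_11))) (by decide +kernel)
theorem L34519 : W_11 (nat_lit 2) (nat_lit 0x4000200003001b00088000c00020000000000000000000000) (nat_lit 0x0) (nat_lit 0x200010000800000000000000000) := D_11 (nat_lit 88) (nat_lit 71) (nat_lit 105) (nat_lit 4) (nat_lit 4) (nat_lit 8) (nat_lit 4) (nat_lit 4) (nat_lit 9) (by decide +kernel)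
theorem L34520 : W_11 (nat_lit 3) (nat_lit 0x4000200003001b00088000c00000000000000000000000000) (nat_lit 0x0) (nat_lit 0x80000000200030000800000000000000000) := T_11 (nat_lit 89) (nat_lit 139) (nat_lit 5) (nat_lit 4) (nat_lit 5) L34519 (by decide +kernel)
theorem L34521 : W_11 (nat_lit 4) (nat_lit 0x4000200003001b00088000400000000000000000000000000) (nat_lit 0x0) (nat_lit 0x80000000a00070000800000000000000000) := T_11 (nat_lit 107) (nat_lit 90) (nat_lit 6) (nat_lit 4) (nat_lit 9) L34520 (by decide +kernel)
theorem L34522 : W_11 (nat_lit 5) (nat_lit 0x200003001b00088000400000000000000000000000000) (nat_lit 0x0) (nat_lit 0x4000000010000080000000a00070000800000000000000000) := T_11 (nat_lit 194) (nat_lit 160) (nat_lit 6) (nat_lit 7) (nat_lit 11) L34521 (by decide +kernel)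
theorem L34523 : W_11 (nat_lit 2) (nat_lit 0x200003401b0008c000e00000000000000000000000000) (nat_lit 0x0) (nat_lit 0x3001000000000000000000000000000) := D_11 (nat_lit 121) (nat_lit 120) (nat_lit 108) (nat_lit 3) (nat_lit 1) (nat_lit 7) (nat_lit 1) (nat_lit 6) (nat_lit 6) (by decide +kernel)
theorem L34524 : W_11 (nat_lit 3) (nat_lit 0x200003401b00088000e00000000000000000000000000) (nat_lit 0x0) (nat_lit 0x40000000000007001000000000000000000000000000) := T_11 (nat_lit 122) (nat_lit 174) (nat_lit 4) (nat_lit 4) (nat_lit 10) L34523 (by decide +kernel)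
theorem L34525 : W_11 (nat_lit 4) (nat_lit 0x200003401b00088000600000000000000000000000000) (nat_lit 0x0) (nat_lit 0x40000000000007001800040000000000000000000000) := T_11 (nat_lit 107) (nat_lit 90) (nat_lit 6) (nat_lit 4) (nat_lit 9) L34524 (by decide +kernel)
theorem L34526 : W_11 (nat_lit 5) (nat_lit 0x200003401b00088000400000000000000000000000000) (nat_lit 0x0) (nat_lit 0x40000000000007001a00050000000000000000000000) := T_11 (nat_lit 105) (nat_lit 88) (nat_lit 4) (nat_lit 4) (nat_lit 9) L34525 (by decide +kernel)
theorem L34527 : W_11 (nat_lit 6) (nat_lit 0x200003001b00088000400000000000000000000000000) (nat_lit 0x0) (nat_lit 0x40000c00000007001a00050000000000000000000000) := T_11 (nat_lit 154) (nat_lit 155) (nat_lit 2) (nat_lit 1) (nat_lit 9) L34526 (by decide +kernel)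
theorem L34528 : W_11 (nat_lit 7) (nat_lit 0x200003001b00088000000000000000000000000000000) (nat_lit 0x0) (nat_lit 0x60000c00000007001e00050000000000000000000000) := T_11 (nat_lit 106) (nat_lit 173) (nat_lit 5) (nat_lit 4) (nat_lit 6) L34527 (by decide +kernel)
theorem L34529 : W_11 (nat_lit 2) (nat_lit 0x200003401b00088000400020000000000000000000000) (nat_lit 0x0) (nat_lit 0x200010000800000000000000000) := D_11 (nat_lit 88) (nat_lit 71) (nat_lit 105) (nat_lit 4) (nat_lit 4) (nat_lit 8) (nat_lit 4) (nat_lit 4) (nat_lit 9) (by decide +kernel)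
theorem L34530 : W_11 (nat_lit 3) (nat_lit 0x200003401b00088000400000000000000000000000000) (nat_lit 0x0) (nat_lit 0x80000000200030000800000000000000000) := T_11 (nat_lit 89) (nat_lit 139) (nat_lit 5) (nat_lit 4) (nat_lit 5) L34529 (by decide +kernel)
theorem L34531 : W_11 (nat_lit 4) (nat_lit 0x200003001b00088000400000000000000000000000000) (nat_lit 0x0) (nat_lit 0xc00080000000200030000800000000000000000) := T_11 (nat_lit 154) (nat_lit 155) (nat_lit 2) (nat_lit 1) (nat_lit 9) L34530 (by decide +kernel)
theorem L34532 : W_11 (nat_lit 2) (nat_lit 0x200003001b00088000400040000000000000000000000) (nat_lit 0x0) (nat_lit 0x80000000000020002000000000000000000) := D_11 (nat_lit 89) (nat_lit 139) (nat_lit 73) (nat_lit 5) (nat_lit 4) (nat_lit 5) (nat_lit 6) (nat_lit 4) (nat_lit 8) (by decide +kernel)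
theorem L34533 : W_11 (nat_lit 3) (nat_lit 0x200003001b00088000400000000000000000000000000) (nat_lit 0x0) (nat_lit 0x80000000800060002000000000000000000) := T_11 (nat_lit 90) (nat_lit 107) (nat_lit 6) (nat_lit 4) (nat_lit 9) L34532 (by decide +kernel)
theorem L34534 : W_11 (nat_lit 7) (nat_lit 0x200003001b00088000000000000000000000000000000) (nat_lit 0x0) (nat_lit 0x4000040010c00080007001e00070002800000000000000000) := Q_11 (nat_lit 106) (C_11 L34522 (C_11 L34527 (C_11 L34531 (C_11 L34533 N_11)))) (by decide +kernel)
theorem L34535 : W_11 (nat_lit 2) (nat_lit 0x4000270003401b8008e000000000000000000000000000000) (nat_lit 0x0) (nat_lit 0xc000200000000000000000000000000000000000000) := D_11 (nat_lit 171) (nat_lit 170) (nat_lit 153) (nat_lit 2) (nat_lit 0) (nat_lit 10) (nat_lit 0) (nat_lit 4) (nat_lit 10) (by decide +kernel)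
theorem L34536 : W_11 (nat_lit 3) (nat_lit 0x4000260003401b8008e000000000000000000000000000000) (nat_lit 0x0) (nat_lit 0x20001c000200000000000000000000000000000000000000) := T_11 (nat_lit 172) (nat_lit 189) (nat_lit 5) (nat_lit 3) (nat_lit 7) L34535 (by decide +kernel)
theorem L34537 : W_11 (nat_lit 4) (nat_lit 0x260003401b8008e000000000000000000000000000000) (nat_lit 0x0) (nat_lit 0x420001c010200000000000000000000000000000000000000) := T_11 (nat_lit 194) (nat_lit 160) (nat_lit 6) (nat_lit 7) (nat_lit 11) L34536 (by decide +kernel)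
theorem L34538 : W_11 (nat_lit 5) (nat_lit 0x260003401b0008e000000000000000000000000000000) (nat_lit 0x0) (nat_lit 0x420001c010200080000000100000000000000000000000000) := T_11 (nat_lit 139) (nat_lit 104) (nat_lit 4) (nat_lit 3) (nat_lit 10) L34537 (by decide +kernel)
theorem L34539 : W_11 (nat_lit 6) (nat_lit 0x260003001b0008e000000000000000000000000000000) (nat_lit 0x0) (nat_lit 0x420001c010e00080000000100000000000000000000000000) := T_11 (nat_lit 154) (nat_lit 155) (nat_lit 2) (nat_lit 1) (nat_lit 9) L34538 (by decide +kernel)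
theorem L34540 : W_11 (nat_lit 7) (nat_lit 0x260003001b0008c000000000000000000000000000000) (nat_lit 0x0) (nat_lit 0x420001c010e00080003000100000000000000000000000000) := T_11 (nat_lit 121) (nat_lit 120) (nat_lit 3) (nat_lit 1) (nat_lit 7) L34539 (by decide +kernel)
theorem L34541 : W_11 (nat_lit 8) (nat_lit 0x260003001b00088000000000000000000000000000000) (nat_lit 0x0) (nat_lit 0x420001c010e00080007000300000000000000000000000000) := T_11 (nat_lit 122) (nat_lit 105) (nat_lit 4) (nat_lit 4) (nat_lit 10) L34540 (by decide +kernel)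
theorem L34542 : W_11 (nat_lit 9) (nat_lit 0x240003001b00088000000000000000000000000000000) (nat_lit 0x0) (nat_lit 0x460003c010e00080007000300000000000000000000000000) := T_11 (nat_lit 173) (nat_lit 190) (nat_lit 5) (nat_lit 4) (nat_lit 7) L34541 (by decide +kernel)
theorem L34543 : W_11 (nat_lit 2) (nat_lit 0x8000000230007801b4008a000000000000000000000000000000) (nat_lit 0x0) (nat_lit 0x5000200000000000000000000000000) := D_11 (nat_lit 122) (nat_lit 105) (nat_lit 120) (nat_lit 6) (nat_lit 2) (nat_lit 10) (nat_lit 3) (nat_lit 1) (nat_lit 7) (by decide +kernel)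
theorem L34544 : W_11 (nat_lit 3) (nat_lit 0x8000000230007801b40088000000000000000000000000000000) (nat_lit 0x0) (nat_lit 0x7000300000000000000000000000000) := T_11 (nat_lit 121) (nat_lit 104) (nat_lit 7) (nat_lit 2) (nat_lit 6) L34543 (by decide +kernel)
theorem L34545 : W_11 (nat_lit 4) (nat_lit 0x8000000220007801b40088000000000000000000000000000000) (nat_lit 0x0) (nat_lit 0x18000000000007000300000000000000000000000000) := T_11 (nat_lit 172) (nat_lit 171) (nat_lit 1) (nat_lit 5) (nat_lit 9) L34544 (by decide +kernel)
theorem L34546 : W_11 (nat_lit 2) (nat_lit 0x220003001bd0082000000000000000000000000000000) (nat_lit 0x0) (nat_lit 0x4000100008000000000000000000000) := D_11 (nat_lit 104) (nat_lit 87) (nat_lit 122) (nat_lit 7) (nat_lit 2) (nat_lit 5) (nat_lit 4) (nat_lit 3) (nat_lit 10) (by decide +kernel)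
theorem L34547 : W_11 (nat_lit 3) (nat_lit 0x200003001bd0082000000000000000000000000000000) (nat_lit 0x0) (nat_lit 0x400020000000000004000100008000000000000000000000) := T_11 (nat_lit 173) (nat_lit 190) (nat_lit 4) (nat_lit 3) (nat_lit 11) L34546 (by decide +kernel)
theorem L34548 : W_11 (nat_lit 4) (nat_lit 0x200003001bd0080000000000000000000000000000000) (nat_lit 0x0) (nat_lit 0x400020000000000007000100008000000000000000000000) := T_11 (nat_lit 121) (nat_lit 120) (nat_lit 0) (nat_lit 5) (nat_lit 8) L34547 (by decide +kernel)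
theorem L34549 : W_11 (nat_lit 5) (nat_lit 0x200003001bc0080000000000000000000000000000000) (nat_lit 0x0) (nat_lit 0x400020000000030007000100008000000000000000000000) := T_11 (nat_lit 136) (nat_lit 137) (nat_lit 3) (nat_lit 0) (nat_lit 8) L34548 (by decide +kernel)
theorem L34550 : W_11 (nat_lit 2) (nat_lit 0x4000200003001be0080000000000000000000000000000000) (nat_lit 0x0) (nat_lit 0x3800000000000000000000000000000) := D_11 (nat_lit 120) (nat_lit 121) (nat_lit 119) (nat_lit 0) (nat_lit 5) (nat_lit 8) (nat_lit 0) (nat_lit 4) (nat_lit 8) (by decide +kernel)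
theorem L34551 : W_11 (nat_lit 3) (nat_lit 0x4000200003001bc0080000000000000000000000000000000) (nat_lit 0x0) (nat_lit 0x30003800000000000000000000000000000) := T_11 (nat_lit 137) (nat_lit 136) (nat_lit 3) (nat_lit 0) (nat_lit 8) L34550 (by decide +kernel)
theorem L34552 : W_11 (nat_lit 4) (nat_lit 0x200003001bc0080000000000000000000000000000000) (nat_lit 0x0) (nat_lit 0x4000000010000030003800000000000000000000000000000) := T_11 (nat_lit 194) (nat_lit 160) (nat_lit 6) (nat_lit 7) (nat_lit 11) L34551 (by decide +kernel)
theorem L34553 : W_11 (nat_lit 4) (nat_lit 0x200003001b00088000000000000000000000000000000) (nat_lit 0x0) (nat_lit 0x20000000080000000c00060002000000000000000000) := T_11 (nat_lit 106) (nat_lit 173) (nat_lit 5) (nat_lit 4) (nat_lit 6) L34533 (by decide +kernel)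
theorem L34554 : W_11 (nat_lit 2) (nat_lit 0x4000270003001b8008e000000000000000000000000000000) (nat_lit 0x0) (nat_lit 0xc004000000000000000000000000000000000000000) := D_11 (nat_lit 171) (nat_lit 158) (nat_lit 170) (nat_lit 2) (nat_lit 1) (nat_lit 10) (nat_lit 2) (nat_lit 0) (nat_lit 10) (by decide +kernel)
theorem L34555 : W_11 (nat_lit 3) (nat_lit 0x4000260003001b8008e000000000000000000000000000000) (nat_lit 0x0) (nat_lit 0x20001c004000000000000000000000000000000000000000) := T_11 (nat_lit 172) (nat_lit 189) (nat_lit 5) (nat_lit 3) (nat_lit 7) L34554 (by decide +kernel)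
theorem L34556 : W_11 (nat_lit 4) (nat_lit 0x4000260003001b0008e000000000000000000000000000000) (nat_lit 0x0) (nat_lit 0x20001c004000080000000100000000000000000000000000) := T_11 (nat_lit 139) (nat_lit 104) (nat_lit 4) (nat_lit 3) (nat_lit 10) L34555 (by decide +kernel)
theorem L34557 : W_11 (nat_lit 5) (nat_lit 0x260003001b0008e000000000000000000000000000000) (nat_lit 0x0) (nat_lit 0x420001c014000080000000100000000000000000000000000) := T_11 (nat_lit 194) (nat_lit 160) (nat_lit 6) (nat_lit 7) (nat_lit 11) L34556 (by decide +kernel)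
theorem L34558 : W_11 (nat_lit 6) (nat_lit 0x260003001b0008c000000000000000000000000000000) (nat_lit 0x0) (nat_lit 0x420001c014000080003000100000000000000000000000000) := T_11 (nat_lit 121) (nat_lit 120) (nat_lit 3) (nat_lit 1) (nat_lit 7) L34557 (by decide +kernel)
theorem L34559 : W_11 (nat_lit 7) (nat_lit 0x260003001b00088000000000000000000000000000000) (nat_lit 0x0) (nat_lit 0x420001c014000080007000300000000000000000000000000) := T_11 (nat_lit 122) (nat_lit 105) (nat_lit 4) (nat_lit 4) (nat_lit 10) L34558 (by decide +kernel)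
theorem L34560 : W_11 (nat_lit 8) (nat_lit 0x240003001b00088000000000000000000000000000000) (nat_lit 0x0) (nat_lit 0x460003c014000080007000300000000000000000000000000) := T_11 (nat_lit 173) (nat_lit 190) (nat_lit 5) (nat_lit 4) (nat_lit 7) L34559 (by decide +kernel)
theorem L34561 : W_11 (nat_lit 2) (nat_lit 0x4000200003801bc0082000300000000000000000000000000) (nat_lit 0x0) (nat_lit 0x50000000000004000000000000000000000000000000) := D_11 (nat_lit 122) (nat_lit 172) (nat_lit 174) (nat_lit 6) (nat_lit 2) (nat_lit 10) (nat_lit 7) (nat_lit 3) (nat_lit 6) (by decide +kernel)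
theorem L34562 : W_11 (nat_lit 3) (nat_lit 0x4000200003801bc0082000100000000000000000000000000) (nat_lit 0x0) (nat_lit 0x50000000000004000200010000000000000000000000) := T_11 (nat_lit 105) (nat_lit 88) (nat_lit 6) (nat_lit 2) (nat_lit 9) L34561 (by decide +kernel)
theorem L34563 : W_11 (nat_lit 4) (nat_lit 0x4000200003801bc0082000000000000000000000000000000) (nat_lit 0x0) (nat_lit 0x50000000000004000300018000000000000000000000) := T_11 (nat_lit 104) (nat_lit 87) (nat_lit 7) (nat_lit 2) (nat_lit 5) L34562 (by decide +kernel)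
theorem L34564 : W_11 (nat_lit 5) (nat_lit 0x4000200003801bc0080000000000000000000000000000000) (nat_lit 0x0) (nat_lit 0x50000000000007000300018000000000000000000000) := T_11 (nat_lit 121) (nat_lit 120) (nat_lit 0) (nat_lit 5) (nat_lit 8) L34563 (by decide +kernel)
theorem L34565 : W_11 (nat_lit 6) (nat_lit 0x4000200003001bc0080000000000000000000000000000000) (nat_lit 0x0) (nat_lit 0x50000c00000007000300018000000000000000000000) := T_11 (nat_lit 155) (nat_lit 154) (nat_lit 2) (nat_lit 1) (nat_lit 9) L34564 (by decide +kernel)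
theorem L34566 : W_11 (nat_lit 7) (nat_lit 0x200003001bc0080000000000000000000000000000000) (nat_lit 0x0) (nat_lit 0x4000050010c00000007000300018000000000000000000000) := T_11 (nat_lit 194) (nat_lit 160) (nat_lit 6) (nat_lit 7) (nat_lit 11) L34565 (by decide +kernel)
theorem L34567 : W_11 (nat_lit 8) (nat_lit 0x200003001b80080000000000000000000000000000000) (nat_lit 0x0) (nat_lit 0x4000050010e00070007800300018000000000000000000000) := Q_11 (nat_lit 138) (C_11 L34552 (C_11 L34508 (C_11 L34566 N_11))) (by decide +kernel)
theorem L34568 : W_11 (nat_lit 2) (nat_lit 0x7c00240003001b00080000000000000000000000000000000) (nat_lit 0x0) (nat_lit 0x1c0000000000000000000000000000000000000000000000000000) := D_11 (nat_lit 211) (nat_lit 210) (nat_lit 212) (nat_lit 3) (nat_lit 3) (nat_lit 11) (nat_lit 3) (nat_lit 4) (nat_lit 11) (by decide +kernel)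
theorem L34569 : W_11 (nat_lit 3) (nat_lit 0x5c00240003001b00080000000000000000000000000000000) (nat_lit 0x0) (nat_lit 0x1c0002000100000000000000000000000000000000000000000000) := T_11 (nat_lit 193) (nat_lit 176) (nat_lit 2) (nat_lit 3) (nat_lit 11) L34568 (by decide +kernel)
theorem L34570 : W_11 (nat_lit 4) (nat_lit 0x5800240003001b00080000000000000000000000000000000) (nat_lit 0x0) (nat_lit 0x1c8002400100000000000000000000000000000000000000000000) := T_11 (nat_lit 190) (nat_lit 207) (nat_lit 5) (nat_lit 4) (nat_lit 8) L34569 (by decide +kernel)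
theorem L34571 : W_11 (nat_lit 5) (nat_lit 0x1800240003001b00080000000000000000000000000000000) (nat_lit 0x0) (nat_lit 0x1c8006400100010000000000000000000000000000000000000000) := T_11 (nat_lit 194) (nat_lit 160) (nat_lit 6) (nat_lit 7) (nat_lit 11) L34570 (by decide +kernel)
theorem L34572 : W_11 (nat_lit 6) (nat_lit 0x800240003001b00080000000000000000000000000000000) (nat_lit 0x0) (nat_lit 0x1e8007400100010000000000000000000000000000000000000000) := T_11 (nat_lit 192) (nat_lit 209) (nat_lit 7) (nat_lit 4) (nat_lit 8) L34571 (by decide +kernel)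
theorem L34573 : W_11 (nat_lit 7) (nat_lit 0x240003001b00080000000000000000000000000000000) (nat_lit 0x0) (nat_lit 0x1f8007c00100010000080004000000000000000000000000000000) := Q_11 (nat_lit 191) (C_11 L34412 (C_11 L34572 N_11)) (by decide +kernel)
theorem L34574 : W_11 (nat_lit 2) (nat_lit 0x10000800240003001b00080000000000000000000000000000000) (nat_lit 0x0) (nat_lit 0x100008000400000000000000000000000000000000000000000000000) := D_11 (nat_lit 207) (nat_lit 224) (nat_lit 190) (nat_lit 5) (nat_lit 4) (nat_lit 9) (nat_lit 5) (nat_lit 4) (nat_lit 8) (by decide +kernel)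
theorem L34575 : W_11 (nat_lit 3) (nat_lit 0x800240003001b00080000000000000000000000000000000) (nat_lit 0x0) (nat_lit 0x100018000400000004000000000000000000000000000000000000000) := T_11 (nat_lit 208) (nat_lit 158) (nat_lit 6) (nat_lit 4) (nat_lit 12) L34574 (by decide +kernel)
theorem L34576 : W_11 (nat_lit 2) (nat_lit 0x10000800240003001b00080000000000000000000000000000000) (nat_lit 0x0) (nat_lit 0x400020001000000000000000000000000000000000000000000000000) := D_11 (nat_lit 209) (nat_lit 192) (nat_lit 226) (nat_lit 7) (nat_lit 4) (nat_lit 8) (nat_lit 7) (nat_lit 4) (nat_lit 9) (by decide +kernel)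
theorem L34577 : W_11 (nat_lit 3) (nat_lit 0x800240003001b00080000000000000000000000000000000) (nat_lit 0x0) (nat_lit 0x400030001000000004000000000000000000000000000000000000000) := T_11 (nat_lit 208) (nat_lit 158) (nat_lit 6) (nat_lit 4) (nat_lit 12) L34576 (by decide +kernel)
theorem L34578 : W_11 (nat_lit 6) (nat_lit 0x200003001b40080000000000000000000000000000000) (nat_lit 0x0) (nat_lit 0x44000200140000b0007800100008000000000000000000000) := Q_11 (nat_lit 139) (C_11 L34552 (C_11 L34549 (C_11 L34506 (C_11 L34517 N_11)))) (by decide +kernel)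
theorem L34579 : W_11 (nat_lit 2) (nat_lit 0x8004000230003801b4008b000000000000000000000000000000) (nat_lit 0x0) (nat_lit 0x10000c000000000000000000000000000000000000000000) := D_11 (nat_lit 171) (nat_lit 170) (nat_lit 188) (nat_lit 2) (nat_lit 0) (nat_lit 10) (nat_lit 5) (nat_lit 2) (nat_lit 7) (by decide +kernel)
theorem L34580 : W_11 (nat_lit 3) (nat_lit 0x8004000220003801b4008b000000000000000000000000000000) (nat_lit 0x0) (nat_lit 0x10001c000000000000000080000000000000000000000000) := T_11 (nat_lit 172) (nat_lit 103) (nat_lit 4) (nat_lit 2) (nat_lit 10) L34579 (by decide +kernel)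
theorem L34581 : W_11 (nat_lit 4) (nat_lit 0x8004000220003801b4008a000000000000000000000000000000) (nat_lit 0x0) (nat_lit 0x10001c000000000005000080000000000000000000000000) := T_11 (nat_lit 120) (nat_lit 122) (nat_lit 3) (nat_lit 1) (nat_lit 7) L34580 (by decide +kernel)
theorem L34582 : W_11 (nat_lit 5) (nat_lit 0x8004000220003801b40088000000000000000000000000000000) (nat_lit 0x0) (nat_lit 0x10001c000000000007000180000000000000000000000000) := T_11 (nat_lit 121) (nat_lit 104) (nat_lit 7) (nat_lit 2) (nat_lit 6) L34581 (by decide +kernel)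
theorem L34583 : W_11 (nat_lit 6) (nat_lit 0x8004000220003001b40088000000000000000000000000000000) (nat_lit 0x0) (nat_lit 0x10001c000c00000007000180000000000000000000000000) := T_11 (nat_lit 155) (nat_lit 154) (nat_lit 2) (nat_lit 1) (nat_lit 9) L34582 (by decide +kernel)
theorem L34584 : W_11 (nat_lit 7) (nat_lit 0x8004000220003001b40080000000000000000000000000000000) (nat_lit 0x0) (nat_lit 0x10001c000c0000000f000580000000000000000000000000) := T_11 (nat_lit 123) (nat_lit 106) (nat_lit 5) (nat_lit 4) (nat_lit 6) L34583 (by decide +kernel)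
theorem L34585 : W_11 (nat_lit 8) (nat_lit 0x4000220003001b40080000000000000000000000000000000) (nat_lit 0x0) (nat_lit 0x800050001c000c0000000f000580000000000000000000000000) := T_11 (nat_lit 207) (nat_lit 190) (nat_lit 6) (nat_lit 3) (nat_lit 12) L34584 (by decide +kernel)
theorem L34586 : W_11 (nat_lit 9) (nat_lit 0x220003001b40080000000000000000000000000000000) (nat_lit 0x0) (nat_lit 0x800450001c010c0000000f000580000000000000000000000000) := T_11 (nat_lit 194) (nat_lit 160) (nat_lit 6) (nat_lit 7) (nat_lit 11) L34585 (by decide +kernel)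
theorem L34587 : W_11 (nat_lit 2) (nat_lit 0x400220003401b40080000000000000000000000000000000) (nat_lit 0x0) (nat_lit 0x80008000400000000000000000000000000) := D_11 (nat_lit 123) (nat_lit 106) (nat_lit 139) (nat_lit 5) (nat_lit 4) (nat_lit 6) (nat_lit 6) (nat_lit 3) (nat_lit 11) (by decide +kernel)
theorem L34588 : W_11 (nat_lit 3) (nat_lit 0x220003401b40080000000000000000000000000000000) (nat_lit 0x0) (nat_lit 0x8000400000000000080008000400000000000000000000000000) := T_11 (nat_lit 190) (nat_lit 207) (nat_lit 6) (nat_lit 3) (nat_lit 12) L34587 (by decide +kernel)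
theorem L34589 : W_11 (nat_lit 4) (nat_lit 0x220003001b40080000000000000000000000000000000) (nat_lit 0x0) (nat_lit 0x8000400000000c00080008000400000000000000000000000000) := T_11 (nat_lit 154) (nat_lit 155) (nat_lit 2) (nat_lit 1) (nat_lit 9) L34588 (by decide +kernel)
theorem L34590 : W_11 (nat_lit 2) (nat_lit 0x8004000230003801b40083000000000000000000000000000000) (nat_lit 0x0) (nat_lit 0x10000c000000000000000000000000000000000000000000) := D_11 (nat_lit 171) (nat_lit 170) (nat_lit 188) (nat_lit 2) (nat_lit 0) (nat_lit 10) (nat_lit 5) (nat_lit 2) (nat_lit 7) (by decide +kernel)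
theorem L34591 : W_11 (nat_lit 3) (nat_lit 0x8004000220003801b40083000000000000000000000000000000) (nat_lit 0x0) (nat_lit 0x10001c000000000000000080000000000000000000000000) := T_11 (nat_lit 172) (nat_lit 103) (nat_lit 4) (nat_lit 2) (nat_lit 10) L34590 (by decide +kernel)
theorem L34592 : W_11 (nat_lit 4) (nat_lit 0x8004000220003801b40082000000000000000000000000000000) (nat_lit 0x0) (nat_lit 0x10001c000000080001000080000000000000000000000000) := T_11 (nat_lit 120) (nat_lit 139) (nat_lit 0) (nat_lit 5) (nat_lit 8) L34591 (by decide +kernel)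
theorem L34593 : W_11 (nat_lit 5) (nat_lit 0x8004000220003801b40080000000000000000000000000000000) (nat_lit 0x0) (nat_lit 0x10001c000000080003000180000000000000000000000000) := T_11 (nat_lit 121) (nat_lit 104) (nat_lit 7) (nat_lit 2) (nat_lit 6) L34592 (by decide +kernel)
theorem L34594 : W_11 (nat_lit 6) (nat_lit 0x8000000220003801b40080000000000000000000000000000000) (nat_lit 0x0) (nat_lit 0x410001c010000080003000180000000000000000000000000) := T_11 (nat_lit 194) (nat_lit 160) (nat_lit 6) (nat_lit 7) (nat_lit 11) L34593 (by decide +kernel)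
theorem L34595 : W_11 (nat_lit 7) (nat_lit 0x8000000220003001b40080000000000000000000000000000000) (nat_lit 0x0) (nat_lit 0x410001c010c00080003000180000000000000000000000000) := T_11 (nat_lit 155) (nat_lit 154) (nat_lit 2) (nat_lit 1) (nat_lit 9) L34594 (by decide +kernel)
theorem L34596 : W_11 (nat_lit 8) (nat_lit 0x220003001b40080000000000000000000000000000000) (nat_lit 0x0) (nat_lit 0x800450001c010c00080003000180000000000000000000000000) := T_11 (nat_lit 207) (nat_lit 190) (nat_lit 6) (nat_lit 3) (nat_lit 12) L34595 (by decide +kernel)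
theorem L34597 : W_11 (nat_lit 2) (nat_lit 0x290007801b40080000000000000000000000000000000) (nat_lit 0x0) (nat_lit 0x20001000000000000000008000000000000000000000000000000) := D_11 (nat_lit 192) (nat_lit 123) (nat_lit 209) (nat_lit 4) (nat_lit 5) (nat_lit 11) (nat_lit 4) (nat_lit 5) (nat_lit 12) (by decide +kernel)
theorem L34598 : W_11 (nat_lit 3) (nat_lit 0x210007801b40080000000000000000000000000000000) (nat_lit 0x0) (nat_lit 0x20001000180000000000008000000000000000000000000000000) := T_11 (nat_lit 175) (nat_lit 176) (nat_lit 3) (nat_lit 2) (nat_lit 9) L34597 (by decide +kernel)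
theorem L34599 : W_11 (nat_lit 4) (nat_lit 0x200007801b40080000000000000000000000000000000) (nat_lit 0x0) (nat_lit 0x20001000198000000000008000000000000000000000000000000) := T_11 (nat_lit 172) (nat_lit 171) (nat_lit 1) (nat_lit 5) (nat_lit 9) L34598 (by decide +kernel)
theorem L34600 : W_11 (nat_lit 5) (nat_lit 0x200003801b40080000000000000000000000000000000) (nat_lit 0x0) (nat_lit 0x20001000198004000020008000000000000000000000000000000) := T_11 (nat_lit 158) (nat_lit 137) (nat_lit 0) (nat_lit 5) (nat_lit 9) L34599 (by decide +kernel)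
theorem L34601 : W_11 (nat_lit 6) (nat_lit 0x200003001b40080000000000000000000000000000000) (nat_lit 0x0) (nat_lit 0x20001000198004c00020008000000000000000000000000000000) := T_11 (nat_lit 155) (nat_lit 154) (nat_lit 2) (nat_lit 1) (nat_lit 9) L34600 (by decide +kernel)
theorem L34602 : W_11 (nat_lit 2) (nat_lit 0x4000200003401b00088000400050000000000000000000000) (nat_lit 0x0) (nat_lit 0x20002800000000000000000) := D_11 (nat_lit 89) (nat_lit 71) (nat_lit 73) (nat_lit 4) (nat_lit 4) (nat_lit 8) (nat_lit 6) (nat_lit 4) (nat_lit 8) (by decide +kernel)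
theorem L34603 : W_11 (nat_lit 3) (nat_lit 0x4000200003401b00088000400010000000000000000000000) (nat_lit 0x0) (nat_lit 0x800060002800000000000000000) := T_11 (nat_lit 90) (nat_lit 107) (nat_lit 6) (nat_lit 4) (nat_lit 9) L34602 (by decide +kernel)
theorem L34604 : W_11 (nat_lit 4) (nat_lit 0x4000200003401b00088000400000000000000000000000000) (nat_lit 0x0) (nat_lit 0xa00070002800000000000000000) := T_11 (nat_lit 88) (nat_lit 105) (nat_lit 4) (nat_lit 4) (nat_lit 9) L34603 (by decide +kernel)
theorem L34605 : W_11 (nat_lit 5) (nat_lit 0x4000200003401b00088000000000000000000000000000000) (nat_lit 0x0) (nat_lit 0x20000000000000000e00070002800000000000000000) := T_11 (nat_lit 106) (nat_lit 173) (nat_lit 5) (nat_lit 4) (nat_lit 6) L34604 (by decide +kernel)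
theorem L34606 : W_11 (nat_lit 6) (nat_lit 0x4000200003001b00088000000000000000000000000000000) (nat_lit 0x0) (nat_lit 0x20000c00000000000e00070002800000000000000000) := T_11 (nat_lit 154) (nat_lit 155) (nat_lit 2) (nat_lit 1) (nat_lit 9) L34605 (by decide +kernel)
theorem L34607 : W_11 (nat_lit 7) (nat_lit 0x200003001b00088000000000000000000000000000000) (nat_lit 0x0) (nat_lit 0x4000020010c00000000000e00070002800000000000000000) := T_11 (nat_lit 194) (nat_lit 160) (nat_lit 6) (nat_lit 7) (nat_lit 11) L34606 (by decide +kernel)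
theorem L34608 : W_11 (nat_lit 2) (nat_lit 0x4000200003001b00088000400050000000000000000000000) (nat_lit 0x0) (nat_lit 0x20002800000000000000000) := D_11 (nat_lit 89) (nat_lit 73) (nat_lit 71) (nat_lit 6) (nat_lit 4) (nat_lit 8) (nat_lit 4) (nat_lit 4) (nat_lit 8) (by decide +kernel)
theorem L34609 : W_11 (nat_lit 3) (nat_lit 0x4000200003001b00088000400040000000000000000000000) (nat_lit 0x0) (nat_lit 0x200030002800000000000000000) := T_11 (nat_lit 88) (nat_lit 105) (nat_lit 4) (nat_lit 4) (nat_lit 9) L34608 (by decide +kernel)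
theorem L34610 : W_11 (nat_lit 4) (nat_lit 0x4000200003001b00088000400000000000000000000000000) (nat_lit 0x0) (nat_lit 0xa00070002800000000000000000) := T_11 (nat_lit 90) (nat_lit 107) (nat_lit 6) (nat_lit 4) (nat_lit 9) L34609 (by decide +kernel)
theorem L34611 : W_11 (nat_lit 5) (nat_lit 0x200003001b00088000400000000000000000000000000) (nat_lit 0x0) (nat_lit 0x4000000010000000000000a00070002800000000000000000) := T_11 (nat_lit 194) (nat_lit 160) (nat_lit 6) (nat_lit 7) (nat_lit 11) L34610 (by decide +kernel)
theorem L34612 : W_11 (nat_lit 2) (nat_lit 0x4000200003001b00088000400020000000000000000000000) (nat_lit 0x0) (nat_lit 0x200010000800000000000000000) := D_11 (nat_lit 88) (nat_lit 105) (nat_lit 71) (nat_lit 4) (nat_lit 4) (nat_lit 9) (nat_lit 4) (nat_lit 4) (nat_lit 8) (by decide +kernel)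
theorem L34613 : W_11 (nat_lit 2) (nat_lit 0x4000200003801bc0086000f00000000000000000000000000) (nat_lit 0x0) (nat_lit 0x80000000c0000000000000000000000) := D_11 (nat_lit 90) (nat_lit 91) (nat_lit 123) (nat_lit 2) (nat_lit 2) (nat_lit 6) (nat_lit 6) (nat_lit 4) (nat_lit 9) (by decide +kernel)
theorem L34614 : W_11 (nat_lit 3) (nat_lit 0x4000200003801bc0086000700000000000000000000000000) (nat_lit 0x0) (nat_lit 0x80018000c0000000000000000000000) := T_11 (nat_lit 107) (nat_lit 108) (nat_lit 1) (nat_lit 6) (nat_lit 6) L34613 (by decide +kernel)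
theorem L34615 : W_11 (nat_lit 4) (nat_lit 0x4000200003801bc0086000300000000000000000000000000) (nat_lit 0x0) (nat_lit 0x8001c000e0000000000000000000000) := T_11 (nat_lit 106) (nat_lit 89) (nat_lit 6) (nat_lit 3) (nat_lit 9) L34614 (by decide +kernel)
theorem L34616 : W_11 (nat_lit 5) (nat_lit 0x4000200003801bc0082000300000000000000000000000000) (nat_lit 0x0) (nat_lit 0x1000000000000c001c000e0000000000000000000000) := T_11 (nat_lit 122) (nat_lit 172) (nat_lit 6) (nat_lit 2) (nat_lit 10) L34615 (by decide +kernel)
theorem L34617 : W_11 (nat_lit 6) (nat_lit 0x4000200003801bc0082000100000000000000000000000000) (nat_lit 0x0) (nat_lit 0x1000000000000c001e000f0000000000000000000000) := T_11 (nat_lit 105) (nat_lit 88) (nat_lit 6) (nat_lit 2) (nat_lit 9) L34616 (by decide +kernel)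
theorem L34618 : W_11 (nat_lit 7) (nat_lit 0x4000200003801bc0082000000000000000000000000000000) (nat_lit 0x0) (nat_lit 0x1000000000000c001f000f8000000000000000000000) := T_11 (nat_lit 104) (nat_lit 87) (nat_lit 7) (nat_lit 2) (nat_lit 5) L34617 (by decide +kernel)
theorem L34619 : W_11 (nat_lit 8) (nat_lit 0x4000200003801bc0080000000000000000000000000000000) (nat_lit 0x0) (nat_lit 0x1000000000000f001f000f8000000000000000000000) := T_11 (nat_lit 121) (nat_lit 120) (nat_lit 0) (nat_lit 5) (nat_lit 8) L34618 (by decide +kernel)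
theorem L34620 : W_11 (nat_lit 9) (nat_lit 0x4000200003001bc0080000000000000000000000000000000) (nat_lit 0x0) (nat_lit 0x10000c0000000f001f000f8000000000000000000000) := T_11 (nat_lit 155) (nat_lit 154) (nat_lit 2) (nat_lit 1) (nat_lit 9) L34619 (by decide +kernel)
theorem L34621 : W_11 (nat_lit 10) (nat_lit 0x200003001bc0080000000000000000000000000000000) (nat_lit 0x0) (nat_lit 0x4000010010c0000000f001f000f8000000000000000000000) := T_11 (nat_lit 194) (nat_lit 160) (nat_lit 6) (nat_lit 7) (nat_lit 11) L34620 (by decide +kernel)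
theorem L34622 : W_11 (nat_lit 11) (nat_lit 0x200003001b40080000000000000000000000000000000) (nat_lit 0x0) (nat_lit 0x4000010010e000b000f801f000f8000000000000000000000) := Q_11 (nat_lit 139) (C_11 L34552 (C_11 L34508 (C_11 L34621 N_11))) (by decide +kernel)
theorem L34623 : W_11 (nat_lit 2) (nat_lit 0x4400220003001b40080000000000000000000000000000000) (nat_lit 0x0) (nat_lit 0x80008000400000000000000000000000000) := D_11 (nat_lit 123) (nat_lit 106) (nat_lit 139) (nat_lit 5) (nat_lit 4) (nat_lit 6) (nat_lit 6) (nat_lit 3) (nat_lit 11) (by decide +kernel)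
theorem L34624 : W_11 (nat_lit 3) (nat_lit 0x4000220003001b40080000000000000000000000000000000) (nat_lit 0x0) (nat_lit 0x8000400000000000080008000400000000000000000000000000) := T_11 (nat_lit 190) (nat_lit 207) (nat_lit 6) (nat_lit 3) (nat_lit 12) L34623 (by decide +kernel)
theorem L34625 : W_11 (nat_lit 4) (nat_lit 0x220003001b40080000000000000000000000000000000) (nat_lit 0x0) (nat_lit 0x8004400000010000080008000400000000000000000000000000) := T_11 (nat_lit 194) (nat_lit 160) (nat_lit 6) (nat_lit 7) (nat_lit 11) L34624 (by decide +kernel)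
theorem L34626 : W_11 (nat_lit 4) (nat_lit 0x4000200002001b00088000c00000000000000000000000000) (nat_lit 0x0) (nat_lit 0x20001000080000000200030000800000000000000000) := T_11 (nat_lit 156) (nat_lit 173) (nat_lit 5) (nat_lit 4) (nat_lit 6) L34520 (by decide +kernel)
theorem L34627 : W_11 (nat_lit 5) (nat_lit 0x4000200002001b00088000400000000000000000000000000) (nat_lit 0x0) (nat_lit 0x20001000080000000a00070000800000000000000000) := T_11 (nat_lit 107) (nat_lit 90) (nat_lit 6) (nat_lit 4) (nat_lit 9) L34626 (by decide +kernel)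
theorem L34628 : W_11 (nat_lit 6) (nat_lit 0x200002001b00088000400000000000000000000000000) (nat_lit 0x0) (nat_lit 0x4000020011000080000000a00070000800000000000000000) := T_11 (nat_lit 194) (nat_lit 160) (nat_lit 6) (nat_lit 7) (nat_lit 11) L34627 (by decide +kernel)
theorem L34629 : W_11 (nat_lit 2) (nat_lit 0x4000200002001b00088000400030000000000000000000000) (nat_lit 0x0) (nat_lit 0x800040002000000000000000000) := D_11 (nat_lit 90) (nat_lit 107) (nat_lit 73) (nat_lit 6) (nat_lit 4) (nat_lit 9) (nat_lit 6) (nat_lit 4) (nat_lit 8) (by decide +kernel)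
theorem L34630 : W_11 (nat_lit 3) (nat_lit 0x4000200002001b00088000400010000000000000000000000) (nat_lit 0x0) (nat_lit 0x800060002800000000000000000) := T_11 (nat_lit 89) (nat_lit 71) (nat_lit 4) (nat_lit 4) (nat_lit 8) L34629 (by decide +kernel)
theorem L34631 : W_11 (nat_lit 4) (nat_lit 0x200002001b00088000400010000000000000000000000) (nat_lit 0x0) (nat_lit 0x4000000010000000000000800060002800000000000000000) := T_11 (nat_lit 194) (nat_lit 160) (nat_lit 6) (nat_lit 7) (nat_lit 11) L34630 (by decide +kernel)
theorem L34632 : W_11 (nat_lit 5) (nat_lit 0x200002001b00088000400000000000000000000000000) (nat_lit 0x0) (nat_lit 0x4000000010000000000000a00070002800000000000000000) := T_11 (nat_lit 88) (nat_lit 105) (nat_lit 4) (nat_lit 4) (nat_lit 9) L34631 (by decide +kernel)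
theorem L34633 : W_11 (nat_lit 2) (nat_lit 0x200003801b8008c000e00000000000000000000000000) (nat_lit 0x0) (nat_lit 0x2003000000000000000000000000000) := D_11 (nat_lit 108) (nat_lit 121) (nat_lit 109) (nat_lit 1) (nat_lit 6) (nat_lit 6) (nat_lit 1) (nat_lit 7) (nat_lit 6) (by decide +kernel)
theorem L34634 : W_11 (nat_lit 3) (nat_lit 0x200003801b80088000e00000000000000000000000000) (nat_lit 0x0) (nat_lit 0x10000000000006003000000000000000000000000000) := T_11 (nat_lit 122) (nat_lit 172) (nat_lit 5) (nat_lit 3) (nat_lit 6) L34633 (by decide +kernel)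
theorem L34635 : W_11 (nat_lit 4) (nat_lit 0x200003001b80088000e00000000000000000000000000) (nat_lit 0x0) (nat_lit 0x10000c00000006003000000000000000000000000000) := T_11 (nat_lit 155) (nat_lit 154) (nat_lit 2) (nat_lit 1) (nat_lit 9) L34634 (by decide +kernel)
theorem L34636 : W_11 (nat_lit 5) (nat_lit 0x200003001b00088000e00000000000000000000000000) (nat_lit 0x0) (nat_lit 0x10000c00080006003000020000000000000000000000) := T_11 (nat_lit 139) (nat_lit 89) (nat_lit 5) (nat_lit 4) (nat_lit 5) L34635 (by decide +kernel)
theorem L34637 : W_11 (nat_lit 6) (nat_lit 0x200002001b00088000e00000000000000000000000000) (nat_lit 0x0) (nat_lit 0x30001c00080006003000020000000000000000000000) := T_11 (nat_lit 156) (nat_lit 173) (nat_lit 5) (nat_lit 4) (nat_lit 6) L34636 (by decide +kernel)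
theorem L34638 : W_11 (nat_lit 7) (nat_lit 0x200002001b00088000c00000000000000000000000000) (nat_lit 0x0) (nat_lit 0x30001c00080006003200030000000000000000000000) := T_11 (nat_lit 105) (nat_lit 88) (nat_lit 4) (nat_lit 4) (nat_lit 9) L34637 (by decide +kernel)
theorem L34639 : W_11 (nat_lit 8) (nat_lit 0x200002001b00088000400000000000000000000000000) (nat_lit 0x0) (nat_lit 0x30001c00080006003a00070000000000000000000000) := T_11 (nat_lit 107) (nat_lit 90) (nat_lit 6) (nat_lit 4) (nat_lit 9) L34638 (by decide +kernel)
theorem L34640 : W_11 (nat_lit 2) (nat_lit 0x4000200003401b0008b000600000000000000000000000000) (nat_lit 0x0) (nat_lit 0x900040000000000000000000000) := D_11 (nat_lit 107) (nat_lit 104) (nat_lit 90) (nat_lit 1) (nat_lit 5) (nat_lit 6) (nat_lit 6) (nat_lit 4) (nat_lit 9) (by decide +kernel)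
theorem L34641 : W_11 (nat_lit 3) (nat_lit 0x4000200003401b0008b000400000000000000000000000000) (nat_lit 0x0) (nat_lit 0xb00050000000000000000000000) := T_11 (nat_lit 105) (nat_lit 88) (nat_lit 4) (nat_lit 4) (nat_lit 9) L34640 (by decide +kernel)
theorem L34642 : W_11 (nat_lit 4) (nat_lit 0x200003401b0008b000400000000000000000000000000) (nat_lit 0x0) (nat_lit 0x4000000010000000000000b00050000000000000000000000) := T_11 (nat_lit 194) (nat_lit 160) (nat_lit 6) (nat_lit 7) (nat_lit 11) L34641 (by decide +kernel)
theorem L34643 : W_11 (nat_lit 5) (nat_lit 0x200003401b0008a000400000000000000000000000000) (nat_lit 0x0) (nat_lit 0x4000000010000000005000b00050000000000000000000000) := T_11 (nat_lit 120) (nat_lit 122) (nat_lit 3) (nat_lit 1) (nat_lit 7) L34642 (by decide +kernel)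
theorem L34644 : W_11 (nat_lit 6) (nat_lit 0x200003001b0008a000400000000000000000000000000) (nat_lit 0x0) (nat_lit 0x4000000010c00000005000b00050000000000000000000000) := T_11 (nat_lit 154) (nat_lit 155) (nat_lit 2) (nat_lit 1) (nat_lit 9) L34643 (by decide +kernel)
theorem L34645 : W_11 (nat_lit 7) (nat_lit 0x200002001b0008a000400000000000000000000000000) (nat_lit 0x0) (nat_lit 0x4000020011c00000005000b00050000000000000000000000) := T_11 (nat_lit 156) (nat_lit 173) (nat_lit 5) (nat_lit 4) (nat_lit 6) L34644 (by decide +kernel)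
theorem L34646 : W_11 (nat_lit 2) (nat_lit 0x200002001b0008b000c00000000000000000000000000) (nat_lit 0x0) (nat_lit 0x300010000000000000000000000) := D_11 (nat_lit 105) (nat_lit 104) (nat_lit 88) (nat_lit 1) (nat_lit 5) (nat_lit 6) (nat_lit 4) (nat_lit 4) (nat_lit 9) (by decide +kernel)
theorem L34647 : W_11 (nat_lit 3) (nat_lit 0x200002001b0008a000c00000000000000000000000000) (nat_lit 0x0) (nat_lit 0x5000300010000000000000000000000) := T_11 (nat_lit 120) (nat_lit 122) (nat_lit 3) (nat_lit 1) (nat_lit 7) L34646 (by decide +kernel)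
theorem L34648 : W_11 (nat_lit 4) (nat_lit 0x200002001b0008a000400000000000000000000000000) (nat_lit 0x0) (nat_lit 0x5000b00050000000000000000000000) := T_11 (nat_lit 107) (nat_lit 90) (nat_lit 6) (nat_lit 4) (nat_lit 9) L34647 (by decide +kernel)
theorem L34649 : W_11 (nat_lit 2) (nat_lit 0x4000200003401b0008a000f00008000000000000000000000) (nat_lit 0x0) (nat_lit 0xe0000000000000000000000000000000000) := D_11 (nat_lit 138) (nat_lit 137) (nat_lit 139) (nat_lit 5) (nat_lit 2) (nat_lit 5) (nat_lit 7) (nat_lit 2) (nat_lit 5) (by decide +kernel)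
theorem L34650 : W_11 (nat_lit 3) (nat_lit 0x4000200003401b0008a000f00000000000000000000000000) (nat_lit 0x0) (nat_lit 0xe000000000000c000000000000000000000) := T_11 (nat_lit 87) (nat_lit 86) (nat_lit 0) (nat_lit 5) (nat_lit 6) L34649 (by decide +kernel)
theorem L34651 : W_11 (nat_lit 4) (nat_lit 0x4000200003401b0008a000e00000000000000000000000000) (nat_lit 0x0) (nat_lit 0xe000100010000c000000000000000000000) := T_11 (nat_lit 104) (nat_lit 120) (nat_lit 1) (nat_lit 5) (nat_lit 6) L34650 (by decide +kernel)
theorem L34652 : W_11 (nat_lit 5) (nat_lit 0x4000200003401b0008a000c00000000000000000000000000) (nat_lit 0x0) (nat_lit 0xe000100030001c000000000000000000000) := T_11 (nat_lit 105) (nat_lit 88) (nat_lit 4) (nat_lit 4) (nat_lit 9) L34651 (by decide +kernel)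
theorem L34653 : W_11 (nat_lit 6) (nat_lit 0x200003401b0008a000c00000000000000000000000000) (nat_lit 0x0) (nat_lit 0x40000000100000e000100030001c000000000000000000000) := T_11 (nat_lit 194) (nat_lit 160) (nat_lit 6) (nat_lit 7) (nat_lit 11) L34652 (by decide +kernel)
theorem L34654 : W_11 (nat_lit 7) (nat_lit 0x200003401b0008a000400000000000000000000000000) (nat_lit 0x0) (nat_lit 0x40000000100000e0001000b0005c000000000000000000000) := T_11 (nat_lit 107) (nat_lit 90) (nat_lit 6) (nat_lit 4) (nat_lit 9) L34653 (by decide +kernel)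
theorem L34655 : W_11 (nat_lit 8) (nat_lit 0x200003001b0008a000400000000000000000000000000) (nat_lit 0x0) (nat_lit 0x4000000010c000e0001000b0005c000000000000000000000) := T_11 (nat_lit 154) (nat_lit 155) (nat_lit 2) (nat_lit 1) (nat_lit 9) L34654 (by decide +kernel)
theorem L34656 : W_11 (nat_lit 9) (nat_lit 0x200002001b0008a000400000000000000000000000000) (nat_lit 0x0) (nat_lit 0x4000020011c000e0001000b0005c000000000000000000000) := T_11 (nat_lit 156) (nat_lit 173) (nat_lit 5) (nat_lit 4) (nat_lit 6) L34655 (by decide +kernel)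
theorem L34657 : W_11 (nat_lit 2) (nat_lit 0x200003401ba008b000700000000000000000000000000) (nat_lit 0x0) (nat_lit 0x800080008000000000000000000000) := D_11 (nat_lit 103) (nat_lit 119) (nat_lit 87) (nat_lit 1) (nat_lit 4) (nat_lit 6) (nat_lit 6) (nat_lit 1) (nat_lit 9) (by decide +kernel)
theorem L34658 : W_11 (nat_lit 3) (nat_lit 0x200003401b8008b000700000000000000000000000000) (nat_lit 0x0) (nat_lit 0x8000000020000800080008000000000000000000000) := T_11 (nat_lit 137) (nat_lit 171) (nat_lit 6) (nat_lit 1) (nat_lit 10) L34657 (by decide +kernel)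
theorem L34659 : W_11 (nat_lit 4) (nat_lit 0x200003401b0008b000700000000000000000000000000) (nat_lit 0x0) (nat_lit 0x80000000e0000800080008000000000000000000000) := T_11 (nat_lit 139) (nat_lit 138) (nat_lit 0) (nat_lit 5) (nat_lit 8) L34658 (by decide +kernel)
theorem L34660 : W_11 (nat_lit 5) (nat_lit 0x200003401b0008b000600000000000000000000000000) (nat_lit 0x0) (nat_lit 0x80000000e0000800980008000000000000000000000) := T_11 (nat_lit 104) (nat_lit 107) (nat_lit 1) (nat_lit 5) (nat_lit 6) L34659 (by decide +kernel)
theorem L34661 : W_11 (nat_lit 6) (nat_lit 0x200003401b0008a000600000000000000000000000000) (nat_lit 0x0) (nat_lit 0x80000000e0005800980008000000000000000000000) := T_11 (nat_lit 120) (nat_lit 122) (nat_lit 3) (nat_lit 1) (nat_lit 7) L34660 (by decide +kernel)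
theorem L34662 : W_11 (nat_lit 7) (nat_lit 0x200003001b0008a000600000000000000000000000000) (nat_lit 0x0) (nat_lit 0x8000c000e0005800980008000000000000000000000) := T_11 (nat_lit 154) (nat_lit 155) (nat_lit 2) (nat_lit 1) (nat_lit 9) L34661 (by decide +kernel)
theorem L34663 : W_11 (nat_lit 8) (nat_lit 0x200002001b0008a000600000000000000000000000000) (nat_lit 0x0) (nat_lit 0x28001c000e0005800980008000000000000000000000) := T_11 (nat_lit 156) (nat_lit 173) (nat_lit 5) (nat_lit 4) (nat_lit 6) L34662 (by decide +kernel)
theorem L34664 : W_11 (nat_lit 9) (nat_lit 0x200002001b0008a000400000000000000000000000000) (nat_lit 0x0) (nat_lit 0x28001c000e0005800b80018000000000000000000000) := T_11 (nat_lit 105) (nat_lit 88) (nat_lit 4) (nat_lit 4) (nat_lit 9) L34663 (by decide +kernel)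
theorem L34665 : W_11 (nat_lit 2) (nat_lit 0x4200210003801b4008b000c00000000000000000000000000) (nat_lit 0x0) (nat_lit 0x2000100008000000000000000000000000000000000000000000) := D_11 (nat_lit 188) (nat_lit 171) (nat_lit 205) (nat_lit 5) (nat_lit 2) (nat_lit 7) (nat_lit 5) (nat_lit 2) (nat_lit 8) (by decide +kernel)
theorem L34666 : W_11 (nat_lit 3) (nat_lit 0x4000210003801b4008b000c00000000000000000000000000) (nat_lit 0x0) (nat_lit 0x2000300008000000020000000000000000000000000000000000) := T_11 (nat_lit 189) (nat_lit 137) (nat_lit 4) (nat_lit 2) (nat_lit 11) L34665 (by decide +kernel)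
theorem L34667 : W_11 (nat_lit 4) (nat_lit 0x4000200003801b4008b000c00000000000000000000000000) (nat_lit 0x0) (nat_lit 0x2000300018000000020000000080000000000000000000000000) := T_11 (nat_lit 172) (nat_lit 103) (nat_lit 4) (nat_lit 2) (nat_lit 10) L34666 (by decide +kernel)
theorem L34668 : W_11 (nat_lit 5) (nat_lit 0x4000200003001b4008b000c00000000000000000000000000) (nat_lit 0x0) (nat_lit 0x2000300018000c00020000000080000000000000000000000000) := T_11 (nat_lit 155) (nat_lit 154) (nat_lit 2) (nat_lit 1) (nat_lit 9) L34667 (by decide +kernel)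
theorem L34669 : W_11 (nat_lit 6) (nat_lit 0x4000200002001b4008b000c00000000000000000000000000) (nat_lit 0x0) (nat_lit 0x2000300038001c00020000000080000000000000000000000000) := T_11 (nat_lit 156) (nat_lit 173) (nat_lit 5) (nat_lit 4) (nat_lit 6) L34668 (by decide +kernel)
theorem L34670 : W_11 (nat_lit 7) (nat_lit 0x4000200002001b0008b000c00000000000000000000000000) (nat_lit 0x0) (nat_lit 0x2000300038001c000e0000000080000000000000000000000000) := T_11 (nat_lit 138) (nat_lit 139) (nat_lit 0) (nat_lit 5) (nat_lit 8) L34669 (by decide +kernel)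
theorem L34671 : W_11 (nat_lit 8) (nat_lit 0x4000200002001b0008a000c00000000000000000000000000) (nat_lit 0x0) (nat_lit 0x2000300038001c000e0005000080000000000000000000000000) := T_11 (nat_lit 120) (nat_lit 122) (nat_lit 3) (nat_lit 1) (nat_lit 7) L34670 (by decide +kernel)
theorem L34672 : W_11 (nat_lit 9) (nat_lit 0x4000200002001b0008a000400000000000000000000000000) (nat_lit 0x0) (nat_lit 0x2000300038001c000e0005000880040000000000000000000000) := T_11 (nat_lit 107) (nat_lit 90) (nat_lit 6) (nat_lit 4) (nat_lit 9) L34671 (by decide +kernel)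
theorem L34673 : W_11 (nat_lit 10) (nat_lit 0x200002001b0008a000400000000000000000000000000) (nat_lit 0x0) (nat_lit 0x2004300038011c000e0005000880040000000000000000000000) := T_11 (nat_lit 194) (nat_lit 160) (nat_lit 6) (nat_lit 7) (nat_lit 11) L34672 (by decide +kernel)
theorem L34674 : W_11 (nat_lit 2) (nat_lit 0x4200210003801b4008b000600000000000000000000000000) (nat_lit 0x0) (nat_lit 0x2000100008000000000000000000000000000000000000000000) := D_11 (nat_lit 188) (nat_lit 171) (nat_lit 205) (nat_lit 5) (nat_lit 2) (nat_lit 7) (nat_lit 5) (nat_lit 2) (nat_lit 8) (by decide +kernel)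
theorem L34675 : W_11 (nat_lit 3) (nat_lit 0x4000210003801b4008b000600000000000000000000000000) (nat_lit 0x0) (nat_lit 0x2000300008000000020000000000000000000000000000000000) := T_11 (nat_lit 189) (nat_lit 137) (nat_lit 4) (nat_lit 2) (nat_lit 11) L34674 (by decide +kernel)
theorem L34676 : W_11 (nat_lit 4) (nat_lit 0x4000200003801b4008b000600000000000000000000000000) (nat_lit 0x0) (nat_lit 0x2000300018000000020000000080000000000000000000000000) := T_11 (nat_lit 172) (nat_lit 103) (nat_lit 4) (nat_lit 2) (nat_lit 10) L34675 (by decide +kernel)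
theorem L34677 : W_11 (nat_lit 5) (nat_lit 0x4000200003801b0008b000600000000000000000000000000) (nat_lit 0x0) (nat_lit 0x20003000180000000e0000000080000000000000000000000000) := T_11 (nat_lit 138) (nat_lit 139) (nat_lit 0) (nat_lit 5) (nat_lit 8) L34676 (by decide +kernel)
theorem L34678 : W_11 (nat_lit 6) (nat_lit 0x4000200003801b0008a000600000000000000000000000000) (nat_lit 0x0) (nat_lit 0x20003000180000000e0005000080000000000000000000000000) := T_11 (nat_lit 120) (nat_lit 122) (nat_lit 3) (nat_lit 1) (nat_lit 7) L34677 (by decide +kernel)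
theorem L34679 : W_11 (nat_lit 7) (nat_lit 0x4000200003801b0008a000400000000000000000000000000) (nat_lit 0x0) (nat_lit 0x20003000180000000e0005000280010000000000000000000000) := T_11 (nat_lit 105) (nat_lit 88) (nat_lit 4) (nat_lit 4) (nat_lit 9) L34678 (by decide +kernel)
theorem L34680 : W_11 (nat_lit 8) (nat_lit 0x200003801b0008a000400000000000000000000000000) (nat_lit 0x0) (nat_lit 0x20043000180100000e0005000280010000000000000000000000) := T_11 (nat_lit 194) (nat_lit 160) (nat_lit 6) (nat_lit 7) (nat_lit 11) L34679 (by decide +kernel)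
theorem L34681 : W_11 (nat_lit 9) (nat_lit 0x200003001b0008a000400000000000000000000000000) (nat_lit 0x0) (nat_lit 0x2004300018010c000e0005000280010000000000000000000000) := T_11 (nat_lit 155) (nat_lit 154) (nat_lit 2) (nat_lit 1) (nat_lit 9) L34680 (by decide +kernel)
theorem L34682 : W_11 (nat_lit 10) (nat_lit 0x200002001b0008a000400000000000000000000000000) (nat_lit 0x0) (nat_lit 0x2004300038011c000e0005000280010000000000000000000000) := T_11 (nat_lit 156) (nat_lit 173) (nat_lit 5) (nat_lit 4) (nat_lit 6) L34681 (by decide +kernel)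
theorem L34683 : W_11 (nat_lit 2) (nat_lit 0x4000200003401b0008a003e00000000000000000000000000) (nat_lit 0x0) (nat_lit 0x380000000000000000000000) := D_11 (nat_lit 92) (nat_lit 93) (nat_lit 91) (nat_lit 2) (nat_lit 4) (nat_lit 6) (nat_lit 2) (nat_lit 3) (nat_lit 6) (by decide +kernel)
theorem L34684 : W_11 (nat_lit 3) (nat_lit 0x4000200003401b0008a001e00000000000000000000000000) (nat_lit 0x0) (nat_lit 0x40002000380000000000000000000000) := T_11 (nat_lit 109) (nat_lit 126) (nat_lit 3) (nat_lit 4) (nat_lit 6) L34683 (by decide +kernel)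
theorem L34685 : W_11 (nat_lit 4) (nat_lit 0x4000200003401b0008a000e00000000000000000000000000) (nat_lit 0x0) (nat_lit 0x44003000380000000000000000000000) := T_11 (nat_lit 108) (nat_lit 122) (nat_lit 1) (nat_lit 6) (nat_lit 6) L34684 (by decide +kernel)
theorem L34686 : W_11 (nat_lit 5) (nat_lit 0x4000200003401b0008a000c00000000000000000000000000) (nat_lit 0x0) (nat_lit 0x44003200390000000000000000000000) := T_11 (nat_lit 105) (nat_lit 88) (nat_lit 4) (nat_lit 4) (nat_lit 9) L34685 (by decide +kernel)
theorem L34687 : W_11 (nat_lit 6) (nat_lit 0x200003401b0008a000c00000000000000000000000000) (nat_lit 0x0) (nat_lit 0x4000000010000000044003200390000000000000000000000) := T_11 (nat_lit 194) (nat_lit 160) (nat_lit 6) (nat_lit 7) (nat_lit 11) L34686 (by decide +kernel)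
theorem L34688 : W_11 (nat_lit 7) (nat_lit 0x200003001b0008a000c00000000000000000000000000) (nat_lit 0x0) (nat_lit 0x4000000010c00000044003200390000000000000000000000) := T_11 (nat_lit 154) (nat_lit 155) (nat_lit 2) (nat_lit 1) (nat_lit 9) L34687 (by decide +kernel)
theorem L34689 : W_11 (nat_lit 8) (nat_lit 0x200002001b0008a000c00000000000000000000000000) (nat_lit 0x0) (nat_lit 0x4000020011c00000044003200390000000000000000000000) := T_11 (nat_lit 156) (nat_lit 173) (nat_lit 5) (nat_lit 4) (nat_lit 6) L34688 (by decide +kernel)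
theorem L34690 : W_11 (nat_lit 9) (nat_lit 0x200002001b0008a000400000000000000000000000000) (nat_lit 0x0) (nat_lit 0x4000020011c00000044003a003d0000000000000000000000) := T_11 (nat_lit 107) (nat_lit 90) (nat_lit 6) (nat_lit 4) (nat_lit 9) L34689 (by decide +kernel)
theorem L34691 : W_11 (nat_lit 11) (nat_lit 0x200002001b00088000400000000000000000000000000) (nat_lit 0x0) (nat_lit 0x2004300038011c000e0047803b803dc000000000000000000000) := Q_11 (nat_lit 121) (C_11 L34645 (C_11 L34648 (C_11 L34656 (C_11 L34664 (C_11 L34673 (C_11 L34682 (C_11 L34690 N_11))))))) (by decide +kernel)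
theorem L34692 : W_11 (nat_lit 2) (nat_lit 0x4000200003801b8008c000780000000000000000000000000) (nat_lit 0x0) (nat_lit 0x3800000000000000000000000000000) := D_11 (nat_lit 120) (nat_lit 121) (nat_lit 119) (nat_lit 3) (nat_lit 1) (nat_lit 7) (nat_lit 1) (nat_lit 4) (nat_lit 6) (by decide +kernel)
theorem L34693 : W_11 (nat_lit 3) (nat_lit 0x4000200003801b8008c000700000000000000000000000000) (nat_lit 0x0) (nat_lit 0x38000c0000000000000000000000000) := T_11 (nat_lit 103) (nat_lit 102) (nat_lit 3) (nat_lit 0) (nat_lit 6) L34692 (by decide +kernel)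
theorem L34694 : W_11 (nat_lit 4) (nat_lit 0x4000200003801b8008c000600000000000000000000000000) (nat_lit 0x0) (nat_lit 0x38001c0008000000000000000000000) := T_11 (nat_lit 104) (nat_lit 87) (nat_lit 4) (nat_lit 3) (nat_lit 9) L34693 (by decide +kernel)
theorem L34695 : W_11 (nat_lit 5) (nat_lit 0x4000200003801b80088000600000000000000000000000000) (nat_lit 0x0) (nat_lit 0x100000000000078001c0008000000000000000000000) := T_11 (nat_lit 122) (nat_lit 172) (nat_lit 5) (nat_lit 3) (nat_lit 6) L34694 (by decide +kernel)
theorem L34696 : W_11 (nat_lit 6) (nat_lit 0x200003801b80088000600000000000000000000000000) (nat_lit 0x0) (nat_lit 0x40000100100000000078001c0008000000000000000000000) := T_11 (nat_lit 194) (nat_lit 160) (nat_lit 6) (nat_lit 7) (nat_lit 11) L34695 (by decide +kernel)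
theorem L34697 : W_11 (nat_lit 7) (nat_lit 0x200003001b80088000600000000000000000000000000) (nat_lit 0x0) (nat_lit 0x4000010010c000000078001c0008000000000000000000000) := T_11 (nat_lit 155) (nat_lit 154) (nat_lit 2) (nat_lit 1) (nat_lit 9) L34696 (by decide +kernel)
theorem L34698 : W_11 (nat_lit 8) (nat_lit 0x200003001b00088000600000000000000000000000000) (nat_lit 0x0) (nat_lit 0x4000010010c000800078001c0028000000000000000000000) := T_11 (nat_lit 139) (nat_lit 89) (nat_lit 5) (nat_lit 4) (nat_lit 5) L34697 (by decide +kernel)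
theorem L34699 : W_11 (nat_lit 9) (nat_lit 0x200002001b00088000600000000000000000000000000) (nat_lit 0x0) (nat_lit 0x4000030011c000800078001c0028000000000000000000000) := T_11 (nat_lit 156) (nat_lit 173) (nat_lit 5) (nat_lit 4) (nat_lit 6) L34698 (by decide +kernel)
theorem L34700 : W_11 (nat_lit 10) (nat_lit 0x200002001b00088000400000000000000000000000000) (nat_lit 0x0) (nat_lit 0x4000030011c000800078003c0038000000000000000000000) := T_11 (nat_lit 105) (nat_lit 88) (nat_lit 4) (nat_lit 4) (nat_lit 9) L34699 (by decide +kernel)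
theorem L34701 : W_11 (nat_lit 2) (nat_lit 0x4000200003001b00088000400040000000000000000000000) (nat_lit 0x0) (nat_lit 0x80000000000020002000000000000000000) := D_11 (nat_lit 89) (nat_lit 139) (nat_lit 73) (nat_lit 5) (nat_lit 4) (nat_lit 5) (nat_lit 6) (nat_lit 4) (nat_lit 8) (by decide +kernel)
theorem L34702 : W_11 (nat_lit 3) (nat_lit 0x4000200002001b00088000400040000000000000000000000) (nat_lit 0x0) (nat_lit 0x20001000080000000000020002000000000000000000) := T_11 (nat_lit 156) (nat_lit 173) (nat_lit 5) (nat_lit 4) (nat_lit 6) L34701 (by decide +kernel)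
theorem L34703 : W_11 (nat_lit 4) (nat_lit 0x4000200002001b00088000400000000000000000000000000) (nat_lit 0x0) (nat_lit 0x20001000080000000800060002000000000000000000) := T_11 (nat_lit 90) (nat_lit 107) (nat_lit 6) (nat_lit 4) (nat_lit 9) L34702 (by decide +kernel)
theorem L34704 : W_11 (nat_lit 5) (nat_lit 0x200002001b00088000400000000000000000000000000) (nat_lit 0x0) (nat_lit 0x4000020011000080000000800060002000000000000000000) := T_11 (nat_lit 194) (nat_lit 160) (nat_lit 6) (nat_lit 7) (nat_lit 11) L34703 (by decide +kernel)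
theorem L34705 : W_11 (nat_lit 12) (nat_lit 0x200002001b00088000000000000000000000000000000) (nat_lit 0x0) (nat_lit 0x2004300038011c000e0047803fc03fc002800000000000000000) := Q_11 (nat_lit 106) (C_11 L34628 (C_11 L34632 (C_11 L34639 (C_11 L34691 (C_11 L34700 (C_11 L34704 N_11)))))) (by decide +kernel)
theorem L34706 : W_11 (nat_lit 2) (nat_lit 0x200002001b00088000400000000000000000000000000) (nat_lit 0x0) (nat_lit 0x80004000000000000000020000000000000000000000) := D_11 (nat_lit 158) (nat_lit 89) (nat_lit 175) (nat_lit 7) (nat_lit 4) (nat_lit 5) (nat_lit 7) (nat_lit 4) (nat_lit 6) (by decide +kernel)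
theorem L34707 : W_11 (nat_lit 2) (nat_lit 0x200003801bc0082000000000000000000000000000000) (nat_lit 0x0) (nat_lit 0x20000000000000000100008000000000000000000000) := D_11 (nat_lit 104) (nat_lit 87) (nat_lit 173) (nat_lit 7) (nat_lit 2) (nat_lit 5) (nat_lit 7) (nat_lit 2) (nat_lit 6) (by decide +kernel)
theorem L34708 : W_11 (nat_lit 3) (nat_lit 0x200003001bc0082000000000000000000000000000000) (nat_lit 0x0) (nat_lit 0x20000c00000000000100008000000000000000000000) := T_11 (nat_lit 155) (nat_lit 154) (nat_lit 2) (nat_lit 1) (nat_lit 9) L34707 (by decide +kernel)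
theorem L34709 : W_11 (nat_lit 4) (nat_lit 0x200003001bc0080000000000000000000000000000000) (nat_lit 0x0) (nat_lit 0x20000c00000003000100008000000000000000000000) := T_11 (nat_lit 121) (nat_lit 120) (nat_lit 0) (nat_lit 5) (nat_lit 8) L34708 (by decide +kernel)
theorem L34710 : W_11 (nat_lit 2) (nat_lit 0x200003001be0080000000000000000000000000000000) (nat_lit 0x0) (nat_lit 0x3800000000000000000000000000000) := D_11 (nat_lit 120) (nat_lit 121) (nat_lit 119) (nat_lit 0) (nat_lit 5) (nat_lit 8) (nat_lit 0) (nat_lit 4) (nat_lit 8) (by decide +kernel)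
theorem L34711 : W_11 (nat_lit 3) (nat_lit 0x200003001bc0080000000000000000000000000000000) (nat_lit 0x0) (nat_lit 0x30003800000000000000000000000000000) := T_11 (nat_lit 137) (nat_lit 136) (nat_lit 3) (nat_lit 0) (nat_lit 8) L34710 (by decide +kernel)
theorem L34712 : W_11 (nat_lit 5) (nat_lit 0x200003001b80080000000000000000000000000000000) (nat_lit 0x0) (nat_lit 0x20000e00070003800100008000000000000000000000) := Q_11 (nat_lit 138) (C_11 L34709 (C_11 L34508 (C_11 L34711 N_11))) (by decide +kernel)
theorem L34713 : W_11 (nat_lit 2) (nat_lit 0x240006001b00088000600000000000000000000000000) (nat_lit 0x0) (nat_lit 0x400020001000000000000000000000000000000000000000) := D_11 (nat_lit 173) (nat_lit 156) (nat_lit 190) (nat_lit 5) (nat_lit 4) (nat_lit 6) (nat_lit 5) (nat_lit 4) (nat_lit 7) (by decide +kernel)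
theorem L34714 : W_11 (nat_lit 3) (nat_lit 0x200006001b00088000600000000000000000000000000) (nat_lit 0x0) (nat_lit 0x400060001000000004000000000000000000000000000000) := T_11 (nat_lit 174) (nat_lit 122) (nat_lit 4) (nat_lit 4) (nat_lit 10) L34713 (by decide +kernel)
theorem L34715 : W_11 (nat_lit 4) (nat_lit 0x200002001b00088000600000000000000000000000000) (nat_lit 0x0) (nat_lit 0x4000e0005000000004000000000000000000000000000000) := T_11 (nat_lit 158) (nat_lit 175) (nat_lit 7) (nat_lit 4) (nat_lit 6) L34714 (by decide +kernel)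
theorem L34716 : W_11 (nat_lit 5) (nat_lit 0x200002001b00088000400000000000000000000000000) (nat_lit 0x0) (nat_lit 0x4000e0005000000004000200010000000000000000000000) := T_11 (nat_lit 105) (nat_lit 88) (nat_lit 4) (nat_lit 4) (nat_lit 9) L34715 (by decide +kernel)
theorem L34717 : W_11 (nat_lit 2) (nat_lit 0x4000280003401b00088000c00000000000000000000000000) (nat_lit 0x0) (nat_lit 0x1000140000000000000000000000000000000000000000000) := D_11 (nat_lit 174) (nat_lit 192) (nat_lit 176) (nat_lit 7) (nat_lit 4) (nat_lit 7) (nat_lit 0) (nat_lit 7) (nat_lit 10) (by decide +kernel)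
theorem L34718 : W_11 (nat_lit 3) (nat_lit 0x4000200003401b00088000c00000000000000000000000000) (nat_lit 0x0) (nat_lit 0x10001c0004000000000000000000000000000000000000000) := T_11 (nat_lit 175) (nat_lit 158) (nat_lit 7) (nat_lit 4) (nat_lit 6) L34717 (by decide +kernel)
theorem L34719 : W_11 (nat_lit 4) (nat_lit 0x4000200003401b00088000400000000000000000000000000) (nat_lit 0x0) (nat_lit 0x10001c0004000000000000800040000000000000000000000) := T_11 (nat_lit 107) (nat_lit 90) (nat_lit 6) (nat_lit 4) (nat_lit 9) L34718 (by decide +kernel)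
theorem L34720 : W_11 (nat_lit 5) (nat_lit 0x4000200003001b00088000400000000000000000000000000) (nat_lit 0x0) (nat_lit 0x10001c0004c00000000000800040000000000000000000000) := T_11 (nat_lit 154) (nat_lit 155) (nat_lit 2) (nat_lit 1) (nat_lit 9) L34719 (by decide +kernel)
theorem L34721 : W_11 (nat_lit 6) (nat_lit 0x4000200002001b00088000400000000000000000000000000) (nat_lit 0x0) (nat_lit 0x10001e0005c00000000000800040000000000000000000000) := T_11 (nat_lit 156) (nat_lit 173) (nat_lit 5) (nat_lit 4) (nat_lit 6) L34720 (by decide +kernel)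
theorem L34722 : W_11 (nat_lit 7) (nat_lit 0x200002001b00088000400000000000000000000000000) (nat_lit 0x0) (nat_lit 0x50001e0015c00000000000800040000000000000000000000) := T_11 (nat_lit 194) (nat_lit 160) (nat_lit 6) (nat_lit 7) (nat_lit 11) L34721 (by decide +kernel)
theorem L34723 : W_11 (nat_lit 2) (nat_lit 0x800240002001b0008c000000000000000000000000000000) (nat_lit 0x0) (nat_lit 0x8000400020000000000000000000000000000000000000000000) := D_11 (nat_lit 190) (nat_lit 173) (nat_lit 207) (nat_lit 5) (nat_lit 4) (nat_lit 7) (nat_lit 5) (nat_lit 4) (nat_lit 8) (by decide +kernel)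
theorem L34724 : W_11 (nat_lit 3) (nat_lit 0x240002001b0008c000000000000000000000000000000) (nat_lit 0x0) (nat_lit 0x8000c00020000000080000000000000000000000000000000000) := T_11 (nat_lit 191) (nat_lit 139) (nat_lit 4) (nat_lit 4) (nat_lit 11) L34723 (by decide +kernel)
theorem L34725 : W_11 (nat_lit 4) (nat_lit 0x200003401b00088000c00000000000000000000000000) (nat_lit 0x0) (nat_lit 0x40000000000007001200010000000000000000000000) := T_11 (nat_lit 105) (nat_lit 88) (nat_lit 4) (nat_lit 4) (nat_lit 9) L34524 (by decide +kernel)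
theorem L34726 : W_11 (nat_lit 5) (nat_lit 0x200003001b00088000c00000000000000000000000000) (nat_lit 0x0) (nat_lit 0x40000c00000007001200010000000000000000000000) := T_11 (nat_lit 154) (nat_lit 155) (nat_lit 2) (nat_lit 1) (nat_lit 9) L34725 (by decide +kernel)
theorem L34727 : W_11 (nat_lit 6) (nat_lit 0x200002001b00088000c00000000000000000000000000) (nat_lit 0x0) (nat_lit 0x60001c00000007001200010000000000000000000000) := T_11 (nat_lit 156) (nat_lit 173) (nat_lit 5) (nat_lit 4) (nat_lit 6) L34726 (by decide +kernel)
theorem L34728 : W_11 (nat_lit 7) (nat_lit 0x200002001b00088000400000000000000000000000000) (nat_lit 0x0) (nat_lit 0x60001c00000007001a00050000000000000000000000) := T_11 (nat_lit 107) (nat_lit 90) (nat_lit 6) (nat_lit 4) (nat_lit 9) L34727 (by decide +kernel)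
theorem L34729 : W_11 (nat_lit 2) (nat_lit 0x4000240002001b00088000600000000000000000000000000) (nat_lit 0x0) (nat_lit 0x400020001000000000000000000000000000000000000000) := D_11 (nat_lit 173) (nat_lit 156) (nat_lit 190) (nat_lit 5) (nat_lit 4) (nat_lit 6) (nat_lit 5) (nat_lit 4) (nat_lit 7) (by decide +kernel)
theorem L34730 : W_11 (nat_lit 3) (nat_lit 0x4000200002001b00088000600000000000000000000000000) (nat_lit 0x0) (nat_lit 0x400060001000000004000000000000000000000000000000) := T_11 (nat_lit 174) (nat_lit 122) (nat_lit 4) (nat_lit 4) (nat_lit 10) L34729 (by decide +kernel)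
theorem L34731 : W_11 (nat_lit 4) (nat_lit 0x200002001b00088000600000000000000000000000000) (nat_lit 0x0) (nat_lit 0x4400060011000000004000000000000000000000000000000) := T_11 (nat_lit 194) (nat_lit 160) (nat_lit 6) (nat_lit 7) (nat_lit 11) L34730 (by decide +kernel)
theorem L34732 : W_11 (nat_lit 5) (nat_lit 0x200002001b00088000400000000000000000000000000) (nat_lit 0x0) (nat_lit 0x4400060011000000004000200010000000000000000000000) := T_11 (nat_lit 105) (nat_lit 88) (nat_lit 4) (nat_lit 4) (nat_lit 9) L34731 (by decide +kernel)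
theorem L34733 : W_11 (nat_lit 2) (nat_lit 0x40002e0002001b00088000c00000000000000000000000000) (nat_lit 0x0) (nat_lit 0xa000100000000000000000000000000000000000000000000) := D_11 (nat_lit 176) (nat_lit 195) (nat_lit 193) (nat_lit 3) (nat_lit 4) (nat_lit 10) (nat_lit 3) (nat_lit 3) (nat_lit 10) (by decide +kernel)
theorem L34734 : W_11 (nat_lit 3) (nat_lit 0x4000260002001b00088000c00000000000000000000000000) (nat_lit 0x0) (nat_lit 0xb000180000000000000000000000000000000000000000000) := T_11 (nat_lit 175) (nat_lit 192) (nat_lit 7) (nat_lit 4) (nat_lit 7) L34733 (by decide +kernel)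
theorem L34735 : W_11 (nat_lit 4) (nat_lit 0x4000260002001b00088000400000000000000000000000000) (nat_lit 0x0) (nat_lit 0xb000180000000000000000800040000000000000000000000) := T_11 (nat_lit 107) (nat_lit 90) (nat_lit 6) (nat_lit 4) (nat_lit 9) L34734 (by decide +kernel)
theorem L34736 : W_11 (nat_lit 5) (nat_lit 0x4000220002001b00088000400000000000000000000000000) (nat_lit 0x0) (nat_lit 0xb4001c0000000000000000800040000000000000000000000) := T_11 (nat_lit 174) (nat_lit 190) (nat_lit 5) (nat_lit 4) (nat_lit 7) L34735 (by decide +kernel)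
theorem L34737 : W_11 (nat_lit 6) (nat_lit 0x220002001b00088000400000000000000000000000000) (nat_lit 0x0) (nat_lit 0xf4001c0010000000000000800040000000000000000000000) := T_11 (nat_lit 194) (nat_lit 160) (nat_lit 6) (nat_lit 7) (nat_lit 11) L34736 (by decide +kernel)
theorem L34738 : W_11 (nat_lit 7) (nat_lit 0x200002001b00088000400000000000000000000000000) (nat_lit 0x0) (nat_lit 0xf4001e0011000000000000800040000000000000000000000) := T_11 (nat_lit 173) (nat_lit 156) (nat_lit 5) (nat_lit 4) (nat_lit 6) L34737 (by decide +kernel)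
theorem L34739 : W_11 (nat_lit 6) (nat_lit 0x200002001b00088000000000000000000000000000000) (nat_lit 0x0) (nat_lit 0xf4001e0011000000004000600010000000000000000000000) := Q_11 (nat_lit 174) (C_11 L34403 (C_11 L34373 (C_11 L34370 N_11))) (by decide +kernel)
theorem L34740 : W_11 (nat_lit 4) (nat_lit 0x240002001b00088000000000000000000000000000000) (nat_lit 0x0) (nat_lit 0x8000c00020000000080004000200000000000000000000000000) := T_11 (nat_lit 122) (nat_lit 105) (nat_lit 4) (nat_lit 4) (nat_lit 10) L34724 (by decide +kernel)
theorem L34745 : W_11 (nat_lit 2) (nat_lit 0x7c00240002001b0008d000000000000000000000000000000) (nat_lit 0x0) (nat_lit 0x1c0000000000000000000000000000000000000000000000000000) := D_11 (nat_lit 211) (nat_lit 210) (nat_lit 212) (nat_lit 3) (nat_lit 3) (nat_lit 11) (nat_lit 3) (nat_lit 4) (nat_lit 11) (by decide +kernel)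
theorem L34746 : W_11 (nat_lit 3) (nat_lit 0x5c00240002001b0008d000000000000000000000000000000) (nat_lit 0x0) (nat_lit 0x1c0002000100000000000000000000000000000000000000000000) := T_11 (nat_lit 193) (nat_lit 176) (nat_lit 2) (nat_lit 3) (nat_lit 11) L34745 (by decide +kernel)
theorem L34747 : W_11 (nat_lit 4) (nat_lit 0x4c00240002001b0008d000000000000000000000000000000) (nat_lit 0x0) (nat_lit 0x1e0003000100000000000000000000000000000000000000000000) := T_11 (nat_lit 192) (nat_lit 209) (nat_lit 7) (nat_lit 4) (nat_lit 8) L34746 (by decide +kernel)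
theorem L34748 : W_11 (nat_lit 2) (nat_lit 0xf8004800240002001b0008d000000000000000000000000000000) (nat_lit 0x0) (nat_lit 0x3800000000000000000000000000000000000000000000000000000000) := D_11 (nat_lit 228) (nat_lit 227) (nat_lit 229) (nat_lit 3) (nat_lit 3) (nat_lit 12) (nat_lit 3) (nat_lit 4) (nat_lit 12) (by decide +kernel)
theorem L34749 : W_11 (nat_lit 3) (nat_lit 0x78004800240002001b0008d000000000000000000000000000000) (nat_lit 0x0) (nat_lit 0x3800080008000000000000000000000000000000000000000000000000) := T_11 (nat_lit 211) (nat_lit 195) (nat_lit 2) (nat_lit 4) (nat_lit 12) L34748 (by decide +kernel)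
theorem L34750 : W_11 (nat_lit 4) (nat_lit 0x38004800240002001b0008d000000000000000000000000000000) (nat_lit 0x0) (nat_lit 0x38000c000a000000000000000000000000000000000000000000000000) := T_11 (nat_lit 210) (nat_lit 193) (nat_lit 2) (nat_lit 3) (nat_lit 12) L34749 (by decide +kernel)
theorem L34751 : W_11 (nat_lit 5) (nat_lit 0x18004800240002001b0008d000000000000000000000000000000) (nat_lit 0x0) (nat_lit 0x3c000e000a000000000000000000000000000000000000000000000000) := T_11 (nat_lit 209) (nat_lit 226) (nat_lit 7) (nat_lit 4) (nat_lit 9) L34750 (by decide +kernel)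
theorem L34752 : W_11 (nat_lit 4) (nat_lit 0x200002001b00088000400000000000000000000000000) (nat_lit 0x0) (nat_lit 0x20001000080000000800060002000000000000000000) := T_11 (nat_lit 156) (nat_lit 173) (nat_lit 5) (nat_lit 4) (nat_lit 6) L34533 (by decide +kernel)
theorem L34753 : W_11 (nat_lit 3) (nat_lit 0x4000200003001b00088000400000000000000000000000000) (nat_lit 0x0) (nat_lit 0x80000000200030000800000000000000000) := T_11 (nat_lit 89) (nat_lit 139) (nat_lit 5) (nat_lit 4) (nat_lit 5) L34612 (by decide +kernel)
theorem L34754 : W_11 (nat_lit 4) (nat_lit 0x4000200002001b00088000400000000000000000000000000) (nat_lit 0x0) (nat_lit 0x20001000080000000200030000800000000000000000) := T_11 (nat_lit 156) (nat_lit 173) (nat_lit 5) (nat_lit 4) (nat_lit 6) L34753 (by decide +kernel)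
theorem L34755 : W_11 (nat_lit 5) (nat_lit 0x200002001b00088000400000000000000000000000000) (nat_lit 0x0) (nat_lit 0x4000020011000080000000200030000800000000000000000) := T_11 (nat_lit 194) (nat_lit 160) (nat_lit 6) (nat_lit 7) (nat_lit 11) L34754 (by decide +kernel)
theorem L34756 : W_11 (nat_lit 8) (nat_lit 0x200002001b00088000000000000000000000000000000) (nat_lit 0x0) (nat_lit 0xf4001e0011000080000000e00070002800000000000000000) := Q_11 (nat_lit 106) (C_11 L34738 (C_11 L34632 (C_11 L34752 (C_11 L34755 N_11)))) (by decide +kernel)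
theorem L34757 : W_11 (nat_lit 2) (nat_lit 0x4000200002001b0008c000e00000000000000000000000000) (nat_lit 0x0) (nat_lit 0x3001000000000000000000000000000) := D_11 (nat_lit 121) (nat_lit 120) (nat_lit 108) (nat_lit 3) (nat_lit 1) (nat_lit 7) (nat_lit 1) (nat_lit 6) (nat_lit 6) (by decide +kernel)
theorem L34758 : W_11 (nat_lit 3) (nat_lit 0x4000200002001b0008c000600000000000000000000000000) (nat_lit 0x0) (nat_lit 0x3001800040000000000000000000000) := T_11 (nat_lit 107) (nat_lit 90) (nat_lit 6) (nat_lit 4) (nat_lit 9) L34757 (by decide +kernel)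
theorem L34759 : W_11 (nat_lit 4) (nat_lit 0x4000200002001b00088000600000000000000000000000000) (nat_lit 0x0) (nat_lit 0x40000000000007001800040000000000000000000000) := T_11 (nat_lit 122) (nat_lit 174) (nat_lit 4) (nat_lit 4) (nat_lit 10) L34758 (by decide +kernel)
theorem L34760 : W_11 (nat_lit 5) (nat_lit 0x200002001b00088000600000000000000000000000000) (nat_lit 0x0) (nat_lit 0x4000040010000000007001800040000000000000000000000) := T_11 (nat_lit 194) (nat_lit 160) (nat_lit 6) (nat_lit 7) (nat_lit 11) L34759 (by decide +kernel)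
theorem L34761 : W_11 (nat_lit 6) (nat_lit 0x200002001b00088000400000000000000000000000000) (nat_lit 0x0) (nat_lit 0x4000040010000000007001a00050000000000000000000000) := T_11 (nat_lit 105) (nat_lit 88) (nat_lit 4) (nat_lit 4) (nat_lit 9) L34760 (by decide +kernel)
theorem L34762 : W_11 (nat_lit 2) (nat_lit 0x240002001b00088000e00000000000000000000000000) (nat_lit 0x0) (nat_lit 0x1000080004000000000000000000000000000000000000000) := D_11 (nat_lit 175) (nat_lit 158) (nat_lit 192) (nat_lit 7) (nat_lit 4) (nat_lit 6) (nat_lit 7) (nat_lit 4) (nat_lit 7) (by decide +kernel)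
theorem L34763 : W_11 (nat_lit 3) (nat_lit 0x200002001b00088000e00000000000000000000000000) (nat_lit 0x0) (nat_lit 0x10000c0004000000004000000000000000000000000000000) := T_11 (nat_lit 174) (nat_lit 122) (nat_lit 4) (nat_lit 4) (nat_lit 10) L34762 (by decide +kernel)
theorem L34764 : W_11 (nat_lit 4) (nat_lit 0x200002001b00088000600000000000000000000000000) (nat_lit 0x0) (nat_lit 0x10000c0004000000004000800040000000000000000000000) := T_11 (nat_lit 107) (nat_lit 90) (nat_lit 6) (nat_lit 4) (nat_lit 9) L34763 (by decide +kernel)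
theorem L34765 : W_11 (nat_lit 5) (nat_lit 0x200002001b00088000400000000000000000000000000) (nat_lit 0x0) (nat_lit 0x10000c0004000000004000a00050000000000000000000000) := T_11 (nat_lit 105) (nat_lit 88) (nat_lit 4) (nat_lit 4) (nat_lit 9) L34764 (by decide +kernel)
theorem L34766 : W_11 (nat_lit 4) (nat_lit 0x4800240002001b00080000000000000000000000000000000) (nat_lit 0x0) (nat_lit 0x100018000400000001000080004000000000000000000000000000000) := T_11 (nat_lit 139) (nat_lit 122) (nat_lit 4) (nat_lit 4) (nat_lit 11) L34439 (by decide +kernel)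
theorem L34767 : W_11 (nat_lit 2) (nat_lit 0x7800240002001b80080000000000000000000000000000000) (nat_lit 0x0) (nat_lit 0x18000000000001000000000000000000000000000000000000000) := D_11 (nat_lit 208) (nat_lit 207) (nat_lit 156) (nat_lit 1) (nat_lit 7) (nat_lit 11) (nat_lit 4) (nat_lit 4) (nat_lit 12) (by decide +kernel)
theorem L34768 : W_11 (nat_lit 3) (nat_lit 0x7800240002001b00080000000000000000000000000000000) (nat_lit 0x0) (nat_lit 0x18000000000001000080004000000000000000000000000000000) := T_11 (nat_lit 139) (nat_lit 122) (nat_lit 4) (nat_lit 4) (nat_lit 11) L34767 (by decide +kernel)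
theorem L34769 : W_11 (nat_lit 4) (nat_lit 0x5800240002001b00080000000000000000000000000000000) (nat_lit 0x0) (nat_lit 0x18002000020001000080004000000000000000000000000000000) := T_11 (nat_lit 193) (nat_lit 173) (nat_lit 0) (nat_lit 7) (nat_lit 11) L34768 (by decide +kernel)
theorem L34770 : W_11 (nat_lit 5) (nat_lit 0x4800240002001b00080000000000000000000000000000000) (nat_lit 0x0) (nat_lit 0x38003000020001000080004000000000000000000000000000000) := T_11 (nat_lit 192) (nat_lit 209) (nat_lit 7) (nat_lit 4) (nat_lit 8) L34769 (by decide +kernel)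
theorem L34771 : W_11 (nat_lit 4) (nat_lit 0x4800240002001b00080000000000000000000000000000000) (nat_lit 0x0) (nat_lit 0x400030001000000001000080004000000000000000000000000000000) := T_11 (nat_lit 139) (nat_lit 122) (nat_lit 4) (nat_lit 4) (nat_lit 11) L34396 (by decide +kernel)
theorem L34772 : W_11 (nat_lit 6) (nat_lit 0x4000240002001b00080000000000000000000000000000000) (nat_lit 0x0) (nat_lit 0x500038003c00120001000080004000000000000000000000000000000) := Q_11 (nat_lit 191) (C_11 L34766 (C_11 L34358 (C_11 L34770 (C_11 L34771 N_11)))) (by decide +kernel)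
theorem L34773 : W_11 (nat_lit 2) (nat_lit 0x7c00240002001b80080000000000000000000000000000000) (nat_lit 0x0) (nat_lit 0x1c0000000000000000000000000000000000000000000000000000) := D_11 (nat_lit 211) (nat_lit 210) (nat_lit 212) (nat_lit 3) (nat_lit 3) (nat_lit 11) (nat_lit 3) (nat_lit 4) (nat_lit 11) (by decide +kernel)
theorem L34774 : W_11 (nat_lit 2) (nat_lit 0x10004800240002001b00080000000000000000000000000000000) (nat_lit 0x0) (nat_lit 0x100008000400000000000000000000000000000000000000000000000) := D_11 (nat_lit 207) (nat_lit 224) (nat_lit 190) (nat_lit 5) (nat_lit 4) (nat_lit 9) (nat_lit 5) (nat_lit 4) (nat_lit 8) (by decide +kernel)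
theorem L34775 : W_11 (nat_lit 3) (nat_lit 0x4800240002001b00080000000000000000000000000000000) (nat_lit 0x0) (nat_lit 0x100018000400000004000000000000000000000000000000000000000) := T_11 (nat_lit 208) (nat_lit 158) (nat_lit 6) (nat_lit 4) (nat_lit 12) L34774 (by decide +kernel)
theorem L34776 : W_11 (nat_lit 2) (nat_lit 0x10004800240002001b00080000000000000000000000000000000) (nat_lit 0x0) (nat_lit 0x1000080004000000000000000000000000000000) := D_11 (nat_lit 139) (nat_lit 122) (nat_lit 156) (nat_lit 4) (nat_lit 4) (nat_lit 11) (nat_lit 4) (nat_lit 4) (nat_lit 12) (by decide +kernel)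
theorem L34777 : W_11 (nat_lit 3) (nat_lit 0x4800240002001b00080000000000000000000000000000000) (nat_lit 0x0) (nat_lit 0x10000000000005000080004000000000000000000000000000000) := T_11 (nat_lit 208) (nat_lit 158) (nat_lit 6) (nat_lit 4) (nat_lit 12) L34776 (by decide +kernel)
theorem L34778 : W_11 (nat_lit 3) (nat_lit 0x5c00240002001b80080000000000000000000000000000000) (nat_lit 0x0) (nat_lit 0x1c0002000100000000000000000000000000000000000000000000) := T_11 (nat_lit 193) (nat_lit 176) (nat_lit 2) (nat_lit 3) (nat_lit 11) L34773 (by decide +kernel)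
theorem L34779 : W_11 (nat_lit 4) (nat_lit 0x5800240002001b80080000000000000000000000000000000) (nat_lit 0x0) (nat_lit 0x1c8002400100000000000000000000000000000000000000000000) := T_11 (nat_lit 190) (nat_lit 207) (nat_lit 5) (nat_lit 4) (nat_lit 8) L34778 (by decide +kernel)
theorem L34780 : W_11 (nat_lit 5) (nat_lit 0x4800240002001b80080000000000000000000000000000000) (nat_lit 0x0) (nat_lit 0x1e8003400100000000000000000000000000000000000000000000) := T_11 (nat_lit 192) (nat_lit 209) (nat_lit 7) (nat_lit 4) (nat_lit 8) L34779 (by decide +kernel)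
theorem L34781 : W_11 (nat_lit 6) (nat_lit 0x4800240002001b00080000000000000000000000000000000) (nat_lit 0x0) (nat_lit 0x1e8003400100000000080004000000000000000000000000000000) := T_11 (nat_lit 139) (nat_lit 122) (nat_lit 4) (nat_lit 4) (nat_lit 11) L34780 (by decide +kernel)
theorem L34782 : W_11 (nat_lit 7) (nat_lit 0x4000240002001b00080000000000000000000000000000000) (nat_lit 0x0) (nat_lit 0x5001f8003c00100005000080004000000000000000000000000000000) := Q_11 (nat_lit 191) (C_11 L34777 (C_11 L34771 (C_11 L34775 (C_11 L34781 N_11)))) (by decide +kernel)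
theorem L34783 : W_11 (nat_lit 2) (nat_lit 0x2c0012001b00080000000000000000000000000000000) (nat_lit 0x0) (nat_lit 0x100021000000000000000000000000000000000000000) := D_11 (nat_lit 176) (nat_lit 156) (nat_lit 161) (nat_lit 0) (nat_lit 7) (nat_lit 10) (nat_lit 2) (nat_lit 4) (nat_lit 10) (by decide +kernel)
theorem L34784 : W_11 (nat_lit 2) (nat_lit 0x2c0012001b00088000400000000000000000000000000) (nat_lit 0x0) (nat_lit 0x4000200010000000000000000000000) := D_11 (nat_lit 105) (nat_lit 122) (nat_lit 88) (nat_lit 4) (nat_lit 4) (nat_lit 10) (nat_lit 4) (nat_lit 4) (nat_lit 9) (by decide +kernel)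
theorem L34785 : W_11 (nat_lit 3) (nat_lit 0x2c0012001b00088000000000000000000000000000000) (nat_lit 0x0) (nat_lit 0x4000000004000600010000000000000000000000) := T_11 (nat_lit 106) (nat_lit 158) (nat_lit 7) (nat_lit 4) (nat_lit 6) L34784 (by decide +kernel)
theorem L34786 : W_11 (nat_lit 4) (nat_lit 0x2c0012001b00080000000000000000000000000000000) (nat_lit 0x0) (nat_lit 0x100000000400000000c000600010000000000000000000000) := T_11 (nat_lit 123) (nat_lit 192) (nat_lit 7) (nat_lit 4) (nat_lit 7) L34785 (by decide +kernel)
theorem L34787 : W_11 (nat_lit 5) (nat_lit 0x240012001b00080000000000000000000000000000000) (nat_lit 0x0) (nat_lit 0x100018002500000000c000600010000000000000000000000) := Q_11 (nat_lit 175) (C_11 L34786 (C_11 L34783 N_11)) (by decide +kernel)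
theorem L34788 : W_11 (nat_lit 2) (nat_lit 0x300010001b000c0002000000000000000000000000000) (nat_lit 0x0) (nat_lit 0x20000000000000000100008000000000000000000) := D_11 (nat_lit 92) (nat_lit 75) (nat_lit 161) (nat_lit 7) (nat_lit 7) (nat_lit 4) (nat_lit 7) (nat_lit 7) (nat_lit 5) (by decide +kernel)
theorem L34789 : W_11 (nat_lit 3) (nat_lit 0x300010001b000c0000000000000000000000000000000) (nat_lit 0x0) (nat_lit 0x28000000000002000100008000000000000000000) := T_11 (nat_lit 109) (nat_lit 159) (nat_lit 5) (nat_lit 7) (nat_lit 6) L34788 (by decide +kernel)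
theorem L34790 : W_11 (nat_lit 2) (nat_lit 0x200000801780082000000000000000000000000000000) (nat_lit 0x0) (nat_lit 0x400040001000000000000000000000000000000) := D_11 (nat_lit 138) (nat_lit 120) (nat_lit 154) (nat_lit 0) (nat_lit 5) (nat_lit 8) (nat_lit 1) (nat_lit 5) (nat_lit 8) (by decide +kernel)
theorem L34791 : W_11 (nat_lit 3) (nat_lit 0x200000001780082000000000000000000000000000000) (nat_lit 0x0) (nat_lit 0x1c00040001000000000000000000000000000000) := T_11 (nat_lit 155) (nat_lit 156) (nat_lit 1) (nat_lit 6) (nat_lit 8) L34790 (by decide +kernel)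
theorem L34792 : W_11 (nat_lit 4) (nat_lit 0x200000001780080000000000000000000000000000000) (nat_lit 0x0) (nat_lit 0x1c00040007000000000000000000000000000000) := T_11 (nat_lit 121) (nat_lit 122) (nat_lit 0) (nat_lit 6) (nat_lit 8) L34791 (by decide +kernel)
theorem L34794 : W_11 (nat_lit 10) (nat_lit 0x200000001700080000000000000000000000000000000) (nat_lit 0x0) (nat_lit 0xe0017001fc000e000f000600010000000000000000000000) := Q_11 (nat_lit 139) (C_11 L34326 (C_11 L33820 (C_11 L34792 (C_11 L33800 (C_11 L34793 (C_11 L34286 N_11)))))) (by decide +kernel)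
theorem L34795 : W_11 (nat_lit 11) (nat_lit 0x200000001300080000000000000000000000000000000) (nat_lit 0x0) (nat_lit 0x4e0017003fc00ce014f000600010000000000000000000000) := Q_11 (nat_lit 142) (C_11 L34341 (C_11 L34340 (C_11 L34314 (C_11 L34794 N_11)))) (by decide +kernel)
theorem L34796 : W_11 (nat_lit 13) (nat_lit 0x200000001700080000000000000000000000000000000) (nat_lit 0x0) (nat_lit 0x1e000f801fc000c006f003e001f0000000000000000000000) := Q_11 (nat_lit 139) (C_11 L34793 (C_11 L34792 (C_11 L33800 (C_11 L34040 N_11)))) (by decide +kernel)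
theorem L34797 : W_11 (nat_lit 14) (nat_lit 0x200000001300080000000000000000000000000000000) (nat_lit 0x0) (nat_lit 0x5e000f803fc00cc016f003e001f0000000000000000000000) := Q_11 (nat_lit 142) (C_11 L34341 (C_11 L34340 (C_11 L34314 (C_11 L34796 N_11)))) (by decide +kernel)
theorem L34804 : W_11 (nat_lit 2) (nat_lit 0x1000100058003c0012001380080000000000000000000000000000000) (nat_lit 0x0) (nat_lit 0x6000200000000000000000000000000000000000000000000000000000000) := D_11 (nat_lit 225) (nat_lit 242) (nat_lit 241) (nat_lit 6) (nat_lit 4) (nat_lit 14) (nat_lit 5) (nat_lit 4) (nat_lit 10) (by decide +kernel)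
theorem L34805 : W_11 (nat_lit 3) (nat_lit 0x100058003c0012001380080000000000000000000000000000000) (nat_lit 0x0) (nat_lit 0x6000300008000000000000000000000000000000000000000000000000000) := T_11 (nat_lit 224) (nat_lit 207) (nat_lit 5) (nat_lit 4) (nat_lit 9) L34804 (by decide +kernel)
theorem L34806 : W_11 (nat_lit 4) (nat_lit 0x58003c0012001380080000000000000000000000000000000) (nat_lit 0x0) (nat_lit 0x6000300018000000000004000000000000000000000000000000000000000) := T_11 (nat_lit 208) (nat_lit 158) (nat_lit 6) (nat_lit 4) (nat_lit 12) L34805 (by decide +kernel)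
theorem L34807 : W_11 (nat_lit 5) (nat_lit 0x48003c0012001380080000000000000000000000000000000) (nat_lit 0x0) (nat_lit 0x6000300038001000000004000000000000000000000000000000000000000) := T_11 (nat_lit 192) (nat_lit 209) (nat_lit 7) (nat_lit 4) (nat_lit 8) L34806 (by decide +kernel)
theorem L34808 : W_11 (nat_lit 6) (nat_lit 0x48003c0012001300080000000000000000000000000000000) (nat_lit 0x0) (nat_lit 0x6000300038001000000004000080004000000000000000000000000000000) := T_11 (nat_lit 139) (nat_lit 122) (nat_lit 4) (nat_lit 4) (nat_lit 11) L34807 (by decide +kernel)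
theorem L34809 : W_11 (nat_lit 7) (nat_lit 0x48003c0010001300080000000000000000000000000000000) (nat_lit 0x0) (nat_lit 0x6000300038001000000007000080004000000000000000000000000000000) := T_11 (nat_lit 157) (nat_lit 156) (nat_lit 0) (nat_lit 7) (nat_lit 10) L34808 (by decide +kernel)
theorem L34810 : W_11 (nat_lit 8) (nat_lit 0x40003c0010001300080000000000000000000000000000000) (nat_lit 0x0) (nat_lit 0x6000300038001c00000007000080004000000000000000000000000000000) := T_11 (nat_lit 191) (nat_lit 190) (nat_lit 1) (nat_lit 7) (nat_lit 10) L34809 (by decide +kernel)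
theorem L34811 : W_11 (nat_lit 2) (nat_lit 0x780048003c0012001380080000000000000000000000000000000) (nat_lit 0x0) (nat_lit 0x1800080000000000000000000000000000000000000000000000000000) := D_11 (nat_lit 227) (nat_lit 228) (nat_lit 211) (nat_lit 3) (nat_lit 3) (nat_lit 12) (nat_lit 5) (nat_lit 7) (nat_lit 9) (by decide +kernel)
theorem L34812 : W_11 (nat_lit 3) (nat_lit 0x380048003c0012001380080000000000000000000000000000000) (nat_lit 0x0) (nat_lit 0x18000c0002000000000000000000000000000000000000000000000000) := T_11 (nat_lit 210) (nat_lit 193) (nat_lit 2) (nat_lit 3) (nat_lit 12) L34811 (by decide +kernel)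
theorem L34813 : W_11 (nat_lit 4) (nat_lit 0x180048003c0012001380080000000000000000000000000000000) (nat_lit 0x0) (nat_lit 0x1c000e0002000000000000000000000000000000000000000000000000) := T_11 (nat_lit 209) (nat_lit 226) (nat_lit 7) (nat_lit 4) (nat_lit 9) L34812 (by decide +kernel)
theorem L34814 : W_11 (nat_lit 5) (nat_lit 0x100048003c0012001380080000000000000000000000000000000) (nat_lit 0x0) (nat_lit 0x1d000e8002000000000000000000000000000000000000000000000000) := T_11 (nat_lit 207) (nat_lit 224) (nat_lit 5) (nat_lit 4) (nat_lit 9) L34813 (by decide +kernel)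
theorem L34815 : W_11 (nat_lit 6) (nat_lit 0x48003c0012001380080000000000000000000000000000000) (nat_lit 0x0) (nat_lit 0x1d000f8002000000004000000000000000000000000000000000000000) := T_11 (nat_lit 208) (nat_lit 158) (nat_lit 6) (nat_lit 4) (nat_lit 12) L34814 (by decide +kernel)
theorem L34816 : W_11 (nat_lit 7) (nat_lit 0x48003c0012001300080000000000000000000000000000000) (nat_lit 0x0) (nat_lit 0x1d000f8002000000004000080004000000000000000000000000000000) := T_11 (nat_lit 139) (nat_lit 122) (nat_lit 4) (nat_lit 4) (nat_lit 11) L34815 (by decide +kernel)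
theorem L34817 : W_11 (nat_lit 8) (nat_lit 0x48003c0010001300080000000000000000000000000000000) (nat_lit 0x0) (nat_lit 0x1d000f8002000000007000080004000000000000000000000000000000) := T_11 (nat_lit 157) (nat_lit 156) (nat_lit 0) (nat_lit 7) (nat_lit 10) L34816 (by decide +kernel)
theorem L34818 : W_11 (nat_lit 9) (nat_lit 0x40003c0010001300080000000000000000000000000000000) (nat_lit 0x0) (nat_lit 0x1d000f8002c00000007000080004000000000000000000000000000000) := T_11 (nat_lit 191) (nat_lit 190) (nat_lit 1) (nat_lit 7) (nat_lit 10) L34817 (by decide +kernel)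
theorem L34819 : W_11 (nat_lit 2) (nat_lit 0x1002000034013e0082000100000000000000000000000000) (nat_lit 0x0) (nat_lit 0x400020000000000004000000000000000000000000000000) := D_11 (nat_lit 173) (nat_lit 190) (nat_lit 122) (nat_lit 4) (nat_lit 3) (nat_lit 11) (nat_lit 4) (nat_lit 3) (nat_lit 10) (by decide +kernel)
theorem L34820 : W_11 (nat_lit 3) (nat_lit 0x1002000034013e0082000000000000000000000000000000) (nat_lit 0x0) (nat_lit 0x400020000000000004000100008000000000000000000000) := T_11 (nat_lit 104) (nat_lit 87) (nat_lit 7) (nat_lit 2) (nat_lit 5) L34819 (by decide +kernel)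
theorem L34821 : W_11 (nat_lit 4) (nat_lit 0x2000034013e0082000000000000000000000000000000) (nat_lit 0x0) (nat_lit 0x500028000000000004000100008000000000000000000000) := T_11 (nat_lit 188) (nat_lit 171) (nat_lit 6) (nat_lit 1) (nat_lit 11) L34820 (by decide +kernel)
theorem L34822 : W_11 (nat_lit 5) (nat_lit 0x2000024013e0082000000000000000000000000000000) (nat_lit 0x0) (nat_lit 0x500028001000010004000100008000000000000000000000) := T_11 (nat_lit 156) (nat_lit 136) (nat_lit 3) (nat_lit 0) (nat_lit 8) L34821 (by decide +kernel)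
theorem L34823 : W_11 (nat_lit 6) (nat_lit 0x2000024013c0082000000000000000000000000000000) (nat_lit 0x0) (nat_lit 0x500028001200030004000100008000000000000000000000) := T_11 (nat_lit 137) (nat_lit 153) (nat_lit 1) (nat_lit 4) (nat_lit 8) L34822 (by decide +kernel)
theorem L34824 : W_11 (nat_lit 7) (nat_lit 0x2000020013c0082000000000000000000000000000000) (nat_lit 0x0) (nat_lit 0x500028001e00030004000100008000000000000000000000) := T_11 (nat_lit 154) (nat_lit 155) (nat_lit 1) (nat_lit 5) (nat_lit 8) L34823 (by decide +kernel)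
theorem L34825 : W_11 (nat_lit 8) (nat_lit 0x2000020013c0080000000000000000000000000000000) (nat_lit 0x0) (nat_lit 0x500028001e00030007000100008000000000000000000000) := T_11 (nat_lit 121) (nat_lit 120) (nat_lit 0) (nat_lit 5) (nat_lit 8) L34824 (by decide +kernel)
theorem L34826 : W_11 (nat_lit 2) (nat_lit 0x2000020013e0080000000000000000000000000000000) (nat_lit 0x0) (nat_lit 0x3800000000000000000000000000000) := D_11 (nat_lit 120) (nat_lit 121) (nat_lit 119) (nat_lit 0) (nat_lit 5) (nat_lit 8) (nat_lit 0) (nat_lit 4) (nat_lit 8) (by decide +kernel)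
theorem L34827 : W_11 (nat_lit 3) (nat_lit 0x2000020013c0080000000000000000000000000000000) (nat_lit 0x0) (nat_lit 0x4000020003800000000000000000000000000000) := T_11 (nat_lit 137) (nat_lit 158) (nat_lit 3) (nat_lit 1) (nat_lit 8) L34826 (by decide +kernel)
theorem L34828 : W_11 (nat_lit 2) (nat_lit 0x2000028013c0084000200000000000000000000000000) (nat_lit 0x0) (nat_lit 0x200010001000000000000000000000000000000000000000) := D_11 (nat_lit 172) (nat_lit 189) (nat_lit 156) (nat_lit 6) (nat_lit 2) (nat_lit 11) (nat_lit 5) (nat_lit 3) (nat_lit 6) (by decide +kernel)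
theorem L34829 : W_11 (nat_lit 2) (nat_lit 0x2000070013c008a001e00008000000000000000000000) (nat_lit 0x0) (nat_lit 0x60002000000000000000000000000000) := D_11 (nat_lit 126) (nat_lit 109) (nat_lit 125) (nat_lit 3) (nat_lit 4) (nat_lit 6) (nat_lit 3) (nat_lit 3) (nat_lit 6) (by decide +kernel)
theorem L34830 : W_11 (nat_lit 3) (nat_lit 0x2000070013c008a000e00008000000000000000000000) (nat_lit 0x0) (nat_lit 0x64003000000000000000000000000000) := T_11 (nat_lit 108) (nat_lit 122) (nat_lit 1) (nat_lit 6) (nat_lit 6) L34829 (by decide +kernel)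
theorem L34831 : W_11 (nat_lit 2) (nat_lit 0x2000020013c008000060001c000000000000000000000) (nat_lit 0x0) (nat_lit 0x1900000000000000000000000000) := D_11 (nat_lit 107) (nat_lit 108) (nat_lit 104) (nat_lit 0) (nat_lit 6) (nat_lit 6) (nat_lit 0) (nat_lit 5) (nat_lit 6) (by decide +kernel)
theorem L34832 : W_11 (nat_lit 3) (nat_lit 0x2000020013c0080000600018000000000000000000000) (nat_lit 0x0) (nat_lit 0x1900006000000000000000000000) := T_11 (nat_lit 86) (nat_lit 85) (nat_lit 3) (nat_lit 0) (nat_lit 5) L34831 (by decide +kernel)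
theorem L34833 : W_11 (nat_lit 4) (nat_lit 0x2000020013c0080000200018000000000000000000000) (nat_lit 0x0) (nat_lit 0x8001d00006000000000000000000000) := T_11 (nat_lit 106) (nat_lit 123) (nat_lit 4) (nat_lit 4) (nat_lit 9) L34832 (by decide +kernel)
theorem L34834 : W_11 (nat_lit 2) (nat_lit 0x2000020013c0082000200018000000000000000000000) (nat_lit 0x0) (nat_lit 0x1000000000000100000000800000000000000000) := D_11 (nat_lit 104) (nat_lit 71) (nat_lit 156) (nat_lit 6) (nat_lit 2) (nat_lit 8) (nat_lit 7) (nat_lit 2) (nat_lit 5) (by decide +kernel)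
theorem L34835 : W_11 (nat_lit 3) (nat_lit 0x2000020013c0080000200018000000000000000000000) (nat_lit 0x0) (nat_lit 0x1000000003000100000000800000000000000000) := T_11 (nat_lit 121) (nat_lit 120) (nat_lit 0) (nat_lit 5) (nat_lit 8) L34834 (by decide +kernel)
theorem L34836 : W_11 (nat_lit 2) (nat_lit 0x2000020013c008200060001c000000000000000000000) (nat_lit 0x0) (nat_lit 0x1800020000000000000000000000) := D_11 (nat_lit 107) (nat_lit 108) (nat_lit 89) (nat_lit 0) (nat_lit 6) (nat_lit 6) (nat_lit 3) (nat_lit 1) (nat_lit 5) (by decide +kernel)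
theorem L34837 : W_11 (nat_lit 3) (nat_lit 0x2000020013c0082000600018000000000000000000000) (nat_lit 0x0) (nat_lit 0x1800026000000000000000000000) := T_11 (nat_lit 86) (nat_lit 85) (nat_lit 3) (nat_lit 0) (nat_lit 5) L34836 (by decide +kernel)
theorem L34838 : W_11 (nat_lit 4) (nat_lit 0x2000020013c0082000200018000000000000000000000) (nat_lit 0x0) (nat_lit 0x8001c00026000000000000000000000) := T_11 (nat_lit 106) (nat_lit 123) (nat_lit 4) (nat_lit 4) (nat_lit 9) L34837 (by decide +kernel)
theorem L34839 : W_11 (nat_lit 3) (nat_lit 0x2000020013c0084000200000000000000000000000000) (nat_lit 0x0) (nat_lit 0x200010001c00000000000000000000000000000000000000) := T_11 (nat_lit 155) (nat_lit 154) (nat_lit 1) (nat_lit 5) (nat_lit 8) L34828 (by decide +kernel)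
theorem L34840 : W_11 (nat_lit 4) (nat_lit 0x2000020013c0080000200000000000000000000000000) (nat_lit 0x0) (nat_lit 0x200010001c00000004000000010000000000000000000000) := T_11 (nat_lit 122) (nat_lit 88) (nat_lit 7) (nat_lit 3) (nat_lit 5) L34839 (by decide +kernel)
theorem L34841 : W_11 (nat_lit 4) (nat_lit 0x2000020013c0080000200008000000000000000000000) (nat_lit 0x0) (nat_lit 0x1000000007000100010000800000000000000000) := T_11 (nat_lit 88) (nat_lit 122) (nat_lit 7) (nat_lit 3) (nat_lit 5) L34835 (by decide +kernel)
theorem L34842 : W_11 (nat_lit 2) (nat_lit 0x2000020013c0082000700018000000000000000000000) (nat_lit 0x0) (nat_lit 0x6000200000000000000000) := D_11 (nat_lit 86) (nat_lit 69) (nat_lit 85) (nat_lit 4) (nat_lit 2) (nat_lit 8) (nat_lit 3) (nat_lit 0) (nat_lit 5) (by decide +kernel)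
theorem L34843 : W_11 (nat_lit 3) (nat_lit 0x2000020013c0082000300018000000000000000000000) (nat_lit 0x0) (nat_lit 0x8000400006000200000000000000000) := T_11 (nat_lit 106) (nat_lit 123) (nat_lit 4) (nat_lit 4) (nat_lit 9) L34842 (by decide +kernel)
theorem L34844 : W_11 (nat_lit 4) (nat_lit 0x2000020013c0082000300008000000000000000000000) (nat_lit 0x0) (nat_lit 0x8000400016000a00000000000000000) := T_11 (nat_lit 88) (nat_lit 71) (nat_lit 6) (nat_lit 2) (nat_lit 8) L34843 (by decide +kernel)
theorem L34845 : W_11 (nat_lit 5) (nat_lit 0x2000020013c0082000200008000000000000000000000) (nat_lit 0x0) (nat_lit 0x1000000008000500016000a00000000000000000) := T_11 (nat_lit 104) (nat_lit 156) (nat_lit 7) (nat_lit 2) (nat_lit 5) L34844 (by decide +kernel)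
theorem L34846 : W_11 (nat_lit 6) (nat_lit 0x2000020013c0080000200008000000000000000000000) (nat_lit 0x0) (nat_lit 0x100000000b000500016000a00000000000000000) := T_11 (nat_lit 121) (nat_lit 120) (nat_lit 0) (nat_lit 5) (nat_lit 8) L34845 (by decide +kernel)
theorem L34847 : W_11 (nat_lit 5) (nat_lit 0x2000020013c0080000200008000000000000000000000) (nat_lit 0x0) (nat_lit 0xc001d00016000000000000000000000) := T_11 (nat_lit 88) (nat_lit 122) (nat_lit 7) (nat_lit 3) (nat_lit 5) L34833 (by decide +kernel)
theorem L34848 : W_11 (nat_lit 2) (nat_lit 0x2000020013c0082000300008000400000000000000000) (nat_lit 0x0) (nat_lit 0x4000200010000000000000) := D_11 (nat_lit 69) (nat_lit 86) (nat_lit 52) (nat_lit 4) (nat_lit 2) (nat_lit 8) (nat_lit 4) (nat_lit 2) (nat_lit 7) (by decide +kernel)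
theorem L34849 : W_11 (nat_lit 3) (nat_lit 0x2000020013c0082000300008000000000000000000000) (nat_lit 0x0) (nat_lit 0x4000000004000600010000000000000) := T_11 (nat_lit 70) (nat_lit 122) (nat_lit 7) (nat_lit 2) (nat_lit 4) L34848 (by decide +kernel)
theorem L34850 : W_11 (nat_lit 4) (nat_lit 0x2000020013c0082000200008000000000000000000000) (nat_lit 0x0) (nat_lit 0x1000000004000100004000600010000000000000) := T_11 (nat_lit 104) (nat_lit 156) (nat_lit 7) (nat_lit 2) (nat_lit 5) L34849 (by decide +kernel)
theorem L34851 : W_11 (nat_lit 5) (nat_lit 0x2000020013c0080000200008000000000000000000000) (nat_lit 0x0) (nat_lit 0x1000000007000100004000600010000000000000) := T_11 (nat_lit 121) (nat_lit 120) (nat_lit 0) (nat_lit 5) (nat_lit 8) L34850 (by decide +kernel)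
theorem L34852 : W_11 (nat_lit 5) (nat_lit 0x2000020013c0082000200008000000000000000000000) (nat_lit 0x0) (nat_lit 0xc001c00036000000000000000000000) := T_11 (nat_lit 88) (nat_lit 122) (nat_lit 7) (nat_lit 3) (nat_lit 5) L34838 (by decide +kernel)
theorem L34853 : W_11 (nat_lit 6) (nat_lit 0x2000020013c0080000200008000000000000000000000) (nat_lit 0x0) (nat_lit 0xf001c00036000000000000000000000) := T_11 (nat_lit 121) (nat_lit 120) (nat_lit 0) (nat_lit 5) (nat_lit 8) L34852 (by decide +kernel)
theorem L34854 : W_11 (nat_lit 7) (nat_lit 0x2000020013c0080000200000000000000000000000000) (nat_lit 0x0) (nat_lit 0x100000000f001d0003e000e00010000000000000) := Q_11 (nat_lit 87) (C_11 L34841 (C_11 L34846 (C_11 L34847 (C_11 L34851 (C_11 L34853 N_11))))) (by decide +kernel)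
theorem L34855 : W_11 (nat_lit 2) (nat_lit 0x2000028013c0088000200010000000000000000000000) (nat_lit 0x0) (nat_lit 0x3000100000000000000000000000000) := D_11 (nat_lit 121) (nat_lit 120) (nat_lit 104) (nat_lit 0) (nat_lit 5) (nat_lit 8) (nat_lit 6) (nat_lit 2) (nat_lit 9) (by decide +kernel)
theorem L34856 : W_11 (nat_lit 3) (nat_lit 0x2000020013c0088000200010000000000000000000000) (nat_lit 0x0) (nat_lit 0xc00000003000100000000000000000000000000) := T_11 (nat_lit 155) (nat_lit 154) (nat_lit 1) (nat_lit 5) (nat_lit 8) L34855 (by decide +kernel)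
theorem L34857 : W_11 (nat_lit 4) (nat_lit 0x2000020013c0080000200010000000000000000000000) (nat_lit 0x0) (nat_lit 0xc0000000b000500000000000000000000000000) := T_11 (nat_lit 123) (nat_lit 106) (nat_lit 4) (nat_lit 4) (nat_lit 9) L34856 (by decide +kernel)
theorem L34858 : W_11 (nat_lit 5) (nat_lit 0x2000020013c0080000200000000000000000000000000) (nat_lit 0x0) (nat_lit 0xc0000000f000500010000000000000000000000) := T_11 (nat_lit 88) (nat_lit 122) (nat_lit 7) (nat_lit 3) (nat_lit 5) L34857 (by decide +kernel)
theorem L34859 : W_11 (nat_lit 2) (nat_lit 0x2000028013c0082000300000000000000000000000000) (nat_lit 0x0) (nat_lit 0x20001000000000000000008000000000000000000000) := D_11 (nat_lit 156) (nat_lit 87) (nat_lit 173) (nat_lit 7) (nat_lit 2) (nat_lit 5) (nat_lit 7) (nat_lit 2) (nat_lit 6) (by decide +kernel)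
theorem L34860 : W_11 (nat_lit 3) (nat_lit 0x2000028013c0082000200000000000000000000000000) (nat_lit 0x0) (nat_lit 0x20001000000000000100018000000000000000000000) := T_11 (nat_lit 104) (nat_lit 88) (nat_lit 6) (nat_lit 2) (nat_lit 9) L34859 (by decide +kernel)
theorem L34861 : W_11 (nat_lit 4) (nat_lit 0x2000020013c0082000200000000000000000000000000) (nat_lit 0x0) (nat_lit 0x20001c00000000000100018000000000000000000000) := T_11 (nat_lit 155) (nat_lit 154) (nat_lit 1) (nat_lit 5) (nat_lit 8) L34860 (by decide +kernel)
theorem L34862 : W_11 (nat_lit 5) (nat_lit 0x2000020013c0080000200000000000000000000000000) (nat_lit 0x0) (nat_lit 0x20001c00000003000100018000000000000000000000) := T_11 (nat_lit 121) (nat_lit 120) (nat_lit 0) (nat_lit 5) (nat_lit 8) L34861 (by decide +kernel)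
theorem L34863 : W_11 (nat_lit 2) (nat_lit 0x16002180068013c0082000200000000000000000000000000) (nat_lit 0x0) (nat_lit 0x20000000080000000000008000000000000000000000000000000) := D_11 (nat_lit 175) (nat_lit 123) (nat_lit 209) (nat_lit 4) (nat_lit 5) (nat_lit 11) (nat_lit 4) (nat_lit 5) (nat_lit 12) (by decide +kernel)
theorem L34864 : W_11 (nat_lit 3) (nat_lit 0x6002180068013c0082000200000000000000000000000000) (nat_lit 0x0) (nat_lit 0x20001800080000000000008000000000000000000000000000000) := T_11 (nat_lit 192) (nat_lit 191) (nat_lit 0) (nat_lit 5) (nat_lit 11) L34863 (by decide +kernel)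
theorem L34865 : W_11 (nat_lit 4) (nat_lit 0x4002180068013c0082000200000000000000000000000000) (nat_lit 0x0) (nat_lit 0x28001a00080000000000008000000000000000000000000000000) := T_11 (nat_lit 189) (nat_lit 207) (nat_lit 7) (nat_lit 2) (nat_lit 8) L34864 (by decide +kernel)
theorem L34866 : W_11 (nat_lit 5) (nat_lit 0x2180068013c0082000200000000000000000000000000) (nat_lit 0x0) (nat_lit 0x28001e000a0000000000008000000000000000000000000000000) := T_11 (nat_lit 190) (nat_lit 173) (nat_lit 7) (nat_lit 2) (nat_lit 7) L34865 (by decide +kernel)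
theorem L34867 : W_11 (nat_lit 6) (nat_lit 0x2180028013c0082000200000000000000000000000000) (nat_lit 0x0) (nat_lit 0x28001e000a0005000000008000000000000000000000000000000) := T_11 (nat_lit 158) (nat_lit 156) (nat_lit 1) (nat_lit 5) (nat_lit 9) L34866 (by decide +kernel)
theorem L34868 : W_11 (nat_lit 7) (nat_lit 0x2100028013c0082000200000000000000000000000000) (nat_lit 0x0) (nat_lit 0x28001f000a8005000000008000000000000000000000000000000) := T_11 (nat_lit 171) (nat_lit 188) (nat_lit 5) (nat_lit 2) (nat_lit 7) L34867 (by decide +kernel)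
theorem L34869 : W_11 (nat_lit 8) (nat_lit 0x2000028013c0082000200000000000000000000000000) (nat_lit 0x0) (nat_lit 0x28001f000b800500000000c000000000000000000000000000000) := T_11 (nat_lit 172) (nat_lit 122) (nat_lit 6) (nat_lit 2) (nat_lit 10) L34868 (by decide +kernel)
theorem L34870 : W_11 (nat_lit 9) (nat_lit 0x2000028013c0080000200000000000000000000000000) (nat_lit 0x0) (nat_lit 0x28001f000b800500000000f000000000000000000000000000000) := T_11 (nat_lit 121) (nat_lit 120) (nat_lit 0) (nat_lit 5) (nat_lit 8) L34869 (by decide +kernel)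
theorem L34871 : W_11 (nat_lit 10) (nat_lit 0x2000020013c0080000200000000000000000000000000) (nat_lit 0x0) (nat_lit 0x28001f000b8005c0000000f000000000000000000000000000000) := T_11 (nat_lit 155) (nat_lit 154) (nat_lit 1) (nat_lit 5) (nat_lit 8) L34870 (by decide +kernel)
theorem L34872 : W_11 (nat_lit 11) (nat_lit 0x2000020013c0080000000000000000000000000000000) (nat_lit 0x0) (nat_lit 0x28001f000b8005c0000000f001f0003e000e00010000000000000) := Q_11 (nat_lit 105) (C_11 L34840 (C_11 L34854 (C_11 L34858 (C_11 L34862 (C_11 L34871 N_11))))) (by decide +kernel)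
theorem L34873 : W_11 (nat_lit 12) (nat_lit 0x200002001380080000000000000000000000000000000) (nat_lit 0x0) (nat_lit 0x28001f000b8005e0007000f801f0003e000e00010000000000000) := Q_11 (nat_lit 138) (C_11 L34096 (C_11 L34825 (C_11 L34827 (C_11 L34872 N_11)))) (by decide +kernel)
theorem L34874 : W_11 (nat_lit 2) (nat_lit 0x2000024017c00a2000000000000000000000000000000) (nat_lit 0x0) (nat_lit 0x4200020000000000000000000000000000000000) := D_11 (nat_lit 137) (nat_lit 158) (nat_lit 153) (nat_lit 3) (nat_lit 1) (nat_lit 8) (nat_lit 1) (nat_lit 4) (nat_lit 8) (by decide +kernel)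
theorem L34875 : W_11 (nat_lit 3) (nat_lit 0x2000020017c00a2000000000000000000000000000000) (nat_lit 0x0) (nat_lit 0x4e00020000000000000000000000000000000000) := T_11 (nat_lit 154) (nat_lit 155) (nat_lit 1) (nat_lit 5) (nat_lit 8) L34874 (by decide +kernel)
theorem L34876 : W_11 (nat_lit 4) (nat_lit 0x2000020017800a2000000000000000000000000000000) (nat_lit 0x0) (nat_lit 0x4e00060001000000000000000000000000000000) := T_11 (nat_lit 138) (nat_lit 120) (nat_lit 0) (nat_lit 5) (nat_lit 8) L34875 (by decide +kernel)
theorem L34877 : W_11 (nat_lit 5) (nat_lit 0x200002001780082000000000000000000000000000000) (nat_lit 0x0) (nat_lit 0x4e00060061000000000000000000000000000000) := T_11 (nat_lit 125) (nat_lit 126) (nat_lit 2) (nat_lit 3) (nat_lit 8) L34876 (by decide +kernel)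
theorem L34878 : W_11 (nat_lit 6) (nat_lit 0x200002001780080000000000000000000000000000000) (nat_lit 0x0) (nat_lit 0x4e00060067000000000000000000000000000000) := T_11 (nat_lit 121) (nat_lit 122) (nat_lit 0) (nat_lit 6) (nat_lit 8) L34877 (by decide +kernel)
theorem L34879 : W_11 (nat_lit 2) (nat_lit 0x200002001780080000000000000000000000000000000) (nat_lit 0x0) (nat_lit 0x800060000000000000000000000000000000) := D_11 (nat_lit 126) (nat_lit 125) (nat_lit 143) (nat_lit 2) (nat_lit 3) (nat_lit 8) (nat_lit 2) (nat_lit 4) (nat_lit 8) (by decide +kernel)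
theorem L34880 : W_11 (nat_lit 2) (nat_lit 0x200002001780080000000000000000000000000000000) (nat_lit 0x0) (nat_lit 0x4000800100000000000000000000000000000000) := D_11 (nat_lit 143) (nat_lit 158) (nat_lit 128) (nat_lit 1) (nat_lit 8) (nat_lit 8) (nat_lit 2) (nat_lit 5) (nat_lit 8) (by decide +kernel)
theorem L34881 : W_11 (nat_lit 7) (nat_lit 0x200002001380080000000000000000000000000000000) (nat_lit 0x0) (nat_lit 0x4e00c60167000000000000000000000000000000) := Q_11 (nat_lit 142) (C_11 L34878 (C_11 L34879 (C_11 L34880 N_11))) (by decide +kernel)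
theorem L34882 : W_11 (nat_lit 7) (nat_lit 0x2000020017800a4000200000000000000000000000000) (nat_lit 0x0) (nat_lit 0xc000600030001800000008000500028000000000000000000000) := T_11 (nat_lit 156) (nat_lit 155) (nat_lit 1) (nat_lit 6) (nat_lit 8) L33884 (by decide +kernel)
theorem L34883 : W_11 (nat_lit 8) (nat_lit 0x2000020017800a4000000000000000000000000000000) (nat_lit 0x0) (nat_lit 0xc000600030001800000008000700038000000000000000000000) := T_11 (nat_lit 105) (nat_lit 88) (nat_lit 7) (nat_lit 3) (nat_lit 5) L34882 (by decide +kernel)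
theorem L34884 : W_11 (nat_lit 9) (nat_lit 0x200002001780084000000000000000000000000000000) (nat_lit 0x0) (nat_lit 0xc000600030001800000068000700038000000000000000000000) := T_11 (nat_lit 125) (nat_lit 126) (nat_lit 2) (nat_lit 3) (nat_lit 8) L34883 (by decide +kernel)
theorem L34885 : W_11 (nat_lit 10) (nat_lit 0x200002001780080000000000000000000000000000000) (nat_lit 0x0) (nat_lit 0xc00060003000180000006e000700038000000000000000000000) := T_11 (nat_lit 122) (nat_lit 121) (nat_lit 0) (nat_lit 6) (nat_lit 8) L34884 (by decide +kernel)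
theorem L34886 : W_11 (nat_lit 2) (nat_lit 0x200002001780080000000000000000000000000000000) (nat_lit 0x0) (nat_lit 0x1800800000000000000000000000000000000000) := D_11 (nat_lit 156) (nat_lit 155) (nat_lit 143) (nat_lit 1) (nat_lit 6) (nat_lit 8) (nat_lit 1) (nat_lit 7) (nat_lit 8) (by decide +kernel)
theorem L34887 : W_11 (nat_lit 11) (nat_lit 0x200002001380080000000000000000000000000000000) (nat_lit 0x0) (nat_lit 0xc000600030001800c0006e000700038000000000000000000000) := Q_11 (nat_lit 142) (C_11 L34885 (C_11 L34886 (C_11 L34879 N_11))) (by decide +kernel)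
theorem L34888 : W_11 (nat_lit 2) (nat_lit 0x200002001380088000400000000000000000000000000) (nat_lit 0x0) (nat_lit 0x5000000000000000020000000000000000000000) := D_11 (nat_lit 89) (nat_lit 156) (nat_lit 158) (nat_lit 5) (nat_lit 4) (nat_lit 5) (nat_lit 7) (nat_lit 4) (nat_lit 5) (by decide +kernel)
theorem L34889 : W_11 (nat_lit 2) (nat_lit 0x200002001380088000400000000000000000000000000) (nat_lit 0x0) (nat_lit 0x20001000000000000000020000000000000000000000) := D_11 (nat_lit 156) (nat_lit 89) (nat_lit 173) (nat_lit 5) (nat_lit 4) (nat_lit 5) (nat_lit 5) (nat_lit 4) (nat_lit 6) (by decide +kernel)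
theorem L34890 : W_11 (nat_lit 2) (nat_lit 0x200002001380088000400000000000000000000000000) (nat_lit 0x0) (nat_lit 0x80004000000000000000020000000000000000000000) := D_11 (nat_lit 158) (nat_lit 175) (nat_lit 89) (nat_lit 7) (nat_lit 4) (nat_lit 6) (nat_lit 7) (nat_lit 4) (nat_lit 5) (by decide +kernel)
theorem L34891 : W_11 (nat_lit 2) (nat_lit 0x2000070013c008a000e00000000000000000000000000) (nat_lit 0x0) (nat_lit 0x400004001000000000000000000000000000) := D_11 (nat_lit 122) (nat_lit 142) (nat_lit 108) (nat_lit 0) (nat_lit 6) (nat_lit 8) (nat_lit 1) (nat_lit 6) (nat_lit 6) (by decide +kernel)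
theorem L34892 : W_11 (nat_lit 3) (nat_lit 0x2000070013c0088000e00000000000000000000000000) (nat_lit 0x0) (nat_lit 0x400007001000000000000000000000000000) := T_11 (nat_lit 121) (nat_lit 120) (nat_lit 0) (nat_lit 5) (nat_lit 8) L34891 (by decide +kernel)
theorem L34893 : W_11 (nat_lit 4) (nat_lit 0x200007001380088000e00000000000000000000000000) (nat_lit 0x0) (nat_lit 0x460007001000000000000000000000000000) := T_11 (nat_lit 138) (nat_lit 137) (nat_lit 3) (nat_lit 1) (nat_lit 8) L34892 (by decide +kernel)
theorem L34894 : W_11 (nat_lit 5) (nat_lit 0x200003001380088000e00000000000000000000000000) (nat_lit 0x0) (nat_lit 0x80004000460007001000000000000000000000000000) := T_11 (nat_lit 158) (nat_lit 175) (nat_lit 7) (nat_lit 4) (nat_lit 6) L34893 (by decide +kernel)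
theorem L34895 : W_11 (nat_lit 6) (nat_lit 0x200002001380088000e00000000000000000000000000) (nat_lit 0x0) (nat_lit 0xa0005000460007001000000000000000000000000000) := T_11 (nat_lit 156) (nat_lit 173) (nat_lit 5) (nat_lit 4) (nat_lit 6) L34894 (by decide +kernel)
theorem L34896 : W_11 (nat_lit 7) (nat_lit 0x200002001380088000600000000000000000000000000) (nat_lit 0x0) (nat_lit 0xa0005000460007001800040000000000000000000000) := T_11 (nat_lit 107) (nat_lit 90) (nat_lit 6) (nat_lit 4) (nat_lit 9) L34895 (by decide +kernel)
theorem L34897 : W_11 (nat_lit 8) (nat_lit 0x200002001380088000400000000000000000000000000) (nat_lit 0x0) (nat_lit 0xa0005000460007001a00050000000000000000000000) := T_11 (nat_lit 105) (nat_lit 88) (nat_lit 4) (nat_lit 4) (nat_lit 9) L34896 (by decide +kernel)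
theorem L34898 : W_11 (nat_lit 9) (nat_lit 0x200002001380088000000000000000000000000000000) (nat_lit 0x0) (nat_lit 0xa0005000460007001e00070000000000000000000000) := Q_11 (nat_lit 106) (C_11 L34888 (C_11 L34889 (C_11 L34890 (C_11 L34897 N_11)))) (by decide +kernel)
theorem L34899 : W_11 (nat_lit 4) (nat_lit 0x2000070013c008a000e00000000000000000000000000) (nat_lit 0x0) (nat_lit 0x64003100008000000000000000000000) := T_11 (nat_lit 87) (nat_lit 104) (nat_lit 7) (nat_lit 2) (nat_lit 5) L34830 (by decide +kernel)
theorem L34900 : W_11 (nat_lit 5) (nat_lit 0x2000070013c0088000e00000000000000000000000000) (nat_lit 0x0) (nat_lit 0x67003100008000000000000000000000) := T_11 (nat_lit 121) (nat_lit 120) (nat_lit 0) (nat_lit 5) (nat_lit 8) L34899 (by decide +kernel)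
theorem L34901 : W_11 (nat_lit 6) (nat_lit 0x200007001380088000e00000000000000000000000000) (nat_lit 0x0) (nat_lit 0x60067003100008000000000000000000000) := T_11 (nat_lit 138) (nat_lit 137) (nat_lit 3) (nat_lit 1) (nat_lit 8) L34900 (by decide +kernel)
theorem L34902 : W_11 (nat_lit 7) (nat_lit 0x200003001380088000e00000000000000000000000000) (nat_lit 0x0) (nat_lit 0x80004000060067003100008000000000000000000000) := T_11 (nat_lit 158) (nat_lit 175) (nat_lit 7) (nat_lit 4) (nat_lit 6) L34901 (by decide +kernel)
theorem L34903 : W_11 (nat_lit 8) (nat_lit 0x200002001380088000e00000000000000000000000000) (nat_lit 0x0) (nat_lit 0xa0005000060067003100008000000000000000000000) := T_11 (nat_lit 156) (nat_lit 173) (nat_lit 5) (nat_lit 4) (nat_lit 6) L34902 (by decide +kernel)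
theorem L34904 : W_11 (nat_lit 9) (nat_lit 0x200002001380088000600000000000000000000000000) (nat_lit 0x0) (nat_lit 0xa0005000060067003900048000000000000000000000) := T_11 (nat_lit 107) (nat_lit 90) (nat_lit 6) (nat_lit 4) (nat_lit 9) L34903 (by decide +kernel)
theorem L34905 : W_11 (nat_lit 10) (nat_lit 0x200002001380088000400000000000000000000000000) (nat_lit 0x0) (nat_lit 0xa0005000060067003b00058000000000000000000000) := T_11 (nat_lit 105) (nat_lit 88) (nat_lit 4) (nat_lit 4) (nat_lit 9) L34904 (by decide +kernel)
theorem L34906 : W_11 (nat_lit 11) (nat_lit 0x200002001380088000000000000000000000000000000) (nat_lit 0x0) (nat_lit 0xa0005000060067003f00078000000000000000000000) := Q_11 (nat_lit 106) (C_11 L34890 (C_11 L34889 (C_11 L34905 N_11))) (by decide +kernel)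
theorem L34907 : W_11 (nat_lit 2) (nat_lit 0x200002001780088000000000000000000000000000000) (nat_lit 0x0) (nat_lit 0x800104000000000000000000000000000000) := D_11 (nat_lit 143) (nat_lit 128) (nat_lit 122) (nat_lit 2) (nat_lit 5) (nat_lit 8) (nat_lit 0) (nat_lit 7) (nat_lit 8) (by decide +kernel)
theorem L34908 : W_11 (nat_lit 2) (nat_lit 0x200002001780088000000000000000000000000000000) (nat_lit 0x0) (nat_lit 0x800140000000000000000000000000000000) := D_11 (nat_lit 143) (nat_lit 128) (nat_lit 126) (nat_lit 2) (nat_lit 5) (nat_lit 8) (nat_lit 2) (nat_lit 4) (nat_lit 8) (by decide +kernel)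
theorem L34909 : W_11 (nat_lit 8) (nat_lit 0x200002001380088000000000000000000000000000000) (nat_lit 0x0) (nat_lit 0x20001000c40147000f00070001800000000000000000) := Q_11 (nat_lit 142) (C_11 L34907 (C_11 L33833 (C_11 L34908 N_11))) (by decide +kernel)
theorem L34910 : W_11 (nat_lit 2) (nat_lit 0x2000020013800c8000400000000000000000000000000) (nat_lit 0x0) (nat_lit 0xc00020000000000000000000000000000000) := D_11 (nat_lit 142) (nat_lit 125) (nat_lit 143) (nat_lit 2) (nat_lit 3) (nat_lit 8) (nat_lit 2) (nat_lit 4) (nat_lit 8) (by decide +kernel)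
theorem L34911 : W_11 (nat_lit 2) (nat_lit 0x4000200003001b800c8002c00000000000000000000000000) (nat_lit 0x0) (nat_lit 0x20000000000000000100008000000000000000000) := D_11 (nat_lit 92) (nat_lit 161) (nat_lit 75) (nat_lit 7) (nat_lit 7) (nat_lit 5) (nat_lit 7) (nat_lit 7) (nat_lit 4) (by decide +kernel)
theorem L34912 : W_11 (nat_lit 3) (nat_lit 0x4000200003001b800c8000c00000000000000000000000000) (nat_lit 0x0) (nat_lit 0x20000000000003000100008000000000000000000) := T_11 (nat_lit 109) (nat_lit 108) (nat_lit 3) (nat_lit 4) (nat_lit 6) L34911 (by decide +kernel)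
theorem L34913 : W_11 (nat_lit 4) (nat_lit 0x4000200003001b800c8000400000000000000000000000000) (nat_lit 0x0) (nat_lit 0x20000000000003800140008000000000000000000) := T_11 (nat_lit 107) (nat_lit 90) (nat_lit 6) (nat_lit 4) (nat_lit 9) L34912 (by decide +kernel)
theorem L34914 : W_11 (nat_lit 5) (nat_lit 0x200003001b800c8000400000000000000000000000000) (nat_lit 0x0) (nat_lit 0x4000000030000000000003800140008000000000000000000) := T_11 (nat_lit 194) (nat_lit 160) (nat_lit 6) (nat_lit 7) (nat_lit 11) L34913 (by decide +kernel)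
theorem L34915 : W_11 (nat_lit 6) (nat_lit 0x2000030013800c8000400000000000000000000000000) (nat_lit 0x0) (nat_lit 0x4000000030000c00000003800140008000000000000000000) := T_11 (nat_lit 143) (nat_lit 142) (nat_lit 2) (nat_lit 4) (nat_lit 8) L34914 (by decide +kernel)
theorem L34916 : W_11 (nat_lit 7) (nat_lit 0x2000020013800c8000400000000000000000000000000) (nat_lit 0x0) (nat_lit 0x4000020031000c00000003800140008000000000000000000) := T_11 (nat_lit 156) (nat_lit 173) (nat_lit 5) (nat_lit 4) (nat_lit 6) L34915 (by decide +kernel)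
theorem L34917 : W_11 (nat_lit 2) (nat_lit 0x2000030013800c8000e00000000000000000000000000) (nat_lit 0x0) (nat_lit 0x20003000000000000000000000000000) := D_11 (nat_lit 108) (nat_lit 109) (nat_lit 125) (nat_lit 3) (nat_lit 4) (nat_lit 6) (nat_lit 3) (nat_lit 3) (nat_lit 6) (by decide +kernel)
theorem L34918 : W_11 (nat_lit 3) (nat_lit 0x2000030013800c8000600000000000000000000000000) (nat_lit 0x0) (nat_lit 0x20003800040000000000000000000000) := T_11 (nat_lit 107) (nat_lit 90) (nat_lit 6) (nat_lit 4) (nat_lit 9) L34917 (by decide +kernel)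
theorem L34919 : W_11 (nat_lit 4) (nat_lit 0x2000020013800c8000600000000000000000000000000) (nat_lit 0x0) (nat_lit 0x20001000000020003800040000000000000000000000) := T_11 (nat_lit 156) (nat_lit 173) (nat_lit 5) (nat_lit 4) (nat_lit 6) L34918 (by decide +kernel)
theorem L34920 : W_11 (nat_lit 5) (nat_lit 0x2000020013800c8000400000000000000000000000000) (nat_lit 0x0) (nat_lit 0x20001000000020003a00050000000000000000000000) := T_11 (nat_lit 105) (nat_lit 88) (nat_lit 4) (nat_lit 4) (nat_lit 9) L34919 (by decide +kernel)
theorem L34921 : W_11 (nat_lit 8) (nat_lit 0x200002001380088000400000000000000000000000000) (nat_lit 0x0) (nat_lit 0x4000020031000c00060003a00150008000000000000000000) := Q_11 (nat_lit 126) (C_11 L34910 (C_11 L34916 (C_11 L34920 N_11))) (by decide +kernel)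
theorem L34922 : W_11 (nat_lit 9) (nat_lit 0x200002001380088000000000000000000000000000000) (nat_lit 0x0) (nat_lit 0x40000a0035000c00060003e00170008000000000000000000) := Q_11 (nat_lit 106) (C_11 L34890 (C_11 L34889 (C_11 L34921 N_11))) (by decide +kernel)
theorem L34923 : W_11 (nat_lit 2) (nat_lit 0x200002001380088000e00020001000140000000000000) (nat_lit 0x0) (nat_lit 0x8000a000000000) := D_11 (nat_lit 55) (nat_lit 39) (nat_lit 37) (nat_lit 6) (nat_lit 4) (nat_lit 6) (nat_lit 4) (nat_lit 4) (nat_lit 6) (by decide +kernel)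
theorem L34924 : W_11 (nat_lit 3) (nat_lit 0x200002001380088000e00020001000100000000000000) (nat_lit 0x0) (nat_lit 0x8000c000a000000000) := T_11 (nat_lit 54) (nat_lit 71) (nat_lit 4) (nat_lit 4) (nat_lit 7) L34923 (by decide +kernel)
theorem L34925 : W_11 (nat_lit 4) (nat_lit 0x200002001380088000e00020001000000000000000000) (nat_lit 0x0) (nat_lit 0x28001c000a000000000) := T_11 (nat_lit 56) (nat_lit 73) (nat_lit 6) (nat_lit 4) (nat_lit 7) L34924 (by decide +kernel)
theorem L34926 : W_11 (nat_lit 5) (nat_lit 0x200002001380088000e00020000000000000000000000) (nat_lit 0x0) (nat_lit 0x40000000000038001c000a000000000) := T_11 (nat_lit 72) (nat_lit 122) (nat_lit 5) (nat_lit 4) (nat_lit 4) L34925 (by decide +kernel)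
theorem L34927 : W_11 (nat_lit 6) (nat_lit 0x200002001380088000e00000000000000000000000000) (nat_lit 0x0) (nat_lit 0x10000000040000000200038001c000a000000000) := T_11 (nat_lit 89) (nat_lit 156) (nat_lit 5) (nat_lit 4) (nat_lit 5) L34926 (by decide +kernel)
theorem L34928 : W_11 (nat_lit 7) (nat_lit 0x200002001380088000600000000000000000000000000) (nat_lit 0x0) (nat_lit 0x10000000040008000600038001c000a000000000) := T_11 (nat_lit 107) (nat_lit 90) (nat_lit 6) (nat_lit 4) (nat_lit 9) L34927 (by decide +kernel)
theorem L34929 : W_11 (nat_lit 8) (nat_lit 0x200002001380088000400000000000000000000000000) (nat_lit 0x0) (nat_lit 0x1000000004000a000700038001c000a000000000) := T_11 (nat_lit 105) (nat_lit 88) (nat_lit 4) (nat_lit 4) (nat_lit 9) L34928 (by decide +kernel)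
theorem L34930 : W_11 (nat_lit 2) (nat_lit 0x2000060017a008c001e00000000000000000000000000) (nat_lit 0x0) (nat_lit 0x60000000080000000000000000000000) := D_11 (nat_lit 125) (nat_lit 126) (nat_lit 91) (nat_lit 3) (nat_lit 3) (nat_lit 6) (nat_lit 5) (nat_lit 6) (nat_lit 5) (by decide +kernel)
theorem L34931 : W_11 (nat_lit 3) (nat_lit 0x2000060017a008c000e00000000000000000000000000) (nat_lit 0x0) (nat_lit 0x60003000080000000000000000000000) := T_11 (nat_lit 108) (nat_lit 109) (nat_lit 1) (nat_lit 7) (nat_lit 6) L34930 (by decide +kernel)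
theorem L34932 : W_11 (nat_lit 4) (nat_lit 0x2000060017a008c000c00000000000000000000000000) (nat_lit 0x0) (nat_lit 0x60003200090000000000000000000000) := T_11 (nat_lit 105) (nat_lit 88) (nat_lit 7) (nat_lit 3) (nat_lit 5) L34931 (by decide +kernel)
theorem L34933 : W_11 (nat_lit 5) (nat_lit 0x2000060017a0088000c00000000000000000000000000) (nat_lit 0x0) (nat_lit 0x66003200090000000000000000000000) := T_11 (nat_lit 122) (nat_lit 121) (nat_lit 0) (nat_lit 6) (nat_lit 8) L34932 (by decide +kernel)
theorem L34934 : W_11 (nat_lit 6) (nat_lit 0x2000060017a0088000400000000000000000000000000) (nat_lit 0x0) (nat_lit 0x66003a000d0000000000000000000000) := T_11 (nat_lit 107) (nat_lit 90) (nat_lit 6) (nat_lit 4) (nat_lit 9) L34933 (by decide +kernel)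
theorem L34935 : W_11 (nat_lit 7) (nat_lit 0x2000060013a0088000400000000000000000000000000) (nat_lit 0x0) (nat_lit 0xc00066003a000d0000000000000000000000) := T_11 (nat_lit 142) (nat_lit 143) (nat_lit 1) (nat_lit 8) (nat_lit 8) L34934 (by decide +kernel)
theorem L34936 : W_11 (nat_lit 8) (nat_lit 0x200006001380088000400000000000000000000000000) (nat_lit 0x0) (nat_lit 0xc60066003a000d0000000000000000000000) := T_11 (nat_lit 137) (nat_lit 138) (nat_lit 3) (nat_lit 1) (nat_lit 8) L34935 (by decide +kernel)
theorem L34937 : W_11 (nat_lit 9) (nat_lit 0x200002001380088000400000000000000000000000000) (nat_lit 0x0) (nat_lit 0x80004000c60066003a000d0000000000000000000000) := T_11 (nat_lit 158) (nat_lit 175) (nat_lit 7) (nat_lit 4) (nat_lit 6) L34936 (by decide +kernel)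
theorem L34938 : W_11 (nat_lit 10) (nat_lit 0x200002001380088000000000000000000000000000000) (nat_lit 0x0) (nat_lit 0x80005000c60066003e000f00038001c000a000000000) := Q_11 (nat_lit 106) (C_11 L34890 (C_11 L34929 (C_11 L34937 N_11))) (by decide +kernel)
theorem L34939 : W_11 (nat_lit 2) (nat_lit 0x200002001780088000000000000000000000000000000) (nat_lit 0x0) (nat_lit 0x800006000000000000000000000000000000) := D_11 (nat_lit 122) (nat_lit 121) (nat_lit 143) (nat_lit 0) (nat_lit 6) (nat_lit 8) (nat_lit 0) (nat_lit 7) (nat_lit 8) (by decide +kernel)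
theorem L34940 : W_11 (nat_lit 2) (nat_lit 0x2000020017c0088000000000000000000000000000000) (nat_lit 0x0) (nat_lit 0x7000000000000000000000000000000) := D_11 (nat_lit 121) (nat_lit 122) (nat_lit 120) (nat_lit 0) (nat_lit 6) (nat_lit 8) (nat_lit 0) (nat_lit 5) (nat_lit 8) (by decide +kernel)
theorem L34941 : W_11 (nat_lit 2) (nat_lit 0x2000020017e0088000000000000000000000000000000) (nat_lit 0x0) (nat_lit 0x3800000000000000000000000000000) := D_11 (nat_lit 120) (nat_lit 121) (nat_lit 119) (nat_lit 0) (nat_lit 5) (nat_lit 8) (nat_lit 0) (nat_lit 4) (nat_lit 8) (by decide +kernel)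
theorem L34942 : W_11 (nat_lit 3) (nat_lit 0x2000020017c0088000000000000000000000000000000) (nat_lit 0x0) (nat_lit 0x4000020003800000000000000000000000000000) := T_11 (nat_lit 137) (nat_lit 158) (nat_lit 3) (nat_lit 1) (nat_lit 8) L34941 (by decide +kernel)
theorem L34943 : W_11 (nat_lit 2) (nat_lit 0x2000020017e0088000000000000000000000000000000) (nat_lit 0x0) (nat_lit 0x1000010004000000000000000000000000000000) := D_11 (nat_lit 136) (nat_lit 156) (nat_lit 122) (nat_lit 3) (nat_lit 0) (nat_lit 8) (nat_lit 2) (nat_lit 0) (nat_lit 8) (by decide +kernel)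
theorem L34944 : W_11 (nat_lit 3) (nat_lit 0x2000020017c0088000000000000000000000000000000) (nat_lit 0x0) (nat_lit 0x5000030004000000000000000000000000000000) := T_11 (nat_lit 137) (nat_lit 158) (nat_lit 3) (nat_lit 1) (nat_lit 8) L34943 (by decide +kernel)
theorem L34945 : W_11 (nat_lit 4) (nat_lit 0x200002001780088000000000000000000000000000000) (nat_lit 0x0) (nat_lit 0x5000070007800000000000000000000000000000) := Q_11 (nat_lit 138) (C_11 L34940 (C_11 L34942 (C_11 L34944 N_11))) (by decide +kernel)
theorem L34946 : W_11 (nat_lit 5) (nat_lit 0x200002001380088000000000000000000000000000000) (nat_lit 0x0) (nat_lit 0x5000c70147800000000000000000000000000000) := Q_11 (nat_lit 142) (C_11 L34908 (C_11 L34939 (C_11 L34945 N_11))) (by decide +kernel)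
theorem L34947 : W_11 (nat_lit 2) (nat_lit 0x20000200138008c000600060000000000000000000000) (nat_lit 0x0) (nat_lit 0x400003000000000000000000000000000000) := D_11 (nat_lit 121) (nat_lit 120) (nat_lit 142) (nat_lit 3) (nat_lit 1) (nat_lit 7) (nat_lit 0) (nat_lit 6) (nat_lit 8) (by decide +kernel)
theorem L34948 : W_11 (nat_lit 3) (nat_lit 0x200002001380088000600060000000000000000000000) (nat_lit 0x0) (nat_lit 0x400007000000000001000000000000000000) := T_11 (nat_lit 122) (nat_lit 72) (nat_lit 5) (nat_lit 4) (nat_lit 4) L34947 (by decide +kernel)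
theorem L34949 : W_11 (nat_lit 4) (nat_lit 0x200002001380088000600040000000000000000000000) (nat_lit 0x0) (nat_lit 0x400007000000020003000000000000000000) := T_11 (nat_lit 89) (nat_lit 73) (nat_lit 6) (nat_lit 4) (nat_lit 8) L34948 (by decide +kernel)
theorem L34950 : W_11 (nat_lit 5) (nat_lit 0x200002001380088000600000000000000000000000000) (nat_lit 0x0) (nat_lit 0x400007000800060003000000000000000000) := T_11 (nat_lit 90) (nat_lit 107) (nat_lit 6) (nat_lit 4) (nat_lit 9) L34949 (by decide +kernel)
theorem L34951 : W_11 (nat_lit 6) (nat_lit 0x200002001380088000400000000000000000000000000) (nat_lit 0x0) (nat_lit 0x400007000a00070003000000000000000000) := T_11 (nat_lit 105) (nat_lit 88) (nat_lit 4) (nat_lit 4) (nat_lit 9) L34950 (by decide +kernel)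
theorem L34952 : W_11 (nat_lit 10) (nat_lit 0x200002001380088000000000000000000000000000000) (nat_lit 0x0) (nat_lit 0x80004000c60067003e000f0003000000000000000000) := Q_11 (nat_lit 106) (C_11 L34890 (C_11 L34937 (C_11 L34951 N_11))) (by decide +kernel)
theorem L34953 : W_11 (nat_lit 12) (nat_lit 0x200002001380080000000000000000000000000000000) (nat_lit 0x0) (nat_lit 0x40000a0035000c7016f803f001f800b8001c000a000000000) := Q_11 (nat_lit 123) (C_11 L34898 (C_11 L34906 (C_11 L34909 (C_11 L34922 (C_11 L34938 (C_11 L34946 (C_11 L34952 N_11))))))) (by decide +kernel)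
theorem L34954 : W_11 (nat_lit 2) (nat_lit 0x200003001380088000e00000000000000000000000000) (nat_lit 0x0) (nat_lit 0xc00400000000000000000000000000000000000) := D_11 (nat_lit 155) (nat_lit 154) (nat_lit 142) (nat_lit 2) (nat_lit 1) (nat_lit 9) (nat_lit 1) (nat_lit 6) (nat_lit 8) (by decide +kernel)
theorem L34955 : W_11 (nat_lit 3) (nat_lit 0x200002001380088000e00000000000000000000000000) (nat_lit 0x0) (nat_lit 0x20001c00400000000000000000000000000000000000) := T_11 (nat_lit 156) (nat_lit 173) (nat_lit 5) (nat_lit 4) (nat_lit 6) L34954 (by decide +kernel)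
theorem L34956 : W_11 (nat_lit 4) (nat_lit 0x200002001380088000600000000000000000000000000) (nat_lit 0x0) (nat_lit 0x20001c00400000000800040000000000000000000000) := T_11 (nat_lit 107) (nat_lit 90) (nat_lit 6) (nat_lit 4) (nat_lit 9) L34955 (by decide +kernel)
theorem L34957 : W_11 (nat_lit 5) (nat_lit 0x200002001380088000400000000000000000000000000) (nat_lit 0x0) (nat_lit 0x20001c00400000000a00050000000000000000000000) := T_11 (nat_lit 105) (nat_lit 88) (nat_lit 4) (nat_lit 4) (nat_lit 9) L34956 (by decide +kernel)
theorem L34958 : W_11 (nat_lit 9) (nat_lit 0x200002001380088000000000000000000000000000000) (nat_lit 0x0) (nat_lit 0xa0005c00400004000e000700038001c000a000000000) := Q_11 (nat_lit 106) (C_11 L34929 (C_11 L34890 (C_11 L34957 N_11))) (by decide +kernel)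
theorem L34959 : W_11 (nat_lit 2) (nat_lit 0x200007801380088000e00000000000000000000000000) (nat_lit 0x0) (nat_lit 0x18000000000004000000000000000000000000000000) := D_11 (nat_lit 172) (nat_lit 122) (nat_lit 171) (nat_lit 5) (nat_lit 3) (nat_lit 6) (nat_lit 1) (nat_lit 5) (nat_lit 9) (by decide +kernel)
theorem L34960 : W_11 (nat_lit 3) (nat_lit 0x200003801380088000e00000000000000000000000000) (nat_lit 0x0) (nat_lit 0x98004000000004000000000000000000000000000000) := T_11 (nat_lit 158) (nat_lit 175) (nat_lit 7) (nat_lit 4) (nat_lit 6) L34959 (by decide +kernel)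
theorem L34961 : W_11 (nat_lit 4) (nat_lit 0x200003001380088000e00000000000000000000000000) (nat_lit 0x0) (nat_lit 0x98004c00000004000000000000000000000000000000) := T_11 (nat_lit 155) (nat_lit 154) (nat_lit 2) (nat_lit 1) (nat_lit 9) L34960 (by decide +kernel)
theorem L34962 : W_11 (nat_lit 5) (nat_lit 0x200002001380088000e00000000000000000000000000) (nat_lit 0x0) (nat_lit 0xb8005c00000004000000000000000000000000000000) := T_11 (nat_lit 156) (nat_lit 173) (nat_lit 5) (nat_lit 4) (nat_lit 6) L34961 (by decide +kernel)
theorem L34963 : W_11 (nat_lit 6) (nat_lit 0x200002001380088000600000000000000000000000000) (nat_lit 0x0) (nat_lit 0xb8005c00000004000800040000000000000000000000) := T_11 (nat_lit 107) (nat_lit 90) (nat_lit 6) (nat_lit 4) (nat_lit 9) L34962 (by decide +kernel)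
theorem L34964 : W_11 (nat_lit 7) (nat_lit 0x200002001380088000400000000000000000000000000) (nat_lit 0x0) (nat_lit 0xb8005c00000004000a00050000000000000000000000) := T_11 (nat_lit 105) (nat_lit 88) (nat_lit 4) (nat_lit 4) (nat_lit 9) L34963 (by decide +kernel)
theorem L34965 : W_11 (nat_lit 9) (nat_lit 0x200002001380088000000000000000000000000000000) (nat_lit 0x0) (nat_lit 0xb8005c00000004000e000700038001c000a000000000) := Q_11 (nat_lit 106) (C_11 L34929 (C_11 L34890 (C_11 L34964 N_11))) (by decide +kernel)
theorem L34966 : W_11 (nat_lit 2) (nat_lit 0x200003001380088000000000000000000000000000000) (nat_lit 0x0) (nat_lit 0x800c00000000000000000000000000000000000) := D_11 (nat_lit 142) (nat_lit 155) (nat_lit 143) (nat_lit 1) (nat_lit 6) (nat_lit 8) (nat_lit 1) (nat_lit 7) (nat_lit 8) (by decide +kernel)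
theorem L34967 : W_11 (nat_lit 2) (nat_lit 0x200003001380088000000000000000000000000000000) (nat_lit 0x0) (nat_lit 0x20000000000000000400020000000000000000000000) := D_11 (nat_lit 106) (nat_lit 173) (nat_lit 89) (nat_lit 5) (nat_lit 4) (nat_lit 6) (nat_lit 5) (nat_lit 4) (nat_lit 5) (by decide +kernel)
theorem L34968 : W_11 (nat_lit 3) (nat_lit 0x200002001380088000000000000000000000000000000) (nat_lit 0x0) (nat_lit 0x20001800c00000000400020000000000000000000000) := Q_11 (nat_lit 156) (C_11 L34966 (C_11 L34967 N_11)) (by decide +kernel)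
theorem L34969 : W_11 (nat_lit 2) (nat_lit 0x200002001780088000000000000000000000000000000) (nat_lit 0x0) (nat_lit 0x1000800004000000000000000000000000000000) := D_11 (nat_lit 143) (nat_lit 122) (nat_lit 156) (nat_lit 0) (nat_lit 7) (nat_lit 8) (nat_lit 1) (nat_lit 7) (nat_lit 8) (by decide +kernel)
theorem L34970 : W_11 (nat_lit 2) (nat_lit 0x2000068017c00a8000000000000000000000000000000) (nat_lit 0x0) (nat_lit 0x1000080000000000000000400000000000000000000000000) := D_11 (nat_lit 175) (nat_lit 192) (nat_lit 106) (nat_lit 6) (nat_lit 5) (nat_lit 11) (nat_lit 7) (nat_lit 4) (nat_lit 6) (by decide +kernel)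
theorem L34971 : W_11 (nat_lit 3) (nat_lit 0x2000028017c00a8000000000000000000000000000000) (nat_lit 0x0) (nat_lit 0x1000080004000020000000400000000000000000000000000) := T_11 (nat_lit 158) (nat_lit 137) (nat_lit 3) (nat_lit 1) (nat_lit 8) L34970 (by decide +kernel)
theorem L34972 : W_11 (nat_lit 4) (nat_lit 0x2000028017800a8000000000000000000000000000000) (nat_lit 0x0) (nat_lit 0x1000080004400060000000400000000000000000000000000) := T_11 (nat_lit 138) (nat_lit 154) (nat_lit 1) (nat_lit 5) (nat_lit 8) L34971 (by decide +kernel)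
theorem L34973 : W_11 (nat_lit 5) (nat_lit 0x2000020017800a8000000000000000000000000000000) (nat_lit 0x0) (nat_lit 0x1000080005c00060000000400000000000000000000000000) := T_11 (nat_lit 155) (nat_lit 156) (nat_lit 1) (nat_lit 6) (nat_lit 8) L34972 (by decide +kernel)
theorem L34974 : W_11 (nat_lit 6) (nat_lit 0x200002001780088000000000000000000000000000000) (nat_lit 0x0) (nat_lit 0x1000080005c00060060000400000000000000000000000000) := T_11 (nat_lit 125) (nat_lit 126) (nat_lit 2) (nat_lit 3) (nat_lit 8) L34973 (by decide +kernel)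
theorem L34975 : W_11 (nat_lit 7) (nat_lit 0x200002001380088000000000000000000000000000000) (nat_lit 0x0) (nat_lit 0x1000080005c00c60164000400000000000000000000000000) := Q_11 (nat_lit 142) (C_11 L34908 (C_11 L34969 (C_11 L34974 N_11))) (by decide +kernel)
theorem L34976 : W_11 (nat_lit 2) (nat_lit 0x2000020017c0088000000000000000000000000000000) (nat_lit 0x0) (nat_lit 0x1c00000000000000000000000000000000000000) := D_11 (nat_lit 155) (nat_lit 156) (nat_lit 154) (nat_lit 1) (nat_lit 6) (nat_lit 8) (nat_lit 1) (nat_lit 5) (nat_lit 8) (by decide +kernel)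
theorem L34977 : W_11 (nat_lit 2) (nat_lit 0x2000020017e0088000000000000000000000000000000) (nat_lit 0x0) (nat_lit 0xe00000000000000000000000000000000000000) := D_11 (nat_lit 154) (nat_lit 155) (nat_lit 153) (nat_lit 1) (nat_lit 5) (nat_lit 8) (nat_lit 1) (nat_lit 4) (nat_lit 8) (by decide +kernel)
theorem L34978 : W_11 (nat_lit 3) (nat_lit 0x2000020017c0088000000000000000000000000000000) (nat_lit 0x0) (nat_lit 0x4e00020000000000000000000000000000000000) := T_11 (nat_lit 137) (nat_lit 158) (nat_lit 3) (nat_lit 1) (nat_lit 8) L34977 (by decide +kernel)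
theorem L34979 : W_11 (nat_lit 4) (nat_lit 0x200002001780088000000000000000000000000000000) (nat_lit 0x0) (nat_lit 0x5e00070004000000000000000000000000000000) := Q_11 (nat_lit 138) (C_11 L34944 (C_11 L34976 (C_11 L34978 N_11))) (by decide +kernel)
theorem L34980 : W_11 (nat_lit 5) (nat_lit 0x200002001380088000000000000000000000000000000) (nat_lit 0x0) (nat_lit 0x5e00c70144000000000000000000000000000000) := Q_11 (nat_lit 142) (C_11 L34969 (C_11 L34908 (C_11 L34979 N_11))) (by decide +kernel)
theorem L34981 : W_11 (nat_lit 2) (nat_lit 0x2000020013800c8002c0003400b000000000000000000) (nat_lit 0x0) (nat_lit 0xc00020000000000000000000000000000000) := D_11 (nat_lit 142) (nat_lit 143) (nat_lit 125) (nat_lit 2) (nat_lit 4) (nat_lit 8) (nat_lit 2) (nat_lit 3) (nat_lit 8) (by decide +kernel)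
theorem L34982 : W_11 (nat_lit 3) (nat_lit 0x200002001380088002c0003400b000000000000000000) (nat_lit 0x0) (nat_lit 0xc00060000000100000000000000000000000) := T_11 (nat_lit 126) (nat_lit 92) (nat_lit 7) (nat_lit 7) (nat_lit 4) L34981 (by decide +kernel)
theorem L34983 : W_11 (nat_lit 4) (nat_lit 0x200002001380088002c00034003000000000000000000) (nat_lit 0x0) (nat_lit 0xc0006000000010000c000000000000000000) := T_11 (nat_lit 75) (nat_lit 74) (nat_lit 1) (nat_lit 7) (nat_lit 4) L34982 (by decide +kernel)
theorem L34984 : W_11 (nat_lit 5) (nat_lit 0x200002001380088002c00034001000000000000000000) (nat_lit 0x0) (nat_lit 0xc0006000000010000e000100000000000000) := T_11 (nat_lit 73) (nat_lit 56) (nat_lit 6) (nat_lit 4) (nat_lit 7) L34983 (by decide +kernel)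
theorem L34985 : W_11 (nat_lit 6) (nat_lit 0x200002001380088000c00034001000000000000000000) (nat_lit 0x0) (nat_lit 0xc0006000300010000e000100000000000000) := T_11 (nat_lit 109) (nat_lit 108) (nat_lit 0) (nat_lit 7) (nat_lit 6) L34984 (by decide +kernel)
theorem L34986 : W_11 (nat_lit 7) (nat_lit 0x200002001380088000c00034000000000000000000000) (nat_lit 0x0) (nat_lit 0xc0006400300010000f000100000000000000) := T_11 (nat_lit 72) (nat_lit 122) (nat_lit 5) (nat_lit 4) (nat_lit 4) L34985 (by decide +kernel)
theorem L34987 : W_11 (nat_lit 8) (nat_lit 0x200002001380088000c00030000000000000000000000) (nat_lit 0x0) (nat_lit 0xc0006400300010c00f000100000000000000) := T_11 (nat_lit 86) (nat_lit 87) (nat_lit 3) (nat_lit 1) (nat_lit 5) L34986 (by decide +kernel)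
theorem L34988 : W_11 (nat_lit 9) (nat_lit 0x200002001380088000c00010000000000000000000000) (nat_lit 0x0) (nat_lit 0xc0006400300012c00f800100000000000000) := T_11 (nat_lit 89) (nat_lit 71) (nat_lit 4) (nat_lit 4) (nat_lit 8) L34987 (by decide +kernel)
theorem L34989 : W_11 (nat_lit 10) (nat_lit 0x200002001380088000400010000000000000000000000) (nat_lit 0x0) (nat_lit 0xc0006400380016c00f800100000000000000) := T_11 (nat_lit 107) (nat_lit 90) (nat_lit 6) (nat_lit 4) (nat_lit 9) L34988 (by decide +kernel)
theorem L34990 : W_11 (nat_lit 11) (nat_lit 0x200002001380088000400000000000000000000000000) (nat_lit 0x0) (nat_lit 0xc00064003a0017c00f800100000000000000) := T_11 (nat_lit 88) (nat_lit 105) (nat_lit 4) (nat_lit 4) (nat_lit 9) L34989 (by decide +kernel)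
theorem L34991 : W_11 (nat_lit 2) (nat_lit 0x4000200006001ba00c8002e00000000000000000000000000) (nat_lit 0x0) (nat_lit 0x20000000000000000100008000000000000000000) := D_11 (nat_lit 92) (nat_lit 161) (nat_lit 75) (nat_lit 7) (nat_lit 7) (nat_lit 5) (nat_lit 7) (nat_lit 7) (nat_lit 4) (by decide +kernel)
theorem L34992 : W_11 (nat_lit 3) (nat_lit 0x4000200006001ba00c8000e00000000000000000000000000) (nat_lit 0x0) (nat_lit 0x20000000000003000100008000000000000000000) := T_11 (nat_lit 109) (nat_lit 108) (nat_lit 3) (nat_lit 4) (nat_lit 6) L34991 (by decide +kernel)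
theorem L34993 : W_11 (nat_lit 4) (nat_lit 0x4000200006001ba00c8000600000000000000000000000000) (nat_lit 0x0) (nat_lit 0x20000000000003800140008000000000000000000) := T_11 (nat_lit 107) (nat_lit 90) (nat_lit 6) (nat_lit 4) (nat_lit 9) L34992 (by decide +kernel)
theorem L34994 : W_11 (nat_lit 5) (nat_lit 0x200006001ba00c8000600000000000000000000000000) (nat_lit 0x0) (nat_lit 0x4000000030000000000003800140008000000000000000000) := T_11 (nat_lit 194) (nat_lit 160) (nat_lit 6) (nat_lit 7) (nat_lit 11) L34993 (by decide +kernel)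
theorem L34995 : W_11 (nat_lit 6) (nat_lit 0x200006001b800c8000600000000000000000000000000) (nat_lit 0x0) (nat_lit 0x4000000030000060000003800140008000000000000000000) := T_11 (nat_lit 137) (nat_lit 138) (nat_lit 3) (nat_lit 1) (nat_lit 8) L34994 (by decide +kernel)
theorem L34996 : W_11 (nat_lit 7) (nat_lit 0x200002001b800c8000600000000000000000000000000) (nat_lit 0x0) (nat_lit 0x4000080034000060000003800140008000000000000000000) := T_11 (nat_lit 158) (nat_lit 175) (nat_lit 7) (nat_lit 4) (nat_lit 6) L34995 (by decide +kernel)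
theorem L34997 : W_11 (nat_lit 8) (nat_lit 0x2000020013800c8000600000000000000000000000000) (nat_lit 0x0) (nat_lit 0x4000080034000c60000003800140008000000000000000000) := T_11 (nat_lit 143) (nat_lit 142) (nat_lit 2) (nat_lit 4) (nat_lit 8) L34996 (by decide +kernel)
theorem L34998 : W_11 (nat_lit 9) (nat_lit 0x2000020013800c8000400000000000000000000000000) (nat_lit 0x0) (nat_lit 0x4000080034000c60000003a00150008000000000000000000) := T_11 (nat_lit 105) (nat_lit 88) (nat_lit 4) (nat_lit 4) (nat_lit 9) L34997 (by decide +kernel)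
theorem L34999 : W_11 (nat_lit 2) (nat_lit 0x2000020013800c8001c00000000000000000000000000) (nat_lit 0x0) (nat_lit 0x20000200010000000000000000000000) := D_11 (nat_lit 105) (nat_lit 125) (nat_lit 88) (nat_lit 3) (nat_lit 3) (nat_lit 6) (nat_lit 4) (nat_lit 4) (nat_lit 9) (by decide +kernel)
theorem L35000 : W_11 (nat_lit 3) (nat_lit 0x2000020013800c8000c00000000000000000000000000) (nat_lit 0x0) (nat_lit 0x20003200010000000000000000000000) := T_11 (nat_lit 108) (nat_lit 109) (nat_lit 3) (nat_lit 4) (nat_lit 6) L34999 (by decide +kernel)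
theorem L35001 : W_11 (nat_lit 4) (nat_lit 0x2000020013800c8000400000000000000000000000000) (nat_lit 0x0) (nat_lit 0x20003a00050000000000000000000000) := T_11 (nat_lit 107) (nat_lit 90) (nat_lit 6) (nat_lit 4) (nat_lit 9) L35000 (by decide +kernel)
theorem L35002 : W_11 (nat_lit 10) (nat_lit 0x200002001380088000400000000000000000000000000) (nat_lit 0x0) (nat_lit 0x4000080034000c60060003a00150008000000000000000000) := Q_11 (nat_lit 126) (C_11 L34910 (C_11 L34998 (C_11 L35001 N_11))) (by decide +kernel)
theorem L35003 : W_11 (nat_lit 12) (nat_lit 0x200002001380088000000000000000000000000000000) (nat_lit 0x0) (nat_lit 0x4000080034000c60064003e0017c00f800100000000000000) := Q_11 (nat_lit 106) (C_11 L34890 (C_11 L34990 (C_11 L35002 N_11))) (by decide +kernel)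
theorem L35004 : W_11 (nat_lit 13) (nat_lit 0x200002001380080000000000000000000000000000000) (nat_lit 0x0) (nat_lit 0x50000b8035e00c7016c003e0017c00f8001c000a000000000) := Q_11 (nat_lit 123) (C_11 L34958 (C_11 L34965 (C_11 L34968 (C_11 L34922 (C_11 L34975 (C_11 L34980 (C_11 L35003 N_11))))))) (by decide +kernel)
theorem L35005 : W_11 (nat_lit 2) (nat_lit 0x2000028017c00a1000000000000000000000000000000) (nat_lit 0x0) (nat_lit 0x4000020000800000000000000000000000000000) := D_11 (nat_lit 137) (nat_lit 158) (nat_lit 119) (nat_lit 3) (nat_lit 1) (nat_lit 8) (nat_lit 0) (nat_lit 4) (nat_lit 8) (by decide +kernel)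
theorem L35006 : W_11 (nat_lit 3) (nat_lit 0x2000028017c00a0000000000000000000000000000000) (nat_lit 0x0) (nat_lit 0x4000020003800000000000000000000000000000) := T_11 (nat_lit 120) (nat_lit 121) (nat_lit 0) (nat_lit 5) (nat_lit 8) L35005 (by decide +kernel)
theorem L35007 : W_11 (nat_lit 4) (nat_lit 0x2000028017800a0000000000000000000000000000000) (nat_lit 0x0) (nat_lit 0x4400060003800000000000000000000000000000) := T_11 (nat_lit 138) (nat_lit 154) (nat_lit 1) (nat_lit 5) (nat_lit 8) L35006 (by decide +kernel)
theorem L35008 : W_11 (nat_lit 5) (nat_lit 0x200002801780080000000000000000000000000000000) (nat_lit 0x0) (nat_lit 0x4400060063800000000000000000000000000000) := T_11 (nat_lit 125) (nat_lit 126) (nat_lit 2) (nat_lit 3) (nat_lit 8) L35007 (by decide +kernel)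
theorem L35009 : W_11 (nat_lit 6) (nat_lit 0x200002001780080000000000000000000000000000000) (nat_lit 0x0) (nat_lit 0x5c00060063800000000000000000000000000000) := T_11 (nat_lit 155) (nat_lit 156) (nat_lit 1) (nat_lit 6) (nat_lit 8) L35008 (by decide +kernel)
theorem L35010 : W_11 (nat_lit 7) (nat_lit 0x200002001380080000000000000000000000000000000) (nat_lit 0x0) (nat_lit 0x5c00c60163800000000000000000000000000000) := Q_11 (nat_lit 142) (C_11 L35009 (C_11 L34886 (C_11 L34880 N_11))) (by decide +kernel)
theorem L35011 : W_11 (nat_lit 14) (nat_lit 0x200002001300080000000000000000000000000000000) (nat_lit 0x0) (nat_lit 0x2c005f000b8035e00cf016f803f001fe00fe001d000a000000000) := Q_11 (nat_lit 139) (C_11 L34873 (C_11 L34881 (C_11 L34887 (C_11 L34953 (C_11 L35004 (C_11 L35010 N_11)))))) (by decide +kernel)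
theorem L35012 : W_11 (nat_lit 2) (nat_lit 0x200002001b00080000000000000000000000000000000) (nat_lit 0x0) (nat_lit 0x4000400040000000000000000000000000000000) := D_11 (nat_lit 142) (nat_lit 158) (nat_lit 126) (nat_lit 1) (nat_lit 8) (nat_lit 8) (nat_lit 2) (nat_lit 4) (nat_lit 8) (by decide +kernel)
theorem L35013 : W_11 (nat_lit 2) (nat_lit 0x200002001b00080000000000000000000000000000000) (nat_lit 0x0) (nat_lit 0x400140000000000000000000000000000000) := D_11 (nat_lit 142) (nat_lit 126) (nat_lit 128) (nat_lit 2) (nat_lit 4) (nat_lit 8) (nat_lit 2) (nat_lit 5) (nat_lit 8) (by decide +kernel)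
theorem L35014 : W_11 (nat_lit 2) (nat_lit 0x200002001b00080000000000000000000000000000000) (nat_lit 0x0) (nat_lit 0x4000400100000000000000000000000000000000) := D_11 (nat_lit 142) (nat_lit 158) (nat_lit 128) (nat_lit 1) (nat_lit 8) (nat_lit 8) (nat_lit 2) (nat_lit 5) (nat_lit 8) (by decide +kernel)
theorem L35020 : W_11 (nat_lit 7) (nat_lit 0x4800240002001b80080000000000000000000000000000000) (nat_lit 0x0) (nat_lit 0x3d000f800a000000004000000000000000000000000000000000000000) := T_11 (nat_lit 208) (nat_lit 158) (nat_lit 6) (nat_lit 4) (nat_lit 12) L35019 (by decide +kernel)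
theorem L35021 : W_11 (nat_lit 8) (nat_lit 0x4800240002001b00080000000000000000000000000000000) (nat_lit 0x0) (nat_lit 0x3d000f800a000000004000080004000000000000000000000000000000) := T_11 (nat_lit 139) (nat_lit 122) (nat_lit 4) (nat_lit 4) (nat_lit 11) L35020 (by decide +kernel)
theorem L35022 : W_11 (nat_lit 9) (nat_lit 0x800240002001b00080000000000000000000000000000000) (nat_lit 0x0) (nat_lit 0x3d000f800e000000014000080004000000000000000000000000000000) := T_11 (nat_lit 194) (nat_lit 160) (nat_lit 6) (nat_lit 7) (nat_lit 11) L35021 (by decide +kernel)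
theorem L35023 : W_11 (nat_lit 2) (nat_lit 0x70000d00340012001b0008d000000000000000000000000000000) (nat_lit 0x0) (nat_lit 0x800000002000000000000000040000000000000000000000000000000) := D_11 (nat_lit 193) (nat_lit 126) (nat_lit 227) (nat_lit 5) (nat_lit 7) (nat_lit 7) (nat_lit 6) (nat_lit 6) (nat_lit 13) (by decide +kernel)
theorem L35024 : W_11 (nat_lit 3) (nat_lit 0x30000d00340012001b0008d000000000000000000000000000000) (nat_lit 0x0) (nat_lit 0x8000c0002000000000000000040000000000000000000000000000000) := T_11 (nat_lit 210) (nat_lit 211) (nat_lit 0) (nat_lit 7) (nat_lit 12) L35023 (by decide +kernel)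
theorem L35025 : W_11 (nat_lit 4) (nat_lit 0x30000d00240012001b0008d000000000000000000000000000000) (nat_lit 0x0) (nat_lit 0x8000c0002000180000000000040000000000000000000000000000000) := T_11 (nat_lit 176) (nat_lit 175) (nat_lit 1) (nat_lit 7) (nat_lit 10) L35024 (by decide +kernel)
theorem L35026 : W_11 (nat_lit 5) (nat_lit 0x30000c00240012001b0008d000000000000000000000000000000) (nat_lit 0x0) (nat_lit 0x8000c0002300180000000000040000000000000000000000000000000) := T_11 (nat_lit 188) (nat_lit 189) (nat_lit 3) (nat_lit 1) (nat_lit 11) L35025 (by decide +kernel)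
theorem L35027 : W_11 (nat_lit 6) (nat_lit 0x30000800240012001b0008d000000000000000000000000000000) (nat_lit 0x0) (nat_lit 0x8000c00027001a0000000000040000000000000000000000000000000) := T_11 (nat_lit 190) (nat_lit 173) (nat_lit 5) (nat_lit 4) (nat_lit 7) L35026 (by decide +kernel)
theorem L35028 : W_11 (nat_lit 7) (nat_lit 0x30000800240012001b0008c000000000000000000000000000000) (nat_lit 0x0) (nat_lit 0x8000c00027001a0000000000043000000000000000000000000000000) := T_11 (nat_lit 120) (nat_lit 121) (nat_lit 3) (nat_lit 1) (nat_lit 7) L35027 (by decide +kernel)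
theorem L35029 : W_11 (nat_lit 8) (nat_lit 0x30000800240012001b00084000000000000000000000000000000) (nat_lit 0x0) (nat_lit 0x8000c00027001a000000000004b000200000000000000000000000000) := T_11 (nat_lit 123) (nat_lit 105) (nat_lit 4) (nat_lit 4) (nat_lit 10) L35028 (by decide +kernel)
theorem L35030 : W_11 (nat_lit 9) (nat_lit 0x30000800240012001b00080000000000000000000000000000000) (nat_lit 0x0) (nat_lit 0x8000c00027001a000000008004f000200000000000000000000000000) := T_11 (nat_lit 122) (nat_lit 139) (nat_lit 4) (nat_lit 4) (nat_lit 11) L35029 (by decide +kernel)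
theorem L35031 : W_11 (nat_lit 10) (nat_lit 0x10000800240012001b00080000000000000000000000000000000) (nat_lit 0x0) (nat_lit 0xc000e00027001a000000008004f000200000000000000000000000000) := T_11 (nat_lit 209) (nat_lit 226) (nat_lit 7) (nat_lit 4) (nat_lit 9) L35030 (by decide +kernel)
theorem L35032 : W_11 (nat_lit 11) (nat_lit 0x10000800240002001b00080000000000000000000000000000000) (nat_lit 0x0) (nat_lit 0xc000e00067001a001000008004f000200000000000000000000000000) := T_11 (nat_lit 160) (nat_lit 194) (nat_lit 6) (nat_lit 7) (nat_lit 11) L35031 (by decide +kernel)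
theorem L35033 : W_11 (nat_lit 12) (nat_lit 0x800240002001b00080000000000000000000000000000000) (nat_lit 0x0) (nat_lit 0xc000f00067001a001400008004f000200000000000000000000000000) := T_11 (nat_lit 208) (nat_lit 158) (nat_lit 6) (nat_lit 4) (nat_lit 12) L35032 (by decide +kernel)
theorem L35034 : W_11 (nat_lit 13) (nat_lit 0x240002001b00080000000000000000000000000000000) (nat_lit 0x0) (nat_lit 0x3d000f800ef001a001400008004f000200000000000000000000000000) := Q_11 (nat_lit 191) (C_11 L34362 (C_11 L34352 (C_11 L35022 (C_11 L35033 N_11)))) (by decide +kernel)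
theorem L35035 : W_11 (nat_lit 6) (nat_lit 0x240002001b00080000000000000000000000000000000) (nat_lit 0x0) (nat_lit 0x800fc001a001400008000c000600010000000000000000000000) := Q_11 (nat_lit 123) (C_11 L34740 (C_11 L34403 (C_11 L34377 N_11))) (by decide +kernel)
theorem L35036 : W_11 (nat_lit 10) (nat_lit 0x240002001b00080000000000000000000000000000000) (nat_lit 0x0) (nat_lit 0x3d000f800fc00180014000080004000000000000000000000000000000) := Q_11 (nat_lit 191) (C_11 L35022 (C_11 L34410 (C_11 L34385 (C_11 L34352 N_11)))) (by decide +kernel)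
theorem L35037 : W_11 (nat_lit 2) (nat_lit 0x4000260002001b00088000600040000000000000000000000) (nat_lit 0x0) (nat_lit 0x4000000000000000020002000000000000000000) := D_11 (nat_lit 89) (nat_lit 158) (nat_lit 73) (nat_lit 7) (nat_lit 4) (nat_lit 5) (nat_lit 6) (nat_lit 4) (nat_lit 8) (by decide +kernel)
theorem L35038 : W_11 (nat_lit 3) (nat_lit 0x4000260002001b00088000600000000000000000000000000) (nat_lit 0x0) (nat_lit 0x4000000000000800060002000000000000000000) := T_11 (nat_lit 90) (nat_lit 107) (nat_lit 6) (nat_lit 4) (nat_lit 9) L35037 (by decide +kernel)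
theorem L35039 : W_11 (nat_lit 4) (nat_lit 0x4000260002001b00088000200000000000000000000000000) (nat_lit 0x0) (nat_lit 0x4000000000000c00070002000000000000000000) := T_11 (nat_lit 106) (nat_lit 88) (nat_lit 4) (nat_lit 4) (nat_lit 9) L35038 (by decide +kernel)
theorem L35040 : W_11 (nat_lit 5) (nat_lit 0x4000260002001b00088000000000000000000000000000000) (nat_lit 0x0) (nat_lit 0x4000000004000e00070002000000000000000000) := T_11 (nat_lit 105) (nat_lit 122) (nat_lit 4) (nat_lit 4) (nat_lit 10) L35039 (by decide +kernel)
theorem L35041 : W_11 (nat_lit 6) (nat_lit 0x4000240002001b00088000000000000000000000000000000) (nat_lit 0x0) (nat_lit 0x400020004000000004000e00070002000000000000000000) := T_11 (nat_lit 173) (nat_lit 190) (nat_lit 5) (nat_lit 4) (nat_lit 7) L35040 (by decide +kernel)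
theorem L35042 : W_11 (nat_lit 7) (nat_lit 0x240002001b00088000000000000000000000000000000) (nat_lit 0x0) (nat_lit 0x4400020014000000004000e00070002000000000000000000) := T_11 (nat_lit 194) (nat_lit 160) (nat_lit 6) (nat_lit 7) (nat_lit 11) L35041 (by decide +kernel)
theorem L35043 : W_11 (nat_lit 2) (nat_lit 0x2e0002001b0008d000400060001000000000000000000) (nat_lit 0x0) (nat_lit 0x10000800040000000000000) := D_11 (nat_lit 71) (nat_lit 54) (nat_lit 88) (nat_lit 4) (nat_lit 4) (nat_lit 7) (nat_lit 4) (nat_lit 4) (nat_lit 8) (by decide +kernel)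
theorem L35044 : W_11 (nat_lit 3) (nat_lit 0x2e0002001b0008d000400060000000000000000000000) (nat_lit 0x0) (nat_lit 0x80000000000010001800040000000000000) := T_11 (nat_lit 72) (nat_lit 139) (nat_lit 5) (nat_lit 4) (nat_lit 4) L35043 (by decide +kernel)
theorem L35045 : W_11 (nat_lit 4) (nat_lit 0x2e0002001b0008d000400040000000000000000000000) (nat_lit 0x0) (nat_lit 0x80000000000030003800040000000000000) := T_11 (nat_lit 89) (nat_lit 73) (nat_lit 6) (nat_lit 4) (nat_lit 8) L35044 (by decide +kernel)
theorem L35046 : W_11 (nat_lit 5) (nat_lit 0x2c0002001b0008d000400040000000000000000000000) (nat_lit 0x0) (nat_lit 0x400020000000080000000000030003800040000000000000) := T_11 (nat_lit 173) (nat_lit 190) (nat_lit 5) (nat_lit 4) (nat_lit 7) L35045 (by decide +kernel)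
theorem L35047 : W_11 (nat_lit 6) (nat_lit 0x2c0002001b0008d000400000000000000000000000000) (nat_lit 0x0) (nat_lit 0x400020000000080000000800070003800040000000000000) := T_11 (nat_lit 90) (nat_lit 107) (nat_lit 6) (nat_lit 4) (nat_lit 9) L35046 (by decide +kernel)
theorem L35048 : W_11 (nat_lit 7) (nat_lit 0x2c0002001b0008d000000000000000000000000000000) (nat_lit 0x0) (nat_lit 0x400020004000080000000c00070003800040000000000000) := T_11 (nat_lit 106) (nat_lit 158) (nat_lit 7) (nat_lit 4) (nat_lit 6) L35047 (by decide +kernel)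
theorem L35049 : W_11 (nat_lit 8) (nat_lit 0x240002001b0008d000000000000000000000000000000) (nat_lit 0x0) (nat_lit 0x14000a0004000080000000c00070003800040000000000000) := T_11 (nat_lit 175) (nat_lit 192) (nat_lit 7) (nat_lit 4) (nat_lit 7) L35048 (by decide +kernel)
theorem L35050 : W_11 (nat_lit 9) (nat_lit 0x240002001b0008c000000000000000000000000000000) (nat_lit 0x0) (nat_lit 0x14000a0004000080003000c00070003800040000000000000) := T_11 (nat_lit 120) (nat_lit 121) (nat_lit 3) (nat_lit 1) (nat_lit 7) L35049 (by decide +kernel)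
theorem L35051 : W_11 (nat_lit 10) (nat_lit 0x240002001b00088000000000000000000000000000000) (nat_lit 0x0) (nat_lit 0x14000a0004000080007000e00070003800040000000000000) := T_11 (nat_lit 122) (nat_lit 105) (nat_lit 4) (nat_lit 4) (nat_lit 10) L35050 (by decide +kernel)
theorem L35052 : W_11 (nat_lit 11) (nat_lit 0x240002001b00080000000000000000000000000000000) (nat_lit 0x0) (nat_lit 0xf4001a001400008000f000e00070003800040000000000000) := Q_11 (nat_lit 123) (C_11 L34403 (C_11 L35042 (C_11 L35051 (C_11 L34377 N_11)))) (by decide +kernel)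
theorem L35053 : W_11 (nat_lit 2) (nat_lit 0x18005800240002001b00084000000000000000000000000000000) (nat_lit 0x0) (nat_lit 0x80000000000008000200000000000000000000000000) := D_11 (nat_lit 123) (nat_lit 105) (nat_lit 175) (nat_lit 4) (nat_lit 4) (nat_lit 10) (nat_lit 7) (nat_lit 4) (nat_lit 7) (by decide +kernel)
theorem L35054 : W_11 (nat_lit 3) (nat_lit 0x18004800240002001b00084000000000000000000000000000000) (nat_lit 0x0) (nat_lit 0x3000080000000000008000200000000000000000000000000) := T_11 (nat_lit 192) (nat_lit 193) (nat_lit 1) (nat_lit 7) (nat_lit 11) L35053 (by decide +kernel)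
theorem L35055 : W_11 (nat_lit 4) (nat_lit 0x10004800240002001b00084000000000000000000000000000000) (nat_lit 0x0) (nat_lit 0x100008003000080000000000008000200000000000000000000000000) := T_11 (nat_lit 207) (nat_lit 224) (nat_lit 5) (nat_lit 4) (nat_lit 9) L35054 (by decide +kernel)
theorem L35056 : W_11 (nat_lit 5) (nat_lit 0x4800240002001b00084000000000000000000000000000000) (nat_lit 0x0) (nat_lit 0x100018003000080004000000008000200000000000000000000000000) := T_11 (nat_lit 208) (nat_lit 158) (nat_lit 6) (nat_lit 4) (nat_lit 12) L35055 (by decide +kernel)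
theorem L35057 : W_11 (nat_lit 6) (nat_lit 0x4800240002001b00080000000000000000000000000000000) (nat_lit 0x0) (nat_lit 0x10001800300008000400008000c000200000000000000000000000000) := T_11 (nat_lit 122) (nat_lit 139) (nat_lit 4) (nat_lit 4) (nat_lit 11) L35056 (by decide +kernel)
theorem L35058 : W_11 (nat_lit 7) (nat_lit 0x800240002001b00080000000000000000000000000000000) (nat_lit 0x0) (nat_lit 0x10001800700008001400008000c000200000000000000000000000000) := T_11 (nat_lit 194) (nat_lit 160) (nat_lit 6) (nat_lit 7) (nat_lit 11) L35057 (by decide +kernel)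
theorem L35059 : W_11 (nat_lit 10) (nat_lit 0x240002001b00080000000000000000000000000000000) (nat_lit 0x0) (nat_lit 0x3d000f800f80008001400008000c000200000000000000000000000000) := Q_11 (nat_lit 191) (C_11 L35022 (C_11 L34365 (C_11 L34385 (C_11 L35058 N_11)))) (by decide +kernel)
theorem L35060 : W_11 (nat_lit 14) (nat_lit 0x200002001b00080000000000000000000000000000000) (nat_lit 0x0) (nat_lit 0x3d000f800ff001e001400008004f000e00070003800040000000000000) := Q_11 (nat_lit 174) (C_11 L34411 (C_11 L34386 (C_11 L34379 (C_11 L35034 (C_11 L35035 (C_11 L35036 (C_11 L35052 (C_11 L35059 N_11)))))))) (by decide +kernel)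
theorem L35061 : W_11 (nat_lit 15) (nat_lit 0x200002001300080000000000000000000000000000000) (nat_lit 0x0) (nat_lit 0x3d000f800ff001e0014000c8014f000e00070003800040000000000000) := Q_11 (nat_lit 143) (C_11 L35012 (C_11 L35013 (C_11 L35014 (C_11 L35060 N_11)))) (by decide +kernel)
theorem L35062 : W_11 (nat_lit 2) (nat_lit 0x200003801300080000000000000000000000000000000) (nat_lit 0x0) (nat_lit 0x4000480000000000000000000000000000000000) := D_11 (nat_lit 142) (nat_lit 139) (nat_lit 158) (nat_lit 1) (nat_lit 6) (nat_lit 8) (nat_lit 2) (nat_lit 2) (nat_lit 9) (by decide +kernel)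
theorem L35063 : W_11 (nat_lit 3) (nat_lit 0x200003001300080000000000000000000000000000000) (nat_lit 0x0) (nat_lit 0x4c00480000000000000000000000000000000000) := T_11 (nat_lit 155) (nat_lit 154) (nat_lit 2) (nat_lit 1) (nat_lit 9) L35062 (by decide +kernel)
theorem L35064 : W_11 (nat_lit 2) (nat_lit 0x200003001380080000000000000000000000000000000) (nat_lit 0x0) (nat_lit 0xc00400000000000000000000000000000000000) := D_11 (nat_lit 155) (nat_lit 154) (nat_lit 142) (nat_lit 2) (nat_lit 1) (nat_lit 9) (nat_lit 1) (nat_lit 6) (nat_lit 8) (by decide +kernel)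
theorem L35065 : W_11 (nat_lit 7) (nat_lit 0x200003001300080000000000000000000000000000000) (nat_lit 0x0) (nat_lit 0x38003c001e0000c0048000c000600000000000000000000000000) := Q_11 (nat_lit 139) (C_11 L35064 (C_11 L34171 N_11)) (by decide +kernel)
theorem L35069 : W_11 (nat_lit 5) (nat_lit 0x200003801300080000000000000000000000000000000) (nat_lit 0x0) (nat_lit 0x1000198004000400008000400000000000000000000000000) := T_11 (nat_lit 158) (nat_lit 142) (nat_lit 2) (nat_lit 2) (nat_lit 9) L35068 (by decide +kernel)
theorem L35070 : W_11 (nat_lit 6) (nat_lit 0x200003001300080000000000000000000000000000000) (nat_lit 0x0) (nat_lit 0x1000198004c00400008000400000000000000000000000000) := T_11 (nat_lit 155) (nat_lit 154) (nat_lit 2) (nat_lit 1) (nat_lit 9) L35069 (by decide +kernel)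
theorem L35071 : W_11 (nat_lit 2) (nat_lit 0x200003001300088000400000000000000000000000000) (nat_lit 0x0) (nat_lit 0x4000080000000000020000000000000000000000) := D_11 (nat_lit 89) (nat_lit 139) (nat_lit 158) (nat_lit 5) (nat_lit 4) (nat_lit 5) (nat_lit 7) (nat_lit 4) (nat_lit 5) (by decide +kernel)
theorem L35072 : W_11 (nat_lit 3) (nat_lit 0x200003001300088000000000000000000000000000000) (nat_lit 0x0) (nat_lit 0x20004000080000000400020000000000000000000000) := T_11 (nat_lit 106) (nat_lit 173) (nat_lit 5) (nat_lit 4) (nat_lit 6) L35071 (by decide +kernel)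
theorem L35073 : W_11 (nat_lit 2) (nat_lit 0x200003001300088000400020000000000000000000000) (nat_lit 0x0) (nat_lit 0x200010000800000000000000000) := D_11 (nat_lit 88) (nat_lit 71) (nat_lit 105) (nat_lit 4) (nat_lit 4) (nat_lit 8) (nat_lit 4) (nat_lit 4) (nat_lit 9) (by decide +kernel)
theorem L35074 : W_11 (nat_lit 3) (nat_lit 0x200003001300088000400000000000000000000000000) (nat_lit 0x0) (nat_lit 0x80000000200030000800000000000000000) := T_11 (nat_lit 89) (nat_lit 139) (nat_lit 5) (nat_lit 4) (nat_lit 5) L35073 (by decide +kernel)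
theorem L35075 : W_11 (nat_lit 4) (nat_lit 0x200003001300088000000000000000000000000000000) (nat_lit 0x0) (nat_lit 0x20000000080000000600030000800000000000000000) := T_11 (nat_lit 106) (nat_lit 173) (nat_lit 5) (nat_lit 4) (nat_lit 6) L35074 (by decide +kernel)
theorem L35076 : W_11 (nat_lit 2) (nat_lit 0x200003001300088000400000000000000000000000000) (nat_lit 0x0) (nat_lit 0x80004000000000000000020000000000000000000000) := D_11 (nat_lit 158) (nat_lit 89) (nat_lit 175) (nat_lit 7) (nat_lit 4) (nat_lit 5) (nat_lit 7) (nat_lit 4) (nat_lit 6) (by decide +kernel)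
theorem L35077 : W_11 (nat_lit 3) (nat_lit 0x200003001300088000000000000000000000000000000) (nat_lit 0x0) (nat_lit 0xa0004000000000000400020000000000000000000000) := T_11 (nat_lit 106) (nat_lit 173) (nat_lit 5) (nat_lit 4) (nat_lit 6) L35076 (by decide +kernel)
theorem L35078 : W_11 (nat_lit 2) (nat_lit 0x240003001300088000e00000000000000000000000000) (nat_lit 0x0) (nat_lit 0x180004000000000000000000000000000000000000000) := D_11 (nat_lit 175) (nat_lit 176) (nat_lit 158) (nat_lit 0) (nat_lit 7) (nat_lit 10) (nat_lit 7) (nat_lit 4) (nat_lit 6) (by decide +kernel)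
theorem L35079 : W_11 (nat_lit 3) (nat_lit 0x200003001300088000e00000000000000000000000000) (nat_lit 0x0) (nat_lit 0x1c0004000000004000000000000000000000000000000) := T_11 (nat_lit 174) (nat_lit 122) (nat_lit 4) (nat_lit 4) (nat_lit 10) L35078 (by decide +kernel)
theorem L35080 : W_11 (nat_lit 4) (nat_lit 0x200003001300088000600000000000000000000000000) (nat_lit 0x0) (nat_lit 0x1c0004000000004000800040000000000000000000000) := T_11 (nat_lit 107) (nat_lit 90) (nat_lit 6) (nat_lit 4) (nat_lit 9) L35079 (by decide +kernel)
theorem L35081 : W_11 (nat_lit 5) (nat_lit 0x200003001300088000400000000000000000000000000) (nat_lit 0x0) (nat_lit 0x1c0004000000004000a00050000000000000000000000) := T_11 (nat_lit 105) (nat_lit 88) (nat_lit 4) (nat_lit 4) (nat_lit 9) L35080 (by decide +kernel)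
theorem L35082 : W_11 (nat_lit 6) (nat_lit 0x200003001300088000000000000000000000000000000) (nat_lit 0x0) (nat_lit 0x1c0004000080004000e00070000800000000000000000) := Q_11 (nat_lit 106) (C_11 L35076 (C_11 L35074 (C_11 L35081 N_11))) (by decide +kernel)
theorem L35083 : W_11 (nat_lit 2) (nat_lit 0x240003001300088000000000000000000000000000000) (nat_lit 0x0) (nat_lit 0x1000180000000000000000000000000000000000000000000) := D_11 (nat_lit 175) (nat_lit 176) (nat_lit 192) (nat_lit 0) (nat_lit 7) (nat_lit 10) (nat_lit 7) (nat_lit 4) (nat_lit 7) (by decide +kernel)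
theorem L35084 : W_11 (nat_lit 2) (nat_lit 0x27000300138008d000000000000000000000000000000) (nat_lit 0x0) (nat_lit 0xc004000000000000000000000000000000000000000) := D_11 (nat_lit 171) (nat_lit 158) (nat_lit 170) (nat_lit 2) (nat_lit 1) (nat_lit 10) (nat_lit 2) (nat_lit 0) (nat_lit 10) (by decide +kernel)
theorem L35085 : W_11 (nat_lit 3) (nat_lit 0x26000300138008d000000000000000000000000000000) (nat_lit 0x0) (nat_lit 0x20001c004000000000000000000000000000000000000000) := T_11 (nat_lit 172) (nat_lit 189) (nat_lit 5) (nat_lit 3) (nat_lit 7) L35084 (by decide +kernel)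
theorem L35086 : W_11 (nat_lit 4) (nat_lit 0x26000300130008d000000000000000000000000000000) (nat_lit 0x0) (nat_lit 0xa0001c004000080000000000000000000000000000000000) := T_11 (nat_lit 139) (nat_lit 191) (nat_lit 7) (nat_lit 3) (nat_lit 7) L35085 (by decide +kernel)
theorem L35087 : W_11 (nat_lit 5) (nat_lit 0x26000300130008c000000000000000000000000000000) (nat_lit 0x0) (nat_lit 0xa0001c004000080003000000000000000000000000000000) := T_11 (nat_lit 120) (nat_lit 121) (nat_lit 3) (nat_lit 1) (nat_lit 7) L35086 (by decide +kernel)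
theorem L35088 : W_11 (nat_lit 6) (nat_lit 0x260003001300088000000000000000000000000000000) (nat_lit 0x0) (nat_lit 0xa0001c004000080007000200000000000000000000000000) := T_11 (nat_lit 122) (nat_lit 105) (nat_lit 4) (nat_lit 4) (nat_lit 10) L35087 (by decide +kernel)
theorem L35089 : W_11 (nat_lit 7) (nat_lit 0x240003001300088000000000000000000000000000000) (nat_lit 0x0) (nat_lit 0xe0003c004000080007000200000000000000000000000000) := T_11 (nat_lit 173) (nat_lit 190) (nat_lit 5) (nat_lit 4) (nat_lit 7) L35088 (by decide +kernel)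
theorem L35090 : W_11 (nat_lit 8) (nat_lit 0x200003001300088000000000000000000000000000000) (nat_lit 0x0) (nat_lit 0x1e001fc004000080007000200000000000000000000000000) := Q_11 (nat_lit 174) (C_11 L35083 (C_11 L35089 N_11)) (by decide +kernel)
theorem L35091 : W_11 (nat_lit 9) (nat_lit 0x200003001300080000000000000000000000000000000) (nat_lit 0x0) (nat_lit 0x1e001fc00400008000f000e00070000800000000000000000) := Q_11 (nat_lit 123) (C_11 L35072 (C_11 L35075 (C_11 L35077 (C_11 L35082 (C_11 L35090 N_11))))) (by decide +kernel)
theorem L35092 : W_11 (nat_lit 10) (nat_lit 0x200002001300080000000000000000000000000000000) (nat_lit 0x0) (nat_lit 0x38003e001fc005c0048000f000e00070000800000000000000000) := Q_11 (nat_lit 156) (C_11 L35063 (C_11 L35065 (C_11 L35070 (C_11 L35091 N_11)))) (by decide +kernel)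
theorem L35093 : W_11 (nat_lit 2) (nat_lit 0x200002001b00080000000000000000000000000000000) (nat_lit 0x0) (nat_lit 0x1000400040000000000000000000000000000000) := D_11 (nat_lit 142) (nat_lit 126) (nat_lit 156) (nat_lit 2) (nat_lit 4) (nat_lit 8) (nat_lit 1) (nat_lit 7) (nat_lit 8) (by decide +kernel)
theorem L35094 : W_11 (nat_lit 2) (nat_lit 0x200002001b00080000000000000000000000000000000) (nat_lit 0x0) (nat_lit 0x1000400100000000000000000000000000000000) := D_11 (nat_lit 142) (nat_lit 128) (nat_lit 156) (nat_lit 2) (nat_lit 5) (nat_lit 8) (nat_lit 1) (nat_lit 7) (nat_lit 8) (by decide +kernel)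
theorem L35095 : W_11 (nat_lit 2) (nat_lit 0x4600220003401b80084000000000000000000000000000000) (nat_lit 0x0) (nat_lit 0x40002000100000000000000000000000000) := D_11 (nat_lit 121) (nat_lit 104) (nat_lit 138) (nat_lit 4) (nat_lit 3) (nat_lit 10) (nat_lit 4) (nat_lit 3) (nat_lit 11) (by decide +kernel)
theorem L35096 : W_11 (nat_lit 3) (nat_lit 0x4600220003401b80080000000000000000000000000000000) (nat_lit 0x0) (nat_lit 0x10000000040006000100000000000000000000000000) := T_11 (nat_lit 122) (nat_lit 172) (nat_lit 5) (nat_lit 3) (nat_lit 7) L35095 (by decide +kernel)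
theorem L35097 : W_11 (nat_lit 4) (nat_lit 0x4400220003401b80080000000000000000000000000000000) (nat_lit 0x0) (nat_lit 0x4000200010000000040006000100000000000000000000000000) := T_11 (nat_lit 189) (nat_lit 206) (nat_lit 5) (nat_lit 3) (nat_lit 8) L35096 (by decide +kernel)
theorem L35098 : W_11 (nat_lit 5) (nat_lit 0x4400220003401b00080000000000000000000000000000000) (nat_lit 0x0) (nat_lit 0x40002000100000000c000e000100000000000000000000000000) := T_11 (nat_lit 139) (nat_lit 123) (nat_lit 6) (nat_lit 3) (nat_lit 11) L35097 (by decide +kernel)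
theorem L35099 : W_11 (nat_lit 6) (nat_lit 0x4400220003001b00080000000000000000000000000000000) (nat_lit 0x0) (nat_lit 0x4000200010000c000c000e000100000000000000000000000000) := T_11 (nat_lit 154) (nat_lit 155) (nat_lit 2) (nat_lit 1) (nat_lit 9) L35098 (by decide +kernel)
theorem L35100 : W_11 (nat_lit 7) (nat_lit 0x4000220003001b00080000000000000000000000000000000) (nat_lit 0x0) (nat_lit 0xc000600010000c000c000e000100000000000000000000000000) := T_11 (nat_lit 190) (nat_lit 207) (nat_lit 6) (nat_lit 3) (nat_lit 12) L35099 (by decide +kernel)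
theorem L35101 : W_11 (nat_lit 8) (nat_lit 0x220003001b00080000000000000000000000000000000) (nat_lit 0x0) (nat_lit 0xc004600010010c000c000e000100000000000000000000000000) := T_11 (nat_lit 194) (nat_lit 160) (nat_lit 6) (nat_lit 7) (nat_lit 11) L35100 (by decide +kernel)
theorem L35102 : W_11 (nat_lit 2) (nat_lit 0x340013401b000c0003000000000000000000000000000) (nat_lit 0x0) (nat_lit 0x20000000000000000100008000000000000000000) := D_11 (nat_lit 92) (nat_lit 75) (nat_lit 161) (nat_lit 7) (nat_lit 7) (nat_lit 4) (nat_lit 7) (nat_lit 7) (nat_lit 5) (by decide +kernel)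
theorem L35103 : W_11 (nat_lit 3) (nat_lit 0x340013401b000c0001000000000000000000000000000) (nat_lit 0x0) (nat_lit 0x20000000000002000180008000000000000000000) := T_11 (nat_lit 109) (nat_lit 91) (nat_lit 4) (nat_lit 7) (nat_lit 9) L35102 (by decide +kernel)
theorem L35104 : W_11 (nat_lit 4) (nat_lit 0x340013401b000c0000000000000000000000000000000) (nat_lit 0x0) (nat_lit 0x20000000020003000180008000000000000000000) := T_11 (nat_lit 108) (nat_lit 125) (nat_lit 4) (nat_lit 7) (nat_lit 10) L35103 (by decide +kernel)
theorem L35105 : W_11 (nat_lit 5) (nat_lit 0x340013401b00080000000000000000000000000000000) (nat_lit 0x0) (nat_lit 0x2000000020000000060003000180008000000000000000000) := T_11 (nat_lit 126) (nat_lit 193) (nat_lit 5) (nat_lit 7) (nat_lit 7) L35104 (by decide +kernel)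
theorem L35106 : W_11 (nat_lit 6) (nat_lit 0x340013001b00080000000000000000000000000000000) (nat_lit 0x0) (nat_lit 0x2000000020c00000060003000180008000000000000000000) := T_11 (nat_lit 154) (nat_lit 155) (nat_lit 2) (nat_lit 1) (nat_lit 9) L35105 (by decide +kernel)
theorem L35107 : W_11 (nat_lit 7) (nat_lit 0x240013001b00080000000000000000000000000000000) (nat_lit 0x0) (nat_lit 0x2000180020c00000060003000180008000000000000000000) := T_11 (nat_lit 176) (nat_lit 175) (nat_lit 0) (nat_lit 7) (nat_lit 10) L35106 (by decide +kernel)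
theorem L35108 : W_11 (nat_lit 8) (nat_lit 0x240003001b00080000000000000000000000000000000) (nat_lit 0x0) (nat_lit 0x6000180030c00000060003000180008000000000000000000) := T_11 (nat_lit 160) (nat_lit 194) (nat_lit 6) (nat_lit 7) (nat_lit 11) L35107 (by decide +kernel)
theorem L35109 : W_11 (nat_lit 2) (nat_lit 0x340013001b000c0003000000000000000000000000000) (nat_lit 0x0) (nat_lit 0x20000000000000000100008000000000000000000) := D_11 (nat_lit 92) (nat_lit 75) (nat_lit 161) (nat_lit 7) (nat_lit 7) (nat_lit 4) (nat_lit 7) (nat_lit 7) (nat_lit 5) (by decide +kernel)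
theorem L35110 : W_11 (nat_lit 3) (nat_lit 0x340013001b000c0001000000000000000000000000000) (nat_lit 0x0) (nat_lit 0x20000000000002000180008000000000000000000) := T_11 (nat_lit 109) (nat_lit 91) (nat_lit 4) (nat_lit 7) (nat_lit 9) L35109 (by decide +kernel)
theorem L35111 : W_11 (nat_lit 4) (nat_lit 0x340013001b000c0000000000000000000000000000000) (nat_lit 0x0) (nat_lit 0x20000000020003000180008000000000000000000) := T_11 (nat_lit 108) (nat_lit 125) (nat_lit 4) (nat_lit 7) (nat_lit 10) L35110 (by decide +kernel)
theorem L35112 : W_11 (nat_lit 5) (nat_lit 0x340013001b00080000000000000000000000000000000) (nat_lit 0x0) (nat_lit 0x2000000020000000060003000180008000000000000000000) := T_11 (nat_lit 126) (nat_lit 193) (nat_lit 5) (nat_lit 7) (nat_lit 7) L35111 (by decide +kernel)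
theorem L35113 : W_11 (nat_lit 6) (nat_lit 0x340003001b00080000000000000000000000000000000) (nat_lit 0x0) (nat_lit 0x6000000030000000060003000180008000000000000000000) := T_11 (nat_lit 160) (nat_lit 194) (nat_lit 6) (nat_lit 7) (nat_lit 11) L35112 (by decide +kernel)
theorem L35114 : W_11 (nat_lit 7) (nat_lit 0x240003001b00080000000000000000000000000000000) (nat_lit 0x0) (nat_lit 0x6000180030000000060003000180008000000000000000000) := T_11 (nat_lit 176) (nat_lit 175) (nat_lit 0) (nat_lit 7) (nat_lit 10) L35113 (by decide +kernel)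
theorem L35115 : W_11 (nat_lit 13) (nat_lit 0x240002001b00080000000000000000000000000000000) (nat_lit 0x0) (nat_lit 0x8003f000f800ec001a0031c0008006c003600190008000000000000000000) := Q_11 (nat_lit 156) (C_11 L34437 (C_11 L34422 (C_11 L35108 (C_11 L35114 N_11)))) (by decide +kernel)
theorem L35116 : W_11 (nat_lit 7) (nat_lit 0x240002001b00080000000000000000000000000000000) (nat_lit 0x0) (nat_lit 0x500038007c00120011000080004000000000000000000000000000000) := T_11 (nat_lit 194) (nat_lit 160) (nat_lit 6) (nat_lit 7) (nat_lit 11) L34772 (by decide +kernel)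
theorem L35117 : W_11 (nat_lit 6) (nat_lit 0x240002001b00080000000000000000000000000000000) (nat_lit 0x0) (nat_lit 0x500038007c00180011000080004000000000000000000000000000000) := Q_11 (nat_lit 191) (C_11 L34441 (C_11 L34410 (C_11 L34398 N_11))) (by decide +kernel)
theorem L35118 : W_11 (nat_lit 12) (nat_lit 0x240002001b00080000000000000000000000000000000) (nat_lit 0x0) (nat_lit 0x3f000f800f8001a0031c0008006f003600190008000000000000000000) := Q_11 (nat_lit 156) (C_11 L34476 (C_11 L35114 (C_11 L34471 N_11))) (by decide +kernel)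
theorem L35119 : W_11 (nat_lit 14) (nat_lit 0x200002001b00080000000000000000000000000000000) (nat_lit 0x0) (nat_lit 0x8003f000f800fe001e0031c0008006f003e001f000a800000000000000000) := Q_11 (nat_lit 174) (C_11 L34454 (C_11 L34399 (C_11 L34394 (C_11 L34411 (C_11 L35115 (C_11 L35116 (C_11 L35117 (C_11 L34404 (C_11 L35118 N_11))))))))) (by decide +kernel)
theorem L35120 : W_11 (nat_lit 15) (nat_lit 0x200002001300080000000000000000000000000000000) (nat_lit 0x0) (nat_lit 0x8003f000f800fe001e0031c00c8016f003e001f000a800000000000000000) := Q_11 (nat_lit 143) (C_11 L35013 (C_11 L35093 (C_11 L35094 (C_11 L35119 N_11)))) (by decide +kernel)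
theorem L35121 : W_11 (nat_lit 2) (nat_lit 0x200002001700080000000000000000000000000000000) (nat_lit 0x0) (nat_lit 0x4000800100000000000000000000000000000000) := D_11 (nat_lit 143) (nat_lit 128) (nat_lit 158) (nat_lit 2) (nat_lit 5) (nat_lit 8) (nat_lit 1) (nat_lit 8) (nat_lit 8) (by decide +kernel)
theorem L35122 : W_11 (nat_lit 2) (nat_lit 0x200002001700080000000000000000000000000000000) (nat_lit 0x0) (nat_lit 0x1000800100000000000000000000000000000000) := D_11 (nat_lit 143) (nat_lit 128) (nat_lit 156) (nat_lit 2) (nat_lit 5) (nat_lit 8) (nat_lit 1) (nat_lit 7) (nat_lit 8) (by decide +kernel)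
theorem L35123 : W_11 (nat_lit 2) (nat_lit 0x200002001700080000000000000000000000000000000) (nat_lit 0x0) (nat_lit 0x5000800000000000000000000000000000000000) := D_11 (nat_lit 143) (nat_lit 158) (nat_lit 156) (nat_lit 1) (nat_lit 8) (nat_lit 8) (nat_lit 1) (nat_lit 7) (nat_lit 8) (by decide +kernel)
theorem L35124 : W_11 (nat_lit 3) (nat_lit 0x200002001780084000000000000000000000000000000) (nat_lit 0x0) (nat_lit 0x800040001800000000000200000000000000000000000000) := T_11 (nat_lit 156) (nat_lit 155) (nat_lit 1) (nat_lit 6) (nat_lit 8) L33870 (by decide +kernel)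
theorem L35125 : W_11 (nat_lit 2) (nat_lit 0x2700068017c00ac001400000000000000000000000000) (nat_lit 0x0) (nat_lit 0x2800040000000000000000000000) := D_11 (nat_lit 107) (nat_lit 90) (nat_lit 109) (nat_lit 6) (nat_lit 4) (nat_lit 9) (nat_lit 1) (nat_lit 7) (nat_lit 6) (by decide +kernel)
theorem L35126 : W_11 (nat_lit 3) (nat_lit 0x2700068017c00ac001000000000000000000000000000) (nat_lit 0x0) (nat_lit 0x2c00060000000000000000000000) := T_11 (nat_lit 106) (nat_lit 89) (nat_lit 7) (nat_lit 4) (nat_lit 5) L35125 (by decide +kernel)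
theorem L35127 : W_11 (nat_lit 4) (nat_lit 0x2700068017c00a4001000000000000000000000000000) (nat_lit 0x0) (nat_lit 0x400000000000000008002c00060000000000000000000000) := T_11 (nat_lit 123) (nat_lit 190) (nat_lit 5) (nat_lit 4) (nat_lit 7) L35126 (by decide +kernel)
theorem L35128 : W_11 (nat_lit 5) (nat_lit 0x2500068017c00a4001000000000000000000000000000) (nat_lit 0x0) (nat_lit 0x400028000000000008002c00060000000000000000000000) := T_11 (nat_lit 173) (nat_lit 171) (nat_lit 2) (nat_lit 1) (nat_lit 10) L35127 (by decide +kernel)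
theorem L35129 : W_11 (nat_lit 6) (nat_lit 0x2500068017c00a4000000000000000000000000000000) (nat_lit 0x0) (nat_lit 0x400028000000000008003c000e0000000000000000000000) := T_11 (nat_lit 108) (nat_lit 91) (nat_lit 5) (nat_lit 6) (nat_lit 5) L35128 (by decide +kernel)
theorem L35130 : W_11 (nat_lit 7) (nat_lit 0x2400068017c00a4000000000000000000000000000000) (nat_lit 0x0) (nat_lit 0x600038000000000008003c000e0000000000000000000000) := T_11 (nat_lit 172) (nat_lit 189) (nat_lit 6) (nat_lit 2) (nat_lit 11) L35129 (by decide +kernel)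
theorem L35131 : W_11 (nat_lit 8) (nat_lit 0x2400028017c00a4000000000000000000000000000000) (nat_lit 0x0) (nat_lit 0x600038004000020008003c000e0000000000000000000000) := T_11 (nat_lit 158) (nat_lit 137) (nat_lit 3) (nat_lit 1) (nat_lit 8) L35130 (by decide +kernel)
theorem L35132 : W_11 (nat_lit 9) (nat_lit 0x2400028017800a4000000000000000000000000000000) (nat_lit 0x0) (nat_lit 0x600038004400060008003c000e0000000000000000000000) := T_11 (nat_lit 138) (nat_lit 154) (nat_lit 1) (nat_lit 5) (nat_lit 8) L35131 (by decide +kernel)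
theorem L35133 : W_11 (nat_lit 10) (nat_lit 0x2400020017800a4000000000000000000000000000000) (nat_lit 0x0) (nat_lit 0x600038005c00060008003c000e0000000000000000000000) := T_11 (nat_lit 155) (nat_lit 156) (nat_lit 1) (nat_lit 6) (nat_lit 8) L35132 (by decide +kernel)
theorem L35134 : W_11 (nat_lit 11) (nat_lit 0x240002001780084000000000000000000000000000000) (nat_lit 0x0) (nat_lit 0x600038005c00060068003c000e0000000000000000000000) := T_11 (nat_lit 125) (nat_lit 126) (nat_lit 2) (nat_lit 3) (nat_lit 8) L35133 (by decide +kernel)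
theorem L35135 : W_11 (nat_lit 12) (nat_lit 0x200002001780084000000000000000000000000000000) (nat_lit 0x0) (nat_lit 0xe00078005c00060068003c000e0000000000000000000000) := T_11 (nat_lit 174) (nat_lit 191) (nat_lit 4) (nat_lit 4) (nat_lit 11) L35134 (by decide +kernel)
theorem L35136 : W_11 (nat_lit 13) (nat_lit 0x200002001780080000000000000000000000000000000) (nat_lit 0x0) (nat_lit 0xc000e00078005c0006006c003f000f8000000000000000000000) := Q_11 (nat_lit 122) (C_11 L34884 (C_11 L35124 (C_11 L33878 (C_11 L35135 N_11)))) (by decide +kernel)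
theorem L35137 : W_11 (nat_lit 14) (nat_lit 0x200002001700080000000000000000000000000000000) (nat_lit 0x0) (nat_lit 0xc000e00078005c000e006f803f000f8000000000000000000000) := Q_11 (nat_lit 139) (C_11 L35009 (C_11 L34885 (C_11 L34275 (C_11 L33879 (C_11 L35136 N_11))))) (by decide +kernel)
theorem L35138 : W_11 (nat_lit 15) (nat_lit 0x200002001300080000000000000000000000000000000) (nat_lit 0x0) (nat_lit 0xc000e00078005c00ce016f803f000f8000000000000000000000) := Q_11 (nat_lit 142) (C_11 L35121 (C_11 L35122 (C_11 L35123 (C_11 L35137 N_11)))) (by decide +kernel)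
theorem L35139 : W_11 (nat_lit 2) (nat_lit 0x4000210007801b4008a000e00000000000000000000000000) (nat_lit 0x0) (nat_lit 0x1000180000000000000000000000000) := D_11 (nat_lit 120) (nat_lit 103) (nat_lit 104) (nat_lit 4) (nat_lit 2) (nat_lit 10) (nat_lit 1) (nat_lit 5) (nat_lit 6) (by decide +kernel)
theorem L35140 : W_11 (nat_lit 3) (nat_lit 0x4000210007801b40088000e00000000000000000000000000) (nat_lit 0x0) (nat_lit 0x7000180000000000000000000000000) := T_11 (nat_lit 121) (nat_lit 122) (nat_lit 6) (nat_lit 2) (nat_lit 10) L35139 (by decide +kernel)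
theorem L35141 : W_11 (nat_lit 4) (nat_lit 0x4000200007801b40088000e00000000000000000000000000) (nat_lit 0x0) (nat_lit 0x18000000000007000180000000000000000000000000) := T_11 (nat_lit 172) (nat_lit 171) (nat_lit 1) (nat_lit 5) (nat_lit 9) L35140 (by decide +kernel)
theorem L35142 : W_11 (nat_lit 5) (nat_lit 0x4000200007801b00088000e00000000000000000000000000) (nat_lit 0x0) (nat_lit 0x18000000060007000180000000000000000000000000) := T_11 (nat_lit 138) (nat_lit 137) (nat_lit 0) (nat_lit 5) (nat_lit 9) L35141 (by decide +kernel)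
theorem L35143 : W_11 (nat_lit 6) (nat_lit 0x4000200007801b00088000c00000000000000000000000000) (nat_lit 0x0) (nat_lit 0x18000000060007000380010000000000000000000000) := T_11 (nat_lit 105) (nat_lit 88) (nat_lit 4) (nat_lit 4) (nat_lit 9) L35142 (by decide +kernel)
theorem L35144 : W_11 (nat_lit 7) (nat_lit 0x4000200007001b00088000c00000000000000000000000000) (nat_lit 0x0) (nat_lit 0x18000c00060007000380010000000000000000000000) := T_11 (nat_lit 155) (nat_lit 154) (nat_lit 2) (nat_lit 1) (nat_lit 9) L35143 (by decide +kernel)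
theorem L35145 : W_11 (nat_lit 8) (nat_lit 0x4000200006001b00088000c00000000000000000000000000) (nat_lit 0x0) (nat_lit 0x38001c00060007000380010000000000000000000000) := T_11 (nat_lit 156) (nat_lit 173) (nat_lit 5) (nat_lit 4) (nat_lit 6) L35144 (by decide +kernel)
theorem L35146 : W_11 (nat_lit 9) (nat_lit 0x4000200006001b00088000400000000000000000000000000) (nat_lit 0x0) (nat_lit 0x38001c00060007000b80050000000000000000000000) := T_11 (nat_lit 107) (nat_lit 90) (nat_lit 6) (nat_lit 4) (nat_lit 9) L35145 (by decide +kernel)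
theorem L35147 : W_11 (nat_lit 10) (nat_lit 0x4000200002001b00088000400000000000000000000000000) (nat_lit 0x0) (nat_lit 0xb8005c00060007000b80050000000000000000000000) := T_11 (nat_lit 158) (nat_lit 175) (nat_lit 7) (nat_lit 4) (nat_lit 6) L35146 (by decide +kernel)
theorem L35148 : W_11 (nat_lit 11) (nat_lit 0x200002001b00088000400000000000000000000000000) (nat_lit 0x0) (nat_lit 0x40000b8015c00060007000b80050000000000000000000000) := T_11 (nat_lit 194) (nat_lit 160) (nat_lit 6) (nat_lit 7) (nat_lit 11) L35147 (by decide +kernel)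
theorem L35149 : W_11 (nat_lit 12) (nat_lit 0x200002001b00088000000000000000000000000000000) (nat_lit 0x0) (nat_lit 0x40000b8015c00060007000f80070002800000000000000000) := Q_11 (nat_lit 106) (C_11 L34706 (C_11 L34632 (C_11 L35148 N_11))) (by decide +kernel)
theorem L35150 : W_11 (nat_lit 2) (nat_lit 0x200002001b00088000400020000000000000000000000) (nat_lit 0x0) (nat_lit 0x800040002000000000000000000) := D_11 (nat_lit 90) (nat_lit 73) (nat_lit 107) (nat_lit 6) (nat_lit 4) (nat_lit 8) (nat_lit 6) (nat_lit 4) (nat_lit 9) (by decide +kernel)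
theorem L35151 : W_11 (nat_lit 3) (nat_lit 0x200002001b00088000400000000000000000000000000) (nat_lit 0x0) (nat_lit 0x4000000000000800060002000000000000000000) := T_11 (nat_lit 89) (nat_lit 158) (nat_lit 7) (nat_lit 4) (nat_lit 5) L35150 (by decide +kernel)
theorem L35152 : W_11 (nat_lit 8) (nat_lit 0x200002001b00088000000000000000000000000000000) (nat_lit 0x0) (nat_lit 0x4400060015c00000007001e00070002800000000000000000) := Q_11 (nat_lit 106) (C_11 L34761 (C_11 L34728 (C_11 L34632 (C_11 L34732 (C_11 L35151 N_11))))) (by decide +kernel)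
theorem L35153 : W_11 (nat_lit 8) (nat_lit 0x200002001b00088000000000000000000000000000000) (nat_lit 0x0) (nat_lit 0x4000e0005c00000007001e00070002000000000000000000) := Q_11 (nat_lit 106) (C_11 L35151 (C_11 L34728 (C_11 L34716 N_11))) (by decide +kernel)
theorem L35154 : W_11 (nat_lit 7) (nat_lit 0x200002001b00088000000000000000000000000000000) (nat_lit 0x0) (nat_lit 0x40000c0014000000007001e00070002000000000000000000) := Q_11 (nat_lit 106) (C_11 L35151 (C_11 L34761 (C_11 L34706 N_11))) (by decide +kernel)
theorem L35155 : W_11 (nat_lit 5) (nat_lit 0x4400240002001b0008d000000000000000000000000000000) (nat_lit 0x0) (nat_lit 0x1e8003800100000000000000000000000000000000000000000000) := T_11 (nat_lit 191) (nat_lit 207) (nat_lit 5) (nat_lit 4) (nat_lit 8) L34747 (by decide +kernel)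
theorem L35156 : W_11 (nat_lit 6) (nat_lit 0x4400240002001b0008c000000000000000000000000000000) (nat_lit 0x0) (nat_lit 0x1e8003800100000000000003000000000000000000000000000000) := T_11 (nat_lit 120) (nat_lit 121) (nat_lit 3) (nat_lit 1) (nat_lit 7) L35155 (by decide +kernel)
theorem L35157 : W_11 (nat_lit 7) (nat_lit 0x4400240002001b00088000000000000000000000000000000) (nat_lit 0x0) (nat_lit 0x1e8003800100000000000007000200000000000000000000000000) := T_11 (nat_lit 122) (nat_lit 105) (nat_lit 4) (nat_lit 4) (nat_lit 10) L35156 (by decide +kernel)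
theorem L35158 : W_11 (nat_lit 8) (nat_lit 0x4000240002001b00088000000000000000000000000000000) (nat_lit 0x0) (nat_lit 0x1e8003c00120000000000007000200000000000000000000000000) := T_11 (nat_lit 190) (nat_lit 173) (nat_lit 5) (nat_lit 4) (nat_lit 7) L35157 (by decide +kernel)
theorem L35159 : W_11 (nat_lit 9) (nat_lit 0x240002001b00088000000000000000000000000000000) (nat_lit 0x0) (nat_lit 0x1e8007c00120010000000007000200000000000000000000000000) := T_11 (nat_lit 194) (nat_lit 160) (nat_lit 6) (nat_lit 7) (nat_lit 11) L35158 (by decide +kernel)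
theorem L35160 : W_11 (nat_lit 2) (nat_lit 0x5000260002001b00088000000000000000000000000000000) (nat_lit 0x0) (nat_lit 0x20002800000000000000000000000000000000000000000000000) := D_11 (nat_lit 191) (nat_lit 193) (nat_lit 209) (nat_lit 0) (nat_lit 7) (nat_lit 11) (nat_lit 7) (nat_lit 4) (nat_lit 8) (by decide +kernel)
theorem L35161 : W_11 (nat_lit 3) (nat_lit 0x1000260002001b00088000000000000000000000000000000) (nat_lit 0x0) (nat_lit 0x20006800000010000000000000000000000000000000000000000) := T_11 (nat_lit 194) (nat_lit 160) (nat_lit 6) (nat_lit 7) (nat_lit 11) L35160 (by decide +kernel)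
theorem L35162 : W_11 (nat_lit 4) (nat_lit 0x260002001b00088000000000000000000000000000000) (nat_lit 0x0) (nat_lit 0x20007800080010000000000000000000000000000000000000000) := T_11 (nat_lit 192) (nat_lit 175) (nat_lit 7) (nat_lit 4) (nat_lit 7) L35161 (by decide +kernel)
theorem L35163 : W_11 (nat_lit 5) (nat_lit 0x240002001b00088000000000000000000000000000000) (nat_lit 0x0) (nat_lit 0x20007c000a0010000000000000000000000000000000000000000) := T_11 (nat_lit 173) (nat_lit 190) (nat_lit 5) (nat_lit 4) (nat_lit 7) L35162 (by decide +kernel)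
theorem L35164 : W_11 (nat_lit 2) (nat_lit 0x3c0002001b00088000000000000000000000000000000) (nat_lit 0x0) (nat_lit 0xc00020000000000000000000000000000000000000000000) := D_11 (nat_lit 190) (nat_lit 173) (nat_lit 191) (nat_lit 5) (nat_lit 4) (nat_lit 7) (nat_lit 1) (nat_lit 7) (nat_lit 10) (by decide +kernel)
theorem L35165 : W_11 (nat_lit 3) (nat_lit 0x2c0002001b00088000000000000000000000000000000) (nat_lit 0x0) (nat_lit 0xc00120001000000000000000000000000000000000000000) := T_11 (nat_lit 176) (nat_lit 156) (nat_lit 0) (nat_lit 7) (nat_lit 10) L35164 (by decide +kernel)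
theorem L35166 : W_11 (nat_lit 4) (nat_lit 0x240002001b00088000000000000000000000000000000) (nat_lit 0x0) (nat_lit 0x1c001a0001000000000000000000000000000000000000000) := T_11 (nat_lit 175) (nat_lit 192) (nat_lit 7) (nat_lit 4) (nat_lit 7) L35165 (by decide +kernel)
theorem L35167 : W_11 (nat_lit 2) (nat_lit 0x10000c00340012001b000c8003000000000000000000000000000) (nat_lit 0x0) (nat_lit 0x20000000000000000100008000000000000000000) := D_11 (nat_lit 92) (nat_lit 75) (nat_lit 161) (nat_lit 7) (nat_lit 7) (nat_lit 4) (nat_lit 7) (nat_lit 7) (nat_lit 5) (by decide +kernel)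
theorem L35168 : W_11 (nat_lit 3) (nat_lit 0x10000c00340012001b000c8001000000000000000000000000000) (nat_lit 0x0) (nat_lit 0x20000000000002000180008000000000000000000) := T_11 (nat_lit 109) (nat_lit 91) (nat_lit 4) (nat_lit 7) (nat_lit 9) L35167 (by decide +kernel)
theorem L35169 : W_11 (nat_lit 4) (nat_lit 0xc00340012001b000c8001000000000000000000000000000) (nat_lit 0x0) (nat_lit 0x10000000000024000000000002000180008000000000000000000) := T_11 (nat_lit 208) (nat_lit 158) (nat_lit 6) (nat_lit 4) (nat_lit 12) L35168 (by decide +kernel)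
theorem L35170 : W_11 (nat_lit 5) (nat_lit 0xc00340012001b000c8000000000000000000000000000000) (nat_lit 0x0) (nat_lit 0x10000000000024000000020003000180008000000000000000000) := T_11 (nat_lit 108) (nat_lit 125) (nat_lit 4) (nat_lit 7) (nat_lit 10) L35169 (by decide +kernel)
theorem L35171 : W_11 (nat_lit 6) (nat_lit 0xc00340012001b00088000000000000000000000000000000) (nat_lit 0x0) (nat_lit 0x10002000000024000000060003000180008000000000000000000) := T_11 (nat_lit 126) (nat_lit 193) (nat_lit 5) (nat_lit 7) (nat_lit 7) L35170 (by decide +kernel)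
theorem L35172 : W_11 (nat_lit 7) (nat_lit 0xc00240012001b00088000000000000000000000000000000) (nat_lit 0x0) (nat_lit 0x10002000180024000000060003000180008000000000000000000) := T_11 (nat_lit 176) (nat_lit 175) (nat_lit 1) (nat_lit 7) (nat_lit 10) L35171 (by decide +kernel)
theorem L35173 : W_11 (nat_lit 8) (nat_lit 0x400240012001b00088000000000000000000000000000000) (nat_lit 0x0) (nat_lit 0x18002800180024000000060003000180008000000000000000000) := T_11 (nat_lit 191) (nat_lit 207) (nat_lit 5) (nat_lit 4) (nat_lit 8) L35172 (by decide +kernel)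
theorem L35174 : W_11 (nat_lit 9) (nat_lit 0x400240002001b00088000000000000000000000000000000) (nat_lit 0x0) (nat_lit 0x18006800180034000000060003000180008000000000000000000) := T_11 (nat_lit 160) (nat_lit 194) (nat_lit 6) (nat_lit 7) (nat_lit 11) L35173 (by decide +kernel)
theorem L35175 : W_11 (nat_lit 10) (nat_lit 0x240002001b00088000000000000000000000000000000) (nat_lit 0x0) (nat_lit 0x18006c001a0034000000060003000180008000000000000000000) := T_11 (nat_lit 190) (nat_lit 173) (nat_lit 5) (nat_lit 4) (nat_lit 7) L35174 (by decide +kernel)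
theorem L35176 : W_11 (nat_lit 11) (nat_lit 0x200002001b00088000000000000000000000000000000) (nat_lit 0x0) (nat_lit 0x1f800fc001e0035000000067003200180008000000000000000000) := Q_11 (nat_lit 174) (C_11 L34403 (C_11 L35159 (C_11 L35163 (C_11 L34370 (C_11 L35166 (C_11 L35175 N_11)))))) (by decide +kernel)
theorem L35177 : W_11 (nat_lit 8) (nat_lit 0x200002001b00088000000000000000000000000000000) (nat_lit 0x0) (nat_lit 0xf4001e0015000000000000c00060002000000000000000000) := Q_11 (nat_lit 106) (C_11 L35151 (C_11 L34738 (C_11 L34706 N_11))) (by decide +kernel)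
theorem L35178 : W_11 (nat_lit 13) (nat_lit 0x200002001b00080000000000000000000000000000000) (nat_lit 0x0) (nat_lit 0x1f800fc001f8035c0006006f003f801f000a800000000000000000) := Q_11 (nat_lit 123) (C_11 L35149 (C_11 L34739 (C_11 L35152 (C_11 L35153 (C_11 L35154 (C_11 L35176 (C_11 L35177 N_11))))))) (by decide +kernel)
theorem L35179 : W_11 (nat_lit 14) (nat_lit 0x200002001300080000000000000000000000000000000) (nat_lit 0x0) (nat_lit 0x1f800fc001f8035c00c6016f003f801f000a800000000000000000) := Q_11 (nat_lit 143) (C_11 L35178 (C_11 L35014 (C_11 L35094 N_11))) (by decide +kernel)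
theorem L35180 : W_11 (nat_lit 8) (nat_lit 0x200002001300080000000000000000000000000000000) (nat_lit 0x0) (nat_lit 0x50003800fc001e0015000c8010c000600010000000000000000000000) := Q_11 (nat_lit 143) (C_11 L34388 (C_11 L35014 (C_11 L35094 N_11))) (by decide +kernel)
theorem L35181 : W_11 (nat_lit 2) (nat_lit 0x2000020017800a4000200000000000000000000000000) (nat_lit 0x0) (nat_lit 0x800040001000000000000000000000000000000000000000) := D_11 (nat_lit 174) (nat_lit 191) (nat_lit 156) (nat_lit 4) (nat_lit 4) (nat_lit 11) (nat_lit 7) (nat_lit 3) (nat_lit 6) (by decide +kernel)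
theorem L35182 : W_11 (nat_lit 3) (nat_lit 0x2000020017800a4000000000000000000000000000000) (nat_lit 0x0) (nat_lit 0x800040001000000000000200010000000000000000000000) := T_11 (nat_lit 105) (nat_lit 88) (nat_lit 7) (nat_lit 3) (nat_lit 5) L35181 (by decide +kernel)
theorem L35183 : W_11 (nat_lit 4) (nat_lit 0x200002001780084000000000000000000000000000000) (nat_lit 0x0) (nat_lit 0x800040001000000060000200010000000000000000000000) := T_11 (nat_lit 125) (nat_lit 126) (nat_lit 2) (nat_lit 3) (nat_lit 8) L35182 (by decide +kernel)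
theorem L35184 : W_11 (nat_lit 5) (nat_lit 0x200002001780080000000000000000000000000000000) (nat_lit 0x0) (nat_lit 0x800040001000000066000200010000000000000000000000) := T_11 (nat_lit 122) (nat_lit 121) (nat_lit 0) (nat_lit 6) (nat_lit 8) L35183 (by decide +kernel)
theorem L35188 : W_11 (nat_lit 3) (nat_lit 0x240002001780080000000000000000000000000000000) (nat_lit 0x0) (nat_lit 0x10000800000005000000004000000000000000000000000000000) := T_11 (nat_lit 191) (nat_lit 122) (nat_lit 4) (nat_lit 4) (nat_lit 11) L35187 (by decide +kernel)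
theorem L35189 : W_11 (nat_lit 2) (nat_lit 0xc003400020017800a0000000000000000000000000000000) (nat_lit 0x0) (nat_lit 0x20003000000000000000000000000000000000000000000000000) := D_11 (nat_lit 192) (nat_lit 209) (nat_lit 193) (nat_lit 7) (nat_lit 4) (nat_lit 8) (nat_lit 2) (nat_lit 3) (nat_lit 11) (by decide +kernel)
theorem L35190 : W_11 (nat_lit 3) (nat_lit 0xc002400020017800a0000000000000000000000000000000) (nat_lit 0x0) (nat_lit 0x20003000180000000000000000000000000000000000000000000) := T_11 (nat_lit 176) (nat_lit 175) (nat_lit 1) (nat_lit 7) (nat_lit 10) L35189 (by decide +kernel)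
theorem L35191 : W_11 (nat_lit 4) (nat_lit 0x8002400020017800a0000000000000000000000000000000) (nat_lit 0x0) (nat_lit 0x28003400180000000000000000000000000000000000000000000) := T_11 (nat_lit 190) (nat_lit 207) (nat_lit 5) (nat_lit 4) (nat_lit 8) L35190 (by decide +kernel)
theorem L35192 : W_11 (nat_lit 5) (nat_lit 0x2400020017800a0000000000000000000000000000000) (nat_lit 0x0) (nat_lit 0x28003c00180000000000004000000000000000000000000000000) := T_11 (nat_lit 191) (nat_lit 122) (nat_lit 4) (nat_lit 4) (nat_lit 11) L35191 (by decide +kernel)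
theorem L35193 : W_11 (nat_lit 6) (nat_lit 0x240002001780080000000000000000000000000000000) (nat_lit 0x0) (nat_lit 0x28003c00180000000000064000000000000000000000000000000) := T_11 (nat_lit 125) (nat_lit 126) (nat_lit 2) (nat_lit 3) (nat_lit 8) L35192 (by decide +kernel)
theorem L35194 : W_11 (nat_lit 2) (nat_lit 0x18003400030017800a0000000000000000000000000000000) (nat_lit 0x0) (nat_lit 0x8002400000000000000000000000000000000000000000000000) := D_11 (nat_lit 190) (nat_lit 193) (nat_lit 207) (nat_lit 2) (nat_lit 3) (nat_lit 11) (nat_lit 5) (nat_lit 4) (nat_lit 8) (by decide +kernel)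
theorem L35195 : W_11 (nat_lit 3) (nat_lit 0x8003400030017800a0000000000000000000000000000000) (nat_lit 0x0) (nat_lit 0x28003400000000000000000000000000000000000000000000000) := T_11 (nat_lit 192) (nat_lit 209) (nat_lit 7) (nat_lit 4) (nat_lit 8) L35194 (by decide +kernel)
theorem L35196 : W_11 (nat_lit 4) (nat_lit 0x800340003001780080000000000000000000000000000000) (nat_lit 0x0) (nat_lit 0x28003400000000000000060000000000000000000000000000000) := T_11 (nat_lit 125) (nat_lit 126) (nat_lit 2) (nat_lit 3) (nat_lit 8) L35195 (by decide +kernel)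
theorem L35197 : W_11 (nat_lit 5) (nat_lit 0x340003001780080000000000000000000000000000000) (nat_lit 0x0) (nat_lit 0x38003c00000000000000060000000000000000000000000000000) := T_11 (nat_lit 191) (nat_lit 208) (nat_lit 4) (nat_lit 4) (nat_lit 12) L35196 (by decide +kernel)
theorem L35198 : W_11 (nat_lit 6) (nat_lit 0x240003001780080000000000000000000000000000000) (nat_lit 0x0) (nat_lit 0x38003c00180000000000060000000000000000000000000000000) := T_11 (nat_lit 176) (nat_lit 175) (nat_lit 0) (nat_lit 7) (nat_lit 10) L35197 (by decide +kernel)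
theorem L35199 : W_11 (nat_lit 7) (nat_lit 0x240002001780080000000000000000000000000000000) (nat_lit 0x0) (nat_lit 0x38003c00180001800000060000000000000000000000000000000) := T_11 (nat_lit 156) (nat_lit 155) (nat_lit 1) (nat_lit 6) (nat_lit 8) L35198 (by decide +kernel)
theorem L35200 : W_11 (nat_lit 2) (nat_lit 0x2400020017c0080000000000000000000000000000000) (nat_lit 0x0) (nat_lit 0x1c00000000000000000000000000000000000000) := D_11 (nat_lit 155) (nat_lit 156) (nat_lit 154) (nat_lit 1) (nat_lit 6) (nat_lit 8) (nat_lit 1) (nat_lit 5) (nat_lit 8) (by decide +kernel)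
theorem L35201 : W_11 (nat_lit 2) (nat_lit 0x40003f00160017c00a0000000080000000000000000000000) (nat_lit 0x0) (nat_lit 0x700000000000000000000000000000000000000000000000) := D_11 (nat_lit 189) (nat_lit 190) (nat_lit 188) (nat_lit 1) (nat_lit 6) (nat_lit 10) (nat_lit 1) (nat_lit 5) (nat_lit 10) (by decide +kernel)
theorem L35202 : W_11 (nat_lit 3) (nat_lit 0x40003e00160017c00a0000000080000000000000000000000) (nat_lit 0x0) (nat_lit 0x700018000000000000000000000000000000000000000000) := T_11 (nat_lit 172) (nat_lit 171) (nat_lit 2) (nat_lit 1) (nat_lit 10) L35201 (by decide +kernel)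
theorem L35203 : W_11 (nat_lit 4) (nat_lit 0x40003c00160017c00a0000000080000000000000000000000) (nat_lit 0x0) (nat_lit 0x2700038000000000000000000000000000000000000000000) := T_11 (nat_lit 173) (nat_lit 193) (nat_lit 3) (nat_lit 3) (nat_lit 10) L35202 (by decide +kernel)
theorem L35204 : W_11 (nat_lit 5) (nat_lit 0x3c00160017c00a0000000080000000000000000000000) (nat_lit 0x0) (nat_lit 0xe700038000000000000000000000000000000000000000000) := T_11 (nat_lit 194) (nat_lit 195) (nat_lit 3) (nat_lit 4) (nat_lit 10) L35203 (by decide +kernel)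
theorem L35205 : W_11 (nat_lit 6) (nat_lit 0x3c00060017c00a0000000080000000000000000000000) (nat_lit 0x0) (nat_lit 0xe700038030000000000000000000000000000000000000000) := T_11 (nat_lit 160) (nat_lit 161) (nat_lit 2) (nat_lit 4) (nat_lit 10) L35204 (by decide +kernel)
theorem L35206 : W_11 (nat_lit 7) (nat_lit 0x2c00060017c00a0000000080000000000000000000000) (nat_lit 0x0) (nat_lit 0xe700138031000000000000000000000000000000000000000) := T_11 (nat_lit 176) (nat_lit 156) (nat_lit 0) (nat_lit 7) (nat_lit 10) L35205 (by decide +kernel)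
theorem L35207 : W_11 (nat_lit 8) (nat_lit 0x2c00060017c00a0000000000000000000000000000000) (nat_lit 0x0) (nat_lit 0xe700138031000000000001000080000000000000000000000) := T_11 (nat_lit 91) (nat_lit 108) (nat_lit 5) (nat_lit 6) (nat_lit 5) L35206 (by decide +kernel)
theorem L35208 : W_11 (nat_lit 9) (nat_lit 0x2400060017c00a0000000000000000000000000000000) (nat_lit 0x0) (nat_lit 0xf7001b8031000000000001000080000000000000000000000) := T_11 (nat_lit 175) (nat_lit 192) (nat_lit 6) (nat_lit 5) (nat_lit 11) L35207 (by decide +kernel)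
theorem L35209 : W_11 (nat_lit 10) (nat_lit 0x2400060017c0080000000000000000000000000000000) (nat_lit 0x0) (nat_lit 0xf7001b8031000000060001000080000000000000000000000) := T_11 (nat_lit 125) (nat_lit 126) (nat_lit 2) (nat_lit 3) (nat_lit 8) L35208 (by decide +kernel)
theorem L35210 : W_11 (nat_lit 11) (nat_lit 0x2400020017c0080000000000000000000000000000000) (nat_lit 0x0) (nat_lit 0xf7001b8035000020060001000080000000000000000000000) := T_11 (nat_lit 158) (nat_lit 137) (nat_lit 3) (nat_lit 1) (nat_lit 8) L35209 (by decide +kernel)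
theorem L35211 : W_11 (nat_lit 2) (nat_lit 0x2400024017c00a0000000000000000000000000000000) (nat_lit 0x0) (nat_lit 0x4200020000000000000000000000000000000000) := D_11 (nat_lit 137) (nat_lit 158) (nat_lit 153) (nat_lit 3) (nat_lit 1) (nat_lit 8) (nat_lit 1) (nat_lit 4) (nat_lit 8) (by decide +kernel)
theorem L35212 : W_11 (nat_lit 3) (nat_lit 0x2400020017c00a0000000000000000000000000000000) (nat_lit 0x0) (nat_lit 0x4e00020000000000000000000000000000000000) := T_11 (nat_lit 154) (nat_lit 155) (nat_lit 1) (nat_lit 5) (nat_lit 8) L35211 (by decide +kernel)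
theorem L35213 : W_11 (nat_lit 4) (nat_lit 0x2400020017c0080000000000000000000000000000000) (nat_lit 0x0) (nat_lit 0x4e00020060000000000000000000000000000000) := T_11 (nat_lit 125) (nat_lit 126) (nat_lit 2) (nat_lit 3) (nat_lit 8) L35212 (by decide +kernel)
theorem L35214 : W_11 (nat_lit 12) (nat_lit 0x240002001780080000000000000000000000000000000) (nat_lit 0x0) (nat_lit 0xf7001b8035e00060060001000080000000000000000000000) := Q_11 (nat_lit 138) (C_11 L35200 (C_11 L35210 (C_11 L35213 N_11))) (by decide +kernel)
theorem L35215 : W_11 (nat_lit 13) (nat_lit 0x200002001780080000000000000000000000000000000) (nat_lit 0x0) (nat_lit 0x3800ff001f8035e00060064001000080000000000000000000000) := Q_11 (nat_lit 174) (C_11 L35186 (C_11 L35188 (C_11 L35193 (C_11 L35199 (C_11 L35214 N_11))))) (by decide +kernel)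
theorem L35216 : W_11 (nat_lit 14) (nat_lit 0x200002001700080000000000000000000000000000000) (nat_lit 0x0) (nat_lit 0x3800ff001f8035e000e0067801200090000000000000000000000) := Q_11 (nat_lit 139) (C_11 L35009 (C_11 L34275 (C_11 L35184 (C_11 L35215 (C_11 L34878 N_11))))) (by decide +kernel)
theorem L35217 : W_11 (nat_lit 15) (nat_lit 0x200002001300080000000000000000000000000000000) (nat_lit 0x0) (nat_lit 0x3800ff001f8035e00ce0167801200090000000000000000000000) := Q_11 (nat_lit 142) (C_11 L35121 (C_11 L35123 (C_11 L35122 (C_11 L35216 N_11)))) (by decide +kernel)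
theorem L35218 : W_11 (nat_lit 2) (nat_lit 0x1800240002001380088000000000000000000000000000000) (nat_lit 0x0) (nat_lit 0x8000400020000000000000000000000000000000000000000000) := D_11 (nat_lit 190) (nat_lit 173) (nat_lit 207) (nat_lit 5) (nat_lit 4) (nat_lit 7) (nat_lit 5) (nat_lit 4) (nat_lit 8) (by decide +kernel)
theorem L35219 : W_11 (nat_lit 3) (nat_lit 0x1800240002001380080000000000000000000000000000000) (nat_lit 0x0) (nat_lit 0x80004000a0000000000008000000000000000000000000000000) := T_11 (nat_lit 123) (nat_lit 175) (nat_lit 7) (nat_lit 4) (nat_lit 7) L35218 (by decide +kernel)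
theorem L35220 : W_11 (nat_lit 4) (nat_lit 0x800240002001380080000000000000000000000000000000) (nat_lit 0x0) (nat_lit 0x280014000a0000000000008000000000000000000000000000000) := T_11 (nat_lit 192) (nat_lit 209) (nat_lit 7) (nat_lit 4) (nat_lit 8) L35219 (by decide +kernel)
theorem L35221 : W_11 (nat_lit 5) (nat_lit 0x800240002001300080000000000000000000000000000000) (nat_lit 0x0) (nat_lit 0x280014000a000000008000c000000000000000000000000000000) := T_11 (nat_lit 139) (nat_lit 122) (nat_lit 4) (nat_lit 4) (nat_lit 11) L35220 (by decide +kernel)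
theorem L35222 : W_11 (nat_lit 2) (nat_lit 0x10000800240002001300080000000000000000000000000000000) (nat_lit 0x0) (nat_lit 0x100008000400000000000000000000000000000000000000000000000) := D_11 (nat_lit 207) (nat_lit 224) (nat_lit 190) (nat_lit 5) (nat_lit 4) (nat_lit 9) (nat_lit 5) (nat_lit 4) (nat_lit 8) (by decide +kernel)
theorem L35223 : W_11 (nat_lit 3) (nat_lit 0x800240002001300080000000000000000000000000000000) (nat_lit 0x0) (nat_lit 0x100018000400000004000000000000000000000000000000000000000) := T_11 (nat_lit 208) (nat_lit 158) (nat_lit 6) (nat_lit 4) (nat_lit 12) L35222 (by decide +kernel)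
theorem L35224 : W_11 (nat_lit 2) (nat_lit 0x10000800240002001300080000000000000000000000000000000) (nat_lit 0x0) (nat_lit 0x400020001000000000000000000000000000000000000000000000000) := D_11 (nat_lit 209) (nat_lit 192) (nat_lit 226) (nat_lit 7) (nat_lit 4) (nat_lit 8) (nat_lit 7) (nat_lit 4) (nat_lit 9) (by decide +kernel)
theorem L35225 : W_11 (nat_lit 3) (nat_lit 0x800240002001300080000000000000000000000000000000) (nat_lit 0x0) (nat_lit 0x400030001000000004000000000000000000000000000000000000000) := T_11 (nat_lit 208) (nat_lit 158) (nat_lit 6) (nat_lit 4) (nat_lit 12) L35224 (by decide +kernel)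
theorem L35226 : W_11 (nat_lit 6) (nat_lit 0x240002001300080000000000000000000000000000000) (nat_lit 0x0) (nat_lit 0x500038001c000a000400008000c000000000000000000000000000000) := Q_11 (nat_lit 191) (C_11 L35221 (C_11 L35223 (C_11 L35225 N_11))) (by decide +kernel)
theorem L35227 : W_11 (nat_lit 2) (nat_lit 0x80024000200130008d000000000000000000000000000000) (nat_lit 0x0) (nat_lit 0x20001000080000000000000000000000000000000000000000000) := D_11 (nat_lit 192) (nat_lit 175) (nat_lit 209) (nat_lit 7) (nat_lit 4) (nat_lit 7) (nat_lit 7) (nat_lit 4) (nat_lit 8) (by decide +kernel)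
theorem L35228 : W_11 (nat_lit 3) (nat_lit 0x24000200130008d000000000000000000000000000000) (nat_lit 0x0) (nat_lit 0x20001800080000000080000000000000000000000000000000000) := T_11 (nat_lit 191) (nat_lit 139) (nat_lit 4) (nat_lit 4) (nat_lit 11) L35227 (by decide +kernel)
theorem L35229 : W_11 (nat_lit 4) (nat_lit 0x24000200130008c000000000000000000000000000000) (nat_lit 0x0) (nat_lit 0x20001800080000000080003000000000000000000000000000000) := T_11 (nat_lit 120) (nat_lit 121) (nat_lit 3) (nat_lit 1) (nat_lit 7) L35228 (by decide +kernel)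
theorem L35230 : W_11 (nat_lit 5) (nat_lit 0x240002001300088000000000000000000000000000000) (nat_lit 0x0) (nat_lit 0x20001800080000000080007000200000000000000000000000000) := T_11 (nat_lit 122) (nat_lit 105) (nat_lit 4) (nat_lit 4) (nat_lit 10) L35229 (by decide +kernel)
theorem L35231 : W_11 (nat_lit 2) (nat_lit 0x80024000200130008d000000000000000000000000000000) (nat_lit 0x0) (nat_lit 0x8000400020000000000000000000000000000000000000000000) := D_11 (nat_lit 190) (nat_lit 173) (nat_lit 207) (nat_lit 5) (nat_lit 4) (nat_lit 7) (nat_lit 5) (nat_lit 4) (nat_lit 8) (by decide +kernel)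
theorem L35232 : W_11 (nat_lit 3) (nat_lit 0x24000200130008d000000000000000000000000000000) (nat_lit 0x0) (nat_lit 0x8000c00020000000080000000000000000000000000000000000) := T_11 (nat_lit 191) (nat_lit 139) (nat_lit 4) (nat_lit 4) (nat_lit 11) L35231 (by decide +kernel)
theorem L35233 : W_11 (nat_lit 4) (nat_lit 0x24000200130008c000000000000000000000000000000) (nat_lit 0x0) (nat_lit 0x8000c00020000000080003000000000000000000000000000000) := T_11 (nat_lit 120) (nat_lit 121) (nat_lit 3) (nat_lit 1) (nat_lit 7) L35232 (by decide +kernel)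
theorem L35234 : W_11 (nat_lit 5) (nat_lit 0x240002001300088000000000000000000000000000000) (nat_lit 0x0) (nat_lit 0x8000c00020000000080007000200000000000000000000000000) := T_11 (nat_lit 122) (nat_lit 105) (nat_lit 4) (nat_lit 4) (nat_lit 10) L35233 (by decide +kernel)
theorem L35238 : W_11 (nat_lit 2) (nat_lit 0x3c0002001300088000000000000000000000000000000) (nat_lit 0x0) (nat_lit 0xc00020000000000000000000000000000000000000000000) := D_11 (nat_lit 190) (nat_lit 173) (nat_lit 191) (nat_lit 5) (nat_lit 4) (nat_lit 7) (nat_lit 1) (nat_lit 7) (nat_lit 10) (by decide +kernel)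
theorem L35239 : W_11 (nat_lit 3) (nat_lit 0x2c0002001300088000000000000000000000000000000) (nat_lit 0x0) (nat_lit 0xc00120001000000000000000000000000000000000000000) := T_11 (nat_lit 176) (nat_lit 156) (nat_lit 0) (nat_lit 7) (nat_lit 10) L35238 (by decide +kernel)
theorem L35240 : W_11 (nat_lit 4) (nat_lit 0x240002001300088000000000000000000000000000000) (nat_lit 0x0) (nat_lit 0x1c001a0001000000000000000000000000000000000000000) := T_11 (nat_lit 175) (nat_lit 192) (nat_lit 7) (nat_lit 4) (nat_lit 7) L35239 (by decide +kernel)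
theorem L35241 : W_11 (nat_lit 6) (nat_lit 0x240002001300080000000000000000000000000000000) (nat_lit 0x0) (nat_lit 0x28001c001a000100008000f000600010000000000000000000000) := Q_11 (nat_lit 123) (C_11 L35230 (C_11 L35234 (C_11 L35237 (C_11 L35240 N_11)))) (by decide +kernel)
theorem L35242 : W_11 (nat_lit 2) (nat_lit 0x10001800240002001380080000000000000000000000000000000) (nat_lit 0x0) (nat_lit 0x100008000400000000000000000000000000000000000000000000000) := D_11 (nat_lit 207) (nat_lit 190) (nat_lit 224) (nat_lit 5) (nat_lit 4) (nat_lit 8) (nat_lit 5) (nat_lit 4) (nat_lit 9) (by decide +kernel)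
theorem L35243 : W_11 (nat_lit 3) (nat_lit 0x1800240002001380080000000000000000000000000000000) (nat_lit 0x0) (nat_lit 0x100018000400000001000000000000000000000000000000000000000) := T_11 (nat_lit 208) (nat_lit 156) (nat_lit 4) (nat_lit 4) (nat_lit 12) L35242 (by decide +kernel)
theorem L35244 : W_11 (nat_lit 4) (nat_lit 0x800240002001380080000000000000000000000000000000) (nat_lit 0x0) (nat_lit 0x100038001400000001000000000000000000000000000000000000000) := T_11 (nat_lit 192) (nat_lit 209) (nat_lit 7) (nat_lit 4) (nat_lit 8) L35243 (by decide +kernel)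
theorem L35245 : W_11 (nat_lit 5) (nat_lit 0x800240002001300080000000000000000000000000000000) (nat_lit 0x0) (nat_lit 0x100038001400000001000080004000000000000000000000000000000) := T_11 (nat_lit 139) (nat_lit 122) (nat_lit 4) (nat_lit 4) (nat_lit 11) L35244 (by decide +kernel)
theorem L35249 : W_11 (nat_lit 6) (nat_lit 0x240002001300080000000000000000000000000000000) (nat_lit 0x0) (nat_lit 0x500038001c0002000500008000c000200000000000000000000000000) := Q_11 (nat_lit 191) (C_11 L35225 (C_11 L35245 (C_11 L35223 (C_11 L35248 N_11)))) (by decide +kernel)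
theorem L35250 : W_11 (nat_lit 2) (nat_lit 0x48003c000200130008d002c00000000000000000000000000) (nat_lit 0x0) (nat_lit 0x30000800000000000000000000000000000000000) := D_11 (nat_lit 160) (nat_lit 161) (nat_lit 143) (nat_lit 2) (nat_lit 4) (nat_lit 10) (nat_lit 6) (nat_lit 7) (nat_lit 11) (by decide +kernel)
theorem L35251 : W_11 (nat_lit 3) (nat_lit 0x8003c000200130008d002c00000000000000000000000000) (nat_lit 0x0) (nat_lit 0xc000000030000800000000000000000000000000000000000) := T_11 (nat_lit 194) (nat_lit 195) (nat_lit 3) (nat_lit 4) (nat_lit 10) L35250 (by decide +kernel)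
theorem L35252 : W_11 (nat_lit 4) (nat_lit 0x3c000200130008d002c00000000000000000000000000) (nat_lit 0x0) (nat_lit 0xcc00000030000800000000000000000000000000000000000) := T_11 (nat_lit 191) (nat_lit 190) (nat_lit 1) (nat_lit 7) (nat_lit 10) L35251 (by decide +kernel)
theorem L35253 : W_11 (nat_lit 5) (nat_lit 0x2c000200130008d002c00000000000000000000000000) (nat_lit 0x0) (nat_lit 0xcc00100031000800000000000000000000000000000000000) := T_11 (nat_lit 176) (nat_lit 156) (nat_lit 0) (nat_lit 7) (nat_lit 10) L35252 (by decide +kernel)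
theorem L35254 : W_11 (nat_lit 6) (nat_lit 0x2c000200130008d000c00000000000000000000000000) (nat_lit 0x0) (nat_lit 0xcc00100031000800000003000000000000000000000000000) := T_11 (nat_lit 109) (nat_lit 108) (nat_lit 1) (nat_lit 7) (nat_lit 6) L35253 (by decide +kernel)
theorem L35255 : W_11 (nat_lit 7) (nat_lit 0x2c000200130008d000400000000000000000000000000) (nat_lit 0x0) (nat_lit 0xcc00100031000800000003800040000000000000000000000) := T_11 (nat_lit 107) (nat_lit 90) (nat_lit 6) (nat_lit 4) (nat_lit 9) L35254 (by decide +kernel)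
theorem L35256 : W_11 (nat_lit 8) (nat_lit 0x2c000200130008d000000000000000000000000000000) (nat_lit 0x0) (nat_lit 0xcc00100035000800000003c00040000000000000000000000) := T_11 (nat_lit 106) (nat_lit 158) (nat_lit 7) (nat_lit 4) (nat_lit 6) L35255 (by decide +kernel)
theorem L35257 : W_11 (nat_lit 9) (nat_lit 0x24000200130008d000000000000000000000000000000) (nat_lit 0x0) (nat_lit 0xdc00180035000800000003c00040000000000000000000000) := T_11 (nat_lit 175) (nat_lit 192) (nat_lit 7) (nat_lit 4) (nat_lit 7) L35256 (by decide +kernel)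
theorem L35258 : W_11 (nat_lit 10) (nat_lit 0x24000200130008c000000000000000000000000000000) (nat_lit 0x0) (nat_lit 0xdc00180035000800003003c00040000000000000000000000) := T_11 (nat_lit 120) (nat_lit 121) (nat_lit 3) (nat_lit 1) (nat_lit 7) L35257 (by decide +kernel)
theorem L35259 : W_11 (nat_lit 11) (nat_lit 0x240002001300088000000000000000000000000000000) (nat_lit 0x0) (nat_lit 0xdc00180035000800007003e00040000000000000000000000) := T_11 (nat_lit 122) (nat_lit 105) (nat_lit 4) (nat_lit 4) (nat_lit 10) L35258 (by decide +kernel)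
theorem L35260 : W_11 (nat_lit 2) (nat_lit 0x2c0002001300088000400000000000000000000000000) (nat_lit 0x0) (nat_lit 0x4000200010000000000000000000000) := D_11 (nat_lit 105) (nat_lit 122) (nat_lit 88) (nat_lit 4) (nat_lit 4) (nat_lit 10) (nat_lit 4) (nat_lit 4) (nat_lit 9) (by decide +kernel)
theorem L35261 : W_11 (nat_lit 3) (nat_lit 0x2c0002001300088000000000000000000000000000000) (nat_lit 0x0) (nat_lit 0x4000000004000600010000000000000000000000) := T_11 (nat_lit 106) (nat_lit 158) (nat_lit 7) (nat_lit 4) (nat_lit 6) L35260 (by decide +kernel)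
theorem L35262 : W_11 (nat_lit 4) (nat_lit 0x240002001300088000000000000000000000000000000) (nat_lit 0x0) (nat_lit 0x1000080004000000004000600010000000000000000000000) := T_11 (nat_lit 175) (nat_lit 192) (nat_lit 7) (nat_lit 4) (nat_lit 7) L35261 (by decide +kernel)
theorem L35263 : W_11 (nat_lit 12) (nat_lit 0x240002001300080000000000000000000000000000000) (nat_lit 0x0) (nat_lit 0xdc001a003500080000f003e00050000000000000000000000) := Q_11 (nat_lit 123) (C_11 L35240 (C_11 L35237 (C_11 L35259 (C_11 L35262 N_11)))) (by decide +kernel)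
theorem L35264 : W_11 (nat_lit 2) (nat_lit 0x10000800240002001300080000000000000000000000000000000) (nat_lit 0x0) (nat_lit 0x1000080004000000000000000000000000000000) := D_11 (nat_lit 139) (nat_lit 122) (nat_lit 156) (nat_lit 4) (nat_lit 4) (nat_lit 11) (nat_lit 4) (nat_lit 4) (nat_lit 12) (by decide +kernel)
theorem L35265 : W_11 (nat_lit 3) (nat_lit 0x800240002001300080000000000000000000000000000000) (nat_lit 0x0) (nat_lit 0x10000000000005000080004000000000000000000000000000000) := T_11 (nat_lit 208) (nat_lit 158) (nat_lit 6) (nat_lit 4) (nat_lit 12) L35264 (by decide +kernel)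
theorem L35266 : W_11 (nat_lit 5) (nat_lit 0x240002001300080000000000000000000000000000000) (nat_lit 0x0) (nat_lit 0x100018000c0002000500008000c000200000000000000000000000000) := Q_11 (nat_lit 191) (C_11 L35248 (C_11 L35223 (C_11 L35265 N_11))) (by decide +kernel)
theorem L35267 : W_11 (nat_lit 2) (nat_lit 0x1c00240002001380080000000000000000000000000000000) (nat_lit 0x0) (nat_lit 0x2000180000000000000000000000000000000000000000000) := D_11 (nat_lit 176) (nat_lit 193) (nat_lit 175) (nat_lit 2) (nat_lit 3) (nat_lit 11) (nat_lit 1) (nat_lit 7) (nat_lit 10) (by decide +kernel)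
theorem L35268 : W_11 (nat_lit 3) (nat_lit 0x1800240002001380080000000000000000000000000000000) (nat_lit 0x0) (nat_lit 0x8002400180000000000000000000000000000000000000000000) := T_11 (nat_lit 190) (nat_lit 207) (nat_lit 5) (nat_lit 4) (nat_lit 8) L35267 (by decide +kernel)
theorem L35269 : W_11 (nat_lit 4) (nat_lit 0x800240002001380080000000000000000000000000000000) (nat_lit 0x0) (nat_lit 0x28003400180000000000000000000000000000000000000000000) := T_11 (nat_lit 192) (nat_lit 209) (nat_lit 7) (nat_lit 4) (nat_lit 8) L35268 (by decide +kernel)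
theorem L35270 : W_11 (nat_lit 5) (nat_lit 0x800240002001300080000000000000000000000000000000) (nat_lit 0x0) (nat_lit 0x28003400180000000080004000000000000000000000000000000) := T_11 (nat_lit 139) (nat_lit 122) (nat_lit 4) (nat_lit 4) (nat_lit 11) L35269 (by decide +kernel)
theorem L35271 : W_11 (nat_lit 6) (nat_lit 0x240002001300080000000000000000000000000000000) (nat_lit 0x0) (nat_lit 0x500038003c00180005000080004000000000000000000000000000000) := Q_11 (nat_lit 191) (C_11 L35265 (C_11 L35245 (C_11 L35225 (C_11 L35270 N_11)))) (by decide +kernel)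
theorem L35272 : W_11 (nat_lit 2) (nat_lit 0xc00240002001300088000000000000000000000000000000) (nat_lit 0x0) (nat_lit 0x1000180000000000000000000000000000000000000000000) := D_11 (nat_lit 175) (nat_lit 176) (nat_lit 192) (nat_lit 1) (nat_lit 7) (nat_lit 10) (nat_lit 7) (nat_lit 4) (nat_lit 7) (by decide +kernel)
theorem L35273 : W_11 (nat_lit 3) (nat_lit 0xc00240002001300080000000000000000000000000000000) (nat_lit 0x0) (nat_lit 0x10001a0000000000008000000000000000000000000000000) := T_11 (nat_lit 123) (nat_lit 173) (nat_lit 5) (nat_lit 4) (nat_lit 7) L35272 (by decide +kernel)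
theorem L35274 : W_11 (nat_lit 4) (nat_lit 0x800240002001300080000000000000000000000000000000) (nat_lit 0x0) (nat_lit 0x80014001a0000000000008000000000000000000000000000000) := T_11 (nat_lit 190) (nat_lit 207) (nat_lit 5) (nat_lit 4) (nat_lit 8) L35273 (by decide +kernel)
theorem L35275 : W_11 (nat_lit 5) (nat_lit 0x240002001300080000000000000000000000000000000) (nat_lit 0x0) (nat_lit 0x500038001c001a0004000000008000000000000000000000000000000) := Q_11 (nat_lit 191) (C_11 L35225 (C_11 L35274 (C_11 L35223 N_11))) (by decide +kernel)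
theorem L35282 : W_11 (nat_lit 2) (nat_lit 0x260002001300088000400000000000000000000000000) (nat_lit 0x0) (nat_lit 0x1000080004000000000000000000000000000000000000000) := D_11 (nat_lit 175) (nat_lit 192) (nat_lit 158) (nat_lit 7) (nat_lit 4) (nat_lit 7) (nat_lit 7) (nat_lit 4) (nat_lit 6) (by decide +kernel)
theorem L35283 : W_11 (nat_lit 3) (nat_lit 0x260002001300088000000000000000000000000000000) (nat_lit 0x0) (nat_lit 0x1000080005000000000000400000000000000000000000000) := T_11 (nat_lit 106) (nat_lit 156) (nat_lit 5) (nat_lit 4) (nat_lit 6) L35282 (by decide +kernel)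
theorem L35284 : W_11 (nat_lit 4) (nat_lit 0x240002001300088000000000000000000000000000000) (nat_lit 0x0) (nat_lit 0x14000a0005000000000000400000000000000000000000000) := T_11 (nat_lit 173) (nat_lit 190) (nat_lit 5) (nat_lit 4) (nat_lit 7) L35283 (by decide +kernel)
theorem L35285 : W_11 (nat_lit 8) (nat_lit 0x240002001300080000000000000000000000000000000) (nat_lit 0x0) (nat_lit 0xf4001a000500000000f000600010000000000000000000000) := Q_11 (nat_lit 123) (C_11 L35262 (C_11 L35237 (C_11 L35281 (C_11 L35284 N_11)))) (by decide +kernel)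
theorem L35286 : W_11 (nat_lit 2) (nat_lit 0x3c0002001300088000400000000000000000000000000) (nat_lit 0x0) (nat_lit 0x4000200010000000000000000000000) := D_11 (nat_lit 105) (nat_lit 122) (nat_lit 88) (nat_lit 4) (nat_lit 4) (nat_lit 10) (nat_lit 4) (nat_lit 4) (nat_lit 9) (by decide +kernel)
theorem L35287 : W_11 (nat_lit 3) (nat_lit 0x3c0002001300088000000000000000000000000000000) (nat_lit 0x0) (nat_lit 0x4000000004000600010000000000000000000000) := T_11 (nat_lit 106) (nat_lit 158) (nat_lit 7) (nat_lit 4) (nat_lit 6) L35286 (by decide +kernel)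
theorem L35288 : W_11 (nat_lit 4) (nat_lit 0x3c0002001300080000000000000000000000000000000) (nat_lit 0x0) (nat_lit 0x100000000400000000c000600010000000000000000000000) := T_11 (nat_lit 123) (nat_lit 192) (nat_lit 7) (nat_lit 4) (nat_lit 7) L35287 (by decide +kernel)
theorem L35289 : W_11 (nat_lit 5) (nat_lit 0x2c0002001300080000000000000000000000000000000) (nat_lit 0x0) (nat_lit 0x100010000500000000c000600010000000000000000000000) := T_11 (nat_lit 176) (nat_lit 156) (nat_lit 0) (nat_lit 7) (nat_lit 10) L35288 (by decide +kernel)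
theorem L35290 : W_11 (nat_lit 2) (nat_lit 0x8003c001200130008d000000000000000000000000000000) (nat_lit 0x0) (nat_lit 0xc000000000000800000000000000000000000000000000000) := D_11 (nat_lit 194) (nat_lit 195) (nat_lit 143) (nat_lit 3) (nat_lit 4) (nat_lit 10) (nat_lit 6) (nat_lit 7) (nat_lit 11) (by decide +kernel)
theorem L35291 : W_11 (nat_lit 3) (nat_lit 0x8003c000200130008d000000000000000000000000000000) (nat_lit 0x0) (nat_lit 0xc000000030000800000000000000000000000000000000000) := T_11 (nat_lit 160) (nat_lit 161) (nat_lit 2) (nat_lit 4) (nat_lit 10) L35290 (by decide +kernel)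
theorem L35292 : W_11 (nat_lit 4) (nat_lit 0x8002c000200130008d000000000000000000000000000000) (nat_lit 0x0) (nat_lit 0xc000100031000800000000000000000000000000000000000) := T_11 (nat_lit 176) (nat_lit 156) (nat_lit 0) (nat_lit 7) (nat_lit 10) L35291 (by decide +kernel)
theorem L35293 : W_11 (nat_lit 5) (nat_lit 0x2c000200130008d000000000000000000000000000000) (nat_lit 0x0) (nat_lit 0xc800100031000880000000000000000000000000000000000) := T_11 (nat_lit 191) (nat_lit 139) (nat_lit 4) (nat_lit 4) (nat_lit 11) L35292 (by decide +kernel)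
theorem L35294 : W_11 (nat_lit 6) (nat_lit 0x2c000200130008c000000000000000000000000000000) (nat_lit 0x0) (nat_lit 0xc800100031000880003000000000000000000000000000000) := T_11 (nat_lit 120) (nat_lit 121) (nat_lit 3) (nat_lit 1) (nat_lit 7) L35293 (by decide +kernel)
theorem L35295 : W_11 (nat_lit 7) (nat_lit 0x2c0002001300088000000000000000000000000000000) (nat_lit 0x0) (nat_lit 0xc800100031000880007000200000000000000000000000000) := T_11 (nat_lit 122) (nat_lit 105) (nat_lit 4) (nat_lit 4) (nat_lit 10) L35294 (by decide +kernel)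
theorem L35296 : W_11 (nat_lit 8) (nat_lit 0x2c0002001300080000000000000000000000000000000) (nat_lit 0x0) (nat_lit 0xd80010003100088000f000200000000000000000000000000) := T_11 (nat_lit 123) (nat_lit 192) (nat_lit 7) (nat_lit 4) (nat_lit 7) L35295 (by decide +kernel)
theorem L35297 : W_11 (nat_lit 4) (nat_lit 0x2c0002001300080000000000000000000000000000000) (nat_lit 0x0) (nat_lit 0x100000000400000000c000600010000000000000000000000) := T_11 (nat_lit 123) (nat_lit 192) (nat_lit 7) (nat_lit 4) (nat_lit 7) L35261 (by decide +kernel)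
theorem L35298 : W_11 (nat_lit 2) (nat_lit 0x3c0012001300080000000000000000000000000000000) (nat_lit 0x0) (nat_lit 0xc000000000000800000000000000000000000000000000000) := D_11 (nat_lit 194) (nat_lit 195) (nat_lit 143) (nat_lit 3) (nat_lit 4) (nat_lit 10) (nat_lit 6) (nat_lit 7) (nat_lit 11) (by decide +kernel)
theorem L35299 : W_11 (nat_lit 3) (nat_lit 0x3c0002001300080000000000000000000000000000000) (nat_lit 0x0) (nat_lit 0xc000000030000800000000000000000000000000000000000) := T_11 (nat_lit 160) (nat_lit 161) (nat_lit 2) (nat_lit 4) (nat_lit 10) L35298 (by decide +kernel)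
theorem L35300 : W_11 (nat_lit 4) (nat_lit 0x2c0002001300080000000000000000000000000000000) (nat_lit 0x0) (nat_lit 0xc000100031000800000000000000000000000000000000000) := T_11 (nat_lit 176) (nat_lit 156) (nat_lit 0) (nat_lit 7) (nat_lit 10) L35299 (by decide +kernel)
theorem L35301 : W_11 (nat_lit 9) (nat_lit 0x240002001300080000000000000000000000000000000) (nat_lit 0x0) (nat_lit 0xd80018003500088000f000600010000000000000000000000) := Q_11 (nat_lit 175) (C_11 L35289 (C_11 L35296 (C_11 L35297 (C_11 L35300 N_11)))) (by decide +kernel)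
theorem L35302 : W_11 (nat_lit 13) (nat_lit 0x200002001300080000000000000000000000000000000) (nat_lit 0x0) (nat_lit 0x50003800fc001e003500088000f003e00050000000000000000000000) := Q_11 (nat_lit 174) (C_11 L35226 (C_11 L35241 (C_11 L35249 (C_11 L35263 (C_11 L35266 (C_11 L35271 (C_11 L35275 (C_11 L35285 (C_11 L35301 N_11))))))))) (by decide +kernel)
theorem L35303 : W_11 (nat_lit 8) (nat_lit 0x240002001b00080000000000000000000000000000000) (nat_lit 0x0) (nat_lit 0x5001f8007c00100015000080004000000000000000000000000000000) := T_11 (nat_lit 194) (nat_lit 160) (nat_lit 6) (nat_lit 7) (nat_lit 11) L34782 (by decide +kernel)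
theorem L35304 : W_11 (nat_lit 6) (nat_lit 0x240002001b00080000000000000000000000000000000) (nat_lit 0x0) (nat_lit 0x500018003500000000c000600010000000000000000000000) := T_11 (nat_lit 160) (nat_lit 194) (nat_lit 6) (nat_lit 7) (nat_lit 11) L34787 (by decide +kernel)
theorem L35305 : W_11 (nat_lit 2) (nat_lit 0xc00340012001b800c0003000000000000000000000000000) (nat_lit 0x0) (nat_lit 0x20000000000000000100008000000000000000000) := D_11 (nat_lit 92) (nat_lit 75) (nat_lit 161) (nat_lit 7) (nat_lit 7) (nat_lit 4) (nat_lit 7) (nat_lit 7) (nat_lit 5) (by decide +kernel)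
theorem L35306 : W_11 (nat_lit 3) (nat_lit 0xc00340012001b800c0001000000000000000000000000000) (nat_lit 0x0) (nat_lit 0x20000000000002000180008000000000000000000) := T_11 (nat_lit 109) (nat_lit 91) (nat_lit 4) (nat_lit 7) (nat_lit 9) L35305 (by decide +kernel)
theorem L35307 : W_11 (nat_lit 4) (nat_lit 0xc00340012001b000c0001000000000000000000000000000) (nat_lit 0x0) (nat_lit 0x20000080004002000180008000000000000000000) := T_11 (nat_lit 139) (nat_lit 122) (nat_lit 4) (nat_lit 4) (nat_lit 11) L35306 (by decide +kernel)
theorem L35308 : W_11 (nat_lit 5) (nat_lit 0xc00340012001b000c0000000000000000000000000000000) (nat_lit 0x0) (nat_lit 0x20000080024003000180008000000000000000000) := T_11 (nat_lit 108) (nat_lit 125) (nat_lit 4) (nat_lit 7) (nat_lit 10) L35307 (by decide +kernel)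
theorem L35309 : W_11 (nat_lit 6) (nat_lit 0xc00340012001b00080000000000000000000000000000000) (nat_lit 0x0) (nat_lit 0x2000000020000080064003000180008000000000000000000) := T_11 (nat_lit 126) (nat_lit 193) (nat_lit 5) (nat_lit 7) (nat_lit 7) L35308 (by decide +kernel)
theorem L35310 : W_11 (nat_lit 7) (nat_lit 0xc00240012001b00080000000000000000000000000000000) (nat_lit 0x0) (nat_lit 0x2000180020000080064003000180008000000000000000000) := T_11 (nat_lit 176) (nat_lit 175) (nat_lit 1) (nat_lit 7) (nat_lit 10) L35309 (by decide +kernel)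
theorem L35311 : W_11 (nat_lit 8) (nat_lit 0x800240012001b00080000000000000000000000000000000) (nat_lit 0x0) (nat_lit 0x8002400180020000080064003000180008000000000000000000) := T_11 (nat_lit 190) (nat_lit 207) (nat_lit 5) (nat_lit 4) (nat_lit 8) L35310 (by decide +kernel)
theorem L35312 : W_11 (nat_lit 9) (nat_lit 0x800240002001b00080000000000000000000000000000000) (nat_lit 0x0) (nat_lit 0x8006400180030000080064003000180008000000000000000000) := T_11 (nat_lit 160) (nat_lit 194) (nat_lit 6) (nat_lit 7) (nat_lit 11) L35311 (by decide +kernel)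
theorem L35313 : W_11 (nat_lit 10) (nat_lit 0x240002001b00080000000000000000000000000000000) (nat_lit 0x0) (nat_lit 0x3d000f800ec00180035000080064003000180008000000000000000000) := Q_11 (nat_lit 191) (C_11 L35022 (C_11 L34441 (C_11 L34352 (C_11 L35312 (C_11 L34354 N_11))))) (by decide +kernel)
theorem L35314 : W_11 (nat_lit 5) (nat_lit 0x240002001b00080000000000000000000000000000000) (nat_lit 0x0) (nat_lit 0x500038007c00180014000000000000000000000000000000000000000) := Q_11 (nat_lit 191) (C_11 L34410 (C_11 L34385 (C_11 L34352 N_11))) (by decide +kernel)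
theorem L35315 : W_11 (nat_lit 11) (nat_lit 0x200002001b00080000000000000000000000000000000) (nat_lit 0x0) (nat_lit 0x3d001f800fc001c003500008006c003600190008000000000000000000) := Q_11 (nat_lit 174) (C_11 L35117 (C_11 L35303 (C_11 L35059 (C_11 L34387 (C_11 L35304 (C_11 L34382 (C_11 L35313 (C_11 L35314 N_11)))))))) (by decide +kernel)
theorem L35316 : W_11 (nat_lit 12) (nat_lit 0x200002001300080000000000000000000000000000000) (nat_lit 0x0) (nat_lit 0x3d001f800fc001c0035000c8016c003600190008000000000000000000) := Q_11 (nat_lit 143) (C_11 L35315 (C_11 L35014 (C_11 L35094 N_11))) (by decide +kernel)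
theorem L35317 : W_11 (nat_lit 5) (nat_lit 0x240002001b00080000000000000000000000000000000) (nat_lit 0x0) (nat_lit 0x500038005c000a0014000000008000000000000000000000000000000) := Q_11 (nat_lit 191) (C_11 L34407 (C_11 L34385 (C_11 L34352 N_11))) (by decide +kernel)
theorem L35318 : W_11 (nat_lit 2) (nat_lit 0x1a001800240003001b00088000000000000000000000000000000) (nat_lit 0x0) (nat_lit 0x200000000000020000000000000000400000000000000000000000000) := D_11 (nat_lit 173) (nat_lit 225) (nat_lit 106) (nat_lit 4) (nat_lit 4) (nat_lit 13) (nat_lit 5) (nat_lit 4) (nat_lit 6) (by decide +kernel)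
theorem L35319 : W_11 (nat_lit 3) (nat_lit 0x1a001800240002001b00088000000000000000000000000000000) (nat_lit 0x0) (nat_lit 0x200000000000020001000080000000400000000000000000000000000) := T_11 (nat_lit 156) (nat_lit 139) (nat_lit 4) (nat_lit 4) (nat_lit 12) L35318 (by decide +kernel)
theorem L35320 : W_11 (nat_lit 4) (nat_lit 0x18001800240002001b00088000000000000000000000000000000) (nat_lit 0x0) (nat_lit 0x200006000000020001000080000000400000000000000000000000000) := T_11 (nat_lit 205) (nat_lit 206) (nat_lit 2) (nat_lit 1) (nat_lit 12) L35319 (by decide +kernel)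
theorem L35321 : W_11 (nat_lit 5) (nat_lit 0x10001800240002001b00088000000000000000000000000000000) (nat_lit 0x0) (nat_lit 0x30000e000000020001000080000000400000000000000000000000000) := T_11 (nat_lit 207) (nat_lit 224) (nat_lit 5) (nat_lit 4) (nat_lit 9) L35320 (by decide +kernel)
theorem L35322 : W_11 (nat_lit 6) (nat_lit 0x1800240002001b00088000000000000000000000000000000) (nat_lit 0x0) (nat_lit 0x30001e000000020005000080000000400000000000000000000000000) := T_11 (nat_lit 208) (nat_lit 158) (nat_lit 6) (nat_lit 4) (nat_lit 12) L35321 (by decide +kernel)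
theorem L35323 : W_11 (nat_lit 7) (nat_lit 0x1800240002001b00080000000000000000000000000000000) (nat_lit 0x0) (nat_lit 0x30001e0000000a0005000080008000400000000000000000000000000) := T_11 (nat_lit 123) (nat_lit 175) (nat_lit 7) (nat_lit 4) (nat_lit 7) L35322 (by decide +kernel)
theorem L35324 : W_11 (nat_lit 8) (nat_lit 0x800240002001b00080000000000000000000000000000000) (nat_lit 0x0) (nat_lit 0x30003e0010000a0005000080008000400000000000000000000000000) := T_11 (nat_lit 192) (nat_lit 209) (nat_lit 7) (nat_lit 4) (nat_lit 8) L35323 (by decide +kernel)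
theorem L35325 : W_11 (nat_lit 2) (nat_lit 0x10000800240002001b00080000000000000000000000000000000) (nat_lit 0x0) (nat_lit 0x400020001000000000000000000000000000000000000000000000000) := D_11 (nat_lit 209) (nat_lit 192) (nat_lit 226) (nat_lit 7) (nat_lit 4) (nat_lit 8) (nat_lit 7) (nat_lit 4) (nat_lit 9) (by decide +kernel)
theorem L35326 : W_11 (nat_lit 3) (nat_lit 0x800240002001b00080000000000000000000000000000000) (nat_lit 0x0) (nat_lit 0x400030001000000004000000000000000000000000000000000000000) := T_11 (nat_lit 208) (nat_lit 158) (nat_lit 6) (nat_lit 4) (nat_lit 12) L35325 (by decide +kernel)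
theorem L35327 : W_11 (nat_lit 9) (nat_lit 0x240002001b00080000000000000000000000000000000) (nat_lit 0x0) (nat_lit 0x70003e003c001a0005000080008000400000000000000000000000000) := Q_11 (nat_lit 191) (C_11 L34410 (C_11 L34352 (C_11 L35324 (C_11 L35326 N_11)))) (by decide +kernel)
theorem L35328 : W_11 (nat_lit 2) (nat_lit 0x200018004800240003401b00080000000000000000000000000000000) (nat_lit 0x0) (nat_lit 0x8000400020000000000000000000000000000000000000000000000000000) := D_11 (nat_lit 226) (nat_lit 209) (nat_lit 243) (nat_lit 7) (nat_lit 4) (nat_lit 9) (nat_lit 7) (nat_lit 4) (nat_lit 10) (by decide +kernel)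
theorem L35329 : W_11 (nat_lit 3) (nat_lit 0x18004800240003401b00080000000000000000000000000000000) (nat_lit 0x0) (nat_lit 0x8000600020000000020000000000000000000000000000000000000000000) := T_11 (nat_lit 225) (nat_lit 173) (nat_lit 4) (nat_lit 4) (nat_lit 13) L35328 (by decide +kernel)
theorem L35330 : W_11 (nat_lit 4) (nat_lit 0x18004800240003001b00080000000000000000000000000000000) (nat_lit 0x0) (nat_lit 0x8000600020000000020000c00000000000000000000000000000000000000) := T_11 (nat_lit 154) (nat_lit 155) (nat_lit 2) (nat_lit 1) (nat_lit 9) L35329 (by decide +kernel)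
theorem L35331 : W_11 (nat_lit 5) (nat_lit 0x18004800240002001b00080000000000000000000000000000000) (nat_lit 0x0) (nat_lit 0x8000600020000000020001c00080000000000000000000000000000000000) := T_11 (nat_lit 156) (nat_lit 139) (nat_lit 4) (nat_lit 4) (nat_lit 12) L35330 (by decide +kernel)
theorem L35332 : W_11 (nat_lit 6) (nat_lit 0x8004800240002001b00080000000000000000000000000000000) (nat_lit 0x0) (nat_lit 0x8000700030000000020001c00080000000000000000000000000000000000) := T_11 (nat_lit 208) (nat_lit 224) (nat_lit 5) (nat_lit 4) (nat_lit 9) L35331 (by decide +kernel)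
theorem L35333 : W_11 (nat_lit 7) (nat_lit 0x4800240002001b00080000000000000000000000000000000) (nat_lit 0x0) (nat_lit 0x8000700038000400020001c00080000000000000000000000000000000000) := T_11 (nat_lit 207) (nat_lit 190) (nat_lit 5) (nat_lit 4) (nat_lit 8) L35332 (by decide +kernel)
theorem L35334 : W_11 (nat_lit 8) (nat_lit 0x800240002001b00080000000000000000000000000000000) (nat_lit 0x0) (nat_lit 0x8000700038004400020011c00080000000000000000000000000000000000) := T_11 (nat_lit 194) (nat_lit 160) (nat_lit 6) (nat_lit 7) (nat_lit 11) L35333 (by decide +kernel)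
theorem L35335 : W_11 (nat_lit 2) (nat_lit 0xc00340012001b000c8003000000000000000000000000000) (nat_lit 0x0) (nat_lit 0x20000000000000000100008000000000000000000) := D_11 (nat_lit 92) (nat_lit 75) (nat_lit 161) (nat_lit 7) (nat_lit 7) (nat_lit 4) (nat_lit 7) (nat_lit 7) (nat_lit 5) (by decide +kernel)
theorem L35336 : W_11 (nat_lit 3) (nat_lit 0xc00340012001b000c8001000000000000000000000000000) (nat_lit 0x0) (nat_lit 0x20000000000002000180008000000000000000000) := T_11 (nat_lit 109) (nat_lit 91) (nat_lit 4) (nat_lit 7) (nat_lit 9) L35335 (by decide +kernel)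
theorem L35337 : W_11 (nat_lit 4) (nat_lit 0xc00340012001b000c8000000000000000000000000000000) (nat_lit 0x0) (nat_lit 0x20000000020003000180008000000000000000000) := T_11 (nat_lit 108) (nat_lit 125) (nat_lit 4) (nat_lit 7) (nat_lit 10) L35336 (by decide +kernel)
theorem L35338 : W_11 (nat_lit 5) (nat_lit 0xc00340012001b00088000000000000000000000000000000) (nat_lit 0x0) (nat_lit 0x2000000020000000060003000180008000000000000000000) := T_11 (nat_lit 126) (nat_lit 193) (nat_lit 5) (nat_lit 7) (nat_lit 7) L35337 (by decide +kernel)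
theorem L35339 : W_11 (nat_lit 6) (nat_lit 0xc00340002001b00088000000000000000000000000000000) (nat_lit 0x0) (nat_lit 0x6000000030000000060003000180008000000000000000000) := T_11 (nat_lit 160) (nat_lit 194) (nat_lit 6) (nat_lit 7) (nat_lit 11) L35338 (by decide +kernel)
theorem L35340 : W_11 (nat_lit 7) (nat_lit 0xc00240002001b00088000000000000000000000000000000) (nat_lit 0x0) (nat_lit 0x6000180030000000060003000180008000000000000000000) := T_11 (nat_lit 176) (nat_lit 175) (nat_lit 1) (nat_lit 7) (nat_lit 10) L35339 (by decide +kernel)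
theorem L35341 : W_11 (nat_lit 8) (nat_lit 0xc00240002001b00080000000000000000000000000000000) (nat_lit 0x0) (nat_lit 0x60001a0030000000068003000180008000000000000000000) := T_11 (nat_lit 123) (nat_lit 173) (nat_lit 5) (nat_lit 4) (nat_lit 7) L35340 (by decide +kernel)
theorem L35342 : W_11 (nat_lit 9) (nat_lit 0x800240002001b00080000000000000000000000000000000) (nat_lit 0x0) (nat_lit 0x80064001a0030000000068003000180008000000000000000000) := T_11 (nat_lit 190) (nat_lit 207) (nat_lit 5) (nat_lit 4) (nat_lit 8) L35341 (by decide +kernel)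
theorem L35343 : W_11 (nat_lit 6) (nat_lit 0x10004800240002001b00080000000000000000000000000000000) (nat_lit 0x0) (nat_lit 0x8000700028000000020001c00080000000000000000000000000000000000) := T_11 (nat_lit 207) (nat_lit 224) (nat_lit 5) (nat_lit 4) (nat_lit 9) L35331 (by decide +kernel)
theorem L35344 : W_11 (nat_lit 7) (nat_lit 0x4800240002001b00080000000000000000000000000000000) (nat_lit 0x0) (nat_lit 0x8000700038000000020005c00080000000000000000000000000000000000) := T_11 (nat_lit 208) (nat_lit 158) (nat_lit 6) (nat_lit 4) (nat_lit 12) L35343 (by decide +kernel)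
theorem L35345 : W_11 (nat_lit 8) (nat_lit 0x800240002001b00080000000000000000000000000000000) (nat_lit 0x0) (nat_lit 0x8000700038004000020015c00080000000000000000000000000000000000) := T_11 (nat_lit 194) (nat_lit 160) (nat_lit 6) (nat_lit 7) (nat_lit 11) L35344 (by decide +kernel)
theorem L35346 : W_11 (nat_lit 2) (nat_lit 0x200010000800240003401b00080000000000000000000000000000000) (nat_lit 0x0) (nat_lit 0x8000400020000000000000000000000000000000000000000000000000000) := D_11 (nat_lit 226) (nat_lit 209) (nat_lit 243) (nat_lit 7) (nat_lit 4) (nat_lit 9) (nat_lit 7) (nat_lit 4) (nat_lit 10) (by decide +kernel)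
theorem L35347 : W_11 (nat_lit 3) (nat_lit 0x10000800240003401b00080000000000000000000000000000000) (nat_lit 0x0) (nat_lit 0x8000600020000000020000000000000000000000000000000000000000000) := T_11 (nat_lit 225) (nat_lit 173) (nat_lit 4) (nat_lit 4) (nat_lit 13) L35346 (by decide +kernel)
theorem L35348 : W_11 (nat_lit 4) (nat_lit 0x10000800240003001b00080000000000000000000000000000000) (nat_lit 0x0) (nat_lit 0x8000600020000000020000c00000000000000000000000000000000000000) := T_11 (nat_lit 154) (nat_lit 155) (nat_lit 2) (nat_lit 1) (nat_lit 9) L35347 (by decide +kernel)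
theorem L35349 : W_11 (nat_lit 5) (nat_lit 0x10000800240002001b00080000000000000000000000000000000) (nat_lit 0x0) (nat_lit 0x8000600020000000020001c00080000000000000000000000000000000000) := T_11 (nat_lit 156) (nat_lit 139) (nat_lit 4) (nat_lit 4) (nat_lit 12) L35348 (by decide +kernel)
theorem L35350 : W_11 (nat_lit 6) (nat_lit 0x800240002001b00080000000000000000000000000000000) (nat_lit 0x0) (nat_lit 0x8000600030000000020005c00080000000000000000000000000000000000) := T_11 (nat_lit 208) (nat_lit 158) (nat_lit 6) (nat_lit 4) (nat_lit 12) L35349 (by decide +kernel)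
theorem L35351 : W_11 (nat_lit 10) (nat_lit 0x240002001b00080000000000000000000000000000000) (nat_lit 0x0) (nat_lit 0x8000700038006c001a0035c00080068003000180008000000000000000000) := Q_11 (nat_lit 191) (C_11 L34352 (C_11 L35334 (C_11 L35342 (C_11 L35345 (C_11 L35350 N_11))))) (by decide +kernel)
theorem L35352 : W_11 (nat_lit 2) (nat_lit 0x40003e0002001b00080000000000000000000000000000000) (nat_lit 0x0) (nat_lit 0x600000000000000008000000000000000000000000000000) := D_11 (nat_lit 190) (nat_lit 189) (nat_lit 123) (nat_lit 1) (nat_lit 6) (nat_lit 10) (nat_lit 5) (nat_lit 4) (nat_lit 7) (by decide +kernel)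
theorem L35353 : W_11 (nat_lit 3) (nat_lit 0x40003c0002001b00080000000000000000000000000000000) (nat_lit 0x0) (nat_lit 0x2600020000000000008000000000000000000000000000000) := T_11 (nat_lit 173) (nat_lit 193) (nat_lit 3) (nat_lit 3) (nat_lit 10) L35352 (by decide +kernel)
theorem L35354 : W_11 (nat_lit 4) (nat_lit 0x40002c0002001b00080000000000000000000000000000000) (nat_lit 0x0) (nat_lit 0xa600120000000000008000000000000000000000000000000) := T_11 (nat_lit 176) (nat_lit 195) (nat_lit 3) (nat_lit 4) (nat_lit 10) L35353 (by decide +kernel)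
theorem L35355 : W_11 (nat_lit 5) (nat_lit 0x2c0002001b00080000000000000000000000000000000) (nat_lit 0x0) (nat_lit 0xe600120010000000008000000000000000000000000000000) := T_11 (nat_lit 194) (nat_lit 160) (nat_lit 6) (nat_lit 7) (nat_lit 11) L35354 (by decide +kernel)
theorem L35356 : W_11 (nat_lit 8) (nat_lit 0x240002001b00080000000000000000000000000000000) (nat_lit 0x0) (nat_lit 0xf6001a0011000000008000e00070002800000000000000000) := Q_11 (nat_lit 175) (C_11 L34449 (C_11 L34443 (C_11 L35355 N_11))) (by decide +kernel)
theorem L35357 : W_11 (nat_lit 2) (nat_lit 0x40002c0003001b00088000c00020000000000000000000000) (nat_lit 0x0) (nat_lit 0x200010000800000000000000000) := D_11 (nat_lit 88) (nat_lit 71) (nat_lit 105) (nat_lit 4) (nat_lit 4) (nat_lit 8) (nat_lit 4) (nat_lit 4) (nat_lit 9) (by decide +kernel)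
theorem L35358 : W_11 (nat_lit 3) (nat_lit 0x40002c0003001b00088000c00000000000000000000000000) (nat_lit 0x0) (nat_lit 0x80000000200030000800000000000000000) := T_11 (nat_lit 89) (nat_lit 139) (nat_lit 5) (nat_lit 4) (nat_lit 5) L35357 (by decide +kernel)
theorem L35359 : W_11 (nat_lit 4) (nat_lit 0x40002c0002001b00088000c00000000000000000000000000) (nat_lit 0x0) (nat_lit 0x20001000080000000200030000800000000000000000) := T_11 (nat_lit 156) (nat_lit 173) (nat_lit 5) (nat_lit 4) (nat_lit 6) L35358 (by decide +kernel)
theorem L35360 : W_11 (nat_lit 5) (nat_lit 0x40002c0002001b00088000400000000000000000000000000) (nat_lit 0x0) (nat_lit 0x20001000080000000a00070000800000000000000000) := T_11 (nat_lit 107) (nat_lit 90) (nat_lit 6) (nat_lit 4) (nat_lit 9) L35359 (by decide +kernel)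
theorem L35361 : W_11 (nat_lit 6) (nat_lit 0x40002c0002001b00088000000000000000000000000000000) (nat_lit 0x0) (nat_lit 0x20005000080000000e00070000800000000000000000) := T_11 (nat_lit 106) (nat_lit 158) (nat_lit 7) (nat_lit 4) (nat_lit 6) L35360 (by decide +kernel)
theorem L35362 : W_11 (nat_lit 7) (nat_lit 0x40002c0002001b00080000000000000000000000000000000) (nat_lit 0x0) (nat_lit 0x1000020005000080008000e00070000800000000000000000) := T_11 (nat_lit 123) (nat_lit 192) (nat_lit 7) (nat_lit 4) (nat_lit 7) L35361 (by decide +kernel)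
theorem L35363 : W_11 (nat_lit 8) (nat_lit 0x2c0002001b00080000000000000000000000000000000) (nat_lit 0x0) (nat_lit 0x5000020015000080008000e00070000800000000000000000) := T_11 (nat_lit 194) (nat_lit 160) (nat_lit 6) (nat_lit 7) (nat_lit 11) L35362 (by decide +kernel)
theorem L35364 : W_11 (nat_lit 2) (nat_lit 0x2c0002001b00088000400000000000000000000000000) (nat_lit 0x0) (nat_lit 0x120001000000000000000000000000000000000000000) := D_11 (nat_lit 156) (nat_lit 176) (nat_lit 173) (nat_lit 0) (nat_lit 7) (nat_lit 10) (nat_lit 5) (nat_lit 4) (nat_lit 6) (by decide +kernel)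
theorem L35365 : W_11 (nat_lit 3) (nat_lit 0x2c0002001b00088000000000000000000000000000000) (nat_lit 0x0) (nat_lit 0x120005000000000000400000000000000000000000000) := T_11 (nat_lit 106) (nat_lit 158) (nat_lit 7) (nat_lit 4) (nat_lit 6) L35364 (by decide +kernel)
theorem L35366 : W_11 (nat_lit 4) (nat_lit 0x2c0002001b00080000000000000000000000000000000) (nat_lit 0x0) (nat_lit 0x1000120005000000008000400000000000000000000000000) := T_11 (nat_lit 123) (nat_lit 192) (nat_lit 7) (nat_lit 4) (nat_lit 7) L35365 (by decide +kernel)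
theorem L35367 : W_11 (nat_lit 2) (nat_lit 0x40003e0002001b00088000400050000000000000000000000) (nat_lit 0x0) (nat_lit 0x20002800000000000000000) := D_11 (nat_lit 89) (nat_lit 73) (nat_lit 71) (nat_lit 6) (nat_lit 4) (nat_lit 8) (nat_lit 4) (nat_lit 4) (nat_lit 8) (by decide +kernel)
theorem L35368 : W_11 (nat_lit 3) (nat_lit 0x40003e0002001b00088000400040000000000000000000000) (nat_lit 0x0) (nat_lit 0x200030002800000000000000000) := T_11 (nat_lit 88) (nat_lit 105) (nat_lit 4) (nat_lit 4) (nat_lit 9) L35367 (by decide +kernel)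
theorem L35369 : W_11 (nat_lit 4) (nat_lit 0x40003e0002001b00088000400000000000000000000000000) (nat_lit 0x0) (nat_lit 0xa00070002800000000000000000) := T_11 (nat_lit 90) (nat_lit 107) (nat_lit 6) (nat_lit 4) (nat_lit 9) L35368 (by decide +kernel)
theorem L35370 : W_11 (nat_lit 5) (nat_lit 0x40003e0002001b00088000000000000000000000000000000) (nat_lit 0x0) (nat_lit 0x4000000000000e00070002800000000000000000) := T_11 (nat_lit 106) (nat_lit 158) (nat_lit 7) (nat_lit 4) (nat_lit 6) L35369 (by decide +kernel)
theorem L35371 : W_11 (nat_lit 6) (nat_lit 0x40003e0002001b00080000000000000000000000000000000) (nat_lit 0x0) (nat_lit 0x1000000004000000008000e00070002800000000000000000) := T_11 (nat_lit 123) (nat_lit 192) (nat_lit 7) (nat_lit 4) (nat_lit 7) L35370 (by decide +kernel)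
theorem L35372 : W_11 (nat_lit 7) (nat_lit 0x40003c0002001b00080000000000000000000000000000000) (nat_lit 0x0) (nat_lit 0x3000020004000000008000e00070002800000000000000000) := T_11 (nat_lit 173) (nat_lit 193) (nat_lit 3) (nat_lit 3) (nat_lit 10) L35371 (by decide +kernel)
theorem L35373 : W_11 (nat_lit 8) (nat_lit 0x40002c0002001b00080000000000000000000000000000000) (nat_lit 0x0) (nat_lit 0xb000120004000000008000e00070002800000000000000000) := T_11 (nat_lit 176) (nat_lit 195) (nat_lit 3) (nat_lit 4) (nat_lit 10) L35372 (by decide +kernel)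
theorem L35374 : W_11 (nat_lit 9) (nat_lit 0x2c0002001b00080000000000000000000000000000000) (nat_lit 0x0) (nat_lit 0xf000120014000000008000e00070002800000000000000000) := T_11 (nat_lit 194) (nat_lit 160) (nat_lit 6) (nat_lit 7) (nat_lit 11) L35373 (by decide +kernel)
theorem L35375 : W_11 (nat_lit 10) (nat_lit 0x240002001b00080000000000000000000000000000000) (nat_lit 0x0) (nat_lit 0xf0001a0015000080008000e00070002800000000000000000) := Q_11 (nat_lit 175) (C_11 L34443 (C_11 L35363 (C_11 L35366 (C_11 L35374 N_11)))) (by decide +kernel)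
theorem L35376 : W_11 (nat_lit 11) (nat_lit 0x200002001b00080000000000000000000000000000000) (nat_lit 0x0) (nat_lit 0x800070003e00fe001e0035c00080068003e001f000a800000000000000000) := Q_11 (nat_lit 174) (C_11 L35314 (C_11 L34454 (C_11 L34386 (C_11 L35317 (C_11 L35327 (C_11 L35351 (C_11 L35356 (C_11 L35375 N_11)))))))) (by decide +kernel)
theorem L35377 : W_11 (nat_lit 12) (nat_lit 0x200002001300080000000000000000000000000000000) (nat_lit 0x0) (nat_lit 0x800070003e00fe001e0035c00c80168003e001f000a800000000000000000) := Q_11 (nat_lit 143) (C_11 L35376 (C_11 L35014 (C_11 L35094 N_11))) (by decide +kernel)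
theorem L35378 : W_11 (nat_lit 2) (nat_lit 0x4400220003001b00080000000000000000000000000000000) (nat_lit 0x0) (nat_lit 0x40000000080008000000000000000000000000000000) := D_11 (nat_lit 123) (nat_lit 139) (nat_lit 174) (nat_lit 6) (nat_lit 3) (nat_lit 11) (nat_lit 5) (nat_lit 4) (nat_lit 7) (by decide +kernel)
theorem L35379 : W_11 (nat_lit 3) (nat_lit 0x4000220003001b00080000000000000000000000000000000) (nat_lit 0x0) (nat_lit 0x8000400040000000080008000000000000000000000000000000) := T_11 (nat_lit 190) (nat_lit 207) (nat_lit 6) (nat_lit 3) (nat_lit 12) L35378 (by decide +kernel)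
theorem L35380 : W_11 (nat_lit 4) (nat_lit 0x220003001b00080000000000000000000000000000000) (nat_lit 0x0) (nat_lit 0x8004400040010000080008000000000000000000000000000000) := T_11 (nat_lit 194) (nat_lit 160) (nat_lit 6) (nat_lit 7) (nat_lit 11) L35379 (by decide +kernel)
theorem L35381 : W_11 (nat_lit 2) (nat_lit 0x400360013401b000c0003000000000000000000000000000) (nat_lit 0x0) (nat_lit 0x20000000000000000100008000000000000000000) := D_11 (nat_lit 92) (nat_lit 75) (nat_lit 161) (nat_lit 7) (nat_lit 7) (nat_lit 4) (nat_lit 7) (nat_lit 7) (nat_lit 5) (by decide +kernel)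
theorem L35382 : W_11 (nat_lit 3) (nat_lit 0x400360013401b000c0001000000000000000000000000000) (nat_lit 0x0) (nat_lit 0x20000000000002000180008000000000000000000) := T_11 (nat_lit 109) (nat_lit 91) (nat_lit 4) (nat_lit 7) (nat_lit 9) L35381 (by decide +kernel)
theorem L35383 : W_11 (nat_lit 4) (nat_lit 0x400360013401b000c0000000000000000000000000000000) (nat_lit 0x0) (nat_lit 0x20000000020003000180008000000000000000000) := T_11 (nat_lit 108) (nat_lit 125) (nat_lit 4) (nat_lit 7) (nat_lit 10) L35382 (by decide +kernel)
theorem L35384 : W_11 (nat_lit 5) (nat_lit 0x400360013401b00080000000000000000000000000000000) (nat_lit 0x0) (nat_lit 0x2000000020000000060003000180008000000000000000000) := T_11 (nat_lit 126) (nat_lit 193) (nat_lit 5) (nat_lit 7) (nat_lit 7) L35383 (by decide +kernel)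
theorem L35385 : W_11 (nat_lit 6) (nat_lit 0x400260013401b00080000000000000000000000000000000) (nat_lit 0x0) (nat_lit 0x2000180020000000060003000180008000000000000000000) := T_11 (nat_lit 176) (nat_lit 175) (nat_lit 0) (nat_lit 7) (nat_lit 10) L35384 (by decide +kernel)
theorem L35386 : W_11 (nat_lit 7) (nat_lit 0x400220013401b00080000000000000000000000000000000) (nat_lit 0x0) (nat_lit 0x20001c0020000000068003000180008000000000000000000) := T_11 (nat_lit 174) (nat_lit 123) (nat_lit 5) (nat_lit 4) (nat_lit 7) L35385 (by decide +kernel)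
theorem L35387 : W_11 (nat_lit 8) (nat_lit 0x220013401b00080000000000000000000000000000000) (nat_lit 0x0) (nat_lit 0x80024001c0020000000068003000180008000000000000000000) := T_11 (nat_lit 190) (nat_lit 207) (nat_lit 6) (nat_lit 3) (nat_lit 12) L35386 (by decide +kernel)
theorem L35388 : W_11 (nat_lit 9) (nat_lit 0x220003401b00080000000000000000000000000000000) (nat_lit 0x0) (nat_lit 0x80064001c0030000000068003000180008000000000000000000) := T_11 (nat_lit 160) (nat_lit 194) (nat_lit 6) (nat_lit 7) (nat_lit 11) L35387 (by decide +kernel)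
theorem L35389 : W_11 (nat_lit 10) (nat_lit 0x220003001b00080000000000000000000000000000000) (nat_lit 0x0) (nat_lit 0x80064001c0030c00000068003000180008000000000000000000) := T_11 (nat_lit 154) (nat_lit 155) (nat_lit 2) (nat_lit 1) (nat_lit 9) L35388 (by decide +kernel)
theorem L35390 : W_11 (nat_lit 2) (nat_lit 0x400220003001b00080000000000000000000000000000000) (nat_lit 0x0) (nat_lit 0x40000000080008000000000000000000000000000000) := D_11 (nat_lit 123) (nat_lit 139) (nat_lit 174) (nat_lit 6) (nat_lit 3) (nat_lit 11) (nat_lit 5) (nat_lit 4) (nat_lit 7) (by decide +kernel)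
theorem L35391 : W_11 (nat_lit 3) (nat_lit 0x220003001b00080000000000000000000000000000000) (nat_lit 0x0) (nat_lit 0x8000400040000000080008000000000000000000000000000000) := T_11 (nat_lit 190) (nat_lit 207) (nat_lit 6) (nat_lit 3) (nat_lit 12) L35390 (by decide +kernel)
theorem L35392 : W_11 (nat_lit 2) (nat_lit 0x8004100278003401b00080000000000000000000000000000000) (nat_lit 0x0) (nat_lit 0x200180000000000000000000000000000000000000000000) := D_11 (nat_lit 175) (nat_lit 176) (nat_lit 189) (nat_lit 0) (nat_lit 7) (nat_lit 10) (nat_lit 1) (nat_lit 5) (nat_lit 10) (by decide +kernel)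
theorem L35393 : W_11 (nat_lit 3) (nat_lit 0x8004000278003401b00080000000000000000000000000000000) (nat_lit 0x0) (nat_lit 0x380180000000000000000000000000000000000000000000) := T_11 (nat_lit 188) (nat_lit 187) (nat_lit 1) (nat_lit 4) (nat_lit 10) L35392 (by decide +kernel)
theorem L35394 : W_11 (nat_lit 4) (nat_lit 0x8000000278003401b00080000000000000000000000000000000) (nat_lit 0x0) (nat_lit 0x4380180010000000000000000000000000000000000000000) := T_11 (nat_lit 194) (nat_lit 160) (nat_lit 6) (nat_lit 7) (nat_lit 11) L35393 (by decide +kernel)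
theorem L35395 : W_11 (nat_lit 5) (nat_lit 0x8000000238003401b00080000000000000000000000000000000) (nat_lit 0x0) (nat_lit 0x43801c0010200000000000000000000000000000000000000) := T_11 (nat_lit 174) (nat_lit 153) (nat_lit 0) (nat_lit 4) (nat_lit 10) L35394 (by decide +kernel)
theorem L35396 : W_11 (nat_lit 6) (nat_lit 0x238003401b00080000000000000000000000000000000) (nat_lit 0x0) (nat_lit 0x80047801c0010200000000000000000000000000000000000000) := T_11 (nat_lit 207) (nat_lit 190) (nat_lit 6) (nat_lit 3) (nat_lit 12) L35395 (by decide +kernel)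
theorem L35397 : W_11 (nat_lit 7) (nat_lit 0x230003401b00080000000000000000000000000000000) (nat_lit 0x0) (nat_lit 0x80047801cc010200000000000000000000000000000000000000) := T_11 (nat_lit 171) (nat_lit 170) (nat_lit 2) (nat_lit 0) (nat_lit 10) L35396 (by decide +kernel)
theorem L35398 : W_11 (nat_lit 8) (nat_lit 0x230003001b00080000000000000000000000000000000) (nat_lit 0x0) (nat_lit 0x80047801cc010e00000000000000000000000000000000000000) := T_11 (nat_lit 154) (nat_lit 155) (nat_lit 2) (nat_lit 1) (nat_lit 9) L35397 (by decide +kernel)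
theorem L35399 : W_11 (nat_lit 2) (nat_lit 0x8004100278003001b00080000000000000000000000000000000) (nat_lit 0x0) (nat_lit 0x200180000000000000000000000000000000000000000000) := D_11 (nat_lit 175) (nat_lit 176) (nat_lit 189) (nat_lit 0) (nat_lit 7) (nat_lit 10) (nat_lit 1) (nat_lit 5) (nat_lit 10) (by decide +kernel)
theorem L35400 : W_11 (nat_lit 3) (nat_lit 0x8004000278003001b00080000000000000000000000000000000) (nat_lit 0x0) (nat_lit 0x380180000000000000000000000000000000000000000000) := T_11 (nat_lit 188) (nat_lit 187) (nat_lit 1) (nat_lit 4) (nat_lit 10) L35399 (by decide +kernel)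
theorem L35401 : W_11 (nat_lit 4) (nat_lit 0x8004000238003001b00080000000000000000000000000000000) (nat_lit 0x0) (nat_lit 0x3801c0004000000000000000000000000000000000000000) := T_11 (nat_lit 174) (nat_lit 158) (nat_lit 2) (nat_lit 1) (nat_lit 10) L35400 (by decide +kernel)
theorem L35402 : W_11 (nat_lit 5) (nat_lit 0x8000000238003001b00080000000000000000000000000000000) (nat_lit 0x0) (nat_lit 0x43801c0014000000000000000000000000000000000000000) := T_11 (nat_lit 194) (nat_lit 160) (nat_lit 6) (nat_lit 7) (nat_lit 11) L35401 (by decide +kernel)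
theorem L35403 : W_11 (nat_lit 6) (nat_lit 0x8000000230003001b00080000000000000000000000000000000) (nat_lit 0x0) (nat_lit 0x43801cc014000000000000000000000000000000000000000) := T_11 (nat_lit 171) (nat_lit 170) (nat_lit 2) (nat_lit 0) (nat_lit 10) L35402 (by decide +kernel)
theorem L35404 : W_11 (nat_lit 7) (nat_lit 0x230003001b00080000000000000000000000000000000) (nat_lit 0x0) (nat_lit 0x80047801cc014000000000000000000000000000000000000000) := T_11 (nat_lit 207) (nat_lit 190) (nat_lit 6) (nat_lit 3) (nat_lit 12) L35403 (by decide +kernel)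
theorem L35405 : W_11 (nat_lit 11) (nat_lit 0x220003001b00080000000000000000000000000000000) (nat_lit 0x0) (nat_lit 0xc000e0047801dc014e000f0003000000000000000000000000000000) := Q_11 (nat_lit 172) (C_11 L34491 (C_11 L35398 (C_11 L34479 (C_11 L35404 (C_11 L34488 N_11))))) (by decide +kernel)
theorem L35406 : W_11 (nat_lit 2) (nat_lit 0x3a0013401b000c0003000000000000000000000000000) (nat_lit 0x0) (nat_lit 0x20000000000000000100008000000000000000000) := D_11 (nat_lit 92) (nat_lit 75) (nat_lit 161) (nat_lit 7) (nat_lit 7) (nat_lit 4) (nat_lit 7) (nat_lit 7) (nat_lit 5) (by decide +kernel)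
theorem L35407 : W_11 (nat_lit 3) (nat_lit 0x3a0013401b000c0001000000000000000000000000000) (nat_lit 0x0) (nat_lit 0x20000000000002000180008000000000000000000) := T_11 (nat_lit 109) (nat_lit 91) (nat_lit 4) (nat_lit 7) (nat_lit 9) L35406 (by decide +kernel)
theorem L35408 : W_11 (nat_lit 4) (nat_lit 0x3a0013401b000c0000000000000000000000000000000) (nat_lit 0x0) (nat_lit 0x20000000020003000180008000000000000000000) := T_11 (nat_lit 108) (nat_lit 125) (nat_lit 4) (nat_lit 7) (nat_lit 10) L35407 (by decide +kernel)
theorem L35409 : W_11 (nat_lit 5) (nat_lit 0x3a0013401b00080000000000000000000000000000000) (nat_lit 0x0) (nat_lit 0x2000000020000000060003000180008000000000000000000) := T_11 (nat_lit 126) (nat_lit 193) (nat_lit 5) (nat_lit 7) (nat_lit 7) L35408 (by decide +kernel)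
theorem L35410 : W_11 (nat_lit 6) (nat_lit 0x3a0003401b00080000000000000000000000000000000) (nat_lit 0x0) (nat_lit 0x6000000030000000060003000180008000000000000000000) := T_11 (nat_lit 160) (nat_lit 194) (nat_lit 6) (nat_lit 7) (nat_lit 11) L35409 (by decide +kernel)
theorem L35411 : W_11 (nat_lit 7) (nat_lit 0x320003401b00080000000000000000000000000000000) (nat_lit 0x0) (nat_lit 0x60000c0030000000060003000180008000000000000000000) := T_11 (nat_lit 175) (nat_lit 174) (nat_lit 0) (nat_lit 7) (nat_lit 10) L35410 (by decide +kernel)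
theorem L35412 : W_11 (nat_lit 8) (nat_lit 0x320003001b00080000000000000000000000000000000) (nat_lit 0x0) (nat_lit 0x60000c0030c00000060003000180008000000000000000000) := T_11 (nat_lit 154) (nat_lit 155) (nat_lit 2) (nat_lit 1) (nat_lit 9) L35411 (by decide +kernel)
theorem L35413 : W_11 (nat_lit 2) (nat_lit 0x4000320003801b00080000000000000000000000000000000) (nat_lit 0x0) (nat_lit 0xc0004000000000000000000000000000000000000000) := D_11 (nat_lit 175) (nat_lit 174) (nat_lit 158) (nat_lit 0) (nat_lit 6) (nat_lit 10) (nat_lit 3) (nat_lit 2) (nat_lit 9) (by decide +kernel)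
theorem L35414 : W_11 (nat_lit 3) (nat_lit 0x4000320003001b00080000000000000000000000000000000) (nat_lit 0x0) (nat_lit 0xc0004c00000000000000000000000000000000000000) := T_11 (nat_lit 155) (nat_lit 154) (nat_lit 2) (nat_lit 1) (nat_lit 9) L35413 (by decide +kernel)
theorem L35415 : W_11 (nat_lit 4) (nat_lit 0x320003001b00080000000000000000000000000000000) (nat_lit 0x0) (nat_lit 0x40000c0014c00000000000000000000000000000000000000) := T_11 (nat_lit 194) (nat_lit 160) (nat_lit 6) (nat_lit 7) (nat_lit 11) L35414 (by decide +kernel)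
theorem L35416 : W_11 (nat_lit 2) (nat_lit 0x320013401b000c0003000000000000000000000000000) (nat_lit 0x0) (nat_lit 0x20000000000000000100008000000000000000000) := D_11 (nat_lit 92) (nat_lit 75) (nat_lit 161) (nat_lit 7) (nat_lit 7) (nat_lit 4) (nat_lit 7) (nat_lit 7) (nat_lit 5) (by decide +kernel)
theorem L35417 : W_11 (nat_lit 3) (nat_lit 0x320013401b000c0001000000000000000000000000000) (nat_lit 0x0) (nat_lit 0x20000000000002000180008000000000000000000) := T_11 (nat_lit 109) (nat_lit 91) (nat_lit 4) (nat_lit 7) (nat_lit 9) L35416 (by decide +kernel)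
theorem L35418 : W_11 (nat_lit 4) (nat_lit 0x320013401b000c0000000000000000000000000000000) (nat_lit 0x0) (nat_lit 0x20000000020003000180008000000000000000000) := T_11 (nat_lit 108) (nat_lit 125) (nat_lit 4) (nat_lit 7) (nat_lit 10) L35417 (by decide +kernel)
theorem L35419 : W_11 (nat_lit 5) (nat_lit 0x320013401b00080000000000000000000000000000000) (nat_lit 0x0) (nat_lit 0x2000000020000000060003000180008000000000000000000) := T_11 (nat_lit 126) (nat_lit 193) (nat_lit 5) (nat_lit 7) (nat_lit 7) L35418 (by decide +kernel)
theorem L35420 : W_11 (nat_lit 6) (nat_lit 0x320013001b00080000000000000000000000000000000) (nat_lit 0x0) (nat_lit 0x2000000020c00000060003000180008000000000000000000) := T_11 (nat_lit 154) (nat_lit 155) (nat_lit 2) (nat_lit 1) (nat_lit 9) L35419 (by decide +kernel)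
theorem L35421 : W_11 (nat_lit 7) (nat_lit 0x320003001b00080000000000000000000000000000000) (nat_lit 0x0) (nat_lit 0x6000000030c00000060003000180008000000000000000000) := T_11 (nat_lit 160) (nat_lit 194) (nat_lit 6) (nat_lit 7) (nat_lit 11) L35420 (by decide +kernel)
theorem L35422 : W_11 (nat_lit 2) (nat_lit 0x320003801b00080000000000000000000000000000000) (nat_lit 0x0) (nat_lit 0xc0004000000000000000000000000000000000000000) := D_11 (nat_lit 175) (nat_lit 174) (nat_lit 158) (nat_lit 0) (nat_lit 6) (nat_lit 10) (nat_lit 3) (nat_lit 2) (nat_lit 9) (by decide +kernel)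
theorem L35423 : W_11 (nat_lit 3) (nat_lit 0x320003001b00080000000000000000000000000000000) (nat_lit 0x0) (nat_lit 0xc0004c00000000000000000000000000000000000000) := T_11 (nat_lit 155) (nat_lit 154) (nat_lit 2) (nat_lit 1) (nat_lit 9) L35422 (by decide +kernel)
theorem L35424 : W_11 (nat_lit 2) (nat_lit 0x3a0013001b000c0003000000000000000000000000000) (nat_lit 0x0) (nat_lit 0x20000000000000000100008000000000000000000) := D_11 (nat_lit 92) (nat_lit 75) (nat_lit 161) (nat_lit 7) (nat_lit 7) (nat_lit 4) (nat_lit 7) (nat_lit 7) (nat_lit 5) (by decide +kernel)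
theorem L35425 : W_11 (nat_lit 3) (nat_lit 0x3a0013001b000c0001000000000000000000000000000) (nat_lit 0x0) (nat_lit 0x20000000000002000180008000000000000000000) := T_11 (nat_lit 109) (nat_lit 91) (nat_lit 4) (nat_lit 7) (nat_lit 9) L35424 (by decide +kernel)
theorem L35426 : W_11 (nat_lit 4) (nat_lit 0x3a0013001b000c0000000000000000000000000000000) (nat_lit 0x0) (nat_lit 0x20000000020003000180008000000000000000000) := T_11 (nat_lit 108) (nat_lit 125) (nat_lit 4) (nat_lit 7) (nat_lit 10) L35425 (by decide +kernel)
theorem L35427 : W_11 (nat_lit 5) (nat_lit 0x3a0013001b00080000000000000000000000000000000) (nat_lit 0x0) (nat_lit 0x2000000020000000060003000180008000000000000000000) := T_11 (nat_lit 126) (nat_lit 193) (nat_lit 5) (nat_lit 7) (nat_lit 7) L35426 (by decide +kernel)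
theorem L35428 : W_11 (nat_lit 6) (nat_lit 0x3a0003001b00080000000000000000000000000000000) (nat_lit 0x0) (nat_lit 0x6000000030000000060003000180008000000000000000000) := T_11 (nat_lit 160) (nat_lit 194) (nat_lit 6) (nat_lit 7) (nat_lit 11) L35427 (by decide +kernel)
theorem L35429 : W_11 (nat_lit 7) (nat_lit 0x320003001b00080000000000000000000000000000000) (nat_lit 0x0) (nat_lit 0x60000c0030000000060003000180008000000000000000000) := T_11 (nat_lit 175) (nat_lit 174) (nat_lit 0) (nat_lit 7) (nat_lit 10) L35428 (by decide +kernel)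
theorem L35430 : W_11 (nat_lit 9) (nat_lit 0x220003001b00080000000000000000000000000000000) (nat_lit 0x0) (nat_lit 0x60001c0034c00000060003000180008000000000000000000) := Q_11 (nat_lit 176) (C_11 L35412 (C_11 L35415 (C_11 L35421 (C_11 L35423 (C_11 L35429 N_11))))) (by decide +kernel)
theorem L35431 : W_11 (nat_lit 12) (nat_lit 0x200003001b00080000000000000000000000000000000) (nat_lit 0x0) (nat_lit 0xc000e0067801fc034e000f006f003100180008000000000000000000) := Q_11 (nat_lit 173) (C_11 L35380 (C_11 L35389 (C_11 L35391 (C_11 L35101 (C_11 L35405 (C_11 L35430 N_11)))))) (by decide +kernel)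
theorem L35432 : W_11 (nat_lit 10) (nat_lit 0x200003001b40080000000000000000000000000000000) (nat_lit 0x0) (nat_lit 0x800450003c010c0008000f000580000000000000000000000000) := Q_11 (nat_lit 173) (C_11 L34625 (C_11 L34586 (C_11 L34589 (C_11 L34596 (C_11 L34498 N_11))))) (by decide +kernel)
theorem L35433 : W_11 (nat_lit 12) (nat_lit 0x200003001b00080000000000000000000000000000000) (nat_lit 0x0) (nat_lit 0x280055001bc014e000f000f801f800f8000000000000000000000) := Q_11 (nat_lit 138) (C_11 L34578 (C_11 L34601 (C_11 L34622 (C_11 L35432 N_11)))) (by decide +kernel)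
theorem L35434 : W_11 (nat_lit 2) (nat_lit 0x240003001b00088000000000000000000000000000000) (nat_lit 0x0) (nat_lit 0x1000180000000000000000000000000000000000000000000) := D_11 (nat_lit 175) (nat_lit 176) (nat_lit 192) (nat_lit 0) (nat_lit 7) (nat_lit 10) (nat_lit 7) (nat_lit 4) (nat_lit 7) (by decide +kernel)
theorem L35435 : W_11 (nat_lit 10) (nat_lit 0x200003001b00088000000000000000000000000000000) (nat_lit 0x0) (nat_lit 0x56001fc010e00080007000300000000000000000000000000) := Q_11 (nat_lit 174) (C_11 L35434 (C_11 L34542 N_11)) (by decide +kernel)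
theorem L35436 : W_11 (nat_lit 11) (nat_lit 0x200003001b00080000000000000000000000000000000) (nat_lit 0x0) (nat_lit 0x56001fc010e0008000f001f00070002800000000000000000) := Q_11 (nat_lit 123) (C_11 L34553 (C_11 L34607 (C_11 L34534 (C_11 L35435 N_11)))) (by decide +kernel)
theorem L35437 : W_11 (nat_lit 5) (nat_lit 0x8000000220003801b40088000000000000000000000000000000) (nat_lit 0x0) (nat_lit 0x18004000020007000300000000000000000000000000) := T_11 (nat_lit 158) (nat_lit 137) (nat_lit 0) (nat_lit 5) (nat_lit 9) L34545 (by decide +kernel)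
theorem L35438 : W_11 (nat_lit 6) (nat_lit 0x8000000220003001b40088000000000000000000000000000000) (nat_lit 0x0) (nat_lit 0x18004c00020007000300000000000000000000000000) := T_11 (nat_lit 155) (nat_lit 154) (nat_lit 2) (nat_lit 1) (nat_lit 9) L35437 (by decide +kernel)
theorem L35439 : W_11 (nat_lit 7) (nat_lit 0x8000000220003001b40080000000000000000000000000000000) (nat_lit 0x0) (nat_lit 0x18004c0002000f000700000000000000000000000000) := T_11 (nat_lit 123) (nat_lit 106) (nat_lit 5) (nat_lit 4) (nat_lit 6) L35438 (by decide +kernel)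
theorem L35440 : W_11 (nat_lit 8) (nat_lit 0x220003001b40080000000000000000000000000000000) (nat_lit 0x0) (nat_lit 0x8000400018004c0002000f000700000000000000000000000000) := T_11 (nat_lit 207) (nat_lit 190) (nat_lit 6) (nat_lit 3) (nat_lit 12) L35439 (by decide +kernel)
theorem L35441 : W_11 (nat_lit 2) (nat_lit 0x4400220003001b40080000000000000000000000000000000) (nat_lit 0x0) (nat_lit 0x40000000000008000400000000000000000000000000) := D_11 (nat_lit 123) (nat_lit 106) (nat_lit 174) (nat_lit 5) (nat_lit 4) (nat_lit 6) (nat_lit 5) (nat_lit 4) (nat_lit 7) (by decide +kernel)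
theorem L35442 : W_11 (nat_lit 3) (nat_lit 0x4000220003001b40080000000000000000000000000000000) (nat_lit 0x0) (nat_lit 0x8000400040000000000008000400000000000000000000000000) := T_11 (nat_lit 190) (nat_lit 207) (nat_lit 6) (nat_lit 3) (nat_lit 12) L35441 (by decide +kernel)
theorem L35443 : W_11 (nat_lit 4) (nat_lit 0x220003001b40080000000000000000000000000000000) (nat_lit 0x0) (nat_lit 0x8004400040010000000008000400000000000000000000000000) := T_11 (nat_lit 194) (nat_lit 160) (nat_lit 6) (nat_lit 7) (nat_lit 11) L35442 (by decide +kernel)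
theorem L35444 : W_11 (nat_lit 2) (nat_lit 0x4000220003801b40082000000000000000000000000000000) (nat_lit 0x0) (nat_lit 0x8000400010000000000000000000000000000000000000000000) := D_11 (nat_lit 190) (nat_lit 207) (nat_lit 172) (nat_lit 6) (nat_lit 3) (nat_lit 12) (nat_lit 7) (nat_lit 2) (nat_lit 7) (by decide +kernel)
theorem L35445 : W_11 (nat_lit 3) (nat_lit 0x4000220003801b40080000000000000000000000000000000) (nat_lit 0x0) (nat_lit 0x8000400010000000000002000100000000000000000000000000) := T_11 (nat_lit 121) (nat_lit 104) (nat_lit 7) (nat_lit 2) (nat_lit 6) L35444 (by decide +kernel)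
theorem L35446 : W_11 (nat_lit 4) (nat_lit 0x220003801b40080000000000000000000000000000000) (nat_lit 0x0) (nat_lit 0x8004400010010000000002000100000000000000000000000000) := T_11 (nat_lit 194) (nat_lit 160) (nat_lit 6) (nat_lit 7) (nat_lit 11) L35445 (by decide +kernel)
theorem L35447 : W_11 (nat_lit 5) (nat_lit 0x220003001b40080000000000000000000000000000000) (nat_lit 0x0) (nat_lit 0x8004400010010c00000002000100000000000000000000000000) := T_11 (nat_lit 155) (nat_lit 154) (nat_lit 2) (nat_lit 1) (nat_lit 9) L35446 (by decide +kernel)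
theorem L35448 : W_11 (nat_lit 10) (nat_lit 0x200003001b40080000000000000000000000000000000) (nat_lit 0x0) (nat_lit 0x800450007c014c0002000f000780000000000000000000000000) := Q_11 (nat_lit 173) (C_11 L34586 (C_11 L35440 (C_11 L35443 (C_11 L35447 (C_11 L34505 N_11))))) (by decide +kernel)
theorem L35449 : W_11 (nat_lit 2) (nat_lit 0x200003801be0080000000000000000000000000000000) (nat_lit 0x0) (nat_lit 0x3800000000000000000000000000000) := D_11 (nat_lit 120) (nat_lit 121) (nat_lit 119) (nat_lit 0) (nat_lit 5) (nat_lit 8) (nat_lit 0) (nat_lit 4) (nat_lit 8) (by decide +kernel)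
theorem L35450 : W_11 (nat_lit 3) (nat_lit 0x200003801b60080000000000000000000000000000000) (nat_lit 0x0) (nat_lit 0x90003800000000000000000000000000000) := T_11 (nat_lit 139) (nat_lit 136) (nat_lit 3) (nat_lit 0) (nat_lit 8) L35449 (by decide +kernel)
theorem L35451 : W_11 (nat_lit 4) (nat_lit 0x200003801b40080000000000000000000000000000000) (nat_lit 0x0) (nat_lit 0x40000b0003800000000000000000000000000000) := T_11 (nat_lit 137) (nat_lit 158) (nat_lit 0) (nat_lit 5) (nat_lit 9) L35450 (by decide +kernel)
theorem L35452 : W_11 (nat_lit 5) (nat_lit 0x200003001b40080000000000000000000000000000000) (nat_lit 0x0) (nat_lit 0x4c000b0003800000000000000000000000000000) := T_11 (nat_lit 155) (nat_lit 154) (nat_lit 2) (nat_lit 1) (nat_lit 9) L35451 (by decide +kernel)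
theorem L35453 : W_11 (nat_lit 2) (nat_lit 0x200003001b60080000000000000000000000000000000) (nat_lit 0x0) (nat_lit 0x4c00000000000000000000000000000000000000) := D_11 (nat_lit 155) (nat_lit 154) (nat_lit 158) (nat_lit 2) (nat_lit 1) (nat_lit 9) (nat_lit 0) (nat_lit 5) (nat_lit 9) (by decide +kernel)
theorem L35454 : W_11 (nat_lit 2) (nat_lit 0x200003401b60080000000000000000000000000000000) (nat_lit 0x0) (nat_lit 0x200090000000000000000000000000000000000) := D_11 (nat_lit 139) (nat_lit 153) (nat_lit 136) (nat_lit 1) (nat_lit 4) (nat_lit 8) (nat_lit 3) (nat_lit 0) (nat_lit 8) (by decide +kernel)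
theorem L35455 : W_11 (nat_lit 3) (nat_lit 0x200003001b60080000000000000000000000000000000) (nat_lit 0x0) (nat_lit 0xe00090000000000000000000000000000000000) := T_11 (nat_lit 154) (nat_lit 155) (nat_lit 2) (nat_lit 1) (nat_lit 9) L35454 (by decide +kernel)
theorem L35456 : W_11 (nat_lit 2) (nat_lit 0x200003001b60080000000000000000000000000000000) (nat_lit 0x0) (nat_lit 0x4000090000000000000000000000000000000000) := D_11 (nat_lit 139) (nat_lit 136) (nat_lit 158) (nat_lit 3) (nat_lit 0) (nat_lit 8) (nat_lit 3) (nat_lit 1) (nat_lit 8) (by decide +kernel)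
theorem L35457 : W_11 (nat_lit 4) (nat_lit 0x200003001b40080000000000000000000000000000000) (nat_lit 0x0) (nat_lit 0x4e000b0000000000000000000000000000000000) := Q_11 (nat_lit 137) (C_11 L35453 (C_11 L35455 (C_11 L35456 N_11))) (by decide +kernel)
theorem L35458 : W_11 (nat_lit 12) (nat_lit 0x200003001b00080000000000000000000000000000000) (nat_lit 0x0) (nat_lit 0x800450007c014e000f000f801f800f8000000000000000000000) := Q_11 (nat_lit 138) (C_11 L34622 (C_11 L34578 (C_11 L35432 (C_11 L35448 (C_11 L35452 (C_11 L35457 N_11)))))) (by decide +kernel)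
theorem L35459 : W_11 (nat_lit 2) (nat_lit 0x200003001b00088000400000000000000000000000000) (nat_lit 0x0) (nat_lit 0x80004000000000000000020000000000000000000000) := D_11 (nat_lit 158) (nat_lit 175) (nat_lit 89) (nat_lit 7) (nat_lit 4) (nat_lit 6) (nat_lit 7) (nat_lit 4) (nat_lit 5) (by decide +kernel)
theorem L35460 : W_11 (nat_lit 7) (nat_lit 0x200003001b00088000000000000000000000000000000) (nat_lit 0x0) (nat_lit 0x40000c0014c00000007001e00070002800000000000000000) := Q_11 (nat_lit 106) (C_11 L34611 (C_11 L34527 (C_11 L35459 N_11))) (by decide +kernel)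
theorem L35461 : W_11 (nat_lit 5) (nat_lit 0x4000200003001b00088000000000000000000000000000000) (nat_lit 0x0) (nat_lit 0x20000000000000000e00070002800000000000000000) := T_11 (nat_lit 106) (nat_lit 173) (nat_lit 5) (nat_lit 4) (nat_lit 6) L34610 (by decide +kernel)
theorem L35462 : W_11 (nat_lit 6) (nat_lit 0x200003001b00088000000000000000000000000000000) (nat_lit 0x0) (nat_lit 0x4000020010000000000000e00070002800000000000000000) := T_11 (nat_lit 194) (nat_lit 160) (nat_lit 6) (nat_lit 7) (nat_lit 11) L35461 (by decide +kernel)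
theorem L35463 : W_11 (nat_lit 2) (nat_lit 0x280003001b00088000000000000000000000000000000) (nat_lit 0x0) (nat_lit 0x1000140000000000000000000000000000000000000000000) := D_11 (nat_lit 174) (nat_lit 176) (nat_lit 192) (nat_lit 0) (nat_lit 7) (nat_lit 10) (nat_lit 7) (nat_lit 4) (nat_lit 7) (by decide +kernel)
theorem L35464 : W_11 (nat_lit 2) (nat_lit 0x280003001b00088000000000000000000000000000000) (nat_lit 0x0) (nat_lit 0x1000040004000000000000000000000000000000000000000) := D_11 (nat_lit 192) (nat_lit 174) (nat_lit 158) (nat_lit 7) (nat_lit 4) (nat_lit 7) (nat_lit 4) (nat_lit 5) (nat_lit 11) (by decide +kernel)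
theorem L35465 : W_11 (nat_lit 2) (nat_lit 0x280003801b00088000000000000000000000000000000) (nat_lit 0x0) (nat_lit 0x1000100004000000000000000000000000000000000000000) := D_11 (nat_lit 158) (nat_lit 192) (nat_lit 176) (nat_lit 4) (nat_lit 5) (nat_lit 11) (nat_lit 3) (nat_lit 2) (nat_lit 9) (by decide +kernel)
theorem L35466 : W_11 (nat_lit 3) (nat_lit 0x280003001b00088000000000000000000000000000000) (nat_lit 0x0) (nat_lit 0x1000100004c00000000000000000000000000000000000000) := T_11 (nat_lit 155) (nat_lit 154) (nat_lit 2) (nat_lit 1) (nat_lit 9) L35465 (by decide +kernel)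
theorem L35467 : W_11 (nat_lit 2) (nat_lit 0x380003001b00088000000000000000000000000000000) (nat_lit 0x0) (nat_lit 0x4c00000000000000000000000000000000000000) := D_11 (nat_lit 155) (nat_lit 154) (nat_lit 158) (nat_lit 2) (nat_lit 1) (nat_lit 9) (nat_lit 3) (nat_lit 2) (nat_lit 9) (by decide +kernel)
theorem L35468 : W_11 (nat_lit 3) (nat_lit 0x280003001b00088000000000000000000000000000000) (nat_lit 0x0) (nat_lit 0x140004c00000000000000000000000000000000000000) := T_11 (nat_lit 176) (nat_lit 174) (nat_lit 0) (nat_lit 7) (nat_lit 10) L35467 (by decide +kernel)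
theorem L35469 : W_11 (nat_lit 4) (nat_lit 0x200003001b00088000000000000000000000000000000) (nat_lit 0x0) (nat_lit 0x10001c0004c00000000000000000000000000000000000000) := Q_11 (nat_lit 175) (C_11 L35463 (C_11 L35464 (C_11 L35466 (C_11 L35468 N_11)))) (by decide +kernel)
theorem L35470 : W_11 (nat_lit 8) (nat_lit 0x200003001b00080000000000000000000000000000000) (nat_lit 0x0) (nat_lit 0x50001e0014c0000000f001e00070002800000000000000000) := Q_11 (nat_lit 123) (C_11 L35460 (C_11 L34607 (C_11 L34528 (C_11 L35462 (C_11 L35469 N_11))))) (by decide +kernel)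
theorem L35471 : W_11 (nat_lit 5) (nat_lit 0x200003001b00080000000000000000000000000000000) (nat_lit 0x0) (nat_lit 0x10001e0004c00080008000c00060002000000000000000000) := Q_11 (nat_lit 123) (C_11 L35469 (C_11 L34553 N_11)) (by decide +kernel)
theorem L35472 : W_11 (nat_lit 2) (nat_lit 0x4000200007001b0008c000e00000000000000000000000000) (nat_lit 0x0) (nat_lit 0x3001000000000000000000000000000) := D_11 (nat_lit 121) (nat_lit 120) (nat_lit 108) (nat_lit 3) (nat_lit 1) (nat_lit 7) (nat_lit 1) (nat_lit 6) (nat_lit 6) (by decide +kernel)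
theorem L35473 : W_11 (nat_lit 3) (nat_lit 0x4000200007001b00088000e00000000000000000000000000) (nat_lit 0x0) (nat_lit 0x40000000000007001000000000000000000000000000) := T_11 (nat_lit 122) (nat_lit 174) (nat_lit 4) (nat_lit 4) (nat_lit 10) L35472 (by decide +kernel)
theorem L35474 : W_11 (nat_lit 4) (nat_lit 0x4000200007001b00088000c00000000000000000000000000) (nat_lit 0x0) (nat_lit 0x40000000000007001200010000000000000000000000) := T_11 (nat_lit 105) (nat_lit 88) (nat_lit 4) (nat_lit 4) (nat_lit 9) L35473 (by decide +kernel)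
theorem L35475 : W_11 (nat_lit 5) (nat_lit 0x4000200003001b00088000c00000000000000000000000000) (nat_lit 0x0) (nat_lit 0xc0004000000007001200010000000000000000000000) := T_11 (nat_lit 158) (nat_lit 175) (nat_lit 7) (nat_lit 4) (nat_lit 6) L35474 (by decide +kernel)
theorem L35476 : W_11 (nat_lit 6) (nat_lit 0x4000200003001b00088000400000000000000000000000000) (nat_lit 0x0) (nat_lit 0xc0004000000007001a00050000000000000000000000) := T_11 (nat_lit 107) (nat_lit 90) (nat_lit 6) (nat_lit 4) (nat_lit 9) L35475 (by decide +kernel)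
theorem L35477 : W_11 (nat_lit 7) (nat_lit 0x200003001b00088000400000000000000000000000000) (nat_lit 0x0) (nat_lit 0x40000c0014000000007001a00050000000000000000000000) := T_11 (nat_lit 194) (nat_lit 160) (nat_lit 6) (nat_lit 7) (nat_lit 11) L35476 (by decide +kernel)
theorem L35478 : W_11 (nat_lit 8) (nat_lit 0x200003001b00088000000000000000000000000000000) (nat_lit 0x0) (nat_lit 0x40000c0014000000007001e00070002800000000000000000) := Q_11 (nat_lit 106) (C_11 L34611 (C_11 L35459 (C_11 L35477 N_11))) (by decide +kernel)
theorem L35479 : W_11 (nat_lit 9) (nat_lit 0x200003001b00088000000000000000000000000000000) (nat_lit 0x0) (nat_lit 0x56001fc014000080007000300000000000000000000000000) := Q_11 (nat_lit 174) (C_11 L34560 (C_11 L35434 N_11)) (by decide +kernel)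
theorem L35480 : W_11 (nat_lit 10) (nat_lit 0x200003001b00080000000000000000000000000000000) (nat_lit 0x0) (nat_lit 0x56001fc01400008000f001f00070002800000000000000000) := Q_11 (nat_lit 123) (C_11 L35478 (C_11 L35462 (C_11 L34553 (C_11 L35479 N_11)))) (by decide +kernel)
theorem L35481 : W_11 (nat_lit 2) (nat_lit 0x380013001b800c0003000000000000000000000000000) (nat_lit 0x0) (nat_lit 0x20000000000000000100008000000000000000000) := D_11 (nat_lit 92) (nat_lit 75) (nat_lit 161) (nat_lit 7) (nat_lit 7) (nat_lit 4) (nat_lit 7) (nat_lit 7) (nat_lit 5) (by decide +kernel)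
theorem L35482 : W_11 (nat_lit 3) (nat_lit 0x380013001b800c0001000000000000000000000000000) (nat_lit 0x0) (nat_lit 0x20000000000002000180008000000000000000000) := T_11 (nat_lit 109) (nat_lit 91) (nat_lit 4) (nat_lit 7) (nat_lit 9) L35481 (by decide +kernel)
theorem L35483 : W_11 (nat_lit 4) (nat_lit 0x380013001b800c0000000000000000000000000000000) (nat_lit 0x0) (nat_lit 0x20000000020003000180008000000000000000000) := T_11 (nat_lit 108) (nat_lit 125) (nat_lit 4) (nat_lit 7) (nat_lit 10) L35482 (by decide +kernel)
theorem L35484 : W_11 (nat_lit 5) (nat_lit 0x380013001b80080000000000000000000000000000000) (nat_lit 0x0) (nat_lit 0x2000000020000000060003000180008000000000000000000) := T_11 (nat_lit 126) (nat_lit 193) (nat_lit 5) (nat_lit 7) (nat_lit 7) L35483 (by decide +kernel)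
theorem L35485 : W_11 (nat_lit 6) (nat_lit 0x380003001b80080000000000000000000000000000000) (nat_lit 0x0) (nat_lit 0x6000000030000000060003000180008000000000000000000) := T_11 (nat_lit 160) (nat_lit 194) (nat_lit 6) (nat_lit 7) (nat_lit 11) L35484 (by decide +kernel)
theorem L35486 : W_11 (nat_lit 7) (nat_lit 0x300003001b80080000000000000000000000000000000) (nat_lit 0x0) (nat_lit 0x60000c0030000000060003000180008000000000000000000) := T_11 (nat_lit 175) (nat_lit 174) (nat_lit 0) (nat_lit 7) (nat_lit 10) L35485 (by decide +kernel)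
theorem L35487 : W_11 (nat_lit 2) (nat_lit 0x4000300003801b80080000000000000000000000000000000) (nat_lit 0x0) (nat_lit 0xc0004000000000000000000000000000000000000000) := D_11 (nat_lit 175) (nat_lit 174) (nat_lit 158) (nat_lit 0) (nat_lit 7) (nat_lit 10) (nat_lit 3) (nat_lit 2) (nat_lit 9) (by decide +kernel)
theorem L35488 : W_11 (nat_lit 3) (nat_lit 0x4000300003001b80080000000000000000000000000000000) (nat_lit 0x0) (nat_lit 0xc0004c00000000000000000000000000000000000000) := T_11 (nat_lit 155) (nat_lit 154) (nat_lit 2) (nat_lit 1) (nat_lit 9) L35487 (by decide +kernel)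
theorem L35489 : W_11 (nat_lit 4) (nat_lit 0x300003001b80080000000000000000000000000000000) (nat_lit 0x0) (nat_lit 0x40000c0014c00000000000000000000000000000000000000) := T_11 (nat_lit 194) (nat_lit 160) (nat_lit 6) (nat_lit 7) (nat_lit 11) L35488 (by decide +kernel)
theorem L35490 : W_11 (nat_lit 2) (nat_lit 0x300013401b800c0003000000000000000000000000000) (nat_lit 0x0) (nat_lit 0x20000000000000000100008000000000000000000) := D_11 (nat_lit 92) (nat_lit 75) (nat_lit 161) (nat_lit 7) (nat_lit 7) (nat_lit 4) (nat_lit 7) (nat_lit 7) (nat_lit 5) (by decide +kernel)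
theorem L35491 : W_11 (nat_lit 3) (nat_lit 0x300013401b800c0001000000000000000000000000000) (nat_lit 0x0) (nat_lit 0x20000000000002000180008000000000000000000) := T_11 (nat_lit 109) (nat_lit 91) (nat_lit 4) (nat_lit 7) (nat_lit 9) L35490 (by decide +kernel)
theorem L35492 : W_11 (nat_lit 4) (nat_lit 0x300013401b800c0000000000000000000000000000000) (nat_lit 0x0) (nat_lit 0x20000000020003000180008000000000000000000) := T_11 (nat_lit 108) (nat_lit 125) (nat_lit 4) (nat_lit 7) (nat_lit 10) L35491 (by decide +kernel)
theorem L35493 : W_11 (nat_lit 5) (nat_lit 0x300013401b80080000000000000000000000000000000) (nat_lit 0x0) (nat_lit 0x2000000020000000060003000180008000000000000000000) := T_11 (nat_lit 126) (nat_lit 193) (nat_lit 5) (nat_lit 7) (nat_lit 7) L35492 (by decide +kernel)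
theorem L35494 : W_11 (nat_lit 6) (nat_lit 0x300013001b80080000000000000000000000000000000) (nat_lit 0x0) (nat_lit 0x2000000020c00000060003000180008000000000000000000) := T_11 (nat_lit 154) (nat_lit 155) (nat_lit 2) (nat_lit 1) (nat_lit 9) L35493 (by decide +kernel)
theorem L35495 : W_11 (nat_lit 7) (nat_lit 0x300003001b80080000000000000000000000000000000) (nat_lit 0x0) (nat_lit 0x6000000030c00000060003000180008000000000000000000) := T_11 (nat_lit 160) (nat_lit 194) (nat_lit 6) (nat_lit 7) (nat_lit 11) L35494 (by decide +kernel)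
theorem L35496 : W_11 (nat_lit 2) (nat_lit 0x300003801b80080000000000000000000000000000000) (nat_lit 0x0) (nat_lit 0xc0004000000000000000000000000000000000000000) := D_11 (nat_lit 175) (nat_lit 174) (nat_lit 158) (nat_lit 0) (nat_lit 7) (nat_lit 10) (nat_lit 3) (nat_lit 2) (nat_lit 9) (by decide +kernel)
theorem L35497 : W_11 (nat_lit 3) (nat_lit 0x300003001b80080000000000000000000000000000000) (nat_lit 0x0) (nat_lit 0xc0004c00000000000000000000000000000000000000) := T_11 (nat_lit 155) (nat_lit 154) (nat_lit 2) (nat_lit 1) (nat_lit 9) L35496 (by decide +kernel)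
theorem L35498 : W_11 (nat_lit 8) (nat_lit 0x200003001b80080000000000000000000000000000000) (nat_lit 0x0) (nat_lit 0x60001c0034c00000060003000180008000000000000000000) := Q_11 (nat_lit 176) (C_11 L35486 (C_11 L35489 (C_11 L35495 (C_11 L35497 N_11)))) (by decide +kernel)
theorem L35499 : W_11 (nat_lit 9) (nat_lit 0x200003001b00080000000000000000000000000000000) (nat_lit 0x0) (nat_lit 0x64001f0034e000f0067803300198008000000000000000000) := Q_11 (nat_lit 139) (C_11 L34567 (C_11 L34712 (C_11 L34518 (C_11 L35498 N_11)))) (by decide +kernel)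
theorem L35500 : W_11 (nat_lit 2) (nat_lit 0x4000380003001b00080000000000000000000000000000000) (nat_lit 0x0) (nat_lit 0x4c00000000000000000000000000000000000000) := D_11 (nat_lit 155) (nat_lit 154) (nat_lit 158) (nat_lit 2) (nat_lit 1) (nat_lit 9) (nat_lit 3) (nat_lit 2) (nat_lit 9) (by decide +kernel)
theorem L35501 : W_11 (nat_lit 3) (nat_lit 0x4000280003001b00080000000000000000000000000000000) (nat_lit 0x0) (nat_lit 0x140004c00000000000000000000000000000000000000) := T_11 (nat_lit 176) (nat_lit 174) (nat_lit 0) (nat_lit 7) (nat_lit 10) L35500 (by decide +kernel)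
theorem L35502 : W_11 (nat_lit 4) (nat_lit 0x280003001b00080000000000000000000000000000000) (nat_lit 0x0) (nat_lit 0x4000140014c00000000000000000000000000000000000000) := T_11 (nat_lit 194) (nat_lit 160) (nat_lit 6) (nat_lit 7) (nat_lit 11) L35501 (by decide +kernel)
theorem L35503 : W_11 (nat_lit 2) (nat_lit 0x40002c0003401b00088000600020000000000000000000000) (nat_lit 0x0) (nat_lit 0x800040002000000000000000000) := D_11 (nat_lit 90) (nat_lit 107) (nat_lit 73) (nat_lit 6) (nat_lit 4) (nat_lit 9) (nat_lit 6) (nat_lit 4) (nat_lit 8) (by decide +kernel)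
theorem L35504 : W_11 (nat_lit 3) (nat_lit 0x40002c0003401b00088000600000000000000000000000000) (nat_lit 0x0) (nat_lit 0x80000000800060002000000000000000000) := T_11 (nat_lit 89) (nat_lit 139) (nat_lit 5) (nat_lit 4) (nat_lit 5) L35503 (by decide +kernel)
theorem L35505 : W_11 (nat_lit 4) (nat_lit 0x40002c0003401b00088000200000000000000000000000000) (nat_lit 0x0) (nat_lit 0x80000000c00070002000000000000000000) := T_11 (nat_lit 106) (nat_lit 88) (nat_lit 4) (nat_lit 4) (nat_lit 9) L35504 (by decide +kernel)
theorem L35506 : W_11 (nat_lit 5) (nat_lit 0x40002c0003401b00088000000000000000000000000000000) (nat_lit 0x0) (nat_lit 0x80004000e00070002000000000000000000) := T_11 (nat_lit 105) (nat_lit 122) (nat_lit 4) (nat_lit 4) (nat_lit 10) L35505 (by decide +kernel)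
theorem L35507 : W_11 (nat_lit 6) (nat_lit 0x40002c0003401b00080000000000000000000000000000000) (nat_lit 0x0) (nat_lit 0x100000000000008000c000e00070002000000000000000000) := T_11 (nat_lit 123) (nat_lit 192) (nat_lit 7) (nat_lit 4) (nat_lit 7) L35506 (by decide +kernel)
theorem L35508 : W_11 (nat_lit 7) (nat_lit 0x4000280003401b00080000000000000000000000000000000) (nat_lit 0x0) (nat_lit 0x100014000000008000c000e00070002000000000000000000) := T_11 (nat_lit 174) (nat_lit 176) (nat_lit 0) (nat_lit 7) (nat_lit 10) L35507 (by decide +kernel)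
theorem L35509 : W_11 (nat_lit 8) (nat_lit 0x280003401b00080000000000000000000000000000000) (nat_lit 0x0) (nat_lit 0x500014001000008000c000e00070002000000000000000000) := T_11 (nat_lit 194) (nat_lit 160) (nat_lit 6) (nat_lit 7) (nat_lit 11) L35508 (by decide +kernel)
theorem L35510 : W_11 (nat_lit 9) (nat_lit 0x280003001b00080000000000000000000000000000000) (nat_lit 0x0) (nat_lit 0x5000140010c0008000c000e00070002000000000000000000) := T_11 (nat_lit 154) (nat_lit 155) (nat_lit 2) (nat_lit 1) (nat_lit 9) L35509 (by decide +kernel)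
theorem L35511 : W_11 (nat_lit 2) (nat_lit 0x2c0003401b00088000600020000000000000000000000) (nat_lit 0x0) (nat_lit 0x800040002000000000000000000) := D_11 (nat_lit 90) (nat_lit 107) (nat_lit 73) (nat_lit 6) (nat_lit 4) (nat_lit 9) (nat_lit 6) (nat_lit 4) (nat_lit 8) (by decide +kernel)
theorem L35512 : W_11 (nat_lit 3) (nat_lit 0x2c0003401b00088000600000000000000000000000000) (nat_lit 0x0) (nat_lit 0x80000000800060002000000000000000000) := T_11 (nat_lit 89) (nat_lit 139) (nat_lit 5) (nat_lit 4) (nat_lit 5) L35511 (by decide +kernel)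
theorem L35513 : W_11 (nat_lit 4) (nat_lit 0x2c0003001b00088000600000000000000000000000000) (nat_lit 0x0) (nat_lit 0xc00080000000800060002000000000000000000) := T_11 (nat_lit 154) (nat_lit 155) (nat_lit 3) (nat_lit 1) (nat_lit 9) L35512 (by decide +kernel)
theorem L35514 : W_11 (nat_lit 5) (nat_lit 0x2c0003001b00088000200000000000000000000000000) (nat_lit 0x0) (nat_lit 0xc00080000000c00070002000000000000000000) := T_11 (nat_lit 106) (nat_lit 88) (nat_lit 4) (nat_lit 4) (nat_lit 9) L35513 (by decide +kernel)
theorem L35515 : W_11 (nat_lit 6) (nat_lit 0x2c0003001b00088000000000000000000000000000000) (nat_lit 0x0) (nat_lit 0xc00080004000e00070002000000000000000000) := T_11 (nat_lit 105) (nat_lit 122) (nat_lit 4) (nat_lit 4) (nat_lit 10) L35514 (by decide +kernel)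
theorem L35516 : W_11 (nat_lit 7) (nat_lit 0x280003001b00088000000000000000000000000000000) (nat_lit 0x0) (nat_lit 0x1000040000c00080004000e00070002000000000000000000) := T_11 (nat_lit 174) (nat_lit 192) (nat_lit 7) (nat_lit 4) (nat_lit 7) L35515 (by decide +kernel)
theorem L35517 : W_11 (nat_lit 2) (nat_lit 0x280003001b00088000000000000000000000000000000) (nat_lit 0x0) (nat_lit 0x1000000004000000000000400000000000000000000000000) := D_11 (nat_lit 158) (nat_lit 106) (nat_lit 192) (nat_lit 7) (nat_lit 4) (nat_lit 6) (nat_lit 4) (nat_lit 5) (nat_lit 11) (by decide +kernel)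
theorem L35518 : W_11 (nat_lit 2) (nat_lit 0x280003401b00088000c00020000000000000000000000) (nat_lit 0x0) (nat_lit 0x200010000800000000000000000) := D_11 (nat_lit 88) (nat_lit 71) (nat_lit 105) (nat_lit 4) (nat_lit 4) (nat_lit 8) (nat_lit 4) (nat_lit 4) (nat_lit 9) (by decide +kernel)
theorem L35519 : W_11 (nat_lit 3) (nat_lit 0x280003401b00088000c00000000000000000000000000) (nat_lit 0x0) (nat_lit 0x80000000200030000800000000000000000) := T_11 (nat_lit 89) (nat_lit 139) (nat_lit 5) (nat_lit 4) (nat_lit 5) L35518 (by decide +kernel)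
theorem L35520 : W_11 (nat_lit 4) (nat_lit 0x280003401b00088000400000000000000000000000000) (nat_lit 0x0) (nat_lit 0x80000000a00070000800000000000000000) := T_11 (nat_lit 107) (nat_lit 90) (nat_lit 6) (nat_lit 4) (nat_lit 9) L35519 (by decide +kernel)
theorem L35521 : W_11 (nat_lit 5) (nat_lit 0x280003401b00088000000000000000000000000000000) (nat_lit 0x0) (nat_lit 0x4000080000000e00070000800000000000000000) := T_11 (nat_lit 106) (nat_lit 158) (nat_lit 7) (nat_lit 4) (nat_lit 6) L35520 (by decide +kernel)
theorem L35522 : W_11 (nat_lit 6) (nat_lit 0x280003001b00088000000000000000000000000000000) (nat_lit 0x0) (nat_lit 0x4c00080000000e00070000800000000000000000) := T_11 (nat_lit 154) (nat_lit 155) (nat_lit 2) (nat_lit 1) (nat_lit 9) L35521 (by decide +kernel)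
theorem L35523 : W_11 (nat_lit 8) (nat_lit 0x280003001b00080000000000000000000000000000000) (nat_lit 0x0) (nat_lit 0x1000040004c0008000c000e00070002800000000000000000) := Q_11 (nat_lit 123) (C_11 L35464 (C_11 L35516 (C_11 L35517 (C_11 L35522 N_11)))) (by decide +kernel)
theorem L35524 : W_11 (nat_lit 2) (nat_lit 0x4000280007801b00080000000000000000000000000000000) (nat_lit 0x0) (nat_lit 0x20001000000000000000008000000000000000000000000000000) := D_11 (nat_lit 192) (nat_lit 123) (nat_lit 209) (nat_lit 4) (nat_lit 5) (nat_lit 11) (nat_lit 4) (nat_lit 5) (nat_lit 12) (by decide +kernel)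
theorem L35525 : W_11 (nat_lit 3) (nat_lit 0x4000280003801b00080000000000000000000000000000000) (nat_lit 0x0) (nat_lit 0x20001000100004000000008000000000000000000000000000000) := T_11 (nat_lit 158) (nat_lit 176) (nat_lit 3) (nat_lit 2) (nat_lit 9) L35524 (by decide +kernel)
theorem L35526 : W_11 (nat_lit 4) (nat_lit 0x4000280003001b00080000000000000000000000000000000) (nat_lit 0x0) (nat_lit 0x20001000100004c00000008000000000000000000000000000000) := T_11 (nat_lit 155) (nat_lit 154) (nat_lit 2) (nat_lit 1) (nat_lit 9) L35525 (by decide +kernel)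
theorem L35527 : W_11 (nat_lit 5) (nat_lit 0x280003001b00080000000000000000000000000000000) (nat_lit 0x0) (nat_lit 0x20005000100014c00000008000000000000000000000000000000) := T_11 (nat_lit 194) (nat_lit 160) (nat_lit 6) (nat_lit 7) (nat_lit 11) L35526 (by decide +kernel)
theorem L35528 : W_11 (nat_lit 2) (nat_lit 0x380013001b000c0003000000000000000000000000000) (nat_lit 0x0) (nat_lit 0x20000000000000000100008000000000000000000) := D_11 (nat_lit 92) (nat_lit 75) (nat_lit 161) (nat_lit 7) (nat_lit 7) (nat_lit 4) (nat_lit 7) (nat_lit 7) (nat_lit 5) (by decide +kernel)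
theorem L35529 : W_11 (nat_lit 3) (nat_lit 0x380013001b000c0001000000000000000000000000000) (nat_lit 0x0) (nat_lit 0x20000000000002000180008000000000000000000) := T_11 (nat_lit 109) (nat_lit 91) (nat_lit 4) (nat_lit 7) (nat_lit 9) L35528 (by decide +kernel)
theorem L35530 : W_11 (nat_lit 4) (nat_lit 0x380013001b000c0000000000000000000000000000000) (nat_lit 0x0) (nat_lit 0x20000000020003000180008000000000000000000) := T_11 (nat_lit 108) (nat_lit 125) (nat_lit 4) (nat_lit 7) (nat_lit 10) L35529 (by decide +kernel)
theorem L35531 : W_11 (nat_lit 5) (nat_lit 0x380013001b00080000000000000000000000000000000) (nat_lit 0x0) (nat_lit 0x2000000020000000060003000180008000000000000000000) := T_11 (nat_lit 126) (nat_lit 193) (nat_lit 5) (nat_lit 7) (nat_lit 7) L35530 (by decide +kernel)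
theorem L35532 : W_11 (nat_lit 6) (nat_lit 0x380003001b00080000000000000000000000000000000) (nat_lit 0x0) (nat_lit 0x6000000030000000060003000180008000000000000000000) := T_11 (nat_lit 160) (nat_lit 194) (nat_lit 6) (nat_lit 7) (nat_lit 11) L35531 (by decide +kernel)
theorem L35533 : W_11 (nat_lit 7) (nat_lit 0x280003001b00080000000000000000000000000000000) (nat_lit 0x0) (nat_lit 0x6000140030000000060003000180008000000000000000000) := T_11 (nat_lit 176) (nat_lit 174) (nat_lit 0) (nat_lit 7) (nat_lit 10) L35532 (by decide +kernel)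
theorem L35534 : W_11 (nat_lit 10) (nat_lit 0x200003001b00080000000000000000000000000000000) (nat_lit 0x0) (nat_lit 0x200070001c0034c0008006c003e001f000a800000000000000000) := Q_11 (nat_lit 175) (C_11 L35502 (C_11 L35510 (C_11 L35523 (C_11 L35527 (C_11 L35533 N_11))))) (by decide +kernel)
theorem L35535 : W_11 (nat_lit 13) (nat_lit 0x200002001b00080000000000000000000000000000000) (nat_lit 0x0) (nat_lit 0xc002e0077801fc035e000f006f803f801f800a800000000000000000) := Q_11 (nat_lit 156) (C_11 L35431 (C_11 L35433 (C_11 L35436 (C_11 L35458 (C_11 L35470 (C_11 L35471 (C_11 L35480 (C_11 L35499 (C_11 L35534 N_11))))))))) (by decide +kernel)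
theorem L35536 : W_11 (nat_lit 14) (nat_lit 0x200002001300080000000000000000000000000000000) (nat_lit 0x0) (nat_lit 0xc002e0077801fc035e00cf016f803f801f800a800000000000000000) := Q_11 (nat_lit 143) (C_11 L35535 (C_11 L35014 (C_11 L35094 N_11))) (by decide +kernel)
theorem L35537 : W_11 (nat_lit 11) (nat_lit 0x200003001b00080000000000000000000000000000000) (nat_lit 0x0) (nat_lit 0x280055001bc014e000f000f800580008000000000000000000000) := Q_11 (nat_lit 138) (C_11 L35457 (C_11 L35432 (C_11 L34601 (C_11 L34578 N_11)))) (by decide +kernel)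
theorem L35538 : W_11 (nat_lit 2) (nat_lit 0x4c00240003001b00088000000000000000000000000000000) (nat_lit 0x0) (nat_lit 0x20001000080000000000000000000000000000000000000000000) := D_11 (nat_lit 192) (nat_lit 175) (nat_lit 209) (nat_lit 7) (nat_lit 4) (nat_lit 7) (nat_lit 7) (nat_lit 4) (nat_lit 8) (by decide +kernel)
theorem L35539 : W_11 (nat_lit 3) (nat_lit 0x4c00240003001b00080000000000000000000000000000000) (nat_lit 0x0) (nat_lit 0x200010000a0000000000008000000000000000000000000000000) := T_11 (nat_lit 123) (nat_lit 173) (nat_lit 5) (nat_lit 4) (nat_lit 7) L35538 (by decide +kernel)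
theorem L35540 : W_11 (nat_lit 4) (nat_lit 0x4800240003001b00080000000000000000000000000000000) (nat_lit 0x0) (nat_lit 0x280014000a0000000000008000000000000000000000000000000) := T_11 (nat_lit 190) (nat_lit 207) (nat_lit 5) (nat_lit 4) (nat_lit 8) L35539 (by decide +kernel)
theorem L35541 : W_11 (nat_lit 5) (nat_lit 0x800240003001b00080000000000000000000000000000000) (nat_lit 0x0) (nat_lit 0x280054000a0010000000008000000000000000000000000000000) := T_11 (nat_lit 194) (nat_lit 160) (nat_lit 6) (nat_lit 7) (nat_lit 11) L35540 (by decide +kernel)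
theorem L35542 : W_11 (nat_lit 11) (nat_lit 0x240003001b00080000000000000000000000000000000) (nat_lit 0x0) (nat_lit 0x3f000f800fc000a0010c0008000c000000000000000000000000000000) := Q_11 (nat_lit 191) (C_11 L34412 (C_11 L34463 (C_11 L35541 N_11))) (by decide +kernel)
theorem L35543 : W_11 (nat_lit 2) (nat_lit 0x40002c0003401b00088000000000000000000000000000000) (nat_lit 0x0) (nat_lit 0x400020000000000000000400000000000000000000000000) := D_11 (nat_lit 173) (nat_lit 190) (nat_lit 106) (nat_lit 5) (nat_lit 4) (nat_lit 7) (nat_lit 5) (nat_lit 4) (nat_lit 6) (by decide +kernel)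
theorem L35544 : W_11 (nat_lit 3) (nat_lit 0x40002c0003401b00080000000000000000000000000000000) (nat_lit 0x0) (nat_lit 0x1400020000000000008000400000000000000000000000000) := T_11 (nat_lit 123) (nat_lit 192) (nat_lit 7) (nat_lit 4) (nat_lit 7) L35543 (by decide +kernel)
theorem L35545 : W_11 (nat_lit 4) (nat_lit 0x2c0003401b00080000000000000000000000000000000) (nat_lit 0x0) (nat_lit 0x5400020010000000008000400000000000000000000000000) := T_11 (nat_lit 194) (nat_lit 160) (nat_lit 6) (nat_lit 7) (nat_lit 11) L35544 (by decide +kernel)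
theorem L35546 : W_11 (nat_lit 5) (nat_lit 0x240003401b00080000000000000000000000000000000) (nat_lit 0x0) (nat_lit 0x54001a0010000000008000400000000000000000000000000) := T_11 (nat_lit 175) (nat_lit 176) (nat_lit 0) (nat_lit 7) (nat_lit 10) L35545 (by decide +kernel)
theorem L35547 : W_11 (nat_lit 6) (nat_lit 0x240003001b00080000000000000000000000000000000) (nat_lit 0x0) (nat_lit 0x54001a0010c00000008000400000000000000000000000000) := T_11 (nat_lit 154) (nat_lit 155) (nat_lit 2) (nat_lit 1) (nat_lit 9) L35546 (by decide +kernel)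
theorem L35548 : W_11 (nat_lit 2) (nat_lit 0x2c0003401b00088000000000000000000000000000000) (nat_lit 0x0) (nat_lit 0x400020000000000000000400000000000000000000000000) := D_11 (nat_lit 173) (nat_lit 190) (nat_lit 106) (nat_lit 5) (nat_lit 4) (nat_lit 7) (nat_lit 5) (nat_lit 4) (nat_lit 6) (by decide +kernel)
theorem L35549 : W_11 (nat_lit 3) (nat_lit 0x2c0003401b00080000000000000000000000000000000) (nat_lit 0x0) (nat_lit 0x1400020000000000008000400000000000000000000000000) := T_11 (nat_lit 123) (nat_lit 192) (nat_lit 7) (nat_lit 4) (nat_lit 7) L35548 (by decide +kernel)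
theorem L35550 : W_11 (nat_lit 4) (nat_lit 0x2c0003001b00080000000000000000000000000000000) (nat_lit 0x0) (nat_lit 0x1400020000c00000008000400000000000000000000000000) := T_11 (nat_lit 154) (nat_lit 155) (nat_lit 3) (nat_lit 1) (nat_lit 9) L35549 (by decide +kernel)
theorem L35551 : W_11 (nat_lit 5) (nat_lit 0x240003001b00080000000000000000000000000000000) (nat_lit 0x0) (nat_lit 0x14001a0000c00000008000400000000000000000000000000) := T_11 (nat_lit 175) (nat_lit 176) (nat_lit 0) (nat_lit 7) (nat_lit 10) L35550 (by decide +kernel)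
theorem L35552 : W_11 (nat_lit 12) (nat_lit 0x200003001b00080000000000000000000000000000000) (nat_lit 0x0) (nat_lit 0x3f001f800fc001e0030c0008006c003400180008000000000000000000) := Q_11 (nat_lit 174) (C_11 L35114 (C_11 L34573 (C_11 L35542 (C_11 L35547 (C_11 L35551 N_11))))) (by decide +kernel)
theorem L35553 : W_11 (nat_lit 2) (nat_lit 0x400220003801b40080000400000000000000000000000000) (nat_lit 0x0) (nat_lit 0x10000000000002000100000000000000000000000000) := D_11 (nat_lit 121) (nat_lit 104) (nat_lit 172) (nat_lit 7) (nat_lit 2) (nat_lit 6) (nat_lit 7) (nat_lit 2) (nat_lit 7) (by decide +kernel)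
theorem L35554 : W_11 (nat_lit 3) (nat_lit 0x400220003001b40080000400000000000000000000000000) (nat_lit 0x0) (nat_lit 0x10000c00000002000100000000000000000000000000) := T_11 (nat_lit 155) (nat_lit 154) (nat_lit 2) (nat_lit 1) (nat_lit 9) L35553 (by decide +kernel)
theorem L35555 : W_11 (nat_lit 4) (nat_lit 0x220003001b40080000400000000000000000000000000) (nat_lit 0x0) (nat_lit 0x8000400010000c00000002000100000000000000000000000000) := T_11 (nat_lit 190) (nat_lit 207) (nat_lit 6) (nat_lit 3) (nat_lit 12) L35554 (by decide +kernel)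
theorem L35556 : W_11 (nat_lit 5) (nat_lit 0x220003001b40080000000000000000000000000000000) (nat_lit 0x0) (nat_lit 0x8000400010000c0000000a000500000000000000000000000000) := T_11 (nat_lit 106) (nat_lit 123) (nat_lit 5) (nat_lit 4) (nat_lit 6) L35555 (by decide +kernel)
theorem L35557 : W_11 (nat_lit 9) (nat_lit 0x200003001b40080000000000000000000000000000000) (nat_lit 0x0) (nat_lit 0x8004400078014c0002000f000580000000000000000000000000) := Q_11 (nat_lit 173) (C_11 L35447 (C_11 L35556 (C_11 L35443 (C_11 L34505 N_11)))) (by decide +kernel)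
theorem L35558 : W_11 (nat_lit 11) (nat_lit 0x200003001b00080000000000000000000000000000000) (nat_lit 0x0) (nat_lit 0x800450007c014e000f000f800580008000000000000000000000) := Q_11 (nat_lit 138) (C_11 L35457 (C_11 L35432 (C_11 L35557 (C_11 L34578 N_11)))) (by decide +kernel)
theorem L35559 : W_11 (nat_lit 7) (nat_lit 0x240003001b00080000000000000000000000000000000) (nat_lit 0x0) (nat_lit 0x5001f8007c00100014000000000000000000000000000000000000000) := Q_11 (nat_lit 191) (C_11 L34577 (C_11 L34572 (C_11 L34575 N_11))) (by decide +kernel)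
theorem L35560 : W_11 (nat_lit 6) (nat_lit 0x240003001b00080000000000000000000000000000000) (nat_lit 0x0) (nat_lit 0x500038005c000a0014000000008000000000000000000000000000000) := Q_11 (nat_lit 191) (C_11 L34577 (C_11 L35541 (C_11 L34575 N_11))) (by decide +kernel)
theorem L35561 : W_11 (nat_lit 8) (nat_lit 0x200003001b00080000000000000000000000000000000) (nat_lit 0x0) (nat_lit 0x5001f8007c001e0034c00000068003400180008000000000000000000) := Q_11 (nat_lit 174) (C_11 L35551 (C_11 L35559 (C_11 L35560 (C_11 L35114 N_11)))) (by decide +kernel)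
theorem L35562 : W_11 (nat_lit 2) (nat_lit 0x2c0003001b00088000000000000000000000000000000) (nat_lit 0x0) (nat_lit 0x20004000000000000400000000000000000000000000) := D_11 (nat_lit 106) (nat_lit 158) (nat_lit 173) (nat_lit 7) (nat_lit 4) (nat_lit 6) (nat_lit 5) (nat_lit 4) (nat_lit 6) (by decide +kernel)
theorem L35563 : W_11 (nat_lit 3) (nat_lit 0x2c0003001b00080000000000000000000000000000000) (nat_lit 0x0) (nat_lit 0x1000020004000000008000400000000000000000000000000) := T_11 (nat_lit 123) (nat_lit 192) (nat_lit 7) (nat_lit 4) (nat_lit 7) L35562 (by decide +kernel)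
theorem L35564 : W_11 (nat_lit 4) (nat_lit 0x240003001b00080000000000000000000000000000000) (nat_lit 0x0) (nat_lit 0x10001a0004000000008000400000000000000000000000000) := T_11 (nat_lit 175) (nat_lit 176) (nat_lit 0) (nat_lit 7) (nat_lit 10) L35563 (by decide +kernel)
theorem L35565 : W_11 (nat_lit 8) (nat_lit 0x200003001b00080000000000000000000000000000000) (nat_lit 0x0) (nat_lit 0x5001f8007c001e0034000000068003400180008000000000000000000) := Q_11 (nat_lit 174) (C_11 L35559 (C_11 L35560 (C_11 L35114 (C_11 L35564 N_11)))) (by decide +kernel)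
theorem L35566 : W_11 (nat_lit 3) (nat_lit 0x5c00240003001b00080000000000000000000000000000000) (nat_lit 0x0) (nat_lit 0x1c0002000020000000000000000000000000000000000000000000) := T_11 (nat_lit 193) (nat_lit 173) (nat_lit 0) (nat_lit 7) (nat_lit 11) L34568 (by decide +kernel)
theorem L35567 : W_11 (nat_lit 4) (nat_lit 0x4c00240003001b00080000000000000000000000000000000) (nat_lit 0x0) (nat_lit 0x1e0003000020000000000000000000000000000000000000000000) := T_11 (nat_lit 192) (nat_lit 209) (nat_lit 7) (nat_lit 4) (nat_lit 8) L35566 (by decide +kernel)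
theorem L35568 : W_11 (nat_lit 5) (nat_lit 0x4800240003001b00080000000000000000000000000000000) (nat_lit 0x0) (nat_lit 0x1e8003400020000000000000000000000000000000000000000000) := T_11 (nat_lit 190) (nat_lit 207) (nat_lit 5) (nat_lit 4) (nat_lit 8) L35567 (by decide +kernel)
theorem L35569 : W_11 (nat_lit 6) (nat_lit 0x800240003001b00080000000000000000000000000000000) (nat_lit 0x0) (nat_lit 0x1e8007400020010000000000000000000000000000000000000000) := T_11 (nat_lit 194) (nat_lit 160) (nat_lit 6) (nat_lit 7) (nat_lit 11) L35568 (by decide +kernel)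
theorem L35570 : W_11 (nat_lit 11) (nat_lit 0x240003001b00080000000000000000000000000000000) (nat_lit 0x0) (nat_lit 0x3f001f800fc00020014c00000000000000000000000000000000000000) := Q_11 (nat_lit 191) (C_11 L34577 (C_11 L34463 (C_11 L34575 (C_11 L35569 N_11)))) (by decide +kernel)
theorem L35571 : W_11 (nat_lit 2) (nat_lit 0x5e002c0003401b80080000000000000000000000000000000) (nat_lit 0x0) (nat_lit 0x6000000020000000000000000000000000000000000000000000) := D_11 (nat_lit 206) (nat_lit 205) (nat_lit 173) (nat_lit 1) (nat_lit 5) (nat_lit 11) (nat_lit 5) (nat_lit 3) (nat_lit 8) (by decide +kernel)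
theorem L35572 : W_11 (nat_lit 3) (nat_lit 0x4e002c0003401b80080000000000000000000000000000000) (nat_lit 0x0) (nat_lit 0x26001000020000000000000000000000000000000000000000000) := T_11 (nat_lit 192) (nat_lit 209) (nat_lit 7) (nat_lit 4) (nat_lit 8) L35571 (by decide +kernel)
theorem L35573 : W_11 (nat_lit 4) (nat_lit 0x4c002c0003401b80080000000000000000000000000000000) (nat_lit 0x0) (nat_lit 0x26001300020000000000000000000000000000000000000000000) := T_11 (nat_lit 189) (nat_lit 188) (nat_lit 2) (nat_lit 1) (nat_lit 11) L35572 (by decide +kernel)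
theorem L35574 : W_11 (nat_lit 5) (nat_lit 0x4c002c0003001b80080000000000000000000000000000000) (nat_lit 0x0) (nat_lit 0x26001300020000c00000000000000000000000000000000000000) := T_11 (nat_lit 154) (nat_lit 155) (nat_lit 3) (nat_lit 1) (nat_lit 9) L35573 (by decide +kernel)
theorem L35575 : W_11 (nat_lit 6) (nat_lit 0x4c002c0003001b00080000000000000000000000000000000) (nat_lit 0x0) (nat_lit 0x26001300020000c00080004000000000000000000000000000000) := T_11 (nat_lit 139) (nat_lit 122) (nat_lit 4) (nat_lit 4) (nat_lit 11) L35574 (by decide +kernel)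
theorem L35576 : W_11 (nat_lit 7) (nat_lit 0x4c00240003001b00080000000000000000000000000000000) (nat_lit 0x0) (nat_lit 0x260013001a0000c00080004000000000000000000000000000000) := T_11 (nat_lit 175) (nat_lit 176) (nat_lit 1) (nat_lit 7) (nat_lit 10) L35575 (by decide +kernel)
theorem L35577 : W_11 (nat_lit 8) (nat_lit 0x4800240003001b00080000000000000000000000000000000) (nat_lit 0x0) (nat_lit 0x2e0017001a0000c00080004000000000000000000000000000000) := T_11 (nat_lit 190) (nat_lit 207) (nat_lit 5) (nat_lit 4) (nat_lit 8) L35576 (by decide +kernel)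
theorem L35578 : W_11 (nat_lit 9) (nat_lit 0x800240003001b00080000000000000000000000000000000) (nat_lit 0x0) (nat_lit 0x2e0057001a0010c00080004000000000000000000000000000000) := T_11 (nat_lit 194) (nat_lit 160) (nat_lit 6) (nat_lit 7) (nat_lit 11) L35577 (by decide +kernel)
theorem L35579 : W_11 (nat_lit 10) (nat_lit 0x240003001b00080000000000000000000000000000000) (nat_lit 0x0) (nat_lit 0x800070003e005f001a0014c00080004000000000000000000000000000000) := Q_11 (nat_lit 191) (C_11 L34577 (C_11 L34418 (C_11 L34575 (C_11 L35578 N_11)))) (by decide +kernel)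
theorem L35580 : W_11 (nat_lit 2) (nat_lit 0xc00340003401b00080000000000000000000000000000000) (nat_lit 0x0) (nat_lit 0x20003000000000000000000000000000000000000000000000000) := D_11 (nat_lit 192) (nat_lit 209) (nat_lit 193) (nat_lit 7) (nat_lit 4) (nat_lit 8) (nat_lit 2) (nat_lit 3) (nat_lit 11) (by decide +kernel)
theorem L35581 : W_11 (nat_lit 3) (nat_lit 0xc00240003401b00080000000000000000000000000000000) (nat_lit 0x0) (nat_lit 0x20003000180000000000000000000000000000000000000000000) := T_11 (nat_lit 176) (nat_lit 175) (nat_lit 1) (nat_lit 7) (nat_lit 10) L35580 (by decide +kernel)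
theorem L35582 : W_11 (nat_lit 4) (nat_lit 0x800240003401b00080000000000000000000000000000000) (nat_lit 0x0) (nat_lit 0x28003400180000000000000000000000000000000000000000000) := T_11 (nat_lit 190) (nat_lit 207) (nat_lit 5) (nat_lit 4) (nat_lit 8) L35581 (by decide +kernel)
theorem L35583 : W_11 (nat_lit 5) (nat_lit 0x800240003001b00080000000000000000000000000000000) (nat_lit 0x0) (nat_lit 0x28003400180000c00000000000000000000000000000000000000) := T_11 (nat_lit 154) (nat_lit 155) (nat_lit 2) (nat_lit 1) (nat_lit 9) L35582 (by decide +kernel)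
theorem L35584 : W_11 (nat_lit 8) (nat_lit 0x240003001b00080000000000000000000000000000000) (nat_lit 0x0) (nat_lit 0x8000700038003c001a0004c00000000000000000000000000000000000000) := Q_11 (nat_lit 191) (C_11 L34577 (C_11 L34418 (C_11 L34575 (C_11 L35583 N_11)))) (by decide +kernel)
theorem L35585 : W_11 (nat_lit 12) (nat_lit 0x200003001b00080000000000000000000000000000000) (nat_lit 0x0) (nat_lit 0x8003f001fe00ff001e0034c00080064003000180008000000000000000000) := Q_11 (nat_lit 174) (C_11 L35559 (C_11 L35114 (C_11 L35570 (C_11 L35579 (C_11 L35584 N_11))))) (by decide +kernel)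
theorem L35586 : W_11 (nat_lit 2) (nat_lit 0x7d002c0003001b80080000000000000000000000000000000) (nat_lit 0x0) (nat_lit 0xc0000000000004000000000000000000000000000000000000000) := D_11 (nat_lit 210) (nat_lit 211) (nat_lit 158) (nat_lit 3) (nat_lit 3) (nat_lit 11) (nat_lit 7) (nat_lit 5) (nat_lit 8) (by decide +kernel)
theorem L35587 : W_11 (nat_lit 3) (nat_lit 0x5d002c0003001b80080000000000000000000000000000000) (nat_lit 0x0) (nat_lit 0xc000a000000004000000000000000000000000000000000000000) := T_11 (nat_lit 193) (nat_lit 195) (nat_lit 0) (nat_lit 8) (nat_lit 11) L35586 (by decide +kernel)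
theorem L35588 : W_11 (nat_lit 4) (nat_lit 0x5c002c0003001b80080000000000000000000000000000000) (nat_lit 0x0) (nat_lit 0xc000a300000004000000000000000000000000000000000000000) := T_11 (nat_lit 188) (nat_lit 189) (nat_lit 2) (nat_lit 1) (nat_lit 11) L35587 (by decide +kernel)
theorem L35589 : W_11 (nat_lit 5) (nat_lit 0x5c002c0003001b00080000000000000000000000000000000) (nat_lit 0x0) (nat_lit 0xc000a300000004000080004000000000000000000000000000000) := T_11 (nat_lit 139) (nat_lit 122) (nat_lit 4) (nat_lit 4) (nat_lit 11) L35588 (by decide +kernel)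
theorem L35590 : W_11 (nat_lit 6) (nat_lit 0x5c00240003001b00080000000000000000000000000000000) (nat_lit 0x0) (nat_lit 0xc000a30008000400008000c000000000000000000000000000000) := T_11 (nat_lit 175) (nat_lit 123) (nat_lit 7) (nat_lit 4) (nat_lit 7) L35589 (by decide +kernel)
theorem L35591 : W_11 (nat_lit 7) (nat_lit 0x4c00240003001b00080000000000000000000000000000000) (nat_lit 0x0) (nat_lit 0xe000b30008000400008000c000000000000000000000000000000) := T_11 (nat_lit 192) (nat_lit 209) (nat_lit 7) (nat_lit 4) (nat_lit 8) L35590 (by decide +kernel)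
theorem L35592 : W_11 (nat_lit 8) (nat_lit 0x4800240003001b00080000000000000000000000000000000) (nat_lit 0x0) (nat_lit 0xe800b70008000400008000c000000000000000000000000000000) := T_11 (nat_lit 190) (nat_lit 207) (nat_lit 5) (nat_lit 4) (nat_lit 8) L35591 (by decide +kernel)
theorem L35593 : W_11 (nat_lit 9) (nat_lit 0x800240003001b00080000000000000000000000000000000) (nat_lit 0x0) (nat_lit 0xe800f70008001400008000c000000000000000000000000000000) := T_11 (nat_lit 194) (nat_lit 160) (nat_lit 6) (nat_lit 7) (nat_lit 11) L35592 (by decide +kernel)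
theorem L35594 : W_11 (nat_lit 10) (nat_lit 0x240003001b00080000000000000000000000000000000) (nat_lit 0x0) (nat_lit 0x4000f800ff0008001400008000c000000000000000000000000000000) := Q_11 (nat_lit 191) (C_11 L34577 (C_11 L34412 (C_11 L35593 N_11))) (by decide +kernel)
theorem L35595 : W_11 (nat_lit 2) (nat_lit 0x40002c0003401b80088000c00000000000000000000000000) (nat_lit 0x0) (nat_lit 0x10000800000000000000004000000000000000000000000000000) := D_11 (nat_lit 191) (nat_lit 208) (nat_lit 122) (nat_lit 4) (nat_lit 4) (nat_lit 12) (nat_lit 4) (nat_lit 4) (nat_lit 11) (by decide +kernel)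
theorem L35596 : W_11 (nat_lit 3) (nat_lit 0x40002c0003401b00088000c00000000000000000000000000) (nat_lit 0x0) (nat_lit 0x10000800000000000080004000000020000000000000000000000) := T_11 (nat_lit 139) (nat_lit 89) (nat_lit 5) (nat_lit 4) (nat_lit 5) L35595 (by decide +kernel)
theorem L35597 : W_11 (nat_lit 4) (nat_lit 0x40002c0003401b00088000400000000000000000000000000) (nat_lit 0x0) (nat_lit 0x10000800000000000080004000800060000000000000000000000) := T_11 (nat_lit 107) (nat_lit 90) (nat_lit 6) (nat_lit 4) (nat_lit 9) L35596 (by decide +kernel)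
theorem L35598 : W_11 (nat_lit 5) (nat_lit 0x40002c0003401b00088000000000000000000000000000000) (nat_lit 0x0) (nat_lit 0x10000800000004000080004000c00060000000000000000000000) := T_11 (nat_lit 106) (nat_lit 158) (nat_lit 7) (nat_lit 4) (nat_lit 6) L35597 (by decide +kernel)
theorem L35599 : W_11 (nat_lit 6) (nat_lit 0x40002c0003401b00080000000000000000000000000000000) (nat_lit 0x0) (nat_lit 0x1000180000000400008000c000c00060000000000000000000000) := T_11 (nat_lit 123) (nat_lit 192) (nat_lit 7) (nat_lit 4) (nat_lit 7) L35598 (by decide +kernel)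
theorem L35600 : W_11 (nat_lit 7) (nat_lit 0x2c0003401b00080000000000000000000000000000000) (nat_lit 0x0) (nat_lit 0x1000580000001400008000c000c00060000000000000000000000) := T_11 (nat_lit 194) (nat_lit 160) (nat_lit 6) (nat_lit 7) (nat_lit 11) L35599 (by decide +kernel)
theorem L35601 : W_11 (nat_lit 8) (nat_lit 0x240003401b00080000000000000000000000000000000) (nat_lit 0x0) (nat_lit 0x1000580018001400008000c000c00060000000000000000000000) := T_11 (nat_lit 175) (nat_lit 176) (nat_lit 0) (nat_lit 7) (nat_lit 10) L35600 (by decide +kernel)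
theorem L35602 : W_11 (nat_lit 9) (nat_lit 0x240003001b00080000000000000000000000000000000) (nat_lit 0x0) (nat_lit 0x10005800180014c0008000c000c00060000000000000000000000) := T_11 (nat_lit 154) (nat_lit 155) (nat_lit 2) (nat_lit 1) (nat_lit 9) L35601 (by decide +kernel)
theorem L35603 : W_11 (nat_lit 2) (nat_lit 0x2c0003401b80088000c00000000000000000000000000) (nat_lit 0x0) (nat_lit 0x10000800000000000000004000000000000000000000000000000) := D_11 (nat_lit 191) (nat_lit 208) (nat_lit 122) (nat_lit 4) (nat_lit 4) (nat_lit 12) (nat_lit 4) (nat_lit 4) (nat_lit 11) (by decide +kernel)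
theorem L35604 : W_11 (nat_lit 3) (nat_lit 0x2c0003401b00088000c00000000000000000000000000) (nat_lit 0x0) (nat_lit 0x10000800000000000080004000000020000000000000000000000) := T_11 (nat_lit 139) (nat_lit 89) (nat_lit 5) (nat_lit 4) (nat_lit 5) L35603 (by decide +kernel)
theorem L35605 : W_11 (nat_lit 4) (nat_lit 0x2c0003401b00088000400000000000000000000000000) (nat_lit 0x0) (nat_lit 0x10000800000000000080004000800060000000000000000000000) := T_11 (nat_lit 107) (nat_lit 90) (nat_lit 6) (nat_lit 4) (nat_lit 9) L35604 (by decide +kernel)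
theorem L35606 : W_11 (nat_lit 5) (nat_lit 0x2c0003401b00088000000000000000000000000000000) (nat_lit 0x0) (nat_lit 0x10000800000004000080004000c00060000000000000000000000) := T_11 (nat_lit 106) (nat_lit 158) (nat_lit 7) (nat_lit 4) (nat_lit 6) L35605 (by decide +kernel)
theorem L35607 : W_11 (nat_lit 6) (nat_lit 0x2c0003401b00080000000000000000000000000000000) (nat_lit 0x0) (nat_lit 0x1000180000000400008000c000c00060000000000000000000000) := T_11 (nat_lit 123) (nat_lit 192) (nat_lit 7) (nat_lit 4) (nat_lit 7) L35606 (by decide +kernel)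
theorem L35608 : W_11 (nat_lit 7) (nat_lit 0x2c0003001b00080000000000000000000000000000000) (nat_lit 0x0) (nat_lit 0x10001800000004c0008000c000c00060000000000000000000000) := T_11 (nat_lit 154) (nat_lit 155) (nat_lit 3) (nat_lit 1) (nat_lit 9) L35607 (by decide +kernel)
theorem L35609 : W_11 (nat_lit 8) (nat_lit 0x240003001b00080000000000000000000000000000000) (nat_lit 0x0) (nat_lit 0x10001800180004c0008000c000c00060000000000000000000000) := T_11 (nat_lit 175) (nat_lit 176) (nat_lit 0) (nat_lit 7) (nat_lit 10) L35608 (by decide +kernel)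
theorem L35610 : W_11 (nat_lit 11) (nat_lit 0x200003001b00080000000000000000000000000000000) (nat_lit 0x0) (nat_lit 0x5001f800ff001c0034c0008006c003c001e0008000000000000000000) := Q_11 (nat_lit 174) (C_11 L35559 (C_11 L35114 (C_11 L35594 (C_11 L35602 (C_11 L35609 N_11))))) (by decide +kernel)
theorem L35611 : W_11 (nat_lit 13) (nat_lit 0x200002001b00080000000000000000000000000000000) (nat_lit 0x0) (nat_lit 0x8003fc01fe00ff801fc035e000f006f803d801e800a000000000000000000) := Q_11 (nat_lit 156) (C_11 L35431 (C_11 L35537 (C_11 L35552 (C_11 L35558 (C_11 L35561 (C_11 L35471 (C_11 L35565 (C_11 L35585 (C_11 L35610 N_11))))))))) (by decide +kernel)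
theorem L35612 : W_11 (nat_lit 14) (nat_lit 0x200002001300080000000000000000000000000000000) (nat_lit 0x0) (nat_lit 0x8003fc01fe00ff801fc035e00cf016f803d801e800a000000000000000000) := Q_11 (nat_lit 143) (C_11 L35611 (C_11 L35014 (C_11 L35094 N_11))) (by decide +kernel)
theorem L35613 : W_11 (nat_lit 2) (nat_lit 0x10004800240002001b0008d000000000000000000000000000000) (nat_lit 0x0) (nat_lit 0x400020001000000000000000000000000000000000000000000000000) := D_11 (nat_lit 209) (nat_lit 192) (nat_lit 226) (nat_lit 7) (nat_lit 4) (nat_lit 8) (nat_lit 7) (nat_lit 4) (nat_lit 9) (by decide +kernel)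
theorem L35614 : W_11 (nat_lit 3) (nat_lit 0x4800240002001b0008d000000000000000000000000000000) (nat_lit 0x0) (nat_lit 0x400030001000000004000000000000000000000000000000000000000) := T_11 (nat_lit 208) (nat_lit 158) (nat_lit 6) (nat_lit 4) (nat_lit 12) L35613 (by decide +kernel)
theorem L35615 : W_11 (nat_lit 4) (nat_lit 0x4000240002001b0008d000000000000000000000000000000) (nat_lit 0x0) (nat_lit 0x400030001800000004000080000000000000000000000000000000000) := T_11 (nat_lit 191) (nat_lit 139) (nat_lit 4) (nat_lit 4) (nat_lit 11) L35614 (by decide +kernel)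
theorem L35616 : W_11 (nat_lit 5) (nat_lit 0x4000240002001b0008c000000000000000000000000000000) (nat_lit 0x0) (nat_lit 0x400030001800000004000080003000000000000000000000000000000) := T_11 (nat_lit 120) (nat_lit 121) (nat_lit 3) (nat_lit 1) (nat_lit 7) L35615 (by decide +kernel)
theorem L35617 : W_11 (nat_lit 6) (nat_lit 0x4000240002001b00088000000000000000000000000000000) (nat_lit 0x0) (nat_lit 0x400030001800000004000080007000200000000000000000000000000) := T_11 (nat_lit 122) (nat_lit 105) (nat_lit 4) (nat_lit 4) (nat_lit 10) L35616 (by decide +kernel)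
theorem L35618 : W_11 (nat_lit 7) (nat_lit 0x240002001b00088000000000000000000000000000000) (nat_lit 0x0) (nat_lit 0x400030005800000014000080007000200000000000000000000000000) := T_11 (nat_lit 194) (nat_lit 160) (nat_lit 6) (nat_lit 7) (nat_lit 11) L35617 (by decide +kernel)
theorem L35619 : W_11 (nat_lit 6) (nat_lit 0x10004800240002001b0008d000000000000000000000000000000) (nat_lit 0x0) (nat_lit 0x3d000e800a000000000000000000000000000000000000000000000000) := T_11 (nat_lit 207) (nat_lit 224) (nat_lit 5) (nat_lit 4) (nat_lit 9) L34751 (by decide +kernel)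
theorem L35620 : W_11 (nat_lit 7) (nat_lit 0x4800240002001b0008d000000000000000000000000000000) (nat_lit 0x0) (nat_lit 0x3d000f800a000000004000000000000000000000000000000000000000) := T_11 (nat_lit 208) (nat_lit 158) (nat_lit 6) (nat_lit 4) (nat_lit 12) L35619 (by decide +kernel)
theorem L35621 : W_11 (nat_lit 8) (nat_lit 0x800240002001b0008d000000000000000000000000000000) (nat_lit 0x0) (nat_lit 0x3d000f800e000000014000000000000000000000000000000000000000) := T_11 (nat_lit 194) (nat_lit 160) (nat_lit 6) (nat_lit 7) (nat_lit 11) L35620 (by decide +kernel)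
theorem L35622 : W_11 (nat_lit 9) (nat_lit 0x240002001b0008d000000000000000000000000000000) (nat_lit 0x0) (nat_lit 0x3d000f800e800000014000080000000000000000000000000000000000) := T_11 (nat_lit 191) (nat_lit 139) (nat_lit 4) (nat_lit 4) (nat_lit 11) L35621 (by decide +kernel)
theorem L35623 : W_11 (nat_lit 10) (nat_lit 0x240002001b0008c000000000000000000000000000000) (nat_lit 0x0) (nat_lit 0x3d000f800e800000014000080003000000000000000000000000000000) := T_11 (nat_lit 120) (nat_lit 121) (nat_lit 3) (nat_lit 1) (nat_lit 7) L35622 (by decide +kernel)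
theorem L35624 : W_11 (nat_lit 11) (nat_lit 0x240002001b00088000000000000000000000000000000) (nat_lit 0x0) (nat_lit 0x3d000f800e800000014000080007000200000000000000000000000000) := T_11 (nat_lit 122) (nat_lit 105) (nat_lit 4) (nat_lit 4) (nat_lit 10) L35623 (by decide +kernel)
theorem L35625 : W_11 (nat_lit 12) (nat_lit 0x200002001b00088000000000000000000000000000000) (nat_lit 0x0) (nat_lit 0x3d000f800f8001c0015000080007000200000000000000000000000000) := Q_11 (nat_lit 174) (C_11 L34744 (C_11 L35618 (C_11 L34370 (C_11 L35624 N_11)))) (by decide +kernel)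
theorem L35626 : W_11 (nat_lit 6) (nat_lit 0x200002001b00088000000000000000000000000000000) (nat_lit 0x0) (nat_lit 0x10000e0005000080004000e00070002000000000000000000) := Q_11 (nat_lit 106) (C_11 L35151 (C_11 L34752 (C_11 L34765 (C_11 L34706 N_11)))) (by decide +kernel)
theorem L35627 : W_11 (nat_lit 8) (nat_lit 0x200002001b00088000000000000000000000000000000) (nat_lit 0x0) (nat_lit 0x50001e0015c00080000000e00070002800000000000000000) := Q_11 (nat_lit 106) (C_11 L35151 (C_11 L34755 (C_11 L34722 N_11))) (by decide +kernel)
theorem L35628 : W_11 (nat_lit 8) (nat_lit 0x200002001b00088000000000000000000000000000000) (nat_lit 0x0) (nat_lit 0x50001e0015c00080000000c00060002000000000000000000) := Q_11 (nat_lit 106) (C_11 L35151 (C_11 L34752 (C_11 L34722 (C_11 L34706 N_11)))) (by decide +kernel)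
theorem L35629 : W_11 (nat_lit 13) (nat_lit 0x200002001b00080000000000000000000000000000000) (nat_lit 0x0) (nat_lit 0x3d000fa00fb001f8015c000e004f803fc03fc002800000000000000000) := Q_11 (nat_lit 123) (C_11 L35625 (C_11 L35149 (C_11 L34705 (C_11 L35626 (C_11 L35154 (C_11 L35627 (C_11 L35628 N_11))))))) (by decide +kernel)
theorem L35630 : W_11 (nat_lit 14) (nat_lit 0x200002001300080000000000000000000000000000000) (nat_lit 0x0) (nat_lit 0x3d000fa00fb001f8015c00ce014f803fc03fc002800000000000000000) := Q_11 (nat_lit 143) (C_11 L35629 (C_11 L35014 (C_11 L35094 N_11))) (by decide +kernel)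
theorem L35631 : W_11 (nat_lit 2) (nat_lit 0x200010004800260002001b0008d000000000000000000000000000000) (nat_lit 0x0) (nat_lit 0x8000400020000000000000000000000000000000000000000000000000000) := D_11 (nat_lit 226) (nat_lit 209) (nat_lit 243) (nat_lit 7) (nat_lit 4) (nat_lit 9) (nat_lit 7) (nat_lit 4) (nat_lit 10) (by decide +kernel)
theorem L35632 : W_11 (nat_lit 3) (nat_lit 0x10004800260002001b0008d000000000000000000000000000000) (nat_lit 0x0) (nat_lit 0x8000600020000000000001000000000000000000000000000000000000000) := T_11 (nat_lit 225) (nat_lit 156) (nat_lit 4) (nat_lit 4) (nat_lit 13) L35631 (by decide +kernel)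
theorem L35633 : W_11 (nat_lit 4) (nat_lit 0x4800260002001b0008d000000000000000000000000000000) (nat_lit 0x0) (nat_lit 0x8000600030000000000005000000000000000000000000000000000000000) := T_11 (nat_lit 208) (nat_lit 158) (nat_lit 6) (nat_lit 4) (nat_lit 12) L35632 (by decide +kernel)
theorem L35634 : W_11 (nat_lit 5) (nat_lit 0x4000260002001b0008d000000000000000000000000000000) (nat_lit 0x0) (nat_lit 0x8000600030000800000005000080000000000000000000000000000000000) := T_11 (nat_lit 191) (nat_lit 139) (nat_lit 4) (nat_lit 4) (nat_lit 11) L35633 (by decide +kernel)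
theorem L35635 : W_11 (nat_lit 6) (nat_lit 0x4000260002001b0008c000000000000000000000000000000) (nat_lit 0x0) (nat_lit 0x8000600030000800000005000080003000000000000000000000000000000) := T_11 (nat_lit 120) (nat_lit 121) (nat_lit 3) (nat_lit 1) (nat_lit 7) L35634 (by decide +kernel)
theorem L35636 : W_11 (nat_lit 7) (nat_lit 0x4000260002001b00088000000000000000000000000000000) (nat_lit 0x0) (nat_lit 0x8000600030000800000005000080007000200000000000000000000000000) := T_11 (nat_lit 122) (nat_lit 105) (nat_lit 4) (nat_lit 4) (nat_lit 10) L35635 (by decide +kernel)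
theorem L35637 : W_11 (nat_lit 8) (nat_lit 0x4000240002001b00088000000000000000000000000000000) (nat_lit 0x0) (nat_lit 0x8000600030000c00020005000080007000200000000000000000000000000) := T_11 (nat_lit 173) (nat_lit 190) (nat_lit 5) (nat_lit 4) (nat_lit 7) L35636 (by decide +kernel)
theorem L35638 : W_11 (nat_lit 9) (nat_lit 0x240002001b00088000000000000000000000000000000) (nat_lit 0x0) (nat_lit 0x8000600030004c00020015000080007000200000000000000000000000000) := T_11 (nat_lit 194) (nat_lit 160) (nat_lit 6) (nat_lit 7) (nat_lit 11) L35637 (by decide +kernel)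
theorem L35639 : W_11 (nat_lit 10) (nat_lit 0x200002001b00088000000000000000000000000000000) (nat_lit 0x0) (nat_lit 0x800060003000fc001e0015000080007000200000000000000000000000000) := Q_11 (nat_lit 174) (C_11 L35618 (C_11 L35166 (C_11 L35638 (C_11 L34403 N_11)))) (by decide +kernel)
theorem L35640 : W_11 (nat_lit 13) (nat_lit 0x200002001b00080000000000000000000000000000000) (nat_lit 0x0) (nat_lit 0x800060003000fc001f8015c000e000f001f80070002800000000000000000) := Q_11 (nat_lit 123) (C_11 L35639 (C_11 L35149 (C_11 L34756 (C_11 L35152 (C_11 L35626 (C_11 L35154 (C_11 L35628 N_11))))))) (by decide +kernel)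
theorem L35641 : W_11 (nat_lit 14) (nat_lit 0x200002001300080000000000000000000000000000000) (nat_lit 0x0) (nat_lit 0x800060003000fc001f8015c00ce010f001f80070002800000000000000000) := Q_11 (nat_lit 143) (C_11 L35640 (C_11 L35014 (C_11 L35094 N_11))) (by decide +kernel)
theorem L35642 : W_11 (nat_lit 16) (nat_lit 0x200000001300080000000000000000000000000000000) (nat_lit 0x0) (nat_lit 0x8003fc01fe00ff801fc037e00cf016f803fc03fe00fe001d000a000000000) := Q_11 (nat_lit 157) (C_11 L35011 (C_11 L35061 (C_11 L35092 (C_11 L35120 (C_11 L35138 (C_11 L35179 (C_11 L35180 (C_11 L35217 (C_11 L35302 (C_11 L35316 (C_11 L35377 (C_11 L35536 (C_11 L35612 (C_11 L35630 (C_11 L35641 N_11))))))))))))))) (by decide +kernel)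
theorem L35644 : W_11 (nat_lit 3) (nat_lit 0x200000001b00080000000000000000000000000000000) (nat_lit 0x0) (nat_lit 0x4000000030000400040000000000000000000000000000000) := T_11 (nat_lit 142) (nat_lit 126) (nat_lit 2) (nat_lit 4) (nat_lit 8) L34339 (by decide +kernel)
theorem L35645 : W_11 (nat_lit 3) (nat_lit 0x200000001b00080000000000000000000000000000000) (nat_lit 0x0) (nat_lit 0x4000000030000400100000000000000000000000000000000) := T_11 (nat_lit 142) (nat_lit 128) (nat_lit 2) (nat_lit 5) (nat_lit 8) L34339 (by decide +kernel)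
theorem L35646 : W_11 (nat_lit 2) (nat_lit 0x300010001b000e0002000000000000000000000000000) (nat_lit 0x0) (nat_lit 0x20000000000000000100008000000000000000000) := D_11 (nat_lit 92) (nat_lit 75) (nat_lit 161) (nat_lit 7) (nat_lit 7) (nat_lit 4) (nat_lit 7) (nat_lit 7) (nat_lit 5) (by decide +kernel)
theorem L35647 : W_11 (nat_lit 3) (nat_lit 0x300010001b000e0000000000000000000000000000000) (nat_lit 0x0) (nat_lit 0x28000000000002000100008000000000000000000) := T_11 (nat_lit 109) (nat_lit 159) (nat_lit 5) (nat_lit 7) (nat_lit 6) L35646 (by decide +kernel)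
theorem L35648 : W_11 (nat_lit 4) (nat_lit 0x200010001b000e0000000000000000000000000000000) (nat_lit 0x0) (nat_lit 0x2000100028000000000002000100008000000000000000000) := T_11 (nat_lit 176) (nat_lit 193) (nat_lit 5) (nat_lit 7) (nat_lit 7) L35647 (by decide +kernel)
theorem L35649 : W_11 (nat_lit 5) (nat_lit 0x200010001b000c0000000000000000000000000000000) (nat_lit 0x0) (nat_lit 0x2000100028000000020003000100008000000000000000000) := T_11 (nat_lit 125) (nat_lit 108) (nat_lit 4) (nat_lit 7) (nat_lit 10) L35648 (by decide +kernel)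
theorem L35650 : W_11 (nat_lit 4) (nat_lit 0x200010001b000c0000000000000000000000000000000) (nat_lit 0x0) (nat_lit 0x2000100028000000000002000100008000000000000000000) := T_11 (nat_lit 176) (nat_lit 193) (nat_lit 5) (nat_lit 7) (nat_lit 7) L34789 (by decide +kernel)
theorem L35651 : W_11 (nat_lit 2) (nat_lit 0x200010001b000c0003000000000000000000000000000) (nat_lit 0x0) (nat_lit 0x20000000000000000100008000000000000000000) := D_11 (nat_lit 92) (nat_lit 75) (nat_lit 161) (nat_lit 7) (nat_lit 7) (nat_lit 4) (nat_lit 7) (nat_lit 7) (nat_lit 5) (by decide +kernel)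
theorem L35652 : W_11 (nat_lit 3) (nat_lit 0x200010001b000c0001000000000000000000000000000) (nat_lit 0x0) (nat_lit 0x20000000000002000180008000000000000000000) := T_11 (nat_lit 109) (nat_lit 91) (nat_lit 4) (nat_lit 7) (nat_lit 9) L35651 (by decide +kernel)
theorem L35653 : W_11 (nat_lit 4) (nat_lit 0x200010001b000c0000000000000000000000000000000) (nat_lit 0x0) (nat_lit 0x20000000020003000180008000000000000000000) := T_11 (nat_lit 108) (nat_lit 125) (nat_lit 4) (nat_lit 7) (nat_lit 10) L35652 (by decide +kernel)
theorem L35654 : W_11 (nat_lit 2) (nat_lit 0x200014001b000c0000000000000000000000000000000) (nat_lit 0x0) (nat_lit 0x2a000000000000000000000000000000000000000) := D_11 (nat_lit 159) (nat_lit 161) (nat_lit 157) (nat_lit 0) (nat_lit 8) (nat_lit 9) (nat_lit 2) (nat_lit 4) (nat_lit 9) (by decide +kernel)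
theorem L35655 : W_11 (nat_lit 2) (nat_lit 0x8003c0014001b000e0000000000000000000000000000000) (nat_lit 0x0) (nat_lit 0x10000000000003000000000000000000000000000000000000000) := D_11 (nat_lit 157) (nat_lit 156) (nat_lit 208) (nat_lit 0) (nat_lit 7) (nat_lit 10) (nat_lit 6) (nat_lit 4) (nat_lit 12) (by decide +kernel)
theorem L35656 : W_11 (nat_lit 3) (nat_lit 0x3c0014001b000e0000000000000000000000000000000) (nat_lit 0x0) (nat_lit 0x10000c00000003000000000000000000000000000000000000000) := T_11 (nat_lit 191) (nat_lit 190) (nat_lit 1) (nat_lit 7) (nat_lit 10) L35655 (by decide +kernel)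
theorem L35657 : W_11 (nat_lit 4) (nat_lit 0x380014001b000e0000000000000000000000000000000) (nat_lit 0x0) (nat_lit 0x10000c00040023000000000000000000000000000000000000000) := T_11 (nat_lit 174) (nat_lit 161) (nat_lit 2) (nat_lit 4) (nat_lit 10) L35656 (by decide +kernel)
theorem L35658 : W_11 (nat_lit 5) (nat_lit 0x280014001b000e0000000000000000000000000000000) (nat_lit 0x0) (nat_lit 0x10002c00140023000000000000000000000000000000000000000) := T_11 (nat_lit 176) (nat_lit 193) (nat_lit 5) (nat_lit 7) (nat_lit 7) L35657 (by decide +kernel)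
theorem L35659 : W_11 (nat_lit 6) (nat_lit 0x280014001b000c0000000000000000000000000000000) (nat_lit 0x0) (nat_lit 0x10002c00140023000000020001000000000000000000000000000) := T_11 (nat_lit 125) (nat_lit 108) (nat_lit 4) (nat_lit 7) (nat_lit 10) L35658 (by decide +kernel)
theorem L35660 : W_11 (nat_lit 5) (nat_lit 0x280014001b000c0000000000000000000000000000000) (nat_lit 0x0) (nat_lit 0x10003c00140020000000008000000000000000000000000000000) := T_11 (nat_lit 176) (nat_lit 193) (nat_lit 5) (nat_lit 7) (nat_lit 7) L34346 (by decide +kernel)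
theorem L35661 : W_11 (nat_lit 2) (nat_lit 0x10003000280014001b000e0000000000000000000000000000000) (nat_lit 0x0) (nat_lit 0x200020000000000002000000000000000000000000000000000000000) := D_11 (nat_lit 209) (nat_lit 157) (nat_lit 225) (nat_lit 4) (nat_lit 5) (nat_lit 12) (nat_lit 5) (nat_lit 5) (nat_lit 9) (by decide +kernel)
theorem L35662 : W_11 (nat_lit 3) (nat_lit 0x3000280014001b000e0000000000000000000000000000000) (nat_lit 0x0) (nat_lit 0x200030000800000002000000000000000000000000000000000000000) := T_11 (nat_lit 208) (nat_lit 191) (nat_lit 5) (nat_lit 5) (nat_lit 8) L35661 (by decide +kernel)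
theorem L35663 : W_11 (nat_lit 4) (nat_lit 0x1000280014001b000e0000000000000000000000000000000) (nat_lit 0x0) (nat_lit 0x200070002800000002000000000000000000000000000000000000000) := T_11 (nat_lit 193) (nat_lit 210) (nat_lit 7) (nat_lit 5) (nat_lit 8) L35662 (by decide +kernel)
theorem L35664 : W_11 (nat_lit 5) (nat_lit 0x1000280014001b000c0000000000000000000000000000000) (nat_lit 0x0) (nat_lit 0x200070002800000002000000020001000000000000000000000000000) := T_11 (nat_lit 125) (nat_lit 108) (nat_lit 4) (nat_lit 7) (nat_lit 10) L35663 (by decide +kernel)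
theorem L35665 : W_11 (nat_lit 6) (nat_lit 0x280014001b000c0000000000000000000000000000000) (nat_lit 0x0) (nat_lit 0x200070003800000002000000028001000000000000000000000000000) := T_11 (nat_lit 192) (nat_lit 123) (nat_lit 4) (nat_lit 5) (nat_lit 11) L35664 (by decide +kernel)
theorem L35666 : W_11 (nat_lit 2) (nat_lit 0xe000200018002c0014001b000e0000000000000000000000000000000) (nat_lit 0x0) (nat_lit 0x400100020000000000000000000000000000000000000000) := D_11 (nat_lit 176) (nat_lit 161) (nat_lit 190) (nat_lit 2) (nat_lit 4) (nat_lit 10) (nat_lit 1) (nat_lit 7) (nat_lit 10) (by decide +kernel)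
theorem L35667 : W_11 (nat_lit 3) (nat_lit 0xe00020001800280014001b000e0000000000000000000000000000000) (nat_lit 0x0) (nat_lit 0x8000000000000400140020000000000000000000000000000000000000000) := T_11 (nat_lit 174) (nat_lit 243) (nat_lit 4) (nat_lit 5) (nat_lit 14) L35666 (by decide +kernel)
theorem L35668 : W_11 (nat_lit 4) (nat_lit 0xc00020001800280014001b000e0000000000000000000000000000000) (nat_lit 0x0) (nat_lit 0xc000200000000400140020000000000000000000000000000000000000000) := T_11 (nat_lit 225) (nat_lit 242) (nat_lit 5) (nat_lit 5) (nat_lit 10) L35667 (by decide +kernel)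
theorem L35669 : W_11 (nat_lit 5) (nat_lit 0x800020001800280014001b000e0000000000000000000000000000000) (nat_lit 0x0) (nat_lit 0x1c000600000000400140020000000000000000000000000000000000000000) := T_11 (nat_lit 226) (nat_lit 244) (nat_lit 7) (nat_lit 5) (nat_lit 10) L35668 (by decide +kernel)
theorem L35670 : W_11 (nat_lit 6) (nat_lit 0x20001800280014001b000e0000000000000000000000000000000) (nat_lit 0x0) (nat_lit 0x1c000e00040000400140020000000000000000000000000000000000000000) := T_11 (nat_lit 227) (nat_lit 210) (nat_lit 7) (nat_lit 5) (nat_lit 9) L35669 (by decide +kernel)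
theorem L35671 : W_11 (nat_lit 7) (nat_lit 0x1800280014001b000e0000000000000000000000000000000) (nat_lit 0x0) (nat_lit 0x1c000e00060000400140022000000000000000000000000000000000000000) := T_11 (nat_lit 209) (nat_lit 157) (nat_lit 4) (nat_lit 5) (nat_lit 12) L35670 (by decide +kernel)
theorem L35672 : W_11 (nat_lit 8) (nat_lit 0x1000280014001b000e0000000000000000000000000000000) (nat_lit 0x0) (nat_lit 0x1c000e00070000c00140022000000000000000000000000000000000000000) := T_11 (nat_lit 191) (nat_lit 208) (nat_lit 5) (nat_lit 5) (nat_lit 8) L35671 (by decide +kernel)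
theorem L35673 : W_11 (nat_lit 9) (nat_lit 0x1000280014001b000c0000000000000000000000000000000) (nat_lit 0x0) (nat_lit 0x1c000e00070000c00140022000000020001000000000000000000000000000) := T_11 (nat_lit 125) (nat_lit 108) (nat_lit 4) (nat_lit 7) (nat_lit 10) L35672 (by decide +kernel)
theorem L35674 : W_11 (nat_lit 10) (nat_lit 0x280014001b000c0000000000000000000000000000000) (nat_lit 0x0) (nat_lit 0x1c000e00070001c00140022000000028001000000000000000000000000000) := T_11 (nat_lit 192) (nat_lit 123) (nat_lit 4) (nat_lit 5) (nat_lit 11) L35673 (by decide +kernel)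
theorem L35675 : W_11 (nat_lit 2) (nat_lit 0x1000280014001b000c0000000000000000000000000000000) (nat_lit 0x0) (nat_lit 0x40002000100000000000000000000000000000000000000000000) := D_11 (nat_lit 193) (nat_lit 176) (nat_lit 210) (nat_lit 5) (nat_lit 7) (nat_lit 7) (nat_lit 7) (nat_lit 5) (nat_lit 8) (by decide +kernel)
theorem L35676 : W_11 (nat_lit 3) (nat_lit 0x280014001b000c0000000000000000000000000000000) (nat_lit 0x0) (nat_lit 0x40003000100000000000008000000000000000000000000000000) := T_11 (nat_lit 192) (nat_lit 123) (nat_lit 4) (nat_lit 5) (nat_lit 11) L35675 (by decide +kernel)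
theorem L35677 : W_11 (nat_lit 11) (nat_lit 0x200014001b000c0000000000000000000000000000000) (nat_lit 0x0) (nat_lit 0x1c000e00070003c001c0023000000028001000000000000000000000000000) := Q_11 (nat_lit 175) (C_11 L35659 (C_11 L35660 (C_11 L35665 (C_11 L35674 (C_11 L35676 N_11))))) (by decide +kernel)
theorem L35678 : W_11 (nat_lit 2) (nat_lit 0x380014001b000c0000000000000000000000000000000) (nat_lit 0x0) (nat_lit 0x40028000000000000000000000000000000000000000) := D_11 (nat_lit 161) (nat_lit 174) (nat_lit 159) (nat_lit 2) (nat_lit 4) (nat_lit 10) (nat_lit 0) (nat_lit 8) (nat_lit 9) (by decide +kernel)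
theorem L35679 : W_11 (nat_lit 3) (nat_lit 0x280014001b000c0000000000000000000000000000000) (nat_lit 0x0) (nat_lit 0x2000140028000000000000000000000000000000000000000) := T_11 (nat_lit 176) (nat_lit 193) (nat_lit 5) (nat_lit 7) (nat_lit 7) L35678 (by decide +kernel)
theorem L35680 : W_11 (nat_lit 2) (nat_lit 0x50001000280034001b000e0000000000000000000000000000000) (nat_lit 0x0) (nat_lit 0xa00020000000000000000000000000000000000000000000000000000) := D_11 (nat_lit 209) (nat_lit 227) (nat_lit 225) (nat_lit 7) (nat_lit 5) (nat_lit 9) (nat_lit 5) (nat_lit 5) (nat_lit 9) (by decide +kernel)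
theorem L35681 : W_11 (nat_lit 3) (nat_lit 0x40001000280034001b000e0000000000000000000000000000000) (nat_lit 0x0) (nat_lit 0xa00030000800000000000000000000000000000000000000000000000) := T_11 (nat_lit 208) (nat_lit 191) (nat_lit 5) (nat_lit 5) (nat_lit 8) L35680 (by decide +kernel)
theorem L35682 : W_11 (nat_lit 4) (nat_lit 0x1000280034001b000e0000000000000000000000000000000) (nat_lit 0x0) (nat_lit 0xa00070002800000000000000000000000000000000000000000000000) := T_11 (nat_lit 210) (nat_lit 193) (nat_lit 7) (nat_lit 5) (nat_lit 8) L35681 (by decide +kernel)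
theorem L35683 : W_11 (nat_lit 5) (nat_lit 0x1000280034001b000c0000000000000000000000000000000) (nat_lit 0x0) (nat_lit 0xa00070002800000000000000020001000000000000000000000000000) := T_11 (nat_lit 125) (nat_lit 108) (nat_lit 4) (nat_lit 7) (nat_lit 10) L35682 (by decide +kernel)
theorem L35684 : W_11 (nat_lit 6) (nat_lit 0x280034001b000c0000000000000000000000000000000) (nat_lit 0x0) (nat_lit 0xa00070003800000000000000028001000000000000000000000000000) := T_11 (nat_lit 192) (nat_lit 123) (nat_lit 4) (nat_lit 5) (nat_lit 11) L35683 (by decide +kernel)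
theorem L35685 : W_11 (nat_lit 7) (nat_lit 0x280014001b000c0000000000000000000000000000000) (nat_lit 0x0) (nat_lit 0xa00070003800000028000000028001000000000000000000000000000) := T_11 (nat_lit 161) (nat_lit 159) (nat_lit 0) (nat_lit 8) (nat_lit 9) L35684 (by decide +kernel)
theorem L35686 : W_11 (nat_lit 2) (nat_lit 0x40003000100028001c001b000e0000000000000000000000000000000) (nat_lit 0x0) (nat_lit 0x10000800040000000000000000000000000000000000000000000000000000) := D_11 (nat_lit 227) (nat_lit 210) (nat_lit 244) (nat_lit 7) (nat_lit 5) (nat_lit 9) (nat_lit 7) (nat_lit 5) (nat_lit 10) (by decide +kernel)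
theorem L35687 : W_11 (nat_lit 3) (nat_lit 0x3000100028001c001b000e0000000000000000000000000000000) (nat_lit 0x0) (nat_lit 0x10000c00040000000100000000000000000000000000000000000000000000) := T_11 (nat_lit 226) (nat_lit 176) (nat_lit 6) (nat_lit 5) (nat_lit 13) L35686 (by decide +kernel)
theorem L35688 : W_11 (nat_lit 4) (nat_lit 0x1000100028001c001b000e0000000000000000000000000000000) (nat_lit 0x0) (nat_lit 0x10000e00060000000100000000000000000000000000000000000000000000) := T_11 (nat_lit 209) (nat_lit 225) (nat_lit 5) (nat_lit 5) (nat_lit 9) L35687 (by decide +kernel)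
theorem L35689 : W_11 (nat_lit 5) (nat_lit 0x100028001c001b000e0000000000000000000000000000000) (nat_lit 0x0) (nat_lit 0x10000e00070000800100000000000000000000000000000000000000000000) := T_11 (nat_lit 208) (nat_lit 191) (nat_lit 5) (nat_lit 5) (nat_lit 8) L35688 (by decide +kernel)
theorem L35690 : W_11 (nat_lit 6) (nat_lit 0x28001c001b000e0000000000000000000000000000000) (nat_lit 0x0) (nat_lit 0x10000e00070001800100000000000008000000000000000000000000000000) := T_11 (nat_lit 192) (nat_lit 123) (nat_lit 4) (nat_lit 5) (nat_lit 11) L35689 (by decide +kernel)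
theorem L35691 : W_11 (nat_lit 7) (nat_lit 0x280014001b000e0000000000000000000000000000000) (nat_lit 0x0) (nat_lit 0x10000e00070001800100028000000008000000000000000000000000000000) := T_11 (nat_lit 159) (nat_lit 161) (nat_lit 0) (nat_lit 8) (nat_lit 9) L35690 (by decide +kernel)
theorem L35692 : W_11 (nat_lit 8) (nat_lit 0x280014001b000c0000000000000000000000000000000) (nat_lit 0x0) (nat_lit 0x10000e00070001800100028000000028001000000000000000000000000000) := T_11 (nat_lit 125) (nat_lit 108) (nat_lit 4) (nat_lit 7) (nat_lit 10) L35691 (by decide +kernel)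
theorem L35693 : W_11 (nat_lit 9) (nat_lit 0x200014001b000c0000000000000000000000000000000) (nat_lit 0x0) (nat_lit 0x10000e000700038001c0028000000028001000000000000000000000000000) := Q_11 (nat_lit 175) (C_11 L35679 (C_11 L35685 (C_11 L35692 (C_11 L35676 N_11)))) (by decide +kernel)
theorem L35694 : W_11 (nat_lit 2) (nat_lit 0x20000000380016001b000e0000000000000000000000000000000) (nat_lit 0x0) (nat_lit 0x40001800000000000000000000000000000000000000) := D_11 (nat_lit 156) (nat_lit 155) (nat_lit 174) (nat_lit 3) (nat_lit 2) (nat_lit 9) (nat_lit 0) (nat_lit 7) (nat_lit 10) (by decide +kernel)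
theorem L35695 : W_11 (nat_lit 3) (nat_lit 0x20000000280016001b000e0000000000000000000000000000000) (nat_lit 0x0) (nat_lit 0x2000140001800000000000000000000000000000000000000) := T_11 (nat_lit 176) (nat_lit 193) (nat_lit 5) (nat_lit 7) (nat_lit 7) L35694 (by decide +kernel)
theorem L35696 : W_11 (nat_lit 4) (nat_lit 0x280016001b000e0000000000000000000000000000000) (nat_lit 0x0) (nat_lit 0x20003000140001800000000000000000000000000000000000000) := T_11 (nat_lit 209) (nat_lit 192) (nat_lit 4) (nat_lit 5) (nat_lit 12) L35695 (by decide +kernel)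
theorem L35697 : W_11 (nat_lit 5) (nat_lit 0x280016001b000c0000000000000000000000000000000) (nat_lit 0x0) (nat_lit 0x20003000140001800000020001000000000000000000000000000) := T_11 (nat_lit 125) (nat_lit 108) (nat_lit 4) (nat_lit 7) (nat_lit 10) L35696 (by decide +kernel)
theorem L35698 : W_11 (nat_lit 6) (nat_lit 0x280014001b000c0000000000000000000000000000000) (nat_lit 0x0) (nat_lit 0x2000300014000b800000020001000000000000000000000000000) := T_11 (nat_lit 157) (nat_lit 159) (nat_lit 2) (nat_lit 4) (nat_lit 9) L35697 (by decide +kernel)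
theorem L35699 : W_11 (nat_lit 2) (nat_lit 0x1000280014001b000c0000000000000000000000000000000) (nat_lit 0x0) (nat_lit 0x2000000000000a000000000000000000000000000000000000000) := D_11 (nat_lit 157) (nat_lit 159) (nat_lit 209) (nat_lit 2) (nat_lit 4) (nat_lit 9) (nat_lit 4) (nat_lit 5) (nat_lit 12) (by decide +kernel)
theorem L35700 : W_11 (nat_lit 3) (nat_lit 0x280014001b000c0000000000000000000000000000000) (nat_lit 0x0) (nat_lit 0x2000100000000a000000008000000000000000000000000000000) := T_11 (nat_lit 192) (nat_lit 123) (nat_lit 4) (nat_lit 5) (nat_lit 11) L35699 (by decide +kernel)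
theorem L35701 : W_11 (nat_lit 2) (nat_lit 0x380016001b000e0000000000000000000000000000000) (nat_lit 0x0) (nat_lit 0x40001800000000000000000000000000000000000000) := D_11 (nat_lit 156) (nat_lit 174) (nat_lit 155) (nat_lit 0) (nat_lit 7) (nat_lit 10) (nat_lit 3) (nat_lit 2) (nat_lit 9) (by decide +kernel)
theorem L35702 : W_11 (nat_lit 3) (nat_lit 0x380014001b000e0000000000000000000000000000000) (nat_lit 0x0) (nat_lit 0x4000b800000000000000000000000000000000000000) := T_11 (nat_lit 157) (nat_lit 159) (nat_lit 2) (nat_lit 4) (nat_lit 9) L35701 (by decide +kernel)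
theorem L35703 : W_11 (nat_lit 4) (nat_lit 0x280014001b000e0000000000000000000000000000000) (nat_lit 0x0) (nat_lit 0x200014000b800000000000000000000000000000000000000) := T_11 (nat_lit 176) (nat_lit 193) (nat_lit 5) (nat_lit 7) (nat_lit 7) L35702 (by decide +kernel)
theorem L35704 : W_11 (nat_lit 5) (nat_lit 0x280014001b000c0000000000000000000000000000000) (nat_lit 0x0) (nat_lit 0x200014000b800000020001000000000000000000000000000) := T_11 (nat_lit 125) (nat_lit 108) (nat_lit 4) (nat_lit 7) (nat_lit 10) L35703 (by decide +kernel)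
theorem L35705 : W_11 (nat_lit 7) (nat_lit 0x200014001b000c0000000000000000000000000000000) (nat_lit 0x0) (nat_lit 0x2000700038001c000b800000028001000000000000000000000000000) := Q_11 (nat_lit 175) (C_11 L35676 (C_11 L35698 (C_11 L35665 (C_11 L35700 (C_11 L35704 N_11))))) (by decide +kernel)
theorem L35706 : W_11 (nat_lit 12) (nat_lit 0x200010001b000c0000000000000000000000000000000) (nat_lit 0x0) (nat_lit 0x1c000e00070003c001c002f800000028001000000000000000000000000000) := Q_11 (nat_lit 158) (C_11 L35654 (C_11 L35677 (C_11 L35693 (C_11 L35705 N_11)))) (by decide +kernel)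
theorem L35707 : W_11 (nat_lit 2) (nat_lit 0x300010001b000c0001000000000000000000000000000) (nat_lit 0x0) (nat_lit 0x8000000000002000080000000000000000000000) := D_11 (nat_lit 109) (nat_lit 159) (nat_lit 91) (nat_lit 5) (nat_lit 7) (nat_lit 6) (nat_lit 4) (nat_lit 7) (nat_lit 9) (by decide +kernel)
theorem L35708 : W_11 (nat_lit 3) (nat_lit 0x200010001b000c0001000000000000000000000000000) (nat_lit 0x0) (nat_lit 0x2000100008000000000002000080000000000000000000000) := T_11 (nat_lit 176) (nat_lit 193) (nat_lit 5) (nat_lit 7) (nat_lit 7) L35707 (by decide +kernel)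
theorem L35709 : W_11 (nat_lit 4) (nat_lit 0x200010001b000c0000000000000000000000000000000) (nat_lit 0x0) (nat_lit 0x2000100008000000020003000080000000000000000000000) := T_11 (nat_lit 108) (nat_lit 125) (nat_lit 4) (nat_lit 7) (nat_lit 10) L35708 (by decide +kernel)
theorem L35710 : W_11 (nat_lit 13) (nat_lit 0x200010001b00080000000000000000000000000000000) (nat_lit 0x0) (nat_lit 0x1c000e00070003c001c002f800000068003000180008000000000000000000) := Q_11 (nat_lit 126) (C_11 L35649 (C_11 L35650 (C_11 L35653 (C_11 L35706 (C_11 L35709 N_11))))) (by decide +kernel)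
theorem L35711 : W_11 (nat_lit 14) (nat_lit 0x200000001b00080000000000000000000000000000000) (nat_lit 0x0) (nat_lit 0x1c000e00070007c001c003f800000068003000180008000000000000000000) := T_11 (nat_lit 160) (nat_lit 194) (nat_lit 6) (nat_lit 7) (nat_lit 11) L35710 (by decide +kernel)
theorem L35712 : W_11 (nat_lit 15) (nat_lit 0x200000001300080000000000000000000000000000000) (nat_lit 0x0) (nat_lit 0x1c000e00070007c001c003f800c00168003000180008000000000000000000) := Q_11 (nat_lit 143) (C_11 L35643 (C_11 L35644 (C_11 L35645 (C_11 L35711 N_11)))) (by decide +kernel)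
theorem L35713 : W_11 (nat_lit 14) (nat_lit 0x200000001300080000000000000000000000000000000) (nat_lit 0x0) (nat_lit 0x1e001f801fc00ce016f003e001f0000000000000000000000) := Q_11 (nat_lit 142) (C_11 L34311 (C_11 L34796 (C_11 L34794 N_11))) (by decide +kernel)
theorem L35714 : W_11 (nat_lit 14) (nat_lit 0x200000001700080000000000000000000000000000000) (nat_lit 0x0) (nat_lit 0x2a007f001b801fc000c006f003e00178000000000000000000000) := Q_11 (nat_lit 139) (C_11 L34336 (C_11 L34793 (C_11 L34792 (C_11 L34297 N_11)))) (by decide +kernel)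
theorem L35715 : W_11 (nat_lit 15) (nat_lit 0x200000001300080000000000000000000000000000000) (nat_lit 0x0) (nat_lit 0x2a007f001b803fc00cc016f003e00178000000000000000000000) := Q_11 (nat_lit 142) (C_11 L34341 (C_11 L35714 (C_11 L34314 N_11))) (by decide +kernel)
theorem L35716 : W_11 (nat_lit 11) (nat_lit 0x200000001300080000000000000000000000000000000) (nat_lit 0x0) (nat_lit 0x4e0017003fc00ce010f000600010000000000000000000000) := Q_11 (nat_lit 142) (C_11 L34341 (C_11 L34794 (C_11 L34314 N_11))) (by decide +kernel)
theorem L35717 : W_11 (nat_lit 14) (nat_lit 0x200000001700080000000000000000000000000000000) (nat_lit 0x0) (nat_lit 0x2a007f001b801dc000c006f003e00170000000000000000000000) := Q_11 (nat_lit 139) (C_11 L34336 (C_11 L34793 (C_11 L34792 (C_11 L33800 (C_11 L33815 N_11))))) (by decide +kernel)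
theorem L35718 : W_11 (nat_lit 15) (nat_lit 0x200000001300080000000000000000000000000000000) (nat_lit 0x0) (nat_lit 0x2a007f001b803dc00cc016f003e00170000000000000000000000) := Q_11 (nat_lit 142) (C_11 L34341 (C_11 L34340 (C_11 L34311 (C_11 L35717 N_11)))) (by decide +kernel)
theorem L35721 : W_11 (nat_lit 12) (nat_lit 0x2000000017000a0000000000000000000000000000000) (nat_lit 0x0) (nat_lit 0x500018001e00008004e003e00178000000000000000000000) := T_11 (nat_lit 139) (nat_lit 126) (nat_lit 2) (nat_lit 3) (nat_lit 8) L35720 (by decide +kernel)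
theorem L35726 : W_11 (nat_lit 2) (nat_lit 0x2000080017000a0003000000000000000000000000000) (nat_lit 0x0) (nat_lit 0x4000100000000000040000000000000000000000000000000) := D_11 (nat_lit 176) (nat_lit 194) (nat_lit 126) (nat_lit 7) (nat_lit 6) (nat_lit 7) (nat_lit 6) (nat_lit 6) (nat_lit 10) (by decide +kernel)
theorem L35727 : W_11 (nat_lit 3) (nat_lit 0x2000080017000a0001000000000000000000000000000) (nat_lit 0x0) (nat_lit 0x4000100000000000040002000100000000000000000000000) := T_11 (nat_lit 109) (nat_lit 92) (nat_lit 6) (nat_lit 6) (nat_lit 9) L35726 (by decide +kernel)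
theorem L35728 : W_11 (nat_lit 4) (nat_lit 0x2000080017000a0000000000000000000000000000000) (nat_lit 0x0) (nat_lit 0x4000100010000000040003000100000000000000000000000) := T_11 (nat_lit 108) (nat_lit 160) (nat_lit 7) (nat_lit 6) (nat_lit 6) L35727 (by decide +kernel)
theorem L35729 : W_11 (nat_lit 2) (nat_lit 0x2000080017001a0001000000000000000000000000000) (nat_lit 0x0) (nat_lit 0x80004000000000000000080000000000000000000000) := D_11 (nat_lit 158) (nat_lit 91) (nat_lit 175) (nat_lit 5) (nat_lit 6) (nat_lit 5) (nat_lit 5) (nat_lit 6) (nat_lit 6) (by decide +kernel)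
theorem L35730 : W_11 (nat_lit 3) (nat_lit 0x2000080017001a0000000000000000000000000000000) (nat_lit 0x0) (nat_lit 0x80014000000000001000080000000000000000000000) := T_11 (nat_lit 108) (nat_lit 160) (nat_lit 7) (nat_lit 6) (nat_lit 6) L35729 (by decide +kernel)
theorem L35731 : W_11 (nat_lit 4) (nat_lit 0x2000080017000a0000000000000000000000000000000) (nat_lit 0x0) (nat_lit 0x80014000000140001000080000000000000000000000) := T_11 (nat_lit 128) (nat_lit 126) (nat_lit 1) (nat_lit 9) (nat_lit 7) L35730 (by decide +kernel)
theorem L35736 : W_11 (nat_lit 6) (nat_lit 0x2000000017000a0000000000000000000000000000000) (nat_lit 0x0) (nat_lit 0x500018001c000000140003000180000000000000000000000) := Q_11 (nat_lit 159) (C_11 L35725 (C_11 L35728 (C_11 L35731 (C_11 L35733 (C_11 L35735 N_11))))) (by decide +kernel)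
theorem L35744 : W_11 (nat_lit 2) (nat_lit 0x3800080017c00a0000000000000000000000000000000) (nat_lit 0x0) (nat_lit 0x7000000000000000000000000000000) := D_11 (nat_lit 121) (nat_lit 120) (nat_lit 122) (nat_lit 0) (nat_lit 5) (nat_lit 8) (nat_lit 0) (nat_lit 6) (nat_lit 8) (by decide +kernel)
theorem L35745 : W_11 (nat_lit 3) (nat_lit 0x3800080017800a0000000000000000000000000000000) (nat_lit 0x0) (nat_lit 0x4000040007000000000000000000000000000000) := T_11 (nat_lit 138) (nat_lit 158) (nat_lit 3) (nat_lit 2) (nat_lit 8) L35744 (by decide +kernel)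
theorem L35746 : W_11 (nat_lit 4) (nat_lit 0x3800080017000a0000000000000000000000000000000) (nat_lit 0x0) (nat_lit 0x140000c0007000000000000000000000000000000) := T_11 (nat_lit 139) (nat_lit 160) (nat_lit 3) (nat_lit 3) (nat_lit 8) L35745 (by decide +kernel)
theorem L35747 : W_11 (nat_lit 5) (nat_lit 0x3000080017000a0000000000000000000000000000000) (nat_lit 0x0) (nat_lit 0x10000800140000c0007000000000000000000000000000000) := T_11 (nat_lit 175) (nat_lit 192) (nat_lit 5) (nat_lit 6) (nat_lit 7) L35746 (by decide +kernel)
theorem L35748 : W_11 (nat_lit 6) (nat_lit 0x2000080017000a0000000000000000000000000000000) (nat_lit 0x0) (nat_lit 0x50001800140000c0007000000000000000000000000000000) := T_11 (nat_lit 176) (nat_lit 194) (nat_lit 7) (nat_lit 6) (nat_lit 7) L35747 (by decide +kernel)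
theorem L35749 : W_11 (nat_lit 8) (nat_lit 0x2000000017000a0000000000000000000000000000000) (nat_lit 0x0) (nat_lit 0x500018001c0000c00070038001c000a000000000000000000) := Q_11 (nat_lit 159) (C_11 L35733 (C_11 L35737 (C_11 L35743 (C_11 L35748 N_11)))) (by decide +kernel)
theorem L35750 : W_11 (nat_lit 13) (nat_lit 0x200000001700080000000000000000000000000000000) (nat_lit 0x0) (nat_lit 0x500018001e0000c016f003e001f800a000000000000000000) := Q_11 (nat_lit 125) (C_11 L35719 (C_11 L35721 (C_11 L35736 (C_11 L35749 N_11)))) (by decide +kernel)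
theorem L35751 : W_11 (nat_lit 14) (nat_lit 0x200000001300080000000000000000000000000000000) (nat_lit 0x0) (nat_lit 0x500018003f000cc016f003e001f800a000000000000000000) := Q_11 (nat_lit 142) (C_11 L34341 (C_11 L34340 (C_11 L34314 (C_11 L35750 N_11)))) (by decide +kernel)
theorem L35752 : W_11 (nat_lit 15) (nat_lit 0x200000001700080000000000000000000000000000000) (nat_lit 0x0) (nat_lit 0x2a007f001f801fc000c0067001a001f000e000400000000000000) := Q_11 (nat_lit 139) (C_11 L34336 (C_11 L34793 (C_11 L34792 (C_11 L34274 N_11)))) (by decide +kernel)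
theorem L35753 : W_11 (nat_lit 16) (nat_lit 0x200000001300080000000000000000000000000000000) (nat_lit 0x0) (nat_lit 0x2a007f001f803fc00cc0167001a001f000e000400000000000000) := Q_11 (nat_lit 142) (C_11 L34341 (C_11 L34340 (C_11 L34314 (C_11 L35752 N_11)))) (by decide +kernel)
theorem L35754 : W_11 (nat_lit 2) (nat_lit 0x20001000280004001300080000000000000000000000000000000) (nat_lit 0x0) (nat_lit 0x800040002000000000000000000000000000000000000000000000000) := D_11 (nat_lit 210) (nat_lit 193) (nat_lit 227) (nat_lit 7) (nat_lit 5) (nat_lit 8) (nat_lit 7) (nat_lit 5) (nat_lit 9) (by decide +kernel)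
theorem L35755 : W_11 (nat_lit 3) (nat_lit 0x1000280004001300080000000000000000000000000000000) (nat_lit 0x0) (nat_lit 0x800060002000000002000000000000000000000000000000000000000) := T_11 (nat_lit 209) (nat_lit 157) (nat_lit 4) (nat_lit 5) (nat_lit 12) L35754 (by decide +kernel)
theorem L35756 : W_11 (nat_lit 4) (nat_lit 0x280004001300080000000000000000000000000000000) (nat_lit 0x0) (nat_lit 0x800060003000000002000000008000000000000000000000000000000) := T_11 (nat_lit 192) (nat_lit 123) (nat_lit 4) (nat_lit 5) (nat_lit 11) L35755 (by decide +kernel)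
theorem L35757 : W_11 (nat_lit 2) (nat_lit 0x20001000280004001300080000000000000000000000000000000) (nat_lit 0x0) (nat_lit 0x200010000800000000000000000000000000000000000000000000000) := D_11 (nat_lit 208) (nat_lit 191) (nat_lit 225) (nat_lit 5) (nat_lit 5) (nat_lit 8) (nat_lit 5) (nat_lit 5) (nat_lit 9) (by decide +kernel)
theorem L35758 : W_11 (nat_lit 3) (nat_lit 0x1000280004001300080000000000000000000000000000000) (nat_lit 0x0) (nat_lit 0x200030000800000002000000000000000000000000000000000000000) := T_11 (nat_lit 209) (nat_lit 157) (nat_lit 4) (nat_lit 5) (nat_lit 12) L35757 (by decide +kernel)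
theorem L35759 : W_11 (nat_lit 4) (nat_lit 0x280004001300080000000000000000000000000000000) (nat_lit 0x0) (nat_lit 0x200030001800000002000000008000000000000000000000000000000) := T_11 (nat_lit 192) (nat_lit 123) (nat_lit 4) (nat_lit 5) (nat_lit 11) L35758 (by decide +kernel)
theorem L35760 : W_11 (nat_lit 8) (nat_lit 0x1800280004001300080000000000000000000000000000000) (nat_lit 0x0) (nat_lit 0xcc006400170038000800000000000000000000000000000000000) := T_11 (nat_lit 193) (nat_lit 210) (nat_lit 7) (nat_lit 5) (nat_lit 8) L33384 (by decide +kernel)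
theorem L35761 : W_11 (nat_lit 9) (nat_lit 0x1000280004001300080000000000000000000000000000000) (nat_lit 0x0) (nat_lit 0xdc006c00170038000800000000000000000000000000000000000) := T_11 (nat_lit 191) (nat_lit 208) (nat_lit 5) (nat_lit 5) (nat_lit 8) L35760 (by decide +kernel)
theorem L35762 : W_11 (nat_lit 10) (nat_lit 0x280004001300080000000000000000000000000000000) (nat_lit 0x0) (nat_lit 0xdc007c00170038000800008000000000000000000000000000000) := T_11 (nat_lit 192) (nat_lit 123) (nat_lit 4) (nat_lit 5) (nat_lit 11) L35761 (by decide +kernel)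
theorem L35763 : W_11 (nat_lit 2) (nat_lit 0x280034001300080000000000000000000000000000000) (nat_lit 0x0) (nat_lit 0x80004000000000000800000000000000000000000000000000000) := D_11 (nat_lit 194) (nat_lit 143) (nat_lit 211) (nat_lit 6) (nat_lit 7) (nat_lit 11) (nat_lit 6) (nat_lit 7) (nat_lit 12) (by decide +kernel)
theorem L35764 : W_11 (nat_lit 3) (nat_lit 0x280014001300080000000000000000000000000000000) (nat_lit 0x0) (nat_lit 0x80004000000028000800000000000000000000000000000000000) := T_11 (nat_lit 161) (nat_lit 159) (nat_lit 0) (nat_lit 8) (nat_lit 9) L35763 (by decide +kernel)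
theorem L35765 : W_11 (nat_lit 2) (nat_lit 0x2800080004000280014001300080000000000000000000000000000000) (nat_lit 0x0) (nat_lit 0x50001000000000000000000000000000000000000000000000000000000000) := D_11 (nat_lit 228) (nat_lit 244) (nat_lit 246) (nat_lit 5) (nat_lit 7) (nat_lit 10) (nat_lit 7) (nat_lit 7) (nat_lit 10) (by decide +kernel)
theorem L35766 : W_11 (nat_lit 3) (nat_lit 0x800080004000280014001300080000000000000000000000000000000) (nat_lit 0x0) (nat_lit 0x50003000100000000000000000000000000000000000000000000000000000) := T_11 (nat_lit 229) (nat_lit 212) (nat_lit 7) (nat_lit 7) (nat_lit 9) L35765 (by decide +kernel)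
theorem L35767 : W_11 (nat_lit 4) (nat_lit 0x80004000280014001300080000000000000000000000000000000) (nat_lit 0x0) (nat_lit 0x50003800140000000000000000000000000000000000000000000000000000) := T_11 (nat_lit 227) (nat_lit 210) (nat_lit 5) (nat_lit 7) (nat_lit 9) L35766 (by decide +kernel)
theorem L35768 : W_11 (nat_lit 5) (nat_lit 0x4000280014001300080000000000000000000000000000000) (nat_lit 0x0) (nat_lit 0x500038001c0000000000020000000000000000000000000000000000000000) := T_11 (nat_lit 211) (nat_lit 161) (nat_lit 6) (nat_lit 7) (nat_lit 12) L35767 (by decide +kernel)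
theorem L35769 : W_11 (nat_lit 6) (nat_lit 0x280014001300080000000000000000000000000000000) (nat_lit 0x0) (nat_lit 0x500038001c0004000000020000800000000000000000000000000000000000) := T_11 (nat_lit 194) (nat_lit 143) (nat_lit 6) (nat_lit 7) (nat_lit 11) L35768 (by decide +kernel)
theorem L35770 : W_11 (nat_lit 2) (nat_lit 0x400028001c001300080000000000000000000000000000000) (nat_lit 0x0) (nat_lit 0x20000c0000000000000000000000000000000000) := D_11 (nat_lit 139) (nat_lit 157) (nat_lit 138) (nat_lit 0) (nat_lit 7) (nat_lit 9) (nat_lit 3) (nat_lit 2) (nat_lit 8) (by decide +kernel)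
theorem L35771 : W_11 (nat_lit 3) (nat_lit 0x4000280014001300080000000000000000000000000000000) (nat_lit 0x0) (nat_lit 0x2a0000c0000000000000000000000000000000000) := T_11 (nat_lit 159) (nat_lit 161) (nat_lit 0) (nat_lit 8) (nat_lit 9) L35770 (by decide +kernel)
theorem L35772 : W_11 (nat_lit 4) (nat_lit 0x280014001300080000000000000000000000000000000) (nat_lit 0x0) (nat_lit 0x400000002a0008c0000000000000000000000000000000000) := T_11 (nat_lit 194) (nat_lit 143) (nat_lit 6) (nat_lit 7) (nat_lit 11) L35771 (by decide +kernel)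
theorem L35773 : W_11 (nat_lit 2) (nat_lit 0x28001c001300080000000000000000000000000000000) (nat_lit 0x0) (nat_lit 0x2000880000000000000000000000000000000000) := D_11 (nat_lit 157) (nat_lit 139) (nat_lit 143) (nat_lit 0) (nat_lit 7) (nat_lit 9) (nat_lit 2) (nat_lit 4) (nat_lit 9) (by decide +kernel)
theorem L35774 : W_11 (nat_lit 3) (nat_lit 0x280014001300080000000000000000000000000000000) (nat_lit 0x0) (nat_lit 0x2a000880000000000000000000000000000000000) := T_11 (nat_lit 159) (nat_lit 161) (nat_lit 0) (nat_lit 8) (nat_lit 9) L35773 (by decide +kernel)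
theorem L35775 : W_11 (nat_lit 2) (nat_lit 0x280016001300080000000000000000000000000000000) (nat_lit 0x0) (nat_lit 0x4000000008000800000000000000000000000000000000000) := D_11 (nat_lit 143) (nat_lit 194) (nat_lit 159) (nat_lit 6) (nat_lit 7) (nat_lit 11) (nat_lit 2) (nat_lit 4) (nat_lit 9) (by decide +kernel)
theorem L35776 : W_11 (nat_lit 2) (nat_lit 0x40003c0016001300080000000000000000000000000000000) (nat_lit 0x0) (nat_lit 0x10000c00000000000000000000000000000000000000000000000) := D_11 (nat_lit 191) (nat_lit 208) (nat_lit 190) (nat_lit 6) (nat_lit 4) (nat_lit 12) (nat_lit 1) (nat_lit 7) (nat_lit 10) (by decide +kernel)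
theorem L35777 : W_11 (nat_lit 3) (nat_lit 0x40002c0016001300080000000000000000000000000000000) (nat_lit 0x0) (nat_lit 0x10008c00100000000000000000000000000000000000000000000) := T_11 (nat_lit 176) (nat_lit 195) (nat_lit 3) (nat_lit 4) (nat_lit 10) L35776 (by decide +kernel)
theorem L35778 : W_11 (nat_lit 4) (nat_lit 0x2c0016001300080000000000000000000000000000000) (nat_lit 0x0) (nat_lit 0x1000cc00100000000800000000000000000000000000000000000) := T_11 (nat_lit 194) (nat_lit 143) (nat_lit 6) (nat_lit 7) (nat_lit 11) L35777 (by decide +kernel)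
theorem L35779 : W_11 (nat_lit 2) (nat_lit 0x100042002f001680130008d000000000000000000000000000000) (nat_lit 0x0) (nat_lit 0xe0000000000000000000000000000000000) := D_11 (nat_lit 138) (nat_lit 137) (nat_lit 139) (nat_lit 4) (nat_lit 2) (nat_lit 11) (nat_lit 6) (nat_lit 2) (nat_lit 11) (by decide +kernel)
theorem L35780 : W_11 (nat_lit 3) (nat_lit 0x100042002f001600130008d000000000000000000000000000000) (nat_lit 0x0) (nat_lit 0xc000e0000000000000000000000000000000000) := T_11 (nat_lit 155) (nat_lit 154) (nat_lit 0) (nat_lit 5) (nat_lit 10) L35779 (by decide +kernel)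
theorem L35781 : W_11 (nat_lit 4) (nat_lit 0x100040002f001600130008d000000000000000000000000000000) (nat_lit 0x0) (nat_lit 0x300000000c000e0000000000000000000000000000000000) := T_11 (nat_lit 189) (nat_lit 188) (nat_lit 1) (nat_lit 5) (nat_lit 10) L35780 (by decide +kernel)
theorem L35782 : W_11 (nat_lit 5) (nat_lit 0x100040002e001600130008d000000000000000000000000000000) (nat_lit 0x0) (nat_lit 0x300018000c000e0000000000000000000000000000000000) := T_11 (nat_lit 172) (nat_lit 171) (nat_lit 2) (nat_lit 1) (nat_lit 10) L35781 (by decide +kernel)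
theorem L35783 : W_11 (nat_lit 6) (nat_lit 0x100040002c001600130008d000000000000000000000000000000) (nat_lit 0x0) (nat_lit 0x700038000c000e0000000000000000000000000000000000) := T_11 (nat_lit 173) (nat_lit 190) (nat_lit 5) (nat_lit 4) (nat_lit 7) L35782 (by decide +kernel)
theorem L35784 : W_11 (nat_lit 7) (nat_lit 0x100040002c001600130008c000000000000000000000000000000) (nat_lit 0x0) (nat_lit 0x700038000c000e0003000000000000000000000000000000) := T_11 (nat_lit 120) (nat_lit 121) (nat_lit 3) (nat_lit 1) (nat_lit 7) L35783 (by decide +kernel)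
theorem L35785 : W_11 (nat_lit 8) (nat_lit 0x100040002c0016001300088000000000000000000000000000000) (nat_lit 0x0) (nat_lit 0x700038000c000e0007000200000000000000000000000000) := T_11 (nat_lit 122) (nat_lit 105) (nat_lit 4) (nat_lit 4) (nat_lit 10) L35784 (by decide +kernel)
theorem L35786 : W_11 (nat_lit 9) (nat_lit 0x100000002c0016001300088000000000000000000000000000000) (nat_lit 0x0) (nat_lit 0x4700038000c008e0007000200000000000000000000000000) := T_11 (nat_lit 194) (nat_lit 143) (nat_lit 6) (nat_lit 7) (nat_lit 11) L35785 (by decide +kernel)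
theorem L35787 : W_11 (nat_lit 10) (nat_lit 0x100000002c0016001300080000000000000000000000000000000) (nat_lit 0x0) (nat_lit 0x4700038000c008e000f000600000000000000000000000000) := T_11 (nat_lit 123) (nat_lit 106) (nat_lit 7) (nat_lit 4) (nat_lit 6) L35786 (by decide +kernel)
theorem L35788 : W_11 (nat_lit 11) (nat_lit 0x2c0016001300080000000000000000000000000000000) (nat_lit 0x0) (nat_lit 0x10004f00038000c008e000f000600000000000000000000000000) := T_11 (nat_lit 208) (nat_lit 191) (nat_lit 6) (nat_lit 4) (nat_lit 12) L35787 (by decide +kernel)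
theorem L35789 : W_11 (nat_lit 2) (nat_lit 0x100002002f001680130008d000000000000000000000000000000) (nat_lit 0x0) (nat_lit 0xe0000000000000000000000000000000000) := D_11 (nat_lit 138) (nat_lit 137) (nat_lit 139) (nat_lit 4) (nat_lit 2) (nat_lit 11) (nat_lit 6) (nat_lit 2) (nat_lit 11) (by decide +kernel)
theorem L35790 : W_11 (nat_lit 3) (nat_lit 0x100000002f001680130008d000000000000000000000000000000) (nat_lit 0x0) (nat_lit 0x3000000000000e0000000000000000000000000000000000) := T_11 (nat_lit 189) (nat_lit 188) (nat_lit 1) (nat_lit 5) (nat_lit 10) L35789 (by decide +kernel)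
theorem L35791 : W_11 (nat_lit 4) (nat_lit 0x100000002f001600130008d000000000000000000000000000000) (nat_lit 0x0) (nat_lit 0x300000000c000e0000000000000000000000000000000000) := T_11 (nat_lit 155) (nat_lit 154) (nat_lit 0) (nat_lit 5) (nat_lit 10) L35790 (by decide +kernel)
theorem L35792 : W_11 (nat_lit 5) (nat_lit 0x100000002f001600130008c000000000000000000000000000000) (nat_lit 0x0) (nat_lit 0x300000000c000e0003000000000000000000000000000000) := T_11 (nat_lit 120) (nat_lit 121) (nat_lit 3) (nat_lit 1) (nat_lit 7) L35791 (by decide +kernel)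
theorem L35793 : W_11 (nat_lit 6) (nat_lit 0x100000002f0016001300088000000000000000000000000000000) (nat_lit 0x0) (nat_lit 0x300000000c000e0007000200000000000000000000000000) := T_11 (nat_lit 122) (nat_lit 105) (nat_lit 4) (nat_lit 4) (nat_lit 10) L35792 (by decide +kernel)
theorem L35794 : W_11 (nat_lit 7) (nat_lit 0x100000002e0016001300088000000000000000000000000000000) (nat_lit 0x0) (nat_lit 0x300018000c000e0007000200000000000000000000000000) := T_11 (nat_lit 172) (nat_lit 171) (nat_lit 2) (nat_lit 1) (nat_lit 10) L35793 (by decide +kernel)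
theorem L35795 : W_11 (nat_lit 8) (nat_lit 0x100000002c0016001300088000000000000000000000000000000) (nat_lit 0x0) (nat_lit 0x700038000c000e0007000200000000000000000000000000) := T_11 (nat_lit 173) (nat_lit 190) (nat_lit 5) (nat_lit 4) (nat_lit 7) L35794 (by decide +kernel)
theorem L35796 : W_11 (nat_lit 9) (nat_lit 0x100000002c0016001300080000000000000000000000000000000) (nat_lit 0x0) (nat_lit 0x700038000c000e000f000600000000000000000000000000) := T_11 (nat_lit 123) (nat_lit 106) (nat_lit 7) (nat_lit 4) (nat_lit 6) L35795 (by decide +kernel)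
theorem L35797 : W_11 (nat_lit 10) (nat_lit 0x2c0016001300080000000000000000000000000000000) (nat_lit 0x0) (nat_lit 0x10000f00038000c000e000f000600000000000000000000000000) := T_11 (nat_lit 208) (nat_lit 191) (nat_lit 6) (nat_lit 4) (nat_lit 12) L35796 (by decide +kernel)
theorem L35798 : W_11 (nat_lit 2) (nat_lit 0x40003f0016001300080000400000000000000000000000000) (nat_lit 0x0) (nat_lit 0x700000000000000000000000000000000000000000000000) := D_11 (nat_lit 189) (nat_lit 190) (nat_lit 188) (nat_lit 1) (nat_lit 6) (nat_lit 10) (nat_lit 1) (nat_lit 5) (nat_lit 10) (by decide +kernel)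
theorem L35799 : W_11 (nat_lit 3) (nat_lit 0x40003e0016001300080000400000000000000000000000000) (nat_lit 0x0) (nat_lit 0x700018000000000000000000000000000000000000000000) := T_11 (nat_lit 172) (nat_lit 171) (nat_lit 2) (nat_lit 1) (nat_lit 10) L35798 (by decide +kernel)
theorem L35800 : W_11 (nat_lit 4) (nat_lit 0x40003c0016001300080000400000000000000000000000000) (nat_lit 0x0) (nat_lit 0x2700038000000000000000000000000000000000000000000) := T_11 (nat_lit 173) (nat_lit 193) (nat_lit 3) (nat_lit 3) (nat_lit 10) L35799 (by decide +kernel)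
theorem L35801 : W_11 (nat_lit 5) (nat_lit 0x40002c0016001300080000400000000000000000000000000) (nat_lit 0x0) (nat_lit 0xa700138000000000000000000000000000000000000000000) := T_11 (nat_lit 176) (nat_lit 195) (nat_lit 3) (nat_lit 4) (nat_lit 10) L35800 (by decide +kernel)
theorem L35802 : W_11 (nat_lit 6) (nat_lit 0x2c0016001300080000400000000000000000000000000) (nat_lit 0x0) (nat_lit 0xe700138000000800000000000000000000000000000000000) := T_11 (nat_lit 194) (nat_lit 143) (nat_lit 6) (nat_lit 7) (nat_lit 11) L35801 (by decide +kernel)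
theorem L35803 : W_11 (nat_lit 7) (nat_lit 0x2c0016001300080000000000000000000000000000000) (nat_lit 0x0) (nat_lit 0xe700138000000800008000400000000000000000000000000) := T_11 (nat_lit 106) (nat_lit 123) (nat_lit 7) (nat_lit 4) (nat_lit 6) L35802 (by decide +kernel)
theorem L35804 : W_11 (nat_lit 2) (nat_lit 0x48003e8016001300088000000000000000000000000000000) (nat_lit 0x0) (nat_lit 0x80004000200000000000000000000000000) := D_11 (nat_lit 122) (nat_lit 139) (nat_lit 105) (nat_lit 4) (nat_lit 4) (nat_lit 11) (nat_lit 4) (nat_lit 4) (nat_lit 10) (by decide +kernel)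
theorem L35805 : W_11 (nat_lit 3) (nat_lit 0x48003e8016001300080000000000000000000000000000000) (nat_lit 0x0) (nat_lit 0x8000c000600000000000000000000000000) := T_11 (nat_lit 123) (nat_lit 106) (nat_lit 7) (nat_lit 4) (nat_lit 6) L35804 (by decide +kernel)
theorem L35806 : W_11 (nat_lit 4) (nat_lit 0x40003e8016001300080000000000000000000000000000000) (nat_lit 0x0) (nat_lit 0x1000080000000000008000c000600000000000000000000000000) := T_11 (nat_lit 191) (nat_lit 208) (nat_lit 6) (nat_lit 4) (nat_lit 12) L35805 (by decide +kernel)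
theorem L35807 : W_11 (nat_lit 5) (nat_lit 0x40003e0016001300080000000000000000000000000000000) (nat_lit 0x0) (nat_lit 0x1000080001800000008000c000600000000000000000000000000) := T_11 (nat_lit 171) (nat_lit 172) (nat_lit 2) (nat_lit 1) (nat_lit 10) L35806 (by decide +kernel)
theorem L35808 : W_11 (nat_lit 6) (nat_lit 0x40003c0016001300080000000000000000000000000000000) (nat_lit 0x0) (nat_lit 0x1000280003800000008000c000600000000000000000000000000) := T_11 (nat_lit 173) (nat_lit 193) (nat_lit 3) (nat_lit 3) (nat_lit 10) L35807 (by decide +kernel)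
theorem L35809 : W_11 (nat_lit 7) (nat_lit 0x40002c0016001300080000000000000000000000000000000) (nat_lit 0x0) (nat_lit 0x1000a80013800000008000c000600000000000000000000000000) := T_11 (nat_lit 176) (nat_lit 195) (nat_lit 3) (nat_lit 4) (nat_lit 10) L35808 (by decide +kernel)
theorem L35810 : W_11 (nat_lit 8) (nat_lit 0x2c0016001300080000000000000000000000000000000) (nat_lit 0x0) (nat_lit 0x1000e80013800000088000c000600000000000000000000000000) := T_11 (nat_lit 194) (nat_lit 143) (nat_lit 6) (nat_lit 7) (nat_lit 11) L35809 (by decide +kernel)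
theorem L35811 : W_11 (nat_lit 12) (nat_lit 0x280016001300080000000000000000000000000000000) (nat_lit 0x0) (nat_lit 0x1000ef00178000c008e000f000600000000000000000000000000) := Q_11 (nat_lit 174) (C_11 L35778 (C_11 L35788 (C_11 L35797 (C_11 L35803 (C_11 L35810 N_11))))) (by decide +kernel)
theorem L35812 : W_11 (nat_lit 2) (nat_lit 0x280016001300080000000000000000000000000000000) (nat_lit 0x0) (nat_lit 0x8000880000000000000000000000000000000000) := D_11 (nat_lit 159) (nat_lit 143) (nat_lit 139) (nat_lit 2) (nat_lit 4) (nat_lit 9) (nat_lit 0) (nat_lit 7) (nat_lit 9) (by decide +kernel)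
theorem L35813 : W_11 (nat_lit 2) (nat_lit 0x8002c001e001300080000400000000000000000000000000) (nat_lit 0x0) (nat_lit 0x8000400100000000000000000000000000000000000000000000) := D_11 (nat_lit 190) (nat_lit 207) (nat_lit 176) (nat_lit 5) (nat_lit 4) (nat_lit 8) (nat_lit 1) (nat_lit 7) (nat_lit 10) (by decide +kernel)
theorem L35814 : W_11 (nat_lit 3) (nat_lit 0x2c001e001300080000400000000000000000000000000) (nat_lit 0x0) (nat_lit 0x18000c00100000000000000000000000000000000000000000000) := T_11 (nat_lit 191) (nat_lit 208) (nat_lit 6) (nat_lit 4) (nat_lit 12) L35813 (by decide +kernel)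
theorem L35815 : W_11 (nat_lit 4) (nat_lit 0x28001e001300080000400000000000000000000000000) (nat_lit 0x0) (nat_lit 0x18000c00160000000000000000000000000000000000000000000) := T_11 (nat_lit 174) (nat_lit 173) (nat_lit 1) (nat_lit 7) (nat_lit 9) L35814 (by decide +kernel)
theorem L35816 : W_11 (nat_lit 5) (nat_lit 0x28001e001300080000000000000000000000000000000) (nat_lit 0x0) (nat_lit 0x18000c00160000000000008000400000000000000000000000000) := T_11 (nat_lit 106) (nat_lit 123) (nat_lit 7) (nat_lit 4) (nat_lit 6) L35815 (by decide +kernel)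
theorem L35817 : W_11 (nat_lit 6) (nat_lit 0x280016001300080000000000000000000000000000000) (nat_lit 0x0) (nat_lit 0x18000c00160008000080008000400000000000000000000000000) := T_11 (nat_lit 159) (nat_lit 139) (nat_lit 0) (nat_lit 7) (nat_lit 9) L35816 (by decide +kernel)
theorem L35818 : W_11 (nat_lit 13) (nat_lit 0x280014001300080000000000000000000000000000000) (nat_lit 0x0) (nat_lit 0x1800ef0017800ac008e000f000600000000000000000000000000) := Q_11 (nat_lit 157) (C_11 L35775 (C_11 L35811 (C_11 L35812 (C_11 L35817 N_11)))) (by decide +kernel)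
theorem L35821 : W_11 (nat_lit 14) (nat_lit 0x280004001300080000000000000000000000000000000) (nat_lit 0x0) (nat_lit 0x500038001d800ef0017803ac008e000f000600000000000000000000000000) := Q_11 (nat_lit 160) (C_11 L35764 (C_11 L35769 (C_11 L35772 (C_11 L35774 (C_11 L35818 (C_11 L35820 N_11)))))) (by decide +kernel)
theorem L35822 : W_11 (nat_lit 10) (nat_lit 0x280004001300080000000000000000000000000000000) (nat_lit 0x0) (nat_lit 0xa000fc007c0017003a000800000000000000000000000000000000000) := Q_11 (nat_lit 192) (C_11 L35761 (C_11 L35758 (C_11 L35755 N_11))) (by decide +kernel)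
theorem L35823 : W_11 (nat_lit 15) (nat_lit 0x280000001300080000000000000000000000000000000) (nat_lit 0x0) (nat_lit 0x50003a001fc00ff0017803ec008e000f000600000000000000000000000000) := Q_11 (nat_lit 158) (C_11 L35756 (C_11 L35759 (C_11 L35762 (C_11 L35821 (C_11 L35822 N_11))))) (by decide +kernel)
theorem L35824 : W_11 (nat_lit 4) (nat_lit 0x3c0000001300080000000000000000000000000000000) (nat_lit 0x0) (nat_lit 0xc000000033000800000000000000000000000000000000000) := T_11 (nat_lit 157) (nat_lit 156) (nat_lit 0) (nat_lit 7) (nat_lit 10) L35299 (by decide +kernel)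
theorem L35827 : W_11 (nat_lit 4) (nat_lit 0x3c0002001300080000000000000000000000000000000) (nat_lit 0x0) (nat_lit 0xe00020038000000000000000000000000000000000000000) := T_11 (nat_lit 160) (nat_lit 161) (nat_lit 2) (nat_lit 4) (nat_lit 10) L35826 (by decide +kernel)
theorem L35828 : W_11 (nat_lit 5) (nat_lit 0x3c0000001300080000000000000000000000000000000) (nat_lit 0x0) (nat_lit 0xe0002003b000000000000000000000000000000000000000) := T_11 (nat_lit 157) (nat_lit 156) (nat_lit 0) (nat_lit 7) (nat_lit 10) L35827 (by decide +kernel)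
theorem L35829 : W_11 (nat_lit 4) (nat_lit 0x3c0000001300080000000000000000000000000000000) (nat_lit 0x0) (nat_lit 0xee00020000000000000000000000000000000000000000000) := T_11 (nat_lit 194) (nat_lit 195) (nat_lit 3) (nat_lit 4) (nat_lit 10) L34799 (by decide +kernel)
theorem L35830 : W_11 (nat_lit 6) (nat_lit 0x2c0000001300080000000000000000000000000000000) (nat_lit 0x0) (nat_lit 0xee0012003b000800000000000000000000000000000000000) := Q_11 (nat_lit 176) (C_11 L35824 (C_11 L35828 (C_11 L35829 N_11))) (by decide +kernel)
theorem L35831 : W_11 (nat_lit 2) (nat_lit 0x2f000340138008e000000000000000000000000000000) (nat_lit 0x0) (nat_lit 0xc000200000000000000000000000000000000000000) := D_11 (nat_lit 171) (nat_lit 170) (nat_lit 153) (nat_lit 2) (nat_lit 0) (nat_lit 10) (nat_lit 0) (nat_lit 4) (nat_lit 10) (by decide +kernel)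
theorem L35832 : W_11 (nat_lit 3) (nat_lit 0x2e000340138008e000000000000000000000000000000) (nat_lit 0x0) (nat_lit 0x20001c000200000000000000000000000000000000000000) := T_11 (nat_lit 172) (nat_lit 189) (nat_lit 5) (nat_lit 3) (nat_lit 7) L35831 (by decide +kernel)
theorem L35833 : W_11 (nat_lit 4) (nat_lit 0x2e000300138008e000000000000000000000000000000) (nat_lit 0x0) (nat_lit 0x20001c000e00000000000000000000000000000000000000) := T_11 (nat_lit 154) (nat_lit 155) (nat_lit 3) (nat_lit 1) (nat_lit 9) L35832 (by decide +kernel)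
theorem L35834 : W_11 (nat_lit 5) (nat_lit 0x2e000200138008e000000000000000000000000000000) (nat_lit 0x0) (nat_lit 0x20001c001e00000000000100000000000000000000000000) := T_11 (nat_lit 156) (nat_lit 104) (nat_lit 4) (nat_lit 3) (nat_lit 10) L35833 (by decide +kernel)
theorem L35835 : W_11 (nat_lit 6) (nat_lit 0x2e000200130008e000000000000000000000000000000) (nat_lit 0x0) (nat_lit 0xa0001c001e00080000000100000000000000000000000000) := T_11 (nat_lit 139) (nat_lit 191) (nat_lit 4) (nat_lit 4) (nat_lit 11) L35834 (by decide +kernel)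
theorem L35836 : W_11 (nat_lit 7) (nat_lit 0x2e000200130008c000000000000000000000000000000) (nat_lit 0x0) (nat_lit 0xa0001c001e00080003000100000000000000000000000000) := T_11 (nat_lit 121) (nat_lit 120) (nat_lit 3) (nat_lit 1) (nat_lit 7) L35835 (by decide +kernel)
theorem L35837 : W_11 (nat_lit 8) (nat_lit 0x2e0002001300088000000000000000000000000000000) (nat_lit 0x0) (nat_lit 0xa0001c001e00080007000300000000000000000000000000) := T_11 (nat_lit 122) (nat_lit 105) (nat_lit 4) (nat_lit 4) (nat_lit 10) L35836 (by decide +kernel)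
theorem L35838 : W_11 (nat_lit 9) (nat_lit 0x2c0002001300088000000000000000000000000000000) (nat_lit 0x0) (nat_lit 0xe0003c001e00080007000300000000000000000000000000) := T_11 (nat_lit 173) (nat_lit 190) (nat_lit 5) (nat_lit 4) (nat_lit 7) L35837 (by decide +kernel)
theorem L35839 : W_11 (nat_lit 10) (nat_lit 0x2c0002001300080000000000000000000000000000000) (nat_lit 0x0) (nat_lit 0x1e0003c001e0008000f000300000000000000000000000000) := T_11 (nat_lit 123) (nat_lit 192) (nat_lit 7) (nat_lit 4) (nat_lit 7) L35838 (by decide +kernel)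
theorem L35840 : W_11 (nat_lit 2) (nat_lit 0x2e0002001300088000400000000000000000000000000) (nat_lit 0x0) (nat_lit 0x4000200010000000000000000000000) := D_11 (nat_lit 105) (nat_lit 88) (nat_lit 122) (nat_lit 4) (nat_lit 4) (nat_lit 9) (nat_lit 4) (nat_lit 4) (nat_lit 10) (by decide +kernel)
theorem L35841 : W_11 (nat_lit 3) (nat_lit 0x2e0002001300088000000000000000000000000000000) (nat_lit 0x0) (nat_lit 0x1000000004000600010000000000000000000000) := T_11 (nat_lit 106) (nat_lit 156) (nat_lit 5) (nat_lit 4) (nat_lit 6) L35840 (by decide +kernel)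
theorem L35842 : W_11 (nat_lit 4) (nat_lit 0x2c0002001300088000000000000000000000000000000) (nat_lit 0x0) (nat_lit 0x400020001000000004000600010000000000000000000000) := T_11 (nat_lit 173) (nat_lit 190) (nat_lit 5) (nat_lit 4) (nat_lit 7) L35841 (by decide +kernel)
theorem L35843 : W_11 (nat_lit 5) (nat_lit 0x2c0002001300080000000000000000000000000000000) (nat_lit 0x0) (nat_lit 0x140002000100000000c000600010000000000000000000000) := T_11 (nat_lit 123) (nat_lit 192) (nat_lit 7) (nat_lit 4) (nat_lit 7) L35842 (by decide +kernel)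
theorem L35844 : W_11 (nat_lit 2) (nat_lit 0x2c0002001300088000400050000000000000000000000) (nat_lit 0x0) (nat_lit 0x20002800000000000000000) := D_11 (nat_lit 89) (nat_lit 73) (nat_lit 71) (nat_lit 6) (nat_lit 4) (nat_lit 8) (nat_lit 4) (nat_lit 4) (nat_lit 8) (by decide +kernel)
theorem L35845 : W_11 (nat_lit 3) (nat_lit 0x2c0002001300088000400040000000000000000000000) (nat_lit 0x0) (nat_lit 0x200030002800000000000000000) := T_11 (nat_lit 88) (nat_lit 105) (nat_lit 4) (nat_lit 4) (nat_lit 9) L35844 (by decide +kernel)
theorem L35846 : W_11 (nat_lit 4) (nat_lit 0x2c0002001300088000400000000000000000000000000) (nat_lit 0x0) (nat_lit 0xa00070002800000000000000000) := T_11 (nat_lit 90) (nat_lit 107) (nat_lit 6) (nat_lit 4) (nat_lit 9) L35845 (by decide +kernel)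
theorem L35847 : W_11 (nat_lit 2) (nat_lit 0x2c0002001380088000400060000000000000000000000) (nat_lit 0x0) (nat_lit 0x800000000000000004000000000001000000000000000000) := D_11 (nat_lit 122) (nat_lit 72) (nat_lit 191) (nat_lit 5) (nat_lit 4) (nat_lit 4) (nat_lit 4) (nat_lit 4) (nat_lit 11) (by decide +kernel)
theorem L35848 : W_11 (nat_lit 3) (nat_lit 0x2c0002001300088000400060000000000000000000000) (nat_lit 0x0) (nat_lit 0x800000001000080004000000000001000000000000000000) := T_11 (nat_lit 139) (nat_lit 156) (nat_lit 5) (nat_lit 4) (nat_lit 5) L35847 (by decide +kernel)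
theorem L35849 : W_11 (nat_lit 4) (nat_lit 0x2c0002001300088000400040000000000000000000000) (nat_lit 0x0) (nat_lit 0x800000001000080004000000020003000000000000000000) := T_11 (nat_lit 89) (nat_lit 73) (nat_lit 6) (nat_lit 4) (nat_lit 8) L35848 (by decide +kernel)
theorem L35850 : W_11 (nat_lit 5) (nat_lit 0x2c0002001300088000400000000000000000000000000) (nat_lit 0x0) (nat_lit 0x800000001000080004000800060003000000000000000000) := T_11 (nat_lit 90) (nat_lit 107) (nat_lit 6) (nat_lit 4) (nat_lit 9) L35849 (by decide +kernel)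
theorem L35851 : W_11 (nat_lit 6) (nat_lit 0x2c0002001300088000000000000000000000000000000) (nat_lit 0x0) (nat_lit 0x800000001000080004000e00070003800000000000000000) := Q_11 (nat_lit 106) (C_11 L35260 (C_11 L35846 (C_11 L35850 N_11))) (by decide +kernel)
theorem L35852 : W_11 (nat_lit 2) (nat_lit 0x8002c000200130008d000000000000000000000000000000) (nat_lit 0x0) (nat_lit 0x8000400020000000000000000000000000000000000000000000) := D_11 (nat_lit 190) (nat_lit 173) (nat_lit 207) (nat_lit 5) (nat_lit 4) (nat_lit 7) (nat_lit 5) (nat_lit 4) (nat_lit 8) (by decide +kernel)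
theorem L35853 : W_11 (nat_lit 3) (nat_lit 0x2c000200130008d000000000000000000000000000000) (nat_lit 0x0) (nat_lit 0x8000c00020000000080000000000000000000000000000000000) := T_11 (nat_lit 191) (nat_lit 139) (nat_lit 4) (nat_lit 4) (nat_lit 11) L35852 (by decide +kernel)
theorem L35854 : W_11 (nat_lit 4) (nat_lit 0x2c000200130008c000000000000000000000000000000) (nat_lit 0x0) (nat_lit 0x8000c00020000000080003000000000000000000000000000000) := T_11 (nat_lit 120) (nat_lit 121) (nat_lit 3) (nat_lit 1) (nat_lit 7) L35853 (by decide +kernel)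
theorem L35855 : W_11 (nat_lit 5) (nat_lit 0x2c0002001300088000000000000000000000000000000) (nat_lit 0x0) (nat_lit 0x8000c00020000000080007000200000000000000000000000000) := T_11 (nat_lit 122) (nat_lit 105) (nat_lit 4) (nat_lit 4) (nat_lit 10) L35854 (by decide +kernel)
theorem L35856 : W_11 (nat_lit 2) (nat_lit 0x2e0002001300088000400050000000000000000000000) (nat_lit 0x0) (nat_lit 0x20002800000000000000000) := D_11 (nat_lit 89) (nat_lit 71) (nat_lit 73) (nat_lit 4) (nat_lit 4) (nat_lit 8) (nat_lit 6) (nat_lit 4) (nat_lit 8) (by decide +kernel)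
theorem L35857 : W_11 (nat_lit 3) (nat_lit 0x2e0002001300088000400010000000000000000000000) (nat_lit 0x0) (nat_lit 0x800060002800000000000000000) := T_11 (nat_lit 90) (nat_lit 107) (nat_lit 6) (nat_lit 4) (nat_lit 9) L35856 (by decide +kernel)
theorem L35858 : W_11 (nat_lit 4) (nat_lit 0x2e0002001300088000400000000000000000000000000) (nat_lit 0x0) (nat_lit 0xa00070002800000000000000000) := T_11 (nat_lit 88) (nat_lit 105) (nat_lit 4) (nat_lit 4) (nat_lit 9) L35857 (by decide +kernel)
theorem L35859 : W_11 (nat_lit 5) (nat_lit 0x2e0002001300088000000000000000000000000000000) (nat_lit 0x0) (nat_lit 0x1000000000000e00070002800000000000000000) := T_11 (nat_lit 106) (nat_lit 156) (nat_lit 5) (nat_lit 4) (nat_lit 6) L35858 (by decide +kernel)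
theorem L35860 : W_11 (nat_lit 6) (nat_lit 0x2c0002001300088000000000000000000000000000000) (nat_lit 0x0) (nat_lit 0x400020001000000000000e00070002800000000000000000) := T_11 (nat_lit 173) (nat_lit 190) (nat_lit 5) (nat_lit 4) (nat_lit 7) L35859 (by decide +kernel)
theorem L35861 : W_11 (nat_lit 2) (nat_lit 0x8002c0002001300088000000000000000000000000000000) (nat_lit 0x0) (nat_lit 0x8000400020000000000000000000000000000000000000000000) := D_11 (nat_lit 190) (nat_lit 173) (nat_lit 207) (nat_lit 5) (nat_lit 4) (nat_lit 7) (nat_lit 5) (nat_lit 4) (nat_lit 8) (by decide +kernel)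
theorem L35862 : W_11 (nat_lit 2) (nat_lit 0x80008002c0002001380088000000000000000000000000000000) (nat_lit 0x0) (nat_lit 0x100010000000000001000000000000000000000000000000000000000) := D_11 (nat_lit 208) (nat_lit 224) (nat_lit 156) (nat_lit 5) (nat_lit 4) (nat_lit 9) (nat_lit 4) (nat_lit 4) (nat_lit 12) (by decide +kernel)
theorem L35863 : W_11 (nat_lit 3) (nat_lit 0x80008002c0002001300088000000000000000000000000000000) (nat_lit 0x0) (nat_lit 0x100010000000000001000080004000000000000000000000000000000) := T_11 (nat_lit 139) (nat_lit 122) (nat_lit 4) (nat_lit 4) (nat_lit 11) L35862 (by decide +kernel)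
theorem L35864 : W_11 (nat_lit 4) (nat_lit 0x8002c0002001300088000000000000000000000000000000) (nat_lit 0x0) (nat_lit 0x100018000400000001000080004000000000000000000000000000000) := T_11 (nat_lit 207) (nat_lit 190) (nat_lit 5) (nat_lit 4) (nat_lit 8) L35863 (by decide +kernel)
theorem L35865 : W_11 (nat_lit 2) (nat_lit 0x5000100008002c0002001380088000000000000000000000000000000) (nat_lit 0x0) (nat_lit 0xa000200000000000000000000000000000000000000000000000000000000) := D_11 (nat_lit 225) (nat_lit 241) (nat_lit 243) (nat_lit 5) (nat_lit 4) (nat_lit 10) (nat_lit 7) (nat_lit 4) (nat_lit 10) (by decide +kernel)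
theorem L35866 : W_11 (nat_lit 3) (nat_lit 0x1000100008002c0002001380088000000000000000000000000000000) (nat_lit 0x0) (nat_lit 0xa000600020000000000000000000000000000000000000000000000000000) := T_11 (nat_lit 226) (nat_lit 209) (nat_lit 7) (nat_lit 4) (nat_lit 9) L35865 (by decide +kernel)
theorem L35867 : W_11 (nat_lit 4) (nat_lit 0x100008002c0002001380088000000000000000000000000000000) (nat_lit 0x0) (nat_lit 0xa000700028000000000000000000000000000000000000000000000000000) := T_11 (nat_lit 224) (nat_lit 207) (nat_lit 5) (nat_lit 4) (nat_lit 9) L35866 (by decide +kernel)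
theorem L35868 : W_11 (nat_lit 5) (nat_lit 0x8002c0002001380088000000000000000000000000000000) (nat_lit 0x0) (nat_lit 0xa000700038000000000001000000000000000000000000000000000000000) := T_11 (nat_lit 208) (nat_lit 156) (nat_lit 4) (nat_lit 4) (nat_lit 12) L35867 (by decide +kernel)
theorem L35869 : W_11 (nat_lit 6) (nat_lit 0x8002c0002001300088000000000000000000000000000000) (nat_lit 0x0) (nat_lit 0xa000700038000000000001000080004000000000000000000000000000000) := T_11 (nat_lit 139) (nat_lit 122) (nat_lit 4) (nat_lit 4) (nat_lit 11) L35868 (by decide +kernel)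
theorem L35870 : W_11 (nat_lit 2) (nat_lit 0x8002e0002001380088000000000000000000000000000000) (nat_lit 0x0) (nat_lit 0x10000000000001000000000000400000000000000000000000000) := D_11 (nat_lit 156) (nat_lit 106) (nat_lit 208) (nat_lit 5) (nat_lit 4) (nat_lit 6) (nat_lit 4) (nat_lit 4) (nat_lit 12) (by decide +kernel)
theorem L35871 : W_11 (nat_lit 3) (nat_lit 0x8002c0002001380088000000000000000000000000000000) (nat_lit 0x0) (nat_lit 0x10000400020001000000000000400000000000000000000000000) := T_11 (nat_lit 173) (nat_lit 190) (nat_lit 5) (nat_lit 4) (nat_lit 7) L35870 (by decide +kernel)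
theorem L35872 : W_11 (nat_lit 4) (nat_lit 0x8002c0002001300088000000000000000000000000000000) (nat_lit 0x0) (nat_lit 0x10000400020001000080004000400000000000000000000000000) := T_11 (nat_lit 139) (nat_lit 122) (nat_lit 4) (nat_lit 4) (nat_lit 11) L35871 (by decide +kernel)
theorem L35873 : W_11 (nat_lit 7) (nat_lit 0x2c0002001300088000000000000000000000000000000) (nat_lit 0x0) (nat_lit 0xa000700038000c00020001000080004000400000000000000000000000000) := Q_11 (nat_lit 191) (C_11 L35861 (C_11 L35864 (C_11 L35869 (C_11 L35872 N_11)))) (by decide +kernel)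
theorem L35874 : W_11 (nat_lit 10) (nat_lit 0x2c0002001300080000000000000000000000000000000) (nat_lit 0x0) (nat_lit 0xa000700038000e0003c001e0008000f000f00070003800000000000000000) := Q_11 (nat_lit 123) (C_11 L35842 (C_11 L35851 (C_11 L35838 (C_11 L35855 (C_11 L35860 (C_11 L35873 N_11)))))) (by decide +kernel)
theorem L35875 : W_11 (nat_lit 2) (nat_lit 0x4007e002d0002001300080000000000000000000000000000000) (nat_lit 0x0) (nat_lit 0x1c0000000000000000000000000000000000000000000000000000) := D_11 (nat_lit 211) (nat_lit 210) (nat_lit 212) (nat_lit 3) (nat_lit 3) (nat_lit 11) (nat_lit 3) (nat_lit 4) (nat_lit 11) (by decide +kernel)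
theorem L35876 : W_11 (nat_lit 3) (nat_lit 0x4003e002d0002001300080000000000000000000000000000000) (nat_lit 0x0) (nat_lit 0x1c000c000000000000000000000000000000000000000000000000) := T_11 (nat_lit 194) (nat_lit 195) (nat_lit 0) (nat_lit 8) (nat_lit 11) L35875 (by decide +kernel)
theorem L35877 : W_11 (nat_lit 4) (nat_lit 0x4001e002d0002001300080000000000000000000000000000000) (nat_lit 0x0) (nat_lit 0x1c000e000020000000000000000000000000000000000000000000) := T_11 (nat_lit 193) (nat_lit 173) (nat_lit 3) (nat_lit 2) (nat_lit 10) L35876 (by decide +kernel)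
theorem L35878 : W_11 (nat_lit 5) (nat_lit 0x4001e002c0002001300080000000000000000000000000000000) (nat_lit 0x0) (nat_lit 0x1c000e000038000000000000000000000000000000000000000000) := T_11 (nat_lit 172) (nat_lit 171) (nat_lit 0) (nat_lit 5) (nat_lit 11) L35877 (by decide +kernel)
theorem L35879 : W_11 (nat_lit 6) (nat_lit 0x1e002c0002001300080000000000000000000000000000000) (nat_lit 0x0) (nat_lit 0x1c600e000038000000000000000000000000000000000000000000) := T_11 (nat_lit 206) (nat_lit 205) (nat_lit 1) (nat_lit 5) (nat_lit 11) L35878 (by decide +kernel)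
theorem L35880 : W_11 (nat_lit 7) (nat_lit 0x1c002c0002001300080000000000000000000000000000000) (nat_lit 0x0) (nat_lit 0x1c600e300038000000000000000000000000000000000000000000) := T_11 (nat_lit 189) (nat_lit 188) (nat_lit 2) (nat_lit 1) (nat_lit 11) L35879 (by decide +kernel)
theorem L35881 : W_11 (nat_lit 8) (nat_lit 0x18002c0002001300080000000000000000000000000000000) (nat_lit 0x0) (nat_lit 0x1ce00e700038000000000000000000000000000000000000000000) := T_11 (nat_lit 190) (nat_lit 207) (nat_lit 5) (nat_lit 4) (nat_lit 8) L35880 (by decide +kernel)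
theorem L35882 : W_11 (nat_lit 9) (nat_lit 0x8002c0002001300080000000000000000000000000000000) (nat_lit 0x0) (nat_lit 0x1ee00f700038000000000000000000000000000000000000000000) := T_11 (nat_lit 192) (nat_lit 209) (nat_lit 7) (nat_lit 4) (nat_lit 8) L35881 (by decide +kernel)
theorem L35883 : W_11 (nat_lit 2) (nat_lit 0x20000d002c0002001380080000000000000000000000000000000) (nat_lit 0x0) (nat_lit 0x400010000000000001000000000000000000000000000000000000000) := D_11 (nat_lit 208) (nat_lit 156) (nat_lit 226) (nat_lit 4) (nat_lit 4) (nat_lit 12) (nat_lit 7) (nat_lit 4) (nat_lit 9) (by decide +kernel)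
theorem L35884 : W_11 (nat_lit 3) (nat_lit 0xd002c0002001380080000000000000000000000000000000) (nat_lit 0x0) (nat_lit 0x400030001000000001000000000000000000000000000000000000000) := T_11 (nat_lit 209) (nat_lit 192) (nat_lit 7) (nat_lit 4) (nat_lit 8) L35883 (by decide +kernel)
theorem L35885 : W_11 (nat_lit 4) (nat_lit 0xd002c0002001300080000000000000000000000000000000) (nat_lit 0x0) (nat_lit 0x400030001000000001000080004000000000000000000000000000000) := T_11 (nat_lit 139) (nat_lit 122) (nat_lit 4) (nat_lit 4) (nat_lit 11) L35884 (by decide +kernel)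
theorem L35886 : W_11 (nat_lit 5) (nat_lit 0xc002c0002001300080000000000000000000000000000000) (nat_lit 0x0) (nat_lit 0x400030001300000001000080004000000000000000000000000000000) := T_11 (nat_lit 188) (nat_lit 189) (nat_lit 2) (nat_lit 1) (nat_lit 11) L35885 (by decide +kernel)
theorem L35887 : W_11 (nat_lit 6) (nat_lit 0x8002c0002001300080000000000000000000000000000000) (nat_lit 0x0) (nat_lit 0x400038001700000001000080004000000000000000000000000000000) := T_11 (nat_lit 190) (nat_lit 207) (nat_lit 5) (nat_lit 4) (nat_lit 8) L35886 (by decide +kernel)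
theorem L35888 : W_11 (nat_lit 2) (nat_lit 0x2000600010000d002c0002001380080000000000000000000000000000000) (nat_lit 0x0) (nat_lit 0x40004000000000000000020000000000000000000000000000000000000000000) := D_11 (nat_lit 242) (nat_lit 173) (nat_lit 258) (nat_lit 4) (nat_lit 4) (nat_lit 14) (nat_lit 5) (nat_lit 4) (nat_lit 11) (by decide +kernel)
theorem L35889 : W_11 (nat_lit 3) (nat_lit 0x600010000d002c0002001380080000000000000000000000000000000) (nat_lit 0x0) (nat_lit 0x40006000100000000000020000000000000000000000000000000000000000000) := T_11 (nat_lit 241) (nat_lit 224) (nat_lit 5) (nat_lit 4) (nat_lit 10) L35888 (by decide +kernel)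
theorem L35890 : W_11 (nat_lit 4) (nat_lit 0x400010000d002c0002001380080000000000000000000000000000000) (nat_lit 0x0) (nat_lit 0x4000e000300000000000020000000000000000000000000000000000000000000) := T_11 (nat_lit 225) (nat_lit 243) (nat_lit 7) (nat_lit 4) (nat_lit 10) L35889 (by decide +kernel)
theorem L35891 : W_11 (nat_lit 5) (nat_lit 0x10000d002c0002001380080000000000000000000000000000000) (nat_lit 0x0) (nat_lit 0x4000e000700020000000020000000000000000000000000000000000000000000) := T_11 (nat_lit 226) (nat_lit 209) (nat_lit 7) (nat_lit 4) (nat_lit 9) L35890 (by decide +kernel)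
theorem L35892 : W_11 (nat_lit 6) (nat_lit 0xd002c0002001380080000000000000000000000000000000) (nat_lit 0x0) (nat_lit 0x4000e000700030000000020001000000000000000000000000000000000000000) := T_11 (nat_lit 208) (nat_lit 156) (nat_lit 4) (nat_lit 4) (nat_lit 12) L35891 (by decide +kernel)
theorem L35893 : W_11 (nat_lit 7) (nat_lit 0xc002c0002001380080000000000000000000000000000000) (nat_lit 0x0) (nat_lit 0x4000e000700030000300020001000000000000000000000000000000000000000) := T_11 (nat_lit 188) (nat_lit 189) (nat_lit 2) (nat_lit 1) (nat_lit 11) L35892 (by decide +kernel)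
theorem L35894 : W_11 (nat_lit 8) (nat_lit 0x8002c0002001380080000000000000000000000000000000) (nat_lit 0x0) (nat_lit 0x4000e000700038000700020001000000000000000000000000000000000000000) := T_11 (nat_lit 190) (nat_lit 207) (nat_lit 5) (nat_lit 4) (nat_lit 8) L35893 (by decide +kernel)
theorem L35895 : W_11 (nat_lit 9) (nat_lit 0x8002c0002001300080000000000000000000000000000000) (nat_lit 0x0) (nat_lit 0x4000e000700038000700020001000080004000000000000000000000000000000) := T_11 (nat_lit 139) (nat_lit 122) (nat_lit 4) (nat_lit 4) (nat_lit 11) L35894 (by decide +kernel)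
theorem L35896 : W_11 (nat_lit 2) (nat_lit 0xe002e00034013c0080000000000000000000000000000000) (nat_lit 0x0) (nat_lit 0x200030000000000000000000000000000000000) := D_11 (nat_lit 137) (nat_lit 136) (nat_lit 153) (nat_lit 3) (nat_lit 0) (nat_lit 8) (nat_lit 1) (nat_lit 4) (nat_lit 8) (by decide +kernel)
theorem L35897 : W_11 (nat_lit 3) (nat_lit 0xe002e0003401380080000000000000000000000000000000) (nat_lit 0x0) (nat_lit 0x200070002000000000000000000000000000000) := T_11 (nat_lit 138) (nat_lit 121) (nat_lit 4) (nat_lit 3) (nat_lit 11) L35896 (by decide +kernel)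
theorem L35898 : W_11 (nat_lit 4) (nat_lit 0xe002c0003401380080000000000000000000000000000000) (nat_lit 0x0) (nat_lit 0x4000000020000200070002000000000000000000000000000000) := T_11 (nat_lit 173) (nat_lit 206) (nat_lit 5) (nat_lit 3) (nat_lit 8) L35897 (by decide +kernel)
theorem L35899 : W_11 (nat_lit 5) (nat_lit 0xe002c0003001380080000000000000000000000000000000) (nat_lit 0x0) (nat_lit 0x4000000020000e00070002000000000000000000000000000000) := T_11 (nat_lit 154) (nat_lit 155) (nat_lit 3) (nat_lit 1) (nat_lit 9) L35898 (by decide +kernel)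
theorem L35900 : W_11 (nat_lit 6) (nat_lit 0xe002c0002001380080000000000000000000000000000000) (nat_lit 0x0) (nat_lit 0x14000000020001e00070002000000000000000000000000000000) := T_11 (nat_lit 156) (nat_lit 208) (nat_lit 4) (nat_lit 4) (nat_lit 12) L35899 (by decide +kernel)
theorem L35901 : W_11 (nat_lit 7) (nat_lit 0xc002c0002001380080000000000000000000000000000000) (nat_lit 0x0) (nat_lit 0x14000300020001e00070002000000000000000000000000000000) := T_11 (nat_lit 189) (nat_lit 188) (nat_lit 2) (nat_lit 1) (nat_lit 11) L35900 (by decide +kernel)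
theorem L35902 : W_11 (nat_lit 8) (nat_lit 0x8002c0002001380080000000000000000000000000000000) (nat_lit 0x0) (nat_lit 0x1c000700020001e00070002000000000000000000000000000000) := T_11 (nat_lit 190) (nat_lit 207) (nat_lit 5) (nat_lit 4) (nat_lit 8) L35901 (by decide +kernel)
theorem L35903 : W_11 (nat_lit 9) (nat_lit 0x8002c0002001300080000000000000000000000000000000) (nat_lit 0x0) (nat_lit 0x1c000700020001e000f0006000000000000000000000000000000) := T_11 (nat_lit 139) (nat_lit 122) (nat_lit 4) (nat_lit 4) (nat_lit 11) L35902 (by decide +kernel)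
theorem L35904 : W_11 (nat_lit 2) (nat_lit 0xa0009a0058002c0012001380080000000000000000000000000000000) (nat_lit 0x0) (nat_lit 0x8001400000000000000000000000000000000000000000000000000000000) := D_11 (nat_lit 226) (nat_lit 243) (nat_lit 228) (nat_lit 7) (nat_lit 4) (nat_lit 10) (nat_lit 0) (nat_lit 7) (nat_lit 13) (by decide +kernel)
theorem L35905 : W_11 (nat_lit 3) (nat_lit 0x20009a0058002c0012001380080000000000000000000000000000000) (nat_lit 0x0) (nat_lit 0x8001c00040000000000000000000000000000000000000000000000000000) := T_11 (nat_lit 227) (nat_lit 210) (nat_lit 5) (nat_lit 7) (nat_lit 9) L35904 (by decide +kernel)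
theorem L35906 : W_11 (nat_lit 4) (nat_lit 0x20001a0058002c0012001380080000000000000000000000000000000) (nat_lit 0x0) (nat_lit 0x8001c000c0000000000020000000000000000000000000000000000000000) := T_11 (nat_lit 211) (nat_lit 161) (nat_lit 6) (nat_lit 7) (nat_lit 12) L35905 (by decide +kernel)
theorem L35907 : W_11 (nat_lit 5) (nat_lit 0x1a0058002c0012001380080000000000000000000000000000000) (nat_lit 0x0) (nat_lit 0xc001e000c0000000000020000000000000000000000000000000000000000) := T_11 (nat_lit 225) (nat_lit 242) (nat_lit 6) (nat_lit 4) (nat_lit 14) L35906 (by decide +kernel)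
theorem L35908 : W_11 (nat_lit 6) (nat_lit 0x1a0058002c0002001380080000000000000000000000000000000) (nat_lit 0x0) (nat_lit 0xc001e000c0000000000030000800000000000000000000000000000000000) := T_11 (nat_lit 160) (nat_lit 143) (nat_lit 6) (nat_lit 7) (nat_lit 11) L35907 (by decide +kernel)
theorem L35909 : W_11 (nat_lit 7) (nat_lit 0x1a0018002c0002001380080000000000000000000000000000000) (nat_lit 0x0) (nat_lit 0xc001e000c0006000000030000800000000000000000000000000000000000) := T_11 (nat_lit 194) (nat_lit 193) (nat_lit 1) (nat_lit 7) (nat_lit 11) L35908 (by decide +kernel)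
theorem L35910 : W_11 (nat_lit 8) (nat_lit 0x180018002c0002001380080000000000000000000000000000000) (nat_lit 0x0) (nat_lit 0xc001e000c6006000000030000800000000000000000000000000000000000) := T_11 (nat_lit 205) (nat_lit 206) (nat_lit 2) (nat_lit 1) (nat_lit 12) L35909 (by decide +kernel)
theorem L35911 : W_11 (nat_lit 9) (nat_lit 0x100018002c0002001380080000000000000000000000000000000) (nat_lit 0x0) (nat_lit 0xc001f000ce006000000030000800000000000000000000000000000000000) := T_11 (nat_lit 207) (nat_lit 224) (nat_lit 5) (nat_lit 4) (nat_lit 9) L35910 (by decide +kernel)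
theorem L35912 : W_11 (nat_lit 10) (nat_lit 0x18002c0002001380080000000000000000000000000000000) (nat_lit 0x0) (nat_lit 0xc001f000de006000000031000800000000000000000000000000000000000) := T_11 (nat_lit 208) (nat_lit 156) (nat_lit 4) (nat_lit 4) (nat_lit 12) L35911 (by decide +kernel)
theorem L35913 : W_11 (nat_lit 11) (nat_lit 0x8002c0002001380080000000000000000000000000000000) (nat_lit 0x0) (nat_lit 0xc001f000fe007000000031000800000000000000000000000000000000000) := T_11 (nat_lit 192) (nat_lit 209) (nat_lit 7) (nat_lit 4) (nat_lit 8) L35912 (by decide +kernel)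
theorem L35914 : W_11 (nat_lit 12) (nat_lit 0x8002c0002001300080000000000000000000000000000000) (nat_lit 0x0) (nat_lit 0xc001f000fe007000000031000880004000000000000000000000000000000) := T_11 (nat_lit 139) (nat_lit 122) (nat_lit 4) (nat_lit 4) (nat_lit 11) L35913 (by decide +kernel)
theorem L35915 : W_11 (nat_lit 2) (nat_lit 0x200008002c0002001380080000000000000000000000000000000) (nat_lit 0x0) (nat_lit 0x400010000000000001000000000000000000000000000000000000000) := D_11 (nat_lit 208) (nat_lit 156) (nat_lit 226) (nat_lit 4) (nat_lit 4) (nat_lit 12) (nat_lit 7) (nat_lit 4) (nat_lit 9) (by decide +kernel)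
theorem L35916 : W_11 (nat_lit 3) (nat_lit 0x8002c0002001380080000000000000000000000000000000) (nat_lit 0x0) (nat_lit 0x400030001000000001000000000000000000000000000000000000000) := T_11 (nat_lit 209) (nat_lit 192) (nat_lit 7) (nat_lit 4) (nat_lit 8) L35915 (by decide +kernel)
theorem L35917 : W_11 (nat_lit 4) (nat_lit 0x8002c0002001300080000000000000000000000000000000) (nat_lit 0x0) (nat_lit 0x400030001000000001000080004000000000000000000000000000000) := T_11 (nat_lit 139) (nat_lit 122) (nat_lit 4) (nat_lit 4) (nat_lit 11) L35916 (by decide +kernel)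
theorem L35918 : W_11 (nat_lit 13) (nat_lit 0x2c0002001300080000000000000000000000000000000) (nat_lit 0x0) (nat_lit 0x4000e001f001fe00ff00038031e008f0006000000000000000000000000000000) := Q_11 (nat_lit 191) (C_11 L35882 (C_11 L35887 (C_11 L35895 (C_11 L35903 (C_11 L35914 (C_11 L35917 N_11)))))) (by decide +kernel)
theorem L35919 : W_11 (nat_lit 7) (nat_lit 0x2c0002001300080000000000000000000000000000000) (nat_lit 0x0) (nat_lit 0x180000000100008000c000e00070003800000000000000000) := T_11 (nat_lit 123) (nat_lit 192) (nat_lit 7) (nat_lit 4) (nat_lit 7) L35851 (by decide +kernel)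
theorem L35920 : W_11 (nat_lit 6) (nat_lit 0x2c0002001300080000000000000000000000000000000) (nat_lit 0x0) (nat_lit 0x8001c0002000000008000f000200000000000000000000000000) := T_11 (nat_lit 123) (nat_lit 192) (nat_lit 7) (nat_lit 4) (nat_lit 7) L35855 (by decide +kernel)
theorem L35921 : W_11 (nat_lit 7) (nat_lit 0x2c0002001300080000000000000000000000000000000) (nat_lit 0x0) (nat_lit 0x1400020001000000008000e00070002800000000000000000) := T_11 (nat_lit 123) (nat_lit 192) (nat_lit 7) (nat_lit 4) (nat_lit 7) L35860 (by decide +kernel)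
theorem L35922 : W_11 (nat_lit 14) (nat_lit 0x2c0000001300080000000000000000000000000000000) (nat_lit 0x0) (nat_lit 0x4000e001f001fe00ff0003c033e008f000f000f00070003800000000000000000) := Q_11 (nat_lit 157) (C_11 L35839 (C_11 L35843 (C_11 L35874 (C_11 L35918 (C_11 L35919 (C_11 L35920 (C_11 L35921 N_11))))))) (by decide +kernel)
theorem L35923 : W_11 (nat_lit 2) (nat_lit 0x40003c0000001300080000000000000000000000000000000) (nat_lit 0x0) (nat_lit 0x30000800000000000000000000000000000000000) := D_11 (nat_lit 160) (nat_lit 161) (nat_lit 143) (nat_lit 2) (nat_lit 4) (nat_lit 10) (nat_lit 6) (nat_lit 7) (nat_lit 11) (by decide +kernel)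
theorem L35924 : W_11 (nat_lit 3) (nat_lit 0x3c0000001300080000000000000000000000000000000) (nat_lit 0x0) (nat_lit 0xc000000030000800000000000000000000000000000000000) := T_11 (nat_lit 194) (nat_lit 195) (nat_lit 3) (nat_lit 4) (nat_lit 10) L35923 (by decide +kernel)
theorem L35925 : W_11 (nat_lit 2) (nat_lit 0x40003c0002001300088000000000000000000000000000000) (nat_lit 0x0) (nat_lit 0xc00020000000000000000000000000000000000000000000) := D_11 (nat_lit 190) (nat_lit 173) (nat_lit 191) (nat_lit 5) (nat_lit 4) (nat_lit 7) (nat_lit 1) (nat_lit 7) (nat_lit 10) (by decide +kernel)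
theorem L35926 : W_11 (nat_lit 3) (nat_lit 0x40003c0002001300080000000000000000000000000000000) (nat_lit 0x0) (nat_lit 0x1c00020000000000008000000000000000000000000000000) := T_11 (nat_lit 123) (nat_lit 192) (nat_lit 7) (nat_lit 4) (nat_lit 7) L35925 (by decide +kernel)
theorem L35927 : W_11 (nat_lit 4) (nat_lit 0x3c0002001300080000000000000000000000000000000) (nat_lit 0x0) (nat_lit 0xdc00020000000000008000000000000000000000000000000) := T_11 (nat_lit 194) (nat_lit 195) (nat_lit 3) (nat_lit 4) (nat_lit 10) L35926 (by decide +kernel)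
theorem L35928 : W_11 (nat_lit 5) (nat_lit 0x3c0000001300080000000000000000000000000000000) (nat_lit 0x0) (nat_lit 0xdc00020003000000008000000000000000000000000000000) := T_11 (nat_lit 157) (nat_lit 156) (nat_lit 0) (nat_lit 7) (nat_lit 10) L35927 (by decide +kernel)
theorem L35929 : W_11 (nat_lit 6) (nat_lit 0x2c0000001300080000000000000000000000000000000) (nat_lit 0x0) (nat_lit 0xde0012003b000800008000000000000000000000000000000) := Q_11 (nat_lit 176) (C_11 L35828 (C_11 L35824 (C_11 L35924 (C_11 L35928 N_11)))) (by decide +kernel)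
theorem L35930 : W_11 (nat_lit 5) (nat_lit 0x2c0002001300080000000000000000000000000000000) (nat_lit 0x0) (nat_lit 0xe00120039000000000000000000000000000000000000000) := T_11 (nat_lit 176) (nat_lit 156) (nat_lit 0) (nat_lit 7) (nat_lit 10) L35827 (by decide +kernel)
theorem L35931 : W_11 (nat_lit 11) (nat_lit 0x2c0000001300080000000000000000000000000000000) (nat_lit 0x0) (nat_lit 0xa000700038001e0013c03be0008000f000f00070003800000000000000000) := Q_11 (nat_lit 157) (C_11 L35920 (C_11 L35921 (C_11 L35874 (C_11 L35930 (C_11 L35919 N_11))))) (by decide +kernel)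
theorem L35932 : W_11 (nat_lit 2) (nat_lit 0x8003f0010801300080000000000000000000000000000000) (nat_lit 0x0) (nat_lit 0x3000008000000000000000000000000000000000000000000) := D_11 (nat_lit 192) (nat_lit 171) (nat_lit 193) (nat_lit 3) (nat_lit 1) (nat_lit 10) (nat_lit 3) (nat_lit 2) (nat_lit 10) (by decide +kernel)
theorem L35933 : W_11 (nat_lit 3) (nat_lit 0x8003e0010801300080000000000000000000000000000000) (nat_lit 0x0) (nat_lit 0x3000018000400000000000000000000000000000000000000) := T_11 (nat_lit 172) (nat_lit 154) (nat_lit 0) (nat_lit 5) (nat_lit 10) L35932 (by decide +kernel)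
theorem L35934 : W_11 (nat_lit 4) (nat_lit 0x8003e0010001300080000000000000000000000000000000) (nat_lit 0x0) (nat_lit 0x3000018001c00000000000000000000000000000000000000) := T_11 (nat_lit 155) (nat_lit 156) (nat_lit 0) (nat_lit 6) (nat_lit 10) L35933 (by decide +kernel)
theorem L35935 : W_11 (nat_lit 5) (nat_lit 0x8003c0010001300080000000000000000000000000000000) (nat_lit 0x0) (nat_lit 0x3000038009c00000000000000000000000000000000000000) := T_11 (nat_lit 173) (nat_lit 159) (nat_lit 2) (nat_lit 3) (nat_lit 10) L35934 (by decide +kernel)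
theorem L35936 : W_11 (nat_lit 6) (nat_lit 0x8003c0000001300080000000000000000000000000000000) (nat_lit 0x0) (nat_lit 0x3000038039c00000000000000000000000000000000000000) := T_11 (nat_lit 160) (nat_lit 161) (nat_lit 2) (nat_lit 4) (nat_lit 10) L35935 (by decide +kernel)
theorem L35937 : W_11 (nat_lit 7) (nat_lit 0x3c0000001300080000000000000000000000000000000) (nat_lit 0x0) (nat_lit 0x3c00038039c00000000000000000000000000000000000000) := T_11 (nat_lit 191) (nat_lit 190) (nat_lit 1) (nat_lit 7) (nat_lit 10) L35936 (by decide +kernel)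
theorem L35938 : W_11 (nat_lit 8) (nat_lit 0x2c0000001300080000000000000000000000000000000) (nat_lit 0x0) (nat_lit 0xfe00138039c00800000000000000000000000000000000000) := Q_11 (nat_lit 176) (C_11 L35924 (C_11 L35937 (C_11 L35829 N_11))) (by decide +kernel)
theorem L35939 : W_11 (nat_lit 2) (nat_lit 0x800078003c0002001300080000000000000000000000000000000) (nat_lit 0x0) (nat_lit 0x20001000000000000000008000000000000000000000000000000000000000) := D_11 (nat_lit 228) (nat_lit 159) (nat_lit 245) (nat_lit 4) (nat_lit 7) (nat_lit 13) (nat_lit 4) (nat_lit 7) (nat_lit 14) (by decide +kernel)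
theorem L35940 : W_11 (nat_lit 3) (nat_lit 0x78003c0002001300080000000000000000000000000000000) (nat_lit 0x0) (nat_lit 0x20001000180000000000008000000000000000000000000000000000000000) := T_11 (nat_lit 211) (nat_lit 212) (nat_lit 3) (nat_lit 4) (nat_lit 11) L35939 (by decide +kernel)
theorem L35941 : W_11 (nat_lit 4) (nat_lit 0x68003c0002001300080000000000000000000000000000000) (nat_lit 0x0) (nat_lit 0x200010001a0001000000008000000000000000000000000000000000000000) := T_11 (nat_lit 192) (nat_lit 209) (nat_lit 7) (nat_lit 4) (nat_lit 8) L35940 (by decide +kernel)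
theorem L35942 : W_11 (nat_lit 5) (nat_lit 0x48003c0002001300080000000000000000000000000000000) (nat_lit 0x0) (nat_lit 0x200010001a0003000020008000000000000000000000000000000000000000) := T_11 (nat_lit 193) (nat_lit 173) (nat_lit 3) (nat_lit 3) (nat_lit 10) L35941 (by decide +kernel)
theorem L35943 : W_11 (nat_lit 6) (nat_lit 0x8003c0002001300080000000000000000000000000000000) (nat_lit 0x0) (nat_lit 0x200010001a000f000020008000000000000000000000000000000000000000) := T_11 (nat_lit 194) (nat_lit 195) (nat_lit 3) (nat_lit 4) (nat_lit 10) L35942 (by decide +kernel)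
theorem L35944 : W_11 (nat_lit 7) (nat_lit 0x3c0002001300080000000000000000000000000000000) (nat_lit 0x0) (nat_lit 0x200010001a000fc00020008000000000000000000000000000000000000000) := T_11 (nat_lit 191) (nat_lit 190) (nat_lit 1) (nat_lit 7) (nat_lit 10) L35943 (by decide +kernel)
theorem L35945 : W_11 (nat_lit 8) (nat_lit 0x2c0002001300080000000000000000000000000000000) (nat_lit 0x0) (nat_lit 0x200010001a000fc00120009000000000000000000000000000000000000000) := T_11 (nat_lit 176) (nat_lit 156) (nat_lit 0) (nat_lit 7) (nat_lit 10) L35944 (by decide +kernel)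
theorem L35946 : W_11 (nat_lit 11) (nat_lit 0x2c0000001300080000000000000000000000000000000) (nat_lit 0x0) (nat_lit 0x2a0017001b800fe0013c00be0008000f000f00070003800000000000000000) := Q_11 (nat_lit 157) (C_11 L35920 (C_11 L35921 (C_11 L35874 (C_11 L35945 (C_11 L35919 N_11))))) (by decide +kernel)
theorem L35947 : W_11 (nat_lit 2) (nat_lit 0x3c001200130008c000000000000000000000000000000) (nat_lit 0x0) (nat_lit 0xc00000000000080000000000000000000000000000000000) := D_11 (nat_lit 191) (nat_lit 190) (nat_lit 139) (nat_lit 1) (nat_lit 7) (nat_lit 10) (nat_lit 4) (nat_lit 4) (nat_lit 11) (by decide +kernel)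
theorem L35948 : W_11 (nat_lit 3) (nat_lit 0x3c0012001300088000000000000000000000000000000) (nat_lit 0x0) (nat_lit 0xc00000000000080004000200000000000000000000000000) := T_11 (nat_lit 122) (nat_lit 105) (nat_lit 4) (nat_lit 4) (nat_lit 10) L35947 (by decide +kernel)
theorem L35949 : W_11 (nat_lit 4) (nat_lit 0x3c0012001300080000000000000000000000000000000) (nat_lit 0x0) (nat_lit 0x1c0000000000008000c000200000000000000000000000000) := T_11 (nat_lit 123) (nat_lit 192) (nat_lit 7) (nat_lit 4) (nat_lit 7) L35948 (by decide +kernel)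
theorem L35950 : W_11 (nat_lit 5) (nat_lit 0x3c0002001300080000000000000000000000000000000) (nat_lit 0x0) (nat_lit 0x1c0000003000008000c000200000000000000000000000000) := T_11 (nat_lit 160) (nat_lit 161) (nat_lit 2) (nat_lit 4) (nat_lit 10) L35949 (by decide +kernel)
theorem L35951 : W_11 (nat_lit 6) (nat_lit 0x3c0000001300080000000000000000000000000000000) (nat_lit 0x0) (nat_lit 0x1c0000003300008000c000200000000000000000000000000) := T_11 (nat_lit 157) (nat_lit 156) (nat_lit 0) (nat_lit 7) (nat_lit 10) L35950 (by decide +kernel)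
theorem L35953 : W_11 (nat_lit 4) (nat_lit 0x8003c0000001300080000000000000000000000000000000) (nat_lit 0x0) (nat_lit 0x2000d000000003000000008000000000000000000000000000000) := T_11 (nat_lit 194) (nat_lit 195) (nat_lit 3) (nat_lit 4) (nat_lit 10) L35952 (by decide +kernel)
theorem L35954 : W_11 (nat_lit 5) (nat_lit 0x3c0000001300080000000000000000000000000000000) (nat_lit 0x0) (nat_lit 0x2000dc00000003000000008000000000000000000000000000000) := T_11 (nat_lit 191) (nat_lit 190) (nat_lit 1) (nat_lit 7) (nat_lit 10) L35953 (by decide +kernel)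
theorem L35955 : W_11 (nat_lit 7) (nat_lit 0x2c0000001300080000000000000000000000000000000) (nat_lit 0x0) (nat_lit 0x2000dc0010003300088000c000200000000000000000000000000) := Q_11 (nat_lit 176) (C_11 L35924 (C_11 L35951 (C_11 L35954 N_11))) (by decide +kernel)
theorem L35956 : W_11 (nat_lit 2) (nat_lit 0x4003c0010001300080000000000000000000000000000000) (nat_lit 0x0) (nat_lit 0x200020008000000000000000000000000000000000000000) := D_11 (nat_lit 173) (nat_lit 159) (nat_lit 189) (nat_lit 2) (nat_lit 3) (nat_lit 10) (nat_lit 1) (nat_lit 6) (nat_lit 10) (by decide +kernel)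
theorem L35957 : W_11 (nat_lit 3) (nat_lit 0x4003c0000001300080000000000000000000000000000000) (nat_lit 0x0) (nat_lit 0x200020038000000000000000000000000000000000000000) := T_11 (nat_lit 160) (nat_lit 161) (nat_lit 2) (nat_lit 4) (nat_lit 10) L35956 (by decide +kernel)
theorem L35958 : W_11 (nat_lit 4) (nat_lit 0x3c0000001300080000000000000000000000000000000) (nat_lit 0x0) (nat_lit 0xe00020038000000000000000000000000000000000000000) := T_11 (nat_lit 190) (nat_lit 191) (nat_lit 1) (nat_lit 7) (nat_lit 10) L35957 (by decide +kernel)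
theorem L35959 : W_11 (nat_lit 5) (nat_lit 0x2c0000001300080000000000000000000000000000000) (nat_lit 0x0) (nat_lit 0xee00120038000800000000000000000000000000000000000) := Q_11 (nat_lit 176) (C_11 L35924 (C_11 L35958 (C_11 L35829 N_11))) (by decide +kernel)
theorem L35960 : W_11 (nat_lit 2) (nat_lit 0x3e0012001300080000000000000000000000000000000) (nat_lit 0x0) (nat_lit 0x600000000000000008000000000000000000000000000000) := D_11 (nat_lit 190) (nat_lit 189) (nat_lit 123) (nat_lit 1) (nat_lit 6) (nat_lit 10) (nat_lit 5) (nat_lit 4) (nat_lit 7) (by decide +kernel)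
theorem L35961 : W_11 (nat_lit 3) (nat_lit 0x3c0012001300080000000000000000000000000000000) (nat_lit 0x0) (nat_lit 0x600020008000000008000000000000000000000000000000) := T_11 (nat_lit 173) (nat_lit 159) (nat_lit 2) (nat_lit 3) (nat_lit 10) L35960 (by decide +kernel)
theorem L35962 : W_11 (nat_lit 4) (nat_lit 0x3c0002001300080000000000000000000000000000000) (nat_lit 0x0) (nat_lit 0x600020038000000008000000000000000000000000000000) := T_11 (nat_lit 160) (nat_lit 161) (nat_lit 2) (nat_lit 4) (nat_lit 10) L35961 (by decide +kernel)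
theorem L35963 : W_11 (nat_lit 5) (nat_lit 0x3c0000001300080000000000000000000000000000000) (nat_lit 0x0) (nat_lit 0x60002003b000000008000000000000000000000000000000) := T_11 (nat_lit 157) (nat_lit 156) (nat_lit 0) (nat_lit 7) (nat_lit 10) L35962 (by decide +kernel)
theorem L35964 : W_11 (nat_lit 2) (nat_lit 0x40003e0002001300080000000000000000000000000000000) (nat_lit 0x0) (nat_lit 0x600000000000000008000000000000000000000000000000) := D_11 (nat_lit 190) (nat_lit 189) (nat_lit 123) (nat_lit 1) (nat_lit 6) (nat_lit 10) (nat_lit 5) (nat_lit 4) (nat_lit 7) (by decide +kernel)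
theorem L35965 : W_11 (nat_lit 3) (nat_lit 0x40003c0002001300080000000000000000000000000000000) (nat_lit 0x0) (nat_lit 0x2600020000000000008000000000000000000000000000000) := T_11 (nat_lit 173) (nat_lit 193) (nat_lit 3) (nat_lit 3) (nat_lit 10) L35964 (by decide +kernel)
theorem L35966 : W_11 (nat_lit 4) (nat_lit 0x3c0002001300080000000000000000000000000000000) (nat_lit 0x0) (nat_lit 0xe600020000000000008000000000000000000000000000000) := T_11 (nat_lit 194) (nat_lit 195) (nat_lit 3) (nat_lit 4) (nat_lit 10) L35965 (by decide +kernel)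
theorem L35967 : W_11 (nat_lit 5) (nat_lit 0x3c0000001300080000000000000000000000000000000) (nat_lit 0x0) (nat_lit 0xe600020003000000008000000000000000000000000000000) := T_11 (nat_lit 157) (nat_lit 156) (nat_lit 0) (nat_lit 7) (nat_lit 10) L35966 (by decide +kernel)
theorem L35968 : W_11 (nat_lit 6) (nat_lit 0x2c0000001300080000000000000000000000000000000) (nat_lit 0x0) (nat_lit 0xe60012003b000800008000000000000000000000000000000) := Q_11 (nat_lit 176) (C_11 L35924 (C_11 L35963 (C_11 L35967 N_11))) (by decide +kernel)
theorem L35969 : W_11 (nat_lit 2) (nat_lit 0x10003e0012001300080000000000000000000000000000000) (nat_lit 0x0) (nat_lit 0x400020000800000000000000000000000000000000000000000000000) := D_11 (nat_lit 209) (nat_lit 226) (nat_lit 191) (nat_lit 4) (nat_lit 5) (nat_lit 13) (nat_lit 7) (nat_lit 4) (nat_lit 8) (by decide +kernel)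
theorem L35970 : W_11 (nat_lit 3) (nat_lit 0x3e0012001300080000000000000000000000000000000) (nat_lit 0x0) (nat_lit 0x400020001800000000000000008000000000000000000000000000000) := T_11 (nat_lit 192) (nat_lit 123) (nat_lit 7) (nat_lit 4) (nat_lit 7) L35969 (by decide +kernel)
theorem L35971 : W_11 (nat_lit 4) (nat_lit 0x3c0012001300080000000000000000000000000000000) (nat_lit 0x0) (nat_lit 0x400020001800020008000000008000000000000000000000000000000) := T_11 (nat_lit 173) (nat_lit 159) (nat_lit 2) (nat_lit 3) (nat_lit 10) L35970 (by decide +kernel)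
theorem L35972 : W_11 (nat_lit 5) (nat_lit 0x3c0002001300080000000000000000000000000000000) (nat_lit 0x0) (nat_lit 0x400020001800020038000000008000000000000000000000000000000) := T_11 (nat_lit 160) (nat_lit 161) (nat_lit 2) (nat_lit 4) (nat_lit 10) L35971 (by decide +kernel)
theorem L35973 : W_11 (nat_lit 6) (nat_lit 0x3c0000001300080000000000000000000000000000000) (nat_lit 0x0) (nat_lit 0x40002000180002003b000000008000000000000000000000000000000) := T_11 (nat_lit 157) (nat_lit 156) (nat_lit 0) (nat_lit 7) (nat_lit 10) L35972 (by decide +kernel)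
theorem L35974 : W_11 (nat_lit 2) (nat_lit 0x50003e0002001300080000000000000000000000000000000) (nat_lit 0x0) (nat_lit 0x400020000800000000000000000000000000000000000000000000000) := D_11 (nat_lit 209) (nat_lit 226) (nat_lit 191) (nat_lit 4) (nat_lit 5) (nat_lit 13) (nat_lit 7) (nat_lit 4) (nat_lit 8) (by decide +kernel)
theorem L35975 : W_11 (nat_lit 3) (nat_lit 0x40003e0002001300080000000000000000000000000000000) (nat_lit 0x0) (nat_lit 0x400020001800000000000000008000000000000000000000000000000) := T_11 (nat_lit 192) (nat_lit 123) (nat_lit 7) (nat_lit 4) (nat_lit 7) L35974 (by decide +kernel)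
theorem L35976 : W_11 (nat_lit 4) (nat_lit 0x40003c0002001300080000000000000000000000000000000) (nat_lit 0x0) (nat_lit 0x400020003800020000000000008000000000000000000000000000000) := T_11 (nat_lit 173) (nat_lit 193) (nat_lit 3) (nat_lit 3) (nat_lit 10) L35975 (by decide +kernel)
theorem L35977 : W_11 (nat_lit 5) (nat_lit 0x3c0002001300080000000000000000000000000000000) (nat_lit 0x0) (nat_lit 0x40002000f800020000000000008000000000000000000000000000000) := T_11 (nat_lit 194) (nat_lit 195) (nat_lit 3) (nat_lit 4) (nat_lit 10) L35976 (by decide +kernel)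
theorem L35978 : W_11 (nat_lit 6) (nat_lit 0x3c0000001300080000000000000000000000000000000) (nat_lit 0x0) (nat_lit 0x40002000f800020003000000008000000000000000000000000000000) := T_11 (nat_lit 157) (nat_lit 156) (nat_lit 0) (nat_lit 7) (nat_lit 10) L35977 (by decide +kernel)
theorem L35979 : W_11 (nat_lit 7) (nat_lit 0x2c0000001300080000000000000000000000000000000) (nat_lit 0x0) (nat_lit 0x40002000f80012003b000800008000000000000000000000000000000) := Q_11 (nat_lit 176) (C_11 L35924 (C_11 L35973 (C_11 L35978 N_11))) (by decide +kernel)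
theorem L35980 : W_11 (nat_lit 15) (nat_lit 0x280000001300080000000000000000000000000000000) (nat_lit 0x0) (nat_lit 0x4002e001f001fe00ff0017c03be008f000f000f00070003800000000000000000) := Q_11 (nat_lit 174) (C_11 L35830 (C_11 L35922 (C_11 L35929 (C_11 L35931 (C_11 L35938 (C_11 L35946 (C_11 L35955 (C_11 L35959 (C_11 L35968 (C_11 L35979 N_11)))))))))) (by decide +kernel)
theorem L35981 : W_11 (nat_lit 2) (nat_lit 0x28000e001300080000000000000000000000000000000) (nat_lit 0x0) (nat_lit 0x30000800000000000000000000000000000000000) := D_11 (nat_lit 160) (nat_lit 161) (nat_lit 143) (nat_lit 0) (nat_lit 8) (nat_lit 9) (nat_lit 2) (nat_lit 4) (nat_lit 9) (by decide +kernel)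
theorem L35982 : W_11 (nat_lit 2) (nat_lit 0x4002a000f401300080000000000000000000000000000000) (nat_lit 0x0) (nat_lit 0xc0008000000000000000000000000000000) := D_11 (nat_lit 139) (nat_lit 138) (nat_lit 123) (nat_lit 3) (nat_lit 2) (nat_lit 8) (nat_lit 6) (nat_lit 3) (nat_lit 11) (by decide +kernel)
theorem L35983 : W_11 (nat_lit 3) (nat_lit 0x2a000f401300080000000000000000000000000000000) (nat_lit 0x0) (nat_lit 0x80004000000000000c0008000000000000000000000000000000) := T_11 (nat_lit 190) (nat_lit 207) (nat_lit 6) (nat_lit 3) (nat_lit 12) L35982 (by decide +kernel)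
theorem L35984 : W_11 (nat_lit 4) (nat_lit 0x2a000f001300080000000000000000000000000000000) (nat_lit 0x0) (nat_lit 0x8000400000000c000c0008000000000000000000000000000000) := T_11 (nat_lit 154) (nat_lit 155) (nat_lit 2) (nat_lit 1) (nat_lit 9) L35983 (by decide +kernel)
theorem L35985 : W_11 (nat_lit 5) (nat_lit 0x28000f001300080000000000000000000000000000000) (nat_lit 0x0) (nat_lit 0x8000400030000c000c0008000000000000000000000000000000) := T_11 (nat_lit 173) (nat_lit 172) (nat_lit 1) (nat_lit 6) (nat_lit 9) L35984 (by decide +kernel)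
theorem L35986 : W_11 (nat_lit 6) (nat_lit 0x28000e001300080000000000000000000000000000000) (nat_lit 0x0) (nat_lit 0x8000400130001c000c0008000000000000000000000000000000) := T_11 (nat_lit 156) (nat_lit 176) (nat_lit 3) (nat_lit 3) (nat_lit 9) L35985 (by decide +kernel)
theorem L35987 : W_11 (nat_lit 7) (nat_lit 0x280006001300080000000000000000000000000000000) (nat_lit 0x0) (nat_lit 0x8000400130039c008c0008000000000000000000000000000000) := Q_11 (nat_lit 159) (C_11 L35981 (C_11 L35986 N_11)) (by decide +kernel)
theorem L35988 : W_11 (nat_lit 2) (nat_lit 0xe002a000f401380080000000000000000000000000000000) (nat_lit 0x0) (nat_lit 0x100040000000000004000000000000000000000000000000) := D_11 (nat_lit 174) (nat_lit 122) (nat_lit 188) (nat_lit 7) (nat_lit 3) (nat_lit 7) (nat_lit 2) (nat_lit 1) (nat_lit 11) (by decide +kernel)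
theorem L35989 : W_11 (nat_lit 3) (nat_lit 0x6002a000f401380080000000000000000000000000000000) (nat_lit 0x0) (nat_lit 0x10000900040000000000004000000000000000000000000000000) := T_11 (nat_lit 191) (nat_lit 208) (nat_lit 7) (nat_lit 3) (nat_lit 8) L35988 (by decide +kernel)
theorem L35990 : W_11 (nat_lit 4) (nat_lit 0x4002a000f401380080000000000000000000000000000000) (nat_lit 0x0) (nat_lit 0x14000b00040000000000004000000000000000000000000000000) := T_11 (nat_lit 189) (nat_lit 206) (nat_lit 5) (nat_lit 3) (nat_lit 8) L35989 (by decide +kernel)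
theorem L35991 : W_11 (nat_lit 5) (nat_lit 0x2a000f401380080000000000000000000000000000000) (nat_lit 0x0) (nat_lit 0x1c000f00040000000000004000000000000000000000000000000) := T_11 (nat_lit 190) (nat_lit 207) (nat_lit 6) (nat_lit 3) (nat_lit 12) L35990 (by decide +kernel)
theorem L35992 : W_11 (nat_lit 6) (nat_lit 0x2a000f401300080000000000000000000000000000000) (nat_lit 0x0) (nat_lit 0x1c000f000400000000c0004000000000000000000000000000000) := T_11 (nat_lit 139) (nat_lit 138) (nat_lit 3) (nat_lit 2) (nat_lit 8) L35991 (by decide +kernel)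
theorem L35993 : W_11 (nat_lit 7) (nat_lit 0x28000f401300080000000000000000000000000000000) (nat_lit 0x0) (nat_lit 0x1c000f000700000000c0004000000000000000000000000000000) := T_11 (nat_lit 173) (nat_lit 172) (nat_lit 1) (nat_lit 6) (nat_lit 9) L35992 (by decide +kernel)
theorem L35994 : W_11 (nat_lit 8) (nat_lit 0x28000f001300080000000000000000000000000000000) (nat_lit 0x0) (nat_lit 0x1c000f00070000c000c0004000000000000000000000000000000) := T_11 (nat_lit 154) (nat_lit 155) (nat_lit 2) (nat_lit 1) (nat_lit 9) L35993 (by decide +kernel)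
theorem L35995 : W_11 (nat_lit 2) (nat_lit 0x2a000f401300088000000000000000000000000000000) (nat_lit 0x0) (nat_lit 0x8000400040000000000000000000000000000000000000000000) := D_11 (nat_lit 190) (nat_lit 207) (nat_lit 174) (nat_lit 6) (nat_lit 3) (nat_lit 12) (nat_lit 5) (nat_lit 4) (nat_lit 7) (by decide +kernel)
theorem L35996 : W_11 (nat_lit 3) (nat_lit 0x2a000f401300080000000000000000000000000000000) (nat_lit 0x0) (nat_lit 0x8000400040000000000008000400000000000000000000000000) := T_11 (nat_lit 123) (nat_lit 106) (nat_lit 7) (nat_lit 4) (nat_lit 6) L35995 (by decide +kernel)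
theorem L35997 : W_11 (nat_lit 4) (nat_lit 0x2a000f001300080000000000000000000000000000000) (nat_lit 0x0) (nat_lit 0x8000400040000c00000008000400000000000000000000000000) := T_11 (nat_lit 154) (nat_lit 155) (nat_lit 2) (nat_lit 1) (nat_lit 9) L35996 (by decide +kernel)
theorem L35998 : W_11 (nat_lit 5) (nat_lit 0x28000f001300080000000000000000000000000000000) (nat_lit 0x0) (nat_lit 0x8000400070000c00000008000400000000000000000000000000) := T_11 (nat_lit 173) (nat_lit 172) (nat_lit 1) (nat_lit 6) (nat_lit 9) L35997 (by decide +kernel)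
theorem L35999 : W_11 (nat_lit 2) (nat_lit 0x2a000f001340088000000000000000000000000000000) (nat_lit 0x0) (nat_lit 0x8000400040000000000000000000000000000000000000000000) := D_11 (nat_lit 190) (nat_lit 207) (nat_lit 174) (nat_lit 6) (nat_lit 3) (nat_lit 12) (nat_lit 5) (nat_lit 4) (nat_lit 7) (by decide +kernel)
theorem L36000 : W_11 (nat_lit 3) (nat_lit 0x28000f001340088000000000000000000000000000000) (nat_lit 0x0) (nat_lit 0x8000400070000000000000000000000000000000000000000000) := T_11 (nat_lit 173) (nat_lit 172) (nat_lit 1) (nat_lit 6) (nat_lit 9) L35999 (by decide +kernel)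
theorem L36001 : W_11 (nat_lit 4) (nat_lit 0x28000f001340080000000000000000000000000000000) (nat_lit 0x0) (nat_lit 0x8000400070000000000008000400000000000000000000000000) := T_11 (nat_lit 123) (nat_lit 106) (nat_lit 7) (nat_lit 4) (nat_lit 6) L36000 (by decide +kernel)
theorem L36002 : W_11 (nat_lit 5) (nat_lit 0x28000f001300080000000000000000000000000000000) (nat_lit 0x0) (nat_lit 0x80004000700000000c0008000400000000000000000000000000) := T_11 (nat_lit 138) (nat_lit 139) (nat_lit 3) (nat_lit 2) (nat_lit 8) L36001 (by decide +kernel)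
theorem L36003 : W_11 (nat_lit 2) (nat_lit 0x28000f801300080000000000000000000000000000000) (nat_lit 0x0) (nat_lit 0xe0000000000000000000000000000000000) := D_11 (nat_lit 138) (nat_lit 139) (nat_lit 137) (nat_lit 3) (nat_lit 2) (nat_lit 8) (nat_lit 0) (nat_lit 5) (nat_lit 9) (by decide +kernel)
theorem L36004 : W_11 (nat_lit 3) (nat_lit 0x28000f001300080000000000000000000000000000000) (nat_lit 0x0) (nat_lit 0xc000e0000000000000000000000000000000000) := T_11 (nat_lit 155) (nat_lit 154) (nat_lit 2) (nat_lit 1) (nat_lit 9) L36003 (by decide +kernel)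
theorem L36005 : W_11 (nat_lit 9) (nat_lit 0x28000e001300080000000000000000000000000000000) (nat_lit 0x0) (nat_lit 0x1c000f00070001c000e000c000400000000000000000000000000) := Q_11 (nat_lit 156) (C_11 L35994 (C_11 L35998 (C_11 L35985 (C_11 L36002 (C_11 L36004 N_11))))) (by decide +kernel)
theorem L36006 : W_11 (nat_lit 10) (nat_lit 0x280006001300080000000000000000000000000000000) (nat_lit 0x0) (nat_lit 0x1c000f00070039c008e000c000400000000000000000000000000) := Q_11 (nat_lit 159) (C_11 L35981 (C_11 L36005 N_11)) (by decide +kernel)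
theorem L36007 : W_11 (nat_lit 2) (nat_lit 0x100000003c0016001300080000400000000000000000000000000) (nat_lit 0x0) (nat_lit 0xc000000000000800000000000000000000000000000000000) := D_11 (nat_lit 194) (nat_lit 195) (nat_lit 143) (nat_lit 3) (nat_lit 4) (nat_lit 10) (nat_lit 6) (nat_lit 7) (nat_lit 11) (by decide +kernel)
theorem L36008 : W_11 (nat_lit 3) (nat_lit 0x100000003c0006001300080000400000000000000000000000000) (nat_lit 0x0) (nat_lit 0xc000000030000800000000000000000000000000000000000) := T_11 (nat_lit 160) (nat_lit 161) (nat_lit 2) (nat_lit 4) (nat_lit 10) L36007 (by decide +kernel)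
theorem L36009 : W_11 (nat_lit 4) (nat_lit 0x100000002c0006001300080000400000000000000000000000000) (nat_lit 0x0) (nat_lit 0xc000100031000800000000000000000000000000000000000) := T_11 (nat_lit 176) (nat_lit 156) (nat_lit 0) (nat_lit 7) (nat_lit 10) L36008 (by decide +kernel)
theorem L36010 : W_11 (nat_lit 5) (nat_lit 0x2c0006001300080000400000000000000000000000000) (nat_lit 0x0) (nat_lit 0x1000c800100031000800000000000000000000000000000000000) := T_11 (nat_lit 208) (nat_lit 191) (nat_lit 6) (nat_lit 4) (nat_lit 12) L36009 (by decide +kernel)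
theorem L36011 : W_11 (nat_lit 6) (nat_lit 0x2c0006001300080000000000000000000000000000000) (nat_lit 0x0) (nat_lit 0x1000c800100031000800008000400000000000000000000000000) := T_11 (nat_lit 106) (nat_lit 123) (nat_lit 7) (nat_lit 4) (nat_lit 6) L36010 (by decide +kernel)
theorem L36012 : W_11 (nat_lit 2) (nat_lit 0x3c0006001300080000000000000000000000000000000) (nat_lit 0x0) (nat_lit 0x10000c00000000000000000000000000000000000000000000000) := D_11 (nat_lit 191) (nat_lit 208) (nat_lit 190) (nat_lit 6) (nat_lit 4) (nat_lit 12) (nat_lit 1) (nat_lit 7) (nat_lit 10) (by decide +kernel)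
theorem L36013 : W_11 (nat_lit 3) (nat_lit 0x2c0006001300080000000000000000000000000000000) (nat_lit 0x0) (nat_lit 0x10000c00100001000000000000000000000000000000000000000) := T_11 (nat_lit 176) (nat_lit 156) (nat_lit 0) (nat_lit 7) (nat_lit 10) L36012 (by decide +kernel)
theorem L36014 : W_11 (nat_lit 2) (nat_lit 0x100002002f000680130008d000000000000000000000000000000) (nat_lit 0x0) (nat_lit 0xe0000000000000000000000000000000000) := D_11 (nat_lit 138) (nat_lit 137) (nat_lit 139) (nat_lit 4) (nat_lit 2) (nat_lit 11) (nat_lit 6) (nat_lit 2) (nat_lit 11) (by decide +kernel)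
theorem L36015 : W_11 (nat_lit 3) (nat_lit 0x100000002f000680130008d000000000000000000000000000000) (nat_lit 0x0) (nat_lit 0x3000000000000e0000000000000000000000000000000000) := T_11 (nat_lit 189) (nat_lit 188) (nat_lit 1) (nat_lit 5) (nat_lit 10) L36014 (by decide +kernel)
theorem L36016 : W_11 (nat_lit 4) (nat_lit 0x100000002f000600130008d000000000000000000000000000000) (nat_lit 0x0) (nat_lit 0x300000000c000e0000000000000000000000000000000000) := T_11 (nat_lit 155) (nat_lit 154) (nat_lit 0) (nat_lit 5) (nat_lit 10) L36015 (by decide +kernel)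
theorem L36017 : W_11 (nat_lit 5) (nat_lit 0x100000002f000600130008c000000000000000000000000000000) (nat_lit 0x0) (nat_lit 0x300000000c000e0003000000000000000000000000000000) := T_11 (nat_lit 120) (nat_lit 121) (nat_lit 3) (nat_lit 1) (nat_lit 7) L36016 (by decide +kernel)
theorem L36018 : W_11 (nat_lit 6) (nat_lit 0x100000002f0006001300088000000000000000000000000000000) (nat_lit 0x0) (nat_lit 0x300000000c000e0007000200000000000000000000000000) := T_11 (nat_lit 122) (nat_lit 105) (nat_lit 4) (nat_lit 4) (nat_lit 10) L36017 (by decide +kernel)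
theorem L36019 : W_11 (nat_lit 7) (nat_lit 0x100000002e0006001300088000000000000000000000000000000) (nat_lit 0x0) (nat_lit 0x300018000c000e0007000200000000000000000000000000) := T_11 (nat_lit 172) (nat_lit 171) (nat_lit 2) (nat_lit 1) (nat_lit 10) L36018 (by decide +kernel)
theorem L36020 : W_11 (nat_lit 8) (nat_lit 0x100000002c0006001300088000000000000000000000000000000) (nat_lit 0x0) (nat_lit 0x700038000c000e0007000200000000000000000000000000) := T_11 (nat_lit 173) (nat_lit 190) (nat_lit 5) (nat_lit 4) (nat_lit 7) L36019 (by decide +kernel)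
theorem L36021 : W_11 (nat_lit 9) (nat_lit 0x100000002c0006001300080000000000000000000000000000000) (nat_lit 0x0) (nat_lit 0x700038000c000e000f000600000000000000000000000000) := T_11 (nat_lit 123) (nat_lit 106) (nat_lit 7) (nat_lit 4) (nat_lit 6) L36020 (by decide +kernel)
theorem L36022 : W_11 (nat_lit 10) (nat_lit 0x2c0006001300080000000000000000000000000000000) (nat_lit 0x0) (nat_lit 0x10000f00038000c000e000f000600000000000000000000000000) := T_11 (nat_lit 208) (nat_lit 191) (nat_lit 6) (nat_lit 4) (nat_lit 12) L36021 (by decide +kernel)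
theorem L36023 : W_11 (nat_lit 2) (nat_lit 0x3c0016001300080000400000000000000000000000000) (nat_lit 0x0) (nat_lit 0xc000000000000800000000000000000000000000000000000) := D_11 (nat_lit 194) (nat_lit 195) (nat_lit 143) (nat_lit 3) (nat_lit 4) (nat_lit 10) (nat_lit 6) (nat_lit 7) (nat_lit 11) (by decide +kernel)
theorem L36024 : W_11 (nat_lit 3) (nat_lit 0x3c0006001300080000400000000000000000000000000) (nat_lit 0x0) (nat_lit 0xc000000030000800000000000000000000000000000000000) := T_11 (nat_lit 160) (nat_lit 161) (nat_lit 2) (nat_lit 4) (nat_lit 10) L36023 (by decide +kernel)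
theorem L36025 : W_11 (nat_lit 4) (nat_lit 0x2c0006001300080000400000000000000000000000000) (nat_lit 0x0) (nat_lit 0xc000100031000800000000000000000000000000000000000) := T_11 (nat_lit 176) (nat_lit 156) (nat_lit 0) (nat_lit 7) (nat_lit 10) L36024 (by decide +kernel)
theorem L36026 : W_11 (nat_lit 5) (nat_lit 0x2c0006001300080000000000000000000000000000000) (nat_lit 0x0) (nat_lit 0xc000100031000800008000400000000000000000000000000) := T_11 (nat_lit 106) (nat_lit 123) (nat_lit 7) (nat_lit 4) (nat_lit 6) L36025 (by decide +kernel)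
theorem L36027 : W_11 (nat_lit 11) (nat_lit 0x280006001300080000000000000000000000000000000) (nat_lit 0x0) (nat_lit 0x1000cf00178031c008e000f000600000000000000000000000000) := Q_11 (nat_lit 174) (C_11 L36011 (C_11 L36013 (C_11 L36022 (C_11 L36026 N_11)))) (by decide +kernel)
theorem L36028 : W_11 (nat_lit 2) (nat_lit 0x280007001300080000000000000000000000000000000) (nat_lit 0x0) (nat_lit 0x140008000000000000000000000000000000000000000) := D_11 (nat_lit 176) (nat_lit 159) (nat_lit 174) (nat_lit 3) (nat_lit 3) (nat_lit 9) (nat_lit 0) (nat_lit 7) (nat_lit 10) (by decide +kernel)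
theorem L36029 : W_11 (nat_lit 2) (nat_lit 0x29000f801340080000400000000000000000000000000) (nat_lit 0x0) (nat_lit 0x30000800000000000000000000000000000000000) := D_11 (nat_lit 160) (nat_lit 161) (nat_lit 143) (nat_lit 0) (nat_lit 8) (nat_lit 9) (nat_lit 2) (nat_lit 4) (nat_lit 9) (by decide +kernel)
theorem L36030 : W_11 (nat_lit 3) (nat_lit 0x290007801340080000400000000000000000000000000) (nat_lit 0x0) (nat_lit 0x20038000800000000000000000000000000000000000) := T_11 (nat_lit 159) (nat_lit 173) (nat_lit 1) (nat_lit 6) (nat_lit 9) L36029 (by decide +kernel)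
theorem L36031 : W_11 (nat_lit 4) (nat_lit 0x280007801340080000400000000000000000000000000) (nat_lit 0x0) (nat_lit 0x38038000800000000000000000000000000000000000) := T_11 (nat_lit 172) (nat_lit 171) (nat_lit 1) (nat_lit 5) (nat_lit 9) L36030 (by decide +kernel)
theorem L36032 : W_11 (nat_lit 5) (nat_lit 0x280007801300080000400000000000000000000000000) (nat_lit 0x0) (nat_lit 0x38038000860000000000000000000000000000000000) := T_11 (nat_lit 138) (nat_lit 137) (nat_lit 0) (nat_lit 5) (nat_lit 9) L36031 (by decide +kernel)
theorem L36033 : W_11 (nat_lit 6) (nat_lit 0x280007801300080000000000000000000000000000000) (nat_lit 0x0) (nat_lit 0x38038000860008000400000000000000000000000000) := T_11 (nat_lit 106) (nat_lit 123) (nat_lit 7) (nat_lit 4) (nat_lit 6) L36032 (by decide +kernel)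
theorem L36034 : W_11 (nat_lit 7) (nat_lit 0x280007001300080000000000000000000000000000000) (nat_lit 0x0) (nat_lit 0x38038c00860008000400000000000000000000000000) := T_11 (nat_lit 155) (nat_lit 154) (nat_lit 2) (nat_lit 1) (nat_lit 9) L36033 (by decide +kernel)
theorem L36035 : W_11 (nat_lit 2) (nat_lit 0x280007001300080000000000000000000000000000000) (nat_lit 0x0) (nat_lit 0x100000c00000000000000000000000000000000000000) := D_11 (nat_lit 155) (nat_lit 154) (nat_lit 176) (nat_lit 2) (nat_lit 1) (nat_lit 9) (nat_lit 3) (nat_lit 2) (nat_lit 9) (by decide +kernel)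
theorem L36036 : W_11 (nat_lit 8) (nat_lit 0x280006001300080000000000000000000000000000000) (nat_lit 0x0) (nat_lit 0x178039c00860008000400000000000000000000000000) := Q_11 (nat_lit 156) (C_11 L36028 (C_11 L36034 (C_11 L36035 N_11))) (by decide +kernel)
theorem L36037 : W_11 (nat_lit 2) (nat_lit 0x290007801340080000400000000000000000000000000) (nat_lit 0x0) (nat_lit 0x20008000080000000000000000000000000000000000) := D_11 (nat_lit 159) (nat_lit 173) (nat_lit 139) (nat_lit 1) (nat_lit 6) (nat_lit 9) (nat_lit 3) (nat_lit 2) (nat_lit 8) (by decide +kernel)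
theorem L36038 : W_11 (nat_lit 3) (nat_lit 0x290007801300080000400000000000000000000000000) (nat_lit 0x0) (nat_lit 0x200080000e0000000000000000000000000000000000) := T_11 (nat_lit 138) (nat_lit 137) (nat_lit 0) (nat_lit 5) (nat_lit 9) L36037 (by decide +kernel)
theorem L36039 : W_11 (nat_lit 4) (nat_lit 0x280007801300080000400000000000000000000000000) (nat_lit 0x0) (nat_lit 0x380080000e0000000000000000000000000000000000) := T_11 (nat_lit 172) (nat_lit 171) (nat_lit 1) (nat_lit 5) (nat_lit 9) L36038 (by decide +kernel)
theorem L36040 : W_11 (nat_lit 5) (nat_lit 0x280007001300080000400000000000000000000000000) (nat_lit 0x0) (nat_lit 0x38008c000e0000000000000000000000000000000000) := T_11 (nat_lit 155) (nat_lit 154) (nat_lit 2) (nat_lit 1) (nat_lit 9) L36039 (by decide +kernel)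
theorem L36041 : W_11 (nat_lit 6) (nat_lit 0x280007001300080000000000000000000000000000000) (nat_lit 0x0) (nat_lit 0x38008c000e0008000400000000000000000000000000) := T_11 (nat_lit 106) (nat_lit 123) (nat_lit 7) (nat_lit 4) (nat_lit 6) L36040 (by decide +kernel)
theorem L36042 : W_11 (nat_lit 7) (nat_lit 0x280006001300080000000000000000000000000000000) (nat_lit 0x0) (nat_lit 0x178009c000e0008000400000000000000000000000000) := Q_11 (nat_lit 156) (C_11 L36035 (C_11 L36041 (C_11 L36028 N_11))) (by decide +kernel)
theorem L36043 : W_11 (nat_lit 2) (nat_lit 0xe002a000f001380080000400000000000000000000000000) (nat_lit 0x0) (nat_lit 0x100040000000000004000000000000000000000000000000) := D_11 (nat_lit 174) (nat_lit 122) (nat_lit 188) (nat_lit 7) (nat_lit 3) (nat_lit 7) (nat_lit 2) (nat_lit 1) (nat_lit 11) (by decide +kernel)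
theorem L36044 : W_11 (nat_lit 3) (nat_lit 0x6002a000f001380080000400000000000000000000000000) (nat_lit 0x0) (nat_lit 0x10000900040000000000004000000000000000000000000000000) := T_11 (nat_lit 191) (nat_lit 208) (nat_lit 7) (nat_lit 3) (nat_lit 8) L36043 (by decide +kernel)
theorem L36045 : W_11 (nat_lit 4) (nat_lit 0x4002a000f001380080000400000000000000000000000000) (nat_lit 0x0) (nat_lit 0x14000b00040000000000004000000000000000000000000000000) := T_11 (nat_lit 189) (nat_lit 206) (nat_lit 5) (nat_lit 3) (nat_lit 8) L36044 (by decide +kernel)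
theorem L36046 : W_11 (nat_lit 5) (nat_lit 0x2a000f001380080000400000000000000000000000000) (nat_lit 0x0) (nat_lit 0x1c000f00040000000000004000000000000000000000000000000) := T_11 (nat_lit 190) (nat_lit 207) (nat_lit 6) (nat_lit 3) (nat_lit 12) L36045 (by decide +kernel)
theorem L36047 : W_11 (nat_lit 6) (nat_lit 0x28000f001380080000400000000000000000000000000) (nat_lit 0x0) (nat_lit 0x1c000f00070000000000004000000000000000000000000000000) := T_11 (nat_lit 173) (nat_lit 172) (nat_lit 1) (nat_lit 6) (nat_lit 9) L36046 (by decide +kernel)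
theorem L36048 : W_11 (nat_lit 7) (nat_lit 0x28000e001380080000400000000000000000000000000) (nat_lit 0x0) (nat_lit 0x1c000f00170001000000004000000000000000000000000000000) := T_11 (nat_lit 156) (nat_lit 176) (nat_lit 3) (nat_lit 3) (nat_lit 9) L36047 (by decide +kernel)
theorem L36049 : W_11 (nat_lit 8) (nat_lit 0x28000e001300080000400000000000000000000000000) (nat_lit 0x0) (nat_lit 0x1c000f001700010000c0004000000000000000000000000000000) := T_11 (nat_lit 139) (nat_lit 138) (nat_lit 3) (nat_lit 2) (nat_lit 8) L36048 (by decide +kernel)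
theorem L36050 : W_11 (nat_lit 9) (nat_lit 0x28000e001300080000000000000000000000000000000) (nat_lit 0x0) (nat_lit 0x1c000f001700010000c000c000400000000000000000000000000) := T_11 (nat_lit 106) (nat_lit 123) (nat_lit 7) (nat_lit 4) (nat_lit 6) L36049 (by decide +kernel)
theorem L36051 : W_11 (nat_lit 10) (nat_lit 0x280006001300080000000000000000000000000000000) (nat_lit 0x0) (nat_lit 0x1c000f001700390008c000c000400000000000000000000000000) := Q_11 (nat_lit 159) (C_11 L35981 (C_11 L36050 N_11)) (by decide +kernel)
theorem L36052 : W_11 (nat_lit 4) (nat_lit 0x28000e001300080000000000000000000000000000000) (nat_lit 0x0) (nat_lit 0x100001c000e0000000000000000000000000000000000) := T_11 (nat_lit 156) (nat_lit 176) (nat_lit 3) (nat_lit 3) (nat_lit 9) L36004 (by decide +kernel)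
theorem L36053 : W_11 (nat_lit 5) (nat_lit 0x280006001300080000000000000000000000000000000) (nat_lit 0x0) (nat_lit 0x100039c008e0000000000000000000000000000000000) := Q_11 (nat_lit 159) (C_11 L35981 (C_11 L36052 N_11)) (by decide +kernel)
theorem L36054 : W_11 (nat_lit 2) (nat_lit 0x100000002e0006001300088000000000000000000000000000000) (nat_lit 0x0) (nat_lit 0x18008000000000000000000000000000000000000000) := D_11 (nat_lit 172) (nat_lit 159) (nat_lit 171) (nat_lit 2) (nat_lit 2) (nat_lit 10) (nat_lit 2) (nat_lit 1) (nat_lit 10) (by decide +kernel)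
theorem L36055 : W_11 (nat_lit 3) (nat_lit 0x100000002c0006001300088000000000000000000000000000000) (nat_lit 0x0) (nat_lit 0x400038008000000000000000000000000000000000000000) := T_11 (nat_lit 173) (nat_lit 190) (nat_lit 5) (nat_lit 4) (nat_lit 7) L36054 (by decide +kernel)
theorem L36056 : W_11 (nat_lit 4) (nat_lit 0x100000002c0006001300080000000000000000000000000000000) (nat_lit 0x0) (nat_lit 0x400038008000000008000400000000000000000000000000) := T_11 (nat_lit 123) (nat_lit 106) (nat_lit 7) (nat_lit 4) (nat_lit 6) L36055 (by decide +kernel)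
theorem L36057 : W_11 (nat_lit 5) (nat_lit 0x2c0006001300080000000000000000000000000000000) (nat_lit 0x0) (nat_lit 0x10000c00038008000000008000400000000000000000000000000) := T_11 (nat_lit 208) (nat_lit 191) (nat_lit 6) (nat_lit 4) (nat_lit 12) L36056 (by decide +kernel)
theorem L36058 : W_11 (nat_lit 6) (nat_lit 0x280006001300080000000000000000000000000000000) (nat_lit 0x0) (nat_lit 0x1000cc00178039000800008000400000000000000000000000000) := Q_11 (nat_lit 174) (C_11 L36026 (C_11 L36013 (C_11 L36057 N_11))) (by decide +kernel)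
theorem L36059 : W_11 (nat_lit 13) (nat_lit 0x280006001300080000000000000000000000000000000) (nat_lit 0x0) (nat_lit 0x1800ef00178018c008e000f000600000000000000000000000000) := Q_11 (nat_lit 160) (C_11 L35775 (C_11 L35817 (C_11 L35811 N_11))) (by decide +kernel)
theorem L36060 : W_11 (nat_lit 14) (nat_lit 0x280004001300080000000000000000000000000000000) (nat_lit 0x0) (nat_lit 0x1c00ef0017803bc008e000f000600000000000000000000000000) := Q_11 (nat_lit 157) (C_11 L35987 (C_11 L36006 (C_11 L36027 (C_11 L36036 (C_11 L36042 (C_11 L36051 (C_11 L36053 (C_11 L36058 (C_11 L36059 N_11))))))))) (by decide +kernel)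
theorem L36061 : W_11 (nat_lit 15) (nat_lit 0x280000001300080000000000000000000000000000000) (nat_lit 0x0) (nat_lit 0xa000fc00ff0017803fc008e000f000600000000000000000000000000) := Q_11 (nat_lit 158) (C_11 L35759 (C_11 L35822 (C_11 L35762 (C_11 L36060 (C_11 L35756 N_11))))) (by decide +kernel)
theorem L36062 : W_11 (nat_lit 6) (nat_lit 0x10003000280004001300080000000000000000000000000000000) (nat_lit 0x0) (nat_lit 0x2000ac00c000000038000800000000000000000000000000000000000) := T_11 (nat_lit 209) (nat_lit 225) (nat_lit 5) (nat_lit 5) (nat_lit 9) L33556 (by decide +kernel)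
theorem L36063 : W_11 (nat_lit 7) (nat_lit 0x10001000280004001300080000000000000000000000000000000) (nat_lit 0x0) (nat_lit 0x2000ec00e000000038000800000000000000000000000000000000000) := T_11 (nat_lit 193) (nat_lit 210) (nat_lit 7) (nat_lit 5) (nat_lit 8) L36062 (by decide +kernel)
theorem L36064 : W_11 (nat_lit 8) (nat_lit 0x1000280004001300080000000000000000000000000000000) (nat_lit 0x0) (nat_lit 0x2000fc00e800000038000800000000000000000000000000000000000) := T_11 (nat_lit 208) (nat_lit 191) (nat_lit 5) (nat_lit 5) (nat_lit 8) L36063 (by decide +kernel)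
theorem L36065 : W_11 (nat_lit 9) (nat_lit 0x280004001300080000000000000000000000000000000) (nat_lit 0x0) (nat_lit 0x2000fc00f800000038000800008000000000000000000000000000000) := T_11 (nat_lit 192) (nat_lit 123) (nat_lit 4) (nat_lit 5) (nat_lit 11) L36064 (by decide +kernel)
theorem L36066 : W_11 (nat_lit 2) (nat_lit 0x4d002c00168013c0082000000000000000000000000000000) (nat_lit 0x0) (nat_lit 0x30001000000000000000000000000000000000000000) := D_11 (nat_lit 173) (nat_lit 156) (nat_lit 172) (nat_lit 4) (nat_lit 3) (nat_lit 11) (nat_lit 7) (nat_lit 2) (nat_lit 7) (by decide +kernel)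
theorem L36067 : W_11 (nat_lit 3) (nat_lit 0x4d002c00168013c0080000000000000000000000000000000) (nat_lit 0x0) (nat_lit 0x30001000000003000000000000000000000000000000) := T_11 (nat_lit 121) (nat_lit 120) (nat_lit 0) (nat_lit 5) (nat_lit 8) L36066 (by decide +kernel)
theorem L36068 : W_11 (nat_lit 4) (nat_lit 0x4d002c00160013c0080000000000000000000000000000000) (nat_lit 0x0) (nat_lit 0x30001c00000003000000000000000000000000000000) := T_11 (nat_lit 155) (nat_lit 154) (nat_lit 1) (nat_lit 5) (nat_lit 8) L36067 (by decide +kernel)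
theorem L36069 : W_11 (nat_lit 5) (nat_lit 0x4d002c0016001380080000000000000000000000000000000) (nat_lit 0x0) (nat_lit 0x30001c00060003000000000000000000000000000000) := T_11 (nat_lit 138) (nat_lit 137) (nat_lit 3) (nat_lit 1) (nat_lit 8) L36068 (by decide +kernel)
theorem L36070 : W_11 (nat_lit 6) (nat_lit 0x4d002c0016001300080000000000000000000000000000000) (nat_lit 0x0) (nat_lit 0x30001c000e0007000000000000000000000000000000) := T_11 (nat_lit 139) (nat_lit 122) (nat_lit 4) (nat_lit 4) (nat_lit 11) L36069 (by decide +kernel)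
theorem L36071 : W_11 (nat_lit 7) (nat_lit 0x4c002c0016001300080000000000000000000000000000000) (nat_lit 0x0) (nat_lit 0x300030001c000e0007000000000000000000000000000000) := T_11 (nat_lit 188) (nat_lit 189) (nat_lit 2) (nat_lit 1) (nat_lit 11) L36070 (by decide +kernel)
theorem L36072 : W_11 (nat_lit 8) (nat_lit 0x48002c0016001300080000000000000000000000000000000) (nat_lit 0x0) (nat_lit 0x8000700030001c000e0007000000000000000000000000000000) := T_11 (nat_lit 190) (nat_lit 207) (nat_lit 5) (nat_lit 4) (nat_lit 8) L36071 (by decide +kernel)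
theorem L36073 : W_11 (nat_lit 9) (nat_lit 0x40002c0016001300080000000000000000000000000000000) (nat_lit 0x0) (nat_lit 0x18000f00030001c000e0007000000000000000000000000000000) := T_11 (nat_lit 191) (nat_lit 208) (nat_lit 6) (nat_lit 4) (nat_lit 12) L36072 (by decide +kernel)
theorem L36074 : W_11 (nat_lit 10) (nat_lit 0x2c0016001300080000000000000000000000000000000) (nat_lit 0x0) (nat_lit 0x18004f00030001c008e0007000000000000000000000000000000) := T_11 (nat_lit 194) (nat_lit 143) (nat_lit 6) (nat_lit 7) (nat_lit 11) L36073 (by decide +kernel)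
theorem L36075 : W_11 (nat_lit 2) (nat_lit 0x8002c0016001300088000000000000000000000000000000) (nat_lit 0x0) (nat_lit 0x8000400020000000000000000000000000000000000000000000) := D_11 (nat_lit 190) (nat_lit 207) (nat_lit 173) (nat_lit 5) (nat_lit 4) (nat_lit 8) (nat_lit 5) (nat_lit 4) (nat_lit 7) (by decide +kernel)
theorem L36076 : W_11 (nat_lit 3) (nat_lit 0x8002c0016001300080000000000000000000000000000000) (nat_lit 0x0) (nat_lit 0x8000400020000000000008000400000000000000000000000000) := T_11 (nat_lit 123) (nat_lit 106) (nat_lit 7) (nat_lit 4) (nat_lit 6) L36075 (by decide +kernel)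
theorem L36077 : W_11 (nat_lit 4) (nat_lit 0x2c0016001300080000000000000000000000000000000) (nat_lit 0x0) (nat_lit 0x18000c00020000000000008000400000000000000000000000000) := T_11 (nat_lit 191) (nat_lit 208) (nat_lit 6) (nat_lit 4) (nat_lit 12) L36076 (by decide +kernel)
theorem L36078 : W_11 (nat_lit 2) (nat_lit 0x8002c0016001300088000000000000000000000000000000) (nat_lit 0x0) (nat_lit 0x80004000200000000000000000000000000) := D_11 (nat_lit 122) (nat_lit 139) (nat_lit 105) (nat_lit 4) (nat_lit 4) (nat_lit 11) (nat_lit 4) (nat_lit 4) (nat_lit 10) (by decide +kernel)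
theorem L36079 : W_11 (nat_lit 3) (nat_lit 0x8002c0016001300080000000000000000000000000000000) (nat_lit 0x0) (nat_lit 0x8000c000600000000000000000000000000) := T_11 (nat_lit 123) (nat_lit 106) (nat_lit 7) (nat_lit 4) (nat_lit 6) L36078 (by decide +kernel)
theorem L36080 : W_11 (nat_lit 4) (nat_lit 0x2c0016001300080000000000000000000000000000000) (nat_lit 0x0) (nat_lit 0x1000080000000000008000c000600000000000000000000000000) := T_11 (nat_lit 191) (nat_lit 208) (nat_lit 6) (nat_lit 4) (nat_lit 12) L36079 (by decide +kernel)
theorem L36081 : W_11 (nat_lit 2) (nat_lit 0x42002f001680130008d000000000000000000000000000000) (nat_lit 0x0) (nat_lit 0x10000c0000000000000000000000000000000000) := D_11 (nat_lit 139) (nat_lit 156) (nat_lit 138) (nat_lit 5) (nat_lit 3) (nat_lit 7) (nat_lit 6) (nat_lit 2) (nat_lit 11) (by decide +kernel)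
theorem L36082 : W_11 (nat_lit 3) (nat_lit 0x42002f001600130008d000000000000000000000000000000) (nat_lit 0x0) (nat_lit 0x1c000c0000000000000000000000000000000000) := T_11 (nat_lit 155) (nat_lit 154) (nat_lit 0) (nat_lit 5) (nat_lit 10) L36081 (by decide +kernel)
theorem L36083 : W_11 (nat_lit 4) (nat_lit 0x40002f001600130008d000000000000000000000000000000) (nat_lit 0x0) (nat_lit 0x300000001c000c0000000000000000000000000000000000) := T_11 (nat_lit 189) (nat_lit 188) (nat_lit 1) (nat_lit 5) (nat_lit 10) L36082 (by decide +kernel)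
theorem L36084 : W_11 (nat_lit 5) (nat_lit 0x40002e001600130008d000000000000000000000000000000) (nat_lit 0x0) (nat_lit 0x300018001c000c0000000000000000000000000000000000) := T_11 (nat_lit 172) (nat_lit 171) (nat_lit 2) (nat_lit 1) (nat_lit 10) L36083 (by decide +kernel)
theorem L36085 : W_11 (nat_lit 6) (nat_lit 0x40002c001600130008d000000000000000000000000000000) (nat_lit 0x0) (nat_lit 0x700038001c000c0000000000000000000000000000000000) := T_11 (nat_lit 173) (nat_lit 190) (nat_lit 5) (nat_lit 4) (nat_lit 7) L36084 (by decide +kernel)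
theorem L36086 : W_11 (nat_lit 7) (nat_lit 0x40002c001600130008c000000000000000000000000000000) (nat_lit 0x0) (nat_lit 0x700038001c000c0003000000000000000000000000000000) := T_11 (nat_lit 120) (nat_lit 121) (nat_lit 3) (nat_lit 1) (nat_lit 7) L36085 (by decide +kernel)
theorem L36087 : W_11 (nat_lit 8) (nat_lit 0x40002c0016001300088000000000000000000000000000000) (nat_lit 0x0) (nat_lit 0x700038001c000c0007000200000000000000000000000000) := T_11 (nat_lit 122) (nat_lit 105) (nat_lit 4) (nat_lit 4) (nat_lit 10) L36086 (by decide +kernel)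
theorem L36088 : W_11 (nat_lit 9) (nat_lit 0x2c0016001300088000000000000000000000000000000) (nat_lit 0x0) (nat_lit 0x4700038001c008c0007000200000000000000000000000000) := T_11 (nat_lit 194) (nat_lit 143) (nat_lit 6) (nat_lit 7) (nat_lit 11) L36087 (by decide +kernel)
theorem L36089 : W_11 (nat_lit 10) (nat_lit 0x2c0016001300080000000000000000000000000000000) (nat_lit 0x0) (nat_lit 0x4700038001c008c000f000600000000000000000000000000) := T_11 (nat_lit 123) (nat_lit 106) (nat_lit 7) (nat_lit 4) (nat_lit 6) L36088 (by decide +kernel)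
theorem L36090 : W_11 (nat_lit 11) (nat_lit 0x280016001300080000000000000000000000000000000) (nat_lit 0x0) (nat_lit 0x18004f00078001c008e000f000600000000000000000000000000) := Q_11 (nat_lit 174) (C_11 L36074 (C_11 L36077 (C_11 L36080 (C_11 L36089 N_11)))) (by decide +kernel)
theorem L36091 : W_11 (nat_lit 2) (nat_lit 0x2c0016001300080000000000000000000000000000000) (nat_lit 0x0) (nat_lit 0x20008000080000000000000000000000000000000000) := D_11 (nat_lit 159) (nat_lit 139) (nat_lit 173) (nat_lit 0) (nat_lit 7) (nat_lit 9) (nat_lit 1) (nat_lit 7) (nat_lit 9) (by decide +kernel)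
theorem L36092 : W_11 (nat_lit 5) (nat_lit 0x280016001300080000000000000000000000000000000) (nat_lit 0x0) (nat_lit 0x18000c0006000800008000c000600000000000000000000000000) := Q_11 (nat_lit 174) (C_11 L36091 (C_11 L36080 (C_11 L36077 N_11))) (by decide +kernel)
theorem L36093 : W_11 (nat_lit 12) (nat_lit 0x280014001300080000000000000000000000000000000) (nat_lit 0x0) (nat_lit 0x18004f0007800bc008e000f000600000000000000000000000000) := Q_11 (nat_lit 157) (C_11 L35775 (C_11 L35812 (C_11 L36090 (C_11 L36092 N_11)))) (by decide +kernel)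
theorem L36094 : W_11 (nat_lit 13) (nat_lit 0x280004001300080000000000000000000000000000000) (nat_lit 0x0) (nat_lit 0x500038001d8004f0007803bc008e000f000600000000000000000000000000) := Q_11 (nat_lit 160) (C_11 L35820 (C_11 L35769 (C_11 L36093 N_11))) (by decide +kernel)
theorem L36095 : W_11 (nat_lit 2) (nat_lit 0x7000280014001300080000000000000000000000000000000) (nat_lit 0x0) (nat_lit 0x80000000000028000000000000000000000000000000000000000) := D_11 (nat_lit 161) (nat_lit 159) (nat_lit 211) (nat_lit 0) (nat_lit 8) (nat_lit 9) (nat_lit 6) (nat_lit 7) (nat_lit 12) (by decide +kernel)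
theorem L36096 : W_11 (nat_lit 3) (nat_lit 0x3000280014001300080000000000000000000000000000000) (nat_lit 0x0) (nat_lit 0x80004000000028000800000000000000000000000000000000000) := T_11 (nat_lit 194) (nat_lit 143) (nat_lit 6) (nat_lit 7) (nat_lit 11) L36095 (by decide +kernel)
theorem L36097 : W_11 (nat_lit 4) (nat_lit 0x1000280014001300080000000000000000000000000000000) (nat_lit 0x0) (nat_lit 0xc0006000000028000800000000000000000000000000000000000) := T_11 (nat_lit 193) (nat_lit 210) (nat_lit 7) (nat_lit 5) (nat_lit 8) L36096 (by decide +kernel)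
theorem L36098 : W_11 (nat_lit 2) (nat_lit 0x5000280014001300080000000000000000000000000000000) (nat_lit 0x0) (nat_lit 0x80000000000028000000000000000000000000000000000000000) := D_11 (nat_lit 161) (nat_lit 159) (nat_lit 211) (nat_lit 0) (nat_lit 8) (nat_lit 9) (nat_lit 6) (nat_lit 7) (nat_lit 12) (by decide +kernel)
theorem L36099 : W_11 (nat_lit 3) (nat_lit 0x1000280014001300080000000000000000000000000000000) (nat_lit 0x0) (nat_lit 0x80004000000028000800000000000000000000000000000000000) := T_11 (nat_lit 194) (nat_lit 143) (nat_lit 6) (nat_lit 7) (nat_lit 11) L36098 (by decide +kernel)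
theorem L36100 : W_11 (nat_lit 2) (nat_lit 0x8000f000280014001300080000000000000000000000000000000) (nat_lit 0x0) (nat_lit 0x110000800000000000000000000000000000000000000000000000) := D_11 (nat_lit 191) (nat_lit 212) (nat_lit 208) (nat_lit 3) (nat_lit 4) (nat_lit 11) (nat_lit 5) (nat_lit 5) (nat_lit 8) (by decide +kernel)
theorem L36101 : W_11 (nat_lit 3) (nat_lit 0xf000280014001300080000000000000000000000000000000) (nat_lit 0x0) (nat_lit 0x190000800000020000000000000000000000000000000000000000) := T_11 (nat_lit 211) (nat_lit 161) (nat_lit 6) (nat_lit 7) (nat_lit 12) L36100 (by decide +kernel)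
theorem L36102 : W_11 (nat_lit 4) (nat_lit 0x7000280014001300080000000000000000000000000000000) (nat_lit 0x0) (nat_lit 0x190008800040020000000000000000000000000000000000000000) := T_11 (nat_lit 195) (nat_lit 174) (nat_lit 0) (nat_lit 8) (nat_lit 11) L36101 (by decide +kernel)
theorem L36103 : W_11 (nat_lit 5) (nat_lit 0x3000280014001300080000000000000000000000000000000) (nat_lit 0x0) (nat_lit 0x19000c800040020000800000000000000000000000000000000000) := T_11 (nat_lit 194) (nat_lit 143) (nat_lit 6) (nat_lit 7) (nat_lit 11) L36102 (by decide +kernel)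
theorem L36104 : W_11 (nat_lit 6) (nat_lit 0x1000280014001300080000000000000000000000000000000) (nat_lit 0x0) (nat_lit 0x1d000e800040020000800000000000000000000000000000000000) := T_11 (nat_lit 193) (nat_lit 210) (nat_lit 7) (nat_lit 5) (nat_lit 8) L36103 (by decide +kernel)
theorem L36105 : W_11 (nat_lit 2) (nat_lit 0x20001f800280034001300080000000000000000000000000000000) (nat_lit 0x0) (nat_lit 0x1800040000000000000000000000000000000000000000) := D_11 (nat_lit 179) (nat_lit 180) (nat_lit 162) (nat_lit 2) (nat_lit 6) (nat_lit 11) (nat_lit 4) (nat_lit 9) (nat_lit 12) (by decide +kernel)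
theorem L36106 : W_11 (nat_lit 3) (nat_lit 0x20000f800280034001300080000000000000000000000000000000) (nat_lit 0x0) (nat_lit 0x400010001800040000000000000000000000000000000000000000) := T_11 (nat_lit 196) (nat_lit 214) (nat_lit 3) (nat_lit 6) (nat_lit 11) L36105 (by decide +kernel)
theorem L36107 : W_11 (nat_lit 4) (nat_lit 0xf800280034001300080000000000000000000000000000000) (nat_lit 0x0) (nat_lit 0x700010001800040000000000000000000000000000000000000000) := T_11 (nat_lit 213) (nat_lit 212) (nat_lit 3) (nat_lit 5) (nat_lit 11) L36106 (by decide +kernel)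
theorem L36108 : W_11 (nat_lit 5) (nat_lit 0xf000280034001300080000000000000000000000000000000) (nat_lit 0x0) (nat_lit 0x710010801800040000000000000000000000000000000000000000) := T_11 (nat_lit 191) (nat_lit 208) (nat_lit 5) (nat_lit 5) (nat_lit 8) L36107 (by decide +kernel)
theorem L36109 : W_11 (nat_lit 6) (nat_lit 0x7000280034001300080000000000000000000000000000000) (nat_lit 0x0) (nat_lit 0x710018801840040000000000000000000000000000000000000000) := T_11 (nat_lit 195) (nat_lit 174) (nat_lit 0) (nat_lit 8) (nat_lit 11) L36108 (by decide +kernel)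
theorem L36110 : W_11 (nat_lit 7) (nat_lit 0x5000280034001300080000000000000000000000000000000) (nat_lit 0x0) (nat_lit 0x75001a801840040000000000000000000000000000000000000000) := T_11 (nat_lit 193) (nat_lit 210) (nat_lit 7) (nat_lit 5) (nat_lit 8) L36109 (by decide +kernel)
theorem L36111 : W_11 (nat_lit 8) (nat_lit 0x5000280014001300080000000000000000000000000000000) (nat_lit 0x0) (nat_lit 0x75001a801840068000000000000000000000000000000000000000) := T_11 (nat_lit 161) (nat_lit 159) (nat_lit 0) (nat_lit 8) (nat_lit 9) L36110 (by decide +kernel)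
theorem L36112 : W_11 (nat_lit 9) (nat_lit 0x1000280014001300080000000000000000000000000000000) (nat_lit 0x0) (nat_lit 0x75001e801840068000800000000000000000000000000000000000) := T_11 (nat_lit 194) (nat_lit 143) (nat_lit 6) (nat_lit 7) (nat_lit 11) L36111 (by decide +kernel)
theorem L36113 : W_11 (nat_lit 2) (nat_lit 0x180028001c001300080000000000000000000000000000000) (nat_lit 0x0) (nat_lit 0x2000880000000000000000000000000000000000) := D_11 (nat_lit 157) (nat_lit 139) (nat_lit 143) (nat_lit 0) (nat_lit 7) (nat_lit 9) (nat_lit 2) (nat_lit 4) (nat_lit 9) (by decide +kernel)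
theorem L36114 : W_11 (nat_lit 3) (nat_lit 0x1800280014001300080000000000000000000000000000000) (nat_lit 0x0) (nat_lit 0x2a000880000000000000000000000000000000000) := T_11 (nat_lit 159) (nat_lit 161) (nat_lit 0) (nat_lit 8) (nat_lit 9) L36113 (by decide +kernel)
theorem L36115 : W_11 (nat_lit 4) (nat_lit 0x1000280014001300080000000000000000000000000000000) (nat_lit 0x0) (nat_lit 0x1000080000002a000880000000000000000000000000000000000) := T_11 (nat_lit 191) (nat_lit 208) (nat_lit 5) (nat_lit 5) (nat_lit 8) L36114 (by decide +kernel)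
theorem L36117 : W_11 (nat_lit 3) (nat_lit 0x3800280014001300080000000000000000000000000000000) (nat_lit 0x0) (nat_lit 0xc000060000000800000000000000000000000000000000000) := T_11 (nat_lit 194) (nat_lit 143) (nat_lit 6) (nat_lit 7) (nat_lit 11) L36116 (by decide +kernel)
theorem L36118 : W_11 (nat_lit 4) (nat_lit 0x3000280014001300080000000000000000000000000000000) (nat_lit 0x0) (nat_lit 0x1000c800060000000800000000000000000000000000000000000) := T_11 (nat_lit 191) (nat_lit 208) (nat_lit 5) (nat_lit 5) (nat_lit 8) L36117 (by decide +kernel)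
theorem L36119 : W_11 (nat_lit 5) (nat_lit 0x1000280014001300080000000000000000000000000000000) (nat_lit 0x0) (nat_lit 0x5000e800060000000800000000000000000000000000000000000) := T_11 (nat_lit 193) (nat_lit 210) (nat_lit 7) (nat_lit 5) (nat_lit 8) L36118 (by decide +kernel)
theorem L36120 : W_11 (nat_lit 7) (nat_lit 0x3000280034001300080000000000000000000000000000000) (nat_lit 0x0) (nat_lit 0x79001c801840040000000000000000000000000000000000000000) := T_11 (nat_lit 194) (nat_lit 211) (nat_lit 6) (nat_lit 7) (nat_lit 12) L36109 (by decide +kernel)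
theorem L36121 : W_11 (nat_lit 8) (nat_lit 0x1000280034001300080000000000000000000000000000000) (nat_lit 0x0) (nat_lit 0x7d001e801840040000000000000000000000000000000000000000) := T_11 (nat_lit 193) (nat_lit 210) (nat_lit 7) (nat_lit 5) (nat_lit 8) L36120 (by decide +kernel)
theorem L36122 : W_11 (nat_lit 9) (nat_lit 0x1000280014001300080000000000000000000000000000000) (nat_lit 0x0) (nat_lit 0x7d001e801840068000000000000000000000000000000000000000) := T_11 (nat_lit 161) (nat_lit 159) (nat_lit 0) (nat_lit 8) (nat_lit 9) L36121 (by decide +kernel)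
theorem L36123 : W_11 (nat_lit 10) (nat_lit 0x1000280004001300080000000000000000000000000000000) (nat_lit 0x0) (nat_lit 0x7d001e80186007a000880000000000000000000000000000000000) := Q_11 (nat_lit 160) (C_11 L36097 (C_11 L36099 (C_11 L36104 (C_11 L36112 (C_11 L36115 (C_11 L36119 (C_11 L36122 N_11))))))) (by decide +kernel)
theorem L36124 : W_11 (nat_lit 11) (nat_lit 0x280004001300080000000000000000000000000000000) (nat_lit 0x0) (nat_lit 0xa007fc01f80186007a000880000000000000000000000000000000000) := Q_11 (nat_lit 192) (C_11 L36064 (C_11 L35758 (C_11 L36123 (C_11 L35755 N_11)))) (by decide +kernel)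
theorem L36125 : W_11 (nat_lit 14) (nat_lit 0x280000001300080000000000000000000000000000000) (nat_lit 0x0) (nat_lit 0x50003a007fc01ff0187807fc008e000f000600000000000000000000000000) := Q_11 (nat_lit 158) (C_11 L35759 (C_11 L36065 (C_11 L36094 (C_11 L36124 (C_11 L35756 N_11))))) (by decide +kernel)
theorem L36126 : W_11 (nat_lit 2) (nat_lit 0x7000500038001c001340080000000000000000000000000000000) (nat_lit 0x0) (nat_lit 0x8000060000000000000000000000000000000000000000000) := D_11 (nat_lit 174) (nat_lit 195) (nat_lit 173) (nat_lit 3) (nat_lit 4) (nat_lit 10) (nat_lit 2) (nat_lit 3) (nat_lit 10) (by decide +kernel)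
theorem L36127 : W_11 (nat_lit 3) (nat_lit 0x7000500028001c001340080000000000000000000000000000000) (nat_lit 0x0) (nat_lit 0x400000008000160000000000000000000000000000000000000000000) := T_11 (nat_lit 176) (nat_lit 226) (nat_lit 6) (nat_lit 5) (nat_lit 13) L36126 (by decide +kernel)
theorem L36128 : W_11 (nat_lit 4) (nat_lit 0x3000500028001c001340080000000000000000000000000000000) (nat_lit 0x0) (nat_lit 0xc00040008000160000000000000000000000000000000000000000000) := T_11 (nat_lit 210) (nat_lit 227) (nat_lit 7) (nat_lit 5) (nat_lit 9) L36127 (by decide +kernel)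
theorem L36129 : W_11 (nat_lit 5) (nat_lit 0x3000500028001c001300080000000000000000000000000000000) (nat_lit 0x0) (nat_lit 0xc000400080001600000000c0000000000000000000000000000000000) := T_11 (nat_lit 138) (nat_lit 139) (nat_lit 3) (nat_lit 2) (nat_lit 8) L36128 (by decide +kernel)
theorem L36130 : W_11 (nat_lit 6) (nat_lit 0x1000500028001c001300080000000000000000000000000000000) (nat_lit 0x0) (nat_lit 0xe000600080001600000000c0000000000000000000000000000000000) := T_11 (nat_lit 209) (nat_lit 225) (nat_lit 5) (nat_lit 5) (nat_lit 9) L36129 (by decide +kernel)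
theorem L36131 : W_11 (nat_lit 7) (nat_lit 0x10005000280014001300080000000000000000000000000000000) (nat_lit 0x0) (nat_lit 0xe000600080001600280000c0000000000000000000000000000000000) := T_11 (nat_lit 159) (nat_lit 161) (nat_lit 0) (nat_lit 8) (nat_lit 9) L36130 (by decide +kernel)
theorem L36132 : W_11 (nat_lit 8) (nat_lit 0x5000280014001300080000000000000000000000000000000) (nat_lit 0x0) (nat_lit 0xe000700088001600280000c0000000000000000000000000000000000) := T_11 (nat_lit 208) (nat_lit 191) (nat_lit 5) (nat_lit 5) (nat_lit 8) L36131 (by decide +kernel)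
theorem L36133 : W_11 (nat_lit 9) (nat_lit 0x1000280014001300080000000000000000000000000000000) (nat_lit 0x0) (nat_lit 0xe0007000c8001600280008c0000000000000000000000000000000000) := T_11 (nat_lit 194) (nat_lit 143) (nat_lit 6) (nat_lit 7) (nat_lit 11) L36132 (by decide +kernel)
theorem L36134 : W_11 (nat_lit 10) (nat_lit 0x280014001300080000000000000000000000000000000) (nat_lit 0x0) (nat_lit 0xe0007000d8001600280008c0008000000000000000000000000000000) := T_11 (nat_lit 192) (nat_lit 123) (nat_lit 4) (nat_lit 5) (nat_lit 11) L36133 (by decide +kernel)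
theorem L36135 : W_11 (nat_lit 2) (nat_lit 0x40003000100028001c001340080000000000000000000000000000000) (nat_lit 0x0) (nat_lit 0x10000800040000000000000000000000000000000000000000000000000000) := D_11 (nat_lit 227) (nat_lit 210) (nat_lit 244) (nat_lit 7) (nat_lit 5) (nat_lit 9) (nat_lit 7) (nat_lit 5) (nat_lit 10) (by decide +kernel)
theorem L36136 : W_11 (nat_lit 3) (nat_lit 0x3000100028001c001340080000000000000000000000000000000) (nat_lit 0x0) (nat_lit 0x10000c00040000000100000000000000000000000000000000000000000000) := T_11 (nat_lit 226) (nat_lit 176) (nat_lit 6) (nat_lit 5) (nat_lit 13) L36135 (by decide +kernel)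
theorem L36137 : W_11 (nat_lit 4) (nat_lit 0x1000100028001c001340080000000000000000000000000000000) (nat_lit 0x0) (nat_lit 0x10000e00060000000100000000000000000000000000000000000000000000) := T_11 (nat_lit 209) (nat_lit 225) (nat_lit 5) (nat_lit 5) (nat_lit 9) L36136 (by decide +kernel)
theorem L36138 : W_11 (nat_lit 5) (nat_lit 0x1000100028001c001300080000000000000000000000000000000) (nat_lit 0x0) (nat_lit 0x10000e000600000001000000000c0000000000000000000000000000000000) := T_11 (nat_lit 138) (nat_lit 139) (nat_lit 3) (nat_lit 2) (nat_lit 8) L36137 (by decide +kernel)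
theorem L36139 : W_11 (nat_lit 6) (nat_lit 0x100028001c001300080000000000000000000000000000000) (nat_lit 0x0) (nat_lit 0x10000e000700008001000000000c0000000000000000000000000000000000) := T_11 (nat_lit 208) (nat_lit 191) (nat_lit 5) (nat_lit 5) (nat_lit 8) L36138 (by decide +kernel)
theorem L36140 : W_11 (nat_lit 7) (nat_lit 0x1000280014001300080000000000000000000000000000000) (nat_lit 0x0) (nat_lit 0x10000e000700008001000280000c0000000000000000000000000000000000) := T_11 (nat_lit 159) (nat_lit 161) (nat_lit 0) (nat_lit 8) (nat_lit 9) L36139 (by decide +kernel)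
theorem L36141 : W_11 (nat_lit 8) (nat_lit 0x280014001300080000000000000000000000000000000) (nat_lit 0x0) (nat_lit 0x10000e000700018001000280000c0008000000000000000000000000000000) := T_11 (nat_lit 192) (nat_lit 123) (nat_lit 4) (nat_lit 5) (nat_lit 11) L36140 (by decide +kernel)
theorem L36142 : W_11 (nat_lit 2) (nat_lit 0xf0005000280014001300080000000000000000000000000000000) (nat_lit 0x0) (nat_lit 0x3000100000000000000000000000000000000000000000000000000000) := D_11 (nat_lit 229) (nat_lit 228) (nat_lit 212) (nat_lit 3) (nat_lit 4) (nat_lit 12) (nat_lit 7) (nat_lit 7) (nat_lit 9) (by decide +kernel)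
theorem L36143 : W_11 (nat_lit 3) (nat_lit 0x70005000280014001300080000000000000000000000000000000) (nat_lit 0x0) (nat_lit 0x3000180008000000000000000000000000000000000000000000000000) := T_11 (nat_lit 211) (nat_lit 195) (nat_lit 2) (nat_lit 4) (nat_lit 12) L36142 (by decide +kernel)
theorem L36144 : W_11 (nat_lit 4) (nat_lit 0x30005000280014001300080000000000000000000000000000000) (nat_lit 0x0) (nat_lit 0x38001c0008000000000000000000000000000000000000000000000000) := T_11 (nat_lit 210) (nat_lit 227) (nat_lit 7) (nat_lit 5) (nat_lit 9) L36143 (by decide +kernel)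
theorem L36145 : W_11 (nat_lit 5) (nat_lit 0x10005000280014001300080000000000000000000000000000000) (nat_lit 0x0) (nat_lit 0x3a001e0008000000000000000000000000000000000000000000000000) := T_11 (nat_lit 209) (nat_lit 225) (nat_lit 5) (nat_lit 5) (nat_lit 9) L36144 (by decide +kernel)
theorem L36146 : W_11 (nat_lit 6) (nat_lit 0x5000280014001300080000000000000000000000000000000) (nat_lit 0x0) (nat_lit 0x3a001f0008800000000000000000000000000000000000000000000000) := T_11 (nat_lit 208) (nat_lit 191) (nat_lit 5) (nat_lit 5) (nat_lit 8) L36145 (by decide +kernel)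
theorem L36147 : W_11 (nat_lit 7) (nat_lit 0x1000280014001300080000000000000000000000000000000) (nat_lit 0x0) (nat_lit 0x3a001f000c800000000000800000000000000000000000000000000000) := T_11 (nat_lit 194) (nat_lit 143) (nat_lit 6) (nat_lit 7) (nat_lit 11) L36146 (by decide +kernel)
theorem L36148 : W_11 (nat_lit 8) (nat_lit 0x280014001300080000000000000000000000000000000) (nat_lit 0x0) (nat_lit 0x3a001f000d800000000000800008000000000000000000000000000000) := T_11 (nat_lit 192) (nat_lit 123) (nat_lit 4) (nat_lit 5) (nat_lit 11) L36147 (by decide +kernel)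
theorem L36149 : W_11 (nat_lit 11) (nat_lit 0x280004001300080000000000000000000000000000000) (nat_lit 0x0) (nat_lit 0x50003e001f000d8001600380008c0008000000000000000000000000000000) := Q_11 (nat_lit 160) (C_11 L35769 (C_11 L35764 (C_11 L36134 (C_11 L36141 (C_11 L36148 N_11))))) (by decide +kernel)
theorem L36150 : W_11 (nat_lit 2) (nat_lit 0x1c002d000e001380080000000000000000000000000000000) (nat_lit 0x0) (nat_lit 0x300008000000000000000000000000000000000000000000) := D_11 (nat_lit 189) (nat_lit 188) (nat_lit 171) (nat_lit 2) (nat_lit 1) (nat_lit 11) (nat_lit 0) (nat_lit 5) (nat_lit 11) (by decide +kernel)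
theorem L36151 : W_11 (nat_lit 3) (nat_lit 0x18002d000e001380080000000000000000000000000000000) (nat_lit 0x0) (nat_lit 0x8000700008000000000000000000000000000000000000000000) := T_11 (nat_lit 190) (nat_lit 207) (nat_lit 5) (nat_lit 4) (nat_lit 8) L36150 (by decide +kernel)
theorem L36152 : W_11 (nat_lit 4) (nat_lit 0x18002c000e001380080000000000000000000000000000000) (nat_lit 0x0) (nat_lit 0x8000700038000000000000000000000000000000000000000000) := T_11 (nat_lit 172) (nat_lit 173) (nat_lit 2) (nat_lit 2) (nat_lit 10) L36151 (by decide +kernel)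
theorem L36153 : W_11 (nat_lit 5) (nat_lit 0x180028000e001380080000000000000000000000000000000) (nat_lit 0x0) (nat_lit 0x8000700078000000000004000000000000000000000000000000) := T_11 (nat_lit 174) (nat_lit 122) (nat_lit 4) (nat_lit 4) (nat_lit 11) L36152 (by decide +kernel)
theorem L36154 : W_11 (nat_lit 6) (nat_lit 0x100028000e001380080000000000000000000000000000000) (nat_lit 0x0) (nat_lit 0x18000f00078000000000004000000000000000000000000000000) := T_11 (nat_lit 191) (nat_lit 208) (nat_lit 5) (nat_lit 5) (nat_lit 8) L36153 (by decide +kernel)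
theorem L36155 : W_11 (nat_lit 7) (nat_lit 0x100028000e001300080000000000000000000000000000000) (nat_lit 0x0) (nat_lit 0x18000f000780000000c0004000000000000000000000000000000) := T_11 (nat_lit 139) (nat_lit 138) (nat_lit 3) (nat_lit 2) (nat_lit 8) L36154 (by decide +kernel)
theorem L36156 : W_11 (nat_lit 8) (nat_lit 0x28000e001300080000000000000000000000000000000) (nat_lit 0x0) (nat_lit 0x38001f000780000000c0004000000000000000000000000000000) := T_11 (nat_lit 192) (nat_lit 209) (nat_lit 4) (nat_lit 5) (nat_lit 12) L36155 (by decide +kernel)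
theorem L36157 : W_11 (nat_lit 9) (nat_lit 0x280006001300080000000000000000000000000000000) (nat_lit 0x0) (nat_lit 0x38001f000780380008c0004000000000000000000000000000000) := Q_11 (nat_lit 159) (C_11 L35981 (C_11 L36156 N_11)) (by decide +kernel)
theorem L36158 : W_11 (nat_lit 2) (nat_lit 0x20000d002c00068013c0082000000000000000000000000000000) (nat_lit 0x0) (nat_lit 0x30001000000000000000000000000000000000000000) := D_11 (nat_lit 173) (nat_lit 156) (nat_lit 172) (nat_lit 4) (nat_lit 3) (nat_lit 11) (nat_lit 7) (nat_lit 2) (nat_lit 7) (by decide +kernel)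
theorem L36159 : W_11 (nat_lit 3) (nat_lit 0x20000d002c00068013c0080000000000000000000000000000000) (nat_lit 0x0) (nat_lit 0x30001000000003000000000000000000000000000000) := T_11 (nat_lit 121) (nat_lit 120) (nat_lit 0) (nat_lit 5) (nat_lit 8) L36158 (by decide +kernel)
theorem L36160 : W_11 (nat_lit 4) (nat_lit 0x20000d002c00060013c0080000000000000000000000000000000) (nat_lit 0x0) (nat_lit 0x30001c00000003000000000000000000000000000000) := T_11 (nat_lit 155) (nat_lit 154) (nat_lit 1) (nat_lit 5) (nat_lit 8) L36159 (by decide +kernel)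
theorem L36161 : W_11 (nat_lit 5) (nat_lit 0x20000d002c0006001380080000000000000000000000000000000) (nat_lit 0x0) (nat_lit 0x30001c00060003000000000000000000000000000000) := T_11 (nat_lit 138) (nat_lit 137) (nat_lit 3) (nat_lit 1) (nat_lit 8) L36160 (by decide +kernel)
theorem L36162 : W_11 (nat_lit 6) (nat_lit 0x20000d002c0006001300080000000000000000000000000000000) (nat_lit 0x0) (nat_lit 0x30001c000e0007000000000000000000000000000000) := T_11 (nat_lit 139) (nat_lit 122) (nat_lit 4) (nat_lit 4) (nat_lit 11) L36161 (by decide +kernel)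
theorem L36163 : W_11 (nat_lit 7) (nat_lit 0x20000c002c0006001300080000000000000000000000000000000) (nat_lit 0x0) (nat_lit 0x300030001c000e0007000000000000000000000000000000) := T_11 (nat_lit 188) (nat_lit 189) (nat_lit 2) (nat_lit 1) (nat_lit 11) L36162 (by decide +kernel)
theorem L36164 : W_11 (nat_lit 8) (nat_lit 0x200008002c0006001300080000000000000000000000000000000) (nat_lit 0x0) (nat_lit 0x8000700030001c000e0007000000000000000000000000000000) := T_11 (nat_lit 190) (nat_lit 207) (nat_lit 5) (nat_lit 4) (nat_lit 8) L36163 (by decide +kernel)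
theorem L36165 : W_11 (nat_lit 9) (nat_lit 0x200000002c0006001300080000000000000000000000000000000) (nat_lit 0x0) (nat_lit 0x18000f00030001c000e0007000000000000000000000000000000) := T_11 (nat_lit 191) (nat_lit 208) (nat_lit 6) (nat_lit 4) (nat_lit 12) L36164 (by decide +kernel)
theorem L36166 : W_11 (nat_lit 10) (nat_lit 0x2c0006001300080000000000000000000000000000000) (nat_lit 0x0) (nat_lit 0x38001f00030001c000e0007000000000000000000000000000000) := T_11 (nat_lit 209) (nat_lit 192) (nat_lit 4) (nat_lit 5) (nat_lit 12) L36165 (by decide +kernel)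
theorem L36167 : W_11 (nat_lit 2) (nat_lit 0x8002c0006001300080000000000000000000000000000000) (nat_lit 0x0) (nat_lit 0x8000400100000000000000000000000000000000000000000000) := D_11 (nat_lit 190) (nat_lit 176) (nat_lit 207) (nat_lit 1) (nat_lit 7) (nat_lit 10) (nat_lit 5) (nat_lit 4) (nat_lit 8) (by decide +kernel)
theorem L36168 : W_11 (nat_lit 3) (nat_lit 0x2c0006001300080000000000000000000000000000000) (nat_lit 0x0) (nat_lit 0x18000c00100000000000000000000000000000000000000000000) := T_11 (nat_lit 191) (nat_lit 208) (nat_lit 6) (nat_lit 4) (nat_lit 12) L36167 (by decide +kernel)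
theorem L36169 : W_11 (nat_lit 2) (nat_lit 0x200000003c0016001300080000000000000000000000000000000) (nat_lit 0x0) (nat_lit 0xc000000000000800000000000000000000000000000000000) := D_11 (nat_lit 194) (nat_lit 195) (nat_lit 143) (nat_lit 3) (nat_lit 4) (nat_lit 10) (nat_lit 6) (nat_lit 7) (nat_lit 11) (by decide +kernel)
theorem L36170 : W_11 (nat_lit 3) (nat_lit 0x200000003c0006001300080000000000000000000000000000000) (nat_lit 0x0) (nat_lit 0xc000000030000800000000000000000000000000000000000) := T_11 (nat_lit 160) (nat_lit 161) (nat_lit 2) (nat_lit 4) (nat_lit 10) L36169 (by decide +kernel)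
theorem L36171 : W_11 (nat_lit 4) (nat_lit 0x200000002c0006001300080000000000000000000000000000000) (nat_lit 0x0) (nat_lit 0xc000100031000800000000000000000000000000000000000) := T_11 (nat_lit 176) (nat_lit 156) (nat_lit 0) (nat_lit 7) (nat_lit 10) L36170 (by decide +kernel)
theorem L36172 : W_11 (nat_lit 5) (nat_lit 0x2c0006001300080000000000000000000000000000000) (nat_lit 0x0) (nat_lit 0x2000d000100031000800000000000000000000000000000000000) := T_11 (nat_lit 209) (nat_lit 192) (nat_lit 4) (nat_lit 5) (nat_lit 12) L36171 (by decide +kernel)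
theorem L36173 : W_11 (nat_lit 11) (nat_lit 0x280006001300080000000000000000000000000000000) (nat_lit 0x0) (nat_lit 0x3800df00170031c008e0007000000000000000000000000000000) := Q_11 (nat_lit 174) (C_11 L36013 (C_11 L36166 (C_11 L36168 (C_11 L36172 N_11)))) (by decide +kernel)
theorem L36174 : W_11 (nat_lit 2) (nat_lit 0x4001e002f0006001300080000000000000000000000000000000) (nat_lit 0x0) (nat_lit 0x1000080000000000000001000000000000000000000000000000000000000) := D_11 (nat_lit 223) (nat_lit 156) (nat_lit 240) (nat_lit 6) (nat_lit 2) (nat_lit 13) (nat_lit 6) (nat_lit 2) (nat_lit 14) (by decide +kernel)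
theorem L36175 : W_11 (nat_lit 3) (nat_lit 0x4001e002d0006001300080000000000000000000000000000000) (nat_lit 0x0) (nat_lit 0x1000080000000000020009000000000000000000000000000000000000000) := T_11 (nat_lit 173) (nat_lit 159) (nat_lit 2) (nat_lit 2) (nat_lit 10) L36174 (by decide +kernel)
theorem L36176 : W_11 (nat_lit 4) (nat_lit 0x4001e002c0006001300080000000000000000000000000000000) (nat_lit 0x0) (nat_lit 0x1000080000000000038009000000000000000000000000000000000000000) := T_11 (nat_lit 172) (nat_lit 171) (nat_lit 0) (nat_lit 5) (nat_lit 11) L36175 (by decide +kernel)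
theorem L36177 : W_11 (nat_lit 5) (nat_lit 0x1e002c0006001300080000000000000000000000000000000) (nat_lit 0x0) (nat_lit 0x1000080006000000038009000000000000000000000000000000000000000) := T_11 (nat_lit 206) (nat_lit 205) (nat_lit 1) (nat_lit 5) (nat_lit 11) L36176 (by decide +kernel)
theorem L36178 : W_11 (nat_lit 6) (nat_lit 0x1c002c0006001300080000000000000000000000000000000) (nat_lit 0x0) (nat_lit 0x1000080006000300038009000000000000000000000000000000000000000) := T_11 (nat_lit 189) (nat_lit 188) (nat_lit 2) (nat_lit 1) (nat_lit 11) L36177 (by decide +kernel)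
theorem L36179 : W_11 (nat_lit 7) (nat_lit 0x18002c0006001300080000000000000000000000000000000) (nat_lit 0x0) (nat_lit 0x100008000e000700038009000000000000000000000000000000000000000) := T_11 (nat_lit 190) (nat_lit 207) (nat_lit 5) (nat_lit 4) (nat_lit 8) L36178 (by decide +kernel)
theorem L36180 : W_11 (nat_lit 8) (nat_lit 0x10002c0006001300080000000000000000000000000000000) (nat_lit 0x0) (nat_lit 0x100008001e000f00038009000000000000000000000000000000000000000) := T_11 (nat_lit 191) (nat_lit 208) (nat_lit 6) (nat_lit 4) (nat_lit 12) L36179 (by decide +kernel)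
theorem L36181 : W_11 (nat_lit 9) (nat_lit 0x2c0006001300080000000000000000000000000000000) (nat_lit 0x0) (nat_lit 0x100008003e001f00038009000000000000000000000000000000000000000) := T_11 (nat_lit 192) (nat_lit 209) (nat_lit 4) (nat_lit 5) (nat_lit 12) L36180 (by decide +kernel)
theorem L36182 : W_11 (nat_lit 10) (nat_lit 0x280006001300080000000000000000000000000000000) (nat_lit 0x0) (nat_lit 0x100008003e00df00178039000800000000000000000000000000000000000) := Q_11 (nat_lit 174) (C_11 L36172 (C_11 L36181 (C_11 L36168 N_11))) (by decide +kernel)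
theorem L36183 : W_11 (nat_lit 2) (nat_lit 0x20000000290007801340080000000000000000000000000000000) (nat_lit 0x0) (nat_lit 0x20008000080000000000000000000000000000000000) := D_11 (nat_lit 159) (nat_lit 173) (nat_lit 139) (nat_lit 1) (nat_lit 6) (nat_lit 9) (nat_lit 3) (nat_lit 2) (nat_lit 8) (by decide +kernel)
theorem L36184 : W_11 (nat_lit 3) (nat_lit 0x20000000290007801300080000000000000000000000000000000) (nat_lit 0x0) (nat_lit 0x200080000e0000000000000000000000000000000000) := T_11 (nat_lit 138) (nat_lit 137) (nat_lit 0) (nat_lit 5) (nat_lit 9) L36183 (by decide +kernel)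
theorem L36185 : W_11 (nat_lit 4) (nat_lit 0x20000000280007801300080000000000000000000000000000000) (nat_lit 0x0) (nat_lit 0x380080000e0000000000000000000000000000000000) := T_11 (nat_lit 172) (nat_lit 171) (nat_lit 1) (nat_lit 5) (nat_lit 9) L36184 (by decide +kernel)
theorem L36186 : W_11 (nat_lit 5) (nat_lit 0x20000000280007001300080000000000000000000000000000000) (nat_lit 0x0) (nat_lit 0x38008c000e0000000000000000000000000000000000) := T_11 (nat_lit 155) (nat_lit 154) (nat_lit 2) (nat_lit 1) (nat_lit 9) L36185 (by decide +kernel)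
theorem L36187 : W_11 (nat_lit 6) (nat_lit 0x280007001300080000000000000000000000000000000) (nat_lit 0x0) (nat_lit 0x20001000038008c000e0000000000000000000000000000000000) := T_11 (nat_lit 209) (nat_lit 192) (nat_lit 4) (nat_lit 5) (nat_lit 12) L36186 (by decide +kernel)
theorem L36188 : W_11 (nat_lit 7) (nat_lit 0x280006001300080000000000000000000000000000000) (nat_lit 0x0) (nat_lit 0x20001000178009c000e0000000000000000000000000000000000) := Q_11 (nat_lit 156) (C_11 L36035 (C_11 L36187 (C_11 L36028 N_11))) (by decide +kernel)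
theorem L36189 : W_11 (nat_lit 12) (nat_lit 0x280004001300080000000000000000000000000000000) (nat_lit 0x0) (nat_lit 0x100008003e00df0017803bc008e0007000000000000000000000000000000) := Q_11 (nat_lit 157) (C_11 L36053 (C_11 L36157 (C_11 L36173 (C_11 L36182 (C_11 L36188 N_11))))) (by decide +kernel)
theorem L36190 : W_11 (nat_lit 2) (nat_lit 0xa00020001000280004001300080000000000000000000000000000000) (nat_lit 0x0) (nat_lit 0x14000400000000000000000000000000000000000000000000000000000000) := D_11 (nat_lit 226) (nat_lit 242) (nat_lit 244) (nat_lit 5) (nat_lit 5) (nat_lit 10) (nat_lit 7) (nat_lit 5) (nat_lit 10) (by decide +kernel)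
theorem L36191 : W_11 (nat_lit 3) (nat_lit 0x200020001000280004001300080000000000000000000000000000000) (nat_lit 0x0) (nat_lit 0x14000c00040000000000000000000000000000000000000000000000000000) := T_11 (nat_lit 227) (nat_lit 210) (nat_lit 7) (nat_lit 5) (nat_lit 9) L36190 (by decide +kernel)
theorem L36192 : W_11 (nat_lit 4) (nat_lit 0x20001000280004001300080000000000000000000000000000000) (nat_lit 0x0) (nat_lit 0x14000e00050000000000000000000000000000000000000000000000000000) := T_11 (nat_lit 225) (nat_lit 208) (nat_lit 5) (nat_lit 5) (nat_lit 9) L36191 (by decide +kernel)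
theorem L36193 : W_11 (nat_lit 5) (nat_lit 0x1000280004001300080000000000000000000000000000000) (nat_lit 0x0) (nat_lit 0x14000e00070000000000002000000000000000000000000000000000000000) := T_11 (nat_lit 209) (nat_lit 157) (nat_lit 4) (nat_lit 5) (nat_lit 12) L36192 (by decide +kernel)
theorem L36194 : W_11 (nat_lit 6) (nat_lit 0x280004001300080000000000000000000000000000000) (nat_lit 0x0) (nat_lit 0x14000e00070001000000002000000008000000000000000000000000000000) := T_11 (nat_lit 192) (nat_lit 123) (nat_lit 4) (nat_lit 5) (nat_lit 11) L36193 (by decide +kernel)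
theorem L36195 : W_11 (nat_lit 2) (nat_lit 0xc002c000200010003c0014001300080000000000000000000000000000000) (nat_lit 0x0) (nat_lit 0xc000000000000800000000000000000000000000000000000) := D_11 (nat_lit 194) (nat_lit 195) (nat_lit 143) (nat_lit 3) (nat_lit 4) (nat_lit 10) (nat_lit 6) (nat_lit 7) (nat_lit 11) (by decide +kernel)
theorem L36196 : W_11 (nat_lit 3) (nat_lit 0xc002c000200010003c0004001300080000000000000000000000000000000) (nat_lit 0x0) (nat_lit 0xc000000030000800000000000000000000000000000000000) := T_11 (nat_lit 160) (nat_lit 161) (nat_lit 2) (nat_lit 4) (nat_lit 10) L36195 (by decide +kernel)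
theorem L36197 : W_11 (nat_lit 4) (nat_lit 0xc000c000200010003c0004001300080000000000000000000000000000000) (nat_lit 0x0) (nat_lit 0x300000000c000000030000800000000000000000000000000000000000) := T_11 (nat_lit 229) (nat_lit 228) (nat_lit 1) (nat_lit 8) (nat_lit 13) L36196 (by decide +kernel)
theorem L36198 : W_11 (nat_lit 5) (nat_lit 0xc000c00020001000380004001300080000000000000000000000000000000) (nat_lit 0x0) (nat_lit 0x300000000c800040030000800000000000000000000000000000000000) := T_11 (nat_lit 174) (nat_lit 191) (nat_lit 4) (nat_lit 5) (nat_lit 14) L36197 (by decide +kernel)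
theorem L36199 : W_11 (nat_lit 6) (nat_lit 0x4000c00020001000380004001300080000000000000000000000000000000) (nat_lit 0x0) (nat_lit 0x8000800300000000c800040030000800000000000000000000000000000000000) := T_11 (nat_lit 243) (nat_lit 259) (nat_lit 5) (nat_lit 5) (nat_lit 11) L36198 (by decide +kernel)
theorem L36200 : W_11 (nat_lit 7) (nat_lit 0xc00020001000380004001300080000000000000000000000000000000) (nat_lit 0x0) (nat_lit 0x8000c00320000000c800040030000800000000000000000000000000000000000) := T_11 (nat_lit 242) (nat_lit 225) (nat_lit 5) (nat_lit 5) (nat_lit 10) L36199 (by decide +kernel)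
theorem L36201 : W_11 (nat_lit 8) (nat_lit 0xc00020001000280004001300080000000000000000000000000000000) (nat_lit 0x0) (nat_lit 0x8000c00320000000c800140038000800000000000000000000000000000000000) := T_11 (nat_lit 176) (nat_lit 159) (nat_lit 6) (nat_lit 5) (nat_lit 13) L36200 (by decide +kernel)
theorem L36202 : W_11 (nat_lit 9) (nat_lit 0x800020001000280004001300080000000000000000000000000000000) (nat_lit 0x0) (nat_lit 0x8001c00360000000c800140038000800000000000000000000000000000000000) := T_11 (nat_lit 226) (nat_lit 244) (nat_lit 7) (nat_lit 5) (nat_lit 10) L36201 (by decide +kernel)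
theorem L36203 : W_11 (nat_lit 10) (nat_lit 0x20001000280004001300080000000000000000000000000000000) (nat_lit 0x0) (nat_lit 0x8001c003e0004000c800140038000800000000000000000000000000000000000) := T_11 (nat_lit 227) (nat_lit 210) (nat_lit 7) (nat_lit 5) (nat_lit 9) L36202 (by decide +kernel)
theorem L36204 : W_11 (nat_lit 11) (nat_lit 0x1000280004001300080000000000000000000000000000000) (nat_lit 0x0) (nat_lit 0x8001c003e0006000c80014003a000800000000000000000000000000000000000) := T_11 (nat_lit 209) (nat_lit 157) (nat_lit 4) (nat_lit 5) (nat_lit 12) L36203 (by decide +kernel)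
theorem L36205 : W_11 (nat_lit 12) (nat_lit 0x280004001300080000000000000000000000000000000) (nat_lit 0x0) (nat_lit 0x8001c003e0006000d80014003a000800008000000000000000000000000000000) := T_11 (nat_lit 192) (nat_lit 123) (nat_lit 4) (nat_lit 5) (nat_lit 11) L36204 (by decide +kernel)
theorem L36206 : W_11 (nat_lit 14) (nat_lit 0x280000001300080000000000000000000000000000000) (nat_lit 0x0) (nat_lit 0x8005d003e801fe00df0017803fc008e000f000600000000000000000000000000) := Q_11 (nat_lit 158) (C_11 L35759 (C_11 L36094 (C_11 L36149 (C_11 L36189 (C_11 L36194 (C_11 L36205 N_11)))))) (by decide +kernel)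
theorem L36207 : W_11 (nat_lit 6) (nat_lit 0x1000280000001300080000000000000000000000000000000) (nat_lit 0x0) (nat_lit 0x14000e00070000000000006000000008000000000000000000000000000000) := T_11 (nat_lit 158) (nat_lit 123) (nat_lit 4) (nat_lit 5) (nat_lit 11) L36193 (by decide +kernel)
theorem L36208 : W_11 (nat_lit 2) (nat_lit 0x10002c0002001300080000000000000000000000000000000) (nat_lit 0x0) (nat_lit 0x400020000800000000000000000000000000000000000000000000000) := D_11 (nat_lit 209) (nat_lit 226) (nat_lit 191) (nat_lit 4) (nat_lit 5) (nat_lit 13) (nat_lit 7) (nat_lit 4) (nat_lit 8) (by decide +kernel)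
theorem L36209 : W_11 (nat_lit 3) (nat_lit 0x10002c0000001300080000000000000000000000000000000) (nat_lit 0x0) (nat_lit 0x400020000800000002000000008000000000000000000000000000000) := T_11 (nat_lit 157) (nat_lit 123) (nat_lit 7) (nat_lit 4) (nat_lit 7) L36208 (by decide +kernel)
theorem L36210 : W_11 (nat_lit 2) (nat_lit 0x50002c0010001300080000000000000000000000000000000) (nat_lit 0x0) (nat_lit 0x8000100020000000000000000000000000000000000000000) := D_11 (nat_lit 176) (nat_lit 161) (nat_lit 195) (nat_lit 2) (nat_lit 4) (nat_lit 10) (nat_lit 3) (nat_lit 4) (nat_lit 10) (by decide +kernel)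
theorem L36211 : W_11 (nat_lit 3) (nat_lit 0x50002c0000001300080000000000000000000000000000000) (nat_lit 0x0) (nat_lit 0x8000100030000800000000000000000000000000000000000) := T_11 (nat_lit 160) (nat_lit 143) (nat_lit 6) (nat_lit 7) (nat_lit 11) L36210 (by decide +kernel)
theorem L36212 : W_11 (nat_lit 2) (nat_lit 0x50002c0010001300080000000000000000000000000000000) (nat_lit 0x0) (nat_lit 0x80000000100020000000000000000000000000000000000000000) := D_11 (nat_lit 161) (nat_lit 176) (nat_lit 211) (nat_lit 2) (nat_lit 4) (nat_lit 10) (nat_lit 6) (nat_lit 7) (nat_lit 12) (by decide +kernel)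
theorem L36213 : W_11 (nat_lit 3) (nat_lit 0x50002c0000001300080000000000000000000000000000000) (nat_lit 0x0) (nat_lit 0x80000000100030000800000000000000000000000000000000000) := T_11 (nat_lit 160) (nat_lit 143) (nat_lit 6) (nat_lit 7) (nat_lit 11) L36212 (by decide +kernel)
theorem L36214 : W_11 (nat_lit 4) (nat_lit 0x10002c0000001300080000000000000000000000000000000) (nat_lit 0x0) (nat_lit 0x8000e800130030000800000000000000000000000000000000000) := Q_11 (nat_lit 194) (C_11 L34801 (C_11 L36211 (C_11 L36213 N_11))) (by decide +kernel)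
theorem L36215 : W_11 (nat_lit 2) (nat_lit 0x4000000010003c0012001300080000000000000000000000000000000) (nat_lit 0x0) (nat_lit 0xc000000000000800000000000000000000000000000000000) := D_11 (nat_lit 194) (nat_lit 195) (nat_lit 143) (nat_lit 3) (nat_lit 4) (nat_lit 10) (nat_lit 6) (nat_lit 7) (nat_lit 11) (by decide +kernel)
theorem L36216 : W_11 (nat_lit 3) (nat_lit 0x4000000010003c0002001300080000000000000000000000000000000) (nat_lit 0x0) (nat_lit 0xc000000030000800000000000000000000000000000000000) := T_11 (nat_lit 160) (nat_lit 161) (nat_lit 2) (nat_lit 4) (nat_lit 10) L36215 (by decide +kernel)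
theorem L36217 : W_11 (nat_lit 4) (nat_lit 0x4000000010002c0002001300080000000000000000000000000000000) (nat_lit 0x0) (nat_lit 0xc000100031000800000000000000000000000000000000000) := T_11 (nat_lit 176) (nat_lit 156) (nat_lit 0) (nat_lit 7) (nat_lit 10) L36216 (by decide +kernel)
theorem L36218 : W_11 (nat_lit 5) (nat_lit 0x10002c0002001300080000000000000000000000000000000) (nat_lit 0x0) (nat_lit 0x40002000c000100031000800000000000000000000000000000000000) := T_11 (nat_lit 226) (nat_lit 209) (nat_lit 4) (nat_lit 5) (nat_lit 13) L36217 (by decide +kernel)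
theorem L36219 : W_11 (nat_lit 6) (nat_lit 0x10002c0000001300080000000000000000000000000000000) (nat_lit 0x0) (nat_lit 0x40002000c000100033000800008000000000000000000000000000000) := T_11 (nat_lit 157) (nat_lit 123) (nat_lit 7) (nat_lit 4) (nat_lit 7) L36218 (by decide +kernel)
theorem L36220 : W_11 (nat_lit 7) (nat_lit 0x1000280000001300080000000000000000000000000000000) (nat_lit 0x0) (nat_lit 0x4000a000e800170033000800008000000000000000000000000000000) := Q_11 (nat_lit 174) (C_11 L36209 (C_11 L36214 (C_11 L36219 N_11))) (by decide +kernel)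
theorem L36221 : W_11 (nat_lit 2) (nat_lit 0x8007c002a0014001300080000000000000000000000000000000) (nat_lit 0x0) (nat_lit 0x180000000000020000000000000000000000000000000000000000) := D_11 (nat_lit 211) (nat_lit 212) (nat_lit 161) (nat_lit 3) (nat_lit 4) (nat_lit 11) (nat_lit 6) (nat_lit 7) (nat_lit 12) (by decide +kernel)
theorem L36222 : W_11 (nat_lit 3) (nat_lit 0x8007c002a0004001300080000000000000000000000000000000) (nat_lit 0x0) (nat_lit 0x180000000000030000800000000000000000000000000000000000) := T_11 (nat_lit 160) (nat_lit 143) (nat_lit 6) (nat_lit 7) (nat_lit 11) L36221 (by decide +kernel)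
theorem L36223 : W_11 (nat_lit 4) (nat_lit 0x8003c002a0004001300080000000000000000000000000000000) (nat_lit 0x0) (nat_lit 0x180004000040030000800000000000000000000000000000000000) := T_11 (nat_lit 194) (nat_lit 174) (nat_lit 0) (nat_lit 7) (nat_lit 11) L36222 (by decide +kernel)
theorem L36224 : W_11 (nat_lit 5) (nat_lit 0x8003c00280004001300080000000000000000000000000000000) (nat_lit 0x0) (nat_lit 0x180004000070030000800000000000000000000000000000000000) := T_11 (nat_lit 173) (nat_lit 172) (nat_lit 0) (nat_lit 6) (nat_lit 11) L36223 (by decide +kernel)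
theorem L36225 : W_11 (nat_lit 6) (nat_lit 0x3c00280004001300080000000000000000000000000000000) (nat_lit 0x0) (nat_lit 0x18c004000070030000800000000000000000000000000000000000) := T_11 (nat_lit 207) (nat_lit 206) (nat_lit 1) (nat_lit 6) (nat_lit 11) L36224 (by decide +kernel)
theorem L36226 : W_11 (nat_lit 7) (nat_lit 0x3800280004001300080000000000000000000000000000000) (nat_lit 0x0) (nat_lit 0x18c004400170030000800000000000000000000000000000000000) := T_11 (nat_lit 190) (nat_lit 176) (nat_lit 2) (nat_lit 3) (nat_lit 11) L36225 (by decide +kernel)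
theorem L36227 : W_11 (nat_lit 8) (nat_lit 0x1800280004001300080000000000000000000000000000000) (nat_lit 0x0) (nat_lit 0x1cc006400170030000800000000000000000000000000000000000) := T_11 (nat_lit 193) (nat_lit 210) (nat_lit 7) (nat_lit 5) (nat_lit 8) L36226 (by decide +kernel)
theorem L36228 : W_11 (nat_lit 9) (nat_lit 0x1000280004001300080000000000000000000000000000000) (nat_lit 0x0) (nat_lit 0x1dc006c00170030000800000000000000000000000000000000000) := T_11 (nat_lit 191) (nat_lit 208) (nat_lit 5) (nat_lit 5) (nat_lit 8) L36227 (by decide +kernel)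
theorem L36229 : W_11 (nat_lit 10) (nat_lit 0x1000280000001300080000000000000000000000000000000) (nat_lit 0x0) (nat_lit 0x1dc006c00170034000800008000000000000000000000000000000) := T_11 (nat_lit 158) (nat_lit 123) (nat_lit 4) (nat_lit 5) (nat_lit 11) L36228 (by decide +kernel)
theorem L36230 : W_11 (nat_lit 10) (nat_lit 0x1000280000001300080000000000000000000000000000000) (nat_lit 0x0) (nat_lit 0x14000e001fc006c00170036000800000000000000000000000000000000000) := Q_11 (nat_lit 158) (C_11 L36228 (C_11 L36193 (C_11 L35758 (C_11 L35755 N_11)))) (by decide +kernel)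
theorem L36231 : W_11 (nat_lit 11) (nat_lit 0x280000001300080000000000000000000000000000000) (nat_lit 0x0) (nat_lit 0x14000e001fc00fc00170037000800008000000000000000000000000000000) := Q_11 (nat_lit 192) (C_11 L36207 (C_11 L36220 (C_11 L36229 (C_11 L36230 N_11)))) (by decide +kernel)
theorem L36232 : W_11 (nat_lit 2) (nat_lit 0x2000000008007e002d000c001340080000000000000000000000000000000) (nat_lit 0x0) (nat_lit 0x30000800000000000000000000000000000000000) := D_11 (nat_lit 160) (nat_lit 143) (nat_lit 161) (nat_lit 6) (nat_lit 7) (nat_lit 11) (nat_lit 1) (nat_lit 8) (nat_lit 9) (by decide +kernel)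
theorem L36233 : W_11 (nat_lit 3) (nat_lit 0x2000000008007e002d0004001340080000000000000000000000000000000) (nat_lit 0x0) (nat_lit 0x38000880000000000000000000000000000000000) := T_11 (nat_lit 159) (nat_lit 139) (nat_lit 3) (nat_lit 2) (nat_lit 8) L36232 (by decide +kernel)
theorem L36234 : W_11 (nat_lit 4) (nat_lit 0x2000000008007e002d0004001300080000000000000000000000000000000) (nat_lit 0x0) (nat_lit 0x388008c0000000000000000000000000000000000) := T_11 (nat_lit 138) (nat_lit 155) (nat_lit 7) (nat_lit 2) (nat_lit 8) L36233 (by decide +kernel)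
theorem L36235 : W_11 (nat_lit 5) (nat_lit 0x2000000008003e002d0004001300080000000000000000000000000000000) (nat_lit 0x0) (nat_lit 0xc0000000388008c0000000000000000000000000000000000) := T_11 (nat_lit 194) (nat_lit 195) (nat_lit 0) (nat_lit 8) (nat_lit 11) L36234 (by decide +kernel)
theorem L36236 : W_11 (nat_lit 6) (nat_lit 0x8003e002d0004001300080000000000000000000000000000000) (nat_lit 0x0) (nat_lit 0x200010000000c0000000388008c0000000000000000000000000000000000) := T_11 (nat_lit 241) (nat_lit 224) (nat_lit 6) (nat_lit 3) (nat_lit 14) L36235 (by decide +kernel)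
theorem L36237 : W_11 (nat_lit 7) (nat_lit 0x8003e00290004001300080000000000000000000000000000000) (nat_lit 0x0) (nat_lit 0x200010000000c1000400388008c0000000000000000000000000000000000) := T_11 (nat_lit 174) (nat_lit 188) (nat_lit 2) (nat_lit 1) (nat_lit 11) L36236 (by decide +kernel)
theorem L36238 : W_11 (nat_lit 8) (nat_lit 0x8003c00290004001300080000000000000000000000000000000) (nat_lit 0x0) (nat_lit 0x200010000000c3000480388008c0000000000000000000000000000000000) := T_11 (nat_lit 189) (nat_lit 171) (nat_lit 0) (nat_lit 5) (nat_lit 11) L36237 (by decide +kernel)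
theorem L36239 : W_11 (nat_lit 9) (nat_lit 0x8003c00280004001300080000000000000000000000000000000) (nat_lit 0x0) (nat_lit 0x200010000000c3000780388008c0000000000000000000000000000000000) := T_11 (nat_lit 172) (nat_lit 173) (nat_lit 0) (nat_lit 6) (nat_lit 11) L36238 (by decide +kernel)
theorem L36240 : W_11 (nat_lit 10) (nat_lit 0x3c00280004001300080000000000000000000000000000000) (nat_lit 0x0) (nat_lit 0x200010000c00c3000780388008c0000000000000000000000000000000000) := T_11 (nat_lit 207) (nat_lit 206) (nat_lit 1) (nat_lit 6) (nat_lit 11) L36239 (by decide +kernel)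
theorem L36241 : W_11 (nat_lit 11) (nat_lit 0x3800280004001300080000000000000000000000000000000) (nat_lit 0x0) (nat_lit 0x200010000c00c7001780388008c0000000000000000000000000000000000) := T_11 (nat_lit 190) (nat_lit 176) (nat_lit 2) (nat_lit 3) (nat_lit 11) L36240 (by decide +kernel)
theorem L36242 : W_11 (nat_lit 12) (nat_lit 0x1800280004001300080000000000000000000000000000000) (nat_lit 0x0) (nat_lit 0x200010004c00e7001780388008c0000000000000000000000000000000000) := T_11 (nat_lit 193) (nat_lit 210) (nat_lit 7) (nat_lit 5) (nat_lit 8) L36241 (by decide +kernel)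
theorem L36243 : W_11 (nat_lit 13) (nat_lit 0x1000280004001300080000000000000000000000000000000) (nat_lit 0x0) (nat_lit 0x200010005c00ef001780388008c0000000000000000000000000000000000) := T_11 (nat_lit 191) (nat_lit 208) (nat_lit 5) (nat_lit 5) (nat_lit 8) L36242 (by decide +kernel)
theorem L36244 : W_11 (nat_lit 14) (nat_lit 0x280004001300080000000000000000000000000000000) (nat_lit 0x0) (nat_lit 0x200010005c00ff001780388008c0008000000000000000000000000000000) := T_11 (nat_lit 192) (nat_lit 123) (nat_lit 4) (nat_lit 5) (nat_lit 11) L36243 (by decide +kernel)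
theorem L36245 : W_11 (nat_lit 15) (nat_lit 0x280000001300080000000000000000000000000000000) (nat_lit 0x0) (nat_lit 0x8001f003f8007e00ff0017803fc008e000f000600000000000000000000000000) := Q_11 (nat_lit 158) (C_11 L36205 (C_11 L36194 (C_11 L36244 (C_11 L36060 (C_11 L36189 N_11))))) (by decide +kernel)
theorem L36246 : W_11 (nat_lit 2) (nat_lit 0x1000000004003f002a8004401380080000000000000000000000000000000) (nat_lit 0x0) (nat_lit 0x8800040000000000000000000000000000000000) := D_11 (nat_lit 138) (nat_lit 159) (nat_lit 155) (nat_lit 3) (nat_lit 2) (nat_lit 8) (nat_lit 1) (nat_lit 5) (nat_lit 8) (by decide +kernel)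
theorem L36247 : W_11 (nat_lit 3) (nat_lit 0x1000000004003f002a8004401300080000000000000000000000000000000) (nat_lit 0x0) (nat_lit 0x98000c0000000000000000000000000000000000) := T_11 (nat_lit 139) (nat_lit 156) (nat_lit 5) (nat_lit 3) (nat_lit 8) L36246 (by decide +kernel)
theorem L36248 : W_11 (nat_lit 4) (nat_lit 0x1000000004003f002a8004001300080000000000000000000000000000000) (nat_lit 0x0) (nat_lit 0x9c000e0000000000000000000000000000000000) := T_11 (nat_lit 154) (nat_lit 137) (nat_lit 7) (nat_lit 1) (nat_lit 8) L36247 (by decide +kernel)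
theorem L36249 : W_11 (nat_lit 5) (nat_lit 0x4003f002a8004001300080000000000000000000000000000000) (nat_lit 0x0) (nat_lit 0x1000080000000000000009c000e0000000000000000000000000000000000) := T_11 (nat_lit 240) (nat_lit 223) (nat_lit 6) (nat_lit 2) (nat_lit 14) L36248 (by decide +kernel)
theorem L36250 : W_11 (nat_lit 6) (nat_lit 0x4003f002a0004001300080000000000000000000000000000000) (nat_lit 0x0) (nat_lit 0x100008000000000000c009c000e0000000000000000000000000000000000) := T_11 (nat_lit 171) (nat_lit 170) (nat_lit 0) (nat_lit 4) (nat_lit 11) L36249 (by decide +kernel)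
theorem L36251 : W_11 (nat_lit 7) (nat_lit 0x4003e002a0004001300080000000000000000000000000000000) (nat_lit 0x0) (nat_lit 0x100008000000010004c009c000e0000000000000000000000000000000000) := T_11 (nat_lit 188) (nat_lit 174) (nat_lit 2) (nat_lit 1) (nat_lit 11) L36250 (by decide +kernel)
theorem L36252 : W_11 (nat_lit 8) (nat_lit 0x4003c002a0004001300080000000000000000000000000000000) (nat_lit 0x0) (nat_lit 0x100008000200030004c009c000e0000000000000000000000000000000000) := T_11 (nat_lit 189) (nat_lit 205) (nat_lit 1) (nat_lit 5) (nat_lit 11) L36251 (by decide +kernel)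
theorem L36253 : W_11 (nat_lit 9) (nat_lit 0x4003c00280004001300080000000000000000000000000000000) (nat_lit 0x0) (nat_lit 0x100008000200030007c009c000e0000000000000000000000000000000000) := T_11 (nat_lit 173) (nat_lit 172) (nat_lit 0) (nat_lit 6) (nat_lit 11) L36252 (by decide +kernel)
theorem L36254 : W_11 (nat_lit 10) (nat_lit 0x3c00280004001300080000000000000000000000000000000) (nat_lit 0x0) (nat_lit 0x100008000e00030007c009c000e0000000000000000000000000000000000) := T_11 (nat_lit 206) (nat_lit 207) (nat_lit 1) (nat_lit 6) (nat_lit 11) L36253 (by decide +kernel)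
theorem L36255 : W_11 (nat_lit 11) (nat_lit 0x3800280004001300080000000000000000000000000000000) (nat_lit 0x0) (nat_lit 0x100008000e00070017c009c000e0000000000000000000000000000000000) := T_11 (nat_lit 190) (nat_lit 176) (nat_lit 2) (nat_lit 3) (nat_lit 11) L36254 (by decide +kernel)
theorem L36256 : W_11 (nat_lit 12) (nat_lit 0x1800280004001300080000000000000000000000000000000) (nat_lit 0x0) (nat_lit 0x100008004e00270017c009c000e0000000000000000000000000000000000) := T_11 (nat_lit 193) (nat_lit 210) (nat_lit 7) (nat_lit 5) (nat_lit 8) L36255 (by decide +kernel)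
theorem L36257 : W_11 (nat_lit 13) (nat_lit 0x1000280004001300080000000000000000000000000000000) (nat_lit 0x0) (nat_lit 0x100008005e002f0017c009c000e0000000000000000000000000000000000) := T_11 (nat_lit 191) (nat_lit 208) (nat_lit 5) (nat_lit 5) (nat_lit 8) L36256 (by decide +kernel)
theorem L36258 : W_11 (nat_lit 14) (nat_lit 0x280004001300080000000000000000000000000000000) (nat_lit 0x0) (nat_lit 0x100008005e003f0017c009c000e0008000000000000000000000000000000) := T_11 (nat_lit 192) (nat_lit 123) (nat_lit 4) (nat_lit 5) (nat_lit 11) L36257 (by decide +kernel)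
theorem L36259 : W_11 (nat_lit 2) (nat_lit 0x2900078013a0084000000000000000000000000000000) (nat_lit 0x0) (nat_lit 0x4000200020000000000000000000000000000000000000000000) := D_11 (nat_lit 189) (nat_lit 206) (nat_lit 173) (nat_lit 6) (nat_lit 2) (nat_lit 12) (nat_lit 5) (nat_lit 3) (nat_lit 7) (by decide +kernel)
theorem L36260 : W_11 (nat_lit 3) (nat_lit 0x2900078013a0080000000000000000000000000000000) (nat_lit 0x0) (nat_lit 0x4000200020000000000004000200000000000000000000000000) := T_11 (nat_lit 122) (nat_lit 105) (nat_lit 5) (nat_lit 3) (nat_lit 6) L36259 (by decide +kernel)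
theorem L36261 : W_11 (nat_lit 4) (nat_lit 0x2800078013a0080000000000000000000000000000000) (nat_lit 0x0) (nat_lit 0x4000200038000000000004000200000000000000000000000000) := T_11 (nat_lit 172) (nat_lit 171) (nat_lit 1) (nat_lit 5) (nat_lit 9) L36260 (by decide +kernel)
theorem L36262 : W_11 (nat_lit 5) (nat_lit 0x2800070013a0080000000000000000000000000000000) (nat_lit 0x0) (nat_lit 0x4000200038000c00000004000200000000000000000000000000) := T_11 (nat_lit 155) (nat_lit 154) (nat_lit 2) (nat_lit 1) (nat_lit 9) L36261 (by decide +kernel)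
theorem L36263 : W_11 (nat_lit 6) (nat_lit 0x280007001380080000000000000000000000000000000) (nat_lit 0x0) (nat_lit 0x4000200038000c00060004000200000000000000000000000000) := T_11 (nat_lit 137) (nat_lit 138) (nat_lit 3) (nat_lit 1) (nat_lit 8) L36262 (by decide +kernel)
theorem L36264 : W_11 (nat_lit 2) (nat_lit 0x2a00070013c0082000400000000000000000000000000) (nat_lit 0x0) (nat_lit 0x4000100008000000000000000000000) := D_11 (nat_lit 104) (nat_lit 87) (nat_lit 122) (nat_lit 7) (nat_lit 2) (nat_lit 5) (nat_lit 4) (nat_lit 3) (nat_lit 10) (by decide +kernel)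
theorem L36265 : W_11 (nat_lit 3) (nat_lit 0x2800070013c0082000400000000000000000000000000) (nat_lit 0x0) (nat_lit 0x400020000000000004000100008000000000000000000000) := T_11 (nat_lit 173) (nat_lit 190) (nat_lit 4) (nat_lit 3) (nat_lit 11) L36264 (by decide +kernel)
theorem L36266 : W_11 (nat_lit 4) (nat_lit 0x2800070013c0080000400000000000000000000000000) (nat_lit 0x0) (nat_lit 0x400020000000000007000100008000000000000000000000) := T_11 (nat_lit 121) (nat_lit 120) (nat_lit 0) (nat_lit 5) (nat_lit 8) L36265 (by decide +kernel)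
theorem L36267 : W_11 (nat_lit 5) (nat_lit 0x280007001380080000400000000000000000000000000) (nat_lit 0x0) (nat_lit 0x400020000000060007000100008000000000000000000000) := T_11 (nat_lit 138) (nat_lit 137) (nat_lit 3) (nat_lit 1) (nat_lit 8) L36266 (by decide +kernel)
theorem L36268 : W_11 (nat_lit 6) (nat_lit 0x280007001380080000000000000000000000000000000) (nat_lit 0x0) (nat_lit 0x40002000000006000f000500008000000000000000000000) := T_11 (nat_lit 106) (nat_lit 123) (nat_lit 7) (nat_lit 4) (nat_lit 6) L36267 (by decide +kernel)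
theorem L36269 : W_11 (nat_lit 2) (nat_lit 0x290007801380084000400000000000000000000000000) (nat_lit 0x0) (nat_lit 0x4000200020000000000000000000000000000000000000000000) := D_11 (nat_lit 189) (nat_lit 206) (nat_lit 173) (nat_lit 6) (nat_lit 2) (nat_lit 12) (nat_lit 5) (nat_lit 3) (nat_lit 7) (by decide +kernel)
theorem L36270 : W_11 (nat_lit 3) (nat_lit 0x290007801380080000400000000000000000000000000) (nat_lit 0x0) (nat_lit 0x4000200020000000000004000200000000000000000000000000) := T_11 (nat_lit 122) (nat_lit 105) (nat_lit 5) (nat_lit 3) (nat_lit 6) L36269 (by decide +kernel)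
theorem L36271 : W_11 (nat_lit 4) (nat_lit 0x280007801380080000400000000000000000000000000) (nat_lit 0x0) (nat_lit 0x4000200038000000000004000200000000000000000000000000) := T_11 (nat_lit 172) (nat_lit 171) (nat_lit 1) (nat_lit 5) (nat_lit 9) L36270 (by decide +kernel)
theorem L36272 : W_11 (nat_lit 5) (nat_lit 0x280007801380080000000000000000000000000000000) (nat_lit 0x0) (nat_lit 0x400020003800000000000c000600000000000000000000000000) := T_11 (nat_lit 106) (nat_lit 123) (nat_lit 7) (nat_lit 4) (nat_lit 6) L36271 (by decide +kernel)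
theorem L36273 : W_11 (nat_lit 6) (nat_lit 0x280007001380080000000000000000000000000000000) (nat_lit 0x0) (nat_lit 0x4000200038000c0000000c000600000000000000000000000000) := T_11 (nat_lit 155) (nat_lit 154) (nat_lit 2) (nat_lit 1) (nat_lit 9) L36272 (by decide +kernel)
theorem L36274 : W_11 (nat_lit 2) (nat_lit 0x2900078013c0080000000000000000000000000000000) (nat_lit 0x0) (nat_lit 0x200000000000000004000200000000000000000000000000) := D_11 (nat_lit 122) (nat_lit 105) (nat_lit 189) (nat_lit 5) (nat_lit 3) (nat_lit 6) (nat_lit 6) (nat_lit 2) (nat_lit 11) (by decide +kernel)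
theorem L36275 : W_11 (nat_lit 3) (nat_lit 0x2800078013c0080000000000000000000000000000000) (nat_lit 0x0) (nat_lit 0x200018000000000004000200000000000000000000000000) := T_11 (nat_lit 172) (nat_lit 171) (nat_lit 1) (nat_lit 5) (nat_lit 9) L36274 (by decide +kernel)
theorem L36276 : W_11 (nat_lit 4) (nat_lit 0x280007801380080000000000000000000000000000000) (nat_lit 0x0) (nat_lit 0x200018000000060004000200000000000000000000000000) := T_11 (nat_lit 138) (nat_lit 137) (nat_lit 3) (nat_lit 1) (nat_lit 8) L36275 (by decide +kernel)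
theorem L36277 : W_11 (nat_lit 5) (nat_lit 0x280007001380080000000000000000000000000000000) (nat_lit 0x0) (nat_lit 0x200018000c00060004000200000000000000000000000000) := T_11 (nat_lit 155) (nat_lit 154) (nat_lit 2) (nat_lit 1) (nat_lit 9) L36276 (by decide +kernel)
theorem L36278 : W_11 (nat_lit 2) (nat_lit 0x2900078013c0082000000000000000000000000000000) (nat_lit 0x0) (nat_lit 0x400020000000000000000100000000000000000000000000) := D_11 (nat_lit 173) (nat_lit 190) (nat_lit 104) (nat_lit 7) (nat_lit 2) (nat_lit 7) (nat_lit 7) (nat_lit 2) (nat_lit 6) (by decide +kernel)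
theorem L36279 : W_11 (nat_lit 3) (nat_lit 0x2900078013c0080000000000000000000000000000000) (nat_lit 0x0) (nat_lit 0x400020000000000003000100000000000000000000000000) := T_11 (nat_lit 121) (nat_lit 120) (nat_lit 0) (nat_lit 5) (nat_lit 8) L36278 (by decide +kernel)
theorem L36280 : W_11 (nat_lit 4) (nat_lit 0x2800078013c0080000000000000000000000000000000) (nat_lit 0x0) (nat_lit 0x400038000000000003000100000000000000000000000000) := T_11 (nat_lit 172) (nat_lit 171) (nat_lit 1) (nat_lit 5) (nat_lit 9) L36279 (by decide +kernel)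
theorem L36281 : W_11 (nat_lit 5) (nat_lit 0x280007801380080000000000000000000000000000000) (nat_lit 0x0) (nat_lit 0x400038000000060003000100000000000000000000000000) := T_11 (nat_lit 138) (nat_lit 137) (nat_lit 3) (nat_lit 1) (nat_lit 8) L36280 (by decide +kernel)
theorem L36282 : W_11 (nat_lit 6) (nat_lit 0x280007001380080000000000000000000000000000000) (nat_lit 0x0) (nat_lit 0x400038000c00060003000100000000000000000000000000) := T_11 (nat_lit 155) (nat_lit 154) (nat_lit 2) (nat_lit 1) (nat_lit 9) L36281 (by decide +kernel)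
theorem L36283 : W_11 (nat_lit 7) (nat_lit 0x280007001300080000000000000000000000000000000) (nat_lit 0x0) (nat_lit 0x4000600038000c000e000f000700008000000000000000000000) := Q_11 (nat_lit 139) (C_11 L36263 (C_11 L36268 (C_11 L36273 (C_11 L36277 (C_11 L36282 N_11))))) (by decide +kernel)
theorem L36284 : W_11 (nat_lit 2) (nat_lit 0xd002c00070013c0080000400000000000000000000000000) (nat_lit 0x0) (nat_lit 0x20000000000003000000000000000000000000000000) := D_11 (nat_lit 121) (nat_lit 173) (nat_lit 120) (nat_lit 4) (nat_lit 3) (nat_lit 11) (nat_lit 0) (nat_lit 5) (nat_lit 8) (by decide +kernel)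
theorem L36285 : W_11 (nat_lit 3) (nat_lit 0xd002c0007001380080000400000000000000000000000000) (nat_lit 0x0) (nat_lit 0x20000000060003000000000000000000000000000000) := T_11 (nat_lit 138) (nat_lit 137) (nat_lit 3) (nat_lit 1) (nat_lit 8) L36284 (by decide +kernel)
theorem L36286 : W_11 (nat_lit 4) (nat_lit 0xd002c0007001300080000400000000000000000000000000) (nat_lit 0x0) (nat_lit 0x200000000e0007000000000000000000000000000000) := T_11 (nat_lit 139) (nat_lit 122) (nat_lit 4) (nat_lit 4) (nat_lit 11) L36285 (by decide +kernel)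
theorem L36287 : W_11 (nat_lit 5) (nat_lit 0xc002c0007001300080000400000000000000000000000000) (nat_lit 0x0) (nat_lit 0x3000200000000e0007000000000000000000000000000000) := T_11 (nat_lit 188) (nat_lit 189) (nat_lit 2) (nat_lit 1) (nat_lit 11) L36286 (by decide +kernel)
theorem L36288 : W_11 (nat_lit 6) (nat_lit 0x8002c0007001300080000400000000000000000000000000) (nat_lit 0x0) (nat_lit 0x80007000200000000e0007000000000000000000000000000000) := T_11 (nat_lit 190) (nat_lit 207) (nat_lit 5) (nat_lit 4) (nat_lit 8) L36287 (by decide +kernel)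
theorem L36289 : W_11 (nat_lit 7) (nat_lit 0x2c0007001300080000400000000000000000000000000) (nat_lit 0x0) (nat_lit 0x18000f000200000000e0007000000000000000000000000000000) := T_11 (nat_lit 191) (nat_lit 208) (nat_lit 6) (nat_lit 4) (nat_lit 12) L36288 (by decide +kernel)
theorem L36290 : W_11 (nat_lit 8) (nat_lit 0x2c0007001300080000000000000000000000000000000) (nat_lit 0x0) (nat_lit 0x18000f000200000000e000f000400000000000000000000000000) := T_11 (nat_lit 106) (nat_lit 123) (nat_lit 7) (nat_lit 4) (nat_lit 6) L36289 (by decide +kernel)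
theorem L36291 : W_11 (nat_lit 9) (nat_lit 0x280007001300080000000000000000000000000000000) (nat_lit 0x0) (nat_lit 0x18000f001600000000e000f000400000000000000000000000000) := T_11 (nat_lit 174) (nat_lit 176) (nat_lit 0) (nat_lit 7) (nat_lit 10) L36290 (by decide +kernel)
theorem L36292 : W_11 (nat_lit 10) (nat_lit 0x280006001300080000000000000000000000000000000) (nat_lit 0x0) (nat_lit 0x1c000f00178001c000e000f000700008000000000000000000000) := Q_11 (nat_lit 156) (C_11 L36035 (C_11 L36283 (C_11 L36291 N_11))) (by decide +kernel)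
theorem L36293 : W_11 (nat_lit 2) (nat_lit 0x29000f801300080000400000000000000000000000000) (nat_lit 0x0) (nat_lit 0x30000080000000000000000000000000000000000) := D_11 (nat_lit 160) (nat_lit 161) (nat_lit 139) (nat_lit 0) (nat_lit 8) (nat_lit 9) (nat_lit 0) (nat_lit 7) (nat_lit 9) (by decide +kernel)
theorem L36294 : W_11 (nat_lit 3) (nat_lit 0x290007801300080000400000000000000000000000000) (nat_lit 0x0) (nat_lit 0x20038000080000000000000000000000000000000000) := T_11 (nat_lit 159) (nat_lit 173) (nat_lit 1) (nat_lit 6) (nat_lit 9) L36293 (by decide +kernel)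
theorem L36295 : W_11 (nat_lit 4) (nat_lit 0x280007801300080000400000000000000000000000000) (nat_lit 0x0) (nat_lit 0x38038000080000000000000000000000000000000000) := T_11 (nat_lit 172) (nat_lit 171) (nat_lit 1) (nat_lit 5) (nat_lit 9) L36294 (by decide +kernel)
theorem L36296 : W_11 (nat_lit 5) (nat_lit 0x280007001300080000400000000000000000000000000) (nat_lit 0x0) (nat_lit 0x38038c00080000000000000000000000000000000000) := T_11 (nat_lit 155) (nat_lit 154) (nat_lit 2) (nat_lit 1) (nat_lit 9) L36295 (by decide +kernel)
theorem L36297 : W_11 (nat_lit 6) (nat_lit 0x280007001300080000000000000000000000000000000) (nat_lit 0x0) (nat_lit 0x38038c00080008000400000000000000000000000000) := T_11 (nat_lit 106) (nat_lit 123) (nat_lit 7) (nat_lit 4) (nat_lit 6) L36296 (by decide +kernel)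
theorem L36298 : W_11 (nat_lit 7) (nat_lit 0x280006001300080000000000000000000000000000000) (nat_lit 0x0) (nat_lit 0x178039c00080008000400000000000000000000000000) := Q_11 (nat_lit 156) (C_11 L36035 (C_11 L36297 (C_11 L36028 N_11))) (by decide +kernel)
theorem L36299 : W_11 (nat_lit 2) (nat_lit 0x8002c000e001300080000000000000000000000000000000) (nat_lit 0x0) (nat_lit 0xc0004000000000000000000000000000000) := D_11 (nat_lit 139) (nat_lit 138) (nat_lit 122) (nat_lit 3) (nat_lit 2) (nat_lit 8) (nat_lit 4) (nat_lit 4) (nat_lit 11) (by decide +kernel)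
theorem L36300 : W_11 (nat_lit 3) (nat_lit 0x2c000e001300080000000000000000000000000000000) (nat_lit 0x0) (nat_lit 0x100008000000000000c0004000000000000000000000000000000) := T_11 (nat_lit 191) (nat_lit 208) (nat_lit 6) (nat_lit 4) (nat_lit 12) L36299 (by decide +kernel)
theorem L36301 : W_11 (nat_lit 2) (nat_lit 0x8002d000e001300080000000000000000000000000000000) (nat_lit 0x0) (nat_lit 0x8000400100000000000000000000000000000000000000000000) := D_11 (nat_lit 190) (nat_lit 207) (nat_lit 176) (nat_lit 5) (nat_lit 4) (nat_lit 8) (nat_lit 1) (nat_lit 7) (nat_lit 10) (by decide +kernel)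
theorem L36302 : W_11 (nat_lit 3) (nat_lit 0x2d000e001300080000000000000000000000000000000) (nat_lit 0x0) (nat_lit 0x18000c00100000000000000000000000000000000000000000000) := T_11 (nat_lit 191) (nat_lit 208) (nat_lit 6) (nat_lit 4) (nat_lit 12) L36301 (by decide +kernel)
theorem L36303 : W_11 (nat_lit 4) (nat_lit 0x2c000e001300080000000000000000000000000000000) (nat_lit 0x0) (nat_lit 0x18000c00130000000000000000000000000000000000000000000) := T_11 (nat_lit 172) (nat_lit 173) (nat_lit 2) (nat_lit 2) (nat_lit 10) L36302 (by decide +kernel)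
theorem L36304 : W_11 (nat_lit 2) (nat_lit 0x2c000e001300088000000000000000000000000000000) (nat_lit 0x0) (nat_lit 0x400030000000000000000000000000000000000000000000) := D_11 (nat_lit 173) (nat_lit 172) (nat_lit 190) (nat_lit 2) (nat_lit 2) (nat_lit 10) (nat_lit 5) (nat_lit 4) (nat_lit 7) (by decide +kernel)
theorem L36305 : W_11 (nat_lit 3) (nat_lit 0x2c000e001300080000000000000000000000000000000) (nat_lit 0x0) (nat_lit 0x400030000000000008000400000000000000000000000000) := T_11 (nat_lit 123) (nat_lit 106) (nat_lit 7) (nat_lit 4) (nat_lit 6) L36304 (by decide +kernel)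
theorem L36306 : W_11 (nat_lit 5) (nat_lit 0x28000e001300080000000000000000000000000000000) (nat_lit 0x0) (nat_lit 0x18000c001700000000c000c000400000000000000000000000000) := Q_11 (nat_lit 174) (C_11 L36300 (C_11 L36303 (C_11 L36305 N_11))) (by decide +kernel)
theorem L36307 : W_11 (nat_lit 6) (nat_lit 0x280006001300080000000000000000000000000000000) (nat_lit 0x0) (nat_lit 0x18000c001700380008c000c000400000000000000000000000000) := Q_11 (nat_lit 159) (C_11 L35981 (C_11 L36306 N_11)) (by decide +kernel)
theorem L36308 : W_11 (nat_lit 11) (nat_lit 0x280004001300080000000000000000000000000000000) (nat_lit 0x0) (nat_lit 0x1c000f0017803bc008e000f000700008000000000000000000000) := Q_11 (nat_lit 157) (C_11 L36053 (C_11 L36006 (C_11 L36292 (C_11 L36036 (C_11 L36051 (C_11 L36298 (C_11 L36307 N_11))))))) (by decide +kernel)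
theorem L36309 : W_11 (nat_lit 14) (nat_lit 0x280004001300080000000000000000000000000000000) (nat_lit 0x0) (nat_lit 0x15000e8007e003f0017c00bc000e0000000000000000000000000000000000) := Q_11 (nat_lit 192) (C_11 L36257 (C_11 L36193 (C_11 L35758 (C_11 L35755 N_11)))) (by decide +kernel)
theorem L36310 : W_11 (nat_lit 15) (nat_lit 0x280000001300080000000000000000000000000000000) (nat_lit 0x0) (nat_lit 0x15000e8007e003f0017c03fc008e000f000700008000000000000000000000) := Q_11 (nat_lit 158) (C_11 L36194 (C_11 L36258 (C_11 L36308 (C_11 L36309 (C_11 L35756 N_11))))) (by decide +kernel)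
theorem L36311 : W_11 (nat_lit 2) (nat_lit 0x800020001a00580004000380010001300080000000000000000000000000000000) (nat_lit 0x0) (nat_lit 0x10000400000000000000008000000000000000000000000000000000000000000000000) := D_11 (nat_lit 262) (nat_lit 195) (nat_lit 280) (nat_lit 6) (nat_lit 7) (nat_lit 15) (nat_lit 7) (nat_lit 7) (nat_lit 12) (by decide +kernel)
theorem L36312 : W_11 (nat_lit 3) (nat_lit 0x20001a00580004000380010001300080000000000000000000000000000000) (nat_lit 0x0) (nat_lit 0x10000c00040000000000008000000000000000000000000000000000000000000000000) := T_11 (nat_lit 263) (nat_lit 246) (nat_lit 7) (nat_lit 7) (nat_lit 11) L36311 (by decide +kernel)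
theorem L36313 : W_11 (nat_lit 4) (nat_lit 0x20001a00180004000380010001300080000000000000000000000000000000) (nat_lit 0x0) (nat_lit 0x10000c00040000000600008000000000000000000000000000000000000000000000000) := T_11 (nat_lit 214) (nat_lit 213) (nat_lit 1) (nat_lit 10) (nat_lit 12) L36312 (by decide +kernel)
theorem L36314 : W_11 (nat_lit 5) (nat_lit 0x1a00180004000380010001300080000000000000000000000000000000) (nat_lit 0x0) (nat_lit 0x10000c0006000000060000a000000000000000000000000000000000000000000000000) := T_11 (nat_lit 245) (nat_lit 193) (nat_lit 4) (nat_lit 7) (nat_lit 14) L36313 (by decide +kernel)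
theorem L36315 : W_11 (nat_lit 6) (nat_lit 0x1800180004000380010001300080000000000000000000000000000000) (nat_lit 0x0) (nat_lit 0x10000c0006000060060000a000000000000000000000000000000000000000000000000) := T_11 (nat_lit 225) (nat_lit 226) (nat_lit 2) (nat_lit 4) (nat_lit 13) L36314 (by decide +kernel)
theorem L36316 : W_11 (nat_lit 7) (nat_lit 0x1800180004000280010001300080000000000000000000000000000000) (nat_lit 0x0) (nat_lit 0x10000c0006000060060000a000100008000000000000000000000000000000000000000) := T_11 (nat_lit 176) (nat_lit 159) (nat_lit 4) (nat_lit 7) (nat_lit 13) L36315 (by decide +kernel)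
theorem L36317 : W_11 (nat_lit 8) (nat_lit 0x800180004000280010001300080000000000000000000000000000000) (nat_lit 0x0) (nat_lit 0x10000c0007000160060000a000100008000000000000000000000000000000000000000) := T_11 (nat_lit 228) (nat_lit 244) (nat_lit 5) (nat_lit 7) (nat_lit 10) L36316 (by decide +kernel)
theorem L36318 : W_11 (nat_lit 9) (nat_lit 0x800080004000280010001300080000000000000000000000000000000) (nat_lit 0x0) (nat_lit 0x10000c0007000360070000a000100008000000000000000000000000000000000000000) := T_11 (nat_lit 212) (nat_lit 229) (nat_lit 7) (nat_lit 7) (nat_lit 9) L36317 (by decide +kernel)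
theorem L36319 : W_11 (nat_lit 10) (nat_lit 0x80004000280010001300080000000000000000000000000000000) (nat_lit 0x0) (nat_lit 0x10000c00070003e0074000a000100008000000000000000000000000000000000000000) := T_11 (nat_lit 227) (nat_lit 210) (nat_lit 5) (nat_lit 7) (nat_lit 9) L36318 (by decide +kernel)
theorem L36320 : W_11 (nat_lit 11) (nat_lit 0x4000280010001300080000000000000000000000000000000) (nat_lit 0x0) (nat_lit 0x10000c00070003e007c000a000100028000000000000000000000000000000000000000) := T_11 (nat_lit 211) (nat_lit 161) (nat_lit 6) (nat_lit 7) (nat_lit 12) L36319 (by decide +kernel)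
theorem L36321 : W_11 (nat_lit 12) (nat_lit 0x280010001300080000000000000000000000000000000) (nat_lit 0x0) (nat_lit 0x10000c00070003e007c000e000100028000800000000000000000000000000000000000) := T_11 (nat_lit 194) (nat_lit 143) (nat_lit 6) (nat_lit 7) (nat_lit 11) L36320 (by decide +kernel)
theorem L36322 : W_11 (nat_lit 2) (nat_lit 0x20005000280034001300080000000000000000000000000000000) (nat_lit 0x0) (nat_lit 0x800040002000000000000000000000000000000000000000000000000) := D_11 (nat_lit 210) (nat_lit 193) (nat_lit 227) (nat_lit 7) (nat_lit 5) (nat_lit 8) (nat_lit 7) (nat_lit 5) (nat_lit 9) (by decide +kernel)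
theorem L36323 : W_11 (nat_lit 3) (nat_lit 0x5000280034001300080000000000000000000000000000000) (nat_lit 0x0) (nat_lit 0x800060002000000002000000000000000000000000000000000000000) := T_11 (nat_lit 209) (nat_lit 157) (nat_lit 4) (nat_lit 5) (nat_lit 12) L36322 (by decide +kernel)
theorem L36324 : W_11 (nat_lit 4) (nat_lit 0x4000280034001300080000000000000000000000000000000) (nat_lit 0x0) (nat_lit 0x800060003000000002000000008000000000000000000000000000000) := T_11 (nat_lit 192) (nat_lit 123) (nat_lit 4) (nat_lit 5) (nat_lit 11) L36323 (by decide +kernel)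
theorem L36325 : W_11 (nat_lit 5) (nat_lit 0x4000280030001300080000000000000000000000000000000) (nat_lit 0x0) (nat_lit 0x80006000300000000e000000008000000000000000000000000000000) := T_11 (nat_lit 158) (nat_lit 159) (nat_lit 0) (nat_lit 8) (nat_lit 9) L36324 (by decide +kernel)
theorem L36326 : W_11 (nat_lit 6) (nat_lit 0x4000280010001300080000000000000000000000000000000) (nat_lit 0x0) (nat_lit 0x8000e000300000002e000000008000000000000000000000000000000) := T_11 (nat_lit 161) (nat_lit 211) (nat_lit 6) (nat_lit 7) (nat_lit 12) L36325 (by decide +kernel)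
theorem L36327 : W_11 (nat_lit 7) (nat_lit 0x280010001300080000000000000000000000000000000) (nat_lit 0x0) (nat_lit 0x8000e000700000002e000800008000000000000000000000000000000) := T_11 (nat_lit 194) (nat_lit 143) (nat_lit 6) (nat_lit 7) (nat_lit 11) L36326 (by decide +kernel)
theorem L36328 : W_11 (nat_lit 2) (nat_lit 0x2800080004000280010001300080000000000000000000000000000000) (nat_lit 0x0) (nat_lit 0x50001000000000000000000000000000000000000000000000000000000000) := D_11 (nat_lit 228) (nat_lit 244) (nat_lit 246) (nat_lit 5) (nat_lit 7) (nat_lit 10) (nat_lit 7) (nat_lit 7) (nat_lit 10) (by decide +kernel)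
theorem L36329 : W_11 (nat_lit 3) (nat_lit 0x800080004000280010001300080000000000000000000000000000000) (nat_lit 0x0) (nat_lit 0x50003000100000000000000000000000000000000000000000000000000000) := T_11 (nat_lit 229) (nat_lit 212) (nat_lit 7) (nat_lit 7) (nat_lit 9) L36328 (by decide +kernel)
theorem L36330 : W_11 (nat_lit 4) (nat_lit 0x80004000280010001300080000000000000000000000000000000) (nat_lit 0x0) (nat_lit 0x50003800140000000000000000000000000000000000000000000000000000) := T_11 (nat_lit 227) (nat_lit 210) (nat_lit 5) (nat_lit 7) (nat_lit 9) L36329 (by decide +kernel)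
theorem L36331 : W_11 (nat_lit 5) (nat_lit 0x4000280010001300080000000000000000000000000000000) (nat_lit 0x0) (nat_lit 0x500038001c0000000000020000000000000000000000000000000000000000) := T_11 (nat_lit 211) (nat_lit 161) (nat_lit 6) (nat_lit 7) (nat_lit 12) L36330 (by decide +kernel)
theorem L36332 : W_11 (nat_lit 6) (nat_lit 0x280010001300080000000000000000000000000000000) (nat_lit 0x0) (nat_lit 0x500038001c0004000000020000800000000000000000000000000000000000) := T_11 (nat_lit 194) (nat_lit 143) (nat_lit 6) (nat_lit 7) (nat_lit 11) L36331 (by decide +kernel)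
theorem L36336 : W_11 (nat_lit 5) (nat_lit 0x280014001300080000000000000000000000000000000) (nat_lit 0x0) (nat_lit 0x800060007000000002000800008000000000000000000000000000000) := T_11 (nat_lit 194) (nat_lit 143) (nat_lit 6) (nat_lit 7) (nat_lit 11) L36335 (by decide +kernel)
theorem L36337 : W_11 (nat_lit 9) (nat_lit 0x280010001300080000000000000000000000000000000) (nat_lit 0x0) (nat_lit 0x10000e0007000780010002e0008c0008000000000000000000000000000000) := Q_11 (nat_lit 158) (C_11 L36141 (C_11 L35820 (C_11 L36336 N_11))) (by decide +kernel)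
theorem L36341 : W_11 (nat_lit 9) (nat_lit 0x280010001300080000000000000000000000000000000) (nat_lit 0x0) (nat_lit 0x10000e0007000380010002e0000c0008000000000000000000000000000000) := Q_11 (nat_lit 158) (C_11 L36141 (C_11 L35820 (C_11 L36340 N_11))) (by decide +kernel)
theorem L36342 : W_11 (nat_lit 2) (nat_lit 0x10003000080004000380010001300080000000000000000000000000000000) (nat_lit 0x0) (nat_lit 0x200020000000000002000000000000000000000000000000000000000000000000) := D_11 (nat_lit 245) (nat_lit 261) (nat_lit 193) (nat_lit 5) (nat_lit 7) (nat_lit 11) (nat_lit 4) (nat_lit 7) (nat_lit 14) (by decide +kernel)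
theorem L36343 : W_11 (nat_lit 3) (nat_lit 0x10003000080004000280010001300080000000000000000000000000000000) (nat_lit 0x0) (nat_lit 0x200020000000000002000100008000000000000000000000000000000000000000) := T_11 (nat_lit 176) (nat_lit 159) (nat_lit 4) (nat_lit 7) (nat_lit 13) L36342 (by decide +kernel)
theorem L36344 : W_11 (nat_lit 4) (nat_lit 0x3000080004000280010001300080000000000000000000000000000000) (nat_lit 0x0) (nat_lit 0x200030000800000002000100008000000000000000000000000000000000000000) := T_11 (nat_lit 244) (nat_lit 227) (nat_lit 5) (nat_lit 7) (nat_lit 10) L36343 (by decide +kernel)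
theorem L36345 : W_11 (nat_lit 5) (nat_lit 0x2000080004000280010001300080000000000000000000000000000000) (nat_lit 0x0) (nat_lit 0x200070001800000002000100008000000000000000000000000000000000000000) := T_11 (nat_lit 228) (nat_lit 246) (nat_lit 7) (nat_lit 7) (nat_lit 10) L36344 (by decide +kernel)
theorem L36346 : W_11 (nat_lit 6) (nat_lit 0x80004000280010001300080000000000000000000000000000000) (nat_lit 0x0) (nat_lit 0x200070003800100002000100008000000000000000000000000000000000000000) := T_11 (nat_lit 229) (nat_lit 212) (nat_lit 7) (nat_lit 7) (nat_lit 9) L36345 (by decide +kernel)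
theorem L36347 : W_11 (nat_lit 7) (nat_lit 0x4000280010001300080000000000000000000000000000000) (nat_lit 0x0) (nat_lit 0x200070003800180002000100028000000000000000000000000000000000000000) := T_11 (nat_lit 211) (nat_lit 161) (nat_lit 6) (nat_lit 7) (nat_lit 12) L36346 (by decide +kernel)
theorem L36348 : W_11 (nat_lit 8) (nat_lit 0x280010001300080000000000000000000000000000000) (nat_lit 0x0) (nat_lit 0x200070003800180006000100028000800000000000000000000000000000000000) := T_11 (nat_lit 194) (nat_lit 143) (nat_lit 6) (nat_lit 7) (nat_lit 11) L36347 (by decide +kernel)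
theorem L36349 : W_11 (nat_lit 4) (nat_lit 0x5000280010001300080000000000000000000000000000000) (nat_lit 0x0) (nat_lit 0x800060002000000006000000008000000000000000000000000000000) := T_11 (nat_lit 158) (nat_lit 123) (nat_lit 4) (nat_lit 5) (nat_lit 11) L36334 (by decide +kernel)
theorem L36350 : W_11 (nat_lit 5) (nat_lit 0x1000280010001300080000000000000000000000000000000) (nat_lit 0x0) (nat_lit 0x800060006000000006000800008000000000000000000000000000000) := T_11 (nat_lit 194) (nat_lit 143) (nat_lit 6) (nat_lit 7) (nat_lit 11) L36349 (by decide +kernel)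
theorem L36351 : W_11 (nat_lit 2) (nat_lit 0x1c0005000280010001300080000000000000000000000000000000) (nat_lit 0x0) (nat_lit 0x20002800000000000000000000000000000000000000000000000) := D_11 (nat_lit 191) (nat_lit 193) (nat_lit 209) (nat_lit 3) (nat_lit 4) (nat_lit 11) (nat_lit 0) (nat_lit 8) (nat_lit 12) (by decide +kernel)
theorem L36352 : W_11 (nat_lit 3) (nat_lit 0xc0005000280010001300080000000000000000000000000000000) (nat_lit 0x0) (nat_lit 0x2000120002800000000000000000000000000000000000000000000000) := T_11 (nat_lit 212) (nat_lit 229) (nat_lit 7) (nat_lit 7) (nat_lit 9) L36351 (by decide +kernel)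
theorem L36353 : W_11 (nat_lit 4) (nat_lit 0x80005000280010001300080000000000000000000000000000000) (nat_lit 0x0) (nat_lit 0x2800160002800000000000000000000000000000000000000000000000) := T_11 (nat_lit 210) (nat_lit 227) (nat_lit 5) (nat_lit 7) (nat_lit 9) L36352 (by decide +kernel)
theorem L36354 : W_11 (nat_lit 2) (nat_lit 0x1e0005000280010001300080000000000000000000000000000000) (nat_lit 0x0) (nat_lit 0x10018000000000000000000000000000000000000000000000000) := D_11 (nat_lit 195) (nat_lit 208) (nat_lit 196) (nat_lit 2) (nat_lit 4) (nat_lit 12) (nat_lit 2) (nat_lit 5) (nat_lit 12) (by decide +kernel)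
theorem L36355 : W_11 (nat_lit 3) (nat_lit 0x1c0005000280010001300080000000000000000000000000000000) (nat_lit 0x0) (nat_lit 0x30018800000000000000000000000000000000000000000000000) := T_11 (nat_lit 209) (nat_lit 191) (nat_lit 0) (nat_lit 8) (nat_lit 12) L36354 (by decide +kernel)
theorem L36356 : W_11 (nat_lit 4) (nat_lit 0x180005000280010001300080000000000000000000000000000000) (nat_lit 0x0) (nat_lit 0x800070018800000000000000000000000000000000000000000000000) := T_11 (nat_lit 210) (nat_lit 227) (nat_lit 5) (nat_lit 7) (nat_lit 9) L36355 (by decide +kernel)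
theorem L36357 : W_11 (nat_lit 5) (nat_lit 0x80005000280010001300080000000000000000000000000000000) (nat_lit 0x0) (nat_lit 0x2800170018800000000000000000000000000000000000000000000000) := T_11 (nat_lit 212) (nat_lit 229) (nat_lit 7) (nat_lit 7) (nat_lit 9) L36356 (by decide +kernel)
theorem L36358 : W_11 (nat_lit 2) (nat_lit 0x1c0005000280010001300080000000000000000000000000000000) (nat_lit 0x0) (nat_lit 0x200002800000000000000000000000000000000000000000000000) := D_11 (nat_lit 193) (nat_lit 191) (nat_lit 213) (nat_lit 3) (nat_lit 4) (nat_lit 11) (nat_lit 0) (nat_lit 9) (nat_lit 12) (by decide +kernel)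
theorem L36359 : W_11 (nat_lit 3) (nat_lit 0xc0005000280010001300080000000000000000000000000000000) (nat_lit 0x0) (nat_lit 0x2000300002800000000000000000000000000000000000000000000000) := T_11 (nat_lit 212) (nat_lit 229) (nat_lit 7) (nat_lit 7) (nat_lit 9) L36358 (by decide +kernel)
theorem L36360 : W_11 (nat_lit 4) (nat_lit 0x80005000280010001300080000000000000000000000000000000) (nat_lit 0x0) (nat_lit 0x2800340002800000000000000000000000000000000000000000000000) := T_11 (nat_lit 210) (nat_lit 227) (nat_lit 5) (nat_lit 7) (nat_lit 9) L36359 (by decide +kernel)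
theorem L36361 : W_11 (nat_lit 2) (nat_lit 0x3c00090017800380010001300080000000000000000000000000000000) (nat_lit 0x0) (nat_lit 0xc000200000000000000000000000000000000000000000000000000000000) := D_11 (nat_lit 242) (nat_lit 225) (nat_lit 243) (nat_lit 6) (nat_lit 4) (nat_lit 14) (nat_lit 1) (nat_lit 8) (nat_lit 13) (by decide +kernel)
theorem L36362 : W_11 (nat_lit 3) (nat_lit 0x3800090017800380010001300080000000000000000000000000000000) (nat_lit 0x0) (nat_lit 0xc000600020000000000000000000000000000000000000000000000000000) := T_11 (nat_lit 226) (nat_lit 209) (nat_lit 0) (nat_lit 8) (nat_lit 13) L36361 (by decide +kernel)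
theorem L36363 : W_11 (nat_lit 4) (nat_lit 0x3800080017800380010001300080000000000000000000000000000000) (nat_lit 0x0) (nat_lit 0xc000600038000000000000000000000000000000000000000000000000000) := T_11 (nat_lit 208) (nat_lit 207) (nat_lit 1) (nat_lit 7) (nat_lit 11) L36362 (by decide +kernel)
theorem L36364 : W_11 (nat_lit 5) (nat_lit 0x3800080007800380010001300080000000000000000000000000000000) (nat_lit 0x0) (nat_lit 0xc000600038018000000000000000000000000000000000000000000000000) := T_11 (nat_lit 196) (nat_lit 195) (nat_lit 0) (nat_lit 9) (nat_lit 11) L36363 (by decide +kernel)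
theorem L36365 : W_11 (nat_lit 6) (nat_lit 0x3800080007000380010001300080000000000000000000000000000000) (nat_lit 0x0) (nat_lit 0xc000600038018c00000000000000000000000000000000000000000000000) := T_11 (nat_lit 191) (nat_lit 190) (nat_lit 2) (nat_lit 3) (nat_lit 11) L36364 (by decide +kernel)
theorem L36366 : W_11 (nat_lit 7) (nat_lit 0x3800080005000380010001300080000000000000000000000000000000) (nat_lit 0x0) (nat_lit 0x2c00060003801ac00000000000000000000000000000000000000000000000) := T_11 (nat_lit 193) (nat_lit 245) (nat_lit 4) (nat_lit 7) (nat_lit 14) L36365 (by decide +kernel)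
theorem L36367 : W_11 (nat_lit 8) (nat_lit 0x1800080005000380010001300080000000000000000000000000000000) (nat_lit 0x0) (nat_lit 0x6c00260003801ac00000000000000000000000000000000000000000000000) := T_11 (nat_lit 229) (nat_lit 246) (nat_lit 7) (nat_lit 7) (nat_lit 10) L36366 (by decide +kernel)
theorem L36368 : W_11 (nat_lit 9) (nat_lit 0x1800080005000280010001300080000000000000000000000000000000) (nat_lit 0x0) (nat_lit 0x6c00260003801ac00100008000000000000000000000000000000000000000) := T_11 (nat_lit 176) (nat_lit 159) (nat_lit 4) (nat_lit 7) (nat_lit 13) L36367 (by decide +kernel)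
theorem L36369 : W_11 (nat_lit 10) (nat_lit 0x800080005000280010001300080000000000000000000000000000000) (nat_lit 0x0) (nat_lit 0x7c00360003801ac00100008000000000000000000000000000000000000000) := T_11 (nat_lit 228) (nat_lit 244) (nat_lit 5) (nat_lit 7) (nat_lit 10) L36368 (by decide +kernel)
theorem L36370 : W_11 (nat_lit 11) (nat_lit 0x80005000280010001300080000000000000000000000000000000) (nat_lit 0x0) (nat_lit 0x7c003e0007801ac00100008000000000000000000000000000000000000000) := T_11 (nat_lit 227) (nat_lit 210) (nat_lit 5) (nat_lit 7) (nat_lit 9) L36369 (by decide +kernel)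
theorem L36371 : W_11 (nat_lit 2) (nat_lit 0x180007000280010001300080000000000000000000000000000000) (nat_lit 0x0) (nat_lit 0x600008000000000000000000000000000000000000000000000000) := D_11 (nat_lit 213) (nat_lit 214) (nat_lit 195) (nat_lit 0) (nat_lit 10) (nat_lit 12) (nat_lit 3) (nat_lit 5) (nat_lit 11) (by decide +kernel)
theorem L36372 : W_11 (nat_lit 3) (nat_lit 0x180005000280010001300080000000000000000000000000000000) (nat_lit 0x0) (nat_lit 0x60000a800000000000000000000000000000000000000000000000) := T_11 (nat_lit 193) (nat_lit 191) (nat_lit 3) (nat_lit 4) (nat_lit 11) L36371 (by decide +kernel)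
theorem L36373 : W_11 (nat_lit 4) (nat_lit 0x80005000280010001300080000000000000000000000000000000) (nat_lit 0x0) (nat_lit 0x200070000a800000000000000000000000000000000000000000000000) := T_11 (nat_lit 212) (nat_lit 229) (nat_lit 7) (nat_lit 7) (nat_lit 9) L36372 (by decide +kernel)
theorem L36374 : W_11 (nat_lit 2) (nat_lit 0x80003c001d000280010001300080000000000000000000000000000000) (nat_lit 0x0) (nat_lit 0x10000c00000000000000000000000000000000000000000000000000000) := D_11 (nat_lit 214) (nat_lit 232) (nat_lit 215) (nat_lit 3) (nat_lit 7) (nat_lit 12) (nat_lit 0) (nat_lit 11) (nat_lit 12) (by decide +kernel)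
theorem L36375 : W_11 (nat_lit 3) (nat_lit 0x80003c0015000280010001300080000000000000000000000000000000) (nat_lit 0x0) (nat_lit 0x10000c20008000000000000000000000000000000000000000000000000) := T_11 (nat_lit 195) (nat_lit 209) (nat_lit 2) (nat_lit 5) (nat_lit 12) L36374 (by decide +kernel)
theorem L36376 : W_11 (nat_lit 4) (nat_lit 0x80003c0005000280010001300080000000000000000000000000000000) (nat_lit 0x0) (nat_lit 0x10000c20038000000000000000000000000000000000000000000000000) := T_11 (nat_lit 196) (nat_lit 197) (nat_lit 2) (nat_lit 6) (nat_lit 12) L36375 (by decide +kernel)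
theorem L36377 : W_11 (nat_lit 5) (nat_lit 0x3c0005000280010001300080000000000000000000000000000000) (nat_lit 0x0) (nat_lit 0x1c000c20038000000000000000000000000000000000000000000000000) := T_11 (nat_lit 231) (nat_lit 230) (nat_lit 3) (nat_lit 6) (nat_lit 12) L36376 (by decide +kernel)
theorem L36378 : W_11 (nat_lit 6) (nat_lit 0x1c0005000280010001300080000000000000000000000000000000) (nat_lit 0x0) (nat_lit 0x1c000e2003a000000000000000000000000000000000000000000000000) := T_11 (nat_lit 213) (nat_lit 193) (nat_lit 0) (nat_lit 9) (nat_lit 12) L36377 (by decide +kernel)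
theorem L36379 : W_11 (nat_lit 7) (nat_lit 0x180005000280010001300080000000000000000000000000000000) (nat_lit 0x0) (nat_lit 0x1c800e6003a000000000000000000000000000000000000000000000000) := T_11 (nat_lit 210) (nat_lit 227) (nat_lit 5) (nat_lit 7) (nat_lit 9) L36378 (by decide +kernel)
theorem L36380 : W_11 (nat_lit 8) (nat_lit 0x80005000280010001300080000000000000000000000000000000) (nat_lit 0x0) (nat_lit 0x1e800f6003a000000000000000000000000000000000000000000000000) := T_11 (nat_lit 212) (nat_lit 229) (nat_lit 7) (nat_lit 7) (nat_lit 9) L36379 (by decide +kernel)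
theorem L36381 : W_11 (nat_lit 2) (nat_lit 0x1800080007000380010001300080000000000000000000000000000000) (nat_lit 0x0) (nat_lit 0x100000c00000000000000000000000000000000000000000000000) := D_11 (nat_lit 191) (nat_lit 212) (nat_lit 190) (nat_lit 3) (nat_lit 4) (nat_lit 11) (nat_lit 2) (nat_lit 3) (nat_lit 11) (by decide +kernel)
theorem L36382 : W_11 (nat_lit 3) (nat_lit 0x1800080005000380010001300080000000000000000000000000000000) (nat_lit 0x0) (nat_lit 0x20000000100002c00000000000000000000000000000000000000000000000) := T_11 (nat_lit 193) (nat_lit 245) (nat_lit 4) (nat_lit 7) (nat_lit 14) L36381 (by decide +kernel)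
theorem L36383 : W_11 (nat_lit 4) (nat_lit 0x1800080005000280010001300080000000000000000000000000000000) (nat_lit 0x0) (nat_lit 0x20000000100002c00100008000000000000000000000000000000000000000) := T_11 (nat_lit 176) (nat_lit 159) (nat_lit 4) (nat_lit 7) (nat_lit 13) L36382 (by decide +kernel)
theorem L36384 : W_11 (nat_lit 5) (nat_lit 0x800080005000280010001300080000000000000000000000000000000) (nat_lit 0x0) (nat_lit 0x30001000100002c00100008000000000000000000000000000000000000000) := T_11 (nat_lit 228) (nat_lit 244) (nat_lit 5) (nat_lit 7) (nat_lit 10) L36383 (by decide +kernel)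
theorem L36385 : W_11 (nat_lit 6) (nat_lit 0x80005000280010001300080000000000000000000000000000000) (nat_lit 0x0) (nat_lit 0x30001800140002c00100008000000000000000000000000000000000000000) := T_11 (nat_lit 227) (nat_lit 210) (nat_lit 5) (nat_lit 7) (nat_lit 9) L36384 (by decide +kernel)
theorem L36386 : W_11 (nat_lit 12) (nat_lit 0x5000280010001300080000000000000000000000000000000) (nat_lit 0x0) (nat_lit 0x7c01fe00ff803ac00100008000000000000000000000000000000000000000) := Q_11 (nat_lit 211) (C_11 L36353 (C_11 L36357 (C_11 L36360 (C_11 L36370 (C_11 L36373 (C_11 L36380 (C_11 L36385 N_11))))))) (by decide +kernel)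
theorem L36387 : W_11 (nat_lit 13) (nat_lit 0x1000280010001300080000000000000000000000000000000) (nat_lit 0x0) (nat_lit 0x7c01fe00ff803ec00100008000800000000000000000000000000000000000) := T_11 (nat_lit 194) (nat_lit 143) (nat_lit 6) (nat_lit 7) (nat_lit 11) L36386 (by decide +kernel)
theorem L36388 : W_11 (nat_lit 7) (nat_lit 0x5000280010001300080000000000000000000000000000000) (nat_lit 0x0) (nat_lit 0x3a001f0008800000004000000008000000000000000000000000000000) := T_11 (nat_lit 158) (nat_lit 123) (nat_lit 4) (nat_lit 5) (nat_lit 11) L36146 (by decide +kernel)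
theorem L36389 : W_11 (nat_lit 8) (nat_lit 0x1000280010001300080000000000000000000000000000000) (nat_lit 0x0) (nat_lit 0x3a001f000c800000004000800008000000000000000000000000000000) := T_11 (nat_lit 194) (nat_lit 143) (nat_lit 6) (nat_lit 7) (nat_lit 11) L36388 (by decide +kernel)
theorem L36390 : W_11 (nat_lit 4) (nat_lit 0x1000280010001300080000000000000000000000000000000) (nat_lit 0x0) (nat_lit 0x800060002000000006000000008000000000000000000000000000000) := T_11 (nat_lit 158) (nat_lit 123) (nat_lit 4) (nat_lit 5) (nat_lit 11) L36339 (by decide +kernel)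
theorem L36391 : W_11 (nat_lit 2) (nat_lit 0x88007c002a0015001340080000000000000000000000000000000) (nat_lit 0x0) (nat_lit 0x8000080002000000000000000000000000000000) := D_11 (nat_lit 139) (nat_lit 121) (nat_lit 159) (nat_lit 4) (nat_lit 3) (nat_lit 11) (nat_lit 3) (nat_lit 2) (nat_lit 8) (by decide +kernel)
theorem L36392 : W_11 (nat_lit 3) (nat_lit 0x88007c002a0015001300080000000000000000000000000000000) (nat_lit 0x0) (nat_lit 0x88000c0002000000000000000000000000000000) := T_11 (nat_lit 138) (nat_lit 155) (nat_lit 4) (nat_lit 3) (nat_lit 12) L36391 (by decide +kernel)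
theorem L36393 : W_11 (nat_lit 4) (nat_lit 0x88007c002a0014001300080000000000000000000000000000000) (nat_lit 0x0) (nat_lit 0xb8000c0002000000000000000000000000000000) := T_11 (nat_lit 156) (nat_lit 157) (nat_lit 6) (nat_lit 3) (nat_lit 12) L36392 (by decide +kernel)
theorem L36394 : W_11 (nat_lit 5) (nat_lit 0x88007c00280014001300080000000000000000000000000000000) (nat_lit 0x0) (nat_lit 0x3000b8000c0002000000000000000000000000000000) := T_11 (nat_lit 173) (nat_lit 172) (nat_lit 0) (nat_lit 6) (nat_lit 11) L36393 (by decide +kernel)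
theorem L36395 : W_11 (nat_lit 6) (nat_lit 0x80007c00280014001300080000000000000000000000000000000) (nat_lit 0x0) (nat_lit 0xc00000003000b8000c0002000000000000000000000000000000) := T_11 (nat_lit 207) (nat_lit 206) (nat_lit 1) (nat_lit 6) (nat_lit 11) L36394 (by decide +kernel)
theorem L36396 : W_11 (nat_lit 7) (nat_lit 0x80007800280014001300080000000000000000000000000000000) (nat_lit 0x0) (nat_lit 0xc00040013000b8000c0002000000000000000000000000000000) := T_11 (nat_lit 190) (nat_lit 176) (nat_lit 2) (nat_lit 3) (nat_lit 11) L36395 (by decide +kernel)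
theorem L36397 : W_11 (nat_lit 8) (nat_lit 0x7800280014001300080000000000000000000000000000000) (nat_lit 0x0) (nat_lit 0x18c00040013000b8000c0002000000000000000000000000000000) := T_11 (nat_lit 211) (nat_lit 212) (nat_lit 3) (nat_lit 4) (nat_lit 11) L36396 (by decide +kernel)
theorem L36398 : W_11 (nat_lit 9) (nat_lit 0x7000280014001300080000000000000000000000000000000) (nat_lit 0x0) (nat_lit 0x19c000c0013000b8000c0002000000000000000000000000000000) := T_11 (nat_lit 191) (nat_lit 208) (nat_lit 5) (nat_lit 5) (nat_lit 8) L36397 (by decide +kernel)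
theorem L36399 : W_11 (nat_lit 10) (nat_lit 0x5000280014001300080000000000000000000000000000000) (nat_lit 0x0) (nat_lit 0x1dc002c0013000b8000c0002000000000000000000000000000000) := T_11 (nat_lit 193) (nat_lit 210) (nat_lit 7) (nat_lit 5) (nat_lit 8) L36398 (by decide +kernel)
theorem L36400 : W_11 (nat_lit 11) (nat_lit 0x1000280014001300080000000000000000000000000000000) (nat_lit 0x0) (nat_lit 0x1dc006c0013000b8008c0002000000000000000000000000000000) := T_11 (nat_lit 194) (nat_lit 143) (nat_lit 6) (nat_lit 7) (nat_lit 11) L36399 (by decide +kernel)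
theorem L36401 : W_11 (nat_lit 12) (nat_lit 0x1000280010001300080000000000000000000000000000000) (nat_lit 0x0) (nat_lit 0x1dc006c0013000f8008c000a000000000000000000000000000000) := T_11 (nat_lit 158) (nat_lit 123) (nat_lit 4) (nat_lit 5) (nat_lit 11) L36400 (by decide +kernel)
theorem L36407 : W_11 (nat_lit 7) (nat_lit 0x5000280014001300080000000000000000000000000000000) (nat_lit 0x0) (nat_lit 0x3000080013800bc00080000000000000000000000000000000000) := T_11 (nat_lit 191) (nat_lit 208) (nat_lit 5) (nat_lit 5) (nat_lit 8) L36406 (by decide +kernel)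
theorem L36408 : W_11 (nat_lit 8) (nat_lit 0x1000280014001300080000000000000000000000000000000) (nat_lit 0x0) (nat_lit 0x3000480013800bc00880000000000000000000000000000000000) := T_11 (nat_lit 194) (nat_lit 143) (nat_lit 6) (nat_lit 7) (nat_lit 11) L36407 (by decide +kernel)
theorem L36409 : W_11 (nat_lit 9) (nat_lit 0x1000280010001300080000000000000000000000000000000) (nat_lit 0x0) (nat_lit 0x3000480013800fc00880008000000000000000000000000000000) := T_11 (nat_lit 158) (nat_lit 123) (nat_lit 4) (nat_lit 5) (nat_lit 11) L36408 (by decide +kernel)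
theorem L36410 : W_11 (nat_lit 14) (nat_lit 0x280010001300080000000000000000000000000000000) (nat_lit 0x0) (nat_lit 0x7c01fe00ffc03fc0013800fc008c000a000000000000000000000000000000) := Q_11 (nat_lit 192) (C_11 L36350 (C_11 L36387 (C_11 L36389 (C_11 L36390 (C_11 L36401 (C_11 L36409 N_11)))))) (by decide +kernel)
theorem L36411 : W_11 (nat_lit 2) (nat_lit 0x20005000280034001300080000000000000000000000000000000) (nat_lit 0x0) (nat_lit 0x200010000800000000000000000000000000000000000000000000000) := D_11 (nat_lit 208) (nat_lit 191) (nat_lit 225) (nat_lit 5) (nat_lit 5) (nat_lit 8) (nat_lit 5) (nat_lit 5) (nat_lit 9) (by decide +kernel)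
theorem L36412 : W_11 (nat_lit 3) (nat_lit 0x5000280034001300080000000000000000000000000000000) (nat_lit 0x0) (nat_lit 0x200030000800000002000000000000000000000000000000000000000) := T_11 (nat_lit 209) (nat_lit 157) (nat_lit 4) (nat_lit 5) (nat_lit 12) L36411 (by decide +kernel)
theorem L36413 : W_11 (nat_lit 4) (nat_lit 0x4000280034001300080000000000000000000000000000000) (nat_lit 0x0) (nat_lit 0x200030001800000002000000008000000000000000000000000000000) := T_11 (nat_lit 192) (nat_lit 123) (nat_lit 4) (nat_lit 5) (nat_lit 11) L36412 (by decide +kernel)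
theorem L36414 : W_11 (nat_lit 5) (nat_lit 0x4000280030001300080000000000000000000000000000000) (nat_lit 0x0) (nat_lit 0x20003000180000000e000000008000000000000000000000000000000) := T_11 (nat_lit 158) (nat_lit 159) (nat_lit 0) (nat_lit 8) (nat_lit 9) L36413 (by decide +kernel)
theorem L36415 : W_11 (nat_lit 6) (nat_lit 0x4000280010001300080000000000000000000000000000000) (nat_lit 0x0) (nat_lit 0x2000b000180000002e000000008000000000000000000000000000000) := T_11 (nat_lit 161) (nat_lit 211) (nat_lit 6) (nat_lit 7) (nat_lit 12) L36414 (by decide +kernel)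
theorem L36416 : W_11 (nat_lit 7) (nat_lit 0x280010001300080000000000000000000000000000000) (nat_lit 0x0) (nat_lit 0x2000b000580000002e000800008000000000000000000000000000000) := T_11 (nat_lit 194) (nat_lit 143) (nat_lit 6) (nat_lit 7) (nat_lit 11) L36415 (by decide +kernel)
theorem L36417 : W_11 (nat_lit 15) (nat_lit 0x280000001300080000000000000000000000000000000) (nat_lit 0x0) (nat_lit 0x10000e0007c01fe00ffc03fc0013803fc008c000a000000000000000000000000000000) := Q_11 (nat_lit 160) (C_11 L36321 (C_11 L36327 (C_11 L36332 (C_11 L36337 (C_11 L36341 (C_11 L36348 (C_11 L36410 (C_11 L36416 N_11)))))))) (by decide +kernel)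
theorem L36418 : W_11 (nat_lit 8) (nat_lit 0x4000280000001300080000000000000000000000000000000) (nat_lit 0x0) (nat_lit 0x200070003800180002000100038000800000000000000000000000000000000000) := T_11 (nat_lit 160) (nat_lit 143) (nat_lit 6) (nat_lit 7) (nat_lit 11) L36347 (by decide +kernel)
theorem L36419 : W_11 (nat_lit 2) (nat_lit 0x50002c0034001300080000000000000000000000000000000) (nat_lit 0x0) (nat_lit 0x4000a000000000000000000000000000000000000000000000000) := D_11 (nat_lit 193) (nat_lit 195) (nat_lit 210) (nat_lit 0) (nat_lit 8) (nat_lit 11) (nat_lit 7) (nat_lit 5) (nat_lit 8) (by decide +kernel)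
theorem L36420 : W_11 (nat_lit 3) (nat_lit 0x40002c0034001300080000000000000000000000000000000) (nat_lit 0x0) (nat_lit 0x4000b000000000000000008000000000000000000000000000000) := T_11 (nat_lit 192) (nat_lit 123) (nat_lit 4) (nat_lit 5) (nat_lit 11) L36419 (by decide +kernel)
theorem L36421 : W_11 (nat_lit 4) (nat_lit 0x40002c0030001300080000000000000000000000000000000) (nat_lit 0x0) (nat_lit 0x4000b00000000c000000008000000000000000000000000000000) := T_11 (nat_lit 158) (nat_lit 159) (nat_lit 1) (nat_lit 8) (nat_lit 9) L36420 (by decide +kernel)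
theorem L36422 : W_11 (nat_lit 5) (nat_lit 0x4000280030001300080000000000000000000000000000000) (nat_lit 0x0) (nat_lit 0x4000b00014000c000000008000000000000000000000000000000) := T_11 (nat_lit 174) (nat_lit 176) (nat_lit 2) (nat_lit 4) (nat_lit 10) L36421 (by decide +kernel)
theorem L36423 : W_11 (nat_lit 6) (nat_lit 0x4000280010001300080000000000000000000000000000000) (nat_lit 0x0) (nat_lit 0xc000b00014002c000000008000000000000000000000000000000) := T_11 (nat_lit 161) (nat_lit 211) (nat_lit 6) (nat_lit 7) (nat_lit 12) L36422 (by decide +kernel)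
theorem L36424 : W_11 (nat_lit 7) (nat_lit 0x4000280000001300080000000000000000000000000000000) (nat_lit 0x0) (nat_lit 0xc000b00014003c000800008000000000000000000000000000000) := T_11 (nat_lit 160) (nat_lit 143) (nat_lit 6) (nat_lit 7) (nat_lit 11) L36423 (by decide +kernel)
theorem L36425 : W_11 (nat_lit 6) (nat_lit 0x4000280000001300080000000000000000000000000000000) (nat_lit 0x0) (nat_lit 0x500038001c0000000000030000800000000000000000000000000000000000) := T_11 (nat_lit 160) (nat_lit 143) (nat_lit 6) (nat_lit 7) (nat_lit 11) L36331 (by decide +kernel)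
theorem L36426 : W_11 (nat_lit 9) (nat_lit 0x5000280010001300080000000000000000000000000000000) (nat_lit 0x0) (nat_lit 0xe0007000880016002c0000c0008000000000000000000000000000000) := T_11 (nat_lit 158) (nat_lit 123) (nat_lit 4) (nat_lit 5) (nat_lit 11) L36132 (by decide +kernel)
theorem L36427 : W_11 (nat_lit 10) (nat_lit 0x5000280000001300080000000000000000000000000000000) (nat_lit 0x0) (nat_lit 0xe0007000880016003c0008c0008000000000000000000000000000000) := T_11 (nat_lit 160) (nat_lit 143) (nat_lit 6) (nat_lit 7) (nat_lit 11) L36426 (by decide +kernel)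
theorem L36428 : W_11 (nat_lit 2) (nat_lit 0x50003c0010001300080000000000000000000000000000000) (nat_lit 0x0) (nat_lit 0x2000020008000000000000000000000000000000000000000) := D_11 (nat_lit 173) (nat_lit 159) (nat_lit 193) (nat_lit 2) (nat_lit 3) (nat_lit 10) (nat_lit 3) (nat_lit 3) (nat_lit 10) (by decide +kernel)
theorem L36429 : W_11 (nat_lit 3) (nat_lit 0x50002c0010001300080000000000000000000000000000000) (nat_lit 0x0) (nat_lit 0x2000120028000000000000000000000000000000000000000) := T_11 (nat_lit 176) (nat_lit 161) (nat_lit 2) (nat_lit 4) (nat_lit 10) L36428 (by decide +kernel)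
theorem L36430 : W_11 (nat_lit 4) (nat_lit 0x50002c0000001300080000000000000000000000000000000) (nat_lit 0x0) (nat_lit 0x2000120038000800000000000000000000000000000000000) := T_11 (nat_lit 160) (nat_lit 143) (nat_lit 6) (nat_lit 7) (nat_lit 11) L36429 (by decide +kernel)
theorem L36431 : W_11 (nat_lit 5) (nat_lit 0x5000280000001300080000000000000000000000000000000) (nat_lit 0x0) (nat_lit 0xa800170038000800000000000000000000000000000000000) := Q_11 (nat_lit 174) (C_11 L36211 (C_11 L34801 (C_11 L36430 N_11))) (by decide +kernel)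
theorem L36432 : W_11 (nat_lit 9) (nat_lit 0x5000280010001300080000000000000000000000000000000) (nat_lit 0x0) (nat_lit 0x75001a80184006c000000008000000000000000000000000000000) := T_11 (nat_lit 158) (nat_lit 123) (nat_lit 4) (nat_lit 5) (nat_lit 11) L36111 (by decide +kernel)
theorem L36433 : W_11 (nat_lit 10) (nat_lit 0x5000280000001300080000000000000000000000000000000) (nat_lit 0x0) (nat_lit 0x75001a80184007c000800008000000000000000000000000000000) := T_11 (nat_lit 160) (nat_lit 143) (nat_lit 6) (nat_lit 7) (nat_lit 11) L36432 (by decide +kernel)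
theorem L36434 : W_11 (nat_lit 2) (nat_lit 0xf000280014001300080000000000000000000000000000000) (nat_lit 0x0) (nat_lit 0x30000800000000000000000000000000000000000000000000000) := D_11 (nat_lit 208) (nat_lit 191) (nat_lit 209) (nat_lit 5) (nat_lit 5) (nat_lit 8) (nat_lit 1) (nat_lit 8) (nat_lit 11) (by decide +kernel)
theorem L36435 : W_11 (nat_lit 3) (nat_lit 0x7000280014001300080000000000000000000000000000000) (nat_lit 0x0) (nat_lit 0x30008800040000000000000000000000000000000000000000000) := T_11 (nat_lit 195) (nat_lit 174) (nat_lit 0) (nat_lit 8) (nat_lit 11) L36434 (by decide +kernel)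
theorem L36436 : W_11 (nat_lit 4) (nat_lit 0x5000280014001300080000000000000000000000000000000) (nat_lit 0x0) (nat_lit 0x7000a800040000000000000000000000000000000000000000000) := T_11 (nat_lit 193) (nat_lit 210) (nat_lit 7) (nat_lit 5) (nat_lit 8) L36435 (by decide +kernel)
theorem L36437 : W_11 (nat_lit 5) (nat_lit 0x5000280004001300080000000000000000000000000000000) (nat_lit 0x0) (nat_lit 0x7000a800040010000800000000000000000000000000000000000) := T_11 (nat_lit 160) (nat_lit 143) (nat_lit 6) (nat_lit 7) (nat_lit 11) L36436 (by decide +kernel)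
theorem L36438 : W_11 (nat_lit 6) (nat_lit 0x5000280000001300080000000000000000000000000000000) (nat_lit 0x0) (nat_lit 0x7000a800040014000800008000000000000000000000000000000) := T_11 (nat_lit 158) (nat_lit 123) (nat_lit 4) (nat_lit 5) (nat_lit 11) L36437 (by decide +kernel)
theorem L36439 : W_11 (nat_lit 2) (nat_lit 0x4007c00290034001300080000000000000000000000000000000) (nat_lit 0x0) (nat_lit 0x2000200008000000000000000000000000000000000000000000) := D_11 (nat_lit 189) (nat_lit 205) (nat_lit 171) (nat_lit 1) (nat_lit 5) (nat_lit 11) (nat_lit 0) (nat_lit 5) (nat_lit 11) (by decide +kernel)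
theorem L36440 : W_11 (nat_lit 3) (nat_lit 0x4007c00280034001300080000000000000000000000000000000) (nat_lit 0x0) (nat_lit 0x2000200038000000000000000000000000000000000000000000) := T_11 (nat_lit 172) (nat_lit 173) (nat_lit 0) (nat_lit 6) (nat_lit 11) L36439 (by decide +kernel)
theorem L36441 : W_11 (nat_lit 4) (nat_lit 0x7c00280034001300080000000000000000000000000000000) (nat_lit 0x0) (nat_lit 0xe000200038000000000000000000000000000000000000000000) := T_11 (nat_lit 206) (nat_lit 207) (nat_lit 1) (nat_lit 6) (nat_lit 11) L36440 (by decide +kernel)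
theorem L36442 : W_11 (nat_lit 5) (nat_lit 0x7800280034001300080000000000000000000000000000000) (nat_lit 0x0) (nat_lit 0xe000600138000000000000000000000000000000000000000000) := T_11 (nat_lit 190) (nat_lit 176) (nat_lit 2) (nat_lit 3) (nat_lit 11) L36441 (by decide +kernel)
theorem L36443 : W_11 (nat_lit 6) (nat_lit 0x7000280034001300080000000000000000000000000000000) (nat_lit 0x0) (nat_lit 0x1e000e00138000000000000000000000000000000000000000000) := T_11 (nat_lit 191) (nat_lit 208) (nat_lit 5) (nat_lit 5) (nat_lit 8) L36442 (by decide +kernel)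
theorem L36444 : W_11 (nat_lit 7) (nat_lit 0x5000280034001300080000000000000000000000000000000) (nat_lit 0x0) (nat_lit 0x5e002e00138000000000000000000000000000000000000000000) := T_11 (nat_lit 193) (nat_lit 210) (nat_lit 7) (nat_lit 5) (nat_lit 8) L36443 (by decide +kernel)
theorem L36445 : W_11 (nat_lit 8) (nat_lit 0x5000280014001300080000000000000000000000000000000) (nat_lit 0x0) (nat_lit 0x5e002e00138028000000000000000000000000000000000000000) := T_11 (nat_lit 161) (nat_lit 159) (nat_lit 0) (nat_lit 8) (nat_lit 9) L36444 (by decide +kernel)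
theorem L36446 : W_11 (nat_lit 9) (nat_lit 0x5000280004001300080000000000000000000000000000000) (nat_lit 0x0) (nat_lit 0x5e002e00138038000800000000000000000000000000000000000) := T_11 (nat_lit 160) (nat_lit 143) (nat_lit 6) (nat_lit 7) (nat_lit 11) L36445 (by decide +kernel)
theorem L36447 : W_11 (nat_lit 10) (nat_lit 0x5000280000001300080000000000000000000000000000000) (nat_lit 0x0) (nat_lit 0x5e002e0013803c000800008000000000000000000000000000000) := T_11 (nat_lit 158) (nat_lit 123) (nat_lit 4) (nat_lit 5) (nat_lit 11) L36446 (by decide +kernel)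
theorem L36448 : W_11 (nat_lit 2) (nat_lit 0x7800280004001300080000000000000000000000000000000) (nat_lit 0x0) (nat_lit 0x8000060000000000000000000000000000000000000000000) := D_11 (nat_lit 174) (nat_lit 173) (nat_lit 195) (nat_lit 0) (nat_lit 7) (nat_lit 11) (nat_lit 0) (nat_lit 8) (nat_lit 11) (by decide +kernel)
theorem L36449 : W_11 (nat_lit 3) (nat_lit 0x5800280004001300080000000000000000000000000000000) (nat_lit 0x0) (nat_lit 0x4000a000060000000000000000000000000000000000000000000) := T_11 (nat_lit 193) (nat_lit 210) (nat_lit 7) (nat_lit 5) (nat_lit 8) L36448 (by decide +kernel)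
theorem L36450 : W_11 (nat_lit 4) (nat_lit 0x5000280004001300080000000000000000000000000000000) (nat_lit 0x0) (nat_lit 0x5000a800060000000000000000000000000000000000000000000) := T_11 (nat_lit 191) (nat_lit 208) (nat_lit 5) (nat_lit 5) (nat_lit 8) L36449 (by decide +kernel)
theorem L36451 : W_11 (nat_lit 5) (nat_lit 0x5000280000001300080000000000000000000000000000000) (nat_lit 0x0) (nat_lit 0x5000a800060004000000008000000000000000000000000000000) := T_11 (nat_lit 158) (nat_lit 123) (nat_lit 4) (nat_lit 5) (nat_lit 11) L36450 (by decide +kernel)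
theorem L36452 : W_11 (nat_lit 2) (nat_lit 0x7000280034001300080000000000000000000000000000000) (nat_lit 0x0) (nat_lit 0x8000140000000000000000000000000000000000000000000) := D_11 (nat_lit 174) (nat_lit 195) (nat_lit 176) (nat_lit 0) (nat_lit 8) (nat_lit 11) (nat_lit 2) (nat_lit 4) (nat_lit 10) (by decide +kernel)
theorem L36453 : W_11 (nat_lit 3) (nat_lit 0x5000280034001300080000000000000000000000000000000) (nat_lit 0x0) (nat_lit 0x4000a000140000000000000000000000000000000000000000000) := T_11 (nat_lit 193) (nat_lit 210) (nat_lit 7) (nat_lit 5) (nat_lit 8) L36452 (by decide +kernel)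
theorem L36454 : W_11 (nat_lit 4) (nat_lit 0x5000280014001300080000000000000000000000000000000) (nat_lit 0x0) (nat_lit 0x4000a000140028000000000000000000000000000000000000000) := T_11 (nat_lit 161) (nat_lit 159) (nat_lit 0) (nat_lit 8) (nat_lit 9) L36453 (by decide +kernel)
theorem L36455 : W_11 (nat_lit 5) (nat_lit 0x5000280004001300080000000000000000000000000000000) (nat_lit 0x0) (nat_lit 0x4000a000140038000800000000000000000000000000000000000) := T_11 (nat_lit 160) (nat_lit 143) (nat_lit 6) (nat_lit 7) (nat_lit 11) L36454 (by decide +kernel)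
theorem L36456 : W_11 (nat_lit 6) (nat_lit 0x5000280000001300080000000000000000000000000000000) (nat_lit 0x0) (nat_lit 0x4000a00014003c000800008000000000000000000000000000000) := T_11 (nat_lit 158) (nat_lit 123) (nat_lit 4) (nat_lit 5) (nat_lit 11) L36455 (by decide +kernel)
theorem L36457 : W_11 (nat_lit 11) (nat_lit 0x4000280000001300080000000000000000000000000000000) (nat_lit 0x0) (nat_lit 0xe0077e01be0197807c0008c0008000000000000000000000000000000) := Q_11 (nat_lit 192) (C_11 L36427 (C_11 L36431 (C_11 L36433 (C_11 L36438 (C_11 L36447 (C_11 L36451 (C_11 L36456 N_11))))))) (by decide +kernel)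
theorem L36458 : W_11 (nat_lit 2) (nat_lit 0x90007800280000001300080000000000000000000000000000000) (nat_lit 0x0) (nat_lit 0x40000400100000000000000000000000000000000000000000000) := D_11 (nat_lit 190) (nat_lit 210) (nat_lit 176) (nat_lit 3) (nat_lit 3) (nat_lit 11) (nat_lit 2) (nat_lit 3) (nat_lit 11) (by decide +kernel)
theorem L36459 : W_11 (nat_lit 3) (nat_lit 0x10007800280000001300080000000000000000000000000000000) (nat_lit 0x0) (nat_lit 0x1c0000400100000000000000000000000000000000000000000000) := T_11 (nat_lit 211) (nat_lit 212) (nat_lit 3) (nat_lit 4) (nat_lit 11) L36458 (by decide +kernel)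
theorem L36460 : W_11 (nat_lit 4) (nat_lit 0x7800280000001300080000000000000000000000000000000) (nat_lit 0x0) (nat_lit 0x1d8000400100000000000000000000000000000000000000000000) := T_11 (nat_lit 208) (nat_lit 207) (nat_lit 1) (nat_lit 7) (nat_lit 11) L36459 (by decide +kernel)
theorem L36461 : W_11 (nat_lit 2) (nat_lit 0x80007c00280000001300080000000000000000000000000000000) (nat_lit 0x0) (nat_lit 0x1c000000000000000000000000000000000000000000000000000) := D_11 (nat_lit 207) (nat_lit 206) (nat_lit 208) (nat_lit 1) (nat_lit 6) (nat_lit 11) (nat_lit 1) (nat_lit 7) (nat_lit 11) (by decide +kernel)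
theorem L36462 : W_11 (nat_lit 3) (nat_lit 0x80007800280000001300080000000000000000000000000000000) (nat_lit 0x0) (nat_lit 0x5c000400000000000000000000000000000000000000000000000) := T_11 (nat_lit 190) (nat_lit 210) (nat_lit 3) (nat_lit 3) (nat_lit 11) L36461 (by decide +kernel)
theorem L36463 : W_11 (nat_lit 4) (nat_lit 0x7800280000001300080000000000000000000000000000000) (nat_lit 0x0) (nat_lit 0x1dc000400000000000000000000000000000000000000000000000) := T_11 (nat_lit 211) (nat_lit 212) (nat_lit 3) (nat_lit 4) (nat_lit 11) L36462 (by decide +kernel)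
theorem L36464 : W_11 (nat_lit 2) (nat_lit 0x4000000030007c002a0000001380080000000000000000000000000000000) (nat_lit 0x0) (nat_lit 0x40000300000000000000000000000000000000000000000000000) := D_11 (nat_lit 189) (nat_lit 188) (nat_lit 210) (nat_lit 3) (nat_lit 1) (nat_lit 11) (nat_lit 3) (nat_lit 2) (nat_lit 11) (by decide +kernel)
theorem L36465 : W_11 (nat_lit 3) (nat_lit 0x4000000010007c002a0000001380080000000000000000000000000000000) (nat_lit 0x0) (nat_lit 0x60008300000000000000000000000000000000000000000000000) := T_11 (nat_lit 209) (nat_lit 195) (nat_lit 1) (nat_lit 8) (nat_lit 11) L36464 (by decide +kernel)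
theorem L36466 : W_11 (nat_lit 4) (nat_lit 0x4000000010007c002a0000001300080000000000000000000000000000000) (nat_lit 0x0) (nat_lit 0x60008300000001000080000000000000000000000000000000000) := T_11 (nat_lit 139) (nat_lit 156) (nat_lit 7) (nat_lit 3) (nat_lit 8) L36465 (by decide +kernel)
theorem L36467 : W_11 (nat_lit 5) (nat_lit 0x10007c002a0000001300080000000000000000000000000000000) (nat_lit 0x0) (nat_lit 0x4000200060008300000001000080000000000000000000000000000000000) := T_11 (nat_lit 242) (nat_lit 225) (nat_lit 6) (nat_lit 4) (nat_lit 14) L36466 (by decide +kernel)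
theorem L36468 : W_11 (nat_lit 6) (nat_lit 0x10007c00280000001300080000000000000000000000000000000) (nat_lit 0x0) (nat_lit 0x4000200060008300030001000080000000000000000000000000000000000) := T_11 (nat_lit 173) (nat_lit 172) (nat_lit 0) (nat_lit 6) (nat_lit 11) L36467 (by decide +kernel)
theorem L36469 : W_11 (nat_lit 7) (nat_lit 0x10007800280000001300080000000000000000000000000000000) (nat_lit 0x0) (nat_lit 0x4000200060008700130001000080000000000000000000000000000000000) := T_11 (nat_lit 190) (nat_lit 176) (nat_lit 2) (nat_lit 3) (nat_lit 11) L36468 (by decide +kernel)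
theorem L36470 : W_11 (nat_lit 8) (nat_lit 0x7800280000001300080000000000000000000000000000000) (nat_lit 0x0) (nat_lit 0x4000200078008700130001000080000000000000000000000000000000000) := T_11 (nat_lit 208) (nat_lit 207) (nat_lit 1) (nat_lit 7) (nat_lit 11) L36469 (by decide +kernel)
theorem L36471 : W_11 (nat_lit 2) (nat_lit 0x400000009000f800280000001300080000000000000000000000000000000) (nat_lit 0x0) (nat_lit 0x10400100000000000000000000000000000000000000000000) := D_11 (nat_lit 176) (nat_lit 196) (nat_lit 190) (nat_lit 0) (nat_lit 9) (nat_lit 11) (nat_lit 2) (nat_lit 3) (nat_lit 11) (by decide +kernel)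
theorem L36472 : W_11 (nat_lit 3) (nat_lit 0x4000000090007800280000001300080000000000000000000000000000000) (nat_lit 0x0) (nat_lit 0x20018400100000000000000000000000000000000000000000000) := T_11 (nat_lit 195) (nat_lit 209) (nat_lit 1) (nat_lit 8) (nat_lit 11) L36471 (by decide +kernel)
theorem L36473 : W_11 (nat_lit 4) (nat_lit 0x90007800280000001300080000000000000000000000000000000) (nat_lit 0x0) (nat_lit 0x4000200020018400100000000000000000000000000000000000000000000) := T_11 (nat_lit 242) (nat_lit 225) (nat_lit 6) (nat_lit 4) (nat_lit 14) L36472 (by decide +kernel)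
theorem L36474 : W_11 (nat_lit 5) (nat_lit 0x10007800280000001300080000000000000000000000000000000) (nat_lit 0x0) (nat_lit 0x40002001a0018400100000000000000000000000000000000000000000000) := T_11 (nat_lit 211) (nat_lit 212) (nat_lit 3) (nat_lit 4) (nat_lit 11) L36473 (by decide +kernel)
theorem L36475 : W_11 (nat_lit 6) (nat_lit 0x7800280000001300080000000000000000000000000000000) (nat_lit 0x0) (nat_lit 0x40002001b8018400100000000000000000000000000000000000000000000) := T_11 (nat_lit 208) (nat_lit 207) (nat_lit 1) (nat_lit 7) (nat_lit 11) L36474 (by decide +kernel)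
theorem L36476 : W_11 (nat_lit 2) (nat_lit 0x7c00280000001300080000000000000000000000000000000) (nat_lit 0x0) (nat_lit 0x1c0000000000000000000000000000000000000000000000000000) := D_11 (nat_lit 211) (nat_lit 210) (nat_lit 212) (nat_lit 3) (nat_lit 3) (nat_lit 11) (nat_lit 3) (nat_lit 4) (nat_lit 11) (by decide +kernel)
theorem L36477 : W_11 (nat_lit 3) (nat_lit 0x7800280000001300080000000000000000000000000000000) (nat_lit 0x0) (nat_lit 0x1c0000400100000000000000000000000000000000000000000000) := T_11 (nat_lit 190) (nat_lit 176) (nat_lit 2) (nat_lit 3) (nat_lit 11) L36476 (by decide +kernel)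
theorem L36478 : W_11 (nat_lit 2) (nat_lit 0x400000029001f801280000001300080000000000000000000000000000000) (nat_lit 0x0) (nat_lit 0x40020002000000000000000000000000000000000000000000000) := D_11 (nat_lit 197) (nat_lit 210) (nat_lit 181) (nat_lit 1) (nat_lit 10) (nat_lit 11) (nat_lit 2) (nat_lit 7) (nat_lit 11) (by decide +kernel)
theorem L36479 : W_11 (nat_lit 3) (nat_lit 0x400000029001f800280000001300080000000000000000000000000000000) (nat_lit 0x0) (nat_lit 0x40020003800000000000000000000000000000000000000000000) := T_11 (nat_lit 180) (nat_lit 179) (nat_lit 2) (nat_lit 6) (nat_lit 11) L36478 (by decide +kernel)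
theorem L36480 : W_11 (nat_lit 4) (nat_lit 0x400000009001f800280000001300080000000000000000000000000000000) (nat_lit 0x0) (nat_lit 0x640020003800000000000000000000000000000000000000000000) := T_11 (nat_lit 213) (nat_lit 214) (nat_lit 3) (nat_lit 6) (nat_lit 11) L36479 (by decide +kernel)
theorem L36481 : W_11 (nat_lit 5) (nat_lit 0x400000009000f800280000001300080000000000000000000000000000000) (nat_lit 0x0) (nat_lit 0x640030003900000000000000000000000000000000000000000000) := T_11 (nat_lit 196) (nat_lit 176) (nat_lit 0) (nat_lit 9) (nat_lit 11) L36480 (by decide +kernel)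
theorem L36482 : W_11 (nat_lit 6) (nat_lit 0x4000000090007800280000001300080000000000000000000000000000000) (nat_lit 0x0) (nat_lit 0x660038003900000000000000000000000000000000000000000000) := T_11 (nat_lit 195) (nat_lit 209) (nat_lit 1) (nat_lit 8) (nat_lit 11) L36481 (by decide +kernel)
theorem L36483 : W_11 (nat_lit 7) (nat_lit 0x90007800280000001300080000000000000000000000000000000) (nat_lit 0x0) (nat_lit 0x4000200660038003900000000000000000000000000000000000000000000) := T_11 (nat_lit 242) (nat_lit 225) (nat_lit 6) (nat_lit 4) (nat_lit 14) L36482 (by decide +kernel)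
theorem L36484 : W_11 (nat_lit 8) (nat_lit 0x10007800280000001300080000000000000000000000000000000) (nat_lit 0x0) (nat_lit 0x40002007e0038003900000000000000000000000000000000000000000000) := T_11 (nat_lit 211) (nat_lit 212) (nat_lit 3) (nat_lit 4) (nat_lit 11) L36483 (by decide +kernel)
theorem L36485 : W_11 (nat_lit 9) (nat_lit 0x7800280000001300080000000000000000000000000000000) (nat_lit 0x0) (nat_lit 0x40002007f8038003900000000000000000000000000000000000000000000) := T_11 (nat_lit 208) (nat_lit 207) (nat_lit 1) (nat_lit 7) (nat_lit 11) L36484 (by decide +kernel)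
theorem L36486 : W_11 (nat_lit 10) (nat_lit 0x7000280000001300080000000000000000000000000000000) (nat_lit 0x0) (nat_lit 0x40002007fc038f03930001000080000000000000000000000000000000000) := Q_11 (nat_lit 191) (C_11 L36460 (C_11 L36463 (C_11 L36470 (C_11 L36475 (C_11 L36477 (C_11 L36485 N_11)))))) (by decide +kernel)
theorem L36487 : W_11 (nat_lit 2) (nat_lit 0x1f000280000001300080000000000000000000000000000000) (nat_lit 0x0) (nat_lit 0x700000000000000000000000000000000000000000000000000000) := D_11 (nat_lit 213) (nat_lit 212) (nat_lit 214) (nat_lit 3) (nat_lit 5) (nat_lit 11) (nat_lit 3) (nat_lit 6) (nat_lit 11) (by decide +kernel)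
theorem L36488 : W_11 (nat_lit 3) (nat_lit 0xf000280000001300080000000000000000000000000000000) (nat_lit 0x0) (nat_lit 0x700010000100000000000000000000000000000000000000000000) := T_11 (nat_lit 196) (nat_lit 176) (nat_lit 0) (nat_lit 9) (nat_lit 11) L36487 (by decide +kernel)
theorem L36489 : W_11 (nat_lit 4) (nat_lit 0x7000280000001300080000000000000000000000000000000) (nat_lit 0x0) (nat_lit 0x700018000140000000000000000000000000000000000000000000) := T_11 (nat_lit 195) (nat_lit 174) (nat_lit 0) (nat_lit 8) (nat_lit 11) L36488 (by decide +kernel)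
theorem L36490 : W_11 (nat_lit 2) (nat_lit 0x500004001e000f000280000001300080000000000000000000000000000000) (nat_lit 0x0) (nat_lit 0x300008000000000000000000000000000000000000000000000000000000000000) := D_11 (nat_lit 243) (nat_lit 260) (nat_lit 261) (nat_lit 6) (nat_lit 5) (nat_lit 15) (nat_lit 7) (nat_lit 5) (nat_lit 11) (by decide +kernel)
theorem L36491 : W_11 (nat_lit 3) (nat_lit 0x400004001e000f000280000001300080000000000000000000000000000000) (nat_lit 0x0) (nat_lit 0x300018000800000000000000000000000000000000000000000000000000000000) := T_11 (nat_lit 244) (nat_lit 227) (nat_lit 7) (nat_lit 5) (nat_lit 10) L36490 (by decide +kernel)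
theorem L36492 : W_11 (nat_lit 4) (nat_lit 0x400000001e000f000280000001300080000000000000000000000000000000) (nat_lit 0x0) (nat_lit 0x300018000e00000000000000000000000000000000000000000000000000000000) := T_11 (nat_lit 226) (nat_lit 225) (nat_lit 1) (nat_lit 8) (nat_lit 12) L36491 (by decide +kernel)
theorem L36493 : W_11 (nat_lit 5) (nat_lit 0x400000001a000f000280000001300080000000000000000000000000000000) (nat_lit 0x0) (nat_lit 0x300018000e00040010000000000000000000000000000000000000000000000000) := T_11 (nat_lit 210) (nat_lit 196) (nat_lit 2) (nat_lit 5) (nat_lit 12) L36492 (by decide +kernel)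
theorem L36494 : W_11 (nat_lit 6) (nat_lit 0x1a000f000280000001300080000000000000000000000000000000) (nat_lit 0x0) (nat_lit 0x300058002e00040010000000000000000000000000000000000000000000000000) := T_11 (nat_lit 246) (nat_lit 229) (nat_lit 4) (nat_lit 8) (nat_lit 14) L36493 (by decide +kernel)
theorem L36495 : W_11 (nat_lit 7) (nat_lit 0x12000f000280000001300080000000000000000000000000000000) (nat_lit 0x0) (nat_lit 0x300058002e000c0010800000000000000000000000000000000000000000000000) := T_11 (nat_lit 211) (nat_lit 191) (nat_lit 3) (nat_lit 4) (nat_lit 11) L36494 (by decide +kernel)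
theorem L36496 : W_11 (nat_lit 8) (nat_lit 0x2000f000280000001300080000000000000000000000000000000) (nat_lit 0x0) (nat_lit 0x300058002e003c0010800000000000000000000000000000000000000000000000) := T_11 (nat_lit 212) (nat_lit 213) (nat_lit 3) (nat_lit 5) (nat_lit 11) L36495 (by decide +kernel)
theorem L36497 : W_11 (nat_lit 9) (nat_lit 0xf000280000001300080000000000000000000000000000000) (nat_lit 0x0) (nat_lit 0x300058002e003f0010800000000000000000000000000000000000000000000000) := T_11 (nat_lit 209) (nat_lit 208) (nat_lit 1) (nat_lit 8) (nat_lit 11) L36496 (by decide +kernel)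
theorem L36498 : W_11 (nat_lit 10) (nat_lit 0x7000280000001300080000000000000000000000000000000) (nat_lit 0x0) (nat_lit 0x300058002e003f0018800040000000000000000000000000000000000000000000) := T_11 (nat_lit 195) (nat_lit 174) (nat_lit 0) (nat_lit 8) (nat_lit 11) L36497 (by decide +kernel)
theorem L36499 : W_11 (nat_lit 2) (nat_lit 0x1f000280000001300080000000000000000000000000000000) (nat_lit 0x0) (nat_lit 0x70000000000000000000000000000000000000000000000000000) := D_11 (nat_lit 209) (nat_lit 208) (nat_lit 210) (nat_lit 1) (nat_lit 8) (nat_lit 11) (nat_lit 1) (nat_lit 9) (nat_lit 11) (by decide +kernel)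
theorem L36500 : W_11 (nat_lit 3) (nat_lit 0xf000280000001300080000000000000000000000000000000) (nat_lit 0x0) (nat_lit 0x70010000100000000000000000000000000000000000000000000) := T_11 (nat_lit 196) (nat_lit 176) (nat_lit 0) (nat_lit 9) (nat_lit 11) L36499 (by decide +kernel)
theorem L36501 : W_11 (nat_lit 4) (nat_lit 0x7000280000001300080000000000000000000000000000000) (nat_lit 0x0) (nat_lit 0x70018000140000000000000000000000000000000000000000000) := T_11 (nat_lit 195) (nat_lit 174) (nat_lit 0) (nat_lit 8) (nat_lit 11) L36500 (by decide +kernel)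
theorem L36502 : W_11 (nat_lit 2) (nat_lit 0x7c002c0000001300080000000000000000000000000000000) (nat_lit 0x0) (nat_lit 0x1c000000000000000000000000000000000000000000000000000) := D_11 (nat_lit 207) (nat_lit 208) (nat_lit 206) (nat_lit 1) (nat_lit 7) (nat_lit 11) (nat_lit 1) (nat_lit 6) (nat_lit 11) (by decide +kernel)
theorem L36503 : W_11 (nat_lit 3) (nat_lit 0x78002c0000001300080000000000000000000000000000000) (nat_lit 0x0) (nat_lit 0x1c000400100000000000000000000000000000000000000000000) := T_11 (nat_lit 190) (nat_lit 176) (nat_lit 2) (nat_lit 3) (nat_lit 11) L36502 (by decide +kernel)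
theorem L36504 : W_11 (nat_lit 4) (nat_lit 0x7800280000001300080000000000000000000000000000000) (nat_lit 0x0) (nat_lit 0x1c000400160000000000000000000000000000000000000000000) := T_11 (nat_lit 174) (nat_lit 173) (nat_lit 0) (nat_lit 7) (nat_lit 11) L36503 (by decide +kernel)
theorem L36505 : W_11 (nat_lit 2) (nat_lit 0x3000d00078002c0000001300080000000000000000000000000000000) (nat_lit 0x0) (nat_lit 0x8000c00000000000000000000000000000000000000000000000000000000) := D_11 (nat_lit 226) (nat_lit 243) (nat_lit 227) (nat_lit 7) (nat_lit 4) (nat_lit 10) (nat_lit 2) (nat_lit 3) (nat_lit 13) (by decide +kernel)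
theorem L36506 : W_11 (nat_lit 3) (nat_lit 0x3000900078002c0000001300080000000000000000000000000000000) (nat_lit 0x0) (nat_lit 0x8000c00060000000000000000000000000000000000000000000000000000) := T_11 (nat_lit 210) (nat_lit 209) (nat_lit 1) (nat_lit 7) (nat_lit 12) L36505 (by decide +kernel)
theorem L36507 : W_11 (nat_lit 4) (nat_lit 0x2000900078002c0000001300080000000000000000000000000000000) (nat_lit 0x0) (nat_lit 0xa000d00060000000000000000000000000000000000000000000000000000) := T_11 (nat_lit 224) (nat_lit 241) (nat_lit 5) (nat_lit 4) (nat_lit 10) L36506 (by decide +kernel)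
theorem L36508 : W_11 (nat_lit 5) (nat_lit 0x900078002c0000001300080000000000000000000000000000000) (nat_lit 0x0) (nat_lit 0xe000f00060000000000000000000000000000000000000000000000000000) := T_11 (nat_lit 225) (nat_lit 242) (nat_lit 6) (nat_lit 4) (nat_lit 14) L36507 (by decide +kernel)
theorem L36509 : W_11 (nat_lit 6) (nat_lit 0x800078002c0000001300080000000000000000000000000000000) (nat_lit 0x0) (nat_lit 0xe000f00078000000000000000000000000000000000000000000000000000) := T_11 (nat_lit 208) (nat_lit 207) (nat_lit 1) (nat_lit 7) (nat_lit 11) L36508 (by decide +kernel)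
theorem L36510 : W_11 (nat_lit 7) (nat_lit 0x78002c0000001300080000000000000000000000000000000) (nat_lit 0x0) (nat_lit 0xe000f001f8000000000000000000000000000000000000000000000000000) := T_11 (nat_lit 211) (nat_lit 212) (nat_lit 3) (nat_lit 4) (nat_lit 11) L36509 (by decide +kernel)
theorem L36511 : W_11 (nat_lit 8) (nat_lit 0x7800280000001300080000000000000000000000000000000) (nat_lit 0x0) (nat_lit 0xe000f001f8000000060000000000000000000000000000000000000000000) := T_11 (nat_lit 174) (nat_lit 173) (nat_lit 0) (nat_lit 7) (nat_lit 11) L36510 (by decide +kernel)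
theorem L36512 : W_11 (nat_lit 9) (nat_lit 0x7000280000001300080000000000000000000000000000000) (nat_lit 0x0) (nat_lit 0xe000f001fc000c00160000000000000000000000000000000000000000000) := Q_11 (nat_lit 191) (C_11 L36477 (C_11 L36463 (C_11 L36504 (C_11 L36511 N_11)))) (by decide +kernel)
theorem L36513 : W_11 (nat_lit 11) (nat_lit 0x5000280000001300080000000000000000000000000000000) (nat_lit 0x0) (nat_lit 0x30005e002f007fc03af03970001000080000000000000000000000000000000000) := Q_11 (nat_lit 193) (C_11 L36486 (C_11 L36489 (C_11 L36498 (C_11 L36501 (C_11 L36512 N_11))))) (by decide +kernel)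
theorem L36515 : W_11 (nat_lit 3) (nat_lit 0x20005000280000001300080000000000000000000000000000000) (nat_lit 0x0) (nat_lit 0x200010000800000004000000008000000000000000000000000000000) := T_11 (nat_lit 158) (nat_lit 123) (nat_lit 4) (nat_lit 5) (nat_lit 11) L36514 (by decide +kernel)
theorem L36516 : W_11 (nat_lit 2) (nat_lit 0xe000200050003c0000001300080000000000000000000000000000000) (nat_lit 0x0) (nat_lit 0x8000000000000c00000000000000000000000000000000000000000000000) := D_11 (nat_lit 191) (nat_lit 190) (nat_lit 243) (nat_lit 1) (nat_lit 7) (nat_lit 10) (nat_lit 4) (nat_lit 5) (nat_lit 14) (by decide +kernel)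
theorem L36517 : W_11 (nat_lit 3) (nat_lit 0xe00020005000380000001300080000000000000000000000000000000) (nat_lit 0x0) (nat_lit 0x8000000000008c00040000000000000000000000000000000000000000000) := T_11 (nat_lit 174) (nat_lit 195) (nat_lit 3) (nat_lit 4) (nat_lit 10) L36516 (by decide +kernel)
theorem L36518 : W_11 (nat_lit 4) (nat_lit 0xe00020005000280000001300080000000000000000000000000000000) (nat_lit 0x0) (nat_lit 0x8000000000008c00140008000000000000000000000000000000000000000) := T_11 (nat_lit 176) (nat_lit 159) (nat_lit 6) (nat_lit 5) (nat_lit 13) L36517 (by decide +kernel)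
theorem L36519 : W_11 (nat_lit 5) (nat_lit 0x600020005000280000001300080000000000000000000000000000000) (nat_lit 0x0) (nat_lit 0x18000800000008c00140008000000000000000000000000000000000000000) := T_11 (nat_lit 227) (nat_lit 244) (nat_lit 7) (nat_lit 5) (nat_lit 10) L36518 (by decide +kernel)
theorem L36520 : W_11 (nat_lit 6) (nat_lit 0x400020005000280000001300080000000000000000000000000000000) (nat_lit 0x0) (nat_lit 0x1c000a00000008c00140008000000000000000000000000000000000000000) := T_11 (nat_lit 225) (nat_lit 242) (nat_lit 5) (nat_lit 5) (nat_lit 10) L36519 (by decide +kernel)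
theorem L36521 : W_11 (nat_lit 2) (nat_lit 0x580027000b0005800280000001300080000000000000000000000000000000) (nat_lit 0x0) (nat_lit 0x800000000000100008000000000000000000000000000000000000000000000000) := D_11 (nat_lit 212) (nat_lit 263) (nat_lit 195) (nat_lit 4) (nat_lit 8) (nat_lit 15) (nat_lit 4) (nat_lit 8) (nat_lit 14) (by decide +kernel)
theorem L36522 : W_11 (nat_lit 3) (nat_lit 0x580007000b0005800280000001300080000000000000000000000000000000) (nat_lit 0x0) (nat_lit 0x800000003000100008000000000000000000000000000000000000000000000000) := T_11 (nat_lit 229) (nat_lit 228) (nat_lit 7) (nat_lit 7) (nat_lit 10) L36521 (by decide +kernel)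
theorem L36523 : W_11 (nat_lit 4) (nat_lit 0x58000700030005800280000001300080000000000000000000000000000000) (nat_lit 0x0) (nat_lit 0x8000000030001c0008000000000000000000000000000000000000000000000000) := T_11 (nat_lit 211) (nat_lit 210) (nat_lit 1) (nat_lit 7) (nat_lit 12) L36522 (by decide +kernel)
theorem L36524 : W_11 (nat_lit 5) (nat_lit 0x18000700030005800280000001300080000000000000000000000000000000) (nat_lit 0x0) (nat_lit 0x8000600030001c0008000000000000000000000000000000000000000000000000) := T_11 (nat_lit 246) (nat_lit 245) (nat_lit 0) (nat_lit 8) (nat_lit 14) L36523 (by decide +kernel)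
theorem L36525 : W_11 (nat_lit 6) (nat_lit 0x18000700020005800280000001300080000000000000000000000000000000) (nat_lit 0x0) (nat_lit 0x9000600030001d0008000000000000000000000000000000000000000000000000) := T_11 (nat_lit 208) (nat_lit 260) (nat_lit 4) (nat_lit 5) (nat_lit 15) L36524 (by decide +kernel)
theorem L36526 : W_11 (nat_lit 7) (nat_lit 0x18000600020005800280000001300080000000000000000000000000000000) (nat_lit 0x0) (nat_lit 0x9000600031801d0008000000000000000000000000000000000000000000000000) := T_11 (nat_lit 224) (nat_lit 223) (nat_lit 3) (nat_lit 2) (nat_lit 13) L36525 (by decide +kernel)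
theorem L36527 : W_11 (nat_lit 8) (nat_lit 0x18000600020005000280000001300080000000000000000000000000000000) (nat_lit 0x0) (nat_lit 0x9000600031801d0008800040000000000000000000000000000000000000000000) := T_11 (nat_lit 191) (nat_lit 174) (nat_lit 4) (nat_lit 5) (nat_lit 14) L36526 (by decide +kernel)
theorem L36528 : W_11 (nat_lit 9) (nat_lit 0x10000600020005000280000001300080000000000000000000000000000000) (nat_lit 0x0) (nat_lit 0xb000680031801d0008800040000000000000000000000000000000000000000000) := T_11 (nat_lit 243) (nat_lit 261) (nat_lit 7) (nat_lit 5) (nat_lit 11) L36527 (by decide +kernel)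
theorem L36529 : W_11 (nat_lit 10) (nat_lit 0x600020005000280000001300080000000000000000000000000000000) (nat_lit 0x0) (nat_lit 0xb000780039801d0008800040000000000000000000000000000000000000000000) := T_11 (nat_lit 244) (nat_lit 227) (nat_lit 7) (nat_lit 5) (nat_lit 10) L36528 (by decide +kernel)
theorem L36530 : W_11 (nat_lit 11) (nat_lit 0x400020005000280000001300080000000000000000000000000000000) (nat_lit 0x0) (nat_lit 0xb0007c003b801d0008800040000000000000000000000000000000000000000000) := T_11 (nat_lit 225) (nat_lit 242) (nat_lit 5) (nat_lit 5) (nat_lit 10) L36529 (by decide +kernel)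
theorem L36531 : W_11 (nat_lit 2) (nat_lit 0x18000400020005000380000001300080000000000000000000000000000000) (nat_lit 0x0) (nat_lit 0x80004000200000000000000000000000000000000000000000000000000000000) := D_11 (nat_lit 242) (nat_lit 259) (nat_lit 225) (nat_lit 5) (nat_lit 5) (nat_lit 11) (nat_lit 5) (nat_lit 5) (nat_lit 10) (by decide +kernel)
theorem L36532 : W_11 (nat_lit 3) (nat_lit 0x10000400020005000380000001300080000000000000000000000000000000) (nat_lit 0x0) (nat_lit 0x28000c000200000000000000000000000000000000000000000000000000000000) := T_11 (nat_lit 243) (nat_lit 261) (nat_lit 7) (nat_lit 5) (nat_lit 11) L36531 (by decide +kernel)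
theorem L36533 : W_11 (nat_lit 4) (nat_lit 0x10000400020005000280000001300080000000000000000000000000000000) (nat_lit 0x0) (nat_lit 0x28000c000200000000000100008000000000000000000000000000000000000000) := T_11 (nat_lit 176) (nat_lit 159) (nat_lit 6) (nat_lit 5) (nat_lit 13) L36532 (by decide +kernel)
theorem L36534 : W_11 (nat_lit 5) (nat_lit 0x400020005000280000001300080000000000000000000000000000000) (nat_lit 0x0) (nat_lit 0x28001c000a00000000000100008000000000000000000000000000000000000000) := T_11 (nat_lit 244) (nat_lit 227) (nat_lit 7) (nat_lit 5) (nat_lit 10) L36533 (by decide +kernel)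
theorem L36535 : W_11 (nat_lit 2) (nat_lit 0x6000200050003c0000001300080000000000000000000000000000000) (nat_lit 0x0) (nat_lit 0x8000000000000c00000000000000000000000000000000000000000000000) := D_11 (nat_lit 191) (nat_lit 190) (nat_lit 243) (nat_lit 1) (nat_lit 7) (nat_lit 10) (nat_lit 4) (nat_lit 5) (nat_lit 14) (by decide +kernel)
theorem L36536 : W_11 (nat_lit 3) (nat_lit 0x600020005000380000001300080000000000000000000000000000000) (nat_lit 0x0) (nat_lit 0x8000000000008c00040000000000000000000000000000000000000000000) := T_11 (nat_lit 174) (nat_lit 195) (nat_lit 3) (nat_lit 4) (nat_lit 10) L36535 (by decide +kernel)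
theorem L36537 : W_11 (nat_lit 4) (nat_lit 0x600020005000280000001300080000000000000000000000000000000) (nat_lit 0x0) (nat_lit 0x8000000000008c00140008000000000000000000000000000000000000000) := T_11 (nat_lit 176) (nat_lit 159) (nat_lit 6) (nat_lit 5) (nat_lit 13) L36536 (by decide +kernel)
theorem L36538 : W_11 (nat_lit 5) (nat_lit 0x400020005000280000001300080000000000000000000000000000000) (nat_lit 0x0) (nat_lit 0xc000200000008c00140008000000000000000000000000000000000000000) := T_11 (nat_lit 225) (nat_lit 242) (nat_lit 5) (nat_lit 5) (nat_lit 10) L36537 (by decide +kernel)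
theorem L36539 : W_11 (nat_lit 2) (nat_lit 0x4000200050003c0000001300080000000000000000000000000000000) (nat_lit 0x0) (nat_lit 0x8000000000000c00000000000000000000000000000000000000000000000) := D_11 (nat_lit 191) (nat_lit 190) (nat_lit 243) (nat_lit 1) (nat_lit 7) (nat_lit 10) (nat_lit 4) (nat_lit 5) (nat_lit 14) (by decide +kernel)
theorem L36540 : W_11 (nat_lit 3) (nat_lit 0x400020005000380000001300080000000000000000000000000000000) (nat_lit 0x0) (nat_lit 0x8000000000008c00040000000000000000000000000000000000000000000) := T_11 (nat_lit 174) (nat_lit 195) (nat_lit 3) (nat_lit 4) (nat_lit 10) L36539 (by decide +kernel)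
theorem L36541 : W_11 (nat_lit 4) (nat_lit 0x400020005000280000001300080000000000000000000000000000000) (nat_lit 0x0) (nat_lit 0x8000000000008c00140008000000000000000000000000000000000000000) := T_11 (nat_lit 176) (nat_lit 159) (nat_lit 6) (nat_lit 5) (nat_lit 13) L36540 (by decide +kernel)
theorem L36542 : W_11 (nat_lit 2) (nat_lit 0xe000280054003e0001001380080000000000000000000000000000000) (nat_lit 0x0) (nat_lit 0x180004000000000000000000000000000000000000000000000000000) := D_11 (nat_lit 206) (nat_lit 223) (nat_lit 224) (nat_lit 5) (nat_lit 3) (nat_lit 9) (nat_lit 0) (nat_lit 6) (nat_lit 13) (by decide +kernel)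
theorem L36543 : W_11 (nat_lit 3) (nat_lit 0xe000200054003e0001001380080000000000000000000000000000000) (nat_lit 0x0) (nat_lit 0x18001c000000000000000000000000000000000000000000000000000) := T_11 (nat_lit 207) (nat_lit 208) (nat_lit 7) (nat_lit 3) (nat_lit 9) L36542 (by decide +kernel)
theorem L36544 : W_11 (nat_lit 4) (nat_lit 0xe000200054003e0001001300080000000000000000000000000000000) (nat_lit 0x0) (nat_lit 0x18001c000000000000000080008000000000000000000000000000000) := T_11 (nat_lit 139) (nat_lit 123) (nat_lit 6) (nat_lit 3) (nat_lit 11) L36543 (by decide +kernel)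
theorem L36545 : W_11 (nat_lit 5) (nat_lit 0xe000200054003e0000001300080000000000000000000000000000000) (nat_lit 0x0) (nat_lit 0x18001c000000000001800080008000000000000000000000000000000) := T_11 (nat_lit 156) (nat_lit 155) (nat_lit 0) (nat_lit 6) (nat_lit 10) L36544 (by decide +kernel)
theorem L36546 : W_11 (nat_lit 6) (nat_lit 0xe000200054003c0000001300080000000000000000000000000000000) (nat_lit 0x0) (nat_lit 0x18001c000200020001800080008000000000000000000000000000000) := T_11 (nat_lit 173) (nat_lit 189) (nat_lit 1) (nat_lit 6) (nat_lit 10) L36545 (by decide +kernel)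
theorem L36547 : W_11 (nat_lit 7) (nat_lit 0xe000200050003c0000001300080000000000000000000000000000000) (nat_lit 0x0) (nat_lit 0x18001c000e00020001800080008000000000000000000000000000000) := T_11 (nat_lit 190) (nat_lit 191) (nat_lit 1) (nat_lit 7) (nat_lit 10) L36546 (by decide +kernel)
theorem L36548 : W_11 (nat_lit 8) (nat_lit 0xe00020005000380000001300080000000000000000000000000000000) (nat_lit 0x0) (nat_lit 0x18001c008e00060001800080008000000000000000000000000000000) := T_11 (nat_lit 174) (nat_lit 195) (nat_lit 3) (nat_lit 4) (nat_lit 10) L36547 (by decide +kernel)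
theorem L36549 : W_11 (nat_lit 9) (nat_lit 0xe00020005000280000001300080000000000000000000000000000000) (nat_lit 0x0) (nat_lit 0x18001c008e00160009800080008000000000000000000000000000000) := T_11 (nat_lit 176) (nat_lit 159) (nat_lit 6) (nat_lit 5) (nat_lit 13) L36548 (by decide +kernel)
theorem L36550 : W_11 (nat_lit 10) (nat_lit 0xc00020005000280000001300080000000000000000000000000000000) (nat_lit 0x0) (nat_lit 0x400038001c008e00160009800080008000000000000000000000000000000) := T_11 (nat_lit 225) (nat_lit 242) (nat_lit 5) (nat_lit 5) (nat_lit 10) L36549 (by decide +kernel)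
theorem L36551 : W_11 (nat_lit 11) (nat_lit 0x400020005000280000001300080000000000000000000000000000000) (nat_lit 0x0) (nat_lit 0x14000b8001c008e00160009800080008000000000000000000000000000000) := T_11 (nat_lit 227) (nat_lit 244) (nat_lit 7) (nat_lit 5) (nat_lit 10) L36550 (by decide +kernel)
theorem L36552 : W_11 (nat_lit 12) (nat_lit 0x20005000280000001300080000000000000000000000000000000) (nat_lit 0x0) (nat_lit 0xb8007c003f801dc008e00160009800080008000000000000000000000000000000) := Q_11 (nat_lit 226) (C_11 L36520 (C_11 L36530 (C_11 L36534 (C_11 L36538 (C_11 L36541 (C_11 L36551 N_11)))))) (by decide +kernel)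
theorem L36553 : W_11 (nat_lit 2) (nat_lit 0x600020005000280004001300080000000000000000000000000000000) (nat_lit 0x0) (nat_lit 0x10000800040000000000000000000000000000000000000000000000000000) := D_11 (nat_lit 227) (nat_lit 210) (nat_lit 244) (nat_lit 7) (nat_lit 5) (nat_lit 9) (nat_lit 7) (nat_lit 5) (nat_lit 10) (by decide +kernel)
theorem L36554 : W_11 (nat_lit 3) (nat_lit 0x600020005000280000001300080000000000000000000000000000000) (nat_lit 0x0) (nat_lit 0x10000800050000000000004000000000000000000000000000000000000000) := T_11 (nat_lit 158) (nat_lit 208) (nat_lit 5) (nat_lit 5) (nat_lit 9) L36553 (by decide +kernel)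
theorem L36555 : W_11 (nat_lit 4) (nat_lit 0x400020005000280000001300080000000000000000000000000000000) (nat_lit 0x0) (nat_lit 0x14000a00050000000000004000000000000000000000000000000000000000) := T_11 (nat_lit 225) (nat_lit 242) (nat_lit 5) (nat_lit 5) (nat_lit 10) L36554 (by decide +kernel)
theorem L36556 : W_11 (nat_lit 12) (nat_lit 0x20005000280000001300080000000000000000000000000000000) (nat_lit 0x0) (nat_lit 0xb8007c003f801d0008c0014000c000000000000000000000000000000000000000) := Q_11 (nat_lit 226) (C_11 L36541 (C_11 L36530 (C_11 L36534 (C_11 L36555 N_11)))) (by decide +kernel)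
theorem L36557 : W_11 (nat_lit 2) (nat_lit 0xa00020005000280004001300080000000000000000000000000000000) (nat_lit 0x0) (nat_lit 0x14000400000000000000000000000000000000000000000000000000000000) := D_11 (nat_lit 226) (nat_lit 242) (nat_lit 244) (nat_lit 5) (nat_lit 5) (nat_lit 10) (nat_lit 7) (nat_lit 5) (nat_lit 10) (by decide +kernel)
theorem L36558 : W_11 (nat_lit 3) (nat_lit 0x200020005000280004001300080000000000000000000000000000000) (nat_lit 0x0) (nat_lit 0x14000c00040000000000000000000000000000000000000000000000000000) := T_11 (nat_lit 227) (nat_lit 210) (nat_lit 7) (nat_lit 5) (nat_lit 9) L36557 (by decide +kernel)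
theorem L36559 : W_11 (nat_lit 4) (nat_lit 0x20005000280004001300080000000000000000000000000000000) (nat_lit 0x0) (nat_lit 0x14000e00050000000000000000000000000000000000000000000000000000) := T_11 (nat_lit 225) (nat_lit 208) (nat_lit 5) (nat_lit 5) (nat_lit 9) L36558 (by decide +kernel)
theorem L36560 : W_11 (nat_lit 5) (nat_lit 0x20005000280000001300080000000000000000000000000000000) (nat_lit 0x0) (nat_lit 0x14000e00050000000000004000000008000000000000000000000000000000) := T_11 (nat_lit 158) (nat_lit 123) (nat_lit 4) (nat_lit 5) (nat_lit 11) L36559 (by decide +kernel)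
theorem L36561 : W_11 (nat_lit 2) (nat_lit 0xc000200050003c0004001300080000000000000000000000000000000) (nat_lit 0x0) (nat_lit 0x8000000000000c00000000000000000000000000000000000000000000000) := D_11 (nat_lit 191) (nat_lit 190) (nat_lit 243) (nat_lit 1) (nat_lit 7) (nat_lit 10) (nat_lit 4) (nat_lit 5) (nat_lit 14) (by decide +kernel)
theorem L36562 : W_11 (nat_lit 3) (nat_lit 0xc00020005000380004001300080000000000000000000000000000000) (nat_lit 0x0) (nat_lit 0x8000000000008c00040000000000000000000000000000000000000000000) := T_11 (nat_lit 174) (nat_lit 195) (nat_lit 3) (nat_lit 4) (nat_lit 10) L36561 (by decide +kernel)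
theorem L36563 : W_11 (nat_lit 4) (nat_lit 0xc00020005000280004001300080000000000000000000000000000000) (nat_lit 0x0) (nat_lit 0x8000000000008c00140008000000000000000000000000000000000000000) := T_11 (nat_lit 176) (nat_lit 159) (nat_lit 6) (nat_lit 5) (nat_lit 13) L36562 (by decide +kernel)
theorem L36564 : W_11 (nat_lit 5) (nat_lit 0x800020005000280004001300080000000000000000000000000000000) (nat_lit 0x0) (nat_lit 0x18000400000008c00140008000000000000000000000000000000000000000) := T_11 (nat_lit 226) (nat_lit 244) (nat_lit 7) (nat_lit 5) (nat_lit 10) L36563 (by decide +kernel)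
theorem L36565 : W_11 (nat_lit 6) (nat_lit 0x20005000280004001300080000000000000000000000000000000) (nat_lit 0x0) (nat_lit 0x18000c00040008c00140008000000000000000000000000000000000000000) := T_11 (nat_lit 227) (nat_lit 210) (nat_lit 7) (nat_lit 5) (nat_lit 9) L36564 (by decide +kernel)
theorem L36566 : W_11 (nat_lit 7) (nat_lit 0x20005000280000001300080000000000000000000000000000000) (nat_lit 0x0) (nat_lit 0x18000c00040008c0014000c000000008000000000000000000000000000000) := T_11 (nat_lit 158) (nat_lit 123) (nat_lit 4) (nat_lit 5) (nat_lit 11) L36565 (by decide +kernel)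
theorem L36567 : W_11 (nat_lit 13) (nat_lit 0x5000280000001300080000000000000000000000000000000) (nat_lit 0x0) (nat_lit 0xb8007c003f801fc008e0016000d800080008000000000000000000000000000000) := Q_11 (nat_lit 209) (C_11 L36515 (C_11 L36552 (C_11 L36556 (C_11 L36560 (C_11 L36566 N_11))))) (by decide +kernel)
theorem L36568 : W_11 (nat_lit 2) (nat_lit 0x84007c00290004001300080000000000000000000000000000000) (nat_lit 0x0) (nat_lit 0x2000200008000000000000000000000000000000000000000000) := D_11 (nat_lit 189) (nat_lit 205) (nat_lit 171) (nat_lit 1) (nat_lit 5) (nat_lit 11) (nat_lit 0) (nat_lit 5) (nat_lit 11) (by decide +kernel)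
theorem L36569 : W_11 (nat_lit 3) (nat_lit 0x84007c00280004001300080000000000000000000000000000000) (nat_lit 0x0) (nat_lit 0x2000200038000000000000000000000000000000000000000000) := T_11 (nat_lit 172) (nat_lit 173) (nat_lit 0) (nat_lit 6) (nat_lit 11) L36568 (by decide +kernel)
theorem L36570 : W_11 (nat_lit 4) (nat_lit 0x80007c00280004001300080000000000000000000000000000000) (nat_lit 0x0) (nat_lit 0xe000200038000000000000000000000000000000000000000000) := T_11 (nat_lit 206) (nat_lit 207) (nat_lit 1) (nat_lit 6) (nat_lit 11) L36569 (by decide +kernel)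
theorem L36571 : W_11 (nat_lit 5) (nat_lit 0x80007800280004001300080000000000000000000000000000000) (nat_lit 0x0) (nat_lit 0xe000600138000000000000000000000000000000000000000000) := T_11 (nat_lit 190) (nat_lit 176) (nat_lit 2) (nat_lit 3) (nat_lit 11) L36570 (by decide +kernel)
theorem L36572 : W_11 (nat_lit 6) (nat_lit 0x7800280004001300080000000000000000000000000000000) (nat_lit 0x0) (nat_lit 0x18e000600138000000000000000000000000000000000000000000) := T_11 (nat_lit 211) (nat_lit 212) (nat_lit 3) (nat_lit 4) (nat_lit 11) L36571 (by decide +kernel)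
theorem L36573 : W_11 (nat_lit 7) (nat_lit 0x5800280004001300080000000000000000000000000000000) (nat_lit 0x0) (nat_lit 0x1ce002600138000000000000000000000000000000000000000000) := T_11 (nat_lit 193) (nat_lit 210) (nat_lit 7) (nat_lit 5) (nat_lit 8) L36572 (by decide +kernel)
theorem L36574 : W_11 (nat_lit 8) (nat_lit 0x5000280004001300080000000000000000000000000000000) (nat_lit 0x0) (nat_lit 0x1de002e00138000000000000000000000000000000000000000000) := T_11 (nat_lit 191) (nat_lit 208) (nat_lit 5) (nat_lit 5) (nat_lit 8) L36573 (by decide +kernel)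
theorem L36575 : W_11 (nat_lit 9) (nat_lit 0x5000280000001300080000000000000000000000000000000) (nat_lit 0x0) (nat_lit 0x1de002e00138004000000008000000000000000000000000000000) := T_11 (nat_lit 158) (nat_lit 123) (nat_lit 4) (nat_lit 5) (nat_lit 11) L36574 (by decide +kernel)
theorem L36576 : W_11 (nat_lit 2) (nat_lit 0x84007c002c0004001300080000000000000000000000000000000) (nat_lit 0x0) (nat_lit 0x2000300000000000000000000000000000000000000000000000) := D_11 (nat_lit 189) (nat_lit 205) (nat_lit 188) (nat_lit 1) (nat_lit 5) (nat_lit 11) (nat_lit 2) (nat_lit 1) (nat_lit 11) (by decide +kernel)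
theorem L36577 : W_11 (nat_lit 3) (nat_lit 0x84007c00280004001300080000000000000000000000000000000) (nat_lit 0x0) (nat_lit 0x2008300040000000000000000000000000000000000000000000) := T_11 (nat_lit 174) (nat_lit 195) (nat_lit 0) (nat_lit 8) (nat_lit 11) L36576 (by decide +kernel)
theorem L36578 : W_11 (nat_lit 4) (nat_lit 0x80007c00280004001300080000000000000000000000000000000) (nat_lit 0x0) (nat_lit 0xe008300040000000000000000000000000000000000000000000) := T_11 (nat_lit 206) (nat_lit 207) (nat_lit 1) (nat_lit 6) (nat_lit 11) L36577 (by decide +kernel)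
theorem L36579 : W_11 (nat_lit 5) (nat_lit 0x80007800280004001300080000000000000000000000000000000) (nat_lit 0x0) (nat_lit 0xe008700140000000000000000000000000000000000000000000) := T_11 (nat_lit 190) (nat_lit 176) (nat_lit 2) (nat_lit 3) (nat_lit 11) L36578 (by decide +kernel)
theorem L36580 : W_11 (nat_lit 6) (nat_lit 0x7800280004001300080000000000000000000000000000000) (nat_lit 0x0) (nat_lit 0x18e008700140000000000000000000000000000000000000000000) := T_11 (nat_lit 211) (nat_lit 212) (nat_lit 3) (nat_lit 4) (nat_lit 11) L36579 (by decide +kernel)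
theorem L36581 : W_11 (nat_lit 7) (nat_lit 0x5800280004001300080000000000000000000000000000000) (nat_lit 0x0) (nat_lit 0x1ce00a700140000000000000000000000000000000000000000000) := T_11 (nat_lit 193) (nat_lit 210) (nat_lit 7) (nat_lit 5) (nat_lit 8) L36580 (by decide +kernel)
theorem L36582 : W_11 (nat_lit 8) (nat_lit 0x5000280004001300080000000000000000000000000000000) (nat_lit 0x0) (nat_lit 0x1de00af00140000000000000000000000000000000000000000000) := T_11 (nat_lit 191) (nat_lit 208) (nat_lit 5) (nat_lit 5) (nat_lit 8) L36581 (by decide +kernel)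
theorem L36583 : W_11 (nat_lit 9) (nat_lit 0x5000280000001300080000000000000000000000000000000) (nat_lit 0x0) (nat_lit 0x1de00af00140004000000008000000000000000000000000000000) := T_11 (nat_lit 158) (nat_lit 123) (nat_lit 4) (nat_lit 5) (nat_lit 11) L36582 (by decide +kernel)
theorem L36584 : W_11 (nat_lit 7) (nat_lit 0x7000280004001300080000000000000000000000000000000) (nat_lit 0x0) (nat_lit 0x19e000e00138000000000000000000000000000000000000000000) := T_11 (nat_lit 191) (nat_lit 208) (nat_lit 5) (nat_lit 5) (nat_lit 8) L36572 (by decide +kernel)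
theorem L36585 : W_11 (nat_lit 8) (nat_lit 0x7000280000001300080000000000000000000000000000000) (nat_lit 0x0) (nat_lit 0x19e000e00138004000000008000000000000000000000000000000) := T_11 (nat_lit 158) (nat_lit 123) (nat_lit 4) (nat_lit 5) (nat_lit 11) L36584 (by decide +kernel)
theorem L36586 : W_11 (nat_lit 2) (nat_lit 0xf000280004001300080000000000000000000000000000000) (nat_lit 0x0) (nat_lit 0x30000800000000000000000000000000000000000000000000000) := D_11 (nat_lit 208) (nat_lit 209) (nat_lit 191) (nat_lit 1) (nat_lit 8) (nat_lit 11) (nat_lit 5) (nat_lit 5) (nat_lit 8) (by decide +kernel)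
theorem L36587 : W_11 (nat_lit 3) (nat_lit 0xf000280000001300080000000000000000000000000000000) (nat_lit 0x0) (nat_lit 0x30000800000004000000008000000000000000000000000000000) := T_11 (nat_lit 158) (nat_lit 123) (nat_lit 4) (nat_lit 5) (nat_lit 11) L36586 (by decide +kernel)
theorem L36588 : W_11 (nat_lit 4) (nat_lit 0x7000280000001300080000000000000000000000000000000) (nat_lit 0x0) (nat_lit 0x30008800040004000000008000000000000000000000000000000) := T_11 (nat_lit 195) (nat_lit 174) (nat_lit 0) (nat_lit 8) (nat_lit 11) L36587 (by decide +kernel)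
theorem L36589 : W_11 (nat_lit 9) (nat_lit 0x5000280000001300080000000000000000000000000000000) (nat_lit 0x0) (nat_lit 0x7be01ae00178004000000008000000000000000000000000000000) := Q_11 (nat_lit 193) (C_11 L36585 (C_11 L36489 (C_11 L36588 N_11))) (by decide +kernel)
theorem L36590 : W_11 (nat_lit 2) (nat_lit 0x1f000280004001300080000000000000000000000000000000) (nat_lit 0x0) (nat_lit 0x700000000000000000000000000000000000000000000000000000) := D_11 (nat_lit 213) (nat_lit 212) (nat_lit 214) (nat_lit 3) (nat_lit 5) (nat_lit 11) (nat_lit 3) (nat_lit 6) (nat_lit 11) (by decide +kernel)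
theorem L36591 : W_11 (nat_lit 3) (nat_lit 0xf000280004001300080000000000000000000000000000000) (nat_lit 0x0) (nat_lit 0x700010000100000000000000000000000000000000000000000000) := T_11 (nat_lit 196) (nat_lit 176) (nat_lit 0) (nat_lit 9) (nat_lit 11) L36590 (by decide +kernel)
theorem L36592 : W_11 (nat_lit 4) (nat_lit 0x7000280004001300080000000000000000000000000000000) (nat_lit 0x0) (nat_lit 0x700018000140000000000000000000000000000000000000000000) := T_11 (nat_lit 195) (nat_lit 174) (nat_lit 0) (nat_lit 8) (nat_lit 11) L36591 (by decide +kernel)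
theorem L36593 : W_11 (nat_lit 5) (nat_lit 0x5000280004001300080000000000000000000000000000000) (nat_lit 0x0) (nat_lit 0x74001a000140000000000000000000000000000000000000000000) := T_11 (nat_lit 193) (nat_lit 210) (nat_lit 7) (nat_lit 5) (nat_lit 8) L36592 (by decide +kernel)
theorem L36594 : W_11 (nat_lit 6) (nat_lit 0x5000280000001300080000000000000000000000000000000) (nat_lit 0x0) (nat_lit 0x74001a000140004000000008000000000000000000000000000000) := T_11 (nat_lit 158) (nat_lit 123) (nat_lit 4) (nat_lit 5) (nat_lit 11) L36593 (by decide +kernel)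
theorem L36595 : W_11 (nat_lit 14) (nat_lit 0x4000280000001300080000000000000000000000000000000) (nat_lit 0x0) (nat_lit 0xb8007e003f807fe03bf0397800d800080008000000000000000000000000000000) := Q_11 (nat_lit 192) (C_11 L36451 (C_11 L36513 (C_11 L36567 (C_11 L36575 (C_11 L36583 (C_11 L36589 (C_11 L36594 N_11))))))) (by decide +kernel)
theorem L36596 : W_11 (nat_lit 15) (nat_lit 0x280000001300080000000000000000000000000000000) (nat_lit 0x0) (nat_lit 0xb8007e003f807fe03ff0397807d8008c0008000000000000000000000000000000) := Q_11 (nat_lit 194) (C_11 L36418 (C_11 L36424 (C_11 L36425 (C_11 L36457 (C_11 L36595 N_11))))) (by decide +kernel)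
theorem L36597 : W_11 (nat_lit 2) (nat_lit 0x290007801340080000000000000000000000000000000) (nat_lit 0x0) (nat_lit 0x20008000080000000000000000000000000000000000) := D_11 (nat_lit 159) (nat_lit 173) (nat_lit 139) (nat_lit 1) (nat_lit 6) (nat_lit 9) (nat_lit 3) (nat_lit 2) (nat_lit 8) (by decide +kernel)
theorem L36598 : W_11 (nat_lit 3) (nat_lit 0x290007801300080000000000000000000000000000000) (nat_lit 0x0) (nat_lit 0x200080000e0000000000000000000000000000000000) := T_11 (nat_lit 138) (nat_lit 137) (nat_lit 0) (nat_lit 5) (nat_lit 9) L36597 (by decide +kernel)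
theorem L36599 : W_11 (nat_lit 4) (nat_lit 0x280007801300080000000000000000000000000000000) (nat_lit 0x0) (nat_lit 0x380080000e0000000000000000000000000000000000) := T_11 (nat_lit 172) (nat_lit 171) (nat_lit 1) (nat_lit 5) (nat_lit 9) L36598 (by decide +kernel)
theorem L36600 : W_11 (nat_lit 5) (nat_lit 0x280007001300080000000000000000000000000000000) (nat_lit 0x0) (nat_lit 0x38008c000e0000000000000000000000000000000000) := T_11 (nat_lit 155) (nat_lit 154) (nat_lit 2) (nat_lit 1) (nat_lit 9) L36599 (by decide +kernel)
theorem L36601 : W_11 (nat_lit 6) (nat_lit 0x280006001300080000000000000000000000000000000) (nat_lit 0x0) (nat_lit 0x178009c000e0000000000000000000000000000000000) := Q_11 (nat_lit 156) (C_11 L36035 (C_11 L36600 (C_11 L36028 N_11))) (by decide +kernel)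
theorem L36602 : W_11 (nat_lit 2) (nat_lit 0x280006001380080000000000000000000000000000000) (nat_lit 0x0) (nat_lit 0x8000060000000000000000000000000000000000) := D_11 (nat_lit 138) (nat_lit 137) (nat_lit 159) (nat_lit 3) (nat_lit 1) (nat_lit 8) (nat_lit 3) (nat_lit 2) (nat_lit 8) (by decide +kernel)
theorem L36603 : W_11 (nat_lit 7) (nat_lit 0x280006001380080000000000000000000000000000000) (nat_lit 0x0) (nat_lit 0x4000600038001c0006000f000700008000000000000000000000) := Q_11 (nat_lit 156) (C_11 L36282 (C_11 L36268 (C_11 L36277 (C_11 L36273 N_11)))) (by decide +kernel)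
theorem L36604 : W_11 (nat_lit 2) (nat_lit 0x2c0006001380080000000000000000000000000000000) (nat_lit 0x0) (nat_lit 0x10000800000000000000004000000000000000000000000000000) := D_11 (nat_lit 191) (nat_lit 208) (nat_lit 122) (nat_lit 6) (nat_lit 4) (nat_lit 12) (nat_lit 4) (nat_lit 4) (nat_lit 11) (by decide +kernel)
theorem L36605 : W_11 (nat_lit 2) (nat_lit 0x100000002e0006001380088000000000000000000000000000000) (nat_lit 0x0) (nat_lit 0x18008000000000000000000000000000000000000000) := D_11 (nat_lit 172) (nat_lit 159) (nat_lit 171) (nat_lit 2) (nat_lit 2) (nat_lit 10) (nat_lit 2) (nat_lit 1) (nat_lit 10) (by decide +kernel)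
theorem L36606 : W_11 (nat_lit 3) (nat_lit 0x100000002c0006001380088000000000000000000000000000000) (nat_lit 0x0) (nat_lit 0x400038008000000000000000000000000000000000000000) := T_11 (nat_lit 173) (nat_lit 190) (nat_lit 5) (nat_lit 4) (nat_lit 7) L36605 (by decide +kernel)
theorem L36607 : W_11 (nat_lit 4) (nat_lit 0x100000002c0006001380080000000000000000000000000000000) (nat_lit 0x0) (nat_lit 0x400038008000000008000400000000000000000000000000) := T_11 (nat_lit 123) (nat_lit 106) (nat_lit 7) (nat_lit 4) (nat_lit 6) L36606 (by decide +kernel)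
theorem L36608 : W_11 (nat_lit 5) (nat_lit 0x2c0006001380080000000000000000000000000000000) (nat_lit 0x0) (nat_lit 0x10000c00038008000000008000400000000000000000000000000) := T_11 (nat_lit 208) (nat_lit 191) (nat_lit 6) (nat_lit 4) (nat_lit 12) L36607 (by decide +kernel)
theorem L36609 : W_11 (nat_lit 2) (nat_lit 0x2e0006001380088000000000000000000000000000000) (nat_lit 0x0) (nat_lit 0x18008000000000000000000000000000000000000000) := D_11 (nat_lit 172) (nat_lit 159) (nat_lit 171) (nat_lit 2) (nat_lit 2) (nat_lit 10) (nat_lit 2) (nat_lit 1) (nat_lit 10) (by decide +kernel)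
theorem L36610 : W_11 (nat_lit 3) (nat_lit 0x2c0006001380088000000000000000000000000000000) (nat_lit 0x0) (nat_lit 0x400038008000000000000000000000000000000000000000) := T_11 (nat_lit 173) (nat_lit 190) (nat_lit 5) (nat_lit 4) (nat_lit 7) L36609 (by decide +kernel)
theorem L36611 : W_11 (nat_lit 4) (nat_lit 0x2c0006001380080000000000000000000000000000000) (nat_lit 0x0) (nat_lit 0x400038008000000008000400000000000000000000000000) := T_11 (nat_lit 123) (nat_lit 106) (nat_lit 7) (nat_lit 4) (nat_lit 6) L36610 (by decide +kernel)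
theorem L36612 : W_11 (nat_lit 6) (nat_lit 0x280006001380080000000000000000000000000000000) (nat_lit 0x0) (nat_lit 0x10000c0007800800000000c000400000000000000000000000000) := Q_11 (nat_lit 174) (C_11 L36604 (C_11 L36608 (C_11 L36611 N_11))) (by decide +kernel)
theorem L36613 : W_11 (nat_lit 8) (nat_lit 0x280006001300080000000000000000000000000000000) (nat_lit 0x0) (nat_lit 0x14000e00078009c000e000f000700008000000000000000000000) := Q_11 (nat_lit 139) (C_11 L36602 (C_11 L36603 (C_11 L36612 N_11))) (by decide +kernel)
theorem L36614 : W_11 (nat_lit 2) (nat_lit 0x2b0007801340080000400000000000000000000000000) (nat_lit 0x0) (nat_lit 0x400000000000000002000100000000000000000000000000) := D_11 (nat_lit 121) (nat_lit 190) (nat_lit 104) (nat_lit 7) (nat_lit 2) (nat_lit 7) (nat_lit 7) (nat_lit 2) (nat_lit 6) (by decide +kernel)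
theorem L36615 : W_11 (nat_lit 3) (nat_lit 0x290007801340080000400000000000000000000000000) (nat_lit 0x0) (nat_lit 0x400020008000000002000100000000000000000000000000) := T_11 (nat_lit 173) (nat_lit 159) (nat_lit 1) (nat_lit 6) (nat_lit 9) L36614 (by decide +kernel)
theorem L36616 : W_11 (nat_lit 4) (nat_lit 0x290007801300080000400000000000000000000000000) (nat_lit 0x0) (nat_lit 0x400020008000060002000100000000000000000000000000) := T_11 (nat_lit 138) (nat_lit 137) (nat_lit 0) (nat_lit 5) (nat_lit 9) L36615 (by decide +kernel)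
theorem L36617 : W_11 (nat_lit 5) (nat_lit 0x280007801300080000400000000000000000000000000) (nat_lit 0x0) (nat_lit 0x400038008000060002000100000000000000000000000000) := T_11 (nat_lit 172) (nat_lit 171) (nat_lit 1) (nat_lit 5) (nat_lit 9) L36616 (by decide +kernel)
theorem L36618 : W_11 (nat_lit 6) (nat_lit 0x280007001300080000400000000000000000000000000) (nat_lit 0x0) (nat_lit 0x400038008c00060002000100000000000000000000000000) := T_11 (nat_lit 155) (nat_lit 154) (nat_lit 2) (nat_lit 1) (nat_lit 9) L36617 (by decide +kernel)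
theorem L36619 : W_11 (nat_lit 7) (nat_lit 0x280007001300080000000000000000000000000000000) (nat_lit 0x0) (nat_lit 0x400038008c0006000a000500000000000000000000000000) := T_11 (nat_lit 106) (nat_lit 123) (nat_lit 7) (nat_lit 4) (nat_lit 6) L36618 (by decide +kernel)
theorem L36620 : W_11 (nat_lit 8) (nat_lit 0x280006001300080000000000000000000000000000000) (nat_lit 0x0) (nat_lit 0x400178009c0006000a000500000000000000000000000000) := Q_11 (nat_lit 156) (C_11 L36035 (C_11 L36619 (C_11 L36028 N_11))) (by decide +kernel)
theorem L36621 : W_11 (nat_lit 2) (nat_lit 0x28000f001380088000000000000000000000000000000) (nat_lit 0x0) (nat_lit 0x400030000000000000000000000000000000000000000000) := D_11 (nat_lit 173) (nat_lit 172) (nat_lit 190) (nat_lit 1) (nat_lit 6) (nat_lit 9) (nat_lit 6) (nat_lit 3) (nat_lit 11) (by decide +kernel)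
theorem L36622 : W_11 (nat_lit 3) (nat_lit 0x28000f001300088000000000000000000000000000000) (nat_lit 0x0) (nat_lit 0x4000300000000c0000000000000000000000000000000000) := T_11 (nat_lit 139) (nat_lit 138) (nat_lit 3) (nat_lit 2) (nat_lit 8) L36621 (by decide +kernel)
theorem L36623 : W_11 (nat_lit 4) (nat_lit 0x280007001300088000000000000000000000000000000) (nat_lit 0x0) (nat_lit 0x4001300080000c0000000000000000000000000000000000) := T_11 (nat_lit 159) (nat_lit 176) (nat_lit 3) (nat_lit 3) (nat_lit 9) L36622 (by decide +kernel)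
theorem L36624 : W_11 (nat_lit 5) (nat_lit 0x280007001300080000000000000000000000000000000) (nat_lit 0x0) (nat_lit 0x4001300080000c0008000400000000000000000000000000) := T_11 (nat_lit 123) (nat_lit 106) (nat_lit 7) (nat_lit 4) (nat_lit 6) L36623 (by decide +kernel)
theorem L36625 : W_11 (nat_lit 8) (nat_lit 0x280006001300080000000000000000000000000000000) (nat_lit 0x0) (nat_lit 0x4000600138009c000e000f000700008000000000000000000000) := Q_11 (nat_lit 156) (C_11 L36619 (C_11 L36283 (C_11 L36624 (C_11 L36600 (C_11 L36035 N_11))))) (by decide +kernel)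
theorem L36626 : W_11 (nat_lit 2) (nat_lit 0x40003e0006001300080000400000000000000000000000000) (nat_lit 0x0) (nat_lit 0x18008000000000000000000000000000000000000000) := D_11 (nat_lit 172) (nat_lit 159) (nat_lit 171) (nat_lit 2) (nat_lit 2) (nat_lit 10) (nat_lit 2) (nat_lit 1) (nat_lit 10) (by decide +kernel)
theorem L36627 : W_11 (nat_lit 3) (nat_lit 0x40003c0006001300080000400000000000000000000000000) (nat_lit 0x0) (nat_lit 0x2000038008000000000000000000000000000000000000000) := T_11 (nat_lit 173) (nat_lit 193) (nat_lit 3) (nat_lit 3) (nat_lit 10) L36626 (by decide +kernel)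
theorem L36628 : W_11 (nat_lit 4) (nat_lit 0x3c0006001300080000400000000000000000000000000) (nat_lit 0x0) (nat_lit 0xe000038008000000000000000000000000000000000000000) := T_11 (nat_lit 194) (nat_lit 195) (nat_lit 3) (nat_lit 4) (nat_lit 10) L36627 (by decide +kernel)
theorem L36629 : W_11 (nat_lit 5) (nat_lit 0x2c0006001300080000400000000000000000000000000) (nat_lit 0x0) (nat_lit 0xe000138009000000000000000000000000000000000000000) := T_11 (nat_lit 176) (nat_lit 156) (nat_lit 0) (nat_lit 7) (nat_lit 10) L36628 (by decide +kernel)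
theorem L36630 : W_11 (nat_lit 6) (nat_lit 0x2c0006001300080000000000000000000000000000000) (nat_lit 0x0) (nat_lit 0xe000138009000000008000400000000000000000000000000) := T_11 (nat_lit 106) (nat_lit 123) (nat_lit 7) (nat_lit 4) (nat_lit 6) L36629 (by decide +kernel)
theorem L36631 : W_11 (nat_lit 7) (nat_lit 0x280006001300080000000000000000000000000000000) (nat_lit 0x0) (nat_lit 0x1800ec00178009000000008000400000000000000000000000000) := Q_11 (nat_lit 174) (C_11 L36168 (C_11 L36057 (C_11 L36630 N_11))) (by decide +kernel)
theorem L36632 : W_11 (nat_lit 2) (nat_lit 0x2900078013c0080000400000000000000000000000000) (nat_lit 0x0) (nat_lit 0x200000000000000004000200000000000000000000000000) := D_11 (nat_lit 122) (nat_lit 105) (nat_lit 189) (nat_lit 5) (nat_lit 3) (nat_lit 6) (nat_lit 6) (nat_lit 2) (nat_lit 11) (by decide +kernel)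
theorem L36633 : W_11 (nat_lit 3) (nat_lit 0x290007801340080000400000000000000000000000000) (nat_lit 0x0) (nat_lit 0x200000008000080004000200000000000000000000000000) := T_11 (nat_lit 139) (nat_lit 159) (nat_lit 3) (nat_lit 2) (nat_lit 8) L36632 (by decide +kernel)
theorem L36634 : W_11 (nat_lit 4) (nat_lit 0x290007801300080000400000000000000000000000000) (nat_lit 0x0) (nat_lit 0x2000000080000e0004000200000000000000000000000000) := T_11 (nat_lit 138) (nat_lit 137) (nat_lit 0) (nat_lit 5) (nat_lit 9) L36633 (by decide +kernel)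
theorem L36635 : W_11 (nat_lit 5) (nat_lit 0x280007801300080000400000000000000000000000000) (nat_lit 0x0) (nat_lit 0x2000180080000e0004000200000000000000000000000000) := T_11 (nat_lit 172) (nat_lit 171) (nat_lit 1) (nat_lit 5) (nat_lit 9) L36634 (by decide +kernel)
theorem L36636 : W_11 (nat_lit 6) (nat_lit 0x280007001300080000400000000000000000000000000) (nat_lit 0x0) (nat_lit 0x200018008c000e0004000200000000000000000000000000) := T_11 (nat_lit 155) (nat_lit 154) (nat_lit 2) (nat_lit 1) (nat_lit 9) L36635 (by decide +kernel)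
theorem L36637 : W_11 (nat_lit 7) (nat_lit 0x280007001300080000000000000000000000000000000) (nat_lit 0x0) (nat_lit 0x200018008c000e000c000600000000000000000000000000) := T_11 (nat_lit 106) (nat_lit 123) (nat_lit 7) (nat_lit 4) (nat_lit 6) L36636 (by decide +kernel)
theorem L36638 : W_11 (nat_lit 8) (nat_lit 0x280006001300080000000000000000000000000000000) (nat_lit 0x0) (nat_lit 0x200158009c000e000c000600000000000000000000000000) := Q_11 (nat_lit 156) (C_11 L36035 (C_11 L36637 (C_11 L36028 N_11))) (by decide +kernel)
theorem L36639 : W_11 (nat_lit 2) (nat_lit 0x2e0006001300088000000000000000000000000000000) (nat_lit 0x0) (nat_lit 0x18008000000000000000000000000000000000000000) := D_11 (nat_lit 172) (nat_lit 159) (nat_lit 171) (nat_lit 2) (nat_lit 2) (nat_lit 10) (nat_lit 2) (nat_lit 1) (nat_lit 10) (by decide +kernel)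
theorem L36640 : W_11 (nat_lit 3) (nat_lit 0x2c0006001300088000000000000000000000000000000) (nat_lit 0x0) (nat_lit 0x400038008000000000000000000000000000000000000000) := T_11 (nat_lit 173) (nat_lit 190) (nat_lit 5) (nat_lit 4) (nat_lit 7) L36639 (by decide +kernel)
theorem L36641 : W_11 (nat_lit 4) (nat_lit 0x2c0006001300080000000000000000000000000000000) (nat_lit 0x0) (nat_lit 0x400038008000000008000400000000000000000000000000) := T_11 (nat_lit 123) (nat_lit 106) (nat_lit 7) (nat_lit 4) (nat_lit 6) L36640 (by decide +kernel)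
theorem L36642 : W_11 (nat_lit 2) (nat_lit 0x8002c0006001380080000400000000000000000000000000) (nat_lit 0x0) (nat_lit 0x8000060000000000000000000000000000000000) := D_11 (nat_lit 138) (nat_lit 159) (nat_lit 137) (nat_lit 3) (nat_lit 2) (nat_lit 8) (nat_lit 3) (nat_lit 1) (nat_lit 8) (by decide +kernel)
theorem L36643 : W_11 (nat_lit 3) (nat_lit 0x8002c0006001300080000400000000000000000000000000) (nat_lit 0x0) (nat_lit 0x80000e0004000000000000000000000000000000) := T_11 (nat_lit 139) (nat_lit 122) (nat_lit 4) (nat_lit 4) (nat_lit 11) L36642 (by decide +kernel)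
theorem L36644 : W_11 (nat_lit 4) (nat_lit 0x2c0006001300080000400000000000000000000000000) (nat_lit 0x0) (nat_lit 0x100008000000080000e0004000000000000000000000000000000) := T_11 (nat_lit 191) (nat_lit 208) (nat_lit 6) (nat_lit 4) (nat_lit 12) L36643 (by decide +kernel)
theorem L36645 : W_11 (nat_lit 5) (nat_lit 0x2c0006001300080000000000000000000000000000000) (nat_lit 0x0) (nat_lit 0x100008000000080000e000c000400000000000000000000000000) := T_11 (nat_lit 106) (nat_lit 123) (nat_lit 7) (nat_lit 4) (nat_lit 6) L36644 (by decide +kernel)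
theorem L36646 : W_11 (nat_lit 6) (nat_lit 0x280006001300080000000000000000000000000000000) (nat_lit 0x0) (nat_lit 0x18000c001780080000e000c000400000000000000000000000000) := Q_11 (nat_lit 174) (C_11 L36168 (C_11 L36057 (C_11 L36641 (C_11 L36645 N_11)))) (by decide +kernel)
theorem L36647 : W_11 (nat_lit 2) (nat_lit 0x2800078013c0082000400000000000000000000000000) (nat_lit 0x0) (nat_lit 0x400020000000000000000100000000000000000000000000) := D_11 (nat_lit 173) (nat_lit 190) (nat_lit 104) (nat_lit 4) (nat_lit 3) (nat_lit 11) (nat_lit 7) (nat_lit 2) (nat_lit 6) (by decide +kernel)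
theorem L36648 : W_11 (nat_lit 3) (nat_lit 0x2800078013c0080000400000000000000000000000000) (nat_lit 0x0) (nat_lit 0x400020000000000003000100000000000000000000000000) := T_11 (nat_lit 121) (nat_lit 120) (nat_lit 0) (nat_lit 5) (nat_lit 8) L36647 (by decide +kernel)
theorem L36649 : W_11 (nat_lit 4) (nat_lit 0x280007801340080000400000000000000000000000000) (nat_lit 0x0) (nat_lit 0x400020008000080003000100000000000000000000000000) := T_11 (nat_lit 139) (nat_lit 159) (nat_lit 3) (nat_lit 2) (nat_lit 8) L36648 (by decide +kernel)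
theorem L36650 : W_11 (nat_lit 5) (nat_lit 0x280007801300080000400000000000000000000000000) (nat_lit 0x0) (nat_lit 0x4000200080000e0003000100000000000000000000000000) := T_11 (nat_lit 138) (nat_lit 137) (nat_lit 0) (nat_lit 5) (nat_lit 9) L36649 (by decide +kernel)
theorem L36651 : W_11 (nat_lit 6) (nat_lit 0x280007001300080000400000000000000000000000000) (nat_lit 0x0) (nat_lit 0x400020008c000e0003000100000000000000000000000000) := T_11 (nat_lit 155) (nat_lit 154) (nat_lit 2) (nat_lit 1) (nat_lit 9) L36650 (by decide +kernel)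
theorem L36652 : W_11 (nat_lit 7) (nat_lit 0x280007001300080000000000000000000000000000000) (nat_lit 0x0) (nat_lit 0x400020008c000e000b000500000000000000000000000000) := T_11 (nat_lit 106) (nat_lit 123) (nat_lit 7) (nat_lit 4) (nat_lit 6) L36651 (by decide +kernel)
theorem L36653 : W_11 (nat_lit 8) (nat_lit 0x280006001300080000000000000000000000000000000) (nat_lit 0x0) (nat_lit 0x400130009c000e000b000500000000000000000000000000) := Q_11 (nat_lit 156) (C_11 L36624 (C_11 L36035 (C_11 L36652 N_11))) (by decide +kernel)
theorem L36654 : W_11 (nat_lit 10) (nat_lit 0x280006001300080000000000000000000000000000000) (nat_lit 0x0) (nat_lit 0x18000f00160009c000e000f000500000000000000000000000000) := Q_11 (nat_lit 156) (C_11 L36652 (C_11 L36035 (C_11 L36291 N_11))) (by decide +kernel)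
theorem L36655 : W_11 (nat_lit 11) (nat_lit 0x280004001300080000000000000000000000000000000) (nat_lit 0x0) (nat_lit 0x1c00ef0017800bc000e000f000700008000000000000000000000) := Q_11 (nat_lit 157) (C_11 L36601 (C_11 L36613 (C_11 L36292 (C_11 L36620 (C_11 L36625 (C_11 L36631 (C_11 L36638 (C_11 L36646 (C_11 L36653 (C_11 L36654 N_11)))))))))) (by decide +kernel)
theorem L36656 : W_11 (nat_lit 15) (nat_lit 0x280000001300080000000000000000000000000000000) (nat_lit 0x0) (nat_lit 0x15000e8007e00ff0017c00fc000e000f000700008000000000000000000000) := Q_11 (nat_lit 158) (C_11 L36655 (C_11 L36194 (C_11 L36258 (C_11 L36309 (C_11 L35756 N_11))))) (by decide +kernel)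
theorem L36657 : W_11 (nat_lit 2) (nat_lit 0x5000100008003c0012001380080000000000000000000000000000000) (nat_lit 0x0) (nat_lit 0xa000200000000000000000000000000000000000000000000000000000000) := D_11 (nat_lit 225) (nat_lit 241) (nat_lit 243) (nat_lit 5) (nat_lit 4) (nat_lit 10) (nat_lit 7) (nat_lit 4) (nat_lit 10) (by decide +kernel)
theorem L36658 : W_11 (nat_lit 3) (nat_lit 0x1000100008003c0012001380080000000000000000000000000000000) (nat_lit 0x0) (nat_lit 0xa000600020000000000000000000000000000000000000000000000000000) := T_11 (nat_lit 226) (nat_lit 209) (nat_lit 7) (nat_lit 4) (nat_lit 9) L36657 (by decide +kernel)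
theorem L36659 : W_11 (nat_lit 4) (nat_lit 0x100008003c0012001380080000000000000000000000000000000) (nat_lit 0x0) (nat_lit 0xa000700028000000000000000000000000000000000000000000000000000) := T_11 (nat_lit 224) (nat_lit 207) (nat_lit 5) (nat_lit 4) (nat_lit 9) L36658 (by decide +kernel)
theorem L36660 : W_11 (nat_lit 5) (nat_lit 0x8003c0012001380080000000000000000000000000000000) (nat_lit 0x0) (nat_lit 0xa000700038000000000004000000000000000000000000000000000000000) := T_11 (nat_lit 208) (nat_lit 158) (nat_lit 6) (nat_lit 4) (nat_lit 12) L36659 (by decide +kernel)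
theorem L36661 : W_11 (nat_lit 6) (nat_lit 0x8003c0012001300080000000000000000000000000000000) (nat_lit 0x0) (nat_lit 0xa000700038000000000004000080004000000000000000000000000000000) := T_11 (nat_lit 139) (nat_lit 122) (nat_lit 4) (nat_lit 4) (nat_lit 11) L36660 (by decide +kernel)
theorem L36662 : W_11 (nat_lit 7) (nat_lit 0x3c0012001300080000000000000000000000000000000) (nat_lit 0x0) (nat_lit 0xa000700038000c00000004000080004000000000000000000000000000000) := T_11 (nat_lit 191) (nat_lit 190) (nat_lit 1) (nat_lit 7) (nat_lit 10) L36661 (by decide +kernel)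
theorem L36663 : W_11 (nat_lit 8) (nat_lit 0x3c0002001300080000000000000000000000000000000) (nat_lit 0x0) (nat_lit 0xa000700038000c00000034000080004000000000000000000000000000000) := T_11 (nat_lit 160) (nat_lit 161) (nat_lit 2) (nat_lit 4) (nat_lit 10) L36662 (by decide +kernel)
theorem L36664 : W_11 (nat_lit 9) (nat_lit 0x3c0000001300080000000000000000000000000000000) (nat_lit 0x0) (nat_lit 0xa000700038000c00000037000080004000000000000000000000000000000) := T_11 (nat_lit 157) (nat_lit 156) (nat_lit 0) (nat_lit 7) (nat_lit 10) L36663 (by decide +kernel)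
theorem L36665 : W_11 (nat_lit 2) (nat_lit 0x5000100008003c0002001380080000000000000000000000000000000) (nat_lit 0x0) (nat_lit 0xa000200000000000000000000000000000000000000000000000000000000) := D_11 (nat_lit 225) (nat_lit 241) (nat_lit 243) (nat_lit 5) (nat_lit 4) (nat_lit 10) (nat_lit 7) (nat_lit 4) (nat_lit 10) (by decide +kernel)
theorem L36666 : W_11 (nat_lit 3) (nat_lit 0x1000100008003c0002001380080000000000000000000000000000000) (nat_lit 0x0) (nat_lit 0xa000600020000000000000000000000000000000000000000000000000000) := T_11 (nat_lit 226) (nat_lit 209) (nat_lit 7) (nat_lit 4) (nat_lit 9) L36665 (by decide +kernel)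
theorem L36667 : W_11 (nat_lit 4) (nat_lit 0x100008003c0002001380080000000000000000000000000000000) (nat_lit 0x0) (nat_lit 0xa000700028000000000000000000000000000000000000000000000000000) := T_11 (nat_lit 224) (nat_lit 207) (nat_lit 5) (nat_lit 4) (nat_lit 9) L36666 (by decide +kernel)
theorem L36668 : W_11 (nat_lit 5) (nat_lit 0x8003c0002001380080000000000000000000000000000000) (nat_lit 0x0) (nat_lit 0xa000700038000000000004000000000000000000000000000000000000000) := T_11 (nat_lit 208) (nat_lit 158) (nat_lit 6) (nat_lit 4) (nat_lit 12) L36667 (by decide +kernel)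
theorem L36669 : W_11 (nat_lit 6) (nat_lit 0x8003c0002001300080000000000000000000000000000000) (nat_lit 0x0) (nat_lit 0xa000700038000000000004000080004000000000000000000000000000000) := T_11 (nat_lit 139) (nat_lit 122) (nat_lit 4) (nat_lit 4) (nat_lit 11) L36668 (by decide +kernel)
theorem L36670 : W_11 (nat_lit 7) (nat_lit 0x8003c0000001300080000000000000000000000000000000) (nat_lit 0x0) (nat_lit 0xa000700038000000000007000080004000000000000000000000000000000) := T_11 (nat_lit 157) (nat_lit 156) (nat_lit 0) (nat_lit 7) (nat_lit 10) L36669 (by decide +kernel)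
theorem L36671 : W_11 (nat_lit 8) (nat_lit 0x3c0000001300080000000000000000000000000000000) (nat_lit 0x0) (nat_lit 0xa000700038000c00000007000080004000000000000000000000000000000) := T_11 (nat_lit 191) (nat_lit 190) (nat_lit 1) (nat_lit 7) (nat_lit 10) L36670 (by decide +kernel)
theorem L36672 : W_11 (nat_lit 2) (nat_lit 0x3c001a001300080000000000000000000000000000000) (nat_lit 0x0) (nat_lit 0x4000880000000000000000000000000000000000) := D_11 (nat_lit 158) (nat_lit 143) (nat_lit 139) (nat_lit 2) (nat_lit 4) (nat_lit 9) (nat_lit 0) (nat_lit 7) (nat_lit 9) (by decide +kernel)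
theorem L36673 : W_11 (nat_lit 3) (nat_lit 0x3c0012001300080000000000000000000000000000000) (nat_lit 0x0) (nat_lit 0x2000c000880000000000000000000000000000000000) := T_11 (nat_lit 159) (nat_lit 173) (nat_lit 2) (nat_lit 3) (nat_lit 10) L36672 (by decide +kernel)
theorem L36674 : W_11 (nat_lit 4) (nat_lit 0x3c0002001300080000000000000000000000000000000) (nat_lit 0x0) (nat_lit 0x2003c000880000000000000000000000000000000000) := T_11 (nat_lit 160) (nat_lit 161) (nat_lit 2) (nat_lit 4) (nat_lit 10) L36673 (by decide +kernel)
theorem L36675 : W_11 (nat_lit 5) (nat_lit 0x3c0000001300080000000000000000000000000000000) (nat_lit 0x0) (nat_lit 0x2003f000880000000000000000000000000000000000) := T_11 (nat_lit 157) (nat_lit 156) (nat_lit 0) (nat_lit 7) (nat_lit 10) L36674 (by decide +kernel)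
theorem L36676 : W_11 (nat_lit 10) (nat_lit 0x2c0000001300080000000000000000000000000000000) (nat_lit 0x0) (nat_lit 0xa000700038000e0012003f00088000c000000000000000000000000000000) := Q_11 (nat_lit 176) (C_11 L35963 (C_11 L36664 (C_11 L35958 (C_11 L36671 (C_11 L36675 N_11))))) (by decide +kernel)
theorem L36677 : W_11 (nat_lit 2) (nat_lit 0x100008002c0002001300080000000000000000000000000000000) (nat_lit 0x0) (nat_lit 0x100008000400000000000000000000000000000000000000000000000) := D_11 (nat_lit 207) (nat_lit 224) (nat_lit 190) (nat_lit 5) (nat_lit 4) (nat_lit 9) (nat_lit 5) (nat_lit 4) (nat_lit 8) (by decide +kernel)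
theorem L36678 : W_11 (nat_lit 3) (nat_lit 0x8002c0002001300080000000000000000000000000000000) (nat_lit 0x0) (nat_lit 0x100018000400000004000000000000000000000000000000000000000) := T_11 (nat_lit 208) (nat_lit 158) (nat_lit 6) (nat_lit 4) (nat_lit 12) L36677 (by decide +kernel)
theorem L36679 : W_11 (nat_lit 2) (nat_lit 0xe002e00030013c0080000000000000000000000000000000) (nat_lit 0x0) (nat_lit 0xc000020000000000000000000000000000000000) := D_11 (nat_lit 158) (nat_lit 159) (nat_lit 137) (nat_lit 3) (nat_lit 2) (nat_lit 8) (nat_lit 3) (nat_lit 1) (nat_lit 8) (by decide +kernel)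
theorem L36680 : W_11 (nat_lit 3) (nat_lit 0xe002e0003001380080000000000000000000000000000000) (nat_lit 0x0) (nat_lit 0xc000060002000000000000000000000000000000) := T_11 (nat_lit 138) (nat_lit 121) (nat_lit 4) (nat_lit 3) (nat_lit 11) L36679 (by decide +kernel)
theorem L36681 : W_11 (nat_lit 4) (nat_lit 0xe002e0002001380080000000000000000000000000000000) (nat_lit 0x0) (nat_lit 0x400000000000d000060002000000000000000000000000000000) := T_11 (nat_lit 156) (nat_lit 206) (nat_lit 5) (nat_lit 3) (nat_lit 8) L36680 (by decide +kernel)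
theorem L36682 : W_11 (nat_lit 5) (nat_lit 0xc002e0002001380080000000000000000000000000000000) (nat_lit 0x0) (nat_lit 0x400030000000d000060002000000000000000000000000000000) := T_11 (nat_lit 189) (nat_lit 188) (nat_lit 2) (nat_lit 1) (nat_lit 11) L36681 (by decide +kernel)
theorem L36683 : W_11 (nat_lit 6) (nat_lit 0xc002c0002001380080000000000000000000000000000000) (nat_lit 0x0) (nat_lit 0x400030002000d00006000a000000000000000000000000000000) := T_11 (nat_lit 173) (nat_lit 123) (nat_lit 5) (nat_lit 4) (nat_lit 7) L36682 (by decide +kernel)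
theorem L36684 : W_11 (nat_lit 7) (nat_lit 0x8002c0002001380080000000000000000000000000000000) (nat_lit 0x0) (nat_lit 0xc00070002000d00006000a000000000000000000000000000000) := T_11 (nat_lit 190) (nat_lit 207) (nat_lit 5) (nat_lit 4) (nat_lit 8) L36683 (by decide +kernel)
theorem L36685 : W_11 (nat_lit 8) (nat_lit 0x8002c0002001300080000000000000000000000000000000) (nat_lit 0x0) (nat_lit 0xc00070002000d0000e000e000000000000000000000000000000) := T_11 (nat_lit 139) (nat_lit 122) (nat_lit 4) (nat_lit 4) (nat_lit 11) L36684 (by decide +kernel)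
theorem L36686 : W_11 (nat_lit 2) (nat_lit 0x100008002c0002001300080000000000000000000000000000000) (nat_lit 0x0) (nat_lit 0x1000080004000000000000000000000000000000) := D_11 (nat_lit 139) (nat_lit 122) (nat_lit 156) (nat_lit 4) (nat_lit 4) (nat_lit 11) (nat_lit 4) (nat_lit 4) (nat_lit 12) (by decide +kernel)
theorem L36687 : W_11 (nat_lit 3) (nat_lit 0x8002c0002001300080000000000000000000000000000000) (nat_lit 0x0) (nat_lit 0x10000000000005000080004000000000000000000000000000000) := T_11 (nat_lit 208) (nat_lit 158) (nat_lit 6) (nat_lit 4) (nat_lit 12) L36686 (by decide +kernel)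
theorem L36688 : W_11 (nat_lit 10) (nat_lit 0x2c0002001300080000000000000000000000000000000) (nat_lit 0x0) (nat_lit 0x10001c000f0002000de000f000e000000000000000000000000000000) := Q_11 (nat_lit 191) (C_11 L36678 (C_11 L35903 (C_11 L36685 (C_11 L36687 N_11)))) (by decide +kernel)
theorem L36689 : W_11 (nat_lit 2) (nat_lit 0x80008002c000200130008d000000000000000000000000000000) (nat_lit 0x0) (nat_lit 0x100010000000000004000000000000000000000000000000000000000) := D_11 (nat_lit 208) (nat_lit 158) (nat_lit 224) (nat_lit 6) (nat_lit 4) (nat_lit 12) (nat_lit 5) (nat_lit 4) (nat_lit 9) (by decide +kernel)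
theorem L36690 : W_11 (nat_lit 3) (nat_lit 0x8002c000200130008d000000000000000000000000000000) (nat_lit 0x0) (nat_lit 0x100018000400000004000000000000000000000000000000000000000) := T_11 (nat_lit 207) (nat_lit 190) (nat_lit 5) (nat_lit 4) (nat_lit 8) L36689 (by decide +kernel)
theorem L36691 : W_11 (nat_lit 4) (nat_lit 0x8002c000200130008c000000000000000000000000000000) (nat_lit 0x0) (nat_lit 0x100018000400000004000000003000000000000000000000000000000) := T_11 (nat_lit 120) (nat_lit 121) (nat_lit 3) (nat_lit 1) (nat_lit 7) L36690 (by decide +kernel)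
theorem L36692 : W_11 (nat_lit 5) (nat_lit 0x8002c0002001300088000000000000000000000000000000) (nat_lit 0x0) (nat_lit 0x100018000400000004000000007000200000000000000000000000000) := T_11 (nat_lit 122) (nat_lit 105) (nat_lit 4) (nat_lit 4) (nat_lit 10) L36691 (by decide +kernel)
theorem L36693 : W_11 (nat_lit 2) (nat_lit 0x5000100008002c0002001300088000000000000000000000000000000) (nat_lit 0x0) (nat_lit 0xa000200000000000000000000000000000000000000000000000000000000) := D_11 (nat_lit 225) (nat_lit 241) (nat_lit 243) (nat_lit 5) (nat_lit 4) (nat_lit 10) (nat_lit 7) (nat_lit 4) (nat_lit 10) (by decide +kernel)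
theorem L36694 : W_11 (nat_lit 3) (nat_lit 0x1000100008002c0002001300088000000000000000000000000000000) (nat_lit 0x0) (nat_lit 0xa000600020000000000000000000000000000000000000000000000000000) := T_11 (nat_lit 226) (nat_lit 209) (nat_lit 7) (nat_lit 4) (nat_lit 9) L36693 (by decide +kernel)
theorem L36695 : W_11 (nat_lit 4) (nat_lit 0x100008002c0002001300088000000000000000000000000000000) (nat_lit 0x0) (nat_lit 0xa000700028000000000000000000000000000000000000000000000000000) := T_11 (nat_lit 224) (nat_lit 207) (nat_lit 5) (nat_lit 4) (nat_lit 9) L36694 (by decide +kernel)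
theorem L36696 : W_11 (nat_lit 5) (nat_lit 0x8002c0002001300088000000000000000000000000000000) (nat_lit 0x0) (nat_lit 0xa000700038000000000004000000000000000000000000000000000000000) := T_11 (nat_lit 208) (nat_lit 158) (nat_lit 6) (nat_lit 4) (nat_lit 12) L36695 (by decide +kernel)
theorem L36697 : W_11 (nat_lit 2) (nat_lit 0x2000100008002e0002001300088000000000000000000000000000000) (nat_lit 0x0) (nat_lit 0x8000400020000000000000000000000000000000000000000000000000000) := D_11 (nat_lit 226) (nat_lit 209) (nat_lit 243) (nat_lit 7) (nat_lit 4) (nat_lit 9) (nat_lit 7) (nat_lit 4) (nat_lit 10) (by decide +kernel)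
theorem L36698 : W_11 (nat_lit 3) (nat_lit 0x100008002e0002001300088000000000000000000000000000000) (nat_lit 0x0) (nat_lit 0x8000600020000000000001000000000000000000000000000000000000000) := T_11 (nat_lit 225) (nat_lit 156) (nat_lit 4) (nat_lit 4) (nat_lit 13) L36697 (by decide +kernel)
theorem L36699 : W_11 (nat_lit 4) (nat_lit 0x100008002c0002001300088000000000000000000000000000000) (nat_lit 0x0) (nat_lit 0x8000600020000400020001000000000000000000000000000000000000000) := T_11 (nat_lit 173) (nat_lit 190) (nat_lit 5) (nat_lit 4) (nat_lit 7) L36698 (by decide +kernel)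
theorem L36700 : W_11 (nat_lit 5) (nat_lit 0x8002c0002001300088000000000000000000000000000000) (nat_lit 0x0) (nat_lit 0x8000600030000400020005000000000000000000000000000000000000000) := T_11 (nat_lit 208) (nat_lit 158) (nat_lit 6) (nat_lit 4) (nat_lit 12) L36699 (by decide +kernel)
theorem L36701 : W_11 (nat_lit 6) (nat_lit 0x2c0002001300088000000000000000000000000000000) (nat_lit 0x0) (nat_lit 0xa000700038000c00020005000000007000200000000000000000000000000) := Q_11 (nat_lit 191) (C_11 L35861 (C_11 L36692 (C_11 L36696 (C_11 L36700 N_11)))) (by decide +kernel)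
theorem L36702 : W_11 (nat_lit 2) (nat_lit 0x2e0002001300088000000000000000000000000000000) (nat_lit 0x0) (nat_lit 0x5000000000000400000000000000000000000000) := D_11 (nat_lit 106) (nat_lit 156) (nat_lit 158) (nat_lit 5) (nat_lit 4) (nat_lit 6) (nat_lit 7) (nat_lit 4) (nat_lit 6) (by decide +kernel)
theorem L36703 : W_11 (nat_lit 3) (nat_lit 0x2c0002001300088000000000000000000000000000000) (nat_lit 0x0) (nat_lit 0x400020005000000000000400000000000000000000000000) := T_11 (nat_lit 173) (nat_lit 190) (nat_lit 5) (nat_lit 4) (nat_lit 7) L36702 (by decide +kernel)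
theorem L36704 : W_11 (nat_lit 7) (nat_lit 0x2c0002001300080000000000000000000000000000000) (nat_lit 0x0) (nat_lit 0xa000700038000c0002000500000000f000e00070002800000000000000000) := Q_11 (nat_lit 123) (C_11 L35860 (C_11 L35261 (C_11 L36701 (C_11 L36703 N_11)))) (by decide +kernel)
theorem L36705 : W_11 (nat_lit 2) (nat_lit 0x100002002f000680130008c000000000000000000000000000000) (nat_lit 0x0) (nat_lit 0x10000c0000000000000000000000000000000000) := D_11 (nat_lit 139) (nat_lit 156) (nat_lit 138) (nat_lit 5) (nat_lit 3) (nat_lit 7) (nat_lit 6) (nat_lit 2) (nat_lit 11) (by decide +kernel)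
theorem L36706 : W_11 (nat_lit 3) (nat_lit 0x100000002f000680130008c000000000000000000000000000000) (nat_lit 0x0) (nat_lit 0x3000000010000c0000000000000000000000000000000000) := T_11 (nat_lit 189) (nat_lit 188) (nat_lit 1) (nat_lit 5) (nat_lit 10) L36705 (by decide +kernel)
theorem L36707 : W_11 (nat_lit 4) (nat_lit 0x100000002f000600130008c000000000000000000000000000000) (nat_lit 0x0) (nat_lit 0x300000001c000c0000000000000000000000000000000000) := T_11 (nat_lit 155) (nat_lit 154) (nat_lit 0) (nat_lit 5) (nat_lit 10) L36706 (by decide +kernel)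
theorem L36708 : W_11 (nat_lit 5) (nat_lit 0x100000002f0006001300088000000000000000000000000000000) (nat_lit 0x0) (nat_lit 0x300000001c000c0004000200000000000000000000000000) := T_11 (nat_lit 122) (nat_lit 105) (nat_lit 4) (nat_lit 4) (nat_lit 10) L36707 (by decide +kernel)
theorem L36709 : W_11 (nat_lit 6) (nat_lit 0x100000002e0006001300088000000000000000000000000000000) (nat_lit 0x0) (nat_lit 0x300018001c000c0004000200000000000000000000000000) := T_11 (nat_lit 172) (nat_lit 171) (nat_lit 2) (nat_lit 1) (nat_lit 10) L36708 (by decide +kernel)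
theorem L36710 : W_11 (nat_lit 7) (nat_lit 0x100000002c0006001300088000000000000000000000000000000) (nat_lit 0x0) (nat_lit 0x700038001c000c0004000200000000000000000000000000) := T_11 (nat_lit 173) (nat_lit 190) (nat_lit 5) (nat_lit 4) (nat_lit 7) L36709 (by decide +kernel)
theorem L36711 : W_11 (nat_lit 8) (nat_lit 0x100000002c0006001300080000000000000000000000000000000) (nat_lit 0x0) (nat_lit 0x700038001c000c000c000600000000000000000000000000) := T_11 (nat_lit 123) (nat_lit 106) (nat_lit 7) (nat_lit 4) (nat_lit 6) L36710 (by decide +kernel)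
theorem L36712 : W_11 (nat_lit 9) (nat_lit 0x2c0006001300080000000000000000000000000000000) (nat_lit 0x0) (nat_lit 0x10000f00038001c000c000c000600000000000000000000000000) := T_11 (nat_lit 208) (nat_lit 191) (nat_lit 6) (nat_lit 4) (nat_lit 12) L36711 (by decide +kernel)
theorem L36713 : W_11 (nat_lit 2) (nat_lit 0xd002c0006001380080000000000000000000000000000000) (nat_lit 0x0) (nat_lit 0x8000060000000000000000000000000000000000) := D_11 (nat_lit 138) (nat_lit 159) (nat_lit 137) (nat_lit 3) (nat_lit 2) (nat_lit 8) (nat_lit 3) (nat_lit 1) (nat_lit 8) (by decide +kernel)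
theorem L36714 : W_11 (nat_lit 3) (nat_lit 0xd002c0006001300080000000000000000000000000000000) (nat_lit 0x0) (nat_lit 0x80000e0004000000000000000000000000000000) := T_11 (nat_lit 139) (nat_lit 122) (nat_lit 4) (nat_lit 4) (nat_lit 11) L36713 (by decide +kernel)
theorem L36715 : W_11 (nat_lit 4) (nat_lit 0xc002c0006001300080000000000000000000000000000000) (nat_lit 0x0) (nat_lit 0x3000000080000e0004000000000000000000000000000000) := T_11 (nat_lit 188) (nat_lit 189) (nat_lit 2) (nat_lit 1) (nat_lit 11) L36714 (by decide +kernel)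
theorem L36716 : W_11 (nat_lit 5) (nat_lit 0x8002c0006001300080000000000000000000000000000000) (nat_lit 0x0) (nat_lit 0x80007000000080000e0004000000000000000000000000000000) := T_11 (nat_lit 190) (nat_lit 207) (nat_lit 5) (nat_lit 4) (nat_lit 8) L36715 (by decide +kernel)
theorem L36717 : W_11 (nat_lit 6) (nat_lit 0x2c0006001300080000000000000000000000000000000) (nat_lit 0x0) (nat_lit 0x18000f000000080000e0004000000000000000000000000000000) := T_11 (nat_lit 191) (nat_lit 208) (nat_lit 6) (nat_lit 4) (nat_lit 12) L36716 (by decide +kernel)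
theorem L36718 : W_11 (nat_lit 10) (nat_lit 0x2c0002001300080000000000000000000000000000000) (nat_lit 0x0) (nat_lit 0x18000f0003800dc000e000c000600000000000000000000000000) := Q_11 (nat_lit 158) (C_11 L36641 (C_11 L36645 (C_11 L36712 (C_11 L36717 N_11)))) (by decide +kernel)
theorem L36719 : W_11 (nat_lit 2) (nat_lit 0x2800080004d002c001a001380080000000000000000000000000000000) (nat_lit 0x0) (nat_lit 0x50001000000000000000000000000000000000000000000000000000000000) := D_11 (nat_lit 228) (nat_lit 244) (nat_lit 246) (nat_lit 5) (nat_lit 7) (nat_lit 10) (nat_lit 7) (nat_lit 7) (nat_lit 10) (by decide +kernel)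
theorem L36720 : W_11 (nat_lit 3) (nat_lit 0x800080004d002c001a001380080000000000000000000000000000000) (nat_lit 0x0) (nat_lit 0x50003000100000000000000000000000000000000000000000000000000000) := T_11 (nat_lit 229) (nat_lit 212) (nat_lit 7) (nat_lit 7) (nat_lit 9) L36719 (by decide +kernel)
theorem L36721 : W_11 (nat_lit 4) (nat_lit 0x80004d002c001a001380080000000000000000000000000000000) (nat_lit 0x0) (nat_lit 0x50003800140000000000000000000000000000000000000000000000000000) := T_11 (nat_lit 227) (nat_lit 210) (nat_lit 5) (nat_lit 7) (nat_lit 9) L36720 (by decide +kernel)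
theorem L36722 : W_11 (nat_lit 5) (nat_lit 0x4d002c001a001380080000000000000000000000000000000) (nat_lit 0x0) (nat_lit 0x500038001c0000000000020000000000000000000000000000000000000000) := T_11 (nat_lit 211) (nat_lit 161) (nat_lit 6) (nat_lit 7) (nat_lit 12) L36721 (by decide +kernel)
theorem L36723 : W_11 (nat_lit 6) (nat_lit 0x4c002c001a001380080000000000000000000000000000000) (nat_lit 0x0) (nat_lit 0x500038001c0000300000020000000000000000000000000000000000000000) := T_11 (nat_lit 188) (nat_lit 189) (nat_lit 2) (nat_lit 1) (nat_lit 11) L36722 (by decide +kernel)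
theorem L36724 : W_11 (nat_lit 7) (nat_lit 0x48002c001a001380080000000000000000000000000000000) (nat_lit 0x0) (nat_lit 0x500038001c8000700000020000000000000000000000000000000000000000) := T_11 (nat_lit 190) (nat_lit 207) (nat_lit 5) (nat_lit 4) (nat_lit 8) L36723 (by decide +kernel)
theorem L36725 : W_11 (nat_lit 8) (nat_lit 0x8002c001a001380080000000000000000000000000000000) (nat_lit 0x0) (nat_lit 0x500038001c8004700000020000800000000000000000000000000000000000) := T_11 (nat_lit 194) (nat_lit 143) (nat_lit 6) (nat_lit 7) (nat_lit 11) L36724 (by decide +kernel)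
theorem L36726 : W_11 (nat_lit 9) (nat_lit 0x8002c0012001380080000000000000000000000000000000) (nat_lit 0x0) (nat_lit 0x500038001c800470000002c000800000000000000000000000000000000000) := T_11 (nat_lit 159) (nat_lit 158) (nat_lit 0) (nat_lit 7) (nat_lit 9) L36725 (by decide +kernel)
theorem L36727 : W_11 (nat_lit 10) (nat_lit 0x8002c0012001300080000000000000000000000000000000) (nat_lit 0x0) (nat_lit 0x500038001c800470000002c000880004000000000000000000000000000000) := T_11 (nat_lit 139) (nat_lit 122) (nat_lit 4) (nat_lit 4) (nat_lit 11) L36726 (by decide +kernel)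
theorem L36728 : W_11 (nat_lit 2) (nat_lit 0x28000800048002c0012001380080000000000000000000000000000000) (nat_lit 0x0) (nat_lit 0x50001000000000000000000000000000000000000000000000000000000000) := D_11 (nat_lit 228) (nat_lit 244) (nat_lit 246) (nat_lit 5) (nat_lit 7) (nat_lit 10) (nat_lit 7) (nat_lit 7) (nat_lit 10) (by decide +kernel)
theorem L36729 : W_11 (nat_lit 3) (nat_lit 0x8000800048002c0012001380080000000000000000000000000000000) (nat_lit 0x0) (nat_lit 0x50003000100000000000000000000000000000000000000000000000000000) := T_11 (nat_lit 229) (nat_lit 212) (nat_lit 7) (nat_lit 7) (nat_lit 9) L36728 (by decide +kernel)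
theorem L36730 : W_11 (nat_lit 4) (nat_lit 0x800048002c0012001380080000000000000000000000000000000) (nat_lit 0x0) (nat_lit 0x50003800140000000000000000000000000000000000000000000000000000) := T_11 (nat_lit 227) (nat_lit 210) (nat_lit 5) (nat_lit 7) (nat_lit 9) L36729 (by decide +kernel)
theorem L36731 : W_11 (nat_lit 5) (nat_lit 0x48002c0012001380080000000000000000000000000000000) (nat_lit 0x0) (nat_lit 0x500038001c0000000000020000000000000000000000000000000000000000) := T_11 (nat_lit 211) (nat_lit 161) (nat_lit 6) (nat_lit 7) (nat_lit 12) L36730 (by decide +kernel)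
theorem L36732 : W_11 (nat_lit 6) (nat_lit 0x48002c0012001300080000000000000000000000000000000) (nat_lit 0x0) (nat_lit 0x500038001c0000000000020000080004000000000000000000000000000000) := T_11 (nat_lit 139) (nat_lit 122) (nat_lit 4) (nat_lit 4) (nat_lit 11) L36731 (by decide +kernel)
theorem L36733 : W_11 (nat_lit 7) (nat_lit 0x8002c0012001300080000000000000000000000000000000) (nat_lit 0x0) (nat_lit 0x500038001c0004000000020000880004000000000000000000000000000000) := T_11 (nat_lit 194) (nat_lit 143) (nat_lit 6) (nat_lit 7) (nat_lit 11) L36732 (by decide +kernel)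
theorem L36734 : W_11 (nat_lit 2) (nat_lit 0xc0004c002c00168013c0082000000000000000000000000000000) (nat_lit 0x0) (nat_lit 0x30001000000000000000000000000000000000000000) := D_11 (nat_lit 173) (nat_lit 156) (nat_lit 172) (nat_lit 4) (nat_lit 3) (nat_lit 11) (nat_lit 7) (nat_lit 2) (nat_lit 7) (by decide +kernel)
theorem L36735 : W_11 (nat_lit 3) (nat_lit 0xc0004c002c00168013c0080000000000000000000000000000000) (nat_lit 0x0) (nat_lit 0x30001000000003000000000000000000000000000000) := T_11 (nat_lit 121) (nat_lit 120) (nat_lit 0) (nat_lit 5) (nat_lit 8) L36734 (by decide +kernel)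
theorem L36736 : W_11 (nat_lit 4) (nat_lit 0xc0004c002c00160013c0080000000000000000000000000000000) (nat_lit 0x0) (nat_lit 0x30001c00000003000000000000000000000000000000) := T_11 (nat_lit 155) (nat_lit 154) (nat_lit 1) (nat_lit 5) (nat_lit 8) L36735 (by decide +kernel)
theorem L36737 : W_11 (nat_lit 5) (nat_lit 0xc0004c002c0016001380080000000000000000000000000000000) (nat_lit 0x0) (nat_lit 0x30001c00060003000000000000000000000000000000) := T_11 (nat_lit 138) (nat_lit 137) (nat_lit 3) (nat_lit 1) (nat_lit 8) L36736 (by decide +kernel)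
theorem L36738 : W_11 (nat_lit 6) (nat_lit 0xc00048002c0016001380080000000000000000000000000000000) (nat_lit 0x0) (nat_lit 0x8000400030001c00060003000000000000000000000000000000) := T_11 (nat_lit 190) (nat_lit 207) (nat_lit 5) (nat_lit 4) (nat_lit 8) L36737 (by decide +kernel)
theorem L36739 : W_11 (nat_lit 7) (nat_lit 0x800048002c0016001380080000000000000000000000000000000) (nat_lit 0x0) (nat_lit 0x800048000400030001c00060003000000000000000000000000000000) := T_11 (nat_lit 210) (nat_lit 227) (nat_lit 5) (nat_lit 7) (nat_lit 9) L36738 (by decide +kernel)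
theorem L36740 : W_11 (nat_lit 8) (nat_lit 0x48002c0016001380080000000000000000000000000000000) (nat_lit 0x0) (nat_lit 0x8000c8000400030021c00060003000000000000000000000000000000) := T_11 (nat_lit 211) (nat_lit 161) (nat_lit 6) (nat_lit 7) (nat_lit 12) L36739 (by decide +kernel)
theorem L36741 : W_11 (nat_lit 9) (nat_lit 0x48002c0012001380080000000000000000000000000000000) (nat_lit 0x0) (nat_lit 0x8000c800040003002dc00060003000000000000000000000000000000) := T_11 (nat_lit 158) (nat_lit 159) (nat_lit 0) (nat_lit 7) (nat_lit 9) L36740 (by decide +kernel)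
theorem L36742 : W_11 (nat_lit 10) (nat_lit 0x48002c0012001300080000000000000000000000000000000) (nat_lit 0x0) (nat_lit 0x8000c800040003002dc000e0007000000000000000000000000000000) := T_11 (nat_lit 139) (nat_lit 122) (nat_lit 4) (nat_lit 4) (nat_lit 11) L36741 (by decide +kernel)
theorem L36743 : W_11 (nat_lit 11) (nat_lit 0x8002c0012001300080000000000000000000000000000000) (nat_lit 0x0) (nat_lit 0x8000c800440003002dc008e0007000000000000000000000000000000) := T_11 (nat_lit 194) (nat_lit 143) (nat_lit 6) (nat_lit 7) (nat_lit 11) L36742 (by decide +kernel)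
theorem L36744 : W_11 (nat_lit 2) (nat_lit 0x2800080004d002c0012001300080000000000000000000000000000000) (nat_lit 0x0) (nat_lit 0x50001000000000000000000000000000000000000000000000000000000000) := D_11 (nat_lit 228) (nat_lit 244) (nat_lit 246) (nat_lit 5) (nat_lit 7) (nat_lit 10) (nat_lit 7) (nat_lit 7) (nat_lit 10) (by decide +kernel)
theorem L36745 : W_11 (nat_lit 3) (nat_lit 0x800080004d002c0012001300080000000000000000000000000000000) (nat_lit 0x0) (nat_lit 0x50003000100000000000000000000000000000000000000000000000000000) := T_11 (nat_lit 229) (nat_lit 212) (nat_lit 7) (nat_lit 7) (nat_lit 9) L36744 (by decide +kernel)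
theorem L36746 : W_11 (nat_lit 4) (nat_lit 0x80004d002c0012001300080000000000000000000000000000000) (nat_lit 0x0) (nat_lit 0x50003800140000000000000000000000000000000000000000000000000000) := T_11 (nat_lit 227) (nat_lit 210) (nat_lit 5) (nat_lit 7) (nat_lit 9) L36745 (by decide +kernel)
theorem L36747 : W_11 (nat_lit 5) (nat_lit 0x4d002c0012001300080000000000000000000000000000000) (nat_lit 0x0) (nat_lit 0x500038001c0000000000020000000000000000000000000000000000000000) := T_11 (nat_lit 211) (nat_lit 161) (nat_lit 6) (nat_lit 7) (nat_lit 12) L36746 (by decide +kernel)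
theorem L36748 : W_11 (nat_lit 6) (nat_lit 0xd002c0012001300080000000000000000000000000000000) (nat_lit 0x0) (nat_lit 0x500038001c0004000000020000800000000000000000000000000000000000) := T_11 (nat_lit 194) (nat_lit 143) (nat_lit 6) (nat_lit 7) (nat_lit 11) L36747 (by decide +kernel)
theorem L36749 : W_11 (nat_lit 7) (nat_lit 0xc002c0012001300080000000000000000000000000000000) (nat_lit 0x0) (nat_lit 0x500038001c0004300000020000800000000000000000000000000000000000) := T_11 (nat_lit 188) (nat_lit 189) (nat_lit 2) (nat_lit 1) (nat_lit 11) L36748 (by decide +kernel)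
theorem L36750 : W_11 (nat_lit 8) (nat_lit 0x8002c0012001300080000000000000000000000000000000) (nat_lit 0x0) (nat_lit 0x500038001c8004700000020000800000000000000000000000000000000000) := T_11 (nat_lit 190) (nat_lit 207) (nat_lit 5) (nat_lit 4) (nat_lit 8) L36749 (by decide +kernel)
theorem L36751 : W_11 (nat_lit 6) (nat_lit 0x4c002c0016001380080000000000000000000000000000000) (nat_lit 0x0) (nat_lit 0x300030001c00060003000000000000000000000000000000) := T_11 (nat_lit 188) (nat_lit 189) (nat_lit 2) (nat_lit 1) (nat_lit 11) L36069 (by decide +kernel)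
theorem L36752 : W_11 (nat_lit 7) (nat_lit 0x48002c0016001380080000000000000000000000000000000) (nat_lit 0x0) (nat_lit 0x8000700030001c00060003000000000000000000000000000000) := T_11 (nat_lit 190) (nat_lit 207) (nat_lit 5) (nat_lit 4) (nat_lit 8) L36751 (by decide +kernel)
theorem L36753 : W_11 (nat_lit 8) (nat_lit 0x48002c0012001380080000000000000000000000000000000) (nat_lit 0x0) (nat_lit 0x800070003000dc00060003000000000000000000000000000000) := T_11 (nat_lit 158) (nat_lit 159) (nat_lit 0) (nat_lit 7) (nat_lit 9) L36752 (by decide +kernel)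
theorem L36754 : W_11 (nat_lit 9) (nat_lit 0x48002c0012001300080000000000000000000000000000000) (nat_lit 0x0) (nat_lit 0x800070003000dc000e0007000000000000000000000000000000) := T_11 (nat_lit 139) (nat_lit 122) (nat_lit 4) (nat_lit 4) (nat_lit 11) L36753 (by decide +kernel)
theorem L36755 : W_11 (nat_lit 10) (nat_lit 0x8002c0012001300080000000000000000000000000000000) (nat_lit 0x0) (nat_lit 0x800470003000dc008e0007000000000000000000000000000000) := T_11 (nat_lit 194) (nat_lit 143) (nat_lit 6) (nat_lit 7) (nat_lit 11) L36754 (by decide +kernel)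
theorem L36756 : W_11 (nat_lit 2) (nat_lit 0xd002c00168013c0082000000000000000000000000000000) (nat_lit 0x0) (nat_lit 0x30001000000000000000000000000000000000000000) := D_11 (nat_lit 173) (nat_lit 156) (nat_lit 172) (nat_lit 4) (nat_lit 3) (nat_lit 11) (nat_lit 7) (nat_lit 2) (nat_lit 7) (by decide +kernel)
theorem L36757 : W_11 (nat_lit 3) (nat_lit 0xd002c00168013c0080000000000000000000000000000000) (nat_lit 0x0) (nat_lit 0x30001000000003000000000000000000000000000000) := T_11 (nat_lit 121) (nat_lit 120) (nat_lit 0) (nat_lit 5) (nat_lit 8) L36756 (by decide +kernel)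
theorem L36758 : W_11 (nat_lit 4) (nat_lit 0xd002c00160013c0080000000000000000000000000000000) (nat_lit 0x0) (nat_lit 0x30001c00000003000000000000000000000000000000) := T_11 (nat_lit 155) (nat_lit 154) (nat_lit 1) (nat_lit 5) (nat_lit 8) L36757 (by decide +kernel)
theorem L36759 : W_11 (nat_lit 5) (nat_lit 0xd002c0016001380080000000000000000000000000000000) (nat_lit 0x0) (nat_lit 0x30001c00060003000000000000000000000000000000) := T_11 (nat_lit 138) (nat_lit 137) (nat_lit 3) (nat_lit 1) (nat_lit 8) L36758 (by decide +kernel)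
theorem L36760 : W_11 (nat_lit 6) (nat_lit 0xd002c0012001380080000000000000000000000000000000) (nat_lit 0x0) (nat_lit 0x3000dc00060003000000000000000000000000000000) := T_11 (nat_lit 158) (nat_lit 159) (nat_lit 0) (nat_lit 7) (nat_lit 9) L36759 (by decide +kernel)
theorem L36761 : W_11 (nat_lit 7) (nat_lit 0xd002c0012001300080000000000000000000000000000000) (nat_lit 0x0) (nat_lit 0x3000dc000e0007000000000000000000000000000000) := T_11 (nat_lit 139) (nat_lit 122) (nat_lit 4) (nat_lit 4) (nat_lit 11) L36760 (by decide +kernel)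
theorem L36762 : W_11 (nat_lit 8) (nat_lit 0xc002c0012001300080000000000000000000000000000000) (nat_lit 0x0) (nat_lit 0x30003000dc000e0007000000000000000000000000000000) := T_11 (nat_lit 188) (nat_lit 189) (nat_lit 2) (nat_lit 1) (nat_lit 11) L36761 (by decide +kernel)
theorem L36763 : W_11 (nat_lit 9) (nat_lit 0x8002c0012001300080000000000000000000000000000000) (nat_lit 0x0) (nat_lit 0x800070003000dc000e0007000000000000000000000000000000) := T_11 (nat_lit 190) (nat_lit 207) (nat_lit 5) (nat_lit 4) (nat_lit 8) L36762 (by decide +kernel)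
theorem L36764 : W_11 (nat_lit 12) (nat_lit 0x8002c0002001300080000000000000000000000000000000) (nat_lit 0x0) (nat_lit 0x500038001c800470003003dc008e0007000000000000000000000000000000) := Q_11 (nat_lit 160) (C_11 L36727 (C_11 L36733 (C_11 L36743 (C_11 L36750 (C_11 L36755 (C_11 L36763 N_11)))))) (by decide +kernel)
theorem L36765 : W_11 (nat_lit 13) (nat_lit 0x2c0002001300080000000000000000000000000000000) (nat_lit 0x0) (nat_lit 0x500039001dc004f0003003de008f0007000000000000000000000000000000) := Q_11 (nat_lit 191) (C_11 L36678 (C_11 L36687 (C_11 L35903 (C_11 L36764 N_11)))) (by decide +kernel)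
theorem L36766 : W_11 (nat_lit 2) (nat_lit 0x80008002c0002001380080000000000000000000000000000000) (nat_lit 0x0) (nat_lit 0x100010000000000001000000000000000000000000000000000000000) := D_11 (nat_lit 208) (nat_lit 156) (nat_lit 224) (nat_lit 4) (nat_lit 4) (nat_lit 12) (nat_lit 5) (nat_lit 4) (nat_lit 9) (by decide +kernel)
theorem L36767 : W_11 (nat_lit 3) (nat_lit 0x8002c0002001380080000000000000000000000000000000) (nat_lit 0x0) (nat_lit 0x100018000400000001000000000000000000000000000000000000000) := T_11 (nat_lit 207) (nat_lit 190) (nat_lit 5) (nat_lit 4) (nat_lit 8) L36766 (by decide +kernel)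
theorem L36768 : W_11 (nat_lit 4) (nat_lit 0x8002c0002001300080000000000000000000000000000000) (nat_lit 0x0) (nat_lit 0x100018000400000001000080004000000000000000000000000000000) := T_11 (nat_lit 139) (nat_lit 122) (nat_lit 4) (nat_lit 4) (nat_lit 11) L36767 (by decide +kernel)
theorem L36769 : W_11 (nat_lit 2) (nat_lit 0x8002c0002001300088000000000000000000000000000000) (nat_lit 0x0) (nat_lit 0x80004000200000000000000000000000000) := D_11 (nat_lit 122) (nat_lit 139) (nat_lit 105) (nat_lit 4) (nat_lit 4) (nat_lit 11) (nat_lit 4) (nat_lit 4) (nat_lit 10) (by decide +kernel)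
theorem L36770 : W_11 (nat_lit 2) (nat_lit 0x8002c0002001300088000400000000000000000000000000) (nat_lit 0x0) (nat_lit 0x4000200010000000000000000000000) := D_11 (nat_lit 105) (nat_lit 122) (nat_lit 88) (nat_lit 4) (nat_lit 4) (nat_lit 10) (nat_lit 4) (nat_lit 4) (nat_lit 9) (by decide +kernel)
theorem L36771 : W_11 (nat_lit 3) (nat_lit 0x8002c0002001300088000000000000000000000000000000) (nat_lit 0x0) (nat_lit 0x4000000004000600010000000000000000000000) := T_11 (nat_lit 106) (nat_lit 158) (nat_lit 7) (nat_lit 4) (nat_lit 6) L36770 (by decide +kernel)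
theorem L36772 : W_11 (nat_lit 2) (nat_lit 0x8002c0002001300088000400050000000000000000000000) (nat_lit 0x0) (nat_lit 0x20002800000000000000000) := D_11 (nat_lit 89) (nat_lit 73) (nat_lit 71) (nat_lit 6) (nat_lit 4) (nat_lit 8) (nat_lit 4) (nat_lit 4) (nat_lit 8) (by decide +kernel)
theorem L36773 : W_11 (nat_lit 3) (nat_lit 0x8002c0002001300088000400040000000000000000000000) (nat_lit 0x0) (nat_lit 0x200030002800000000000000000) := T_11 (nat_lit 88) (nat_lit 105) (nat_lit 4) (nat_lit 4) (nat_lit 9) L36772 (by decide +kernel)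
theorem L36774 : W_11 (nat_lit 4) (nat_lit 0x8002c0002001300088000400000000000000000000000000) (nat_lit 0x0) (nat_lit 0xa00070002800000000000000000) := T_11 (nat_lit 90) (nat_lit 107) (nat_lit 6) (nat_lit 4) (nat_lit 9) L36773 (by decide +kernel)
theorem L36775 : W_11 (nat_lit 5) (nat_lit 0x8002c0002001300088000000000000000000000000000000) (nat_lit 0x0) (nat_lit 0x4000000000000e00070002800000000000000000) := T_11 (nat_lit 106) (nat_lit 158) (nat_lit 7) (nat_lit 4) (nat_lit 6) L36774 (by decide +kernel)
theorem L36776 : W_11 (nat_lit 2) (nat_lit 0xd002c0002001380088000400040000000000000000000000) (nat_lit 0x0) (nat_lit 0x1000000000000000020002000000000000000000) := D_11 (nat_lit 89) (nat_lit 156) (nat_lit 73) (nat_lit 5) (nat_lit 4) (nat_lit 5) (nat_lit 6) (nat_lit 4) (nat_lit 8) (by decide +kernel)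
theorem L36777 : W_11 (nat_lit 3) (nat_lit 0xd002c0002001380088000400000000000000000000000000) (nat_lit 0x0) (nat_lit 0x1000000000000800060002000000000000000000) := T_11 (nat_lit 90) (nat_lit 107) (nat_lit 6) (nat_lit 4) (nat_lit 9) L36776 (by decide +kernel)
theorem L36778 : W_11 (nat_lit 4) (nat_lit 0xd002c0002001380088000000000000000000000000000000) (nat_lit 0x0) (nat_lit 0x5000000000000c00060002000000000000000000) := T_11 (nat_lit 106) (nat_lit 158) (nat_lit 7) (nat_lit 4) (nat_lit 6) L36777 (by decide +kernel)
theorem L36779 : W_11 (nat_lit 5) (nat_lit 0xd002c0002001300088000000000000000000000000000000) (nat_lit 0x0) (nat_lit 0x5000080004000c00060002000000000000000000) := T_11 (nat_lit 139) (nat_lit 122) (nat_lit 4) (nat_lit 4) (nat_lit 11) L36778 (by decide +kernel)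
theorem L36780 : W_11 (nat_lit 6) (nat_lit 0xc002c0002001300088000000000000000000000000000000) (nat_lit 0x0) (nat_lit 0x300000005000080004000c00060002000000000000000000) := T_11 (nat_lit 188) (nat_lit 189) (nat_lit 2) (nat_lit 1) (nat_lit 11) L36779 (by decide +kernel)
theorem L36781 : W_11 (nat_lit 7) (nat_lit 0x8002c0002001300088000000000000000000000000000000) (nat_lit 0x0) (nat_lit 0x8000700000005000080004000c00060002000000000000000000) := T_11 (nat_lit 190) (nat_lit 207) (nat_lit 5) (nat_lit 4) (nat_lit 8) L36780 (by decide +kernel)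
theorem L36782 : W_11 (nat_lit 8) (nat_lit 0x8002c0002001300080000000000000000000000000000000) (nat_lit 0x0) (nat_lit 0x800070000000500008000c000e00070002800000000000000000) := Q_11 (nat_lit 123) (C_11 L36769 (C_11 L36771 (C_11 L36775 (C_11 L36781 N_11)))) (by decide +kernel)
theorem L36783 : W_11 (nat_lit 9) (nat_lit 0x2c0002001300080000000000000000000000000000000) (nat_lit 0x0) (nat_lit 0x100018000f0000000500008000c000e00070002800000000000000000) := Q_11 (nat_lit 191) (C_11 L36678 (C_11 L36687 (C_11 L36768 (C_11 L36782 N_11)))) (by decide +kernel)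
theorem L36784 : W_11 (nat_lit 11) (nat_lit 0x2c0002001300080000000000000000000000000000000) (nat_lit 0x0) (nat_lit 0x18000f0003800cc000e000f000600000000000000000000000000) := Q_11 (nat_lit 158) (C_11 L36641 (C_11 L36717 (C_11 L36022 (C_11 L36645 N_11)))) (by decide +kernel)
theorem L36785 : W_11 (nat_lit 2) (nat_lit 0x8002c0006001300088000000000000000000000000000000) (nat_lit 0x0) (nat_lit 0x8000400020000000000000000000000000000000000000000000) := D_11 (nat_lit 190) (nat_lit 207) (nat_lit 173) (nat_lit 5) (nat_lit 4) (nat_lit 8) (nat_lit 5) (nat_lit 4) (nat_lit 7) (by decide +kernel)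
theorem L36786 : W_11 (nat_lit 3) (nat_lit 0x8002c0006001300080000000000000000000000000000000) (nat_lit 0x0) (nat_lit 0x8000400020000000000008000400000000000000000000000000) := T_11 (nat_lit 123) (nat_lit 106) (nat_lit 7) (nat_lit 4) (nat_lit 6) L36785 (by decide +kernel)
theorem L36787 : W_11 (nat_lit 4) (nat_lit 0x2c0006001300080000000000000000000000000000000) (nat_lit 0x0) (nat_lit 0x18000c00020000000000008000400000000000000000000000000) := T_11 (nat_lit 191) (nat_lit 208) (nat_lit 6) (nat_lit 4) (nat_lit 12) L36786 (by decide +kernel)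
theorem L36788 : W_11 (nat_lit 2) (nat_lit 0xf00040002c0016001300080000000000000000000000000000000) (nat_lit 0x0) (nat_lit 0x3000100000000000000000000000000000000000000000000000000000) := D_11 (nat_lit 229) (nat_lit 212) (nat_lit 228) (nat_lit 7) (nat_lit 7) (nat_lit 9) (nat_lit 3) (nat_lit 4) (nat_lit 12) (by decide +kernel)
theorem L36789 : W_11 (nat_lit 3) (nat_lit 0xd00040002c0016001300080000000000000000000000000000000) (nat_lit 0x0) (nat_lit 0x3000120008000000000000000000000000000000000000000000000000) := T_11 (nat_lit 209) (nat_lit 195) (nat_lit 2) (nat_lit 4) (nat_lit 12) L36788 (by decide +kernel)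
theorem L36790 : W_11 (nat_lit 4) (nat_lit 0x900040002c0016001300080000000000000000000000000000000) (nat_lit 0x0) (nat_lit 0x3800160008000000000000000000000000000000000000000000000000) := T_11 (nat_lit 210) (nat_lit 227) (nat_lit 5) (nat_lit 7) (nat_lit 9) L36789 (by decide +kernel)
theorem L36791 : W_11 (nat_lit 5) (nat_lit 0x100040002c0016001300080000000000000000000000000000000) (nat_lit 0x0) (nat_lit 0x38001e0008000000020000000000000000000000000000000000000000) := T_11 (nat_lit 211) (nat_lit 161) (nat_lit 6) (nat_lit 7) (nat_lit 12) L36790 (by decide +kernel)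
theorem L36792 : W_11 (nat_lit 6) (nat_lit 0x100000002c0016001300080000000000000000000000000000000) (nat_lit 0x0) (nat_lit 0x38001e000c000000020000800000000000000000000000000000000000) := T_11 (nat_lit 194) (nat_lit 143) (nat_lit 6) (nat_lit 7) (nat_lit 11) L36791 (by decide +kernel)
theorem L36793 : W_11 (nat_lit 7) (nat_lit 0x2c0016001300080000000000000000000000000000000) (nat_lit 0x0) (nat_lit 0x38001f000c800000020000800000000000000000000000000000000000) := T_11 (nat_lit 208) (nat_lit 191) (nat_lit 6) (nat_lit 4) (nat_lit 12) L36792 (by decide +kernel)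
theorem L36794 : W_11 (nat_lit 8) (nat_lit 0x2c0006001300080000000000000000000000000000000) (nat_lit 0x0) (nat_lit 0x38001f000c800020038000880000000000000000000000000000000000) := Q_11 (nat_lit 160) (C_11 L36091 (C_11 L36793 N_11)) (by decide +kernel)
theorem L36795 : W_11 (nat_lit 2) (nat_lit 0x2c0016001300080000000000000000000000000000000) (nat_lit 0x0) (nat_lit 0x4000000008000800000000000000000000000000000000000) := D_11 (nat_lit 143) (nat_lit 194) (nat_lit 159) (nat_lit 6) (nat_lit 7) (nat_lit 11) (nat_lit 2) (nat_lit 4) (nat_lit 9) (by decide +kernel)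
theorem L36796 : W_11 (nat_lit 2) (nat_lit 0x2c0016001300080000000000000000000000000000000) (nat_lit 0x0) (nat_lit 0x28000080000000000000000000000000000000000) := D_11 (nat_lit 159) (nat_lit 139) (nat_lit 161) (nat_lit 0) (nat_lit 7) (nat_lit 9) (nat_lit 1) (nat_lit 8) (nat_lit 9) (by decide +kernel)
theorem L36797 : W_11 (nat_lit 8) (nat_lit 0x2c0006001300080000000000000000000000000000000) (nat_lit 0x0) (nat_lit 0x38001f000c800000038000880000000000000000000000000000000000) := Q_11 (nat_lit 160) (C_11 L36793 (C_11 L36795 (C_11 L36796 N_11))) (by decide +kernel)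
theorem L36798 : W_11 (nat_lit 9) (nat_lit 0x2c0002001300080000000000000000000000000000000) (nat_lit 0x0) (nat_lit 0x38001f800cc0003803c000880008000400000000000000000000000000) := Q_11 (nat_lit 158) (C_11 L36641 (C_11 L36787 (C_11 L36794 (C_11 L36797 N_11)))) (by decide +kernel)
theorem L36799 : W_11 (nat_lit 2) (nat_lit 0x28000800040002e001a00130008d000000000000000000000000000000) (nat_lit 0x0) (nat_lit 0x50001000000000000000000000000000000000000000000000000000000000) := D_11 (nat_lit 228) (nat_lit 244) (nat_lit 246) (nat_lit 5) (nat_lit 7) (nat_lit 10) (nat_lit 7) (nat_lit 7) (nat_lit 10) (by decide +kernel)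
theorem L36800 : W_11 (nat_lit 3) (nat_lit 0x8000800040002e001a00130008d000000000000000000000000000000) (nat_lit 0x0) (nat_lit 0x50003000100000000000000000000000000000000000000000000000000000) := T_11 (nat_lit 229) (nat_lit 212) (nat_lit 7) (nat_lit 7) (nat_lit 9) L36799 (by decide +kernel)
theorem L36801 : W_11 (nat_lit 4) (nat_lit 0x800040002e001a00130008d000000000000000000000000000000) (nat_lit 0x0) (nat_lit 0x50003800140000000000000000000000000000000000000000000000000000) := T_11 (nat_lit 227) (nat_lit 210) (nat_lit 5) (nat_lit 7) (nat_lit 9) L36800 (by decide +kernel)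
theorem L36802 : W_11 (nat_lit 5) (nat_lit 0x40002e001a00130008d000000000000000000000000000000) (nat_lit 0x0) (nat_lit 0x500038001c0000000000020000000000000000000000000000000000000000) := T_11 (nat_lit 211) (nat_lit 161) (nat_lit 6) (nat_lit 7) (nat_lit 12) L36801 (by decide +kernel)
theorem L36803 : W_11 (nat_lit 6) (nat_lit 0x40002e001200130008d000000000000000000000000000000) (nat_lit 0x0) (nat_lit 0x500038001c000000000002c000000000000000000000000000000000000000) := T_11 (nat_lit 159) (nat_lit 158) (nat_lit 1) (nat_lit 7) (nat_lit 9) L36802 (by decide +kernel)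
theorem L36804 : W_11 (nat_lit 7) (nat_lit 0x40002c001200130008d000000000000000000000000000000) (nat_lit 0x0) (nat_lit 0x500038001c000040002002c000000000000000000000000000000000000000) := T_11 (nat_lit 173) (nat_lit 190) (nat_lit 5) (nat_lit 4) (nat_lit 7) L36803 (by decide +kernel)
theorem L36805 : W_11 (nat_lit 8) (nat_lit 0x2c001200130008d000000000000000000000000000000) (nat_lit 0x0) (nat_lit 0x500038001c000440002002c000800000000000000000000000000000000000) := T_11 (nat_lit 194) (nat_lit 143) (nat_lit 6) (nat_lit 7) (nat_lit 11) L36804 (by decide +kernel)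
theorem L36806 : W_11 (nat_lit 9) (nat_lit 0x2c001200130008c000000000000000000000000000000) (nat_lit 0x0) (nat_lit 0x500038001c000440002002c000800003000000000000000000000000000000) := T_11 (nat_lit 120) (nat_lit 121) (nat_lit 3) (nat_lit 1) (nat_lit 7) L36805 (by decide +kernel)
theorem L36807 : W_11 (nat_lit 10) (nat_lit 0x2c0012001300088000000000000000000000000000000) (nat_lit 0x0) (nat_lit 0x500038001c000440002002c000800007000200000000000000000000000000) := T_11 (nat_lit 122) (nat_lit 105) (nat_lit 4) (nat_lit 4) (nat_lit 10) L36806 (by decide +kernel)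
theorem L36808 : W_11 (nat_lit 2) (nat_lit 0x28000800040002c001200130008d000000000000000000000000000000) (nat_lit 0x0) (nat_lit 0x50001000000000000000000000000000000000000000000000000000000000) := D_11 (nat_lit 228) (nat_lit 244) (nat_lit 246) (nat_lit 5) (nat_lit 7) (nat_lit 10) (nat_lit 7) (nat_lit 7) (nat_lit 10) (by decide +kernel)
theorem L36809 : W_11 (nat_lit 3) (nat_lit 0x8000800040002c001200130008d000000000000000000000000000000) (nat_lit 0x0) (nat_lit 0x50003000100000000000000000000000000000000000000000000000000000) := T_11 (nat_lit 229) (nat_lit 212) (nat_lit 7) (nat_lit 7) (nat_lit 9) L36808 (by decide +kernel)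
theorem L36810 : W_11 (nat_lit 4) (nat_lit 0x800040002c001200130008d000000000000000000000000000000) (nat_lit 0x0) (nat_lit 0x50003800140000000000000000000000000000000000000000000000000000) := T_11 (nat_lit 227) (nat_lit 210) (nat_lit 5) (nat_lit 7) (nat_lit 9) L36809 (by decide +kernel)
theorem L36811 : W_11 (nat_lit 5) (nat_lit 0x40002c001200130008d000000000000000000000000000000) (nat_lit 0x0) (nat_lit 0x500038001c0000000000020000000000000000000000000000000000000000) := T_11 (nat_lit 211) (nat_lit 161) (nat_lit 6) (nat_lit 7) (nat_lit 12) L36810 (by decide +kernel)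
theorem L36812 : W_11 (nat_lit 6) (nat_lit 0x40002c001200130008c000000000000000000000000000000) (nat_lit 0x0) (nat_lit 0x500038001c0000000000020000000003000000000000000000000000000000) := T_11 (nat_lit 120) (nat_lit 121) (nat_lit 3) (nat_lit 1) (nat_lit 7) L36811 (by decide +kernel)
theorem L36813 : W_11 (nat_lit 7) (nat_lit 0x40002c0012001300088000000000000000000000000000000) (nat_lit 0x0) (nat_lit 0x500038001c0000000000020000000007000200000000000000000000000000) := T_11 (nat_lit 122) (nat_lit 105) (nat_lit 4) (nat_lit 4) (nat_lit 10) L36812 (by decide +kernel)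
theorem L36814 : W_11 (nat_lit 8) (nat_lit 0x2c0012001300088000000000000000000000000000000) (nat_lit 0x0) (nat_lit 0x500038001c0004000000020000800007000200000000000000000000000000) := T_11 (nat_lit 194) (nat_lit 143) (nat_lit 6) (nat_lit 7) (nat_lit 11) L36813 (by decide +kernel)
theorem L36815 : W_11 (nat_lit 2) (nat_lit 0x800042002f001680130008d000000000000000000000000000000) (nat_lit 0x0) (nat_lit 0x10000c0000000000000000000000000000000000) := D_11 (nat_lit 139) (nat_lit 156) (nat_lit 138) (nat_lit 5) (nat_lit 3) (nat_lit 7) (nat_lit 6) (nat_lit 2) (nat_lit 11) (by decide +kernel)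
theorem L36816 : W_11 (nat_lit 3) (nat_lit 0x800042002f001600130008d000000000000000000000000000000) (nat_lit 0x0) (nat_lit 0x1c000c0000000000000000000000000000000000) := T_11 (nat_lit 155) (nat_lit 154) (nat_lit 0) (nat_lit 5) (nat_lit 10) L36815 (by decide +kernel)
theorem L36817 : W_11 (nat_lit 4) (nat_lit 0x800040002f001600130008d000000000000000000000000000000) (nat_lit 0x0) (nat_lit 0x300000001c000c0000000000000000000000000000000000) := T_11 (nat_lit 189) (nat_lit 188) (nat_lit 1) (nat_lit 5) (nat_lit 10) L36816 (by decide +kernel)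
theorem L36818 : W_11 (nat_lit 5) (nat_lit 0x800040002e001600130008d000000000000000000000000000000) (nat_lit 0x0) (nat_lit 0x300018001c000c0000000000000000000000000000000000) := T_11 (nat_lit 172) (nat_lit 171) (nat_lit 2) (nat_lit 1) (nat_lit 10) L36817 (by decide +kernel)
theorem L36819 : W_11 (nat_lit 6) (nat_lit 0x800040002e001200130008d000000000000000000000000000000) (nat_lit 0x0) (nat_lit 0x30001800dc000c0000000000000000000000000000000000) := T_11 (nat_lit 158) (nat_lit 159) (nat_lit 1) (nat_lit 7) (nat_lit 9) L36818 (by decide +kernel)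
theorem L36820 : W_11 (nat_lit 7) (nat_lit 0x800040002c001200130008d000000000000000000000000000000) (nat_lit 0x0) (nat_lit 0x70003800dc000c0000000000000000000000000000000000) := T_11 (nat_lit 173) (nat_lit 190) (nat_lit 5) (nat_lit 4) (nat_lit 7) L36819 (by decide +kernel)
theorem L36821 : W_11 (nat_lit 8) (nat_lit 0x40002c001200130008d000000000000000000000000000000) (nat_lit 0x0) (nat_lit 0x8000070003802dc000c0000000000000000000000000000000000) := T_11 (nat_lit 211) (nat_lit 161) (nat_lit 6) (nat_lit 7) (nat_lit 12) L36820 (by decide +kernel)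
theorem L36822 : W_11 (nat_lit 9) (nat_lit 0x40002c001200130008c000000000000000000000000000000) (nat_lit 0x0) (nat_lit 0x8000070003802dc000c0003000000000000000000000000000000) := T_11 (nat_lit 120) (nat_lit 121) (nat_lit 3) (nat_lit 1) (nat_lit 7) L36821 (by decide +kernel)
theorem L36823 : W_11 (nat_lit 10) (nat_lit 0x40002c0012001300088000000000000000000000000000000) (nat_lit 0x0) (nat_lit 0x8000070003802dc000c0007000200000000000000000000000000) := T_11 (nat_lit 122) (nat_lit 105) (nat_lit 4) (nat_lit 4) (nat_lit 10) L36822 (by decide +kernel)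
theorem L36824 : W_11 (nat_lit 11) (nat_lit 0x2c0012001300088000000000000000000000000000000) (nat_lit 0x0) (nat_lit 0x8000470003802dc008c0007000200000000000000000000000000) := T_11 (nat_lit 194) (nat_lit 143) (nat_lit 6) (nat_lit 7) (nat_lit 11) L36823 (by decide +kernel)
theorem L36825 : W_11 (nat_lit 5) (nat_lit 0x2f001600130008d000000000000000000000000000000) (nat_lit 0x0) (nat_lit 0x4300000001c008c0000000000000000000000000000000000) := T_11 (nat_lit 194) (nat_lit 143) (nat_lit 6) (nat_lit 7) (nat_lit 11) L36083 (by decide +kernel)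
theorem L36826 : W_11 (nat_lit 6) (nat_lit 0x2e001600130008d000000000000000000000000000000) (nat_lit 0x0) (nat_lit 0x4300018001c008c0000000000000000000000000000000000) := T_11 (nat_lit 172) (nat_lit 171) (nat_lit 2) (nat_lit 1) (nat_lit 10) L36825 (by decide +kernel)
theorem L36827 : W_11 (nat_lit 7) (nat_lit 0x2e001600130008c000000000000000000000000000000) (nat_lit 0x0) (nat_lit 0x4300018001c008c0003000000000000000000000000000000) := T_11 (nat_lit 120) (nat_lit 121) (nat_lit 3) (nat_lit 1) (nat_lit 7) L36826 (by decide +kernel)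
theorem L36828 : W_11 (nat_lit 8) (nat_lit 0x2e0016001300088000000000000000000000000000000) (nat_lit 0x0) (nat_lit 0x4300018001c008c0007000200000000000000000000000000) := T_11 (nat_lit 122) (nat_lit 105) (nat_lit 4) (nat_lit 4) (nat_lit 10) L36827 (by decide +kernel)
theorem L36829 : W_11 (nat_lit 9) (nat_lit 0x2e0012001300088000000000000000000000000000000) (nat_lit 0x0) (nat_lit 0x430001800dc008c0007000200000000000000000000000000) := T_11 (nat_lit 158) (nat_lit 159) (nat_lit 1) (nat_lit 7) (nat_lit 9) L36828 (by decide +kernel)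
theorem L36830 : W_11 (nat_lit 10) (nat_lit 0x2c0012001300088000000000000000000000000000000) (nat_lit 0x0) (nat_lit 0x470003800dc008c0007000200000000000000000000000000) := T_11 (nat_lit 173) (nat_lit 190) (nat_lit 5) (nat_lit 4) (nat_lit 7) L36829 (by decide +kernel)
theorem L36834 : W_11 (nat_lit 5) (nat_lit 0x2e001600130008d000000000000000000000000000000) (nat_lit 0x0) (nat_lit 0x300018001c000c0000000000000000000000000000000000) := T_11 (nat_lit 172) (nat_lit 171) (nat_lit 2) (nat_lit 1) (nat_lit 10) L36833 (by decide +kernel)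
theorem L36835 : W_11 (nat_lit 6) (nat_lit 0x2e001600130008c000000000000000000000000000000) (nat_lit 0x0) (nat_lit 0x300018001c000c0003000000000000000000000000000000) := T_11 (nat_lit 120) (nat_lit 121) (nat_lit 3) (nat_lit 1) (nat_lit 7) L36834 (by decide +kernel)
theorem L36836 : W_11 (nat_lit 7) (nat_lit 0x2e0016001300088000000000000000000000000000000) (nat_lit 0x0) (nat_lit 0x300018001c000c0007000200000000000000000000000000) := T_11 (nat_lit 122) (nat_lit 105) (nat_lit 4) (nat_lit 4) (nat_lit 10) L36835 (by decide +kernel)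
theorem L36837 : W_11 (nat_lit 8) (nat_lit 0x2e0012001300088000000000000000000000000000000) (nat_lit 0x0) (nat_lit 0x30001800dc000c0007000200000000000000000000000000) := T_11 (nat_lit 158) (nat_lit 159) (nat_lit 1) (nat_lit 7) (nat_lit 9) L36836 (by decide +kernel)
theorem L36838 : W_11 (nat_lit 9) (nat_lit 0x2c0012001300088000000000000000000000000000000) (nat_lit 0x0) (nat_lit 0x70003800dc000c0007000200000000000000000000000000) := T_11 (nat_lit 173) (nat_lit 190) (nat_lit 5) (nat_lit 4) (nat_lit 7) L36837 (by decide +kernel)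
theorem L36839 : W_11 (nat_lit 2) (nat_lit 0x28000800040002e001a00130008c000000000000000000000000000000) (nat_lit 0x0) (nat_lit 0x50001000000000000000000000000000000000000000000000000000000000) := D_11 (nat_lit 228) (nat_lit 244) (nat_lit 246) (nat_lit 5) (nat_lit 7) (nat_lit 10) (nat_lit 7) (nat_lit 7) (nat_lit 10) (by decide +kernel)
theorem L36840 : W_11 (nat_lit 3) (nat_lit 0x8000800040002e001a00130008c000000000000000000000000000000) (nat_lit 0x0) (nat_lit 0x50003000100000000000000000000000000000000000000000000000000000) := T_11 (nat_lit 229) (nat_lit 212) (nat_lit 7) (nat_lit 7) (nat_lit 9) L36839 (by decide +kernel)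
theorem L36841 : W_11 (nat_lit 4) (nat_lit 0x800040002e001a00130008c000000000000000000000000000000) (nat_lit 0x0) (nat_lit 0x50003800140000000000000000000000000000000000000000000000000000) := T_11 (nat_lit 227) (nat_lit 210) (nat_lit 5) (nat_lit 7) (nat_lit 9) L36840 (by decide +kernel)
theorem L36842 : W_11 (nat_lit 5) (nat_lit 0x40002e001a00130008c000000000000000000000000000000) (nat_lit 0x0) (nat_lit 0x500038001c0000000000020000000000000000000000000000000000000000) := T_11 (nat_lit 211) (nat_lit 161) (nat_lit 6) (nat_lit 7) (nat_lit 12) L36841 (by decide +kernel)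
theorem L36843 : W_11 (nat_lit 6) (nat_lit 0x40002e001200130008c000000000000000000000000000000) (nat_lit 0x0) (nat_lit 0x500038001c000000000002c000000000000000000000000000000000000000) := T_11 (nat_lit 159) (nat_lit 158) (nat_lit 1) (nat_lit 7) (nat_lit 9) L36842 (by decide +kernel)
theorem L36844 : W_11 (nat_lit 7) (nat_lit 0x40002c001200130008c000000000000000000000000000000) (nat_lit 0x0) (nat_lit 0x500038001c000040002002c000000000000000000000000000000000000000) := T_11 (nat_lit 173) (nat_lit 190) (nat_lit 5) (nat_lit 4) (nat_lit 7) L36843 (by decide +kernel)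
theorem L36845 : W_11 (nat_lit 8) (nat_lit 0x2c001200130008c000000000000000000000000000000) (nat_lit 0x0) (nat_lit 0x500038001c000440002002c000800000000000000000000000000000000000) := T_11 (nat_lit 194) (nat_lit 143) (nat_lit 6) (nat_lit 7) (nat_lit 11) L36844 (by decide +kernel)
theorem L36846 : W_11 (nat_lit 9) (nat_lit 0x2c0012001300088000000000000000000000000000000) (nat_lit 0x0) (nat_lit 0x500038001c000440002002c000800004000200000000000000000000000000) := T_11 (nat_lit 122) (nat_lit 105) (nat_lit 4) (nat_lit 4) (nat_lit 10) L36845 (by decide +kernel)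
theorem L36847 : W_11 (nat_lit 2) (nat_lit 0x28000800040002e001a001300088000000000000000000000000000000) (nat_lit 0x0) (nat_lit 0x50001000000000000000000000000000000000000000000000000000000000) := D_11 (nat_lit 228) (nat_lit 244) (nat_lit 246) (nat_lit 5) (nat_lit 7) (nat_lit 10) (nat_lit 7) (nat_lit 7) (nat_lit 10) (by decide +kernel)
theorem L36848 : W_11 (nat_lit 3) (nat_lit 0x8000800040002e001a001300088000000000000000000000000000000) (nat_lit 0x0) (nat_lit 0x50003000100000000000000000000000000000000000000000000000000000) := T_11 (nat_lit 229) (nat_lit 212) (nat_lit 7) (nat_lit 7) (nat_lit 9) L36847 (by decide +kernel)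
theorem L36849 : W_11 (nat_lit 4) (nat_lit 0x800040002e001a001300088000000000000000000000000000000) (nat_lit 0x0) (nat_lit 0x50003800140000000000000000000000000000000000000000000000000000) := T_11 (nat_lit 227) (nat_lit 210) (nat_lit 5) (nat_lit 7) (nat_lit 9) L36848 (by decide +kernel)
theorem L36850 : W_11 (nat_lit 5) (nat_lit 0x40002e001a001300088000000000000000000000000000000) (nat_lit 0x0) (nat_lit 0x500038001c0000000000020000000000000000000000000000000000000000) := T_11 (nat_lit 211) (nat_lit 161) (nat_lit 6) (nat_lit 7) (nat_lit 12) L36849 (by decide +kernel)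
theorem L36851 : W_11 (nat_lit 6) (nat_lit 0x40002e0012001300088000000000000000000000000000000) (nat_lit 0x0) (nat_lit 0x500038001c000000000002c000000000000000000000000000000000000000) := T_11 (nat_lit 159) (nat_lit 158) (nat_lit 1) (nat_lit 7) (nat_lit 9) L36850 (by decide +kernel)
theorem L36852 : W_11 (nat_lit 7) (nat_lit 0x40002c0012001300088000000000000000000000000000000) (nat_lit 0x0) (nat_lit 0x500038001c000040002002c000000000000000000000000000000000000000) := T_11 (nat_lit 173) (nat_lit 190) (nat_lit 5) (nat_lit 4) (nat_lit 7) L36851 (by decide +kernel)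
theorem L36853 : W_11 (nat_lit 8) (nat_lit 0x2c0012001300088000000000000000000000000000000) (nat_lit 0x0) (nat_lit 0x500038001c000440002002c000800000000000000000000000000000000000) := T_11 (nat_lit 194) (nat_lit 143) (nat_lit 6) (nat_lit 7) (nat_lit 11) L36852 (by decide +kernel)
theorem L36854 : W_11 (nat_lit 12) (nat_lit 0x2c0002001300088000000000000000000000000000000) (nat_lit 0x0) (nat_lit 0x500038001c000470003803dc008c0007000200000000000000000000000000) := Q_11 (nat_lit 160) (C_11 L36807 (C_11 L36814 (C_11 L36824 (C_11 L36830 (C_11 L36838 (C_11 L36846 (C_11 L36853 N_11))))))) (by decide +kernel)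
theorem L36855 : W_11 (nat_lit 13) (nat_lit 0x2c0002001300080000000000000000000000000000000) (nat_lit 0x0) (nat_lit 0x500038001c000470003803dc008c000f000e00070002800000000000000000) := Q_11 (nat_lit 123) (C_11 L36703 (C_11 L35860 (C_11 L35261 (C_11 L36854 N_11)))) (by decide +kernel)
theorem L36856 : W_11 (nat_lit 2) (nat_lit 0x2c0016001300080000000000000000000000000000000) (nat_lit 0x0) (nat_lit 0x28000800000000000000000000000000000000000) := D_11 (nat_lit 159) (nat_lit 143) (nat_lit 161) (nat_lit 2) (nat_lit 4) (nat_lit 9) (nat_lit 1) (nat_lit 8) (nat_lit 9) (by decide +kernel)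
theorem L36857 : W_11 (nat_lit 2) (nat_lit 0x2c0016001300080000000000000000000000000000000) (nat_lit 0x0) (nat_lit 0x20028000000000000000000000000000000000000000) := D_11 (nat_lit 159) (nat_lit 161) (nat_lit 173) (nat_lit 1) (nat_lit 8) (nat_lit 9) (nat_lit 1) (nat_lit 7) (nat_lit 9) (by decide +kernel)
theorem L36858 : W_11 (nat_lit 8) (nat_lit 0x2c0006001300080000000000000000000000000000000) (nat_lit 0x0) (nat_lit 0x38001f000c800020038000800000000000000000000000000000000000) := Q_11 (nat_lit 160) (C_11 L36795 (C_11 L36793 (C_11 L36856 (C_11 L36857 N_11)))) (by decide +kernel)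
theorem L36859 : W_11 (nat_lit 2) (nat_lit 0x8002c0006001300088000000000000000000000000000000) (nat_lit 0x0) (nat_lit 0x80004000200000000000000000000000000) := D_11 (nat_lit 122) (nat_lit 139) (nat_lit 105) (nat_lit 4) (nat_lit 4) (nat_lit 11) (nat_lit 4) (nat_lit 4) (nat_lit 10) (by decide +kernel)
theorem L36860 : W_11 (nat_lit 3) (nat_lit 0x8002c0006001300080000000000000000000000000000000) (nat_lit 0x0) (nat_lit 0x8000c000600000000000000000000000000) := T_11 (nat_lit 123) (nat_lit 106) (nat_lit 7) (nat_lit 4) (nat_lit 6) L36859 (by decide +kernel)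
theorem L36861 : W_11 (nat_lit 4) (nat_lit 0x2c0006001300080000000000000000000000000000000) (nat_lit 0x0) (nat_lit 0x1000080000000000008000c000600000000000000000000000000) := T_11 (nat_lit 191) (nat_lit 208) (nat_lit 6) (nat_lit 4) (nat_lit 12) L36860 (by decide +kernel)
theorem L36862 : W_11 (nat_lit 2) (nat_lit 0x28000800040002c0016001300080000400000000000000000000000000) (nat_lit 0x0) (nat_lit 0x50001000000000000000000000000000000000000000000000000000000000) := D_11 (nat_lit 228) (nat_lit 244) (nat_lit 246) (nat_lit 5) (nat_lit 7) (nat_lit 10) (nat_lit 7) (nat_lit 7) (nat_lit 10) (by decide +kernel)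
theorem L36863 : W_11 (nat_lit 3) (nat_lit 0x8000800040002c0016001300080000400000000000000000000000000) (nat_lit 0x0) (nat_lit 0x50003000100000000000000000000000000000000000000000000000000000) := T_11 (nat_lit 229) (nat_lit 212) (nat_lit 7) (nat_lit 7) (nat_lit 9) L36862 (by decide +kernel)
theorem L36864 : W_11 (nat_lit 4) (nat_lit 0x800040002c0016001300080000400000000000000000000000000) (nat_lit 0x0) (nat_lit 0x50003800140000000000000000000000000000000000000000000000000000) := T_11 (nat_lit 227) (nat_lit 210) (nat_lit 5) (nat_lit 7) (nat_lit 9) L36863 (by decide +kernel)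
theorem L36865 : W_11 (nat_lit 5) (nat_lit 0x40002c0016001300080000400000000000000000000000000) (nat_lit 0x0) (nat_lit 0x500038001c0000000000020000000000000000000000000000000000000000) := T_11 (nat_lit 211) (nat_lit 161) (nat_lit 6) (nat_lit 7) (nat_lit 12) L36864 (by decide +kernel)
theorem L36866 : W_11 (nat_lit 6) (nat_lit 0x40002c0016001300080000000000000000000000000000000) (nat_lit 0x0) (nat_lit 0x500038001c0000000000020000000008000400000000000000000000000000) := T_11 (nat_lit 106) (nat_lit 123) (nat_lit 7) (nat_lit 4) (nat_lit 6) L36865 (by decide +kernel)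
theorem L36867 : W_11 (nat_lit 7) (nat_lit 0x2c0016001300080000000000000000000000000000000) (nat_lit 0x0) (nat_lit 0x500038001c0004000000020000800008000400000000000000000000000000) := T_11 (nat_lit 194) (nat_lit 143) (nat_lit 6) (nat_lit 7) (nat_lit 11) L36866 (by decide +kernel)
theorem L36868 : W_11 (nat_lit 8) (nat_lit 0x2c0006001300080000000000000000000000000000000) (nat_lit 0x0) (nat_lit 0x500038001c0004000020038000800008000400000000000000000000000000) := Q_11 (nat_lit 160) (C_11 L36857 (C_11 L36867 (C_11 L36795 N_11))) (by decide +kernel)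
theorem L36869 : W_11 (nat_lit 9) (nat_lit 0x2c0002001300080000000000000000000000000000000) (nat_lit 0x0) (nat_lit 0x500038001f000c80002003c0008e000c000600000000000000000000000000) := Q_11 (nat_lit 158) (C_11 L36858 (C_11 L36645 (C_11 L36861 (C_11 L36868 N_11)))) (by decide +kernel)
theorem L36870 : W_11 (nat_lit 14) (nat_lit 0x2c0000001300080000000000000000000000000000000) (nat_lit 0x0) (nat_lit 0x5a003f001fc00cf0003c03fe008f000f000f00070003800000000000000000) := Q_11 (nat_lit 157) (C_11 L36688 (C_11 L35874 (C_11 L36704 (C_11 L36718 (C_11 L36765 (C_11 L36783 (C_11 L36784 (C_11 L36798 (C_11 L36855 (C_11 L36869 N_11)))))))))) (by decide +kernel)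
theorem L36871 : W_11 (nat_lit 9) (nat_lit 0x2c0000001300080000000000000000000000000000000) (nat_lit 0x0) (nat_lit 0xa00070003800ee0012003700088000c000000000000000000000000000000) := Q_11 (nat_lit 176) (C_11 L36671 (C_11 L35967 (C_11 L35924 N_11))) (by decide +kernel)
theorem L36872 : W_11 (nat_lit 4) (nat_lit 0x3c0000001300080000000000000000000000000000000) (nat_lit 0x0) (nat_lit 0xe000020003800000000000000000000000000000000000000) := T_11 (nat_lit 194) (nat_lit 195) (nat_lit 3) (nat_lit 4) (nat_lit 10) L34803 (by decide +kernel)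
theorem L36873 : W_11 (nat_lit 9) (nat_lit 0x2c0000001300080000000000000000000000000000000) (nat_lit 0x0) (nat_lit 0xa00070003800ee0012000780008000c000000000000000000000000000000) := Q_11 (nat_lit 176) (C_11 L36671 (C_11 L35967 (C_11 L35829 (C_11 L36872 N_11)))) (by decide +kernel)
theorem L36874 : W_11 (nat_lit 9) (nat_lit 0x2c0000001300080000000000000000000000000000000) (nat_lit 0x0) (nat_lit 0xa00070003800cc00100037000880004000000000000000000000000000000) := Q_11 (nat_lit 176) (C_11 L36671 (C_11 L35924 N_11)) (by decide +kernel)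
theorem L36875 : W_11 (nat_lit 6) (nat_lit 0x2c0000001300080000000000000000000000000000000) (nat_lit 0x0) (nat_lit 0xe00012003f800880000000000000000000000000000000000) := Q_11 (nat_lit 176) (C_11 L36872 (C_11 L36675 (C_11 L35924 N_11))) (by decide +kernel)
theorem L36876 : W_11 (nat_lit 15) (nat_lit 0x280000001300080000000000000000000000000000000) (nat_lit 0x0) (nat_lit 0x5a003f001fc00ef0017c03fe008f000f000f00070003800000000000000000) := Q_11 (nat_lit 174) (C_11 L35968 (C_11 L36676 (C_11 L36870 (C_11 L36871 (C_11 L35959 (C_11 L36873 (C_11 L36874 (C_11 L36875 N_11)))))))) (by decide +kernel)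
theorem L36877 : W_11 (nat_lit 2) (nat_lit 0xe000200058002c0014001300080000000000000000000000000000000) (nat_lit 0x0) (nat_lit 0x8400100000000000000000000000000000000000000000000) := D_11 (nat_lit 176) (nat_lit 195) (nat_lit 190) (nat_lit 3) (nat_lit 4) (nat_lit 10) (nat_lit 1) (nat_lit 7) (nat_lit 10) (by decide +kernel)
theorem L36878 : W_11 (nat_lit 3) (nat_lit 0xe00020005800280014001300080000000000000000000000000000000) (nat_lit 0x0) (nat_lit 0x8000000000008400140000000000000000000000000000000000000000000) := T_11 (nat_lit 174) (nat_lit 243) (nat_lit 4) (nat_lit 5) (nat_lit 14) L36877 (by decide +kernel)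
theorem L36879 : W_11 (nat_lit 4) (nat_lit 0xc00020005800280014001300080000000000000000000000000000000) (nat_lit 0x0) (nat_lit 0xc000200000008400140000000000000000000000000000000000000000000) := T_11 (nat_lit 225) (nat_lit 242) (nat_lit 5) (nat_lit 5) (nat_lit 10) L36878 (by decide +kernel)
theorem L36880 : W_11 (nat_lit 5) (nat_lit 0x800020005800280014001300080000000000000000000000000000000) (nat_lit 0x0) (nat_lit 0x1c000600000008400140000000000000000000000000000000000000000000) := T_11 (nat_lit 226) (nat_lit 244) (nat_lit 7) (nat_lit 5) (nat_lit 10) L36879 (by decide +kernel)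
theorem L36881 : W_11 (nat_lit 6) (nat_lit 0x20005800280014001300080000000000000000000000000000000) (nat_lit 0x0) (nat_lit 0x1c000e00040008400140000000000000000000000000000000000000000000) := T_11 (nat_lit 227) (nat_lit 210) (nat_lit 7) (nat_lit 5) (nat_lit 9) L36880 (by decide +kernel)
theorem L36882 : W_11 (nat_lit 7) (nat_lit 0x5800280014001300080000000000000000000000000000000) (nat_lit 0x0) (nat_lit 0x1c000e00060008400140002000000000000000000000000000000000000000) := T_11 (nat_lit 209) (nat_lit 157) (nat_lit 4) (nat_lit 5) (nat_lit 12) L36881 (by decide +kernel)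
theorem L36883 : W_11 (nat_lit 8) (nat_lit 0x5000280014001300080000000000000000000000000000000) (nat_lit 0x0) (nat_lit 0x1c000e00070008c00140002000000000000000000000000000000000000000) := T_11 (nat_lit 191) (nat_lit 208) (nat_lit 5) (nat_lit 5) (nat_lit 8) L36882 (by decide +kernel)
theorem L36884 : W_11 (nat_lit 9) (nat_lit 0x1000280014001300080000000000000000000000000000000) (nat_lit 0x0) (nat_lit 0x1c000e0007000cc00140002000800000000000000000000000000000000000) := T_11 (nat_lit 194) (nat_lit 143) (nat_lit 6) (nat_lit 7) (nat_lit 11) L36883 (by decide +kernel)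
theorem L36887 : W_11 (nat_lit 10) (nat_lit 0x280014001300080000000000000000000000000000000) (nat_lit 0x0) (nat_lit 0x1c000e0007000fc00160002000800000000000000000000000000000000000) := Q_11 (nat_lit 192) (C_11 L36339 (C_11 L36884 (C_11 L36119 (C_11 L36886 N_11)))) (by decide +kernel)
theorem L36888 : W_11 (nat_lit 2) (nat_lit 0x3800b4001b000c0001000000000000000000000000000) (nat_lit 0x0) (nat_lit 0x2000180000000000000000000000) := D_11 (nat_lit 109) (nat_lit 92) (nat_lit 91) (nat_lit 7) (nat_lit 7) (nat_lit 5) (nat_lit 4) (nat_lit 7) (nat_lit 9) (by decide +kernel)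
theorem L36889 : W_11 (nat_lit 3) (nat_lit 0x3800b4001b000c0000000000000000000000000000000) (nat_lit 0x0) (nat_lit 0x20003000180000000000000000000000) := T_11 (nat_lit 108) (nat_lit 125) (nat_lit 4) (nat_lit 7) (nat_lit 10) L36888 (by decide +kernel)
theorem L36890 : W_11 (nat_lit 4) (nat_lit 0x3800b4001b00080000000000000000000000000000000) (nat_lit 0x0) (nat_lit 0x2000000000000000060003000180000000000000000000000) := T_11 (nat_lit 126) (nat_lit 193) (nat_lit 5) (nat_lit 7) (nat_lit 7) L36889 (by decide +kernel)
theorem L36891 : W_11 (nat_lit 5) (nat_lit 0x380034001b00080000000000000000000000000000000) (nat_lit 0x0) (nat_lit 0x20000000c0000000060003000180000000000000000000000) := T_11 (nat_lit 163) (nat_lit 162) (nat_lit 1) (nat_lit 10) (nat_lit 9) L36890 (by decide +kernel)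
theorem L36892 : W_11 (nat_lit 6) (nat_lit 0x280034001b00080000000000000000000000000000000) (nat_lit 0x0) (nat_lit 0x20001400c0000000060003000180000000000000000000000) := T_11 (nat_lit 176) (nat_lit 174) (nat_lit 2) (nat_lit 4) (nat_lit 10) L36891 (by decide +kernel)
theorem L36893 : W_11 (nat_lit 7) (nat_lit 0x280014001b00080000000000000000000000000000000) (nat_lit 0x0) (nat_lit 0x20001400e8000000060003000180000000000000000000000) := T_11 (nat_lit 161) (nat_lit 159) (nat_lit 0) (nat_lit 8) (nat_lit 9) L36892 (by decide +kernel)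
theorem L36894 : W_11 (nat_lit 8) (nat_lit 0x280014001300080000000000000000000000000000000) (nat_lit 0x0) (nat_lit 0x60001400e8000800060003000180000000000000000000000) := T_11 (nat_lit 143) (nat_lit 194) (nat_lit 6) (nat_lit 7) (nat_lit 11) L36893 (by decide +kernel)
theorem L36895 : W_11 (nat_lit 11) (nat_lit 0x280010001300080000000000000000000000000000000) (nat_lit 0x0) (nat_lit 0x1c000e0007000fc001600ee0008c0060003000180000000000000000000000) := Q_11 (nat_lit 158) (C_11 L35820 (C_11 L36887 (C_11 L36894 N_11))) (by decide +kernel)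
theorem L36896 : W_11 (nat_lit 2) (nat_lit 0x4003c00290014001300080000000000000000000000000000000) (nat_lit 0x0) (nat_lit 0x2000200008000000000000000000000000000000000000000000) := D_11 (nat_lit 189) (nat_lit 205) (nat_lit 171) (nat_lit 1) (nat_lit 5) (nat_lit 11) (nat_lit 0) (nat_lit 5) (nat_lit 11) (by decide +kernel)
theorem L36897 : W_11 (nat_lit 3) (nat_lit 0x4003c00280014001300080000000000000000000000000000000) (nat_lit 0x0) (nat_lit 0x2000200038000000000000000000000000000000000000000000) := T_11 (nat_lit 172) (nat_lit 173) (nat_lit 0) (nat_lit 6) (nat_lit 11) L36896 (by decide +kernel)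
theorem L36898 : W_11 (nat_lit 4) (nat_lit 0x3c00280014001300080000000000000000000000000000000) (nat_lit 0x0) (nat_lit 0xe000200038000000000000000000000000000000000000000000) := T_11 (nat_lit 206) (nat_lit 207) (nat_lit 1) (nat_lit 6) (nat_lit 11) L36897 (by decide +kernel)
theorem L36899 : W_11 (nat_lit 5) (nat_lit 0x3800280014001300080000000000000000000000000000000) (nat_lit 0x0) (nat_lit 0xe000600138000000000000000000000000000000000000000000) := T_11 (nat_lit 190) (nat_lit 176) (nat_lit 2) (nat_lit 3) (nat_lit 11) L36898 (by decide +kernel)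
theorem L36900 : W_11 (nat_lit 6) (nat_lit 0x3000280014001300080000000000000000000000000000000) (nat_lit 0x0) (nat_lit 0x1e000e00138000000000000000000000000000000000000000000) := T_11 (nat_lit 191) (nat_lit 208) (nat_lit 5) (nat_lit 5) (nat_lit 8) L36899 (by decide +kernel)
theorem L36901 : W_11 (nat_lit 7) (nat_lit 0x1000280014001300080000000000000000000000000000000) (nat_lit 0x0) (nat_lit 0x5e002e00138000000000000000000000000000000000000000000) := T_11 (nat_lit 193) (nat_lit 210) (nat_lit 7) (nat_lit 5) (nat_lit 8) L36900 (by decide +kernel)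
theorem L36902 : W_11 (nat_lit 8) (nat_lit 0x280014001300080000000000000000000000000000000) (nat_lit 0x0) (nat_lit 0xa0007e003e00138002000000000000000000000000000000000000000) := Q_11 (nat_lit 192) (C_11 L36886 (C_11 L36901 (C_11 L36339 N_11))) (by decide +kernel)
theorem L36904 : W_11 (nat_lit 3) (nat_lit 0x1000380034001300080000000000000000000000000000000) (nat_lit 0x0) (nat_lit 0x50002c00000000000000000000000000000000000000000000000) := T_11 (nat_lit 193) (nat_lit 210) (nat_lit 7) (nat_lit 5) (nat_lit 8) L36903 (by decide +kernel)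
theorem L36905 : W_11 (nat_lit 4) (nat_lit 0x1000380014001300080000000000000000000000000000000) (nat_lit 0x0) (nat_lit 0x50002c00000028000000000000000000000000000000000000000) := T_11 (nat_lit 161) (nat_lit 159) (nat_lit 0) (nat_lit 8) (nat_lit 9) L36904 (by decide +kernel)
theorem L36906 : W_11 (nat_lit 2) (nat_lit 0x1000100038001c001300080000000000000000000000000000000) (nat_lit 0x0) (nat_lit 0x600020000000000000000000000000000000000000000000000000000) := D_11 (nat_lit 209) (nat_lit 226) (nat_lit 225) (nat_lit 6) (nat_lit 5) (nat_lit 13) (nat_lit 5) (nat_lit 5) (nat_lit 9) (by decide +kernel)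
theorem L36907 : W_11 (nat_lit 3) (nat_lit 0x100038001c001300080000000000000000000000000000000) (nat_lit 0x0) (nat_lit 0x600030000800000000000000000000000000000000000000000000000) := T_11 (nat_lit 208) (nat_lit 191) (nat_lit 5) (nat_lit 5) (nat_lit 8) L36906 (by decide +kernel)
theorem L36908 : W_11 (nat_lit 4) (nat_lit 0x1000380014001300080000000000000000000000000000000) (nat_lit 0x0) (nat_lit 0x600030000800000028000000000000000000000000000000000000000) := T_11 (nat_lit 159) (nat_lit 161) (nat_lit 0) (nat_lit 8) (nat_lit 9) L36907 (by decide +kernel)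
theorem L36909 : W_11 (nat_lit 2) (nat_lit 0x3000380014001300080000000000000000000000000000000) (nat_lit 0x0) (nat_lit 0x10000c00000000000000000000000000000000000000000000000) := D_11 (nat_lit 191) (nat_lit 208) (nat_lit 190) (nat_lit 5) (nat_lit 5) (nat_lit 8) (nat_lit 2) (nat_lit 3) (nat_lit 11) (by decide +kernel)
theorem L36910 : W_11 (nat_lit 3) (nat_lit 0x1000380014001300080000000000000000000000000000000) (nat_lit 0x0) (nat_lit 0x50002c00000000000000000000000000000000000000000000000) := T_11 (nat_lit 193) (nat_lit 210) (nat_lit 7) (nat_lit 5) (nat_lit 8) L36909 (by decide +kernel)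
theorem L36911 : W_11 (nat_lit 2) (nat_lit 0x4000100038001c001300080000000000000000000000000000000) (nat_lit 0x0) (nat_lit 0xc00020000000000000000000000000000000000000000000000000000) := D_11 (nat_lit 209) (nat_lit 227) (nat_lit 226) (nat_lit 7) (nat_lit 5) (nat_lit 9) (nat_lit 6) (nat_lit 5) (nat_lit 13) (by decide +kernel)
theorem L36912 : W_11 (nat_lit 3) (nat_lit 0x100038001c001300080000000000000000000000000000000) (nat_lit 0x0) (nat_lit 0xc00060002000000000000000000000000000000000000000000000000) := T_11 (nat_lit 210) (nat_lit 193) (nat_lit 7) (nat_lit 5) (nat_lit 8) L36911 (by decide +kernel)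
theorem L36913 : W_11 (nat_lit 4) (nat_lit 0x1000380014001300080000000000000000000000000000000) (nat_lit 0x0) (nat_lit 0xc00060002000000028000000000000000000000000000000000000000) := T_11 (nat_lit 159) (nat_lit 161) (nat_lit 0) (nat_lit 8) (nat_lit 9) L36912 (by decide +kernel)
theorem L36914 : W_11 (nat_lit 5) (nat_lit 0x380014001300080000000000000000000000000000000) (nat_lit 0x0) (nat_lit 0xe00070003c00000028000000000000000000000000000000000000000) := Q_11 (nat_lit 192) (C_11 L36905 (C_11 L36908 (C_11 L36910 (C_11 L36913 N_11)))) (by decide +kernel)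
theorem L36916 : W_11 (nat_lit 2) (nat_lit 0x8003c0014001300080000000000000000000000000000000) (nat_lit 0x0) (nat_lit 0x200010001000000000000000000000000000000000000000000000000) := D_11 (nat_lit 208) (nat_lit 192) (nat_lit 225) (nat_lit 5) (nat_lit 5) (nat_lit 8) (nat_lit 6) (nat_lit 4) (nat_lit 13) (by decide +kernel)
theorem L36917 : W_11 (nat_lit 3) (nat_lit 0x3c0014001300080000000000000000000000000000000) (nat_lit 0x0) (nat_lit 0x200010001c00000000000000000000000000000000000000000000000) := T_11 (nat_lit 191) (nat_lit 190) (nat_lit 1) (nat_lit 7) (nat_lit 10) L36916 (by decide +kernel)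
theorem L36918 : W_11 (nat_lit 4) (nat_lit 0x380014001300080000000000000000000000000000000) (nat_lit 0x0) (nat_lit 0x200010001c00040020000000000000000000000000000000000000000) := T_11 (nat_lit 174) (nat_lit 161) (nat_lit 2) (nat_lit 4) (nat_lit 10) L36917 (by decide +kernel)
theorem L36919 : W_11 (nat_lit 2) (nat_lit 0x4003c0014001300080000000000000000000000000000000) (nat_lit 0x0) (nat_lit 0x200020008000000000000000000000000000000000000000) := D_11 (nat_lit 173) (nat_lit 159) (nat_lit 189) (nat_lit 2) (nat_lit 3) (nat_lit 10) (nat_lit 1) (nat_lit 6) (nat_lit 10) (by decide +kernel)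
theorem L36920 : W_11 (nat_lit 3) (nat_lit 0x3c0014001300080000000000000000000000000000000) (nat_lit 0x0) (nat_lit 0xe00020008000000000000000000000000000000000000000) := T_11 (nat_lit 190) (nat_lit 191) (nat_lit 1) (nat_lit 7) (nat_lit 10) L36919 (by decide +kernel)
theorem L36921 : W_11 (nat_lit 2) (nat_lit 0x2003e0014801300080000000000000000000000000000000) (nat_lit 0x0) (nat_lit 0x100010000400000000000000000000000000000000000000) := D_11 (nat_lit 172) (nat_lit 188) (nat_lit 154) (nat_lit 1) (nat_lit 5) (nat_lit 10) (nat_lit 0) (nat_lit 5) (nat_lit 10) (by decide +kernel)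
theorem L36922 : W_11 (nat_lit 3) (nat_lit 0x2003e0014001300080000000000000000000000000000000) (nat_lit 0x0) (nat_lit 0x100010001c00000000000000000000000000000000000000) := T_11 (nat_lit 155) (nat_lit 156) (nat_lit 0) (nat_lit 6) (nat_lit 10) L36921 (by decide +kernel)
theorem L36923 : W_11 (nat_lit 4) (nat_lit 0x3e0014001300080000000000000000000000000000000) (nat_lit 0x0) (nat_lit 0x700010001c00000000000000000000000000000000000000) := T_11 (nat_lit 189) (nat_lit 190) (nat_lit 1) (nat_lit 6) (nat_lit 10) L36922 (by decide +kernel)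
theorem L36924 : W_11 (nat_lit 5) (nat_lit 0x3c0014001300080000000000000000000000000000000) (nat_lit 0x0) (nat_lit 0x700030009c00000000000000000000000000000000000000) := T_11 (nat_lit 173) (nat_lit 159) (nat_lit 2) (nat_lit 3) (nat_lit 10) L36923 (by decide +kernel)
theorem L36925 : W_11 (nat_lit 2) (nat_lit 0x12003f0014801300080000000000000000000000000000000) (nat_lit 0x0) (nat_lit 0x10000800008000000000000000000000000000000000000000000) := D_11 (nat_lit 191) (nat_lit 171) (nat_lit 208) (nat_lit 3) (nat_lit 1) (nat_lit 10) (nat_lit 5) (nat_lit 5) (nat_lit 8) (by decide +kernel)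
theorem L36926 : W_11 (nat_lit 3) (nat_lit 0x2003f0014801300080000000000000000000000000000000) (nat_lit 0x0) (nat_lit 0x10003800008000000000000000000000000000000000000000000) := T_11 (nat_lit 192) (nat_lit 193) (nat_lit 3) (nat_lit 2) (nat_lit 10) L36925 (by decide +kernel)
theorem L36927 : W_11 (nat_lit 4) (nat_lit 0x3f0014801300080000000000000000000000000000000) (nat_lit 0x0) (nat_lit 0x10003b00008000000000000000000000000000000000000000000) := T_11 (nat_lit 189) (nat_lit 188) (nat_lit 1) (nat_lit 5) (nat_lit 10) L36926 (by decide +kernel)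
theorem L36928 : W_11 (nat_lit 5) (nat_lit 0x3e0014801300080000000000000000000000000000000) (nat_lit 0x0) (nat_lit 0x10003b00018000400000000000000000000000000000000000000) := T_11 (nat_lit 172) (nat_lit 154) (nat_lit 0) (nat_lit 5) (nat_lit 10) L36927 (by decide +kernel)
theorem L36929 : W_11 (nat_lit 6) (nat_lit 0x3e0014001300080000000000000000000000000000000) (nat_lit 0x0) (nat_lit 0x10003b00018001c00000000000000000000000000000000000000) := T_11 (nat_lit 155) (nat_lit 156) (nat_lit 0) (nat_lit 6) (nat_lit 10) L36928 (by decide +kernel)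
theorem L36930 : W_11 (nat_lit 7) (nat_lit 0x3c0014001300080000000000000000000000000000000) (nat_lit 0x0) (nat_lit 0x10003b00038009c00000000000000000000000000000000000000) := T_11 (nat_lit 173) (nat_lit 159) (nat_lit 2) (nat_lit 3) (nat_lit 10) L36929 (by decide +kernel)
theorem L36931 : W_11 (nat_lit 8) (nat_lit 0x380014001300080000000000000000000000000000000) (nat_lit 0x0) (nat_lit 0x200010003f00078009c00000000000000000000000000000000000000) := Q_11 (nat_lit 174) (C_11 L36917 (C_11 L36920 (C_11 L36924 (C_11 L36930 N_11)))) (by decide +kernel)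
theorem L36932 : W_11 (nat_lit 9) (nat_lit 0x280014001300080000000000000000000000000000000) (nat_lit 0x0) (nat_lit 0xe00070003f00178029c00000000000000000000000000000000000000) := Q_11 (nat_lit 176) (C_11 L36914 (C_11 L36915 (C_11 L36918 (C_11 L36931 N_11)))) (by decide +kernel)
theorem L36933 : W_11 (nat_lit 10) (nat_lit 0x280010001300080000000000000000000000000000000) (nat_lit 0x0) (nat_lit 0xe0007e003f0017802fc000c0000000000000000000000000000000000) := Q_11 (nat_lit 158) (C_11 L35820 (C_11 L36902 (C_11 L36932 N_11))) (by decide +kernel)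
theorem L36934 : W_11 (nat_lit 10) (nat_lit 0x4000380010001300080000000000000000000000000000000) (nat_lit 0x0) (nat_lit 0x1d000f800ac00040007000080004000000000000000000000000000000) := T_11 (nat_lit 174) (nat_lit 195) (nat_lit 3) (nat_lit 4) (nat_lit 10) L34818 (by decide +kernel)
theorem L36935 : W_11 (nat_lit 11) (nat_lit 0x380010001300080000000000000000000000000000000) (nat_lit 0x0) (nat_lit 0x1d000f800ec00040007000880004000000000000000000000000000000) := T_11 (nat_lit 194) (nat_lit 143) (nat_lit 6) (nat_lit 7) (nat_lit 11) L36934 (by decide +kernel)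
theorem L36936 : W_11 (nat_lit 2) (nat_lit 0x40003c0010001300080000000000000000000000000000000) (nat_lit 0x0) (nat_lit 0x2000020008000000000000000000000000000000000000000) := D_11 (nat_lit 173) (nat_lit 193) (nat_lit 159) (nat_lit 3) (nat_lit 3) (nat_lit 10) (nat_lit 2) (nat_lit 3) (nat_lit 10) (by decide +kernel)
theorem L36937 : W_11 (nat_lit 3) (nat_lit 0x4000380010001300080000000000000000000000000000000) (nat_lit 0x0) (nat_lit 0xa000060008000000000000000000000000000000000000000) := T_11 (nat_lit 174) (nat_lit 195) (nat_lit 3) (nat_lit 4) (nat_lit 10) L36936 (by decide +kernel)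
theorem L36938 : W_11 (nat_lit 4) (nat_lit 0x380010001300080000000000000000000000000000000) (nat_lit 0x0) (nat_lit 0xe000060008000800000000000000000000000000000000000) := T_11 (nat_lit 194) (nat_lit 143) (nat_lit 6) (nat_lit 7) (nat_lit 11) L36937 (by decide +kernel)
theorem L36939 : W_11 (nat_lit 9) (nat_lit 0x4000380010001300080000000000000000000000000000000) (nat_lit 0x0) (nat_lit 0x6000300038009c00040007000080004000000000000000000000000000000) := T_11 (nat_lit 174) (nat_lit 195) (nat_lit 3) (nat_lit 4) (nat_lit 10) L34810 (by decide +kernel)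
theorem L36940 : W_11 (nat_lit 10) (nat_lit 0x380010001300080000000000000000000000000000000) (nat_lit 0x0) (nat_lit 0x600030003800dc00040007000880004000000000000000000000000000000) := T_11 (nat_lit 194) (nat_lit 143) (nat_lit 6) (nat_lit 7) (nat_lit 11) L36939 (by decide +kernel)
theorem L36941 : W_11 (nat_lit 4) (nat_lit 0x3c0010001300080000000000000000000000000000000) (nat_lit 0x0) (nat_lit 0x2000f000880000000000000000000000000000000000) := T_11 (nat_lit 157) (nat_lit 156) (nat_lit 0) (nat_lit 7) (nat_lit 10) L36673 (by decide +kernel)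
theorem L36942 : W_11 (nat_lit 2) (nat_lit 0x3e0010001300080000000000000000000000000000000) (nat_lit 0x0) (nat_lit 0xe00000000000000000000000000000000000000000000000) := D_11 (nat_lit 190) (nat_lit 189) (nat_lit 191) (nat_lit 1) (nat_lit 6) (nat_lit 10) (nat_lit 1) (nat_lit 7) (nat_lit 10) (by decide +kernel)
theorem L36943 : W_11 (nat_lit 3) (nat_lit 0x3c0010001300080000000000000000000000000000000) (nat_lit 0x0) (nat_lit 0xe00020008000000000000000000000000000000000000000) := T_11 (nat_lit 173) (nat_lit 159) (nat_lit 2) (nat_lit 3) (nat_lit 10) L36942 (by decide +kernel)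
theorem L36944 : W_11 (nat_lit 8) (nat_lit 0x3c0010001300080000000000000000000000000000000) (nat_lit 0x0) (nat_lit 0xa000700038000c00000007000080004000000000000000000000000000000) := T_11 (nat_lit 157) (nat_lit 156) (nat_lit 0) (nat_lit 7) (nat_lit 10) L36662 (by decide +kernel)
theorem L36945 : W_11 (nat_lit 9) (nat_lit 0x380010001300080000000000000000000000000000000) (nat_lit 0x0) (nat_lit 0xa000700038000e0006000f000880004000000000000000000000000000000) := Q_11 (nat_lit 174) (C_11 L36941 (C_11 L36943 (C_11 L36944 N_11))) (by decide +kernel)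
theorem L36946 : W_11 (nat_lit 2) (nat_lit 0x380010001b000c0002000000000000000000000000000) (nat_lit 0x0) (nat_lit 0x20001000080000000000000000000000) := D_11 (nat_lit 108) (nat_lit 91) (nat_lit 125) (nat_lit 4) (nat_lit 7) (nat_lit 9) (nat_lit 4) (nat_lit 7) (nat_lit 10) (by decide +kernel)
theorem L36947 : W_11 (nat_lit 3) (nat_lit 0x380010001b000c0000000000000000000000000000000) (nat_lit 0x0) (nat_lit 0x8000000020003000080000000000000000000000) := T_11 (nat_lit 109) (nat_lit 159) (nat_lit 5) (nat_lit 7) (nat_lit 6) L36946 (by decide +kernel)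
theorem L36948 : W_11 (nat_lit 4) (nat_lit 0x380010001b00080000000000000000000000000000000) (nat_lit 0x0) (nat_lit 0x2000000008000000060003000080000000000000000000000) := T_11 (nat_lit 126) (nat_lit 193) (nat_lit 5) (nat_lit 7) (nat_lit 7) L36947 (by decide +kernel)
theorem L36949 : W_11 (nat_lit 5) (nat_lit 0x380010001300080000000000000000000000000000000) (nat_lit 0x0) (nat_lit 0x6000000008000800060003000080000000000000000000000) := T_11 (nat_lit 143) (nat_lit 194) (nat_lit 6) (nat_lit 7) (nat_lit 11) L36948 (by decide +kernel)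
theorem L36950 : W_11 (nat_lit 2) (nat_lit 0x3e0012001300080000000000000000000000000000000) (nat_lit 0x0) (nat_lit 0xe000000000000000000000000000000000000000000000000) := D_11 (nat_lit 194) (nat_lit 195) (nat_lit 193) (nat_lit 3) (nat_lit 4) (nat_lit 10) (nat_lit 3) (nat_lit 3) (nat_lit 10) (by decide +kernel)
theorem L36951 : W_11 (nat_lit 3) (nat_lit 0x3c0012001300080000000000000000000000000000000) (nat_lit 0x0) (nat_lit 0xe000020008000000000000000000000000000000000000000) := T_11 (nat_lit 173) (nat_lit 159) (nat_lit 2) (nat_lit 3) (nat_lit 10) L36950 (by decide +kernel)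
theorem L36952 : W_11 (nat_lit 4) (nat_lit 0x3c0010001300080000000000000000000000000000000) (nat_lit 0x0) (nat_lit 0xe00002000b000000000000000000000000000000000000000) := T_11 (nat_lit 157) (nat_lit 156) (nat_lit 0) (nat_lit 7) (nat_lit 10) L36951 (by decide +kernel)
theorem L36953 : W_11 (nat_lit 9) (nat_lit 0x380010001300080000000000000000000000000000000) (nat_lit 0x0) (nat_lit 0xa00070003800ee0006000f000080004000000000000000000000000000000) := Q_11 (nat_lit 174) (C_11 L36944 (C_11 L36943 (C_11 L36952 N_11))) (by decide +kernel)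
theorem L36954 : W_11 (nat_lit 12) (nat_lit 0x280010001300080000000000000000000000000000000) (nat_lit 0x0) (nat_lit 0xe001f000f800fe0016000f000880064003000080000000000000000000000) := Q_11 (nat_lit 176) (C_11 L36935 (C_11 L36938 (C_11 L36940 (C_11 L36945 (C_11 L36949 (C_11 L36953 N_11)))))) (by decide +kernel)
theorem L36955 : W_11 (nat_lit 2) (nat_lit 0x30000800040003c0010001300080000000000000000000000000000000) (nat_lit 0x0) (nat_lit 0x20000000000002000020000000000000000000000000000000000000000000) := D_11 (nat_lit 193) (nat_lit 173) (nat_lit 245) (nat_lit 3) (nat_lit 3) (nat_lit 10) (nat_lit 4) (nat_lit 7) (nat_lit 14) (by decide +kernel)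
theorem L36956 : W_11 (nat_lit 3) (nat_lit 0x3000080004000380010001300080000000000000000000000000000000) (nat_lit 0x0) (nat_lit 0x2000000000000a000060000000000000000000000000000000000000000000) := T_11 (nat_lit 174) (nat_lit 195) (nat_lit 3) (nat_lit 4) (nat_lit 10) L36955 (by decide +kernel)
theorem L36957 : W_11 (nat_lit 4) (nat_lit 0x3000080004000280010001300080000000000000000000000000000000) (nat_lit 0x0) (nat_lit 0x2000000000000a000160008000000000000000000000000000000000000000) := T_11 (nat_lit 176) (nat_lit 159) (nat_lit 4) (nat_lit 7) (nat_lit 13) L36956 (by decide +kernel)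
theorem L36958 : W_11 (nat_lit 5) (nat_lit 0x2000080004000280010001300080000000000000000000000000000000) (nat_lit 0x0) (nat_lit 0x6000100000000a000160008000000000000000000000000000000000000000) := T_11 (nat_lit 228) (nat_lit 246) (nat_lit 7) (nat_lit 7) (nat_lit 10) L36957 (by decide +kernel)
theorem L36959 : W_11 (nat_lit 6) (nat_lit 0x80004000280010001300080000000000000000000000000000000) (nat_lit 0x0) (nat_lit 0x6000300010000a000160008000000000000000000000000000000000000000) := T_11 (nat_lit 229) (nat_lit 212) (nat_lit 7) (nat_lit 7) (nat_lit 9) L36958 (by decide +kernel)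
theorem L36960 : W_11 (nat_lit 7) (nat_lit 0x4000280010001300080000000000000000000000000000000) (nat_lit 0x0) (nat_lit 0x6000300018000a000160028000000000000000000000000000000000000000) := T_11 (nat_lit 211) (nat_lit 161) (nat_lit 6) (nat_lit 7) (nat_lit 12) L36959 (by decide +kernel)
theorem L36961 : W_11 (nat_lit 8) (nat_lit 0x280010001300080000000000000000000000000000000) (nat_lit 0x0) (nat_lit 0x6000300018000e000160028000800000000000000000000000000000000000) := T_11 (nat_lit 194) (nat_lit 143) (nat_lit 6) (nat_lit 7) (nat_lit 11) L36960 (by decide +kernel)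
theorem L36962 : W_11 (nat_lit 13) (nat_lit 0x280000001300080000000000000000000000000000000) (nat_lit 0x0) (nat_lit 0x20007e003f001fe00ff001780ffc008c0064003000180000000000000000000000) := Q_11 (nat_lit 160) (C_11 L36895 (C_11 L36933 (C_11 L36348 (C_11 L36332 (C_11 L36954 (C_11 L36961 N_11)))))) (by decide +kernel)
theorem L36963 : W_11 (nat_lit 10) (nat_lit 0x280004001300080000000000000000000000000000000) (nat_lit 0x0) (nat_lit 0x1dc007c00170030000800008000000000000000000000000000000) := T_11 (nat_lit 192) (nat_lit 123) (nat_lit 4) (nat_lit 5) (nat_lit 11) L36228 (by decide +kernel)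
theorem L36964 : W_11 (nat_lit 2) (nat_lit 0x8003c002a0005001340080000000000000000000000000000000) (nat_lit 0x0) (nat_lit 0x8000080002000000000000000000000000000000) := D_11 (nat_lit 139) (nat_lit 121) (nat_lit 159) (nat_lit 4) (nat_lit 3) (nat_lit 11) (nat_lit 3) (nat_lit 2) (nat_lit 8) (by decide +kernel)
theorem L36965 : W_11 (nat_lit 3) (nat_lit 0x8003c002a0005001300080000000000000000000000000000000) (nat_lit 0x0) (nat_lit 0x88000c0002000000000000000000000000000000) := T_11 (nat_lit 138) (nat_lit 155) (nat_lit 4) (nat_lit 3) (nat_lit 12) L36964 (by decide +kernel)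
theorem L36966 : W_11 (nat_lit 4) (nat_lit 0x8003c002a0004001300080000000000000000000000000000000) (nat_lit 0x0) (nat_lit 0xb8000c0002000000000000000000000000000000) := T_11 (nat_lit 156) (nat_lit 157) (nat_lit 6) (nat_lit 3) (nat_lit 12) L36965 (by decide +kernel)
theorem L36967 : W_11 (nat_lit 5) (nat_lit 0x8003c00280004001300080000000000000000000000000000000) (nat_lit 0x0) (nat_lit 0x3000b8000c0002000000000000000000000000000000) := T_11 (nat_lit 173) (nat_lit 172) (nat_lit 0) (nat_lit 6) (nat_lit 11) L36966 (by decide +kernel)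
theorem L36968 : W_11 (nat_lit 6) (nat_lit 0x3c00280004001300080000000000000000000000000000000) (nat_lit 0x0) (nat_lit 0xc00000003000b8000c0002000000000000000000000000000000) := T_11 (nat_lit 207) (nat_lit 206) (nat_lit 1) (nat_lit 6) (nat_lit 11) L36967 (by decide +kernel)
theorem L36969 : W_11 (nat_lit 7) (nat_lit 0x3800280004001300080000000000000000000000000000000) (nat_lit 0x0) (nat_lit 0xc00040013000b8000c0002000000000000000000000000000000) := T_11 (nat_lit 190) (nat_lit 176) (nat_lit 2) (nat_lit 3) (nat_lit 11) L36968 (by decide +kernel)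
theorem L36970 : W_11 (nat_lit 8) (nat_lit 0x1800280004001300080000000000000000000000000000000) (nat_lit 0x0) (nat_lit 0x4c00240013000b8000c0002000000000000000000000000000000) := T_11 (nat_lit 193) (nat_lit 210) (nat_lit 7) (nat_lit 5) (nat_lit 8) L36969 (by decide +kernel)
theorem L36971 : W_11 (nat_lit 9) (nat_lit 0x1000280004001300080000000000000000000000000000000) (nat_lit 0x0) (nat_lit 0x5c002c0013000b8000c0002000000000000000000000000000000) := T_11 (nat_lit 191) (nat_lit 208) (nat_lit 5) (nat_lit 5) (nat_lit 8) L36970 (by decide +kernel)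
theorem L36972 : W_11 (nat_lit 10) (nat_lit 0x280004001300080000000000000000000000000000000) (nat_lit 0x0) (nat_lit 0x5c003c0013000b8000c000a000000000000000000000000000000) := T_11 (nat_lit 192) (nat_lit 123) (nat_lit 4) (nat_lit 5) (nat_lit 11) L36971 (by decide +kernel)
theorem L36973 : W_11 (nat_lit 2) (nat_lit 0x28001c001300080000000000000000000000000000000) (nat_lit 0x0) (nat_lit 0x4000000002000800000000000000000000000000000000000) := D_11 (nat_lit 143) (nat_lit 194) (nat_lit 157) (nat_lit 6) (nat_lit 7) (nat_lit 11) (nat_lit 2) (nat_lit 4) (nat_lit 9) (by decide +kernel)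
theorem L36974 : W_11 (nat_lit 2) (nat_lit 0x400038001c001300080000000000000000000000000000000) (nat_lit 0x0) (nat_lit 0x8000060000000000000000000000000000000000000000000) := D_11 (nat_lit 174) (nat_lit 173) (nat_lit 195) (nat_lit 2) (nat_lit 3) (nat_lit 10) (nat_lit 3) (nat_lit 4) (nat_lit 10) (by decide +kernel)
theorem L36975 : W_11 (nat_lit 3) (nat_lit 0x38001c001300080000000000000000000000000000000) (nat_lit 0x0) (nat_lit 0xc000060000000800000000000000000000000000000000000) := T_11 (nat_lit 194) (nat_lit 143) (nat_lit 6) (nat_lit 7) (nat_lit 11) L36974 (by decide +kernel)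
theorem L36976 : W_11 (nat_lit 2) (nat_lit 0x400008003c001c001340080000000000000000000000000000000) (nat_lit 0x0) (nat_lit 0x200010001000000000000000000000000000000000000000000000000) := D_11 (nat_lit 208) (nat_lit 192) (nat_lit 225) (nat_lit 5) (nat_lit 5) (nat_lit 8) (nat_lit 6) (nat_lit 4) (nat_lit 13) (by decide +kernel)
theorem L36977 : W_11 (nat_lit 3) (nat_lit 0x400000003c001c001340080000000000000000000000000000000) (nat_lit 0x0) (nat_lit 0x200010001c00000000000000000000000000000000000000000000000) := T_11 (nat_lit 191) (nat_lit 190) (nat_lit 1) (nat_lit 7) (nat_lit 10) L36976 (by decide +kernel)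
theorem L36978 : W_11 (nat_lit 4) (nat_lit 0x400000003c001c001300080000000000000000000000000000000) (nat_lit 0x0) (nat_lit 0x200010001c000000000000c0000000000000000000000000000000000) := T_11 (nat_lit 138) (nat_lit 139) (nat_lit 3) (nat_lit 2) (nat_lit 8) L36977 (by decide +kernel)
theorem L36979 : W_11 (nat_lit 5) (nat_lit 0x4000000038001c001300080000000000000000000000000000000) (nat_lit 0x0) (nat_lit 0x200010001c000600000000c0000000000000000000000000000000000) := T_11 (nat_lit 174) (nat_lit 173) (nat_lit 2) (nat_lit 3) (nat_lit 10) L36978 (by decide +kernel)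
theorem L36980 : W_11 (nat_lit 6) (nat_lit 0x38001c001300080000000000000000000000000000000) (nat_lit 0x0) (nat_lit 0x200050003c000600000000c0000000000000000000000000000000000) := T_11 (nat_lit 210) (nat_lit 193) (nat_lit 4) (nat_lit 6) (nat_lit 12) L36979 (by decide +kernel)
theorem L36981 : W_11 (nat_lit 2) (nat_lit 0x4000400038001c001340080000000000000000000000000000000) (nat_lit 0x0) (nat_lit 0x1800080000000000000000000000000000000000000000000000000000) := D_11 (nat_lit 211) (nat_lit 227) (nat_lit 228) (nat_lit 5) (nat_lit 7) (nat_lit 9) (nat_lit 4) (nat_lit 7) (nat_lit 13) (by decide +kernel)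
theorem L36982 : W_11 (nat_lit 3) (nat_lit 0x4000000038001c001340080000000000000000000000000000000) (nat_lit 0x0) (nat_lit 0x1800080004000000000000800000000000000000000000000000000000) := T_11 (nat_lit 194) (nat_lit 143) (nat_lit 6) (nat_lit 7) (nat_lit 11) L36981 (by decide +kernel)
theorem L36983 : W_11 (nat_lit 4) (nat_lit 0x38001c001340080000000000000000000000000000000) (nat_lit 0x0) (nat_lit 0x18000c0006000000000000800000000000000000000000000000000000) := T_11 (nat_lit 210) (nat_lit 193) (nat_lit 4) (nat_lit 6) (nat_lit 12) L36982 (by decide +kernel)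
theorem L36984 : W_11 (nat_lit 5) (nat_lit 0x38001c001300080000000000000000000000000000000) (nat_lit 0x0) (nat_lit 0x18000c00060000000000008c0000000000000000000000000000000000) := T_11 (nat_lit 138) (nat_lit 139) (nat_lit 3) (nat_lit 2) (nat_lit 8) L36983 (by decide +kernel)
theorem L36985 : W_11 (nat_lit 7) (nat_lit 0x28001c001300080000000000000000000000000000000) (nat_lit 0x0) (nat_lit 0x1a000d000fc001600000008c0000000000000000000000000000000000) := Q_11 (nat_lit 176) (C_11 L36975 (C_11 L36980 (C_11 L36984 N_11))) (by decide +kernel)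
theorem L36986 : W_11 (nat_lit 8) (nat_lit 0x280014001300080000000000000000000000000000000) (nat_lit 0x0) (nat_lit 0x1a000d000fc0016000a0008c0000000000000000000000000000000000) := Q_11 (nat_lit 159) (C_11 L35819 (C_11 L36973 (C_11 L36985 N_11))) (by decide +kernel)
theorem L36987 : W_11 (nat_lit 9) (nat_lit 0x280004001300080000000000000000000000000000000) (nat_lit 0x0) (nat_lit 0x50003a001d000fc001600fa0008c0060003000180000000000000000000000) := Q_11 (nat_lit 160) (C_11 L36894 (C_11 L35820 (C_11 L35769 (C_11 L36986 N_11)))) (by decide +kernel)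
theorem L36988 : W_11 (nat_lit 2) (nat_lit 0x2000000088007d002c0004001300080000000000000000000000000000000) (nat_lit 0x0) (nat_lit 0x30000800000000000000000000000000000000000) := D_11 (nat_lit 160) (nat_lit 143) (nat_lit 161) (nat_lit 6) (nat_lit 7) (nat_lit 11) (nat_lit 6) (nat_lit 7) (nat_lit 12) (by decide +kernel)
theorem L36989 : W_11 (nat_lit 3) (nat_lit 0x2000000008007d002c0004001300080000000000000000000000000000000) (nat_lit 0x0) (nat_lit 0x180000000000030000800000000000000000000000000000000000) := T_11 (nat_lit 211) (nat_lit 212) (nat_lit 3) (nat_lit 4) (nat_lit 11) L36988 (by decide +kernel)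
theorem L36990 : W_11 (nat_lit 4) (nat_lit 0x2000000008003d002c0004001300080000000000000000000000000000000) (nat_lit 0x0) (nat_lit 0x18000c000000030000800000000000000000000000000000000000) := T_11 (nat_lit 194) (nat_lit 195) (nat_lit 0) (nat_lit 8) (nat_lit 11) L36989 (by decide +kernel)
theorem L36991 : W_11 (nat_lit 5) (nat_lit 0x8003d002c0004001300080000000000000000000000000000000) (nat_lit 0x0) (nat_lit 0x200010018000c000000030000800000000000000000000000000000000000) := T_11 (nat_lit 241) (nat_lit 224) (nat_lit 6) (nat_lit 3) (nat_lit 14) L36990 (by decide +kernel)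
theorem L36992 : W_11 (nat_lit 6) (nat_lit 0x8003c002c0004001300080000000000000000000000000000000) (nat_lit 0x0) (nat_lit 0x200010018000c300000030000800000000000000000000000000000000000) := T_11 (nat_lit 188) (nat_lit 189) (nat_lit 2) (nat_lit 1) (nat_lit 11) L36991 (by decide +kernel)
theorem L36993 : W_11 (nat_lit 7) (nat_lit 0x8003c00280004001300080000000000000000000000000000000) (nat_lit 0x0) (nat_lit 0x200010018000c300040032000800000000000000000000000000000000000) := T_11 (nat_lit 174) (nat_lit 157) (nat_lit 5) (nat_lit 4) (nat_lit 8) L36992 (by decide +kernel)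
theorem L36994 : W_11 (nat_lit 8) (nat_lit 0x3c00280004001300080000000000000000000000000000000) (nat_lit 0x0) (nat_lit 0x200010018c00c300040032000800000000000000000000000000000000000) := T_11 (nat_lit 207) (nat_lit 206) (nat_lit 1) (nat_lit 6) (nat_lit 11) L36993 (by decide +kernel)
theorem L36995 : W_11 (nat_lit 9) (nat_lit 0x3800280004001300080000000000000000000000000000000) (nat_lit 0x0) (nat_lit 0x200010018c00c700140032000800000000000000000000000000000000000) := T_11 (nat_lit 190) (nat_lit 176) (nat_lit 2) (nat_lit 3) (nat_lit 11) L36994 (by decide +kernel)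
theorem L36996 : W_11 (nat_lit 10) (nat_lit 0x1800280004001300080000000000000000000000000000000) (nat_lit 0x0) (nat_lit 0x20001001cc00e700140032000800000000000000000000000000000000000) := T_11 (nat_lit 193) (nat_lit 210) (nat_lit 7) (nat_lit 5) (nat_lit 8) L36995 (by decide +kernel)
theorem L36997 : W_11 (nat_lit 11) (nat_lit 0x1000280004001300080000000000000000000000000000000) (nat_lit 0x0) (nat_lit 0x20001001dc00ef00140032000800000000000000000000000000000000000) := T_11 (nat_lit 191) (nat_lit 208) (nat_lit 5) (nat_lit 5) (nat_lit 8) L36996 (by decide +kernel)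
theorem L36998 : W_11 (nat_lit 12) (nat_lit 0x280004001300080000000000000000000000000000000) (nat_lit 0x0) (nat_lit 0x20001001dc00ff00140032000800008000000000000000000000000000000) := T_11 (nat_lit 192) (nat_lit 123) (nat_lit 4) (nat_lit 5) (nat_lit 11) L36997 (by decide +kernel)
theorem L36999 : W_11 (nat_lit 2) (nat_lit 0x280004001300088000000000000000000000000000000) (nat_lit 0x0) (nat_lit 0x2000000000000400020000000000000000000000) := D_11 (nat_lit 106) (nat_lit 89) (nat_lit 157) (nat_lit 7) (nat_lit 4) (nat_lit 5) (nat_lit 7) (nat_lit 4) (nat_lit 6) (by decide +kernel)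
theorem L37000 : W_11 (nat_lit 3) (nat_lit 0x280004001300080000000000000000000000000000000) (nat_lit 0x0) (nat_lit 0x1000000002000000008000400020000000000000000000000) := T_11 (nat_lit 123) (nat_lit 192) (nat_lit 4) (nat_lit 5) (nat_lit 11) L36999 (by decide +kernel)
theorem L37001 : W_11 (nat_lit 14) (nat_lit 0x280000001300080000000000000000000000000000000) (nat_lit 0x0) (nat_lit 0x52003b001dc00ff001780ffc008e006f0037001a8000000000000000000000) := Q_11 (nat_lit 158) (C_11 L36655 (C_11 L36308 (C_11 L36094 (C_11 L36963 (C_11 L36972 (C_11 L36987 (C_11 L36998 (C_11 L37000 N_11)))))))) (by decide +kernel)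
theorem L37002 : W_11 (nat_lit 2) (nat_lit 0x40002c0016001300080000000000000000000000000000000) (nat_lit 0x0) (nat_lit 0x8000100001000000000000000000000000000000000000000) := D_11 (nat_lit 176) (nat_lit 195) (nat_lit 156) (nat_lit 3) (nat_lit 4) (nat_lit 10) (nat_lit 0) (nat_lit 7) (nat_lit 10) (by decide +kernel)
theorem L37003 : W_11 (nat_lit 3) (nat_lit 0x2c0016001300080000000000000000000000000000000) (nat_lit 0x0) (nat_lit 0xc000100001000800000000000000000000000000000000000) := T_11 (nat_lit 194) (nat_lit 143) (nat_lit 6) (nat_lit 7) (nat_lit 11) L37002 (by decide +kernel)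
theorem L37004 : W_11 (nat_lit 5) (nat_lit 0x280016001300080000000000000000000000000000000) (nat_lit 0x0) (nat_lit 0x1000cc0014000100088000c000600000000000000000000000000) := Q_11 (nat_lit 174) (C_11 L35778 (C_11 L36080 (C_11 L37003 N_11))) (by decide +kernel)
theorem L37005 : W_11 (nat_lit 2) (nat_lit 0x2900178013c0082000400000000000000000000000000) (nat_lit 0x0) (nat_lit 0x200000000000000004000200000000000000000000000000) := D_11 (nat_lit 122) (nat_lit 105) (nat_lit 189) (nat_lit 6) (nat_lit 2) (nat_lit 10) (nat_lit 6) (nat_lit 2) (nat_lit 11) (by decide +kernel)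
theorem L37006 : W_11 (nat_lit 3) (nat_lit 0x2800178013c0082000400000000000000000000000000) (nat_lit 0x0) (nat_lit 0x200018000000000004000200000000000000000000000000) := T_11 (nat_lit 172) (nat_lit 171) (nat_lit 1) (nat_lit 5) (nat_lit 9) L37005 (by decide +kernel)
theorem L37007 : W_11 (nat_lit 4) (nat_lit 0x2800168013c0082000400000000000000000000000000) (nat_lit 0x0) (nat_lit 0x200118001000000004000200000000000000000000000000) := T_11 (nat_lit 156) (nat_lit 176) (nat_lit 3) (nat_lit 2) (nat_lit 9) L37006 (by decide +kernel)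
theorem L37008 : W_11 (nat_lit 5) (nat_lit 0x2800168013c0080000400000000000000000000000000) (nat_lit 0x0) (nat_lit 0x200118001000000007000200000000000000000000000000) := T_11 (nat_lit 121) (nat_lit 120) (nat_lit 0) (nat_lit 5) (nat_lit 8) L37007 (by decide +kernel)
theorem L37009 : W_11 (nat_lit 6) (nat_lit 0x2800160013c0080000400000000000000000000000000) (nat_lit 0x0) (nat_lit 0x200118001c00000007000200000000000000000000000000) := T_11 (nat_lit 155) (nat_lit 154) (nat_lit 1) (nat_lit 5) (nat_lit 8) L37008 (by decide +kernel)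
theorem L37010 : W_11 (nat_lit 7) (nat_lit 0x280016001380080000400000000000000000000000000) (nat_lit 0x0) (nat_lit 0x200118001c00060007000200000000000000000000000000) := T_11 (nat_lit 138) (nat_lit 137) (nat_lit 3) (nat_lit 1) (nat_lit 8) L37009 (by decide +kernel)
theorem L37011 : W_11 (nat_lit 8) (nat_lit 0x280016001380080000000000000000000000000000000) (nat_lit 0x0) (nat_lit 0x200118001c0006000f000600000000000000000000000000) := T_11 (nat_lit 106) (nat_lit 123) (nat_lit 7) (nat_lit 4) (nat_lit 6) L37010 (by decide +kernel)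
theorem L37012 : W_11 (nat_lit 9) (nat_lit 0x280016001300080000000000000000000000000000000) (nat_lit 0x0) (nat_lit 0x200118009c000e000f000600000000000000000000000000) := T_11 (nat_lit 139) (nat_lit 159) (nat_lit 0) (nat_lit 7) (nat_lit 9) L37011 (by decide +kernel)
theorem L37013 : W_11 (nat_lit 10) (nat_lit 0x280014001300080000000000000000000000000000000) (nat_lit 0x0) (nat_lit 0x1000ce0015800bc008e000f000600000000000000000000000000) := Q_11 (nat_lit 157) (C_11 L35812 (C_11 L37004 (C_11 L35775 (C_11 L37012 N_11)))) (by decide +kernel)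
theorem L37014 : W_11 (nat_lit 11) (nat_lit 0x280004001300080000000000000000000000000000000) (nat_lit 0x0) (nat_lit 0x500038001d000ee001580fbc008e006f003600180000000000000000000000) := Q_11 (nat_lit 160) (C_11 L36894 (C_11 L35820 (C_11 L35769 (C_11 L37013 N_11)))) (by decide +kernel)
theorem L37015 : W_11 (nat_lit 12) (nat_lit 0x280004001300080000000000000000000000000000000) (nat_lit 0x0) (nat_lit 0x8001e003f001fc00ff0014003a000800000000000000000000000000000000000) := Q_11 (nat_lit 192) (C_11 L36997 (C_11 L36193 (C_11 L36064 (C_11 L35758 (C_11 L36204 N_11))))) (by decide +kernel)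
theorem L37016 : W_11 (nat_lit 13) (nat_lit 0x280000001300080000000000000000000000000000000) (nat_lit 0x0) (nat_lit 0x8005e003f001fc00ff001580ffc008e006f0036001a0000000000000000000000) := Q_11 (nat_lit 158) (C_11 L37000 (C_11 L36065 (C_11 L37014 (C_11 L37015 N_11)))) (by decide +kernel)
theorem L37017 : W_11 (nat_lit 2) (nat_lit 0x80005800280014001300080000000000000000000000000000000) (nat_lit 0x0) (nat_lit 0x2000100002000000000000000000000000000000000000000000000000) := D_11 (nat_lit 212) (nat_lit 193) (nat_lit 229) (nat_lit 3) (nat_lit 4) (nat_lit 11) (nat_lit 7) (nat_lit 7) (nat_lit 9) (by decide +kernel)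
theorem L37018 : W_11 (nat_lit 3) (nat_lit 0x80005000280014001300080000000000000000000000000000000) (nat_lit 0x0) (nat_lit 0x2000110002800000000000000000000000000000000000000000000000) := T_11 (nat_lit 191) (nat_lit 208) (nat_lit 5) (nat_lit 5) (nat_lit 8) L37017 (by decide +kernel)
theorem L37019 : W_11 (nat_lit 4) (nat_lit 0x5000280014001300080000000000000000000000000000000) (nat_lit 0x0) (nat_lit 0x2000190002800000020000000000000000000000000000000000000000) := T_11 (nat_lit 211) (nat_lit 161) (nat_lit 6) (nat_lit 7) (nat_lit 12) L37018 (by decide +kernel)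
theorem L37020 : W_11 (nat_lit 5) (nat_lit 0x4000280014001300080000000000000000000000000000000) (nat_lit 0x0) (nat_lit 0x2000190003800000020000000008000000000000000000000000000000) := T_11 (nat_lit 192) (nat_lit 123) (nat_lit 4) (nat_lit 5) (nat_lit 11) L37019 (by decide +kernel)
theorem L37021 : W_11 (nat_lit 6) (nat_lit 0x280014001300080000000000000000000000000000000) (nat_lit 0x0) (nat_lit 0x2000190007800000020000800008000000000000000000000000000000) := T_11 (nat_lit 194) (nat_lit 143) (nat_lit 6) (nat_lit 7) (nat_lit 11) L37020 (by decide +kernel)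
theorem L37022 : W_11 (nat_lit 2) (nat_lit 0x1800380034001300080000000000000000000000000000000) (nat_lit 0x0) (nat_lit 0x2600000000000000000000000000000000000000000000000) := D_11 (nat_lit 190) (nat_lit 193) (nat_lit 189) (nat_lit 2) (nat_lit 3) (nat_lit 11) (nat_lit 2) (nat_lit 2) (nat_lit 11) (by decide +kernel)
theorem L37023 : W_11 (nat_lit 3) (nat_lit 0x1000380034001300080000000000000000000000000000000) (nat_lit 0x0) (nat_lit 0x10002e00000000000000000000000000000000000000000000000) := T_11 (nat_lit 191) (nat_lit 208) (nat_lit 5) (nat_lit 5) (nat_lit 8) L37022 (by decide +kernel)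
theorem L37024 : W_11 (nat_lit 4) (nat_lit 0x1000280034001300080000000000000000000000000000000) (nat_lit 0x0) (nat_lit 0x10002e00140000000000000000000000000000000000000000000) := T_11 (nat_lit 176) (nat_lit 174) (nat_lit 2) (nat_lit 4) (nat_lit 10) L37023 (by decide +kernel)
theorem L37025 : W_11 (nat_lit 5) (nat_lit 0x280034001300080000000000000000000000000000000) (nat_lit 0x0) (nat_lit 0x10003e00140000000000008000000000000000000000000000000) := T_11 (nat_lit 192) (nat_lit 123) (nat_lit 4) (nat_lit 5) (nat_lit 11) L37024 (by decide +kernel)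
theorem L37026 : W_11 (nat_lit 6) (nat_lit 0x280014001300080000000000000000000000000000000) (nat_lit 0x0) (nat_lit 0x10003e00140028000000008000000000000000000000000000000) := T_11 (nat_lit 161) (nat_lit 159) (nat_lit 0) (nat_lit 8) (nat_lit 9) L37025 (by decide +kernel)
theorem L37027 : W_11 (nat_lit 2) (nat_lit 0x2c0003402d000380014001300080000000000000000000000000000000) (nat_lit 0x0) (nat_lit 0x40000000180000000000000000000000000000000000000000000000000000) := D_11 (nat_lit 212) (nat_lit 246) (nat_lit 211) (nat_lit 4) (nat_lit 8) (nat_lit 14) (nat_lit 7) (nat_lit 7) (nat_lit 9) (by decide +kernel)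
theorem L37028 : W_11 (nat_lit 3) (nat_lit 0xc0003402d000380014001300080000000000000000000000000000000) (nat_lit 0x0) (nat_lit 0x40003000180000000000000000000000000000000000000000000000000000) := T_11 (nat_lit 229) (nat_lit 228) (nat_lit 0) (nat_lit 8) (nat_lit 13) L37027 (by decide +kernel)
theorem L37029 : W_11 (nat_lit 4) (nat_lit 0xc0003002d000380014001300080000000000000000000000000000000) (nat_lit 0x0) (nat_lit 0x4000300018c000000000000000000000000000000000000000000000000000) := T_11 (nat_lit 206) (nat_lit 207) (nat_lit 3) (nat_lit 2) (nat_lit 12) L37028 (by decide +kernel)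
theorem L37030 : W_11 (nat_lit 5) (nat_lit 0x40003002d000380014001300080000000000000000000000000000000) (nat_lit 0x0) (nat_lit 0x5000380018c000000000000000000000000000000000000000000000000000) := T_11 (nat_lit 227) (nat_lit 244) (nat_lit 7) (nat_lit 5) (nat_lit 10) L37029 (by decide +kernel)
theorem L37031 : W_11 (nat_lit 6) (nat_lit 0x3002d000380014001300080000000000000000000000000000000) (nat_lit 0x0) (nat_lit 0x50003c0018c000000000008000000000000000000000000000000000000000) := T_11 (nat_lit 226) (nat_lit 159) (nat_lit 6) (nat_lit 5) (nat_lit 13) L37030 (by decide +kernel)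
theorem L37032 : W_11 (nat_lit 7) (nat_lit 0x3000d000380014001300080000000000000000000000000000000) (nat_lit 0x0) (nat_lit 0x50003c0018c030000000008000000000000000000000000000000000000000) := T_11 (nat_lit 197) (nat_lit 196) (nat_lit 0) (nat_lit 10) (nat_lit 11) L37031 (by decide +kernel)
theorem L37033 : W_11 (nat_lit 8) (nat_lit 0x3000d000280014001300080000000000000000000000000000000) (nat_lit 0x0) (nat_lit 0x50003c0018c030000140008000000000000000000000000000000000000000) := T_11 (nat_lit 176) (nat_lit 174) (nat_lit 3) (nat_lit 4) (nat_lit 10) L37032 (by decide +kernel)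
theorem L37034 : W_11 (nat_lit 9) (nat_lit 0x30005000280014001300080000000000000000000000000000000) (nat_lit 0x0) (nat_lit 0x50003c0018c03a000140008000000000000000000000000000000000000000) := T_11 (nat_lit 195) (nat_lit 193) (nat_lit 1) (nat_lit 8) (nat_lit 11) L37033 (by decide +kernel)
theorem L37035 : W_11 (nat_lit 10) (nat_lit 0x10005000280014001300080000000000000000000000000000000) (nat_lit 0x0) (nat_lit 0x50003e001ac03a000140008000000000000000000000000000000000000000) := T_11 (nat_lit 209) (nat_lit 225) (nat_lit 5) (nat_lit 5) (nat_lit 9) L37034 (by decide +kernel)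
theorem L37036 : W_11 (nat_lit 11) (nat_lit 0x5000280014001300080000000000000000000000000000000) (nat_lit 0x0) (nat_lit 0x50003e001bc03a800140008000000000000000000000000000000000000000) := T_11 (nat_lit 208) (nat_lit 191) (nat_lit 5) (nat_lit 5) (nat_lit 8) L37035 (by decide +kernel)
theorem L37037 : W_11 (nat_lit 12) (nat_lit 0x1000280014001300080000000000000000000000000000000) (nat_lit 0x0) (nat_lit 0x50003e001bc03e800140008000800000000000000000000000000000000000) := T_11 (nat_lit 194) (nat_lit 143) (nat_lit 6) (nat_lit 7) (nat_lit 11) L37036 (by decide +kernel)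
theorem L37038 : W_11 (nat_lit 13) (nat_lit 0x280014001300080000000000000000000000000000000) (nat_lit 0x0) (nat_lit 0x50003e001bc03f800140008000800008000000000000000000000000000000) := T_11 (nat_lit 192) (nat_lit 123) (nat_lit 4) (nat_lit 5) (nat_lit 11) L37037 (by decide +kernel)
theorem L37039 : W_11 (nat_lit 14) (nat_lit 0x280004001300080000000000000000000000000000000) (nat_lit 0x0) (nat_lit 0x50003e001bc03fe001400f8000800068003000180000000000000000000000) := Q_11 (nat_lit 160) (C_11 L36894 (C_11 L35764 (C_11 L37021 (C_11 L37026 (C_11 L37038 N_11))))) (by decide +kernel)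
theorem L37040 : W_11 (nat_lit 15) (nat_lit 0x280000001300080000000000000000000000000000000) (nat_lit 0x0) (nat_lit 0x51003e801be03ff001780ffc008e006f0037001a8000000000000000000000) := Q_11 (nat_lit 158) (C_11 L37000 (C_11 L37039 (C_11 L36655 (C_11 L36189 N_11)))) (by decide +kernel)
theorem L37041 : W_11 (nat_lit 2) (nat_lit 0x40006000100028001c001340080000000000000000000000000000000) (nat_lit 0x0) (nat_lit 0x4000200010000000000000000000000000000000000000000000000000000) := D_11 (nat_lit 225) (nat_lit 242) (nat_lit 208) (nat_lit 5) (nat_lit 5) (nat_lit 10) (nat_lit 5) (nat_lit 5) (nat_lit 9) (by decide +kernel)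
theorem L37042 : W_11 (nat_lit 3) (nat_lit 0x6000100028001c001340080000000000000000000000000000000) (nat_lit 0x0) (nat_lit 0x4000600010000000100000000000000000000000000000000000000000000) := T_11 (nat_lit 226) (nat_lit 176) (nat_lit 6) (nat_lit 5) (nat_lit 13) L37041 (by decide +kernel)
theorem L37043 : W_11 (nat_lit 4) (nat_lit 0x4000100028001c001340080000000000000000000000000000000) (nat_lit 0x0) (nat_lit 0x4000e00030000000100000000000000000000000000000000000000000000) := T_11 (nat_lit 209) (nat_lit 227) (nat_lit 7) (nat_lit 5) (nat_lit 9) L37042 (by decide +kernel)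
theorem L37044 : W_11 (nat_lit 5) (nat_lit 0x4000100028001c001300080000000000000000000000000000000) (nat_lit 0x0) (nat_lit 0x4000e000300000001000000000c0000000000000000000000000000000000) := T_11 (nat_lit 138) (nat_lit 139) (nat_lit 3) (nat_lit 2) (nat_lit 8) L37043 (by decide +kernel)
theorem L37045 : W_11 (nat_lit 6) (nat_lit 0x100028001c001300080000000000000000000000000000000) (nat_lit 0x0) (nat_lit 0x4000e000700020001000000000c0000000000000000000000000000000000) := T_11 (nat_lit 210) (nat_lit 193) (nat_lit 7) (nat_lit 5) (nat_lit 8) L37044 (by decide +kernel)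
theorem L37046 : W_11 (nat_lit 7) (nat_lit 0x1000280014001300080000000000000000000000000000000) (nat_lit 0x0) (nat_lit 0x4000e000700020001000280000c0000000000000000000000000000000000) := T_11 (nat_lit 159) (nat_lit 161) (nat_lit 0) (nat_lit 8) (nat_lit 9) L37045 (by decide +kernel)
theorem L37047 : W_11 (nat_lit 8) (nat_lit 0x280014001300080000000000000000000000000000000) (nat_lit 0x0) (nat_lit 0x4000e000700030001000280000c0008000000000000000000000000000000) := T_11 (nat_lit 192) (nat_lit 123) (nat_lit 4) (nat_lit 5) (nat_lit 11) L37046 (by decide +kernel)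
theorem L37048 : W_11 (nat_lit 2) (nat_lit 0x1f000280014001300080000000000000000000000000000000) (nat_lit 0x0) (nat_lit 0x700000000000000000000000000000000000000000000000000000) := D_11 (nat_lit 213) (nat_lit 212) (nat_lit 214) (nat_lit 3) (nat_lit 5) (nat_lit 11) (nat_lit 3) (nat_lit 6) (nat_lit 11) (by decide +kernel)
theorem L37049 : W_11 (nat_lit 3) (nat_lit 0xf000280014001300080000000000000000000000000000000) (nat_lit 0x0) (nat_lit 0x700010000100000000000000000000000000000000000000000000) := T_11 (nat_lit 196) (nat_lit 176) (nat_lit 0) (nat_lit 9) (nat_lit 11) L37048 (by decide +kernel)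
theorem L37050 : W_11 (nat_lit 4) (nat_lit 0x7000280014001300080000000000000000000000000000000) (nat_lit 0x0) (nat_lit 0x700018000140000000000000000000000000000000000000000000) := T_11 (nat_lit 195) (nat_lit 174) (nat_lit 0) (nat_lit 8) (nat_lit 11) L37049 (by decide +kernel)
theorem L37051 : W_11 (nat_lit 5) (nat_lit 0x5000280014001300080000000000000000000000000000000) (nat_lit 0x0) (nat_lit 0x74001a000140000000000000000000000000000000000000000000) := T_11 (nat_lit 193) (nat_lit 210) (nat_lit 7) (nat_lit 5) (nat_lit 8) L37050 (by decide +kernel)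
theorem L37052 : W_11 (nat_lit 6) (nat_lit 0x1000280014001300080000000000000000000000000000000) (nat_lit 0x0) (nat_lit 0x74001e000140000000800000000000000000000000000000000000) := T_11 (nat_lit 194) (nat_lit 143) (nat_lit 6) (nat_lit 7) (nat_lit 11) L37051 (by decide +kernel)
theorem L37053 : W_11 (nat_lit 7) (nat_lit 0x280014001300080000000000000000000000000000000) (nat_lit 0x0) (nat_lit 0x74001f000140000000800008000000000000000000000000000000) := T_11 (nat_lit 192) (nat_lit 123) (nat_lit 4) (nat_lit 5) (nat_lit 11) L37052 (by decide +kernel)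
theorem L37054 : W_11 (nat_lit 9) (nat_lit 0x280004001300080000000000000000000000000000000) (nat_lit 0x0) (nat_lit 0x54003e007f001f0001400f80008c0068003000180000000000000000000000) := Q_11 (nat_lit 160) (C_11 L36894 (C_11 L35769 (C_11 L37047 (C_11 L37053 N_11)))) (by decide +kernel)
theorem L37055 : W_11 (nat_lit 2) (nat_lit 0x380016001300080000000000000000000000000000000) (nat_lit 0x0) (nat_lit 0x40001800000000000000000000000000000000000000) := D_11 (nat_lit 156) (nat_lit 155) (nat_lit 174) (nat_lit 3) (nat_lit 2) (nat_lit 9) (nat_lit 0) (nat_lit 7) (nat_lit 10) (by decide +kernel)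
theorem L37056 : W_11 (nat_lit 2) (nat_lit 0x380016001b000c0001400000000000000000000000000) (nat_lit 0x0) (nat_lit 0x2800080000000000000000000000) := D_11 (nat_lit 109) (nat_lit 91) (nat_lit 107) (nat_lit 4) (nat_lit 7) (nat_lit 9) (nat_lit 3) (nat_lit 4) (nat_lit 6) (by decide +kernel)
theorem L37057 : W_11 (nat_lit 3) (nat_lit 0x380016001b000c0000400000000000000000000000000) (nat_lit 0x0) (nat_lit 0x20003800080000000000000000000000) := T_11 (nat_lit 108) (nat_lit 125) (nat_lit 4) (nat_lit 7) (nat_lit 10) L37056 (by decide +kernel)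
theorem L37058 : W_11 (nat_lit 4) (nat_lit 0x380016001b00080000400000000000000000000000000) (nat_lit 0x0) (nat_lit 0x2000000000000000060003800080000000000000000000000) := T_11 (nat_lit 126) (nat_lit 193) (nat_lit 5) (nat_lit 7) (nat_lit 7) L37057 (by decide +kernel)
theorem L37059 : W_11 (nat_lit 5) (nat_lit 0x380016001b00080000000000000000000000000000000) (nat_lit 0x0) (nat_lit 0x2000000000000000068003c00080000000000000000000000) := T_11 (nat_lit 106) (nat_lit 123) (nat_lit 7) (nat_lit 4) (nat_lit 6) L37058 (by decide +kernel)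
theorem L37060 : W_11 (nat_lit 6) (nat_lit 0x380016001300080000000000000000000000000000000) (nat_lit 0x0) (nat_lit 0x6000000000000800068003c00080000000000000000000000) := T_11 (nat_lit 143) (nat_lit 194) (nat_lit 6) (nat_lit 7) (nat_lit 11) L37059 (by decide +kernel)
theorem L37061 : W_11 (nat_lit 7) (nat_lit 0x280016001300080000000000000000000000000000000) (nat_lit 0x0) (nat_lit 0x6000140001800800068003c00080000000000000000000000) := Q_11 (nat_lit 176) (C_11 L37055 (C_11 L37060 N_11)) (by decide +kernel)
theorem L37062 : W_11 (nat_lit 10) (nat_lit 0x280014001300080000000000000000000000000000000) (nat_lit 0x0) (nat_lit 0x620015800bc008e006f003e00080000000000000000000000) := Q_11 (nat_lit 157) (C_11 L35812 (C_11 L37012 (C_11 L37061 N_11))) (by decide +kernel)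
theorem L37063 : W_11 (nat_lit 11) (nat_lit 0x280004001300080000000000000000000000000000000) (nat_lit 0x0) (nat_lit 0x500038001c00062001580fbc008e006f003e00180000000000000000000000) := Q_11 (nat_lit 160) (C_11 L36894 (C_11 L35820 (C_11 L35769 (C_11 L37062 N_11)))) (by decide +kernel)
theorem L37064 : W_11 (nat_lit 2) (nat_lit 0x3000380016001b00080000000000000000000000000000000) (nat_lit 0x0) (nat_lit 0x40001800000000000000000000000000000000000000) := D_11 (nat_lit 156) (nat_lit 155) (nat_lit 174) (nat_lit 3) (nat_lit 2) (nat_lit 9) (nat_lit 0) (nat_lit 7) (nat_lit 10) (by decide +kernel)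
theorem L37065 : W_11 (nat_lit 3) (nat_lit 0x3000280016001b00080000000000000000000000000000000) (nat_lit 0x0) (nat_lit 0x140001800000040000000000000000000000000000000) := T_11 (nat_lit 176) (nat_lit 126) (nat_lit 5) (nat_lit 7) (nat_lit 7) L37064 (by decide +kernel)
theorem L37066 : W_11 (nat_lit 4) (nat_lit 0x1000280016001b00080000000000000000000000000000000) (nat_lit 0x0) (nat_lit 0x40002000140001800000040000000000000000000000000000000) := T_11 (nat_lit 193) (nat_lit 210) (nat_lit 7) (nat_lit 5) (nat_lit 8) L37065 (by decide +kernel)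
theorem L37067 : W_11 (nat_lit 5) (nat_lit 0x280016001b00080000000000000000000000000000000) (nat_lit 0x0) (nat_lit 0x60003000140001800000040000000000000000000000000000000) := T_11 (nat_lit 192) (nat_lit 209) (nat_lit 4) (nat_lit 5) (nat_lit 12) L37066 (by decide +kernel)
theorem L37068 : W_11 (nat_lit 6) (nat_lit 0x280014001b00080000000000000000000000000000000) (nat_lit 0x0) (nat_lit 0x6000300014000b800000040000000000000000000000000000000) := T_11 (nat_lit 157) (nat_lit 159) (nat_lit 2) (nat_lit 4) (nat_lit 9) L37067 (by decide +kernel)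
theorem L37069 : W_11 (nat_lit 7) (nat_lit 0x280014001300080000000000000000000000000000000) (nat_lit 0x0) (nat_lit 0x6000700014000b800800040000000000000000000000000000000) := T_11 (nat_lit 143) (nat_lit 194) (nat_lit 6) (nat_lit 7) (nat_lit 11) L37068 (by decide +kernel)
theorem L37070 : W_11 (nat_lit 9) (nat_lit 0x280004001300080000000000000000000000000000000) (nat_lit 0x0) (nat_lit 0x500038001e00070001400fb8008c0060003000180000000000000000000000) := Q_11 (nat_lit 160) (C_11 L36894 (C_11 L35820 (C_11 L35769 (C_11 L37069 N_11)))) (by decide +kernel)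
theorem L37071 : W_11 (nat_lit 12) (nat_lit 0x280000001300080000000000000000000000000000000) (nat_lit 0x0) (nat_lit 0x54003e007f001f2001580ffc008e006f003e001a0000000000000000000000) := Q_11 (nat_lit 158) (C_11 L37000 (C_11 L37054 (C_11 L37063 (C_11 L37070 N_11)))) (by decide +kernel)
theorem L37072 : W_11 (nat_lit 5) (nat_lit 0x380014001300080000000000000000000000000000000) (nat_lit 0x0) (nat_lit 0xc00060003000000028000000008000000000000000000000000000000) := T_11 (nat_lit 192) (nat_lit 123) (nat_lit 4) (nat_lit 5) (nat_lit 11) L36913 (by decide +kernel)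
theorem L37073 : W_11 (nat_lit 2) (nat_lit 0x14003e0014001300080000000000000000000000000000000) (nat_lit 0x0) (nat_lit 0x40002000010000000000000000000000000000000000000000000) := D_11 (nat_lit 193) (nat_lit 210) (nat_lit 172) (nat_lit 7) (nat_lit 5) (nat_lit 8) (nat_lit 3) (nat_lit 2) (nat_lit 10) (by decide +kernel)
theorem L37074 : W_11 (nat_lit 3) (nat_lit 0x14003c0014001300080000000000000000000000000000000) (nat_lit 0x0) (nat_lit 0x40002200030000000000000000000000000000000000000000000) := T_11 (nat_lit 173) (nat_lit 189) (nat_lit 1) (nat_lit 6) (nat_lit 10) L37073 (by decide +kernel)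
theorem L37075 : W_11 (nat_lit 4) (nat_lit 0x4003c0014001300080000000000000000000000000000000) (nat_lit 0x0) (nat_lit 0x40003200030000000000008000000000000000000000000000000) := T_11 (nat_lit 192) (nat_lit 123) (nat_lit 4) (nat_lit 5) (nat_lit 11) L37074 (by decide +kernel)
theorem L37076 : W_11 (nat_lit 5) (nat_lit 0x3c0014001300080000000000000000000000000000000) (nat_lit 0x0) (nat_lit 0x40003e00030000000000008000000000000000000000000000000) := T_11 (nat_lit 190) (nat_lit 191) (nat_lit 1) (nat_lit 7) (nat_lit 10) L37075 (by decide +kernel)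
theorem L37077 : W_11 (nat_lit 6) (nat_lit 0x380014001300080000000000000000000000000000000) (nat_lit 0x0) (nat_lit 0x40003e00070020000000008000000000000000000000000000000) := T_11 (nat_lit 174) (nat_lit 161) (nat_lit 2) (nat_lit 4) (nat_lit 10) L37076 (by decide +kernel)
theorem L37078 : W_11 (nat_lit 2) (nat_lit 0x600018003c0014001300080000000000000000000000000000000) (nat_lit 0x0) (nat_lit 0x8000400000000000000008000000000000000000000000000000000000000) := D_11 (nat_lit 226) (nat_lit 159) (nat_lit 243) (nat_lit 6) (nat_lit 5) (nat_lit 13) (nat_lit 4) (nat_lit 5) (nat_lit 14) (by decide +kernel)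
theorem L37079 : W_11 (nat_lit 3) (nat_lit 0x400018003c0014001300080000000000000000000000000000000) (nat_lit 0x0) (nat_lit 0x8000c00020000000000008000000000000000000000000000000000000000) := T_11 (nat_lit 209) (nat_lit 227) (nat_lit 7) (nat_lit 5) (nat_lit 9) L37078 (by decide +kernel)
theorem L37080 : W_11 (nat_lit 4) (nat_lit 0x18003c0014001300080000000000000000000000000000000) (nat_lit 0x0) (nat_lit 0x8000c00060002000000008000000000000000000000000000000000000000) := T_11 (nat_lit 210) (nat_lit 193) (nat_lit 7) (nat_lit 5) (nat_lit 8) L37079 (by decide +kernel)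
theorem L37081 : W_11 (nat_lit 5) (nat_lit 0x10003c0014001300080000000000000000000000000000000) (nat_lit 0x0) (nat_lit 0x8000c00060002c00000008000000000000000000000000000000000000000) := T_11 (nat_lit 191) (nat_lit 190) (nat_lit 1) (nat_lit 7) (nat_lit 10) L37080 (by decide +kernel)
theorem L37082 : W_11 (nat_lit 6) (nat_lit 0x3c0014001300080000000000000000000000000000000) (nat_lit 0x0) (nat_lit 0x8000c00060003c00000008000000008000000000000000000000000000000) := T_11 (nat_lit 192) (nat_lit 123) (nat_lit 4) (nat_lit 5) (nat_lit 11) L37081 (by decide +kernel)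
theorem L37083 : W_11 (nat_lit 2) (nat_lit 0x10003e0014001300080000000000000000000000000000000) (nat_lit 0x0) (nat_lit 0x40002000010000000000000000000000000000000000000000000) := D_11 (nat_lit 193) (nat_lit 172) (nat_lit 210) (nat_lit 3) (nat_lit 2) (nat_lit 10) (nat_lit 7) (nat_lit 5) (nat_lit 8) (by decide +kernel)
theorem L37084 : W_11 (nat_lit 3) (nat_lit 0x10003c0014001300080000000000000000000000000000000) (nat_lit 0x0) (nat_lit 0x40002000030008000000000000000000000000000000000000000) := T_11 (nat_lit 173) (nat_lit 159) (nat_lit 2) (nat_lit 3) (nat_lit 10) L37083 (by decide +kernel)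
theorem L37085 : W_11 (nat_lit 4) (nat_lit 0x3c0014001300080000000000000000000000000000000) (nat_lit 0x0) (nat_lit 0x40003000030008000000008000000000000000000000000000000) := T_11 (nat_lit 192) (nat_lit 123) (nat_lit 4) (nat_lit 5) (nat_lit 11) L37084 (by decide +kernel)
theorem L37086 : W_11 (nat_lit 7) (nat_lit 0x380014001300080000000000000000000000000000000) (nat_lit 0x0) (nat_lit 0x8000c00060003f00070009c00000008000000000000000000000000000000) := Q_11 (nat_lit 174) (C_11 L36924 (C_11 L37076 (C_11 L37082 (C_11 L37085 N_11)))) (by decide +kernel)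
theorem L37087 : W_11 (nat_lit 8) (nat_lit 0x280014001300080000000000000000000000000000000) (nat_lit 0x0) (nat_lit 0x8000c00060003f00170029c00000008000000000000000000000000000000) := Q_11 (nat_lit 176) (C_11 L37072 (C_11 L36915 (C_11 L37077 (C_11 L37086 N_11)))) (by decide +kernel)
theorem L37088 : W_11 (nat_lit 9) (nat_lit 0x280004001300080000000000000000000000000000000) (nat_lit 0x0) (nat_lit 0x58003c007e001ff001700f9c00800068003000180000000000000000000000) := Q_11 (nat_lit 160) (C_11 L36894 (C_11 L37053 (C_11 L35769 (C_11 L37087 N_11)))) (by decide +kernel)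
theorem L37089 : W_11 (nat_lit 12) (nat_lit 0x280000001300080000000000000000000000000000000) (nat_lit 0x0) (nat_lit 0x58003c007e001ff001780ffc008e006f003e001a0000000000000000000000) := Q_11 (nat_lit 158) (C_11 L37000 (C_11 L37070 (C_11 L37088 (C_11 L37063 N_11)))) (by decide +kernel)
theorem L37090 : W_11 (nat_lit 13) (nat_lit 0x280000001300080000000000000000000000000000000) (nat_lit 0x0) (nat_lit 0x10000801fe00ff0017803fc008e000f000700028000000000000000000000) := Q_11 (nat_lit 158) (C_11 L37000 (C_11 L36963 (C_11 L36655 (C_11 L36189 N_11)))) (by decide +kernel)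
theorem L37091 : W_11 (nat_lit 8) (nat_lit 0x280014001300080000000000000000000000000000000) (nat_lit 0x0) (nat_lit 0x18006c0016000b80088006c003e00080000000000000000000000) := Q_11 (nat_lit 157) (C_11 L36092 (C_11 L35812 (C_11 L37061 N_11))) (by decide +kernel)
theorem L37092 : W_11 (nat_lit 9) (nat_lit 0x280004001300080000000000000000000000000000000) (nat_lit 0x0) (nat_lit 0x500038001d8006c001600fb8008c006c003e00180000000000000000000000) := Q_11 (nat_lit 160) (C_11 L36894 (C_11 L35820 (C_11 L35769 (C_11 L37091 N_11)))) (by decide +kernel)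
theorem L37093 : W_11 (nat_lit 10) (nat_lit 0x280000001300080000000000000000000000000000000) (nat_lit 0x0) (nat_lit 0x54003e007f801fc001600ff8008c006c003e001a0000000000000000000000) := Q_11 (nat_lit 158) (C_11 L37000 (C_11 L37070 (C_11 L37054 (C_11 L37092 N_11)))) (by decide +kernel)
theorem L37094 : W_11 (nat_lit 16) (nat_lit 0x200000001300080000000000000000000000000000000) (nat_lit 0x0) (nat_lit 0x10000fc007f01ff80ffe03ff039fc0ffe008f006f003f001f8003800000000000000000) := Q_11 (nat_lit 175) (C_11 L35823 (C_11 L35980 (C_11 L36061 (C_11 L36125 (C_11 L36206 (C_11 L36231 (C_11 L36245 (C_11 L36310 (C_11 L36417 (C_11 L36596 (C_11 L36656 (C_11 L36876 (C_11 L36962 (C_11 L37001 (C_11 L37016 (C_11 L37040 (C_11 L37071 (C_11 L37089 (C_11 L37090 (C_11 L37093 N_11)))))))))))))))))))) (by decide +kernel)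
theorem L37095 : W_11 (nat_lit 14) (nat_lit 0x200000001300080000000000000000000000000000000) (nat_lit 0x0) (nat_lit 0x500018003e000cc016f003e001f800a000000000000000000) := Q_11 (nat_lit 142) (C_11 L35750 (C_11 L34341 (C_11 L34340 (C_11 L34311 N_11)))) (by decide +kernel)
theorem L37096 : W_11 (nat_lit 17) (nat_lit 0x200000001200080000000000000000000000000000000) (nat_lit 0x0) (nat_lit 0x10000fc007f01ffc0ffe03ff839fc0ffe00df016f803fc03fe00fe005d000a000000000) := Q_11 (nat_lit 140) (C_11 L34310 (C_11 L34338 (C_11 L34343 (C_11 L34795 (C_11 L34797 (C_11 L35642 (C_11 L35712 (C_11 L35713 (C_11 L35715 (C_11 L35716 (C_11 L35718 (C_11 L35751 (C_11 L35753 (C_11 L37094 (C_11 L37095 N_11))))))))))))))) (by decide +kernel)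
theorem L59841 : W_11 (nat_lit 2) (nat_lit 0x200002001300098000400040000000000000000000000) (nat_lit 0x0) (nat_lit 0x20003000000000000000000) := D_11 (nat_lit 89) (nat_lit 72) (nat_lit 73) (nat_lit 7) (nat_lit 4) (nat_lit 4) (nat_lit 6) (nat_lit 4) (nat_lit 8) (by decide +kernel)
theorem L59842 : W_11 (nat_lit 3) (nat_lit 0x200002001300098000400000000000000000000000000) (nat_lit 0x0) (nat_lit 0x800060003000000000000000000) := T_11 (nat_lit 90) (nat_lit 107) (nat_lit 6) (nat_lit 4) (nat_lit 9) L59841 (by decide +kernel)
theorem L59843 : W_11 (nat_lit 2) (nat_lit 0x2002100038013c009a000680000001000000000000000000) (nat_lit 0x0) (nat_lit 0x2000100008000000000000000000000000000000000000000000) := D_11 (nat_lit 188) (nat_lit 205) (nat_lit 171) (nat_lit 5) (nat_lit 2) (nat_lit 8) (nat_lit 5) (nat_lit 2) (nat_lit 7) (by decide +kernel)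
theorem L59844 : W_11 (nat_lit 3) (nat_lit 0x2100038013c009a000680000001000000000000000000) (nat_lit 0x0) (nat_lit 0x6000300008000000000000000000000000000000000000000000) := T_11 (nat_lit 189) (nat_lit 206) (nat_lit 6) (nat_lit 2) (nat_lit 12) L59843 (by decide +kernel)
theorem L59845 : W_11 (nat_lit 4) (nat_lit 0x2100038013c0098000680000001000000000000000000) (nat_lit 0x0) (nat_lit 0x6000300008000000000003000000000000000000000000000000) := T_11 (nat_lit 121) (nat_lit 120) (nat_lit 0) (nat_lit 5) (nat_lit 8) L59844 (by decide +kernel)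
theorem L59846 : W_11 (nat_lit 5) (nat_lit 0x210003801380098000680000001000000000000000000) (nat_lit 0x0) (nat_lit 0x6000300008000000060003000000000000000000000000000000) := T_11 (nat_lit 138) (nat_lit 137) (nat_lit 2) (nat_lit 1) (nat_lit 8) L59845 (by decide +kernel)
theorem L59847 : W_11 (nat_lit 6) (nat_lit 0x200003801380098000680000001000000000000000000) (nat_lit 0x0) (nat_lit 0x6000300018000000060007000000000000000000000000000000) := T_11 (nat_lit 172) (nat_lit 122) (nat_lit 5) (nat_lit 3) (nat_lit 6) L59846 (by decide +kernel)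
theorem L59848 : W_11 (nat_lit 7) (nat_lit 0x200003801380098000600000001000000000000000000) (nat_lit 0x0) (nat_lit 0x6000300018000000060007000180000000000000000000000000) := T_11 (nat_lit 103) (nat_lit 104) (nat_lit 3) (nat_lit 1) (nat_lit 6) L59847 (by decide +kernel)
theorem L59849 : W_11 (nat_lit 8) (nat_lit 0x200003801380098000400000001000000000000000000) (nat_lit 0x0) (nat_lit 0x6000300018000000060007000380010000000000000000000000) := T_11 (nat_lit 105) (nat_lit 88) (nat_lit 4) (nat_lit 4) (nat_lit 9) L59848 (by decide +kernel)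
theorem L59850 : W_11 (nat_lit 9) (nat_lit 0x200003801300098000400000001000000000000000000) (nat_lit 0x0) (nat_lit 0x60003000180000004e0007000380010000000000000000000000) := T_11 (nat_lit 139) (nat_lit 142) (nat_lit 1) (nat_lit 6) (nat_lit 8) L59849 (by decide +kernel)
theorem L59851 : W_11 (nat_lit 10) (nat_lit 0x200003001300098000400000001000000000000000000) (nat_lit 0x0) (nat_lit 0x6000300018000c004e0007000380010000000000000000000000) := T_11 (nat_lit 155) (nat_lit 154) (nat_lit 2) (nat_lit 1) (nat_lit 9) L59850 (by decide +kernel)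
theorem L59852 : W_11 (nat_lit 11) (nat_lit 0x200002001300098000400000001000000000000000000) (nat_lit 0x0) (nat_lit 0x6000300038001c004e0007000380010000000000000000000000) := T_11 (nat_lit 156) (nat_lit 173) (nat_lit 5) (nat_lit 4) (nat_lit 6) L59851 (by decide +kernel)
theorem L59853 : W_11 (nat_lit 12) (nat_lit 0x200002001300098000400000000000000000000000000) (nat_lit 0x0) (nat_lit 0x6000300038001c004e0007000380030001000000000000000000) := T_11 (nat_lit 72) (nat_lit 89) (nat_lit 7) (nat_lit 4) (nat_lit 4) L59852 (by decide +kernel)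
theorem L59854 : W_11 (nat_lit 2) (nat_lit 0x2002100038013c009a000680040000000000000000000000) (nat_lit 0x0) (nat_lit 0x2000100008000000000000000000000000000000000000000000) := D_11 (nat_lit 188) (nat_lit 171) (nat_lit 205) (nat_lit 5) (nat_lit 2) (nat_lit 7) (nat_lit 5) (nat_lit 2) (nat_lit 8) (by decide +kernel)
theorem L59855 : W_11 (nat_lit 3) (nat_lit 0x2100038013c009a000680040000000000000000000000) (nat_lit 0x0) (nat_lit 0x6000300008000000000000000000000000000000000000000000) := T_11 (nat_lit 189) (nat_lit 206) (nat_lit 6) (nat_lit 2) (nat_lit 12) L59854 (by decide +kernel)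
theorem L59856 : W_11 (nat_lit 4) (nat_lit 0x2100038013c0098000680040000000000000000000000) (nat_lit 0x0) (nat_lit 0x6000300008000000000003000000000000000000000000000000) := T_11 (nat_lit 121) (nat_lit 120) (nat_lit 0) (nat_lit 5) (nat_lit 8) L59855 (by decide +kernel)
theorem L59857 : W_11 (nat_lit 5) (nat_lit 0x2000038013c0098000680040000000000000000000000) (nat_lit 0x0) (nat_lit 0x6000300018000000000007000000000000000000000000000000) := T_11 (nat_lit 172) (nat_lit 122) (nat_lit 5) (nat_lit 3) (nat_lit 6) L59856 (by decide +kernel)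
theorem L59858 : W_11 (nat_lit 6) (nat_lit 0x200003801380098000680040000000000000000000000) (nat_lit 0x0) (nat_lit 0x6000300018000000060007000000000000000000000000000000) := T_11 (nat_lit 138) (nat_lit 137) (nat_lit 2) (nat_lit 1) (nat_lit 8) L59857 (by decide +kernel)
theorem L59859 : W_11 (nat_lit 7) (nat_lit 0x200003801300098000680040000000000000000000000) (nat_lit 0x0) (nat_lit 0x60003000180000004e0007000000000000000000000000000000) := T_11 (nat_lit 139) (nat_lit 142) (nat_lit 1) (nat_lit 6) (nat_lit 8) L59858 (by decide +kernel)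
theorem L59860 : W_11 (nat_lit 8) (nat_lit 0x200003001300098000680040000000000000000000000) (nat_lit 0x0) (nat_lit 0x6000300018000c004e0007000000000000000000000000000000) := T_11 (nat_lit 155) (nat_lit 154) (nat_lit 2) (nat_lit 1) (nat_lit 9) L59859 (by decide +kernel)
theorem L59861 : W_11 (nat_lit 9) (nat_lit 0x200002001300098000680040000000000000000000000) (nat_lit 0x0) (nat_lit 0x6000300038001c004e0007000000000000000000000000000000) := T_11 (nat_lit 156) (nat_lit 173) (nat_lit 5) (nat_lit 4) (nat_lit 6) L59860 (by decide +kernel)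
theorem L59862 : W_11 (nat_lit 10) (nat_lit 0x200002001300098000680000000000000000000000000) (nat_lit 0x0) (nat_lit 0x6000300038001c004e0007000800040000000000000000000000) := T_11 (nat_lit 90) (nat_lit 107) (nat_lit 6) (nat_lit 4) (nat_lit 9) L59861 (by decide +kernel)
theorem L59863 : W_11 (nat_lit 11) (nat_lit 0x200002001300098000600000000000000000000000000) (nat_lit 0x0) (nat_lit 0x6000300038001c004e0007000980040000000000000000000000) := T_11 (nat_lit 103) (nat_lit 104) (nat_lit 3) (nat_lit 1) (nat_lit 6) L59862 (by decide +kernel)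
theorem L59864 : W_11 (nat_lit 12) (nat_lit 0x200002001300098000400000000000000000000000000) (nat_lit 0x0) (nat_lit 0x6000300038001c004e0007000b80050000000000000000000000) := T_11 (nat_lit 105) (nat_lit 88) (nat_lit 4) (nat_lit 4) (nat_lit 9) L59863 (by decide +kernel)
theorem L59865 : W_11 (nat_lit 13) (nat_lit 0x200002001300098000000000000000000000000000000) (nat_lit 0x0) (nat_lit 0x6000300038001c004e0007000f80070003000000000000000000) := Q_11 (nat_lit 106) (C_11 L59842 (C_11 L59853 (C_11 L59864 N_11))) (by decide +kernel)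
theorem L59866 : W_11 (nat_lit 14) (nat_lit 0x200000001300098000000000000000000000000000000) (nat_lit 0x0) (nat_lit 0x6000f00078003c004e0007000f80070003000000000000000000) := Q_11 (nat_lit 157) (C_11 L59865 (C_11 L58204 (C_11 L57282 N_11))) (by decide +kernel)
theorem L59867 : W_11 (nat_lit 2) (nat_lit 0x200002001300098000400020000000000000000000000) (nat_lit 0x0) (nat_lit 0x200010000800000000000000000) := D_11 (nat_lit 88) (nat_lit 105) (nat_lit 71) (nat_lit 4) (nat_lit 4) (nat_lit 9) (nat_lit 4) (nat_lit 4) (nat_lit 8) (by decide +kernel)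
theorem L59868 : W_11 (nat_lit 3) (nat_lit 0x200002001300098000400000000000000000000000000) (nat_lit 0x0) (nat_lit 0x200030001800000000000000000) := T_11 (nat_lit 89) (nat_lit 72) (nat_lit 7) (nat_lit 4) (nat_lit 4) L59867 (by decide +kernel)
theorem L59869 : W_11 (nat_lit 2) (nat_lit 0x20000340130009a000f00008000000000000000000000) (nat_lit 0x0) (nat_lit 0x80004001000000000000000000000000000) := D_11 (nat_lit 122) (nat_lit 108) (nat_lit 139) (nat_lit 2) (nat_lit 2) (nat_lit 7) (nat_lit 4) (nat_lit 3) (nat_lit 9) (by decide +kernel)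
theorem L59870 : W_11 (nat_lit 3) (nat_lit 0x20000340130009a000f00000000000000000000000000) (nat_lit 0x0) (nat_lit 0x8000400100000c000000000000000000000) := T_11 (nat_lit 87) (nat_lit 86) (nat_lit 0) (nat_lit 5) (nat_lit 6) L59869 (by decide +kernel)
theorem L59871 : W_11 (nat_lit 4) (nat_lit 0x200003401300098000f00000000000000000000000000) (nat_lit 0x0) (nat_lit 0x8000700100000c000000000000000000000) := T_11 (nat_lit 121) (nat_lit 120) (nat_lit 1) (nat_lit 5) (nat_lit 6) L59870 (by decide +kernel)
theorem L59872 : W_11 (nat_lit 5) (nat_lit 0x200003401300098000e00000000000000000000000000) (nat_lit 0x0) (nat_lit 0x8000700118000c000000000000000000000) := T_11 (nat_lit 104) (nat_lit 103) (nat_lit 3) (nat_lit 1) (nat_lit 6) L59871 (by decide +kernel)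
theorem L59873 : W_11 (nat_lit 6) (nat_lit 0x200003401300098000c00000000000000000000000000) (nat_lit 0x0) (nat_lit 0x8000700138001c000000000000000000000) := T_11 (nat_lit 105) (nat_lit 88) (nat_lit 4) (nat_lit 4) (nat_lit 9) L59872 (by decide +kernel)
theorem L59874 : W_11 (nat_lit 7) (nat_lit 0x200003401300098000400000000000000000000000000) (nat_lit 0x0) (nat_lit 0x80007001b8005c000000000000000000000) := T_11 (nat_lit 107) (nat_lit 90) (nat_lit 6) (nat_lit 4) (nat_lit 9) L59873 (by decide +kernel)
theorem L59875 : W_11 (nat_lit 8) (nat_lit 0x200003001300098000400000000000000000000000000) (nat_lit 0x0) (nat_lit 0xc00080007001b8005c000000000000000000000) := T_11 (nat_lit 154) (nat_lit 155) (nat_lit 2) (nat_lit 1) (nat_lit 9) L59874 (by decide +kernel)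
theorem L59876 : W_11 (nat_lit 9) (nat_lit 0x200002001300098000400000000000000000000000000) (nat_lit 0x0) (nat_lit 0x20001c00080007001b8005c000000000000000000000) := T_11 (nat_lit 156) (nat_lit 173) (nat_lit 5) (nat_lit 4) (nat_lit 6) L59875 (by decide +kernel)
theorem L59877 : W_11 (nat_lit 10) (nat_lit 0x200002001300098000000000000000000000000000000) (nat_lit 0x0) (nat_lit 0x20001c00080007001f8007c003800000000000000000) := Q_11 (nat_lit 106) (C_11 L59842 (C_11 L59868 (C_11 L59876 N_11))) (by decide +kernel)
theorem L59878 : W_11 (nat_lit 11) (nat_lit 0x200000001300098000000000000000000000000000000) (nat_lit 0x0) (nat_lit 0xc00060003c00080007001f8007c003800000000000000000) := Q_11 (nat_lit 157) (C_11 L59877 (C_11 L57282 (C_11 L58204 N_11))) (by decide +kernel)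
theorem L59879 : W_11 (nat_lit 2) (nat_lit 0x20000000138009e000900008002000000000000000000) (nat_lit 0x0) (nat_lit 0x20001000000000000200000000000000000000000000) := D_11 (nat_lit 156) (nat_lit 105) (nat_lit 173) (nat_lit 4) (nat_lit 3) (nat_lit 9) (nat_lit 4) (nat_lit 3) (nat_lit 10) (by decide +kernel)
theorem L59880 : W_11 (nat_lit 3) (nat_lit 0x20000000138009e000900000002000000000000000000) (nat_lit 0x0) (nat_lit 0x20001000000000000200008000400000000000000000) := T_11 (nat_lit 87) (nat_lit 70) (nat_lit 7) (nat_lit 2) (nat_lit 4) L59879 (by decide +kernel)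
theorem L59881 : W_11 (nat_lit 4) (nat_lit 0x20000000138009e000900000000000000000000000000) (nat_lit 0x0) (nat_lit 0x20001000000000000200048002400000000000000000) := T_11 (nat_lit 73) (nat_lit 90) (nat_lit 5) (nat_lit 5) (nat_lit 4) L59880 (by decide +kernel)
theorem L59882 : W_11 (nat_lit 5) (nat_lit 0x20000000138009e000800000000000000000000000000) (nat_lit 0x0) (nat_lit 0x20001000000000000380048002400000000000000000) := T_11 (nat_lit 104) (nat_lit 103) (nat_lit 0) (nat_lit 5) (nat_lit 7) L59881 (by decide +kernel)
theorem L59883 : W_11 (nat_lit 6) (nat_lit 0x20000000138009e000000000000000000000000000000) (nat_lit 0x0) (nat_lit 0x20001000000000001b80048002400000000000000000) := T_11 (nat_lit 107) (nat_lit 108) (nat_lit 2) (nat_lit 2) (nat_lit 7) L59882 (by decide +kernel)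
theorem L59884 : W_11 (nat_lit 7) (nat_lit 0x20000000138009c000000000000000000000000000000) (nat_lit 0x0) (nat_lit 0x20001000000003001b80048002400000000000000000) := T_11 (nat_lit 121) (nat_lit 120) (nat_lit 3) (nat_lit 1) (nat_lit 7) L59883 (by decide +kernel)
theorem L59885 : W_11 (nat_lit 2) (nat_lit 0x2000008013c009d000200000000000000000000000000) (nat_lit 0x0) (nat_lit 0x200010001000000000000000000000000000000000000000) := D_11 (nat_lit 172) (nat_lit 189) (nat_lit 156) (nat_lit 6) (nat_lit 2) (nat_lit 11) (nat_lit 5) (nat_lit 3) (nat_lit 6) (by decide +kernel)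
theorem L59886 : W_11 (nat_lit 3) (nat_lit 0x2000008013c009d000000000000000000000000000000) (nat_lit 0x0) (nat_lit 0x200010001000000000000200010000000000000000000000) := T_11 (nat_lit 105) (nat_lit 88) (nat_lit 5) (nat_lit 3) (nat_lit 5) L59885 (by decide +kernel)
theorem L59887 : W_11 (nat_lit 4) (nat_lit 0x2000000013c009d000000000000000000000000000000) (nat_lit 0x0) (nat_lit 0x200010001c00000000000200010000000000000000000000) := T_11 (nat_lit 155) (nat_lit 154) (nat_lit 1) (nat_lit 5) (nat_lit 8) L59886 (by decide +kernel)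
theorem L59888 : W_11 (nat_lit 5) (nat_lit 0x20000000138009d000000000000000000000000000000) (nat_lit 0x0) (nat_lit 0x200010001c00060000000200010000000000000000000000) := T_11 (nat_lit 138) (nat_lit 137) (nat_lit 2) (nat_lit 1) (nat_lit 8) L59887 (by decide +kernel)
theorem L59889 : W_11 (nat_lit 6) (nat_lit 0x20000000138009c000000000000000000000000000000) (nat_lit 0x0) (nat_lit 0x200010001c00060003000200010000000000000000000000) := T_11 (nat_lit 120) (nat_lit 121) (nat_lit 3) (nat_lit 1) (nat_lit 7) L59888 (by decide +kernel)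
theorem L59890 : W_11 (nat_lit 2) (nat_lit 0x2000008013c009c000200000000000000000000000000) (nat_lit 0x0) (nat_lit 0x200010001000000000000000000000000000000000000000) := D_11 (nat_lit 172) (nat_lit 189) (nat_lit 156) (nat_lit 6) (nat_lit 2) (nat_lit 11) (nat_lit 5) (nat_lit 3) (nat_lit 6) (by decide +kernel)
theorem L59891 : W_11 (nat_lit 3) (nat_lit 0x2000008013c009c000000000000000000000000000000) (nat_lit 0x0) (nat_lit 0x200010001000000000000200010000000000000000000000) := T_11 (nat_lit 105) (nat_lit 88) (nat_lit 5) (nat_lit 3) (nat_lit 5) L59890 (by decide +kernel)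
theorem L59892 : W_11 (nat_lit 4) (nat_lit 0x2000000013c009c000000000000000000000000000000) (nat_lit 0x0) (nat_lit 0x200010001c00000000000200010000000000000000000000) := T_11 (nat_lit 155) (nat_lit 154) (nat_lit 1) (nat_lit 5) (nat_lit 8) L59891 (by decide +kernel)
theorem L59893 : W_11 (nat_lit 5) (nat_lit 0x20000000138009c000000000000000000000000000000) (nat_lit 0x0) (nat_lit 0x200010001c00060000000200010000000000000000000000) := T_11 (nat_lit 138) (nat_lit 137) (nat_lit 2) (nat_lit 1) (nat_lit 8) L59892 (by decide +kernel)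
theorem L59894 : W_11 (nat_lit 2) (nat_lit 0x2000000013a009e000b000c0000400000000000000000) (nat_lit 0x0) (nat_lit 0x30001000000000000000000) := D_11 (nat_lit 89) (nat_lit 88) (nat_lit 72) (nat_lit 1) (nat_lit 6) (nat_lit 5) (nat_lit 4) (nat_lit 5) (nat_lit 8) (by decide +kernel)
theorem L59895 : W_11 (nat_lit 3) (nat_lit 0x2000000013a009e0009000c0000400000000000000000) (nat_lit 0x0) (nat_lit 0x600030001000000000000000000) := T_11 (nat_lit 105) (nat_lit 106) (nat_lit 2) (nat_lit 2) (nat_lit 6) L59894 (by decide +kernel)
theorem L59896 : W_11 (nat_lit 4) (nat_lit 0x2000000013a009e000900040000400000000000000000) (nat_lit 0x0) (nat_lit 0x6000b0005000000000000000000) := T_11 (nat_lit 91) (nat_lit 74) (nat_lit 6) (nat_lit 5) (nat_lit 8) L59895 (by decide +kernel)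
theorem L59897 : W_11 (nat_lit 5) (nat_lit 0x2000000013a009e000900040000000000000000000000) (nat_lit 0x0) (nat_lit 0x6000b8005400000000000000000) := T_11 (nat_lit 70) (nat_lit 87) (nat_lit 7) (nat_lit 2) (nat_lit 4) L59896 (by decide +kernel)
theorem L59898 : W_11 (nat_lit 6) (nat_lit 0x2000000013a009e000900000000000000000000000000) (nat_lit 0x0) (nat_lit 0x6000f8007400000000000000000) := T_11 (nat_lit 90) (nat_lit 73) (nat_lit 5) (nat_lit 5) (nat_lit 4) L59897 (by decide +kernel)
theorem L59899 : W_11 (nat_lit 7) (nat_lit 0x2000000013a009e000800000000000000000000000000) (nat_lit 0x0) (nat_lit 0x7800f8007400000000000000000) := T_11 (nat_lit 104) (nat_lit 103) (nat_lit 0) (nat_lit 5) (nat_lit 7) L59898 (by decide +kernel)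
theorem L59900 : W_11 (nat_lit 8) (nat_lit 0x2000000013a009e000000000000000000000000000000) (nat_lit 0x0) (nat_lit 0x1f800f8007400000000000000000) := T_11 (nat_lit 107) (nat_lit 108) (nat_lit 2) (nat_lit 2) (nat_lit 7) L59899 (by decide +kernel)
theorem L59901 : W_11 (nat_lit 9) (nat_lit 0x2000000013a009c000000000000000000000000000000) (nat_lit 0x0) (nat_lit 0x3001f800f8007400000000000000000) := T_11 (nat_lit 121) (nat_lit 120) (nat_lit 3) (nat_lit 1) (nat_lit 7) L59900 (by decide +kernel)
theorem L59902 : W_11 (nat_lit 10) (nat_lit 0x20000000138009c000000000000000000000000000000) (nat_lit 0x0) (nat_lit 0x60003001f800f8007400000000000000000) := T_11 (nat_lit 137) (nat_lit 138) (nat_lit 2) (nat_lit 1) (nat_lit 8) L59901 (by decide +kernel)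
theorem L59903 : W_11 (nat_lit 2) (nat_lit 0x2000000013a009e000900060000400000000000000000) (nat_lit 0x0) (nat_lit 0x20001000000000000400000000000000000000000000) := D_11 (nat_lit 156) (nat_lit 173) (nat_lit 106) (nat_lit 4) (nat_lit 3) (nat_lit 10) (nat_lit 5) (nat_lit 4) (nat_lit 5) (by decide +kernel)
theorem L59904 : W_11 (nat_lit 3) (nat_lit 0x2000000013a009e000900040000400000000000000000) (nat_lit 0x0) (nat_lit 0x20001000000000000400020001000000000000000000) := T_11 (nat_lit 89) (nat_lit 72) (nat_lit 4) (nat_lit 5) (nat_lit 8) L59903 (by decide +kernel)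
theorem L59905 : W_11 (nat_lit 4) (nat_lit 0x2000000013a009e000900000000400000000000000000) (nat_lit 0x0) (nat_lit 0x20001000000000000400060003000000000000000000) := T_11 (nat_lit 90) (nat_lit 73) (nat_lit 5) (nat_lit 5) (nat_lit 4) L59904 (by decide +kernel)
theorem L59906 : W_11 (nat_lit 5) (nat_lit 0x2000000013a009e000900000000000000000000000000) (nat_lit 0x0) (nat_lit 0x20001000000000000400068003400000000000000000) := T_11 (nat_lit 70) (nat_lit 87) (nat_lit 7) (nat_lit 2) (nat_lit 4) L59905 (by decide +kernel)
theorem L59907 : W_11 (nat_lit 6) (nat_lit 0x2000000013a009e000100000000000000000000000000) (nat_lit 0x0) (nat_lit 0x20001000000000001c00068003400000000000000000) := T_11 (nat_lit 107) (nat_lit 108) (nat_lit 2) (nat_lit 2) (nat_lit 7) L59906 (by decide +kernel)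
theorem L59908 : W_11 (nat_lit 7) (nat_lit 0x2000000013a009e000000000000000000000000000000) (nat_lit 0x0) (nat_lit 0x20001000000000001d80068003400000000000000000) := T_11 (nat_lit 104) (nat_lit 103) (nat_lit 0) (nat_lit 5) (nat_lit 7) L59907 (by decide +kernel)
theorem L59909 : W_11 (nat_lit 8) (nat_lit 0x20000000138009e000000000000000000000000000000) (nat_lit 0x0) (nat_lit 0x20001000060000001d80068003400000000000000000) := T_11 (nat_lit 137) (nat_lit 138) (nat_lit 2) (nat_lit 1) (nat_lit 8) L59908 (by decide +kernel)
theorem L59910 : W_11 (nat_lit 9) (nat_lit 0x20000000138009c000000000000000000000000000000) (nat_lit 0x0) (nat_lit 0x20001000060003001d80068003400000000000000000) := T_11 (nat_lit 121) (nat_lit 120) (nat_lit 3) (nat_lit 1) (nat_lit 7) L59909 (by decide +kernel)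
theorem L59911 : W_11 (nat_lit 11) (nat_lit 0x200000001380098000000000000000000000000000000) (nat_lit 0x0) (nat_lit 0x200030001c00060007001f800f8007400000000000000000) := Q_11 (nat_lit 122) (C_11 L59884 (C_11 L59889 (C_11 L59893 (C_11 L59902 (C_11 L59910 N_11))))) (by decide +kernel)
theorem L59912 : W_11 (nat_lit 2) (nat_lit 0x2000000017c0098000000000000000000000000000000) (nat_lit 0x0) (nat_lit 0x1c00000000000000000000000000000000000000) := D_11 (nat_lit 155) (nat_lit 154) (nat_lit 156) (nat_lit 1) (nat_lit 5) (nat_lit 8) (nat_lit 1) (nat_lit 6) (nat_lit 8) (by decide +kernel)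
theorem L59913 : W_11 (nat_lit 3) (nat_lit 0x2000000013c0098000000000000000000000000000000) (nat_lit 0x0) (nat_lit 0x1c00c00000000000000000000000000000000000) := T_11 (nat_lit 142) (nat_lit 143) (nat_lit 0) (nat_lit 8) (nat_lit 8) L59912 (by decide +kernel)
theorem L59914 : W_11 (nat_lit 4) (nat_lit 0x200000001380098000000000000000000000000000000) (nat_lit 0x0) (nat_lit 0x1c00c60000000000000000000000000000000000) := T_11 (nat_lit 138) (nat_lit 137) (nat_lit 2) (nat_lit 1) (nat_lit 8) L59913 (by decide +kernel)
theorem L59915 : W_11 (nat_lit 2) (nat_lit 0x20000100178009c000000000000000000000000000000) (nat_lit 0x0) (nat_lit 0x20000000000000000400020000000000000000000000) := D_11 (nat_lit 106) (nat_lit 89) (nat_lit 173) (nat_lit 5) (nat_lit 4) (nat_lit 5) (nat_lit 6) (nat_lit 3) (nat_lit 10) (by decide +kernel)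
theorem L59916 : W_11 (nat_lit 3) (nat_lit 0x20000000178009c000000000000000000000000000000) (nat_lit 0x0) (nat_lit 0x20001800000000000400020000000000000000000000) := T_11 (nat_lit 156) (nat_lit 155) (nat_lit 1) (nat_lit 6) (nat_lit 8) L59915 (by decide +kernel)
theorem L59917 : W_11 (nat_lit 4) (nat_lit 0x200000001780098000000000000000000000000000000) (nat_lit 0x0) (nat_lit 0x20001800000006000400020000000000000000000000) := T_11 (nat_lit 122) (nat_lit 121) (nat_lit 3) (nat_lit 2) (nat_lit 7) L59916 (by decide +kernel)
theorem L59918 : W_11 (nat_lit 5) (nat_lit 0x200000001380098000000000000000000000000000000) (nat_lit 0x0) (nat_lit 0x20001800c00006000400020000000000000000000000) := T_11 (nat_lit 142) (nat_lit 143) (nat_lit 0) (nat_lit 8) (nat_lit 8) L59917 (by decide +kernel)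
theorem L59919 : W_11 (nat_lit 2) (nat_lit 0x20000000178009a000000000000000000000000000000) (nat_lit 0x0) (nat_lit 0x60001000000000000000000000000000000) := D_11 (nat_lit 138) (nat_lit 120) (nat_lit 137) (nat_lit 0) (nat_lit 5) (nat_lit 8) (nat_lit 2) (nat_lit 1) (nat_lit 8) (by decide +kernel)
theorem L59920 : W_11 (nat_lit 3) (nat_lit 0x200000001780098000000000000000000000000000000) (nat_lit 0x0) (nat_lit 0x60007000000000000000000000000000000) := T_11 (nat_lit 121) (nat_lit 122) (nat_lit 3) (nat_lit 2) (nat_lit 7) L59919 (by decide +kernel)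
theorem L59921 : W_11 (nat_lit 4) (nat_lit 0x200000001380098000000000000000000000000000000) (nat_lit 0x0) (nat_lit 0xc60007000000000000000000000000000000) := T_11 (nat_lit 142) (nat_lit 143) (nat_lit 0) (nat_lit 8) (nat_lit 8) L59920 (by decide +kernel)
theorem L59922 : W_11 (nat_lit 12) (nat_lit 0x200000001300098000000000000000000000000000000) (nat_lit 0x0) (nat_lit 0x200030001c00ce0007001f800f8007400000000000000000) := Q_11 (nat_lit 139) (C_11 L59911 (C_11 L59914 (C_11 L59918 (C_11 L59921 N_11)))) (by decide +kernel)
theorem L59923 : W_11 (nat_lit 2) (nat_lit 0x40002c0002001b00098000000000000000000000000000000) (nat_lit 0x0) (nat_lit 0x8000100001000000000000000000000000000000000000000) := D_11 (nat_lit 176) (nat_lit 195) (nat_lit 156) (nat_lit 3) (nat_lit 4) (nat_lit 10) (nat_lit 0) (nat_lit 7) (nat_lit 10) (by decide +kernel)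
theorem L59924 : W_11 (nat_lit 3) (nat_lit 0x4000240002001b00098000000000000000000000000000000) (nat_lit 0x0) (nat_lit 0x9000180001000000000000000000000000000000000000000) := T_11 (nat_lit 175) (nat_lit 192) (nat_lit 7) (nat_lit 4) (nat_lit 7) L59923 (by decide +kernel)
theorem L59925 : W_11 (nat_lit 4) (nat_lit 0x240002001b00098000000000000000000000000000000) (nat_lit 0x0) (nat_lit 0xd000180011000000000000000000000000000000000000000) := T_11 (nat_lit 194) (nat_lit 160) (nat_lit 6) (nat_lit 7) (nat_lit 11) L59924 (by decide +kernel)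
theorem L59926 : W_11 (nat_lit 5) (nat_lit 0x200002001b00098000000000000000000000000000000) (nat_lit 0x0) (nat_lit 0xd8001c0011000000000000000000000000000000000000000) := T_11 (nat_lit 174) (nat_lit 191) (nat_lit 6) (nat_lit 4) (nat_lit 11) L59925 (by decide +kernel)
theorem L59927 : W_11 (nat_lit 6) (nat_lit 0x200002001300098000000000000000000000000000000) (nat_lit 0x0) (nat_lit 0xd8001c0011000c00000000000000000000000000000000000) := T_11 (nat_lit 143) (nat_lit 142) (nat_lit 0) (nat_lit 8) (nat_lit 8) L59926 (by decide +kernel)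
theorem L59928 : W_11 (nat_lit 2) (nat_lit 0x20000000138009a000000000000000000000000000000) (nat_lit 0x0) (nat_lit 0x60001000000000000000000000000000000) := D_11 (nat_lit 138) (nat_lit 120) (nat_lit 137) (nat_lit 0) (nat_lit 5) (nat_lit 8) (nat_lit 2) (nat_lit 1) (nat_lit 8) (by decide +kernel)
theorem L59929 : W_11 (nat_lit 2) (nat_lit 0x20000100178009a000400000000000000000000000000) (nat_lit 0x0) (nat_lit 0x400020002000000000000000000000000000000000000000) := D_11 (nat_lit 173) (nat_lit 190) (nat_lit 157) (nat_lit 6) (nat_lit 3) (nat_lit 11) (nat_lit 5) (nat_lit 4) (nat_lit 6) (by decide +kernel)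
theorem L59930 : W_11 (nat_lit 3) (nat_lit 0x20000100178009a000000000000000000000000000000) (nat_lit 0x0) (nat_lit 0x400020002000000000000400020000000000000000000000) := T_11 (nat_lit 106) (nat_lit 89) (nat_lit 5) (nat_lit 4) (nat_lit 5) L59929 (by decide +kernel)
theorem L59931 : W_11 (nat_lit 4) (nat_lit 0x20000000178009a000000000000000000000000000000) (nat_lit 0x0) (nat_lit 0x400020003800000000000400020000000000000000000000) := T_11 (nat_lit 156) (nat_lit 155) (nat_lit 1) (nat_lit 6) (nat_lit 8) L59930 (by decide +kernel)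
theorem L59932 : W_11 (nat_lit 5) (nat_lit 0x20000000138009a000000000000000000000000000000) (nat_lit 0x0) (nat_lit 0x400020003800c00000000400020000000000000000000000) := T_11 (nat_lit 142) (nat_lit 143) (nat_lit 0) (nat_lit 8) (nat_lit 8) L59931 (by decide +kernel)
theorem L59933 : W_11 (nat_lit 6) (nat_lit 0x20000000130009a000000000000000000000000000000) (nat_lit 0x0) (nat_lit 0x400020003800ce0001000400020000000000000000000000) := Q_11 (nat_lit 139) (C_11 L59928 (C_11 L59932 N_11)) (by decide +kernel)
theorem L59934 : W_11 (nat_lit 2) (nat_lit 0x20000000130009a000000000000000000000000000000) (nat_lit 0x0) (nat_lit 0xc00004000000000000000000000000000000) := D_11 (nat_lit 142) (nat_lit 143) (nat_lit 122) (nat_lit 0) (nat_lit 8) (nat_lit 8) (nat_lit 3) (nat_lit 2) (nat_lit 7) (by decide +kernel)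
theorem L59935 : W_11 (nat_lit 2) (nat_lit 0x20000000134009a000000000000000000000000000000) (nat_lit 0x0) (nat_lit 0x20005000000000000000000000000000000) := D_11 (nat_lit 122) (nat_lit 120) (nat_lit 137) (nat_lit 3) (nat_lit 1) (nat_lit 7) (nat_lit 1) (nat_lit 5) (nat_lit 7) (by decide +kernel)
theorem L59936 : W_11 (nat_lit 2) (nat_lit 0x20000000134009a000000000000000000000000000000) (nat_lit 0x0) (nat_lit 0xa0001000000000000000000000000000000) := D_11 (nat_lit 139) (nat_lit 120) (nat_lit 137) (nat_lit 0) (nat_lit 5) (nat_lit 8) (nat_lit 2) (nat_lit 1) (nat_lit 8) (by decide +kernel)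
theorem L59937 : W_11 (nat_lit 2) (nat_lit 0x20000000134009a000000000000000000000000000000) (nat_lit 0x0) (nat_lit 0xa0004000000000000000000000000000000) := D_11 (nat_lit 137) (nat_lit 122) (nat_lit 139) (nat_lit 1) (nat_lit 5) (nat_lit 7) (nat_lit 2) (nat_lit 1) (nat_lit 8) (by decide +kernel)
theorem L59938 : W_11 (nat_lit 2) (nat_lit 0x20000000134009a000000000000000000000000000000) (nat_lit 0x0) (nat_lit 0x80005000000000000000000000000000000) := D_11 (nat_lit 120) (nat_lit 122) (nat_lit 139) (nat_lit 3) (nat_lit 1) (nat_lit 7) (nat_lit 0) (nat_lit 5) (nat_lit 8) (by decide +kernel)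
theorem L59939 : W_11 (nat_lit 3) (nat_lit 0x20000000130009a000000000000000000000000000000) (nat_lit 0x0) (nat_lit 0xe0005000000000000000000000000000000) := Q_11 (nat_lit 138) (C_11 L59935 (C_11 L59936 (C_11 L59937 (C_11 L59938 N_11)))) (by decide +kernel)
theorem L59940 : W_11 (nat_lit 7) (nat_lit 0x200000001300098000000000000000000000000000000) (nat_lit 0x0) (nat_lit 0x400020003800ce0007000400020000000000000000000000) := Q_11 (nat_lit 121) (C_11 L59933 (C_11 L59934 (C_11 L59939 N_11))) (by decide +kernel)
theorem L59941 : W_11 (nat_lit 2) (nat_lit 0x200002001380098000000000000000000000000000000) (nat_lit 0x0) (nat_lit 0x40000000000000000800040000000000000000000000) := D_11 (nat_lit 107) (nat_lit 90) (nat_lit 174) (nat_lit 5) (nat_lit 5) (nat_lit 5) (nat_lit 6) (nat_lit 4) (nat_lit 10) (by decide +kernel)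
theorem L59942 : W_11 (nat_lit 2) (nat_lit 0x3e00020013a0098000000000000000000000000000000) (nat_lit 0x0) (nat_lit 0xe000000000000000000000000000000000000000000000000) := D_11 (nat_lit 194) (nat_lit 195) (nat_lit 193) (nat_lit 3) (nat_lit 4) (nat_lit 10) (nat_lit 3) (nat_lit 3) (nat_lit 10) (by decide +kernel)
theorem L59943 : W_11 (nat_lit 3) (nat_lit 0x2e00020013a0098000000000000000000000000000000) (nat_lit 0x0) (nat_lit 0xe000100001000000000000000000000000000000000000000) := T_11 (nat_lit 176) (nat_lit 156) (nat_lit 0) (nat_lit 7) (nat_lit 10) L59942 (by decide +kernel)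
theorem L59944 : W_11 (nat_lit 4) (nat_lit 0x2600020013a0098000000000000000000000000000000) (nat_lit 0x0) (nat_lit 0xf000180001000000000000000000000000000000000000000) := T_11 (nat_lit 175) (nat_lit 192) (nat_lit 7) (nat_lit 4) (nat_lit 7) L59943 (by decide +kernel)
theorem L59945 : W_11 (nat_lit 5) (nat_lit 0x2400020013a0098000000000000000000000000000000) (nat_lit 0x0) (nat_lit 0xf4001a0001000000000000000000000000000000000000000) := T_11 (nat_lit 173) (nat_lit 190) (nat_lit 5) (nat_lit 4) (nat_lit 7) L59944 (by decide +kernel)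
theorem L59946 : W_11 (nat_lit 6) (nat_lit 0x2000020013a0098000000000000000000000000000000) (nat_lit 0x0) (nat_lit 0xfc001e0001000000000000000000000000000000000000000) := T_11 (nat_lit 174) (nat_lit 191) (nat_lit 6) (nat_lit 4) (nat_lit 11) L59945 (by decide +kernel)
theorem L59947 : W_11 (nat_lit 7) (nat_lit 0x200002001380098000000000000000000000000000000) (nat_lit 0x0) (nat_lit 0xfc001e0001000060000000000000000000000000000000000) := T_11 (nat_lit 137) (nat_lit 138) (nat_lit 2) (nat_lit 1) (nat_lit 8) L59946 (by decide +kernel)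
theorem L59948 : W_11 (nat_lit 2) (nat_lit 0x2000028013c009e000800000000000000000000000000) (nat_lit 0x0) (nat_lit 0x10000000000000000200010000000000000000000000) := D_11 (nat_lit 105) (nat_lit 88) (nat_lit 172) (nat_lit 7) (nat_lit 3) (nat_lit 5) (nat_lit 6) (nat_lit 2) (nat_lit 10) (by decide +kernel)
theorem L59949 : W_11 (nat_lit 3) (nat_lit 0x2000028013c009a000800000000000000000000000000) (nat_lit 0x0) (nat_lit 0x10000000000004001200010000000000000000000000) := T_11 (nat_lit 122) (nat_lit 108) (nat_lit 2) (nat_lit 2) (nat_lit 7) L59948 (by decide +kernel)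
theorem L59950 : W_11 (nat_lit 4) (nat_lit 0x2000028013c0098000800000000000000000000000000) (nat_lit 0x0) (nat_lit 0x10000000000007001200010000000000000000000000) := T_11 (nat_lit 121) (nat_lit 120) (nat_lit 0) (nat_lit 5) (nat_lit 8) L59949 (by decide +kernel)
theorem L59951 : W_11 (nat_lit 5) (nat_lit 0x2000020013c0098000800000000000000000000000000) (nat_lit 0x0) (nat_lit 0x10000c00000007001200010000000000000000000000) := T_11 (nat_lit 155) (nat_lit 154) (nat_lit 1) (nat_lit 5) (nat_lit 8) L59950 (by decide +kernel)
theorem L59952 : W_11 (nat_lit 6) (nat_lit 0x200002001380098000800000000000000000000000000) (nat_lit 0x0) (nat_lit 0x10000c00060007001200010000000000000000000000) := T_11 (nat_lit 138) (nat_lit 137) (nat_lit 2) (nat_lit 1) (nat_lit 8) L59951 (by decide +kernel)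
theorem L59953 : W_11 (nat_lit 7) (nat_lit 0x200002001380098000000000000000000000000000000) (nat_lit 0x0) (nat_lit 0x10000c00060007001a00050000000000000000000000) := T_11 (nat_lit 107) (nat_lit 90) (nat_lit 5) (nat_lit 5) (nat_lit 5) L59952 (by decide +kernel)
theorem L59954 : W_11 (nat_lit 8) (nat_lit 0x200000001380098000000000000000000000000000000) (nat_lit 0x0) (nat_lit 0xfc001f0003c00060007001a00050000000000000000000000) := Q_11 (nat_lit 157) (C_11 L59941 (C_11 L59947 (C_11 L59953 N_11))) (by decide +kernel)
theorem L59955 : W_11 (nat_lit 2) (nat_lit 0x27000100178009c000000000000000000000000000000) (nat_lit 0x0) (nat_lit 0x2000000000000a00000000000000000000000000) := D_11 (nat_lit 157) (nat_lit 105) (nat_lit 107) (nat_lit 7) (nat_lit 3) (nat_lit 6) (nat_lit 6) (nat_lit 4) (nat_lit 10) (by decide +kernel)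
theorem L59956 : W_11 (nat_lit 3) (nat_lit 0x23000100178009c000000000000000000000000000000) (nat_lit 0x0) (nat_lit 0x800040002000000000000a00000000000000000000000000) := T_11 (nat_lit 174) (nat_lit 191) (nat_lit 7) (nat_lit 3) (nat_lit 7) L59955 (by decide +kernel)
theorem L59957 : W_11 (nat_lit 4) (nat_lit 0x22000100178009c000000000000000000000000000000) (nat_lit 0x0) (nat_lit 0xa00050002000000000000a00000000000000000000000000) := T_11 (nat_lit 172) (nat_lit 189) (nat_lit 5) (nat_lit 3) (nat_lit 7) L59956 (by decide +kernel)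
theorem L59958 : W_11 (nat_lit 5) (nat_lit 0x20000100178009c000000000000000000000000000000) (nat_lit 0x0) (nat_lit 0xe00070002000000000000a00000000000000000000000000) := T_11 (nat_lit 173) (nat_lit 190) (nat_lit 6) (nat_lit 3) (nat_lit 11) L59957 (by decide +kernel)
theorem L59959 : W_11 (nat_lit 6) (nat_lit 0x20000000178009c000000000000000000000000000000) (nat_lit 0x0) (nat_lit 0xe00070003800000000000a00000000000000000000000000) := T_11 (nat_lit 156) (nat_lit 155) (nat_lit 1) (nat_lit 6) (nat_lit 8) L59958 (by decide +kernel)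
theorem L59960 : W_11 (nat_lit 7) (nat_lit 0x200000001780098000000000000000000000000000000) (nat_lit 0x0) (nat_lit 0xe00070003800000006000a00000000000000000000000000) := T_11 (nat_lit 122) (nat_lit 121) (nat_lit 3) (nat_lit 2) (nat_lit 7) L59959 (by decide +kernel)
theorem L59961 : W_11 (nat_lit 8) (nat_lit 0x200000001380098000000000000000000000000000000) (nat_lit 0x0) (nat_lit 0xe00070003800c00006000a00000000000000000000000000) := T_11 (nat_lit 142) (nat_lit 143) (nat_lit 0) (nat_lit 8) (nat_lit 8) L59960 (by decide +kernel)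
theorem L59962 : W_11 (nat_lit 9) (nat_lit 0x200000001300098000000000000000000000000000000) (nat_lit 0x0) (nat_lit 0xfe001f0003c00ce0007001a00050000000000000000000000) := Q_11 (nat_lit 139) (C_11 L59954 (C_11 L59921 (C_11 L59914 (C_11 L59961 N_11)))) (by decide +kernel)
theorem L59963 : W_11 (nat_lit 2) (nat_lit 0x4000200003401b0009a001f00100000000000000000000000) (nat_lit 0x0) (nat_lit 0x40002000200000000000000000000000) := D_11 (nat_lit 109) (nat_lit 126) (nat_lit 93) (nat_lit 3) (nat_lit 4) (nat_lit 6) (nat_lit 2) (nat_lit 4) (nat_lit 6) (by decide +kernel)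
theorem L59964 : W_11 (nat_lit 3) (nat_lit 0x4000200003401b0009a001f00000000000000000000000000) (nat_lit 0x0) (nat_lit 0x40002000380000000000000000000000) := T_11 (nat_lit 92) (nat_lit 91) (nat_lit 2) (nat_lit 3) (nat_lit 6) L59963 (by decide +kernel)
theorem L59965 : W_11 (nat_lit 4) (nat_lit 0x4000200003401b0009a000f00000000000000000000000000) (nat_lit 0x0) (nat_lit 0x44003000380000000000000000000000) := T_11 (nat_lit 108) (nat_lit 122) (nat_lit 2) (nat_lit 2) (nat_lit 7) L59964 (by decide +kernel)
theorem L59966 : W_11 (nat_lit 5) (nat_lit 0x4000200003401b00098000f00000000000000000000000000) (nat_lit 0x0) (nat_lit 0x47003000380000000000000000000000) := T_11 (nat_lit 121) (nat_lit 120) (nat_lit 1) (nat_lit 5) (nat_lit 6) L59965 (by decide +kernel)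
theorem L59967 : W_11 (nat_lit 6) (nat_lit 0x4000200003401b00098000e00000000000000000000000000) (nat_lit 0x0) (nat_lit 0x47003180380000000000000000000000) := T_11 (nat_lit 104) (nat_lit 103) (nat_lit 3) (nat_lit 1) (nat_lit 6) L59966 (by decide +kernel)
theorem L59968 : W_11 (nat_lit 7) (nat_lit 0x4000200003401b00098000c00000000000000000000000000) (nat_lit 0x0) (nat_lit 0x47003380390000000000000000000000) := T_11 (nat_lit 105) (nat_lit 88) (nat_lit 4) (nat_lit 4) (nat_lit 9) L59967 (by decide +kernel)
theorem L59969 : W_11 (nat_lit 8) (nat_lit 0x4000200003001b00098000c00000000000000000000000000) (nat_lit 0x0) (nat_lit 0xc00000047003380390000000000000000000000) := T_11 (nat_lit 154) (nat_lit 155) (nat_lit 2) (nat_lit 1) (nat_lit 9) L59968 (by decide +kernel)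
theorem L59970 : W_11 (nat_lit 9) (nat_lit 0x4000200002001b00098000c00000000000000000000000000) (nat_lit 0x0) (nat_lit 0x20001c00000047003380390000000000000000000000) := T_11 (nat_lit 156) (nat_lit 173) (nat_lit 5) (nat_lit 4) (nat_lit 6) L59969 (by decide +kernel)
theorem L59971 : W_11 (nat_lit 10) (nat_lit 0x4000200002001b00098000400000000000000000000000000) (nat_lit 0x0) (nat_lit 0x20001c00000047003b803d0000000000000000000000) := T_11 (nat_lit 107) (nat_lit 90) (nat_lit 6) (nat_lit 4) (nat_lit 9) L59970 (by decide +kernel)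
theorem L59972 : W_11 (nat_lit 11) (nat_lit 0x200002001b00098000400000000000000000000000000) (nat_lit 0x0) (nat_lit 0x4000020011c00000047003b803d0000000000000000000000) := T_11 (nat_lit 194) (nat_lit 160) (nat_lit 6) (nat_lit 7) (nat_lit 11) L59971 (by decide +kernel)
theorem L59973 : W_11 (nat_lit 12) (nat_lit 0x200002001300098000400000000000000000000000000) (nat_lit 0x0) (nat_lit 0x4000020011c00c00047003b803d0000000000000000000000) := T_11 (nat_lit 143) (nat_lit 142) (nat_lit 0) (nat_lit 8) (nat_lit 8) L59972 (by decide +kernel)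
theorem L59974 : W_11 (nat_lit 13) (nat_lit 0x200002001300098000000000000000000000000000000) (nat_lit 0x0) (nat_lit 0x4000020011c00c00047003f803f0003800000000000000000) := Q_11 (nat_lit 106) (C_11 L59868 (C_11 L59973 (C_11 L59842 N_11))) (by decide +kernel)
theorem L59975 : W_11 (nat_lit 14) (nat_lit 0x200000001300098000000000000000000000000000000) (nat_lit 0x0) (nat_lit 0xdc001e0013c00c00047003f803f0003800000000000000000) := Q_11 (nat_lit 157) (C_11 L59974 (C_11 L59927 (C_11 L57282 (C_11 L58204 N_11)))) (by decide +kernel)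
theorem L59976 : W_11 (nat_lit 2) (nat_lit 0x200003001700098000c00000000000000000000000000) (nat_lit 0x0) (nat_lit 0xc00080000000000000000000000000000000000) := D_11 (nat_lit 155) (nat_lit 154) (nat_lit 139) (nat_lit 2) (nat_lit 1) (nat_lit 9) (nat_lit 1) (nat_lit 6) (nat_lit 8) (by decide +kernel)
theorem L59977 : W_11 (nat_lit 3) (nat_lit 0x200002001700098000c00000000000000000000000000) (nat_lit 0x0) (nat_lit 0x20001c00080000000000000000000000000000000000) := T_11 (nat_lit 156) (nat_lit 173) (nat_lit 5) (nat_lit 4) (nat_lit 6) L59976 (by decide +kernel)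
theorem L59978 : W_11 (nat_lit 4) (nat_lit 0x200002001700098000400000000000000000000000000) (nat_lit 0x0) (nat_lit 0x20001c00080000000800040000000000000000000000) := T_11 (nat_lit 107) (nat_lit 90) (nat_lit 6) (nat_lit 4) (nat_lit 9) L59977 (by decide +kernel)
theorem L59979 : W_11 (nat_lit 5) (nat_lit 0x200002001300098000400000000000000000000000000) (nat_lit 0x0) (nat_lit 0x20001c00c80000000800040000000000000000000000) := T_11 (nat_lit 142) (nat_lit 143) (nat_lit 0) (nat_lit 8) (nat_lit 8) L59978 (by decide +kernel)
theorem L59980 : W_11 (nat_lit 6) (nat_lit 0x200002001300098000000000000000000000000000000) (nat_lit 0x0) (nat_lit 0x20001c00c80000000e00070001800000000000000000) := Q_11 (nat_lit 106) (C_11 L59868 (C_11 L59979 N_11)) (by decide +kernel)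
theorem L59981 : W_11 (nat_lit 7) (nat_lit 0x200000001300098000000000000000000000000000000) (nat_lit 0x0) (nat_lit 0xdc001e0013c00c80004000e00070001800000000000000000) := Q_11 (nat_lit 157) (C_11 L59980 (C_11 L59927 (C_11 L57282 (C_11 L58204 N_11)))) (by decide +kernel)
theorem L59982 : W_11 (nat_lit 2) (nat_lit 0x4000200002001b0009e000f00008000000000000000000000) (nat_lit 0x0) (nat_lit 0x80000000000000000400020000000000000) := D_11 (nat_lit 70) (nat_lit 139) (nat_lit 53) (nat_lit 7) (nat_lit 2) (nat_lit 4) (nat_lit 7) (nat_lit 2) (nat_lit 3) (by decide +kernel)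
theorem L59983 : W_11 (nat_lit 3) (nat_lit 0x4000200002001b0009a000f00008000000000000000000000) (nat_lit 0x0) (nat_lit 0x80004001000000000400020000000000000) := T_11 (nat_lit 122) (nat_lit 108) (nat_lit 2) (nat_lit 2) (nat_lit 7) L59982 (by decide +kernel)
theorem L59984 : W_11 (nat_lit 4) (nat_lit 0x4000200002001b0009a000f00000000000000000000000000) (nat_lit 0x0) (nat_lit 0x8000400100000c000400020000000000000) := T_11 (nat_lit 87) (nat_lit 86) (nat_lit 0) (nat_lit 5) (nat_lit 6) L59983 (by decide +kernel)
theorem L59985 : W_11 (nat_lit 5) (nat_lit 0x4000200002001b00098000f00000000000000000000000000) (nat_lit 0x0) (nat_lit 0x8000700100000c000400020000000000000) := T_11 (nat_lit 121) (nat_lit 120) (nat_lit 1) (nat_lit 5) (nat_lit 6) L59984 (by decide +kernel)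
theorem L59986 : W_11 (nat_lit 6) (nat_lit 0x4000200002001b00098000e00000000000000000000000000) (nat_lit 0x0) (nat_lit 0x8000700118000c000400020000000000000) := T_11 (nat_lit 104) (nat_lit 103) (nat_lit 3) (nat_lit 1) (nat_lit 6) L59985 (by decide +kernel)
theorem L59987 : W_11 (nat_lit 7) (nat_lit 0x4000200002001b00098000c00000000000000000000000000) (nat_lit 0x0) (nat_lit 0x8000700138001c000400020000000000000) := T_11 (nat_lit 105) (nat_lit 88) (nat_lit 4) (nat_lit 4) (nat_lit 9) L59986 (by decide +kernel)
theorem L59988 : W_11 (nat_lit 8) (nat_lit 0x4000200002001b00098000400000000000000000000000000) (nat_lit 0x0) (nat_lit 0x80007001b8005c000400020000000000000) := T_11 (nat_lit 107) (nat_lit 90) (nat_lit 6) (nat_lit 4) (nat_lit 9) L59987 (by decide +kernel)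
theorem L59989 : W_11 (nat_lit 9) (nat_lit 0x200002001b00098000400000000000000000000000000) (nat_lit 0x0) (nat_lit 0x4000000010000080007001b8005c000400020000000000000) := T_11 (nat_lit 194) (nat_lit 160) (nat_lit 6) (nat_lit 7) (nat_lit 11) L59988 (by decide +kernel)
theorem L59990 : W_11 (nat_lit 10) (nat_lit 0x200002001300098000400000000000000000000000000) (nat_lit 0x0) (nat_lit 0x4000000010000c80007001b8005c000400020000000000000) := T_11 (nat_lit 143) (nat_lit 142) (nat_lit 0) (nat_lit 8) (nat_lit 8) L59989 (by decide +kernel)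
theorem L59991 : W_11 (nat_lit 11) (nat_lit 0x200002001300098000000000000000000000000000000) (nat_lit 0x0) (nat_lit 0x4000000010000c80007001f8007c003c00020000000000000) := Q_11 (nat_lit 106) (C_11 L59868 (C_11 L59990 (C_11 L59842 N_11))) (by decide +kernel)
theorem L59992 : W_11 (nat_lit 3) (nat_lit 0x4000260002001b00098000000000000000000000000000000) (nat_lit 0x0) (nat_lit 0xb000180000000000000000000000000000000000000000000) := T_11 (nat_lit 175) (nat_lit 192) (nat_lit 7) (nat_lit 4) (nat_lit 7) L38051 (by decide +kernel)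
theorem L59993 : W_11 (nat_lit 4) (nat_lit 0x4000240002001b00098000000000000000000000000000000) (nat_lit 0x0) (nat_lit 0xb4001a0000000000000000000000000000000000000000000) := T_11 (nat_lit 173) (nat_lit 190) (nat_lit 5) (nat_lit 4) (nat_lit 7) L59992 (by decide +kernel)
theorem L59994 : W_11 (nat_lit 5) (nat_lit 0x4000200002001b00098000000000000000000000000000000) (nat_lit 0x0) (nat_lit 0xbc001e0000000000000000000000000000000000000000000) := T_11 (nat_lit 174) (nat_lit 191) (nat_lit 6) (nat_lit 4) (nat_lit 11) L59993 (by decide +kernel)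
theorem L59995 : W_11 (nat_lit 6) (nat_lit 0x200002001b00098000000000000000000000000000000) (nat_lit 0x0) (nat_lit 0xfc001e0010000000000000000000000000000000000000000) := T_11 (nat_lit 194) (nat_lit 160) (nat_lit 6) (nat_lit 7) (nat_lit 11) L59994 (by decide +kernel)
theorem L59996 : W_11 (nat_lit 7) (nat_lit 0x200002001300098000000000000000000000000000000) (nat_lit 0x0) (nat_lit 0xfc001e0010000c00000000000000000000000000000000000) := T_11 (nat_lit 143) (nat_lit 142) (nat_lit 0) (nat_lit 8) (nat_lit 8) L59995 (by decide +kernel)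
theorem L59997 : W_11 (nat_lit 12) (nat_lit 0x200000001300098000000000000000000000000000000) (nat_lit 0x0) (nat_lit 0xfc001e0012000c80007001f8007c003c00020000000000000) := Q_11 (nat_lit 157) (C_11 L59991 (C_11 L58204 (C_11 L59996 N_11))) (by decide +kernel)
theorem L59998 : W_11 (nat_lit 8) (nat_lit 0x200000001300098000000000000000000000000000000) (nat_lit 0x0) (nat_lit 0xfc001e0013c00c80000000e00070001800000000000000000) := Q_11 (nat_lit 157) (C_11 L59996 (C_11 L59980 (C_11 L58204 N_11))) (by decide +kernel)
theorem L59999 : W_11 (nat_lit 12) (nat_lit 0x200000001300098000000000000000000000000000000) (nat_lit 0x0) (nat_lit 0xd8001c0013000c80007001f8007c003c00020000000000000) := Q_11 (nat_lit 157) (C_11 L59927 (C_11 L59991 (C_11 L58204 N_11))) (by decide +kernel)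
theorem L60000 : W_11 (nat_lit 15) (nat_lit 0x200000001200098000000000000000000000000000000) (nat_lit 0x0) (nat_lit 0x600ff001f8013c00de0047003f803fc007c00020000000000000) := Q_11 (nat_lit 140) (C_11 L59866 (C_11 L59878 (C_11 L59922 (C_11 L59940 (C_11 L59962 (C_11 L59975 (C_11 L59981 (C_11 L59997 (C_11 L59998 (C_11 L59999 N_11)))))))))) (by decide +kernel)
theorem L60001 : W_11 (nat_lit 2) (nat_lit 0x2000000012000bc001e00090001000000000000000000) (nat_lit 0x0) (nat_lit 0x2000100000000000000000800000000000000000) := D_11 (nat_lit 140) (nat_lit 157) (nat_lit 71) (nat_lit 4) (nat_lit 4) (nat_lit 9) (nat_lit 7) (nat_lit 3) (nat_lit 4) (by decide +kernel)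
theorem L60002 : W_11 (nat_lit 3) (nat_lit 0x2000000012000bc001e00080001000000000000000000) (nat_lit 0x0) (nat_lit 0x2000100000000000018000800000000000000000) := T_11 (nat_lit 88) (nat_lit 87) (nat_lit 0) (nat_lit 6) (nat_lit 6) L60001 (by decide +kernel)
theorem L60003 : W_11 (nat_lit 4) (nat_lit 0x2000000012000bc001600080001000000000000000000) (nat_lit 0x0) (nat_lit 0x2000100000000800118000800000000000000000) := T_11 (nat_lit 107) (nat_lit 92) (nat_lit 2) (nat_lit 3) (nat_lit 6) L60002 (by decide +kernel)
theorem L60004 : W_11 (nat_lit 5) (nat_lit 0x2000000012000bc001600080000000000000000000000) (nat_lit 0x0) (nat_lit 0x2000100000000800138001800000000000000000) := T_11 (nat_lit 72) (nat_lit 89) (nat_lit 7) (nat_lit 4) (nat_lit 4) L60003 (by decide +kernel)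
theorem L60005 : W_11 (nat_lit 6) (nat_lit 0x2000000012000bc001600000000000000000000000000) (nat_lit 0x0) (nat_lit 0x20001000000008001b8005800000000000000000) := T_11 (nat_lit 91) (nat_lit 74) (nat_lit 5) (nat_lit 6) (nat_lit 4) L60004 (by decide +kernel)
theorem L60006 : W_11 (nat_lit 7) (nat_lit 0x2000000012000bc000600000000000000000000000000) (nat_lit 0x0) (nat_lit 0x20001000000038001b8005800000000000000000) := T_11 (nat_lit 108) (nat_lit 109) (nat_lit 2) (nat_lit 3) (nat_lit 7) L60005 (by decide +kernel)
theorem L60007 : W_11 (nat_lit 8) (nat_lit 0x2000000012000bc000400000000000000000000000000) (nat_lit 0x0) (nat_lit 0x2000100000003b001b8005800000000000000000) := T_11 (nat_lit 105) (nat_lit 104) (nat_lit 0) (nat_lit 6) (nat_lit 7) L60006 (by decide +kernel)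
theorem L60008 : W_11 (nat_lit 2) (nat_lit 0x2200000012800bc001e00090001000000000000000000) (nat_lit 0x0) (nat_lit 0x100000000000000000800080000000000000) := D_11 (nat_lit 71) (nat_lit 140) (nat_lit 55) (nat_lit 7) (nat_lit 3) (nat_lit 4) (nat_lit 6) (nat_lit 3) (nat_lit 7) (by decide +kernel)
theorem L60009 : W_11 (nat_lit 3) (nat_lit 0x2200000012800bc001e00080001000000000000000000) (nat_lit 0x0) (nat_lit 0x100000000000018000800080000000000000) := T_11 (nat_lit 88) (nat_lit 87) (nat_lit 0) (nat_lit 6) (nat_lit 6) L60008 (by decide +kernel)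
theorem L60010 : W_11 (nat_lit 4) (nat_lit 0x2200000012800bc001600080001000000000000000000) (nat_lit 0x0) (nat_lit 0x100000000800118000800080000000000000) := T_11 (nat_lit 107) (nat_lit 92) (nat_lit 2) (nat_lit 3) (nat_lit 6) L60009 (by decide +kernel)
theorem L60011 : W_11 (nat_lit 5) (nat_lit 0x2200000012800bc001600000001000000000000000000) (nat_lit 0x0) (nat_lit 0x100000000800198004800080000000000000) := T_11 (nat_lit 91) (nat_lit 74) (nat_lit 5) (nat_lit 6) (nat_lit 4) L60010 (by decide +kernel)
theorem L60012 : W_11 (nat_lit 6) (nat_lit 0x2200000012800bc000600000001000000000000000000) (nat_lit 0x0) (nat_lit 0x100000003800198004800080000000000000) := T_11 (nat_lit 108) (nat_lit 109) (nat_lit 2) (nat_lit 3) (nat_lit 7) L60011 (by decide +kernel)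
theorem L60013 : W_11 (nat_lit 7) (nat_lit 0x2000000012800bc000600000001000000000000000000) (nat_lit 0x0) (nat_lit 0x20001000100000003800198004800080000000000000) := T_11 (nat_lit 173) (nat_lit 156) (nat_lit 6) (nat_lit 3) (nat_lit 10) L60012 (by decide +kernel)
theorem L60014 : W_11 (nat_lit 8) (nat_lit 0x2000000012800bc000400000001000000000000000000) (nat_lit 0x0) (nat_lit 0x20001000100000003b00198004800080000000000000) := T_11 (nat_lit 105) (nat_lit 104) (nat_lit 0) (nat_lit 6) (nat_lit 7) L60013 (by decide +kernel)
theorem L60015 : W_11 (nat_lit 9) (nat_lit 0x2000000012000bc000400000001000000000000000000) (nat_lit 0x0) (nat_lit 0x200010001c0000003b00198004800080000000000000) := T_11 (nat_lit 139) (nat_lit 138) (nat_lit 1) (nat_lit 6) (nat_lit 7) L60014 (by decide +kernel)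
theorem L60016 : W_11 (nat_lit 10) (nat_lit 0x2000000012000bc000400000000000000000000000000) (nat_lit 0x0) (nat_lit 0x200010001c0000003b001b8005800080000000000000) := T_11 (nat_lit 72) (nat_lit 89) (nat_lit 7) (nat_lit 4) (nat_lit 4) L60015 (by decide +kernel)
theorem L60017 : W_11 (nat_lit 2) (nat_lit 0x2000038012800bc001600000005000000000000000000) (nat_lit 0x0) (nat_lit 0x400100000000000010000000000000000000000) := D_11 (nat_lit 140) (nat_lit 88) (nat_lit 154) (nat_lit 7) (nat_lit 3) (nat_lit 5) (nat_lit 2) (nat_lit 1) (nat_lit 9) (by decide +kernel)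
theorem L60018 : W_11 (nat_lit 3) (nat_lit 0x2000018012800bc001600000005000000000000000000) (nat_lit 0x0) (nat_lit 0x40002400100000000000010000000000000000000000) := T_11 (nat_lit 157) (nat_lit 174) (nat_lit 7) (nat_lit 3) (nat_lit 6) L60017 (by decide +kernel)
theorem L60019 : W_11 (nat_lit 4) (nat_lit 0x2000010012800bc001600000005000000000000000000) (nat_lit 0x0) (nat_lit 0x50002c00100000000000010000000000000000000000) := T_11 (nat_lit 155) (nat_lit 172) (nat_lit 5) (nat_lit 3) (nat_lit 6) L60018 (by decide +kernel)
theorem L60020 : W_11 (nat_lit 5) (nat_lit 0x2000000012800bc001600000005000000000000000000) (nat_lit 0x0) (nat_lit 0x70003c00100000000000010000000000000000000000) := T_11 (nat_lit 156) (nat_lit 173) (nat_lit 6) (nat_lit 3) (nat_lit 10) L60019 (by decide +kernel)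
theorem L60021 : W_11 (nat_lit 6) (nat_lit 0x2000000012000bc001600000005000000000000000000) (nat_lit 0x0) (nat_lit 0x70003c001c0000000000010000000000000000000000) := T_11 (nat_lit 139) (nat_lit 138) (nat_lit 1) (nat_lit 6) (nat_lit 7) L60020 (by decide +kernel)
theorem L60022 : W_11 (nat_lit 7) (nat_lit 0x2000000012000bc001400000005000000000000000000) (nat_lit 0x0) (nat_lit 0x70003c001c0000000300010000000000000000000000) := T_11 (nat_lit 105) (nat_lit 104) (nat_lit 0) (nat_lit 6) (nat_lit 7) L60021 (by decide +kernel)
theorem L60023 : W_11 (nat_lit 8) (nat_lit 0x2000000012000bc001400000001000000000000000000) (nat_lit 0x0) (nat_lit 0x70003c001c0000000300090004000000000000000000) := T_11 (nat_lit 74) (nat_lit 91) (nat_lit 5) (nat_lit 6) (nat_lit 4) L60022 (by decide +kernel)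
theorem L60024 : W_11 (nat_lit 9) (nat_lit 0x2000000012000bc001400000000000000000000000000) (nat_lit 0x0) (nat_lit 0x70003c001c00000003000b0005000000000000000000) := T_11 (nat_lit 72) (nat_lit 89) (nat_lit 7) (nat_lit 4) (nat_lit 4) L60023 (by decide +kernel)
theorem L60025 : W_11 (nat_lit 10) (nat_lit 0x2000000012000bc000400000000000000000000000000) (nat_lit 0x0) (nat_lit 0x70003c001c00000033000b0005000000000000000000) := T_11 (nat_lit 108) (nat_lit 109) (nat_lit 2) (nat_lit 3) (nat_lit 7) L60024 (by decide +kernel)
theorem L60026 : W_11 (nat_lit 2) (nat_lit 0x2000030012800bc000600010001000000000000000000) (nat_lit 0x0) (nat_lit 0x8000c0000000000000) := D_11 (nat_lit 71) (nat_lit 54) (nat_lit 55) (nat_lit 7) (nat_lit 3) (nat_lit 3) (nat_lit 6) (nat_lit 3) (nat_lit 7) (by decide +kernel)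
theorem L60027 : W_11 (nat_lit 3) (nat_lit 0x2000030012800bc000600000001000000000000000000) (nat_lit 0x0) (nat_lit 0x1000000000000100008000c0000000000000) := T_11 (nat_lit 88) (nat_lit 140) (nat_lit 7) (nat_lit 3) (nat_lit 5) L60026 (by decide +kernel)
theorem L60028 : W_11 (nat_lit 4) (nat_lit 0x2000010012800bc000600000001000000000000000000) (nat_lit 0x0) (nat_lit 0x400020001000000000000100008000c0000000000000) := T_11 (nat_lit 157) (nat_lit 174) (nat_lit 7) (nat_lit 3) (nat_lit 6) L60027 (by decide +kernel)
theorem L60029 : W_11 (nat_lit 5) (nat_lit 0x2000010012800bc000400000001000000000000000000) (nat_lit 0x0) (nat_lit 0x400020001000000003000100008000c0000000000000) := T_11 (nat_lit 105) (nat_lit 104) (nat_lit 0) (nat_lit 6) (nat_lit 7) L60028 (by decide +kernel)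
theorem L60030 : W_11 (nat_lit 6) (nat_lit 0x2000000012800bc000400000001000000000000000000) (nat_lit 0x0) (nat_lit 0x600030001000000003000100008000c0000000000000) := T_11 (nat_lit 156) (nat_lit 173) (nat_lit 6) (nat_lit 3) (nat_lit 10) L60029 (by decide +kernel)
theorem L60031 : W_11 (nat_lit 7) (nat_lit 0x2000000012800bc000400000000000000000000000000) (nat_lit 0x0) (nat_lit 0x600030001000000003000300018000c0000000000000) := T_11 (nat_lit 72) (nat_lit 89) (nat_lit 7) (nat_lit 4) (nat_lit 4) L60030 (by decide +kernel)
theorem L60032 : W_11 (nat_lit 8) (nat_lit 0x2000000012000bc000400000000000000000000000000) (nat_lit 0x0) (nat_lit 0x600030001c00000003000300018000c0000000000000) := T_11 (nat_lit 139) (nat_lit 138) (nat_lit 1) (nat_lit 6) (nat_lit 7) L60031 (by decide +kernel)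
theorem L60033 : W_11 (nat_lit 2) (nat_lit 0x2000000012800bc001600000004000000000000000000) (nat_lit 0x0) (nat_lit 0x1000000000000000020001000000000000000000) := D_11 (nat_lit 89) (nat_lit 72) (nat_lit 156) (nat_lit 7) (nat_lit 4) (nat_lit 4) (nat_lit 6) (nat_lit 3) (nat_lit 9) (by decide +kernel)
theorem L60034 : W_11 (nat_lit 3) (nat_lit 0x2000000012000bc001600000004000000000000000000) (nat_lit 0x0) (nat_lit 0x10000c0000000000020001000000000000000000) := T_11 (nat_lit 139) (nat_lit 138) (nat_lit 1) (nat_lit 6) (nat_lit 7) L60033 (by decide +kernel)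
theorem L60035 : W_11 (nat_lit 4) (nat_lit 0x2000000012000bc001600000000000000000000000000) (nat_lit 0x0) (nat_lit 0x10000c00000000000a0005000000000000000000) := T_11 (nat_lit 74) (nat_lit 91) (nat_lit 5) (nat_lit 6) (nat_lit 4) L60034 (by decide +kernel)
theorem L60036 : W_11 (nat_lit 5) (nat_lit 0x2000000012000bc000600000000000000000000000000) (nat_lit 0x0) (nat_lit 0x10000c00000030000a0005000000000000000000) := T_11 (nat_lit 108) (nat_lit 109) (nat_lit 2) (nat_lit 3) (nat_lit 7) L60035 (by decide +kernel)
theorem L60037 : W_11 (nat_lit 6) (nat_lit 0x2000000012000bc000400000000000000000000000000) (nat_lit 0x0) (nat_lit 0x10000c00000033000a0005000000000000000000) := T_11 (nat_lit 105) (nat_lit 104) (nat_lit 0) (nat_lit 6) (nat_lit 7) L60036 (by decide +kernel)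
theorem L60038 : W_11 (nat_lit 2) (nat_lit 0x2000038012800bc001600000004000000000000000000) (nat_lit 0x0) (nat_lit 0x400100000000000010000000000000000000000) := D_11 (nat_lit 140) (nat_lit 88) (nat_lit 154) (nat_lit 7) (nat_lit 3) (nat_lit 5) (nat_lit 2) (nat_lit 1) (nat_lit 9) (by decide +kernel)
theorem L60039 : W_11 (nat_lit 3) (nat_lit 0x2000018012800bc001600000004000000000000000000) (nat_lit 0x0) (nat_lit 0x40002400100000000000010000000000000000000000) := T_11 (nat_lit 157) (nat_lit 174) (nat_lit 7) (nat_lit 3) (nat_lit 6) L60038 (by decide +kernel)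
theorem L60040 : W_11 (nat_lit 4) (nat_lit 0x2000010012800bc001600000004000000000000000000) (nat_lit 0x0) (nat_lit 0x50002c00100000000000010000000000000000000000) := T_11 (nat_lit 155) (nat_lit 172) (nat_lit 5) (nat_lit 3) (nat_lit 6) L60039 (by decide +kernel)
theorem L60041 : W_11 (nat_lit 5) (nat_lit 0x2000000012800bc001600000004000000000000000000) (nat_lit 0x0) (nat_lit 0x70003c00100000000000010000000000000000000000) := T_11 (nat_lit 156) (nat_lit 173) (nat_lit 6) (nat_lit 3) (nat_lit 10) L60040 (by decide +kernel)
theorem L60042 : W_11 (nat_lit 6) (nat_lit 0x2000000012000bc001600000004000000000000000000) (nat_lit 0x0) (nat_lit 0x70003c001c0000000000010000000000000000000000) := T_11 (nat_lit 139) (nat_lit 138) (nat_lit 1) (nat_lit 6) (nat_lit 7) L60041 (by decide +kernel)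
theorem L60043 : W_11 (nat_lit 7) (nat_lit 0x2000000012000bc001600000000000000000000000000) (nat_lit 0x0) (nat_lit 0x70003c001c0000000000090004000000000000000000) := T_11 (nat_lit 74) (nat_lit 91) (nat_lit 5) (nat_lit 6) (nat_lit 4) L60042 (by decide +kernel)
theorem L60044 : W_11 (nat_lit 8) (nat_lit 0x2000000012000bc000600000000000000000000000000) (nat_lit 0x0) (nat_lit 0x70003c001c0000003000090004000000000000000000) := T_11 (nat_lit 108) (nat_lit 109) (nat_lit 2) (nat_lit 3) (nat_lit 7) L60043 (by decide +kernel)
theorem L60045 : W_11 (nat_lit 9) (nat_lit 0x2000000012000bc000400000000000000000000000000) (nat_lit 0x0) (nat_lit 0x70003c001c0000003300090004000000000000000000) := T_11 (nat_lit 105) (nat_lit 104) (nat_lit 0) (nat_lit 6) (nat_lit 7) L60044 (by decide +kernel)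
theorem L60046 : W_11 (nat_lit 2) (nat_lit 0x2000000012800bc000400020000000000000000000000) (nat_lit 0x0) (nat_lit 0x20001000100000000000000000000000000000000000) := D_11 (nat_lit 156) (nat_lit 140) (nat_lit 173) (nat_lit 5) (nat_lit 4) (nat_lit 5) (nat_lit 6) (nat_lit 3) (nat_lit 10) (by decide +kernel)
theorem L60047 : W_11 (nat_lit 3) (nat_lit 0x2000000012800bc000400000000000000000000000000) (nat_lit 0x0) (nat_lit 0x20001000100000000000020001000000000000000000) := T_11 (nat_lit 89) (nat_lit 72) (nat_lit 7) (nat_lit 4) (nat_lit 4) L60046 (by decide +kernel)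
theorem L60048 : W_11 (nat_lit 4) (nat_lit 0x2000000012000bc000400000000000000000000000000) (nat_lit 0x0) (nat_lit 0x200010001c0000000000020001000000000000000000) := T_11 (nat_lit 139) (nat_lit 138) (nat_lit 1) (nat_lit 6) (nat_lit 7) L60047 (by decide +kernel)
theorem L60049 : W_11 (nat_lit 11) (nat_lit 0x2000000012000bc000000000000000000000000000000) (nat_lit 0x0) (nat_lit 0x70003c001c0000003f001b80058000c0000000000000) := Q_11 (nat_lit 106) (C_11 L60007 (C_11 L60016 (C_11 L60025 (C_11 L60032 (C_11 L60037 (C_11 L60045 (C_11 L60048 N_11))))))) (by decide +kernel)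
theorem L60050 : W_11 (nat_lit 2) (nat_lit 0x2000000012800bf001600000000000000000000000000) (nat_lit 0x0) (nat_lit 0x1000000000000000020001000000000000000000) := D_11 (nat_lit 89) (nat_lit 72) (nat_lit 156) (nat_lit 7) (nat_lit 4) (nat_lit 4) (nat_lit 6) (nat_lit 3) (nat_lit 9) (by decide +kernel)
theorem L60051 : W_11 (nat_lit 3) (nat_lit 0x2000000012800bf001200000000000000000000000000) (nat_lit 0x0) (nat_lit 0x1000000000800400020001000000000000000000) := T_11 (nat_lit 106) (nat_lit 119) (nat_lit 2) (nat_lit 0) (nat_lit 7) L60050 (by decide +kernel)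
theorem L60052 : W_11 (nat_lit 4) (nat_lit 0x2000000012800be001200000000000000000000000000) (nat_lit 0x0) (nat_lit 0x1000100001800400020001000000000000000000) := T_11 (nat_lit 120) (nat_lit 140) (nat_lit 3) (nat_lit 1) (nat_lit 7) L60051 (by decide +kernel)
theorem L60053 : W_11 (nat_lit 5) (nat_lit 0x2000000012800bc001200000000000000000000000000) (nat_lit 0x0) (nat_lit 0x1000100003800c00020001000000000000000000) := T_11 (nat_lit 121) (nat_lit 107) (nat_lit 2) (nat_lit 2) (nat_lit 7) L60052 (by decide +kernel)
theorem L60054 : W_11 (nat_lit 6) (nat_lit 0x2000000012800bc000200000000000000000000000000) (nat_lit 0x0) (nat_lit 0x1000100003803c00020001000000000000000000) := T_11 (nat_lit 108) (nat_lit 109) (nat_lit 2) (nat_lit 3) (nat_lit 7) L60053 (by decide +kernel)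
theorem L60055 : W_11 (nat_lit 7) (nat_lit 0x2000000012800bc000000000000000000000000000000) (nat_lit 0x0) (nat_lit 0x1000100003803f00020001000000000000000000) := T_11 (nat_lit 105) (nat_lit 104) (nat_lit 0) (nat_lit 6) (nat_lit 7) L60054 (by decide +kernel)
theorem L60056 : W_11 (nat_lit 8) (nat_lit 0x2000000012000bc000000000000000000000000000000) (nat_lit 0x0) (nat_lit 0x10001c0003803f00020001000000000000000000) := T_11 (nat_lit 139) (nat_lit 138) (nat_lit 1) (nat_lit 6) (nat_lit 7) L60055 (by decide +kernel)
theorem L60057 : W_11 (nat_lit 2) (nat_lit 0x2000000012400be001000000000000000000000000000) (nat_lit 0x0) (nat_lit 0x380000000000000000000000000) := D_11 (nat_lit 104) (nat_lit 103) (nat_lit 105) (nat_lit 0) (nat_lit 5) (nat_lit 7) (nat_lit 0) (nat_lit 6) (nat_lit 7) (by decide +kernel)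
theorem L60058 : W_11 (nat_lit 3) (nat_lit 0x2000000012400bc001000000000000000000000000000) (nat_lit 0x0) (nat_lit 0x20002000380000000000000000000000000) := T_11 (nat_lit 121) (nat_lit 137) (nat_lit 1) (nat_lit 5) (nat_lit 7) L60057 (by decide +kernel)
theorem L60059 : W_11 (nat_lit 4) (nat_lit 0x2000000012000bc001000000000000000000000000000) (nat_lit 0x0) (nat_lit 0xe0002000380000000000000000000000000) := T_11 (nat_lit 138) (nat_lit 139) (nat_lit 1) (nat_lit 6) (nat_lit 7) L60058 (by decide +kernel)
theorem L60060 : W_11 (nat_lit 5) (nat_lit 0x2000000012000bc000000000000000000000000000000) (nat_lit 0x0) (nat_lit 0xe0002003380000000000000000000000000) := T_11 (nat_lit 108) (nat_lit 109) (nat_lit 2) (nat_lit 3) (nat_lit 7) L60059 (by decide +kernel)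
theorem L60061 : W_11 (nat_lit 2) (nat_lit 0x2000000012800be000900000000000000000000000000) (nat_lit 0x0) (nat_lit 0x100001000400000000000000000000000000) := D_11 (nat_lit 120) (nat_lit 106) (nat_lit 140) (nat_lit 2) (nat_lit 1) (nat_lit 7) (nat_lit 3) (nat_lit 1) (nat_lit 7) (by decide +kernel)
theorem L60062 : W_11 (nat_lit 3) (nat_lit 0x2000000012800be000100000000000000000000000000) (nat_lit 0x0) (nat_lit 0x100001001c00000000000000000000000000) := T_11 (nat_lit 107) (nat_lit 108) (nat_lit 2) (nat_lit 2) (nat_lit 7) L60061 (by decide +kernel)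
theorem L60063 : W_11 (nat_lit 4) (nat_lit 0x2000000012800bc000100000000000000000000000000) (nat_lit 0x0) (nat_lit 0x100003001c80000000000000000000000000) := T_11 (nat_lit 121) (nat_lit 103) (nat_lit 0) (nat_lit 5) (nat_lit 7) L60062 (by decide +kernel)
theorem L60064 : W_11 (nat_lit 5) (nat_lit 0x2000000012800bc000000000000000000000000000000) (nat_lit 0x0) (nat_lit 0x100003001f80000000000000000000000000) := T_11 (nat_lit 104) (nat_lit 105) (nat_lit 0) (nat_lit 6) (nat_lit 7) L60063 (by decide +kernel)
theorem L60065 : W_11 (nat_lit 6) (nat_lit 0x2000000012000bc000000000000000000000000000000) (nat_lit 0x0) (nat_lit 0x1c0003001f80000000000000000000000000) := T_11 (nat_lit 139) (nat_lit 138) (nat_lit 1) (nat_lit 6) (nat_lit 7) L60064 (by decide +kernel)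
theorem L60066 : W_11 (nat_lit 2) (nat_lit 0x2100000013400be001200010000000000000000000000) (nat_lit 0x0) (nat_lit 0x40002000000000000400000000000000000000000000) := D_11 (nat_lit 157) (nat_lit 174) (nat_lit 106) (nat_lit 4) (nat_lit 4) (nat_lit 10) (nat_lit 4) (nat_lit 4) (nat_lit 9) (by decide +kernel)
theorem L60067 : W_11 (nat_lit 3) (nat_lit 0x2100000013400be001200000000000000000000000000) (nat_lit 0x0) (nat_lit 0x40002000000000000400010000800000000000000000) := T_11 (nat_lit 88) (nat_lit 71) (nat_lit 7) (nat_lit 3) (nat_lit 4) L60066 (by decide +kernel)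
theorem L60068 : W_11 (nat_lit 4) (nat_lit 0x2000000013400be001200000000000000000000000000) (nat_lit 0x0) (nat_lit 0x50002800000000000400010000800000000000000000) := T_11 (nat_lit 172) (nat_lit 155) (nat_lit 6) (nat_lit 2) (nat_lit 10) L60067 (by decide +kernel)
theorem L60069 : W_11 (nat_lit 5) (nat_lit 0x2000000012400be001200000000000000000000000000) (nat_lit 0x0) (nat_lit 0x50002800100001000400010000800000000000000000) := T_11 (nat_lit 140) (nat_lit 120) (nat_lit 3) (nat_lit 1) (nat_lit 7) L60068 (by decide +kernel)
theorem L60070 : W_11 (nat_lit 6) (nat_lit 0x2000000012000be001200000000000000000000000000) (nat_lit 0x0) (nat_lit 0x50002800160001000400010000800000000000000000) := T_11 (nat_lit 138) (nat_lit 137) (nat_lit 1) (nat_lit 5) (nat_lit 7) L60069 (by decide +kernel)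
theorem L60071 : W_11 (nat_lit 7) (nat_lit 0x2000000012000bc001200000000000000000000000000) (nat_lit 0x0) (nat_lit 0x50002800160003000c00010000800000000000000000) := T_11 (nat_lit 121) (nat_lit 107) (nat_lit 2) (nat_lit 2) (nat_lit 7) L60070 (by decide +kernel)
theorem L60072 : W_11 (nat_lit 8) (nat_lit 0x2000000012000bc000200000000000000000000000000) (nat_lit 0x0) (nat_lit 0x50002800160003003c00010000800000000000000000) := T_11 (nat_lit 108) (nat_lit 109) (nat_lit 2) (nat_lit 3) (nat_lit 7) L60071 (by decide +kernel)
theorem L60073 : W_11 (nat_lit 9) (nat_lit 0x2000000012000bc000000000000000000000000000000) (nat_lit 0x0) (nat_lit 0x50002800160003003f00010000800000000000000000) := T_11 (nat_lit 105) (nat_lit 104) (nat_lit 0) (nat_lit 6) (nat_lit 7) L60072 (by decide +kernel)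
theorem L60074 : W_11 (nat_lit 2) (nat_lit 0x2000000012000be001000000000000000000000000000) (nat_lit 0x0) (nat_lit 0x380000000000000000000000000) := D_11 (nat_lit 104) (nat_lit 103) (nat_lit 105) (nat_lit 0) (nat_lit 5) (nat_lit 7) (nat_lit 0) (nat_lit 6) (nat_lit 7) (by decide +kernel)
theorem L60075 : W_11 (nat_lit 3) (nat_lit 0x2000000012000bc001000000000000000000000000000) (nat_lit 0x0) (nat_lit 0x2000b80000000000000000000000000) := T_11 (nat_lit 121) (nat_lit 107) (nat_lit 2) (nat_lit 2) (nat_lit 7) L60074 (by decide +kernel)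
theorem L60076 : W_11 (nat_lit 4) (nat_lit 0x2000000012000bc000000000000000000000000000000) (nat_lit 0x0) (nat_lit 0x2003b80000000000000000000000000) := T_11 (nat_lit 108) (nat_lit 109) (nat_lit 2) (nat_lit 3) (nat_lit 7) L60075 (by decide +kernel)
theorem L60077 : W_11 (nat_lit 2) (nat_lit 0x2000000012400be000000000000000000000000000000) (nat_lit 0x0) (nat_lit 0x380000000000000000000000000) := D_11 (nat_lit 104) (nat_lit 103) (nat_lit 105) (nat_lit 0) (nat_lit 5) (nat_lit 7) (nat_lit 0) (nat_lit 6) (nat_lit 7) (by decide +kernel)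
theorem L60078 : W_11 (nat_lit 3) (nat_lit 0x2000000012400bc000000000000000000000000000000) (nat_lit 0x0) (nat_lit 0x20002000380000000000000000000000000) := T_11 (nat_lit 121) (nat_lit 137) (nat_lit 1) (nat_lit 5) (nat_lit 7) L60077 (by decide +kernel)
theorem L60079 : W_11 (nat_lit 4) (nat_lit 0x2000000012000bc000000000000000000000000000000) (nat_lit 0x0) (nat_lit 0xe0002000380000000000000000000000000) := T_11 (nat_lit 138) (nat_lit 139) (nat_lit 1) (nat_lit 6) (nat_lit 7) L60078 (by decide +kernel)
theorem L60080 : W_11 (nat_lit 2) (nat_lit 0x2000000012800be001080000000000000000000000000) (nat_lit 0x0) (nat_lit 0x100001000040000000000000000000000000) := D_11 (nat_lit 120) (nat_lit 102) (nat_lit 140) (nat_lit 0) (nat_lit 4) (nat_lit 7) (nat_lit 3) (nat_lit 1) (nat_lit 7) (by decide +kernel)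
theorem L60081 : W_11 (nat_lit 3) (nat_lit 0x2000000012800be001000000000000000000000000000) (nat_lit 0x0) (nat_lit 0x1000010001c0000000000000000000000000) := T_11 (nat_lit 103) (nat_lit 104) (nat_lit 0) (nat_lit 5) (nat_lit 7) L60080 (by decide +kernel)
theorem L60082 : W_11 (nat_lit 4) (nat_lit 0x2000000012800bc001000000000000000000000000000) (nat_lit 0x0) (nat_lit 0x1000030009c0000000000000000000000000) := T_11 (nat_lit 121) (nat_lit 107) (nat_lit 2) (nat_lit 2) (nat_lit 7) L60081 (by decide +kernel)
theorem L60083 : W_11 (nat_lit 5) (nat_lit 0x2000000012800bc000000000000000000000000000000) (nat_lit 0x0) (nat_lit 0x1000030039c0000000000000000000000000) := T_11 (nat_lit 108) (nat_lit 109) (nat_lit 2) (nat_lit 3) (nat_lit 7) L60082 (by decide +kernel)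
theorem L60084 : W_11 (nat_lit 6) (nat_lit 0x2000000012000bc000000000000000000000000000000) (nat_lit 0x0) (nat_lit 0x1c00030039c0000000000000000000000000) := T_11 (nat_lit 139) (nat_lit 138) (nat_lit 1) (nat_lit 6) (nat_lit 7) L60083 (by decide +kernel)
theorem L60085 : W_11 (nat_lit 2) (nat_lit 0x2000000012000be001000000000000000000000000000) (nat_lit 0x0) (nat_lit 0xe0000000000000000000000000000000000) := D_11 (nat_lit 138) (nat_lit 137) (nat_lit 139) (nat_lit 1) (nat_lit 5) (nat_lit 7) (nat_lit 1) (nat_lit 6) (nat_lit 7) (by decide +kernel)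
theorem L60086 : W_11 (nat_lit 3) (nat_lit 0x2000000012000bc001000000000000000000000000000) (nat_lit 0x0) (nat_lit 0xe0002000800000000000000000000000000) := T_11 (nat_lit 121) (nat_lit 107) (nat_lit 2) (nat_lit 2) (nat_lit 7) L60085 (by decide +kernel)
theorem L60087 : W_11 (nat_lit 4) (nat_lit 0x2000000012000bc000000000000000000000000000000) (nat_lit 0x0) (nat_lit 0xe0002003800000000000000000000000000) := T_11 (nat_lit 108) (nat_lit 109) (nat_lit 2) (nat_lit 3) (nat_lit 7) L60086 (by decide +kernel)
theorem L60088 : W_11 (nat_lit 12) (nat_lit 0x2000000012000b8000000000000000000000000000000) (nat_lit 0x0) (nat_lit 0x70003c001e0007803fc01b80058000c0000000000000) := Q_11 (nat_lit 122) (C_11 L60049 (C_11 L60056 (C_11 L60060 (C_11 L60065 (C_11 L60073 (C_11 L60076 (C_11 L60079 (C_11 L60084 (C_11 L60087 N_11))))))))) (by decide +kernel)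
theorem L60089 : W_11 (nat_lit 2) (nat_lit 0x2000000012000b8000000000000000000000000000000) (nat_lit 0x0) (nat_lit 0x900040000000000000000000000000000000) := D_11 (nat_lit 126) (nat_lit 140) (nat_lit 143) (nat_lit 1) (nat_lit 8) (nat_lit 7) (nat_lit 3) (nat_lit 4) (nat_lit 7) (by decide +kernel)
theorem L60090 : W_11 (nat_lit 2) (nat_lit 0x2000000012000f8000000000000000000000000000000) (nat_lit 0x0) (nat_lit 0xe00000000000000000000000000) := D_11 (nat_lit 106) (nat_lit 107) (nat_lit 105) (nat_lit 0) (nat_lit 8) (nat_lit 7) (nat_lit 0) (nat_lit 7) (nat_lit 7) (by decide +kernel)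
theorem L60091 : W_11 (nat_lit 3) (nat_lit 0x2000000012000b8000000000000000000000000000000) (nat_lit 0x0) (nat_lit 0x800040000e00000000000000000000000000) := T_11 (nat_lit 126) (nat_lit 143) (nat_lit 3) (nat_lit 4) (nat_lit 7) L60090 (by decide +kernel)
theorem L60092 : W_11 (nat_lit 13) (nat_lit 0x200000001200098000000000000000000000000000000) (nat_lit 0x0) (nat_lit 0x70003c009e0067803fc01b80058000c0000000000000) := Q_11 (nat_lit 125) (C_11 L60088 (C_11 L60089 (C_11 L60091 N_11))) (by decide +kernel)
theorem L60093 : W_11 (nat_lit 2) (nat_lit 0x2000000016000bc0014007c0021000000000000000000) (nat_lit 0x0) (nat_lit 0x100018000000000000000000000000000) := D_11 (nat_lit 111) (nat_lit 112) (nat_lit 128) (nat_lit 3) (nat_lit 6) (nat_lit 5) (nat_lit 5) (nat_lit 9) (nat_lit 4) (by decide +kernel)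
theorem L60094 : W_11 (nat_lit 3) (nat_lit 0x2000000016000bc0014003c0021000000000000000000) (nat_lit 0x0) (nat_lit 0x100018000400040000000000000000000) := T_11 (nat_lit 94) (nat_lit 78) (nat_lit 2) (nat_lit 6) (nat_lit 5) L60093 (by decide +kernel)
theorem L60095 : W_11 (nat_lit 4) (nat_lit 0x2000000016000bc0014003c0001000000000000000000) (nat_lit 0x0) (nat_lit 0x100018000400070000000000000000000) := T_11 (nat_lit 77) (nat_lit 76) (nat_lit 2) (nat_lit 5) (nat_lit 5) L60094 (by decide +kernel)
theorem L60096 : W_11 (nat_lit 5) (nat_lit 0x2000000016000bc0014001c0001000000000000000000) (nat_lit 0x0) (nat_lit 0x100018800600070000000000000000000) := T_11 (nat_lit 93) (nat_lit 107) (nat_lit 1) (nat_lit 8) (nat_lit 5) L60095 (by decide +kernel)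
theorem L60097 : W_11 (nat_lit 6) (nat_lit 0x2000000016000bc0014000c0001000000000000000000) (nat_lit 0x0) (nat_lit 0x100018800700078000000000000000000) := T_11 (nat_lit 92) (nat_lit 75) (nat_lit 6) (nat_lit 6) (nat_lit 8) L60096 (by decide +kernel)
theorem L60098 : W_11 (nat_lit 7) (nat_lit 0x2000000016000bc001400080001000000000000000000) (nat_lit 0x0) (nat_lit 0x10001880074007a000000000000000000) := T_11 (nat_lit 90) (nat_lit 73) (nat_lit 4) (nat_lit 6) (nat_lit 8) L60097 (by decide +kernel)
theorem L60099 : W_11 (nat_lit 8) (nat_lit 0x2000000016000bc001400000001000000000000000000) (nat_lit 0x0) (nat_lit 0x1000188007c007e000000000000000000) := T_11 (nat_lit 91) (nat_lit 74) (nat_lit 5) (nat_lit 6) (nat_lit 4) L60098 (by decide +kernel)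
theorem L60100 : W_11 (nat_lit 9) (nat_lit 0x2000000016000bc000400000001000000000000000000) (nat_lit 0x0) (nat_lit 0x10001b8007c007e000000000000000000) := T_11 (nat_lit 108) (nat_lit 109) (nat_lit 2) (nat_lit 3) (nat_lit 7) L60099 (by decide +kernel)
theorem L60101 : W_11 (nat_lit 10) (nat_lit 0x2000000016000bc000400000000000000000000000000) (nat_lit 0x0) (nat_lit 0x10001b8007e007f000000000000000000) := T_11 (nat_lit 72) (nat_lit 89) (nat_lit 7) (nat_lit 4) (nat_lit 4) L60100 (by decide +kernel)
theorem L60102 : W_11 (nat_lit 11) (nat_lit 0x2000000012000bc000400000000000000000000000000) (nat_lit 0x0) (nat_lit 0xc0010001b8007e007f000000000000000000) := T_11 (nat_lit 142) (nat_lit 143) (nat_lit 3) (nat_lit 3) (nat_lit 7) L60101 (by decide +kernel)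
theorem L60103 : W_11 (nat_lit 2) (nat_lit 0x2200000016800bc0014007c0020000000000000000000) (nat_lit 0x0) (nat_lit 0x100018000000000000000000000000000) := D_11 (nat_lit 111) (nat_lit 112) (nat_lit 128) (nat_lit 3) (nat_lit 6) (nat_lit 5) (nat_lit 5) (nat_lit 9) (nat_lit 4) (by decide +kernel)
theorem L60104 : W_11 (nat_lit 3) (nat_lit 0x2200000016800bc0014003c0020000000000000000000) (nat_lit 0x0) (nat_lit 0x100018000400040000000000000000000) := T_11 (nat_lit 94) (nat_lit 78) (nat_lit 2) (nat_lit 6) (nat_lit 5) L60103 (by decide +kernel)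
theorem L60105 : W_11 (nat_lit 4) (nat_lit 0x2200000016800bc0014003c0000000000000000000000) (nat_lit 0x0) (nat_lit 0x100018000400070000000000000000000) := T_11 (nat_lit 77) (nat_lit 76) (nat_lit 2) (nat_lit 5) (nat_lit 5) L60104 (by decide +kernel)
theorem L60106 : W_11 (nat_lit 5) (nat_lit 0x2200000016800bc0014001c0000000000000000000000) (nat_lit 0x0) (nat_lit 0x100018800600070000000000000000000) := T_11 (nat_lit 93) (nat_lit 107) (nat_lit 1) (nat_lit 8) (nat_lit 5) L60105 (by decide +kernel)
theorem L60107 : W_11 (nat_lit 6) (nat_lit 0x2200000016800bc0014000c0000000000000000000000) (nat_lit 0x0) (nat_lit 0x100018800700078000000000000000000) := T_11 (nat_lit 92) (nat_lit 75) (nat_lit 6) (nat_lit 6) (nat_lit 8) L60106 (by decide +kernel)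
theorem L60108 : W_11 (nat_lit 7) (nat_lit 0x2000000016800bc0014000c0000000000000000000000) (nat_lit 0x0) (nat_lit 0x20001000000100018800700078000000000000000000) := T_11 (nat_lit 173) (nat_lit 156) (nat_lit 6) (nat_lit 3) (nat_lit 10) L60107 (by decide +kernel)
theorem L60109 : W_11 (nat_lit 8) (nat_lit 0x2000000016800bc001400080000000000000000000000) (nat_lit 0x0) (nat_lit 0x2000100000010001880074007a000000000000000000) := T_11 (nat_lit 90) (nat_lit 73) (nat_lit 4) (nat_lit 6) (nat_lit 8) L60108 (by decide +kernel)
theorem L60110 : W_11 (nat_lit 9) (nat_lit 0x2000000016000bc001400080000000000000000000000) (nat_lit 0x0) (nat_lit 0x200010000c010001880074007a000000000000000000) := T_11 (nat_lit 139) (nat_lit 138) (nat_lit 1) (nat_lit 6) (nat_lit 7) L60109 (by decide +kernel)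
theorem L60111 : W_11 (nat_lit 10) (nat_lit 0x2000000012000bc001400080000000000000000000000) (nat_lit 0x0) (nat_lit 0x20001000cc010001880074007a000000000000000000) := T_11 (nat_lit 142) (nat_lit 143) (nat_lit 3) (nat_lit 3) (nat_lit 7) L60110 (by decide +kernel)
theorem L60112 : W_11 (nat_lit 11) (nat_lit 0x2000000012000bc001400000000000000000000000000) (nat_lit 0x0) (nat_lit 0x20001000cc01000188007c007e000000000000000000) := T_11 (nat_lit 91) (nat_lit 74) (nat_lit 5) (nat_lit 6) (nat_lit 4) L60111 (by decide +kernel)
theorem L60113 : W_11 (nat_lit 12) (nat_lit 0x2000000012000bc000400000000000000000000000000) (nat_lit 0x0) (nat_lit 0x20001000cc010001b8007c007e000000000000000000) := T_11 (nat_lit 108) (nat_lit 109) (nat_lit 2) (nat_lit 3) (nat_lit 7) L60112 (by decide +kernel)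
theorem L60114 : W_11 (nat_lit 13) (nat_lit 0x2000000012000bc000000000000000000000000000000) (nat_lit 0x0) (nat_lit 0x20001000dc010001bc007e007f000000000000000000) := Q_11 (nat_lit 106) (C_11 L60102 (C_11 L60048 (C_11 L60113 N_11))) (by decide +kernel)
theorem L60115 : W_11 (nat_lit 2) (nat_lit 0x2000000016000bc0012001e0001000000000000000000) (nat_lit 0x0) (nat_lit 0xc0000000000010000000000000000000000) := D_11 (nat_lit 139) (nat_lit 138) (nat_lit 88) (nat_lit 1) (nat_lit 6) (nat_lit 7) (nat_lit 6) (nat_lit 3) (nat_lit 8) (by decide +kernel)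
theorem L60116 : W_11 (nat_lit 3) (nat_lit 0x2000000016000bc0012001e0000000000000000000000) (nat_lit 0x0) (nat_lit 0xc0000000000010001800000000000000000) := T_11 (nat_lit 72) (nat_lit 71) (nat_lit 0) (nat_lit 7) (nat_lit 5) L60115 (by decide +kernel)
theorem L60117 : W_11 (nat_lit 4) (nat_lit 0x2000000016000bc0012001c0000000000000000000000) (nat_lit 0x0) (nat_lit 0xc0000000400030001800000000000000000) := T_11 (nat_lit 89) (nat_lit 106) (nat_lit 1) (nat_lit 7) (nat_lit 5) L60116 (by decide +kernel)
theorem L60118 : W_11 (nat_lit 5) (nat_lit 0x2000000016000bc0012000c0000000000000000000000) (nat_lit 0x0) (nat_lit 0xc0000000400130009800000000000000000) := T_11 (nat_lit 92) (nat_lit 75) (nat_lit 6) (nat_lit 6) (nat_lit 8) L60117 (by decide +kernel)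
theorem L60119 : W_11 (nat_lit 6) (nat_lit 0x2000000016000bc001200080000000000000000000000) (nat_lit 0x0) (nat_lit 0xc000000040017000b800000000000000000) := T_11 (nat_lit 90) (nat_lit 73) (nat_lit 4) (nat_lit 6) (nat_lit 8) L60118 (by decide +kernel)
theorem L60120 : W_11 (nat_lit 7) (nat_lit 0x2000000016000bc001200000000000000000000000000) (nat_lit 0x0) (nat_lit 0xc00000004001f000f800000000000000000) := T_11 (nat_lit 91) (nat_lit 74) (nat_lit 5) (nat_lit 6) (nat_lit 4) L60119 (by decide +kernel)
theorem L60121 : W_11 (nat_lit 8) (nat_lit 0x2000000016000bc001000000000000000000000000000) (nat_lit 0x0) (nat_lit 0xc00000007001f000f800000000000000000) := T_11 (nat_lit 105) (nat_lit 104) (nat_lit 0) (nat_lit 6) (nat_lit 7) L60120 (by decide +kernel)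
theorem L60122 : W_11 (nat_lit 9) (nat_lit 0x2000000016000bc000000000000000000000000000000) (nat_lit 0x0) (nat_lit 0xc00000037001f000f800000000000000000) := T_11 (nat_lit 108) (nat_lit 109) (nat_lit 2) (nat_lit 3) (nat_lit 7) L60121 (by decide +kernel)
theorem L60123 : W_11 (nat_lit 10) (nat_lit 0x2000000012000bc000000000000000000000000000000) (nat_lit 0x0) (nat_lit 0xcc00000037001f000f800000000000000000) := T_11 (nat_lit 142) (nat_lit 143) (nat_lit 3) (nat_lit 3) (nat_lit 7) L60122 (by decide +kernel)
theorem L60124 : W_11 (nat_lit 2) (nat_lit 0x4000200000001b000bc000200010000000000000000000000) (nat_lit 0x0) (nat_lit 0x40002000000000000400000000000000000000000000) := D_11 (nat_lit 157) (nat_lit 106) (nat_lit 174) (nat_lit 4) (nat_lit 4) (nat_lit 9) (nat_lit 4) (nat_lit 4) (nat_lit 10) (by decide +kernel)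
theorem L60125 : W_11 (nat_lit 3) (nat_lit 0x4000200000001b000bc000200000000000000000000000000) (nat_lit 0x0) (nat_lit 0x40002000000000000400010000800000000000000000) := T_11 (nat_lit 88) (nat_lit 71) (nat_lit 7) (nat_lit 3) (nat_lit 4) L60124 (by decide +kernel)
theorem L60126 : W_11 (nat_lit 4) (nat_lit 0x200000001b000bc000200000000000000000000000000) (nat_lit 0x0) (nat_lit 0x4000040012000000000000400010000800000000000000000) := T_11 (nat_lit 194) (nat_lit 160) (nat_lit 6) (nat_lit 7) (nat_lit 11) L60125 (by decide +kernel)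
theorem L60127 : W_11 (nat_lit 5) (nat_lit 0x200000001b000bc000000000000000000000000000000) (nat_lit 0x0) (nat_lit 0x4000040012000000000000700010000800000000000000000) := T_11 (nat_lit 105) (nat_lit 104) (nat_lit 0) (nat_lit 6) (nat_lit 7) L60126 (by decide +kernel)
theorem L60128 : W_11 (nat_lit 6) (nat_lit 0x2000000013000bc000000000000000000000000000000) (nat_lit 0x0) (nat_lit 0x4000040012000c00000000700010000800000000000000000) := T_11 (nat_lit 143) (nat_lit 142) (nat_lit 3) (nat_lit 3) (nat_lit 7) L60127 (by decide +kernel)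
theorem L60129 : W_11 (nat_lit 2) (nat_lit 0x2000010017800bc000200000000800000000000000000) (nat_lit 0x0) (nat_lit 0x20000000000000000400020000000000000000000000) := D_11 (nat_lit 106) (nat_lit 89) (nat_lit 173) (nat_lit 6) (nat_lit 3) (nat_lit 9) (nat_lit 6) (nat_lit 3) (nat_lit 10) (by decide +kernel)
theorem L60130 : W_11 (nat_lit 3) (nat_lit 0x2000000017800bc000200000000800000000000000000) (nat_lit 0x0) (nat_lit 0x20001800000000000400020000000000000000000000) := T_11 (nat_lit 156) (nat_lit 155) (nat_lit 1) (nat_lit 6) (nat_lit 8) L60129 (by decide +kernel)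
theorem L60131 : W_11 (nat_lit 4) (nat_lit 0x2000000013800bc000200000000800000000000000000) (nat_lit 0x0) (nat_lit 0x20001800c00000000400020000000000000000000000) := T_11 (nat_lit 142) (nat_lit 143) (nat_lit 3) (nat_lit 3) (nat_lit 7) L60130 (by decide +kernel)
theorem L60132 : W_11 (nat_lit 5) (nat_lit 0x2000000013800bc000200000000000000000000000000) (nat_lit 0x0) (nat_lit 0x20001800c00000000400030000800000000000000000) := T_11 (nat_lit 71) (nat_lit 88) (nat_lit 7) (nat_lit 3) (nat_lit 4) L60131 (by decide +kernel)
theorem L60133 : W_11 (nat_lit 6) (nat_lit 0x2000000013000bc000200000000000000000000000000) (nat_lit 0x0) (nat_lit 0x20001800cc0000000400030000800000000000000000) := T_11 (nat_lit 139) (nat_lit 138) (nat_lit 2) (nat_lit 2) (nat_lit 8) L60132 (by decide +kernel)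
theorem L60134 : W_11 (nat_lit 7) (nat_lit 0x2000000013000bc000000000000000000000000000000) (nat_lit 0x0) (nat_lit 0x20001800cc0000000700030000800000000000000000) := T_11 (nat_lit 105) (nat_lit 104) (nat_lit 0) (nat_lit 6) (nat_lit 7) L60133 (by decide +kernel)
theorem L60135 : W_11 (nat_lit 2) (nat_lit 0x200000001b800bc000200000000000000000000000000) (nat_lit 0x0) (nat_lit 0x40002000000000000000010000000000000000000000) := D_11 (nat_lit 157) (nat_lit 174) (nat_lit 88) (nat_lit 4) (nat_lit 4) (nat_lit 10) (nat_lit 7) (nat_lit 3) (nat_lit 5) (by decide +kernel)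
theorem L60136 : W_11 (nat_lit 3) (nat_lit 0x200000001b800bc000000000000000000000000000000) (nat_lit 0x0) (nat_lit 0x40002000000000000300010000000000000000000000) := T_11 (nat_lit 105) (nat_lit 104) (nat_lit 0) (nat_lit 6) (nat_lit 7) L60135 (by decide +kernel)
theorem L60137 : W_11 (nat_lit 4) (nat_lit 0x200000001b000bc000000000000000000000000000000) (nat_lit 0x0) (nat_lit 0x400020000c0000000300010000000000000000000000) := T_11 (nat_lit 139) (nat_lit 138) (nat_lit 2) (nat_lit 2) (nat_lit 8) L60136 (by decide +kernel)
theorem L60138 : W_11 (nat_lit 5) (nat_lit 0x2000000013000bc000000000000000000000000000000) (nat_lit 0x0) (nat_lit 0x40002000cc0000000300010000000000000000000000) := T_11 (nat_lit 143) (nat_lit 142) (nat_lit 3) (nat_lit 3) (nat_lit 7) L60137 (by decide +kernel)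
theorem L60139 : W_11 (nat_lit 2) (nat_lit 0x2000020013400bc000200000000000000000000000000) (nat_lit 0x0) (nat_lit 0x400010000800000000000000000) := D_11 (nat_lit 88) (nat_lit 106) (nat_lit 71) (nat_lit 4) (nat_lit 4) (nat_lit 9) (nat_lit 7) (nat_lit 3) (nat_lit 4) (by decide +kernel)
theorem L60140 : W_11 (nat_lit 3) (nat_lit 0x2000000013400bc000200000000000000000000000000) (nat_lit 0x0) (nat_lit 0x40002000000000000400010000800000000000000000) := T_11 (nat_lit 157) (nat_lit 174) (nat_lit 4) (nat_lit 4) (nat_lit 10) L60139 (by decide +kernel)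
theorem L60141 : W_11 (nat_lit 4) (nat_lit 0x2000000013400bc000000000000000000000000000000) (nat_lit 0x0) (nat_lit 0x40002000000000000700010000800000000000000000) := T_11 (nat_lit 105) (nat_lit 104) (nat_lit 0) (nat_lit 6) (nat_lit 7) L60140 (by decide +kernel)
theorem L60142 : W_11 (nat_lit 5) (nat_lit 0x2000000013000bc000000000000000000000000000000) (nat_lit 0x0) (nat_lit 0x400020000c0000000700010000800000000000000000) := T_11 (nat_lit 138) (nat_lit 139) (nat_lit 2) (nat_lit 2) (nat_lit 8) L60141 (by decide +kernel)
theorem L60143 : W_11 (nat_lit 2) (nat_lit 0x2000010017800bc000000000000000000000000000000) (nat_lit 0x0) (nat_lit 0x20000000000000000400020000000000000000000000) := D_11 (nat_lit 106) (nat_lit 89) (nat_lit 173) (nat_lit 5) (nat_lit 4) (nat_lit 5) (nat_lit 6) (nat_lit 3) (nat_lit 10) (by decide +kernel)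
theorem L60144 : W_11 (nat_lit 3) (nat_lit 0x2000000017800bc000000000000000000000000000000) (nat_lit 0x0) (nat_lit 0x20001800000000000400020000000000000000000000) := T_11 (nat_lit 156) (nat_lit 155) (nat_lit 1) (nat_lit 6) (nat_lit 8) L60143 (by decide +kernel)
theorem L60145 : W_11 (nat_lit 4) (nat_lit 0x2000000017000bc000000000000000000000000000000) (nat_lit 0x0) (nat_lit 0x200018000c0000000400020000000000000000000000) := T_11 (nat_lit 139) (nat_lit 138) (nat_lit 2) (nat_lit 2) (nat_lit 8) L60144 (by decide +kernel)
theorem L60146 : W_11 (nat_lit 5) (nat_lit 0x2000000013000bc000000000000000000000000000000) (nat_lit 0x0) (nat_lit 0x20001800cc0000000400020000000000000000000000) := T_11 (nat_lit 142) (nat_lit 143) (nat_lit 3) (nat_lit 3) (nat_lit 7) L60145 (by decide +kernel)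
theorem L60147 : W_11 (nat_lit 8) (nat_lit 0x2000000012000bc000000000000000000000000000000) (nat_lit 0x0) (nat_lit 0x4000060013800dc0000000700030000800000000000000000) := Q_11 (nat_lit 140) (C_11 L60128 (C_11 L60134 (C_11 L60138 (C_11 L60142 (C_11 L60146 N_11))))) (by decide +kernel)
theorem L60148 : W_11 (nat_lit 2) (nat_lit 0x2000000017000bc0012000c0000000000000000000000) (nat_lit 0x0) (nat_lit 0x40002000000000000800000000000000000000000000) := D_11 (nat_lit 157) (nat_lit 174) (nat_lit 107) (nat_lit 4) (nat_lit 4) (nat_lit 10) (nat_lit 5) (nat_lit 5) (nat_lit 5) (by decide +kernel)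
theorem L60149 : W_11 (nat_lit 3) (nat_lit 0x2000000017000bc001200080000000000000000000000) (nat_lit 0x0) (nat_lit 0x40002000000000000800040002000000000000000000) := T_11 (nat_lit 90) (nat_lit 73) (nat_lit 4) (nat_lit 6) (nat_lit 8) L60148 (by decide +kernel)
theorem L60150 : W_11 (nat_lit 4) (nat_lit 0x2000000017000bc001200000000000000000000000000) (nat_lit 0x0) (nat_lit 0x400020000000000008000c0006000000000000000000) := T_11 (nat_lit 91) (nat_lit 74) (nat_lit 5) (nat_lit 6) (nat_lit 4) L60149 (by decide +kernel)
theorem L60151 : W_11 (nat_lit 5) (nat_lit 0x2000000017000bc001000000000000000000000000000) (nat_lit 0x0) (nat_lit 0x40002000000000000b000c0006000000000000000000) := T_11 (nat_lit 105) (nat_lit 104) (nat_lit 0) (nat_lit 6) (nat_lit 7) L60150 (by decide +kernel)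
theorem L60152 : W_11 (nat_lit 6) (nat_lit 0x2000000017000bc000000000000000000000000000000) (nat_lit 0x0) (nat_lit 0x40002000000000003b000c0006000000000000000000) := T_11 (nat_lit 108) (nat_lit 109) (nat_lit 2) (nat_lit 3) (nat_lit 7) L60151 (by decide +kernel)
theorem L60153 : W_11 (nat_lit 7) (nat_lit 0x2000000013000bc000000000000000000000000000000) (nat_lit 0x0) (nat_lit 0x40002000c00000003b000c0006000000000000000000) := T_11 (nat_lit 142) (nat_lit 143) (nat_lit 3) (nat_lit 3) (nat_lit 7) L60152 (by decide +kernel)
theorem L60154 : W_11 (nat_lit 2) (nat_lit 0x4000200000001b800bc001200038004000000000000000000) (nat_lit 0x0) (nat_lit 0x800040002000000000000000000) := D_11 (nat_lit 90) (nat_lit 107) (nat_lit 73) (nat_lit 3) (nat_lit 2) (nat_lit 5) (nat_lit 2) (nat_lit 2) (nat_lit 5) (by decide +kernel)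
theorem L60155 : W_11 (nat_lit 3) (nat_lit 0x4000200000001b800bc001200030004000000000000000000) (nat_lit 0x0) (nat_lit 0x800048002400000000000000000) := T_11 (nat_lit 87) (nat_lit 70) (nat_lit 4) (nat_lit 3) (nat_lit 8) L60154 (by decide +kernel)
theorem L60156 : W_11 (nat_lit 4) (nat_lit 0x4000200000001b800bc001200010004000000000000000000) (nat_lit 0x0) (nat_lit 0x800068003400000000000000000) := T_11 (nat_lit 89) (nat_lit 72) (nat_lit 6) (nat_lit 3) (nat_lit 8) L60155 (by decide +kernel)
theorem L60157 : W_11 (nat_lit 5) (nat_lit 0x4000200000001b800bc001200000004000000000000000000) (nat_lit 0x0) (nat_lit 0x800078003c00000000000000000) := T_11 (nat_lit 88) (nat_lit 71) (nat_lit 7) (nat_lit 3) (nat_lit 4) L60156 (by decide +kernel)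
theorem L60158 : W_11 (nat_lit 6) (nat_lit 0x4000200000001b800bc001000000004000000000000000000) (nat_lit 0x0) (nat_lit 0xb00078003c00000000000000000) := T_11 (nat_lit 105) (nat_lit 104) (nat_lit 0) (nat_lit 6) (nat_lit 7) L60157 (by decide +kernel)
theorem L60159 : W_11 (nat_lit 7) (nat_lit 0x200000001b800bc001000000004000000000000000000) (nat_lit 0x0) (nat_lit 0x4000000010000000000000b00078003c00000000000000000) := T_11 (nat_lit 194) (nat_lit 160) (nat_lit 6) (nat_lit 7) (nat_lit 11) L60158 (by decide +kernel)
theorem L60160 : W_11 (nat_lit 8) (nat_lit 0x2000000013800bc001000000004000000000000000000) (nat_lit 0x0) (nat_lit 0x4000000010000c00000000b00078003c00000000000000000) := T_11 (nat_lit 143) (nat_lit 142) (nat_lit 3) (nat_lit 3) (nat_lit 7) L60159 (by decide +kernel)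
theorem L60161 : W_11 (nat_lit 9) (nat_lit 0x2000000013800bc001000000000000000000000000000) (nat_lit 0x0) (nat_lit 0x4000000010000c00000000b000f8007c00000000000000000) := T_11 (nat_lit 74) (nat_lit 91) (nat_lit 5) (nat_lit 6) (nat_lit 4) L60160 (by decide +kernel)
theorem L60162 : W_11 (nat_lit 10) (nat_lit 0x2000000013000bc001000000000000000000000000000) (nat_lit 0x0) (nat_lit 0x4000000010000cc0000000b000f8007c00000000000000000) := T_11 (nat_lit 139) (nat_lit 138) (nat_lit 2) (nat_lit 2) (nat_lit 8) L60161 (by decide +kernel)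
theorem L60163 : W_11 (nat_lit 11) (nat_lit 0x2000000013000bc000000000000000000000000000000) (nat_lit 0x0) (nat_lit 0x4000000010000cc0000003b000f8007c00000000000000000) := T_11 (nat_lit 108) (nat_lit 109) (nat_lit 2) (nat_lit 3) (nat_lit 7) L60162 (by decide +kernel)
theorem L60164 : W_11 (nat_lit 2) (nat_lit 0x2000000013800bc000200000000000000000000000000) (nat_lit 0x0) (nat_lit 0x2000000000000000010000800000000000000000) := D_11 (nat_lit 88) (nat_lit 157) (nat_lit 71) (nat_lit 7) (nat_lit 3) (nat_lit 5) (nat_lit 7) (nat_lit 3) (nat_lit 4) (by decide +kernel)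
theorem L60165 : W_11 (nat_lit 3) (nat_lit 0x2000000013000bc000200000000000000000000000000) (nat_lit 0x0) (nat_lit 0x20000c0000000000010000800000000000000000) := T_11 (nat_lit 139) (nat_lit 138) (nat_lit 2) (nat_lit 2) (nat_lit 8) L60164 (by decide +kernel)
theorem L60166 : W_11 (nat_lit 4) (nat_lit 0x2000000013000bc000000000000000000000000000000) (nat_lit 0x0) (nat_lit 0x20000c0000000300010000800000000000000000) := T_11 (nat_lit 105) (nat_lit 104) (nat_lit 0) (nat_lit 6) (nat_lit 7) L60165 (by decide +kernel)
theorem L60167 : W_11 (nat_lit 2) (nat_lit 0x3e00020017400bc0010000c0000000000000000000000) (nat_lit 0x0) (nat_lit 0xe000000000000000000000000000000000000000000000000) := D_11 (nat_lit 194) (nat_lit 195) (nat_lit 193) (nat_lit 3) (nat_lit 4) (nat_lit 10) (nat_lit 3) (nat_lit 3) (nat_lit 10) (by decide +kernel)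
theorem L60168 : W_11 (nat_lit 3) (nat_lit 0x2e00020017400bc0010000c0000000000000000000000) (nat_lit 0x0) (nat_lit 0xe000100001000000000000000000000000000000000000000) := T_11 (nat_lit 176) (nat_lit 156) (nat_lit 0) (nat_lit 7) (nat_lit 10) L60167 (by decide +kernel)
theorem L60169 : W_11 (nat_lit 4) (nat_lit 0x2600020017400bc0010000c0000000000000000000000) (nat_lit 0x0) (nat_lit 0xf000180001000000000000000000000000000000000000000) := T_11 (nat_lit 175) (nat_lit 192) (nat_lit 7) (nat_lit 4) (nat_lit 7) L60168 (by decide +kernel)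
theorem L60170 : W_11 (nat_lit 5) (nat_lit 0x2400020017400bc0010000c0000000000000000000000) (nat_lit 0x0) (nat_lit 0xf4001a0001000000000000000000000000000000000000000) := T_11 (nat_lit 173) (nat_lit 190) (nat_lit 5) (nat_lit 4) (nat_lit 7) L60169 (by decide +kernel)
theorem L60171 : W_11 (nat_lit 6) (nat_lit 0x2000020017400bc0010000c0000000000000000000000) (nat_lit 0x0) (nat_lit 0xfc001e0001000000000000000000000000000000000000000) := T_11 (nat_lit 174) (nat_lit 191) (nat_lit 6) (nat_lit 4) (nat_lit 11) L60170 (by decide +kernel)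
theorem L60172 : W_11 (nat_lit 7) (nat_lit 0x2000000017400bc0010000c0000000000000000000000) (nat_lit 0x0) (nat_lit 0xfc001e0003000000000000800000000000000000000000000) := T_11 (nat_lit 157) (nat_lit 107) (nat_lit 5) (nat_lit 5) (nat_lit 5) L60171 (by decide +kernel)
theorem L60173 : W_11 (nat_lit 8) (nat_lit 0x2000000017400bc001000080000000000000000000000) (nat_lit 0x0) (nat_lit 0xfc001e0003000000000000800040002000000000000000000) := T_11 (nat_lit 90) (nat_lit 73) (nat_lit 4) (nat_lit 6) (nat_lit 8) L60172 (by decide +kernel)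
theorem L60174 : W_11 (nat_lit 9) (nat_lit 0x2000000017400bc001000000000000000000000000000) (nat_lit 0x0) (nat_lit 0xfc001e00030000000000008000c0006000000000000000000) := T_11 (nat_lit 91) (nat_lit 74) (nat_lit 5) (nat_lit 6) (nat_lit 4) L60173 (by decide +kernel)
theorem L60175 : W_11 (nat_lit 10) (nat_lit 0x2000000017400bc000000000000000000000000000000) (nat_lit 0x0) (nat_lit 0xfc001e00030000000000038000c0006000000000000000000) := T_11 (nat_lit 108) (nat_lit 109) (nat_lit 2) (nat_lit 3) (nat_lit 7) L60174 (by decide +kernel)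
theorem L60176 : W_11 (nat_lit 11) (nat_lit 0x2000000013400bc000000000000000000000000000000) (nat_lit 0x0) (nat_lit 0xfc001e0003000c000000038000c0006000000000000000000) := T_11 (nat_lit 142) (nat_lit 143) (nat_lit 3) (nat_lit 3) (nat_lit 7) L60175 (by decide +kernel)
theorem L60177 : W_11 (nat_lit 12) (nat_lit 0x2000000013000bc000000000000000000000000000000) (nat_lit 0x0) (nat_lit 0xfc001e0003000cc00000038000c0006000000000000000000) := T_11 (nat_lit 138) (nat_lit 139) (nat_lit 2) (nat_lit 2) (nat_lit 8) L60176 (by decide +kernel)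
theorem L60178 : W_11 (nat_lit 13) (nat_lit 0x2000000012000bc000000000000000000000000000000) (nat_lit 0x0) (nat_lit 0xfc001e0013000dc0000003b000f8007c00000000000000000) := Q_11 (nat_lit 140) (C_11 L60153 (C_11 L60163 (C_11 L60138 (C_11 L60166 (C_11 L60177 N_11))))) (by decide +kernel)
theorem L60179 : W_11 (nat_lit 2) (nat_lit 0x2000000016000bc0012001c0000000000000000000000) (nat_lit 0x0) (nat_lit 0xc00020000000000000000000000) := D_11 (nat_lit 106) (nat_lit 107) (nat_lit 89) (nat_lit 2) (nat_lit 3) (nat_lit 6) (nat_lit 1) (nat_lit 7) (nat_lit 5) (by decide +kernel)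
theorem L60180 : W_11 (nat_lit 3) (nat_lit 0x2000000016000bc0012000c0000000000000000000000) (nat_lit 0x0) (nat_lit 0xc00120008000000000000000000) := T_11 (nat_lit 92) (nat_lit 75) (nat_lit 6) (nat_lit 6) (nat_lit 8) L60179 (by decide +kernel)
theorem L60181 : W_11 (nat_lit 4) (nat_lit 0x2000000016000bc001200080000000000000000000000) (nat_lit 0x0) (nat_lit 0xc0016000a000000000000000000) := T_11 (nat_lit 90) (nat_lit 73) (nat_lit 4) (nat_lit 6) (nat_lit 8) L60180 (by decide +kernel)
theorem L60182 : W_11 (nat_lit 5) (nat_lit 0x2000000016000bc001200000000000000000000000000) (nat_lit 0x0) (nat_lit 0xc001e000e000000000000000000) := T_11 (nat_lit 91) (nat_lit 74) (nat_lit 5) (nat_lit 6) (nat_lit 4) L60181 (by decide +kernel)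
theorem L60183 : W_11 (nat_lit 6) (nat_lit 0x2000000016000bc001000000000000000000000000000) (nat_lit 0x0) (nat_lit 0xf001e000e000000000000000000) := T_11 (nat_lit 105) (nat_lit 104) (nat_lit 0) (nat_lit 6) (nat_lit 7) L60182 (by decide +kernel)
theorem L60184 : W_11 (nat_lit 7) (nat_lit 0x2000000012000bc001000000000000000000000000000) (nat_lit 0x0) (nat_lit 0xc00000000f001e000e000000000000000000) := T_11 (nat_lit 142) (nat_lit 143) (nat_lit 3) (nat_lit 3) (nat_lit 7) L60183 (by decide +kernel)
theorem L60185 : W_11 (nat_lit 8) (nat_lit 0x2000000012000bc000000000000000000000000000000) (nat_lit 0x0) (nat_lit 0xc00000003f001e000e000000000000000000) := T_11 (nat_lit 108) (nat_lit 109) (nat_lit 2) (nat_lit 3) (nat_lit 7) L60184 (by decide +kernel)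
theorem L60186 : W_11 (nat_lit 2) (nat_lit 0x2000010016800bc0016001c0000000000000000000000) (nat_lit 0x0) (nat_lit 0x10000800100000000000000000000000000000000000) := D_11 (nat_lit 155) (nat_lit 172) (nat_lit 140) (nat_lit 5) (nat_lit 3) (nat_lit 6) (nat_lit 1) (nat_lit 6) (nat_lit 8) (by decide +kernel)
theorem L60187 : W_11 (nat_lit 3) (nat_lit 0x2000000016800bc0016001c0000000000000000000000) (nat_lit 0x0) (nat_lit 0x30001800100000000000000000000000000000000000) := T_11 (nat_lit 156) (nat_lit 173) (nat_lit 6) (nat_lit 3) (nat_lit 10) L60186 (by decide +kernel)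
theorem L60188 : W_11 (nat_lit 4) (nat_lit 0x2000000016800bc0012001c0000000000000000000000) (nat_lit 0x0) (nat_lit 0x30001800100000000c00000000000000000000000000) := T_11 (nat_lit 106) (nat_lit 107) (nat_lit 2) (nat_lit 3) (nat_lit 6) L60187 (by decide +kernel)
theorem L60189 : W_11 (nat_lit 5) (nat_lit 0x2000000016800bc0010001c0000000000000000000000) (nat_lit 0x0) (nat_lit 0x30001800100000000f00000000000000000000000000) := T_11 (nat_lit 105) (nat_lit 104) (nat_lit 0) (nat_lit 6) (nat_lit 7) L60188 (by decide +kernel)
theorem L60190 : W_11 (nat_lit 6) (nat_lit 0x2000000016800bc001000180000000000000000000000) (nat_lit 0x0) (nat_lit 0x30001800100000000f00040002000000000000000000) := T_11 (nat_lit 90) (nat_lit 73) (nat_lit 4) (nat_lit 6) (nat_lit 8) L60189 (by decide +kernel)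
theorem L60191 : W_11 (nat_lit 7) (nat_lit 0x2000000016800bc001000080000000000000000000000) (nat_lit 0x0) (nat_lit 0x30001800100000000f0014000a000000000000000000) := T_11 (nat_lit 92) (nat_lit 75) (nat_lit 6) (nat_lit 6) (nat_lit 8) L60190 (by decide +kernel)
theorem L60192 : W_11 (nat_lit 8) (nat_lit 0x2000000012800bc001000080000000000000000000000) (nat_lit 0x0) (nat_lit 0x30001800d00000000f0014000a000000000000000000) := T_11 (nat_lit 142) (nat_lit 143) (nat_lit 3) (nat_lit 3) (nat_lit 7) L60191 (by decide +kernel)
theorem L60193 : W_11 (nat_lit 9) (nat_lit 0x2000000012800bc001000000000000000000000000000) (nat_lit 0x0) (nat_lit 0x30001800d00000000f001c000e000000000000000000) := T_11 (nat_lit 91) (nat_lit 74) (nat_lit 5) (nat_lit 6) (nat_lit 4) L60192 (by decide +kernel)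
theorem L60194 : W_11 (nat_lit 10) (nat_lit 0x2000000012000bc001000000000000000000000000000) (nat_lit 0x0) (nat_lit 0x30001800dc0000000f001c000e000000000000000000) := T_11 (nat_lit 139) (nat_lit 138) (nat_lit 1) (nat_lit 6) (nat_lit 7) L60193 (by decide +kernel)
theorem L60195 : W_11 (nat_lit 11) (nat_lit 0x2000000012000bc000000000000000000000000000000) (nat_lit 0x0) (nat_lit 0x30001800dc0000003f001c000e000000000000000000) := T_11 (nat_lit 108) (nat_lit 109) (nat_lit 2) (nat_lit 3) (nat_lit 7) L60194 (by decide +kernel)
theorem L60196 : W_11 (nat_lit 14) (nat_lit 0x20000000120009c000000000000000000000000000000) (nat_lit 0x0) (nat_lit 0xfc001f0013c00dc012001bf007f807fc000c0000000000000) := Q_11 (nat_lit 125) (C_11 L60114 (C_11 L60049 (C_11 L60123 (C_11 L60147 (C_11 L60178 (C_11 L60185 (C_11 L60195 N_11))))))) (by decide +kernel)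
theorem L60197 : W_11 (nat_lit 2) (nat_lit 0x20000000120009f000100000000000000000000000000) (nat_lit 0x0) (nat_lit 0x1c00000000000000000000000000) := D_11 (nat_lit 107) (nat_lit 106) (nat_lit 108) (nat_lit 2) (nat_lit 1) (nat_lit 7) (nat_lit 2) (nat_lit 2) (nat_lit 7) (by decide +kernel)
theorem L60198 : W_11 (nat_lit 3) (nat_lit 0x20000000120009e000100000000000000000000000000) (nat_lit 0x0) (nat_lit 0x100001001c00000000000000000000000000) := T_11 (nat_lit 120) (nat_lit 140) (nat_lit 3) (nat_lit 1) (nat_lit 7) L60197 (by decide +kernel)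
theorem L60199 : W_11 (nat_lit 4) (nat_lit 0x20000000120009e000000000000000000000000000000) (nat_lit 0x0) (nat_lit 0x100001001d80000000000000000000000000) := T_11 (nat_lit 104) (nat_lit 103) (nat_lit 0) (nat_lit 5) (nat_lit 7) L60198 (by decide +kernel)
theorem L60200 : W_11 (nat_lit 2) (nat_lit 0x20000000120009f000100000000000000000000000000) (nat_lit 0x0) (nat_lit 0x70000000000000000000000000000000000) := D_11 (nat_lit 137) (nat_lit 136) (nat_lit 138) (nat_lit 1) (nat_lit 4) (nat_lit 7) (nat_lit 1) (nat_lit 5) (nat_lit 7) (by decide +kernel)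
theorem L60201 : W_11 (nat_lit 3) (nat_lit 0x20000000120009e000100000000000000000000000000) (nat_lit 0x0) (nat_lit 0x170001000000000000000000000000000000) := T_11 (nat_lit 120) (nat_lit 140) (nat_lit 3) (nat_lit 1) (nat_lit 7) L60200 (by decide +kernel)
theorem L60202 : W_11 (nat_lit 4) (nat_lit 0x20000000120009e000000000000000000000000000000) (nat_lit 0x0) (nat_lit 0x170001000180000000000000000000000000) := T_11 (nat_lit 104) (nat_lit 103) (nat_lit 0) (nat_lit 5) (nat_lit 7) L60201 (by decide +kernel)
theorem L60203 : W_11 (nat_lit 2) (nat_lit 0x20000000120009f000900000000000000000000000000) (nat_lit 0x0) (nat_lit 0x70000000000000000000000000000000000) := D_11 (nat_lit 137) (nat_lit 136) (nat_lit 138) (nat_lit 1) (nat_lit 4) (nat_lit 7) (nat_lit 1) (nat_lit 5) (nat_lit 7) (by decide +kernel)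
theorem L60204 : W_11 (nat_lit 3) (nat_lit 0x20000000120009e000900000000000000000000000000) (nat_lit 0x0) (nat_lit 0x70001000400000000000000000000000000) := T_11 (nat_lit 120) (nat_lit 106) (nat_lit 2) (nat_lit 1) (nat_lit 7) L60203 (by decide +kernel)
theorem L60205 : W_11 (nat_lit 4) (nat_lit 0x20000000120009e000100000000000000000000000000) (nat_lit 0x0) (nat_lit 0x70001001c00000000000000000000000000) := T_11 (nat_lit 107) (nat_lit 108) (nat_lit 2) (nat_lit 2) (nat_lit 7) L60204 (by decide +kernel)
theorem L60206 : W_11 (nat_lit 5) (nat_lit 0x20000000120009e000000000000000000000000000000) (nat_lit 0x0) (nat_lit 0x70001001d80000000000000000000000000) := T_11 (nat_lit 104) (nat_lit 103) (nat_lit 0) (nat_lit 5) (nat_lit 7) L60205 (by decide +kernel)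
theorem L60207 : W_11 (nat_lit 2) (nat_lit 0x2000000012000be000900000000000000000000000000) (nat_lit 0x0) (nat_lit 0xe0000000000000000000000000000000000) := D_11 (nat_lit 138) (nat_lit 137) (nat_lit 139) (nat_lit 1) (nat_lit 5) (nat_lit 7) (nat_lit 1) (nat_lit 6) (nat_lit 7) (by decide +kernel)
theorem L60208 : W_11 (nat_lit 3) (nat_lit 0x20000000120009e000900000000000000000000000000) (nat_lit 0x0) (nat_lit 0xe0020000200000000000000000000000000) := T_11 (nat_lit 125) (nat_lit 105) (nat_lit 0) (nat_lit 6) (nat_lit 7) L60207 (by decide +kernel)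
theorem L60209 : W_11 (nat_lit 4) (nat_lit 0x20000000120009e000100000000000000000000000000) (nat_lit 0x0) (nat_lit 0xe0020001a00000000000000000000000000) := T_11 (nat_lit 107) (nat_lit 108) (nat_lit 2) (nat_lit 2) (nat_lit 7) L60208 (by decide +kernel)
theorem L60210 : W_11 (nat_lit 5) (nat_lit 0x20000000120009e000000000000000000000000000000) (nat_lit 0x0) (nat_lit 0xe0020001b80000000000000000000000000) := T_11 (nat_lit 104) (nat_lit 103) (nat_lit 0) (nat_lit 5) (nat_lit 7) L60209 (by decide +kernel)
theorem L60211 : W_11 (nat_lit 2) (nat_lit 0x20000000124009e000800000000000000000000000000) (nat_lit 0x0) (nat_lit 0x100001000400000000000000000000000000) := D_11 (nat_lit 120) (nat_lit 106) (nat_lit 140) (nat_lit 2) (nat_lit 1) (nat_lit 7) (nat_lit 3) (nat_lit 1) (nat_lit 7) (by decide +kernel)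
theorem L60212 : W_11 (nat_lit 3) (nat_lit 0x20000000124009e000000000000000000000000000000) (nat_lit 0x0) (nat_lit 0x100001001c00000000000000000000000000) := T_11 (nat_lit 107) (nat_lit 108) (nat_lit 2) (nat_lit 2) (nat_lit 7) L60211 (by decide +kernel)
theorem L60213 : W_11 (nat_lit 4) (nat_lit 0x20000000120009e000000000000000000000000000000) (nat_lit 0x0) (nat_lit 0x160001001c00000000000000000000000000) := T_11 (nat_lit 138) (nat_lit 137) (nat_lit 1) (nat_lit 5) (nat_lit 7) L60212 (by decide +kernel)
theorem L60214 : W_11 (nat_lit 6) (nat_lit 0x20000000120009c000000000000000000000000000000) (nat_lit 0x0) (nat_lit 0x1f0023001f80000000000000000000000000) := Q_11 (nat_lit 121) (C_11 L60199 (C_11 L60202 (C_11 L60206 (C_11 L60210 (C_11 L60213 N_11))))) (by decide +kernel)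
theorem L60215 : W_11 (nat_lit 2) (nat_lit 0x20000000120009c000000000000000000000000000000) (nat_lit 0x0) (nat_lit 0xc00002000000000000000000000000000000) := D_11 (nat_lit 142) (nat_lit 143) (nat_lit 121) (nat_lit 0) (nat_lit 8) (nat_lit 8) (nat_lit 3) (nat_lit 2) (nat_lit 7) (by decide +kernel)
theorem L60216 : W_11 (nat_lit 15) (nat_lit 0x200000001200098000000000000000000000000000000) (nat_lit 0x0) (nat_lit 0xfc001f0013c00df012701bf807f807fc000c0000000000000) := Q_11 (nat_lit 122) (C_11 L60196 (C_11 L60214 (C_11 L60215 N_11))) (by decide +kernel)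
theorem L60217 : W_11 (nat_lit 10) (nat_lit 0x2000000016000b8000000000000000000000000000000) (nat_lit 0x0) (nat_lit 0xc00060037001f000f800000000000000000) := T_11 (nat_lit 122) (nat_lit 121) (nat_lit 3) (nat_lit 2) (nat_lit 7) L60122 (by decide +kernel)
theorem L60218 : W_11 (nat_lit 11) (nat_lit 0x2000000012000b8000000000000000000000000000000) (nat_lit 0x0) (nat_lit 0xcc00060037001f000f800000000000000000) := T_11 (nat_lit 142) (nat_lit 143) (nat_lit 0) (nat_lit 8) (nat_lit 8) L60217 (by decide +kernel)
theorem L60219 : W_11 (nat_lit 3) (nat_lit 0x2000000012000b8000000000000000000000000000000) (nat_lit 0x0) (nat_lit 0x100040000e00000000000000000000000000) := T_11 (nat_lit 126) (nat_lit 140) (nat_lit 1) (nat_lit 8) (nat_lit 7) L60090 (by decide +kernel)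
theorem L60220 : W_11 (nat_lit 12) (nat_lit 0x200000001200098000000000000000000000000000000) (nat_lit 0x0) (nat_lit 0xdc0066003f001f000f800000000000000000) := Q_11 (nat_lit 125) (C_11 L60091 (C_11 L60218 (C_11 L60089 (C_11 L60219 N_11)))) (by decide +kernel)
theorem L60221 : W_11 (nat_lit 2) (nat_lit 0x2000000016000f8000200000000000000000000000000) (nat_lit 0x0) (nat_lit 0x6000100000000000000000000000000) := D_11 (nat_lit 122) (nat_lit 104) (nat_lit 121) (nat_lit 0) (nat_lit 6) (nat_lit 7) (nat_lit 3) (nat_lit 2) (nat_lit 7) (by decide +kernel)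
theorem L60222 : W_11 (nat_lit 3) (nat_lit 0x2000000016000f8000000000000000000000000000000) (nat_lit 0x0) (nat_lit 0x6000700000000000000000000000000) := T_11 (nat_lit 105) (nat_lit 106) (nat_lit 0) (nat_lit 7) (nat_lit 7) L60221 (by decide +kernel)
theorem L60223 : W_11 (nat_lit 4) (nat_lit 0x2000000012000f8000000000000000000000000000000) (nat_lit 0x0) (nat_lit 0x400106000700000000000000000000000000) := T_11 (nat_lit 142) (nat_lit 128) (nat_lit 1) (nat_lit 9) (nat_lit 7) L60222 (by decide +kernel)
theorem L60224 : W_11 (nat_lit 5) (nat_lit 0x2000000012000b8000000000000000000000000000000) (nat_lit 0x0) (nat_lit 0x500146000700000000000000000000000000) := T_11 (nat_lit 126) (nat_lit 140) (nat_lit 1) (nat_lit 8) (nat_lit 7) L60223 (by decide +kernel)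
theorem L60225 : W_11 (nat_lit 12) (nat_lit 0x200000001200098000000000000000000000000000000) (nat_lit 0x0) (nat_lit 0xdc01660037001f000f800000000000000000) := Q_11 (nat_lit 125) (C_11 L60089 (C_11 L60218 (C_11 L60224 N_11))) (by decide +kernel)
theorem L60226 : W_11 (nat_lit 2) (nat_lit 0x2000020017000bc000200000000000000000000000000) (nat_lit 0x0) (nat_lit 0x400010000800000000000000000) := D_11 (nat_lit 88) (nat_lit 106) (nat_lit 71) (nat_lit 4) (nat_lit 4) (nat_lit 9) (nat_lit 7) (nat_lit 3) (nat_lit 4) (by decide +kernel)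
theorem L60227 : W_11 (nat_lit 3) (nat_lit 0x2000000017000bc000200000000000000000000000000) (nat_lit 0x0) (nat_lit 0x40002000000000000400010000800000000000000000) := T_11 (nat_lit 157) (nat_lit 174) (nat_lit 4) (nat_lit 4) (nat_lit 10) L60226 (by decide +kernel)
theorem L60228 : W_11 (nat_lit 4) (nat_lit 0x2000000017000bc000000000000000000000000000000) (nat_lit 0x0) (nat_lit 0x40002000000000000700010000800000000000000000) := T_11 (nat_lit 105) (nat_lit 104) (nat_lit 0) (nat_lit 6) (nat_lit 7) L60227 (by decide +kernel)
theorem L60229 : W_11 (nat_lit 5) (nat_lit 0x2000000017000b8000000000000000000000000000000) (nat_lit 0x0) (nat_lit 0x40002000000006000700010000800000000000000000) := T_11 (nat_lit 122) (nat_lit 121) (nat_lit 3) (nat_lit 2) (nat_lit 7) L60228 (by decide +kernel)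
theorem L60230 : W_11 (nat_lit 6) (nat_lit 0x2000000013000b8000000000000000000000000000000) (nat_lit 0x0) (nat_lit 0x40002000c00006000700010000800000000000000000) := T_11 (nat_lit 142) (nat_lit 143) (nat_lit 0) (nat_lit 8) (nat_lit 8) L60229 (by decide +kernel)
theorem L60231 : W_11 (nat_lit 7) (nat_lit 0x200000001300098000000000000000000000000000000) (nat_lit 0x0) (nat_lit 0x40002000c00066000700010000800000000000000000) := T_11 (nat_lit 125) (nat_lit 126) (nat_lit 1) (nat_lit 8) (nat_lit 7) L60230 (by decide +kernel)
theorem L60232 : W_11 (nat_lit 13) (nat_lit 0x200000001200098000000000000000000000000000000) (nat_lit 0x0) (nat_lit 0xfe001f0013c00de0067001f800fc007c00020000000000000) := Q_11 (nat_lit 140) (C_11 L59999 (C_11 L59878 (C_11 L59922 (C_11 L59940 (C_11 L59962 (C_11 L60231 (C_11 L59998 N_11))))))) (by decide +kernel)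
theorem L60233 : W_11 (nat_lit 2) (nat_lit 0x2000000012001f8001000000000000000000000000000) (nat_lit 0x0) (nat_lit 0x204002000000000000000000000000000) := D_11 (nat_lit 109) (nat_lit 129) (nat_lit 122) (nat_lit 0) (nat_lit 10) (nat_lit 7) (nat_lit 2) (nat_lit 3) (nat_lit 7) (by decide +kernel)
theorem L60234 : W_11 (nat_lit 3) (nat_lit 0x2000000012001f8000000000000000000000000000000) (nat_lit 0x0) (nat_lit 0x204003800000000000000000000000000) := T_11 (nat_lit 108) (nat_lit 107) (nat_lit 0) (nat_lit 9) (nat_lit 7) L60233 (by decide +kernel)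
theorem L60235 : W_11 (nat_lit 4) (nat_lit 0x2000000012000f8000000000000000000000000000000) (nat_lit 0x0) (nat_lit 0x400304003800000000000000000000000000) := T_11 (nat_lit 128) (nat_lit 142) (nat_lit 1) (nat_lit 9) (nat_lit 7) L60234 (by decide +kernel)
theorem L60236 : W_11 (nat_lit 2) (nat_lit 0x20000000130009c000000000000000000000000000000) (nat_lit 0x0) (nat_lit 0x400003000000000000000000000000000000) := D_11 (nat_lit 121) (nat_lit 120) (nat_lit 142) (nat_lit 3) (nat_lit 1) (nat_lit 7) (nat_lit 3) (nat_lit 2) (nat_lit 7) (by decide +kernel)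
theorem L60237 : W_11 (nat_lit 5) (nat_lit 0x20000000130009c000000000000000000000000000000) (nat_lit 0x0) (nat_lit 0x20000c0060000300010000800000000000000000) := T_11 (nat_lit 125) (nat_lit 126) (nat_lit 1) (nat_lit 8) (nat_lit 7) L60166 (by decide +kernel)
theorem L60238 : W_11 (nat_lit 6) (nat_lit 0x200000001300098000000000000000000000000000000) (nat_lit 0x0) (nat_lit 0x20004c0067000300010000800000000000000000) := Q_11 (nat_lit 122) (C_11 L60236 (C_11 L60237 N_11)) (by decide +kernel)
theorem L60239 : W_11 (nat_lit 2) (nat_lit 0x4002000010017800bc001200038004000000000000000000) (nat_lit 0x0) (nat_lit 0x800040002000000000000000000) := D_11 (nat_lit 90) (nat_lit 107) (nat_lit 73) (nat_lit 3) (nat_lit 2) (nat_lit 5) (nat_lit 2) (nat_lit 2) (nat_lit 5) (by decide +kernel)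
theorem L60240 : W_11 (nat_lit 3) (nat_lit 0x4002000010017800bc001200030004000000000000000000) (nat_lit 0x0) (nat_lit 0x800048002400000000000000000) := T_11 (nat_lit 87) (nat_lit 70) (nat_lit 4) (nat_lit 3) (nat_lit 8) L60239 (by decide +kernel)
theorem L60241 : W_11 (nat_lit 4) (nat_lit 0x4002000010017800bc001200010004000000000000000000) (nat_lit 0x0) (nat_lit 0x800068003400000000000000000) := T_11 (nat_lit 89) (nat_lit 72) (nat_lit 6) (nat_lit 3) (nat_lit 8) L60240 (by decide +kernel)
theorem L60242 : W_11 (nat_lit 5) (nat_lit 0x4002000010017800bc001200000004000000000000000000) (nat_lit 0x0) (nat_lit 0x800078003c00000000000000000) := T_11 (nat_lit 88) (nat_lit 71) (nat_lit 7) (nat_lit 3) (nat_lit 4) L60241 (by decide +kernel)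
theorem L60243 : W_11 (nat_lit 6) (nat_lit 0x4002000010017800bc001000000004000000000000000000) (nat_lit 0x0) (nat_lit 0xb00078003c00000000000000000) := T_11 (nat_lit 105) (nat_lit 104) (nat_lit 0) (nat_lit 6) (nat_lit 7) L60242 (by decide +kernel)
theorem L60244 : W_11 (nat_lit 7) (nat_lit 0x2000010017800bc001000000004000000000000000000) (nat_lit 0x0) (nat_lit 0x400020000000000000000b00078003c00000000000000000) := T_11 (nat_lit 190) (nat_lit 173) (nat_lit 6) (nat_lit 3) (nat_lit 11) L60243 (by decide +kernel)
theorem L60245 : W_11 (nat_lit 8) (nat_lit 0x2000010017800bc001000000000000000000000000000) (nat_lit 0x0) (nat_lit 0x400020000000000000000b000f8007c00000000000000000) := T_11 (nat_lit 74) (nat_lit 91) (nat_lit 5) (nat_lit 6) (nat_lit 4) L60244 (by decide +kernel)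
theorem L60246 : W_11 (nat_lit 9) (nat_lit 0x2000000017800bc001000000000000000000000000000) (nat_lit 0x0) (nat_lit 0x400020001800000000000b000f8007c00000000000000000) := T_11 (nat_lit 156) (nat_lit 155) (nat_lit 1) (nat_lit 6) (nat_lit 8) L60245 (by decide +kernel)
theorem L60247 : W_11 (nat_lit 10) (nat_lit 0x2000000017000bc001000000000000000000000000000) (nat_lit 0x0) (nat_lit 0x4000200018000c0000000b000f8007c00000000000000000) := T_11 (nat_lit 139) (nat_lit 138) (nat_lit 2) (nat_lit 2) (nat_lit 8) L60246 (by decide +kernel)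
theorem L60248 : W_11 (nat_lit 11) (nat_lit 0x2000000017000bc000000000000000000000000000000) (nat_lit 0x0) (nat_lit 0x4000200018000c0000003b000f8007c00000000000000000) := T_11 (nat_lit 108) (nat_lit 109) (nat_lit 2) (nat_lit 3) (nat_lit 7) L60247 (by decide +kernel)
theorem L60249 : W_11 (nat_lit 12) (nat_lit 0x20000000170009c000000000000000000000000000000) (nat_lit 0x0) (nat_lit 0x4000200018000c0060003b000f8007c00000000000000000) := T_11 (nat_lit 125) (nat_lit 126) (nat_lit 1) (nat_lit 8) (nat_lit 7) L60248 (by decide +kernel)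
theorem L60250 : W_11 (nat_lit 13) (nat_lit 0x200000001700098000000000000000000000000000000) (nat_lit 0x0) (nat_lit 0x4000200018000c0066003b000f8007c00000000000000000) := T_11 (nat_lit 122) (nat_lit 121) (nat_lit 3) (nat_lit 2) (nat_lit 7) L60249 (by decide +kernel)
theorem L60251 : W_11 (nat_lit 14) (nat_lit 0x200000001300098000000000000000000000000000000) (nat_lit 0x0) (nat_lit 0x400020001800cc0066003b000f8007c00000000000000000) := T_11 (nat_lit 142) (nat_lit 143) (nat_lit 0) (nat_lit 8) (nat_lit 8) L60250 (by decide +kernel)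
theorem L60252 : W_11 (nat_lit 7) (nat_lit 0x2000000017000b8000000000000000000000000000000) (nat_lit 0x0) (nat_lit 0x40002000000006003b000c0006000000000000000000) := T_11 (nat_lit 122) (nat_lit 121) (nat_lit 3) (nat_lit 2) (nat_lit 7) L60152 (by decide +kernel)
theorem L60253 : W_11 (nat_lit 8) (nat_lit 0x2000000013000b8000000000000000000000000000000) (nat_lit 0x0) (nat_lit 0x40002000c00006003b000c0006000000000000000000) := T_11 (nat_lit 142) (nat_lit 143) (nat_lit 0) (nat_lit 8) (nat_lit 8) L60252 (by decide +kernel)
theorem L60254 : W_11 (nat_lit 9) (nat_lit 0x200000001300098000000000000000000000000000000) (nat_lit 0x0) (nat_lit 0x40002000c00066003b000c0006000000000000000000) := T_11 (nat_lit 125) (nat_lit 126) (nat_lit 1) (nat_lit 8) (nat_lit 7) L60253 (by decide +kernel)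
theorem L60255 : W_11 (nat_lit 2) (nat_lit 0x2000000013400de0009000f0000000000000000000000) (nat_lit 0x0) (nat_lit 0x8000c00000000000000000) := D_11 (nat_lit 71) (nat_lit 70) (nat_lit 87) (nat_lit 0) (nat_lit 6) (nat_lit 5) (nat_lit 6) (nat_lit 2) (nat_lit 8) (by decide +kernel)
theorem L60256 : W_11 (nat_lit 3) (nat_lit 0x2000000013400de0009000e0000000000000000000000) (nat_lit 0x0) (nat_lit 0x200018000c00000000000000000) := T_11 (nat_lit 88) (nat_lit 105) (nat_lit 1) (nat_lit 6) (nat_lit 5) L60255 (by decide +kernel)
theorem L60257 : W_11 (nat_lit 4) (nat_lit 0x2000000013400de0009000c0000000000000000000000) (nat_lit 0x0) (nat_lit 0x200038001c00000000000000000) := T_11 (nat_lit 89) (nat_lit 72) (nat_lit 4) (nat_lit 5) (nat_lit 8) L60256 (by decide +kernel)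
theorem L60258 : W_11 (nat_lit 5) (nat_lit 0x2000000013400de000900040000000000000000000000) (nat_lit 0x0) (nat_lit 0x2000b8005c00000000000000000) := T_11 (nat_lit 91) (nat_lit 74) (nat_lit 6) (nat_lit 5) (nat_lit 8) L60257 (by decide +kernel)
theorem L60259 : W_11 (nat_lit 6) (nat_lit 0x2000000013400de000800040000000000000000000000) (nat_lit 0x0) (nat_lit 0x3800b8005c00000000000000000) := T_11 (nat_lit 104) (nat_lit 103) (nat_lit 0) (nat_lit 5) (nat_lit 7) L60258 (by decide +kernel)
theorem L60260 : W_11 (nat_lit 7) (nat_lit 0x2000000013400de000800000000000000000000000000) (nat_lit 0x0) (nat_lit 0x3800f8007c00000000000000000) := T_11 (nat_lit 90) (nat_lit 73) (nat_lit 5) (nat_lit 5) (nat_lit 4) L60259 (by decide +kernel)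
theorem L60261 : W_11 (nat_lit 8) (nat_lit 0x2000000013000de000800000000000000000000000000) (nat_lit 0x0) (nat_lit 0x600000003800f8007c00000000000000000) := T_11 (nat_lit 138) (nat_lit 137) (nat_lit 1) (nat_lit 5) (nat_lit 7) L60260 (by decide +kernel)
theorem L60262 : W_11 (nat_lit 9) (nat_lit 0x2000000013000de000000000000000000000000000000) (nat_lit 0x0) (nat_lit 0x60000001b800f8007c00000000000000000) := T_11 (nat_lit 107) (nat_lit 108) (nat_lit 2) (nat_lit 2) (nat_lit 7) L60261 (by decide +kernel)
theorem L60263 : W_11 (nat_lit 10) (nat_lit 0x2000000013000dc000000000000000000000000000000) (nat_lit 0x0) (nat_lit 0x60003001b800f8007c00000000000000000) := T_11 (nat_lit 121) (nat_lit 120) (nat_lit 3) (nat_lit 1) (nat_lit 7) L60262 (by decide +kernel)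
theorem L60264 : W_11 (nat_lit 11) (nat_lit 0x20000000130009c000000000000000000000000000000) (nat_lit 0x0) (nat_lit 0x60063001b800f8007c00000000000000000) := T_11 (nat_lit 126) (nat_lit 125) (nat_lit 1) (nat_lit 8) (nat_lit 7) L60263 (by decide +kernel)
theorem L60265 : W_11 (nat_lit 2) (nat_lit 0x20000000130009e000800000000000000000000000000) (nat_lit 0x0) (nat_lit 0x2000000000000000040002000000000000000000) := D_11 (nat_lit 90) (nat_lit 73) (nat_lit 157) (nat_lit 5) (nat_lit 5) (nat_lit 4) (nat_lit 5) (nat_lit 5) (nat_lit 5) (by decide +kernel)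
theorem L60266 : W_11 (nat_lit 3) (nat_lit 0x20000000130009e000000000000000000000000000000) (nat_lit 0x0) (nat_lit 0x2000000000001800040002000000000000000000) := T_11 (nat_lit 107) (nat_lit 108) (nat_lit 2) (nat_lit 2) (nat_lit 7) L60265 (by decide +kernel)
theorem L60267 : W_11 (nat_lit 4) (nat_lit 0x20000000130009c000000000000000000000000000000) (nat_lit 0x0) (nat_lit 0x2000000003001800040002000000000000000000) := T_11 (nat_lit 121) (nat_lit 120) (nat_lit 3) (nat_lit 1) (nat_lit 7) L60266 (by decide +kernel)
theorem L60268 : W_11 (nat_lit 12) (nat_lit 0x200000001300098000000000000000000000000000000) (nat_lit 0x0) (nat_lit 0x20000e0067001b800f8007c00000000000000000) := Q_11 (nat_lit 122) (C_11 L60264 (C_11 L60267 (C_11 L60237 N_11))) (by decide +kernel)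
theorem L60269 : W_11 (nat_lit 2) (nat_lit 0x200000001300098000800000000000000000000000000) (nat_lit 0x0) (nat_lit 0x2000000000000000040002000000000000000000) := D_11 (nat_lit 90) (nat_lit 73) (nat_lit 157) (nat_lit 5) (nat_lit 5) (nat_lit 4) (nat_lit 5) (nat_lit 5) (nat_lit 5) (by decide +kernel)
theorem L60270 : W_11 (nat_lit 2) (nat_lit 0x300010001b000d80028000e0000000000000000000000) (nat_lit 0x0) (nat_lit 0x20000000000000000100008000000000000000000) := D_11 (nat_lit 92) (nat_lit 161) (nat_lit 75) (nat_lit 7) (nat_lit 7) (nat_lit 5) (nat_lit 7) (nat_lit 7) (nat_lit 4) (by decide +kernel)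
theorem L60271 : W_11 (nat_lit 3) (nat_lit 0x300010001b000d80008000e0000000000000000000000) (nat_lit 0x0) (nat_lit 0x20000000000003000100008000000000000000000) := T_11 (nat_lit 109) (nat_lit 108) (nat_lit 4) (nat_lit 7) (nat_lit 9) L60270 (by decide +kernel)
theorem L60272 : W_11 (nat_lit 4) (nat_lit 0x300010001b000d8000800060000000000000000000000) (nat_lit 0x0) (nat_lit 0x2000000000000300018000c000000000000000000) := T_11 (nat_lit 91) (nat_lit 74) (nat_lit 6) (nat_lit 5) (nat_lit 8) L60271 (by decide +kernel)
theorem L60273 : W_11 (nat_lit 5) (nat_lit 0x300010001b000d8000800040000000000000000000000) (nat_lit 0x0) (nat_lit 0x200000000000030001a000d000000000000000000) := T_11 (nat_lit 89) (nat_lit 72) (nat_lit 4) (nat_lit 5) (nat_lit 8) L60272 (by decide +kernel)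
theorem L60274 : W_11 (nat_lit 6) (nat_lit 0x300010001b000d8000800000000000000000000000000) (nat_lit 0x0) (nat_lit 0x200000000000030001e000f000000000000000000) := T_11 (nat_lit 90) (nat_lit 73) (nat_lit 5) (nat_lit 5) (nat_lit 4) L60273 (by decide +kernel)
theorem L60275 : W_11 (nat_lit 7) (nat_lit 0x200010001b000d8000800000000000000000000000000) (nat_lit 0x0) (nat_lit 0x20001000200000000000030001e000f000000000000000000) := T_11 (nat_lit 176) (nat_lit 193) (nat_lit 5) (nat_lit 7) (nat_lit 7) L60274 (by decide +kernel)
theorem L60276 : W_11 (nat_lit 8) (nat_lit 0x200010001b00098000800000000000000000000000000) (nat_lit 0x0) (nat_lit 0x20001000200000000600030001e000f000000000000000000) := T_11 (nat_lit 126) (nat_lit 125) (nat_lit 3) (nat_lit 4) (nat_lit 7) L60275 (by decide +kernel)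
theorem L60277 : W_11 (nat_lit 9) (nat_lit 0x200000001b00098000800000000000000000000000000) (nat_lit 0x0) (nat_lit 0x60001000300000000600030001e000f000000000000000000) := T_11 (nat_lit 160) (nat_lit 194) (nat_lit 6) (nat_lit 7) (nat_lit 11) L60276 (by decide +kernel)
theorem L60278 : W_11 (nat_lit 10) (nat_lit 0x200000001300098000800000000000000000000000000) (nat_lit 0x0) (nat_lit 0x6000100030000c000600030001e000f000000000000000000) := T_11 (nat_lit 143) (nat_lit 142) (nat_lit 0) (nat_lit 8) (nat_lit 8) L60277 (by decide +kernel)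
theorem L60279 : W_11 (nat_lit 2) (nat_lit 0x4003e0010001b000d8000800000000000000000000000000) (nat_lit 0x0) (nat_lit 0x1800080000000000000000000000000000000000) := D_11 (nat_lit 156) (nat_lit 155) (nat_lit 139) (nat_lit 0) (nat_lit 6) (nat_lit 10) (nat_lit 6) (nat_lit 3) (nat_lit 11) (by decide +kernel)
theorem L60280 : W_11 (nat_lit 3) (nat_lit 0x4003c0010001b000d8000800000000000000000000000000) (nat_lit 0x0) (nat_lit 0x200020001800080000000000000000000000000000000000) := T_11 (nat_lit 173) (nat_lit 189) (nat_lit 1) (nat_lit 6) (nat_lit 10) L60279 (by decide +kernel)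
theorem L60281 : W_11 (nat_lit 4) (nat_lit 0x3c0010001b000d8000800000000000000000000000000) (nat_lit 0x0) (nat_lit 0xe00020001800080000000000000000000000000000000000) := T_11 (nat_lit 190) (nat_lit 191) (nat_lit 1) (nat_lit 7) (nat_lit 10) L60280 (by decide +kernel)
theorem L60282 : W_11 (nat_lit 5) (nat_lit 0x340010001b000d8000800000000000000000000000000) (nat_lit 0x0) (nat_lit 0xe000a0021800080000000000000000000000000000000000) := T_11 (nat_lit 175) (nat_lit 161) (nat_lit 2) (nat_lit 4) (nat_lit 10) L60281 (by decide +kernel)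
theorem L60283 : W_11 (nat_lit 6) (nat_lit 0x240010001b000d8000800000000000000000000000000) (nat_lit 0x0) (nat_lit 0x2e001a0021800080000000000000000000000000000000000) := T_11 (nat_lit 176) (nat_lit 193) (nat_lit 5) (nat_lit 7) (nat_lit 7) L60282 (by decide +kernel)
theorem L60284 : W_11 (nat_lit 7) (nat_lit 0x240010001b00098000800000000000000000000000000) (nat_lit 0x0) (nat_lit 0x2e001a0021800080060000000000000000000000000000000) := T_11 (nat_lit 126) (nat_lit 125) (nat_lit 3) (nat_lit 4) (nat_lit 7) L60283 (by decide +kernel)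
theorem L60285 : W_11 (nat_lit 8) (nat_lit 0x240000001b00098000800000000000000000000000000) (nat_lit 0x0) (nat_lit 0x6e001a0031800080060000000000000000000000000000000) := T_11 (nat_lit 160) (nat_lit 194) (nat_lit 6) (nat_lit 7) (nat_lit 11) L60284 (by decide +kernel)
theorem L60286 : W_11 (nat_lit 9) (nat_lit 0x240000001300098000800000000000000000000000000) (nat_lit 0x0) (nat_lit 0x6e001a0031800c80060000000000000000000000000000000) := T_11 (nat_lit 143) (nat_lit 142) (nat_lit 0) (nat_lit 8) (nat_lit 8) L60285 (by decide +kernel)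
theorem L60287 : W_11 (nat_lit 10) (nat_lit 0x200000001300098000800000000000000000000000000) (nat_lit 0x0) (nat_lit 0x6e001e0033800c80060000000000000000000000000000000) := T_11 (nat_lit 174) (nat_lit 157) (nat_lit 6) (nat_lit 4) (nat_lit 10) L60286 (by decide +kernel)
theorem L60288 : W_11 (nat_lit 11) (nat_lit 0x200000001300098000000000000000000000000000000) (nat_lit 0x0) (nat_lit 0x6e001e0033800c800600038001e000f000000000000000000) := Q_11 (nat_lit 107) (C_11 L60269 (C_11 L60278 (C_11 L58044 (C_11 L60287 N_11)))) (by decide +kernel)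
theorem L60289 : W_11 (nat_lit 15) (nat_lit 0x200000001200098000000000000000000000000000000) (nat_lit 0x0) (nat_lit 0xfe001f0033c00de0067003b801f800fc00000000000000000) := Q_11 (nat_lit 140) (C_11 L60238 (C_11 L59962 (C_11 L60251 (C_11 L60254 (C_11 L60268 (C_11 L60288 N_11)))))) (by decide +kernel)
theorem L60290 : W_11 (nat_lit 7) (nat_lit 0x2000000016000bc000000000000000000000000000000) (nat_lit 0x0) (nat_lit 0x3f001e000e000000000000000000) := T_11 (nat_lit 108) (nat_lit 109) (nat_lit 2) (nat_lit 3) (nat_lit 7) L60183 (by decide +kernel)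
theorem L60291 : W_11 (nat_lit 8) (nat_lit 0x2000000016000b8000000000000000000000000000000) (nat_lit 0x0) (nat_lit 0x6003f001e000e000000000000000000) := T_11 (nat_lit 122) (nat_lit 121) (nat_lit 3) (nat_lit 2) (nat_lit 7) L60290 (by decide +kernel)
theorem L60292 : W_11 (nat_lit 9) (nat_lit 0x2000000012000b8000000000000000000000000000000) (nat_lit 0x0) (nat_lit 0xc00006003f001e000e000000000000000000) := T_11 (nat_lit 142) (nat_lit 143) (nat_lit 0) (nat_lit 8) (nat_lit 8) L60291 (by decide +kernel)
theorem L60293 : W_11 (nat_lit 10) (nat_lit 0x200000001200098000000000000000000000000000000) (nat_lit 0x0) (nat_lit 0xd00166003f001e000e000000000000000000) := Q_11 (nat_lit 125) (C_11 L60292 (C_11 L60224 (C_11 L60089 N_11))) (by decide +kernel)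
theorem L60294 : W_11 (nat_lit 2) (nat_lit 0x2000000012000b8000000000000000000000000000000) (nat_lit 0x0) (nat_lit 0xc00040000000000000000000000000000000) := D_11 (nat_lit 143) (nat_lit 142) (nat_lit 126) (nat_lit 0) (nat_lit 8) (nat_lit 8) (nat_lit 3) (nat_lit 4) (nat_lit 7) (by decide +kernel)
theorem L60295 : W_11 (nat_lit 2) (nat_lit 0x2000000012000fc001200000000000000000000000000) (nat_lit 0x0) (nat_lit 0x400100000800000000000000000000000000) := D_11 (nat_lit 128) (nat_lit 142) (nat_lit 107) (nat_lit 1) (nat_lit 9) (nat_lit 7) (nat_lit 0) (nat_lit 9) (nat_lit 7) (by decide +kernel)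
theorem L60296 : W_11 (nat_lit 3) (nat_lit 0x2000000012000bc001200000000000000000000000000) (nat_lit 0x0) (nat_lit 0x400140000c00000000000000000000000000) := T_11 (nat_lit 126) (nat_lit 106) (nat_lit 0) (nat_lit 7) (nat_lit 7) L60295 (by decide +kernel)
theorem L60297 : W_11 (nat_lit 4) (nat_lit 0x2000000012000bc000200000000000000000000000000) (nat_lit 0x0) (nat_lit 0x400140003c00000000000000000000000000) := T_11 (nat_lit 108) (nat_lit 109) (nat_lit 2) (nat_lit 3) (nat_lit 7) L60296 (by decide +kernel)
theorem L60298 : W_11 (nat_lit 5) (nat_lit 0x2000000012000bc000000000000000000000000000000) (nat_lit 0x0) (nat_lit 0x400140003f00000000000000000000000000) := T_11 (nat_lit 105) (nat_lit 104) (nat_lit 0) (nat_lit 6) (nat_lit 7) L60297 (by decide +kernel)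
theorem L60299 : W_11 (nat_lit 6) (nat_lit 0x2000000012000b8000000000000000000000000000000) (nat_lit 0x0) (nat_lit 0x4e0146003f80000000000000000000000000) := Q_11 (nat_lit 122) (C_11 L60087 (C_11 L60076 (C_11 L60079 (C_11 L60298 N_11)))) (by decide +kernel)
theorem L60300 : W_11 (nat_lit 12) (nat_lit 0x200000001200098000000000000000000000000000000) (nat_lit 0x0) (nat_lit 0xce0166003f801f000f800000000000000000) := Q_11 (nat_lit 125) (C_11 L60292 (C_11 L60218 (C_11 L60091 (C_11 L60294 (C_11 L60299 N_11))))) (by decide +kernel)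
theorem L60301 : W_11 (nat_lit 2) (nat_lit 0x2000000013800bc001600030004000000000000000000) (nat_lit 0x0) (nat_lit 0x800008000400000000000000000) := D_11 (nat_lit 87) (nat_lit 107) (nat_lit 70) (nat_lit 0) (nat_lit 6) (nat_lit 6) (nat_lit 4) (nat_lit 3) (nat_lit 8) (by decide +kernel)
theorem L60302 : W_11 (nat_lit 3) (nat_lit 0x2000000013800bc001200030004000000000000000000) (nat_lit 0x0) (nat_lit 0x1000000000000c00008000400000000000000000) := T_11 (nat_lit 106) (nat_lit 156) (nat_lit 6) (nat_lit 3) (nat_lit 9) L60301 (by decide +kernel)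
theorem L60303 : W_11 (nat_lit 4) (nat_lit 0x2000000013800bc001200010004000000000000000000) (nat_lit 0x0) (nat_lit 0x1000000000000c00028001400000000000000000) := T_11 (nat_lit 89) (nat_lit 72) (nat_lit 6) (nat_lit 3) (nat_lit 8) L60302 (by decide +kernel)
theorem L60304 : W_11 (nat_lit 5) (nat_lit 0x2000000013800bc001200000004000000000000000000) (nat_lit 0x0) (nat_lit 0x1000000000000c00038001c00000000000000000) := T_11 (nat_lit 88) (nat_lit 71) (nat_lit 7) (nat_lit 3) (nat_lit 4) L60303 (by decide +kernel)
theorem L60305 : W_11 (nat_lit 6) (nat_lit 0x2000000013800bc001200000000000000000000000000) (nat_lit 0x0) (nat_lit 0x1000000000000c000b8005c00000000000000000) := T_11 (nat_lit 74) (nat_lit 91) (nat_lit 5) (nat_lit 6) (nat_lit 4) L60304 (by decide +kernel)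
theorem L60306 : W_11 (nat_lit 7) (nat_lit 0x2000000013800bc001000000000000000000000000000) (nat_lit 0x0) (nat_lit 0x1000000000000f000b8005c00000000000000000) := T_11 (nat_lit 105) (nat_lit 104) (nat_lit 0) (nat_lit 6) (nat_lit 7) L60305 (by decide +kernel)
theorem L60307 : W_11 (nat_lit 8) (nat_lit 0x2000000013800bc000000000000000000000000000000) (nat_lit 0x0) (nat_lit 0x1000000000003f000b8005c00000000000000000) := T_11 (nat_lit 108) (nat_lit 109) (nat_lit 2) (nat_lit 3) (nat_lit 7) L60306 (by decide +kernel)
theorem L60308 : W_11 (nat_lit 9) (nat_lit 0x2000000013000bc000000000000000000000000000000) (nat_lit 0x0) (nat_lit 0x10000c0000003f000b8005c00000000000000000) := T_11 (nat_lit 139) (nat_lit 138) (nat_lit 2) (nat_lit 2) (nat_lit 8) L60307 (by decide +kernel)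
theorem L60309 : W_11 (nat_lit 10) (nat_lit 0x20000000130009c000000000000000000000000000000) (nat_lit 0x0) (nat_lit 0x10000c0060003f000b8005c00000000000000000) := T_11 (nat_lit 125) (nat_lit 126) (nat_lit 1) (nat_lit 8) (nat_lit 7) L60308 (by decide +kernel)
theorem L60310 : W_11 (nat_lit 12) (nat_lit 0x200000001300098000000000000000000000000000000) (nat_lit 0x0) (nat_lit 0x10004e0067003f800f8007c00000000000000000) := Q_11 (nat_lit 122) (C_11 L60236 (C_11 L60264 (C_11 L60309 N_11))) (by decide +kernel)
theorem L60311 : W_11 (nat_lit 2) (nat_lit 0x2000020017000bc0012001c0000800000000000000000) (nat_lit 0x0) (nat_lit 0x400020001000000000000000000) := D_11 (nat_lit 89) (nat_lit 106) (nat_lit 72) (nat_lit 1) (nat_lit 7) (nat_lit 5) (nat_lit 0) (nat_lit 7) (nat_lit 5) (by decide +kernel)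
theorem L60312 : W_11 (nat_lit 3) (nat_lit 0x2000020017000bc0012000c0000800000000000000000) (nat_lit 0x0) (nat_lit 0x400120009000000000000000000) := T_11 (nat_lit 92) (nat_lit 75) (nat_lit 6) (nat_lit 6) (nat_lit 8) L60311 (by decide +kernel)
theorem L60313 : W_11 (nat_lit 4) (nat_lit 0x2000020013000bc0012000c0000800000000000000000) (nat_lit 0x0) (nat_lit 0x40000000040012000b000000000000000000) := T_11 (nat_lit 142) (nat_lit 73) (nat_lit 4) (nat_lit 6) (nat_lit 8) L60312 (by decide +kernel)
theorem L60314 : W_11 (nat_lit 5) (nat_lit 0x2000020013000bc001200080000800000000000000000) (nat_lit 0x0) (nat_lit 0x400000000c0016000b000000000000000000) := T_11 (nat_lit 90) (nat_lit 107) (nat_lit 5) (nat_lit 5) (nat_lit 5) L60313 (by decide +kernel)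
theorem L60315 : W_11 (nat_lit 6) (nat_lit 0x2000000013000bc001200080000800000000000000000) (nat_lit 0x0) (nat_lit 0x40002000400000000c0016000b000000000000000000) := T_11 (nat_lit 157) (nat_lit 174) (nat_lit 4) (nat_lit 4) (nat_lit 10) L60314 (by decide +kernel)
theorem L60316 : W_11 (nat_lit 7) (nat_lit 0x2000000013000bc001200000000800000000000000000) (nat_lit 0x0) (nat_lit 0x40002000400000000c001e000f000000000000000000) := T_11 (nat_lit 91) (nat_lit 74) (nat_lit 5) (nat_lit 6) (nat_lit 4) L60315 (by decide +kernel)
theorem L60317 : W_11 (nat_lit 8) (nat_lit 0x2000000013000bc001200000000000000000000000000) (nat_lit 0x0) (nat_lit 0x40002000400000000c001f000f800000000000000000) := T_11 (nat_lit 71) (nat_lit 88) (nat_lit 7) (nat_lit 3) (nat_lit 4) L60316 (by decide +kernel)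
theorem L60318 : W_11 (nat_lit 9) (nat_lit 0x2000000013000bc000200000000000000000000000000) (nat_lit 0x0) (nat_lit 0x40002000400000003c001f000f800000000000000000) := T_11 (nat_lit 108) (nat_lit 109) (nat_lit 2) (nat_lit 3) (nat_lit 7) L60317 (by decide +kernel)
theorem L60319 : W_11 (nat_lit 10) (nat_lit 0x2000000013000bc000000000000000000000000000000) (nat_lit 0x0) (nat_lit 0x40002000400000003f001f000f800000000000000000) := T_11 (nat_lit 105) (nat_lit 104) (nat_lit 0) (nat_lit 6) (nat_lit 7) L60318 (by decide +kernel)
theorem L60320 : W_11 (nat_lit 11) (nat_lit 0x20000000130009c000000000000000000000000000000) (nat_lit 0x0) (nat_lit 0x40002000400060003f001f000f800000000000000000) := T_11 (nat_lit 125) (nat_lit 126) (nat_lit 1) (nat_lit 8) (nat_lit 7) L60319 (by decide +kernel)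
theorem L60321 : W_11 (nat_lit 12) (nat_lit 0x200000001300098000000000000000000000000000000) (nat_lit 0x0) (nat_lit 0x40002000460067003f801f800fc00000000000000000) := Q_11 (nat_lit 122) (C_11 L60264 (C_11 L60267 (C_11 L60236 (C_11 L60320 N_11)))) (by decide +kernel)
theorem L60322 : W_11 (nat_lit 4) (nat_lit 0x2000000013800b80008000c0000000000000000000000) (nat_lit 0x0) (nat_lit 0x1000000000000600320001000000000000000000) := T_11 (nat_lit 89) (nat_lit 72) (nat_lit 4) (nat_lit 5) (nat_lit 8) L31974 (by decide +kernel)
theorem L60323 : W_11 (nat_lit 5) (nat_lit 0x2000000013800b8000800040000000000000000000000) (nat_lit 0x0) (nat_lit 0x10000000000006003a0005000000000000000000) := T_11 (nat_lit 91) (nat_lit 74) (nat_lit 6) (nat_lit 5) (nat_lit 8) L60322 (by decide +kernel)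
theorem L60324 : W_11 (nat_lit 6) (nat_lit 0x2000000013000b8000800040000000000000000000000) (nat_lit 0x0) (nat_lit 0x10000c00000006003a0005000000000000000000) := T_11 (nat_lit 139) (nat_lit 138) (nat_lit 2) (nat_lit 2) (nat_lit 8) L60323 (by decide +kernel)
theorem L60325 : W_11 (nat_lit 7) (nat_lit 0x2000000013000b8000800000000000000000000000000) (nat_lit 0x0) (nat_lit 0x10000c00000006003e0007000000000000000000) := T_11 (nat_lit 90) (nat_lit 73) (nat_lit 5) (nat_lit 5) (nat_lit 4) L60324 (by decide +kernel)
theorem L60326 : W_11 (nat_lit 8) (nat_lit 0x200000001300098000800000000000000000000000000) (nat_lit 0x0) (nat_lit 0x10000c00600006003e0007000000000000000000) := T_11 (nat_lit 125) (nat_lit 126) (nat_lit 1) (nat_lit 8) (nat_lit 7) L60325 (by decide +kernel)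
theorem L60327 : W_11 (nat_lit 5) (nat_lit 0x2000000013c0098000000000000000000000000000000) (nat_lit 0x0) (nat_lit 0x400020003c00400000000400020000000000000000000000) := T_11 (nat_lit 155) (nat_lit 154) (nat_lit 1) (nat_lit 5) (nat_lit 8) L55395 (by decide +kernel)
theorem L60328 : W_11 (nat_lit 2) (nat_lit 0x2000030013800d8001f00088000000200000000000000) (nat_lit 0x0) (nat_lit 0xc00400000000000000000000000000000000000) := D_11 (nat_lit 155) (nat_lit 154) (nat_lit 142) (nat_lit 2) (nat_lit 1) (nat_lit 9) (nat_lit 1) (nat_lit 6) (nat_lit 8) (by decide +kernel)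
theorem L60329 : W_11 (nat_lit 3) (nat_lit 0x2000030013000d8001f00088000000200000000000000) (nat_lit 0x0) (nat_lit 0xc00480004000000000000000000000000000000) := T_11 (nat_lit 139) (nat_lit 122) (nat_lit 4) (nat_lit 3) (nat_lit 9) L60328 (by decide +kernel)
theorem L60330 : W_11 (nat_lit 4) (nat_lit 0x2000020013000d8001f00088000000200000000000000) (nat_lit 0x0) (nat_lit 0x20001c00480004000000000000000000000000000000) := T_11 (nat_lit 156) (nat_lit 173) (nat_lit 5) (nat_lit 4) (nat_lit 6) L60329 (by decide +kernel)
theorem L60331 : W_11 (nat_lit 5) (nat_lit 0x2000020013000d8001f00088000000000000000000000) (nat_lit 0x0) (nat_lit 0x20001c00480004000000000004000200000000000000) := T_11 (nat_lit 57) (nat_lit 74) (nat_lit 5) (nat_lit 6) (nat_lit 3) L60330 (by decide +kernel)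
theorem L60332 : W_11 (nat_lit 6) (nat_lit 0x2000020013000d8001f00080000000000000000000000) (nat_lit 0x0) (nat_lit 0x20001c0048000400000000c004000200000000000000) := T_11 (nat_lit 87) (nat_lit 86) (nat_lit 0) (nat_lit 5) (nat_lit 6) L60331 (by decide +kernel)
theorem L60333 : W_11 (nat_lit 7) (nat_lit 0x2000020013000d8001f00000000000000000000000000) (nat_lit 0x0) (nat_lit 0x20001c0048000400000018c004000200000000000000) := T_11 (nat_lit 91) (nat_lit 92) (nat_lit 2) (nat_lit 3) (nat_lit 6) L60332 (by decide +kernel)
theorem L60334 : W_11 (nat_lit 8) (nat_lit 0x2000020013000d8001e00000000000000000000000000) (nat_lit 0x0) (nat_lit 0x20001c0048000400018018c004000200000000000000) := T_11 (nat_lit 104) (nat_lit 103) (nat_lit 3) (nat_lit 1) (nat_lit 6) L60333 (by decide +kernel)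
theorem L60335 : W_11 (nat_lit 9) (nat_lit 0x2000020013000d8001c00000000000000000000000000) (nat_lit 0x0) (nat_lit 0x20001c0048000400038019c004000200000000000000) := T_11 (nat_lit 105) (nat_lit 88) (nat_lit 4) (nat_lit 4) (nat_lit 9) L60334 (by decide +kernel)
theorem L60336 : W_11 (nat_lit 10) (nat_lit 0x2000020013000d8000c00000000000000000000000000) (nat_lit 0x0) (nat_lit 0x20001c0048000400338019c004000200000000000000) := T_11 (nat_lit 108) (nat_lit 109) (nat_lit 3) (nat_lit 4) (nat_lit 6) L60335 (by decide +kernel)
theorem L60337 : W_11 (nat_lit 11) (nat_lit 0x2000020013000d8000400000000000000000000000000) (nat_lit 0x0) (nat_lit 0x20001c00480004003b801dc004000200000000000000) := T_11 (nat_lit 107) (nat_lit 90) (nat_lit 6) (nat_lit 4) (nat_lit 9) L60336 (by decide +kernel)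
theorem L60338 : W_11 (nat_lit 12) (nat_lit 0x200002001300098000400000000000000000000000000) (nat_lit 0x0) (nat_lit 0x20001c00480064003b801dc004000200000000000000) := T_11 (nat_lit 126) (nat_lit 125) (nat_lit 1) (nat_lit 8) (nat_lit 7) L60337 (by decide +kernel)
theorem L60339 : W_11 (nat_lit 13) (nat_lit 0x200002001300098000000000000000000000000000000) (nat_lit 0x0) (nat_lit 0x20001c00480064003f801fc007800200000000000000) := Q_11 (nat_lit 106) (C_11 L59868 (C_11 L60338 (C_11 L59842 N_11))) (by decide +kernel)
theorem L60340 : W_11 (nat_lit 14) (nat_lit 0x200000001300098000000000000000000000000000000) (nat_lit 0x0) (nat_lit 0xc00060003c00480064003f801fc007800200000000000000) := Q_11 (nat_lit 157) (C_11 L60339 (C_11 L58204 (C_11 L57282 N_11))) (by decide +kernel)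
theorem L60341 : W_11 (nat_lit 2) (nat_lit 0x2000034013000da001f00088000000000000000000000) (nat_lit 0x0) (nat_lit 0xe0000000000000000000000000000000000) := D_11 (nat_lit 138) (nat_lit 139) (nat_lit 137) (nat_lit 7) (nat_lit 2) (nat_lit 5) (nat_lit 5) (nat_lit 2) (nat_lit 5) (by decide +kernel)
theorem L60342 : W_11 (nat_lit 3) (nat_lit 0x2000030013000da001f00088000000000000000000000) (nat_lit 0x0) (nat_lit 0xc000e0000000000000000000000000000000000) := T_11 (nat_lit 154) (nat_lit 155) (nat_lit 2) (nat_lit 1) (nat_lit 9) L60341 (by decide +kernel)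
theorem L60343 : W_11 (nat_lit 4) (nat_lit 0x2000030013000d8001f00088000000000000000000000) (nat_lit 0x0) (nat_lit 0xc000e0003000000000000000000000000000000) := T_11 (nat_lit 121) (nat_lit 120) (nat_lit 1) (nat_lit 5) (nat_lit 6) L60342 (by decide +kernel)
theorem L60344 : W_11 (nat_lit 5) (nat_lit 0x2000020013000d8001f00088000000000000000000000) (nat_lit 0x0) (nat_lit 0x20001c000e0003000000000000000000000000000000) := T_11 (nat_lit 156) (nat_lit 173) (nat_lit 5) (nat_lit 4) (nat_lit 6) L60343 (by decide +kernel)
theorem L60345 : W_11 (nat_lit 6) (nat_lit 0x2000020013000d8001f00080000000000000000000000) (nat_lit 0x0) (nat_lit 0x20001c000e000300000000c000000000000000000000) := T_11 (nat_lit 87) (nat_lit 86) (nat_lit 0) (nat_lit 5) (nat_lit 6) L60344 (by decide +kernel)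
theorem L60346 : W_11 (nat_lit 7) (nat_lit 0x2000020013000d8001f00000000000000000000000000) (nat_lit 0x0) (nat_lit 0x20001c000e000300000018c000000000000000000000) := T_11 (nat_lit 91) (nat_lit 92) (nat_lit 2) (nat_lit 3) (nat_lit 6) L60345 (by decide +kernel)
theorem L60347 : W_11 (nat_lit 8) (nat_lit 0x2000020013000d8001e00000000000000000000000000) (nat_lit 0x0) (nat_lit 0x20001c000e000300018018c000000000000000000000) := T_11 (nat_lit 104) (nat_lit 103) (nat_lit 3) (nat_lit 1) (nat_lit 6) L60346 (by decide +kernel)
theorem L60348 : W_11 (nat_lit 9) (nat_lit 0x2000020013000d8001c00000000000000000000000000) (nat_lit 0x0) (nat_lit 0x20001c000e000300038019c000000000000000000000) := T_11 (nat_lit 105) (nat_lit 88) (nat_lit 4) (nat_lit 4) (nat_lit 9) L60347 (by decide +kernel)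
theorem L60349 : W_11 (nat_lit 10) (nat_lit 0x2000020013000d8000c00000000000000000000000000) (nat_lit 0x0) (nat_lit 0x20001c000e000300338019c000000000000000000000) := T_11 (nat_lit 108) (nat_lit 109) (nat_lit 3) (nat_lit 4) (nat_lit 6) L60348 (by decide +kernel)
theorem L60350 : W_11 (nat_lit 11) (nat_lit 0x2000020013000d8000400000000000000000000000000) (nat_lit 0x0) (nat_lit 0x20001c000e0003003b801dc000000000000000000000) := T_11 (nat_lit 107) (nat_lit 90) (nat_lit 6) (nat_lit 4) (nat_lit 9) L60349 (by decide +kernel)
theorem L60351 : W_11 (nat_lit 12) (nat_lit 0x200002001300098000400000000000000000000000000) (nat_lit 0x0) (nat_lit 0x20001c000e0063003b801dc000000000000000000000) := T_11 (nat_lit 126) (nat_lit 125) (nat_lit 1) (nat_lit 8) (nat_lit 7) L60350 (by decide +kernel)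
theorem L60352 : W_11 (nat_lit 13) (nat_lit 0x200002001300098000000000000000000000000000000) (nat_lit 0x0) (nat_lit 0x20001c000e0063003f801fc003800000000000000000) := Q_11 (nat_lit 106) (C_11 L59868 (C_11 L60351 (C_11 L59842 N_11))) (by decide +kernel)
theorem L60353 : W_11 (nat_lit 14) (nat_lit 0x200000001300098000000000000000000000000000000) (nat_lit 0x0) (nat_lit 0xc00060003c000e0063003f801fc003800000000000000000) := Q_11 (nat_lit 157) (C_11 L60352 (C_11 L58204 (C_11 L57228 N_11))) (by decide +kernel)
theorem L60354 : W_11 (nat_lit 5) (nat_lit 0x20000000170009c000000000000000000000000000000) (nat_lit 0x0) (nat_lit 0x200018000c0060000400020000000000000000000000) := T_11 (nat_lit 125) (nat_lit 126) (nat_lit 1) (nat_lit 8) (nat_lit 7) L60145 (by decide +kernel)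
theorem L60355 : W_11 (nat_lit 6) (nat_lit 0x200000001700098000000000000000000000000000000) (nat_lit 0x0) (nat_lit 0x200018000c0066000400020000000000000000000000) := T_11 (nat_lit 122) (nat_lit 121) (nat_lit 3) (nat_lit 2) (nat_lit 7) L60354 (by decide +kernel)
theorem L60356 : W_11 (nat_lit 2) (nat_lit 0x4002000018013800d8000000000000000000000000000000) (nat_lit 0x0) (nat_lit 0x2600000000000000000000000000000000000000) := D_11 (nat_lit 154) (nat_lit 153) (nat_lit 157) (nat_lit 2) (nat_lit 0) (nat_lit 9) (nat_lit 2) (nat_lit 1) (nat_lit 9) (by decide +kernel)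
theorem L60357 : W_11 (nat_lit 3) (nat_lit 0x4002000010013800d8000000000000000000000000000000) (nat_lit 0x0) (nat_lit 0x2e00400000000000000000000000000000000000) := T_11 (nat_lit 155) (nat_lit 142) (nat_lit 1) (nat_lit 6) (nat_lit 8) L60356 (by decide +kernel)
theorem L60358 : W_11 (nat_lit 4) (nat_lit 0x2000010013800d8000000000000000000000000000000) (nat_lit 0x0) (nat_lit 0x400020002e00400000000000000000000000000000000000) := T_11 (nat_lit 190) (nat_lit 173) (nat_lit 6) (nat_lit 3) (nat_lit 11) L60357 (by decide +kernel)
theorem L60359 : W_11 (nat_lit 5) (nat_lit 0x200001001380098000000000000000000000000000000) (nat_lit 0x0) (nat_lit 0x400020002e00400060000000000000000000000000000000) := T_11 (nat_lit 126) (nat_lit 125) (nat_lit 1) (nat_lit 7) (nat_lit 7) L60358 (by decide +kernel)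
theorem L60360 : W_11 (nat_lit 2) (nat_lit 0x400200001801380098000000020000000000000000000000) (nat_lit 0x0) (nat_lit 0x2600000000000000000000000000000000000000) := D_11 (nat_lit 154) (nat_lit 153) (nat_lit 157) (nat_lit 2) (nat_lit 0) (nat_lit 9) (nat_lit 2) (nat_lit 1) (nat_lit 9) (by decide +kernel)
theorem L60361 : W_11 (nat_lit 3) (nat_lit 0x400200001001380098000000020000000000000000000000) (nat_lit 0x0) (nat_lit 0x2e00400000000000000000000000000000000000) := T_11 (nat_lit 155) (nat_lit 142) (nat_lit 1) (nat_lit 6) (nat_lit 8) L60360 (by decide +kernel)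
theorem L60362 : W_11 (nat_lit 4) (nat_lit 0x200001001380098000000020000000000000000000000) (nat_lit 0x0) (nat_lit 0x400020002e00400000000000000000000000000000000000) := T_11 (nat_lit 190) (nat_lit 173) (nat_lit 6) (nat_lit 3) (nat_lit 11) L60361 (by decide +kernel)
theorem L60363 : W_11 (nat_lit 5) (nat_lit 0x200001001380098000000000000000000000000000000) (nat_lit 0x0) (nat_lit 0x400020002e00400000000400020000000000000000000000) := T_11 (nat_lit 89) (nat_lit 106) (nat_lit 5) (nat_lit 4) (nat_lit 5) L60362 (by decide +kernel)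
theorem L60364 : W_11 (nat_lit 3) (nat_lit 0x200001001780098000000000000000000000000000000) (nat_lit 0x0) (nat_lit 0x20000000000006000400020000000000000000000000) := T_11 (nat_lit 122) (nat_lit 121) (nat_lit 3) (nat_lit 2) (nat_lit 7) L59915 (by decide +kernel)
theorem L60365 : W_11 (nat_lit 4) (nat_lit 0x200001001380098000000000000000000000000000000) (nat_lit 0x0) (nat_lit 0x20000800400006000400020000000000000000000000) := T_11 (nat_lit 142) (nat_lit 155) (nat_lit 1) (nat_lit 6) (nat_lit 8) L60364 (by decide +kernel)
theorem L60366 : W_11 (nat_lit 2) (nat_lit 0x2000010013800d8000400000000000000000000000000) (nat_lit 0x0) (nat_lit 0x400020002000000000000000000000000000000000000000) := D_11 (nat_lit 173) (nat_lit 190) (nat_lit 157) (nat_lit 6) (nat_lit 3) (nat_lit 11) (nat_lit 5) (nat_lit 4) (nat_lit 6) (by decide +kernel)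
theorem L60367 : W_11 (nat_lit 3) (nat_lit 0x2000010013800d8000000000000000000000000000000) (nat_lit 0x0) (nat_lit 0x400020002000000000000400020000000000000000000000) := T_11 (nat_lit 106) (nat_lit 89) (nat_lit 5) (nat_lit 4) (nat_lit 5) L60366 (by decide +kernel)
theorem L60368 : W_11 (nat_lit 4) (nat_lit 0x200001001380098000000000000000000000000000000) (nat_lit 0x0) (nat_lit 0x400020002000000060000400020000000000000000000000) := T_11 (nat_lit 126) (nat_lit 125) (nat_lit 1) (nat_lit 7) (nat_lit 7) L60367 (by decide +kernel)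
theorem L60369 : W_11 (nat_lit 2) (nat_lit 0x2000010017800bc0010000e0000000000000000000000) (nat_lit 0x0) (nat_lit 0x2000000000000800000001000000000000000000) := D_11 (nat_lit 107) (nat_lit 72) (nat_lit 157) (nat_lit 4) (nat_lit 5) (nat_lit 8) (nat_lit 5) (nat_lit 5) (nat_lit 5) (by decide +kernel)
theorem L60370 : W_11 (nat_lit 3) (nat_lit 0x2000010017800bc0010000a0000000000000000000000) (nat_lit 0x0) (nat_lit 0x2000000000000800040003000000000000000000) := T_11 (nat_lit 90) (nat_lit 73) (nat_lit 4) (nat_lit 6) (nat_lit 8) L60369 (by decide +kernel)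
theorem L60371 : W_11 (nat_lit 4) (nat_lit 0x2000010017800bc001000020000000000000000000000) (nat_lit 0x0) (nat_lit 0x20000000000008000c0007000000000000000000) := T_11 (nat_lit 91) (nat_lit 74) (nat_lit 5) (nat_lit 6) (nat_lit 4) L60370 (by decide +kernel)
theorem L60372 : W_11 (nat_lit 5) (nat_lit 0x2000010017800bc001000000000000000000000000000) (nat_lit 0x0) (nat_lit 0x2000000000000c000e0007000000000000000000) := T_11 (nat_lit 89) (nat_lit 106) (nat_lit 5) (nat_lit 4) (nat_lit 5) L60371 (by decide +kernel)
theorem L60373 : W_11 (nat_lit 6) (nat_lit 0x2000010017800bc000000000000000000000000000000) (nat_lit 0x0) (nat_lit 0x2000000000003c000e0007000000000000000000) := T_11 (nat_lit 108) (nat_lit 109) (nat_lit 2) (nat_lit 3) (nat_lit 7) L60372 (by decide +kernel)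
theorem L60374 : W_11 (nat_lit 7) (nat_lit 0x20000100178009c000000000000000000000000000000) (nat_lit 0x0) (nat_lit 0x2000000060003c000e0007000000000000000000) := T_11 (nat_lit 125) (nat_lit 126) (nat_lit 2) (nat_lit 3) (nat_lit 8) L60373 (by decide +kernel)
theorem L60375 : W_11 (nat_lit 8) (nat_lit 0x200001001780098000000000000000000000000000000) (nat_lit 0x0) (nat_lit 0x2000000066003c000e0007000000000000000000) := T_11 (nat_lit 122) (nat_lit 121) (nat_lit 3) (nat_lit 2) (nat_lit 7) L60374 (by decide +kernel)
theorem L60376 : W_11 (nat_lit 9) (nat_lit 0x200001001380098000000000000000000000000000000) (nat_lit 0x0) (nat_lit 0x2800400066003c000e0007000000000000000000) := T_11 (nat_lit 142) (nat_lit 155) (nat_lit 1) (nat_lit 6) (nat_lit 8) L60375 (by decide +kernel)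
theorem L60377 : W_11 (nat_lit 10) (nat_lit 0x200000001380098000000000000000000000000000000) (nat_lit 0x0) (nat_lit 0x400020003e00400066003c000e0007000000000000000000) := Q_11 (nat_lit 156) (C_11 L60359 (C_11 L60363 (C_11 L60365 (C_11 L60368 (C_11 L60376 N_11))))) (by decide +kernel)
theorem L60378 : W_11 (nat_lit 2) (nat_lit 0x200000001380098000000000000000000000000000000) (nat_lit 0x0) (nat_lit 0x60020000000000000000000000000000000) := D_11 (nat_lit 138) (nat_lit 125) (nat_lit 137) (nat_lit 2) (nat_lit 2) (nat_lit 8) (nat_lit 2) (nat_lit 1) (nat_lit 8) (by decide +kernel)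
theorem L60379 : W_11 (nat_lit 6) (nat_lit 0x200000001380098000000000000000000000000000000) (nat_lit 0x0) (nat_lit 0x400020003c00460000000400020000000000000000000000) := T_11 (nat_lit 138) (nat_lit 137) (nat_lit 2) (nat_lit 1) (nat_lit 8) L60327 (by decide +kernel)
theorem L60380 : W_11 (nat_lit 11) (nat_lit 0x200000001300098000000000000000000000000000000) (nat_lit 0x0) (nat_lit 0x400020003e004e0066003c000e0007000000000000000000) := Q_11 (nat_lit 139) (C_11 L60377 (C_11 L60378 (C_11 L60379 N_11))) (by decide +kernel)
theorem L60381 : W_11 (nat_lit 15) (nat_lit 0x200000001200098000000000000000000000000000000) (nat_lit 0x0) (nat_lit 0xc00060003e005e0067003f801fc00fc00200000000000000) := Q_11 (nat_lit 140) (C_11 L59878 (C_11 L60268 (C_11 L60310 (C_11 L60238 (C_11 L60321 (C_11 L60340 (C_11 L60353 (C_11 L60380 N_11)))))))) (by decide +kernel)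
theorem L60382 : W_11 (nat_lit 7) (nat_lit 0x200000001300098000000000000000000000000000000) (nat_lit 0x0) (nat_lit 0x20001800cc0066000400020000000000000000000000) := T_11 (nat_lit 142) (nat_lit 143) (nat_lit 0) (nat_lit 8) (nat_lit 8) L60355 (by decide +kernel)
theorem L60383 : W_11 (nat_lit 13) (nat_lit 0x200000001200098000000000000000000000000000000) (nat_lit 0x0) (nat_lit 0xfc001e0013c00dc0067001f8007c003c00020000000000000) := Q_11 (nat_lit 140) (C_11 L59999 (C_11 L60238 (C_11 L60382 (C_11 L60231 (C_11 L59878 (C_11 L59998 N_11)))))) (by decide +kernel)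
theorem L60384 : W_11 (nat_lit 2) (nat_lit 0x2000010017800b8000400000000000000000000000000) (nat_lit 0x0) (nat_lit 0x400020000000000004000000000000000000000000000000) := D_11 (nat_lit 173) (nat_lit 190) (nat_lit 122) (nat_lit 6) (nat_lit 3) (nat_lit 11) (nat_lit 6) (nat_lit 3) (nat_lit 10) (by decide +kernel)
theorem L60385 : W_11 (nat_lit 3) (nat_lit 0x2000010017800b8000000000000000000000000000000) (nat_lit 0x0) (nat_lit 0x400020000000000004000400020000000000000000000000) := T_11 (nat_lit 106) (nat_lit 89) (nat_lit 5) (nat_lit 4) (nat_lit 5) L60384 (by decide +kernel)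
theorem L60386 : W_11 (nat_lit 4) (nat_lit 0x2000000017800b8000000000000000000000000000000) (nat_lit 0x0) (nat_lit 0x400020001800000004000400020000000000000000000000) := T_11 (nat_lit 156) (nat_lit 155) (nat_lit 1) (nat_lit 6) (nat_lit 8) L60385 (by decide +kernel)
theorem L60387 : W_11 (nat_lit 5) (nat_lit 0x2000000017000b8000000000000000000000000000000) (nat_lit 0x0) (nat_lit 0x4000200018000c0004000400020000000000000000000000) := T_11 (nat_lit 139) (nat_lit 138) (nat_lit 2) (nat_lit 2) (nat_lit 8) L60386 (by decide +kernel)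
theorem L60388 : W_11 (nat_lit 6) (nat_lit 0x200000001700098000000000000000000000000000000) (nat_lit 0x0) (nat_lit 0x4000200018000c0064000400020000000000000000000000) := T_11 (nat_lit 125) (nat_lit 126) (nat_lit 1) (nat_lit 8) (nat_lit 7) L60387 (by decide +kernel)
theorem L60389 : W_11 (nat_lit 7) (nat_lit 0x200000001300098000000000000000000000000000000) (nat_lit 0x0) (nat_lit 0x400020001800cc0064000400020000000000000000000000) := T_11 (nat_lit 142) (nat_lit 143) (nat_lit 0) (nat_lit 8) (nat_lit 8) L60388 (by decide +kernel)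
theorem L60390 : W_11 (nat_lit 2) (nat_lit 0x3400b0001b000d8002800000000000000000000000000) (nat_lit 0x0) (nat_lit 0x1400080000000000000000000000) := D_11 (nat_lit 108) (nat_lit 91) (nat_lit 106) (nat_lit 4) (nat_lit 7) (nat_lit 9) (nat_lit 3) (nat_lit 4) (nat_lit 6) (by decide +kernel)
theorem L60391 : W_11 (nat_lit 3) (nat_lit 0x3400b0001b000d8000800000000000000000000000000) (nat_lit 0x0) (nat_lit 0x3400180000000000000000000000) := T_11 (nat_lit 109) (nat_lit 92) (nat_lit 7) (nat_lit 7) (nat_lit 5) L60390 (by decide +kernel)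
theorem L60392 : W_11 (nat_lit 4) (nat_lit 0x340030001b000d8000800000000000000000000000000) (nat_lit 0x0) (nat_lit 0xc0000000000003400180000000000000000000000) := T_11 (nat_lit 163) (nat_lit 162) (nat_lit 1) (nat_lit 10) (nat_lit 9) L60391 (by decide +kernel)
theorem L60393 : W_11 (nat_lit 5) (nat_lit 0x340010001b000d8000800000000000000000000000000) (nat_lit 0x0) (nat_lit 0x800e0000000000003400180000000000000000000000) := T_11 (nat_lit 161) (nat_lit 175) (nat_lit 2) (nat_lit 4) (nat_lit 10) L60392 (by decide +kernel)
theorem L60394 : W_11 (nat_lit 6) (nat_lit 0x240010001b000d8000800000000000000000000000000) (nat_lit 0x0) (nat_lit 0x20001800e0000000000003400180000000000000000000000) := T_11 (nat_lit 176) (nat_lit 193) (nat_lit 5) (nat_lit 7) (nat_lit 7) L60393 (by decide +kernel)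
theorem L60395 : W_11 (nat_lit 7) (nat_lit 0x200010001b000d8000800000000000000000000000000) (nat_lit 0x0) (nat_lit 0x20001c00e2000000000003400180000000000000000000000) := T_11 (nat_lit 174) (nat_lit 157) (nat_lit 6) (nat_lit 4) (nat_lit 10) L60394 (by decide +kernel)
theorem L60396 : W_11 (nat_lit 8) (nat_lit 0x200010001b00098000800000000000000000000000000) (nat_lit 0x0) (nat_lit 0x20001c00e2000000060003400180000000000000000000000) := T_11 (nat_lit 126) (nat_lit 125) (nat_lit 3) (nat_lit 4) (nat_lit 7) L60395 (by decide +kernel)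
theorem L60397 : W_11 (nat_lit 9) (nat_lit 0x200000001b00098000800000000000000000000000000) (nat_lit 0x0) (nat_lit 0x60001c00f2000000060003400180000000000000000000000) := T_11 (nat_lit 160) (nat_lit 194) (nat_lit 6) (nat_lit 7) (nat_lit 11) L60396 (by decide +kernel)
theorem L60398 : W_11 (nat_lit 10) (nat_lit 0x200000001300098000800000000000000000000000000) (nat_lit 0x0) (nat_lit 0x60001c00f2000c00060003400180000000000000000000000) := T_11 (nat_lit 143) (nat_lit 142) (nat_lit 0) (nat_lit 8) (nat_lit 8) L60397 (by decide +kernel)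
theorem L60399 : W_11 (nat_lit 11) (nat_lit 0x200000001300098000000000000000000000000000000) (nat_lit 0x0) (nat_lit 0x60001c00f2000c00060003c001e000f000000000000000000) := Q_11 (nat_lit 107) (C_11 L60278 (C_11 L58044 (C_11 L60398 N_11))) (by decide +kernel)
theorem L60400 : W_11 (nat_lit 3) (nat_lit 0x2000020013000b8000400000000000000000000000000) (nat_lit 0x0) (nat_lit 0xb00050000000000000000000000) := T_11 (nat_lit 107) (nat_lit 90) (nat_lit 6) (nat_lit 4) (nat_lit 9) L58224 (by decide +kernel)
theorem L60401 : W_11 (nat_lit 4) (nat_lit 0x200002001300098000400000000000000000000000000) (nat_lit 0x0) (nat_lit 0x60000b00050000000000000000000000) := T_11 (nat_lit 125) (nat_lit 126) (nat_lit 1) (nat_lit 8) (nat_lit 7) L60400 (by decide +kernel)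
theorem L60402 : W_11 (nat_lit 5) (nat_lit 0x200002001300098000000000000000000000000000000) (nat_lit 0x0) (nat_lit 0x60000f00070003800000000000000000) := Q_11 (nat_lit 106) (C_11 L59868 (C_11 L60401 (C_11 L59842 N_11))) (by decide +kernel)
theorem L60403 : W_11 (nat_lit 6) (nat_lit 0x200000001300098000000000000000000000000000000) (nat_lit 0x0) (nat_lit 0xc00060003000000064000f00070003800000000000000000) := Q_11 (nat_lit 157) (C_11 L60402 (C_11 L57282 (C_11 L58204 N_11))) (by decide +kernel)
theorem L60404 : W_11 (nat_lit 2) (nat_lit 0x2200010017800b8000000000000000000000000000000) (nat_lit 0x0) (nat_lit 0x2000000004000400000000000000000000000000) := D_11 (nat_lit 106) (nat_lit 122) (nat_lit 157) (nat_lit 6) (nat_lit 3) (nat_lit 10) (nat_lit 5) (nat_lit 4) (nat_lit 6) (by decide +kernel)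
theorem L60405 : W_11 (nat_lit 3) (nat_lit 0x2000010017800b8000000000000000000000000000000) (nat_lit 0x0) (nat_lit 0x400020002000000004000400000000000000000000000000) := T_11 (nat_lit 173) (nat_lit 190) (nat_lit 6) (nat_lit 3) (nat_lit 11) L60404 (by decide +kernel)
theorem L60406 : W_11 (nat_lit 4) (nat_lit 0x2000000017800b8000000000000000000000000000000) (nat_lit 0x0) (nat_lit 0x400020003800000004000400000000000000000000000000) := T_11 (nat_lit 156) (nat_lit 155) (nat_lit 1) (nat_lit 6) (nat_lit 8) L60405 (by decide +kernel)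
theorem L60407 : W_11 (nat_lit 5) (nat_lit 0x2000000017000b8000000000000000000000000000000) (nat_lit 0x0) (nat_lit 0x4000200038000c0004000400000000000000000000000000) := T_11 (nat_lit 139) (nat_lit 138) (nat_lit 2) (nat_lit 2) (nat_lit 8) L60406 (by decide +kernel)
theorem L60408 : W_11 (nat_lit 6) (nat_lit 0x200000001700098000000000000000000000000000000) (nat_lit 0x0) (nat_lit 0x4000200038000c0064000400000000000000000000000000) := T_11 (nat_lit 125) (nat_lit 126) (nat_lit 1) (nat_lit 8) (nat_lit 7) L60407 (by decide +kernel)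
theorem L60409 : W_11 (nat_lit 7) (nat_lit 0x200000001300098000000000000000000000000000000) (nat_lit 0x0) (nat_lit 0x400020003800cc0064000400000000000000000000000000) := T_11 (nat_lit 142) (nat_lit 143) (nat_lit 0) (nat_lit 8) (nat_lit 8) L60408 (by decide +kernel)
theorem L60410 : W_11 (nat_lit 12) (nat_lit 0x200000001200098000000000000000000000000000000) (nat_lit 0x0) (nat_lit 0xfe001e00f3c00dc0064003f001f000f800000000000000000) := Q_11 (nat_lit 140) (C_11 L60403 (C_11 L60389 (C_11 L59998 (C_11 L60288 (C_11 L60399 (C_11 L60409 N_11)))))) (by decide +kernel)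
theorem L60411 : W_11 (nat_lit 9) (nat_lit 0x200000001200098000000000000000000000000000000) (nat_lit 0x0) (nat_lit 0xfc001e0013c00dc0067000f00070003800000000000000000) := Q_11 (nat_lit 140) (C_11 L60409 (C_11 L59998 (C_11 L60389 (C_11 L60238 (C_11 L60403 N_11))))) (by decide +kernel)
theorem L60412 : W_11 (nat_lit 8) (nat_lit 0x2000000016800bc001000000000000000000000000000) (nat_lit 0x0) (nat_lit 0x30001800100000000f001c000e000000000000000000) := T_11 (nat_lit 91) (nat_lit 74) (nat_lit 5) (nat_lit 6) (nat_lit 4) L60191 (by decide +kernel)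
theorem L60413 : W_11 (nat_lit 9) (nat_lit 0x2000000016000bc001000000000000000000000000000) (nat_lit 0x0) (nat_lit 0x300018001c0000000f001c000e000000000000000000) := T_11 (nat_lit 139) (nat_lit 138) (nat_lit 1) (nat_lit 6) (nat_lit 7) L60412 (by decide +kernel)
theorem L60414 : W_11 (nat_lit 10) (nat_lit 0x2000000016000bc000000000000000000000000000000) (nat_lit 0x0) (nat_lit 0x300018001c0000003f001c000e000000000000000000) := T_11 (nat_lit 108) (nat_lit 109) (nat_lit 2) (nat_lit 3) (nat_lit 7) L60413 (by decide +kernel)
theorem L60415 : W_11 (nat_lit 11) (nat_lit 0x2000000016000b8000000000000000000000000000000) (nat_lit 0x0) (nat_lit 0x300018001c0006003f001c000e000000000000000000) := T_11 (nat_lit 122) (nat_lit 121) (nat_lit 3) (nat_lit 2) (nat_lit 7) L60414 (by decide +kernel)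
theorem L60416 : W_11 (nat_lit 12) (nat_lit 0x2000000012000b8000000000000000000000000000000) (nat_lit 0x0) (nat_lit 0x30001800dc0006003f001c000e000000000000000000) := T_11 (nat_lit 142) (nat_lit 143) (nat_lit 0) (nat_lit 8) (nat_lit 8) L60415 (by decide +kernel)
theorem L60417 : W_11 (nat_lit 13) (nat_lit 0x200000001200098000000000000000000000000000000) (nat_lit 0x0) (nat_lit 0x30001800de0166003f801c000e000000000000000000) := Q_11 (nat_lit 125) (C_11 L60299 (C_11 L60416 (C_11 L60294 (C_11 L60219 N_11)))) (by decide +kernel)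
theorem L60418 : W_11 (nat_lit 2) (nat_lit 0x200000001b000d8002c00000001000000000000000000) (nat_lit 0x0) (nat_lit 0x20000000000000000100008000000000000000000) := D_11 (nat_lit 92) (nat_lit 75) (nat_lit 161) (nat_lit 7) (nat_lit 7) (nat_lit 4) (nat_lit 7) (nat_lit 7) (nat_lit 5) (by decide +kernel)
theorem L60419 : W_11 (nat_lit 3) (nat_lit 0x200000001b000d8000c00000001000000000000000000) (nat_lit 0x0) (nat_lit 0x20000000000003000100008000000000000000000) := T_11 (nat_lit 109) (nat_lit 108) (nat_lit 3) (nat_lit 4) (nat_lit 6) L60418 (by decide +kernel)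
theorem L60420 : W_11 (nat_lit 4) (nat_lit 0x200000001b00098000c00000001000000000000000000) (nat_lit 0x0) (nat_lit 0x20000000060003000100008000000000000000000) := T_11 (nat_lit 126) (nat_lit 125) (nat_lit 3) (nat_lit 4) (nat_lit 7) L60419 (by decide +kernel)
theorem L60421 : W_11 (nat_lit 5) (nat_lit 0x200000001b00098000c00000000000000000000000000) (nat_lit 0x0) (nat_lit 0x20000000060003000120009000000000000000000) := T_11 (nat_lit 72) (nat_lit 89) (nat_lit 7) (nat_lit 4) (nat_lit 4) L60420 (by decide +kernel)
theorem L60422 : W_11 (nat_lit 6) (nat_lit 0x200000001300098000c00000000000000000000000000) (nat_lit 0x0) (nat_lit 0x20000c00060003000120009000000000000000000) := T_11 (nat_lit 143) (nat_lit 142) (nat_lit 0) (nat_lit 8) (nat_lit 8) L60421 (by decide +kernel)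
theorem L60423 : W_11 (nat_lit 2) (nat_lit 0x4000200000001b80098002c00034000000000000000000000) (nat_lit 0x0) (nat_lit 0x60020000000000000000000000000000000) := D_11 (nat_lit 138) (nat_lit 125) (nat_lit 137) (nat_lit 2) (nat_lit 2) (nat_lit 8) (nat_lit 2) (nat_lit 1) (nat_lit 8) (by decide +kernel)
theorem L60424 : W_11 (nat_lit 3) (nat_lit 0x4000200000001b00098002c00034000000000000000000000) (nat_lit 0x0) (nat_lit 0x10000e0020000000000000000000000000000000) := T_11 (nat_lit 139) (nat_lit 156) (nat_lit 5) (nat_lit 4) (nat_lit 5) L60423 (by decide +kernel)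
theorem L60425 : W_11 (nat_lit 4) (nat_lit 0x200000001b00098002c00034000000000000000000000) (nat_lit 0x0) (nat_lit 0x40000000110000e0020000000000000000000000000000000) := T_11 (nat_lit 194) (nat_lit 160) (nat_lit 6) (nat_lit 7) (nat_lit 11) L60424 (by decide +kernel)
theorem L60426 : W_11 (nat_lit 5) (nat_lit 0x200000001b00098000c00034000000000000000000000) (nat_lit 0x0) (nat_lit 0x40000000110000e0020003000000000000000000000000000) := T_11 (nat_lit 109) (nat_lit 108) (nat_lit 0) (nat_lit 7) (nat_lit 6) L60425 (by decide +kernel)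
theorem L60427 : W_11 (nat_lit 6) (nat_lit 0x200000001b00098000c00030000000000000000000000) (nat_lit 0x0) (nat_lit 0x40000000110000e002000300000c000000000000000000000) := T_11 (nat_lit 86) (nat_lit 87) (nat_lit 3) (nat_lit 1) (nat_lit 5) L60426 (by decide +kernel)
theorem L60428 : W_11 (nat_lit 7) (nat_lit 0x200000001b00098000c00020000000000000000000000) (nat_lit 0x0) (nat_lit 0x40000000110000e002000300001c000800000000000000000) := T_11 (nat_lit 88) (nat_lit 71) (nat_lit 4) (nat_lit 4) (nat_lit 8) L60427 (by decide +kernel)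
theorem L60429 : W_11 (nat_lit 8) (nat_lit 0x200000001300098000c00020000000000000000000000) (nat_lit 0x0) (nat_lit 0x4000000011000ce002000300001c000800000000000000000) := T_11 (nat_lit 143) (nat_lit 142) (nat_lit 0) (nat_lit 8) (nat_lit 8) L60428 (by decide +kernel)
theorem L60430 : W_11 (nat_lit 9) (nat_lit 0x200000001300098000c00000000000000000000000000) (nat_lit 0x0) (nat_lit 0x4000000011000ce002000300003c001800000000000000000) := T_11 (nat_lit 89) (nat_lit 72) (nat_lit 7) (nat_lit 4) (nat_lit 4) L60429 (by decide +kernel)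
theorem L60431 : W_11 (nat_lit 2) (nat_lit 0x4000200000801bc009a002c00034000000000000000000000) (nat_lit 0x0) (nat_lit 0x380000000000000000000000000) := D_11 (nat_lit 104) (nat_lit 103) (nat_lit 105) (nat_lit 4) (nat_lit 2) (nat_lit 9) (nat_lit 6) (nat_lit 2) (nat_lit 9) (by decide +kernel)
theorem L60432 : W_11 (nat_lit 3) (nat_lit 0x4000200000801bc0098002c00034000000000000000000000) (nat_lit 0x0) (nat_lit 0x3000380000000000000000000000000) := T_11 (nat_lit 121) (nat_lit 120) (nat_lit 0) (nat_lit 5) (nat_lit 8) L60431 (by decide +kernel)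
theorem L60433 : W_11 (nat_lit 4) (nat_lit 0x4000200000001bc0098002c00034000000000000000000000) (nat_lit 0x0) (nat_lit 0xc00000003000380000000000000000000000000) := T_11 (nat_lit 155) (nat_lit 154) (nat_lit 1) (nat_lit 5) (nat_lit 8) L60432 (by decide +kernel)
theorem L60434 : W_11 (nat_lit 5) (nat_lit 0x4000200000001b80098002c00034000000000000000000000) (nat_lit 0x0) (nat_lit 0xc00060003000380000000000000000000000000) := T_11 (nat_lit 138) (nat_lit 137) (nat_lit 2) (nat_lit 1) (nat_lit 8) L60433 (by decide +kernel)
theorem L60435 : W_11 (nat_lit 6) (nat_lit 0x4000200000001b00098002c00034000000000000000000000) (nat_lit 0x0) (nat_lit 0x1c000e0003000380000000000000000000000000) := T_11 (nat_lit 139) (nat_lit 156) (nat_lit 5) (nat_lit 4) (nat_lit 5) L60434 (by decide +kernel)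
theorem L60436 : W_11 (nat_lit 7) (nat_lit 0x4000200000001b00098000c00034000000000000000000000) (nat_lit 0x0) (nat_lit 0x1c000e0003003380000000000000000000000000) := T_11 (nat_lit 109) (nat_lit 108) (nat_lit 0) (nat_lit 7) (nat_lit 6) L60435 (by decide +kernel)
theorem L60437 : W_11 (nat_lit 8) (nat_lit 0x4000200000001b00098000c00030000000000000000000000) (nat_lit 0x0) (nat_lit 0x1c000e000300338000c000000000000000000000) := T_11 (nat_lit 86) (nat_lit 87) (nat_lit 3) (nat_lit 1) (nat_lit 5) L60436 (by decide +kernel)
theorem L60438 : W_11 (nat_lit 9) (nat_lit 0x4000200000001b00098000c00020000000000000000000000) (nat_lit 0x0) (nat_lit 0x1c000e000300338001c000800000000000000000) := T_11 (nat_lit 88) (nat_lit 71) (nat_lit 4) (nat_lit 4) (nat_lit 8) L60437 (by decide +kernel)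
theorem L60439 : W_11 (nat_lit 10) (nat_lit 0x200000001b00098000c00020000000000000000000000) (nat_lit 0x0) (nat_lit 0x4000000011c000e000300338001c000800000000000000000) := T_11 (nat_lit 194) (nat_lit 160) (nat_lit 6) (nat_lit 7) (nat_lit 11) L60438 (by decide +kernel)
theorem L60440 : W_11 (nat_lit 11) (nat_lit 0x200000001b00098000c00000000000000000000000000) (nat_lit 0x0) (nat_lit 0x4000000011c000e000300338003c001800000000000000000) := T_11 (nat_lit 89) (nat_lit 72) (nat_lit 7) (nat_lit 4) (nat_lit 4) L60439 (by decide +kernel)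
theorem L60441 : W_11 (nat_lit 12) (nat_lit 0x200000001300098000c00000000000000000000000000) (nat_lit 0x0) (nat_lit 0x4000000011c00ce000300338003c001800000000000000000) := T_11 (nat_lit 143) (nat_lit 142) (nat_lit 0) (nat_lit 8) (nat_lit 8) L60440 (by decide +kernel)
theorem L60442 : W_11 (nat_lit 2) (nat_lit 0x4000200000001ba00d8000c00038000000000000000000000) (nat_lit 0x0) (nat_lit 0x1200040000000000000000000000) := D_11 (nat_lit 108) (nat_lit 105) (nat_lit 90) (nat_lit 0) (nat_lit 6) (nat_lit 6) (nat_lit 3) (nat_lit 2) (nat_lit 5) (by decide +kernel)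
theorem L60443 : W_11 (nat_lit 3) (nat_lit 0x4000200000001ba00d8000c00030000000000000000000000) (nat_lit 0x0) (nat_lit 0x120004c000000000000000000000) := T_11 (nat_lit 87) (nat_lit 86) (nat_lit 3) (nat_lit 1) (nat_lit 5) L60442 (by decide +kernel)
theorem L60444 : W_11 (nat_lit 4) (nat_lit 0x4000200000001ba00d8000c00020000000000000000000000) (nat_lit 0x0) (nat_lit 0x120005c000800000000000000000) := T_11 (nat_lit 88) (nat_lit 71) (nat_lit 4) (nat_lit 4) (nat_lit 8) L60443 (by decide +kernel)
theorem L60445 : W_11 (nat_lit 5) (nat_lit 0x4000200000001b800d8000c00020000000000000000000000) (nat_lit 0x0) (nat_lit 0x6000000120005c000800000000000000000) := T_11 (nat_lit 137) (nat_lit 138) (nat_lit 2) (nat_lit 1) (nat_lit 8) L60444 (by decide +kernel)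
theorem L60446 : W_11 (nat_lit 6) (nat_lit 0x4000200000001b000d8000c00020000000000000000000000) (nat_lit 0x0) (nat_lit 0x10000e000000120005c000800000000000000000) := T_11 (nat_lit 139) (nat_lit 156) (nat_lit 5) (nat_lit 4) (nat_lit 5) L60445 (by decide +kernel)
theorem L60447 : W_11 (nat_lit 7) (nat_lit 0x4000200000001b000d8000c00000000000000000000000000) (nat_lit 0x0) (nat_lit 0x10000e000000120007c001800000000000000000) := T_11 (nat_lit 89) (nat_lit 72) (nat_lit 7) (nat_lit 4) (nat_lit 4) L60446 (by decide +kernel)
theorem L60448 : W_11 (nat_lit 8) (nat_lit 0x200000001b000d8000c00000000000000000000000000) (nat_lit 0x0) (nat_lit 0x40000000110000e000000120007c001800000000000000000) := T_11 (nat_lit 194) (nat_lit 160) (nat_lit 6) (nat_lit 7) (nat_lit 11) L60447 (by decide +kernel)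
theorem L60449 : W_11 (nat_lit 9) (nat_lit 0x200000001b00098000c00000000000000000000000000) (nat_lit 0x0) (nat_lit 0x40000000110000e006000120007c001800000000000000000) := T_11 (nat_lit 126) (nat_lit 125) (nat_lit 3) (nat_lit 4) (nat_lit 7) L60448 (by decide +kernel)
theorem L60450 : W_11 (nat_lit 10) (nat_lit 0x200000001300098000c00000000000000000000000000) (nat_lit 0x0) (nat_lit 0x4000000011000ce006000120007c001800000000000000000) := T_11 (nat_lit 143) (nat_lit 142) (nat_lit 0) (nat_lit 8) (nat_lit 8) L60449 (by decide +kernel)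
theorem L60451 : W_11 (nat_lit 2) (nat_lit 0x4000200000001b000d8002c00300001000000000000000000) (nat_lit 0x0) (nat_lit 0xc0004000000000000000000) := D_11 (nat_lit 91) (nat_lit 90) (nat_lit 74) (nat_lit 1) (nat_lit 8) (nat_lit 5) (nat_lit 4) (nat_lit 7) (nat_lit 8) (by decide +kernel)
theorem L60452 : W_11 (nat_lit 3) (nat_lit 0x4000200000001b000d8002c00100001000000000000000000) (nat_lit 0x0) (nat_lit 0x2c0014000000000000000000) := T_11 (nat_lit 93) (nat_lit 76) (nat_lit 6) (nat_lit 7) (nat_lit 8) L60451 (by decide +kernel)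
theorem L60453 : W_11 (nat_lit 4) (nat_lit 0x200000001b000d8002c00100001000000000000000000) (nat_lit 0x0) (nat_lit 0x40000000100000000000000002c0014000000000000000000) := T_11 (nat_lit 194) (nat_lit 160) (nat_lit 6) (nat_lit 7) (nat_lit 11) L60452 (by decide +kernel)
theorem L60454 : W_11 (nat_lit 5) (nat_lit 0x2000000013000d8002c00100001000000000000000000) (nat_lit 0x0) (nat_lit 0x40000000300008000000000002c0014000000000000000000) := T_11 (nat_lit 143) (nat_lit 161) (nat_lit 7) (nat_lit 7) (nat_lit 5) L60453 (by decide +kernel)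
theorem L60455 : W_11 (nat_lit 6) (nat_lit 0x2000000013000d8002c00000001000000000000000000) (nat_lit 0x0) (nat_lit 0x40000000300008000000000003c001c000000000000000000) := T_11 (nat_lit 92) (nat_lit 75) (nat_lit 7) (nat_lit 7) (nat_lit 4) L60454 (by decide +kernel)
theorem L60456 : W_11 (nat_lit 7) (nat_lit 0x2000000013000d8000c00000001000000000000000000) (nat_lit 0x0) (nat_lit 0x40000000300008000000030003c001c000000000000000000) := T_11 (nat_lit 109) (nat_lit 108) (nat_lit 3) (nat_lit 4) (nat_lit 6) L60455 (by decide +kernel)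
theorem L60457 : W_11 (nat_lit 8) (nat_lit 0x200000001300098000c00000001000000000000000000) (nat_lit 0x0) (nat_lit 0x40000000300008000600030003c001c000000000000000000) := T_11 (nat_lit 126) (nat_lit 125) (nat_lit 1) (nat_lit 8) (nat_lit 7) L60456 (by decide +kernel)
theorem L60458 : W_11 (nat_lit 9) (nat_lit 0x200000001300098000c00000000000000000000000000) (nat_lit 0x0) (nat_lit 0x40000000300008000600030003e001d000000000000000000) := T_11 (nat_lit 72) (nat_lit 89) (nat_lit 7) (nat_lit 4) (nat_lit 4) L60457 (by decide +kernel)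
theorem L60459 : W_11 (nat_lit 2) (nat_lit 0x2000000013a00d8000c00038000000000000000000000) (nat_lit 0x0) (nat_lit 0x3200000000000000000000000000) := D_11 (nat_lit 108) (nat_lit 109) (nat_lit 105) (nat_lit 3) (nat_lit 4) (nat_lit 6) (nat_lit 0) (nat_lit 6) (nat_lit 6) (by decide +kernel)
theorem L60460 : W_11 (nat_lit 3) (nat_lit 0x2000000013a00d8000c00030000000000000000000000) (nat_lit 0x0) (nat_lit 0x320000c000000000000000000000) := T_11 (nat_lit 87) (nat_lit 86) (nat_lit 3) (nat_lit 1) (nat_lit 5) L60459 (by decide +kernel)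
theorem L60461 : W_11 (nat_lit 4) (nat_lit 0x2000000013a00d8000c00020000000000000000000000) (nat_lit 0x0) (nat_lit 0x320001c000800000000000000000) := T_11 (nat_lit 88) (nat_lit 71) (nat_lit 4) (nat_lit 4) (nat_lit 8) L60460 (by decide +kernel)
theorem L60462 : W_11 (nat_lit 5) (nat_lit 0x2000000013800d8000c00020000000000000000000000) (nat_lit 0x0) (nat_lit 0x6000000320001c000800000000000000000) := T_11 (nat_lit 137) (nat_lit 138) (nat_lit 2) (nat_lit 1) (nat_lit 8) L60461 (by decide +kernel)
theorem L60463 : W_11 (nat_lit 6) (nat_lit 0x2000000013000d8000c00020000000000000000000000) (nat_lit 0x0) (nat_lit 0x10000e000000320001c000800000000000000000) := T_11 (nat_lit 139) (nat_lit 156) (nat_lit 5) (nat_lit 4) (nat_lit 5) L60462 (by decide +kernel)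
theorem L60464 : W_11 (nat_lit 7) (nat_lit 0x2000000013000d8000c00000000000000000000000000) (nat_lit 0x0) (nat_lit 0x10000e000000320003c001800000000000000000) := T_11 (nat_lit 89) (nat_lit 72) (nat_lit 7) (nat_lit 4) (nat_lit 4) L60463 (by decide +kernel)
theorem L60465 : W_11 (nat_lit 8) (nat_lit 0x200000001300098000c00000000000000000000000000) (nat_lit 0x0) (nat_lit 0x10000e006000320003c001800000000000000000) := T_11 (nat_lit 126) (nat_lit 125) (nat_lit 1) (nat_lit 8) (nat_lit 7) L60464 (by decide +kernel)
theorem L60466 : W_11 (nat_lit 2) (nat_lit 0x2000008017c00da000c00034000000000000000000000) (nat_lit 0x0) (nat_lit 0x380000000000000000000000000) := D_11 (nat_lit 104) (nat_lit 105) (nat_lit 103) (nat_lit 6) (nat_lit 2) (nat_lit 9) (nat_lit 4) (nat_lit 2) (nat_lit 9) (by decide +kernel)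
theorem L60467 : W_11 (nat_lit 3) (nat_lit 0x2000008017c00da000c00030000000000000000000000) (nat_lit 0x0) (nat_lit 0x38000c000000000000000000000) := T_11 (nat_lit 86) (nat_lit 87) (nat_lit 3) (nat_lit 1) (nat_lit 5) L60466 (by decide +kernel)
theorem L60468 : W_11 (nat_lit 4) (nat_lit 0x2000008017c00da000c00020000000000000000000000) (nat_lit 0x0) (nat_lit 0x38001c000800000000000000000) := T_11 (nat_lit 88) (nat_lit 71) (nat_lit 4) (nat_lit 4) (nat_lit 8) L60467 (by decide +kernel)
theorem L60469 : W_11 (nat_lit 5) (nat_lit 0x2000008017c00d8000c00020000000000000000000000) (nat_lit 0x0) (nat_lit 0x300038001c000800000000000000000) := T_11 (nat_lit 121) (nat_lit 120) (nat_lit 0) (nat_lit 5) (nat_lit 8) L60468 (by decide +kernel)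
theorem L60470 : W_11 (nat_lit 6) (nat_lit 0x2000000017c00d8000c00020000000000000000000000) (nat_lit 0x0) (nat_lit 0xc0000000300038001c000800000000000000000) := T_11 (nat_lit 155) (nat_lit 154) (nat_lit 1) (nat_lit 5) (nat_lit 8) L60469 (by decide +kernel)
theorem L60471 : W_11 (nat_lit 7) (nat_lit 0x2000000017800d8000c00020000000000000000000000) (nat_lit 0x0) (nat_lit 0xc0006000300038001c000800000000000000000) := T_11 (nat_lit 138) (nat_lit 137) (nat_lit 2) (nat_lit 1) (nat_lit 8) L60470 (by decide +kernel)
theorem L60472 : W_11 (nat_lit 8) (nat_lit 0x2000000017000d8000c00020000000000000000000000) (nat_lit 0x0) (nat_lit 0x1c000e000300038001c000800000000000000000) := T_11 (nat_lit 139) (nat_lit 156) (nat_lit 5) (nat_lit 4) (nat_lit 5) L60471 (by decide +kernel)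
theorem L60473 : W_11 (nat_lit 9) (nat_lit 0x2000000017000d8000c00000000000000000000000000) (nat_lit 0x0) (nat_lit 0x1c000e000300038003c001800000000000000000) := T_11 (nat_lit 89) (nat_lit 72) (nat_lit 7) (nat_lit 4) (nat_lit 4) L60472 (by decide +kernel)
theorem L60474 : W_11 (nat_lit 10) (nat_lit 0x2000000013000d8000c00000000000000000000000000) (nat_lit 0x0) (nat_lit 0x1c00ce000300038003c001800000000000000000) := T_11 (nat_lit 142) (nat_lit 143) (nat_lit 2) (nat_lit 4) (nat_lit 8) L60473 (by decide +kernel)
theorem L60475 : W_11 (nat_lit 11) (nat_lit 0x200000001300098000c00000000000000000000000000) (nat_lit 0x0) (nat_lit 0x1c00ce006300038003c001800000000000000000) := T_11 (nat_lit 126) (nat_lit 125) (nat_lit 1) (nat_lit 8) (nat_lit 7) L60474 (by decide +kernel)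
theorem L60476 : W_11 (nat_lit 2) (nat_lit 0x200000001b000d8002c00000000000000000000000000) (nat_lit 0x0) (nat_lit 0x20000000000000000100008000000000000000000) := D_11 (nat_lit 92) (nat_lit 75) (nat_lit 161) (nat_lit 7) (nat_lit 7) (nat_lit 4) (nat_lit 7) (nat_lit 7) (nat_lit 5) (by decide +kernel)
theorem L60477 : W_11 (nat_lit 3) (nat_lit 0x200000001b000d8000c00000000000000000000000000) (nat_lit 0x0) (nat_lit 0x20000000000003000100008000000000000000000) := T_11 (nat_lit 109) (nat_lit 108) (nat_lit 3) (nat_lit 4) (nat_lit 6) L60476 (by decide +kernel)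
theorem L60478 : W_11 (nat_lit 4) (nat_lit 0x2000000013000d8000c00000000000000000000000000) (nat_lit 0x0) (nat_lit 0x20000c00000003000100008000000000000000000) := T_11 (nat_lit 143) (nat_lit 142) (nat_lit 2) (nat_lit 4) (nat_lit 8) L60477 (by decide +kernel)
theorem L60479 : W_11 (nat_lit 5) (nat_lit 0x200000001300098000c00000000000000000000000000) (nat_lit 0x0) (nat_lit 0x20000c00060003000100008000000000000000000) := T_11 (nat_lit 126) (nat_lit 125) (nat_lit 1) (nat_lit 8) (nat_lit 7) L60478 (by decide +kernel)
theorem L60480 : W_11 (nat_lit 13) (nat_lit 0x200000001300098000800000000000000000000000000) (nat_lit 0x0) (nat_lit 0x4000000031c00ce00630037803fc01d800000000000000000) := Q_11 (nat_lit 106) (C_11 L60422 (C_11 L60430 (C_11 L60441 (C_11 L60450 (C_11 L60458 (C_11 L60465 (C_11 L60475 (C_11 L60479 N_11)))))))) (by decide +kernel)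
theorem L60481 : W_11 (nat_lit 2) (nat_lit 0x200000001b00098000e000c0001000000000000000000) (nat_lit 0x0) (nat_lit 0x1000300000000000000000000000) := D_11 (nat_lit 92) (nat_lit 93) (nat_lit 108) (nat_lit 1) (nat_lit 8) (nat_lit 5) (nat_lit 2) (nat_lit 3) (nat_lit 6) (by decide +kernel)
theorem L60482 : W_11 (nat_lit 3) (nat_lit 0x200000001b00098000c000c0001000000000000000000) (nat_lit 0x0) (nat_lit 0x1300300000000000000000000000) := T_11 (nat_lit 105) (nat_lit 104) (nat_lit 2) (nat_lit 2) (nat_lit 6) L60481 (by decide +kernel)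
theorem L60483 : W_11 (nat_lit 4) (nat_lit 0x200000001b00098000c00040001000000000000000000) (nat_lit 0x0) (nat_lit 0x1300380004000000000000000000) := T_11 (nat_lit 91) (nat_lit 74) (nat_lit 6) (nat_lit 5) (nat_lit 8) L60482 (by decide +kernel)
theorem L60484 : W_11 (nat_lit 5) (nat_lit 0x200000001b00098000c00000001000000000000000000) (nat_lit 0x0) (nat_lit 0x13003c0006000000000000000000) := T_11 (nat_lit 90) (nat_lit 73) (nat_lit 5) (nat_lit 5) (nat_lit 4) L60483 (by decide +kernel)
theorem L60485 : W_11 (nat_lit 6) (nat_lit 0x200000001b00098000c00000000000000000000000000) (nat_lit 0x0) (nat_lit 0x13003e0007000000000000000000) := T_11 (nat_lit 72) (nat_lit 89) (nat_lit 7) (nat_lit 4) (nat_lit 4) L60484 (by decide +kernel)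
theorem L60486 : W_11 (nat_lit 7) (nat_lit 0x200000001300098000c00000000000000000000000000) (nat_lit 0x0) (nat_lit 0xc000000013003e0007000000000000000000) := T_11 (nat_lit 143) (nat_lit 142) (nat_lit 0) (nat_lit 8) (nat_lit 8) L60485 (by decide +kernel)
theorem L60487 : W_11 (nat_lit 2) (nat_lit 0x2000000013a0098000c00038002000000000000000000) (nat_lit 0x0) (nat_lit 0x3200000000000000000000000000) := D_11 (nat_lit 108) (nat_lit 109) (nat_lit 105) (nat_lit 0) (nat_lit 7) (nat_lit 6) (nat_lit 0) (nat_lit 6) (nat_lit 6) (by decide +kernel)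
theorem L60488 : W_11 (nat_lit 3) (nat_lit 0x2000000013a0098000c00030002000000000000000000) (nat_lit 0x0) (nat_lit 0x320000c000000000000000000000) := T_11 (nat_lit 87) (nat_lit 86) (nat_lit 3) (nat_lit 1) (nat_lit 5) L60487 (by decide +kernel)
theorem L60489 : W_11 (nat_lit 4) (nat_lit 0x2000000013a0098000c00020002000000000000000000) (nat_lit 0x0) (nat_lit 0x320001c000800000000000000000) := T_11 (nat_lit 88) (nat_lit 71) (nat_lit 4) (nat_lit 4) (nat_lit 8) L60488 (by decide +kernel)
theorem L60490 : W_11 (nat_lit 5) (nat_lit 0x200000001380098000c00020002000000000000000000) (nat_lit 0x0) (nat_lit 0x6000000320001c000800000000000000000) := T_11 (nat_lit 137) (nat_lit 138) (nat_lit 2) (nat_lit 1) (nat_lit 8) L60489 (by decide +kernel)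
theorem L60491 : W_11 (nat_lit 6) (nat_lit 0x200000001300098000c00020002000000000000000000) (nat_lit 0x0) (nat_lit 0x10000e000000320001c000800000000000000000) := T_11 (nat_lit 139) (nat_lit 156) (nat_lit 5) (nat_lit 4) (nat_lit 5) L60490 (by decide +kernel)
theorem L60492 : W_11 (nat_lit 7) (nat_lit 0x200000001300098000c00000002000000000000000000) (nat_lit 0x0) (nat_lit 0x10000e000000320003c001800000000000000000) := T_11 (nat_lit 89) (nat_lit 72) (nat_lit 7) (nat_lit 4) (nat_lit 4) L60491 (by decide +kernel)
theorem L60493 : W_11 (nat_lit 8) (nat_lit 0x200000001300098000c00000000000000000000000000) (nat_lit 0x0) (nat_lit 0x10000e000000320007c003800000000000000000) := T_11 (nat_lit 73) (nat_lit 90) (nat_lit 5) (nat_lit 5) (nat_lit 4) L60492 (by decide +kernel)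
theorem L60494 : W_11 (nat_lit 2) (nat_lit 0x4000200000001ba0098000c000f4000000000000000000000) (nat_lit 0x0) (nat_lit 0x300100000000000000000000000) := D_11 (nat_lit 105) (nat_lit 104) (nat_lit 92) (nat_lit 2) (nat_lit 2) (nat_lit 6) (nat_lit 1) (nat_lit 7) (nat_lit 5) (by decide +kernel)
theorem L60495 : W_11 (nat_lit 3) (nat_lit 0x4000200000001ba0098000c00074000000000000000000000) (nat_lit 0x0) (nat_lit 0x300180004000000000000000000) := T_11 (nat_lit 91) (nat_lit 74) (nat_lit 6) (nat_lit 5) (nat_lit 8) L60494 (by decide +kernel)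
theorem L60496 : W_11 (nat_lit 4) (nat_lit 0x4000200000001b80098000c00074000000000000000000000) (nat_lit 0x0) (nat_lit 0x60000000300180004000000000000000000) := T_11 (nat_lit 137) (nat_lit 138) (nat_lit 2) (nat_lit 1) (nat_lit 8) L60495 (by decide +kernel)
theorem L60497 : W_11 (nat_lit 5) (nat_lit 0x4000200000001b00098000c00074000000000000000000000) (nat_lit 0x0) (nat_lit 0x10000e0000000300180004000000000000000000) := T_11 (nat_lit 139) (nat_lit 156) (nat_lit 5) (nat_lit 4) (nat_lit 5) L60496 (by decide +kernel)
theorem L60498 : W_11 (nat_lit 6) (nat_lit 0x4000200000001b00098000c00070000000000000000000000) (nat_lit 0x0) (nat_lit 0x10000e000000030018c004000000000000000000) := T_11 (nat_lit 86) (nat_lit 87) (nat_lit 3) (nat_lit 1) (nat_lit 5) L60497 (by decide +kernel)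
theorem L60499 : W_11 (nat_lit 7) (nat_lit 0x4000200000001b00098000c00060000000000000000000000) (nat_lit 0x0) (nat_lit 0x10000e000000030019c004800000000000000000) := T_11 (nat_lit 88) (nat_lit 71) (nat_lit 4) (nat_lit 4) (nat_lit 8) L60498 (by decide +kernel)
theorem L60500 : W_11 (nat_lit 8) (nat_lit 0x200000001b00098000c00060000000000000000000000) (nat_lit 0x0) (nat_lit 0x40000000110000e000000030019c004800000000000000000) := T_11 (nat_lit 194) (nat_lit 160) (nat_lit 6) (nat_lit 7) (nat_lit 11) L60499 (by decide +kernel)
theorem L60501 : W_11 (nat_lit 9) (nat_lit 0x200000001b00098000c00020000000000000000000000) (nat_lit 0x0) (nat_lit 0x40000000110000e00000003001dc006800000000000000000) := T_11 (nat_lit 90) (nat_lit 73) (nat_lit 6) (nat_lit 4) (nat_lit 8) L60500 (by decide +kernel)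
theorem L60502 : W_11 (nat_lit 10) (nat_lit 0x200000001300098000c00020000000000000000000000) (nat_lit 0x0) (nat_lit 0x4000000011000ce00000003001dc006800000000000000000) := T_11 (nat_lit 143) (nat_lit 142) (nat_lit 0) (nat_lit 8) (nat_lit 8) L60501 (by decide +kernel)
theorem L60503 : W_11 (nat_lit 11) (nat_lit 0x200000001300098000c00000000000000000000000000) (nat_lit 0x0) (nat_lit 0x4000000011000ce00000003001fc007800000000000000000) := T_11 (nat_lit 89) (nat_lit 72) (nat_lit 7) (nat_lit 4) (nat_lit 4) L60502 (by decide +kernel)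
theorem L60504 : W_11 (nat_lit 2) (nat_lit 0x4000200000001b00098000e000c0000000000000000000000) (nat_lit 0x0) (nat_lit 0x1000300000000000000000000000) := D_11 (nat_lit 92) (nat_lit 93) (nat_lit 108) (nat_lit 1) (nat_lit 8) (nat_lit 5) (nat_lit 2) (nat_lit 3) (nat_lit 6) (by decide +kernel)
theorem L60505 : W_11 (nat_lit 3) (nat_lit 0x4000200000001b00098000c000c0000000000000000000000) (nat_lit 0x0) (nat_lit 0x1300300000000000000000000000) := T_11 (nat_lit 105) (nat_lit 104) (nat_lit 2) (nat_lit 2) (nat_lit 6) L60504 (by decide +kernel)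
theorem L60506 : W_11 (nat_lit 4) (nat_lit 0x4000200000001b00098000c00040000000000000000000000) (nat_lit 0x0) (nat_lit 0x1300380004000000000000000000) := T_11 (nat_lit 91) (nat_lit 74) (nat_lit 6) (nat_lit 5) (nat_lit 8) L60505 (by decide +kernel)
theorem L60507 : W_11 (nat_lit 5) (nat_lit 0x200000001b00098000c00040000000000000000000000) (nat_lit 0x0) (nat_lit 0x4000000010000000000001300380004000000000000000000) := T_11 (nat_lit 194) (nat_lit 160) (nat_lit 6) (nat_lit 7) (nat_lit 11) L60506 (by decide +kernel)
theorem L60508 : W_11 (nat_lit 6) (nat_lit 0x200000001b00098000c00000000000000000000000000) (nat_lit 0x0) (nat_lit 0x40000000100000000000013003c0006000000000000000000) := T_11 (nat_lit 90) (nat_lit 73) (nat_lit 5) (nat_lit 5) (nat_lit 4) L60507 (by decide +kernel)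
theorem L60509 : W_11 (nat_lit 7) (nat_lit 0x200000001300098000c00000000000000000000000000) (nat_lit 0x0) (nat_lit 0x4000000010000c000000013003c0006000000000000000000) := T_11 (nat_lit 143) (nat_lit 142) (nat_lit 0) (nat_lit 8) (nat_lit 8) L60508 (by decide +kernel)
theorem L60510 : W_11 (nat_lit 2) (nat_lit 0x2000000013a0098000c002f0000000000000000000000) (nat_lit 0x0) (nat_lit 0x3000008000000000000000000000) := D_11 (nat_lit 108) (nat_lit 109) (nat_lit 87) (nat_lit 3) (nat_lit 3) (nat_lit 5) (nat_lit 3) (nat_lit 2) (nat_lit 5) (by decide +kernel)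
theorem L60511 : W_11 (nat_lit 3) (nat_lit 0x2000000013a0098000c002e0000000000000000000000) (nat_lit 0x0) (nat_lit 0x3000018000800000000000000000) := T_11 (nat_lit 88) (nat_lit 71) (nat_lit 4) (nat_lit 4) (nat_lit 8) L60510 (by decide +kernel)
theorem L60512 : W_11 (nat_lit 4) (nat_lit 0x200000001380098000c002e0000000000000000000000) (nat_lit 0x0) (nat_lit 0x60000003000018000800000000000000000) := T_11 (nat_lit 137) (nat_lit 138) (nat_lit 2) (nat_lit 1) (nat_lit 8) L60511 (by decide +kernel)
theorem L60513 : W_11 (nat_lit 5) (nat_lit 0x200000001300098000c002e0000000000000000000000) (nat_lit 0x0) (nat_lit 0x10000e0000003000018000800000000000000000) := T_11 (nat_lit 139) (nat_lit 156) (nat_lit 5) (nat_lit 4) (nat_lit 5) L60512 (by decide +kernel)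
theorem L60514 : W_11 (nat_lit 6) (nat_lit 0x200000001300098000c000e0000000000000000000000) (nat_lit 0x0) (nat_lit 0x10000e0000003000318000800000000000000000) := T_11 (nat_lit 93) (nat_lit 92) (nat_lit 1) (nat_lit 8) (nat_lit 5) L60513 (by decide +kernel)
theorem L60515 : W_11 (nat_lit 7) (nat_lit 0x200000001300098000c00060000000000000000000000) (nat_lit 0x0) (nat_lit 0x10000e0000003000398004800000000000000000) := T_11 (nat_lit 91) (nat_lit 74) (nat_lit 6) (nat_lit 5) (nat_lit 8) L60514 (by decide +kernel)
theorem L60516 : W_11 (nat_lit 8) (nat_lit 0x200000001300098000c00040000000000000000000000) (nat_lit 0x0) (nat_lit 0x10000e00000030003b8005800000000000000000) := T_11 (nat_lit 89) (nat_lit 72) (nat_lit 7) (nat_lit 4) (nat_lit 4) L60515 (by decide +kernel)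
theorem L60517 : W_11 (nat_lit 9) (nat_lit 0x200000001300098000c00000000000000000000000000) (nat_lit 0x0) (nat_lit 0x10000e00000030003f8007800000000000000000) := T_11 (nat_lit 90) (nat_lit 73) (nat_lit 5) (nat_lit 5) (nat_lit 4) L60516 (by decide +kernel)
theorem L60518 : W_11 (nat_lit 13) (nat_lit 0x200000001300098000800000000000000000000000000) (nat_lit 0x0) (nat_lit 0x4000000011c00ce00030037803fc007800000000000000000) := Q_11 (nat_lit 106) (C_11 L60441 (C_11 L60486 (C_11 L60493 (C_11 L60503 (C_11 L60509 (C_11 L60517 N_11)))))) (by decide +kernel)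
theorem L60519 : W_11 (nat_lit 2) (nat_lit 0x300010001b000d80018000f0000000000000000000000) (nat_lit 0x0) (nat_lit 0x400000000c00000000000000000) := D_11 (nat_lit 71) (nat_lit 70) (nat_lit 106) (nat_lit 0) (nat_lit 6) (nat_lit 5) (nat_lit 4) (nat_lit 4) (nat_lit 8) (by decide +kernel)
theorem L60520 : W_11 (nat_lit 3) (nat_lit 0x300010001b000d80018000e0000000000000000000000) (nat_lit 0x0) (nat_lit 0x400018000c00000000000000000) := T_11 (nat_lit 88) (nat_lit 87) (nat_lit 3) (nat_lit 2) (nat_lit 5) L60519 (by decide +kernel)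
theorem L60521 : W_11 (nat_lit 4) (nat_lit 0x200010001b000d80018000e0000000000000000000000) (nat_lit 0x0) (nat_lit 0x2000100000000000000000400018000c00000000000000000) := T_11 (nat_lit 176) (nat_lit 193) (nat_lit 5) (nat_lit 7) (nat_lit 7) L60520 (by decide +kernel)
theorem L60522 : W_11 (nat_lit 5) (nat_lit 0x200010001b000d80008000e0000000000000000000000) (nat_lit 0x0) (nat_lit 0x2000100000000000000003400018000c00000000000000000) := T_11 (nat_lit 108) (nat_lit 109) (nat_lit 4) (nat_lit 7) (nat_lit 9) L60521 (by decide +kernel)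
theorem L60523 : W_11 (nat_lit 6) (nat_lit 0x200010001b000d8000800060000000000000000000000) (nat_lit 0x0) (nat_lit 0x2000100000000000000003400098004c00000000000000000) := T_11 (nat_lit 91) (nat_lit 74) (nat_lit 6) (nat_lit 5) (nat_lit 8) L60522 (by decide +kernel)
theorem L60524 : W_11 (nat_lit 7) (nat_lit 0x200010001b000d8000800040000000000000000000000) (nat_lit 0x0) (nat_lit 0x20001000000000000000034000b8005c00000000000000000) := T_11 (nat_lit 89) (nat_lit 72) (nat_lit 4) (nat_lit 5) (nat_lit 8) L60523 (by decide +kernel)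
theorem L60525 : W_11 (nat_lit 8) (nat_lit 0x200010001b000d8000800000000000000000000000000) (nat_lit 0x0) (nat_lit 0x20001000000000000000034000f8007c00000000000000000) := T_11 (nat_lit 90) (nat_lit 73) (nat_lit 5) (nat_lit 5) (nat_lit 4) L60524 (by decide +kernel)
theorem L60526 : W_11 (nat_lit 9) (nat_lit 0x200000001b000d8000800000000000000000000000000) (nat_lit 0x0) (nat_lit 0x60001000100000000000034000f8007c00000000000000000) := T_11 (nat_lit 160) (nat_lit 194) (nat_lit 6) (nat_lit 7) (nat_lit 11) L60525 (by decide +kernel)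
theorem L60527 : W_11 (nat_lit 10) (nat_lit 0x200000001b00098000800000000000000000000000000) (nat_lit 0x0) (nat_lit 0x60001000100000000600034000f8007c00000000000000000) := T_11 (nat_lit 126) (nat_lit 125) (nat_lit 3) (nat_lit 4) (nat_lit 7) L60526 (by decide +kernel)
theorem L60528 : W_11 (nat_lit 11) (nat_lit 0x200000001300098000800000000000000000000000000) (nat_lit 0x0) (nat_lit 0x6000100010000c000600034000f8007c00000000000000000) := T_11 (nat_lit 143) (nat_lit 142) (nat_lit 0) (nat_lit 8) (nat_lit 8) L60527 (by decide +kernel)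
theorem L60529 : W_11 (nat_lit 13) (nat_lit 0x200000001300098000800000000000000000000000000) (nat_lit 0x0) (nat_lit 0x4000000031c00ce006300378013c009800000000000000000) := Q_11 (nat_lit 106) (C_11 L60479 (C_11 L60441 (C_11 L60475 (C_11 L60465 N_11)))) (by decide +kernel)
theorem L60530 : W_11 (nat_lit 2) (nat_lit 0x300010001b000d80028000c0000000000000000000000) (nat_lit 0x0) (nat_lit 0x20000000000000000100008000000000000000000) := D_11 (nat_lit 92) (nat_lit 161) (nat_lit 75) (nat_lit 7) (nat_lit 7) (nat_lit 5) (nat_lit 7) (nat_lit 7) (nat_lit 4) (by decide +kernel)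
theorem L60531 : W_11 (nat_lit 3) (nat_lit 0x300010001b000d80008000c0000000000000000000000) (nat_lit 0x0) (nat_lit 0x20000000000003000100008000000000000000000) := T_11 (nat_lit 109) (nat_lit 108) (nat_lit 4) (nat_lit 7) (nat_lit 9) L60530 (by decide +kernel)
theorem L60532 : W_11 (nat_lit 4) (nat_lit 0x200010001b000d80008000c0000000000000000000000) (nat_lit 0x0) (nat_lit 0x2000100020000000000003000100008000000000000000000) := T_11 (nat_lit 176) (nat_lit 193) (nat_lit 5) (nat_lit 7) (nat_lit 7) L60531 (by decide +kernel)
theorem L60533 : W_11 (nat_lit 5) (nat_lit 0x200000001b000d80008000c0000000000000000000000) (nat_lit 0x0) (nat_lit 0x6000100030000000000003000100008000000000000000000) := T_11 (nat_lit 160) (nat_lit 194) (nat_lit 6) (nat_lit 7) (nat_lit 11) L60532 (by decide +kernel)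
theorem L60534 : W_11 (nat_lit 6) (nat_lit 0x200000001b000d8000800040000000000000000000000) (nat_lit 0x0) (nat_lit 0x600010003000000000000300018000c000000000000000000) := T_11 (nat_lit 91) (nat_lit 74) (nat_lit 6) (nat_lit 5) (nat_lit 8) L60533 (by decide +kernel)
theorem L60535 : W_11 (nat_lit 7) (nat_lit 0x200000001b00098000800040000000000000000000000) (nat_lit 0x0) (nat_lit 0x600010003000000006000300018000c000000000000000000) := T_11 (nat_lit 126) (nat_lit 125) (nat_lit 3) (nat_lit 4) (nat_lit 7) L60534 (by decide +kernel)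
theorem L60536 : W_11 (nat_lit 8) (nat_lit 0x200000001b00098000800000000000000000000000000) (nat_lit 0x0) (nat_lit 0x60001000300000000600030001c000e000000000000000000) := T_11 (nat_lit 90) (nat_lit 73) (nat_lit 5) (nat_lit 5) (nat_lit 4) L60535 (by decide +kernel)
theorem L60537 : W_11 (nat_lit 9) (nat_lit 0x200000001300098000800000000000000000000000000) (nat_lit 0x0) (nat_lit 0x6000100030000c000600030001c000e000000000000000000) := T_11 (nat_lit 143) (nat_lit 142) (nat_lit 0) (nat_lit 8) (nat_lit 8) L60536 (by decide +kernel)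
theorem L60538 : W_11 (nat_lit 14) (nat_lit 0x200000001300098000000000000000000000000000000) (nat_lit 0x0) (nat_lit 0x6000100031c00ce0063003f803fc01fc00000000000000000) := Q_11 (nat_lit 107) (C_11 L60480 (C_11 L60518 (C_11 L60326 (C_11 L60528 (C_11 L60278 (C_11 L60529 (C_11 L60537 N_11))))))) (by decide +kernel)
theorem L60539 : W_11 (nat_lit 2) (nat_lit 0x2000010017800b8000400000000000000000000000000) (nat_lit 0x0) (nat_lit 0x400020002000000000000000000000000000000000000000) := D_11 (nat_lit 173) (nat_lit 190) (nat_lit 157) (nat_lit 6) (nat_lit 3) (nat_lit 11) (nat_lit 5) (nat_lit 4) (nat_lit 6) (by decide +kernel)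
theorem L60540 : W_11 (nat_lit 3) (nat_lit 0x2000010017800b8000000000000000000000000000000) (nat_lit 0x0) (nat_lit 0x400020002000000000000400020000000000000000000000) := T_11 (nat_lit 106) (nat_lit 89) (nat_lit 5) (nat_lit 4) (nat_lit 5) L60539 (by decide +kernel)
theorem L60541 : W_11 (nat_lit 4) (nat_lit 0x2000000017800b8000000000000000000000000000000) (nat_lit 0x0) (nat_lit 0x400020003800000000000400020000000000000000000000) := T_11 (nat_lit 156) (nat_lit 155) (nat_lit 1) (nat_lit 6) (nat_lit 8) L60540 (by decide +kernel)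
theorem L60542 : W_11 (nat_lit 5) (nat_lit 0x2000000017000b8000000000000000000000000000000) (nat_lit 0x0) (nat_lit 0x4000200038000c0000000400020000000000000000000000) := T_11 (nat_lit 139) (nat_lit 138) (nat_lit 2) (nat_lit 2) (nat_lit 8) L60541 (by decide +kernel)
theorem L60543 : W_11 (nat_lit 6) (nat_lit 0x200000001700098000000000000000000000000000000) (nat_lit 0x0) (nat_lit 0x4000200038000c0060000400020000000000000000000000) := T_11 (nat_lit 125) (nat_lit 126) (nat_lit 1) (nat_lit 8) (nat_lit 7) L60542 (by decide +kernel)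
theorem L60544 : W_11 (nat_lit 7) (nat_lit 0x200000001300098000000000000000000000000000000) (nat_lit 0x0) (nat_lit 0x400020003800cc0060000400020000000000000000000000) := T_11 (nat_lit 142) (nat_lit 143) (nat_lit 0) (nat_lit 8) (nat_lit 8) L60543 (by decide +kernel)
theorem L60545 : W_11 (nat_lit 2) (nat_lit 0x2200030017800b8000000000000000000000000000000) (nat_lit 0x0) (nat_lit 0x40000000000000000800040000000000000000000000) := D_11 (nat_lit 107) (nat_lit 90) (nat_lit 174) (nat_lit 5) (nat_lit 5) (nat_lit 5) (nat_lit 6) (nat_lit 4) (nat_lit 10) (by decide +kernel)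
theorem L60546 : W_11 (nat_lit 3) (nat_lit 0x2200010017800b8000000000000000000000000000000) (nat_lit 0x0) (nat_lit 0x40002000000000000c00040000000000000000000000) := T_11 (nat_lit 157) (nat_lit 106) (nat_lit 5) (nat_lit 4) (nat_lit 6) L60545 (by decide +kernel)
theorem L60547 : W_11 (nat_lit 4) (nat_lit 0x2000010017800b8000000000000000000000000000000) (nat_lit 0x0) (nat_lit 0x400060002000000000000c00040000000000000000000000) := T_11 (nat_lit 173) (nat_lit 190) (nat_lit 6) (nat_lit 3) (nat_lit 11) L60546 (by decide +kernel)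
theorem L60548 : W_11 (nat_lit 5) (nat_lit 0x2000000017800b8000000000000000000000000000000) (nat_lit 0x0) (nat_lit 0x400060003800000000000c00040000000000000000000000) := T_11 (nat_lit 156) (nat_lit 155) (nat_lit 1) (nat_lit 6) (nat_lit 8) L60547 (by decide +kernel)
theorem L60549 : W_11 (nat_lit 6) (nat_lit 0x2000000017000b8000000000000000000000000000000) (nat_lit 0x0) (nat_lit 0x4000600038000c0000000c00040000000000000000000000) := T_11 (nat_lit 139) (nat_lit 138) (nat_lit 2) (nat_lit 2) (nat_lit 8) L60548 (by decide +kernel)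
theorem L60550 : W_11 (nat_lit 7) (nat_lit 0x2000000013000b8000000000000000000000000000000) (nat_lit 0x0) (nat_lit 0x400060003800cc0000000c00040000000000000000000000) := T_11 (nat_lit 142) (nat_lit 143) (nat_lit 0) (nat_lit 8) (nat_lit 8) L60549 (by decide +kernel)
theorem L60551 : W_11 (nat_lit 8) (nat_lit 0x200000001300098000000000000000000000000000000) (nat_lit 0x0) (nat_lit 0x400060003800cc0060000c00040000000000000000000000) := T_11 (nat_lit 125) (nat_lit 126) (nat_lit 1) (nat_lit 8) (nat_lit 7) L60550 (by decide +kernel)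
theorem L60552 : W_11 (nat_lit 15) (nat_lit 0x200000001200098000000000000000000000000000000) (nat_lit 0x0) (nat_lit 0xfe001e00f3c00de0063003f803fc01fc00000000000000000) := Q_11 (nat_lit 140) (C_11 L60538 (C_11 L59998 (C_11 L60353 (C_11 L60544 (C_11 L60288 (C_11 L60399 (C_11 L60551 N_11))))))) (by decide +kernel)
theorem L60553 : W_11 (nat_lit 2) (nat_lit 0x2000000012000bc000000000000000000000000000000) (nat_lit 0x0) (nat_lit 0xc00002000000000000000000000000000000) := D_11 (nat_lit 142) (nat_lit 143) (nat_lit 121) (nat_lit 3) (nat_lit 3) (nat_lit 7) (nat_lit 3) (nat_lit 2) (nat_lit 7) (by decide +kernel)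
theorem L60554 : W_11 (nat_lit 14) (nat_lit 0x2000000012000b8000000000000000000000000000000) (nat_lit 0x0) (nat_lit 0x20001000de010601bc007e007f000000000000000000) := Q_11 (nat_lit 122) (C_11 L60087 (C_11 L60114 (C_11 L60553 N_11))) (by decide +kernel)
theorem L60555 : W_11 (nat_lit 5) (nat_lit 0x2000000012000b8000000000000000000000000000000) (nat_lit 0x0) (nat_lit 0x500344003800000000000000000000000000) := T_11 (nat_lit 126) (nat_lit 140) (nat_lit 1) (nat_lit 8) (nat_lit 7) L60235 (by decide +kernel)
theorem L60556 : W_11 (nat_lit 15) (nat_lit 0x200000001200098000000000000000000000000000000) (nat_lit 0x0) (nat_lit 0x20001000de036601bc007e007f000000000000000000) := Q_11 (nat_lit 125) (C_11 L60554 (C_11 L60294 (C_11 L60089 (C_11 L60555 N_11)))) (by decide +kernel)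
theorem L60557 : W_11 (nat_lit 16) (nat_lit 0x200000001200090000000000000000000000000000000) (nat_lit 0x0) (nat_lit 0x600ff001f80f3e00df036f81bfc07fc07fc002e0000000000000) := Q_11 (nat_lit 123) (C_11 L60000 (C_11 L60092 (C_11 L60216 (C_11 L60220 (C_11 L60225 (C_11 L60232 (C_11 L60289 (C_11 L60293 (C_11 L60300 (C_11 L60381 (C_11 L60383 (C_11 L60410 (C_11 L60411 (C_11 L60417 (C_11 L60552 (C_11 L60556 N_11)))))))))))))))) (by decide +kernel)
theorem L60558 : W_11 (nat_lit 2) (nat_lit 0x2c0006001200090000000000000000000000000000000) (nat_lit 0x0) (nat_lit 0x2000100001000000000000000000000000000000000000000) := D_11 (nat_lit 176) (nat_lit 156) (nat_lit 193) (nat_lit 0) (nat_lit 7) (nat_lit 10) (nat_lit 7) (nat_lit 5) (nat_lit 7) (by decide +kernel)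
theorem L60559 : W_11 (nat_lit 3) (nat_lit 0x2c0004001200090000000000000000000000000000000) (nat_lit 0x0) (nat_lit 0x2000100003000000000000800000000000000000000000000) := T_11 (nat_lit 157) (nat_lit 107) (nat_lit 5) (nat_lit 5) (nat_lit 6) L60558 (by decide +kernel)
theorem L60560 : W_11 (nat_lit 4) (nat_lit 0x280004001200090000000000000000000000000000000) (nat_lit 0x0) (nat_lit 0x2800140003000000000000800000000000000000000000000) := T_11 (nat_lit 174) (nat_lit 191) (nat_lit 5) (nat_lit 5) (nat_lit 7) L60559 (by decide +kernel)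
theorem L60561 : W_11 (nat_lit 8) (nat_lit 0x200004001200090000000000000000000000000000000) (nat_lit 0x0) (nat_lit 0x400038001c0003000100008001c000c0006000000000000000000) := Q_11 (nat_lit 175) (C_11 L32077 (C_11 L40002 (C_11 L32074 (C_11 L60560 N_11)))) (by decide +kernel)
theorem L60562 : W_11 (nat_lit 2) (nat_lit 0x200006001200094003e00110000000000000000000000) (nat_lit 0x0) (nat_lit 0x180000000000040000000000000000000000) := D_11 (nat_lit 140) (nat_lit 90) (nat_lit 139) (nat_lit 5) (nat_lit 5) (nat_lit 5) (nat_lit 7) (nat_lit 3) (nat_lit 5) (by decide +kernel)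
theorem L60563 : W_11 (nat_lit 3) (nat_lit 0x200004001200094003e00110000000000000000000000) (nat_lit 0x0) (nat_lit 0x40002000180000000000040000000000000000000000) := T_11 (nat_lit 157) (nat_lit 174) (nat_lit 5) (nat_lit 5) (nat_lit 6) L60562 (by decide +kernel)
theorem L60564 : W_11 (nat_lit 4) (nat_lit 0x200004001200094003e00100000000000000000000000) (nat_lit 0x0) (nat_lit 0x40002000180000000000058000000000000000000000) := T_11 (nat_lit 88) (nat_lit 87) (nat_lit 0) (nat_lit 6) (nat_lit 6) L60563 (by decide +kernel)
theorem L60565 : W_11 (nat_lit 5) (nat_lit 0x200004001200094003c00100000000000000000000000) (nat_lit 0x0) (nat_lit 0x40002000180002000200058000000000000000000000) := T_11 (nat_lit 105) (nat_lit 121) (nat_lit 1) (nat_lit 6) (nat_lit 6) L60564 (by decide +kernel)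
theorem L60566 : W_11 (nat_lit 6) (nat_lit 0x200004001200090003c00100000000000000000000000) (nat_lit 0x0) (nat_lit 0x4000200018000e000200058000000000000000000000) := T_11 (nat_lit 122) (nat_lit 123) (nat_lit 1) (nat_lit 7) (nat_lit 6) L60565 (by decide +kernel)
theorem L60567 : W_11 (nat_lit 7) (nat_lit 0x200004001200090003c00000000000000000000000000) (nat_lit 0x0) (nat_lit 0x4000200018000e000200358000000000000000000000) := T_11 (nat_lit 92) (nat_lit 93) (nat_lit 2) (nat_lit 4) (nat_lit 6) L60566 (by decide +kernel)
theorem L60568 : W_11 (nat_lit 8) (nat_lit 0x200004001200090001c00000000000000000000000000) (nat_lit 0x0) (nat_lit 0x4000200018004e002200358000000000000000000000) := T_11 (nat_lit 109) (nat_lit 126) (nat_lit 3) (nat_lit 4) (nat_lit 6) L60567 (by decide +kernel)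
theorem L60569 : W_11 (nat_lit 9) (nat_lit 0x200004001200090000c00000000000000000000000000) (nat_lit 0x0) (nat_lit 0x4000200018004e0032003d8000000000000000000000) := T_11 (nat_lit 108) (nat_lit 91) (nat_lit 6) (nat_lit 5) (nat_lit 9) L60568 (by decide +kernel)
theorem L60570 : W_11 (nat_lit 10) (nat_lit 0x200004001200090000800000000000000000000000000) (nat_lit 0x0) (nat_lit 0x4000200018004e0036003f8000000000000000000000) := T_11 (nat_lit 106) (nat_lit 89) (nat_lit 4) (nat_lit 5) (nat_lit 9) L60569 (by decide +kernel)
theorem L60571 : W_11 (nat_lit 2) (nat_lit 0x2000040012000900008000a0000000000000000000000) (nat_lit 0x0) (nat_lit 0x40005000000000000000000) := D_11 (nat_lit 90) (nat_lit 72) (nat_lit 74) (nat_lit 4) (nat_lit 5) (nat_lit 8) (nat_lit 6) (nat_lit 5) (nat_lit 8) (by decide +kernel)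
theorem L60572 : W_11 (nat_lit 3) (nat_lit 0x200004001200090000800020000000000000000000000) (nat_lit 0x0) (nat_lit 0x10000c0005000000000000000000) := T_11 (nat_lit 91) (nat_lit 108) (nat_lit 6) (nat_lit 5) (nat_lit 9) L60571 (by decide +kernel)
theorem L60573 : W_11 (nat_lit 4) (nat_lit 0x200004001200090000800000000000000000000000000) (nat_lit 0x0) (nat_lit 0x14000e0005000000000000000000) := T_11 (nat_lit 89) (nat_lit 106) (nat_lit 4) (nat_lit 5) (nat_lit 9) L60572 (by decide +kernel)
theorem L60574 : W_11 (nat_lit 2) (nat_lit 0x2000040012000900008000c0000000000000000000000) (nat_lit 0x0) (nat_lit 0x40002000100000000000000000000000000000000000) := D_11 (nat_lit 157) (nat_lit 140) (nat_lit 174) (nat_lit 5) (nat_lit 5) (nat_lit 5) (nat_lit 5) (nat_lit 5) (nat_lit 6) (by decide +kernel)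
theorem L60575 : W_11 (nat_lit 3) (nat_lit 0x200004001200090000800080000000000000000000000) (nat_lit 0x0) (nat_lit 0x40002000100000000000040004000000000000000000) := T_11 (nat_lit 90) (nat_lit 74) (nat_lit 6) (nat_lit 5) (nat_lit 8) L60574 (by decide +kernel)
theorem L60576 : W_11 (nat_lit 4) (nat_lit 0x200004001200090000800000000000000000000000000) (nat_lit 0x0) (nat_lit 0x400020001000000010000c0004000000000000000000) := T_11 (nat_lit 91) (nat_lit 108) (nat_lit 6) (nat_lit 5) (nat_lit 9) L60575 (by decide +kernel)
theorem L60577 : W_11 (nat_lit 2) (nat_lit 0x200006801600094003e00110000000000000000000000) (nat_lit 0x0) (nat_lit 0x1c0000000000000000000000000000000000) := D_11 (nat_lit 139) (nat_lit 138) (nat_lit 140) (nat_lit 5) (nat_lit 3) (nat_lit 5) (nat_lit 7) (nat_lit 3) (nat_lit 5) (by decide +kernel)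
theorem L60578 : W_11 (nat_lit 3) (nat_lit 0x200006801600094003e00100000000000000000000000) (nat_lit 0x0) (nat_lit 0x1c0000000000018000000000000000000000) := T_11 (nat_lit 88) (nat_lit 87) (nat_lit 0) (nat_lit 6) (nat_lit 6) L60577 (by decide +kernel)
theorem L60579 : W_11 (nat_lit 4) (nat_lit 0x200006801600094003c00100000000000000000000000) (nat_lit 0x0) (nat_lit 0x1c0002000200018000000000000000000000) := T_11 (nat_lit 105) (nat_lit 121) (nat_lit 1) (nat_lit 6) (nat_lit 6) L60578 (by decide +kernel)
theorem L60580 : W_11 (nat_lit 5) (nat_lit 0x200006801600090003c00100000000000000000000000) (nat_lit 0x0) (nat_lit 0x1c000e000200018000000000000000000000) := T_11 (nat_lit 122) (nat_lit 123) (nat_lit 1) (nat_lit 7) (nat_lit 6) L60579 (by decide +kernel)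
theorem L60581 : W_11 (nat_lit 6) (nat_lit 0x200006801600090003c00000000000000000000000000) (nat_lit 0x0) (nat_lit 0x1c000e000200318000000000000000000000) := T_11 (nat_lit 92) (nat_lit 93) (nat_lit 2) (nat_lit 4) (nat_lit 6) L60580 (by decide +kernel)
theorem L60582 : W_11 (nat_lit 7) (nat_lit 0x200006801600090001c00000000000000000000000000) (nat_lit 0x0) (nat_lit 0x1c004e002200318000000000000000000000) := T_11 (nat_lit 109) (nat_lit 126) (nat_lit 3) (nat_lit 4) (nat_lit 6) L60581 (by decide +kernel)
theorem L60583 : W_11 (nat_lit 8) (nat_lit 0x200006801600090000c00000000000000000000000000) (nat_lit 0x0) (nat_lit 0x1c004e003200398000000000000000000000) := T_11 (nat_lit 108) (nat_lit 91) (nat_lit 6) (nat_lit 5) (nat_lit 9) L60582 (by decide +kernel)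
theorem L60584 : W_11 (nat_lit 9) (nat_lit 0x200006801600090000800000000000000000000000000) (nat_lit 0x0) (nat_lit 0x1c004e0036003b8000000000000000000000) := T_11 (nat_lit 106) (nat_lit 89) (nat_lit 4) (nat_lit 5) (nat_lit 9) L60583 (by decide +kernel)
theorem L60585 : W_11 (nat_lit 10) (nat_lit 0x200006001600090000800000000000000000000000000) (nat_lit 0x0) (nat_lit 0x18001c004e0036003b8000000000000000000000) := T_11 (nat_lit 155) (nat_lit 156) (nat_lit 2) (nat_lit 2) (nat_lit 9) L60584 (by decide +kernel)
theorem L60586 : W_11 (nat_lit 11) (nat_lit 0x200006001200090000800000000000000000000000000) (nat_lit 0x0) (nat_lit 0x1800dc004e0036003b8000000000000000000000) := T_11 (nat_lit 142) (nat_lit 143) (nat_lit 1) (nat_lit 8) (nat_lit 8) L60585 (by decide +kernel)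
theorem L60587 : W_11 (nat_lit 12) (nat_lit 0x200004001200090000800000000000000000000000000) (nat_lit 0x0) (nat_lit 0x40003800dc004e0036003b8000000000000000000000) := T_11 (nat_lit 157) (nat_lit 174) (nat_lit 5) (nat_lit 5) (nat_lit 6) L60586 (by decide +kernel)
theorem L60588 : W_11 (nat_lit 13) (nat_lit 0x200004001200090000000000000000000000000000000) (nat_lit 0x0) (nat_lit 0x40003800dc004e003e003f8005000000000000000000) := Q_11 (nat_lit 107) (C_11 L60570 (C_11 L60573 (C_11 L60576 (C_11 L60587 (C_11 L39909 N_11))))) (by decide +kernel)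
theorem L60589 : W_11 (nat_lit 2) (nat_lit 0x4000380004001a00098000000000000000000000000000000) (nat_lit 0x0) (nat_lit 0x8800040000000000000000000000000000000000000000000) := D_11 (nat_lit 174) (nat_lit 195) (nat_lit 191) (nat_lit 3) (nat_lit 4) (nat_lit 10) (nat_lit 5) (nat_lit 5) (nat_lit 7) (by decide +kernel)
theorem L60590 : W_11 (nat_lit 3) (nat_lit 0x380004001a00098000000000000000000000000000000) (nat_lit 0x0) (nat_lit 0xc800040010000000000000000000000000000000000000000) := T_11 (nat_lit 194) (nat_lit 160) (nat_lit 6) (nat_lit 7) (nat_lit 11) L60589 (by decide +kernel)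
theorem L60591 : W_11 (nat_lit 4) (nat_lit 0x280004001a00098000000000000000000000000000000) (nat_lit 0x0) (nat_lit 0xe800140010000000000000000000000000000000000000000) := T_11 (nat_lit 176) (nat_lit 193) (nat_lit 7) (nat_lit 5) (nat_lit 7) L60590 (by decide +kernel)
theorem L60592 : W_11 (nat_lit 5) (nat_lit 0x280004001200098000000000000000000000000000000) (nat_lit 0x0) (nat_lit 0xe800140010000c00000000000000000000000000000000000) := T_11 (nat_lit 143) (nat_lit 142) (nat_lit 0) (nat_lit 8) (nat_lit 8) L60591 (by decide +kernel)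
theorem L60593 : W_11 (nat_lit 6) (nat_lit 0x280004001200090000000000000000000000000000000) (nat_lit 0x0) (nat_lit 0xe800140010000c00008000400000000000000000000000000) := T_11 (nat_lit 123) (nat_lit 106) (nat_lit 4) (nat_lit 5) (nat_lit 10) L60592 (by decide +kernel)
theorem L60594 : W_11 (nat_lit 7) (nat_lit 0x200004001200090000000000000000000000000000000) (nat_lit 0x0) (nat_lit 0x5000f8001c0030000d00008000400000000000000000000000000) := Q_11 (nat_lit 175) (C_11 L32077 (C_11 L33440 (C_11 L60593 (C_11 L32216 N_11)))) (by decide +kernel)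
theorem L60595 : W_11 (nat_lit 2) (nat_lit 0x2000040013000900008000c0002000000000000000000) (nat_lit 0x0) (nat_lit 0x20001000080000000000000) := D_11 (nat_lit 72) (nat_lit 55) (nat_lit 89) (nat_lit 4) (nat_lit 5) (nat_lit 7) (nat_lit 4) (nat_lit 5) (nat_lit 8) (by decide +kernel)
theorem L60596 : W_11 (nat_lit 3) (nat_lit 0x2000040013000900008000c0000000000000000000000) (nat_lit 0x0) (nat_lit 0x8000000020003000080000000000000) := T_11 (nat_lit 73) (nat_lit 123) (nat_lit 5) (nat_lit 5) (nat_lit 4) L60595 (by decide +kernel)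
theorem L60597 : W_11 (nat_lit 4) (nat_lit 0x2000040012000900008000c0000000000000000000000) (nat_lit 0x0) (nat_lit 0x2000100008000000020003000080000000000000) := T_11 (nat_lit 140) (nat_lit 157) (nat_lit 5) (nat_lit 5) (nat_lit 5) L60596 (by decide +kernel)
theorem L60598 : W_11 (nat_lit 5) (nat_lit 0x200004001200090000800080000000000000000000000) (nat_lit 0x0) (nat_lit 0x2000100008000000060007000080000000000000) := T_11 (nat_lit 90) (nat_lit 74) (nat_lit 6) (nat_lit 5) (nat_lit 8) L60597 (by decide +kernel)
theorem L60599 : W_11 (nat_lit 6) (nat_lit 0x200004001200090000800000000000000000000000000) (nat_lit 0x0) (nat_lit 0x20001000080010000e0007000080000000000000) := T_11 (nat_lit 91) (nat_lit 108) (nat_lit 6) (nat_lit 5) (nat_lit 9) L60598 (by decide +kernel)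
theorem L60600 : W_11 (nat_lit 4) (nat_lit 0x200004001200090001800000000000000000000000000) (nat_lit 0x0) (nat_lit 0x8000000000004c002400020000000000000000000000) := T_11 (nat_lit 106) (nat_lit 89) (nat_lit 4) (nat_lit 5) (nat_lit 9) L40005 (by decide +kernel)
theorem L60601 : W_11 (nat_lit 5) (nat_lit 0x200004001200090000800000000000000000000000000) (nat_lit 0x0) (nat_lit 0x8000000000004c0034000a0000000000000000000000) := T_11 (nat_lit 108) (nat_lit 91) (nat_lit 6) (nat_lit 5) (nat_lit 9) L60600 (by decide +kernel)
theorem L60602 : W_11 (nat_lit 2) (nat_lit 0x30003000280006001a00090000c00000000000000000000000000) (nat_lit 0x0) (nat_lit 0xc000000010000000000000000000000000000000000000000) := D_11 (nat_lit 194) (nat_lit 195) (nat_lit 160) (nat_lit 1) (nat_lit 8) (nat_lit 11) (nat_lit 6) (nat_lit 7) (nat_lit 11) (by decide +kernel)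
theorem L60603 : W_11 (nat_lit 3) (nat_lit 0x30003000280006001200090000c00000000000000000000000000) (nat_lit 0x0) (nat_lit 0xc000000010000c00000000000000000000000000000000000) := T_11 (nat_lit 143) (nat_lit 142) (nat_lit 1) (nat_lit 8) (nat_lit 8) L60602 (by decide +kernel)
theorem L60604 : W_11 (nat_lit 4) (nat_lit 0x30003000280004001200090000c00000000000000000000000000) (nat_lit 0x0) (nat_lit 0xc000000012000d00000000000000000000000000000000000) := T_11 (nat_lit 157) (nat_lit 140) (nat_lit 4) (nat_lit 5) (nat_lit 12) L60603 (by decide +kernel)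
theorem L60605 : W_11 (nat_lit 5) (nat_lit 0x10003000280004001200090000c00000000000000000000000000) (nat_lit 0x0) (nat_lit 0x20002000c000000012000d00000000000000000000000000000000000) := T_11 (nat_lit 209) (nat_lit 225) (nat_lit 5) (nat_lit 5) (nat_lit 9) L60604 (by decide +kernel)
theorem L60606 : W_11 (nat_lit 6) (nat_lit 0x3000280004001200090000c00000000000000000000000000) (nat_lit 0x0) (nat_lit 0x20003000c800000012000d00000000000000000000000000000000000) := T_11 (nat_lit 208) (nat_lit 191) (nat_lit 5) (nat_lit 5) (nat_lit 8) L60605 (by decide +kernel)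
theorem L60607 : W_11 (nat_lit 7) (nat_lit 0x2000280004001200090000c00000000000000000000000000) (nat_lit 0x0) (nat_lit 0x20007000d800000012000d00000000000000000000000000000000000) := T_11 (nat_lit 192) (nat_lit 210) (nat_lit 7) (nat_lit 5) (nat_lit 8) L60606 (by decide +kernel)
theorem L60608 : W_11 (nat_lit 8) (nat_lit 0x280004001200090000c00000000000000000000000000) (nat_lit 0x0) (nat_lit 0x20007000f800100012000d00000000000000000000000000000000000) := T_11 (nat_lit 193) (nat_lit 176) (nat_lit 7) (nat_lit 5) (nat_lit 7) L60607 (by decide +kernel)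
theorem L60609 : W_11 (nat_lit 9) (nat_lit 0x200004001200090000c00000000000000000000000000) (nat_lit 0x0) (nat_lit 0x20007000f800180012000d00008000000000000000000000000000000) := T_11 (nat_lit 175) (nat_lit 123) (nat_lit 4) (nat_lit 5) (nat_lit 10) L60608 (by decide +kernel)
theorem L60610 : W_11 (nat_lit 10) (nat_lit 0x200004001200090000800000000000000000000000000) (nat_lit 0x0) (nat_lit 0x20007000f800180012000d00008000400020000000000000000000000) := T_11 (nat_lit 106) (nat_lit 89) (nat_lit 4) (nat_lit 5) (nat_lit 9) L60609 (by decide +kernel)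
theorem L60611 : W_11 (nat_lit 3) (nat_lit 0x2000040013000900008000c0000000000000000000000) (nat_lit 0x0) (nat_lit 0x1000080000000000008000400000002000000000000000000) := T_11 (nat_lit 123) (nat_lit 73) (nat_lit 5) (nat_lit 5) (nat_lit 4) L58543 (by decide +kernel)
theorem L60612 : W_11 (nat_lit 4) (nat_lit 0x2000040012000900008000c0000000000000000000000) (nat_lit 0x0) (nat_lit 0x1000080002000100008000400000002000000000000000000) := T_11 (nat_lit 140) (nat_lit 157) (nat_lit 5) (nat_lit 5) (nat_lit 5) L60611 (by decide +kernel)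
theorem L60613 : W_11 (nat_lit 5) (nat_lit 0x200004001200090000800080000000000000000000000) (nat_lit 0x0) (nat_lit 0x1000080002000100008000400040006000000000000000000) := T_11 (nat_lit 90) (nat_lit 74) (nat_lit 6) (nat_lit 5) (nat_lit 8) L60612 (by decide +kernel)
theorem L60614 : W_11 (nat_lit 6) (nat_lit 0x200004001200090000800000000000000000000000000) (nat_lit 0x0) (nat_lit 0x10000800020001000080014000c0006000000000000000000) := T_11 (nat_lit 91) (nat_lit 108) (nat_lit 6) (nat_lit 5) (nat_lit 9) L60613 (by decide +kernel)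
theorem L60615 : W_11 (nat_lit 11) (nat_lit 0x200004001200090000000000000000000000000000000) (nat_lit 0x0) (nat_lit 0x20007000f800180012000d0004c003c000e0007000080000000000000) := Q_11 (nat_lit 107) (C_11 L60599 (C_11 L60573 (C_11 L60601 (C_11 L60610 (C_11 L60614 N_11))))) (by decide +kernel)
theorem L60616 : W_11 (nat_lit 2) (nat_lit 0x10003000280004001300090000000000000000000000000000000) (nat_lit 0x0) (nat_lit 0x200020000000000002000000000000000000000000000000000000000) := D_11 (nat_lit 209) (nat_lit 225) (nat_lit 157) (nat_lit 5) (nat_lit 5) (nat_lit 9) (nat_lit 4) (nat_lit 5) (nat_lit 12) (by decide +kernel)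
theorem L60617 : W_11 (nat_lit 3) (nat_lit 0x10003000280004001200090000000000000000000000000000000) (nat_lit 0x0) (nat_lit 0x200020000000000002000100008000000000000000000000000000000) := T_11 (nat_lit 140) (nat_lit 123) (nat_lit 4) (nat_lit 5) (nat_lit 11) L60616 (by decide +kernel)
theorem L60618 : W_11 (nat_lit 4) (nat_lit 0x3000280004001200090000000000000000000000000000000) (nat_lit 0x0) (nat_lit 0x200030000800000002000100008000000000000000000000000000000) := T_11 (nat_lit 208) (nat_lit 191) (nat_lit 5) (nat_lit 5) (nat_lit 8) L60617 (by decide +kernel)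
theorem L60619 : W_11 (nat_lit 5) (nat_lit 0x2000280004001200090000000000000000000000000000000) (nat_lit 0x0) (nat_lit 0x200070001800000002000100008000000000000000000000000000000) := T_11 (nat_lit 192) (nat_lit 210) (nat_lit 7) (nat_lit 5) (nat_lit 8) L60618 (by decide +kernel)
theorem L60620 : W_11 (nat_lit 6) (nat_lit 0x280004001200090000000000000000000000000000000) (nat_lit 0x0) (nat_lit 0x200070003800100002000100008000000000000000000000000000000) := T_11 (nat_lit 193) (nat_lit 176) (nat_lit 7) (nat_lit 5) (nat_lit 7) L60619 (by decide +kernel)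
theorem L60621 : W_11 (nat_lit 2) (nat_lit 0x40001800280004001300090000000000000000000000000000000) (nat_lit 0x0) (nat_lit 0x800020000000000002000000000000000000000000000000000000000) := D_11 (nat_lit 209) (nat_lit 157) (nat_lit 227) (nat_lit 4) (nat_lit 5) (nat_lit 12) (nat_lit 7) (nat_lit 5) (nat_lit 9) (by decide +kernel)
theorem L60622 : W_11 (nat_lit 3) (nat_lit 0x1800280004001300090000000000000000000000000000000) (nat_lit 0x0) (nat_lit 0x800060002000000002000000000000000000000000000000000000000) := T_11 (nat_lit 210) (nat_lit 193) (nat_lit 7) (nat_lit 5) (nat_lit 8) L60621 (by decide +kernel)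
theorem L60623 : W_11 (nat_lit 4) (nat_lit 0x1800280004001200090000000000000000000000000000000) (nat_lit 0x0) (nat_lit 0x800060002000000002000100008000000000000000000000000000000) := T_11 (nat_lit 140) (nat_lit 123) (nat_lit 4) (nat_lit 5) (nat_lit 11) L60622 (by decide +kernel)
theorem L60624 : W_11 (nat_lit 5) (nat_lit 0x800280004001200090000000000000000000000000000000) (nat_lit 0x0) (nat_lit 0x800070003000000002000100008000000000000000000000000000000) := T_11 (nat_lit 192) (nat_lit 208) (nat_lit 5) (nat_lit 5) (nat_lit 8) L60623 (by decide +kernel)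
theorem L60625 : W_11 (nat_lit 6) (nat_lit 0x280004001200090000000000000000000000000000000) (nat_lit 0x0) (nat_lit 0x800070003800040002000100008000000000000000000000000000000) := T_11 (nat_lit 191) (nat_lit 174) (nat_lit 5) (nat_lit 5) (nat_lit 7) L60624 (by decide +kernel)
theorem L60626 : W_11 (nat_lit 2) (nat_lit 0x40002c0006001a00090000000000000000000000000000000) (nat_lit 0x0) (nat_lit 0x8000100001000000000000000000000000000000000000000) := D_11 (nat_lit 176) (nat_lit 195) (nat_lit 156) (nat_lit 3) (nat_lit 4) (nat_lit 10) (nat_lit 0) (nat_lit 7) (nat_lit 10) (by decide +kernel)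
theorem L60627 : W_11 (nat_lit 3) (nat_lit 0x2c0006001a00090000000000000000000000000000000) (nat_lit 0x0) (nat_lit 0xc000100011000000000000000000000000000000000000000) := T_11 (nat_lit 194) (nat_lit 160) (nat_lit 6) (nat_lit 7) (nat_lit 11) L60626 (by decide +kernel)
theorem L60628 : W_11 (nat_lit 4) (nat_lit 0x2c0006001200090000000000000000000000000000000) (nat_lit 0x0) (nat_lit 0xc000100011000c00000000000000000000000000000000000) := T_11 (nat_lit 143) (nat_lit 142) (nat_lit 1) (nat_lit 8) (nat_lit 8) L60627 (by decide +kernel)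
theorem L60629 : W_11 (nat_lit 5) (nat_lit 0x2c0004001200090000000000000000000000000000000) (nat_lit 0x0) (nat_lit 0xc000100013000c00000000800000000000000000000000000) := T_11 (nat_lit 157) (nat_lit 107) (nat_lit 5) (nat_lit 5) (nat_lit 6) L60628 (by decide +kernel)
theorem L60630 : W_11 (nat_lit 6) (nat_lit 0x280004001200090000000000000000000000000000000) (nat_lit 0x0) (nat_lit 0xc800140013000c00000000800000000000000000000000000) := T_11 (nat_lit 174) (nat_lit 191) (nat_lit 5) (nat_lit 5) (nat_lit 7) L60629 (by decide +kernel)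
theorem L60631 : W_11 (nat_lit 2) (nat_lit 0x30000b4007000280014001300090000000000000000000000000000000) (nat_lit 0x0) (nat_lit 0x10000c00000000000000000000000000000000000000000000000000000000) := D_11 (nat_lit 227) (nat_lit 244) (nat_lit 226) (nat_lit 5) (nat_lit 7) (nat_lit 10) (nat_lit 0) (nat_lit 8) (nat_lit 13) (by decide +kernel)
theorem L60632 : W_11 (nat_lit 3) (nat_lit 0x20000b4007000280014001300090000000000000000000000000000000) (nat_lit 0x0) (nat_lit 0x50001c00000000000000000000000000000000000000000000000000000000) := T_11 (nat_lit 228) (nat_lit 246) (nat_lit 7) (nat_lit 7) (nat_lit 10) L60631 (by decide +kernel)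
theorem L60633 : W_11 (nat_lit 4) (nat_lit 0xb4007000280014001300090000000000000000000000000000000) (nat_lit 0x0) (nat_lit 0x50003c00100000000000000000000000000000000000000000000000000000) := T_11 (nat_lit 229) (nat_lit 212) (nat_lit 7) (nat_lit 7) (nat_lit 9) L60632 (by decide +kernel)
theorem L60634 : W_11 (nat_lit 5) (nat_lit 0x34007000280014001300090000000000000000000000000000000) (nat_lit 0x0) (nat_lit 0x50003c00180000000000020000000000000000000000000000000000000000) := T_11 (nat_lit 211) (nat_lit 161) (nat_lit 6) (nat_lit 7) (nat_lit 12) L60633 (by decide +kernel)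
theorem L60635 : W_11 (nat_lit 6) (nat_lit 0x34007000280004001300090000000000000000000000000000000) (nat_lit 0x0) (nat_lit 0x50003c00180000000000030000800000000000000000000000000000000000) := T_11 (nat_lit 160) (nat_lit 143) (nat_lit 6) (nat_lit 7) (nat_lit 11) L60634 (by decide +kernel)
theorem L60636 : W_11 (nat_lit 7) (nat_lit 0x34003000280004001300090000000000000000000000000000000) (nat_lit 0x0) (nat_lit 0x50003c0018000c000000030000800000000000000000000000000000000000) := T_11 (nat_lit 194) (nat_lit 195) (nat_lit 1) (nat_lit 8) (nat_lit 11) L60635 (by decide +kernel)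
theorem L60637 : W_11 (nat_lit 8) (nat_lit 0x30003000280004001300090000000000000000000000000000000) (nat_lit 0x0) (nat_lit 0x50003c0018c00c000000030000800000000000000000000000000000000000) := T_11 (nat_lit 206) (nat_lit 207) (nat_lit 2) (nat_lit 2) (nat_lit 12) L60636 (by decide +kernel)
theorem L60638 : W_11 (nat_lit 9) (nat_lit 0x20003000280004001300090000000000000000000000000000000) (nat_lit 0x0) (nat_lit 0x50003e0019c00c000000030000800000000000000000000000000000000000) := T_11 (nat_lit 208) (nat_lit 225) (nat_lit 5) (nat_lit 5) (nat_lit 9) L60637 (by decide +kernel)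
theorem L60639 : W_11 (nat_lit 10) (nat_lit 0x3000280004001300090000000000000000000000000000000) (nat_lit 0x0) (nat_lit 0x50003e001bc00c000000032000800000000000000000000000000000000000) := T_11 (nat_lit 209) (nat_lit 157) (nat_lit 4) (nat_lit 5) (nat_lit 12) L60638 (by decide +kernel)
theorem L60640 : W_11 (nat_lit 11) (nat_lit 0x3000280004001200090000000000000000000000000000000) (nat_lit 0x0) (nat_lit 0x50003e001bc00c000000032000900008000000000000000000000000000000) := T_11 (nat_lit 140) (nat_lit 123) (nat_lit 4) (nat_lit 5) (nat_lit 11) L60639 (by decide +kernel)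
theorem L60641 : W_11 (nat_lit 12) (nat_lit 0x2000280004001200090000000000000000000000000000000) (nat_lit 0x0) (nat_lit 0x50003e001fc00d000000032000900008000000000000000000000000000000) := T_11 (nat_lit 192) (nat_lit 210) (nat_lit 7) (nat_lit 5) (nat_lit 8) L60640 (by decide +kernel)
theorem L60642 : W_11 (nat_lit 13) (nat_lit 0x280004001200090000000000000000000000000000000) (nat_lit 0x0) (nat_lit 0x50003e001fc00f000100032000900008000000000000000000000000000000) := T_11 (nat_lit 193) (nat_lit 176) (nat_lit 7) (nat_lit 5) (nat_lit 7) L60641 (by decide +kernel)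
theorem L60643 : W_11 (nat_lit 14) (nat_lit 0x200004001200090000000000000000000000000000000) (nat_lit 0x0) (nat_lit 0x50003e001fc00f8001c0033000d00008000800000000000000000000000000) := Q_11 (nat_lit 175) (C_11 L32216 (C_11 L60560 (C_11 L60620 (C_11 L60625 (C_11 L60630 (C_11 L60642 N_11)))))) (by decide +kernel)
theorem L60644 : W_11 (nat_lit 6) (nat_lit 0x280004001a00098000000000000000000000000000000) (nat_lit 0x0) (nat_lit 0x20007000f800100010000000000000000000000000000000000000000) := T_11 (nat_lit 193) (nat_lit 176) (nat_lit 7) (nat_lit 5) (nat_lit 7) L40151 (by decide +kernel)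
theorem L60645 : W_11 (nat_lit 7) (nat_lit 0x280004001200098000000000000000000000000000000) (nat_lit 0x0) (nat_lit 0x20007000f800100010000c00000000000000000000000000000000000) := T_11 (nat_lit 143) (nat_lit 142) (nat_lit 0) (nat_lit 8) (nat_lit 8) L60644 (by decide +kernel)
theorem L60646 : W_11 (nat_lit 8) (nat_lit 0x280004001200090000000000000000000000000000000) (nat_lit 0x0) (nat_lit 0x20007000f800100010000c00008000400000000000000000000000000) := T_11 (nat_lit 123) (nat_lit 106) (nat_lit 4) (nat_lit 5) (nat_lit 10) L60645 (by decide +kernel)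
theorem L60647 : W_11 (nat_lit 2) (nat_lit 0x2c0004001200090000800000000000000000000000000) (nat_lit 0x0) (nat_lit 0x8000400020000000000000000000000) := D_11 (nat_lit 106) (nat_lit 89) (nat_lit 123) (nat_lit 4) (nat_lit 5) (nat_lit 9) (nat_lit 4) (nat_lit 5) (nat_lit 10) (by decide +kernel)
theorem L60648 : W_11 (nat_lit 3) (nat_lit 0x2c0004001200090000000000000000000000000000000) (nat_lit 0x0) (nat_lit 0x2000000008000c00020000000000000000000000) := T_11 (nat_lit 107) (nat_lit 157) (nat_lit 5) (nat_lit 5) (nat_lit 6) L60647 (by decide +kernel)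
theorem L60649 : W_11 (nat_lit 4) (nat_lit 0x280004001200090000000000000000000000000000000) (nat_lit 0x0) (nat_lit 0x800040002000000008000c00020000000000000000000000) := T_11 (nat_lit 174) (nat_lit 191) (nat_lit 5) (nat_lit 5) (nat_lit 7) L60648 (by decide +kernel)
theorem L60650 : W_11 (nat_lit 2) (nat_lit 0x40003c0004001a00098000000000000000000000000000000) (nat_lit 0x0) (nat_lit 0x3000000000000800000000000000000000000000) := D_11 (nat_lit 157) (nat_lit 156) (nat_lit 107) (nat_lit 0) (nat_lit 7) (nat_lit 10) (nat_lit 5) (nat_lit 5) (nat_lit 6) (by decide +kernel)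
theorem L60651 : W_11 (nat_lit 3) (nat_lit 0x4000380004001a00098000000000000000000000000000000) (nat_lit 0x0) (nat_lit 0x8000040003000000000000800000000000000000000000000) := T_11 (nat_lit 174) (nat_lit 195) (nat_lit 3) (nat_lit 4) (nat_lit 10) L60650 (by decide +kernel)
theorem L60652 : W_11 (nat_lit 4) (nat_lit 0x380004001a00098000000000000000000000000000000) (nat_lit 0x0) (nat_lit 0xc000040013000000000000800000000000000000000000000) := T_11 (nat_lit 194) (nat_lit 160) (nat_lit 6) (nat_lit 7) (nat_lit 11) L60651 (by decide +kernel)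
theorem L60653 : W_11 (nat_lit 5) (nat_lit 0x280004001a00098000000000000000000000000000000) (nat_lit 0x0) (nat_lit 0xe000140013000000000000800000000000000000000000000) := T_11 (nat_lit 176) (nat_lit 193) (nat_lit 7) (nat_lit 5) (nat_lit 7) L60652 (by decide +kernel)
theorem L60654 : W_11 (nat_lit 6) (nat_lit 0x280004001200098000000000000000000000000000000) (nat_lit 0x0) (nat_lit 0xe000140013000c00000000800000000000000000000000000) := T_11 (nat_lit 143) (nat_lit 142) (nat_lit 0) (nat_lit 8) (nat_lit 8) L60653 (by decide +kernel)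
theorem L60655 : W_11 (nat_lit 7) (nat_lit 0x280004001200090000000000000000000000000000000) (nat_lit 0x0) (nat_lit 0xe000140013000c00008000c00000000000000000000000000) := T_11 (nat_lit 123) (nat_lit 106) (nat_lit 4) (nat_lit 5) (nat_lit 10) L60654 (by decide +kernel)
theorem L60656 : W_11 (nat_lit 9) (nat_lit 0x200004001200090000000000000000000000000000000) (nat_lit 0x0) (nat_lit 0x20007000f8001c0033000c00008000c00020000000000000000000000) := Q_11 (nat_lit 175) (C_11 L32216 (C_11 L60630 (C_11 L60560 (C_11 L60646 (C_11 L60649 (C_11 L60655 N_11)))))) (by decide +kernel)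
theorem L60657 : W_11 (nat_lit 4) (nat_lit 0x2c0004001200090003c00100000000000000000000000) (nat_lit 0x0) (nat_lit 0xe000100030000800000000000000000000000000000000000) := T_11 (nat_lit 176) (nat_lit 193) (nat_lit 7) (nat_lit 5) (nat_lit 7) L39722 (by decide +kernel)
theorem L60658 : W_11 (nat_lit 5) (nat_lit 0x2c0004001200090003c00000000000000000000000000) (nat_lit 0x0) (nat_lit 0xe000100030000800000000000300000000000000000000000) := T_11 (nat_lit 92) (nat_lit 93) (nat_lit 2) (nat_lit 4) (nat_lit 6) L60657 (by decide +kernel)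
theorem L60659 : W_11 (nat_lit 6) (nat_lit 0x2c0004001200090001c00000000000000000000000000) (nat_lit 0x0) (nat_lit 0xe000100030000800040002000300000000000000000000000) := T_11 (nat_lit 109) (nat_lit 126) (nat_lit 3) (nat_lit 4) (nat_lit 6) L60658 (by decide +kernel)
theorem L60660 : W_11 (nat_lit 7) (nat_lit 0x2c0004001200090000c00000000000000000000000000) (nat_lit 0x0) (nat_lit 0xe000100030000800040003000380000000000000000000000) := T_11 (nat_lit 108) (nat_lit 91) (nat_lit 6) (nat_lit 5) (nat_lit 9) L60659 (by decide +kernel)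
theorem L60661 : W_11 (nat_lit 8) (nat_lit 0x240004001200090000c00000000000000000000000000) (nat_lit 0x0) (nat_lit 0xe800180030000800040003000380000000000000000000000) := T_11 (nat_lit 175) (nat_lit 191) (nat_lit 5) (nat_lit 5) (nat_lit 7) L60660 (by decide +kernel)
theorem L60662 : W_11 (nat_lit 9) (nat_lit 0x240004001200090000800000000000000000000000000) (nat_lit 0x0) (nat_lit 0xe8001800300008000400034003a0000000000000000000000) := T_11 (nat_lit 106) (nat_lit 89) (nat_lit 4) (nat_lit 5) (nat_lit 9) L60661 (by decide +kernel)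
theorem L60663 : W_11 (nat_lit 10) (nat_lit 0x200004001200090000800000000000000000000000000) (nat_lit 0x0) (nat_lit 0xe8001c00320008000400034003a0000000000000000000000) := T_11 (nat_lit 174) (nat_lit 157) (nat_lit 5) (nat_lit 5) (nat_lit 6) L60662 (by decide +kernel)
theorem L60664 : W_11 (nat_lit 11) (nat_lit 0x200004001200090000000000000000000000000000000) (nat_lit 0x0) (nat_lit 0xe8001c0032000900040003c003e0005000000000000000000) := Q_11 (nat_lit 107) (C_11 L39909 (C_11 L60573 (C_11 L60576 (C_11 L60663 N_11)))) (by decide +kernel)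
theorem L60665 : W_11 (nat_lit 15) (nat_lit 0x200000001200090000000000000000000000000000000) (nat_lit 0x0) (nat_lit 0x50003e001fc00f8001c0037800dc004e003e003f8007000080000000000000) := Q_11 (nat_lit 158) (C_11 L60561 (C_11 L60588 (C_11 L60594 (C_11 L60615 (C_11 L60643 (C_11 L60656 (C_11 L60664 N_11))))))) (by decide +kernel)
theorem L60666 : W_11 (nat_lit 7) (nat_lit 0x200004001200090000000000000000000000000000000) (nat_lit 0x0) (nat_lit 0x8000700038001c0003000100008000c00020000000000000000000000) := Q_11 (nat_lit 175) (C_11 L60649 (C_11 L60625 (C_11 L32077 (C_11 L60560 N_11)))) (by decide +kernel)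
theorem L60667 : W_11 (nat_lit 7) (nat_lit 0x200004001200090000000000000000000000000000000) (nat_lit 0x0) (nat_lit 0x40002000100068003c000e0007000080000000000000) := Q_11 (nat_lit 107) (C_11 L60599 (C_11 L60573 (C_11 L39576 (C_11 L39909 (C_11 L60576 N_11))))) (by decide +kernel)
theorem L60668 : W_11 (nat_lit 2) (nat_lit 0x2800040012000f0000000000000000000000000000000) (nat_lit 0x0) (nat_lit 0x8000c00000000000000000000000000) := D_11 (nat_lit 106) (nat_lit 107) (nat_lit 123) (nat_lit 0) (nat_lit 8) (nat_lit 7) (nat_lit 4) (nat_lit 5) (nat_lit 10) (by decide +kernel)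
theorem L60669 : W_11 (nat_lit 3) (nat_lit 0x2800040012000b0000000000000000000000000000000) (nat_lit 0x0) (nat_lit 0x100048000c00000000000000000000000000) := T_11 (nat_lit 126) (nat_lit 140) (nat_lit 1) (nat_lit 8) (nat_lit 7) L60668 (by decide +kernel)
theorem L60670 : W_11 (nat_lit 4) (nat_lit 0x280004001200090000000000000000000000000000000) (nat_lit 0x0) (nat_lit 0x100068001c00000000000000000000000000) := T_11 (nat_lit 125) (nat_lit 108) (nat_lit 6) (nat_lit 5) (nat_lit 10) L60669 (by decide +kernel)
theorem L60671 : W_11 (nat_lit 5) (nat_lit 0x280004001200090000000000000000000000000000000) (nat_lit 0x0) (nat_lit 0x3000100000000500160001000000000000000000000000000) := T_11 (nat_lit 176) (nat_lit 193) (nat_lit 7) (nat_lit 5) (nat_lit 7) L13775 (by decide +kernel)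
theorem L60672 : W_11 (nat_lit 2) (nat_lit 0x10002800040012000b8000000000000000000000000000000) (nat_lit 0x0) (nat_lit 0x10000800040000000000000000000000000000000000000000000) := D_11 (nat_lit 191) (nat_lit 208) (nat_lit 174) (nat_lit 5) (nat_lit 5) (nat_lit 8) (nat_lit 5) (nat_lit 5) (nat_lit 7) (by decide +kernel)
theorem L60673 : W_11 (nat_lit 3) (nat_lit 0x2800040012000b8000000000000000000000000000000) (nat_lit 0x0) (nat_lit 0x10001800040000000400000000000000000000000000000000000) := T_11 (nat_lit 192) (nat_lit 142) (nat_lit 6) (nat_lit 5) (nat_lit 11) L60672 (by decide +kernel)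
theorem L60674 : W_11 (nat_lit 4) (nat_lit 0x2800040012000b0000000000000000000000000000000) (nat_lit 0x0) (nat_lit 0x10001800040000000400008000400000000000000000000000000) := T_11 (nat_lit 123) (nat_lit 106) (nat_lit 4) (nat_lit 5) (nat_lit 10) L60673 (by decide +kernel)
theorem L60675 : W_11 (nat_lit 5) (nat_lit 0x280004001200090000000000000000000000000000000) (nat_lit 0x0) (nat_lit 0x10001800040000000400028001400000000000000000000000000) := T_11 (nat_lit 125) (nat_lit 108) (nat_lit 6) (nat_lit 5) (nat_lit 10) L60674 (by decide +kernel)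
theorem L60676 : W_11 (nat_lit 6) (nat_lit 0x200004001200090000000000000000000000000000000) (nat_lit 0x0) (nat_lit 0x500038001c0000000500168001c00000000000000000000000000) := Q_11 (nat_lit 175) (C_11 L32077 (C_11 L33213 (C_11 L60670 (C_11 L60671 (C_11 L60675 N_11))))) (by decide +kernel)
theorem L60677 : W_11 (nat_lit 2) (nat_lit 0x40003c00150016800fc000200000000000000000000000000) (nat_lit 0x0) (nat_lit 0x30000800000000000000000000000000000000000000) := D_11 (nat_lit 155) (nat_lit 172) (nat_lit 173) (nat_lit 5) (nat_lit 3) (nat_lit 6) (nat_lit 0) (nat_lit 6) (nat_lit 10) (by decide +kernel)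
theorem L60678 : W_11 (nat_lit 3) (nat_lit 0x40003c00140016800fc000200000000000000000000000000) (nat_lit 0x0) (nat_lit 0x30003800000000000000000000000000000000000000) := T_11 (nat_lit 156) (nat_lit 157) (nat_lit 0) (nat_lit 7) (nat_lit 10) L60677 (by decide +kernel)
theorem L60679 : W_11 (nat_lit 4) (nat_lit 0x40003c00040016800fc000200000000000000000000000000) (nat_lit 0x0) (nat_lit 0x30033800000000000000000000000000000000000000) := T_11 (nat_lit 160) (nat_lit 161) (nat_lit 2) (nat_lit 4) (nat_lit 10) L60678 (by decide +kernel)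
theorem L60680 : W_11 (nat_lit 5) (nat_lit 0x3c00040016800fc000200000000000000000000000000) (nat_lit 0x0) (nat_lit 0xc000030033800000000000000000000000000000000000000) := T_11 (nat_lit 194) (nat_lit 195) (nat_lit 3) (nat_lit 4) (nat_lit 10) L60679 (by decide +kernel)
theorem L60681 : W_11 (nat_lit 6) (nat_lit 0x3800040016800fc000200000000000000000000000000) (nat_lit 0x0) (nat_lit 0xc800070033800000000000000000000000000000000000000) := T_11 (nat_lit 174) (nat_lit 191) (nat_lit 5) (nat_lit 5) (nat_lit 7) L60680 (by decide +kernel)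
theorem L60682 : W_11 (nat_lit 7) (nat_lit 0x3800040016800fc000000000000000000000000000000) (nat_lit 0x0) (nat_lit 0xc800070033800000000000300000000000000000000000000) := T_11 (nat_lit 105) (nat_lit 104) (nat_lit 0) (nat_lit 6) (nat_lit 7) L60681 (by decide +kernel)
theorem L60683 : W_11 (nat_lit 8) (nat_lit 0x3800040016000fc000000000000000000000000000000) (nat_lit 0x0) (nat_lit 0xc8000700338000c0000000300000000000000000000000000) := T_11 (nat_lit 139) (nat_lit 138) (nat_lit 1) (nat_lit 6) (nat_lit 7) L60682 (by decide +kernel)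
theorem L60684 : W_11 (nat_lit 9) (nat_lit 0x3800040016000f8000000000000000000000000000000) (nat_lit 0x0) (nat_lit 0xc8000700338000c0006000300000000000000000000000000) := T_11 (nat_lit 122) (nat_lit 121) (nat_lit 3) (nat_lit 2) (nat_lit 7) L60683 (by decide +kernel)
theorem L60685 : W_11 (nat_lit 10) (nat_lit 0x2800040016000f8000000000000000000000000000000) (nat_lit 0x0) (nat_lit 0xe8001700338000c0006000300000000000000000000000000) := T_11 (nat_lit 176) (nat_lit 193) (nat_lit 7) (nat_lit 5) (nat_lit 7) L60684 (by decide +kernel)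
theorem L60686 : W_11 (nat_lit 11) (nat_lit 0x2800040012000f8000000000000000000000000000000) (nat_lit 0x0) (nat_lit 0xe8001700338004c0106000300000000000000000000000000) := T_11 (nat_lit 142) (nat_lit 128) (nat_lit 1) (nat_lit 9) (nat_lit 7) L60685 (by decide +kernel)
theorem L60687 : W_11 (nat_lit 12) (nat_lit 0x2800040012000b8000000000000000000000000000000) (nat_lit 0x0) (nat_lit 0xe8001700338005c0146000300000000000000000000000000) := T_11 (nat_lit 126) (nat_lit 140) (nat_lit 1) (nat_lit 8) (nat_lit 7) L60686 (by decide +kernel)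
theorem L60688 : W_11 (nat_lit 13) (nat_lit 0x280004001200098000000000000000000000000000000) (nat_lit 0x0) (nat_lit 0xe8001700338005c0166001300000000000000000000000000) := T_11 (nat_lit 125) (nat_lit 108) (nat_lit 6) (nat_lit 5) (nat_lit 10) L60687 (by decide +kernel)
theorem L60689 : W_11 (nat_lit 14) (nat_lit 0x280004001200090000000000000000000000000000000) (nat_lit 0x0) (nat_lit 0xe8001700338005c016e001700000000000000000000000000) := T_11 (nat_lit 123) (nat_lit 106) (nat_lit 4) (nat_lit 5) (nat_lit 10) L60688 (by decide +kernel)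
theorem L60690 : W_11 (nat_lit 15) (nat_lit 0x200004001200090000000000000000000000000000000) (nat_lit 0x0) (nat_lit 0x80007000f8001f00338005c016e001700000000000000000000000000) := Q_11 (nat_lit 175) (C_11 L33213 (C_11 L60675 (C_11 L60625 (C_11 L60689 (C_11 L60671 N_11))))) (by decide +kernel)
theorem L60691 : W_11 (nat_lit 2) (nat_lit 0x20002800040012000b8000000000000000000000000000000) (nat_lit 0x0) (nat_lit 0x40001000000000000400000000000000000000000000000000000) := D_11 (nat_lit 192) (nat_lit 210) (nat_lit 142) (nat_lit 7) (nat_lit 5) (nat_lit 8) (nat_lit 6) (nat_lit 5) (nat_lit 11) (by decide +kernel)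
theorem L60692 : W_11 (nat_lit 3) (nat_lit 0x2000280004001200098000000000000000000000000000000) (nat_lit 0x0) (nat_lit 0x40001000000000000400020001000000000000000000000000000) := T_11 (nat_lit 125) (nat_lit 108) (nat_lit 6) (nat_lit 5) (nat_lit 10) L60691 (by decide +kernel)
theorem L60693 : W_11 (nat_lit 4) (nat_lit 0x280004001200098000000000000000000000000000000) (nat_lit 0x0) (nat_lit 0x40003000100000000400020001000000000000000000000000000) := T_11 (nat_lit 193) (nat_lit 176) (nat_lit 7) (nat_lit 5) (nat_lit 7) L60692 (by decide +kernel)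
theorem L60694 : W_11 (nat_lit 5) (nat_lit 0x280004001200090000000000000000000000000000000) (nat_lit 0x0) (nat_lit 0x40003000100000000400028001400000000000000000000000000) := T_11 (nat_lit 123) (nat_lit 106) (nat_lit 4) (nat_lit 5) (nat_lit 10) L60693 (by decide +kernel)
theorem L60695 : W_11 (nat_lit 7) (nat_lit 0x200004001200090000000000000000000000000000000) (nat_lit 0x0) (nat_lit 0x200070003800180002000500168001c00000000000000000000000000) := Q_11 (nat_lit 175) (C_11 L60670 (C_11 L60671 (C_11 L60620 (C_11 L60694 N_11)))) (by decide +kernel)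
theorem L60696 : W_11 (nat_lit 7) (nat_lit 0x200004001200090000000000000000000000000000000) (nat_lit 0x0) (nat_lit 0x8000700038001c0003000500168001800080000000000000000000000) := Q_11 (nat_lit 175) (C_11 L60625 (C_11 L60671 (C_11 L60560 (C_11 L33451 N_11)))) (by decide +kernel)
theorem L60697 : W_11 (nat_lit 6) (nat_lit 0x200004001200090000000000000000000000000000000) (nat_lit 0x0) (nat_lit 0x400038001c0002000400028001c000a0000000000000000000000) := Q_11 (nat_lit 175) (C_11 L33451 (C_11 L60694 (C_11 L60649 N_11))) (by decide +kernel)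
theorem L60698 : W_11 (nat_lit 5) (nat_lit 0x200004001200090000000000000000000000000000000) (nat_lit 0x0) (nat_lit 0x40002000100060003c000e0005000000000000000000) := Q_11 (nat_lit 107) (C_11 L39576 (C_11 L39909 (C_11 L60576 N_11))) (by decide +kernel)
theorem L60699 : W_11 (nat_lit 16) (nat_lit 0x200000001200090000000000000000000000000000000) (nat_lit 0x0) (nat_lit 0xa0007000f8001f00378005c016e003f000e0007000080000000000000) := Q_11 (nat_lit 158) (C_11 L60666 (C_11 L60667 (C_11 L60676 (C_11 L60690 (C_11 L60695 (C_11 L60696 (C_11 L60697 (C_11 L60698 N_11)))))))) (by decide +kernel)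
theorem L60700 : W_11 (nat_lit 2) (nat_lit 0x200004001200098001c00000000000000000000000000) (nat_lit 0x0) (nat_lit 0x6002000000000000000000000000000) := D_11 (nat_lit 122) (nat_lit 121) (nat_lit 109) (nat_lit 2) (nat_lit 2) (nat_lit 7) (nat_lit 1) (nat_lit 7) (nat_lit 6) (by decide +kernel)
theorem L60701 : W_11 (nat_lit 3) (nat_lit 0x200004001200098000c00000000000000000000000000) (nat_lit 0x0) (nat_lit 0x6003000080000000000000000000000) := T_11 (nat_lit 108) (nat_lit 91) (nat_lit 6) (nat_lit 5) (nat_lit 9) L60700 (by decide +kernel)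
theorem L60702 : W_11 (nat_lit 4) (nat_lit 0x200004001200098000800000000000000000000000000) (nat_lit 0x0) (nat_lit 0x60034000a0000000000000000000000) := T_11 (nat_lit 106) (nat_lit 89) (nat_lit 4) (nat_lit 5) (nat_lit 9) L60701 (by decide +kernel)
theorem L60703 : W_11 (nat_lit 2) (nat_lit 0x4000200000001b80098000400030000000000000000000000) (nat_lit 0x0) (nat_lit 0x60020000000000000000000000000000000) := D_11 (nat_lit 138) (nat_lit 125) (nat_lit 137) (nat_lit 2) (nat_lit 2) (nat_lit 8) (nat_lit 2) (nat_lit 1) (nat_lit 8) (by decide +kernel)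
theorem L60704 : W_11 (nat_lit 3) (nat_lit 0x4000200000001b00098000400030000000000000000000000) (nat_lit 0x0) (nat_lit 0x10000e0020000000000000000000000000000000) := T_11 (nat_lit 139) (nat_lit 156) (nat_lit 5) (nat_lit 4) (nat_lit 5) L60703 (by decide +kernel)
theorem L60705 : W_11 (nat_lit 4) (nat_lit 0x4000200000001b00098000400020000000000000000000000) (nat_lit 0x0) (nat_lit 0x10000e0020000000010000800000000000000000) := T_11 (nat_lit 88) (nat_lit 71) (nat_lit 4) (nat_lit 4) (nat_lit 8) L60704 (by decide +kernel)
theorem L60706 : W_11 (nat_lit 5) (nat_lit 0x200000001b00098000400020000000000000000000000) (nat_lit 0x0) (nat_lit 0x40000000110000e0020000000010000800000000000000000) := T_11 (nat_lit 194) (nat_lit 160) (nat_lit 6) (nat_lit 7) (nat_lit 11) L60705 (by decide +kernel)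
theorem L60707 : W_11 (nat_lit 6) (nat_lit 0x200000001300098000400020000000000000000000000) (nat_lit 0x0) (nat_lit 0x4000000011000ce0020000000010000800000000000000000) := T_11 (nat_lit 143) (nat_lit 142) (nat_lit 0) (nat_lit 8) (nat_lit 8) L60706 (by decide +kernel)
theorem L60708 : W_11 (nat_lit 7) (nat_lit 0x200000001300098000400000000000000000000000000) (nat_lit 0x0) (nat_lit 0x4000000011000ce0020000000030001800000000000000000) := T_11 (nat_lit 89) (nat_lit 72) (nat_lit 7) (nat_lit 4) (nat_lit 4) L60707 (by decide +kernel)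
theorem L60709 : W_11 (nat_lit 2) (nat_lit 0x20000000134009e000100000000000000000000000000) (nat_lit 0x0) (nat_lit 0x80020000200000000000000000000000000) := D_11 (nat_lit 125) (nat_lit 139) (nat_lit 105) (nat_lit 2) (nat_lit 2) (nat_lit 8) (nat_lit 0) (nat_lit 6) (nat_lit 7) (by decide +kernel)
theorem L60710 : W_11 (nat_lit 3) (nat_lit 0x20000000134009e000000000000000000000000000000) (nat_lit 0x0) (nat_lit 0x80020000380000000000000000000000000) := T_11 (nat_lit 104) (nat_lit 103) (nat_lit 0) (nat_lit 5) (nat_lit 7) L60709 (by decide +kernel)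
theorem L60711 : W_11 (nat_lit 4) (nat_lit 0x20000000130009e000000000000000000000000000000) (nat_lit 0x0) (nat_lit 0xe0020000380000000000000000000000000) := T_11 (nat_lit 138) (nat_lit 137) (nat_lit 1) (nat_lit 5) (nat_lit 7) L60710 (by decide +kernel)
theorem L60712 : W_11 (nat_lit 5) (nat_lit 0x20000000130009c000000000000000000000000000000) (nat_lit 0x0) (nat_lit 0xe0023000380000000000000000000000000) := T_11 (nat_lit 121) (nat_lit 120) (nat_lit 3) (nat_lit 1) (nat_lit 7) L60711 (by decide +kernel)
theorem L60713 : W_11 (nat_lit 2) (nat_lit 0x200000001300098000400000000000000000000000000) (nat_lit 0x0) (nat_lit 0x80004000000000000000020000000000000000000000) := D_11 (nat_lit 158) (nat_lit 175) (nat_lit 89) (nat_lit 4) (nat_lit 5) (nat_lit 10) (nat_lit 7) (nat_lit 4) (nat_lit 5) (by decide +kernel)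
theorem L60714 : W_11 (nat_lit 6) (nat_lit 0x200000001300098000000000000000000000000000000) (nat_lit 0x0) (nat_lit 0x20001800ce0027000400020000000000000000000000) := Q_11 (nat_lit 139) (C_11 L60378 (C_11 L59921 (C_11 L59918 N_11))) (by decide +kernel)
theorem L60715 : W_11 (nat_lit 2) (nat_lit 0x27000100178009c000200000000000000000000000000) (nat_lit 0x0) (nat_lit 0x20000100008000000000000000000000) := D_11 (nat_lit 104) (nat_lit 87) (nat_lit 125) (nat_lit 4) (nat_lit 3) (nat_lit 9) (nat_lit 0) (nat_lit 6) (nat_lit 7) (by decide +kernel)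
theorem L60716 : W_11 (nat_lit 3) (nat_lit 0x27000100178009c000000000000000000000000000000) (nat_lit 0x0) (nat_lit 0x2000000020000300008000000000000000000000) := T_11 (nat_lit 105) (nat_lit 157) (nat_lit 7) (nat_lit 3) (nat_lit 6) L60715 (by decide +kernel)
theorem L60717 : W_11 (nat_lit 4) (nat_lit 0x23000100178009c000000000000000000000000000000) (nat_lit 0x0) (nat_lit 0x800040002000000020000300008000000000000000000000) := T_11 (nat_lit 174) (nat_lit 191) (nat_lit 7) (nat_lit 3) (nat_lit 7) L60716 (by decide +kernel)
theorem L60718 : W_11 (nat_lit 5) (nat_lit 0x22000100178009c000000000000000000000000000000) (nat_lit 0x0) (nat_lit 0xa00050002000000020000300008000000000000000000000) := T_11 (nat_lit 172) (nat_lit 189) (nat_lit 5) (nat_lit 3) (nat_lit 7) L60717 (by decide +kernel)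
theorem L60719 : W_11 (nat_lit 6) (nat_lit 0x20000100178009c000000000000000000000000000000) (nat_lit 0x0) (nat_lit 0xe00070002000000020000300008000000000000000000000) := T_11 (nat_lit 173) (nat_lit 190) (nat_lit 6) (nat_lit 3) (nat_lit 11) L60718 (by decide +kernel)
theorem L60720 : W_11 (nat_lit 7) (nat_lit 0x20000000178009c000000000000000000000000000000) (nat_lit 0x0) (nat_lit 0xe00070003800000020000300008000000000000000000000) := T_11 (nat_lit 156) (nat_lit 155) (nat_lit 1) (nat_lit 6) (nat_lit 8) L60719 (by decide +kernel)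
theorem L60721 : W_11 (nat_lit 8) (nat_lit 0x200000001780098000000000000000000000000000000) (nat_lit 0x0) (nat_lit 0xe00070003800000026000300008000000000000000000000) := T_11 (nat_lit 122) (nat_lit 121) (nat_lit 3) (nat_lit 2) (nat_lit 7) L60720 (by decide +kernel)
theorem L60722 : W_11 (nat_lit 9) (nat_lit 0x200000001380098000000000000000000000000000000) (nat_lit 0x0) (nat_lit 0xe00070003800c00026000300008000000000000000000000) := T_11 (nat_lit 142) (nat_lit 143) (nat_lit 0) (nat_lit 8) (nat_lit 8) L60721 (by decide +kernel)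
theorem L60723 : W_11 (nat_lit 10) (nat_lit 0x200000001300098000000000000000000000000000000) (nat_lit 0x0) (nat_lit 0xe00070003800ce0027000300008000000000000000000000) := Q_11 (nat_lit 139) (C_11 L60378 (C_11 L59921 (C_11 L60722 N_11))) (by decide +kernel)
theorem L60724 : W_11 (nat_lit 2) (nat_lit 0x5000280004001a00098000000000000000000000000000000) (nat_lit 0x0) (nat_lit 0x40002000100000000000000000000000000000000000000000000) := D_11 (nat_lit 193) (nat_lit 176) (nat_lit 210) (nat_lit 7) (nat_lit 5) (nat_lit 7) (nat_lit 7) (nat_lit 5) (nat_lit 8) (by decide +kernel)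
theorem L60725 : W_11 (nat_lit 3) (nat_lit 0x4000280004001a00098000000000000000000000000000000) (nat_lit 0x0) (nat_lit 0x40003000100000000100000000000000000000000000000000000) := T_11 (nat_lit 192) (nat_lit 140) (nat_lit 4) (nat_lit 5) (nat_lit 11) L60724 (by decide +kernel)
theorem L60726 : W_11 (nat_lit 2) (nat_lit 0x20000700170009a001e00000000000000000000000000) (nat_lit 0x0) (nat_lit 0x20000180000000000000000000000000) := D_11 (nat_lit 104) (nat_lit 125) (nat_lit 103) (nat_lit 3) (nat_lit 2) (nat_lit 6) (nat_lit 3) (nat_lit 1) (nat_lit 6) (by decide +kernel)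
theorem L60727 : W_11 (nat_lit 3) (nat_lit 0x20000700170009a001c00000000000000000000000000) (nat_lit 0x0) (nat_lit 0x20000380010000000000000000000000) := T_11 (nat_lit 105) (nat_lit 88) (nat_lit 4) (nat_lit 4) (nat_lit 9) L60726 (by decide +kernel)
theorem L60728 : W_11 (nat_lit 4) (nat_lit 0x20000700160009a001c00000000000000000000000000) (nat_lit 0x0) (nat_lit 0x20000000100020000380010000000000000000000000) := T_11 (nat_lit 140) (nat_lit 173) (nat_lit 5) (nat_lit 4) (nat_lit 6) L60727 (by decide +kernel)
theorem L60729 : W_11 (nat_lit 5) (nat_lit 0x20000600160009a001c00000000000000000000000000) (nat_lit 0x0) (nat_lit 0x20001800100020000380010000000000000000000000) := T_11 (nat_lit 156) (nat_lit 155) (nat_lit 2) (nat_lit 2) (nat_lit 9) L60728 (by decide +kernel)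
theorem L60730 : W_11 (nat_lit 6) (nat_lit 0x200006001600098001c00000000000000000000000000) (nat_lit 0x0) (nat_lit 0x20001800100026000380010000000000000000000000) := T_11 (nat_lit 121) (nat_lit 122) (nat_lit 3) (nat_lit 2) (nat_lit 7) L60729 (by decide +kernel)
theorem L60731 : W_11 (nat_lit 7) (nat_lit 0x200006001600098000c00000000000000000000000000) (nat_lit 0x0) (nat_lit 0x20001800100026001380090000000000000000000000) := T_11 (nat_lit 108) (nat_lit 91) (nat_lit 6) (nat_lit 5) (nat_lit 9) L60730 (by decide +kernel)
theorem L60732 : W_11 (nat_lit 8) (nat_lit 0x200006001200098000c00000000000000000000000000) (nat_lit 0x0) (nat_lit 0x20001800d00026001380090000000000000000000000) := T_11 (nat_lit 142) (nat_lit 143) (nat_lit 1) (nat_lit 8) (nat_lit 8) L60731 (by decide +kernel)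
theorem L60733 : W_11 (nat_lit 9) (nat_lit 0x200004001200098000c00000000000000000000000000) (nat_lit 0x0) (nat_lit 0x60003800d00026001380090000000000000000000000) := T_11 (nat_lit 157) (nat_lit 174) (nat_lit 5) (nat_lit 5) (nat_lit 6) L60732 (by decide +kernel)
theorem L60734 : W_11 (nat_lit 10) (nat_lit 0x200004001200098000800000000000000000000000000) (nat_lit 0x0) (nat_lit 0x60003800d000260017800b0000000000000000000000) := T_11 (nat_lit 106) (nat_lit 89) (nat_lit 4) (nat_lit 5) (nat_lit 9) L60733 (by decide +kernel)
theorem L60735 : W_11 (nat_lit 2) (nat_lit 0x4000200006001a800bc001a00010001800000000000000000) (nat_lit 0x0) (nat_lit 0x8000400020000000000000) := D_11 (nat_lit 70) (nat_lit 53) (nat_lit 87) (nat_lit 4) (nat_lit 3) (nat_lit 7) (nat_lit 4) (nat_lit 3) (nat_lit 8) (by decide +kernel)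
theorem L60736 : W_11 (nat_lit 3) (nat_lit 0x4000200006001a800bc001a00010001000000000000000000) (nat_lit 0x0) (nat_lit 0x8000c000a0000000000000) := T_11 (nat_lit 71) (nat_lit 55) (nat_lit 6) (nat_lit 3) (nat_lit 7) L60735 (by decide +kernel)
theorem L60737 : W_11 (nat_lit 4) (nat_lit 0x4000200006001a800bc001a00010000000000000000000000) (nat_lit 0x0) (nat_lit 0x28001c000a0000000000000) := T_11 (nat_lit 72) (nat_lit 89) (nat_lit 6) (nat_lit 3) (nat_lit 8) L60736 (by decide +kernel)
theorem L60738 : W_11 (nat_lit 5) (nat_lit 0x4000200006001a800bc001a00000000000000000000000000) (nat_lit 0x0) (nat_lit 0x100000000000038001c000a0000000000000) := T_11 (nat_lit 88) (nat_lit 140) (nat_lit 7) (nat_lit 3) (nat_lit 5) L60737 (by decide +kernel)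
theorem L60739 : W_11 (nat_lit 6) (nat_lit 0x4000200004001a800bc001a00000000000000000000000000) (nat_lit 0x0) (nat_lit 0x40002000100000000000038001c000a0000000000000) := T_11 (nat_lit 157) (nat_lit 174) (nat_lit 5) (nat_lit 5) (nat_lit 6) L60738 (by decide +kernel)
theorem L60740 : W_11 (nat_lit 7) (nat_lit 0x4000200004001a800bc001800000000000000000000000000) (nat_lit 0x0) (nat_lit 0x40002000100000000300038001c000a0000000000000) := T_11 (nat_lit 105) (nat_lit 104) (nat_lit 0) (nat_lit 6) (nat_lit 7) L60739 (by decide +kernel)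
theorem L60741 : W_11 (nat_lit 8) (nat_lit 0x4000200004001a000bc001800000000000000000000000000) (nat_lit 0x0) (nat_lit 0x400020001c0000000300038001c000a0000000000000) := T_11 (nat_lit 139) (nat_lit 138) (nat_lit 1) (nat_lit 6) (nat_lit 7) L60740 (by decide +kernel)
theorem L60742 : W_11 (nat_lit 9) (nat_lit 0x4000200004001a0009c001800000000000000000000000000) (nat_lit 0x0) (nat_lit 0x400020001c0020002300038001c000a0000000000000) := T_11 (nat_lit 125) (nat_lit 109) (nat_lit 2) (nat_lit 3) (nat_lit 7) L60741 (by decide +kernel)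
theorem L60743 : W_11 (nat_lit 10) (nat_lit 0x200004001a0009c001800000000000000000000000000) (nat_lit 0x0) (nat_lit 0x40000400120001c0020002300038001c000a0000000000000) := T_11 (nat_lit 194) (nat_lit 160) (nat_lit 6) (nat_lit 7) (nat_lit 11) L60742 (by decide +kernel)
theorem L60744 : W_11 (nat_lit 11) (nat_lit 0x200004001a00098001800000000000000000000000000) (nat_lit 0x0) (nat_lit 0x40000400120001c0026002300038001c000a0000000000000) := T_11 (nat_lit 122) (nat_lit 121) (nat_lit 2) (nat_lit 2) (nat_lit 7) L60743 (by decide +kernel)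
theorem L60745 : W_11 (nat_lit 12) (nat_lit 0x200004001a00098000800000000000000000000000000) (nat_lit 0x0) (nat_lit 0x40000400120001c00260033000b8001c000a0000000000000) := T_11 (nat_lit 108) (nat_lit 91) (nat_lit 6) (nat_lit 5) (nat_lit 9) L60744 (by decide +kernel)
theorem L60746 : W_11 (nat_lit 13) (nat_lit 0x200004001200098000800000000000000000000000000) (nat_lit 0x0) (nat_lit 0x4000040012000dc00260033000b8001c000a0000000000000) := T_11 (nat_lit 143) (nat_lit 142) (nat_lit 0) (nat_lit 8) (nat_lit 8) L60745 (by decide +kernel)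
theorem L60747 : W_11 (nat_lit 3) (nat_lit 0x10005000280004001a000b8000000000000000000000000000000) (nat_lit 0x0) (nat_lit 0x20006000a000000000000000000000000000000000000000000000000) := T_11 (nat_lit 193) (nat_lit 210) (nat_lit 7) (nat_lit 5) (nat_lit 8) L32967 (by decide +kernel)
theorem L60748 : W_11 (nat_lit 4) (nat_lit 0x5000280004001a000b8000000000000000000000000000000) (nat_lit 0x0) (nat_lit 0x20007000a800000000000000000000000000000000000000000000000) := T_11 (nat_lit 208) (nat_lit 191) (nat_lit 5) (nat_lit 5) (nat_lit 8) L60747 (by decide +kernel)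
theorem L60749 : W_11 (nat_lit 5) (nat_lit 0x4000280004001a000b8000000000000000000000000000000) (nat_lit 0x0) (nat_lit 0x20007000b800000000000100000000000000000000000000000000000) := T_11 (nat_lit 192) (nat_lit 140) (nat_lit 4) (nat_lit 5) (nat_lit 11) L60748 (by decide +kernel)
theorem L60750 : W_11 (nat_lit 6) (nat_lit 0x280004001a000b8000000000000000000000000000000) (nat_lit 0x0) (nat_lit 0x20007000f800000010000100000000000000000000000000000000000) := T_11 (nat_lit 194) (nat_lit 160) (nat_lit 6) (nat_lit 7) (nat_lit 11) L60749 (by decide +kernel)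
theorem L60751 : W_11 (nat_lit 7) (nat_lit 0x280004001a00098000000000000000000000000000000) (nat_lit 0x0) (nat_lit 0x20007000f800000010000100020001000000000000000000000000000) := T_11 (nat_lit 125) (nat_lit 108) (nat_lit 6) (nat_lit 5) (nat_lit 10) L60750 (by decide +kernel)
theorem L60752 : W_11 (nat_lit 8) (nat_lit 0x280004001200098000000000000000000000000000000) (nat_lit 0x0) (nat_lit 0x20007000f800000010000d00020001000000000000000000000000000) := T_11 (nat_lit 143) (nat_lit 142) (nat_lit 0) (nat_lit 8) (nat_lit 8) L60751 (by decide +kernel)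
theorem L60753 : W_11 (nat_lit 2) (nat_lit 0x10002800040012000b8000000000000000000000000000000) (nat_lit 0x0) (nat_lit 0x40002000100000000000000000000000000000000000000000000) := D_11 (nat_lit 193) (nat_lit 176) (nat_lit 210) (nat_lit 7) (nat_lit 5) (nat_lit 7) (nat_lit 7) (nat_lit 5) (nat_lit 8) (by decide +kernel)
theorem L60754 : W_11 (nat_lit 3) (nat_lit 0x2800040012000b8000000000000000000000000000000) (nat_lit 0x0) (nat_lit 0x40003000100000000100000000000000000000000000000000000) := T_11 (nat_lit 192) (nat_lit 140) (nat_lit 4) (nat_lit 5) (nat_lit 11) L60753 (by decide +kernel)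
theorem L60755 : W_11 (nat_lit 2) (nat_lit 0x200007001700098003e00100000000000000000000000) (nat_lit 0x0) (nat_lit 0x20000180000000000000000000000000) := D_11 (nat_lit 104) (nat_lit 125) (nat_lit 103) (nat_lit 3) (nat_lit 2) (nat_lit 6) (nat_lit 3) (nat_lit 1) (nat_lit 6) (by decide +kernel)
theorem L60756 : W_11 (nat_lit 3) (nat_lit 0x200007001700098003c00100000000000000000000000) (nat_lit 0x0) (nat_lit 0x20000380010000000000000000000000) := T_11 (nat_lit 105) (nat_lit 88) (nat_lit 4) (nat_lit 4) (nat_lit 9) L60755 (by decide +kernel)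
theorem L60757 : W_11 (nat_lit 4) (nat_lit 0x200007001600098003c00100000000000000000000000) (nat_lit 0x0) (nat_lit 0x20000000100020000380010000000000000000000000) := T_11 (nat_lit 140) (nat_lit 173) (nat_lit 5) (nat_lit 4) (nat_lit 6) L60756 (by decide +kernel)
theorem L60758 : W_11 (nat_lit 5) (nat_lit 0x200007001600098003c00000000000000000000000000) (nat_lit 0x0) (nat_lit 0x20000000100020000380310000000000000000000000) := T_11 (nat_lit 92) (nat_lit 93) (nat_lit 2) (nat_lit 4) (nat_lit 6) L60757 (by decide +kernel)
theorem L60759 : W_11 (nat_lit 6) (nat_lit 0x200006001600098003c00000000000000000000000000) (nat_lit 0x0) (nat_lit 0x20001800100020000380310000000000000000000000) := T_11 (nat_lit 156) (nat_lit 155) (nat_lit 2) (nat_lit 2) (nat_lit 9) L60758 (by decide +kernel)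
theorem L60760 : W_11 (nat_lit 7) (nat_lit 0x200004001600098003c00000000000000000000000000) (nat_lit 0x0) (nat_lit 0x60003800100020000380310000000000000000000000) := T_11 (nat_lit 157) (nat_lit 174) (nat_lit 5) (nat_lit 5) (nat_lit 6) L60759 (by decide +kernel)
theorem L60761 : W_11 (nat_lit 8) (nat_lit 0x200004001600098001c00000000000000000000000000) (nat_lit 0x0) (nat_lit 0x60003800100024002380310000000000000000000000) := T_11 (nat_lit 109) (nat_lit 122) (nat_lit 1) (nat_lit 7) (nat_lit 6) L60760 (by decide +kernel)
theorem L60762 : W_11 (nat_lit 9) (nat_lit 0x200004001600098000c00000000000000000000000000) (nat_lit 0x0) (nat_lit 0x60003800100024003380390000000000000000000000) := T_11 (nat_lit 108) (nat_lit 91) (nat_lit 6) (nat_lit 5) (nat_lit 9) L60761 (by decide +kernel)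
theorem L60763 : W_11 (nat_lit 10) (nat_lit 0x200004001200098000c00000000000000000000000000) (nat_lit 0x0) (nat_lit 0x60003800d00024003380390000000000000000000000) := T_11 (nat_lit 142) (nat_lit 143) (nat_lit 0) (nat_lit 8) (nat_lit 8) L60762 (by decide +kernel)
theorem L60764 : W_11 (nat_lit 11) (nat_lit 0x200004001200098000800000000000000000000000000) (nat_lit 0x0) (nat_lit 0x60003800d000240037803b0000000000000000000000) := T_11 (nat_lit 106) (nat_lit 89) (nat_lit 4) (nat_lit 5) (nat_lit 9) L60763 (by decide +kernel)
theorem L60765 : W_11 (nat_lit 2) (nat_lit 0x20000700170009a000e00000000000000000000000000) (nat_lit 0x0) (nat_lit 0x21000100000000000000000000000000) := D_11 (nat_lit 104) (nat_lit 125) (nat_lit 120) (nat_lit 3) (nat_lit 2) (nat_lit 6) (nat_lit 1) (nat_lit 5) (nat_lit 6) (by decide +kernel)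
theorem L60766 : W_11 (nat_lit 3) (nat_lit 0x20000700170009a000c00000000000000000000000000) (nat_lit 0x0) (nat_lit 0x21000300010000000000000000000000) := T_11 (nat_lit 105) (nat_lit 88) (nat_lit 4) (nat_lit 4) (nat_lit 9) L60765 (by decide +kernel)
theorem L60767 : W_11 (nat_lit 4) (nat_lit 0x20000700160009a000c00000000000000000000000000) (nat_lit 0x0) (nat_lit 0x20000000100021000300010000000000000000000000) := T_11 (nat_lit 140) (nat_lit 173) (nat_lit 5) (nat_lit 4) (nat_lit 6) L60766 (by decide +kernel)
theorem L60768 : W_11 (nat_lit 5) (nat_lit 0x200007001600098000c00000000000000000000000000) (nat_lit 0x0) (nat_lit 0x20000000100027000300010000000000000000000000) := T_11 (nat_lit 121) (nat_lit 122) (nat_lit 3) (nat_lit 2) (nat_lit 7) L60767 (by decide +kernel)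
theorem L60769 : W_11 (nat_lit 6) (nat_lit 0x200006001600098000c00000000000000000000000000) (nat_lit 0x0) (nat_lit 0x20001800100027000300010000000000000000000000) := T_11 (nat_lit 156) (nat_lit 155) (nat_lit 2) (nat_lit 2) (nat_lit 9) L60768 (by decide +kernel)
theorem L60770 : W_11 (nat_lit 7) (nat_lit 0x200006001600098000800000000000000000000000000) (nat_lit 0x0) (nat_lit 0x20001800100027000700030000000000000000000000) := T_11 (nat_lit 106) (nat_lit 89) (nat_lit 4) (nat_lit 5) (nat_lit 9) L60769 (by decide +kernel)
theorem L60771 : W_11 (nat_lit 8) (nat_lit 0x200006001200098000800000000000000000000000000) (nat_lit 0x0) (nat_lit 0x20001800d00027000700030000000000000000000000) := T_11 (nat_lit 142) (nat_lit 143) (nat_lit 1) (nat_lit 8) (nat_lit 8) L60770 (by decide +kernel)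
theorem L60772 : W_11 (nat_lit 9) (nat_lit 0x200004001200098000800000000000000000000000000) (nat_lit 0x0) (nat_lit 0x60003800d00027000700030000000000000000000000) := T_11 (nat_lit 157) (nat_lit 174) (nat_lit 5) (nat_lit 5) (nat_lit 6) L60771 (by decide +kernel)
theorem L60773 : W_11 (nat_lit 2) (nat_lit 0x200004001a0009c001800000000000000000000000000) (nat_lit 0x0) (nat_lit 0x20002400000000000000000000000000) := D_11 (nat_lit 109) (nat_lit 106) (nat_lit 125) (nat_lit 1) (nat_lit 7) (nat_lit 6) (nat_lit 2) (nat_lit 3) (nat_lit 7) (by decide +kernel)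
theorem L60774 : W_11 (nat_lit 3) (nat_lit 0x200004001a00098001800000000000000000000000000) (nat_lit 0x0) (nat_lit 0x26002400000000000000000000000000) := T_11 (nat_lit 122) (nat_lit 121) (nat_lit 2) (nat_lit 2) (nat_lit 7) L60773 (by decide +kernel)
theorem L60775 : W_11 (nat_lit 4) (nat_lit 0x200004001a00098000800000000000000000000000000) (nat_lit 0x0) (nat_lit 0x26003400080000000000000000000000) := T_11 (nat_lit 108) (nat_lit 91) (nat_lit 6) (nat_lit 5) (nat_lit 9) L60774 (by decide +kernel)
theorem L60776 : W_11 (nat_lit 5) (nat_lit 0x200004001200098000800000000000000000000000000) (nat_lit 0x0) (nat_lit 0xc00026003400080000000000000000000000) := T_11 (nat_lit 143) (nat_lit 142) (nat_lit 0) (nat_lit 8) (nat_lit 8) L60775 (by decide +kernel)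
theorem L60777 : W_11 (nat_lit 2) (nat_lit 0x200007001700098001e00000000000000000000000000) (nat_lit 0x0) (nat_lit 0x20000180000000000000000000000000) := D_11 (nat_lit 104) (nat_lit 125) (nat_lit 103) (nat_lit 3) (nat_lit 2) (nat_lit 6) (nat_lit 3) (nat_lit 1) (nat_lit 6) (by decide +kernel)
theorem L60778 : W_11 (nat_lit 3) (nat_lit 0x200007001700098001c00000000000000000000000000) (nat_lit 0x0) (nat_lit 0x20000380010000000000000000000000) := T_11 (nat_lit 105) (nat_lit 88) (nat_lit 4) (nat_lit 4) (nat_lit 9) L60777 (by decide +kernel)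
theorem L60779 : W_11 (nat_lit 4) (nat_lit 0x200007001600098001c00000000000000000000000000) (nat_lit 0x0) (nat_lit 0x20000000100020000380010000000000000000000000) := T_11 (nat_lit 140) (nat_lit 173) (nat_lit 5) (nat_lit 4) (nat_lit 6) L60778 (by decide +kernel)
theorem L60780 : W_11 (nat_lit 5) (nat_lit 0x200006001600098001c00000000000000000000000000) (nat_lit 0x0) (nat_lit 0x20001800100020000380010000000000000000000000) := T_11 (nat_lit 156) (nat_lit 155) (nat_lit 2) (nat_lit 2) (nat_lit 9) L60779 (by decide +kernel)
theorem L60781 : W_11 (nat_lit 6) (nat_lit 0x200004001600098001c00000000000000000000000000) (nat_lit 0x0) (nat_lit 0x60003800100020000380010000000000000000000000) := T_11 (nat_lit 157) (nat_lit 174) (nat_lit 5) (nat_lit 5) (nat_lit 6) L60780 (by decide +kernel)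
theorem L60782 : W_11 (nat_lit 7) (nat_lit 0x200004001600098000c00000000000000000000000000) (nat_lit 0x0) (nat_lit 0x60003800100020001380090000000000000000000000) := T_11 (nat_lit 108) (nat_lit 91) (nat_lit 6) (nat_lit 5) (nat_lit 9) L60781 (by decide +kernel)
theorem L60783 : W_11 (nat_lit 8) (nat_lit 0x200004001600098000800000000000000000000000000) (nat_lit 0x0) (nat_lit 0x600038001000200017800b0000000000000000000000) := T_11 (nat_lit 106) (nat_lit 89) (nat_lit 4) (nat_lit 5) (nat_lit 9) L60782 (by decide +kernel)
theorem L60784 : W_11 (nat_lit 9) (nat_lit 0x200004001200098000800000000000000000000000000) (nat_lit 0x0) (nat_lit 0x60003800d000200017800b0000000000000000000000) := T_11 (nat_lit 142) (nat_lit 143) (nat_lit 0) (nat_lit 8) (nat_lit 8) L60783 (by decide +kernel)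
theorem L60785 : W_11 (nat_lit 14) (nat_lit 0x200004001200090000800000000000000000000000000) (nat_lit 0x0) (nat_lit 0x4000060013800dc002f0037803b8001c000a0000000000000) := Q_11 (nat_lit 123) (C_11 L60702 (C_11 L60764 (C_11 L60734 (C_11 L60746 (C_11 L60772 (C_11 L60776 (C_11 L60784 N_11))))))) (by decide +kernel)
theorem L60786 : W_11 (nat_lit 15) (nat_lit 0x200004001200090000000000000000000000000000000) (nat_lit 0x0) (nat_lit 0x4000060013800dc002f003f803f8007c000a0000000000000) := Q_11 (nat_lit 107) (C_11 L60785 (C_11 L60599 (C_11 L60573 (C_11 L39909 (C_11 L60576 N_11))))) (by decide +kernel)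
theorem L60787 : W_11 (nat_lit 9) (nat_lit 0x280004001200090000000000000000000000000000000) (nat_lit 0x0) (nat_lit 0x20007000f800000010000d00028001400000000000000000000000000) := T_11 (nat_lit 123) (nat_lit 106) (nat_lit 4) (nat_lit 5) (nat_lit 10) L60752 (by decide +kernel)
theorem L60788 : W_11 (nat_lit 2) (nat_lit 0x280004001200090000c00000000000000000000000000) (nat_lit 0x0) (nat_lit 0x20001000080000000000000000000000) := D_11 (nat_lit 108) (nat_lit 125) (nat_lit 91) (nat_lit 6) (nat_lit 5) (nat_lit 10) (nat_lit 6) (nat_lit 5) (nat_lit 9) (by decide +kernel)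
theorem L60789 : W_11 (nat_lit 3) (nat_lit 0x280004001200090000400000000000000000000000000) (nat_lit 0x0) (nat_lit 0x200018000a0000000000000000000000) := T_11 (nat_lit 107) (nat_lit 89) (nat_lit 4) (nat_lit 5) (nat_lit 9) L60788 (by decide +kernel)
theorem L60790 : W_11 (nat_lit 4) (nat_lit 0x280004001200090000000000000000000000000000000) (nat_lit 0x0) (nat_lit 0x28001c000a0000000000000000000000) := T_11 (nat_lit 106) (nat_lit 123) (nat_lit 4) (nat_lit 5) (nat_lit 10) L60789 (by decide +kernel)
theorem L60791 : W_11 (nat_lit 2) (nat_lit 0x3800040016000b0000000000000000000000000000000) (nat_lit 0x0) (nat_lit 0x2000800100000000000000000000000000000000) := D_11 (nat_lit 143) (nat_lit 128) (nat_lit 157) (nat_lit 2) (nat_lit 5) (nat_lit 8) (nat_lit 1) (nat_lit 8) (nat_lit 8) (by decide +kernel)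
theorem L60792 : W_11 (nat_lit 3) (nat_lit 0x3800040012000b0000000000000000000000000000000) (nat_lit 0x0) (nat_lit 0x1000000002000c00100000000000000000000000000000000) := T_11 (nat_lit 142) (nat_lit 192) (nat_lit 6) (nat_lit 5) (nat_lit 11) L60791 (by decide +kernel)
theorem L60793 : W_11 (nat_lit 4) (nat_lit 0x380004001200090000000000000000000000000000000) (nat_lit 0x0) (nat_lit 0x1000000002000c00120001000000000000000000000000000) := T_11 (nat_lit 125) (nat_lit 108) (nat_lit 6) (nat_lit 5) (nat_lit 10) L60792 (by decide +kernel)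
theorem L60794 : W_11 (nat_lit 5) (nat_lit 0x280004001200090000000000000000000000000000000) (nat_lit 0x0) (nat_lit 0x3000100002000c00120001000000000000000000000000000) := T_11 (nat_lit 176) (nat_lit 193) (nat_lit 7) (nat_lit 5) (nat_lit 7) L60793 (by decide +kernel)
theorem L60795 : W_11 (nat_lit 14) (nat_lit 0x200004001200090000000000000000000000000000000) (nat_lit 0x0) (nat_lit 0x50003e001fc00f800180032000d00128001c000a0000000000000000000000) := Q_11 (nat_lit 175) (C_11 L60642 (C_11 L60694 (C_11 L60787 (C_11 L60790 (C_11 L60794 N_11))))) (by decide +kernel)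
theorem L60796 : W_11 (nat_lit 7) (nat_lit 0x200004001200090000000000000000000000000000000) (nat_lit 0x0) (nat_lit 0xf8001c0033000c00120001800080000000000000000000000) := Q_11 (nat_lit 175) (C_11 L33451 (C_11 L60794 (C_11 L60630 (C_11 L32216 N_11)))) (by decide +kernel)
theorem L60797 : W_11 (nat_lit 16) (nat_lit 0x200000001200090000000000000000000000000000000) (nat_lit 0x0) (nat_lit 0x50003e001fc00f8001e0037800dc012f003f803f8007c000a0000000000000) := Q_11 (nat_lit 158) (C_11 L60786 (C_11 L60643 (C_11 L60697 (C_11 L60594 (C_11 L60795 (C_11 L60666 (C_11 L60796 N_11))))))) (by decide +kernel)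
theorem L60798 : W_11 (nat_lit 7) (nat_lit 0x200004001200090000000000000000000000000000000) (nat_lit 0x0) (nat_lit 0x8000700038001c0002000d00168001400000000000000000000000000) := Q_11 (nat_lit 175) (C_11 L60794 (C_11 L60625 (C_11 L60694 (C_11 L33403 N_11)))) (by decide +kernel)
theorem L60799 : W_11 (nat_lit 8) (nat_lit 0x200000001200090000000000000000000000000000000) (nat_lit 0x0) (nat_lit 0xa000700038001c0007000d00168003c000e0005000000000000000000) := Q_11 (nat_lit 158) (C_11 L60666 (C_11 L60698 (C_11 L60676 (C_11 L60798 (C_11 L60695 (C_11 L60696 (C_11 L60697 N_11))))))) (by decide +kernel)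
theorem L60800 : W_11 (nat_lit 2) (nat_lit 0x200000001300090000800060004000000000000000000) (nat_lit 0x0) (nat_lit 0x8000000000002000200000000000000) := D_11 (nat_lit 73) (nat_lit 123) (nat_lit 57) (nat_lit 5) (nat_lit 5) (nat_lit 4) (nat_lit 6) (nat_lit 5) (nat_lit 7) (by decide +kernel)
theorem L60801 : W_11 (nat_lit 3) (nat_lit 0x200000001200090000800060004000000000000000000) (nat_lit 0x0) (nat_lit 0x2000100008000000000002000200000000000000) := T_11 (nat_lit 140) (nat_lit 157) (nat_lit 5) (nat_lit 5) (nat_lit 5) L60800 (by decide +kernel)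
theorem L60802 : W_11 (nat_lit 4) (nat_lit 0x200000001200090000800060000000000000000000000) (nat_lit 0x0) (nat_lit 0x2000100008000000080006000200000000000000) := T_11 (nat_lit 74) (nat_lit 91) (nat_lit 6) (nat_lit 5) (nat_lit 8) L60801 (by decide +kernel)
theorem L60803 : W_11 (nat_lit 5) (nat_lit 0x200000001200090000800040000000000000000000000) (nat_lit 0x0) (nat_lit 0x20001000080000000a0007000200000000000000) := T_11 (nat_lit 89) (nat_lit 72) (nat_lit 4) (nat_lit 5) (nat_lit 8) L60802 (by decide +kernel)
theorem L60804 : W_11 (nat_lit 2) (nat_lit 0x200000001300090000c00060002000200000000000000) (nat_lit 0x0) (nat_lit 0x100018000000000) := D_11 (nat_lit 56) (nat_lit 39) (nat_lit 40) (nat_lit 5) (nat_lit 5) (nat_lit 2) (nat_lit 6) (nat_lit 5) (nat_lit 6) (by decide +kernel)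
theorem L60805 : W_11 (nat_lit 3) (nat_lit 0x200000001300090000c00060002000000000000000000) (nat_lit 0x0) (nat_lit 0x4000300018000000000) := T_11 (nat_lit 57) (nat_lit 74) (nat_lit 6) (nat_lit 5) (nat_lit 7) L60804 (by decide +kernel)
theorem L60806 : W_11 (nat_lit 4) (nat_lit 0x200000001300090000800060002000000000000000000) (nat_lit 0x0) (nat_lit 0x4000000000000400000004000300018000000000) := T_11 (nat_lit 106) (nat_lit 158) (nat_lit 4) (nat_lit 5) (nat_lit 9) L60805 (by decide +kernel)
theorem L60807 : W_11 (nat_lit 5) (nat_lit 0x200000001300090000800060000000000000000000000) (nat_lit 0x0) (nat_lit 0x4000000008000400000006000300018000000000) := T_11 (nat_lit 73) (nat_lit 123) (nat_lit 5) (nat_lit 5) (nat_lit 4) L60806 (by decide +kernel)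
theorem L60808 : W_11 (nat_lit 6) (nat_lit 0x200000001200090000800060000000000000000000000) (nat_lit 0x0) (nat_lit 0x6000100008000400000006000300018000000000) := T_11 (nat_lit 140) (nat_lit 157) (nat_lit 5) (nat_lit 5) (nat_lit 5) L60807 (by decide +kernel)
theorem L60809 : W_11 (nat_lit 7) (nat_lit 0x200000001200090000800040000000000000000000000) (nat_lit 0x0) (nat_lit 0x6000100008000400020007000300018000000000) := T_11 (nat_lit 89) (nat_lit 72) (nat_lit 4) (nat_lit 5) (nat_lit 8) L60808 (by decide +kernel)
theorem L60810 : W_11 (nat_lit 6) (nat_lit 0x2000000012000900008000c0000000000000000000000) (nat_lit 0x0) (nat_lit 0x600010000800100000000300018000c000000000) := T_11 (nat_lit 140) (nat_lit 157) (nat_lit 5) (nat_lit 5) (nat_lit 5) L58541 (by decide +kernel)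
theorem L60811 : W_11 (nat_lit 7) (nat_lit 0x200000001200090000800040000000000000000000000) (nat_lit 0x0) (nat_lit 0x600010000800100008000700018000c000000000) := T_11 (nat_lit 91) (nat_lit 74) (nat_lit 6) (nat_lit 5) (nat_lit 8) L60810 (by decide +kernel)
theorem L60812 : W_11 (nat_lit 5) (nat_lit 0x200000001300090000800060000000000000000000000) (nat_lit 0x0) (nat_lit 0x400000000800140001c002800000000000000000) := T_11 (nat_lit 123) (nat_lit 73) (nat_lit 5) (nat_lit 5) (nat_lit 4) L58654 (by decide +kernel)
theorem L60813 : W_11 (nat_lit 6) (nat_lit 0x200000001200090000800060000000000000000000000) (nat_lit 0x0) (nat_lit 0x600010000800140001c002800000000000000000) := T_11 (nat_lit 140) (nat_lit 157) (nat_lit 5) (nat_lit 5) (nat_lit 5) L60812 (by decide +kernel)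
theorem L60814 : W_11 (nat_lit 7) (nat_lit 0x200000001200090000800040000000000000000000000) (nat_lit 0x0) (nat_lit 0x600010000800140003c003800000000000000000) := T_11 (nat_lit 89) (nat_lit 72) (nat_lit 4) (nat_lit 5) (nat_lit 8) L60813 (by decide +kernel)
theorem L60815 : W_11 (nat_lit 2) (nat_lit 0x200000001b0009c0038000c0000000000000000000000) (nat_lit 0x0) (nat_lit 0x4000000010000000040000000000000000000000000000000) := D_11 (nat_lit 160) (nat_lit 194) (nat_lit 126) (nat_lit 6) (nat_lit 7) (nat_lit 11) (nat_lit 4) (nat_lit 7) (nat_lit 9) (by decide +kernel)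
theorem L60816 : W_11 (nat_lit 3) (nat_lit 0x200000001b0009c0018000c0000000000000000000000) (nat_lit 0x0) (nat_lit 0x4000000010000000040002400000000000000000000000000) := T_11 (nat_lit 109) (nat_lit 106) (nat_lit 1) (nat_lit 7) (nat_lit 6) L60815 (by decide +kernel)
theorem L60817 : W_11 (nat_lit 4) (nat_lit 0x20000000130009c0018000c0000000000000000000000) (nat_lit 0x0) (nat_lit 0x4000000010000c00040002400000000000000000000000000) := T_11 (nat_lit 143) (nat_lit 142) (nat_lit 0) (nat_lit 7) (nat_lit 8) L60816 (by decide +kernel)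
theorem L60818 : W_11 (nat_lit 5) (nat_lit 0x2000000013000980018000c0000000000000000000000) (nat_lit 0x0) (nat_lit 0x4000000010000c00046002400000000000000000000000000) := T_11 (nat_lit 122) (nat_lit 121) (nat_lit 2) (nat_lit 2) (nat_lit 7) L60817 (by decide +kernel)
theorem L60819 : W_11 (nat_lit 6) (nat_lit 0x2000000013000980008000c0000000000000000000000) (nat_lit 0x0) (nat_lit 0x4000000014000c00046003400000000000000000000000000) := T_11 (nat_lit 108) (nat_lit 158) (nat_lit 6) (nat_lit 5) (nat_lit 9) L60818 (by decide +kernel)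
theorem L60820 : W_11 (nat_lit 7) (nat_lit 0x2000000013000900008000c0000000000000000000000) (nat_lit 0x0) (nat_lit 0x4000000014000c0004e003400000002000000000000000000) := T_11 (nat_lit 123) (nat_lit 73) (nat_lit 5) (nat_lit 5) (nat_lit 4) L60819 (by decide +kernel)
theorem L60821 : W_11 (nat_lit 8) (nat_lit 0x2000000012000900008000c0000000000000000000000) (nat_lit 0x0) (nat_lit 0x4000000016000d0004e003400000002000000000000000000) := T_11 (nat_lit 140) (nat_lit 157) (nat_lit 5) (nat_lit 5) (nat_lit 5) L60820 (by decide +kernel)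
theorem L60822 : W_11 (nat_lit 9) (nat_lit 0x200000001200090000800040000000000000000000000) (nat_lit 0x0) (nat_lit 0x4000000016000d0004e003400080006000000000000000000) := T_11 (nat_lit 91) (nat_lit 74) (nat_lit 6) (nat_lit 5) (nat_lit 8) L60821 (by decide +kernel)
theorem L60823 : W_11 (nat_lit 10) (nat_lit 0x200000001200090000800000000000000000000000000) (nat_lit 0x0) (nat_lit 0x4000000016000d0004e0034000fc00780038001c000000000) := Q_11 (nat_lit 90) (C_11 L60803 (C_11 L39564 (C_11 L60809 (C_11 L60811 (C_11 L60814 (C_11 L60822 N_11)))))) (by decide +kernel)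
theorem L60824 : W_11 (nat_lit 8) (nat_lit 0x200000001200090000800000000000000000000000000) (nat_lit 0x0) (nat_lit 0x60001000080014000fc00780038000c000000000) := Q_11 (nat_lit 90) (C_11 L60803 (C_11 L60814 (C_11 L39564 (C_11 L60811 (C_11 L31986 N_11))))) (by decide +kernel)
theorem L60825 : W_11 (nat_lit 6) (nat_lit 0x200000001b000d0000800060000000000000000000000) (nat_lit 0x0) (nat_lit 0x600010003000000000000300018000c000000000000000000) := T_11 (nat_lit 91) (nat_lit 74) (nat_lit 6) (nat_lit 5) (nat_lit 8) L39750 (by decide +kernel)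
theorem L60826 : W_11 (nat_lit 7) (nat_lit 0x2000000013000d0000800060000000000000000000000) (nat_lit 0x0) (nat_lit 0x6000100030000c0000000300018000c000000000000000000) := T_11 (nat_lit 143) (nat_lit 142) (nat_lit 2) (nat_lit 4) (nat_lit 8) L60825 (by decide +kernel)
theorem L60827 : W_11 (nat_lit 8) (nat_lit 0x200000001300090000800060000000000000000000000) (nat_lit 0x0) (nat_lit 0x6000100030000c0006000300018000c000000000000000000) := T_11 (nat_lit 126) (nat_lit 125) (nat_lit 1) (nat_lit 8) (nat_lit 7) L60826 (by decide +kernel)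
theorem L60828 : W_11 (nat_lit 9) (nat_lit 0x200000001200090000800060000000000000000000000) (nat_lit 0x0) (nat_lit 0x6000100032000d0006000300018000c000000000000000000) := T_11 (nat_lit 140) (nat_lit 157) (nat_lit 5) (nat_lit 5) (nat_lit 5) L60827 (by decide +kernel)
theorem L60829 : W_11 (nat_lit 10) (nat_lit 0x200000001200090000800040000000000000000000000) (nat_lit 0x0) (nat_lit 0x6000100032000d000600030001a000d000000000000000000) := T_11 (nat_lit 89) (nat_lit 72) (nat_lit 4) (nat_lit 5) (nat_lit 8) L60828 (by decide +kernel)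
theorem L60830 : W_11 (nat_lit 2) (nat_lit 0x200000001300090000800060002000000000000000000) (nat_lit 0x0) (nat_lit 0x400060000000000000000000000000000000) := D_11 (nat_lit 125) (nat_lit 126) (nat_lit 142) (nat_lit 1) (nat_lit 8) (nat_lit 7) (nat_lit 7) (nat_lit 5) (nat_lit 4) (by decide +kernel)
theorem L60831 : W_11 (nat_lit 3) (nat_lit 0x200000001300090000800060000000000000000000000) (nat_lit 0x0) (nat_lit 0x400068000000000002000000000000000000) := T_11 (nat_lit 73) (nat_lit 123) (nat_lit 5) (nat_lit 5) (nat_lit 4) L60830 (by decide +kernel)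
theorem L60832 : W_11 (nat_lit 4) (nat_lit 0x200000001200090000800060000000000000000000000) (nat_lit 0x0) (nat_lit 0x2000500068000000000002000000000000000000) := T_11 (nat_lit 140) (nat_lit 157) (nat_lit 5) (nat_lit 5) (nat_lit 5) L60831 (by decide +kernel)
theorem L60833 : W_11 (nat_lit 5) (nat_lit 0x200000001200090000800040000000000000000000000) (nat_lit 0x0) (nat_lit 0x2000500068000000020003000000000000000000) := T_11 (nat_lit 89) (nat_lit 72) (nat_lit 4) (nat_lit 5) (nat_lit 8) L60832 (by decide +kernel)
theorem L60834 : W_11 (nat_lit 11) (nat_lit 0x200000001200090000800000000000000000000000000) (nat_lit 0x0) (nat_lit 0x6000100032000d000680034001e000fc00380000000000000) := Q_11 (nat_lit 90) (C_11 L31986 (C_11 L39739 (C_11 L39746 (C_11 L60829 (C_11 L60833 N_11))))) (by decide +kernel)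
theorem L60837 : W_11 (nat_lit 7) (nat_lit 0x200000001200090000800000000000000000000000000) (nat_lit 0x0) (nat_lit 0x24000d000680034001e0009000080000000000000) := Q_11 (nat_lit 106) (C_11 L39712 (C_11 L39720 (C_11 L60836 N_11))) (by decide +kernel)
theorem L60838 : W_11 (nat_lit 2) (nat_lit 0x2000000012000900018000e0000000000000000000000) (nat_lit 0x0) (nat_lit 0x2000018000000000000000000000) := D_11 (nat_lit 88) (nat_lit 109) (nat_lit 87) (nat_lit 3) (nat_lit 3) (nat_lit 5) (nat_lit 3) (nat_lit 2) (nat_lit 5) (by decide +kernel)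
theorem L60839 : W_11 (nat_lit 3) (nat_lit 0x2000000012000900008000e0000000000000000000000) (nat_lit 0x0) (nat_lit 0x4000000000003000018000000000000000000000) := T_11 (nat_lit 108) (nat_lit 158) (nat_lit 6) (nat_lit 5) (nat_lit 9) L60838 (by decide +kernel)
theorem L60840 : W_11 (nat_lit 4) (nat_lit 0x200000001200090000800060000000000000000000000) (nat_lit 0x0) (nat_lit 0x4000000000003000098004000000000000000000) := T_11 (nat_lit 91) (nat_lit 74) (nat_lit 6) (nat_lit 5) (nat_lit 8) L60839 (by decide +kernel)
theorem L60841 : W_11 (nat_lit 5) (nat_lit 0x200000001200090000800040000000000000000000000) (nat_lit 0x0) (nat_lit 0x40000000000030000b8005000000000000000000) := T_11 (nat_lit 89) (nat_lit 72) (nat_lit 4) (nat_lit 5) (nat_lit 8) L60840 (by decide +kernel)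
theorem L60842 : W_11 (nat_lit 7) (nat_lit 0x200000001200090000800000000000000000000000000) (nat_lit 0x0) (nat_lit 0x6000d000680030000f8007000200000000000000) := Q_11 (nat_lit 90) (C_11 L31986 (C_11 L60833 (C_11 L39739 (C_11 L60841 N_11)))) (by decide +kernel)
theorem L60843 : W_11 (nat_lit 2) (nat_lit 0x200000001a000d0002c00100000000000000000000000) (nat_lit 0x0) (nat_lit 0x400108000000000000000000000000000000) := D_11 (nat_lit 142) (nat_lit 123) (nat_lit 128) (nat_lit 0) (nat_lit 8) (nat_lit 8) (nat_lit 2) (nat_lit 5) (nat_lit 8) (by decide +kernel)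
theorem L60844 : W_11 (nat_lit 3) (nat_lit 0x2000000012000d0002c00100000000000000000000000) (nat_lit 0x0) (nat_lit 0x20000c00108000000000000000000000000000000) := T_11 (nat_lit 143) (nat_lit 161) (nat_lit 7) (nat_lit 7) (nat_lit 5) L60843 (by decide +kernel)
theorem L60845 : W_11 (nat_lit 4) (nat_lit 0x2000000012000d0002c00000000000000000000000000) (nat_lit 0x0) (nat_lit 0x20000c00108000000100008000000000000000000) := T_11 (nat_lit 92) (nat_lit 75) (nat_lit 7) (nat_lit 7) (nat_lit 4) L60844 (by decide +kernel)
theorem L60846 : W_11 (nat_lit 5) (nat_lit 0x2000000012000d0000c00000000000000000000000000) (nat_lit 0x0) (nat_lit 0x20000c00108003000100008000000000000000000) := T_11 (nat_lit 109) (nat_lit 108) (nat_lit 3) (nat_lit 4) (nat_lit 6) L60845 (by decide +kernel)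
theorem L60847 : W_11 (nat_lit 6) (nat_lit 0x200000001200090000c00000000000000000000000000) (nat_lit 0x0) (nat_lit 0x20000c00168003000100008000000000000000000) := T_11 (nat_lit 126) (nat_lit 125) (nat_lit 0) (nat_lit 8) (nat_lit 7) L60846 (by decide +kernel)
theorem L60848 : W_11 (nat_lit 7) (nat_lit 0x200000001200090000800000000000000000000000000) (nat_lit 0x0) (nat_lit 0x24000c00168003400160009000080000000000000) := Q_11 (nat_lit 106) (C_11 L60836 (C_11 L60847 N_11)) (by decide +kernel)
theorem L60849 : W_11 (nat_lit 2) (nat_lit 0x200000001200090000c00020000000000000000000000) (nat_lit 0x0) (nat_lit 0x8000000000001000080000000000000) := D_11 (nat_lit 72) (nat_lit 55) (nat_lit 123) (nat_lit 7) (nat_lit 4) (nat_lit 3) (nat_lit 7) (nat_lit 4) (nat_lit 4) (by decide +kernel)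
theorem L60850 : W_11 (nat_lit 3) (nat_lit 0x200000001200090000c00000000000000000000000000) (nat_lit 0x0) (nat_lit 0x4000000008000000020001000080000000000000) := T_11 (nat_lit 89) (nat_lit 158) (nat_lit 4) (nat_lit 5) (nat_lit 9) L60849 (by decide +kernel)
theorem L60851 : W_11 (nat_lit 7) (nat_lit 0x200000001200090000800000000000000000000000000) (nat_lit 0x0) (nat_lit 0x24000c001680034001a0009000080000000000000) := Q_11 (nat_lit 106) (C_11 L39712 (C_11 L60847 (C_11 L60850 N_11))) (by decide +kernel)
theorem L60852 : W_11 (nat_lit 2) (nat_lit 0x200000001b000d0002c00060000000000000000000000) (nat_lit 0x0) (nat_lit 0x20000000000000000100008000000000000000000) := D_11 (nat_lit 92) (nat_lit 161) (nat_lit 75) (nat_lit 7) (nat_lit 7) (nat_lit 5) (nat_lit 7) (nat_lit 7) (nat_lit 4) (by decide +kernel)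
theorem L60853 : W_11 (nat_lit 3) (nat_lit 0x200000001b000d0000c00060000000000000000000000) (nat_lit 0x0) (nat_lit 0x20000000000003000100008000000000000000000) := T_11 (nat_lit 109) (nat_lit 108) (nat_lit 3) (nat_lit 4) (nat_lit 6) L60852 (by decide +kernel)
theorem L60854 : W_11 (nat_lit 4) (nat_lit 0x200000001b000d0000800060000000000000000000000) (nat_lit 0x0) (nat_lit 0x24000000000003400100008000000000000000000) := T_11 (nat_lit 106) (nat_lit 158) (nat_lit 4) (nat_lit 5) (nat_lit 9) L60853 (by decide +kernel)
theorem L60855 : W_11 (nat_lit 5) (nat_lit 0x2000000013000d0000800060000000000000000000000) (nat_lit 0x0) (nat_lit 0x24000c00000003400100008000000000000000000) := T_11 (nat_lit 143) (nat_lit 142) (nat_lit 2) (nat_lit 4) (nat_lit 8) L60854 (by decide +kernel)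
theorem L60856 : W_11 (nat_lit 6) (nat_lit 0x200000001300090000800060000000000000000000000) (nat_lit 0x0) (nat_lit 0x24000c00060003400100008000000000000000000) := T_11 (nat_lit 126) (nat_lit 125) (nat_lit 1) (nat_lit 8) (nat_lit 7) L60855 (by decide +kernel)
theorem L60857 : W_11 (nat_lit 7) (nat_lit 0x200000001200090000800060000000000000000000000) (nat_lit 0x0) (nat_lit 0x26000d00060003400100008000000000000000000) := T_11 (nat_lit 140) (nat_lit 157) (nat_lit 5) (nat_lit 5) (nat_lit 5) L60856 (by decide +kernel)
theorem L60858 : W_11 (nat_lit 8) (nat_lit 0x200000001200090000800040000000000000000000000) (nat_lit 0x0) (nat_lit 0x26000d00060003400120009000000000000000000) := T_11 (nat_lit 89) (nat_lit 72) (nat_lit 4) (nat_lit 5) (nat_lit 8) L60857 (by decide +kernel)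
theorem L60863 : W_11 (nat_lit 6) (nat_lit 0x2000000013000d0000800040000000000000000000000) (nat_lit 0x0) (nat_lit 0x4000c00000003700180004000000000000000000) := T_11 (nat_lit 142) (nat_lit 143) (nat_lit 2) (nat_lit 4) (nat_lit 8) L39647 (by decide +kernel)
theorem L60864 : W_11 (nat_lit 7) (nat_lit 0x200000001300090000800040000000000000000000000) (nat_lit 0x0) (nat_lit 0x4000c00060003700180004000000000000000000) := T_11 (nat_lit 126) (nat_lit 125) (nat_lit 1) (nat_lit 8) (nat_lit 7) L60863 (by decide +kernel)
theorem L60865 : W_11 (nat_lit 8) (nat_lit 0x200000001200090000800040000000000000000000000) (nat_lit 0x0) (nat_lit 0x6000d00060003700180004000000000000000000) := T_11 (nat_lit 140) (nat_lit 157) (nat_lit 5) (nat_lit 5) (nat_lit 5) L60864 (by decide +kernel)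
theorem L60866 : W_11 (nat_lit 11) (nat_lit 0x200000001200090000800000000000000000000000000) (nat_lit 0x0) (nat_lit 0x6000140036000d000600037001f800d000000000000000000) := Q_11 (nat_lit 90) (C_11 L60841 (C_11 L60829 (C_11 L39564 (C_11 L60858 (C_11 L60862 (C_11 L60865 N_11)))))) (by decide +kernel)
theorem L60867 : W_11 (nat_lit 7) (nat_lit 0x200000001200090000800000000000000000000000000) (nat_lit 0x0) (nat_lit 0x40006000d000680007001e0007000200000000000000) := Q_11 (nat_lit 90) (C_11 L60862 (C_11 L60833 (C_11 L39739 (C_11 L31963 (C_11 L31986 N_11))))) (by decide +kernel)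
theorem L60868 : W_11 (nat_lit 2) (nat_lit 0x200000001200098000800040006000000000000000000) (nat_lit 0x0) (nat_lit 0xc00020000000000000000000000000000000) := D_11 (nat_lit 142) (nat_lit 125) (nat_lit 143) (nat_lit 7) (nat_lit 5) (nat_lit 4) (nat_lit 0) (nat_lit 8) (nat_lit 8) (by decide +kernel)
theorem L60869 : W_11 (nat_lit 3) (nat_lit 0x200000001200090000800040006000000000000000000) (nat_lit 0x0) (nat_lit 0xd00028000000000000000000000000000000) := T_11 (nat_lit 123) (nat_lit 140) (nat_lit 5) (nat_lit 5) (nat_lit 4) L60868 (by decide +kernel)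
theorem L60870 : W_11 (nat_lit 4) (nat_lit 0x200000001200090000800040004000000000000000000) (nat_lit 0x0) (nat_lit 0xd00028000000000002000200000000000000) := T_11 (nat_lit 73) (nat_lit 57) (nat_lit 6) (nat_lit 5) (nat_lit 7) L60869 (by decide +kernel)
theorem L60871 : W_11 (nat_lit 5) (nat_lit 0x200000001200090000800040000000000000000000000) (nat_lit 0x0) (nat_lit 0xd00028000000080006000200000000000000) := T_11 (nat_lit 74) (nat_lit 91) (nat_lit 6) (nat_lit 5) (nat_lit 8) L60870 (by decide +kernel)
theorem L60872 : W_11 (nat_lit 2) (nat_lit 0x2000060016000b00008000c0000000000000000000000) (nat_lit 0x0) (nat_lit 0x140000400000000000000000000000000) := D_11 (nat_lit 126) (nat_lit 128) (nat_lit 106) (nat_lit 1) (nat_lit 9) (nat_lit 7) (nat_lit 0) (nat_lit 8) (nat_lit 7) (by decide +kernel)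
theorem L60873 : W_11 (nat_lit 3) (nat_lit 0x2000060016000900008000c0000000000000000000000) (nat_lit 0x0) (nat_lit 0x160000400000002000000000000000000) := T_11 (nat_lit 125) (nat_lit 73) (nat_lit 7) (nat_lit 5) (nat_lit 4) L60872 (by decide +kernel)
theorem L60874 : W_11 (nat_lit 4) (nat_lit 0x2000060012000900008000c0000000000000000000000) (nat_lit 0x0) (nat_lit 0xc00160000400000002000000000000000000) := T_11 (nat_lit 142) (nat_lit 143) (nat_lit 1) (nat_lit 8) (nat_lit 8) L60873 (by decide +kernel)
theorem L60875 : W_11 (nat_lit 5) (nat_lit 0x2000040012000900008000c0000000000000000000000) (nat_lit 0x0) (nat_lit 0x40002000c00160000400000002000000000000000000) := T_11 (nat_lit 157) (nat_lit 174) (nat_lit 5) (nat_lit 5) (nat_lit 6) L60874 (by decide +kernel)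
theorem L60876 : W_11 (nat_lit 6) (nat_lit 0x2000000012000900008000c0000000000000000000000) (nat_lit 0x0) (nat_lit 0x40006000c00160001400000002000000000000000000) := T_11 (nat_lit 158) (nat_lit 108) (nat_lit 6) (nat_lit 5) (nat_lit 9) L60875 (by decide +kernel)
theorem L60877 : W_11 (nat_lit 7) (nat_lit 0x200000001200090000800040000000000000000000000) (nat_lit 0x0) (nat_lit 0x40006000c00160001400080006000000000000000000) := T_11 (nat_lit 91) (nat_lit 74) (nat_lit 6) (nat_lit 5) (nat_lit 8) L60876 (by decide +kernel)
theorem L60878 : W_11 (nat_lit 2) (nat_lit 0x200000001300090000800040002000000000000000000) (nat_lit 0x0) (nat_lit 0x400060000000000000000000000000000000) := D_11 (nat_lit 125) (nat_lit 126) (nat_lit 142) (nat_lit 1) (nat_lit 8) (nat_lit 7) (nat_lit 7) (nat_lit 5) (nat_lit 4) (by decide +kernel)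
theorem L60879 : W_11 (nat_lit 3) (nat_lit 0x200000001300090000800040000000000000000000000) (nat_lit 0x0) (nat_lit 0x400068000000000002000000000000000000) := T_11 (nat_lit 73) (nat_lit 123) (nat_lit 5) (nat_lit 5) (nat_lit 4) L60878 (by decide +kernel)
theorem L60880 : W_11 (nat_lit 4) (nat_lit 0x200000001200090000800040000000000000000000000) (nat_lit 0x0) (nat_lit 0x2000500068000000000002000000000000000000) := T_11 (nat_lit 140) (nat_lit 157) (nat_lit 5) (nat_lit 5) (nat_lit 5) L60879 (by decide +kernel)
theorem L60881 : W_11 (nat_lit 9) (nat_lit 0x200000001200090000800000000000000000000000000) (nat_lit 0x0) (nat_lit 0x40006000d001680037001c0006000200000000000000) := Q_11 (nat_lit 90) (C_11 L60871 (C_11 L31986 (C_11 L60877 (C_11 L60865 (C_11 L60880 N_11))))) (by decide +kernel)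
theorem L60882 : W_11 (nat_lit 12) (nat_lit 0x200000001200090000000000000000000000000000000) (nat_lit 0x0) (nat_lit 0x6000140036000d0016e003f001fc00fc0038001c000000000) := Q_11 (nat_lit 107) (C_11 L60823 (C_11 L60824 (C_11 L60834 (C_11 L60837 (C_11 L60842 (C_11 L60848 (C_11 L60851 (C_11 L60866 (C_11 L60867 (C_11 L60881 N_11)))))))))) (by decide +kernel)
theorem L60883 : W_11 (nat_lit 2) (nat_lit 0x40003c00040012000b0000000000000000000000000000000) (nat_lit 0x0) (nat_lit 0x30000800000000000000000000000000000000000) := D_11 (nat_lit 160) (nat_lit 161) (nat_lit 143) (nat_lit 2) (nat_lit 4) (nat_lit 10) (nat_lit 6) (nat_lit 7) (nat_lit 11) (by decide +kernel)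
theorem L60884 : W_11 (nat_lit 3) (nat_lit 0x3c00040012000b0000000000000000000000000000000) (nat_lit 0x0) (nat_lit 0xc000000030000800000000000000000000000000000000000) := T_11 (nat_lit 194) (nat_lit 195) (nat_lit 3) (nat_lit 4) (nat_lit 10) L60883 (by decide +kernel)
theorem L60885 : W_11 (nat_lit 4) (nat_lit 0x2c00040012000b0000000000000000000000000000000) (nat_lit 0x0) (nat_lit 0xe000100030000800000000000000000000000000000000000) := T_11 (nat_lit 176) (nat_lit 193) (nat_lit 7) (nat_lit 5) (nat_lit 7) L60884 (by decide +kernel)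
theorem L60886 : W_11 (nat_lit 5) (nat_lit 0x2800040012000b0000000000000000000000000000000) (nat_lit 0x0) (nat_lit 0xe800140030000800000000000000000000000000000000000) := T_11 (nat_lit 174) (nat_lit 191) (nat_lit 5) (nat_lit 5) (nat_lit 7) L60885 (by decide +kernel)
theorem L60887 : W_11 (nat_lit 6) (nat_lit 0x2000040012000b0000000000000000000000000000000) (nat_lit 0x0) (nat_lit 0xe8001c0030000800000001000000000000000000000000000) := T_11 (nat_lit 175) (nat_lit 108) (nat_lit 6) (nat_lit 5) (nat_lit 10) L60886 (by decide +kernel)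
theorem L60888 : W_11 (nat_lit 5) (nat_lit 0x2000040012000b0000000000000000000000000000000) (nat_lit 0x0) (nat_lit 0x100018000c0000000400008001400000000000000000000000000) := T_11 (nat_lit 175) (nat_lit 108) (nat_lit 6) (nat_lit 5) (nat_lit 10) L60674 (by decide +kernel)
theorem L60889 : W_11 (nat_lit 2) (nat_lit 0x2000040012000b0000d002c0002000100000000000000) (nat_lit 0x0) (nat_lit 0x1000080004000000000) := D_11 (nat_lit 55) (nat_lit 38) (nat_lit 72) (nat_lit 4) (nat_lit 5) (nat_lit 6) (nat_lit 4) (nat_lit 5) (nat_lit 7) (by decide +kernel)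
theorem L60890 : W_11 (nat_lit 3) (nat_lit 0x2000040012000b0000d002c0002000000000000000000) (nat_lit 0x0) (nat_lit 0x8000000000001000180004000000000) := T_11 (nat_lit 56) (nat_lit 123) (nat_lit 5) (nat_lit 5) (nat_lit 3) L60889 (by decide +kernel)
theorem L60891 : W_11 (nat_lit 4) (nat_lit 0x2000040012000b0000d002c0000000000000000000000) (nat_lit 0x0) (nat_lit 0x400008000000000003000180004000000000) := T_11 (nat_lit 73) (nat_lit 142) (nat_lit 7) (nat_lit 5) (nat_lit 4) L60890 (by decide +kernel)
theorem L60892 : W_11 (nat_lit 5) (nat_lit 0x2000040012000b0000d000c0000000000000000000000) (nat_lit 0x0) (nat_lit 0x400008000000300003000180004000000000) := T_11 (nat_lit 93) (nat_lit 92) (nat_lit 1) (nat_lit 8) (nat_lit 5) L60891 (by decide +kernel)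
theorem L60893 : W_11 (nat_lit 6) (nat_lit 0x2000040012000b0000d00080000000000000000000000) (nat_lit 0x0) (nat_lit 0x400008000000340007000180004000000000) := T_11 (nat_lit 90) (nat_lit 74) (nat_lit 6) (nat_lit 5) (nat_lit 8) L60892 (by decide +kernel)
theorem L60894 : W_11 (nat_lit 7) (nat_lit 0x2000040012000b0000d00000000000000000000000000) (nat_lit 0x0) (nat_lit 0x4000080010003c0007000180004000000000) := T_11 (nat_lit 91) (nat_lit 108) (nat_lit 6) (nat_lit 5) (nat_lit 9) L60893 (by decide +kernel)
theorem L60895 : W_11 (nat_lit 8) (nat_lit 0x2000040012000b0000c00000000000000000000000000) (nat_lit 0x0) (nat_lit 0x4000080013003c0007000180004000000000) := T_11 (nat_lit 104) (nat_lit 105) (nat_lit 3) (nat_lit 2) (nat_lit 6) L60894 (by decide +kernel)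
theorem L60896 : W_11 (nat_lit 9) (nat_lit 0x2000040012000b0000800000000000000000000000000) (nat_lit 0x0) (nat_lit 0x4000080017003e0007000180004000000000) := T_11 (nat_lit 106) (nat_lit 89) (nat_lit 4) (nat_lit 5) (nat_lit 9) L60895 (by decide +kernel)
theorem L60901 : W_11 (nat_lit 6) (nat_lit 0x2000040012000b0001c00000000000000000000000000) (nat_lit 0x0) (nat_lit 0x10000e002300018000800040000000000000) := T_11 (nat_lit 105) (nat_lit 104) (nat_lit 3) (nat_lit 2) (nat_lit 6) L60900 (by decide +kernel)
theorem L60902 : W_11 (nat_lit 7) (nat_lit 0x2000040012000b0001800000000000000000000000000) (nat_lit 0x0) (nat_lit 0x10000e002700038000800040000000000000) := T_11 (nat_lit 106) (nat_lit 89) (nat_lit 4) (nat_lit 5) (nat_lit 9) L60901 (by decide +kernel)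
theorem L60903 : W_11 (nat_lit 8) (nat_lit 0x2000040012000b0000800000000000000000000000000) (nat_lit 0x0) (nat_lit 0x10000e0037000b8000800040000000000000) := T_11 (nat_lit 108) (nat_lit 91) (nat_lit 6) (nat_lit 5) (nat_lit 9) L60902 (by decide +kernel)
theorem L60904 : W_11 (nat_lit 2) (nat_lit 0x2000040016000b00008000e0000000000000000000000) (nat_lit 0x0) (nat_lit 0x800108000000000000000000000000000000) := D_11 (nat_lit 143) (nat_lit 128) (nat_lit 123) (nat_lit 2) (nat_lit 5) (nat_lit 8) (nat_lit 0) (nat_lit 8) (nat_lit 8) (by decide +kernel)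
theorem L60905 : W_11 (nat_lit 3) (nat_lit 0x2000040012000b00008000e0000000000000000000000) (nat_lit 0x0) (nat_lit 0xc00108000000000002000000000000000000) := T_11 (nat_lit 142) (nat_lit 73) (nat_lit 7) (nat_lit 5) (nat_lit 4) L60904 (by decide +kernel)
theorem L60906 : W_11 (nat_lit 4) (nat_lit 0x2000040012000b00008000c0000000000000000000000) (nat_lit 0x0) (nat_lit 0xc00108000000020003000000000000000000) := T_11 (nat_lit 89) (nat_lit 72) (nat_lit 4) (nat_lit 5) (nat_lit 8) L60905 (by decide +kernel)
theorem L60907 : W_11 (nat_lit 5) (nat_lit 0x2000040012000b0000800080000000000000000000000) (nat_lit 0x0) (nat_lit 0xc00108000000060007000000000000000000) := T_11 (nat_lit 90) (nat_lit 74) (nat_lit 6) (nat_lit 5) (nat_lit 8) L60906 (by decide +kernel)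
theorem L60908 : W_11 (nat_lit 6) (nat_lit 0x2000040012000b0000800000000000000000000000000) (nat_lit 0x0) (nat_lit 0xc001080010000e0007000000000000000000) := T_11 (nat_lit 91) (nat_lit 108) (nat_lit 6) (nat_lit 5) (nat_lit 9) L60907 (by decide +kernel)
theorem L60909 : W_11 (nat_lit 2) (nat_lit 0x2000040012000b0000800060002000100000000000000) (nat_lit 0x0) (nat_lit 0x4000200010000000000) := D_11 (nat_lit 57) (nat_lit 40) (nat_lit 74) (nat_lit 6) (nat_lit 5) (nat_lit 6) (nat_lit 6) (nat_lit 5) (nat_lit 7) (by decide +kernel)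
theorem L60910 : W_11 (nat_lit 3) (nat_lit 0x2000040012000b0000800060002000000000000000000) (nat_lit 0x0) (nat_lit 0x1000000004000300010000000000) := T_11 (nat_lit 56) (nat_lit 108) (nat_lit 7) (nat_lit 5) (nat_lit 3) L60909 (by decide +kernel)
theorem L60911 : W_11 (nat_lit 4) (nat_lit 0x2000040012000b0000800060000000000000000000000) (nat_lit 0x0) (nat_lit 0x400000001000000006000300010000000000) := T_11 (nat_lit 73) (nat_lit 142) (nat_lit 7) (nat_lit 5) (nat_lit 4) L60910 (by decide +kernel)
theorem L60912 : W_11 (nat_lit 5) (nat_lit 0x2000040012000b0000800020000000000000000000000) (nat_lit 0x0) (nat_lit 0x400000001000040007000300010000000000) := T_11 (nat_lit 90) (nat_lit 72) (nat_lit 4) (nat_lit 5) (nat_lit 8) L60911 (by decide +kernel)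
theorem L60913 : W_11 (nat_lit 6) (nat_lit 0x2000040012000b0000800000000000000000000000000) (nat_lit 0x0) (nat_lit 0x400000001400060007000300010000000000) := T_11 (nat_lit 89) (nat_lit 106) (nat_lit 4) (nat_lit 5) (nat_lit 9) L60912 (by decide +kernel)
theorem L60914 : W_11 (nat_lit 4) (nat_lit 0x2000040012000b0000800060000000000000000000000) (nat_lit 0x0) (nat_lit 0xc00108000000080006000000000000000000) := T_11 (nat_lit 91) (nat_lit 74) (nat_lit 6) (nat_lit 5) (nat_lit 8) L60905 (by decide +kernel)
theorem L60915 : W_11 (nat_lit 5) (nat_lit 0x2000040012000b0000800020000000000000000000000) (nat_lit 0x0) (nat_lit 0xc001080000000c0007000000000000000000) := T_11 (nat_lit 90) (nat_lit 72) (nat_lit 4) (nat_lit 5) (nat_lit 8) L60914 (by decide +kernel)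
theorem L60916 : W_11 (nat_lit 6) (nat_lit 0x2000040012000b0000800000000000000000000000000) (nat_lit 0x0) (nat_lit 0xc001080004000e0007000000000000000000) := T_11 (nat_lit 89) (nat_lit 106) (nat_lit 4) (nat_lit 5) (nat_lit 9) L60915 (by decide +kernel)
theorem L60917 : W_11 (nat_lit 2) (nat_lit 0x2000040012000b80008000c0002000100000000000000) (nat_lit 0x0) (nat_lit 0x1000080004000000000) := D_11 (nat_lit 55) (nat_lit 38) (nat_lit 72) (nat_lit 4) (nat_lit 5) (nat_lit 6) (nat_lit 4) (nat_lit 5) (nat_lit 7) (by decide +kernel)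
theorem L60918 : W_11 (nat_lit 3) (nat_lit 0x2000040012000b80008000c0002000000000000000000) (nat_lit 0x0) (nat_lit 0x400000001000180004000000000) := T_11 (nat_lit 56) (nat_lit 106) (nat_lit 5) (nat_lit 5) (nat_lit 3) L60917 (by decide +kernel)
theorem L60919 : W_11 (nat_lit 4) (nat_lit 0x2000040012000b00008000c0002000000000000000000) (nat_lit 0x0) (nat_lit 0x100008000400000001000180004000000000) := T_11 (nat_lit 123) (nat_lit 140) (nat_lit 5) (nat_lit 5) (nat_lit 4) L60918 (by decide +kernel)
theorem L60920 : W_11 (nat_lit 5) (nat_lit 0x2000040012000b00008000c0000000000000000000000) (nat_lit 0x0) (nat_lit 0x500008000400000003000180004000000000) := T_11 (nat_lit 73) (nat_lit 142) (nat_lit 7) (nat_lit 5) (nat_lit 4) L60919 (by decide +kernel)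
theorem L60921 : W_11 (nat_lit 6) (nat_lit 0x2000040012000b0000800080000000000000000000000) (nat_lit 0x0) (nat_lit 0x500008000400040007000180004000000000) := T_11 (nat_lit 90) (nat_lit 74) (nat_lit 6) (nat_lit 5) (nat_lit 8) L60920 (by decide +kernel)
theorem L60922 : W_11 (nat_lit 7) (nat_lit 0x2000040012000b0000800000000000000000000000000) (nat_lit 0x0) (nat_lit 0x5000080014000c0007000180004000000000) := T_11 (nat_lit 91) (nat_lit 108) (nat_lit 6) (nat_lit 5) (nat_lit 9) L60921 (by decide +kernel)
theorem L60923 : W_11 (nat_lit 10) (nat_lit 0x2000040012000b0000000000000000000000000000000) (nat_lit 0x0) (nat_lit 0xd0010e003f003f80078003c0014000000000) := Q_11 (nat_lit 107) (C_11 L60896 (C_11 L60903 (C_11 L60908 (C_11 L60913 (C_11 L60916 (C_11 L60922 N_11)))))) (by decide +kernel)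
theorem L60924 : W_11 (nat_lit 4) (nat_lit 0x2800040012000b0000000000000000000000000000000) (nat_lit 0x0) (nat_lit 0x40003000100000000100008000400000000000000000000000000) := T_11 (nat_lit 123) (nat_lit 106) (nat_lit 4) (nat_lit 5) (nat_lit 10) L60754 (by decide +kernel)
theorem L60925 : W_11 (nat_lit 6) (nat_lit 0x2000040012000b0000000000000000000000000000000) (nat_lit 0x0) (nat_lit 0x5000f8001c0030000d00008000400000000000000000000000000) := Q_11 (nat_lit 175) (C_11 L60886 (C_11 L60674 (C_11 L60924 N_11))) (by decide +kernel)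
theorem L60926 : W_11 (nat_lit 11) (nat_lit 0x2000000012000b0000000000000000000000000000000) (nat_lit 0x0) (nat_lit 0x5000f8001c0034000d0010e003f003f80078003c0014000000000) := Q_11 (nat_lit 158) (C_11 L60887 (C_11 L60888 (C_11 L60923 (C_11 L60925 N_11)))) (by decide +kernel)
theorem L60927 : W_11 (nat_lit 2) (nat_lit 0x2000000012000f0000800000000000000000000000000) (nat_lit 0x0) (nat_lit 0x400100001000000000000000000000000000) := D_11 (nat_lit 128) (nat_lit 142) (nat_lit 108) (nat_lit 1) (nat_lit 9) (nat_lit 7) (nat_lit 0) (nat_lit 9) (nat_lit 7) (by decide +kernel)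
theorem L60928 : W_11 (nat_lit 3) (nat_lit 0x2000000012000f0000000000000000000000000000000) (nat_lit 0x0) (nat_lit 0x400100001c00000000000000000000000000) := T_11 (nat_lit 107) (nat_lit 106) (nat_lit 0) (nat_lit 8) (nat_lit 7) L60927 (by decide +kernel)
theorem L60929 : W_11 (nat_lit 4) (nat_lit 0x2000000012000b0000000000000000000000000000000) (nat_lit 0x0) (nat_lit 0x500140001c00000000000000000000000000) := T_11 (nat_lit 126) (nat_lit 140) (nat_lit 1) (nat_lit 8) (nat_lit 7) L60928 (by decide +kernel)
theorem L60930 : W_11 (nat_lit 2) (nat_lit 0x2000000012000f8001800000000000000000000000000) (nat_lit 0x0) (nat_lit 0x6002000000000000000000000000000) := D_11 (nat_lit 122) (nat_lit 121) (nat_lit 109) (nat_lit 2) (nat_lit 2) (nat_lit 7) (nat_lit 2) (nat_lit 3) (nat_lit 7) (by decide +kernel)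
theorem L60931 : W_11 (nat_lit 3) (nat_lit 0x2000000012000f8000800000000000000000000000000) (nat_lit 0x0) (nat_lit 0x106003000000000000000000000000000) := T_11 (nat_lit 108) (nat_lit 128) (nat_lit 0) (nat_lit 9) (nat_lit 7) L60930 (by decide +kernel)
theorem L60932 : W_11 (nat_lit 4) (nat_lit 0x2000000012000f0000800000000000000000000000000) (nat_lit 0x0) (nat_lit 0x80010e003000000000000000000000000000) := T_11 (nat_lit 123) (nat_lit 143) (nat_lit 3) (nat_lit 4) (nat_lit 7) L60931 (by decide +kernel)
theorem L60933 : W_11 (nat_lit 5) (nat_lit 0x2000000012000f0000000000000000000000000000000) (nat_lit 0x0) (nat_lit 0x80010e003c00000000000000000000000000) := T_11 (nat_lit 107) (nat_lit 106) (nat_lit 0) (nat_lit 8) (nat_lit 7) L60932 (by decide +kernel)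
theorem L60934 : W_11 (nat_lit 6) (nat_lit 0x2000000012000b0000000000000000000000000000000) (nat_lit 0x0) (nat_lit 0x90014e003c00000000000000000000000000) := T_11 (nat_lit 126) (nat_lit 140) (nat_lit 1) (nat_lit 8) (nat_lit 7) L60933 (by decide +kernel)
theorem L60935 : W_11 (nat_lit 2) (nat_lit 0x200000001a000f0000800000000000000000000000000) (nat_lit 0x0) (nat_lit 0x4000000010000000000001000000000000000000000000000) := D_11 (nat_lit 160) (nat_lit 194) (nat_lit 108) (nat_lit 6) (nat_lit 7) (nat_lit 11) (nat_lit 4) (nat_lit 7) (nat_lit 10) (by decide +kernel)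
theorem L60936 : W_11 (nat_lit 3) (nat_lit 0x2000000012000f0000800000000000000000000000000) (nat_lit 0x0) (nat_lit 0x4000000010000800008001000000000000000000000000000) := T_11 (nat_lit 143) (nat_lit 123) (nat_lit 3) (nat_lit 4) (nat_lit 7) L60935 (by decide +kernel)
theorem L60937 : W_11 (nat_lit 4) (nat_lit 0x2000000012000f0000000000000000000000000000000) (nat_lit 0x0) (nat_lit 0x4000000010000800008001c00000000000000000000000000) := T_11 (nat_lit 107) (nat_lit 106) (nat_lit 0) (nat_lit 8) (nat_lit 7) L60936 (by decide +kernel)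
theorem L60938 : W_11 (nat_lit 5) (nat_lit 0x2000000012000b0000000000000000000000000000000) (nat_lit 0x0) (nat_lit 0x4000000010000900048001c00000000000000000000000000) := T_11 (nat_lit 126) (nat_lit 140) (nat_lit 1) (nat_lit 8) (nat_lit 7) L60937 (by decide +kernel)
theorem L60939 : W_11 (nat_lit 2) (nat_lit 0x200000001a001f0000000000000000000000000000000) (nat_lit 0x0) (nat_lit 0x4000000010000000000001000000000000000000000000000) := D_11 (nat_lit 160) (nat_lit 108) (nat_lit 194) (nat_lit 4) (nat_lit 7) (nat_lit 10) (nat_lit 6) (nat_lit 7) (nat_lit 11) (by decide +kernel)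
theorem L60940 : W_11 (nat_lit 3) (nat_lit 0x2000000012001f0000000000000000000000000000000) (nat_lit 0x0) (nat_lit 0x4000000010000800008001000000000000000000000000000) := T_11 (nat_lit 143) (nat_lit 123) (nat_lit 3) (nat_lit 4) (nat_lit 7) L60939 (by decide +kernel)
theorem L60941 : W_11 (nat_lit 4) (nat_lit 0x2000000012000f0000000000000000000000000000000) (nat_lit 0x0) (nat_lit 0x4000000010000c00108001000000000000000000000000000) := T_11 (nat_lit 128) (nat_lit 142) (nat_lit 1) (nat_lit 9) (nat_lit 7) L60940 (by decide +kernel)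
theorem L60942 : W_11 (nat_lit 5) (nat_lit 0x2000000012000b0000000000000000000000000000000) (nat_lit 0x0) (nat_lit 0x4000000010000d00148001000000000000000000000000000) := T_11 (nat_lit 126) (nat_lit 140) (nat_lit 1) (nat_lit 8) (nat_lit 7) L60941 (by decide +kernel)
theorem L60943 : W_11 (nat_lit 6) (nat_lit 0x4000200000001a000b0000000000000000000000000000000) (nat_lit 0x0) (nat_lit 0x748039c00000000000000000000000000) := T_11 (nat_lit 126) (nat_lit 123) (nat_lit 3) (nat_lit 4) (nat_lit 7) L31837 (by decide +kernel)
theorem L60944 : W_11 (nat_lit 7) (nat_lit 0x200000001a000b0000000000000000000000000000000) (nat_lit 0x0) (nat_lit 0x4000000010000000748039c00000000000000000000000000) := T_11 (nat_lit 194) (nat_lit 160) (nat_lit 6) (nat_lit 7) (nat_lit 11) L60943 (by decide +kernel)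
theorem L60945 : W_11 (nat_lit 8) (nat_lit 0x2000000012000b0000000000000000000000000000000) (nat_lit 0x0) (nat_lit 0x4000000010000c00748039c00080000000000000000000000) := Q_11 (nat_lit 143) (C_11 L60944 (C_11 L32879 (C_11 L32880 (C_11 L31878 N_11)))) (by decide +kernel)
theorem L60946 : W_11 (nat_lit 4) (nat_lit 0x200000001a001f0000800000000000000000000000000) (nat_lit 0x0) (nat_lit 0x4000000010000000600038000000000000000000000000000) := T_11 (nat_lit 194) (nat_lit 160) (nat_lit 6) (nat_lit 7) (nat_lit 11) L31835 (by decide +kernel)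
theorem L60947 : W_11 (nat_lit 5) (nat_lit 0x200000001a000f0000800000000000000000000000000) (nat_lit 0x0) (nat_lit 0x4000000010000400700038000000000000000000000000000) := T_11 (nat_lit 128) (nat_lit 142) (nat_lit 2) (nat_lit 5) (nat_lit 8) L60946 (by decide +kernel)
theorem L60948 : W_11 (nat_lit 6) (nat_lit 0x2000000012000f0000800000000000000000000000000) (nat_lit 0x0) (nat_lit 0x4000000010000c00708038000000000000000000000000000) := T_11 (nat_lit 143) (nat_lit 123) (nat_lit 3) (nat_lit 4) (nat_lit 7) L60947 (by decide +kernel)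
theorem L60949 : W_11 (nat_lit 7) (nat_lit 0x2000000012000f0000000000000000000000000000000) (nat_lit 0x0) (nat_lit 0x4000000010000c00708038c00000000000000000000000000) := T_11 (nat_lit 107) (nat_lit 106) (nat_lit 0) (nat_lit 8) (nat_lit 7) L60948 (by decide +kernel)
theorem L60950 : W_11 (nat_lit 8) (nat_lit 0x2000000012000b0000000000000000000000000000000) (nat_lit 0x0) (nat_lit 0x4000000010000d00748038c00000000000000000000000000) := T_11 (nat_lit 126) (nat_lit 140) (nat_lit 1) (nat_lit 8) (nat_lit 7) L60949 (by decide +kernel)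
theorem L60951 : W_11 (nat_lit 12) (nat_lit 0x200000001200090000000000000000000000000000000) (nat_lit 0x0) (nat_lit 0x5000f8001c0034000d0076e03bf003f80078003c0014000000000) := Q_11 (nat_lit 125) (C_11 L60926 (C_11 L60929 (C_11 L60934 (C_11 L60938 (C_11 L60942 (C_11 L60945 (C_11 L60950 N_11))))))) (by decide +kernel)
theorem L60952 : W_11 (nat_lit 3) (nat_lit 0x4000280004001a00090000000000000000000000000000000) (nat_lit 0x0) (nat_lit 0xa800140000000000000000000000000000000000000000000) := T_11 (nat_lit 176) (nat_lit 193) (nat_lit 7) (nat_lit 5) (nat_lit 7) L32763 (by decide +kernel)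
theorem L60953 : W_11 (nat_lit 4) (nat_lit 0x280004001a00090000000000000000000000000000000) (nat_lit 0x0) (nat_lit 0xe800140010000000000000000000000000000000000000000) := T_11 (nat_lit 194) (nat_lit 160) (nat_lit 6) (nat_lit 7) (nat_lit 11) L60952 (by decide +kernel)
theorem L60954 : W_11 (nat_lit 2) (nat_lit 0x280004001a000b0000000000000000000000000000000) (nat_lit 0x0) (nat_lit 0x48000400000000000000000000000000) := D_11 (nat_lit 123) (nat_lit 126) (nat_lit 106) (nat_lit 3) (nat_lit 4) (nat_lit 7) (nat_lit 4) (nat_lit 5) (nat_lit 10) (by decide +kernel)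
theorem L60955 : W_11 (nat_lit 3) (nat_lit 0x280004001a00090000000000000000000000000000000) (nat_lit 0x0) (nat_lit 0x68001400000000000000000000000000) := T_11 (nat_lit 125) (nat_lit 108) (nat_lit 6) (nat_lit 5) (nat_lit 10) L60954 (by decide +kernel)
theorem L60956 : W_11 (nat_lit 5) (nat_lit 0x280000001a00090000000000000000000000000000000) (nat_lit 0x0) (nat_lit 0xe800140014000000068001400000000000000000000000000) := Q_11 (nat_lit 158) (C_11 L60953 (C_11 L60955 N_11)) (by decide +kernel)
theorem L60957 : W_11 (nat_lit 2) (nat_lit 0x40003c0006001b000be000000000000000000000000000000) (nat_lit 0x0) (nat_lit 0xe0000000000000000000000000000000000) := D_11 (nat_lit 138) (nat_lit 137) (nat_lit 139) (nat_lit 1) (nat_lit 5) (nat_lit 7) (nat_lit 2) (nat_lit 2) (nat_lit 8) (by decide +kernel)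
theorem L60958 : W_11 (nat_lit 3) (nat_lit 0x40003c0006001b000bc000000000000000000000000000000) (nat_lit 0x0) (nat_lit 0xe0003000000000000000000000000000000) := T_11 (nat_lit 121) (nat_lit 120) (nat_lit 3) (nat_lit 1) (nat_lit 7) L60957 (by decide +kernel)
theorem L60959 : W_11 (nat_lit 4) (nat_lit 0x40003c0006001b000b8000000000000000000000000000000) (nat_lit 0x0) (nat_lit 0xe0007000200000000000000000000000000) := T_11 (nat_lit 122) (nat_lit 105) (nat_lit 4) (nat_lit 4) (nat_lit 10) L60958 (by decide +kernel)
theorem L60960 : W_11 (nat_lit 5) (nat_lit 0x40003c0006001a000b8000000000000000000000000000000) (nat_lit 0x0) (nat_lit 0x10000000000001e0007000200000000000000000000000000) := T_11 (nat_lit 140) (nat_lit 192) (nat_lit 7) (nat_lit 4) (nat_lit 7) L60959 (by decide +kernel)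
theorem L60961 : W_11 (nat_lit 6) (nat_lit 0x40003c0006001a000b0000000000000000000000000000000) (nat_lit 0x0) (nat_lit 0x10000000000001e000f000600000000000000000000000000) := T_11 (nat_lit 123) (nat_lit 106) (nat_lit 4) (nat_lit 5) (nat_lit 10) L60960 (by decide +kernel)
theorem L60962 : W_11 (nat_lit 7) (nat_lit 0x40003c0004001a000b0000000000000000000000000000000) (nat_lit 0x0) (nat_lit 0x10000000030001e000f000600000000000000000000000000) := T_11 (nat_lit 157) (nat_lit 156) (nat_lit 0) (nat_lit 7) (nat_lit 10) L60961 (by decide +kernel)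
theorem L60963 : W_11 (nat_lit 8) (nat_lit 0x3c0004001a000b0000000000000000000000000000000) (nat_lit 0x0) (nat_lit 0xd0000000030001e000f000600000000000000000000000000) := T_11 (nat_lit 194) (nat_lit 195) (nat_lit 3) (nat_lit 4) (nat_lit 10) L60962 (by decide +kernel)
theorem L60964 : W_11 (nat_lit 9) (nat_lit 0x380004001a000b0000000000000000000000000000000) (nat_lit 0x0) (nat_lit 0xd8000400030001e000f000600000000000000000000000000) := T_11 (nat_lit 174) (nat_lit 191) (nat_lit 5) (nat_lit 5) (nat_lit 7) L60963 (by decide +kernel)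
theorem L60965 : W_11 (nat_lit 10) (nat_lit 0x380004001a00090000000000000000000000000000000) (nat_lit 0x0) (nat_lit 0xd8000400030001e002f001600000000000000000000000000) := T_11 (nat_lit 125) (nat_lit 108) (nat_lit 6) (nat_lit 5) (nat_lit 10) L60964 (by decide +kernel)
theorem L60966 : W_11 (nat_lit 11) (nat_lit 0x280004001a00090000000000000000000000000000000) (nat_lit 0x0) (nat_lit 0xf8001400030001e002f001600000000000000000000000000) := T_11 (nat_lit 176) (nat_lit 193) (nat_lit 7) (nat_lit 5) (nat_lit 7) L60965 (by decide +kernel)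
theorem L60967 : W_11 (nat_lit 8) (nat_lit 0x280004001a00090000000000000000000000000000000) (nat_lit 0x0) (nat_lit 0x20007000f800000010000100028001400000000000000000000000000) := T_11 (nat_lit 123) (nat_lit 106) (nat_lit 4) (nat_lit 5) (nat_lit 10) L60751 (by decide +kernel)
theorem L60968 : W_11 (nat_lit 2) (nat_lit 0x1000380004001a000b8000000000000000000000000000000) (nat_lit 0x0) (nat_lit 0x10000800040000000000000000000000000000000000000000000) := D_11 (nat_lit 191) (nat_lit 174) (nat_lit 208) (nat_lit 5) (nat_lit 5) (nat_lit 7) (nat_lit 5) (nat_lit 5) (nat_lit 8) (by decide +kernel)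
theorem L60969 : W_11 (nat_lit 3) (nat_lit 0x380004001a000b8000000000000000000000000000000) (nat_lit 0x0) (nat_lit 0x10001800040000000100000000000000000000000000000000000) := T_11 (nat_lit 192) (nat_lit 140) (nat_lit 4) (nat_lit 5) (nat_lit 11) L60968 (by decide +kernel)
theorem L60970 : W_11 (nat_lit 4) (nat_lit 0x380004001a00098000000000000000000000000000000) (nat_lit 0x0) (nat_lit 0x10001800040000000100020001000000000000000000000000000) := T_11 (nat_lit 125) (nat_lit 108) (nat_lit 6) (nat_lit 5) (nat_lit 10) L60969 (by decide +kernel)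
theorem L60971 : W_11 (nat_lit 5) (nat_lit 0x380004001a00090000000000000000000000000000000) (nat_lit 0x0) (nat_lit 0x10001800040000000100028001400000000000000000000000000) := T_11 (nat_lit 123) (nat_lit 106) (nat_lit 4) (nat_lit 5) (nat_lit 10) L60970 (by decide +kernel)
theorem L60972 : W_11 (nat_lit 6) (nat_lit 0x280004001a00090000000000000000000000000000000) (nat_lit 0x0) (nat_lit 0x10003800140000000100028001400000000000000000000000000) := T_11 (nat_lit 176) (nat_lit 193) (nat_lit 7) (nat_lit 5) (nat_lit 7) L60971 (by decide +kernel)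
theorem L60973 : W_11 (nat_lit 7) (nat_lit 0x40003c0006001a00090000000000000000000000000000000) (nat_lit 0x0) (nat_lit 0x10000000000001e002f001600000000000000000000000000) := T_11 (nat_lit 125) (nat_lit 108) (nat_lit 6) (nat_lit 5) (nat_lit 10) L60961 (by decide +kernel)
theorem L60974 : W_11 (nat_lit 8) (nat_lit 0x40003c0004001a00090000000000000000000000000000000) (nat_lit 0x0) (nat_lit 0x10000000030001e002f001600000000000000000000000000) := T_11 (nat_lit 157) (nat_lit 156) (nat_lit 0) (nat_lit 7) (nat_lit 10) L60973 (by decide +kernel)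
theorem L60975 : W_11 (nat_lit 9) (nat_lit 0x40002c0004001a00090000000000000000000000000000000) (nat_lit 0x0) (nat_lit 0x90001000030001e002f001600000000000000000000000000) := T_11 (nat_lit 176) (nat_lit 195) (nat_lit 3) (nat_lit 4) (nat_lit 10) L60974 (by decide +kernel)
theorem L60976 : W_11 (nat_lit 10) (nat_lit 0x2c0004001a00090000000000000000000000000000000) (nat_lit 0x0) (nat_lit 0xd0001000130001e002f001600000000000000000000000000) := T_11 (nat_lit 194) (nat_lit 160) (nat_lit 6) (nat_lit 7) (nat_lit 11) L60975 (by decide +kernel)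
theorem L60977 : W_11 (nat_lit 11) (nat_lit 0x280004001a00090000000000000000000000000000000) (nat_lit 0x0) (nat_lit 0xd8001400130001e002f001600000000000000000000000000) := T_11 (nat_lit 174) (nat_lit 191) (nat_lit 5) (nat_lit 5) (nat_lit 7) L60976 (by decide +kernel)
theorem L60978 : W_11 (nat_lit 5) (nat_lit 0x40003c0006001b00098000000000000000000000000000000) (nat_lit 0x0) (nat_lit 0xe0027001200000000000000000000000000) := T_11 (nat_lit 125) (nat_lit 108) (nat_lit 6) (nat_lit 5) (nat_lit 10) L60959 (by decide +kernel)
theorem L60979 : W_11 (nat_lit 6) (nat_lit 0x40003c0004001b00098000000000000000000000000000000) (nat_lit 0x0) (nat_lit 0x30000e0027001200000000000000000000000000) := T_11 (nat_lit 157) (nat_lit 156) (nat_lit 0) (nat_lit 7) (nat_lit 10) L60978 (by decide +kernel)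
theorem L60980 : W_11 (nat_lit 7) (nat_lit 0x4000380004001b00098000000000000000000000000000000) (nat_lit 0x0) (nat_lit 0x80000400030000e0027001200000000000000000000000000) := T_11 (nat_lit 174) (nat_lit 195) (nat_lit 3) (nat_lit 4) (nat_lit 10) L60979 (by decide +kernel)
theorem L60981 : W_11 (nat_lit 8) (nat_lit 0x380004001b00098000000000000000000000000000000) (nat_lit 0x0) (nat_lit 0xc0000400130000e0027001200000000000000000000000000) := T_11 (nat_lit 194) (nat_lit 160) (nat_lit 6) (nat_lit 7) (nat_lit 11) L60980 (by decide +kernel)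
theorem L60982 : W_11 (nat_lit 9) (nat_lit 0x380004001a00098000000000000000000000000000000) (nat_lit 0x0) (nat_lit 0xd0000400130001e0027001200000000000000000000000000) := T_11 (nat_lit 140) (nat_lit 192) (nat_lit 4) (nat_lit 5) (nat_lit 11) L60981 (by decide +kernel)
theorem L60983 : W_11 (nat_lit 10) (nat_lit 0x280004001a00098000000000000000000000000000000) (nat_lit 0x0) (nat_lit 0xf0001400130001e0027001200000000000000000000000000) := T_11 (nat_lit 176) (nat_lit 193) (nat_lit 7) (nat_lit 5) (nat_lit 7) L60982 (by decide +kernel)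
theorem L60984 : W_11 (nat_lit 11) (nat_lit 0x280004001a00090000000000000000000000000000000) (nat_lit 0x0) (nat_lit 0xf0001400130001e002f001600000000000000000000000000) := T_11 (nat_lit 123) (nat_lit 106) (nat_lit 4) (nat_lit 5) (nat_lit 10) L60983 (by decide +kernel)
theorem L60985 : W_11 (nat_lit 12) (nat_lit 0x280000001a00090000000000000000000000000000000) (nat_lit 0x0) (nat_lit 0x20007000f8001400170001e002f001600000000000000000000000000) := Q_11 (nat_lit 158) (C_11 L60953 (C_11 L60966 (C_11 L60967 (C_11 L60972 (C_11 L60977 (C_11 L60984 N_11)))))) (by decide +kernel)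
theorem L60986 : W_11 (nat_lit 2) (nat_lit 0x44003e0005001a00098000000000000000000000000000000) (nat_lit 0x0) (nat_lit 0x1000000000000180000000000000000000000000000000000) := D_11 (nat_lit 140) (nat_lit 192) (nat_lit 139) (nat_lit 4) (nat_lit 5) (nat_lit 11) (nat_lit 6) (nat_lit 3) (nat_lit 11) (by decide +kernel)
theorem L60987 : W_11 (nat_lit 3) (nat_lit 0x40003e0005001a00098000000000000000000000000000000) (nat_lit 0x0) (nat_lit 0x1600000000000180000000000000000000000000000000000) := T_11 (nat_lit 190) (nat_lit 189) (nat_lit 1) (nat_lit 6) (nat_lit 10) L60986 (by decide +kernel)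
theorem L60988 : W_11 (nat_lit 4) (nat_lit 0x40003e0005001a00090000000000000000000000000000000) (nat_lit 0x0) (nat_lit 0x1600000000000180008000400000000000000000000000000) := T_11 (nat_lit 123) (nat_lit 106) (nat_lit 4) (nat_lit 5) (nat_lit 10) L60987 (by decide +kernel)
theorem L60989 : W_11 (nat_lit 5) (nat_lit 0x40003c0005001a00090000000000000000000000000000000) (nat_lit 0x0) (nat_lit 0x1600020000800180008000400000000000000000000000000) := T_11 (nat_lit 173) (nat_lit 155) (nat_lit 0) (nat_lit 6) (nat_lit 10) L60988 (by decide +kernel)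
theorem L60990 : W_11 (nat_lit 6) (nat_lit 0x40003c0004001a00090000000000000000000000000000000) (nat_lit 0x0) (nat_lit 0x1600020003800180008000400000000000000000000000000) := T_11 (nat_lit 156) (nat_lit 157) (nat_lit 0) (nat_lit 7) (nat_lit 10) L60989 (by decide +kernel)
theorem L60991 : W_11 (nat_lit 7) (nat_lit 0x3c0004001a00090000000000000000000000000000000) (nat_lit 0x0) (nat_lit 0xd600020003800180008000400000000000000000000000000) := T_11 (nat_lit 194) (nat_lit 195) (nat_lit 3) (nat_lit 4) (nat_lit 10) L60990 (by decide +kernel)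
theorem L60992 : W_11 (nat_lit 8) (nat_lit 0x380004001a00090000000000000000000000000000000) (nat_lit 0x0) (nat_lit 0xde00060003800180008000400000000000000000000000000) := T_11 (nat_lit 174) (nat_lit 191) (nat_lit 5) (nat_lit 5) (nat_lit 7) L60991 (by decide +kernel)
theorem L60993 : W_11 (nat_lit 9) (nat_lit 0x280004001a00090000000000000000000000000000000) (nat_lit 0x0) (nat_lit 0xfe00160003800180008000400000000000000000000000000) := T_11 (nat_lit 176) (nat_lit 193) (nat_lit 7) (nat_lit 5) (nat_lit 7) L60992 (by decide +kernel)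
theorem L60994 : W_11 (nat_lit 7) (nat_lit 0x280004001a00090000000000000000000000000000000) (nat_lit 0x0) (nat_lit 0x20007000f800100010000000008000400000000000000000000000000) := T_11 (nat_lit 123) (nat_lit 106) (nat_lit 4) (nat_lit 5) (nat_lit 10) L60644 (by decide +kernel)
theorem L60995 : W_11 (nat_lit 2) (nat_lit 0x3e0015001b00098000000000000000000000000000000) (nat_lit 0x0) (nat_lit 0x600000000000080000000000000000000000000000000000) := D_11 (nat_lit 190) (nat_lit 189) (nat_lit 139) (nat_lit 1) (nat_lit 6) (nat_lit 10) (nat_lit 6) (nat_lit 3) (nat_lit 11) (by decide +kernel)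
theorem L60996 : W_11 (nat_lit 3) (nat_lit 0x3e0015001a00098000000000000000000000000000000) (nat_lit 0x0) (nat_lit 0x1600000000000180000000000000000000000000000000000) := T_11 (nat_lit 140) (nat_lit 192) (nat_lit 4) (nat_lit 5) (nat_lit 11) L60995 (by decide +kernel)
theorem L60997 : W_11 (nat_lit 4) (nat_lit 0x3c0015001a00098000000000000000000000000000000) (nat_lit 0x0) (nat_lit 0x1600020000800180000000000000000000000000000000000) := T_11 (nat_lit 173) (nat_lit 155) (nat_lit 0) (nat_lit 6) (nat_lit 10) L60996 (by decide +kernel)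
theorem L60998 : W_11 (nat_lit 5) (nat_lit 0x3c0014001a00098000000000000000000000000000000) (nat_lit 0x0) (nat_lit 0x1600020003800180000000000000000000000000000000000) := T_11 (nat_lit 156) (nat_lit 157) (nat_lit 0) (nat_lit 7) (nat_lit 10) L60997 (by decide +kernel)
theorem L60999 : W_11 (nat_lit 6) (nat_lit 0x3c0004001a00098000000000000000000000000000000) (nat_lit 0x0) (nat_lit 0x1600020033800180000000000000000000000000000000000) := T_11 (nat_lit 160) (nat_lit 161) (nat_lit 2) (nat_lit 4) (nat_lit 10) L60998 (by decide +kernel)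
theorem L61000 : W_11 (nat_lit 7) (nat_lit 0x380004001a00098000000000000000000000000000000) (nat_lit 0x0) (nat_lit 0x1e00060033800180000000000000000000000000000000000) := T_11 (nat_lit 174) (nat_lit 191) (nat_lit 5) (nat_lit 5) (nat_lit 7) L60999 (by decide +kernel)
theorem L61001 : W_11 (nat_lit 8) (nat_lit 0x380004001a00090000000000000000000000000000000) (nat_lit 0x0) (nat_lit 0x1e00060033800180008000400000000000000000000000000) := T_11 (nat_lit 123) (nat_lit 106) (nat_lit 4) (nat_lit 5) (nat_lit 10) L61000 (by decide +kernel)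
theorem L61002 : W_11 (nat_lit 9) (nat_lit 0x280004001a00090000000000000000000000000000000) (nat_lit 0x0) (nat_lit 0x3e00160033800180008000400000000000000000000000000) := T_11 (nat_lit 176) (nat_lit 193) (nat_lit 7) (nat_lit 5) (nat_lit 7) L61001 (by decide +kernel)
theorem L61003 : W_11 (nat_lit 4) (nat_lit 0x280004001a00090000000000000000000000000000000) (nat_lit 0x0) (nat_lit 0x10001800040000000100008000400000000000000000000000000) := T_11 (nat_lit 123) (nat_lit 106) (nat_lit 4) (nat_lit 5) (nat_lit 10) L33438 (by decide +kernel)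
theorem L61004 : W_11 (nat_lit 4) (nat_lit 0x4000280004001a00090000000000000000000000000000000) (nat_lit 0x0) (nat_lit 0x40003000100000000100008000400000000000000000000000000) := T_11 (nat_lit 123) (nat_lit 106) (nat_lit 4) (nat_lit 5) (nat_lit 10) L60725 (by decide +kernel)
theorem L61005 : W_11 (nat_lit 5) (nat_lit 0x280004001a00090000000000000000000000000000000) (nat_lit 0x0) (nat_lit 0x40007000100010000100008000400000000000000000000000000) := T_11 (nat_lit 194) (nat_lit 160) (nat_lit 6) (nat_lit 7) (nat_lit 11) L61004 (by decide +kernel)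
theorem L61006 : W_11 (nat_lit 10) (nat_lit 0x280000001a00090000000000000000000000000000000) (nat_lit 0x0) (nat_lit 0x20007000fe00160037800180008000400000000000000000000000000) := Q_11 (nat_lit 158) (C_11 L60953 (C_11 L60993 (C_11 L60994 (C_11 L61002 (C_11 L61003 (C_11 L61005 N_11)))))) (by decide +kernel)
theorem L61007 : W_11 (nat_lit 2) (nat_lit 0x280010001a000d0000000000000000000000000000000) (nat_lit 0x0) (nat_lit 0x28001000000000000000000000000000) := D_11 (nat_lit 125) (nat_lit 123) (nat_lit 108) (nat_lit 3) (nat_lit 4) (nat_lit 7) (nat_lit 4) (nat_lit 7) (nat_lit 10) (by decide +kernel)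
theorem L61008 : W_11 (nat_lit 3) (nat_lit 0x280000001a000d0000000000000000000000000000000) (nat_lit 0x0) (nat_lit 0x4000000010000000028001000000000000000000000000000) := T_11 (nat_lit 160) (nat_lit 194) (nat_lit 6) (nat_lit 7) (nat_lit 11) L61007 (by decide +kernel)
theorem L61009 : W_11 (nat_lit 2) (nat_lit 0x8003c0010001a000d0000000000000000000000000000000) (nat_lit 0x0) (nat_lit 0x3000100000000000000000000000000000000000) := D_11 (nat_lit 157) (nat_lit 156) (nat_lit 140) (nat_lit 0) (nat_lit 7) (nat_lit 10) (nat_lit 6) (nat_lit 4) (nat_lit 11) (by decide +kernel)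
theorem L61010 : W_11 (nat_lit 3) (nat_lit 0x3c0010001a000d0000000000000000000000000000000) (nat_lit 0x0) (nat_lit 0xc00000003000100000000000000000000000000000000000) := T_11 (nat_lit 191) (nat_lit 190) (nat_lit 1) (nat_lit 7) (nat_lit 10) L61009 (by decide +kernel)
theorem L61011 : W_11 (nat_lit 4) (nat_lit 0x380010001a000d0000000000000000000000000000000) (nat_lit 0x0) (nat_lit 0xc00040023000100000000000000000000000000000000000) := T_11 (nat_lit 174) (nat_lit 161) (nat_lit 2) (nat_lit 4) (nat_lit 10) L61010 (by decide +kernel)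
theorem L61012 : W_11 (nat_lit 5) (nat_lit 0x280010001a000d0000000000000000000000000000000) (nat_lit 0x0) (nat_lit 0x2c00140023000100000000000000000000000000000000000) := T_11 (nat_lit 176) (nat_lit 193) (nat_lit 5) (nat_lit 7) (nat_lit 7) L61011 (by decide +kernel)
theorem L61013 : W_11 (nat_lit 6) (nat_lit 0x280000001a000d0000000000000000000000000000000) (nat_lit 0x0) (nat_lit 0x6c00140033000100000000000000000000000000000000000) := T_11 (nat_lit 160) (nat_lit 194) (nat_lit 6) (nat_lit 7) (nat_lit 11) L61012 (by decide +kernel)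
theorem L61014 : W_11 (nat_lit 2) (nat_lit 0x280000001a000d0000000000000000000000000000000) (nat_lit 0x0) (nat_lit 0x100028000000000000000000000000000000) := D_11 (nat_lit 125) (nat_lit 123) (nat_lit 140) (nat_lit 3) (nat_lit 4) (nat_lit 7) (nat_lit 1) (nat_lit 8) (nat_lit 7) (by decide +kernel)
theorem L61015 : W_11 (nat_lit 7) (nat_lit 0x280000001a00090000000000000000000000000000000) (nat_lit 0x0) (nat_lit 0x6c00140033000100068001000000000000000000000000000) := Q_11 (nat_lit 126) (C_11 L61008 (C_11 L61013 (C_11 L61014 N_11))) (by decide +kernel)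
theorem L61016 : W_11 (nat_lit 2) (nat_lit 0x380004001a000b0000000000000000000000000000000) (nat_lit 0x0) (nat_lit 0x100048000000000000000000000000000000) := D_11 (nat_lit 126) (nat_lit 123) (nat_lit 140) (nat_lit 3) (nat_lit 4) (nat_lit 7) (nat_lit 1) (nat_lit 8) (nat_lit 7) (by decide +kernel)
theorem L61017 : W_11 (nat_lit 3) (nat_lit 0x380004001a00090000000000000000000000000000000) (nat_lit 0x0) (nat_lit 0x100068001000000000000000000000000000) := T_11 (nat_lit 125) (nat_lit 108) (nat_lit 6) (nat_lit 5) (nat_lit 10) L61016 (by decide +kernel)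
theorem L61018 : W_11 (nat_lit 4) (nat_lit 0x280004001a00090000000000000000000000000000000) (nat_lit 0x0) (nat_lit 0x2000100000000100068001000000000000000000000000000) := T_11 (nat_lit 176) (nat_lit 193) (nat_lit 7) (nat_lit 5) (nat_lit 7) L61017 (by decide +kernel)
theorem L61019 : W_11 (nat_lit 2) (nat_lit 0x42003e0005001b800b0000000000000000000000000000000) (nat_lit 0x0) (nat_lit 0x100010000000000004000000000000000000000000000000) := D_11 (nat_lit 172) (nat_lit 188) (nat_lit 122) (nat_lit 1) (nat_lit 5) (nat_lit 10) (nat_lit 5) (nat_lit 3) (nat_lit 7) (by decide +kernel)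
theorem L61020 : W_11 (nat_lit 3) (nat_lit 0x42003e0005001b000b0000000000000000000000000000000) (nat_lit 0x0) (nat_lit 0x1000100000000c0004000000000000000000000000000000) := T_11 (nat_lit 139) (nat_lit 138) (nat_lit 2) (nat_lit 2) (nat_lit 8) L61019 (by decide +kernel)
theorem L61021 : W_11 (nat_lit 4) (nat_lit 0x40003e0005001b000b0000000000000000000000000000000) (nat_lit 0x0) (nat_lit 0x7000100000000c0004000000000000000000000000000000) := T_11 (nat_lit 189) (nat_lit 190) (nat_lit 1) (nat_lit 6) (nat_lit 10) L61020 (by decide +kernel)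
theorem L61022 : W_11 (nat_lit 5) (nat_lit 0x40003e0005001a000b0000000000000000000000000000000) (nat_lit 0x0) (nat_lit 0x7000100000001c0044000000000000000000000000000000) := T_11 (nat_lit 140) (nat_lit 126) (nat_lit 1) (nat_lit 8) (nat_lit 7) L61021 (by decide +kernel)
theorem L61023 : W_11 (nat_lit 6) (nat_lit 0x40003e0005001a00090000000000000000000000000000000) (nat_lit 0x0) (nat_lit 0x7000100000001c0064001000000000000000000000000000) := T_11 (nat_lit 125) (nat_lit 108) (nat_lit 6) (nat_lit 5) (nat_lit 10) L61022 (by decide +kernel)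
theorem L61024 : W_11 (nat_lit 7) (nat_lit 0x40003c0005001a00090000000000000000000000000000000) (nat_lit 0x0) (nat_lit 0x7000300008001c0064001000000000000000000000000000) := T_11 (nat_lit 173) (nat_lit 155) (nat_lit 0) (nat_lit 6) (nat_lit 10) L61023 (by decide +kernel)
theorem L61025 : W_11 (nat_lit 8) (nat_lit 0x40003c0004001a00090000000000000000000000000000000) (nat_lit 0x0) (nat_lit 0x7000300038001c0064001000000000000000000000000000) := T_11 (nat_lit 156) (nat_lit 157) (nat_lit 0) (nat_lit 7) (nat_lit 10) L61024 (by decide +kernel)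
theorem L61026 : W_11 (nat_lit 9) (nat_lit 0x3c0004001a00090000000000000000000000000000000) (nat_lit 0x0) (nat_lit 0xc7000300038001c0064001000000000000000000000000000) := T_11 (nat_lit 194) (nat_lit 195) (nat_lit 3) (nat_lit 4) (nat_lit 10) L61025 (by decide +kernel)
theorem L61027 : W_11 (nat_lit 10) (nat_lit 0x2c0004001a00090000000000000000000000000000000) (nat_lit 0x0) (nat_lit 0xe7001300038001c0064001000000000000000000000000000) := T_11 (nat_lit 176) (nat_lit 193) (nat_lit 7) (nat_lit 5) (nat_lit 7) L61026 (by decide +kernel)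
theorem L61028 : W_11 (nat_lit 11) (nat_lit 0x280004001a00090000000000000000000000000000000) (nat_lit 0x0) (nat_lit 0xef001700038001c0064001000000000000000000000000000) := T_11 (nat_lit 174) (nat_lit 191) (nat_lit 5) (nat_lit 5) (nat_lit 7) L61027 (by decide +kernel)
theorem L61029 : W_11 (nat_lit 12) (nat_lit 0x280000001a00090000000000000000000000000000000) (nat_lit 0x0) (nat_lit 0x1000ff001700078001c006c001400000000000000000000000000) := Q_11 (nat_lit 158) (C_11 L60955 (C_11 L61003 (C_11 L61018 (C_11 L61028 N_11)))) (by decide +kernel)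
theorem L61030 : W_11 (nat_lit 2) (nat_lit 0x4000280000001a000b8000000000000000000000000000000) (nat_lit 0x0) (nat_lit 0x4000000000001400000000000000000000000000) := D_11 (nat_lit 158) (nat_lit 108) (nat_lit 106) (nat_lit 6) (nat_lit 5) (nat_lit 10) (nat_lit 4) (nat_lit 5) (nat_lit 10) (by decide +kernel)
theorem L61031 : W_11 (nat_lit 3) (nat_lit 0x4000280000001a000b0000000000000000000000000000000) (nat_lit 0x0) (nat_lit 0x4000000048001400000000000000000000000000) := T_11 (nat_lit 123) (nat_lit 126) (nat_lit 3) (nat_lit 4) (nat_lit 7) L61030 (by decide +kernel)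
theorem L61032 : W_11 (nat_lit 4) (nat_lit 0x280000001a000b0000000000000000000000000000000) (nat_lit 0x0) (nat_lit 0x4000000014000000048001400000000000000000000000000) := T_11 (nat_lit 194) (nat_lit 160) (nat_lit 6) (nat_lit 7) (nat_lit 11) L61031 (by decide +kernel)
theorem L61033 : W_11 (nat_lit 7) (nat_lit 0x280004001a000b0000000000000000000000000000000) (nat_lit 0x0) (nat_lit 0x20007000f800000010000100008000400000000000000000000000000) := T_11 (nat_lit 123) (nat_lit 106) (nat_lit 4) (nat_lit 5) (nat_lit 10) L60750 (by decide +kernel)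
theorem L61034 : W_11 (nat_lit 8) (nat_lit 0x280000001a000b0000000000000000000000000000000) (nat_lit 0x0) (nat_lit 0x20007000f800000014000100008001400000000000000000000000000) := T_11 (nat_lit 158) (nat_lit 108) (nat_lit 6) (nat_lit 5) (nat_lit 10) L61033 (by decide +kernel)
theorem L61035 : W_11 (nat_lit 2) (nat_lit 0x280000001a000b0000000000000000000000000000000) (nat_lit 0x0) (nat_lit 0x100048000000000000000000000000000000) := D_11 (nat_lit 126) (nat_lit 123) (nat_lit 140) (nat_lit 3) (nat_lit 4) (nat_lit 7) (nat_lit 1) (nat_lit 8) (nat_lit 7) (by decide +kernel)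
theorem L61036 : W_11 (nat_lit 2) (nat_lit 0x10007000280004001a000f0000000000000000000000000000000) (nat_lit 0x0) (nat_lit 0x200020008000000000000000000000000000000000000000000000000) := D_11 (nat_lit 209) (nat_lit 195) (nat_lit 225) (nat_lit 1) (nat_lit 8) (nat_lit 11) (nat_lit 5) (nat_lit 5) (nat_lit 9) (by decide +kernel)
theorem L61037 : W_11 (nat_lit 3) (nat_lit 0x7000280004001a000f0000000000000000000000000000000) (nat_lit 0x0) (nat_lit 0x200030008800000000000000000000000000000000000000000000000) := T_11 (nat_lit 208) (nat_lit 191) (nat_lit 5) (nat_lit 5) (nat_lit 8) L61036 (by decide +kernel)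
theorem L61038 : W_11 (nat_lit 4) (nat_lit 0x6000280004001a000f0000000000000000000000000000000) (nat_lit 0x0) (nat_lit 0x200070009800000000000000000000000000000000000000000000000) := T_11 (nat_lit 192) (nat_lit 210) (nat_lit 7) (nat_lit 5) (nat_lit 8) L61037 (by decide +kernel)
theorem L61039 : W_11 (nat_lit 5) (nat_lit 0x2000280004001a000f0000000000000000000000000000000) (nat_lit 0x0) (nat_lit 0x20007000d800000010000000000000000000000000000000000000000) := T_11 (nat_lit 194) (nat_lit 160) (nat_lit 6) (nat_lit 7) (nat_lit 11) L61038 (by decide +kernel)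
theorem L61040 : W_11 (nat_lit 6) (nat_lit 0x280004001a000f0000000000000000000000000000000) (nat_lit 0x0) (nat_lit 0x20007000f800100010000000000000000000000000000000000000000) := T_11 (nat_lit 193) (nat_lit 176) (nat_lit 7) (nat_lit 5) (nat_lit 7) L61039 (by decide +kernel)
theorem L61041 : W_11 (nat_lit 7) (nat_lit 0x280004001a000b0000000000000000000000000000000) (nat_lit 0x0) (nat_lit 0x20007000f800100010000100040000000000000000000000000000000) := T_11 (nat_lit 126) (nat_lit 140) (nat_lit 1) (nat_lit 8) (nat_lit 7) L61040 (by decide +kernel)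
theorem L61042 : W_11 (nat_lit 8) (nat_lit 0x280000001a000b0000000000000000000000000000000) (nat_lit 0x0) (nat_lit 0x20007000f800100014000100040001000000000000000000000000000) := T_11 (nat_lit 158) (nat_lit 108) (nat_lit 6) (nat_lit 5) (nat_lit 10) L61041 (by decide +kernel)
theorem L61043 : W_11 (nat_lit 9) (nat_lit 0x280000001a00090000000000000000000000000000000) (nat_lit 0x0) (nat_lit 0x20007000f800100014000100068001400000000000000000000000000) := Q_11 (nat_lit 125) (C_11 L61032 (C_11 L61034 (C_11 L61035 (C_11 L61042 N_11)))) (by decide +kernel)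
theorem L61044 : W_11 (nat_lit 2) (nat_lit 0x2003e0015001b800b0000000000000000000000000000000) (nat_lit 0x0) (nat_lit 0x100010000000000004000000000000000000000000000000) := D_11 (nat_lit 172) (nat_lit 188) (nat_lit 122) (nat_lit 1) (nat_lit 5) (nat_lit 10) (nat_lit 5) (nat_lit 3) (nat_lit 7) (by decide +kernel)
theorem L61045 : W_11 (nat_lit 3) (nat_lit 0x3e0015001b800b0000000000000000000000000000000) (nat_lit 0x0) (nat_lit 0x700010000000000004000000000000000000000000000000) := T_11 (nat_lit 189) (nat_lit 190) (nat_lit 1) (nat_lit 6) (nat_lit 10) L61044 (by decide +kernel)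
theorem L61046 : W_11 (nat_lit 4) (nat_lit 0x3c0015001b800b0000000000000000000000000000000) (nat_lit 0x0) (nat_lit 0x700030000800000004000000000000000000000000000000) := T_11 (nat_lit 173) (nat_lit 155) (nat_lit 0) (nat_lit 6) (nat_lit 10) L61045 (by decide +kernel)
theorem L61047 : W_11 (nat_lit 5) (nat_lit 0x3c0015001b000b0000000000000000000000000000000) (nat_lit 0x0) (nat_lit 0x7000300008000c0004000000000000000000000000000000) := T_11 (nat_lit 139) (nat_lit 138) (nat_lit 2) (nat_lit 2) (nat_lit 8) L61046 (by decide +kernel)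
theorem L61048 : W_11 (nat_lit 6) (nat_lit 0x3c0014001b000b0000000000000000000000000000000) (nat_lit 0x0) (nat_lit 0x7000300038000c0004000000000000000000000000000000) := T_11 (nat_lit 156) (nat_lit 157) (nat_lit 0) (nat_lit 7) (nat_lit 10) L61047 (by decide +kernel)
theorem L61049 : W_11 (nat_lit 7) (nat_lit 0x3c0004001b000b0000000000000000000000000000000) (nat_lit 0x0) (nat_lit 0x7000300338000c0004000000000000000000000000000000) := T_11 (nat_lit 160) (nat_lit 161) (nat_lit 2) (nat_lit 4) (nat_lit 10) L61048 (by decide +kernel)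
theorem L61050 : W_11 (nat_lit 8) (nat_lit 0x380004001b000b0000000000000000000000000000000) (nat_lit 0x0) (nat_lit 0xf000700338000c0004000000000000000000000000000000) := T_11 (nat_lit 174) (nat_lit 191) (nat_lit 5) (nat_lit 5) (nat_lit 7) L61049 (by decide +kernel)
theorem L61051 : W_11 (nat_lit 9) (nat_lit 0x380004001a000b0000000000000000000000000000000) (nat_lit 0x0) (nat_lit 0xf000700338001c0044000000000000000000000000000000) := T_11 (nat_lit 140) (nat_lit 126) (nat_lit 1) (nat_lit 8) (nat_lit 7) L61050 (by decide +kernel)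
theorem L61052 : W_11 (nat_lit 10) (nat_lit 0x380004001a00090000000000000000000000000000000) (nat_lit 0x0) (nat_lit 0xf000700338001c0064001000000000000000000000000000) := T_11 (nat_lit 125) (nat_lit 108) (nat_lit 6) (nat_lit 5) (nat_lit 10) L61051 (by decide +kernel)
theorem L61053 : W_11 (nat_lit 11) (nat_lit 0x280004001a00090000000000000000000000000000000) (nat_lit 0x0) (nat_lit 0x2f001700338001c0064001000000000000000000000000000) := T_11 (nat_lit 176) (nat_lit 193) (nat_lit 7) (nat_lit 5) (nat_lit 7) L61052 (by decide +kernel)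
theorem L61054 : W_11 (nat_lit 12) (nat_lit 0x280000001a00090000000000000000000000000000000) (nat_lit 0x0) (nat_lit 0x10003f001700378001c006c001400000000000000000000000000) := Q_11 (nat_lit 158) (C_11 L60955 (C_11 L61018 (C_11 L61003 (C_11 L61053 N_11)))) (by decide +kernel)
theorem L61055 : W_11 (nat_lit 2) (nat_lit 0x20005800280004001b400b0000000000000000000000000000000) (nat_lit 0x0) (nat_lit 0x800040002000000000000000000000000000000000000000000000000) := D_11 (nat_lit 210) (nat_lit 193) (nat_lit 227) (nat_lit 7) (nat_lit 5) (nat_lit 8) (nat_lit 7) (nat_lit 5) (nat_lit 9) (by decide +kernel)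
theorem L61056 : W_11 (nat_lit 3) (nat_lit 0x5800280004001b400b0000000000000000000000000000000) (nat_lit 0x0) (nat_lit 0x800060002000000002000000000000000000000000000000000000000) := T_11 (nat_lit 209) (nat_lit 157) (nat_lit 4) (nat_lit 5) (nat_lit 12) L61055 (by decide +kernel)
theorem L61057 : W_11 (nat_lit 4) (nat_lit 0x4800280004001b400b0000000000000000000000000000000) (nat_lit 0x0) (nat_lit 0x800070003000000002000000000000000000000000000000000000000) := T_11 (nat_lit 192) (nat_lit 208) (nat_lit 5) (nat_lit 5) (nat_lit 8) L61056 (by decide +kernel)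
theorem L61058 : W_11 (nat_lit 5) (nat_lit 0x4800280004001b000b0000000000000000000000000000000) (nat_lit 0x0) (nat_lit 0x8000700030000000020000c0000000000000000000000000000000000) := T_11 (nat_lit 138) (nat_lit 139) (nat_lit 2) (nat_lit 2) (nat_lit 8) L61057 (by decide +kernel)
theorem L61059 : W_11 (nat_lit 6) (nat_lit 0x4000280004001b000b0000000000000000000000000000000) (nat_lit 0x0) (nat_lit 0x8000700038000400020000c0000000000000000000000000000000000) := T_11 (nat_lit 191) (nat_lit 174) (nat_lit 5) (nat_lit 5) (nat_lit 7) L61058 (by decide +kernel)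
theorem L61060 : W_11 (nat_lit 7) (nat_lit 0x4000280000001b000b0000000000000000000000000000000) (nat_lit 0x0) (nat_lit 0x8000700038000400060000c0000001000000000000000000000000000) := T_11 (nat_lit 158) (nat_lit 108) (nat_lit 6) (nat_lit 5) (nat_lit 10) L61059 (by decide +kernel)
theorem L61061 : W_11 (nat_lit 8) (nat_lit 0x4000280000001a000b0000000000000000000000000000000) (nat_lit 0x0) (nat_lit 0x8000700038000400060001c0040001000000000000000000000000000) := T_11 (nat_lit 140) (nat_lit 126) (nat_lit 1) (nat_lit 8) (nat_lit 7) L61060 (by decide +kernel)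
theorem L61062 : W_11 (nat_lit 9) (nat_lit 0x280000001a000b0000000000000000000000000000000) (nat_lit 0x0) (nat_lit 0x8000700078000400160001c0040001000000000000000000000000000) := T_11 (nat_lit 194) (nat_lit 160) (nat_lit 6) (nat_lit 7) (nat_lit 11) L61061 (by decide +kernel)
theorem L61063 : W_11 (nat_lit 10) (nat_lit 0x280000001a00090000000000000000000000000000000) (nat_lit 0x0) (nat_lit 0xa0007000f8000400160001c0068001400000000000000000000000000) := Q_11 (nat_lit 125) (C_11 L61032 (C_11 L61035 (C_11 L61034 (C_11 L61062 N_11)))) (by decide +kernel)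
theorem L61064 : W_11 (nat_lit 8) (nat_lit 0x40002c0004001a000b0000000000000000000000000000000) (nat_lit 0x0) (nat_lit 0x90001000030001e000f000600000000000000000000000000) := T_11 (nat_lit 176) (nat_lit 195) (nat_lit 3) (nat_lit 4) (nat_lit 10) L60962 (by decide +kernel)
theorem L61065 : W_11 (nat_lit 9) (nat_lit 0x4000280004001a000b0000000000000000000000000000000) (nat_lit 0x0) (nat_lit 0x98001400030001e000f000600000000000000000000000000) := T_11 (nat_lit 174) (nat_lit 191) (nat_lit 5) (nat_lit 5) (nat_lit 7) L61064 (by decide +kernel)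
theorem L61066 : W_11 (nat_lit 10) (nat_lit 0x4000280000001a000b0000000000000000000000000000000) (nat_lit 0x0) (nat_lit 0x98001400070001e000f001600000000000000000000000000) := T_11 (nat_lit 158) (nat_lit 108) (nat_lit 6) (nat_lit 5) (nat_lit 10) L61065 (by decide +kernel)
theorem L61067 : W_11 (nat_lit 11) (nat_lit 0x280000001a000b0000000000000000000000000000000) (nat_lit 0x0) (nat_lit 0xd8001400170001e000f001600000000000000000000000000) := T_11 (nat_lit 194) (nat_lit 160) (nat_lit 6) (nat_lit 7) (nat_lit 11) L61066 (by decide +kernel)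
theorem L61068 : W_11 (nat_lit 5) (nat_lit 0x40003c0005001b000b0000000000000000000000000000000) (nat_lit 0x0) (nat_lit 0x7000300008000c0004000000000000000000000000000000) := T_11 (nat_lit 173) (nat_lit 155) (nat_lit 0) (nat_lit 6) (nat_lit 10) L61021 (by decide +kernel)
theorem L61069 : W_11 (nat_lit 6) (nat_lit 0x40003c0004001b000b0000000000000000000000000000000) (nat_lit 0x0) (nat_lit 0x7000300038000c0004000000000000000000000000000000) := T_11 (nat_lit 156) (nat_lit 157) (nat_lit 0) (nat_lit 7) (nat_lit 10) L61068 (by decide +kernel)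
theorem L61070 : W_11 (nat_lit 7) (nat_lit 0x40002c0004001b000b0000000000000000000000000000000) (nat_lit 0x0) (nat_lit 0x87001300038000c0004000000000000000000000000000000) := T_11 (nat_lit 176) (nat_lit 195) (nat_lit 3) (nat_lit 4) (nat_lit 10) L61069 (by decide +kernel)
theorem L61071 : W_11 (nat_lit 8) (nat_lit 0x2c0004001b000b0000000000000000000000000000000) (nat_lit 0x0) (nat_lit 0xc7001300138000c0004000000000000000000000000000000) := T_11 (nat_lit 194) (nat_lit 160) (nat_lit 6) (nat_lit 7) (nat_lit 11) L61070 (by decide +kernel)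
theorem L61072 : W_11 (nat_lit 9) (nat_lit 0x2c0004001a000b0000000000000000000000000000000) (nat_lit 0x0) (nat_lit 0xc7001300138001c0044000000000000000000000000000000) := T_11 (nat_lit 140) (nat_lit 126) (nat_lit 1) (nat_lit 8) (nat_lit 7) L61071 (by decide +kernel)
theorem L61073 : W_11 (nat_lit 10) (nat_lit 0x280004001a000b0000000000000000000000000000000) (nat_lit 0x0) (nat_lit 0xcf001700138001c0044000000000000000000000000000000) := T_11 (nat_lit 174) (nat_lit 191) (nat_lit 5) (nat_lit 5) (nat_lit 7) L61072 (by decide +kernel)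
theorem L61074 : W_11 (nat_lit 11) (nat_lit 0x280000001a000b0000000000000000000000000000000) (nat_lit 0x0) (nat_lit 0xcf001700178001c0044001000000000000000000000000000) := T_11 (nat_lit 158) (nat_lit 108) (nat_lit 6) (nat_lit 5) (nat_lit 10) L61073 (by decide +kernel)
theorem L61075 : W_11 (nat_lit 12) (nat_lit 0x280000001a00090000000000000000000000000000000) (nat_lit 0x0) (nat_lit 0xdf001700178001e006f001600000000000000000000000000) := Q_11 (nat_lit 125) (C_11 L61032 (C_11 L61035 (C_11 L61067 (C_11 L61074 N_11)))) (by decide +kernel)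
theorem L61076 : W_11 (nat_lit 6) (nat_lit 0x2000280004001a000b0000000000000000000000000000000) (nat_lit 0x0) (nat_lit 0x20007000d800000010000100040000000000000000000000000000000) := T_11 (nat_lit 126) (nat_lit 140) (nat_lit 1) (nat_lit 8) (nat_lit 7) L61039 (by decide +kernel)
theorem L61077 : W_11 (nat_lit 7) (nat_lit 0x2000280004001a00090000000000000000000000000000000) (nat_lit 0x0) (nat_lit 0x20007000d800000010000100060001000000000000000000000000000) := T_11 (nat_lit 125) (nat_lit 108) (nat_lit 6) (nat_lit 5) (nat_lit 10) L61076 (by decide +kernel)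
theorem L61078 : W_11 (nat_lit 8) (nat_lit 0x280004001a00090000000000000000000000000000000) (nat_lit 0x0) (nat_lit 0x20007000f800100010000100060001000000000000000000000000000) := T_11 (nat_lit 193) (nat_lit 176) (nat_lit 7) (nat_lit 5) (nat_lit 7) L61077 (by decide +kernel)
theorem L61079 : W_11 (nat_lit 2) (nat_lit 0x20001800280004001b000b0000000000000000000000000000000) (nat_lit 0x0) (nat_lit 0x800040002000000000000000000000000000000000000000000000000) := D_11 (nat_lit 210) (nat_lit 193) (nat_lit 227) (nat_lit 7) (nat_lit 5) (nat_lit 8) (nat_lit 7) (nat_lit 5) (nat_lit 9) (by decide +kernel)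
theorem L61080 : W_11 (nat_lit 3) (nat_lit 0x1800280004001b000b0000000000000000000000000000000) (nat_lit 0x0) (nat_lit 0x800060002000000002000000000000000000000000000000000000000) := T_11 (nat_lit 209) (nat_lit 157) (nat_lit 4) (nat_lit 5) (nat_lit 12) L61079 (by decide +kernel)
theorem L61081 : W_11 (nat_lit 4) (nat_lit 0x800280004001b000b0000000000000000000000000000000) (nat_lit 0x0) (nat_lit 0x800070003000000002000000000000000000000000000000000000000) := T_11 (nat_lit 192) (nat_lit 208) (nat_lit 5) (nat_lit 5) (nat_lit 8) L61080 (by decide +kernel)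
theorem L61082 : W_11 (nat_lit 5) (nat_lit 0x800280004001a000b0000000000000000000000000000000) (nat_lit 0x0) (nat_lit 0x800070003000000002000100040000000000000000000000000000000) := T_11 (nat_lit 140) (nat_lit 126) (nat_lit 1) (nat_lit 8) (nat_lit 7) L61081 (by decide +kernel)
theorem L61083 : W_11 (nat_lit 6) (nat_lit 0x800280004001a00090000000000000000000000000000000) (nat_lit 0x0) (nat_lit 0x800070003000000002000100060001000000000000000000000000000) := T_11 (nat_lit 125) (nat_lit 108) (nat_lit 6) (nat_lit 5) (nat_lit 10) L61082 (by decide +kernel)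
theorem L61084 : W_11 (nat_lit 7) (nat_lit 0x280004001a00090000000000000000000000000000000) (nat_lit 0x0) (nat_lit 0x800070003800040002000100060001000000000000000000000000000) := T_11 (nat_lit 191) (nat_lit 174) (nat_lit 5) (nat_lit 5) (nat_lit 7) L61083 (by decide +kernel)
theorem L61085 : W_11 (nat_lit 10) (nat_lit 0x2c0004001a00090000000000000000000000000000000) (nat_lit 0x0) (nat_lit 0xc7001300138001c0064001000000000000000000000000000) := T_11 (nat_lit 125) (nat_lit 108) (nat_lit 6) (nat_lit 5) (nat_lit 10) L61072 (by decide +kernel)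
theorem L61086 : W_11 (nat_lit 11) (nat_lit 0x280004001a00090000000000000000000000000000000) (nat_lit 0x0) (nat_lit 0xcf001700138001c0064001000000000000000000000000000) := T_11 (nat_lit 174) (nat_lit 191) (nat_lit 5) (nat_lit 5) (nat_lit 7) L61085 (by decide +kernel)
theorem L61087 : W_11 (nat_lit 9) (nat_lit 0x4000380004001a00090000000000000000000000000000000) (nat_lit 0x0) (nat_lit 0x87000700038001c0064001000000000000000000000000000) := T_11 (nat_lit 174) (nat_lit 195) (nat_lit 3) (nat_lit 4) (nat_lit 10) L61025 (by decide +kernel)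
theorem L61088 : W_11 (nat_lit 10) (nat_lit 0x4000280004001a00090000000000000000000000000000000) (nat_lit 0x0) (nat_lit 0xa7001700038001c0064001000000000000000000000000000) := T_11 (nat_lit 176) (nat_lit 193) (nat_lit 7) (nat_lit 5) (nat_lit 7) L61087 (by decide +kernel)
theorem L61089 : W_11 (nat_lit 11) (nat_lit 0x280004001a00090000000000000000000000000000000) (nat_lit 0x0) (nat_lit 0xe7001700138001c0064001000000000000000000000000000) := T_11 (nat_lit 194) (nat_lit 160) (nat_lit 6) (nat_lit 7) (nat_lit 11) L61088 (by decide +kernel)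
theorem L61090 : W_11 (nat_lit 12) (nat_lit 0x280000001a00090000000000000000000000000000000) (nat_lit 0x0) (nat_lit 0xa0007000ff001700378001c0064001000000000000000000000000000) := Q_11 (nat_lit 158) (C_11 L60953 (C_11 L61053 (C_11 L61028 (C_11 L61078 (C_11 L61084 (C_11 L61086 (C_11 L61089 N_11))))))) (by decide +kernel)
theorem L61091 : W_11 (nat_lit 6) (nat_lit 0x40003c0004001a000b8000000000000000000000000000000) (nat_lit 0x0) (nat_lit 0x10000000030001e0007000200000000000000000000000000) := T_11 (nat_lit 157) (nat_lit 156) (nat_lit 0) (nat_lit 7) (nat_lit 10) L60960 (by decide +kernel)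
theorem L61092 : W_11 (nat_lit 7) (nat_lit 0x4000380004001a000b8000000000000000000000000000000) (nat_lit 0x0) (nat_lit 0x90000400030001e0007000200000000000000000000000000) := T_11 (nat_lit 174) (nat_lit 195) (nat_lit 3) (nat_lit 4) (nat_lit 10) L61091 (by decide +kernel)
theorem L61093 : W_11 (nat_lit 8) (nat_lit 0x4000280004001a000b8000000000000000000000000000000) (nat_lit 0x0) (nat_lit 0xb0001400030001e0007000200000000000000000000000000) := T_11 (nat_lit 176) (nat_lit 193) (nat_lit 7) (nat_lit 5) (nat_lit 7) L61092 (by decide +kernel)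
theorem L61094 : W_11 (nat_lit 9) (nat_lit 0x4000280004001a000b0000000000000000000000000000000) (nat_lit 0x0) (nat_lit 0xb0001400030001e000f000600000000000000000000000000) := T_11 (nat_lit 123) (nat_lit 106) (nat_lit 4) (nat_lit 5) (nat_lit 10) L61093 (by decide +kernel)
theorem L61095 : W_11 (nat_lit 10) (nat_lit 0x4000280000001a000b0000000000000000000000000000000) (nat_lit 0x0) (nat_lit 0xb0001400070001e000f001600000000000000000000000000) := T_11 (nat_lit 158) (nat_lit 108) (nat_lit 6) (nat_lit 5) (nat_lit 10) L61094 (by decide +kernel)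
theorem L61096 : W_11 (nat_lit 11) (nat_lit 0x280000001a000b0000000000000000000000000000000) (nat_lit 0x0) (nat_lit 0xf0001400170001e000f001600000000000000000000000000) := T_11 (nat_lit 194) (nat_lit 160) (nat_lit 6) (nat_lit 7) (nat_lit 11) L61095 (by decide +kernel)
theorem L61097 : W_11 (nat_lit 3) (nat_lit 0x40003e0005001b800b0000000000000000000000000000000) (nat_lit 0x0) (nat_lit 0x700010000000000004000000000000000000000000000000) := T_11 (nat_lit 189) (nat_lit 190) (nat_lit 1) (nat_lit 6) (nat_lit 10) L61019 (by decide +kernel)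
theorem L61098 : W_11 (nat_lit 4) (nat_lit 0x40003c0005001b800b0000000000000000000000000000000) (nat_lit 0x0) (nat_lit 0x700030000800000004000000000000000000000000000000) := T_11 (nat_lit 173) (nat_lit 155) (nat_lit 0) (nat_lit 6) (nat_lit 10) L61097 (by decide +kernel)
theorem L61099 : W_11 (nat_lit 5) (nat_lit 0x40003c0004001b800b0000000000000000000000000000000) (nat_lit 0x0) (nat_lit 0x700030003800000004000000000000000000000000000000) := T_11 (nat_lit 156) (nat_lit 157) (nat_lit 0) (nat_lit 7) (nat_lit 10) L61098 (by decide +kernel)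
theorem L61100 : W_11 (nat_lit 6) (nat_lit 0x4000380004001b800b0000000000000000000000000000000) (nat_lit 0x0) (nat_lit 0x8700070003800000004000000000000000000000000000000) := T_11 (nat_lit 174) (nat_lit 195) (nat_lit 3) (nat_lit 4) (nat_lit 10) L61099 (by decide +kernel)
theorem L61101 : W_11 (nat_lit 7) (nat_lit 0x380004001b800b0000000000000000000000000000000) (nat_lit 0x0) (nat_lit 0xc700070013800000004000000000000000000000000000000) := T_11 (nat_lit 194) (nat_lit 160) (nat_lit 6) (nat_lit 7) (nat_lit 11) L61100 (by decide +kernel)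
theorem L61102 : W_11 (nat_lit 8) (nat_lit 0x380004001b000b0000000000000000000000000000000) (nat_lit 0x0) (nat_lit 0xc7000700138000c0004000000000000000000000000000000) := T_11 (nat_lit 139) (nat_lit 138) (nat_lit 2) (nat_lit 2) (nat_lit 8) L61101 (by decide +kernel)
theorem L61103 : W_11 (nat_lit 9) (nat_lit 0x280004001b000b0000000000000000000000000000000) (nat_lit 0x0) (nat_lit 0xe7001700138000c0004000000000000000000000000000000) := T_11 (nat_lit 176) (nat_lit 193) (nat_lit 7) (nat_lit 5) (nat_lit 7) L61102 (by decide +kernel)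
theorem L61104 : W_11 (nat_lit 10) (nat_lit 0x280004001a000b0000000000000000000000000000000) (nat_lit 0x0) (nat_lit 0xe7001700138001c0044000000000000000000000000000000) := T_11 (nat_lit 140) (nat_lit 126) (nat_lit 1) (nat_lit 8) (nat_lit 7) L61103 (by decide +kernel)
theorem L61105 : W_11 (nat_lit 11) (nat_lit 0x280000001a000b0000000000000000000000000000000) (nat_lit 0x0) (nat_lit 0xe7001700178001c0044001000000000000000000000000000) := T_11 (nat_lit 158) (nat_lit 108) (nat_lit 6) (nat_lit 5) (nat_lit 10) L61104 (by decide +kernel)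
theorem L61106 : W_11 (nat_lit 12) (nat_lit 0x280000001a00090000000000000000000000000000000) (nat_lit 0x0) (nat_lit 0xf7001700178001e006f001600000000000000000000000000) := Q_11 (nat_lit 125) (C_11 L61032 (C_11 L61035 (C_11 L61096 (C_11 L61105 N_11)))) (by decide +kernel)
theorem L61107 : W_11 (nat_lit 13) (nat_lit 0x200000001a00090000000000000000000000000000000) (nat_lit 0x0) (nat_lit 0xa0007000ff001f00378001e006f001600000000000000000000000000) := Q_11 (nat_lit 175) (C_11 L60956 (C_11 L60985 (C_11 L61006 (C_11 L61015 (C_11 L61029 (C_11 L61043 (C_11 L61054 (C_11 L61063 (C_11 L61075 (C_11 L61090 (C_11 L61106 N_11))))))))))) (by decide +kernel)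
theorem L61108 : W_11 (nat_lit 14) (nat_lit 0x200000001200090000000000000000000000000000000) (nat_lit 0x0) (nat_lit 0xa0007000ff001f0037800de016f001600000000000000000000000000) := Q_11 (nat_lit 143) (C_11 L61107 (C_11 L32323 (C_11 L32796 N_11))) (by decide +kernel)
theorem L61109 : W_11 (nat_lit 11) (nat_lit 0x200000001200090000800000000000000000000000000) (nat_lit 0x0) (nat_lit 0x6000100036000d000600037001f800d000000000000000000) := Q_11 (nat_lit 90) (C_11 L31963 (C_11 L60829 (C_11 L60841 (C_11 L60858 (C_11 L60865 N_11))))) (by decide +kernel)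
theorem L61110 : W_11 (nat_lit 6) (nat_lit 0x200000001200090000800000000000000000000000000) (nat_lit 0x0) (nat_lit 0x6000d000680007001e0007000200000000000000) := Q_11 (nat_lit 90) (C_11 L60871 (C_11 L31963 (C_11 L60880 N_11))) (by decide +kernel)
theorem L61111 : W_11 (nat_lit 2) (nat_lit 0x2000000012000b0000800040007000100000000000000) (nat_lit 0x0) (nat_lit 0x48000400000000000000000000000000) := D_11 (nat_lit 106) (nat_lit 123) (nat_lit 126) (nat_lit 5) (nat_lit 5) (nat_lit 3) (nat_lit 0) (nat_lit 8) (nat_lit 7) (by decide +kernel)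
theorem L61112 : W_11 (nat_lit 3) (nat_lit 0x2000000012000b0000800040007000000000000000000) (nat_lit 0x0) (nat_lit 0x48001400000000000100000000000000) := T_11 (nat_lit 56) (nat_lit 108) (nat_lit 7) (nat_lit 5) (nat_lit 3) L61111 (by decide +kernel)
theorem L61113 : W_11 (nat_lit 4) (nat_lit 0x200000001200090000800040007000000000000000000) (nat_lit 0x0) (nat_lit 0x400068001400000000000100000000000000) := T_11 (nat_lit 125) (nat_lit 142) (nat_lit 7) (nat_lit 5) (nat_lit 4) L61112 (by decide +kernel)
theorem L61114 : W_11 (nat_lit 5) (nat_lit 0x200000001200090000800040006000000000000000000) (nat_lit 0x0) (nat_lit 0x400068001400000001000180000000000000) := T_11 (nat_lit 72) (nat_lit 55) (nat_lit 4) (nat_lit 5) (nat_lit 7) L61113 (by decide +kernel)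
theorem L61115 : W_11 (nat_lit 6) (nat_lit 0x200000001200090000800040004000000000000000000) (nat_lit 0x0) (nat_lit 0x400068001400000003000380000000000000) := T_11 (nat_lit 73) (nat_lit 57) (nat_lit 6) (nat_lit 5) (nat_lit 7) L61114 (by decide +kernel)
theorem L61116 : W_11 (nat_lit 7) (nat_lit 0x200000001200090000800040000000000000000000000) (nat_lit 0x0) (nat_lit 0x400068001400080007000380000000000000) := T_11 (nat_lit 74) (nat_lit 91) (nat_lit 6) (nat_lit 5) (nat_lit 8) L61115 (by decide +kernel)
theorem L61117 : W_11 (nat_lit 9) (nat_lit 0x200000001200090000800000000000000000000000000) (nat_lit 0x0) (nat_lit 0x6000d000680037001c0007000380000000000000) := Q_11 (nat_lit 90) (C_11 L60871 (C_11 L31986 (C_11 L60880 (C_11 L61116 (C_11 L60865 N_11))))) (by decide +kernel)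
theorem L61118 : W_11 (nat_lit 10) (nat_lit 0x200000001200090000c00000000000000000000000000) (nat_lit 0x0) (nat_lit 0x20007000f800180016000d00008000000020000000000000000000000) := T_11 (nat_lit 158) (nat_lit 89) (nat_lit 4) (nat_lit 5) (nat_lit 9) L60609 (by decide +kernel)
theorem L61119 : W_11 (nat_lit 11) (nat_lit 0x200000001200090000800000000000000000000000000) (nat_lit 0x0) (nat_lit 0x20007000f800180036000d001680034001a0008000000000000000000) := Q_11 (nat_lit 106) (C_11 L39712 (C_11 L60847 (C_11 L61118 N_11))) (by decide +kernel)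
theorem L61120 : W_11 (nat_lit 12) (nat_lit 0x200000001200090000000000000000000000000000000) (nat_lit 0x0) (nat_lit 0x20007000f800180036000d00168003f001fc00fc0038000c000000000) := Q_11 (nat_lit 107) (C_11 L60824 (C_11 L60851 (C_11 L60834 (C_11 L60842 (C_11 L60848 (C_11 L61109 (C_11 L61110 (C_11 L61117 (C_11 L61119 N_11))))))))) (by decide +kernel)
theorem L61121 : W_11 (nat_lit 2) (nat_lit 0x200010001b000d00028000e0000000000000000000000) (nat_lit 0x0) (nat_lit 0x20000000000000000100008000000000000000000) := D_11 (nat_lit 92) (nat_lit 75) (nat_lit 161) (nat_lit 7) (nat_lit 7) (nat_lit 4) (nat_lit 7) (nat_lit 7) (nat_lit 5) (by decide +kernel)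
theorem L61122 : W_11 (nat_lit 3) (nat_lit 0x200010001b000d00008000e0000000000000000000000) (nat_lit 0x0) (nat_lit 0x20000000000003000100008000000000000000000) := T_11 (nat_lit 109) (nat_lit 108) (nat_lit 4) (nat_lit 7) (nat_lit 9) L61121 (by decide +kernel)
theorem L61123 : W_11 (nat_lit 4) (nat_lit 0x200000001b000d00008000e0000000000000000000000) (nat_lit 0x0) (nat_lit 0x4000000030000000000003000100008000000000000000000) := T_11 (nat_lit 160) (nat_lit 194) (nat_lit 6) (nat_lit 7) (nat_lit 11) L61122 (by decide +kernel)
theorem L61124 : W_11 (nat_lit 5) (nat_lit 0x2000000013000d00008000e0000000000000000000000) (nat_lit 0x0) (nat_lit 0x4000000030000c00000003000100008000000000000000000) := T_11 (nat_lit 143) (nat_lit 142) (nat_lit 2) (nat_lit 4) (nat_lit 8) L61123 (by decide +kernel)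
theorem L61125 : W_11 (nat_lit 6) (nat_lit 0x2000000013000900008000e0000000000000000000000) (nat_lit 0x0) (nat_lit 0x4000000030000c00060003000100008000000000000000000) := T_11 (nat_lit 126) (nat_lit 125) (nat_lit 1) (nat_lit 8) (nat_lit 7) L61124 (by decide +kernel)
theorem L61126 : W_11 (nat_lit 7) (nat_lit 0x2000000012000900008000e0000000000000000000000) (nat_lit 0x0) (nat_lit 0x4000000032000d00060003000100008000000000000000000) := T_11 (nat_lit 140) (nat_lit 157) (nat_lit 5) (nat_lit 5) (nat_lit 5) L61125 (by decide +kernel)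
theorem L61127 : W_11 (nat_lit 8) (nat_lit 0x200000001200090000800060000000000000000000000) (nat_lit 0x0) (nat_lit 0x4000000032000d0006000300018000c000000000000000000) := T_11 (nat_lit 91) (nat_lit 74) (nat_lit 6) (nat_lit 5) (nat_lit 8) L61126 (by decide +kernel)
theorem L61128 : W_11 (nat_lit 9) (nat_lit 0x200000001200090000800040000000000000000000000) (nat_lit 0x0) (nat_lit 0x4000000032000d000600030001a000d000000000000000000) := T_11 (nat_lit 89) (nat_lit 72) (nat_lit 4) (nat_lit 5) (nat_lit 8) L61127 (by decide +kernel)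
theorem L61129 : W_11 (nat_lit 10) (nat_lit 0x200000001200090000800000000000000000000000000) (nat_lit 0x0) (nat_lit 0x4000000032000d000680034001e000f000380000000000000) := Q_11 (nat_lit 90) (C_11 L31986 (C_11 L61116 (C_11 L61128 (C_11 L60880 N_11)))) (by decide +kernel)
theorem L61130 : W_11 (nat_lit 10) (nat_lit 0x200000001200090000800000000000000000000000000) (nat_lit 0x0) (nat_lit 0x4000040036000d001600037001e000f000000000000000000) := Q_11 (nat_lit 90) (C_11 L31963 (C_11 L61128 (C_11 L60877 (C_11 L60858 N_11)))) (by decide +kernel)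
theorem L61131 : W_11 (nat_lit 11) (nat_lit 0x200000001200090000000000000000000000000000000) (nat_lit 0x0) (nat_lit 0x4000040036000d00168003f001fc00f80038000c000000000) := Q_11 (nat_lit 107) (C_11 L60824 (C_11 L61117 (C_11 L61129 (C_11 L60851 (C_11 L60842 (C_11 L60848 (C_11 L61130 (C_11 L61110 (C_11 L60881 N_11))))))))) (by decide +kernel)
theorem L61132 : W_11 (nat_lit 2) (nat_lit 0x3c0004001a000b0000000000000000000000000000000) (nat_lit 0x0) (nat_lit 0x3000000000000800000000000000000000000000) := D_11 (nat_lit 157) (nat_lit 107) (nat_lit 156) (nat_lit 5) (nat_lit 5) (nat_lit 6) (nat_lit 0) (nat_lit 7) (nat_lit 10) (by decide +kernel)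
theorem L61133 : W_11 (nat_lit 3) (nat_lit 0x380004001a000b0000000000000000000000000000000) (nat_lit 0x0) (nat_lit 0x800040003000000000000800000000000000000000000000) := T_11 (nat_lit 174) (nat_lit 191) (nat_lit 5) (nat_lit 5) (nat_lit 7) L61132 (by decide +kernel)
theorem L61134 : W_11 (nat_lit 4) (nat_lit 0x380004001a00090000000000000000000000000000000) (nat_lit 0x0) (nat_lit 0x800040003000000020001800000000000000000000000000) := T_11 (nat_lit 125) (nat_lit 108) (nat_lit 6) (nat_lit 5) (nat_lit 10) L61133 (by decide +kernel)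
theorem L61135 : W_11 (nat_lit 5) (nat_lit 0x280004001a00090000000000000000000000000000000) (nat_lit 0x0) (nat_lit 0x2800140003000000020001800000000000000000000000000) := T_11 (nat_lit 176) (nat_lit 193) (nat_lit 7) (nat_lit 5) (nat_lit 7) L61134 (by decide +kernel)
theorem L61136 : W_11 (nat_lit 2) (nat_lit 0x10007000280004001a000b0000000000000000000000000000000) (nat_lit 0x0) (nat_lit 0x200020008000000000000000000000000000000000000000000000000) := D_11 (nat_lit 209) (nat_lit 195) (nat_lit 225) (nat_lit 1) (nat_lit 8) (nat_lit 11) (nat_lit 5) (nat_lit 5) (nat_lit 9) (by decide +kernel)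
theorem L61137 : W_11 (nat_lit 3) (nat_lit 0x7000280004001a000b0000000000000000000000000000000) (nat_lit 0x0) (nat_lit 0x200030008800000000000000000000000000000000000000000000000) := T_11 (nat_lit 208) (nat_lit 191) (nat_lit 5) (nat_lit 5) (nat_lit 8) L61136 (by decide +kernel)
theorem L61138 : W_11 (nat_lit 4) (nat_lit 0x6000280004001a000b0000000000000000000000000000000) (nat_lit 0x0) (nat_lit 0x200070009800000000000000000000000000000000000000000000000) := T_11 (nat_lit 192) (nat_lit 210) (nat_lit 7) (nat_lit 5) (nat_lit 8) L61137 (by decide +kernel)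
theorem L61139 : W_11 (nat_lit 5) (nat_lit 0x6000280004001a00090000000000000000000000000000000) (nat_lit 0x0) (nat_lit 0x200070009800000000000000020001000000000000000000000000000) := T_11 (nat_lit 125) (nat_lit 108) (nat_lit 6) (nat_lit 5) (nat_lit 10) L61138 (by decide +kernel)
theorem L61140 : W_11 (nat_lit 6) (nat_lit 0x4000280004001a00090000000000000000000000000000000) (nat_lit 0x0) (nat_lit 0x20007000b800100000000000020001000000000000000000000000000) := T_11 (nat_lit 193) (nat_lit 176) (nat_lit 7) (nat_lit 5) (nat_lit 7) L61139 (by decide +kernel)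
theorem L61141 : W_11 (nat_lit 7) (nat_lit 0x280004001a00090000000000000000000000000000000) (nat_lit 0x0) (nat_lit 0x20007000f800100010000000020001000000000000000000000000000) := T_11 (nat_lit 194) (nat_lit 160) (nat_lit 6) (nat_lit 7) (nat_lit 11) L61140 (by decide +kernel)
theorem L61142 : W_11 (nat_lit 2) (nat_lit 0x2c0004001a00090000800000000000000000000000000) (nat_lit 0x0) (nat_lit 0x20001000080000000000000000000000) := D_11 (nat_lit 108) (nat_lit 125) (nat_lit 91) (nat_lit 6) (nat_lit 5) (nat_lit 10) (nat_lit 6) (nat_lit 5) (nat_lit 9) (by decide +kernel)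
theorem L61143 : W_11 (nat_lit 3) (nat_lit 0x2c0004001a00090000000000000000000000000000000) (nat_lit 0x0) (nat_lit 0x2000000020001800080000000000000000000000) := T_11 (nat_lit 107) (nat_lit 157) (nat_lit 5) (nat_lit 5) (nat_lit 6) L61142 (by decide +kernel)
theorem L61144 : W_11 (nat_lit 4) (nat_lit 0x280004001a00090000000000000000000000000000000) (nat_lit 0x0) (nat_lit 0x800040002000000020001800080000000000000000000000) := T_11 (nat_lit 174) (nat_lit 191) (nat_lit 5) (nat_lit 5) (nat_lit 7) L61143 (by decide +kernel)
theorem L61145 : W_11 (nat_lit 4) (nat_lit 0x4000280004001a00090000000000000000000000000000000) (nat_lit 0x0) (nat_lit 0xa000140003000000000000800000000000000000000000000) := T_11 (nat_lit 176) (nat_lit 193) (nat_lit 7) (nat_lit 5) (nat_lit 7) L32975 (by decide +kernel)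
theorem L61146 : W_11 (nat_lit 5) (nat_lit 0x280004001a00090000000000000000000000000000000) (nat_lit 0x0) (nat_lit 0xe000140013000000000000800000000000000000000000000) := T_11 (nat_lit 194) (nat_lit 160) (nat_lit 6) (nat_lit 7) (nat_lit 11) L61145 (by decide +kernel)
theorem L61147 : W_11 (nat_lit 8) (nat_lit 0x280000001a00090000000000000000000000000000000) (nat_lit 0x0) (nat_lit 0x20007000f800140017000000020001800080000000000000000000000) := Q_11 (nat_lit 158) (C_11 L60953 (C_11 L61135 (C_11 L61141 (C_11 L61144 (C_11 L61146 N_11))))) (by decide +kernel)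
theorem L61148 : W_11 (nat_lit 2) (nat_lit 0x3c0004001a00090000000000000000000000000000000) (nat_lit 0x0) (nat_lit 0x3000000000000800000000000000000000000000) := D_11 (nat_lit 157) (nat_lit 107) (nat_lit 156) (nat_lit 5) (nat_lit 5) (nat_lit 6) (nat_lit 0) (nat_lit 7) (nat_lit 10) (by decide +kernel)
theorem L61149 : W_11 (nat_lit 3) (nat_lit 0x380004001a00090000000000000000000000000000000) (nat_lit 0x0) (nat_lit 0x800040003000000000000800000000000000000000000000) := T_11 (nat_lit 174) (nat_lit 191) (nat_lit 5) (nat_lit 5) (nat_lit 7) L61148 (by decide +kernel)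
theorem L61150 : W_11 (nat_lit 4) (nat_lit 0x280004001a00090000000000000000000000000000000) (nat_lit 0x0) (nat_lit 0x2800140003000000000000800000000000000000000000000) := T_11 (nat_lit 176) (nat_lit 193) (nat_lit 7) (nat_lit 5) (nat_lit 7) L61149 (by decide +kernel)
theorem L61151 : W_11 (nat_lit 2) (nat_lit 0x10007000280004001a00090000000000000000000000000000000) (nat_lit 0x0) (nat_lit 0x200020008000000000000000000000000000000000000000000000000) := D_11 (nat_lit 209) (nat_lit 195) (nat_lit 225) (nat_lit 1) (nat_lit 8) (nat_lit 11) (nat_lit 5) (nat_lit 5) (nat_lit 9) (by decide +kernel)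
theorem L61152 : W_11 (nat_lit 3) (nat_lit 0x7000280004001a00090000000000000000000000000000000) (nat_lit 0x0) (nat_lit 0x200030008800000000000000000000000000000000000000000000000) := T_11 (nat_lit 208) (nat_lit 191) (nat_lit 5) (nat_lit 5) (nat_lit 8) L61151 (by decide +kernel)
theorem L61153 : W_11 (nat_lit 4) (nat_lit 0x6000280004001a00090000000000000000000000000000000) (nat_lit 0x0) (nat_lit 0x200070009800000000000000000000000000000000000000000000000) := T_11 (nat_lit 192) (nat_lit 210) (nat_lit 7) (nat_lit 5) (nat_lit 8) L61152 (by decide +kernel)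
theorem L61154 : W_11 (nat_lit 5) (nat_lit 0x4000280004001a00090000000000000000000000000000000) (nat_lit 0x0) (nat_lit 0x20007000b800100000000000000000000000000000000000000000000) := T_11 (nat_lit 193) (nat_lit 176) (nat_lit 7) (nat_lit 5) (nat_lit 7) L61153 (by decide +kernel)
theorem L61155 : W_11 (nat_lit 6) (nat_lit 0x280004001a00090000000000000000000000000000000) (nat_lit 0x0) (nat_lit 0x20007000f800100010000000000000000000000000000000000000000) := T_11 (nat_lit 194) (nat_lit 160) (nat_lit 6) (nat_lit 7) (nat_lit 11) L61154 (by decide +kernel)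
theorem L61156 : W_11 (nat_lit 2) (nat_lit 0x40005800280004001b00090000000000000000000000000000000) (nat_lit 0x0) (nat_lit 0x800020000000000002000000000000000000000000000000000000000) := D_11 (nat_lit 209) (nat_lit 157) (nat_lit 227) (nat_lit 4) (nat_lit 5) (nat_lit 12) (nat_lit 7) (nat_lit 5) (nat_lit 9) (by decide +kernel)
theorem L61157 : W_11 (nat_lit 3) (nat_lit 0x5800280004001b00090000000000000000000000000000000) (nat_lit 0x0) (nat_lit 0x800060002000000002000000000000000000000000000000000000000) := T_11 (nat_lit 210) (nat_lit 193) (nat_lit 7) (nat_lit 5) (nat_lit 8) L61156 (by decide +kernel)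
theorem L61158 : W_11 (nat_lit 4) (nat_lit 0x5800280004001a00090000000000000000000000000000000) (nat_lit 0x0) (nat_lit 0x800060002000000002000100008000000000000000000000000000000) := T_11 (nat_lit 140) (nat_lit 123) (nat_lit 4) (nat_lit 5) (nat_lit 11) L61157 (by decide +kernel)
theorem L61159 : W_11 (nat_lit 5) (nat_lit 0x4800280004001a00090000000000000000000000000000000) (nat_lit 0x0) (nat_lit 0x800070003000000002000100008000000000000000000000000000000) := T_11 (nat_lit 192) (nat_lit 208) (nat_lit 5) (nat_lit 5) (nat_lit 8) L61158 (by decide +kernel)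
theorem L61160 : W_11 (nat_lit 6) (nat_lit 0x800280004001a00090000000000000000000000000000000) (nat_lit 0x0) (nat_lit 0x800070007000000012000100008000000000000000000000000000000) := T_11 (nat_lit 194) (nat_lit 160) (nat_lit 6) (nat_lit 7) (nat_lit 11) L61159 (by decide +kernel)
theorem L61161 : W_11 (nat_lit 7) (nat_lit 0x280004001a00090000000000000000000000000000000) (nat_lit 0x0) (nat_lit 0x800070007800040012000100008000000000000000000000000000000) := T_11 (nat_lit 191) (nat_lit 174) (nat_lit 5) (nat_lit 5) (nat_lit 7) L61160 (by decide +kernel)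
theorem L61162 : W_11 (nat_lit 4) (nat_lit 0x2c0004001a00090000000000000000000000000000000) (nat_lit 0x0) (nat_lit 0xc000100013000000000000800000000000000000000000000) := T_11 (nat_lit 157) (nat_lit 107) (nat_lit 5) (nat_lit 5) (nat_lit 6) L60627 (by decide +kernel)
theorem L61163 : W_11 (nat_lit 5) (nat_lit 0x280004001a00090000000000000000000000000000000) (nat_lit 0x0) (nat_lit 0xc800140013000000000000800000000000000000000000000) := T_11 (nat_lit 174) (nat_lit 191) (nat_lit 5) (nat_lit 5) (nat_lit 7) L61162 (by decide +kernel)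
theorem L61164 : W_11 (nat_lit 8) (nat_lit 0x280000001a00090000000000000000000000000000000) (nat_lit 0x0) (nat_lit 0xa0007000f800140017000100008000800000000000000000000000000) := Q_11 (nat_lit 158) (C_11 L61146 (C_11 L61150 (C_11 L60953 (C_11 L61155 (C_11 L61161 (C_11 L61163 N_11)))))) (by decide +kernel)
theorem L61165 : W_11 (nat_lit 5) (nat_lit 0x280000001a00090000000000000000000000000000000) (nat_lit 0x0) (nat_lit 0x2800140007000100068001800080000000000000000000000) := Q_11 (nat_lit 158) (C_11 L61150 (C_11 L61018 (C_11 L61144 N_11))) (by decide +kernel)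
theorem L61166 : W_11 (nat_lit 2) (nat_lit 0x4000280004001a000b0000000000000000000000000000000) (nat_lit 0x0) (nat_lit 0x100048000000000000000000000000000000) := D_11 (nat_lit 126) (nat_lit 123) (nat_lit 140) (nat_lit 3) (nat_lit 4) (nat_lit 7) (nat_lit 1) (nat_lit 8) (nat_lit 7) (by decide +kernel)
theorem L61167 : W_11 (nat_lit 3) (nat_lit 0x4000280004001a00090000000000000000000000000000000) (nat_lit 0x0) (nat_lit 0x100068001000000000000000000000000000) := T_11 (nat_lit 125) (nat_lit 108) (nat_lit 6) (nat_lit 5) (nat_lit 10) L61166 (by decide +kernel)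
theorem L61168 : W_11 (nat_lit 4) (nat_lit 0x280004001a00090000000000000000000000000000000) (nat_lit 0x0) (nat_lit 0x4000000010000100068001000000000000000000000000000) := T_11 (nat_lit 194) (nat_lit 160) (nat_lit 6) (nat_lit 7) (nat_lit 11) L61167 (by decide +kernel)
theorem L61169 : W_11 (nat_lit 7) (nat_lit 0x280000001a00090000000000000000000000000000000) (nat_lit 0x0) (nat_lit 0x20007000f800100014000100068001000000000000000000000000000) := Q_11 (nat_lit 158) (C_11 L61155 (C_11 L61018 (C_11 L61168 N_11))) (by decide +kernel)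
theorem L61170 : W_11 (nat_lit 2) (nat_lit 0x4000280000001a000be001000000004000000000000000000) (nat_lit 0x0) (nat_lit 0xe0000000000000000000000000000000000) := D_11 (nat_lit 138) (nat_lit 137) (nat_lit 139) (nat_lit 1) (nat_lit 5) (nat_lit 7) (nat_lit 1) (nat_lit 6) (nat_lit 7) (by decide +kernel)
theorem L61171 : W_11 (nat_lit 3) (nat_lit 0x4000280000001a000bc001000000004000000000000000000) (nat_lit 0x0) (nat_lit 0xe0002000800000000000000000000000000) := T_11 (nat_lit 121) (nat_lit 107) (nat_lit 2) (nat_lit 2) (nat_lit 7) L61170 (by decide +kernel)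
theorem L61172 : W_11 (nat_lit 4) (nat_lit 0x4000280000001a000b8001000000004000000000000000000) (nat_lit 0x0) (nat_lit 0xe0006002800000000000000000000000000) := T_11 (nat_lit 122) (nat_lit 109) (nat_lit 2) (nat_lit 3) (nat_lit 7) L61171 (by decide +kernel)
theorem L61173 : W_11 (nat_lit 5) (nat_lit 0x4000280000001a000b8001000000000000000000000000000) (nat_lit 0x0) (nat_lit 0xe0006002800080004000000000000000000) := T_11 (nat_lit 74) (nat_lit 91) (nat_lit 5) (nat_lit 6) (nat_lit 4) L61172 (by decide +kernel)
theorem L61174 : W_11 (nat_lit 6) (nat_lit 0x4000280000001a000b8000000000000000000000000000000) (nat_lit 0x0) (nat_lit 0x40000e0006003800080004000000000000000000) := T_11 (nat_lit 108) (nat_lit 158) (nat_lit 6) (nat_lit 5) (nat_lit 10) L61173 (by decide +kernel)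
theorem L61175 : W_11 (nat_lit 7) (nat_lit 0x4000280000001a000b0000000000000000000000000000000) (nat_lit 0x0) (nat_lit 0x40000e004e003800080004000000000000000000) := T_11 (nat_lit 123) (nat_lit 126) (nat_lit 3) (nat_lit 4) (nat_lit 7) L61174 (by decide +kernel)
theorem L61176 : W_11 (nat_lit 8) (nat_lit 0x280000001a000b0000000000000000000000000000000) (nat_lit 0x0) (nat_lit 0x40000000140000e004e003800080004000000000000000000) := T_11 (nat_lit 194) (nat_lit 160) (nat_lit 6) (nat_lit 7) (nat_lit 11) L61175 (by decide +kernel)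
theorem L61177 : W_11 (nat_lit 4) (nat_lit 0x5800280004001b000b0000000000000000000000000000000) (nat_lit 0x0) (nat_lit 0x8000600020000000020000c0000000000000000000000000000000000) := T_11 (nat_lit 138) (nat_lit 139) (nat_lit 2) (nat_lit 2) (nat_lit 8) L61056 (by decide +kernel)
theorem L61178 : W_11 (nat_lit 5) (nat_lit 0x5800280004001a000b0000000000000000000000000000000) (nat_lit 0x0) (nat_lit 0x8000600020000000020001c0008000000000000000000000000000000) := T_11 (nat_lit 140) (nat_lit 123) (nat_lit 4) (nat_lit 5) (nat_lit 11) L61177 (by decide +kernel)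
theorem L61179 : W_11 (nat_lit 6) (nat_lit 0x4800280004001a000b0000000000000000000000000000000) (nat_lit 0x0) (nat_lit 0x8000700030000000020001c0008000000000000000000000000000000) := T_11 (nat_lit 192) (nat_lit 208) (nat_lit 5) (nat_lit 5) (nat_lit 8) L61178 (by decide +kernel)
theorem L61180 : W_11 (nat_lit 7) (nat_lit 0x800280004001a000b0000000000000000000000000000000) (nat_lit 0x0) (nat_lit 0x8000700070000000120001c0008000000000000000000000000000000) := T_11 (nat_lit 194) (nat_lit 160) (nat_lit 6) (nat_lit 7) (nat_lit 11) L61179 (by decide +kernel)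
theorem L61181 : W_11 (nat_lit 8) (nat_lit 0x280004001a000b0000000000000000000000000000000) (nat_lit 0x0) (nat_lit 0x8000700078000400120001c0008000000000000000000000000000000) := T_11 (nat_lit 191) (nat_lit 174) (nat_lit 5) (nat_lit 5) (nat_lit 7) L61180 (by decide +kernel)
theorem L61182 : W_11 (nat_lit 9) (nat_lit 0x280000001a000b0000000000000000000000000000000) (nat_lit 0x0) (nat_lit 0x8000700078000400160001c0008001000000000000000000000000000) := T_11 (nat_lit 158) (nat_lit 108) (nat_lit 6) (nat_lit 5) (nat_lit 10) L61181 (by decide +kernel)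
theorem L61183 : W_11 (nat_lit 10) (nat_lit 0x280000001a00090000000000000000000000000000000) (nat_lit 0x0) (nat_lit 0x8000700078000400160001e006e003800080004000000000000000000) := Q_11 (nat_lit 125) (C_11 L61176 (C_11 L61062 (C_11 L61182 (C_11 L61035 N_11)))) (by decide +kernel)
theorem L61184 : W_11 (nat_lit 2) (nat_lit 0x40002c0006001a000b0000000000000000000000000000000) (nat_lit 0x0) (nat_lit 0x8000100001000000000000000000000000000000000000000) := D_11 (nat_lit 176) (nat_lit 156) (nat_lit 195) (nat_lit 0) (nat_lit 7) (nat_lit 10) (nat_lit 3) (nat_lit 4) (nat_lit 10) (by decide +kernel)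
theorem L61185 : W_11 (nat_lit 3) (nat_lit 0x40002c0004001a000b0000000000000000000000000000000) (nat_lit 0x0) (nat_lit 0x8000100003000000000000800000000000000000000000000) := T_11 (nat_lit 157) (nat_lit 107) (nat_lit 5) (nat_lit 5) (nat_lit 6) L61184 (by decide +kernel)
theorem L61186 : W_11 (nat_lit 4) (nat_lit 0x4000280004001a000b0000000000000000000000000000000) (nat_lit 0x0) (nat_lit 0x8800140003000000000000800000000000000000000000000) := T_11 (nat_lit 174) (nat_lit 191) (nat_lit 5) (nat_lit 5) (nat_lit 7) L61185 (by decide +kernel)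
theorem L61187 : W_11 (nat_lit 5) (nat_lit 0x4000280000001a000b0000000000000000000000000000000) (nat_lit 0x0) (nat_lit 0x8800140007000000000001800000000000000000000000000) := T_11 (nat_lit 158) (nat_lit 108) (nat_lit 6) (nat_lit 5) (nat_lit 10) L61186 (by decide +kernel)
theorem L61188 : W_11 (nat_lit 6) (nat_lit 0x280000001a000b0000000000000000000000000000000) (nat_lit 0x0) (nat_lit 0xc800140017000000000001800000000000000000000000000) := T_11 (nat_lit 194) (nat_lit 160) (nat_lit 6) (nat_lit 7) (nat_lit 11) L61187 (by decide +kernel)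
theorem L61189 : W_11 (nat_lit 12) (nat_lit 0x280000001a00090000000000000000000000000000000) (nat_lit 0x0) (nat_lit 0xcf001700178001e006e003800080004000000000000000000) := Q_11 (nat_lit 125) (C_11 L61176 (C_11 L61074 (C_11 L61188 (C_11 L61035 N_11)))) (by decide +kernel)
theorem L61190 : W_11 (nat_lit 2) (nat_lit 0x40003c0004001a000b0000000000000000000000000000000) (nat_lit 0x0) (nat_lit 0x3000000000000800000000000000000000000000) := D_11 (nat_lit 157) (nat_lit 156) (nat_lit 107) (nat_lit 0) (nat_lit 7) (nat_lit 10) (nat_lit 5) (nat_lit 5) (nat_lit 6) (by decide +kernel)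
theorem L61191 : W_11 (nat_lit 3) (nat_lit 0x4000380004001a000b0000000000000000000000000000000) (nat_lit 0x0) (nat_lit 0x8000040003000000000000800000000000000000000000000) := T_11 (nat_lit 174) (nat_lit 195) (nat_lit 3) (nat_lit 4) (nat_lit 10) L61190 (by decide +kernel)
theorem L61192 : W_11 (nat_lit 4) (nat_lit 0x4000280004001a000b0000000000000000000000000000000) (nat_lit 0x0) (nat_lit 0xa000140003000000000000800000000000000000000000000) := T_11 (nat_lit 176) (nat_lit 193) (nat_lit 7) (nat_lit 5) (nat_lit 7) L61191 (by decide +kernel)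
theorem L61193 : W_11 (nat_lit 5) (nat_lit 0x4000280000001a000b0000000000000000000000000000000) (nat_lit 0x0) (nat_lit 0xa000140007000000000001800000000000000000000000000) := T_11 (nat_lit 158) (nat_lit 108) (nat_lit 6) (nat_lit 5) (nat_lit 10) L61192 (by decide +kernel)
theorem L61194 : W_11 (nat_lit 6) (nat_lit 0x280000001a000b0000000000000000000000000000000) (nat_lit 0x0) (nat_lit 0xe000140017000000000001800000000000000000000000000) := T_11 (nat_lit 194) (nat_lit 160) (nat_lit 6) (nat_lit 7) (nat_lit 11) L61193 (by decide +kernel)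
theorem L61195 : W_11 (nat_lit 12) (nat_lit 0x280000001a00090000000000000000000000000000000) (nat_lit 0x0) (nat_lit 0xe7001700178001e006e003800080004000000000000000000) := Q_11 (nat_lit 125) (C_11 L61176 (C_11 L61105 (C_11 L61194 (C_11 L61035 N_11)))) (by decide +kernel)
theorem L61196 : W_11 (nat_lit 13) (nat_lit 0x200000001a00090000000000000000000000000000000) (nat_lit 0x0) (nat_lit 0xa0007000ff001f00378001e006e003800080004000000000000000000) := Q_11 (nat_lit 175) (C_11 L61090 (C_11 L61147 (C_11 L61164 (C_11 L61015 (C_11 L61165 (C_11 L61169 (C_11 L61183 (C_11 L61189 (C_11 L61195 N_11))))))))) (by decide +kernel)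
theorem L61197 : W_11 (nat_lit 14) (nat_lit 0x200000001200090000000000000000000000000000000) (nat_lit 0x0) (nat_lit 0xa0007000ff001f0037800de016e003800080004000000000000000000) := Q_11 (nat_lit 143) (C_11 L61196 (C_11 L32796 (C_11 L32323 N_11))) (by decide +kernel)
theorem L61198 : W_11 (nat_lit 6) (nat_lit 0x200004001200090000000000000000000000000000000) (nat_lit 0x0) (nat_lit 0xe8001c0030000800028001c000a0000000000000000000000) := Q_11 (nat_lit 175) (C_11 L32216 (C_11 L60790 N_11)) (by decide +kernel)
theorem L61199 : W_11 (nat_lit 14) (nat_lit 0x200004001200090000000000000000000000000000000) (nat_lit 0x0) (nat_lit 0x50003e001fc00f8001c0032000900068001400000000000000000000000000) := Q_11 (nat_lit 175) (C_11 L60642 (C_11 L33213 (C_11 L32216 N_11))) (by decide +kernel)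
theorem L61200 : W_11 (nat_lit 6) (nat_lit 0x300070002800040012000f0000800000000000000000000000000) (nat_lit 0x0) (nat_lit 0x50003c00180000000000030000800000000000000000000000000000000000) := T_11 (nat_lit 160) (nat_lit 143) (nat_lit 6) (nat_lit 7) (nat_lit 11) L54604 (by decide +kernel)
theorem L61201 : W_11 (nat_lit 7) (nat_lit 0x300030002800040012000f0000800000000000000000000000000) (nat_lit 0x0) (nat_lit 0x50003c0018000c000000030000800000000000000000000000000000000000) := T_11 (nat_lit 194) (nat_lit 195) (nat_lit 1) (nat_lit 8) (nat_lit 11) L61200 (by decide +kernel)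
theorem L61202 : W_11 (nat_lit 8) (nat_lit 0x100030002800040012000f0000800000000000000000000000000) (nat_lit 0x0) (nat_lit 0x50003e001a000c000000030000800000000000000000000000000000000000) := T_11 (nat_lit 209) (nat_lit 225) (nat_lit 5) (nat_lit 5) (nat_lit 9) L61201 (by decide +kernel)
theorem L61203 : W_11 (nat_lit 9) (nat_lit 0x30002800040012000f0000800000000000000000000000000) (nat_lit 0x0) (nat_lit 0x50003e001b000c800000030000800000000000000000000000000000000000) := T_11 (nat_lit 208) (nat_lit 191) (nat_lit 5) (nat_lit 5) (nat_lit 8) L61202 (by decide +kernel)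
theorem L61204 : W_11 (nat_lit 10) (nat_lit 0x20002800040012000f0000800000000000000000000000000) (nat_lit 0x0) (nat_lit 0x50003e001f000d800000030000800000000000000000000000000000000000) := T_11 (nat_lit 192) (nat_lit 210) (nat_lit 7) (nat_lit 5) (nat_lit 8) L61203 (by decide +kernel)
theorem L61205 : W_11 (nat_lit 11) (nat_lit 0x20002800040012000f0000000000000000000000000000000) (nat_lit 0x0) (nat_lit 0x50003e001f000d800000030000800000000c00000000000000000000000000) := T_11 (nat_lit 107) (nat_lit 106) (nat_lit 0) (nat_lit 8) (nat_lit 7) L61204 (by decide +kernel)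
theorem L61206 : W_11 (nat_lit 12) (nat_lit 0x20002800040012000b0000000000000000000000000000000) (nat_lit 0x0) (nat_lit 0x50003e001f000d800000030000900040000c00000000000000000000000000) := T_11 (nat_lit 126) (nat_lit 140) (nat_lit 1) (nat_lit 8) (nat_lit 7) L61205 (by decide +kernel)
theorem L61207 : W_11 (nat_lit 13) (nat_lit 0x2000280004001200090000000000000000000000000000000) (nat_lit 0x0) (nat_lit 0x50003e001f000d800000030000900060001c00000000000000000000000000) := T_11 (nat_lit 125) (nat_lit 108) (nat_lit 6) (nat_lit 5) (nat_lit 10) L61206 (by decide +kernel)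
theorem L61208 : W_11 (nat_lit 14) (nat_lit 0x280004001200090000000000000000000000000000000) (nat_lit 0x0) (nat_lit 0x50003e001f000f800100030000900060001c00000000000000000000000000) := T_11 (nat_lit 193) (nat_lit 176) (nat_lit 7) (nat_lit 5) (nat_lit 7) L61207 (by decide +kernel)
theorem L61209 : W_11 (nat_lit 15) (nat_lit 0x200004001200090000000000000000000000000000000) (nat_lit 0x0) (nat_lit 0x50003e001fc00f800180032000900068001c000a0000000000000000000000) := Q_11 (nat_lit 175) (C_11 L60642 (C_11 L60790 (C_11 L61208 N_11))) (by decide +kernel)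
theorem L61210 : W_11 (nat_lit 14) (nat_lit 0x200004001200090000000000000000000000000000000) (nat_lit 0x0) (nat_lit 0x50003e001fc00f8001c0032000900028001800080000000000000000000000) := Q_11 (nat_lit 175) (C_11 L33451 (C_11 L60642 (C_11 L32216 N_11))) (by decide +kernel)
theorem L61211 : W_11 (nat_lit 16) (nat_lit 0x200000001200090000000000000000000000000000000) (nat_lit 0x0) (nat_lit 0x50003e001fc00f8001c0037000900068003c000e0005000000000000000000) := Q_11 (nat_lit 158) (C_11 L60666 (C_11 L60698 (C_11 L61198 (C_11 L61199 (C_11 L61209 (C_11 L61210 N_11)))))) (by decide +kernel)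
theorem L61212 : W_11 (nat_lit 2) (nat_lit 0x2000040016000900008000c0003400000000000000000) (nat_lit 0x0) (nat_lit 0x40002000800000000000000000000000000000000000) := D_11 (nat_lit 157) (nat_lit 174) (nat_lit 143) (nat_lit 5) (nat_lit 5) (nat_lit 6) (nat_lit 1) (nat_lit 8) (nat_lit 8) (by decide +kernel)
theorem L61213 : W_11 (nat_lit 3) (nat_lit 0x2000040012000900008000c0003400000000000000000) (nat_lit 0x0) (nat_lit 0x40002000c00020000000000000000000000000000000) := T_11 (nat_lit 142) (nat_lit 125) (nat_lit 7) (nat_lit 5) (nat_lit 4) L61212 (by decide +kernel)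
theorem L61214 : W_11 (nat_lit 4) (nat_lit 0x2000040012000900008000c0003000000000000000000) (nat_lit 0x0) (nat_lit 0x40002000c00020000000000000c00000000000000000) := T_11 (nat_lit 70) (nat_lit 71) (nat_lit 3) (nat_lit 2) (nat_lit 4) L61213 (by decide +kernel)
theorem L61215 : W_11 (nat_lit 5) (nat_lit 0x2000040012000900008000c0001000000000000000000) (nat_lit 0x0) (nat_lit 0x40002000c00020000000000002c00080000000000000) := T_11 (nat_lit 73) (nat_lit 55) (nat_lit 4) (nat_lit 5) (nat_lit 7) L61214 (by decide +kernel)
theorem L61216 : W_11 (nat_lit 6) (nat_lit 0x2000040012000900008000c0000000000000000000000) (nat_lit 0x0) (nat_lit 0x40002000c00020000000020003c00080000000000000) := T_11 (nat_lit 72) (nat_lit 89) (nat_lit 4) (nat_lit 5) (nat_lit 8) L61215 (by decide +kernel)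
theorem L61217 : W_11 (nat_lit 7) (nat_lit 0x200004001200090000800080000000000000000000000) (nat_lit 0x0) (nat_lit 0x40002000c00020000000060007c00080000000000000) := T_11 (nat_lit 90) (nat_lit 74) (nat_lit 6) (nat_lit 5) (nat_lit 8) L61216 (by decide +kernel)
theorem L61218 : W_11 (nat_lit 8) (nat_lit 0x200004001200090000800000000000000000000000000) (nat_lit 0x0) (nat_lit 0x40002000c000200010000e0007c00080000000000000) := T_11 (nat_lit 91) (nat_lit 108) (nat_lit 6) (nat_lit 5) (nat_lit 9) L61217 (by decide +kernel)
theorem L61219 : W_11 (nat_lit 2) (nat_lit 0x4000200006001a000d0002c00000000000000000000000000) (nat_lit 0x0) (nat_lit 0x20000000000000000100008000000000000000000) := D_11 (nat_lit 92) (nat_lit 75) (nat_lit 161) (nat_lit 7) (nat_lit 7) (nat_lit 4) (nat_lit 7) (nat_lit 7) (nat_lit 5) (by decide +kernel)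
theorem L61220 : W_11 (nat_lit 3) (nat_lit 0x4000200006001a000d0000c00000000000000000000000000) (nat_lit 0x0) (nat_lit 0x20000000000003000100008000000000000000000) := T_11 (nat_lit 109) (nat_lit 108) (nat_lit 3) (nat_lit 4) (nat_lit 6) L61219 (by decide +kernel)
theorem L61221 : W_11 (nat_lit 4) (nat_lit 0x4000200006001a00090000c00000000000000000000000000) (nat_lit 0x0) (nat_lit 0x20000000060003000100008000000000000000000) := T_11 (nat_lit 126) (nat_lit 125) (nat_lit 0) (nat_lit 8) (nat_lit 7) L61220 (by decide +kernel)
theorem L61222 : W_11 (nat_lit 5) (nat_lit 0x4000200006001a00090000800000000000000000000000000) (nat_lit 0x0) (nat_lit 0x20000000060003400120008000000000000000000) := T_11 (nat_lit 106) (nat_lit 89) (nat_lit 4) (nat_lit 5) (nat_lit 9) L61221 (by decide +kernel)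
theorem L61223 : W_11 (nat_lit 6) (nat_lit 0x200006001a00090000800000000000000000000000000) (nat_lit 0x0) (nat_lit 0x4000000030000000060003400120008000000000000000000) := T_11 (nat_lit 194) (nat_lit 160) (nat_lit 6) (nat_lit 7) (nat_lit 11) L61222 (by decide +kernel)
theorem L61224 : W_11 (nat_lit 7) (nat_lit 0x200006001200090000800000000000000000000000000) (nat_lit 0x0) (nat_lit 0x4000000030000c00060003400120008000000000000000000) := T_11 (nat_lit 143) (nat_lit 142) (nat_lit 1) (nat_lit 8) (nat_lit 8) L61223 (by decide +kernel)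
theorem L61225 : W_11 (nat_lit 8) (nat_lit 0x200004001200090000800000000000000000000000000) (nat_lit 0x0) (nat_lit 0x4000040032000c00060003400120008000000000000000000) := T_11 (nat_lit 157) (nat_lit 174) (nat_lit 5) (nat_lit 5) (nat_lit 6) L61224 (by decide +kernel)
theorem L61226 : W_11 (nat_lit 2) (nat_lit 0x200006001600090000800060002000000000000000000) (nat_lit 0x0) (nat_lit 0x80004000200000000000000) := D_11 (nat_lit 74) (nat_lit 57) (nat_lit 91) (nat_lit 6) (nat_lit 5) (nat_lit 7) (nat_lit 6) (nat_lit 5) (nat_lit 8) (by decide +kernel)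
theorem L61227 : W_11 (nat_lit 3) (nat_lit 0x200006001600090000800060000000000000000000000) (nat_lit 0x0) (nat_lit 0x20000000080006000200000000000000) := T_11 (nat_lit 73) (nat_lit 125) (nat_lit 7) (nat_lit 5) (nat_lit 4) L61226 (by decide +kernel)
theorem L61228 : W_11 (nat_lit 4) (nat_lit 0x200006001200090000800060000000000000000000000) (nat_lit 0x0) (nat_lit 0xc00020000000080006000200000000000000) := T_11 (nat_lit 142) (nat_lit 143) (nat_lit 1) (nat_lit 8) (nat_lit 8) L61227 (by decide +kernel)
theorem L61229 : W_11 (nat_lit 5) (nat_lit 0x200004001200090000800060000000000000000000000) (nat_lit 0x0) (nat_lit 0x40002000c00020000000080006000200000000000000) := T_11 (nat_lit 157) (nat_lit 174) (nat_lit 5) (nat_lit 5) (nat_lit 6) L61228 (by decide +kernel)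
theorem L61230 : W_11 (nat_lit 6) (nat_lit 0x200004001200090000800020000000000000000000000) (nat_lit 0x0) (nat_lit 0x40002000c000200000000c0007000200000000000000) := T_11 (nat_lit 90) (nat_lit 72) (nat_lit 4) (nat_lit 5) (nat_lit 8) L61229 (by decide +kernel)
theorem L61231 : W_11 (nat_lit 7) (nat_lit 0x200004001200090000800000000000000000000000000) (nat_lit 0x0) (nat_lit 0x40002000c000200004000e0007000200000000000000) := T_11 (nat_lit 89) (nat_lit 106) (nat_lit 4) (nat_lit 5) (nat_lit 9) L61230 (by decide +kernel)
theorem L61232 : W_11 (nat_lit 2) (nat_lit 0x200016001a000d0003800000000000000000000000000) (nat_lit 0x0) (nat_lit 0x20000000000000000100008000000000000000000) := D_11 (nat_lit 92) (nat_lit 75) (nat_lit 161) (nat_lit 7) (nat_lit 7) (nat_lit 4) (nat_lit 7) (nat_lit 7) (nat_lit 5) (by decide +kernel)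
theorem L61233 : W_11 (nat_lit 3) (nat_lit 0x200016001a000d0001800000000000000000000000000) (nat_lit 0x0) (nat_lit 0x20000000000002400100008000000000000000000) := T_11 (nat_lit 109) (nat_lit 106) (nat_lit 3) (nat_lit 4) (nat_lit 6) L61232 (by decide +kernel)
theorem L61234 : W_11 (nat_lit 4) (nat_lit 0x200016001a00090001800000000000000000000000000) (nat_lit 0x0) (nat_lit 0x20000000060002400100008000000000000000000) := T_11 (nat_lit 126) (nat_lit 125) (nat_lit 4) (nat_lit 7) (nat_lit 10) L61233 (by decide +kernel)
theorem L61235 : W_11 (nat_lit 5) (nat_lit 0x200016001a00090000800000000000000000000000000) (nat_lit 0x0) (nat_lit 0x20000000060003400180008000000000000000000) := T_11 (nat_lit 108) (nat_lit 91) (nat_lit 6) (nat_lit 5) (nat_lit 9) L61234 (by decide +kernel)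
theorem L61236 : W_11 (nat_lit 6) (nat_lit 0x200006001a00090000800000000000000000000000000) (nat_lit 0x0) (nat_lit 0x4000000030000000060003400180008000000000000000000) := T_11 (nat_lit 160) (nat_lit 194) (nat_lit 6) (nat_lit 7) (nat_lit 11) L61235 (by decide +kernel)
theorem L61237 : W_11 (nat_lit 7) (nat_lit 0x200006001200090000800000000000000000000000000) (nat_lit 0x0) (nat_lit 0x4000000030000c00060003400180008000000000000000000) := T_11 (nat_lit 143) (nat_lit 142) (nat_lit 1) (nat_lit 8) (nat_lit 8) L61236 (by decide +kernel)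
theorem L61238 : W_11 (nat_lit 8) (nat_lit 0x200004001200090000800000000000000000000000000) (nat_lit 0x0) (nat_lit 0x4000040032000c00060003400180008000000000000000000) := T_11 (nat_lit 157) (nat_lit 174) (nat_lit 5) (nat_lit 5) (nat_lit 6) L61237 (by decide +kernel)
theorem L61239 : W_11 (nat_lit 9) (nat_lit 0x200004001200090000000000000000000000000000000) (nat_lit 0x0) (nat_lit 0x4000040032000c00060003c001e000fc00280000000000000) := Q_11 (nat_lit 107) (C_11 L39576 (C_11 L61218 (C_11 L60573 (C_11 L61225 (C_11 L61231 (C_11 L61238 N_11)))))) (by decide +kernel)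
theorem L61240 : W_11 (nat_lit 6) (nat_lit 0x200004001200090000000000000000000000000000000) (nat_lit 0x0) (nat_lit 0x4000f8001c0030000c00068001400000000000000000000000000) := Q_11 (nat_lit 175) (C_11 L32216 (C_11 L33403 (C_11 L60694 N_11))) (by decide +kernel)
theorem L61241 : W_11 (nat_lit 9) (nat_lit 0x200004001200090000000000000000000000000000000) (nat_lit 0x0) (nat_lit 0x20007000f800180012000c00168001c000a0000000000000000000000) := Q_11 (nat_lit 175) (C_11 L60790 (C_11 L60794 (C_11 L33403 (C_11 L60646 N_11)))) (by decide +kernel)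
theorem L61242 : W_11 (nat_lit 10) (nat_lit 0x200000001200090000000000000000000000000000000) (nat_lit 0x0) (nat_lit 0x20007000f8001c0037000c00168003c001e000fc00280000000000000) := Q_11 (nat_lit 158) (C_11 L61198 (C_11 L60656 (C_11 L60697 (C_11 L61239 (C_11 L61240 (C_11 L61241 (C_11 L60796 N_11))))))) (by decide +kernel)
theorem L61243 : W_11 (nat_lit 2) (nat_lit 0x2000000013000b0000800068016000100008000000000) (nat_lit 0x0) (nat_lit 0x80004000200000) := D_11 (nat_lit 38) (nat_lit 21) (nat_lit 55) (nat_lit 4) (nat_lit 5) (nat_lit 5) (nat_lit 4) (nat_lit 5) (nat_lit 6) (by decide +kernel)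
theorem L61244 : W_11 (nat_lit 3) (nat_lit 0x2000000013000b0000800068016000100000000000000) (nat_lit 0x0) (nat_lit 0x40000000000008000c000200000) := T_11 (nat_lit 39) (nat_lit 106) (nat_lit 5) (nat_lit 5) (nat_lit 2) L61243 (by decide +kernel)
theorem L61245 : W_11 (nat_lit 4) (nat_lit 0x2000000013000b0000800068016000000000000000000) (nat_lit 0x0) (nat_lit 0x140000000000018000c000200000) := T_11 (nat_lit 56) (nat_lit 108) (nat_lit 7) (nat_lit 5) (nat_lit 3) L61244 (by decide +kernel)
theorem L61246 : W_11 (nat_lit 5) (nat_lit 0x200000001300090000800068016000000000000000000) (nat_lit 0x0) (nat_lit 0x6000140000000000018000c000200000) := T_11 (nat_lit 125) (nat_lit 126) (nat_lit 1) (nat_lit 8) (nat_lit 7) L61245 (by decide +kernel)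
theorem L61247 : W_11 (nat_lit 6) (nat_lit 0x200000001200090000800068016000000000000000000) (nat_lit 0x0) (nat_lit 0x200010006000140000000000018000c000200000) := T_11 (nat_lit 140) (nat_lit 157) (nat_lit 5) (nat_lit 5) (nat_lit 5) L61246 (by decide +kernel)
theorem L61248 : W_11 (nat_lit 7) (nat_lit 0x200000001200090000800068006000000000000000000) (nat_lit 0x0) (nat_lit 0x200010006000140000001800018000c000200000) := T_11 (nat_lit 76) (nat_lit 75) (nat_lit 1) (nat_lit 8) (nat_lit 4) L61247 (by decide +kernel)
theorem L61249 : W_11 (nat_lit 8) (nat_lit 0x200000001200090000800060006000000000000000000) (nat_lit 0x0) (nat_lit 0x200010006000140001801800018000c000200000) := T_11 (nat_lit 87) (nat_lit 88) (nat_lit 2) (nat_lit 2) (nat_lit 5) L61248 (by decide +kernel)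
theorem L61250 : W_11 (nat_lit 9) (nat_lit 0x200000001200090000800060004000000000000000000) (nat_lit 0x0) (nat_lit 0x200010006000140001801a00038000c000200000) := T_11 (nat_lit 73) (nat_lit 57) (nat_lit 6) (nat_lit 5) (nat_lit 7) L61249 (by decide +kernel)
theorem L61251 : W_11 (nat_lit 10) (nat_lit 0x200000001200090000800060000000000000000000000) (nat_lit 0x0) (nat_lit 0x200010006000140009801e00038000c000200000) := T_11 (nat_lit 74) (nat_lit 91) (nat_lit 6) (nat_lit 5) (nat_lit 8) L61250 (by decide +kernel)
theorem L61252 : W_11 (nat_lit 11) (nat_lit 0x200000001200090000800040000000000000000000000) (nat_lit 0x0) (nat_lit 0x20001000600014000b801f00038000c000200000) := T_11 (nat_lit 89) (nat_lit 72) (nat_lit 4) (nat_lit 5) (nat_lit 8) L61251 (by decide +kernel)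
theorem L61253 : W_11 (nat_lit 5) (nat_lit 0x200000001300090000800068006000000000000000000) (nat_lit 0x0) (nat_lit 0x40002000140000000000018000c000200000) := T_11 (nat_lit 125) (nat_lit 142) (nat_lit 7) (nat_lit 5) (nat_lit 4) L40014 (by decide +kernel)
theorem L61254 : W_11 (nat_lit 6) (nat_lit 0x200000001300090000800060006000000000000000000) (nat_lit 0x0) (nat_lit 0x40002000140001800000018000c000200000) := T_11 (nat_lit 87) (nat_lit 88) (nat_lit 2) (nat_lit 2) (nat_lit 5) L61253 (by decide +kernel)
theorem L61255 : W_11 (nat_lit 7) (nat_lit 0x200000001300090000800060004000000000000000000) (nat_lit 0x0) (nat_lit 0x40002000140001800200038000c000200000) := T_11 (nat_lit 73) (nat_lit 57) (nat_lit 6) (nat_lit 5) (nat_lit 7) L61254 (by decide +kernel)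
theorem L61256 : W_11 (nat_lit 8) (nat_lit 0x200000001300090000800060000000000000000000000) (nat_lit 0x0) (nat_lit 0x40002000140009800600038000c000200000) := T_11 (nat_lit 74) (nat_lit 91) (nat_lit 6) (nat_lit 5) (nat_lit 8) L61255 (by decide +kernel)
theorem L61257 : W_11 (nat_lit 9) (nat_lit 0x200000001300090000800040000000000000000000000) (nat_lit 0x0) (nat_lit 0x4000200014000b800700038000c000200000) := T_11 (nat_lit 89) (nat_lit 72) (nat_lit 4) (nat_lit 5) (nat_lit 8) L61256 (by decide +kernel)
theorem L61258 : W_11 (nat_lit 10) (nat_lit 0x200000001200090000800040000000000000000000000) (nat_lit 0x0) (nat_lit 0x20005000200014000b800700038000c000200000) := T_11 (nat_lit 140) (nat_lit 157) (nat_lit 5) (nat_lit 5) (nat_lit 5) L61257 (by decide +kernel)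
theorem L61259 : W_11 (nat_lit 2) (nat_lit 0x200000001200090000800040006000000000000000000) (nat_lit 0x0) (nat_lit 0x20001000080000000000000) := D_11 (nat_lit 72) (nat_lit 55) (nat_lit 89) (nat_lit 4) (nat_lit 5) (nat_lit 7) (nat_lit 4) (nat_lit 5) (nat_lit 8) (by decide +kernel)
theorem L61260 : W_11 (nat_lit 3) (nat_lit 0x200000001200090000800040004000000000000000000) (nat_lit 0x0) (nat_lit 0x20003000280000000000000) := T_11 (nat_lit 73) (nat_lit 57) (nat_lit 6) (nat_lit 5) (nat_lit 7) L61259 (by decide +kernel)
theorem L61261 : W_11 (nat_lit 4) (nat_lit 0x200000001200090000800040000000000000000000000) (nat_lit 0x0) (nat_lit 0xa0007000280000000000000) := T_11 (nat_lit 74) (nat_lit 91) (nat_lit 6) (nat_lit 5) (nat_lit 8) L61260 (by decide +kernel)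
theorem L61262 : W_11 (nat_lit 2) (nat_lit 0x2000000013000b0000800040002000000000000000000) (nat_lit 0x0) (nat_lit 0x20001000080000000000000) := D_11 (nat_lit 72) (nat_lit 89) (nat_lit 55) (nat_lit 4) (nat_lit 5) (nat_lit 8) (nat_lit 4) (nat_lit 5) (nat_lit 7) (by decide +kernel)
theorem L61263 : W_11 (nat_lit 3) (nat_lit 0x2000000013000b0000800040000000000000000000000) (nat_lit 0x0) (nat_lit 0x400000000000020003000080000000000000) := T_11 (nat_lit 73) (nat_lit 142) (nat_lit 7) (nat_lit 5) (nat_lit 4) L61262 (by decide +kernel)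
theorem L61264 : W_11 (nat_lit 4) (nat_lit 0x200000001300090000800040000000000000000000000) (nat_lit 0x0) (nat_lit 0x400060000000020003000080000000000000) := T_11 (nat_lit 125) (nat_lit 126) (nat_lit 1) (nat_lit 8) (nat_lit 7) L61263 (by decide +kernel)
theorem L61265 : W_11 (nat_lit 5) (nat_lit 0x200000001200090000800040000000000000000000000) (nat_lit 0x0) (nat_lit 0x2000500060000000020003000080000000000000) := T_11 (nat_lit 140) (nat_lit 157) (nat_lit 5) (nat_lit 5) (nat_lit 5) L61264 (by decide +kernel)
theorem L61266 : W_11 (nat_lit 2) (nat_lit 0x300010001b000d00028000c0000000000000000000000) (nat_lit 0x0) (nat_lit 0x20000000000000000100008000000000000000000) := D_11 (nat_lit 92) (nat_lit 161) (nat_lit 75) (nat_lit 7) (nat_lit 7) (nat_lit 5) (nat_lit 7) (nat_lit 7) (nat_lit 4) (by decide +kernel)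
theorem L61267 : W_11 (nat_lit 3) (nat_lit 0x300010001b000d00008000c0000000000000000000000) (nat_lit 0x0) (nat_lit 0x20000000000003000100008000000000000000000) := T_11 (nat_lit 109) (nat_lit 108) (nat_lit 4) (nat_lit 7) (nat_lit 9) L61266 (by decide +kernel)
theorem L61268 : W_11 (nat_lit 4) (nat_lit 0x200010001b000d00008000c0000000000000000000000) (nat_lit 0x0) (nat_lit 0x2000100020000000000003000100008000000000000000000) := T_11 (nat_lit 176) (nat_lit 193) (nat_lit 5) (nat_lit 7) (nat_lit 7) L61267 (by decide +kernel)
theorem L61269 : W_11 (nat_lit 5) (nat_lit 0x200000001b000d00008000c0000000000000000000000) (nat_lit 0x0) (nat_lit 0x6000100030000000000003000100008000000000000000000) := T_11 (nat_lit 160) (nat_lit 194) (nat_lit 6) (nat_lit 7) (nat_lit 11) L61268 (by decide +kernel)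
theorem L61270 : W_11 (nat_lit 6) (nat_lit 0x2000000013000d00008000c0000000000000000000000) (nat_lit 0x0) (nat_lit 0x6000100030000c00000003000100008000000000000000000) := T_11 (nat_lit 143) (nat_lit 142) (nat_lit 2) (nat_lit 4) (nat_lit 8) L61269 (by decide +kernel)
theorem L61271 : W_11 (nat_lit 7) (nat_lit 0x2000000013000900008000c0000000000000000000000) (nat_lit 0x0) (nat_lit 0x6000100030000c00060003000100008000000000000000000) := T_11 (nat_lit 126) (nat_lit 125) (nat_lit 1) (nat_lit 8) (nat_lit 7) L61270 (by decide +kernel)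
theorem L61272 : W_11 (nat_lit 8) (nat_lit 0x2000000012000900008000c0000000000000000000000) (nat_lit 0x0) (nat_lit 0x6000100032000d00060003000100008000000000000000000) := T_11 (nat_lit 140) (nat_lit 157) (nat_lit 5) (nat_lit 5) (nat_lit 5) L61271 (by decide +kernel)
theorem L61273 : W_11 (nat_lit 9) (nat_lit 0x200000001200090000800040000000000000000000000) (nat_lit 0x0) (nat_lit 0x6000100032000d0006000300018000c000000000000000000) := T_11 (nat_lit 91) (nat_lit 74) (nat_lit 6) (nat_lit 5) (nat_lit 8) L61272 (by decide +kernel)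
theorem L61274 : W_11 (nat_lit 12) (nat_lit 0x200000001200090000800000000000000000000000000) (nat_lit 0x0) (nat_lit 0x6000100032000d000600034001f801f00038000c000200000) := Q_11 (nat_lit 90) (C_11 L61252 (C_11 L61128 (C_11 L61258 (C_11 L61261 (C_11 L61265 (C_11 L61273 N_11)))))) (by decide +kernel)
theorem L61275 : W_11 (nat_lit 2) (nat_lit 0x10007000280006001a00090001c00000000000000000000000000) (nat_lit 0x0) (nat_lit 0x20008000000000000100000000000000000000000000000000000) := D_11 (nat_lit 209) (nat_lit 140) (nat_lit 195) (nat_lit 4) (nat_lit 5) (nat_lit 12) (nat_lit 1) (nat_lit 8) (nat_lit 11) (by decide +kernel)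
theorem L61276 : W_11 (nat_lit 3) (nat_lit 0x7000280006001a00090001c00000000000000000000000000) (nat_lit 0x0) (nat_lit 0x30008800000000000100000000000000000000000000000000000) := T_11 (nat_lit 208) (nat_lit 191) (nat_lit 5) (nat_lit 5) (nat_lit 8) L61275 (by decide +kernel)
theorem L61277 : W_11 (nat_lit 4) (nat_lit 0x6000280006001a00090001c00000000000000000000000000) (nat_lit 0x0) (nat_lit 0x70009800000000000100000000000000000000000000000000000) := T_11 (nat_lit 192) (nat_lit 210) (nat_lit 7) (nat_lit 5) (nat_lit 8) L61276 (by decide +kernel)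
theorem L61278 : W_11 (nat_lit 5) (nat_lit 0x6000280006001a00090001800000000000000000000000000) (nat_lit 0x0) (nat_lit 0x70009800000000000100000000400020000000000000000000000) := T_11 (nat_lit 106) (nat_lit 89) (nat_lit 4) (nat_lit 5) (nat_lit 9) L61277 (by decide +kernel)
theorem L61279 : W_11 (nat_lit 6) (nat_lit 0x4000280006001a00090001800000000000000000000000000) (nat_lit 0x0) (nat_lit 0x7000b800100000000100000000400020000000000000000000000) := T_11 (nat_lit 193) (nat_lit 176) (nat_lit 7) (nat_lit 5) (nat_lit 7) L61278 (by decide +kernel)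
theorem L61280 : W_11 (nat_lit 7) (nat_lit 0x280006001a00090001800000000000000000000000000) (nat_lit 0x0) (nat_lit 0x7000f800100010000100000000400020000000000000000000000) := T_11 (nat_lit 194) (nat_lit 160) (nat_lit 6) (nat_lit 7) (nat_lit 11) L61279 (by decide +kernel)
theorem L61281 : W_11 (nat_lit 8) (nat_lit 0x200006001a00090001800000000000000000000000000) (nat_lit 0x0) (nat_lit 0x7000f800180010000100020000400020000000000000000000000) := T_11 (nat_lit 175) (nat_lit 125) (nat_lit 6) (nat_lit 5) (nat_lit 10) L61280 (by decide +kernel)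
theorem L61282 : W_11 (nat_lit 9) (nat_lit 0x200006001200090001800000000000000000000000000) (nat_lit 0x0) (nat_lit 0x7000f800180010000d00020000400020000000000000000000000) := T_11 (nat_lit 143) (nat_lit 142) (nat_lit 1) (nat_lit 8) (nat_lit 8) L61281 (by decide +kernel)
theorem L61283 : W_11 (nat_lit 10) (nat_lit 0x200004001200090001800000000000000000000000000) (nat_lit 0x0) (nat_lit 0x7000f8001c0012000d00020000400020000000000000000000000) := T_11 (nat_lit 157) (nat_lit 174) (nat_lit 5) (nat_lit 5) (nat_lit 6) L61282 (by decide +kernel)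
theorem L61284 : W_11 (nat_lit 11) (nat_lit 0x200004001200090000800000000000000000000000000) (nat_lit 0x0) (nat_lit 0x7000f8001c0012000d000200014000a0000000000000000000000) := T_11 (nat_lit 108) (nat_lit 91) (nat_lit 6) (nat_lit 5) (nat_lit 9) L61283 (by decide +kernel)
theorem L61285 : W_11 (nat_lit 12) (nat_lit 0x200000001200090000800000000000000000000000000) (nat_lit 0x0) (nat_lit 0x7000f8001c0016000d000200014000e0007c00280000000000000) := Q_11 (nat_lit 158) (C_11 L39909 (C_11 L61218 (C_11 L61231 (C_11 L60573 (C_11 L61284 (C_11 L60576 N_11)))))) (by decide +kernel)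
theorem L61286 : W_11 (nat_lit 11) (nat_lit 0x200000001200090000800000000000000000000000000) (nat_lit 0x0) (nat_lit 0xe8001c00360009000400034003e0005000000000000000000) := Q_11 (nat_lit 158) (C_11 L60663 (C_11 L60576 (C_11 L60573 (C_11 L39909 N_11)))) (by decide +kernel)
theorem L61287 : W_11 (nat_lit 8) (nat_lit 0x200000001200090000800000000000000000000000000) (nat_lit 0x0) (nat_lit 0x40006000d001600017001e0007000280000000000000) := Q_11 (nat_lit 90) (C_11 L61261 (C_11 L61265 (C_11 L31963 (C_11 L60877 N_11)))) (by decide +kernel)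
theorem L61288 : W_11 (nat_lit 2) (nat_lit 0x200000001a000d0002c00100000000000000000000000) (nat_lit 0x0) (nat_lit 0x500100000000000000000000000000000000) := D_11 (nat_lit 142) (nat_lit 140) (nat_lit 128) (nat_lit 2) (nat_lit 4) (nat_lit 8) (nat_lit 2) (nat_lit 5) (nat_lit 8) (by decide +kernel)
theorem L61289 : W_11 (nat_lit 3) (nat_lit 0x2000000012000d0002c00100000000000000000000000) (nat_lit 0x0) (nat_lit 0x20000d00100000000000000000000000000000000) := T_11 (nat_lit 143) (nat_lit 161) (nat_lit 7) (nat_lit 7) (nat_lit 5) L61288 (by decide +kernel)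
theorem L61290 : W_11 (nat_lit 4) (nat_lit 0x2000000012000d0002c00000000000000000000000000) (nat_lit 0x0) (nat_lit 0x20000d00100000000100008000000000000000000) := T_11 (nat_lit 92) (nat_lit 75) (nat_lit 7) (nat_lit 7) (nat_lit 4) L61289 (by decide +kernel)
theorem L61291 : W_11 (nat_lit 5) (nat_lit 0x2000000012000d0000c00000000000000000000000000) (nat_lit 0x0) (nat_lit 0x20000d00100003000100008000000000000000000) := T_11 (nat_lit 109) (nat_lit 108) (nat_lit 3) (nat_lit 4) (nat_lit 6) L61290 (by decide +kernel)
theorem L61292 : W_11 (nat_lit 6) (nat_lit 0x200000001200090000c00000000000000000000000000) (nat_lit 0x0) (nat_lit 0x20000d00160003000100008000000000000000000) := T_11 (nat_lit 126) (nat_lit 125) (nat_lit 0) (nat_lit 8) (nat_lit 7) L61291 (by decide +kernel)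
theorem L61293 : W_11 (nat_lit 7) (nat_lit 0x200000001200090000800000000000000000000000000) (nat_lit 0x0) (nat_lit 0x24000d00160003400160009000080000000000000) := Q_11 (nat_lit 106) (C_11 L60836 (C_11 L61292 N_11)) (by decide +kernel)
theorem L61294 : W_11 (nat_lit 2) (nat_lit 0x30003000280006001a00090001800000000000000000000000000) (nat_lit 0x0) (nat_lit 0xc000000010000000000000000000000000000000000000000) := D_11 (nat_lit 194) (nat_lit 195) (nat_lit 160) (nat_lit 1) (nat_lit 8) (nat_lit 11) (nat_lit 6) (nat_lit 7) (nat_lit 11) (by decide +kernel)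
theorem L61295 : W_11 (nat_lit 3) (nat_lit 0x30003000280006001200090001800000000000000000000000000) (nat_lit 0x0) (nat_lit 0xc000000010000c00000000000000000000000000000000000) := T_11 (nat_lit 143) (nat_lit 142) (nat_lit 1) (nat_lit 8) (nat_lit 8) L61294 (by decide +kernel)
theorem L61296 : W_11 (nat_lit 4) (nat_lit 0x30003000280004001200090001800000000000000000000000000) (nat_lit 0x0) (nat_lit 0xc000000012000d00000000000000000000000000000000000) := T_11 (nat_lit 157) (nat_lit 140) (nat_lit 4) (nat_lit 5) (nat_lit 12) L61295 (by decide +kernel)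
theorem L61297 : W_11 (nat_lit 5) (nat_lit 0x10003000280004001200090001800000000000000000000000000) (nat_lit 0x0) (nat_lit 0x20002000c000000012000d00000000000000000000000000000000000) := T_11 (nat_lit 209) (nat_lit 225) (nat_lit 5) (nat_lit 5) (nat_lit 9) L61296 (by decide +kernel)
theorem L61298 : W_11 (nat_lit 6) (nat_lit 0x3000280004001200090001800000000000000000000000000) (nat_lit 0x0) (nat_lit 0x20003000c800000012000d00000000000000000000000000000000000) := T_11 (nat_lit 208) (nat_lit 191) (nat_lit 5) (nat_lit 5) (nat_lit 8) L61297 (by decide +kernel)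
theorem L61299 : W_11 (nat_lit 7) (nat_lit 0x2000280004001200090001800000000000000000000000000) (nat_lit 0x0) (nat_lit 0x20007000d800000012000d00000000000000000000000000000000000) := T_11 (nat_lit 192) (nat_lit 210) (nat_lit 7) (nat_lit 5) (nat_lit 8) L61298 (by decide +kernel)
theorem L61300 : W_11 (nat_lit 8) (nat_lit 0x280004001200090001800000000000000000000000000) (nat_lit 0x0) (nat_lit 0x20007000f800100012000d00000000000000000000000000000000000) := T_11 (nat_lit 193) (nat_lit 176) (nat_lit 7) (nat_lit 5) (nat_lit 7) L61299 (by decide +kernel)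
theorem L61301 : W_11 (nat_lit 9) (nat_lit 0x200004001200090001800000000000000000000000000) (nat_lit 0x0) (nat_lit 0x20007000f800180012000d00020000000000000000000000000000000) := T_11 (nat_lit 175) (nat_lit 125) (nat_lit 6) (nat_lit 5) (nat_lit 10) L61300 (by decide +kernel)
theorem L61302 : W_11 (nat_lit 10) (nat_lit 0x200004001200090000800000000000000000000000000) (nat_lit 0x0) (nat_lit 0x20007000f800180012000d00020001000080000000000000000000000) := T_11 (nat_lit 108) (nat_lit 91) (nat_lit 6) (nat_lit 5) (nat_lit 9) L61301 (by decide +kernel)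
theorem L61303 : W_11 (nat_lit 2) (nat_lit 0x2000060016000b0000800060000000000000000000000) (nat_lit 0x0) (nat_lit 0x1000080000000000000001000000000000000000000000000) := D_11 (nat_lit 175) (nat_lit 192) (nat_lit 108) (nat_lit 6) (nat_lit 5) (nat_lit 11) (nat_lit 6) (nat_lit 5) (nat_lit 10) (by decide +kernel)
theorem L61304 : W_11 (nat_lit 3) (nat_lit 0x200006001600090000800060000000000000000000000) (nat_lit 0x0) (nat_lit 0x1000080000000000020001000000002000000000000000000) := T_11 (nat_lit 125) (nat_lit 73) (nat_lit 7) (nat_lit 5) (nat_lit 4) L61303 (by decide +kernel)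
theorem L61305 : W_11 (nat_lit 4) (nat_lit 0x200006001200090000800060000000000000000000000) (nat_lit 0x0) (nat_lit 0x1000080000000c00020001000000002000000000000000000) := T_11 (nat_lit 142) (nat_lit 143) (nat_lit 1) (nat_lit 8) (nat_lit 8) L61304 (by decide +kernel)
theorem L61306 : W_11 (nat_lit 5) (nat_lit 0x200006001200090000800040000000000000000000000) (nat_lit 0x0) (nat_lit 0x1000080000000c00020001000020003000000000000000000) := T_11 (nat_lit 89) (nat_lit 72) (nat_lit 4) (nat_lit 5) (nat_lit 8) L61305 (by decide +kernel)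
theorem L61307 : W_11 (nat_lit 6) (nat_lit 0x200006001200090000800000000000000000000000000) (nat_lit 0x0) (nat_lit 0x1000080000000d00020001000060003000000000000000000) := T_11 (nat_lit 90) (nat_lit 140) (nat_lit 5) (nat_lit 5) (nat_lit 5) L61306 (by decide +kernel)
theorem L61308 : W_11 (nat_lit 7) (nat_lit 0x200004001200090000800000000000000000000000000) (nat_lit 0x0) (nat_lit 0x10000c0002000d00020001000060003000000000000000000) := T_11 (nat_lit 157) (nat_lit 174) (nat_lit 5) (nat_lit 5) (nat_lit 6) L61307 (by decide +kernel)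
theorem L61309 : W_11 (nat_lit 5) (nat_lit 0x200006001200090000800040000000000000000000000) (nat_lit 0x0) (nat_lit 0xc000200000000a0007000200000000000000) := T_11 (nat_lit 89) (nat_lit 72) (nat_lit 4) (nat_lit 5) (nat_lit 8) L61228 (by decide +kernel)
theorem L61310 : W_11 (nat_lit 6) (nat_lit 0x200006001200090000800000000000000000000000000) (nat_lit 0x0) (nat_lit 0xd000200000000e0007000200000000000000) := T_11 (nat_lit 90) (nat_lit 140) (nat_lit 5) (nat_lit 5) (nat_lit 5) L61309 (by decide +kernel)
theorem L61311 : W_11 (nat_lit 7) (nat_lit 0x200004001200090000800000000000000000000000000) (nat_lit 0x0) (nat_lit 0x40002000d000200000000e0007000200000000000000) := T_11 (nat_lit 157) (nat_lit 174) (nat_lit 5) (nat_lit 5) (nat_lit 6) L61310 (by decide +kernel)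
theorem L61312 : W_11 (nat_lit 11) (nat_lit 0x200000001200090000800000000000000000000000000) (nat_lit 0x0) (nat_lit 0x20007000f8001c0036000d000200010000e0007c00280000000000000) := Q_11 (nat_lit 158) (C_11 L60576 (C_11 L61218 (C_11 L39804 (C_11 L61302 (C_11 L61308 (C_11 L61311 N_11)))))) (by decide +kernel)
theorem L61313 : W_11 (nat_lit 11) (nat_lit 0x200000001200090000800000000000000000000000000) (nat_lit 0x0) (nat_lit 0xe8001c0036000c000600034003e000f000200000000000000) := Q_11 (nat_lit 158) (C_11 L39804 (C_11 L60663 (C_11 L61231 (C_11 L39576 (C_11 L61225 N_11))))) (by decide +kernel)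
theorem L61314 : W_11 (nat_lit 5) (nat_lit 0x2400040012000d0000c00000000000000000000000000) (nat_lit 0x0) (nat_lit 0xe800180030000800000000000000000000000000000000000) := T_11 (nat_lit 175) (nat_lit 191) (nat_lit 5) (nat_lit 5) (nat_lit 7) L32078 (by decide +kernel)
theorem L61315 : W_11 (nat_lit 6) (nat_lit 0x2000040012000d0000c00000000000000000000000000) (nat_lit 0x0) (nat_lit 0xe8001c0032000800000000000000000000000000000000000) := T_11 (nat_lit 174) (nat_lit 157) (nat_lit 5) (nat_lit 5) (nat_lit 6) L61314 (by decide +kernel)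
theorem L61316 : W_11 (nat_lit 7) (nat_lit 0x200004001200090000c00000000000000000000000000) (nat_lit 0x0) (nat_lit 0xe8001c0032000800060000000000000000000000000000000) := T_11 (nat_lit 126) (nat_lit 125) (nat_lit 0) (nat_lit 8) (nat_lit 7) L61315 (by decide +kernel)
theorem L61317 : W_11 (nat_lit 8) (nat_lit 0x200004001200090000800000000000000000000000000) (nat_lit 0x0) (nat_lit 0xe8001c0032000800060000400020000000000000000000000) := T_11 (nat_lit 106) (nat_lit 89) (nat_lit 4) (nat_lit 5) (nat_lit 9) L61316 (by decide +kernel)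
theorem L61318 : W_11 (nat_lit 11) (nat_lit 0x200000001200090000800000000000000000000000000) (nat_lit 0x0) (nat_lit 0x20007000f8001c0036000d000600034003a0008000000000000000000) := Q_11 (nat_lit 158) (C_11 L39804 (C_11 L61302 (C_11 L60663 (C_11 L39576 (C_11 L61225 (C_11 L61317 N_11)))))) (by decide +kernel)
theorem L61319 : W_11 (nat_lit 6) (nat_lit 0x2000000012000900008000c0000000000000000000000) (nat_lit 0x0) (nat_lit 0x6000100060003700100000000000000000000000) := T_11 (nat_lit 140) (nat_lit 157) (nat_lit 5) (nat_lit 5) (nat_lit 5) L58596 (by decide +kernel)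
theorem L61320 : W_11 (nat_lit 7) (nat_lit 0x200000001200090000800040000000000000000000000) (nat_lit 0x0) (nat_lit 0x6000100060003700180004000000000000000000) := T_11 (nat_lit 91) (nat_lit 74) (nat_lit 6) (nat_lit 5) (nat_lit 8) L61319 (by decide +kernel)
theorem L61321 : W_11 (nat_lit 8) (nat_lit 0x200000001200090000800000000000000000000000000) (nat_lit 0x0) (nat_lit 0x60005000600037001e0007000280000000000000) := Q_11 (nat_lit 90) (C_11 L61261 (C_11 L61265 (C_11 L31963 (C_11 L61320 N_11)))) (by decide +kernel)
theorem L61322 : W_11 (nat_lit 2) (nat_lit 0x200000001f000b00008000c0000000000000000000000) (nat_lit 0x0) (nat_lit 0x4000000030000000000000000000000000000000000000000) := D_11 (nat_lit 160) (nat_lit 161) (nat_lit 194) (nat_lit 3) (nat_lit 4) (nat_lit 8) (nat_lit 6) (nat_lit 7) (nat_lit 11) (by decide +kernel)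
theorem L61323 : W_11 (nat_lit 3) (nat_lit 0x2000000017000b00008000c0000000000000000000000) (nat_lit 0x0) (nat_lit 0x4000000030000800100000000000000000000000000000000) := T_11 (nat_lit 143) (nat_lit 128) (nat_lit 2) (nat_lit 5) (nat_lit 8) L61322 (by decide +kernel)
theorem L61324 : W_11 (nat_lit 4) (nat_lit 0x2000000013000b00008000c0000000000000000000000) (nat_lit 0x0) (nat_lit 0x4000000030000c00100000000000002000000000000000000) := T_11 (nat_lit 142) (nat_lit 73) (nat_lit 7) (nat_lit 5) (nat_lit 4) L61323 (by decide +kernel)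
theorem L61325 : W_11 (nat_lit 5) (nat_lit 0x2000000013000900008000c0000000000000000000000) (nat_lit 0x0) (nat_lit 0x4000000030000c00160000000000002000000000000000000) := T_11 (nat_lit 125) (nat_lit 126) (nat_lit 1) (nat_lit 8) (nat_lit 7) L61324 (by decide +kernel)
theorem L61326 : W_11 (nat_lit 6) (nat_lit 0x2000000012000900008000c0000000000000000000000) (nat_lit 0x0) (nat_lit 0x4000000032000d00160000000000002000000000000000000) := T_11 (nat_lit 140) (nat_lit 157) (nat_lit 5) (nat_lit 5) (nat_lit 5) L61325 (by decide +kernel)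
theorem L61327 : W_11 (nat_lit 7) (nat_lit 0x200000001200090000800040000000000000000000000) (nat_lit 0x0) (nat_lit 0x4000000032000d00160000000080006000000000000000000) := T_11 (nat_lit 91) (nat_lit 74) (nat_lit 6) (nat_lit 5) (nat_lit 8) L61326 (by decide +kernel)
theorem L61328 : W_11 (nat_lit 8) (nat_lit 0x200000001200090000800000000000000000000000000) (nat_lit 0x0) (nat_lit 0x4000000036000d001600007001e0007000280000000000000) := Q_11 (nat_lit 90) (C_11 L61261 (C_11 L61265 (C_11 L31963 (C_11 L61327 N_11)))) (by decide +kernel)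
theorem L61329 : W_11 (nat_lit 11) (nat_lit 0x200000001200090000800000000000000000000000000) (nat_lit 0x0) (nat_lit 0x20007000f8001c0036000d000200010000c0007000380014000000000) := Q_11 (nat_lit 158) (C_11 L39804 (C_11 L61302 (C_11 L60576 (C_11 L39817 N_11)))) (by decide +kernel)
theorem L61330 : W_11 (nat_lit 13) (nat_lit 0x200000001200090000000000000000000000000000000) (nat_lit 0x0) (nat_lit 0x20007000f8001c0036000d00160003f003f801fc0038001c000200000) := Q_11 (nat_lit 107) (C_11 L61274 (C_11 L61285 (C_11 L61286 (C_11 L61287 (C_11 L61293 (C_11 L61312 (C_11 L61313 (C_11 L61318 (C_11 L61321 (C_11 L61328 (C_11 L61329 N_11))))))))))) (by decide +kernel)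
theorem L61331 : W_11 (nat_lit 6) (nat_lit 0x2000000013000bc000000000000000000000000000000) (nat_lit 0x0) (nat_lit 0x50000c0000000700030001800000000000000000) := T_11 (nat_lit 139) (nat_lit 138) (nat_lit 2) (nat_lit 2) (nat_lit 8) L58677 (by decide +kernel)
theorem L61332 : W_11 (nat_lit 7) (nat_lit 0x20000000130009c000000000000000000000000000000) (nat_lit 0x0) (nat_lit 0x50000c0060000700030001800000000000000000) := T_11 (nat_lit 125) (nat_lit 126) (nat_lit 1) (nat_lit 8) (nat_lit 7) L61331 (by decide +kernel)
theorem L61333 : W_11 (nat_lit 8) (nat_lit 0x200000001300098000000000000000000000000000000) (nat_lit 0x0) (nat_lit 0x50004e0067000780030001800000000000000000) := Q_11 (nat_lit 122) (C_11 L61332 (C_11 L60712 (C_11 L60236 N_11))) (by decide +kernel)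
theorem L61334 : W_11 (nat_lit 8) (nat_lit 0x200000001300098000000000000000000000000000000) (nat_lit 0x0) (nat_lit 0xc00060003000000060000f00070003800000000000000000) := Q_11 (nat_lit 157) (C_11 L58204 (C_11 L60402 (C_11 L57228 N_11))) (by decide +kernel)
theorem L61335 : W_11 (nat_lit 5) (nat_lit 0x2000000013000900008000c0000000000000000000000) (nat_lit 0x0) (nat_lit 0x4000000060000700120001000000000000000000) := T_11 (nat_lit 126) (nat_lit 125) (nat_lit 1) (nat_lit 8) (nat_lit 7) L32351 (by decide +kernel)
theorem L61336 : W_11 (nat_lit 6) (nat_lit 0x200000001300090000800040000000000000000000000) (nat_lit 0x0) (nat_lit 0x40000000600007001a0005000000000000000000) := T_11 (nat_lit 91) (nat_lit 74) (nat_lit 6) (nat_lit 5) (nat_lit 8) L61335 (by decide +kernel)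
theorem L61337 : W_11 (nat_lit 7) (nat_lit 0x200000001300090000800000000000000000000000000) (nat_lit 0x0) (nat_lit 0x40004000680007001e0007000280000000000000) := Q_11 (nat_lit 90) (C_11 L61264 (C_11 L31985 (C_11 L61336 N_11))) (by decide +kernel)
theorem L61338 : W_11 (nat_lit 7) (nat_lit 0x200000001300090000800000000000000000000000000) (nat_lit 0x0) (nat_lit 0x60000000600007001e0005000000000000000000) := T_11 (nat_lit 90) (nat_lit 157) (nat_lit 5) (nat_lit 5) (nat_lit 5) L61336 (by decide +kernel)
theorem L61339 : W_11 (nat_lit 5) (nat_lit 0x2000060013400b0000c00000000000000000000000000) (nat_lit 0x0) (nat_lit 0x20001800420008000300010000000000000000000000) := T_11 (nat_lit 105) (nat_lit 104) (nat_lit 3) (nat_lit 2) (nat_lit 6) L31903 (by decide +kernel)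
theorem L61340 : W_11 (nat_lit 6) (nat_lit 0x2000060013400b0000800000000000000000000000000) (nat_lit 0x0) (nat_lit 0x20001800420008000700030000000000000000000000) := T_11 (nat_lit 106) (nat_lit 89) (nat_lit 4) (nat_lit 5) (nat_lit 9) L61339 (by decide +kernel)
theorem L61341 : W_11 (nat_lit 7) (nat_lit 0x2000060013000b0000800000000000000000000000000) (nat_lit 0x0) (nat_lit 0x200018004e0008000700030000000000000000000000) := T_11 (nat_lit 138) (nat_lit 139) (nat_lit 2) (nat_lit 2) (nat_lit 8) L61340 (by decide +kernel)
theorem L61342 : W_11 (nat_lit 8) (nat_lit 0x200006001300090000800000000000000000000000000) (nat_lit 0x0) (nat_lit 0x200018004e0068000700030000000000000000000000) := T_11 (nat_lit 125) (nat_lit 126) (nat_lit 1) (nat_lit 8) (nat_lit 7) L61341 (by decide +kernel)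
theorem L61343 : W_11 (nat_lit 9) (nat_lit 0x200004001300090000800000000000000000000000000) (nat_lit 0x0) (nat_lit 0x600038004e0068000700030000000000000000000000) := T_11 (nat_lit 157) (nat_lit 174) (nat_lit 5) (nat_lit 5) (nat_lit 6) L61342 (by decide +kernel)
theorem L61344 : W_11 (nat_lit 7) (nat_lit 0x200004001300090000c00000000000000000000000000) (nat_lit 0x0) (nat_lit 0x200070003800180002000000068000000000000000000000000000000) := T_11 (nat_lit 126) (nat_lit 125) (nat_lit 1) (nat_lit 8) (nat_lit 7) L32372 (by decide +kernel)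
theorem L61345 : W_11 (nat_lit 8) (nat_lit 0x200004001300090000800000000000000000000000000) (nat_lit 0x0) (nat_lit 0x200070003800180002000000068000400020000000000000000000000) := T_11 (nat_lit 106) (nat_lit 89) (nat_lit 4) (nat_lit 5) (nat_lit 9) L61344 (by decide +kernel)
theorem L61346 : W_11 (nat_lit 2) (nat_lit 0x20002c00040013000b0000d00000000000000000000000000) (nat_lit 0x0) (nat_lit 0x40001000000000000400000000000000000000000000000000000) := D_11 (nat_lit 192) (nat_lit 142) (nat_lit 210) (nat_lit 6) (nat_lit 5) (nat_lit 11) (nat_lit 7) (nat_lit 5) (nat_lit 8) (by decide +kernel)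
theorem L61347 : W_11 (nat_lit 3) (nat_lit 0x2c00040013000b0000d00000000000000000000000000) (nat_lit 0x0) (nat_lit 0x40003000100000000400000000000000000000000000000000000) := T_11 (nat_lit 193) (nat_lit 176) (nat_lit 7) (nat_lit 5) (nat_lit 7) L61346 (by decide +kernel)
theorem L61348 : W_11 (nat_lit 4) (nat_lit 0x2c00040013000b0000c00000000000000000000000000) (nat_lit 0x0) (nat_lit 0x40003000100000000400000000300000000000000000000000000) := T_11 (nat_lit 104) (nat_lit 105) (nat_lit 3) (nat_lit 2) (nat_lit 6) L61347 (by decide +kernel)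
theorem L61349 : W_11 (nat_lit 5) (nat_lit 0x2400040013000b0000c00000000000000000000000000) (nat_lit 0x0) (nat_lit 0x40003800180000000400000000300000000000000000000000000) := T_11 (nat_lit 175) (nat_lit 191) (nat_lit 5) (nat_lit 5) (nat_lit 7) L61348 (by decide +kernel)
theorem L61350 : W_11 (nat_lit 6) (nat_lit 0x240004001300090000c00000000000000000000000000) (nat_lit 0x0) (nat_lit 0x40003800180000000400060000300000000000000000000000000) := T_11 (nat_lit 125) (nat_lit 126) (nat_lit 1) (nat_lit 8) (nat_lit 7) L61349 (by decide +kernel)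
theorem L61351 : W_11 (nat_lit 7) (nat_lit 0x240004001300090000800000000000000000000000000) (nat_lit 0x0) (nat_lit 0x40003800180000000400060000700020000000000000000000000) := T_11 (nat_lit 106) (nat_lit 89) (nat_lit 4) (nat_lit 5) (nat_lit 9) L61350 (by decide +kernel)
theorem L61352 : W_11 (nat_lit 8) (nat_lit 0x200004001300090000800000000000000000000000000) (nat_lit 0x0) (nat_lit 0x400038001c0002000400060000700020000000000000000000000) := T_11 (nat_lit 174) (nat_lit 157) (nat_lit 5) (nat_lit 5) (nat_lit 6) L61351 (by decide +kernel)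
theorem L61353 : W_11 (nat_lit 10) (nat_lit 0x200000001300090000800000000000000000000000000) (nat_lit 0x0) (nat_lit 0x2000700038001e00078004e0068000700030000000000000000000000) := Q_11 (nat_lit 158) (C_11 L32362 (C_11 L32367 (C_11 L61343 (C_11 L61345 (C_11 L32387 (C_11 L61352 N_11)))))) (by decide +kernel)
theorem L61354 : W_11 (nat_lit 11) (nat_lit 0x200000001300090000000000000000000000000000000) (nat_lit 0x0) (nat_lit 0x2000700038001e00078004e0068000f001f0007000280000000000000) := Q_11 (nat_lit 107) (C_11 L61337 (C_11 L32347 (C_11 L32348 (C_11 L61338 (C_11 L61353 N_11))))) (by decide +kernel)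
theorem L61355 : W_11 (nat_lit 11) (nat_lit 0x200000001300090000000000000000000000000000000) (nat_lit 0x0) (nat_lit 0xfe001f0013c00ce006f000f00078003800000000000000000) := Q_11 (nat_lit 123) (C_11 L61334 (C_11 L60714 (C_11 L59998 (C_11 L60723 (C_11 L60238 N_11))))) (by decide +kernel)
theorem L61356 : W_11 (nat_lit 2) (nat_lit 0x200000001700090000000000000000000000000000000) (nat_lit 0x0) (nat_lit 0x800108000000000000000000000000000000) := D_11 (nat_lit 143) (nat_lit 123) (nat_lit 128) (nat_lit 0) (nat_lit 8) (nat_lit 8) (nat_lit 2) (nat_lit 5) (nat_lit 8) (by decide +kernel)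
theorem L61357 : W_11 (nat_lit 2) (nat_lit 0x200000001f00090000000000000000000000000000000) (nat_lit 0x0) (nat_lit 0x4000000030000000000000000000000000000000000000000) := D_11 (nat_lit 160) (nat_lit 194) (nat_lit 161) (nat_lit 6) (nat_lit 7) (nat_lit 11) (nat_lit 3) (nat_lit 4) (nat_lit 8) (by decide +kernel)
theorem L61358 : W_11 (nat_lit 3) (nat_lit 0x200000001700090000000000000000000000000000000) (nat_lit 0x0) (nat_lit 0x4000000030000800008000000000000000000000000000000) := T_11 (nat_lit 143) (nat_lit 123) (nat_lit 0) (nat_lit 8) (nat_lit 8) L61357 (by decide +kernel)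
theorem L61359 : W_11 (nat_lit 2) (nat_lit 0x200002001700090000800000000000000000000000000) (nat_lit 0x0) (nat_lit 0x800040004000000000000000000000000000000000000000) := D_11 (nat_lit 174) (nat_lit 191) (nat_lit 158) (nat_lit 6) (nat_lit 4) (nat_lit 11) (nat_lit 5) (nat_lit 5) (nat_lit 6) (by decide +kernel)
theorem L61360 : W_11 (nat_lit 3) (nat_lit 0x200002001700090000000000000000000000000000000) (nat_lit 0x0) (nat_lit 0x800040004000000000000800040000000000000000000000) := T_11 (nat_lit 107) (nat_lit 90) (nat_lit 5) (nat_lit 5) (nat_lit 5) L61359 (by decide +kernel)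
theorem L61361 : W_11 (nat_lit 2) (nat_lit 0x240002001700090000000000000000000000000000000) (nat_lit 0x0) (nat_lit 0x8000800040000000000000000000000) := D_11 (nat_lit 107) (nat_lit 90) (nat_lit 123) (nat_lit 5) (nat_lit 5) (nat_lit 5) (nat_lit 6) (nat_lit 4) (nat_lit 10) (by decide +kernel)
theorem L61362 : W_11 (nat_lit 3) (nat_lit 0x200002001700090000000000000000000000000000000) (nat_lit 0x0) (nat_lit 0x800040000000000008000800040000000000000000000000) := T_11 (nat_lit 174) (nat_lit 191) (nat_lit 6) (nat_lit 4) (nat_lit 11) L61361 (by decide +kernel)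
theorem L61363 : W_11 (nat_lit 2) (nat_lit 0x200002001700090000000000000000000000000000000) (nat_lit 0x0) (nat_lit 0x800108000000000000000000000000000000) := D_11 (nat_lit 143) (nat_lit 128) (nat_lit 123) (nat_lit 2) (nat_lit 5) (nat_lit 8) (nat_lit 0) (nat_lit 8) (nat_lit 8) (by decide +kernel)
theorem L61364 : W_11 (nat_lit 2) (nat_lit 0x200002001700090000000000000000000000000000000) (nat_lit 0x0) (nat_lit 0x1000800008000000000000000000000000000000) := D_11 (nat_lit 143) (nat_lit 123) (nat_lit 156) (nat_lit 0) (nat_lit 8) (nat_lit 8) (nat_lit 1) (nat_lit 7) (nat_lit 8) (by decide +kernel)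
theorem L61365 : W_11 (nat_lit 2) (nat_lit 0x200007001700098000e00000000000000000000000000) (nat_lit 0x0) (nat_lit 0x20000180000000000000000000000000) := D_11 (nat_lit 104) (nat_lit 125) (nat_lit 103) (nat_lit 3) (nat_lit 2) (nat_lit 6) (nat_lit 3) (nat_lit 1) (nat_lit 6) (by decide +kernel)
theorem L61366 : W_11 (nat_lit 3) (nat_lit 0x200007001700098000c00000000000000000000000000) (nat_lit 0x0) (nat_lit 0x20000380010000000000000000000000) := T_11 (nat_lit 105) (nat_lit 88) (nat_lit 4) (nat_lit 4) (nat_lit 9) L61365 (by decide +kernel)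
theorem L61367 : W_11 (nat_lit 4) (nat_lit 0x200007001700090000c00000000000000000000000000) (nat_lit 0x0) (nat_lit 0x20000000000028000380010000000000000000000000) := T_11 (nat_lit 123) (nat_lit 173) (nat_lit 5) (nat_lit 4) (nat_lit 6) L61366 (by decide +kernel)
theorem L61368 : W_11 (nat_lit 6) (nat_lit 0x200000001300090000800040000000000000000000000) (nat_lit 0x0) (nat_lit 0x4000000008000400020007000300018000000000) := T_11 (nat_lit 89) (nat_lit 72) (nat_lit 4) (nat_lit 5) (nat_lit 8) L60807 (by decide +kernel)
theorem L61369 : W_11 (nat_lit 7) (nat_lit 0x200000001300090000800000000000000000000000000) (nat_lit 0x0) (nat_lit 0x40000000080007001e0007000380018000000000) := Q_11 (nat_lit 90) (C_11 L31985 (C_11 L32431 (C_11 L61368 (C_11 L31982 N_11)))) (by decide +kernel)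
theorem L61370 : W_11 (nat_lit 5) (nat_lit 0x200006001700090000c00000000000000000000000000) (nat_lit 0x0) (nat_lit 0x20001800000028000380010000000000000000000000) := T_11 (nat_lit 156) (nat_lit 155) (nat_lit 2) (nat_lit 2) (nat_lit 9) L61367 (by decide +kernel)
theorem L61371 : W_11 (nat_lit 6) (nat_lit 0x200006001300090000c00000000000000000000000000) (nat_lit 0x0) (nat_lit 0x20001800c00028000380010000000000000000000000) := T_11 (nat_lit 142) (nat_lit 143) (nat_lit 1) (nat_lit 8) (nat_lit 8) L61370 (by decide +kernel)
theorem L61372 : W_11 (nat_lit 7) (nat_lit 0x200004001300090000c00000000000000000000000000) (nat_lit 0x0) (nat_lit 0x60003800c00028000380010000000000000000000000) := T_11 (nat_lit 157) (nat_lit 174) (nat_lit 5) (nat_lit 5) (nat_lit 6) L61371 (by decide +kernel)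
theorem L61373 : W_11 (nat_lit 8) (nat_lit 0x200004001300090000800000000000000000000000000) (nat_lit 0x0) (nat_lit 0x60003800c00028000780030000000000000000000000) := T_11 (nat_lit 106) (nat_lit 89) (nat_lit 4) (nat_lit 5) (nat_lit 9) L61372 (by decide +kernel)
theorem L61374 : W_11 (nat_lit 2) (nat_lit 0x3000280004001700090000c00000000000000000000000000) (nat_lit 0x0) (nat_lit 0x2000800100000000000000000000000000000000) := D_11 (nat_lit 143) (nat_lit 128) (nat_lit 157) (nat_lit 2) (nat_lit 5) (nat_lit 8) (nat_lit 1) (nat_lit 8) (nat_lit 8) (by decide +kernel)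
theorem L61375 : W_11 (nat_lit 3) (nat_lit 0x3000280004001300090000c00000000000000000000000000) (nat_lit 0x0) (nat_lit 0x2000c00120000000000000000000000000000000) := T_11 (nat_lit 142) (nat_lit 125) (nat_lit 6) (nat_lit 5) (nat_lit 11) L61374 (by decide +kernel)
theorem L61376 : W_11 (nat_lit 4) (nat_lit 0x2000280004001300090000c00000000000000000000000000) (nat_lit 0x0) (nat_lit 0x40001000000002000c00120000000000000000000000000000000) := T_11 (nat_lit 192) (nat_lit 210) (nat_lit 7) (nat_lit 5) (nat_lit 8) L61375 (by decide +kernel)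
theorem L61377 : W_11 (nat_lit 5) (nat_lit 0x280004001300090000c00000000000000000000000000) (nat_lit 0x0) (nat_lit 0x40003000100002000c00120000000000000000000000000000000) := T_11 (nat_lit 193) (nat_lit 176) (nat_lit 7) (nat_lit 5) (nat_lit 7) L61376 (by decide +kernel)
theorem L61378 : W_11 (nat_lit 6) (nat_lit 0x200004001300090000c00000000000000000000000000) (nat_lit 0x0) (nat_lit 0x40003000180002000c00128000000000000000000000000000000) := T_11 (nat_lit 175) (nat_lit 123) (nat_lit 4) (nat_lit 5) (nat_lit 10) L61377 (by decide +kernel)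
theorem L61379 : W_11 (nat_lit 7) (nat_lit 0x200004001300090000800000000000000000000000000) (nat_lit 0x0) (nat_lit 0x40003000180002000c00128000400020000000000000000000000) := T_11 (nat_lit 106) (nat_lit 89) (nat_lit 4) (nat_lit 5) (nat_lit 9) L61378 (by decide +kernel)
theorem L61380 : W_11 (nat_lit 6) (nat_lit 0x240004001300090000800000000000000000000000000) (nat_lit 0x0) (nat_lit 0xe800180030000800000000400020000000000000000000000) := T_11 (nat_lit 106) (nat_lit 89) (nat_lit 4) (nat_lit 5) (nat_lit 9) L32467 (by decide +kernel)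
theorem L61381 : W_11 (nat_lit 7) (nat_lit 0x200004001300090000800000000000000000000000000) (nat_lit 0x0) (nat_lit 0xe8001c0032000800000000400020000000000000000000000) := T_11 (nat_lit 174) (nat_lit 157) (nat_lit 5) (nat_lit 5) (nat_lit 6) L61380 (by decide +kernel)
theorem L61382 : W_11 (nat_lit 9) (nat_lit 0x200000001300090000800000000000000000000000000) (nat_lit 0x0) (nat_lit 0x6000f8001e0037800c00128000780030000000000000000000000) := Q_11 (nat_lit 158) (C_11 L32367 (C_11 L61373 (C_11 L32439 (C_11 L61379 (C_11 L32473 (C_11 L61381 N_11)))))) (by decide +kernel)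
theorem L61383 : W_11 (nat_lit 10) (nat_lit 0x200000001300090000000000000000000000000000000) (nat_lit 0x0) (nat_lit 0x6000f8001e0037800c00128000f801f0007000380018000000000) := Q_11 (nat_lit 107) (C_11 L32348 (C_11 L61369 (C_11 L32433 (C_11 L61382 N_11)))) (by decide +kernel)
theorem L61384 : W_11 (nat_lit 10) (nat_lit 0x200000001300090000800000000000000000000000000) (nat_lit 0x0) (nat_lit 0x20007000f8001e0037800c0000f000780030000000000000000000000) := Q_11 (nat_lit 158) (C_11 L32459 (C_11 L32439 (C_11 L32465 (C_11 L32473 (C_11 L61381 N_11))))) (by decide +kernel)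
theorem L61385 : W_11 (nat_lit 11) (nat_lit 0x200000001300090000000000000000000000000000000) (nat_lit 0x0) (nat_lit 0x20007000f8001e0037800c0000f000f801f0007000380018000000000) := Q_11 (nat_lit 107) (C_11 L32433 (C_11 L32348 (C_11 L61369 (C_11 L61384 N_11)))) (by decide +kernel)
theorem L61386 : W_11 (nat_lit 11) (nat_lit 0x200000001300090000000000000000000000000000000) (nat_lit 0x0) (nat_lit 0xe00070007800ce006f000f80078003800000000000000000) := Q_11 (nat_lit 123) (C_11 L61333 (C_11 L61334 (C_11 L60723 (C_11 L59940 (C_11 L60238 N_11))))) (by decide +kernel)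
theorem L61387 : W_11 (nat_lit 2) (nat_lit 0x2800000017800bc000400000000000000000000000000) (nat_lit 0x0) (nat_lit 0x20001800000000000000000000000000000000000000) := D_11 (nat_lit 156) (nat_lit 155) (nat_lit 173) (nat_lit 1) (nat_lit 6) (nat_lit 8) (nat_lit 6) (nat_lit 3) (nat_lit 10) (by decide +kernel)
theorem L61388 : W_11 (nat_lit 3) (nat_lit 0x2800000017800b8000400000000000000000000000000) (nat_lit 0x0) (nat_lit 0x20001800000006000000000000000000000000000000) := T_11 (nat_lit 122) (nat_lit 121) (nat_lit 3) (nat_lit 2) (nat_lit 7) L61387 (by decide +kernel)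
theorem L61389 : W_11 (nat_lit 4) (nat_lit 0x2800000013800b8000400000000000000000000000000) (nat_lit 0x0) (nat_lit 0x20001800c00006000000000000000000000000000000) := T_11 (nat_lit 142) (nat_lit 143) (nat_lit 0) (nat_lit 8) (nat_lit 8) L61388 (by decide +kernel)
theorem L61390 : W_11 (nat_lit 5) (nat_lit 0x2000000013800b8000400000000000000000000000000) (nat_lit 0x0) (nat_lit 0xa0005800c00006000000000000000000000000000000) := T_11 (nat_lit 175) (nat_lit 158) (nat_lit 4) (nat_lit 5) (nat_lit 10) L61389 (by decide +kernel)
theorem L61391 : W_11 (nat_lit 6) (nat_lit 0x2000000013000b8000400000000000000000000000000) (nat_lit 0x0) (nat_lit 0xa0005800cc0006000000000000000000000000000000) := T_11 (nat_lit 139) (nat_lit 138) (nat_lit 2) (nat_lit 2) (nat_lit 8) L61390 (by decide +kernel)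
theorem L61392 : W_11 (nat_lit 7) (nat_lit 0x200000001300098000400000000000000000000000000) (nat_lit 0x0) (nat_lit 0xa0005800cc0066000000000000000000000000000000) := T_11 (nat_lit 125) (nat_lit 126) (nat_lit 1) (nat_lit 8) (nat_lit 7) L61391 (by decide +kernel)
theorem L61393 : W_11 (nat_lit 8) (nat_lit 0x200000001300090000400000000000000000000000000) (nat_lit 0x0) (nat_lit 0x40000a0015800ce006e000000030001800000000000000000) := Q_11 (nat_lit 123) (C_11 L60708 (C_11 L60713 (C_11 L61392 N_11))) (by decide +kernel)
theorem L61394 : W_11 (nat_lit 2) (nat_lit 0x2000000013000d0000400020001000000000000000000) (nat_lit 0x0) (nat_lit 0x800040000000080000000000000) := D_11 (nat_lit 107) (nat_lit 55) (nat_lit 90) (nat_lit 7) (nat_lit 4) (nat_lit 3) (nat_lit 4) (nat_lit 5) (nat_lit 8) (by decide +kernel)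
theorem L61395 : W_11 (nat_lit 3) (nat_lit 0x2000000013000d0000400020000000000000000000000) (nat_lit 0x0) (nat_lit 0x8000800040001000080000000000000) := T_11 (nat_lit 72) (nat_lit 123) (nat_lit 7) (nat_lit 4) (nat_lit 4) L61394 (by decide +kernel)
theorem L61396 : W_11 (nat_lit 4) (nat_lit 0x200000001300090000400020000000000000000000000) (nat_lit 0x0) (nat_lit 0x68000800040001000080000000000000) := T_11 (nat_lit 126) (nat_lit 125) (nat_lit 1) (nat_lit 8) (nat_lit 7) L61395 (by decide +kernel)
theorem L61397 : W_11 (nat_lit 5) (nat_lit 0x200000001300090000400000000000000000000000000) (nat_lit 0x0) (nat_lit 0x4000000068000800060001000080000000000000) := Q_11 (nat_lit 89) (C_11 L32485 (C_11 L61396 (C_11 L32480 (C_11 L32617 N_11)))) (by decide +kernel)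
theorem L61398 : W_11 (nat_lit 4) (nat_lit 0x200000001300090000400000000000000000000000000) (nat_lit 0x0) (nat_lit 0x4000000008000800060001000080000000000000) := Q_11 (nat_lit 89) (C_11 L32617 (C_11 L32536 (C_11 L32480 (C_11 L32485 N_11)))) (by decide +kernel)
theorem L61399 : W_11 (nat_lit 2) (nat_lit 0x200000001700090000400000000000000000000000000) (nat_lit 0x0) (nat_lit 0x800108000000000000000000000000000000) := D_11 (nat_lit 143) (nat_lit 128) (nat_lit 123) (nat_lit 2) (nat_lit 5) (nat_lit 8) (nat_lit 0) (nat_lit 8) (nat_lit 8) (by decide +kernel)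
theorem L61400 : W_11 (nat_lit 2) (nat_lit 0x2000010017800b4000400000000000000000000000000) (nat_lit 0x0) (nat_lit 0x8000200020000000000000000000000) := D_11 (nat_lit 89) (nat_lit 123) (nat_lit 105) (nat_lit 5) (nat_lit 4) (nat_lit 5) (nat_lit 6) (nat_lit 3) (nat_lit 9) (by decide +kernel)
theorem L61401 : W_11 (nat_lit 3) (nat_lit 0x2000010017800b0000400000000000000000000000000) (nat_lit 0x0) (nat_lit 0xe000200020000000000000000000000) := T_11 (nat_lit 122) (nat_lit 121) (nat_lit 0) (nat_lit 6) (nat_lit 8) L61400 (by decide +kernel)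
theorem L61402 : W_11 (nat_lit 4) (nat_lit 0x2000000017800b0000400000000000000000000000000) (nat_lit 0x0) (nat_lit 0x180000000e000200020000000000000000000000) := T_11 (nat_lit 156) (nat_lit 155) (nat_lit 1) (nat_lit 6) (nat_lit 8) L61401 (by decide +kernel)
theorem L61403 : W_11 (nat_lit 5) (nat_lit 0x2000000017000b0000400000000000000000000000000) (nat_lit 0x0) (nat_lit 0x18000c000e000200020000000000000000000000) := T_11 (nat_lit 139) (nat_lit 138) (nat_lit 2) (nat_lit 2) (nat_lit 8) L61402 (by decide +kernel)
theorem L61404 : W_11 (nat_lit 6) (nat_lit 0x200000001700090000400000000000000000000000000) (nat_lit 0x0) (nat_lit 0x18000c006e000200020000000000000000000000) := T_11 (nat_lit 125) (nat_lit 126) (nat_lit 1) (nat_lit 8) (nat_lit 7) L61403 (by decide +kernel)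
theorem L61405 : W_11 (nat_lit 7) (nat_lit 0x200000001300090000400000000000000000000000000) (nat_lit 0x0) (nat_lit 0x1800cc016e000200020000000000000000000000) := Q_11 (nat_lit 142) (C_11 L32547 (C_11 L61399 (C_11 L61404 N_11))) (by decide +kernel)
theorem L61406 : W_11 (nat_lit 8) (nat_lit 0x200000001300090000400000000000000000000000000) (nat_lit 0x0) (nat_lit 0x4000000031800cc0166000b00028000000000000000000000) := Q_11 (nat_lit 142) (C_11 L32547 (C_11 L32620 (C_11 L32556 N_11))) (by decide +kernel)
theorem L61407 : W_11 (nat_lit 10) (nat_lit 0x200000001300090000400000000000000000000000000) (nat_lit 0x0) (nat_lit 0x14004e00070031800cc016e000000000000000000000000000000) := Q_11 (nat_lit 142) (C_11 L32620 (C_11 L61399 (C_11 L32547 (C_11 L32629 N_11)))) (by decide +kernel)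
theorem L61408 : W_11 (nat_lit 11) (nat_lit 0x200000001300090000000000000000000000000000000) (nat_lit 0x0) (nat_lit 0x14004e000f0035800ce016e000f00078001800080000000000000) := Q_11 (nat_lit 106) (C_11 L61393 (C_11 L61397 (C_11 L61398 (C_11 L61405 (C_11 L61406 (C_11 L61407 N_11)))))) (by decide +kernel)
theorem L61409 : W_11 (nat_lit 2) (nat_lit 0x8003c0010001300090000000000000000000000000000000) (nat_lit 0x0) (nat_lit 0xc000000000000800000000000000000000000000000000000) := D_11 (nat_lit 194) (nat_lit 195) (nat_lit 143) (nat_lit 3) (nat_lit 4) (nat_lit 10) (nat_lit 6) (nat_lit 7) (nat_lit 11) (by decide +kernel)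
theorem L61410 : W_11 (nat_lit 3) (nat_lit 0x8003c0000001300090000000000000000000000000000000) (nat_lit 0x0) (nat_lit 0xc000000030000800000000000000000000000000000000000) := T_11 (nat_lit 160) (nat_lit 161) (nat_lit 2) (nat_lit 4) (nat_lit 10) L61409 (by decide +kernel)
theorem L61411 : W_11 (nat_lit 4) (nat_lit 0x8002c0000001300090000000000000000000000000000000) (nat_lit 0x0) (nat_lit 0xc400100030000800000000000000000000000000000000000) := T_11 (nat_lit 176) (nat_lit 190) (nat_lit 1) (nat_lit 7) (nat_lit 10) L61410 (by decide +kernel)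
theorem L61412 : W_11 (nat_lit 5) (nat_lit 0x800240000001300090000000000000000000000000000000) (nat_lit 0x0) (nat_lit 0xc400180034000800000000000000000000000000000000000) := T_11 (nat_lit 175) (nat_lit 158) (nat_lit 5) (nat_lit 5) (nat_lit 7) L61411 (by decide +kernel)
theorem L61413 : W_11 (nat_lit 6) (nat_lit 0x240000001300090000000000000000000000000000000) (nat_lit 0x0) (nat_lit 0xcc00180036000800000000000000000000000000000000000) := T_11 (nat_lit 191) (nat_lit 157) (nat_lit 6) (nat_lit 4) (nat_lit 11) L61412 (by decide +kernel)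
theorem L61414 : W_11 (nat_lit 5) (nat_lit 0x8002400000013000d0000000000000000000000000000000) (nat_lit 0x0) (nat_lit 0x6400180030000c00000000000000000000000000000000000) := T_11 (nat_lit 143) (nat_lit 142) (nat_lit 2) (nat_lit 4) (nat_lit 8) L32702 (by decide +kernel)
theorem L61415 : W_11 (nat_lit 6) (nat_lit 0x800240000001300090000000000000000000000000000000) (nat_lit 0x0) (nat_lit 0x6400180030000c00060000000000000000000000000000000) := T_11 (nat_lit 126) (nat_lit 125) (nat_lit 1) (nat_lit 8) (nat_lit 7) L61414 (by decide +kernel)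
theorem L61416 : W_11 (nat_lit 7) (nat_lit 0x240000001300090000000000000000000000000000000) (nat_lit 0x0) (nat_lit 0x6c00180032000c00060000000000000000000000000000000) := T_11 (nat_lit 191) (nat_lit 157) (nat_lit 6) (nat_lit 4) (nat_lit 11) L61415 (by decide +kernel)
theorem L61417 : W_11 (nat_lit 2) (nat_lit 0x49003f00008017000d0000000000000000000000000000000) (nat_lit 0x0) (nat_lit 0x1080008000000000000000000000000000000000000000000) := D_11 (nat_lit 171) (nat_lit 192) (nat_lit 187) (nat_lit 3) (nat_lit 1) (nat_lit 10) (nat_lit 1) (nat_lit 4) (nat_lit 10) (by decide +kernel)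
theorem L61418 : W_11 (nat_lit 3) (nat_lit 0x48003f00008017000d0000000000000000000000000000000) (nat_lit 0x0) (nat_lit 0x1380008000000000000000000000000000000000000000000) := T_11 (nat_lit 188) (nat_lit 189) (nat_lit 1) (nat_lit 5) (nat_lit 10) L61417 (by decide +kernel)
theorem L61419 : W_11 (nat_lit 4) (nat_lit 0x48003e00008017000d0000000000000000000000000000000) (nat_lit 0x0) (nat_lit 0x1380018000400000000000000000000000000000000000000) := T_11 (nat_lit 172) (nat_lit 154) (nat_lit 0) (nat_lit 5) (nat_lit 10) L61418 (by decide +kernel)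
theorem L61420 : W_11 (nat_lit 5) (nat_lit 0x48003e00000017000d0000000000000000000000000000000) (nat_lit 0x0) (nat_lit 0x1380018001c00000000000000000000000000000000000000) := T_11 (nat_lit 155) (nat_lit 156) (nat_lit 0) (nat_lit 6) (nat_lit 10) L61419 (by decide +kernel)
theorem L61421 : W_11 (nat_lit 6) (nat_lit 0x48003c00000017000d0000000000000000000000000000000) (nat_lit 0x0) (nat_lit 0x3380038001c00000000000000000000000000000000000000) := T_11 (nat_lit 173) (nat_lit 193) (nat_lit 3) (nat_lit 3) (nat_lit 10) L61420 (by decide +kernel)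
theorem L61422 : W_11 (nat_lit 7) (nat_lit 0x8003c00000017000d0000000000000000000000000000000) (nat_lit 0x0) (nat_lit 0xf380038001c00000000000000000000000000000000000000) := T_11 (nat_lit 194) (nat_lit 195) (nat_lit 3) (nat_lit 4) (nat_lit 10) L61421 (by decide +kernel)
theorem L61423 : W_11 (nat_lit 8) (nat_lit 0x8002c00000017000d0000000000000000000000000000000) (nat_lit 0x0) (nat_lit 0xf780138001c00000000000000000000000000000000000000) := T_11 (nat_lit 176) (nat_lit 190) (nat_lit 1) (nat_lit 7) (nat_lit 10) L61422 (by decide +kernel)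
theorem L61424 : W_11 (nat_lit 9) (nat_lit 0x8002c00000013000d0000000000000000000000000000000) (nat_lit 0x0) (nat_lit 0xf780138001c00c00000000000000000000000000000000000) := T_11 (nat_lit 142) (nat_lit 143) (nat_lit 2) (nat_lit 4) (nat_lit 8) L61423 (by decide +kernel)
theorem L61425 : W_11 (nat_lit 10) (nat_lit 0x8002400000013000d0000000000000000000000000000000) (nat_lit 0x0) (nat_lit 0xf7801b8005c00c00000000000000000000000000000000000) := T_11 (nat_lit 175) (nat_lit 158) (nat_lit 5) (nat_lit 5) (nat_lit 7) L61424 (by decide +kernel)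
theorem L61426 : W_11 (nat_lit 11) (nat_lit 0x2400000013000d0000000000000000000000000000000) (nat_lit 0x0) (nat_lit 0xff801b8007c00c00000000000000000000000000000000000) := T_11 (nat_lit 191) (nat_lit 157) (nat_lit 6) (nat_lit 4) (nat_lit 11) L61425 (by decide +kernel)
theorem L61427 : W_11 (nat_lit 12) (nat_lit 0x240000001300090000000000000000000000000000000) (nat_lit 0x0) (nat_lit 0xff801b8007c00c00060000000000000000000000000000000) := T_11 (nat_lit 126) (nat_lit 125) (nat_lit 1) (nat_lit 8) (nat_lit 7) L61426 (by decide +kernel)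
theorem L61428 : W_11 (nat_lit 9) (nat_lit 0x8002400000017000d0000000000000000000000000000000) (nat_lit 0x0) (nat_lit 0xf7801b8005c00000000000000000000000000000000000000) := T_11 (nat_lit 175) (nat_lit 158) (nat_lit 5) (nat_lit 5) (nat_lit 7) L61423 (by decide +kernel)
theorem L61429 : W_11 (nat_lit 10) (nat_lit 0x2400000017000d0000000000000000000000000000000) (nat_lit 0x0) (nat_lit 0xff801b8007c00000000000000000000000000000000000000) := T_11 (nat_lit 191) (nat_lit 157) (nat_lit 6) (nat_lit 4) (nat_lit 11) L61428 (by decide +kernel)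
theorem L61430 : W_11 (nat_lit 11) (nat_lit 0x240000001700090000000000000000000000000000000) (nat_lit 0x0) (nat_lit 0xff801b8007c00000060000000000000000000000000000000) := T_11 (nat_lit 126) (nat_lit 125) (nat_lit 1) (nat_lit 8) (nat_lit 7) L61429 (by decide +kernel)
theorem L61431 : W_11 (nat_lit 2) (nat_lit 0x2000000048003e00110017e0090000000000000000000000000000000) (nat_lit 0x0) (nat_lit 0x3800000000000000000000000000000) := D_11 (nat_lit 120) (nat_lit 121) (nat_lit 119) (nat_lit 0) (nat_lit 5) (nat_lit 8) (nat_lit 0) (nat_lit 4) (nat_lit 8) (by decide +kernel)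
theorem L61432 : W_11 (nat_lit 3) (nat_lit 0x2000000048003e00110017c0090000000000000000000000000000000) (nat_lit 0x0) (nat_lit 0x2000b800000000000000000000000000000) := T_11 (nat_lit 137) (nat_lit 123) (nat_lit 2) (nat_lit 1) (nat_lit 8) L61431 (by decide +kernel)
theorem L61433 : W_11 (nat_lit 4) (nat_lit 0x2000000048003e0011001780090000000000000000000000000000000) (nat_lit 0x0) (nat_lit 0x6002b800000000000000000000000000000) := T_11 (nat_lit 138) (nat_lit 125) (nat_lit 2) (nat_lit 2) (nat_lit 8) L61432 (by decide +kernel)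
theorem L61434 : W_11 (nat_lit 5) (nat_lit 0x48003e0011001780090000000000000000000000000000000) (nat_lit 0x0) (nat_lit 0x20001000000000000000006002b800000000000000000000000000000) := T_11 (nat_lit 225) (nat_lit 208) (nat_lit 4) (nat_lit 4) (nat_lit 13) L61433 (by decide +kernel)
theorem L61435 : W_11 (nat_lit 6) (nat_lit 0x48003e0011001700090000000000000000000000000000000) (nat_lit 0x0) (nat_lit 0x2000100000000000000000e002f800000000000000000000000000000) := T_11 (nat_lit 139) (nat_lit 122) (nat_lit 7) (nat_lit 3) (nat_lit 7) L61434 (by decide +kernel)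
theorem L61436 : W_11 (nat_lit 7) (nat_lit 0x48003e0010001700090000000000000000000000000000000) (nat_lit 0x0) (nat_lit 0x2000100000000000018000e002f800000000000000000000000000000) := T_11 (nat_lit 156) (nat_lit 155) (nat_lit 0) (nat_lit 6) (nat_lit 10) L61435 (by decide +kernel)
theorem L61437 : W_11 (nat_lit 8) (nat_lit 0x48003c0010001700090000000000000000000000000000000) (nat_lit 0x0) (nat_lit 0x2000100020000200018000e002f800000000000000000000000000000) := T_11 (nat_lit 173) (nat_lit 193) (nat_lit 3) (nat_lit 3) (nat_lit 10) L61436 (by decide +kernel)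
theorem L61438 : W_11 (nat_lit 9) (nat_lit 0x8003c0010001700090000000000000000000000000000000) (nat_lit 0x0) (nat_lit 0x20001000e0000200018000e002f800000000000000000000000000000) := T_11 (nat_lit 194) (nat_lit 195) (nat_lit 3) (nat_lit 4) (nat_lit 10) L61437 (by decide +kernel)
theorem L61439 : W_11 (nat_lit 10) (nat_lit 0x8003c0000001700090000000000000000000000000000000) (nat_lit 0x0) (nat_lit 0x20001000e0000200318000e002f800000000000000000000000000000) := T_11 (nat_lit 160) (nat_lit 161) (nat_lit 2) (nat_lit 4) (nat_lit 10) L61438 (by decide +kernel)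
theorem L61440 : W_11 (nat_lit 11) (nat_lit 0x8002c0000001700090000000000000000000000000000000) (nat_lit 0x0) (nat_lit 0x20001000e4001200318000e002f800000000000000000000000000000) := T_11 (nat_lit 176) (nat_lit 190) (nat_lit 1) (nat_lit 7) (nat_lit 10) L61439 (by decide +kernel)
theorem L61441 : W_11 (nat_lit 12) (nat_lit 0x800240000001700090000000000000000000000000000000) (nat_lit 0x0) (nat_lit 0x20001000e4001a00358000e002f800000000000000000000000000000) := T_11 (nat_lit 175) (nat_lit 158) (nat_lit 5) (nat_lit 5) (nat_lit 7) L61440 (by decide +kernel)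
theorem L61442 : W_11 (nat_lit 13) (nat_lit 0x240000001700090000000000000000000000000000000) (nat_lit 0x0) (nat_lit 0x20001000ec001a00378000e002f800000000000000000000000000000) := T_11 (nat_lit 191) (nat_lit 157) (nat_lit 6) (nat_lit 4) (nat_lit 11) L61441 (by decide +kernel)
theorem L61443 : W_11 (nat_lit 5) (nat_lit 0x800240000001700090000000000000000000000000000000) (nat_lit 0x0) (nat_lit 0x200018000c0066000000000000000000000000000000) := T_11 (nat_lit 125) (nat_lit 126) (nat_lit 1) (nat_lit 8) (nat_lit 7) L32668 (by decide +kernel)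
theorem L61444 : W_11 (nat_lit 6) (nat_lit 0x240000001700090000000000000000000000000000000) (nat_lit 0x0) (nat_lit 0x8000200038000c0066000000000000000000000000000000) := T_11 (nat_lit 191) (nat_lit 157) (nat_lit 6) (nat_lit 4) (nat_lit 11) L61443 (by decide +kernel)
theorem L61445 : W_11 (nat_lit 14) (nat_lit 0x200000001700090000000000000000000000000000000) (nat_lit 0x0) (nat_lit 0x20001000ff801f8037c000e006f800700018000000000000000000000) := Q_11 (nat_lit 174) (C_11 L61430 (C_11 L61442 (C_11 L32680 (C_11 L61444 (C_11 L32686 (C_11 L32691 (C_11 L32697 N_11))))))) (by decide +kernel)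
theorem L61446 : W_11 (nat_lit 15) (nat_lit 0x200000001300090000000000000000000000000000000) (nat_lit 0x0) (nat_lit 0x20001000ff801f8037c00ce016f800700018000000000000000000000) := Q_11 (nat_lit 142) (C_11 L61445 (C_11 L61358 (C_11 L61356 (C_11 L32399 N_11)))) (by decide +kernel)
theorem L61447 : W_11 (nat_lit 2) (nat_lit 0x2000030017800b4000200000000000000000000000000) (nat_lit 0x0) (nat_lit 0x8000100008000000000000000000000) := D_11 (nat_lit 104) (nat_lit 123) (nat_lit 87) (nat_lit 0) (nat_lit 6) (nat_lit 7) (nat_lit 4) (nat_lit 3) (nat_lit 9) (by decide +kernel)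
theorem L61448 : W_11 (nat_lit 3) (nat_lit 0x2000030017800b4000000000000000000000000000000) (nat_lit 0x0) (nat_lit 0x8000300018000000000000000000000) := T_11 (nat_lit 105) (nat_lit 88) (nat_lit 7) (nat_lit 3) (nat_lit 5) L61447 (by decide +kernel)
theorem L61449 : W_11 (nat_lit 4) (nat_lit 0x2000030017800b0000000000000000000000000000000) (nat_lit 0x0) (nat_lit 0xe000300018000000000000000000000) := T_11 (nat_lit 122) (nat_lit 121) (nat_lit 0) (nat_lit 6) (nat_lit 8) L61448 (by decide +kernel)
theorem L61450 : W_11 (nat_lit 5) (nat_lit 0x2000020017800b0000000000000000000000000000000) (nat_lit 0x0) (nat_lit 0x180000000e000300018000000000000000000000) := T_11 (nat_lit 156) (nat_lit 155) (nat_lit 1) (nat_lit 6) (nat_lit 8) L61449 (by decide +kernel)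
theorem L61451 : W_11 (nat_lit 6) (nat_lit 0x2000020017000b0000000000000000000000000000000) (nat_lit 0x0) (nat_lit 0x18000c000e000300018000000000000000000000) := T_11 (nat_lit 139) (nat_lit 138) (nat_lit 2) (nat_lit 2) (nat_lit 8) L61450 (by decide +kernel)
theorem L61452 : W_11 (nat_lit 7) (nat_lit 0x200002001700090000000000000000000000000000000) (nat_lit 0x0) (nat_lit 0x18000c006e000300018000000000000000000000) := T_11 (nat_lit 125) (nat_lit 126) (nat_lit 1) (nat_lit 8) (nat_lit 7) L61451 (by decide +kernel)
theorem L61453 : W_11 (nat_lit 2) (nat_lit 0x200002001700090000000000000000000000000000000) (nat_lit 0x0) (nat_lit 0x800060000000000000000000000000000000) := D_11 (nat_lit 126) (nat_lit 125) (nat_lit 143) (nat_lit 1) (nat_lit 8) (nat_lit 7) (nat_lit 2) (nat_lit 4) (nat_lit 8) (by decide +kernel)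
theorem L61454 : W_11 (nat_lit 8) (nat_lit 0x200002001300090000000000000000000000000000000) (nat_lit 0x0) (nat_lit 0x1800cc016e000300018000000000000000000000) := Q_11 (nat_lit 142) (C_11 L61364 (C_11 L61452 (C_11 L61363 (C_11 L61453 N_11)))) (by decide +kernel)
theorem L61455 : W_11 (nat_lit 11) (nat_lit 0x200000001300090000400000000000000000000000000) (nat_lit 0x0) (nat_lit 0x20001c004e00030033800cc016e000000000000000000000000000000) := Q_11 (nat_lit 142) (C_11 L32620 (C_11 L61399 (C_11 L32547 (C_11 L32566 N_11)))) (by decide +kernel)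
theorem L61456 : W_11 (nat_lit 12) (nat_lit 0x200000001300090000000000000000000000000000000) (nat_lit 0x0) (nat_lit 0x20001c004e00030037800cc016e000f00068001000080000000000000) := Q_11 (nat_lit 106) (C_11 L61405 (C_11 L61398 (C_11 L61406 (C_11 L61455 N_11)))) (by decide +kernel)
theorem L61457 : W_11 (nat_lit 2) (nat_lit 0x2400020013000d0000000000000000000000000000000) (nat_lit 0x0) (nat_lit 0x4000000000000800040000000000000000000000) := D_11 (nat_lit 107) (nat_lit 90) (nat_lit 158) (nat_lit 5) (nat_lit 5) (nat_lit 5) (nat_lit 5) (nat_lit 5) (nat_lit 6) (by decide +kernel)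
theorem L61458 : W_11 (nat_lit 3) (nat_lit 0x2000020013000d0000000000000000000000000000000) (nat_lit 0x0) (nat_lit 0x800040004000000000000800040000000000000000000000) := T_11 (nat_lit 174) (nat_lit 191) (nat_lit 6) (nat_lit 4) (nat_lit 11) L61457 (by decide +kernel)
theorem L61459 : W_11 (nat_lit 4) (nat_lit 0x200002001300090000000000000000000000000000000) (nat_lit 0x0) (nat_lit 0x800040004000000060000800040000000000000000000000) := T_11 (nat_lit 126) (nat_lit 125) (nat_lit 1) (nat_lit 8) (nat_lit 7) L61458 (by decide +kernel)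
theorem L61460 : W_11 (nat_lit 9) (nat_lit 0x200000001300090000000000000000000000000000000) (nat_lit 0x0) (nat_lit 0x800040007800cc016e000b00058000000000000000000000) := Q_11 (nat_lit 157) (C_11 L56673 (C_11 L61454 (C_11 L61459 N_11))) (by decide +kernel)
theorem L61461 : W_11 (nat_lit 5) (nat_lit 0x2000060013400b0000c00000000000000000000000000) (nat_lit 0x0) (nat_lit 0x20001c00020008000300010000000000000000000000) := T_11 (nat_lit 105) (nat_lit 104) (nat_lit 3) (nat_lit 2) (nat_lit 6) L32170 (by decide +kernel)
theorem L61462 : W_11 (nat_lit 6) (nat_lit 0x2000060013400b0000800000000000000000000000000) (nat_lit 0x0) (nat_lit 0x20001c00020008000700030000000000000000000000) := T_11 (nat_lit 106) (nat_lit 89) (nat_lit 4) (nat_lit 5) (nat_lit 9) L61461 (by decide +kernel)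
theorem L61463 : W_11 (nat_lit 7) (nat_lit 0x2000060013000b0000800000000000000000000000000) (nat_lit 0x0) (nat_lit 0x20001c000e0008000700030000000000000000000000) := T_11 (nat_lit 138) (nat_lit 139) (nat_lit 2) (nat_lit 2) (nat_lit 8) L61462 (by decide +kernel)
theorem L61464 : W_11 (nat_lit 8) (nat_lit 0x2000040013000b0000800000000000000000000000000) (nat_lit 0x0) (nat_lit 0x60003c000e0008000700030000000000000000000000) := T_11 (nat_lit 157) (nat_lit 174) (nat_lit 5) (nat_lit 5) (nat_lit 6) L61463 (by decide +kernel)
theorem L61465 : W_11 (nat_lit 9) (nat_lit 0x200004001300090000800000000000000000000000000) (nat_lit 0x0) (nat_lit 0x60003c000e0068000700030000000000000000000000) := T_11 (nat_lit 125) (nat_lit 126) (nat_lit 1) (nat_lit 8) (nat_lit 7) L61464 (by decide +kernel)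
theorem L61466 : W_11 (nat_lit 10) (nat_lit 0x200000001300090000800000000000000000000000000) (nat_lit 0x0) (nat_lit 0x20007000f8001e0037c008e0068000700030000000000000000000000) := Q_11 (nat_lit 158) (C_11 L32439 (C_11 L32465 (C_11 L61465 (C_11 L32473 (C_11 L61381 N_11))))) (by decide +kernel)
theorem L61467 : W_11 (nat_lit 11) (nat_lit 0x200000001300090000000000000000000000000000000) (nat_lit 0x0) (nat_lit 0x20007000f8001e0037c008e0068000f001f0007000380018000000000) := Q_11 (nat_lit 107) (C_11 L61369 (C_11 L32433 (C_11 L32348 (C_11 L61466 N_11)))) (by decide +kernel)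
theorem L61468 : W_11 (nat_lit 8) (nat_lit 0x200000001700090000000000000000000000000000000) (nat_lit 0x0) (nat_lit 0x8000400060000c006e000f00050000000000000000000000) := Q_11 (nat_lit 157) (C_11 L61362 (C_11 L32723 (C_11 L32721 (C_11 L61360 N_11)))) (by decide +kernel)
theorem L61469 : W_11 (nat_lit 9) (nat_lit 0x200000001300090000000000000000000000000000000) (nat_lit 0x0) (nat_lit 0x4800040036000cc006e000f00050000000000000000000000) := Q_11 (nat_lit 142) (C_11 L61468 (C_11 L61358 (C_11 L32399 N_11))) (by decide +kernel)
theorem L61470 : W_11 (nat_lit 4) (nat_lit 0x8002c00000013000d0000000000000000000000000000000) (nat_lit 0x0) (nat_lit 0x2400100030000c00000000000000000000000000000000000) := T_11 (nat_lit 143) (nat_lit 142) (nat_lit 2) (nat_lit 4) (nat_lit 8) L32639 (by decide +kernel)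
theorem L61471 : W_11 (nat_lit 5) (nat_lit 0x8002400000013000d0000000000000000000000000000000) (nat_lit 0x0) (nat_lit 0x2400180034000c00000000000000000000000000000000000) := T_11 (nat_lit 175) (nat_lit 158) (nat_lit 5) (nat_lit 5) (nat_lit 7) L61470 (by decide +kernel)
theorem L61472 : W_11 (nat_lit 6) (nat_lit 0x2400000013000d0000000000000000000000000000000) (nat_lit 0x0) (nat_lit 0x2c00180036000c00000000000000000000000000000000000) := T_11 (nat_lit 191) (nat_lit 157) (nat_lit 6) (nat_lit 4) (nat_lit 11) L61471 (by decide +kernel)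
theorem L61473 : W_11 (nat_lit 7) (nat_lit 0x240000001300090000000000000000000000000000000) (nat_lit 0x0) (nat_lit 0x2c00180036000c00060000000000000000000000000000000) := T_11 (nat_lit 126) (nat_lit 125) (nat_lit 1) (nat_lit 8) (nat_lit 7) L61472 (by decide +kernel)
theorem L61474 : W_11 (nat_lit 6) (nat_lit 0x2400000013000d0000000000000000000000000000000) (nat_lit 0x0) (nat_lit 0x6c00180034000c00000000000000000000000000000000000) := T_11 (nat_lit 143) (nat_lit 142) (nat_lit 2) (nat_lit 4) (nat_lit 8) L32656 (by decide +kernel)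
theorem L61475 : W_11 (nat_lit 7) (nat_lit 0x240000001300090000000000000000000000000000000) (nat_lit 0x0) (nat_lit 0x6c00180034000c00060000000000000000000000000000000) := T_11 (nat_lit 126) (nat_lit 125) (nat_lit 1) (nat_lit 8) (nat_lit 7) L61474 (by decide +kernel)
theorem L61476 : W_11 (nat_lit 3) (nat_lit 0x240000001300090000000000000000000000000000000) (nat_lit 0x0) (nat_lit 0x800000006000000000000800040000000000000000000000) := T_11 (nat_lit 157) (nat_lit 191) (nat_lit 6) (nat_lit 4) (nat_lit 11) L57367 (by decide +kernel)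
theorem L61477 : W_11 (nat_lit 6) (nat_lit 0x240000001b000d0000000000000000000000000000000) (nat_lit 0x0) (nat_lit 0x6000180037000000000000800040000000000000000000000) := T_11 (nat_lit 160) (nat_lit 194) (nat_lit 6) (nat_lit 7) (nat_lit 11) L32661 (by decide +kernel)
theorem L61478 : W_11 (nat_lit 7) (nat_lit 0x2400000013000d0000000000000000000000000000000) (nat_lit 0x0) (nat_lit 0x6000180037000c00000000800040000000000000000000000) := T_11 (nat_lit 143) (nat_lit 142) (nat_lit 2) (nat_lit 4) (nat_lit 8) L61477 (by decide +kernel)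
theorem L61479 : W_11 (nat_lit 8) (nat_lit 0x240000001300090000000000000000000000000000000) (nat_lit 0x0) (nat_lit 0x6000180037000c00060000800040000000000000000000000) := T_11 (nat_lit 126) (nat_lit 125) (nat_lit 1) (nat_lit 8) (nat_lit 7) L61478 (by decide +kernel)
theorem L61480 : W_11 (nat_lit 13) (nat_lit 0x200000001300090000000000000000000000000000000) (nat_lit 0x0) (nat_lit 0xff801f8037c00c00060000800040000000000000000000000) := Q_11 (nat_lit 174) (C_11 L61473 (C_11 L61475 (C_11 L61413 (C_11 L61416 (C_11 L61427 (C_11 L61476 (C_11 L61479 N_11))))))) (by decide +kernel)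
theorem L61481 : W_11 (nat_lit 2) (nat_lit 0x200002001300090000800000000000000000000000000) (nat_lit 0x0) (nat_lit 0x40004000000008000000000000000000000000000000) := D_11 (nat_lit 174) (nat_lit 158) (nat_lit 123) (nat_lit 5) (nat_lit 5) (nat_lit 6) (nat_lit 6) (nat_lit 4) (nat_lit 10) (by decide +kernel)
theorem L61482 : W_11 (nat_lit 3) (nat_lit 0x200002001300090000000000000000000000000000000) (nat_lit 0x0) (nat_lit 0x40004000000008000800040000000000000000000000) := T_11 (nat_lit 107) (nat_lit 90) (nat_lit 5) (nat_lit 5) (nat_lit 5) L61481 (by decide +kernel)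
theorem L61483 : W_11 (nat_lit 2) (nat_lit 0x340012001b000d0000800000000000000000000000000) (nat_lit 0x0) (nat_lit 0x80021000000000000000000000000000000000000000) := D_11 (nat_lit 175) (nat_lit 161) (nat_lit 156) (nat_lit 2) (nat_lit 4) (nat_lit 10) (nat_lit 0) (nat_lit 7) (nat_lit 10) (by decide +kernel)
theorem L61484 : W_11 (nat_lit 3) (nat_lit 0x240012001b000d0000800000000000000000000000000) (nat_lit 0x0) (nat_lit 0x2000180021000000000000000000000000000000000000000) := T_11 (nat_lit 176) (nat_lit 193) (nat_lit 5) (nat_lit 7) (nat_lit 7) L61483 (by decide +kernel)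
theorem L61485 : W_11 (nat_lit 4) (nat_lit 0x240002001b000d0000800000000000000000000000000) (nat_lit 0x0) (nat_lit 0x6000180031000000000000000000000000000000000000000) := T_11 (nat_lit 160) (nat_lit 194) (nat_lit 6) (nat_lit 7) (nat_lit 11) L61484 (by decide +kernel)
theorem L61486 : W_11 (nat_lit 5) (nat_lit 0x200002001b000d0000800000000000000000000000000) (nat_lit 0x0) (nat_lit 0x60001c0035000000000000000000000000000000000000000) := T_11 (nat_lit 174) (nat_lit 158) (nat_lit 5) (nat_lit 5) (nat_lit 6) L61485 (by decide +kernel)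
theorem L61487 : W_11 (nat_lit 6) (nat_lit 0x2000020013000d0000800000000000000000000000000) (nat_lit 0x0) (nat_lit 0x60001c0035000c00000000000000000000000000000000000) := T_11 (nat_lit 143) (nat_lit 142) (nat_lit 2) (nat_lit 4) (nat_lit 8) L61486 (by decide +kernel)
theorem L61488 : W_11 (nat_lit 7) (nat_lit 0x200002001300090000800000000000000000000000000) (nat_lit 0x0) (nat_lit 0x60001c0035000c00060000000000000000000000000000000) := T_11 (nat_lit 126) (nat_lit 125) (nat_lit 1) (nat_lit 8) (nat_lit 7) L61487 (by decide +kernel)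
theorem L61489 : W_11 (nat_lit 8) (nat_lit 0x200002001300090000000000000000000000000000000) (nat_lit 0x0) (nat_lit 0x60001c0035000c00060000800040000000000000000000000) := T_11 (nat_lit 107) (nat_lit 90) (nat_lit 5) (nat_lit 5) (nat_lit 5) L61488 (by decide +kernel)
theorem L61490 : W_11 (nat_lit 9) (nat_lit 0x200000001300090000000000000000000000000000000) (nat_lit 0x0) (nat_lit 0x60001c0037800cc016e000b00058000000000000000000000) := Q_11 (nat_lit 157) (C_11 L61454 (C_11 L57108 (C_11 L61482 (C_11 L61489 N_11)))) (by decide +kernel)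
theorem L61491 : W_11 (nat_lit 16) (nat_lit 0x200000001200090000000000000000000000000000000) (nat_lit 0x0) (nat_lit 0x20007c00ff801f8037c00de016f800f801f8007800380018000000000) := Q_11 (nat_lit 140) (C_11 L61354 (C_11 L61355 (C_11 L61383 (C_11 L61385 (C_11 L61386 (C_11 L61408 (C_11 L61446 (C_11 L61456 (C_11 L61460 (C_11 L61467 (C_11 L61469 (C_11 L61480 (C_11 L61490 N_11))))))))))))) (by decide +kernel)
theorem L61492 : W_11 (nat_lit 17) (nat_lit 0x200000001200080000000000000000000000000000000) (nat_lit 0x0) (nat_lit 0x50003e001fe00ff801f80f7e00df077f83bfc07fc07fc003e001c000200000) := Q_11 (nat_lit 124) (C_11 L60557 (C_11 L60665 (C_11 L60699 (C_11 L60797 (C_11 L60799 (C_11 L60882 (C_11 L60951 (C_11 L61108 (C_11 L61120 (C_11 L61131 (C_11 L61197 (C_11 L61211 (C_11 L61242 (C_11 L61330 (C_11 L61491 N_11))))))))))))))) (by decide +kernel)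
theorem L62601 : W_11 (nat_lit 2) (nat_lit 0x3800080016000a0001000000000000000000000000000) (nat_lit 0x0) (nat_lit 0x10000800040000000000000000000000) := D_11 (nat_lit 107) (nat_lit 124) (nat_lit 90) (nat_lit 4) (nat_lit 6) (nat_lit 10) (nat_lit 4) (nat_lit 6) (nat_lit 9) (by decide +kernel)
theorem L62602 : W_11 (nat_lit 3) (nat_lit 0x3800080016000a0000000000000000000000000000000) (nat_lit 0x0) (nat_lit 0x4000000010001800040000000000000000000000) := T_11 (nat_lit 108) (nat_lit 158) (nat_lit 5) (nat_lit 6) (nat_lit 6) L62601 (by decide +kernel)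
theorem L62603 : W_11 (nat_lit 4) (nat_lit 0x3000080016000a0000000000000000000000000000000) (nat_lit 0x0) (nat_lit 0x1000080004000000010001800040000000000000000000000) := T_11 (nat_lit 175) (nat_lit 192) (nat_lit 5) (nat_lit 6) (nat_lit 7) L62602 (by decide +kernel)
theorem L62604 : W_11 (nat_lit 5) (nat_lit 0x2000080016000a0000000000000000000000000000000) (nat_lit 0x0) (nat_lit 0x5000180004000000010001800040000000000000000000000) := T_11 (nat_lit 176) (nat_lit 194) (nat_lit 7) (nat_lit 6) (nat_lit 7) L62603 (by decide +kernel)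
theorem L62609 : W_11 (nat_lit 3) (nat_lit 0x2000080016000a0000000000000000000000000000000) (nat_lit 0x0) (nat_lit 0x80014000000000001000080000000000000000000000) := T_11 (nat_lit 108) (nat_lit 160) (nat_lit 7) (nat_lit 6) (nat_lit 6) L62608 (by decide +kernel)
theorem L62614 : W_11 (nat_lit 6) (nat_lit 0x2000000016000a0000000000000000000000000000000) (nat_lit 0x0) (nat_lit 0x8000500018007c0001800100038001c0000000000000000000000) := Q_11 (nat_lit 159) (C_11 L62600 (C_11 L62604 (C_11 L62607 (C_11 L62609 (C_11 L62613 N_11))))) (by decide +kernel)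
theorem L62615 : W_11 (nat_lit 2) (nat_lit 0x3000080016000a0000000000000000000000000000000) (nat_lit 0x0) (nat_lit 0x140002000000000000000000000000000) := D_11 (nat_lit 126) (nat_lit 109) (nat_lit 128) (nat_lit 6) (nat_lit 6) (nat_lit 10) (nat_lit 1) (nat_lit 9) (nat_lit 7) (by decide +kernel)
theorem L62616 : W_11 (nat_lit 3) (nat_lit 0x2000080016000a0000000000000000000000000000000) (nat_lit 0x0) (nat_lit 0x4000100000000000140002000000000000000000000000000) := T_11 (nat_lit 176) (nat_lit 194) (nat_lit 7) (nat_lit 6) (nat_lit 7) L62615 (by decide +kernel)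
theorem L62617 : W_11 (nat_lit 6) (nat_lit 0x2000000016000a0000000000000000000000000000000) (nat_lit 0x0) (nat_lit 0x8000400018007c000180140003000080000000000000000000000) := Q_11 (nat_lit 159) (C_11 L62613 (C_11 L62616 (C_11 L62609 N_11))) (by decide +kernel)
theorem L62619 : W_11 (nat_lit 5) (nat_lit 0x2000000016000a0001000000000000000000000000000) (nat_lit 0x0) (nat_lit 0x4000100018000000010002800140000000000000000000000) := T_11 (nat_lit 159) (nat_lit 160) (nat_lit 7) (nat_lit 6) (nat_lit 6) L62599 (by decide +kernel)
theorem L62623 : W_11 (nat_lit 6) (nat_lit 0x2000000016000a0000000000000000000000000000000) (nat_lit 0x0) (nat_lit 0x400018001c0000000100038001c0006000100000000000000) := Q_11 (nat_lit 108) (C_11 L62618 (C_11 L62619 (C_11 L62622 N_11))) (by decide +kernel)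
theorem L62624 : W_11 (nat_lit 7) (nat_lit 0x200000001600080000000000000000000000000000000) (nat_lit 0x0) (nat_lit 0x8000500018007c0001801700038001c0006000100000000000000) := Q_11 (nat_lit 125) (C_11 L62614 (C_11 L61545 (C_11 L62617 (C_11 L62623 N_11)))) (by decide +kernel)
theorem L62626 : W_11 (nat_lit 3) (nat_lit 0x200020001e00090000000000000000000000000000000) (nat_lit 0x0) (nat_lit 0x7000100040000000000000000000000000000000) := T_11 (nat_lit 140) (nat_lit 126) (nat_lit 2) (nat_lit 4) (nat_lit 8) L62625 (by decide +kernel)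
theorem L62627 : W_11 (nat_lit 4) (nat_lit 0x200000001e00090000000000000000000000000000000) (nat_lit 0x0) (nat_lit 0x67000100040000000000000000000000000000000) := T_11 (nat_lit 161) (nat_lit 162) (nat_lit 3) (nat_lit 5) (nat_lit 8) L62626 (by decide +kernel)
theorem L62628 : W_11 (nat_lit 5) (nat_lit 0x200000001e00080000000000000000000000000000000) (nat_lit 0x0) (nat_lit 0x67000100058000000000000000000000000000000) := T_11 (nat_lit 124) (nat_lit 123) (nat_lit 0) (nat_lit 8) (nat_lit 8) L62627 (by decide +kernel)
theorem L62629 : W_11 (nat_lit 2) (nat_lit 0x200024001e00090000000000000000000000000000000) (nat_lit 0x0) (nat_lit 0x4000000010000100000000000000000000000000000000000) := D_11 (nat_lit 160) (nat_lit 140) (nat_lit 194) (nat_lit 3) (nat_lit 4) (nat_lit 8) (nat_lit 6) (nat_lit 7) (nat_lit 11) (by decide +kernel)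
theorem L62630 : W_11 (nat_lit 3) (nat_lit 0x200004001e00090000000000000000000000000000000) (nat_lit 0x0) (nat_lit 0x4000000070000100000000000000000000000000000000000) := T_11 (nat_lit 161) (nat_lit 162) (nat_lit 3) (nat_lit 5) (nat_lit 8) L62629 (by decide +kernel)
theorem L62631 : W_11 (nat_lit 4) (nat_lit 0x200004001e00080000000000000000000000000000000) (nat_lit 0x0) (nat_lit 0x4000000070000100018000000000000000000000000000000) := T_11 (nat_lit 124) (nat_lit 123) (nat_lit 0) (nat_lit 8) (nat_lit 8) L62630 (by decide +kernel)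
theorem L62632 : W_11 (nat_lit 5) (nat_lit 0x200000001e00080000000000000000000000000000000) (nat_lit 0x0) (nat_lit 0x4000000076000100018000000000000000000000000000000) := T_11 (nat_lit 158) (nat_lit 157) (nat_lit 1) (nat_lit 8) (nat_lit 8) L62631 (by decide +kernel)
theorem L62633 : W_11 (nat_lit 2) (nat_lit 0x4000200024001fc0084000000000000000000000000000000) (nat_lit 0x0) (nat_lit 0x1c00000000000000000000000000000000000000) := D_11 (nat_lit 155) (nat_lit 154) (nat_lit 156) (nat_lit 1) (nat_lit 5) (nat_lit 8) (nat_lit 1) (nat_lit 6) (nat_lit 8) (by decide +kernel)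
theorem L62634 : W_11 (nat_lit 3) (nat_lit 0x4000200024001f80084000000000000000000000000000000) (nat_lit 0x0) (nat_lit 0x9c00040000000000000000000000000000000000) := T_11 (nat_lit 138) (nat_lit 159) (nat_lit 3) (nat_lit 2) (nat_lit 8) L62633 (by decide +kernel)
theorem L62635 : W_11 (nat_lit 4) (nat_lit 0x4000200004001f80084000000000000000000000000000000) (nat_lit 0x0) (nat_lit 0x69c00040000000000000000000000000000000000) := T_11 (nat_lit 161) (nat_lit 162) (nat_lit 3) (nat_lit 5) (nat_lit 8) L62634 (by decide +kernel)
theorem L62636 : W_11 (nat_lit 5) (nat_lit 0x4000200004001f00084000000000000000000000000000000) (nat_lit 0x0) (nat_lit 0x69c000c0002000000000000000000000000000000) := T_11 (nat_lit 139) (nat_lit 121) (nat_lit 0) (nat_lit 6) (nat_lit 8) L62635 (by decide +kernel)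
theorem L62637 : W_11 (nat_lit 6) (nat_lit 0x4000200004001f00080000000000000000000000000000000) (nat_lit 0x0) (nat_lit 0x69c000c000e000000000000000000000000000000) := T_11 (nat_lit 122) (nat_lit 123) (nat_lit 0) (nat_lit 7) (nat_lit 8) L62636 (by decide +kernel)
theorem L62638 : W_11 (nat_lit 7) (nat_lit 0x4000200004001e00080000000000000000000000000000000) (nat_lit 0x0) (nat_lit 0x69c001c004e000000000000000000000000000000) := T_11 (nat_lit 140) (nat_lit 126) (nat_lit 2) (nat_lit 4) (nat_lit 8) L62637 (by decide +kernel)
theorem L62639 : W_11 (nat_lit 8) (nat_lit 0x4000200000001e00080000000000000000000000000000000) (nat_lit 0x0) (nat_lit 0x6fc001c004e000000000000000000000000000000) := T_11 (nat_lit 158) (nat_lit 157) (nat_lit 1) (nat_lit 8) (nat_lit 8) L62638 (by decide +kernel)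
theorem L62640 : W_11 (nat_lit 9) (nat_lit 0x200000001e00080000000000000000000000000000000) (nat_lit 0x0) (nat_lit 0x400000007fc001c004e000000000000000000000000000000) := T_11 (nat_lit 194) (nat_lit 160) (nat_lit 6) (nat_lit 7) (nat_lit 11) L62639 (by decide +kernel)
theorem L62643 : W_11 (nat_lit 2) (nat_lit 0x400020002c001e000b0000000000000000000000000000000) (nat_lit 0x0) (nat_lit 0x1000080000000000000001000000000000000000000000000) := D_11 (nat_lit 175) (nat_lit 192) (nat_lit 108) (nat_lit 6) (nat_lit 5) (nat_lit 11) (nat_lit 6) (nat_lit 5) (nat_lit 10) (by decide +kernel)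
theorem L62644 : W_11 (nat_lit 3) (nat_lit 0x4000200028001e000b0000000000000000000000000000000) (nat_lit 0x0) (nat_lit 0x1000080006000000000001000000000000000000000000000) := T_11 (nat_lit 158) (nat_lit 157) (nat_lit 1) (nat_lit 8) (nat_lit 8) L62643 (by decide +kernel)
theorem L62645 : W_11 (nat_lit 4) (nat_lit 0x4000200028001e000a0000000000000000000000000000000) (nat_lit 0x0) (nat_lit 0x1000080006000000018001000000000000000000000000000) := T_11 (nat_lit 124) (nat_lit 123) (nat_lit 0) (nat_lit 8) (nat_lit 8) L62644 (by decide +kernel)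
theorem L62646 : W_11 (nat_lit 5) (nat_lit 0x4000200020001e000a0000000000000000000000000000000) (nat_lit 0x0) (nat_lit 0x100018000e000000018001000000000000000000000000000) := T_11 (nat_lit 159) (nat_lit 176) (nat_lit 7) (nat_lit 6) (nat_lit 7) L62645 (by decide +kernel)
theorem L62647 : W_11 (nat_lit 6) (nat_lit 0x4000200000001e000a0000000000000000000000000000000) (nat_lit 0x0) (nat_lit 0x100018006e000000018001000000000000000000000000000) := T_11 (nat_lit 161) (nat_lit 162) (nat_lit 3) (nat_lit 5) (nat_lit 8) L62646 (by decide +kernel)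
theorem L62648 : W_11 (nat_lit 7) (nat_lit 0x200000001e000a0000000000000000000000000000000) (nat_lit 0x0) (nat_lit 0x500018007e000000018001000000000000000000000000000) := T_11 (nat_lit 194) (nat_lit 160) (nat_lit 6) (nat_lit 7) (nat_lit 11) L62647 (by decide +kernel)
theorem L62649 : W_11 (nat_lit 2) (nat_lit 0x200030001e000b0000000000000000000000000000000) (nat_lit 0x0) (nat_lit 0x8000000040001000000000000000000000000000) := D_11 (nat_lit 108) (nat_lit 126) (nat_lit 159) (nat_lit 4) (nat_lit 7) (nat_lit 10) (nat_lit 7) (nat_lit 6) (nat_lit 6) (by decide +kernel)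
theorem L62650 : W_11 (nat_lit 3) (nat_lit 0x200020001e000b0000000000000000000000000000000) (nat_lit 0x0) (nat_lit 0x4000000018000000040001000000000000000000000000000) := T_11 (nat_lit 160) (nat_lit 194) (nat_lit 6) (nat_lit 7) (nat_lit 11) L62649 (by decide +kernel)
theorem L62651 : W_11 (nat_lit 4) (nat_lit 0x200000001e000b0000000000000000000000000000000) (nat_lit 0x0) (nat_lit 0x4000000078000000040001000000000000000000000000000) := T_11 (nat_lit 161) (nat_lit 162) (nat_lit 3) (nat_lit 5) (nat_lit 8) L62650 (by decide +kernel)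
theorem L62652 : W_11 (nat_lit 5) (nat_lit 0x200000001e000a0000000000000000000000000000000) (nat_lit 0x0) (nat_lit 0x4000000078000000058001000000000000000000000000000) := T_11 (nat_lit 124) (nat_lit 123) (nat_lit 0) (nat_lit 8) (nat_lit 8) L62651 (by decide +kernel)
theorem L62653 : W_11 (nat_lit 2) (nat_lit 0x200024001e000b0000000000000000000000000000000) (nat_lit 0x0) (nat_lit 0x80000000000000001000080000000000000000000000) := D_11 (nat_lit 108) (nat_lit 91) (nat_lit 175) (nat_lit 5) (nat_lit 6) (nat_lit 5) (nat_lit 6) (nat_lit 5) (nat_lit 10) (by decide +kernel)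
theorem L62654 : W_11 (nat_lit 3) (nat_lit 0x200020001e000b0000000000000000000000000000000) (nat_lit 0x0) (nat_lit 0x80006000000000001000080000000000000000000000) := T_11 (nat_lit 158) (nat_lit 157) (nat_lit 1) (nat_lit 8) (nat_lit 8) L62653 (by decide +kernel)
theorem L62655 : W_11 (nat_lit 4) (nat_lit 0x200000001e000b0000000000000000000000000000000) (nat_lit 0x0) (nat_lit 0x80066000000000001000080000000000000000000000) := T_11 (nat_lit 161) (nat_lit 162) (nat_lit 3) (nat_lit 5) (nat_lit 8) L62654 (by decide +kernel)
theorem L62656 : W_11 (nat_lit 5) (nat_lit 0x200000001e000a0000000000000000000000000000000) (nat_lit 0x0) (nat_lit 0x80066000000018001000080000000000000000000000) := T_11 (nat_lit 124) (nat_lit 123) (nat_lit 0) (nat_lit 8) (nat_lit 8) L62655 (by decide +kernel)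
theorem L62657 : W_11 (nat_lit 2) (nat_lit 0x500020002c001e000a4003c00010000000000000000000000) (nat_lit 0x0) (nat_lit 0x2000200008000000000000000000000) := D_11 (nat_lit 105) (nat_lit 121) (nat_lit 87) (nat_lit 1) (nat_lit 6) (nat_lit 6) (nat_lit 0) (nat_lit 6) (nat_lit 6) (by decide +kernel)
theorem L62658 : W_11 (nat_lit 3) (nat_lit 0x500020002c001e000a4003c00000000000000000000000000) (nat_lit 0x0) (nat_lit 0x2000200038000000000000000000000) := T_11 (nat_lit 88) (nat_lit 89) (nat_lit 0) (nat_lit 7) (nat_lit 6) L62657 (by decide +kernel)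
theorem L62659 : W_11 (nat_lit 4) (nat_lit 0x500020002c001e000a0003c00000000000000000000000000) (nat_lit 0x0) (nat_lit 0xe000200038000000000000000000000) := T_11 (nat_lit 122) (nat_lit 123) (nat_lit 1) (nat_lit 7) (nat_lit 6) L62658 (by decide +kernel)
theorem L62660 : W_11 (nat_lit 5) (nat_lit 0x500020002c001e000a0003800000000000000000000000000) (nat_lit 0x0) (nat_lit 0x4e000600038000000000000000000000) := T_11 (nat_lit 106) (nat_lit 126) (nat_lit 3) (nat_lit 4) (nat_lit 6) L62659 (by decide +kernel)
theorem L62661 : W_11 (nat_lit 6) (nat_lit 0x500020002c001e000a0003000000000000000000000000000) (nat_lit 0x0) (nat_lit 0x4e000e00078000000000000000000000) := T_11 (nat_lit 107) (nat_lit 90) (nat_lit 4) (nat_lit 6) (nat_lit 9) L62660 (by decide +kernel)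
theorem L62662 : W_11 (nat_lit 7) (nat_lit 0x500020002c001e000a0001000000000000000000000000000) (nat_lit 0x0) (nat_lit 0x4e002e00178000000000000000000000) := T_11 (nat_lit 109) (nat_lit 92) (nat_lit 6) (nat_lit 6) (nat_lit 9) L62661 (by decide +kernel)
theorem L62663 : W_11 (nat_lit 8) (nat_lit 0x500020000c001e000a0001000000000000000000000000000) (nat_lit 0x0) (nat_lit 0x6000000004e002e00178000000000000000000000) := T_11 (nat_lit 161) (nat_lit 162) (nat_lit 3) (nat_lit 5) (nat_lit 8) L62662 (by decide +kernel)
theorem L62664 : W_11 (nat_lit 9) (nat_lit 0x500020000c001e000a0000000000000000000000000000000) (nat_lit 0x0) (nat_lit 0x6000000004e003e001f8000000000000000000000) := T_11 (nat_lit 108) (nat_lit 91) (nat_lit 5) (nat_lit 6) (nat_lit 5) L62663 (by decide +kernel)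
theorem L62665 : W_11 (nat_lit 10) (nat_lit 0x5000200004001e000a0000000000000000000000000000000) (nat_lit 0x0) (nat_lit 0x10006800000004e003e001f8000000000000000000000) := T_11 (nat_lit 159) (nat_lit 176) (nat_lit 7) (nat_lit 6) (nat_lit 7) L62664 (by decide +kernel)
theorem L62666 : W_11 (nat_lit 11) (nat_lit 0x4000200004001e000a0000000000000000000000000000000) (nat_lit 0x0) (nat_lit 0x100018006800000004e003e001f8000000000000000000000) := T_11 (nat_lit 192) (nat_lit 175) (nat_lit 6) (nat_lit 5) (nat_lit 11) L62665 (by decide +kernel)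
theorem L62667 : W_11 (nat_lit 12) (nat_lit 0x200004001e000a0000000000000000000000000000000) (nat_lit 0x0) (nat_lit 0x500018007800000004e003e001f8000000000000000000000) := T_11 (nat_lit 194) (nat_lit 160) (nat_lit 6) (nat_lit 7) (nat_lit 11) L62666 (by decide +kernel)
theorem L62668 : W_11 (nat_lit 13) (nat_lit 0x200000001e000a0000000000000000000000000000000) (nat_lit 0x0) (nat_lit 0x500018007e00000004e003e001f8000000000000000000000) := T_11 (nat_lit 158) (nat_lit 157) (nat_lit 1) (nat_lit 8) (nat_lit 8) L62667 (by decide +kernel)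
theorem L62669 : W_11 (nat_lit 2) (nat_lit 0x400020002c001e000a0000000000000000000000000000000) (nat_lit 0x0) (nat_lit 0x80000000000000001000080000000000000000000000) := D_11 (nat_lit 108) (nat_lit 175) (nat_lit 91) (nat_lit 5) (nat_lit 6) (nat_lit 6) (nat_lit 5) (nat_lit 6) (nat_lit 5) (by decide +kernel)
theorem L62670 : W_11 (nat_lit 3) (nat_lit 0x4000200024001e000a0000000000000000000000000000000) (nat_lit 0x0) (nat_lit 0x180008000000000001000080000000000000000000000) := T_11 (nat_lit 159) (nat_lit 176) (nat_lit 7) (nat_lit 6) (nat_lit 7) L62669 (by decide +kernel)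
theorem L62671 : W_11 (nat_lit 4) (nat_lit 0x4000200020001e000a0000000000000000000000000000000) (nat_lit 0x0) (nat_lit 0x18000e000000000001000080000000000000000000000) := T_11 (nat_lit 158) (nat_lit 157) (nat_lit 1) (nat_lit 8) (nat_lit 8) L62670 (by decide +kernel)
theorem L62672 : W_11 (nat_lit 5) (nat_lit 0x200020001e000a0000000000000000000000000000000) (nat_lit 0x0) (nat_lit 0x400018001e000000000001000080000000000000000000000) := T_11 (nat_lit 194) (nat_lit 160) (nat_lit 6) (nat_lit 7) (nat_lit 11) L62671 (by decide +kernel)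
theorem L62673 : W_11 (nat_lit 6) (nat_lit 0x200000001e000a0000000000000000000000000000000) (nat_lit 0x0) (nat_lit 0x400018007e000000000001000080000000000000000000000) := T_11 (nat_lit 161) (nat_lit 162) (nat_lit 3) (nat_lit 5) (nat_lit 8) L62672 (by decide +kernel)
theorem L62674 : W_11 (nat_lit 2) (nat_lit 0x4000200028001e000b0000c00000000000000000000000000) (nat_lit 0x0) (nat_lit 0x6000000000000000020000000000000000000000) := D_11 (nat_lit 158) (nat_lit 157) (nat_lit 89) (nat_lit 1) (nat_lit 8) (nat_lit 8) (nat_lit 4) (nat_lit 5) (nat_lit 9) (by decide +kernel)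
theorem L62675 : W_11 (nat_lit 3) (nat_lit 0x4000200028001e000b0000800000000000000000000000000) (nat_lit 0x0) (nat_lit 0x6000000040000400020000000000000000000000) := T_11 (nat_lit 106) (nat_lit 126) (nat_lit 0) (nat_lit 8) (nat_lit 7) L62674 (by decide +kernel)
theorem L62676 : W_11 (nat_lit 4) (nat_lit 0x4000200008001e000b0000800000000000000000000000000) (nat_lit 0x0) (nat_lit 0x66000000040000400020000000000000000000000) := T_11 (nat_lit 161) (nat_lit 162) (nat_lit 3) (nat_lit 5) (nat_lit 8) L62675 (by decide +kernel)
theorem L62677 : W_11 (nat_lit 5) (nat_lit 0x4000200008001e000b0000000000000000000000000000000) (nat_lit 0x0) (nat_lit 0x66000000040000c00060000000000000000000000) := T_11 (nat_lit 107) (nat_lit 90) (nat_lit 7) (nat_lit 5) (nat_lit 5) L62676 (by decide +kernel)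
theorem L62678 : W_11 (nat_lit 6) (nat_lit 0x4000200000001e000b0000000000000000000000000000000) (nat_lit 0x0) (nat_lit 0x10006e000000040000c00060000000000000000000000) := T_11 (nat_lit 159) (nat_lit 176) (nat_lit 7) (nat_lit 6) (nat_lit 7) L62677 (by decide +kernel)
theorem L62679 : W_11 (nat_lit 7) (nat_lit 0x4000200000001e000a0000000000000000000000000000000) (nat_lit 0x0) (nat_lit 0x10006e000000058000c00060000000000000000000000) := T_11 (nat_lit 124) (nat_lit 123) (nat_lit 0) (nat_lit 8) (nat_lit 8) L62678 (by decide +kernel)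
theorem L62680 : W_11 (nat_lit 8) (nat_lit 0x200000001e000a0000000000000000000000000000000) (nat_lit 0x0) (nat_lit 0x400010007e000000058000c00060000000000000000000000) := T_11 (nat_lit 194) (nat_lit 160) (nat_lit 6) (nat_lit 7) (nat_lit 11) L62679 (by decide +kernel)
theorem L62684 : W_11 (nat_lit 14) (nat_lit 0x200000001e00080000000000000000000000000000000) (nat_lit 0x0) (nat_lit 0x500018007e00000007e003e001f8000000000000000000000) := Q_11 (nat_lit 125) (C_11 L62648 (C_11 L62652 (C_11 L62656 (C_11 L62668 (C_11 L62673 (C_11 L62680 (C_11 L62683 N_11))))))) (by decide +kernel)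
theorem L62689 : W_11 (nat_lit 6) (nat_lit 0x200004001e00090000000000000000000000000000000) (nat_lit 0x0) (nat_lit 0x4000000019c001c0060000000000000000000000000000000) := T_11 (nat_lit 160) (nat_lit 194) (nat_lit 6) (nat_lit 7) (nat_lit 11) L62688 (by decide +kernel)
theorem L62690 : W_11 (nat_lit 7) (nat_lit 0x200000001e00090000000000000000000000000000000) (nat_lit 0x0) (nat_lit 0x400000001fc001c0060000000000000000000000000000000) := T_11 (nat_lit 158) (nat_lit 157) (nat_lit 1) (nat_lit 8) (nat_lit 8) L62689 (by decide +kernel)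
theorem L62691 : W_11 (nat_lit 8) (nat_lit 0x200000001e00080000000000000000000000000000000) (nat_lit 0x0) (nat_lit 0x400000001fc001c0078000000000000000000000000000000) := T_11 (nat_lit 124) (nat_lit 123) (nat_lit 0) (nat_lit 8) (nat_lit 8) L62690 (by decide +kernel)
theorem L62692 : W_11 (nat_lit 15) (nat_lit 0x200000001600080000000000000000000000000000000) (nat_lit 0x0) (nat_lit 0x500018007fc009c007e003e001f8000000000000000000000) := Q_11 (nat_lit 143) (C_11 L62628 (C_11 L62632 (C_11 L62640 (C_11 L62642 (C_11 L62684 (C_11 L62691 N_11)))))) (by decide +kernel)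
theorem L62693 : W_11 (nat_lit 4) (nat_lit 0x200000001600080000000000000000000000000000000) (nat_lit 0x0) (nat_lit 0x70000900140000000000000000000000000000000) := T_11 (nat_lit 143) (nat_lit 128) (nat_lit 2) (nat_lit 5) (nat_lit 8) L62642 (by decide +kernel)
theorem L62694 : W_11 (nat_lit 6) (nat_lit 0x200000001600080000000000000000000000000000000) (nat_lit 0x0) (nat_lit 0x4000000076000900118000000000000000000000000000000) := T_11 (nat_lit 143) (nat_lit 128) (nat_lit 2) (nat_lit 5) (nat_lit 8) L62632 (by decide +kernel)
theorem L62695 : W_11 (nat_lit 6) (nat_lit 0x200000001600080000000000000000000000000000000) (nat_lit 0x0) (nat_lit 0x67000900158000000000000000000000000000000) := T_11 (nat_lit 143) (nat_lit 128) (nat_lit 2) (nat_lit 5) (nat_lit 8) L62628 (by decide +kernel)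
theorem L62696 : W_11 (nat_lit 15) (nat_lit 0x200000001600080000000000000000000000000000000) (nat_lit 0x0) (nat_lit 0x500018007e00080017e003e001f8000000000000000000000) := T_11 (nat_lit 143) (nat_lit 128) (nat_lit 2) (nat_lit 5) (nat_lit 8) L62684 (by decide +kernel)
theorem L62697 : W_11 (nat_lit 9) (nat_lit 0x200000001600080000000000000000000000000000000) (nat_lit 0x0) (nat_lit 0x400000001fc009c0178000000000000000000000000000000) := T_11 (nat_lit 143) (nat_lit 128) (nat_lit 2) (nat_lit 5) (nat_lit 8) L62691 (by decide +kernel)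
theorem L62698 : W_11 (nat_lit 16) (nat_lit 0x200000001200080000000000000000000000000000000) (nat_lit 0x0) (nat_lit 0x8000500018007fc00dc017e003e001f8006000100000000000000) := Q_11 (nat_lit 142) (C_11 L62624 (C_11 L62692 (C_11 L62693 (C_11 L62694 (C_11 L62695 (C_11 L62696 (C_11 L62697 N_11))))))) (by decide +kernel)
theorem L62699 : W_11 (nat_lit 2) (nat_lit 0x2000080016000a0001800180000000000000000000000) (nat_lit 0x0) (nat_lit 0x100000000000010000000000004000000000000000000) := D_11 (nat_lit 124) (nat_lit 74) (nat_lit 176) (nat_lit 5) (nat_lit 6) (nat_lit 4) (nat_lit 4) (nat_lit 6) (nat_lit 10) (by decide +kernel)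
theorem L62700 : W_11 (nat_lit 3) (nat_lit 0x2000080016000a0001800100000000000000000000000) (nat_lit 0x0) (nat_lit 0x10000000000001000000008000c000000000000000000) := T_11 (nat_lit 91) (nat_lit 75) (nat_lit 6) (nat_lit 6) (nat_lit 8) L62699 (by decide +kernel)
theorem L62701 : W_11 (nat_lit 4) (nat_lit 0x2000080016000a0001000100000000000000000000000) (nat_lit 0x0) (nat_lit 0x1000000000000100008000c000c000000000000000000) := T_11 (nat_lit 107) (nat_lit 90) (nat_lit 4) (nat_lit 6) (nat_lit 9) L62700 (by decide +kernel)
theorem L62702 : W_11 (nat_lit 5) (nat_lit 0x2000080016000a0001000000000000000000000000000) (nat_lit 0x0) (nat_lit 0x1000000000000100028001c000c000000000000000000) := T_11 (nat_lit 92) (nat_lit 109) (nat_lit 6) (nat_lit 6) (nat_lit 9) L62701 (by decide +kernel)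
theorem L62703 : W_11 (nat_lit 6) (nat_lit 0x2000000016000a0001000000000000000000000000000) (nat_lit 0x0) (nat_lit 0x1000180000000100028001c000c000000000000000000) := T_11 (nat_lit 159) (nat_lit 160) (nat_lit 7) (nat_lit 6) (nat_lit 6) L62702 (by decide +kernel)
theorem L62704 : W_11 (nat_lit 2) (nat_lit 0x20000f0016000b8003d00000000000000000000000000) (nat_lit 0x0) (nat_lit 0x30000000100000000000000000000000000000000000) := D_11 (nat_lit 173) (nat_lit 172) (nat_lit 140) (nat_lit 1) (nat_lit 6) (nat_lit 9) (nat_lit 5) (nat_lit 4) (nat_lit 6) (by decide +kernel)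
theorem L62705 : W_11 (nat_lit 3) (nat_lit 0x20000e0016000b8003d00000000000000000000000000) (nat_lit 0x0) (nat_lit 0x30001800100000000000000000000000000000000000) := T_11 (nat_lit 156) (nat_lit 155) (nat_lit 2) (nat_lit 2) (nat_lit 9) L62704 (by decide +kernel)
theorem L62706 : W_11 (nat_lit 4) (nat_lit 0x20000c0016000b8003d00000000000000000000000000) (nat_lit 0x0) (nat_lit 0x70003800100000000000000000000000000000000000) := T_11 (nat_lit 157) (nat_lit 174) (nat_lit 5) (nat_lit 5) (nat_lit 6) L62705 (by decide +kernel)
theorem L62707 : W_11 (nat_lit 5) (nat_lit 0x20000c0016000b0003d00000000000000000000000000) (nat_lit 0x0) (nat_lit 0x7000380010000c000000000000000000000000000000) := T_11 (nat_lit 123) (nat_lit 122) (nat_lit 2) (nat_lit 3) (nat_lit 7) L62706 (by decide +kernel)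
theorem L62708 : W_11 (nat_lit 6) (nat_lit 0x20000c0016000b0003c00000000000000000000000000) (nat_lit 0x0) (nat_lit 0x7000380010000c000300000000000000000000000000) := T_11 (nat_lit 104) (nat_lit 105) (nat_lit 3) (nat_lit 2) (nat_lit 6) L62707 (by decide +kernel)
theorem L62709 : W_11 (nat_lit 7) (nat_lit 0x20000c0016000b0003800000000000000000000000000) (nat_lit 0x0) (nat_lit 0x7000380010000c000700020000000000000000000000) := T_11 (nat_lit 106) (nat_lit 89) (nat_lit 4) (nat_lit 5) (nat_lit 9) L62708 (by decide +kernel)
theorem L62710 : W_11 (nat_lit 8) (nat_lit 0x20000c0016000a0003800000000000000000000000000) (nat_lit 0x0) (nat_lit 0x17000380010001c000700020000000000000000000000) := T_11 (nat_lit 124) (nat_lit 176) (nat_lit 7) (nat_lit 5) (nat_lit 6) L62709 (by decide +kernel)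
theorem L62711 : W_11 (nat_lit 9) (nat_lit 0x20000c0016000a0003000000000000000000000000000) (nat_lit 0x0) (nat_lit 0x17000380010001c000f00060000000000000000000000) := T_11 (nat_lit 107) (nat_lit 90) (nat_lit 4) (nat_lit 6) (nat_lit 9) L62710 (by decide +kernel)
theorem L62712 : W_11 (nat_lit 10) (nat_lit 0x2000080016000a0003000000000000000000000000000) (nat_lit 0x0) (nat_lit 0x1f000780010001c000f00060000000000000000000000) := T_11 (nat_lit 158) (nat_lit 175) (nat_lit 5) (nat_lit 6) (nat_lit 6) L62711 (by decide +kernel)
theorem L62713 : W_11 (nat_lit 11) (nat_lit 0x2000080016000a0001000000000000000000000000000) (nat_lit 0x0) (nat_lit 0x1f000780010001c002f00160000000000000000000000) := T_11 (nat_lit 109) (nat_lit 92) (nat_lit 6) (nat_lit 6) (nat_lit 9) L62712 (by decide +kernel)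
theorem L62714 : W_11 (nat_lit 12) (nat_lit 0x2000000016000a0001000000000000000000000000000) (nat_lit 0x0) (nat_lit 0x1f001f80010001c002f00160000000000000000000000) := T_11 (nat_lit 159) (nat_lit 160) (nat_lit 7) (nat_lit 6) (nat_lit 6) L62713 (by decide +kernel)
theorem L62715 : W_11 (nat_lit 13) (nat_lit 0x2000000016000a0000000000000000000000000000000) (nat_lit 0x0) (nat_lit 0x1f001f80010001c003f001e000e000100000000000000) := Q_11 (nat_lit 108) (C_11 L62703 (C_11 L62618 (C_11 L62622 (C_11 L62714 N_11)))) (by decide +kernel)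
theorem L62716 : W_11 (nat_lit 4) (nat_lit 0x2000000016000a0001000000000000000000000000000) (nat_lit 0x0) (nat_lit 0x100018000000140002000100000000000000000000000) := T_11 (nat_lit 159) (nat_lit 160) (nat_lit 7) (nat_lit 6) (nat_lit 6) L61606 (by decide +kernel)
theorem L62717 : W_11 (nat_lit 7) (nat_lit 0x2000000016000a0000000000000000000000000000000) (nat_lit 0x0) (nat_lit 0x18001c0000001500038001c000e000100000000000000) := Q_11 (nat_lit 108) (C_11 L62622 (C_11 L62703 (C_11 L62618 (C_11 L62716 N_11)))) (by decide +kernel)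
theorem L62718 : W_11 (nat_lit 11) (nat_lit 0x2000000016000a0000000000000000000000000000000) (nat_lit 0x0) (nat_lit 0x18001c0000001400038001f000e000700018000400000) := Q_11 (nat_lit 108) (C_11 L62618 (C_11 L62716 (C_11 L61585 N_11))) (by decide +kernel)
theorem L62719 : W_11 (nat_lit 14) (nat_lit 0x200000001600080000000000000000000000000000000) (nat_lit 0x0) (nat_lit 0x1f001f80018017c003f001f000e000700018000400000) := Q_11 (nat_lit 125) (C_11 L62715 (C_11 L62717 (C_11 L61545 (C_11 L62718 N_11)))) (by decide +kernel)
theorem L62720 : W_11 (nat_lit 2) (nat_lit 0x200024001f00080000000000000000000000000000000) (nat_lit 0x0) (nat_lit 0x1c000000000000000000000000000000) := D_11 (nat_lit 123) (nat_lit 122) (nat_lit 124) (nat_lit 0) (nat_lit 7) (nat_lit 8) (nat_lit 0) (nat_lit 8) (nat_lit 8) (by decide +kernel)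
theorem L62721 : W_11 (nat_lit 3) (nat_lit 0x200024001e00080000000000000000000000000000000) (nat_lit 0x0) (nat_lit 0x1000010001c000000000000000000000000000000) := T_11 (nat_lit 140) (nat_lit 160) (nat_lit 3) (nat_lit 4) (nat_lit 8) L62720 (by decide +kernel)
theorem L62722 : W_11 (nat_lit 4) (nat_lit 0x200004001e00080000000000000000000000000000000) (nat_lit 0x0) (nat_lit 0x7000010001c000000000000000000000000000000) := T_11 (nat_lit 161) (nat_lit 162) (nat_lit 3) (nat_lit 5) (nat_lit 8) L62721 (by decide +kernel)
theorem L62723 : W_11 (nat_lit 5) (nat_lit 0x200000001e00080000000000000000000000000000000) (nat_lit 0x0) (nat_lit 0x7600010001c000000000000000000000000000000) := T_11 (nat_lit 158) (nat_lit 157) (nat_lit 1) (nat_lit 8) (nat_lit 8) L62722 (by decide +kernel)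
theorem L62724 : W_11 (nat_lit 6) (nat_lit 0x200000001600080000000000000000000000000000000) (nat_lit 0x0) (nat_lit 0x7600090011c000000000000000000000000000000) := T_11 (nat_lit 143) (nat_lit 128) (nat_lit 2) (nat_lit 5) (nat_lit 8) L62723 (by decide +kernel)
theorem L62725 : W_11 (nat_lit 2) (nat_lit 0x100020002c001e000b0001000000000000000000000000000) (nat_lit 0x0) (nat_lit 0x100000000000000000800040000000000000000000000) := D_11 (nat_lit 107) (nat_lit 176) (nat_lit 90) (nat_lit 7) (nat_lit 5) (nat_lit 6) (nat_lit 7) (nat_lit 5) (nat_lit 5) (by decide +kernel)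
theorem L62726 : W_11 (nat_lit 3) (nat_lit 0x1000200024001e000b0001000000000000000000000000000) (nat_lit 0x0) (nat_lit 0x100018000000000000800040000000000000000000000) := T_11 (nat_lit 159) (nat_lit 160) (nat_lit 7) (nat_lit 6) (nat_lit 6) L62725 (by decide +kernel)
theorem L62727 : W_11 (nat_lit 4) (nat_lit 0x1000200024001e000a0001000000000000000000000000000) (nat_lit 0x0) (nat_lit 0x100018000000018000800040000000000000000000000) := T_11 (nat_lit 124) (nat_lit 123) (nat_lit 0) (nat_lit 8) (nat_lit 8) L62726 (by decide +kernel)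
theorem L62728 : W_11 (nat_lit 5) (nat_lit 0x1000200024001e000a0000000000000000000000000000000) (nat_lit 0x0) (nat_lit 0x1000180000000180018000c0000000000000000000000) := T_11 (nat_lit 108) (nat_lit 91) (nat_lit 5) (nat_lit 6) (nat_lit 5) L62727 (by decide +kernel)
theorem L62729 : W_11 (nat_lit 6) (nat_lit 0x200024001e000a0000000000000000000000000000000) (nat_lit 0x0) (nat_lit 0x10001800180000000180018000c0000000000000000000000) := T_11 (nat_lit 192) (nat_lit 175) (nat_lit 6) (nat_lit 5) (nat_lit 11) L62728 (by decide +kernel)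
theorem L62730 : W_11 (nat_lit 7) (nat_lit 0x200004001e000a0000000000000000000000000000000) (nat_lit 0x0) (nat_lit 0x10001800780000000180018000c0000000000000000000000) := T_11 (nat_lit 161) (nat_lit 162) (nat_lit 3) (nat_lit 5) (nat_lit 8) L62729 (by decide +kernel)
theorem L62731 : W_11 (nat_lit 8) (nat_lit 0x200000001e000a0000000000000000000000000000000) (nat_lit 0x0) (nat_lit 0x100018007e0000000180018000c0000000000000000000000) := T_11 (nat_lit 158) (nat_lit 157) (nat_lit 1) (nat_lit 8) (nat_lit 8) L62730 (by decide +kernel)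
theorem L62732 : W_11 (nat_lit 9) (nat_lit 0x2000000016000a0000000000000000000000000000000) (nat_lit 0x0) (nat_lit 0x100018007e0008001180018000c0000000000000000000000) := T_11 (nat_lit 143) (nat_lit 128) (nat_lit 2) (nat_lit 5) (nat_lit 8) L62731 (by decide +kernel)
theorem L62733 : W_11 (nat_lit 2) (nat_lit 0x2000000016000a0000000000000000000000000000000) (nat_lit 0x0) (nat_lit 0x800140000000000000000000000000000000) := D_11 (nat_lit 128) (nat_lit 143) (nat_lit 126) (nat_lit 2) (nat_lit 5) (nat_lit 8) (nat_lit 1) (nat_lit 9) (nat_lit 7) (by decide +kernel)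
theorem L62734 : W_11 (nat_lit 2) (nat_lit 0x20000c001e000b0003000000000000000000000000000) (nat_lit 0x0) (nat_lit 0x100000000000000000800040000000000000000000000) := D_11 (nat_lit 107) (nat_lit 90) (nat_lit 176) (nat_lit 7) (nat_lit 5) (nat_lit 5) (nat_lit 7) (nat_lit 5) (nat_lit 6) (by decide +kernel)
theorem L62735 : W_11 (nat_lit 3) (nat_lit 0x20000c001e000a0003000000000000000000000000000) (nat_lit 0x0) (nat_lit 0x100000000000018000800040000000000000000000000) := T_11 (nat_lit 124) (nat_lit 123) (nat_lit 0) (nat_lit 8) (nat_lit 8) L62734 (by decide +kernel)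
theorem L62736 : W_11 (nat_lit 4) (nat_lit 0x20000c0016000a0003000000000000000000000000000) (nat_lit 0x0) (nat_lit 0x100002000800018000800040000000000000000000000) := T_11 (nat_lit 143) (nat_lit 157) (nat_lit 1) (nat_lit 8) (nat_lit 8) L62735 (by decide +kernel)
theorem L62737 : W_11 (nat_lit 5) (nat_lit 0x2000080016000a0003000000000000000000000000000) (nat_lit 0x0) (nat_lit 0x180006000800018000800040000000000000000000000) := T_11 (nat_lit 158) (nat_lit 175) (nat_lit 5) (nat_lit 6) (nat_lit 6) L62736 (by decide +kernel)
theorem L62738 : W_11 (nat_lit 6) (nat_lit 0x2000080016000a0001000000000000000000000000000) (nat_lit 0x0) (nat_lit 0x180006000800018002800140000000000000000000000) := T_11 (nat_lit 109) (nat_lit 92) (nat_lit 6) (nat_lit 6) (nat_lit 9) L62737 (by decide +kernel)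
theorem L62739 : W_11 (nat_lit 7) (nat_lit 0x2000000016000a0001000000000000000000000000000) (nat_lit 0x0) (nat_lit 0x18001e000800018002800140000000000000000000000) := T_11 (nat_lit 159) (nat_lit 160) (nat_lit 7) (nat_lit 6) (nat_lit 6) L62738 (by decide +kernel)
theorem L62740 : W_11 (nat_lit 8) (nat_lit 0x2000000016000a0000000000000000000000000000000) (nat_lit 0x0) (nat_lit 0x18001e0008000180038001c000e000100000000000000) := Q_11 (nat_lit 108) (C_11 L62622 (C_11 L62703 (C_11 L62618 (C_11 L62739 N_11)))) (by decide +kernel)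
theorem L62741 : W_11 (nat_lit 12) (nat_lit 0x200000001600080000000000000000000000000000000) (nat_lit 0x0) (nat_lit 0x100018007e0008001780038001f000e000700018000400000) := Q_11 (nat_lit 125) (C_11 L62718 (C_11 L62732 (C_11 L62733 (C_11 L62740 N_11)))) (by decide +kernel)
theorem L62742 : W_11 (nat_lit 2) (nat_lit 0x200020001f800b0000000000000000000000000000000) (nat_lit 0x0) (nat_lit 0x3800000000000000000000000000000000000000) := D_11 (nat_lit 156) (nat_lit 157) (nat_lit 155) (nat_lit 1) (nat_lit 7) (nat_lit 8) (nat_lit 1) (nat_lit 6) (nat_lit 8) (by decide +kernel)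
theorem L62743 : W_11 (nat_lit 3) (nat_lit 0x200020001f000b0000000000000000000000000000000) (nat_lit 0x0) (nat_lit 0x38000c0000000000000000000000000000000000) := T_11 (nat_lit 139) (nat_lit 138) (nat_lit 2) (nat_lit 2) (nat_lit 8) L62742 (by decide +kernel)
theorem L62744 : W_11 (nat_lit 4) (nat_lit 0x200020001e000b0000000000000000000000000000000) (nat_lit 0x0) (nat_lit 0x138001c0000000000000000000000000000000000) := T_11 (nat_lit 140) (nat_lit 160) (nat_lit 3) (nat_lit 4) (nat_lit 8) L62743 (by decide +kernel)
theorem L62745 : W_11 (nat_lit 5) (nat_lit 0x200000001e000b0000000000000000000000000000000) (nat_lit 0x0) (nat_lit 0x738001c0000000000000000000000000000000000) := T_11 (nat_lit 161) (nat_lit 162) (nat_lit 3) (nat_lit 5) (nat_lit 8) L62744 (by decide +kernel)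
theorem L62746 : W_11 (nat_lit 6) (nat_lit 0x2000000016000b0000000000000000000000000000000) (nat_lit 0x0) (nat_lit 0x738009c0008000000000000000000000000000000) := T_11 (nat_lit 143) (nat_lit 123) (nat_lit 0) (nat_lit 8) (nat_lit 8) L62745 (by decide +kernel)
theorem L62747 : W_11 (nat_lit 2) (nat_lit 0x2000000016000f0000800000000000000000000000000) (nat_lit 0x0) (nat_lit 0x100008000000000000000040000000000000000000000) := D_11 (nat_lit 159) (nat_lit 176) (nat_lit 90) (nat_lit 4) (nat_lit 6) (nat_lit 10) (nat_lit 7) (nat_lit 5) (nat_lit 5) (by decide +kernel)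
theorem L62748 : W_11 (nat_lit 3) (nat_lit 0x2000000016000f0000000000000000000000000000000) (nat_lit 0x0) (nat_lit 0x100008000000000000c00040000000000000000000000) := T_11 (nat_lit 107) (nat_lit 106) (nat_lit 0) (nat_lit 8) (nat_lit 7) L62747 (by decide +kernel)
theorem L62749 : W_11 (nat_lit 4) (nat_lit 0x2000000016000b0000000000000000000000000000000) (nat_lit 0x0) (nat_lit 0x100008000100040000c00040000000000000000000000) := T_11 (nat_lit 126) (nat_lit 140) (nat_lit 1) (nat_lit 8) (nat_lit 7) L62748 (by decide +kernel)
theorem L62750 : W_11 (nat_lit 2) (nat_lit 0x2000080016800bc001000000000000000000000000000) (nat_lit 0x0) (nat_lit 0x100000000000000000800040000000000000000000000) := D_11 (nat_lit 107) (nat_lit 90) (nat_lit 176) (nat_lit 7) (nat_lit 5) (nat_lit 5) (nat_lit 4) (nat_lit 6) (nat_lit 10) (by decide +kernel)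
theorem L62751 : W_11 (nat_lit 3) (nat_lit 0x2000000016800bc001000000000000000000000000000) (nat_lit 0x0) (nat_lit 0x100018000000000000800040000000000000000000000) := T_11 (nat_lit 159) (nat_lit 160) (nat_lit 7) (nat_lit 6) (nat_lit 6) L62750 (by decide +kernel)
theorem L62752 : W_11 (nat_lit 4) (nat_lit 0x2000000016000bc001000000000000000000000000000) (nat_lit 0x0) (nat_lit 0x1000180000c0000000800040000000000000000000000) := T_11 (nat_lit 139) (nat_lit 138) (nat_lit 1) (nat_lit 6) (nat_lit 7) L62751 (by decide +kernel)
theorem L62753 : W_11 (nat_lit 5) (nat_lit 0x2000000016000bc000000000000000000000000000000) (nat_lit 0x0) (nat_lit 0x1000180000c0000003800040000000000000000000000) := T_11 (nat_lit 108) (nat_lit 109) (nat_lit 2) (nat_lit 3) (nat_lit 7) L62752 (by decide +kernel)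
theorem L62754 : W_11 (nat_lit 6) (nat_lit 0x2000000016000b8000000000000000000000000000000) (nat_lit 0x0) (nat_lit 0x1000180000c0006003800040000000000000000000000) := T_11 (nat_lit 122) (nat_lit 121) (nat_lit 3) (nat_lit 2) (nat_lit 7) L62753 (by decide +kernel)
theorem L62755 : W_11 (nat_lit 7) (nat_lit 0x2000000016000b0000000000000000000000000000000) (nat_lit 0x0) (nat_lit 0x1000180008c000e003800040000000000000000000000) := T_11 (nat_lit 123) (nat_lit 143) (nat_lit 0) (nat_lit 8) (nat_lit 8) L62754 (by decide +kernel)
theorem L62756 : W_11 (nat_lit 8) (nat_lit 0x2000000016000a0000000000000000000000000000000) (nat_lit 0x0) (nat_lit 0x10007b8009c005e003c00040000000000000000000000) := Q_11 (nat_lit 124) (C_11 L62746 (C_11 L62749 (C_11 L62755 N_11))) (by decide +kernel)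
theorem L62757 : W_11 (nat_lit 2) (nat_lit 0x280024001f000a8000000000000000000000000000000) (nat_lit 0x0) (nat_lit 0x8000000000001000080000000000000000000000) := D_11 (nat_lit 108) (nat_lit 91) (nat_lit 159) (nat_lit 5) (nat_lit 6) (nat_lit 5) (nat_lit 5) (nat_lit 6) (nat_lit 6) (by decide +kernel)
theorem L62758 : W_11 (nat_lit 3) (nat_lit 0x200024001f000a8000000000000000000000000000000) (nat_lit 0x0) (nat_lit 0x1000080008000000000001000080000000000000000000000) := T_11 (nat_lit 175) (nat_lit 192) (nat_lit 6) (nat_lit 5) (nat_lit 11) L62757 (by decide +kernel)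
theorem L62759 : W_11 (nat_lit 4) (nat_lit 0x200024001f000a0000000000000000000000000000000) (nat_lit 0x0) (nat_lit 0x100008000800000000c001000080000000000000000000000) := T_11 (nat_lit 123) (nat_lit 122) (nat_lit 0) (nat_lit 7) (nat_lit 8) L62758 (by decide +kernel)
theorem L62760 : W_11 (nat_lit 5) (nat_lit 0x200024001e000a0000000000000000000000000000000) (nat_lit 0x0) (nat_lit 0x100008001800010000c001000080000000000000000000000) := T_11 (nat_lit 140) (nat_lit 160) (nat_lit 3) (nat_lit 4) (nat_lit 8) L62759 (by decide +kernel)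
theorem L62761 : W_11 (nat_lit 6) (nat_lit 0x200004001e000a0000000000000000000000000000000) (nat_lit 0x0) (nat_lit 0x100008007800010000c001000080000000000000000000000) := T_11 (nat_lit 161) (nat_lit 162) (nat_lit 3) (nat_lit 5) (nat_lit 8) L62760 (by decide +kernel)
theorem L62762 : W_11 (nat_lit 7) (nat_lit 0x200000001e000a0000000000000000000000000000000) (nat_lit 0x0) (nat_lit 0x100008007e00010000c001000080000000000000000000000) := T_11 (nat_lit 158) (nat_lit 157) (nat_lit 1) (nat_lit 8) (nat_lit 8) L62761 (by decide +kernel)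
theorem L62763 : W_11 (nat_lit 2) (nat_lit 0x200020001e000a0000000000000000000000000000000) (nat_lit 0x0) (nat_lit 0x10000100040000000000000000000000000000000) := D_11 (nat_lit 140) (nat_lit 160) (nat_lit 126) (nat_lit 3) (nat_lit 4) (nat_lit 8) (nat_lit 2) (nat_lit 4) (nat_lit 8) (by decide +kernel)
theorem L62764 : W_11 (nat_lit 3) (nat_lit 0x200000001e000a0000000000000000000000000000000) (nat_lit 0x0) (nat_lit 0x70000100040000000000000000000000000000000) := T_11 (nat_lit 161) (nat_lit 162) (nat_lit 3) (nat_lit 5) (nat_lit 8) L62763 (by decide +kernel)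
theorem L62770 : W_11 (nat_lit 2) (nat_lit 0x280004001f000a8000000000000000000000000000000) (nat_lit 0x0) (nat_lit 0x8000000000001000080000000000000000000000) := D_11 (nat_lit 108) (nat_lit 91) (nat_lit 159) (nat_lit 5) (nat_lit 6) (nat_lit 5) (nat_lit 5) (nat_lit 6) (nat_lit 6) (by decide +kernel)
theorem L62771 : W_11 (nat_lit 3) (nat_lit 0x200004001f000a8000000000000000000000000000000) (nat_lit 0x0) (nat_lit 0x1000080008000000000001000080000000000000000000000) := T_11 (nat_lit 175) (nat_lit 192) (nat_lit 6) (nat_lit 5) (nat_lit 11) L62770 (by decide +kernel)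
theorem L62772 : W_11 (nat_lit 4) (nat_lit 0x200004001f000a0000000000000000000000000000000) (nat_lit 0x0) (nat_lit 0x100008000800000000c001000080000000000000000000000) := T_11 (nat_lit 123) (nat_lit 122) (nat_lit 0) (nat_lit 7) (nat_lit 8) L62771 (by decide +kernel)
theorem L62773 : W_11 (nat_lit 5) (nat_lit 0x200004001e000a0000000000000000000000000000000) (nat_lit 0x0) (nat_lit 0x100008000800010004c001000080000000000000000000000) := T_11 (nat_lit 140) (nat_lit 126) (nat_lit 2) (nat_lit 4) (nat_lit 8) L62772 (by decide +kernel)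
theorem L62774 : W_11 (nat_lit 6) (nat_lit 0x200000001e000a0000000000000000000000000000000) (nat_lit 0x0) (nat_lit 0x100008000e00010004c001000080000000000000000000000) := T_11 (nat_lit 158) (nat_lit 157) (nat_lit 1) (nat_lit 8) (nat_lit 8) L62773 (by decide +kernel)
theorem L62775 : W_11 (nat_lit 8) (nat_lit 0x2000000016000a0000000000000000000000000000000) (nat_lit 0x0) (nat_lit 0x100008007e00090004c001000080000000000000000000000) := Q_11 (nat_lit 143) (C_11 L62762 (C_11 L62764 (C_11 L62769 (C_11 L62774 N_11)))) (by decide +kernel)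
theorem L62776 : W_11 (nat_lit 2) (nat_lit 0x30000c0016000a0003000000000000000000000000000) (nat_lit 0x0) (nat_lit 0x40002000000000000000010000000000000000000000000000000) := D_11 (nat_lit 193) (nat_lit 210) (nat_lit 124) (nat_lit 4) (nat_lit 6) (nat_lit 12) (nat_lit 4) (nat_lit 6) (nat_lit 11) (by decide +kernel)
theorem L62777 : W_11 (nat_lit 3) (nat_lit 0x20000c0016000a0003000000000000000000000000000) (nat_lit 0x0) (nat_lit 0x40002000100000000000050000000000000000000000000000000) := T_11 (nat_lit 176) (nat_lit 126) (nat_lit 6) (nat_lit 6) (nat_lit 10) L62776 (by decide +kernel)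
theorem L62778 : W_11 (nat_lit 4) (nat_lit 0x2000080016000a0003000000000000000000000000000) (nat_lit 0x0) (nat_lit 0x40002000180004000000050000000000000000000000000000000) := T_11 (nat_lit 158) (nat_lit 175) (nat_lit 5) (nat_lit 6) (nat_lit 6) L62777 (by decide +kernel)
theorem L62779 : W_11 (nat_lit 5) (nat_lit 0x2000080016000a0001000000000000000000000000000) (nat_lit 0x0) (nat_lit 0x40002000180004000000050002000100000000000000000000000) := T_11 (nat_lit 109) (nat_lit 92) (nat_lit 6) (nat_lit 6) (nat_lit 9) L62778 (by decide +kernel)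
theorem L62780 : W_11 (nat_lit 6) (nat_lit 0x2000000016000a0001000000000000000000000000000) (nat_lit 0x0) (nat_lit 0x4000200018001c000000050002000100000000000000000000000) := T_11 (nat_lit 159) (nat_lit 160) (nat_lit 7) (nat_lit 6) (nat_lit 6) L62779 (by decide +kernel)
theorem L62781 : W_11 (nat_lit 7) (nat_lit 0x2000000016000a0000000000000000000000000000000) (nat_lit 0x0) (nat_lit 0x4000200018001c0000000500038001c000e000100000000000000) := Q_11 (nat_lit 108) (C_11 L62622 (C_11 L62703 (C_11 L62618 (C_11 L62780 N_11)))) (by decide +kernel)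
theorem L62782 : W_11 (nat_lit 6) (nat_lit 0x200000001e000a0000000000000000000000000000000) (nat_lit 0x0) (nat_lit 0x738001c0018000000000000000000000000000000) := T_11 (nat_lit 124) (nat_lit 123) (nat_lit 0) (nat_lit 8) (nat_lit 8) L62745 (by decide +kernel)
theorem L62783 : W_11 (nat_lit 2) (nat_lit 0x2c0024001e000b0000000000000000000000000000000) (nat_lit 0x0) (nat_lit 0x2000100010000000000000000000000000000000000000000) := D_11 (nat_lit 176) (nat_lit 160) (nat_lit 193) (nat_lit 2) (nat_lit 4) (nat_lit 10) (nat_lit 7) (nat_lit 5) (nat_lit 7) (by decide +kernel)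
theorem L62784 : W_11 (nat_lit 3) (nat_lit 0x280024001e000b0000000000000000000000000000000) (nat_lit 0x0) (nat_lit 0x2800140010000000000000000000000000000000000000000) := T_11 (nat_lit 174) (nat_lit 191) (nat_lit 5) (nat_lit 5) (nat_lit 7) L62783 (by decide +kernel)
theorem L62785 : W_11 (nat_lit 4) (nat_lit 0x200024001e000b0000000000000000000000000000000) (nat_lit 0x0) (nat_lit 0x38001c0010000000000000000000000000000000000000000) := T_11 (nat_lit 175) (nat_lit 192) (nat_lit 6) (nat_lit 5) (nat_lit 11) L62784 (by decide +kernel)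
theorem L62786 : W_11 (nat_lit 5) (nat_lit 0x200020001e000b0000000000000000000000000000000) (nat_lit 0x0) (nat_lit 0x38001c0016000000000000000000000000000000000000000) := T_11 (nat_lit 158) (nat_lit 157) (nat_lit 1) (nat_lit 8) (nat_lit 8) L62785 (by decide +kernel)
theorem L62787 : W_11 (nat_lit 6) (nat_lit 0x200020001e000a0000000000000000000000000000000) (nat_lit 0x0) (nat_lit 0x38001c0016000000018000000000000000000000000000000) := T_11 (nat_lit 124) (nat_lit 123) (nat_lit 0) (nat_lit 8) (nat_lit 8) L62786 (by decide +kernel)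
theorem L62788 : W_11 (nat_lit 7) (nat_lit 0x200000001e000a0000000000000000000000000000000) (nat_lit 0x0) (nat_lit 0x38001c0076000000018000000000000000000000000000000) := T_11 (nat_lit 161) (nat_lit 162) (nat_lit 3) (nat_lit 5) (nat_lit 8) L62787 (by decide +kernel)
theorem L62789 : W_11 (nat_lit 2) (nat_lit 0x200004001f000a0000000000000000000000000000000) (nat_lit 0x0) (nat_lit 0x1c000000000000000000000000000000) := D_11 (nat_lit 123) (nat_lit 122) (nat_lit 124) (nat_lit 0) (nat_lit 7) (nat_lit 8) (nat_lit 0) (nat_lit 8) (nat_lit 8) (by decide +kernel)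
theorem L62790 : W_11 (nat_lit 3) (nat_lit 0x200004001e000a0000000000000000000000000000000) (nat_lit 0x0) (nat_lit 0x10005c000000000000000000000000000000) := T_11 (nat_lit 140) (nat_lit 126) (nat_lit 2) (nat_lit 4) (nat_lit 8) L62789 (by decide +kernel)
theorem L62791 : W_11 (nat_lit 4) (nat_lit 0x200000001e000a0000000000000000000000000000000) (nat_lit 0x0) (nat_lit 0x600010005c000000000000000000000000000000) := T_11 (nat_lit 158) (nat_lit 157) (nat_lit 1) (nat_lit 8) (nat_lit 8) L62790 (by decide +kernel)
theorem L62792 : W_11 (nat_lit 8) (nat_lit 0x2000000016000a0000000000000000000000000000000) (nat_lit 0x0) (nat_lit 0x38001c00778009c005c000000000000000000000000000000) := Q_11 (nat_lit 143) (C_11 L62782 (C_11 L62764 (C_11 L62788 (C_11 L62791 N_11)))) (by decide +kernel)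
theorem L62793 : W_11 (nat_lit 4) (nat_lit 0x2000000016000b0000000000000000000000000000000) (nat_lit 0x0) (nat_lit 0x80006000800008001000080000000000000000000000) := T_11 (nat_lit 143) (nat_lit 123) (nat_lit 0) (nat_lit 8) (nat_lit 8) L31866 (by decide +kernel)
theorem L62794 : W_11 (nat_lit 5) (nat_lit 0x2000000016000a0000000000000000000000000000000) (nat_lit 0x0) (nat_lit 0x18000e000900058001c000c0000000000000000000000) := Q_11 (nat_lit 124) (C_11 L62793 (C_11 L62749 N_11)) (by decide +kernel)
theorem L62795 : W_11 (nat_lit 14) (nat_lit 0x200000001600080000000000000000000000000000000) (nat_lit 0x0) (nat_lit 0x400038001f007f8009c007e003f001e000e000100000000000000) := Q_11 (nat_lit 125) (C_11 L62715 (C_11 L62740 (C_11 L62756 (C_11 L62775 (C_11 L62781 (C_11 L62792 (C_11 L62794 N_11))))))) (by decide +kernel)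
theorem L62796 : W_11 (nat_lit 15) (nat_lit 0x200000001200080000000000000000000000000000000) (nat_lit 0x0) (nat_lit 0x400038001f007f800dc017e003f001f000e000700018000400000) := Q_11 (nat_lit 142) (C_11 L62719 (C_11 L61613 (C_11 L62724 (C_11 L61614 (C_11 L62741 (C_11 L62795 N_11)))))) (by decide +kernel)
end Crest.Agent.Helper32.Snaky.R1_0
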