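import Crest.Agent.Helper32.Snaky.Gen.R1_0_p3
set_option autoImplicit false
set_option maxRecDepth 100000
set_option linter.all false
set_option Elab.async false
namespace Crest.Agent.Helper32.Snaky.R1_0
@[reducible] def W_12 (d M Bz Z : Nat) : Prop := Crest.Agent.Helper32.Snaky.Wins (nat_lit 17) d M Bz Z
theorem D_12 {d M Bz Z : Nat} (m t1 t2 o1 x1 y1 o2 x2 y2 : Nat) (h : Crest.Agent.Helper32.Snaky.chkDoubleC (nat_lit 17) d M Bz Z m t1 t2 o1 x1 y1 o2 x2 y2 = true) : W_12 d M Bz Z := Crest.Agent.Helper32.Snaky.doubleC m t1 t2 o1 x1 y1 o2 x2 y2 h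
theorem T_12 {d M Bz Z cd cM cBz cZ : Nat} (m t o x y : Nat) (child : W_12 cd cM cBz cZ) (h : Crest.Agent.Helper32.Snaky.chkThreatC (nat_lit 17) d M Bz Z cd cM cBz cZ m t o x y = true) : W_12 d M Bz Z := Crest.Agent.Helper32.Snaky.threatC m t o x y child h
theorem Q_12 {d M Bz Z : Nat} (m : Nat) {l : List Crest.Agent.Helper32.Snaky.Spec} (kids : Crest.Agent.Helper32.Snaky.AllWins (nat_lit 17) l) (h : Crest.Agent.Helper32.Snaky.chkQuiet d M Bz Z m l = true) : W_12 d M Bz Z := Crest.Agent.Helper32.Snaky.quiet m kids h
theorem C_12 {cd cM cBz cZ : Nat} {l : List Crest.Agent.Helper32.Snaky.Spec} (h : W_12 cd cM cBz cZ) (hl : Crest.Agent.Helper32.Snaky.AllWins (nat_lit 17) l) : Crest.Agent.Helper32.Snaky.AllWins (nat_lit 17) ((cd, cM, cBz, cZ) :: l) := Crest.Agent.Helper32.Snaky.AllWins.cons h hl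
theorem N_12 : Crest.Agent.Helper32.Snaky.AllWins (nat_lit 17) [] := Crest.Agent.Helper32.Snaky.AllWins.nil
theorem L31809 : W_12 (nat_lit 2) (nat_lit 0x30003c001a000c0000000000000000000000000000000) (nat_lit 0x0) (nat_lit 0xc0040000000000000000000000000000000000000000) := D_12 (nat_lit 175) (nat_lit 174) (nat_lit 162) (nat_lit 2) (nat_lit 4) (nat_lit 10) (nat_lit 1) (nat_lit 9) (nat_lit 9) (by decide +kernel)
theorem L31810 : W_12 (nat_lit 3) (nat_lit 0x30001c001a000c0000000000000000000000000000000) (nat_lit 0x0) (nat_lit 0xc0060000100000000000000000000000000000000000) := T_12 (nat_lit 161) (nat_lit 140) (nat_lit 0) (nat_lit 8) (nat_lit 9) L31809 (by decide +kernel)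
theorem L31811 : W_12 (nat_lit 4) (nat_lit 0x300018001a000c0000000000000000000000000000000) (nat_lit 0x0) (nat_lit 0xc0066000100000000000000000000000000000000000) := T_12 (nat_lit 158) (nat_lit 157) (nat_lit 2) (nat_lit 4) (nat_lit 9) L31810 (by decide +kernel)
theorem L31812 : W_12 (nat_lit 5) (nat_lit 0x300010001a000c0000000000000000000000000000000) (nat_lit 0x0) (nat_lit 0xc006e000100000002000000000000000000000000000) := T_12 (nat_lit 159) (nat_lit 109) (nat_lit 5) (nat_lit 7) (nat_lit 6) L31811 (by decide +kernel)
theorem L31813 : W_12 (nat_lit 6) (nat_lit 0x200010001a000c0000000000000000000000000000000) (nat_lit 0x0) (nat_lit 0x20001c006e000100000002000000000000000000000000000) := T_12 (nat_lit 176) (nat_lit 193) (nat_lit 5) (nat_lit 7) (nat_lit 7) L31812 (by decide +kernel)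
theorem L31817 : W_12 (nat_lit 7) (nat_lit 0x200010001a00080000000000000000000000000000000) (nat_lit 0x0) (nat_lit 0x20001c006e000100078003000080000000000000000000000) := Q_12 (nat_lit 126) (C_12 L31808 (C_12 L31813 (C_12 L31816 N_12))) (by decide +kernel)
theorem L31818 : W_12 (nat_lit 8) (nat_lit 0x200000001a00080000000000000000000000000000000) (nat_lit 0x0) (nat_lit 0x60001c007e000100078003000080000000000000000000000) := T_12 (nat_lit 160) (nat_lit 194) (nat_lit 6) (nat_lit 7) (nat_lit 11) L31817 (by decide +kernel)
theorem L31840 : W_12 (nat_lit 2) (nat_lit 0x300018001a000d0000000000000000000000000000000) (nat_lit 0x0) (nat_lit 0x6000000000000800000000000000000000000000) := D_12 (nat_lit 158) (nat_lit 157) (nat_lit 107) (nat_lit 2) (nat_lit 4) (nat_lit 9) (nat_lit 7) (nat_lit 5) (nat_lit 6) (by decide +kernel)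
theorem L31841 : W_12 (nat_lit 3) (nat_lit 0x300010001a000d0000000000000000000000000000000) (nat_lit 0x0) (nat_lit 0xe000000000002800000000000000000000000000) := T_12 (nat_lit 159) (nat_lit 109) (nat_lit 5) (nat_lit 7) (nat_lit 6) L31840 (by decide +kernel)
theorem L31842 : W_12 (nat_lit 4) (nat_lit 0x200010001a000d0000000000000000000000000000000) (nat_lit 0x0) (nat_lit 0x200010000e000000000002800000000000000000000000000) := T_12 (nat_lit 176) (nat_lit 193) (nat_lit 5) (nat_lit 7) (nat_lit 7) L31841 (by decide +kernel)
theorem L31843 : W_12 (nat_lit 5) (nat_lit 0x200000001a000d0000000000000000000000000000000) (nat_lit 0x0) (nat_lit 0x600010001e000000000002800000000000000000000000000) := T_12 (nat_lit 160) (nat_lit 194) (nat_lit 6) (nat_lit 7) (nat_lit 11) L31842 (by decide +kernel)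
theorem L31849 : W_12 (nat_lit 2) (nat_lit 0x38001c001a000d8000000000000000000000000000000) (nat_lit 0x0) (nat_lit 0x60020000000000000000000000000000000000000000) := D_12 (nat_lit 174) (nat_lit 161) (nat_lit 173) (nat_lit 2) (nat_lit 4) (nat_lit 10) (nat_lit 2) (nat_lit 3) (nat_lit 10) (by decide +kernel)
theorem L31850 : W_12 (nat_lit 3) (nat_lit 0x30001c001a000d8000000000000000000000000000000) (nat_lit 0x0) (nat_lit 0xe0020000000000000400000000000000000000000000) := T_12 (nat_lit 175) (nat_lit 106) (nat_lit 4) (nat_lit 5) (nat_lit 10) L31849 (by decide +kernel)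
theorem L31851 : W_12 (nat_lit 4) (nat_lit 0x300018001a000d8000000000000000000000000000000) (nat_lit 0x0) (nat_lit 0xe0026000000000000400000000000000000000000000) := T_12 (nat_lit 158) (nat_lit 157) (nat_lit 2) (nat_lit 4) (nat_lit 9) L31850 (by decide +kernel)
theorem L31852 : W_12 (nat_lit 5) (nat_lit 0x300010001a000d8000000000000000000000000000000) (nat_lit 0x0) (nat_lit 0xe002e000000000002400000000000000000000000000) := T_12 (nat_lit 159) (nat_lit 109) (nat_lit 5) (nat_lit 7) (nat_lit 6) L31851 (by decide +kernel)
theorem L31853 : W_12 (nat_lit 6) (nat_lit 0x200010001a000d8000000000000000000000000000000) (nat_lit 0x0) (nat_lit 0x20001e002e000000000002400000000000000000000000000) := T_12 (nat_lit 176) (nat_lit 193) (nat_lit 5) (nat_lit 7) (nat_lit 7) L31852 (by decide +kernel)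
theorem L31854 : W_12 (nat_lit 7) (nat_lit 0x200000001a000d8000000000000000000000000000000) (nat_lit 0x0) (nat_lit 0x60001e003e000000000002400000000000000000000000000) := T_12 (nat_lit 160) (nat_lit 194) (nat_lit 6) (nat_lit 7) (nat_lit 11) L31853 (by decide +kernel)
theorem L31855 : W_12 (nat_lit 8) (nat_lit 0x200000001a000d0000000000000000000000000000000) (nat_lit 0x0) (nat_lit 0x60001e003e000000028002400000000000000000000000000) := T_12 (nat_lit 123) (nat_lit 125) (nat_lit 3) (nat_lit 4) (nat_lit 7) L31854 (by decide +kernel)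
theorem L31856 : W_12 (nat_lit 9) (nat_lit 0x200000001a00090000000000000000000000000000000) (nat_lit 0x0) (nat_lit 0x60001e003e00000076803bc00000000000000000000000000) := Q_12 (nat_lit 126) (C_12 L31839 (C_12 L31843 (C_12 L31848 (C_12 L31855 N_12)))) (by decide +kernel)
theorem L31857 : W_12 (nat_lit 7) (nat_lit 0x200010001a00098000000000000000000000000000000) (nat_lit 0x0) (nat_lit 0x20001e002e000000060002400000000000000000000000000) := T_12 (nat_lit 126) (nat_lit 125) (nat_lit 3) (nat_lit 4) (nat_lit 7) L31853 (by decide +kernel)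
theorem L31858 : W_12 (nat_lit 8) (nat_lit 0x200010001a00090000000000000000000000000000000) (nat_lit 0x0) (nat_lit 0x20001e002e000400068002400000000000000000000000000) := T_12 (nat_lit 123) (nat_lit 142) (nat_lit 0) (nat_lit 8) (nat_lit 8) L31857 (by decide +kernel)
theorem L31859 : W_12 (nat_lit 9) (nat_lit 0x200000001a00090000000000000000000000000000000) (nat_lit 0x0) (nat_lit 0x60001e003e000400068002400000000000000000000000000) := T_12 (nat_lit 160) (nat_lit 194) (nat_lit 6) (nat_lit 7) (nat_lit 11) L31858 (by decide +kernel)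
theorem L31863 : W_12 (nat_lit 5) (nat_lit 0x200010001a000b0000000000000000000000000000000) (nat_lit 0x0) (nat_lit 0x200010000c000000040003c00000000000000000000000000) := T_12 (nat_lit 126) (nat_lit 108) (nat_lit 4) (nat_lit 7) (nat_lit 10) L31862 (by decide +kernel)
theorem L31864 : W_12 (nat_lit 6) (nat_lit 0x200000001a000b0000000000000000000000000000000) (nat_lit 0x0) (nat_lit 0x600010001c000000040003c00000000000000000000000000) := T_12 (nat_lit 160) (nat_lit 194) (nat_lit 6) (nat_lit 7) (nat_lit 11) L31863 (by decide +kernel)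
theorem L31867 : W_12 (nat_lit 4) (nat_lit 0x200000001a000b0000000000000000000000000000000) (nat_lit 0x0) (nat_lit 0x80006000400100001000080000000000000000000000) := T_12 (nat_lit 142) (nat_lit 128) (nat_lit 2) (nat_lit 5) (nat_lit 8) L31866 (by decide +kernel)
theorem L31871 : W_12 (nat_lit 5) (nat_lit 0x1000200024001e000b0000000000000000000000000000000) (nat_lit 0x0) (nat_lit 0x4000100018000000040000c00060000000000000000000000) := T_12 (nat_lit 194) (nat_lit 160) (nat_lit 6) (nat_lit 7) (nat_lit 11) L31870 (by decide +kernel)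
theorem L31872 : W_12 (nat_lit 6) (nat_lit 0x200024001e000b0000000000000000000000000000000) (nat_lit 0x0) (nat_lit 0x5000180018000000040000c00060000000000000000000000) := T_12 (nat_lit 192) (nat_lit 175) (nat_lit 6) (nat_lit 5) (nat_lit 11) L31871 (by decide +kernel)
theorem L31873 : W_12 (nat_lit 7) (nat_lit 0x200004001e000b0000000000000000000000000000000) (nat_lit 0x0) (nat_lit 0x5000180078000000040000c00060000000000000000000000) := T_12 (nat_lit 161) (nat_lit 162) (nat_lit 3) (nat_lit 5) (nat_lit 8) L31872 (by decide +kernel)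
theorem L31874 : W_12 (nat_lit 8) (nat_lit 0x200000001e000b0000000000000000000000000000000) (nat_lit 0x0) (nat_lit 0x500018007e000000040000c00060000000000000000000000) := T_12 (nat_lit 158) (nat_lit 157) (nat_lit 1) (nat_lit 8) (nat_lit 8) L31873 (by decide +kernel)
theorem L31875 : W_12 (nat_lit 9) (nat_lit 0x200000001a000b0000000000000000000000000000000) (nat_lit 0x0) (nat_lit 0x500018007e000400140000c00060000000000000000000000) := T_12 (nat_lit 142) (nat_lit 128) (nat_lit 2) (nat_lit 5) (nat_lit 8) L31874 (by decide +kernel)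
theorem L31879 : W_12 (nat_lit 10) (nat_lit 0x200000001a00090000000000000000000000000000000) (nat_lit 0x0) (nat_lit 0x700018007e000400160003c000e0000000000000000000000) := Q_12 (nat_lit 125) (C_12 L31864 (C_12 L31867 (C_12 L31875 (C_12 L31878 N_12)))) (by decide +kernel)
theorem L31880 : W_12 (nat_lit 11) (nat_lit 0x200000001a00080000000000000000000000000000000) (nat_lit 0x0) (nat_lit 0x70001e007e00040077803bc000e0000000000000000000000) := Q_12 (nat_lit 124) (C_12 L31833 (C_12 L31856 (C_12 L31859 (C_12 L31879 N_12)))) (by decide +kernel)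
theorem L31881 : W_12 (nat_lit 12) (nat_lit 0x200000001200080000000000000000000000000000000) (nat_lit 0x0) (nat_lit 0x70001e007f000d0077c03bc000e0000000000000000000000) := Q_12 (nat_lit 143) (C_12 L31818 (C_12 L31822 (C_12 L31825 (C_12 L31829 (C_12 L31832 (C_12 L31880 N_12)))))) (by decide +kernel)
theorem L31904 : W_12 (nat_lit 5) (nat_lit 0x2000060013000b0000e00000000000000000000000000) (nat_lit 0x0) (nat_lit 0x200018004e0008000000010000000000000000000000) := T_12 (nat_lit 138) (nat_lit 139) (nat_lit 2) (nat_lit 2) (nat_lit 8) L31903 (by decide +kernel)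
theorem L31905 : W_12 (nat_lit 6) (nat_lit 0x2000060013000b0000c00000000000000000000000000) (nat_lit 0x0) (nat_lit 0x200018004e0008000300010000000000000000000000) := T_12 (nat_lit 105) (nat_lit 104) (nat_lit 3) (nat_lit 2) (nat_lit 6) L31904 (by decide +kernel)
theorem L31906 : W_12 (nat_lit 7) (nat_lit 0x2000040013000b0000c00000000000000000000000000) (nat_lit 0x0) (nat_lit 0x600038004e0008000300010000000000000000000000) := T_12 (nat_lit 157) (nat_lit 174) (nat_lit 5) (nat_lit 5) (nat_lit 6) L31905 (by decide +kernel)
theorem L31907 : W_12 (nat_lit 8) (nat_lit 0x200004001300090000c00000000000000000000000000) (nat_lit 0x0) (nat_lit 0x600038004e0068000300010000000000000000000000) := T_12 (nat_lit 125) (nat_lit 126) (nat_lit 1) (nat_lit 8) (nat_lit 7) L31906 (by decide +kernel)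
theorem L31908 : W_12 (nat_lit 9) (nat_lit 0x200004001300090000800000000000000000000000000) (nat_lit 0x0) (nat_lit 0x600038004e0068000700030000000000000000000000) := T_12 (nat_lit 106) (nat_lit 89) (nat_lit 4) (nat_lit 5) (nat_lit 9) L31907 (by decide +kernel)
theorem L31911 : W_12 (nat_lit 4) (nat_lit 0x200004001300090000c00000000000000000000000000) (nat_lit 0x0) (nat_lit 0x14001a0000c0000000000000000000000000000000000) := T_12 (nat_lit 157) (nat_lit 174) (nat_lit 5) (nat_lit 5) (nat_lit 6) L31910 (by decide +kernel)
theorem L31912 : W_12 (nat_lit 5) (nat_lit 0x200004001300090000800000000000000000000000000) (nat_lit 0x0) (nat_lit 0x14001a0000c0000000400020000000000000000000000) := T_12 (nat_lit 106) (nat_lit 89) (nat_lit 4) (nat_lit 5) (nat_lit 9) L31911 (by decide +kernel)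
theorem L31922 : W_12 (nat_lit 8) (nat_lit 0x2000040013000b0000c00000000000000000000000000) (nat_lit 0x0) (nat_lit 0x16003bc00400008000300010000000000000000000000) := T_12 (nat_lit 157) (nat_lit 174) (nat_lit 5) (nat_lit 5) (nat_lit 6) L31921 (by decide +kernel)
theorem L31923 : W_12 (nat_lit 9) (nat_lit 0x200004001300090000c00000000000000000000000000) (nat_lit 0x0) (nat_lit 0x16003bc00400068000300010000000000000000000000) := T_12 (nat_lit 125) (nat_lit 126) (nat_lit 1) (nat_lit 8) (nat_lit 7) L31922 (by decide +kernel)
theorem L31924 : W_12 (nat_lit 10) (nat_lit 0x200004001300090000800000000000000000000000000) (nat_lit 0x0) (nat_lit 0x16003bc00400068000700030000000000000000000000) := T_12 (nat_lit 106) (nat_lit 89) (nat_lit 4) (nat_lit 5) (nat_lit 9) L31923 (by decide +kernel)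
theorem L31925 : W_12 (nat_lit 11) (nat_lit 0x200004001200090000800000000000000000000000000) (nat_lit 0x0) (nat_lit 0x16003bc005e0068000700030000000000000000000000) := Q_12 (nat_lit 140) (C_12 L31908 (C_12 L31912 (C_12 L31915 (C_12 L31924 N_12)))) (by decide +kernel)
theorem L31926 : W_12 (nat_lit 2) (nat_lit 0x280006001200090000c00000000000000000000000000) (nat_lit 0x0) (nat_lit 0x2000100008000000000000000000000000000000000000000) := D_12 (nat_lit 176) (nat_lit 159) (nat_lit 193) (nat_lit 7) (nat_lit 5) (nat_lit 6) (nat_lit 7) (nat_lit 5) (nat_lit 7) (by decide +kernel)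
theorem L31927 : W_12 (nat_lit 3) (nat_lit 0x200006001200090000c00000000000000000000000000) (nat_lit 0x0) (nat_lit 0x2000180008000000008000000000000000000000000000000) := T_12 (nat_lit 175) (nat_lit 123) (nat_lit 4) (nat_lit 5) (nat_lit 10) L31926 (by decide +kernel)
theorem L31928 : W_12 (nat_lit 4) (nat_lit 0x200004001200090000c00000000000000000000000000) (nat_lit 0x0) (nat_lit 0x20001c000a000000008000000000000000000000000000000) := T_12 (nat_lit 157) (nat_lit 174) (nat_lit 5) (nat_lit 5) (nat_lit 6) L31927 (by decide +kernel)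
theorem L31929 : W_12 (nat_lit 5) (nat_lit 0x200004001200090000800000000000000000000000000) (nat_lit 0x0) (nat_lit 0x20001c000a000000008000400020000000000000000000000) := T_12 (nat_lit 106) (nat_lit 89) (nat_lit 4) (nat_lit 5) (nat_lit 9) L31928 (by decide +kernel)
theorem L31930 : W_12 (nat_lit 2) (nat_lit 0x400018002800060012000b0000d00000000000000000000000000) (nat_lit 0x0) (nat_lit 0x800020000000000000000100000000000000000000000000000000000) := D_12 (nat_lit 209) (nat_lit 140) (nat_lit 227) (nat_lit 4) (nat_lit 5) (nat_lit 12) (nat_lit 7) (nat_lit 5) (nat_lit 9) (by decide +kernel)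
theorem L31931 : W_12 (nat_lit 3) (nat_lit 0x18002800060012000b0000d00000000000000000000000000) (nat_lit 0x0) (nat_lit 0x800060002000000000000100000000000000000000000000000000000) := T_12 (nat_lit 210) (nat_lit 193) (nat_lit 7) (nat_lit 5) (nat_lit 8) L31930 (by decide +kernel)
theorem L31932 : W_12 (nat_lit 4) (nat_lit 0x10002800060012000b0000d00000000000000000000000000) (nat_lit 0x0) (nat_lit 0x800070002800000000000100000000000000000000000000000000000) := T_12 (nat_lit 191) (nat_lit 208) (nat_lit 5) (nat_lit 5) (nat_lit 8) L31931 (by decide +kernel)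
theorem L31933 : W_12 (nat_lit 5) (nat_lit 0x2800060012000b0000d00000000000000000000000000) (nat_lit 0x0) (nat_lit 0x800070003800000000000500000000000000000000000000000000000) := T_12 (nat_lit 192) (nat_lit 142) (nat_lit 6) (nat_lit 5) (nat_lit 11) L31932 (by decide +kernel)
theorem L31934 : W_12 (nat_lit 6) (nat_lit 0x2800060012000b0000c00000000000000000000000000) (nat_lit 0x0) (nat_lit 0x800070003800000000000500000000300000000000000000000000000) := T_12 (nat_lit 104) (nat_lit 105) (nat_lit 3) (nat_lit 2) (nat_lit 6) L31933 (by decide +kernel)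
theorem L31935 : W_12 (nat_lit 7) (nat_lit 0x2000060012000b0000c00000000000000000000000000) (nat_lit 0x0) (nat_lit 0x800070003800080000000500008000300000000000000000000000000) := T_12 (nat_lit 175) (nat_lit 123) (nat_lit 4) (nat_lit 5) (nat_lit 10) L31934 (by decide +kernel)
theorem L31936 : W_12 (nat_lit 8) (nat_lit 0x200006001200090000c00000000000000000000000000) (nat_lit 0x0) (nat_lit 0x800070003800080000000500068000300000000000000000000000000) := T_12 (nat_lit 125) (nat_lit 126) (nat_lit 0) (nat_lit 8) (nat_lit 7) L31935 (by decide +kernel)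
theorem L31937 : W_12 (nat_lit 9) (nat_lit 0x200006001200090000800000000000000000000000000) (nat_lit 0x0) (nat_lit 0x800070003800080000000500068000700020000000000000000000000) := T_12 (nat_lit 106) (nat_lit 89) (nat_lit 4) (nat_lit 5) (nat_lit 9) L31936 (by decide +kernel)
theorem L31938 : W_12 (nat_lit 10) (nat_lit 0x200004001200090000800000000000000000000000000) (nat_lit 0x0) (nat_lit 0x8000700038000c0002000500068000700020000000000000000000000) := T_12 (nat_lit 157) (nat_lit 174) (nat_lit 5) (nat_lit 5) (nat_lit 6) L31937 (by decide +kernel)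
theorem L31943 : W_12 (nat_lit 2) (nat_lit 0x100010003800068012000b0000c00000000000000000000000000) (nat_lit 0x0) (nat_lit 0x200020000000000000000100000000000000000000000000000000000) := D_12 (nat_lit 209) (nat_lit 140) (nat_lit 225) (nat_lit 4) (nat_lit 5) (nat_lit 12) (nat_lit 5) (nat_lit 5) (nat_lit 9) (by decide +kernel)
theorem L31944 : W_12 (nat_lit 3) (nat_lit 0x10003800068012000b0000c00000000000000000000000000) (nat_lit 0x0) (nat_lit 0x200030000800000000000100000000000000000000000000000000000) := T_12 (nat_lit 208) (nat_lit 191) (nat_lit 5) (nat_lit 5) (nat_lit 8) L31943 (by decide +kernel)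
theorem L31945 : W_12 (nat_lit 4) (nat_lit 0x3800068012000b0000c00000000000000000000000000) (nat_lit 0x0) (nat_lit 0x200030001800000000000500000000000000000000000000000000000) := T_12 (nat_lit 192) (nat_lit 142) (nat_lit 6) (nat_lit 5) (nat_lit 11) L31944 (by decide +kernel)
theorem L31946 : W_12 (nat_lit 5) (nat_lit 0x380006801200090000c00000000000000000000000000) (nat_lit 0x0) (nat_lit 0x200030001800000000000500060000000000000000000000000000000) := T_12 (nat_lit 125) (nat_lit 126) (nat_lit 0) (nat_lit 8) (nat_lit 7) L31945 (by decide +kernel)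
theorem L31947 : W_12 (nat_lit 6) (nat_lit 0x380006801200090000800000000000000000000000000) (nat_lit 0x0) (nat_lit 0x200030001800000000000500060000400020000000000000000000000) := T_12 (nat_lit 106) (nat_lit 89) (nat_lit 4) (nat_lit 5) (nat_lit 9) L31946 (by decide +kernel)
theorem L31948 : W_12 (nat_lit 7) (nat_lit 0x380006001200090000800000000000000000000000000) (nat_lit 0x0) (nat_lit 0x200030001800000001800500060000400020000000000000000000000) := T_12 (nat_lit 155) (nat_lit 156) (nat_lit 3) (nat_lit 2) (nat_lit 9) L31947 (by decide +kernel)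
theorem L31949 : W_12 (nat_lit 8) (nat_lit 0x300006001200090000800000000000000000000000000) (nat_lit 0x0) (nat_lit 0x200030003800080001800500060000400020000000000000000000000) := T_12 (nat_lit 175) (nat_lit 193) (nat_lit 7) (nat_lit 5) (nat_lit 7) L31948 (by decide +kernel)
theorem L31950 : W_12 (nat_lit 9) (nat_lit 0x300004001200090000800000000000000000000000000) (nat_lit 0x0) (nat_lit 0x2000300038000c0003800500060000400020000000000000000000000) := T_12 (nat_lit 157) (nat_lit 174) (nat_lit 5) (nat_lit 5) (nat_lit 6) L31949 (by decide +kernel)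
theorem L31951 : W_12 (nat_lit 10) (nat_lit 0x200004001200090000800000000000000000000000000) (nat_lit 0x0) (nat_lit 0x2000300038001c000b800500060000400020000000000000000000000) := T_12 (nat_lit 176) (nat_lit 159) (nat_lit 7) (nat_lit 5) (nat_lit 6) L31950 (by decide +kernel)
theorem L31952 : W_12 (nat_lit 2) (nat_lit 0x340004001200090000800000000000000000000000000) (nat_lit 0x0) (nat_lit 0x2800080000000000000000000000000000000000000000000) := D_12 (nat_lit 175) (nat_lit 191) (nat_lit 193) (nat_lit 5) (nat_lit 5) (nat_lit 7) (nat_lit 7) (nat_lit 5) (nat_lit 7) (by decide +kernel)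
theorem L31953 : W_12 (nat_lit 3) (nat_lit 0x240004001200090000800000000000000000000000000) (nat_lit 0x0) (nat_lit 0x2800180008000000000000000000000000000000000000000) := T_12 (nat_lit 176) (nat_lit 159) (nat_lit 7) (nat_lit 5) (nat_lit 6) L31952 (by decide +kernel)
theorem L31954 : W_12 (nat_lit 4) (nat_lit 0x200004001200090000800000000000000000000000000) (nat_lit 0x0) (nat_lit 0x28001c000a000000000000000000000000000000000000000) := T_12 (nat_lit 174) (nat_lit 157) (nat_lit 5) (nat_lit 5) (nat_lit 6) L31953 (by decide +kernel)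
theorem L31955 : W_12 (nat_lit 12) (nat_lit 0x200000001200090000800000000000000000000000000) (nat_lit 0x0) (nat_lit 0xa000700038001e003fc005e0068000700030000000000000000000000) := Q_12 (nat_lit 158) (C_12 L31925 (C_12 L31929 (C_12 L31938 (C_12 L31942 (C_12 L31951 (C_12 L31954 N_12)))))) (by decide +kernel)
theorem L31972 : W_12 (nat_lit 7) (nat_lit 0x200000001200090000800000000000000000000000000) (nat_lit 0x0) (nat_lit 0xc0005000280007001e0007000300000000000000) := Q_12 (nat_lit 90) (C_12 L31959 (C_12 L31963 (C_12 L31966 (C_12 L31971 N_12)))) (by decide +kernel)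
theorem L31975 : W_12 (nat_lit 4) (nat_lit 0x2000000013000b80008000e0000000000000000000000) (nat_lit 0x0) (nat_lit 0x10000c0000000600300000000000000000000000) := T_12 (nat_lit 139) (nat_lit 138) (nat_lit 2) (nat_lit 2) (nat_lit 8) L31974 (by decide +kernel)
theorem L31976 : W_12 (nat_lit 5) (nat_lit 0x2000000013000980008000e0000000000000000000000) (nat_lit 0x0) (nat_lit 0x10000c0060000600300000000000000000000000) := T_12 (nat_lit 125) (nat_lit 126) (nat_lit 1) (nat_lit 8) (nat_lit 7) L31975 (by decide +kernel)
theorem L31977 : W_12 (nat_lit 6) (nat_lit 0x2000000013000900008000e0000000000000000000000) (nat_lit 0x0) (nat_lit 0x10000c0068000600300002000000000000000000) := T_12 (nat_lit 123) (nat_lit 73) (nat_lit 5) (nat_lit 5) (nat_lit 4) L31976 (by decide +kernel)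
theorem L31978 : W_12 (nat_lit 7) (nat_lit 0x2000000012000900008000e0000000000000000000000) (nat_lit 0x0) (nat_lit 0x30001c0068000600300002000000000000000000) := T_12 (nat_lit 140) (nat_lit 157) (nat_lit 5) (nat_lit 5) (nat_lit 5) L31977 (by decide +kernel)
theorem L31979 : W_12 (nat_lit 8) (nat_lit 0x200000001200090000800060000000000000000000000) (nat_lit 0x0) (nat_lit 0x30001c0068000600380006000000000000000000) := T_12 (nat_lit 91) (nat_lit 74) (nat_lit 6) (nat_lit 5) (nat_lit 8) L31978 (by decide +kernel)
theorem L31980 : W_12 (nat_lit 9) (nat_lit 0x200000001200090000800040000000000000000000000) (nat_lit 0x0) (nat_lit 0x30001c00680006003a0007000000000000000000) := T_12 (nat_lit 89) (nat_lit 72) (nat_lit 4) (nat_lit 5) (nat_lit 8) L31979 (by decide +kernel)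
theorem L31987 : W_12 (nat_lit 10) (nat_lit 0x200000001200090000800000000000000000000000000) (nat_lit 0x0) (nat_lit 0x70001c00680007003e0007000280000000000000) := Q_12 (nat_lit 90) (C_12 L31963 (C_12 L31980 (C_12 L31983 (C_12 L31986 N_12)))) (by decide +kernel)
theorem L31997 : W_12 (nat_lit 11) (nat_lit 0x200000001200090000800000000000000000000000000) (nat_lit 0x0) (nat_lit 0xb8005c006e0006000e0007000280000000000000) := Q_12 (nat_lit 90) (C_12 L31986 (C_12 L31966 (C_12 L31996 (C_12 L31983 N_12)))) (by decide +kernel)
theorem L31998 : W_12 (nat_lit 6) (nat_lit 0x200000001200090000800000000000000000000000000) (nat_lit 0x0) (nat_lit 0x60001000080007001e0007000280000000000000) := Q_12 (nat_lit 90) (C_12 L31986 (C_12 L31963 (C_12 L31983 N_12))) (by decide +kernel)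
theorem L32004 : W_12 (nat_lit 7) (nat_lit 0x200000001200090000800000000000000000000000000) (nat_lit 0x0) (nat_lit 0xc0004000280007001e0007000300008000000000) := Q_12 (nat_lit 90) (C_12 L31966 (C_12 L31963 (C_12 L32003 N_12))) (by decide +kernel)
theorem L32005 : W_12 (nat_lit 2) (nat_lit 0x200004001600090000800060002000000000000000000) (nat_lit 0x0) (nat_lit 0x40002000100000000000000000000000000000000000) := D_12 (nat_lit 157) (nat_lit 140) (nat_lit 174) (nat_lit 5) (nat_lit 5) (nat_lit 5) (nat_lit 5) (nat_lit 5) (nat_lit 6) (by decide +kernel)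
theorem L32006 : W_12 (nat_lit 3) (nat_lit 0x200000001600090000800060002000000000000000000) (nat_lit 0x0) (nat_lit 0x40006000100000000400000000000000000000000000) := T_12 (nat_lit 158) (nat_lit 106) (nat_lit 4) (nat_lit 5) (nat_lit 9) L32005 (by decide +kernel)
theorem L32007 : W_12 (nat_lit 4) (nat_lit 0x200000001600090000800060000000000000000000000) (nat_lit 0x0) (nat_lit 0x40006000100020000400000002000000000000000000) := T_12 (nat_lit 73) (nat_lit 125) (nat_lit 7) (nat_lit 5) (nat_lit 4) L32006 (by decide +kernel)
theorem L32008 : W_12 (nat_lit 5) (nat_lit 0x200000001200090000800060000000000000000000000) (nat_lit 0x0) (nat_lit 0x4000e000500020000400000002000000000000000000) := T_12 (nat_lit 142) (nat_lit 159) (nat_lit 7) (nat_lit 5) (nat_lit 5) L32007 (by decide +kernel)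
theorem L32009 : W_12 (nat_lit 6) (nat_lit 0x200000001200090000800040000000000000000000000) (nat_lit 0x0) (nat_lit 0x4000e000500020000400020003000000000000000000) := T_12 (nat_lit 89) (nat_lit 72) (nat_lit 4) (nat_lit 5) (nat_lit 8) L32008 (by decide +kernel)
theorem L32010 : W_12 (nat_lit 7) (nat_lit 0x200000001200090000800000000000000000000000000) (nat_lit 0x0) (nat_lit 0x4000e0005000200007001e0007000200000000000000) := Q_12 (nat_lit 90) (C_12 L31966 (C_12 L31963 (C_12 L32009 N_12))) (by decide +kernel)
theorem L32011 : W_12 (nat_lit 2) (nat_lit 0x2000060012000900008000e0000000000000000000000) (nat_lit 0x0) (nat_lit 0x100008000400000000000000000000000000000000000) := D_12 (nat_lit 159) (nat_lit 142) (nat_lit 176) (nat_lit 7) (nat_lit 5) (nat_lit 5) (nat_lit 7) (nat_lit 5) (nat_lit 6) (by decide +kernel)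
theorem L32012 : W_12 (nat_lit 3) (nat_lit 0x2000020012000900008000e0000000000000000000000) (nat_lit 0x0) (nat_lit 0x14000c000400000000000000000000000000000000000) := T_12 (nat_lit 158) (nat_lit 174) (nat_lit 5) (nat_lit 5) (nat_lit 6) L32011 (by decide +kernel)
theorem L32013 : W_12 (nat_lit 4) (nat_lit 0x200002001200090000800060000000000000000000000) (nat_lit 0x0) (nat_lit 0x14000c000400000000000080004000000000000000000) := T_12 (nat_lit 91) (nat_lit 74) (nat_lit 6) (nat_lit 5) (nat_lit 8) L32012 (by decide +kernel)
theorem L32014 : W_12 (nat_lit 5) (nat_lit 0x200000001200090000800060000000000000000000000) (nat_lit 0x0) (nat_lit 0x14000e000500000000000080004000000000000000000) := T_12 (nat_lit 157) (nat_lit 140) (nat_lit 5) (nat_lit 5) (nat_lit 5) L32013 (by decide +kernel)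
theorem L32015 : W_12 (nat_lit 6) (nat_lit 0x200000001200090000800040000000000000000000000) (nat_lit 0x0) (nat_lit 0x14000e0005000000000000a0005000000000000000000) := T_12 (nat_lit 89) (nat_lit 72) (nat_lit 4) (nat_lit 5) (nat_lit 8) L32014 (by decide +kernel)
theorem L32016 : W_12 (nat_lit 7) (nat_lit 0x200000001200090000800000000000000000000000000) (nat_lit 0x0) (nat_lit 0x14000e0005000280000000e0007000280000000000000) := Q_12 (nat_lit 90) (C_12 L31986 (C_12 L31966 (C_12 L32015 (C_12 L31983 N_12)))) (by decide +kernel)
theorem L32017 : W_12 (nat_lit 2) (nat_lit 0x20000a001200090000800040000000000000000000000) (nat_lit 0x0) (nat_lit 0x140004000000000000000000000000000000000000000) := D_12 (nat_lit 158) (nat_lit 176) (nat_lit 174) (nat_lit 7) (nat_lit 5) (nat_lit 6) (nat_lit 5) (nat_lit 5) (nat_lit 6) (by decide +kernel)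
theorem L32018 : W_12 (nat_lit 3) (nat_lit 0x200008001200090000800040000000000000000000000) (nat_lit 0x0) (nat_lit 0x140006000100000000000000000000000000000000000) := T_12 (nat_lit 157) (nat_lit 140) (nat_lit 5) (nat_lit 5) (nat_lit 5) L32017 (by decide +kernel)
theorem L32019 : W_12 (nat_lit 4) (nat_lit 0x200000001200090000800040000000000000000000000) (nat_lit 0x0) (nat_lit 0x14000e000500000000000000000000000000000000000) := T_12 (nat_lit 159) (nat_lit 142) (nat_lit 7) (nat_lit 5) (nat_lit 5) L32018 (by decide +kernel)
theorem L32020 : W_12 (nat_lit 5) (nat_lit 0x200000001200090000800000000000000000000000000) (nat_lit 0x0) (nat_lit 0x14000e0005000280000000c0006000200000000000000) := Q_12 (nat_lit 90) (C_12 L31986 (C_12 L31966 (C_12 L32019 N_12))) (by decide +kernel)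
theorem L32021 : W_12 (nat_lit 13) (nat_lit 0x200000001200090000000000000000000000000000000) (nat_lit 0x0) (nat_lit 0xa000700038001e003fc005e006e000f003f0007000380008000000000) := Q_12 (nat_lit 107) (C_12 L31955 (C_12 L31972 (C_12 L31987 (C_12 L31997 (C_12 L31998 (C_12 L32004 (C_12 L32010 (C_12 L32016 (C_12 L32020 N_12))))))))) (by decide +kernel)
theorem L32022 : W_12 (nat_lit 2) (nat_lit 0x1000380004001200098000800000000000000000000000000) (nat_lit 0x0) (nat_lit 0x10000800040000000000000000000000000000000000000000000) := D_12 (nat_lit 191) (nat_lit 174) (nat_lit 208) (nat_lit 5) (nat_lit 5) (nat_lit 7) (nat_lit 5) (nat_lit 5) (nat_lit 8) (by decide +kernel)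
theorem L32023 : W_12 (nat_lit 3) (nat_lit 0x380004001200098000800000000000000000000000000) (nat_lit 0x0) (nat_lit 0x10001800040000000100000000000000000000000000000000000) := T_12 (nat_lit 192) (nat_lit 140) (nat_lit 4) (nat_lit 5) (nat_lit 11) L32022 (by decide +kernel)
theorem L32024 : W_12 (nat_lit 4) (nat_lit 0x380004001200098000000000000000000000000000000) (nat_lit 0x0) (nat_lit 0x10001800040008000100000000800000000000000000000000000) := T_12 (nat_lit 107) (nat_lit 159) (nat_lit 7) (nat_lit 5) (nat_lit 6) L32023 (by decide +kernel)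
theorem L32025 : W_12 (nat_lit 5) (nat_lit 0x280004001200098000000000000000000000000000000) (nat_lit 0x0) (nat_lit 0x10003800140008000100000000800000000000000000000000000) := T_12 (nat_lit 176) (nat_lit 193) (nat_lit 7) (nat_lit 5) (nat_lit 7) L32024 (by decide +kernel)
theorem L32026 : W_12 (nat_lit 6) (nat_lit 0x280004001200090000000000000000000000000000000) (nat_lit 0x0) (nat_lit 0x10003800140008000100008000c00000000000000000000000000) := T_12 (nat_lit 123) (nat_lit 106) (nat_lit 4) (nat_lit 5) (nat_lit 10) L32025 (by decide +kernel)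
theorem L32027 : W_12 (nat_lit 2) (nat_lit 0x70002d0014001200098000000000000000000000000000000) (nat_lit 0x0) (nat_lit 0x80000000000028000000000000000000000000000000000000000) := D_12 (nat_lit 161) (nat_lit 159) (nat_lit 211) (nat_lit 1) (nat_lit 8) (nat_lit 9) (nat_lit 6) (nat_lit 7) (nat_lit 12) (by decide +kernel)
theorem L32028 : W_12 (nat_lit 3) (nat_lit 0x70002d0004001200098000000000000000000000000000000) (nat_lit 0x0) (nat_lit 0x80000000000038000800000000000000000000000000000000000) := T_12 (nat_lit 160) (nat_lit 143) (nat_lit 6) (nat_lit 7) (nat_lit 11) L32027 (by decide +kernel)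
theorem L32029 : W_12 (nat_lit 4) (nat_lit 0x30002d0004001200098000000000000000000000000000000) (nat_lit 0x0) (nat_lit 0x8000c000000038000800000000000000000000000000000000000) := T_12 (nat_lit 194) (nat_lit 195) (nat_lit 0) (nat_lit 8) (nat_lit 11) L32028 (by decide +kernel)
theorem L32030 : W_12 (nat_lit 5) (nat_lit 0x30002c0004001200098000000000000000000000000000000) (nat_lit 0x0) (nat_lit 0x8000c000030038000800000000000000000000000000000000000) := T_12 (nat_lit 172) (nat_lit 173) (nat_lit 3) (nat_lit 2) (nat_lit 10) L32029 (by decide +kernel)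
theorem L32031 : W_12 (nat_lit 6) (nat_lit 0x10002c0004001200098000000000000000000000000000000) (nat_lit 0x0) (nat_lit 0xc000e000030038000800000000000000000000000000000000000) := T_12 (nat_lit 193) (nat_lit 210) (nat_lit 7) (nat_lit 5) (nat_lit 8) L32030 (by decide +kernel)
theorem L32032 : W_12 (nat_lit 7) (nat_lit 0x2c0004001200098000000000000000000000000000000) (nat_lit 0x0) (nat_lit 0xc000f000030038000900000000000000000000000000000000000) := T_12 (nat_lit 192) (nat_lit 140) (nat_lit 4) (nat_lit 5) (nat_lit 11) L32031 (by decide +kernel)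
theorem L32033 : W_12 (nat_lit 8) (nat_lit 0x2c0004001200090000000000000000000000000000000) (nat_lit 0x0) (nat_lit 0xc000f000030038000900008000400000000000000000000000000) := T_12 (nat_lit 123) (nat_lit 106) (nat_lit 4) (nat_lit 5) (nat_lit 10) L32032 (by decide +kernel)
theorem L32034 : W_12 (nat_lit 9) (nat_lit 0x280004001200090000000000000000000000000000000) (nat_lit 0x0) (nat_lit 0xc000f800070038000900008000400000000000000000000000000) := T_12 (nat_lit 174) (nat_lit 191) (nat_lit 5) (nat_lit 5) (nat_lit 7) L32033 (by decide +kernel)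
theorem L32043 : W_12 (nat_lit 2) (nat_lit 0xe0005a0038000c001200098000000000000000000000000000000) (nat_lit 0x0) (nat_lit 0x30000800000000000000000000000000000000000) := D_12 (nat_lit 160) (nat_lit 143) (nat_lit 161) (nat_lit 6) (nat_lit 7) (nat_lit 11) (nat_lit 6) (nat_lit 7) (nat_lit 12) (by decide +kernel)
theorem L32044 : W_12 (nat_lit 3) (nat_lit 0xe0001a0038000c001200098000000000000000000000000000000) (nat_lit 0x0) (nat_lit 0x1000000004000000030000800000000000000000000000000000000000) := T_12 (nat_lit 194) (nat_lit 228) (nat_lit 4) (nat_lit 7) (nat_lit 13) L32043 (by decide +kernel)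
theorem L32045 : W_12 (nat_lit 4) (nat_lit 0x60001a0038000c001200098000000000000000000000000000000) (nat_lit 0x0) (nat_lit 0x1000180004000000030000800000000000000000000000000000000000) := T_12 (nat_lit 211) (nat_lit 212) (nat_lit 0) (nat_lit 8) (nat_lit 12) L32044 (by decide +kernel)
theorem L32046 : W_12 (nat_lit 5) (nat_lit 0x20001a0038000c001200098000000000000000000000000000000) (nat_lit 0x0) (nat_lit 0x18001c0004000000030000800000000000000000000000000000000000) := T_12 (nat_lit 210) (nat_lit 227) (nat_lit 7) (nat_lit 5) (nat_lit 9) L32045 (by decide +kernel)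
theorem L32047 : W_12 (nat_lit 6) (nat_lit 0x1a0038000c001200098000000000000000000000000000000) (nat_lit 0x0) (nat_lit 0x1c001e0004000000030000800000000000000000000000000000000000) := T_12 (nat_lit 209) (nat_lit 226) (nat_lit 6) (nat_lit 5) (nat_lit 13) L32046 (by decide +kernel)
theorem L32048 : W_12 (nat_lit 7) (nat_lit 0x180038000c001200098000000000000000000000000000000) (nat_lit 0x0) (nat_lit 0x1c001e0004600000030000800000000000000000000000000000000000) := T_12 (nat_lit 189) (nat_lit 190) (nat_lit 2) (nat_lit 2) (nat_lit 11) L32047 (by decide +kernel)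
theorem L32049 : W_12 (nat_lit 8) (nat_lit 0x100038000c001200098000000000000000000000000000000) (nat_lit 0x0) (nat_lit 0x1c001f0004e00000030000800000000000000000000000000000000000) := T_12 (nat_lit 191) (nat_lit 208) (nat_lit 5) (nat_lit 5) (nat_lit 8) L32048 (by decide +kernel)
theorem L32050 : W_12 (nat_lit 9) (nat_lit 0x38000c001200098000000000000000000000000000000) (nat_lit 0x0) (nat_lit 0x1c001f0005e00000030000900000000000000000000000000000000000) := T_12 (nat_lit 192) (nat_lit 140) (nat_lit 4) (nat_lit 5) (nat_lit 11) L32049 (by decide +kernel)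
theorem L32051 : W_12 (nat_lit 10) (nat_lit 0x380004001200098000000000000000000000000000000) (nat_lit 0x0) (nat_lit 0x1c001f0005e00000038000900000000800000000000000000000000000) := T_12 (nat_lit 159) (nat_lit 107) (nat_lit 7) (nat_lit 5) (nat_lit 6) L32050 (by decide +kernel)
theorem L32052 : W_12 (nat_lit 11) (nat_lit 0x280004001200098000000000000000000000000000000) (nat_lit 0x0) (nat_lit 0x1c001f0007e00100038000900000000800000000000000000000000000) := T_12 (nat_lit 176) (nat_lit 193) (nat_lit 7) (nat_lit 5) (nat_lit 7) L32051 (by decide +kernel)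
theorem L32053 : W_12 (nat_lit 12) (nat_lit 0x280004001200090000000000000000000000000000000) (nat_lit 0x0) (nat_lit 0x1c001f0007e00100038000900008000c00000000000000000000000000) := T_12 (nat_lit 123) (nat_lit 106) (nat_lit 4) (nat_lit 5) (nat_lit 10) L32052 (by decide +kernel)
theorem L32060 : W_12 (nat_lit 5) (nat_lit 0x380004001200090000c00000000000000000000000000) (nat_lit 0x0) (nat_lit 0xc800040030000800060000000000000000000000000000000) := T_12 (nat_lit 126) (nat_lit 125) (nat_lit 0) (nat_lit 8) (nat_lit 7) L32059 (by decide +kernel)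
theorem L32061 : W_12 (nat_lit 6) (nat_lit 0x380004001200090000800000000000000000000000000) (nat_lit 0x0) (nat_lit 0xc800040030000800060000400020000000000000000000000) := T_12 (nat_lit 106) (nat_lit 89) (nat_lit 4) (nat_lit 5) (nat_lit 9) L32060 (by decide +kernel)
theorem L32062 : W_12 (nat_lit 7) (nat_lit 0x380004001200090000000000000000000000000000000) (nat_lit 0x0) (nat_lit 0xc800040038000800060000c00020000000000000000000000) := T_12 (nat_lit 107) (nat_lit 159) (nat_lit 7) (nat_lit 5) (nat_lit 6) L32061 (by decide +kernel)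
theorem L32063 : W_12 (nat_lit 8) (nat_lit 0x280004001200090000000000000000000000000000000) (nat_lit 0x0) (nat_lit 0xe800140038000800060000c00020000000000000000000000) := T_12 (nat_lit 176) (nat_lit 193) (nat_lit 7) (nat_lit 5) (nat_lit 7) L32062 (by decide +kernel)
theorem L32064 : W_12 (nat_lit 2) (nat_lit 0x40003c0004001200090000800000000000000000000000000) (nat_lit 0x0) (nat_lit 0x30000800000000000000000000000000000000000) := D_12 (nat_lit 160) (nat_lit 161) (nat_lit 143) (nat_lit 2) (nat_lit 4) (nat_lit 10) (nat_lit 6) (nat_lit 7) (nat_lit 11) (by decide +kernel)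
theorem L32065 : W_12 (nat_lit 3) (nat_lit 0x3c0004001200090000800000000000000000000000000) (nat_lit 0x0) (nat_lit 0xc000000030000800000000000000000000000000000000000) := T_12 (nat_lit 194) (nat_lit 195) (nat_lit 3) (nat_lit 4) (nat_lit 10) L32064 (by decide +kernel)
theorem L32066 : W_12 (nat_lit 4) (nat_lit 0x3c0004001200090000000000000000000000000000000) (nat_lit 0x0) (nat_lit 0xc000000038000800000000800000000000000000000000000) := T_12 (nat_lit 107) (nat_lit 159) (nat_lit 7) (nat_lit 5) (nat_lit 6) L32065 (by decide +kernel)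
theorem L32067 : W_12 (nat_lit 5) (nat_lit 0x2c0004001200090000000000000000000000000000000) (nat_lit 0x0) (nat_lit 0xe000100038000800000000800000000000000000000000000) := T_12 (nat_lit 176) (nat_lit 193) (nat_lit 7) (nat_lit 5) (nat_lit 7) L32066 (by decide +kernel)
theorem L32068 : W_12 (nat_lit 6) (nat_lit 0x280004001200090000000000000000000000000000000) (nat_lit 0x0) (nat_lit 0xe800140038000800000000800000000000000000000000000) := T_12 (nat_lit 174) (nat_lit 191) (nat_lit 5) (nat_lit 5) (nat_lit 7) L32067 (by decide +kernel)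
theorem L32070 : W_12 (nat_lit 13) (nat_lit 0x200004001200090000000000000000000000000000000) (nat_lit 0x0) (nat_lit 0x1c001f000fe001f0038000900068000c00020000000000000000000000) := Q_12 (nat_lit 175) (C_12 L32026 (C_12 L32034 (C_12 L32038 (C_12 L32042 (C_12 L32053 (C_12 L32056 (C_12 L32063 (C_12 L32068 (C_12 L32069 N_12))))))))) (by decide +kernel)
theorem L32079 : W_12 (nat_lit 5) (nat_lit 0x2c0004001200090000c00000000000000000000000000) (nat_lit 0x0) (nat_lit 0xe000100030000800060000000000000000000000000000000) := T_12 (nat_lit 126) (nat_lit 125) (nat_lit 0) (nat_lit 8) (nat_lit 7) L32078 (by decide +kernel)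
theorem L32080 : W_12 (nat_lit 6) (nat_lit 0x2c0004001200090000800000000000000000000000000) (nat_lit 0x0) (nat_lit 0xe000100030000800060000400020000000000000000000000) := T_12 (nat_lit 106) (nat_lit 89) (nat_lit 4) (nat_lit 5) (nat_lit 9) L32079 (by decide +kernel)
theorem L32081 : W_12 (nat_lit 7) (nat_lit 0x2c0004001200090000000000000000000000000000000) (nat_lit 0x0) (nat_lit 0xe000100032000800060000c00020000000000000000000000) := T_12 (nat_lit 107) (nat_lit 157) (nat_lit 5) (nat_lit 5) (nat_lit 6) L32080 (by decide +kernel)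
theorem L32082 : W_12 (nat_lit 8) (nat_lit 0x280004001200090000000000000000000000000000000) (nat_lit 0x0) (nat_lit 0xe800140032000800060000c00020000000000000000000000) := T_12 (nat_lit 174) (nat_lit 191) (nat_lit 5) (nat_lit 5) (nat_lit 7) L32081 (by decide +kernel)
theorem L32083 : W_12 (nat_lit 2) (nat_lit 0x3c0004001200090000000000000000000000000000000) (nat_lit 0x0) (nat_lit 0x3000000000000800000000000000000000000000) := D_12 (nat_lit 157) (nat_lit 107) (nat_lit 156) (nat_lit 5) (nat_lit 5) (nat_lit 6) (nat_lit 0) (nat_lit 7) (nat_lit 10) (by decide +kernel)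
theorem L32084 : W_12 (nat_lit 3) (nat_lit 0x380004001200090000000000000000000000000000000) (nat_lit 0x0) (nat_lit 0x800040003000000000000800000000000000000000000000) := T_12 (nat_lit 174) (nat_lit 191) (nat_lit 5) (nat_lit 5) (nat_lit 7) L32083 (by decide +kernel)
theorem L32085 : W_12 (nat_lit 4) (nat_lit 0x280004001200090000000000000000000000000000000) (nat_lit 0x0) (nat_lit 0x2800140003000000000000800000000000000000000000000) := T_12 (nat_lit 176) (nat_lit 193) (nat_lit 7) (nat_lit 5) (nat_lit 7) L32084 (by decide +kernel)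
theorem L32086 : W_12 (nat_lit 9) (nat_lit 0x200004001200090000000000000000000000000000000) (nat_lit 0x0) (nat_lit 0x5000f8001c0033000900068000c00020000000000000000000000) := Q_12 (nat_lit 175) (C_12 L32056 (C_12 L32074 (C_12 L32077 (C_12 L32082 (C_12 L32085 N_12))))) (by decide +kernel)
theorem L32087 : W_12 (nat_lit 5) (nat_lit 0x200004001200090000000000000000000000000000000) (nat_lit 0x0) (nat_lit 0x500038001c0003000100008000c00000000000000000000000000) := Q_12 (nat_lit 175) (C_12 L32085 (C_12 L32056 (C_12 L32077 N_12))) (by decide +kernel)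
theorem L32088 : W_12 (nat_lit 2) (nat_lit 0x200004001200090000800040000000000000000000000) (nat_lit 0x0) (nat_lit 0x400020001000000000000000000) := D_12 (nat_lit 89) (nat_lit 106) (nat_lit 72) (nat_lit 4) (nat_lit 5) (nat_lit 9) (nat_lit 4) (nat_lit 5) (nat_lit 8) (by decide +kernel)
theorem L32089 : W_12 (nat_lit 2) (nat_lit 0x200004001200090000800040005000000000000000000) (nat_lit 0x0) (nat_lit 0x2000280000000000000) := D_12 (nat_lit 73) (nat_lit 57) (nat_lit 55) (nat_lit 6) (nat_lit 5) (nat_lit 7) (nat_lit 4) (nat_lit 5) (nat_lit 7) (by decide +kernel)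
theorem L32090 : W_12 (nat_lit 3) (nat_lit 0x200004001200090000800040004000000000000000000) (nat_lit 0x0) (nat_lit 0x20003000280000000000000) := T_12 (nat_lit 72) (nat_lit 89) (nat_lit 4) (nat_lit 5) (nat_lit 8) L32089 (by decide +kernel)
theorem L32091 : W_12 (nat_lit 4) (nat_lit 0x200004001200090000800040000000000000000000000) (nat_lit 0x0) (nat_lit 0xa0007000280000000000000) := T_12 (nat_lit 74) (nat_lit 91) (nat_lit 6) (nat_lit 5) (nat_lit 8) L32090 (by decide +kernel)
theorem L32092 : W_12 (nat_lit 2) (nat_lit 0x200004001200098000800040006000000000000000000) (nat_lit 0x0) (nat_lit 0x80000000000000000400000000000100000000000000) := D_12 (nat_lit 106) (nat_lit 56) (nat_lit 175) (nat_lit 5) (nat_lit 5) (nat_lit 3) (nat_lit 4) (nat_lit 5) (nat_lit 10) (by decide +kernel)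
theorem L32093 : W_12 (nat_lit 3) (nat_lit 0x200004001200090000800040006000000000000000000) (nat_lit 0x0) (nat_lit 0x80000000100008000400000000000100000000000000) := T_12 (nat_lit 123) (nat_lit 140) (nat_lit 5) (nat_lit 5) (nat_lit 4) L32092 (by decide +kernel)
theorem L32094 : W_12 (nat_lit 4) (nat_lit 0x200004001200090000800040004000000000000000000) (nat_lit 0x0) (nat_lit 0x80000000100008000400000002000300000000000000) := T_12 (nat_lit 73) (nat_lit 57) (nat_lit 6) (nat_lit 5) (nat_lit 7) L32093 (by decide +kernel)
theorem L32095 : W_12 (nat_lit 5) (nat_lit 0x200004001200090000800040000000000000000000000) (nat_lit 0x0) (nat_lit 0x80000000100008000400080006000300000000000000) := T_12 (nat_lit 74) (nat_lit 91) (nat_lit 6) (nat_lit 5) (nat_lit 8) L32094 (by decide +kernel)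
theorem L32096 : W_12 (nat_lit 6) (nat_lit 0x200004001200090000800000000000000000000000000) (nat_lit 0x0) (nat_lit 0x800000001000080004000e0007000380000000000000) := Q_12 (nat_lit 90) (C_12 L32088 (C_12 L32091 (C_12 L32095 N_12))) (by decide +kernel)
theorem L32097 : W_12 (nat_lit 2) (nat_lit 0x200006001a000d0002d001c0000000000000000000000) (nat_lit 0x0) (nat_lit 0x4000000018000000000000000000000000000000000000000) := D_12 (nat_lit 160) (nat_lit 194) (nat_lit 159) (nat_lit 6) (nat_lit 7) (nat_lit 11) (nat_lit 2) (nat_lit 4) (nat_lit 9) (by decide +kernel)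
theorem L32098 : W_12 (nat_lit 3) (nat_lit 0x2000060012000d0002d001c0000000000000000000000) (nat_lit 0x0) (nat_lit 0x4000000038000800000000000000000000000000000000000) := T_12 (nat_lit 143) (nat_lit 161) (nat_lit 7) (nat_lit 7) (nat_lit 5) L32097 (by decide +kernel)
theorem L32099 : W_12 (nat_lit 4) (nat_lit 0x2000060012000d0000d001c0000000000000000000000) (nat_lit 0x0) (nat_lit 0x4000000038000800000002000000008000000000000000000) := T_12 (nat_lit 109) (nat_lit 75) (nat_lit 7) (nat_lit 7) (nat_lit 4) L32098 (by decide +kernel)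
theorem L32100 : W_12 (nat_lit 5) (nat_lit 0x2000060012000d0000d000c0000000000000000000000) (nat_lit 0x0) (nat_lit 0x4000000038000800000002000300008000000000000000000) := T_12 (nat_lit 92) (nat_lit 93) (nat_lit 1) (nat_lit 8) (nat_lit 5) L32099 (by decide +kernel)
theorem L32101 : W_12 (nat_lit 6) (nat_lit 0x2000060012000d0000c000c0000000000000000000000) (nat_lit 0x0) (nat_lit 0x4000000038000800000002300300008000000000000000000) := T_12 (nat_lit 104) (nat_lit 105) (nat_lit 2) (nat_lit 2) (nat_lit 6) L32100 (by decide +kernel)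
theorem L32102 : W_12 (nat_lit 7) (nat_lit 0x2000060012000d0000c00040000000000000000000000) (nat_lit 0x0) (nat_lit 0x400000003800080000000230038000c000000000000000000) := T_12 (nat_lit 91) (nat_lit 74) (nat_lit 6) (nat_lit 5) (nat_lit 8) L32101 (by decide +kernel)
theorem L32103 : W_12 (nat_lit 8) (nat_lit 0x2000060012000d0000c00000000000000000000000000) (nat_lit 0x0) (nat_lit 0x40000000380009000000023003c000c000000000000000000) := T_12 (nat_lit 90) (nat_lit 140) (nat_lit 5) (nat_lit 5) (nat_lit 5) L32102 (by decide +kernel)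
theorem L32104 : W_12 (nat_lit 9) (nat_lit 0x2000040012000d0000c00000000000000000000000000) (nat_lit 0x0) (nat_lit 0x400004003a0009000000023003c000c000000000000000000) := T_12 (nat_lit 157) (nat_lit 174) (nat_lit 5) (nat_lit 5) (nat_lit 6) L32103 (by decide +kernel)
theorem L32105 : W_12 (nat_lit 10) (nat_lit 0x200004001200090000c00000000000000000000000000) (nat_lit 0x0) (nat_lit 0x400004003a0009000600023003c000c000000000000000000) := T_12 (nat_lit 126) (nat_lit 125) (nat_lit 0) (nat_lit 8) (nat_lit 7) L32104 (by decide +kernel)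
theorem L32106 : W_12 (nat_lit 11) (nat_lit 0x200004001200090000800000000000000000000000000) (nat_lit 0x0) (nat_lit 0x400004003a0009000600027003e000c000000000000000000) := T_12 (nat_lit 106) (nat_lit 89) (nat_lit 4) (nat_lit 5) (nat_lit 9) L32105 (by decide +kernel)
theorem L32107 : W_12 (nat_lit 2) (nat_lit 0x240004001200090000c00000000000000000000000000) (nat_lit 0x0) (nat_lit 0x800080000000000008000000000000000000000000000000) := D_12 (nat_lit 175) (nat_lit 191) (nat_lit 123) (nat_lit 5) (nat_lit 5) (nat_lit 7) (nat_lit 4) (nat_lit 5) (nat_lit 10) (by decide +kernel)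
theorem L32108 : W_12 (nat_lit 3) (nat_lit 0x240004001200090000800000000000000000000000000) (nat_lit 0x0) (nat_lit 0x800080000000000008000400020000000000000000000000) := T_12 (nat_lit 106) (nat_lit 89) (nat_lit 4) (nat_lit 5) (nat_lit 9) L32107 (by decide +kernel)
theorem L32109 : W_12 (nat_lit 4) (nat_lit 0x200004001200090000800000000000000000000000000) (nat_lit 0x0) (nat_lit 0x8000c0002000000008000400020000000000000000000000) := T_12 (nat_lit 174) (nat_lit 157) (nat_lit 5) (nat_lit 5) (nat_lit 6) L32108 (by decide +kernel)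
theorem L32110 : W_12 (nat_lit 2) (nat_lit 0x200006001200090000800040005000000000000000000) (nat_lit 0x0) (nat_lit 0x2000280000000000000) := D_12 (nat_lit 73) (nat_lit 55) (nat_lit 57) (nat_lit 4) (nat_lit 5) (nat_lit 7) (nat_lit 6) (nat_lit 5) (nat_lit 7) (by decide +kernel)
theorem L32111 : W_12 (nat_lit 3) (nat_lit 0x200006001200090000800040001000000000000000000) (nat_lit 0x0) (nat_lit 0x80006000280000000000000) := T_12 (nat_lit 74) (nat_lit 91) (nat_lit 6) (nat_lit 5) (nat_lit 8) L32110 (by decide +kernel)
theorem L32112 : W_12 (nat_lit 4) (nat_lit 0x200006001200090000800040000000000000000000000) (nat_lit 0x0) (nat_lit 0xa0007000280000000000000) := T_12 (nat_lit 72) (nat_lit 89) (nat_lit 4) (nat_lit 5) (nat_lit 8) L32111 (by decide +kernel)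
theorem L32113 : W_12 (nat_lit 5) (nat_lit 0x200006001200090000800000000000000000000000000) (nat_lit 0x0) (nat_lit 0x1000000000000e0007000280000000000000) := T_12 (nat_lit 90) (nat_lit 140) (nat_lit 5) (nat_lit 5) (nat_lit 5) L32112 (by decide +kernel)
theorem L32114 : W_12 (nat_lit 6) (nat_lit 0x200004001200090000800000000000000000000000000) (nat_lit 0x0) (nat_lit 0x400020001000000000000e0007000280000000000000) := T_12 (nat_lit 157) (nat_lit 174) (nat_lit 5) (nat_lit 5) (nat_lit 6) L32113 (by decide +kernel)
theorem L32122 : W_12 (nat_lit 9) (nat_lit 0x200006001300090000800000000000000000000000000) (nat_lit 0x0) (nat_lit 0x500038001c00040000000380008c0060000000000000000000000000000000) := T_12 (nat_lit 125) (nat_lit 126) (nat_lit 1) (nat_lit 8) (nat_lit 7) L32121 (by decide +kernel)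
theorem L32123 : W_12 (nat_lit 10) (nat_lit 0x200006001200090000800000000000000000000000000) (nat_lit 0x0) (nat_lit 0x500038001c00040000000380009c0060000000040000000000000000000000) := T_12 (nat_lit 140) (nat_lit 90) (nat_lit 5) (nat_lit 5) (nat_lit 5) L32122 (by decide +kernel)
theorem L32124 : W_12 (nat_lit 11) (nat_lit 0x200004001200090000800000000000000000000000000) (nat_lit 0x0) (nat_lit 0x500038001c000400004003a0009c0060000000040000000000000000000000) := T_12 (nat_lit 157) (nat_lit 174) (nat_lit 5) (nat_lit 5) (nat_lit 6) L32123 (by decide +kernel)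
theorem L32125 : W_12 (nat_lit 12) (nat_lit 0x200004001200090000000000000000000000000000000) (nat_lit 0x0) (nat_lit 0x500038001c00048000c003a0009c0068002f003e000f000380000000000000) := Q_12 (nat_lit 107) (C_12 L32096 (C_12 L32106 (C_12 L32109 (C_12 L32114 (C_12 L32124 N_12))))) (by decide +kernel)
theorem L32126 : W_12 (nat_lit 2) (nat_lit 0x40002000140013000d0000000000000000000000000000000) (nat_lit 0x0) (nat_lit 0x80000000000028000000000000000000000000000000000000000) := D_12 (nat_lit 161) (nat_lit 159) (nat_lit 211) (nat_lit 0) (nat_lit 8) (nat_lit 9) (nat_lit 6) (nat_lit 7) (nat_lit 12) (by decide +kernel)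
theorem L32127 : W_12 (nat_lit 3) (nat_lit 0x2000140013000d0000000000000000000000000000000) (nat_lit 0x0) (nat_lit 0x80004000000028000800000000000000000000000000000000000) := T_12 (nat_lit 194) (nat_lit 143) (nat_lit 6) (nat_lit 7) (nat_lit 11) L32126 (by decide +kernel)
theorem L32128 : W_12 (nat_lit 4) (nat_lit 0x200014001300090000000000000000000000000000000) (nat_lit 0x0) (nat_lit 0x80004000000028000800060000000000000000000000000000000) := T_12 (nat_lit 126) (nat_lit 125) (nat_lit 1) (nat_lit 8) (nat_lit 7) L32127 (by decide +kernel)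
theorem L32129 : W_12 (nat_lit 2) (nat_lit 0x28000800040002000140013000d0000000000000000000000000000000) (nat_lit 0x0) (nat_lit 0x50001000000000000000000000000000000000000000000000000000000000) := D_12 (nat_lit 228) (nat_lit 244) (nat_lit 246) (nat_lit 5) (nat_lit 7) (nat_lit 10) (nat_lit 7) (nat_lit 7) (nat_lit 10) (by decide +kernel)
theorem L32130 : W_12 (nat_lit 3) (nat_lit 0x8000800040002000140013000d0000000000000000000000000000000) (nat_lit 0x0) (nat_lit 0x50003000100000000000000000000000000000000000000000000000000000) := T_12 (nat_lit 229) (nat_lit 212) (nat_lit 7) (nat_lit 7) (nat_lit 9) L32129 (by decide +kernel)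
theorem L32131 : W_12 (nat_lit 4) (nat_lit 0x800040002000140013000d0000000000000000000000000000000) (nat_lit 0x0) (nat_lit 0x50003800140000000000000000000000000000000000000000000000000000) := T_12 (nat_lit 227) (nat_lit 210) (nat_lit 5) (nat_lit 7) (nat_lit 9) L32130 (by decide +kernel)
theorem L32132 : W_12 (nat_lit 5) (nat_lit 0x40002000140013000d0000000000000000000000000000000) (nat_lit 0x0) (nat_lit 0x500038001c0000000000020000000000000000000000000000000000000000) := T_12 (nat_lit 211) (nat_lit 161) (nat_lit 6) (nat_lit 7) (nat_lit 12) L32131 (by decide +kernel)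
theorem L32133 : W_12 (nat_lit 6) (nat_lit 0x2000140013000d0000000000000000000000000000000) (nat_lit 0x0) (nat_lit 0x500038001c0004000000020000800000000000000000000000000000000000) := T_12 (nat_lit 194) (nat_lit 143) (nat_lit 6) (nat_lit 7) (nat_lit 11) L32132 (by decide +kernel)
theorem L32134 : W_12 (nat_lit 7) (nat_lit 0x200014001300090000000000000000000000000000000) (nat_lit 0x0) (nat_lit 0x500038001c0004000000020000800060000000000000000000000000000000) := T_12 (nat_lit 126) (nat_lit 125) (nat_lit 1) (nat_lit 8) (nat_lit 7) L32133 (by decide +kernel)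
theorem L32135 : W_12 (nat_lit 2) (nat_lit 0x4000200014001300090000000000000000000000000000000) (nat_lit 0x0) (nat_lit 0x80000000000028000000000000000000000000000000000000000) := D_12 (nat_lit 161) (nat_lit 159) (nat_lit 211) (nat_lit 0) (nat_lit 8) (nat_lit 9) (nat_lit 6) (nat_lit 7) (nat_lit 12) (by decide +kernel)
theorem L32136 : W_12 (nat_lit 3) (nat_lit 0x200014001300090000000000000000000000000000000) (nat_lit 0x0) (nat_lit 0x80004000000028000800000000000000000000000000000000000) := T_12 (nat_lit 194) (nat_lit 143) (nat_lit 6) (nat_lit 7) (nat_lit 11) L32135 (by decide +kernel)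
theorem L32137 : W_12 (nat_lit 2) (nat_lit 0x400020001c0013400d0000800060004000000000000000000) (nat_lit 0x0) (nat_lit 0x8000000000002000200000000000000) := D_12 (nat_lit 73) (nat_lit 123) (nat_lit 57) (nat_lit 5) (nat_lit 5) (nat_lit 4) (nat_lit 6) (nat_lit 5) (nat_lit 7) (by decide +kernel)
theorem L32138 : W_12 (nat_lit 3) (nat_lit 0x400020001c0013400d0000800060000000000000000000000) (nat_lit 0x0) (nat_lit 0x8000000080006000200000000000000) := T_12 (nat_lit 74) (nat_lit 91) (nat_lit 6) (nat_lit 5) (nat_lit 8) L32137 (by decide +kernel)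
theorem L32139 : W_12 (nat_lit 4) (nat_lit 0x20001c0013400d0000800060000000000000000000000) (nat_lit 0x0) (nat_lit 0x4000000000000800008000000080006000200000000000000) := T_12 (nat_lit 194) (nat_lit 143) (nat_lit 6) (nat_lit 7) (nat_lit 11) L32138 (by decide +kernel)
theorem L32140 : W_12 (nat_lit 5) (nat_lit 0x20001c0013400d0000800020000000000000000000000) (nat_lit 0x0) (nat_lit 0x40000000000008000080000000c0007000200000000000000) := T_12 (nat_lit 90) (nat_lit 72) (nat_lit 4) (nat_lit 5) (nat_lit 8) L32139 (by decide +kernel)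
theorem L32141 : W_12 (nat_lit 6) (nat_lit 0x20001c0013000d0000800020000000000000000000000) (nat_lit 0x0) (nat_lit 0x40000000000008c00080000000c0007000200000000000000) := T_12 (nat_lit 138) (nat_lit 139) (nat_lit 3) (nat_lit 2) (nat_lit 8) L32140 (by decide +kernel)
theorem L32142 : W_12 (nat_lit 7) (nat_lit 0x20001c0013000d0000800000000000000000000000000) (nat_lit 0x0) (nat_lit 0x40000000000008c00080004000e0007000200000000000000) := T_12 (nat_lit 89) (nat_lit 106) (nat_lit 4) (nat_lit 5) (nat_lit 9) L32141 (by decide +kernel)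
theorem L32143 : W_12 (nat_lit 8) (nat_lit 0x20001c0013000d0000000000000000000000000000000) (nat_lit 0x0) (nat_lit 0x40001000000008c0008000c000e0007000200000000000000) := T_12 (nat_lit 107) (nat_lit 176) (nat_lit 7) (nat_lit 5) (nat_lit 6) L32142 (by decide +kernel)
theorem L32144 : W_12 (nat_lit 9) (nat_lit 0x20001c001300090000000000000000000000000000000) (nat_lit 0x0) (nat_lit 0x40001000000008c0068000c000e0007000200000000000000) := T_12 (nat_lit 126) (nat_lit 125) (nat_lit 1) (nat_lit 8) (nat_lit 7) L32143 (by decide +kernel)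
theorem L32145 : W_12 (nat_lit 10) (nat_lit 0x200014001300090000000000000000000000000000000) (nat_lit 0x0) (nat_lit 0x40001000280008c0068000c000e0007000200000000000000) := T_12 (nat_lit 159) (nat_lit 161) (nat_lit 0) (nat_lit 8) (nat_lit 9) L32144 (by decide +kernel)
theorem L32154 : W_12 (nat_lit 2) (nat_lit 0x300014001b000d0000000000000000000000000000000) (nat_lit 0x0) (nat_lit 0x8000000000002800000000000000000000000000) := D_12 (nat_lit 159) (nat_lit 109) (nat_lit 107) (nat_lit 5) (nat_lit 7) (nat_lit 6) (nat_lit 7) (nat_lit 5) (nat_lit 6) (by decide +kernel)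
theorem L32155 : W_12 (nat_lit 3) (nat_lit 0x200014001b000d0000000000000000000000000000000) (nat_lit 0x0) (nat_lit 0x2000100008000000000002800000000000000000000000000) := T_12 (nat_lit 176) (nat_lit 193) (nat_lit 5) (nat_lit 7) (nat_lit 7) L32154 (by decide +kernel)
theorem L32156 : W_12 (nat_lit 4) (nat_lit 0x200014001b00090000000000000000000000000000000) (nat_lit 0x0) (nat_lit 0x2000100008000000060002800000000000000000000000000) := T_12 (nat_lit 126) (nat_lit 125) (nat_lit 1) (nat_lit 8) (nat_lit 7) L32155 (by decide +kernel)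
theorem L32157 : W_12 (nat_lit 5) (nat_lit 0x200014001300090000000000000000000000000000000) (nat_lit 0x0) (nat_lit 0x6000100008000800060002800000000000000000000000000) := T_12 (nat_lit 143) (nat_lit 194) (nat_lit 6) (nat_lit 7) (nat_lit 11) L32156 (by decide +kernel)
theorem L32158 : W_12 (nat_lit 11) (nat_lit 0x200004001300090000000000000000000000000000000) (nat_lit 0x0) (nat_lit 0x500038001c00060001000380008c0068002c000e0007000200000000000000) := Q_12 (nat_lit 160) (C_12 L32128 (C_12 L32134 (C_12 L32136 (C_12 L32145 (C_12 L32153 (C_12 L32157 N_12)))))) (by decide +kernel)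
theorem L32159 : W_12 (nat_lit 2) (nat_lit 0x200004001300090000800000000000000000000000000) (nat_lit 0x0) (nat_lit 0x40002000000000000000040000000000000000000000) := D_12 (nat_lit 157) (nat_lit 90) (nat_lit 174) (nat_lit 5) (nat_lit 5) (nat_lit 5) (nat_lit 5) (nat_lit 5) (nat_lit 6) (by decide +kernel)
theorem L32160 : W_12 (nat_lit 2) (nat_lit 0x2000040013000d0000800040000000000000000000000) (nat_lit 0x0) (nat_lit 0x400020001000000000000000000) := D_12 (nat_lit 89) (nat_lit 106) (nat_lit 72) (nat_lit 4) (nat_lit 5) (nat_lit 9) (nat_lit 4) (nat_lit 5) (nat_lit 8) (by decide +kernel)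
theorem L32161 : W_12 (nat_lit 3) (nat_lit 0x2000040013000d0000800000000000000000000000000) (nat_lit 0x0) (nat_lit 0x2000000000000400060001000000000000000000) := T_12 (nat_lit 90) (nat_lit 157) (nat_lit 5) (nat_lit 5) (nat_lit 5) L32160 (by decide +kernel)
theorem L32162 : W_12 (nat_lit 4) (nat_lit 0x200004001300090000800000000000000000000000000) (nat_lit 0x0) (nat_lit 0x2000000060000400060001000000000000000000) := T_12 (nat_lit 126) (nat_lit 125) (nat_lit 1) (nat_lit 8) (nat_lit 7) L32161 (by decide +kernel)
theorem L32163 : W_12 (nat_lit 2) (nat_lit 0x2000040013000d0000800060002000000000000000000) (nat_lit 0x0) (nat_lit 0x80004000200000000000000) := D_12 (nat_lit 74) (nat_lit 91) (nat_lit 57) (nat_lit 6) (nat_lit 5) (nat_lit 8) (nat_lit 6) (nat_lit 5) (nat_lit 7) (by decide +kernel)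
theorem L32164 : W_12 (nat_lit 3) (nat_lit 0x2000040013000d0000800060000000000000000000000) (nat_lit 0x0) (nat_lit 0x8000000080006000200000000000000) := T_12 (nat_lit 73) (nat_lit 123) (nat_lit 5) (nat_lit 5) (nat_lit 4) L32163 (by decide +kernel)
theorem L32165 : W_12 (nat_lit 4) (nat_lit 0x2000040013000d0000800020000000000000000000000) (nat_lit 0x0) (nat_lit 0x80000000c0007000200000000000000) := T_12 (nat_lit 90) (nat_lit 72) (nat_lit 4) (nat_lit 5) (nat_lit 8) L32164 (by decide +kernel)
theorem L32166 : W_12 (nat_lit 5) (nat_lit 0x2000040013000d0000800000000000000000000000000) (nat_lit 0x0) (nat_lit 0x80004000e0007000200000000000000) := T_12 (nat_lit 89) (nat_lit 106) (nat_lit 4) (nat_lit 5) (nat_lit 9) L32165 (by decide +kernel)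
theorem L32167 : W_12 (nat_lit 6) (nat_lit 0x200004001300090000800000000000000000000000000) (nat_lit 0x0) (nat_lit 0x680004000e0007000200000000000000) := T_12 (nat_lit 126) (nat_lit 125) (nat_lit 1) (nat_lit 8) (nat_lit 7) L32166 (by decide +kernel)
theorem L32171 : W_12 (nat_lit 5) (nat_lit 0x2000060013000b0000e00000000000000000000000000) (nat_lit 0x0) (nat_lit 0x20001c000e0008000000010000000000000000000000) := T_12 (nat_lit 138) (nat_lit 139) (nat_lit 2) (nat_lit 2) (nat_lit 8) L32170 (by decide +kernel)
theorem L32172 : W_12 (nat_lit 6) (nat_lit 0x2000060013000b0000c00000000000000000000000000) (nat_lit 0x0) (nat_lit 0x20001c000e0008000300010000000000000000000000) := T_12 (nat_lit 105) (nat_lit 104) (nat_lit 3) (nat_lit 2) (nat_lit 6) L32171 (by decide +kernel)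
theorem L32173 : W_12 (nat_lit 7) (nat_lit 0x2000040013000b0000c00000000000000000000000000) (nat_lit 0x0) (nat_lit 0x60003c000e0008000300010000000000000000000000) := T_12 (nat_lit 157) (nat_lit 174) (nat_lit 5) (nat_lit 5) (nat_lit 6) L32172 (by decide +kernel)
theorem L32174 : W_12 (nat_lit 8) (nat_lit 0x200004001300090000c00000000000000000000000000) (nat_lit 0x0) (nat_lit 0x60003c000e0068000300010000000000000000000000) := T_12 (nat_lit 125) (nat_lit 126) (nat_lit 1) (nat_lit 8) (nat_lit 7) L32173 (by decide +kernel)
theorem L32175 : W_12 (nat_lit 9) (nat_lit 0x200004001300090000800000000000000000000000000) (nat_lit 0x0) (nat_lit 0x60003c000e0068000700030000000000000000000000) := T_12 (nat_lit 106) (nat_lit 89) (nat_lit 4) (nat_lit 5) (nat_lit 9) L32174 (by decide +kernel)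
theorem L32176 : W_12 (nat_lit 10) (nat_lit 0x200004001300090000000000000000000000000000000) (nat_lit 0x0) (nat_lit 0x60003c000e0068000f000f0007000200000000000000) := Q_12 (nat_lit 107) (C_12 L32159 (C_12 L32162 (C_12 L32167 (C_12 L32175 N_12)))) (by decide +kernel)
theorem L32177 : W_12 (nat_lit 2) (nat_lit 0x20002c001340090000c00040002000000000000000000) (nat_lit 0x0) (nat_lit 0x80004000200000000000000) := D_12 (nat_lit 74) (nat_lit 57) (nat_lit 91) (nat_lit 6) (nat_lit 5) (nat_lit 7) (nat_lit 6) (nat_lit 5) (nat_lit 8) (by decide +kernel)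
theorem L32178 : W_12 (nat_lit 3) (nat_lit 0x20002c001340090000c00040000000000000000000000) (nat_lit 0x0) (nat_lit 0x8000000080006000200000000000000) := T_12 (nat_lit 73) (nat_lit 123) (nat_lit 5) (nat_lit 5) (nat_lit 4) L32177 (by decide +kernel)
theorem L32179 : W_12 (nat_lit 4) (nat_lit 0x20002c001340090000c00000000000000000000000000) (nat_lit 0x0) (nat_lit 0x20000000080000000c0006000200000000000000) := T_12 (nat_lit 90) (nat_lit 157) (nat_lit 5) (nat_lit 5) (nat_lit 5) L32178 (by decide +kernel)
theorem L32180 : W_12 (nat_lit 5) (nat_lit 0x20000c001340090000c00000000000000000000000000) (nat_lit 0x0) (nat_lit 0x320000000080000000c0006000200000000000000) := T_12 (nat_lit 161) (nat_lit 160) (nat_lit 0) (nat_lit 8) (nat_lit 9) L32179 (by decide +kernel)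
theorem L32181 : W_12 (nat_lit 6) (nat_lit 0x20000c001300090000c00000000000000000000000000) (nat_lit 0x0) (nat_lit 0x320000c00080000000c0006000200000000000000) := T_12 (nat_lit 138) (nat_lit 139) (nat_lit 3) (nat_lit 2) (nat_lit 8) L32180 (by decide +kernel)
theorem L32182 : W_12 (nat_lit 7) (nat_lit 0x200004001300090000c00000000000000000000000000) (nat_lit 0x0) (nat_lit 0x10003a0000c00080000000c0006000200000000000000) := T_12 (nat_lit 159) (nat_lit 176) (nat_lit 7) (nat_lit 5) (nat_lit 6) L32181 (by decide +kernel)
theorem L32183 : W_12 (nat_lit 8) (nat_lit 0x200004001300090000800000000000000000000000000) (nat_lit 0x0) (nat_lit 0x10003a0000c00080004000e0006000200000000000000) := T_12 (nat_lit 106) (nat_lit 89) (nat_lit 4) (nat_lit 5) (nat_lit 9) L32182 (by decide +kernel)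
theorem L32184 : W_12 (nat_lit 2) (nat_lit 0x20002c001340090000800060002000000000000000000) (nat_lit 0x0) (nat_lit 0x80004000200000000000000) := D_12 (nat_lit 74) (nat_lit 91) (nat_lit 57) (nat_lit 6) (nat_lit 5) (nat_lit 8) (nat_lit 6) (nat_lit 5) (nat_lit 7) (by decide +kernel)
theorem L32185 : W_12 (nat_lit 3) (nat_lit 0x20002c001340090000800060000000000000000000000) (nat_lit 0x0) (nat_lit 0x8000000080006000200000000000000) := T_12 (nat_lit 73) (nat_lit 123) (nat_lit 5) (nat_lit 5) (nat_lit 4) L32184 (by decide +kernel)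
theorem L32186 : W_12 (nat_lit 4) (nat_lit 0x20002c001340090000800020000000000000000000000) (nat_lit 0x0) (nat_lit 0x80000000c0007000200000000000000) := T_12 (nat_lit 90) (nat_lit 72) (nat_lit 4) (nat_lit 5) (nat_lit 8) L32185 (by decide +kernel)
theorem L32187 : W_12 (nat_lit 5) (nat_lit 0x20000c001340090000800020000000000000000000000) (nat_lit 0x0) (nat_lit 0x300000000080000000c0007000200000000000000) := T_12 (nat_lit 161) (nat_lit 160) (nat_lit 0) (nat_lit 8) (nat_lit 9) L32186 (by decide +kernel)
theorem L32188 : W_12 (nat_lit 6) (nat_lit 0x20000c001300090000800020000000000000000000000) (nat_lit 0x0) (nat_lit 0x300000c00080000000c0007000200000000000000) := T_12 (nat_lit 138) (nat_lit 139) (nat_lit 3) (nat_lit 2) (nat_lit 8) L32187 (by decide +kernel)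
theorem L32189 : W_12 (nat_lit 7) (nat_lit 0x200004001300090000800020000000000000000000000) (nat_lit 0x0) (nat_lit 0x1000380000c00080000000c0007000200000000000000) := T_12 (nat_lit 159) (nat_lit 176) (nat_lit 7) (nat_lit 5) (nat_lit 6) L32188 (by decide +kernel)
theorem L32190 : W_12 (nat_lit 8) (nat_lit 0x200004001300090000800000000000000000000000000) (nat_lit 0x0) (nat_lit 0x1000380000c00080004000e0007000200000000000000) := T_12 (nat_lit 89) (nat_lit 106) (nat_lit 4) (nat_lit 5) (nat_lit 9) L32189 (by decide +kernel)
theorem L32191 : W_12 (nat_lit 9) (nat_lit 0x200004001300090000000000000000000000000000000) (nat_lit 0x0) (nat_lit 0x14003a0000c0008000c000e0007000200000000000000) := Q_12 (nat_lit 107) (C_12 L32159 (C_12 L32183 (C_12 L32190 (C_12 L31912 N_12)))) (by decide +kernel)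
theorem L32192 : W_12 (nat_lit 2) (nat_lit 0x20001c001300090000800000000000000000000000000) (nat_lit 0x0) (nat_lit 0x40002000800000000000000000000000000000000000) := D_12 (nat_lit 157) (nat_lit 174) (nat_lit 143) (nat_lit 5) (nat_lit 5) (nat_lit 6) (nat_lit 2) (nat_lit 4) (nat_lit 9) (by decide +kernel)
theorem L32193 : W_12 (nat_lit 3) (nat_lit 0x20000c001300090000800000000000000000000000000) (nat_lit 0x0) (nat_lit 0x40032000800000000000000000000000000000000000) := T_12 (nat_lit 160) (nat_lit 161) (nat_lit 0) (nat_lit 8) (nat_lit 9) L32192 (by decide +kernel)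
theorem L32194 : W_12 (nat_lit 4) (nat_lit 0x200004001300090000800000000000000000000000000) (nat_lit 0x0) (nat_lit 0x14003a000800000000000000000000000000000000000) := T_12 (nat_lit 159) (nat_lit 176) (nat_lit 7) (nat_lit 5) (nat_lit 6) L32193 (by decide +kernel)
theorem L32195 : W_12 (nat_lit 7) (nat_lit 0x200004001300090000000000000000000000000000000) (nat_lit 0x0) (nat_lit 0x14003a000800068000c000e0007000200000000000000) := Q_12 (nat_lit 107) (C_12 L32167 (C_12 L32159 (C_12 L32194 N_12))) (by decide +kernel)
theorem L32196 : W_12 (nat_lit 2) (nat_lit 0x20001c0013000d0000000000000000000000000000000) (nat_lit 0x0) (nat_lit 0x4000000002000800000000000000000000000000000000000) := D_12 (nat_lit 143) (nat_lit 194) (nat_lit 157) (nat_lit 6) (nat_lit 7) (nat_lit 11) (nat_lit 2) (nat_lit 4) (nat_lit 9) (by decide +kernel)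
theorem L32197 : W_12 (nat_lit 3) (nat_lit 0x2000140013000d0000000000000000000000000000000) (nat_lit 0x0) (nat_lit 0x400000002a000800000000000000000000000000000000000) := T_12 (nat_lit 159) (nat_lit 161) (nat_lit 0) (nat_lit 8) (nat_lit 9) L32196 (by decide +kernel)
theorem L32198 : W_12 (nat_lit 4) (nat_lit 0x200014001300090000000000000000000000000000000) (nat_lit 0x0) (nat_lit 0x400000002a000800060000000000000000000000000000000) := T_12 (nat_lit 126) (nat_lit 125) (nat_lit 1) (nat_lit 8) (nat_lit 7) L32197 (by decide +kernel)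
theorem L32199 : W_12 (nat_lit 2) (nat_lit 0x20001c0013000d0000000000000000000000000000000) (nat_lit 0x0) (nat_lit 0x2000880000000000000000000000000000000000) := D_12 (nat_lit 157) (nat_lit 139) (nat_lit 143) (nat_lit 0) (nat_lit 7) (nat_lit 9) (nat_lit 2) (nat_lit 4) (nat_lit 9) (by decide +kernel)
theorem L32200 : W_12 (nat_lit 3) (nat_lit 0x2000140013000d0000000000000000000000000000000) (nat_lit 0x0) (nat_lit 0x2a000880000000000000000000000000000000000) := T_12 (nat_lit 159) (nat_lit 161) (nat_lit 0) (nat_lit 8) (nat_lit 9) L32199 (by decide +kernel)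
theorem L32201 : W_12 (nat_lit 4) (nat_lit 0x200014001300090000000000000000000000000000000) (nat_lit 0x0) (nat_lit 0x2a000880060000000000000000000000000000000) := T_12 (nat_lit 126) (nat_lit 125) (nat_lit 1) (nat_lit 8) (nat_lit 7) L32200 (by decide +kernel)
theorem L32202 : W_12 (nat_lit 2) (nat_lit 0x20001c001300090000000000000000000000000000000) (nat_lit 0x0) (nat_lit 0x20000c0000000000000000000000000000000000) := D_12 (nat_lit 139) (nat_lit 157) (nat_lit 138) (nat_lit 0) (nat_lit 7) (nat_lit 9) (nat_lit 3) (nat_lit 2) (nat_lit 8) (by decide +kernel)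
theorem L32203 : W_12 (nat_lit 3) (nat_lit 0x200014001300090000000000000000000000000000000) (nat_lit 0x0) (nat_lit 0x2a0000c0000000000000000000000000000000000) := T_12 (nat_lit 159) (nat_lit 161) (nat_lit 0) (nat_lit 8) (nat_lit 9) L32202 (by decide +kernel)
theorem L32204 : W_12 (nat_lit 2) (nat_lit 0x300014001b000d0000000000000000000000000000000) (nat_lit 0x0) (nat_lit 0xa000000000002000000000000000000000000000) := D_12 (nat_lit 159) (nat_lit 109) (nat_lit 157) (nat_lit 5) (nat_lit 7) (nat_lit 6) (nat_lit 2) (nat_lit 4) (nat_lit 9) (by decide +kernel)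
theorem L32205 : W_12 (nat_lit 3) (nat_lit 0x200014001b000d0000000000000000000000000000000) (nat_lit 0x0) (nat_lit 0x200010000a000000000002000000000000000000000000000) := T_12 (nat_lit 176) (nat_lit 193) (nat_lit 5) (nat_lit 7) (nat_lit 7) L32204 (by decide +kernel)
theorem L32206 : W_12 (nat_lit 4) (nat_lit 0x2000140013000d0000000000000000000000000000000) (nat_lit 0x0) (nat_lit 0x600010000a000800000002000000000000000000000000000) := T_12 (nat_lit 143) (nat_lit 194) (nat_lit 6) (nat_lit 7) (nat_lit 11) L32205 (by decide +kernel)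
theorem L32207 : W_12 (nat_lit 5) (nat_lit 0x200014001300090000000000000000000000000000000) (nat_lit 0x0) (nat_lit 0x600010000a000800060002000000000000000000000000000) := T_12 (nat_lit 126) (nat_lit 125) (nat_lit 1) (nat_lit 8) (nat_lit 7) L32206 (by decide +kernel)
theorem L32208 : W_12 (nat_lit 8) (nat_lit 0x200004001300090000000000000000000000000000000) (nat_lit 0x0) (nat_lit 0x500038001c000600010003a0008c0060002000000000000000000000000000) := Q_12 (nat_lit 160) (C_12 L32136 (C_12 L32134 (C_12 L32198 (C_12 L32201 (C_12 L32203 (C_12 L32207 N_12)))))) (by decide +kernel)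
theorem L32209 : W_12 (nat_lit 12) (nat_lit 0x200004001200090000000000000000000000000000000) (nat_lit 0x0) (nat_lit 0x500038001c000600016003bc009e0068002f000f0007000200000000000000) := Q_12 (nat_lit 140) (C_12 L32158 (C_12 L32176 (C_12 L32191 (C_12 L32195 (C_12 L32208 N_12))))) (by decide +kernel)
theorem L32210 : W_12 (nat_lit 2) (nat_lit 0x2c0004001200090000400000000000000000000000000) (nat_lit 0x0) (nat_lit 0x2000000000000800020000000000000000000000) := D_12 (nat_lit 107) (nat_lit 157) (nat_lit 89) (nat_lit 5) (nat_lit 5) (nat_lit 6) (nat_lit 4) (nat_lit 5) (nat_lit 9) (by decide +kernel)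
theorem L32211 : W_12 (nat_lit 3) (nat_lit 0x280004001200090000400000000000000000000000000) (nat_lit 0x0) (nat_lit 0x800040002000000000000800020000000000000000000000) := T_12 (nat_lit 174) (nat_lit 191) (nat_lit 5) (nat_lit 5) (nat_lit 7) L32210 (by decide +kernel)
theorem L32212 : W_12 (nat_lit 4) (nat_lit 0x280004001200090000000000000000000000000000000) (nat_lit 0x0) (nat_lit 0x800040002000000008000c00020000000000000000000000) := T_12 (nat_lit 106) (nat_lit 123) (nat_lit 4) (nat_lit 5) (nat_lit 10) L32211 (by decide +kernel)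
theorem L32217 : W_12 (nat_lit 6) (nat_lit 0x200004001200090000000000000000000000000000000) (nat_lit 0x0) (nat_lit 0xe8001c003b000800008000c00020000000000000000000000) := Q_12 (nat_lit 175) (C_12 L32069 (C_12 L32085 (C_12 L32212 (C_12 L32216 N_12)))) (by decide +kernel)
theorem L32218 : W_12 (nat_lit 5) (nat_lit 0x200004001200090000400000000000000000000000000) (nat_lit 0x0) (nat_lit 0x2000180008000000068000800020000000000000000000000) := T_12 (nat_lit 107) (nat_lit 89) (nat_lit 4) (nat_lit 5) (nat_lit 9) L31941 (by decide +kernel)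
theorem L32219 : W_12 (nat_lit 2) (nat_lit 0x30000b00070002800140012000d0000c00000000000000000000000000) (nat_lit 0x0) (nat_lit 0x10000c00000000000000000000000000000000000000000000000000000000) := D_12 (nat_lit 227) (nat_lit 244) (nat_lit 226) (nat_lit 5) (nat_lit 7) (nat_lit 10) (nat_lit 0) (nat_lit 8) (nat_lit 13) (by decide +kernel)
theorem L32220 : W_12 (nat_lit 3) (nat_lit 0x20000b00070002800140012000d0000c00000000000000000000000000) (nat_lit 0x0) (nat_lit 0x50001c00000000000000000000000000000000000000000000000000000000) := T_12 (nat_lit 228) (nat_lit 246) (nat_lit 7) (nat_lit 7) (nat_lit 10) L32219 (by decide +kernel)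
theorem L32221 : W_12 (nat_lit 4) (nat_lit 0xb00070002800140012000d0000c00000000000000000000000000) (nat_lit 0x0) (nat_lit 0x50003c00100000000000000000000000000000000000000000000000000000) := T_12 (nat_lit 229) (nat_lit 212) (nat_lit 7) (nat_lit 7) (nat_lit 9) L32220 (by decide +kernel)
theorem L32222 : W_12 (nat_lit 5) (nat_lit 0x300070002800140012000d0000c00000000000000000000000000) (nat_lit 0x0) (nat_lit 0x50003c00180000000000020000000000000000000000000000000000000000) := T_12 (nat_lit 211) (nat_lit 161) (nat_lit 6) (nat_lit 7) (nat_lit 12) L32221 (by decide +kernel)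
theorem L32223 : W_12 (nat_lit 6) (nat_lit 0x300070002800040012000d0000c00000000000000000000000000) (nat_lit 0x0) (nat_lit 0x50003c00180000000000030000800000000000000000000000000000000000) := T_12 (nat_lit 160) (nat_lit 143) (nat_lit 6) (nat_lit 7) (nat_lit 11) L32222 (by decide +kernel)
theorem L32224 : W_12 (nat_lit 7) (nat_lit 0x300030002800040012000d0000c00000000000000000000000000) (nat_lit 0x0) (nat_lit 0x50003c0018000c000000030000800000000000000000000000000000000000) := T_12 (nat_lit 194) (nat_lit 195) (nat_lit 1) (nat_lit 8) (nat_lit 11) L32223 (by decide +kernel)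
theorem L32225 : W_12 (nat_lit 8) (nat_lit 0x100030002800040012000d0000c00000000000000000000000000) (nat_lit 0x0) (nat_lit 0x50003e001a000c000000030000800000000000000000000000000000000000) := T_12 (nat_lit 209) (nat_lit 225) (nat_lit 5) (nat_lit 5) (nat_lit 9) L32224 (by decide +kernel)
theorem L32226 : W_12 (nat_lit 9) (nat_lit 0x30002800040012000d0000c00000000000000000000000000) (nat_lit 0x0) (nat_lit 0x50003e001b000c800000030000800000000000000000000000000000000000) := T_12 (nat_lit 208) (nat_lit 191) (nat_lit 5) (nat_lit 5) (nat_lit 8) L32225 (by decide +kernel)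
theorem L32227 : W_12 (nat_lit 10) (nat_lit 0x20002800040012000d0000c00000000000000000000000000) (nat_lit 0x0) (nat_lit 0x50003e001f000d800000030000800000000000000000000000000000000000) := T_12 (nat_lit 192) (nat_lit 210) (nat_lit 7) (nat_lit 5) (nat_lit 8) L32226 (by decide +kernel)
theorem L32228 : W_12 (nat_lit 11) (nat_lit 0x2800040012000d0000c00000000000000000000000000) (nat_lit 0x0) (nat_lit 0x50003e001f000f800100030000800000000000000000000000000000000000) := T_12 (nat_lit 193) (nat_lit 176) (nat_lit 7) (nat_lit 5) (nat_lit 7) L32227 (by decide +kernel)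
theorem L32229 : W_12 (nat_lit 12) (nat_lit 0x2000040012000d0000c00000000000000000000000000) (nat_lit 0x0) (nat_lit 0x50003e001f000f800180030000800008000000000000000000000000000000) := T_12 (nat_lit 175) (nat_lit 123) (nat_lit 4) (nat_lit 5) (nat_lit 10) L32228 (by decide +kernel)
theorem L32230 : W_12 (nat_lit 13) (nat_lit 0x200004001200090000c00000000000000000000000000) (nat_lit 0x0) (nat_lit 0x50003e001f000f800180030000800068000000000000000000000000000000) := T_12 (nat_lit 126) (nat_lit 125) (nat_lit 0) (nat_lit 8) (nat_lit 7) L32229 (by decide +kernel)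
theorem L32231 : W_12 (nat_lit 14) (nat_lit 0x200004001200090000400000000000000000000000000) (nat_lit 0x0) (nat_lit 0x50003e001f000f800180030000800068000800020000000000000000000000) := T_12 (nat_lit 107) (nat_lit 89) (nat_lit 4) (nat_lit 5) (nat_lit 9) L32230 (by decide +kernel)
theorem L32232 : W_12 (nat_lit 2) (nat_lit 0x280004001200090000c00000000000000000000000000) (nat_lit 0x0) (nat_lit 0x2000100008000000000000000000000000000000000000000) := D_12 (nat_lit 176) (nat_lit 193) (nat_lit 159) (nat_lit 7) (nat_lit 5) (nat_lit 7) (nat_lit 7) (nat_lit 5) (nat_lit 6) (by decide +kernel)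
theorem L32233 : W_12 (nat_lit 3) (nat_lit 0x280004001200090000400000000000000000000000000) (nat_lit 0x0) (nat_lit 0x2000100008000000000000800020000000000000000000000) := T_12 (nat_lit 107) (nat_lit 89) (nat_lit 4) (nat_lit 5) (nat_lit 9) L32232 (by decide +kernel)
theorem L32234 : W_12 (nat_lit 4) (nat_lit 0x200004001200090000400000000000000000000000000) (nat_lit 0x0) (nat_lit 0x2000180008000000008000800020000000000000000000000) := T_12 (nat_lit 175) (nat_lit 123) (nat_lit 4) (nat_lit 5) (nat_lit 10) L32233 (by decide +kernel)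
theorem L32235 : W_12 (nat_lit 2) (nat_lit 0x200004001200098000400000000000000000000000000) (nat_lit 0x0) (nat_lit 0x800020001000000000000000000) := D_12 (nat_lit 89) (nat_lit 107) (nat_lit 72) (nat_lit 4) (nat_lit 5) (nat_lit 9) (nat_lit 7) (nat_lit 4) (nat_lit 4) (by decide +kernel)
theorem L32236 : W_12 (nat_lit 3) (nat_lit 0x200004001200090000400000000000000000000000000) (nat_lit 0x0) (nat_lit 0x80000000000008000800020001000000000000000000) := T_12 (nat_lit 123) (nat_lit 175) (nat_lit 4) (nat_lit 5) (nat_lit 10) L32235 (by decide +kernel)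
theorem L32237 : W_12 (nat_lit 2) (nat_lit 0x200004001200090000400020000000000000000000000) (nat_lit 0x0) (nat_lit 0x100008000000000001000000000000000000) := D_12 (nat_lit 123) (nat_lit 72) (nat_lit 140) (nat_lit 7) (nat_lit 4) (nat_lit 4) (nat_lit 7) (nat_lit 4) (nat_lit 5) (by decide +kernel)
theorem L32238 : W_12 (nat_lit 3) (nat_lit 0x200004001200090000400000000000000000000000000) (nat_lit 0x0) (nat_lit 0x100008000800020001000000000000000000) := T_12 (nat_lit 89) (nat_lit 107) (nat_lit 4) (nat_lit 5) (nat_lit 9) L32237 (by decide +kernel)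
theorem L32239 : W_12 (nat_lit 2) (nat_lit 0x30000b4007000280016001200090000400000000000000000000000000) (nat_lit 0x0) (nat_lit 0x10000c00000000000000000000000000000000000000000000000000000000) := D_12 (nat_lit 227) (nat_lit 244) (nat_lit 226) (nat_lit 5) (nat_lit 7) (nat_lit 10) (nat_lit 0) (nat_lit 8) (nat_lit 13) (by decide +kernel)
theorem L32240 : W_12 (nat_lit 3) (nat_lit 0x20000b4007000280016001200090000400000000000000000000000000) (nat_lit 0x0) (nat_lit 0x50001c00000000000000000000000000000000000000000000000000000000) := T_12 (nat_lit 228) (nat_lit 246) (nat_lit 7) (nat_lit 7) (nat_lit 10) L32239 (by decide +kernel)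
theorem L32241 : W_12 (nat_lit 4) (nat_lit 0xb4007000280016001200090000400000000000000000000000000) (nat_lit 0x0) (nat_lit 0x50003c00100000000000000000000000000000000000000000000000000000) := T_12 (nat_lit 229) (nat_lit 212) (nat_lit 7) (nat_lit 7) (nat_lit 9) L32240 (by decide +kernel)
theorem L32242 : W_12 (nat_lit 5) (nat_lit 0x34007000280016001200090000400000000000000000000000000) (nat_lit 0x0) (nat_lit 0x50003c00180000000000020000000000000000000000000000000000000000) := T_12 (nat_lit 211) (nat_lit 161) (nat_lit 6) (nat_lit 7) (nat_lit 12) L32241 (by decide +kernel)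
theorem L32243 : W_12 (nat_lit 6) (nat_lit 0x34007000280006001200090000400000000000000000000000000) (nat_lit 0x0) (nat_lit 0x50003c00180000000000030000800000000000000000000000000000000000) := T_12 (nat_lit 160) (nat_lit 143) (nat_lit 6) (nat_lit 7) (nat_lit 11) L32242 (by decide +kernel)
theorem L32244 : W_12 (nat_lit 7) (nat_lit 0x34003000280006001200090000400000000000000000000000000) (nat_lit 0x0) (nat_lit 0x50003c0018000c000000030000800000000000000000000000000000000000) := T_12 (nat_lit 194) (nat_lit 195) (nat_lit 1) (nat_lit 8) (nat_lit 11) L32243 (by decide +kernel)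
theorem L32245 : W_12 (nat_lit 8) (nat_lit 0x30003000280006001200090000400000000000000000000000000) (nat_lit 0x0) (nat_lit 0x50003c0018c00c000000030000800000000000000000000000000000000000) := T_12 (nat_lit 206) (nat_lit 207) (nat_lit 2) (nat_lit 2) (nat_lit 12) L32244 (by decide +kernel)
theorem L32246 : W_12 (nat_lit 9) (nat_lit 0x30003000280004001200090000400000000000000000000000000) (nat_lit 0x0) (nat_lit 0x50003c0018c00c000000032000900000000000000000000000000000000000) := T_12 (nat_lit 157) (nat_lit 140) (nat_lit 4) (nat_lit 5) (nat_lit 12) L32245 (by decide +kernel)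
theorem L32247 : W_12 (nat_lit 10) (nat_lit 0x10003000280004001200090000400000000000000000000000000) (nat_lit 0x0) (nat_lit 0x50003e001ac00c000000032000900000000000000000000000000000000000) := T_12 (nat_lit 209) (nat_lit 225) (nat_lit 5) (nat_lit 5) (nat_lit 9) L32246 (by decide +kernel)
theorem L32248 : W_12 (nat_lit 11) (nat_lit 0x3000280004001200090000400000000000000000000000000) (nat_lit 0x0) (nat_lit 0x50003e001bc00c800000032000900000000000000000000000000000000000) := T_12 (nat_lit 208) (nat_lit 191) (nat_lit 5) (nat_lit 5) (nat_lit 8) L32247 (by decide +kernel)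
theorem L32249 : W_12 (nat_lit 12) (nat_lit 0x2000280004001200090000400000000000000000000000000) (nat_lit 0x0) (nat_lit 0x50003e001fc00d800000032000900000000000000000000000000000000000) := T_12 (nat_lit 192) (nat_lit 210) (nat_lit 7) (nat_lit 5) (nat_lit 8) L32248 (by decide +kernel)
theorem L32250 : W_12 (nat_lit 13) (nat_lit 0x280004001200090000400000000000000000000000000) (nat_lit 0x0) (nat_lit 0x50003e001fc00f800100032000900000000000000000000000000000000000) := T_12 (nat_lit 193) (nat_lit 176) (nat_lit 7) (nat_lit 5) (nat_lit 7) L32249 (by decide +kernel)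
theorem L32251 : W_12 (nat_lit 14) (nat_lit 0x200004001200090000400000000000000000000000000) (nat_lit 0x0) (nat_lit 0x50003e001fc00f800180032000900008000000000000000000000000000000) := T_12 (nat_lit 175) (nat_lit 123) (nat_lit 4) (nat_lit 5) (nat_lit 10) L32250 (by decide +kernel)
theorem L32252 : W_12 (nat_lit 2) (nat_lit 0x30000c0004000300014001200090000400000000000000000000000000) (nat_lit 0x0) (nat_lit 0x20000000000002000080000000000000000000000000000000000000000000) := D_12 (nat_lit 193) (nat_lit 175) (nat_lit 245) (nat_lit 7) (nat_lit 5) (nat_lit 7) (nat_lit 4) (nat_lit 7) (nat_lit 14) (by decide +kernel)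
theorem L32253 : W_12 (nat_lit 3) (nat_lit 0x30000c0004000200014001200090000400000000000000000000000000) (nat_lit 0x0) (nat_lit 0x20000000000002000180008000000000000000000000000000000000000000) := T_12 (nat_lit 176) (nat_lit 159) (nat_lit 4) (nat_lit 7) (nat_lit 13) L32252 (by decide +kernel)
theorem L32254 : W_12 (nat_lit 4) (nat_lit 0x20000c0004000200014001200090000400000000000000000000000000) (nat_lit 0x0) (nat_lit 0x60001000000002000180008000000000000000000000000000000000000000) := T_12 (nat_lit 228) (nat_lit 246) (nat_lit 7) (nat_lit 7) (nat_lit 10) L32253 (by decide +kernel)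
theorem L32255 : W_12 (nat_lit 5) (nat_lit 0xc0004000200014001200090000400000000000000000000000000) (nat_lit 0x0) (nat_lit 0x60003000100002000180008000000000000000000000000000000000000000) := T_12 (nat_lit 229) (nat_lit 212) (nat_lit 7) (nat_lit 7) (nat_lit 9) L32254 (by decide +kernel)
theorem L32256 : W_12 (nat_lit 6) (nat_lit 0x80004000200014001200090000400000000000000000000000000) (nat_lit 0x0) (nat_lit 0x60003800140002000180008000000000000000000000000000000000000000) := T_12 (nat_lit 210) (nat_lit 227) (nat_lit 5) (nat_lit 7) (nat_lit 9) L32255 (by decide +kernel)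
theorem L32257 : W_12 (nat_lit 7) (nat_lit 0x4000200014001200090000400000000000000000000000000) (nat_lit 0x0) (nat_lit 0x600038001c0002000180028000000000000000000000000000000000000000) := T_12 (nat_lit 211) (nat_lit 161) (nat_lit 6) (nat_lit 7) (nat_lit 12) L32256 (by decide +kernel)
theorem L32258 : W_12 (nat_lit 8) (nat_lit 0x200014001200090000400000000000000000000000000) (nat_lit 0x0) (nat_lit 0x600038001c0006000180028000800000000000000000000000000000000000) := T_12 (nat_lit 194) (nat_lit 143) (nat_lit 6) (nat_lit 7) (nat_lit 11) L32257 (by decide +kernel)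
theorem L32259 : W_12 (nat_lit 2) (nat_lit 0x28000800040002000140012000d0000c00000000000000000000000000) (nat_lit 0x0) (nat_lit 0x50001000000000000000000000000000000000000000000000000000000000) := D_12 (nat_lit 228) (nat_lit 244) (nat_lit 246) (nat_lit 5) (nat_lit 7) (nat_lit 10) (nat_lit 7) (nat_lit 7) (nat_lit 10) (by decide +kernel)
theorem L32260 : W_12 (nat_lit 3) (nat_lit 0x8000800040002000140012000d0000c00000000000000000000000000) (nat_lit 0x0) (nat_lit 0x50003000100000000000000000000000000000000000000000000000000000) := T_12 (nat_lit 229) (nat_lit 212) (nat_lit 7) (nat_lit 7) (nat_lit 9) L32259 (by decide +kernel)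
theorem L32261 : W_12 (nat_lit 4) (nat_lit 0x800040002000140012000d0000c00000000000000000000000000) (nat_lit 0x0) (nat_lit 0x50003800140000000000000000000000000000000000000000000000000000) := T_12 (nat_lit 227) (nat_lit 210) (nat_lit 5) (nat_lit 7) (nat_lit 9) L32260 (by decide +kernel)
theorem L32262 : W_12 (nat_lit 5) (nat_lit 0x40002000140012000d0000c00000000000000000000000000) (nat_lit 0x0) (nat_lit 0x500038001c0000000000020000000000000000000000000000000000000000) := T_12 (nat_lit 211) (nat_lit 161) (nat_lit 6) (nat_lit 7) (nat_lit 12) L32261 (by decide +kernel)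
theorem L32263 : W_12 (nat_lit 6) (nat_lit 0x4000200014001200090000c00000000000000000000000000) (nat_lit 0x0) (nat_lit 0x500038001c0000000000020000000060000000000000000000000000000000) := T_12 (nat_lit 126) (nat_lit 125) (nat_lit 0) (nat_lit 8) (nat_lit 7) L32262 (by decide +kernel)
theorem L32264 : W_12 (nat_lit 7) (nat_lit 0x4000200014001200090000400000000000000000000000000) (nat_lit 0x0) (nat_lit 0x500038001c0000000000020000000060000800020000000000000000000000) := T_12 (nat_lit 107) (nat_lit 89) (nat_lit 4) (nat_lit 5) (nat_lit 9) L32263 (by decide +kernel)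
theorem L32265 : W_12 (nat_lit 8) (nat_lit 0x200014001200090000400000000000000000000000000) (nat_lit 0x0) (nat_lit 0x500038001c0004000000020000800060000800020000000000000000000000) := T_12 (nat_lit 194) (nat_lit 143) (nat_lit 6) (nat_lit 7) (nat_lit 11) L32264 (by decide +kernel)
theorem L32266 : W_12 (nat_lit 2) (nat_lit 0x400020001c0013000d0000c00000000000000000000000000) (nat_lit 0x0) (nat_lit 0x2000080000000000040000000000000000000000) := D_12 (nat_lit 157) (nat_lit 139) (nat_lit 90) (nat_lit 0) (nat_lit 7) (nat_lit 9) (nat_lit 5) (nat_lit 5) (nat_lit 5) (by decide +kernel)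
theorem L32267 : W_12 (nat_lit 3) (nat_lit 0x400020001c0012000d0000c00000000000000000000000000) (nat_lit 0x0) (nat_lit 0x22000180000000000040000000000000000000000) := T_12 (nat_lit 140) (nat_lit 161) (nat_lit 0) (nat_lit 8) (nat_lit 9) L32266 (by decide +kernel)
theorem L32268 : W_12 (nat_lit 4) (nat_lit 0x40002000140012000d0000c00000000000000000000000000) (nat_lit 0x0) (nat_lit 0x10002a000180000000000040000000000000000000000) := T_12 (nat_lit 159) (nat_lit 176) (nat_lit 7) (nat_lit 5) (nat_lit 6) L32267 (by decide +kernel)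
theorem L32269 : W_12 (nat_lit 5) (nat_lit 0x4000200014001200090000c00000000000000000000000000) (nat_lit 0x0) (nat_lit 0x10002a000180060000000040000000000000000000000) := T_12 (nat_lit 126) (nat_lit 125) (nat_lit 0) (nat_lit 8) (nat_lit 7) L32268 (by decide +kernel)
theorem L32270 : W_12 (nat_lit 6) (nat_lit 0x4000200014001200090000400000000000000000000000000) (nat_lit 0x0) (nat_lit 0x10002a000180060000800060000000000000000000000) := T_12 (nat_lit 107) (nat_lit 89) (nat_lit 4) (nat_lit 5) (nat_lit 9) L32269 (by decide +kernel)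
theorem L32271 : W_12 (nat_lit 7) (nat_lit 0x200014001200090000400000000000000000000000000) (nat_lit 0x0) (nat_lit 0x400010002a000980060000800060000000000000000000000) := T_12 (nat_lit 194) (nat_lit 143) (nat_lit 6) (nat_lit 7) (nat_lit 11) L32270 (by decide +kernel)
theorem L32272 : W_12 (nat_lit 2) (nat_lit 0x20001e0012000d0000c00000000000000000000000000) (nat_lit 0x0) (nat_lit 0x20000180000000000000000000000000000000000) := D_12 (nat_lit 140) (nat_lit 139) (nat_lit 161) (nat_lit 0) (nat_lit 7) (nat_lit 9) (nat_lit 0) (nat_lit 8) (nat_lit 9) (by decide +kernel)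
theorem L32273 : W_12 (nat_lit 3) (nat_lit 0x20001c0012000d0000c00000000000000000000000000) (nat_lit 0x0) (nat_lit 0x22000980000000000000000000000000000000000) := T_12 (nat_lit 157) (nat_lit 143) (nat_lit 2) (nat_lit 4) (nat_lit 9) L32272 (by decide +kernel)
theorem L32274 : W_12 (nat_lit 4) (nat_lit 0x2000140012000d0000c00000000000000000000000000) (nat_lit 0x0) (nat_lit 0x10002a000980000000000000000000000000000000000) := T_12 (nat_lit 159) (nat_lit 176) (nat_lit 7) (nat_lit 5) (nat_lit 6) L32273 (by decide +kernel)
theorem L32275 : W_12 (nat_lit 5) (nat_lit 0x200014001200090000c00000000000000000000000000) (nat_lit 0x0) (nat_lit 0x10002a000980060000000000000000000000000000000) := T_12 (nat_lit 126) (nat_lit 125) (nat_lit 0) (nat_lit 8) (nat_lit 7) L32274 (by decide +kernel)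
theorem L32276 : W_12 (nat_lit 6) (nat_lit 0x200014001200090000400000000000000000000000000) (nat_lit 0x0) (nat_lit 0x10002a000980060000800020000000000000000000000) := T_12 (nat_lit 107) (nat_lit 89) (nat_lit 4) (nat_lit 5) (nat_lit 9) L32275 (by decide +kernel)
theorem L32277 : W_12 (nat_lit 2) (nat_lit 0x20001c0013000d0000c00000000000000000000000000) (nat_lit 0x0) (nat_lit 0x2000080000000000040000000000000000000000) := D_12 (nat_lit 157) (nat_lit 139) (nat_lit 90) (nat_lit 0) (nat_lit 7) (nat_lit 9) (nat_lit 5) (nat_lit 5) (nat_lit 5) (by decide +kernel)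
theorem L32278 : W_12 (nat_lit 3) (nat_lit 0x20001c0012000d0000c00000000000000000000000000) (nat_lit 0x0) (nat_lit 0x22000180000000000040000000000000000000000) := T_12 (nat_lit 140) (nat_lit 161) (nat_lit 0) (nat_lit 8) (nat_lit 9) L32277 (by decide +kernel)
theorem L32279 : W_12 (nat_lit 4) (nat_lit 0x2000140012000d0000c00000000000000000000000000) (nat_lit 0x0) (nat_lit 0x10002a000180000000000040000000000000000000000) := T_12 (nat_lit 159) (nat_lit 176) (nat_lit 7) (nat_lit 5) (nat_lit 6) L32278 (by decide +kernel)
theorem L32280 : W_12 (nat_lit 5) (nat_lit 0x200014001200090000c00000000000000000000000000) (nat_lit 0x0) (nat_lit 0x10002a000180060000000040000000000000000000000) := T_12 (nat_lit 126) (nat_lit 125) (nat_lit 0) (nat_lit 8) (nat_lit 7) L32279 (by decide +kernel)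
theorem L32281 : W_12 (nat_lit 6) (nat_lit 0x200014001200090000400000000000000000000000000) (nat_lit 0x0) (nat_lit 0x10002a000180060000800060000000000000000000000) := T_12 (nat_lit 107) (nat_lit 89) (nat_lit 4) (nat_lit 5) (nat_lit 9) L32280 (by decide +kernel)
theorem L32282 : W_12 (nat_lit 2) (nat_lit 0x20001c0012000d0000c00000000000000000000000000) (nat_lit 0x0) (nat_lit 0x4000000002000800000000000000000000000000000000000) := D_12 (nat_lit 143) (nat_lit 157) (nat_lit 194) (nat_lit 2) (nat_lit 4) (nat_lit 9) (nat_lit 6) (nat_lit 7) (nat_lit 11) (by decide +kernel)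
theorem L32283 : W_12 (nat_lit 3) (nat_lit 0x2000140012000d0000c00000000000000000000000000) (nat_lit 0x0) (nat_lit 0x400010000a000800000000000000000000000000000000000) := T_12 (nat_lit 159) (nat_lit 176) (nat_lit 7) (nat_lit 5) (nat_lit 6) L32282 (by decide +kernel)
theorem L32284 : W_12 (nat_lit 4) (nat_lit 0x200014001200090000c00000000000000000000000000) (nat_lit 0x0) (nat_lit 0x400010000a000800060000000000000000000000000000000) := T_12 (nat_lit 126) (nat_lit 125) (nat_lit 0) (nat_lit 8) (nat_lit 7) L32283 (by decide +kernel)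
theorem L32285 : W_12 (nat_lit 5) (nat_lit 0x200014001200090000400000000000000000000000000) (nat_lit 0x0) (nat_lit 0x400010000a000800060000800020000000000000000000000) := T_12 (nat_lit 107) (nat_lit 89) (nat_lit 4) (nat_lit 5) (nat_lit 9) L32284 (by decide +kernel)
theorem L32286 : W_12 (nat_lit 9) (nat_lit 0x200004001200090000400000000000000000000000000) (nat_lit 0x0) (nat_lit 0x700038001c000600018003a000980060000800060000000000000000000000) := Q_12 (nat_lit 160) (C_12 L32258 (C_12 L32265 (C_12 L32271 (C_12 L32276 (C_12 L32281 (C_12 L32285 N_12)))))) (by decide +kernel)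
theorem L32287 : W_12 (nat_lit 15) (nat_lit 0x200004001200090000000000000000000000000000000) (nat_lit 0x0) (nat_lit 0x70003e001fc00f80018003a000980068000c00060001000000000000000000) := Q_12 (nat_lit 106) (C_12 L32218 (C_12 L32231 (C_12 L32234 (C_12 L32236 (C_12 L32238 (C_12 L32251 (C_12 L32286 N_12))))))) (by decide +kernel)
theorem L32288 : W_12 (nat_lit 6) (nat_lit 0x200004001200090000000000000000000000000000000) (nat_lit 0x0) (nat_lit 0x5000f8001c0030000900008000400000000000000000000000000) := Q_12 (nat_lit 175) (C_12 L32216 (C_12 L32056 (C_12 L32077 N_12))) (by decide +kernel)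
theorem L32289 : W_12 (nat_lit 5) (nat_lit 0x3000040012000d0000c00000000000000000000000000) (nat_lit 0x0) (nat_lit 0xe8000c0030000800000000000000000000000000000000000) := T_12 (nat_lit 175) (nat_lit 193) (nat_lit 7) (nat_lit 5) (nat_lit 7) L32059 (by decide +kernel)
theorem L32290 : W_12 (nat_lit 6) (nat_lit 0x2000040012000d0000c00000000000000000000000000) (nat_lit 0x0) (nat_lit 0xe8001c0038000800000000000000000000000000000000000) := T_12 (nat_lit 176) (nat_lit 159) (nat_lit 7) (nat_lit 5) (nat_lit 6) L32289 (by decide +kernel)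
theorem L32291 : W_12 (nat_lit 7) (nat_lit 0x200004001200090000c00000000000000000000000000) (nat_lit 0x0) (nat_lit 0xe8001c0038000800060000000000000000000000000000000) := T_12 (nat_lit 126) (nat_lit 125) (nat_lit 0) (nat_lit 8) (nat_lit 7) L32290 (by decide +kernel)
theorem L32292 : W_12 (nat_lit 8) (nat_lit 0x200004001200090000800000000000000000000000000) (nat_lit 0x0) (nat_lit 0xe8001c0038000800060000400020000000000000000000000) := T_12 (nat_lit 106) (nat_lit 89) (nat_lit 4) (nat_lit 5) (nat_lit 9) L32291 (by decide +kernel)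
theorem L32293 : W_12 (nat_lit 7) (nat_lit 0x4000200014001200090000800000000000000000000000000) (nat_lit 0x0) (nat_lit 0x500038001c0000000000020000000060000400020000000000000000000000) := T_12 (nat_lit 106) (nat_lit 89) (nat_lit 4) (nat_lit 5) (nat_lit 9) L32263 (by decide +kernel)
theorem L32294 : W_12 (nat_lit 8) (nat_lit 0x200014001200090000800000000000000000000000000) (nat_lit 0x0) (nat_lit 0x500038001c0004000000020000800060000400020000000000000000000000) := T_12 (nat_lit 194) (nat_lit 143) (nat_lit 6) (nat_lit 7) (nat_lit 11) L32293 (by decide +kernel)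
theorem L32295 : W_12 (nat_lit 2) (nat_lit 0x400020001c001200090000800000000000000000000000000) (nat_lit 0x0) (nat_lit 0x80000000000020000100000000000000000000000000000000000) := D_12 (nat_lit 161) (nat_lit 140) (nat_lit 211) (nat_lit 0) (nat_lit 8) (nat_lit 9) (nat_lit 6) (nat_lit 7) (nat_lit 12) (by decide +kernel)
theorem L32296 : W_12 (nat_lit 3) (nat_lit 0x4000200014001200090000800000000000000000000000000) (nat_lit 0x0) (nat_lit 0x80000000100028000100000000000000000000000000000000000) := T_12 (nat_lit 159) (nat_lit 176) (nat_lit 7) (nat_lit 5) (nat_lit 6) L32295 (by decide +kernel)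
theorem L32297 : W_12 (nat_lit 4) (nat_lit 0x200014001200090000800000000000000000000000000) (nat_lit 0x0) (nat_lit 0x80004000100028000900000000000000000000000000000000000) := T_12 (nat_lit 194) (nat_lit 143) (nat_lit 6) (nat_lit 7) (nat_lit 11) L32296 (by decide +kernel)
theorem L32298 : W_12 (nat_lit 2) (nat_lit 0x400020001c001300090000800000000000000000000000000) (nat_lit 0x0) (nat_lit 0x2000080000000000040000000000000000000000) := D_12 (nat_lit 157) (nat_lit 139) (nat_lit 90) (nat_lit 0) (nat_lit 7) (nat_lit 9) (nat_lit 5) (nat_lit 5) (nat_lit 5) (by decide +kernel)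
theorem L32299 : W_12 (nat_lit 3) (nat_lit 0x400020001c001200090000800000000000000000000000000) (nat_lit 0x0) (nat_lit 0x22000180000000000040000000000000000000000) := T_12 (nat_lit 140) (nat_lit 161) (nat_lit 0) (nat_lit 8) (nat_lit 9) L32298 (by decide +kernel)
theorem L32300 : W_12 (nat_lit 4) (nat_lit 0x4000200014001200090000800000000000000000000000000) (nat_lit 0x0) (nat_lit 0x10002a000180000000000040000000000000000000000) := T_12 (nat_lit 159) (nat_lit 176) (nat_lit 7) (nat_lit 5) (nat_lit 6) L32299 (by decide +kernel)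
theorem L32301 : W_12 (nat_lit 5) (nat_lit 0x200014001200090000800000000000000000000000000) (nat_lit 0x0) (nat_lit 0x400010002a000980000000000040000000000000000000000) := T_12 (nat_lit 194) (nat_lit 143) (nat_lit 6) (nat_lit 7) (nat_lit 11) L32300 (by decide +kernel)
theorem L32302 : W_12 (nat_lit 6) (nat_lit 0x200014001200090000800000000000000000000000000) (nat_lit 0x0) (nat_lit 0x10002a000180060000400060000000000000000000000) := T_12 (nat_lit 106) (nat_lit 89) (nat_lit 4) (nat_lit 5) (nat_lit 9) L32280 (by decide +kernel)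
theorem L32303 : W_12 (nat_lit 2) (nat_lit 0x20001c001200090000800000000000000000000000000) (nat_lit 0x0) (nat_lit 0x4000000002000800000000000000000000000000000000000) := D_12 (nat_lit 143) (nat_lit 157) (nat_lit 194) (nat_lit 2) (nat_lit 4) (nat_lit 9) (nat_lit 6) (nat_lit 7) (nat_lit 11) (by decide +kernel)
theorem L32304 : W_12 (nat_lit 3) (nat_lit 0x200014001200090000800000000000000000000000000) (nat_lit 0x0) (nat_lit 0x400010000a000800000000000000000000000000000000000) := T_12 (nat_lit 159) (nat_lit 176) (nat_lit 7) (nat_lit 5) (nat_lit 6) L32303 (by decide +kernel)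
theorem L32305 : W_12 (nat_lit 9) (nat_lit 0x200004001200090000800000000000000000000000000) (nat_lit 0x0) (nat_lit 0x500038001c000400010003a000980060000400060000000000000000000000) := Q_12 (nat_lit 160) (C_12 L32294 (C_12 L32297 (C_12 L32301 (C_12 L32302 (C_12 L32304 N_12))))) (by decide +kernel)
theorem L32306 : W_12 (nat_lit 10) (nat_lit 0x200004001200090000000000000000000000000000000) (nat_lit 0x0) (nat_lit 0x500038001c000e8001c003a000980060000c000e0007000280000000000000) := Q_12 (nat_lit 107) (C_12 L31954 (C_12 L32292 (C_12 L32114 (C_12 L32305 N_12)))) (by decide +kernel)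
theorem L32307 : W_12 (nat_lit 2) (nat_lit 0x200018002800040013000d0000000000000000000000000000000) (nat_lit 0x0) (nat_lit 0x800040002000000000000000000000000000000000000000000000000) := D_12 (nat_lit 210) (nat_lit 193) (nat_lit 227) (nat_lit 7) (nat_lit 5) (nat_lit 8) (nat_lit 7) (nat_lit 5) (nat_lit 9) (by decide +kernel)
theorem L32308 : W_12 (nat_lit 3) (nat_lit 0x18002800040013000d0000000000000000000000000000000) (nat_lit 0x0) (nat_lit 0x800060002000000002000000000000000000000000000000000000000) := T_12 (nat_lit 209) (nat_lit 157) (nat_lit 4) (nat_lit 5) (nat_lit 12) L32307 (by decide +kernel)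
theorem L32309 : W_12 (nat_lit 4) (nat_lit 0x1800280004001300090000000000000000000000000000000) (nat_lit 0x0) (nat_lit 0x800060002000000002000000060000000000000000000000000000000) := T_12 (nat_lit 126) (nat_lit 125) (nat_lit 1) (nat_lit 8) (nat_lit 7) L32308 (by decide +kernel)
theorem L32310 : W_12 (nat_lit 5) (nat_lit 0x1800280004001200090000000000000000000000000000000) (nat_lit 0x0) (nat_lit 0x800060002000000002000100068000000000000000000000000000000) := T_12 (nat_lit 140) (nat_lit 123) (nat_lit 4) (nat_lit 5) (nat_lit 11) L32309 (by decide +kernel)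
theorem L32311 : W_12 (nat_lit 6) (nat_lit 0x800280004001200090000000000000000000000000000000) (nat_lit 0x0) (nat_lit 0x800070003000000002000100068000000000000000000000000000000) := T_12 (nat_lit 192) (nat_lit 208) (nat_lit 5) (nat_lit 5) (nat_lit 8) L32310 (by decide +kernel)
theorem L32312 : W_12 (nat_lit 7) (nat_lit 0x280004001200090000000000000000000000000000000) (nat_lit 0x0) (nat_lit 0x800070003800040002000100068000000000000000000000000000000) := T_12 (nat_lit 191) (nat_lit 174) (nat_lit 5) (nat_lit 5) (nat_lit 7) L32311 (by decide +kernel)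
theorem L32313 : W_12 (nat_lit 2) (nat_lit 0x38001e001200090000000000000000000000000000000) (nat_lit 0x0) (nat_lit 0x60000100000000000000000000000000000000000) := D_12 (nat_lit 161) (nat_lit 162) (nat_lit 140) (nat_lit 1) (nat_lit 9) (nat_lit 9) (nat_lit 0) (nat_lit 8) (nat_lit 9) (by decide +kernel)
theorem L32314 : W_12 (nat_lit 3) (nat_lit 0x38000e001200090000000000000000000000000000000) (nat_lit 0x0) (nat_lit 0x70000900000000000000000000000000000000000) := T_12 (nat_lit 160) (nat_lit 143) (nat_lit 2) (nat_lit 4) (nat_lit 9) L32313 (by decide +kernel)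
theorem L32315 : W_12 (nat_lit 4) (nat_lit 0x38000c001200090000000000000000000000000000000) (nat_lit 0x0) (nat_lit 0x73000900000000000000000000000000000000000) := T_12 (nat_lit 157) (nat_lit 156) (nat_lit 3) (nat_lit 3) (nat_lit 9) L32314 (by decide +kernel)
theorem L32316 : W_12 (nat_lit 5) (nat_lit 0x380004001200090000000000000000000000000000000) (nat_lit 0x0) (nat_lit 0x7b000900000000800000000000000000000000000) := T_12 (nat_lit 159) (nat_lit 107) (nat_lit 7) (nat_lit 5) (nat_lit 6) L32315 (by decide +kernel)
theorem L32317 : W_12 (nat_lit 6) (nat_lit 0x280004001200090000000000000000000000000000000) (nat_lit 0x0) (nat_lit 0x200010007b000900000000800000000000000000000000000) := T_12 (nat_lit 176) (nat_lit 193) (nat_lit 7) (nat_lit 5) (nat_lit 7) L32316 (by decide +kernel)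
theorem L32318 : W_12 (nat_lit 4) (nat_lit 0x2c0004001200090000800000000000000000000000000) (nat_lit 0x0) (nat_lit 0xc000100038000800000000000000000000000000000000000) := T_12 (nat_lit 176) (nat_lit 159) (nat_lit 7) (nat_lit 5) (nat_lit 6) L32065 (by decide +kernel)
theorem L32319 : W_12 (nat_lit 5) (nat_lit 0x2c0004001200090000000000000000000000000000000) (nat_lit 0x0) (nat_lit 0xc00010003a000800000000800000000000000000000000000) := T_12 (nat_lit 107) (nat_lit 157) (nat_lit 5) (nat_lit 5) (nat_lit 6) L32318 (by decide +kernel)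
theorem L32320 : W_12 (nat_lit 6) (nat_lit 0x280004001200090000000000000000000000000000000) (nat_lit 0x0) (nat_lit 0xc80014003a000800000000800000000000000000000000000) := T_12 (nat_lit 174) (nat_lit 191) (nat_lit 5) (nat_lit 5) (nat_lit 7) L32319 (by decide +kernel)
theorem L32321 : W_12 (nat_lit 8) (nat_lit 0x200004001200090000000000000000000000000000000) (nat_lit 0x0) (nat_lit 0x80007000f8001c007b000900068000800000000000000000000000000) := Q_12 (nat_lit 175) (C_12 L32216 (C_12 L32312 (C_12 L32317 (C_12 L32320 N_12)))) (by decide +kernel)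
theorem L32322 : W_12 (nat_lit 16) (nat_lit 0x200000001200090000000000000000000000000000000) (nat_lit 0x0) (nat_lit 0x70003e001fc00fe001f007fc009e0068002f003f000f000380000000000000) := Q_12 (nat_lit 158) (C_12 L32070 (C_12 L32086 (C_12 L32087 (C_12 L32125 (C_12 L32209 (C_12 L32217 (C_12 L32287 (C_12 L32288 (C_12 L32306 (C_12 L32321 N_12)))))))))) (by decide +kernel)
theorem L32327 : W_12 (nat_lit 5) (nat_lit 0x200010001a000d0000000000000000000000000000000) (nat_lit 0x0) (nat_lit 0x2000100028000000028002000100008000000000000000000) := T_12 (nat_lit 123) (nat_lit 125) (nat_lit 3) (nat_lit 4) (nat_lit 7) L32326 (by decide +kernel)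
theorem L32328 : W_12 (nat_lit 6) (nat_lit 0x200000001a000d0000000000000000000000000000000) (nat_lit 0x0) (nat_lit 0x6000100038000000028002000100008000000000000000000) := T_12 (nat_lit 160) (nat_lit 194) (nat_lit 6) (nat_lit 7) (nat_lit 11) L32327 (by decide +kernel)
theorem L32334 : W_12 (nat_lit 7) (nat_lit 0x200000001a00090000000000000000000000000000000) (nat_lit 0x0) (nat_lit 0x6000100038000100068002000100008000000000000000000) := Q_12 (nat_lit 126) (C_12 L32328 (C_12 L32329 (C_12 L32333 N_12))) (by decide +kernel)
theorem L32341 : W_12 (nat_lit 8) (nat_lit 0x4000200000001a00090000000000000000000000000000000) (nat_lit 0x0) (nat_lit 0x638005c0167000000000000000000000000000000) := T_12 (nat_lit 142) (nat_lit 128) (nat_lit 2) (nat_lit 5) (nat_lit 8) L32340 (by decide +kernel)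
theorem L32342 : W_12 (nat_lit 9) (nat_lit 0x200000001a00090000000000000000000000000000000) (nat_lit 0x0) (nat_lit 0x40000000738005c0167000000000000000000000000000000) := T_12 (nat_lit 194) (nat_lit 160) (nat_lit 6) (nat_lit 7) (nat_lit 11) L32341 (by decide +kernel)
theorem L32343 : W_12 (nat_lit 10) (nat_lit 0x200000001200090000000000000000000000000000000) (nat_lit 0x0) (nat_lit 0x600010007b800dc016f002000100008000000000000000000) := Q_12 (nat_lit 143) (C_12 L32323 (C_12 L32334 (C_12 L32342 N_12))) (by decide +kernel)
theorem L32352 : W_12 (nat_lit 5) (nat_lit 0x2000000013000d0000800040000000000000000000000) (nat_lit 0x0) (nat_lit 0x40000000000007001a0005000000000000000000) := T_12 (nat_lit 91) (nat_lit 74) (nat_lit 6) (nat_lit 5) (nat_lit 8) L32351 (by decide +kernel)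
theorem L32353 : W_12 (nat_lit 6) (nat_lit 0x200000001300090000800040000000000000000000000) (nat_lit 0x0) (nat_lit 0x40000000600007001a0005000000000000000000) := T_12 (nat_lit 126) (nat_lit 125) (nat_lit 1) (nat_lit 8) (nat_lit 7) L32352 (by decide +kernel)
theorem L32354 : W_12 (nat_lit 7) (nat_lit 0x200000001300090000800000000000000000000000000) (nat_lit 0x0) (nat_lit 0x40000000680007001e0007000280000000000000) := Q_12 (nat_lit 90) (C_12 L31985 (C_12 L32353 (C_12 L31982 N_12))) (by decide +kernel)
theorem L32355 : W_12 (nat_lit 6) (nat_lit 0x2000000013000d0000800000000000000000000000000) (nat_lit 0x0) (nat_lit 0x60000000000007001e0005000000000000000000) := T_12 (nat_lit 90) (nat_lit 157) (nat_lit 5) (nat_lit 5) (nat_lit 5) L32352 (by decide +kernel)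
theorem L32356 : W_12 (nat_lit 7) (nat_lit 0x200000001300090000800000000000000000000000000) (nat_lit 0x0) (nat_lit 0x60000000600007001e0005000000000000000000) := T_12 (nat_lit 126) (nat_lit 125) (nat_lit 1) (nat_lit 8) (nat_lit 7) L32355 (by decide +kernel)
theorem L32373 : W_12 (nat_lit 7) (nat_lit 0x2000040013000d0000800000000000000000000000000) (nat_lit 0x0) (nat_lit 0x200070003800180002000000008000400020000000000000000000000) := T_12 (nat_lit 106) (nat_lit 89) (nat_lit 4) (nat_lit 5) (nat_lit 9) L32372 (by decide +kernel)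
theorem L32374 : W_12 (nat_lit 8) (nat_lit 0x200004001300090000800000000000000000000000000) (nat_lit 0x0) (nat_lit 0x200070003800180002000000068000400020000000000000000000000) := T_12 (nat_lit 126) (nat_lit 125) (nat_lit 1) (nat_lit 8) (nat_lit 7) L32373 (by decide +kernel)
theorem L32377 : W_12 (nat_lit 4) (nat_lit 0x2c00040013000b0000d00000000000000000000000000) (nat_lit 0x0) (nat_lit 0x400030001000000004c0000000000000000000000000000000000) := T_12 (nat_lit 138) (nat_lit 139) (nat_lit 2) (nat_lit 2) (nat_lit 8) L32376 (by decide +kernel)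
theorem L32378 : W_12 (nat_lit 5) (nat_lit 0x2400040013000b0000d00000000000000000000000000) (nat_lit 0x0) (nat_lit 0x400038001800000004c0000000000000000000000000000000000) := T_12 (nat_lit 175) (nat_lit 191) (nat_lit 5) (nat_lit 5) (nat_lit 7) L32377 (by decide +kernel)
theorem L32379 : W_12 (nat_lit 6) (nat_lit 0x2400040013000b0000c00000000000000000000000000) (nat_lit 0x0) (nat_lit 0x400038001800000004c0000000300000000000000000000000000) := T_12 (nat_lit 104) (nat_lit 105) (nat_lit 3) (nat_lit 2) (nat_lit 6) L32378 (by decide +kernel)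
theorem L32380 : W_12 (nat_lit 7) (nat_lit 0x2000040013000b0000c00000000000000000000000000) (nat_lit 0x0) (nat_lit 0x400038001c00020004c0000000300000000000000000000000000) := T_12 (nat_lit 174) (nat_lit 157) (nat_lit 5) (nat_lit 5) (nat_lit 6) L32379 (by decide +kernel)
theorem L32381 : W_12 (nat_lit 8) (nat_lit 0x200004001300090000c00000000000000000000000000) (nat_lit 0x0) (nat_lit 0x400038001c00020004c0060000300000000000000000000000000) := T_12 (nat_lit 125) (nat_lit 126) (nat_lit 1) (nat_lit 8) (nat_lit 7) L32380 (by decide +kernel)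
theorem L32382 : W_12 (nat_lit 9) (nat_lit 0x200004001300090000800000000000000000000000000) (nat_lit 0x0) (nat_lit 0x400038001c00020004c0060000700020000000000000000000000) := T_12 (nat_lit 106) (nat_lit 89) (nat_lit 4) (nat_lit 5) (nat_lit 9) L32381 (by decide +kernel)
theorem L32388 : W_12 (nat_lit 10) (nat_lit 0x200000001300090000800000000000000000000000000) (nat_lit 0x0) (nat_lit 0x2000700038001e0007c004e0068000700030000000000000000000000) := Q_12 (nat_lit 158) (C_12 L32362 (C_12 L32367 (C_12 L32175 (C_12 L32374 (C_12 L32382 (C_12 L32387 N_12)))))) (by decide +kernel)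
theorem L32389 : W_12 (nat_lit 11) (nat_lit 0x200000001300090000000000000000000000000000000) (nat_lit 0x0) (nat_lit 0x2000700038001e0007c004e0068000f001f0007000280000000000000) := Q_12 (nat_lit 107) (C_12 L32347 (C_12 L32348 (C_12 L32354 (C_12 L32356 (C_12 L32388 N_12))))) (by decide +kernel)
theorem L32390 : W_12 (nat_lit 2) (nat_lit 0x40003c00040013000d0000c00000000000000000000000000) (nat_lit 0x0) (nat_lit 0x30000800000000000000000000000000000000000) := D_12 (nat_lit 160) (nat_lit 161) (nat_lit 143) (nat_lit 2) (nat_lit 4) (nat_lit 10) (nat_lit 6) (nat_lit 7) (nat_lit 11) (by decide +kernel)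
theorem L32391 : W_12 (nat_lit 3) (nat_lit 0x3c00040013000d0000c00000000000000000000000000) (nat_lit 0x0) (nat_lit 0xc000000030000800000000000000000000000000000000000) := T_12 (nat_lit 194) (nat_lit 195) (nat_lit 3) (nat_lit 4) (nat_lit 10) L32390 (by decide +kernel)
theorem L32392 : W_12 (nat_lit 4) (nat_lit 0x2c00040013000d0000c00000000000000000000000000) (nat_lit 0x0) (nat_lit 0xe000100030000800000000000000000000000000000000000) := T_12 (nat_lit 176) (nat_lit 193) (nat_lit 7) (nat_lit 5) (nat_lit 7) L32391 (by decide +kernel)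
theorem L32393 : W_12 (nat_lit 5) (nat_lit 0x2400040013000d0000c00000000000000000000000000) (nat_lit 0x0) (nat_lit 0xe800180030000800000000000000000000000000000000000) := T_12 (nat_lit 175) (nat_lit 191) (nat_lit 5) (nat_lit 5) (nat_lit 7) L32392 (by decide +kernel)
theorem L32394 : W_12 (nat_lit 6) (nat_lit 0x2400040013000d0000800000000000000000000000000) (nat_lit 0x0) (nat_lit 0xe800180030000800000000400020000000000000000000000) := T_12 (nat_lit 106) (nat_lit 89) (nat_lit 4) (nat_lit 5) (nat_lit 9) L32393 (by decide +kernel)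
theorem L32395 : W_12 (nat_lit 7) (nat_lit 0x2000040013000d0000800000000000000000000000000) (nat_lit 0x0) (nat_lit 0xe8001c0032000800000000400020000000000000000000000) := T_12 (nat_lit 174) (nat_lit 157) (nat_lit 5) (nat_lit 5) (nat_lit 6) L32394 (by decide +kernel)
theorem L32396 : W_12 (nat_lit 8) (nat_lit 0x200004001300090000800000000000000000000000000) (nat_lit 0x0) (nat_lit 0xe8001c0032000800060000400020000000000000000000000) := T_12 (nat_lit 126) (nat_lit 125) (nat_lit 1) (nat_lit 8) (nat_lit 7) L32395 (by decide +kernel)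
theorem L32397 : W_12 (nat_lit 10) (nat_lit 0x200000001300090000800000000000000000000000000) (nat_lit 0x0) (nat_lit 0x20007000f8001e0037c008e0068000700030000000000000000000000) := Q_12 (nat_lit 158) (C_12 L32362 (C_12 L32387 (C_12 L32367 (C_12 L32175 (C_12 L32374 (C_12 L32396 N_12)))))) (by decide +kernel)
theorem L32398 : W_12 (nat_lit 11) (nat_lit 0x200000001300090000000000000000000000000000000) (nat_lit 0x0) (nat_lit 0x20007000f8001e0037c008e0068000f001f0007000280000000000000) := Q_12 (nat_lit 107) (C_12 L32356 (C_12 L32348 (C_12 L32354 (C_12 L32397 N_12)))) (by decide +kernel)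
theorem L32400 : W_12 (nat_lit 2) (nat_lit 0x200000001700090000000000000000000000000000000) (nat_lit 0x0) (nat_lit 0x800108000000000000000000000000000000) := D_12 (nat_lit 143) (nat_lit 128) (nat_lit 123) (nat_lit 2) (nat_lit 5) (nat_lit 8) (nat_lit 0) (nat_lit 8) (nat_lit 8) (by decide +kernel)
theorem L32401 : W_12 (nat_lit 2) (nat_lit 0x2400020017000d0000000000000000000000000000000) (nat_lit 0x0) (nat_lit 0x8000800040000000000000000000000) := D_12 (nat_lit 107) (nat_lit 90) (nat_lit 123) (nat_lit 5) (nat_lit 5) (nat_lit 5) (nat_lit 6) (nat_lit 4) (nat_lit 10) (by decide +kernel)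
theorem L32402 : W_12 (nat_lit 3) (nat_lit 0x2000020017000d0000000000000000000000000000000) (nat_lit 0x0) (nat_lit 0x800040000000000008000800040000000000000000000000) := T_12 (nat_lit 174) (nat_lit 191) (nat_lit 6) (nat_lit 4) (nat_lit 11) L32401 (by decide +kernel)
theorem L32403 : W_12 (nat_lit 4) (nat_lit 0x200002001700090000000000000000000000000000000) (nat_lit 0x0) (nat_lit 0x800040000000000068000800040000000000000000000000) := T_12 (nat_lit 126) (nat_lit 125) (nat_lit 1) (nat_lit 8) (nat_lit 7) L32402 (by decide +kernel)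
theorem L32404 : W_12 (nat_lit 2) (nat_lit 0x200002001700090000800000000000000000000000000) (nat_lit 0x0) (nat_lit 0x800040000000000008000000000000000000000000000000) := D_12 (nat_lit 174) (nat_lit 191) (nat_lit 123) (nat_lit 6) (nat_lit 4) (nat_lit 11) (nat_lit 6) (nat_lit 4) (nat_lit 10) (by decide +kernel)
theorem L32405 : W_12 (nat_lit 3) (nat_lit 0x200002001700090000000000000000000000000000000) (nat_lit 0x0) (nat_lit 0x800040000000000008000800040000000000000000000000) := T_12 (nat_lit 107) (nat_lit 90) (nat_lit 5) (nat_lit 5) (nat_lit 5) L32404 (by decide +kernel)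
theorem L32406 : W_12 (nat_lit 2) (nat_lit 0x2000030017800b4000200040000000000000000000000) (nat_lit 0x0) (nat_lit 0x8000100008000000000000000000000) := D_12 (nat_lit 104) (nat_lit 123) (nat_lit 87) (nat_lit 0) (nat_lit 6) (nat_lit 7) (nat_lit 4) (nat_lit 3) (nat_lit 9) (by decide +kernel)
theorem L32407 : W_12 (nat_lit 3) (nat_lit 0x2000030017800b4000000040000000000000000000000) (nat_lit 0x0) (nat_lit 0x8000300018000000000000000000000) := T_12 (nat_lit 105) (nat_lit 88) (nat_lit 7) (nat_lit 3) (nat_lit 5) L32406 (by decide +kernel)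
theorem L32408 : W_12 (nat_lit 4) (nat_lit 0x2000030017800b0000000040000000000000000000000) (nat_lit 0x0) (nat_lit 0xe000300018000000000000000000000) := T_12 (nat_lit 122) (nat_lit 121) (nat_lit 0) (nat_lit 6) (nat_lit 8) L32407 (by decide +kernel)
theorem L32409 : W_12 (nat_lit 5) (nat_lit 0x2000020017800b0000000040000000000000000000000) (nat_lit 0x0) (nat_lit 0x180000000e000300018000000000000000000000) := T_12 (nat_lit 156) (nat_lit 155) (nat_lit 1) (nat_lit 6) (nat_lit 8) L32408 (by decide +kernel)
theorem L32410 : W_12 (nat_lit 6) (nat_lit 0x2000020017000b0000000040000000000000000000000) (nat_lit 0x0) (nat_lit 0x18000c000e000300018000000000000000000000) := T_12 (nat_lit 139) (nat_lit 138) (nat_lit 2) (nat_lit 2) (nat_lit 8) L32409 (by decide +kernel)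
theorem L32411 : W_12 (nat_lit 7) (nat_lit 0x2000020017000b0000000000000000000000000000000) (nat_lit 0x0) (nat_lit 0x18000c000e000b00058000000000000000000000) := T_12 (nat_lit 90) (nat_lit 107) (nat_lit 5) (nat_lit 5) (nat_lit 5) L32410 (by decide +kernel)
theorem L32412 : W_12 (nat_lit 8) (nat_lit 0x200002001700090000000000000000000000000000000) (nat_lit 0x0) (nat_lit 0x18000c006e000b00058000000000000000000000) := T_12 (nat_lit 125) (nat_lit 126) (nat_lit 1) (nat_lit 8) (nat_lit 7) L32411 (by decide +kernel)
theorem L32413 : W_12 (nat_lit 2) (nat_lit 0x8002000030017800b4000200000000000000000000000000) (nat_lit 0x0) (nat_lit 0x8000100008000000000000000000000) := D_12 (nat_lit 104) (nat_lit 123) (nat_lit 87) (nat_lit 0) (nat_lit 6) (nat_lit 7) (nat_lit 4) (nat_lit 3) (nat_lit 9) (by decide +kernel)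
theorem L32414 : W_12 (nat_lit 3) (nat_lit 0x8002000030017800b4000000000000000000000000000000) (nat_lit 0x0) (nat_lit 0x8000300018000000000000000000000) := T_12 (nat_lit 105) (nat_lit 88) (nat_lit 7) (nat_lit 3) (nat_lit 5) L32413 (by decide +kernel)
theorem L32415 : W_12 (nat_lit 4) (nat_lit 0x8002000030017800b0000000000000000000000000000000) (nat_lit 0x0) (nat_lit 0xe000300018000000000000000000000) := T_12 (nat_lit 122) (nat_lit 121) (nat_lit 0) (nat_lit 6) (nat_lit 8) L32414 (by decide +kernel)
theorem L32416 : W_12 (nat_lit 5) (nat_lit 0x8002000020017800b0000000000000000000000000000000) (nat_lit 0x0) (nat_lit 0x180000000e000300018000000000000000000000) := T_12 (nat_lit 156) (nat_lit 155) (nat_lit 1) (nat_lit 6) (nat_lit 8) L32415 (by decide +kernel)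
theorem L32417 : W_12 (nat_lit 6) (nat_lit 0x8002000020017000b0000000000000000000000000000000) (nat_lit 0x0) (nat_lit 0x18000c000e000300018000000000000000000000) := T_12 (nat_lit 139) (nat_lit 138) (nat_lit 2) (nat_lit 2) (nat_lit 8) L32416 (by decide +kernel)
theorem L32418 : W_12 (nat_lit 7) (nat_lit 0x2000020017000b0000000000000000000000000000000) (nat_lit 0x0) (nat_lit 0x8000400018000c000e000300018000000000000000000000) := T_12 (nat_lit 191) (nat_lit 174) (nat_lit 6) (nat_lit 4) (nat_lit 11) L32417 (by decide +kernel)
theorem L32419 : W_12 (nat_lit 8) (nat_lit 0x200002001700090000000000000000000000000000000) (nat_lit 0x0) (nat_lit 0x8000400018000c006e000300018000000000000000000000) := T_12 (nat_lit 125) (nat_lit 126) (nat_lit 1) (nat_lit 8) (nat_lit 7) L32418 (by decide +kernel)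
theorem L32420 : W_12 (nat_lit 2) (nat_lit 0x2400020017800b4000000040000000000000000000000) (nat_lit 0x0) (nat_lit 0x1800000000000200000000000000000000000000) := D_12 (nat_lit 156) (nat_lit 155) (nat_lit 105) (nat_lit 1) (nat_lit 6) (nat_lit 8) (nat_lit 7) (nat_lit 3) (nat_lit 6) (by decide +kernel)
theorem L32421 : W_12 (nat_lit 3) (nat_lit 0x2400020017800b0000000040000000000000000000000) (nat_lit 0x0) (nat_lit 0x1800000006000200000000000000000000000000) := T_12 (nat_lit 122) (nat_lit 121) (nat_lit 0) (nat_lit 6) (nat_lit 8) L32420 (by decide +kernel)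
theorem L32422 : W_12 (nat_lit 4) (nat_lit 0x2000020017800b0000000040000000000000000000000) (nat_lit 0x0) (nat_lit 0x800040001800000006000200000000000000000000000000) := T_12 (nat_lit 174) (nat_lit 191) (nat_lit 6) (nat_lit 4) (nat_lit 11) L32421 (by decide +kernel)
theorem L32423 : W_12 (nat_lit 5) (nat_lit 0x2000020017000b0000000040000000000000000000000) (nat_lit 0x0) (nat_lit 0x8000400018000c0006000200000000000000000000000000) := T_12 (nat_lit 139) (nat_lit 138) (nat_lit 2) (nat_lit 2) (nat_lit 8) L32422 (by decide +kernel)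
theorem L32424 : W_12 (nat_lit 6) (nat_lit 0x2000020017000b0000000000000000000000000000000) (nat_lit 0x0) (nat_lit 0x8000400018000c0006000a00040000000000000000000000) := T_12 (nat_lit 90) (nat_lit 107) (nat_lit 5) (nat_lit 5) (nat_lit 5) L32423 (by decide +kernel)
theorem L32425 : W_12 (nat_lit 7) (nat_lit 0x200002001700090000000000000000000000000000000) (nat_lit 0x0) (nat_lit 0x8000400018000c0066000a00040000000000000000000000) := T_12 (nat_lit 125) (nat_lit 126) (nat_lit 1) (nat_lit 8) (nat_lit 7) L32424 (by decide +kernel)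
theorem L32426 : W_12 (nat_lit 9) (nat_lit 0x200000001700090000000000000000000000000000000) (nat_lit 0x0) (nat_lit 0x8000400038000c006e000b00058000000000000000000000) := Q_12 (nat_lit 157) (C_12 L32403 (C_12 L32405 (C_12 L32412 (C_12 L32419 (C_12 L32425 N_12))))) (by decide +kernel)
theorem L32427 : W_12 (nat_lit 10) (nat_lit 0x200000001300090000000000000000000000000000000) (nat_lit 0x0) (nat_lit 0x800040003800cc016e000b00058000000000000000000000) := Q_12 (nat_lit 142) (C_12 L32399 (C_12 L32400 (C_12 L32426 N_12))) (by decide +kernel)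
theorem L32432 : W_12 (nat_lit 6) (nat_lit 0x200000001300090000800000000000000000000000000) (nat_lit 0x0) (nat_lit 0x40000000080007001e0007000280000000000000) := Q_12 (nat_lit 90) (C_12 L31985 (C_12 L32431 (C_12 L31982 N_12))) (by decide +kernel)
theorem L32440 : W_12 (nat_lit 2) (nat_lit 0x4000200007401b0009a000f00008000000000000000000000) (nat_lit 0x0) (nat_lit 0xc0004000000000000000000000000000000) := D_12 (nat_lit 139) (nat_lit 122) (nat_lit 138) (nat_lit 4) (nat_lit 3) (nat_lit 9) (nat_lit 7) (nat_lit 2) (nat_lit 5) (by decide +kernel)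
theorem L32441 : W_12 (nat_lit 3) (nat_lit 0x4000200007401b0009a000f00000000000000000000000000) (nat_lit 0x0) (nat_lit 0xc000400000000c000000000000000000000) := T_12 (nat_lit 87) (nat_lit 86) (nat_lit 0) (nat_lit 5) (nat_lit 6) L32440 (by decide +kernel)
theorem L32442 : W_12 (nat_lit 4) (nat_lit 0x4000200007401b00098000f00000000000000000000000000) (nat_lit 0x0) (nat_lit 0xc000700000000c000000000000000000000) := T_12 (nat_lit 121) (nat_lit 120) (nat_lit 1) (nat_lit 5) (nat_lit 6) L32441 (by decide +kernel)
theorem L32443 : W_12 (nat_lit 5) (nat_lit 0x4000200007401b00098000e00000000000000000000000000) (nat_lit 0x0) (nat_lit 0xc000700018000c000000000000000000000) := T_12 (nat_lit 104) (nat_lit 103) (nat_lit 3) (nat_lit 1) (nat_lit 6) L32442 (by decide +kernel)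
theorem L32444 : W_12 (nat_lit 6) (nat_lit 0x4000200007401b00098000c00000000000000000000000000) (nat_lit 0x0) (nat_lit 0xc000700038001c000000000000000000000) := T_12 (nat_lit 105) (nat_lit 88) (nat_lit 4) (nat_lit 4) (nat_lit 9) L32443 (by decide +kernel)
theorem L32445 : W_12 (nat_lit 7) (nat_lit 0x4000200007001b00098000c00000000000000000000000000) (nat_lit 0x0) (nat_lit 0xc000c000700038001c000000000000000000000) := T_12 (nat_lit 154) (nat_lit 155) (nat_lit 2) (nat_lit 1) (nat_lit 9) L32444 (by decide +kernel)
theorem L32446 : W_12 (nat_lit 8) (nat_lit 0x4000200006001b00098000c00000000000000000000000000) (nat_lit 0x0) (nat_lit 0x20001c000c000700038001c000000000000000000000) := T_12 (nat_lit 156) (nat_lit 173) (nat_lit 5) (nat_lit 4) (nat_lit 6) L32445 (by decide +kernel)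
theorem L32447 : W_12 (nat_lit 9) (nat_lit 0x4000200006001b00090000c00000000000000000000000000) (nat_lit 0x0) (nat_lit 0xa0001c000c000f00038001c000000000000000000000) := T_12 (nat_lit 123) (nat_lit 175) (nat_lit 7) (nat_lit 4) (nat_lit 6) L32446 (by decide +kernel)
theorem L32448 : W_12 (nat_lit 10) (nat_lit 0x200006001b00090000c00000000000000000000000000) (nat_lit 0x0) (nat_lit 0x40000a0011c000c000f00038001c000000000000000000000) := T_12 (nat_lit 194) (nat_lit 160) (nat_lit 6) (nat_lit 7) (nat_lit 11) L32447 (by decide +kernel)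
theorem L32449 : W_12 (nat_lit 11) (nat_lit 0x200006001300090000c00000000000000000000000000) (nat_lit 0x0) (nat_lit 0x40000a0011c00cc000f00038001c000000000000000000000) := T_12 (nat_lit 143) (nat_lit 142) (nat_lit 1) (nat_lit 8) (nat_lit 8) L32448 (by decide +kernel)
theorem L32450 : W_12 (nat_lit 12) (nat_lit 0x200004001300090000c00000000000000000000000000) (nat_lit 0x0) (nat_lit 0x40000e0013c00cc000f00038001c000000000000000000000) := T_12 (nat_lit 157) (nat_lit 174) (nat_lit 5) (nat_lit 5) (nat_lit 6) L32449 (by decide +kernel)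
theorem L32451 : W_12 (nat_lit 13) (nat_lit 0x200004001300090000800000000000000000000000000) (nat_lit 0x0) (nat_lit 0x40000e0013c00cc000f00078003c000000000000000000000) := T_12 (nat_lit 106) (nat_lit 89) (nat_lit 4) (nat_lit 5) (nat_lit 9) L32450 (by decide +kernel)
theorem L32468 : W_12 (nat_lit 6) (nat_lit 0x200004001300090000c00000000000000000000000000) (nat_lit 0x0) (nat_lit 0xe8001c0032000800000000000000000000000000000000000) := T_12 (nat_lit 174) (nat_lit 157) (nat_lit 5) (nat_lit 5) (nat_lit 6) L32467 (by decide +kernel)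
theorem L32469 : W_12 (nat_lit 7) (nat_lit 0x200004001300090000800000000000000000000000000) (nat_lit 0x0) (nat_lit 0xe8001c0032000800000000400020000000000000000000000) := T_12 (nat_lit 106) (nat_lit 89) (nat_lit 4) (nat_lit 5) (nat_lit 9) L32468 (by decide +kernel)
theorem L32474 : W_12 (nat_lit 14) (nat_lit 0x200000001300090000800000000000000000000000000) (nat_lit 0x0) (nat_lit 0x20007000f8001e0037c00cc000f00078003c000000000000000000000) := Q_12 (nat_lit 158) (C_12 L32439 (C_12 L32451 (C_12 L32367 (C_12 L32459 (C_12 L32465 (C_12 L32469 (C_12 L32473 N_12))))))) (by decide +kernel)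
theorem L32475 : W_12 (nat_lit 15) (nat_lit 0x200000001300090000000000000000000000000000000) (nat_lit 0x0) (nat_lit 0x20007000f8001e0037c00cc000f000f801fc007000280000000000000) := Q_12 (nat_lit 107) (C_12 L32348 (C_12 L32432 (C_12 L32433 (C_12 L32474 N_12)))) (by decide +kernel)
theorem L32476 : W_12 (nat_lit 2) (nat_lit 0x2000000017000d0000400020001000000000000000000) (nat_lit 0x0) (nat_lit 0x800040000000080000000000000) := D_12 (nat_lit 107) (nat_lit 55) (nat_lit 90) (nat_lit 7) (nat_lit 4) (nat_lit 3) (nat_lit 4) (nat_lit 5) (nat_lit 8) (by decide +kernel)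
theorem L32477 : W_12 (nat_lit 3) (nat_lit 0x2000000017000d0000400020000000000000000000000) (nat_lit 0x0) (nat_lit 0x8000800040001000080000000000000) := T_12 (nat_lit 72) (nat_lit 123) (nat_lit 7) (nat_lit 4) (nat_lit 4) L32476 (by decide +kernel)
theorem L32478 : W_12 (nat_lit 4) (nat_lit 0x2000000013000d0000400020000000000000000000000) (nat_lit 0x0) (nat_lit 0xc00008000800040001000080000000000000) := T_12 (nat_lit 142) (nat_lit 143) (nat_lit 2) (nat_lit 4) (nat_lit 8) L32477 (by decide +kernel)
theorem L32479 : W_12 (nat_lit 5) (nat_lit 0x200000001300090000400020000000000000000000000) (nat_lit 0x0) (nat_lit 0xc00068000800040001000080000000000000) := T_12 (nat_lit 126) (nat_lit 125) (nat_lit 1) (nat_lit 8) (nat_lit 7) L32478 (by decide +kernel)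
theorem L32481 : W_12 (nat_lit 2) (nat_lit 0x2000000017000d0000c00020000000000000000000000) (nat_lit 0x0) (nat_lit 0x2000000000000000040001000000000000000000) := D_12 (nat_lit 90) (nat_lit 72) (nat_lit 157) (nat_lit 4) (nat_lit 5) (nat_lit 8) (nat_lit 5) (nat_lit 5) (nat_lit 5) (by decide +kernel)
theorem L32482 : W_12 (nat_lit 3) (nat_lit 0x2000000017000d0000400020000000000000000000000) (nat_lit 0x0) (nat_lit 0x6000000000000800040001000000000000000000) := T_12 (nat_lit 107) (nat_lit 158) (nat_lit 4) (nat_lit 5) (nat_lit 9) L32481 (by decide +kernel)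
theorem L32483 : W_12 (nat_lit 4) (nat_lit 0x2000000013000d0000400020000000000000000000000) (nat_lit 0x0) (nat_lit 0x6000c00000000800040001000000000000000000) := T_12 (nat_lit 142) (nat_lit 143) (nat_lit 2) (nat_lit 4) (nat_lit 8) L32482 (by decide +kernel)
theorem L32484 : W_12 (nat_lit 5) (nat_lit 0x200000001300090000400020000000000000000000000) (nat_lit 0x0) (nat_lit 0x6000c00060000800040001000000000000000000) := T_12 (nat_lit 126) (nat_lit 125) (nat_lit 1) (nat_lit 8) (nat_lit 7) L32483 (by decide +kernel)
theorem L32486 : W_12 (nat_lit 6) (nat_lit 0x200000001300090000400000000000000000000000000) (nat_lit 0x0) (nat_lit 0x6000c00068000800060001000080000000000000) := Q_12 (nat_lit 89) (C_12 L32479 (C_12 L32480 (C_12 L32484 (C_12 L32485 N_12)))) (by decide +kernel)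
theorem L32487 : W_12 (nat_lit 2) (nat_lit 0x2000000017800da000400020000000000000000000000) (nat_lit 0x0) (nat_lit 0x60001000000000000000000000000000000) := D_12 (nat_lit 138) (nat_lit 137) (nat_lit 120) (nat_lit 2) (nat_lit 1) (nat_lit 8) (nat_lit 0) (nat_lit 5) (nat_lit 8) (by decide +kernel)
theorem L32488 : W_12 (nat_lit 3) (nat_lit 0x2000000017000da000400020000000000000000000000) (nat_lit 0x0) (nat_lit 0x10000e0001000000000000000000000000000000) := T_12 (nat_lit 139) (nat_lit 156) (nat_lit 5) (nat_lit 4) (nat_lit 5) L32487 (by decide +kernel)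
theorem L32489 : W_12 (nat_lit 4) (nat_lit 0x2000000017000d8000400020000000000000000000000) (nat_lit 0x0) (nat_lit 0x10000e0007000000000000000000000000000000) := T_12 (nat_lit 121) (nat_lit 122) (nat_lit 3) (nat_lit 2) (nat_lit 7) L32488 (by decide +kernel)
theorem L32490 : W_12 (nat_lit 5) (nat_lit 0x2000000017000d8000400000000000000000000000000) (nat_lit 0x0) (nat_lit 0x10000e0007000000020001000000000000000000) := T_12 (nat_lit 89) (nat_lit 72) (nat_lit 7) (nat_lit 4) (nat_lit 4) L32489 (by decide +kernel)
theorem L32491 : W_12 (nat_lit 6) (nat_lit 0x2000000013000d8000400000000000000000000000000) (nat_lit 0x0) (nat_lit 0x1000ce0007000000020001000000000000000000) := T_12 (nat_lit 142) (nat_lit 143) (nat_lit 2) (nat_lit 4) (nat_lit 8) L32490 (by decide +kernel)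
theorem L32492 : W_12 (nat_lit 7) (nat_lit 0x200000001300098000400000000000000000000000000) (nat_lit 0x0) (nat_lit 0x1000ce0067000000020001000000000000000000) := T_12 (nat_lit 126) (nat_lit 125) (nat_lit 1) (nat_lit 8) (nat_lit 7) L32491 (by decide +kernel)
theorem L32494 : W_12 (nat_lit 2) (nat_lit 0x2800010017800ba000400000000000000000000000000) (nat_lit 0x0) (nat_lit 0x400020002000000000000000000000000000000000000000) := D_12 (nat_lit 173) (nat_lit 157) (nat_lit 190) (nat_lit 5) (nat_lit 4) (nat_lit 6) (nat_lit 6) (nat_lit 3) (nat_lit 11) (by decide +kernel)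
theorem L32495 : W_12 (nat_lit 3) (nat_lit 0x2800000017800ba000400000000000000000000000000) (nat_lit 0x0) (nat_lit 0x400020003800000000000000000000000000000000000000) := T_12 (nat_lit 156) (nat_lit 155) (nat_lit 1) (nat_lit 6) (nat_lit 8) L32494 (by decide +kernel)
theorem L32496 : W_12 (nat_lit 4) (nat_lit 0x2800000017000ba000400000000000000000000000000) (nat_lit 0x0) (nat_lit 0x4000200038000c0000000000000000000000000000000000) := T_12 (nat_lit 139) (nat_lit 138) (nat_lit 2) (nat_lit 2) (nat_lit 8) L32495 (by decide +kernel)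
theorem L32497 : W_12 (nat_lit 5) (nat_lit 0x28000000170009a000400000000000000000000000000) (nat_lit 0x0) (nat_lit 0x4000200038000c0060000000000000000000000000000000) := T_12 (nat_lit 125) (nat_lit 126) (nat_lit 1) (nat_lit 8) (nat_lit 7) L32496 (by decide +kernel)
theorem L32498 : W_12 (nat_lit 6) (nat_lit 0x280000001700098000400000000000000000000000000) (nat_lit 0x0) (nat_lit 0x4000200038000c0066000000000000000000000000000000) := T_12 (nat_lit 121) (nat_lit 122) (nat_lit 3) (nat_lit 2) (nat_lit 7) L32497 (by decide +kernel)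
theorem L32499 : W_12 (nat_lit 7) (nat_lit 0x200000001700098000400000000000000000000000000) (nat_lit 0x0) (nat_lit 0x4000a00078000c0066000000000000000000000000000000) := T_12 (nat_lit 175) (nat_lit 158) (nat_lit 4) (nat_lit 5) (nat_lit 10) L32498 (by decide +kernel)
theorem L32500 : W_12 (nat_lit 8) (nat_lit 0x200000001300098000400000000000000000000000000) (nat_lit 0x0) (nat_lit 0x4000a0007800cc0066000000000000000000000000000000) := T_12 (nat_lit 142) (nat_lit 143) (nat_lit 0) (nat_lit 8) (nat_lit 8) L32499 (by decide +kernel)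
theorem L32501 : W_12 (nat_lit 9) (nat_lit 0x200000001300090000400000000000000000000000000) (nat_lit 0x0) (nat_lit 0x4000a0007800ce006f000000020001000000000000000000) := Q_12 (nat_lit 123) (C_12 L32492 (C_12 L32493 (C_12 L32500 N_12))) (by decide +kernel)
theorem L32502 : W_12 (nat_lit 2) (nat_lit 0x4000200000001ba0098000400070000000000000000000000) (nat_lit 0x0) (nat_lit 0x2000000000000a00000000000000000000000000) := D_12 (nat_lit 157) (nat_lit 107) (nat_lit 105) (nat_lit 6) (nat_lit 4) (nat_lit 9) (nat_lit 4) (nat_lit 4) (nat_lit 9) (by decide +kernel)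
theorem L32503 : W_12 (nat_lit 3) (nat_lit 0x4000200000001ba0098000400030000000000000000000000) (nat_lit 0x0) (nat_lit 0x2000000000000a00040002000000000000000000) := T_12 (nat_lit 90) (nat_lit 73) (nat_lit 6) (nat_lit 4) (nat_lit 8) L32502 (by decide +kernel)
theorem L32504 : W_12 (nat_lit 4) (nat_lit 0x4000200000001ba0098000400020000000000000000000000) (nat_lit 0x0) (nat_lit 0x2000000000000a00050002800000000000000000) := T_12 (nat_lit 88) (nat_lit 71) (nat_lit 4) (nat_lit 4) (nat_lit 8) L32503 (by decide +kernel)
theorem L32505 : W_12 (nat_lit 5) (nat_lit 0x4000200000001b80098000400020000000000000000000000) (nat_lit 0x0) (nat_lit 0x2000060000000a00050002800000000000000000) := T_12 (nat_lit 137) (nat_lit 138) (nat_lit 2) (nat_lit 1) (nat_lit 8) L32504 (by decide +kernel)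
theorem L32506 : W_12 (nat_lit 6) (nat_lit 0x4000200000001b00098000400020000000000000000000000) (nat_lit 0x0) (nat_lit 0x30000e0000000a00050002800000000000000000) := T_12 (nat_lit 139) (nat_lit 156) (nat_lit 5) (nat_lit 4) (nat_lit 5) L32505 (by decide +kernel)
theorem L32507 : W_12 (nat_lit 7) (nat_lit 0x200000001b00098000400020000000000000000000000) (nat_lit 0x0) (nat_lit 0x40000000130000e0000000a00050002800000000000000000) := T_12 (nat_lit 194) (nat_lit 160) (nat_lit 6) (nat_lit 7) (nat_lit 11) L32506 (by decide +kernel)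
theorem L32508 : W_12 (nat_lit 8) (nat_lit 0x200000001300098000400020000000000000000000000) (nat_lit 0x0) (nat_lit 0x4000000013000ce0000000a00050002800000000000000000) := T_12 (nat_lit 143) (nat_lit 142) (nat_lit 0) (nat_lit 8) (nat_lit 8) L32507 (by decide +kernel)
theorem L32509 : W_12 (nat_lit 9) (nat_lit 0x200000001300098000400000000000000000000000000) (nat_lit 0x0) (nat_lit 0x4000000013000ce0000000a00070003800000000000000000) := T_12 (nat_lit 89) (nat_lit 72) (nat_lit 7) (nat_lit 4) (nat_lit 4) L32508 (by decide +kernel)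
theorem L32510 : W_12 (nat_lit 2) (nat_lit 0x4000200000001b000b8000d002f0000000000000000000000) (nat_lit 0x0) (nat_lit 0x8000c000000000000000000000) := D_12 (nat_lit 87) (nat_lit 86) (nat_lit 103) (nat_lit 3) (nat_lit 1) (nat_lit 5) (nat_lit 1) (nat_lit 5) (nat_lit 5) (by decide +kernel)
theorem L32511 : W_12 (nat_lit 3) (nat_lit 0x4000200000001b000b8000d002e0000000000000000000000) (nat_lit 0x0) (nat_lit 0x8001c000800000000000000000) := T_12 (nat_lit 88) (nat_lit 71) (nat_lit 4) (nat_lit 4) (nat_lit 8) L32510 (by decide +kernel)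
theorem L32512 : W_12 (nat_lit 4) (nat_lit 0x4000200000001b000b8000d000e0000000000000000000000) (nat_lit 0x0) (nat_lit 0x8031c000800000000000000000) := T_12 (nat_lit 93) (nat_lit 92) (nat_lit 1) (nat_lit 8) (nat_lit 5) L32511 (by decide +kernel)
theorem L32513 : W_12 (nat_lit 5) (nat_lit 0x4000200000001b000b8000d00060000000000000000000000) (nat_lit 0x0) (nat_lit 0x8039c004800000000000000000) := T_12 (nat_lit 91) (nat_lit 74) (nat_lit 6) (nat_lit 5) (nat_lit 8) L32512 (by decide +kernel)
theorem L32514 : W_12 (nat_lit 6) (nat_lit 0x4000200000001b000b8000c00060000000000000000000000) (nat_lit 0x0) (nat_lit 0x38039c004800000000000000000) := T_12 (nat_lit 104) (nat_lit 105) (nat_lit 3) (nat_lit 2) (nat_lit 6) L32513 (by decide +kernel)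
theorem L32515 : W_12 (nat_lit 7) (nat_lit 0x4000200000001b000b8000400060000000000000000000000) (nat_lit 0x0) (nat_lit 0x2000000000000b8039c004800000000000000000) := T_12 (nat_lit 107) (nat_lit 157) (nat_lit 6) (nat_lit 4) (nat_lit 9) L32514 (by decide +kernel)
theorem L32516 : W_12 (nat_lit 8) (nat_lit 0x4000200000001b000b8000400020000000000000000000000) (nat_lit 0x0) (nat_lit 0x2000000000000b803dc006800000000000000000) := T_12 (nat_lit 90) (nat_lit 73) (nat_lit 6) (nat_lit 4) (nat_lit 8) L32515 (by decide +kernel)
theorem L32517 : W_12 (nat_lit 9) (nat_lit 0x4000200000001b000b8000400000000000000000000000000) (nat_lit 0x0) (nat_lit 0x2000000000000b803fc007800000000000000000) := T_12 (nat_lit 89) (nat_lit 72) (nat_lit 7) (nat_lit 4) (nat_lit 4) L32516 (by decide +kernel)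
theorem L32518 : W_12 (nat_lit 10) (nat_lit 0x4000200000001b00098000400000000000000000000000000) (nat_lit 0x0) (nat_lit 0x2000000060000b803fc007800000000000000000) := T_12 (nat_lit 125) (nat_lit 126) (nat_lit 3) (nat_lit 4) (nat_lit 7) L32517 (by decide +kernel)
theorem L32519 : W_12 (nat_lit 11) (nat_lit 0x200000001b00098000400000000000000000000000000) (nat_lit 0x0) (nat_lit 0x4000000012000000060000b803fc007800000000000000000) := T_12 (nat_lit 194) (nat_lit 160) (nat_lit 6) (nat_lit 7) (nat_lit 11) L32518 (by decide +kernel)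
theorem L32520 : W_12 (nat_lit 12) (nat_lit 0x200000001300098000400000000000000000000000000) (nat_lit 0x0) (nat_lit 0x4000000012000c00060000b803fc007800000000000000000) := T_12 (nat_lit 143) (nat_lit 142) (nat_lit 0) (nat_lit 8) (nat_lit 8) L32519 (by decide +kernel)
theorem L32521 : W_12 (nat_lit 2) (nat_lit 0x2000000013a00d8000400070000000000000000000000) (nat_lit 0x0) (nat_lit 0x2000000000000a00000000000000000000000000) := D_12 (nat_lit 157) (nat_lit 107) (nat_lit 105) (nat_lit 6) (nat_lit 4) (nat_lit 9) (nat_lit 4) (nat_lit 4) (nat_lit 9) (by decide +kernel)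
theorem L32522 : W_12 (nat_lit 3) (nat_lit 0x2000000013a00d8000400030000000000000000000000) (nat_lit 0x0) (nat_lit 0x2000000000000a00040002000000000000000000) := T_12 (nat_lit 90) (nat_lit 73) (nat_lit 6) (nat_lit 4) (nat_lit 8) L32521 (by decide +kernel)
theorem L32523 : W_12 (nat_lit 4) (nat_lit 0x2000000013a00d8000400020000000000000000000000) (nat_lit 0x0) (nat_lit 0x2000000000000a00050002800000000000000000) := T_12 (nat_lit 88) (nat_lit 71) (nat_lit 4) (nat_lit 4) (nat_lit 8) L32522 (by decide +kernel)
theorem L32524 : W_12 (nat_lit 5) (nat_lit 0x2000000013800d8000400020000000000000000000000) (nat_lit 0x0) (nat_lit 0x2000060000000a00050002800000000000000000) := T_12 (nat_lit 137) (nat_lit 138) (nat_lit 2) (nat_lit 1) (nat_lit 8) L32523 (by decide +kernel)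
theorem L32525 : W_12 (nat_lit 6) (nat_lit 0x2000000013000d8000400020000000000000000000000) (nat_lit 0x0) (nat_lit 0x30000e0000000a00050002800000000000000000) := T_12 (nat_lit 139) (nat_lit 156) (nat_lit 5) (nat_lit 4) (nat_lit 5) L32524 (by decide +kernel)
theorem L32526 : W_12 (nat_lit 7) (nat_lit 0x200000001300098000400020000000000000000000000) (nat_lit 0x0) (nat_lit 0x30000e0060000a00050002800000000000000000) := T_12 (nat_lit 126) (nat_lit 125) (nat_lit 1) (nat_lit 8) (nat_lit 7) L32525 (by decide +kernel)
theorem L32527 : W_12 (nat_lit 8) (nat_lit 0x200000001300098000400000000000000000000000000) (nat_lit 0x0) (nat_lit 0x30000e0060000a00070003800000000000000000) := T_12 (nat_lit 89) (nat_lit 72) (nat_lit 7) (nat_lit 4) (nat_lit 4) L32526 (by decide +kernel)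
theorem L32528 : W_12 (nat_lit 2) (nat_lit 0x2000010017800ba000400000000000000000000000000) (nat_lit 0x0) (nat_lit 0x400020002000000000000000000000000000000000000000) := D_12 (nat_lit 173) (nat_lit 157) (nat_lit 190) (nat_lit 5) (nat_lit 4) (nat_lit 6) (nat_lit 6) (nat_lit 3) (nat_lit 11) (by decide +kernel)
theorem L32529 : W_12 (nat_lit 3) (nat_lit 0x2000000017800ba000400000000000000000000000000) (nat_lit 0x0) (nat_lit 0x400020003800000000000000000000000000000000000000) := T_12 (nat_lit 156) (nat_lit 155) (nat_lit 1) (nat_lit 6) (nat_lit 8) L32528 (by decide +kernel)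
theorem L32530 : W_12 (nat_lit 4) (nat_lit 0x2000000017000ba000400000000000000000000000000) (nat_lit 0x0) (nat_lit 0x4000200038000c0000000000000000000000000000000000) := T_12 (nat_lit 139) (nat_lit 138) (nat_lit 2) (nat_lit 2) (nat_lit 8) L32529 (by decide +kernel)
theorem L32531 : W_12 (nat_lit 5) (nat_lit 0x2000000017000b8000400000000000000000000000000) (nat_lit 0x0) (nat_lit 0x4000200038000c0006000000000000000000000000000000) := T_12 (nat_lit 121) (nat_lit 122) (nat_lit 3) (nat_lit 2) (nat_lit 7) L32530 (by decide +kernel)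
theorem L32532 : W_12 (nat_lit 6) (nat_lit 0x2000000013000b8000400000000000000000000000000) (nat_lit 0x0) (nat_lit 0x400020003800cc0006000000000000000000000000000000) := T_12 (nat_lit 142) (nat_lit 143) (nat_lit 0) (nat_lit 8) (nat_lit 8) L32531 (by decide +kernel)
theorem L32533 : W_12 (nat_lit 7) (nat_lit 0x200000001300098000400000000000000000000000000) (nat_lit 0x0) (nat_lit 0x400020003800cc0066000000000000000000000000000000) := T_12 (nat_lit 125) (nat_lit 126) (nat_lit 1) (nat_lit 8) (nat_lit 7) L32532 (by decide +kernel)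
theorem L32534 : W_12 (nat_lit 13) (nat_lit 0x200000001300090000400000000000000000000000000) (nat_lit 0x0) (nat_lit 0x4400020013800ce006f000b803fc007800000000000000000) := Q_12 (nat_lit 123) (C_12 L32492 (C_12 L32509 (C_12 L32520 (C_12 L32527 (C_12 L32533 N_12))))) (by decide +kernel)
theorem L32537 : W_12 (nat_lit 2) (nat_lit 0x200000001300090000c00020000000000000000000000) (nat_lit 0x0) (nat_lit 0x2000000000000000040001000000000000000000) := D_12 (nat_lit 90) (nat_lit 72) (nat_lit 157) (nat_lit 4) (nat_lit 5) (nat_lit 8) (nat_lit 5) (nat_lit 5) (nat_lit 5) (by decide +kernel)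
theorem L32538 : W_12 (nat_lit 3) (nat_lit 0x200000001300090000400020000000000000000000000) (nat_lit 0x0) (nat_lit 0x6000000000000800040001000000000000000000) := T_12 (nat_lit 107) (nat_lit 158) (nat_lit 4) (nat_lit 5) (nat_lit 9) L32537 (by decide +kernel)
theorem L32539 : W_12 (nat_lit 4) (nat_lit 0x200000001300090000400000000000000000000000000) (nat_lit 0x0) (nat_lit 0x6000000008000800060001000080000000000000) := Q_12 (nat_lit 89) (C_12 L32536 (C_12 L32480 (C_12 L32538 (C_12 L32485 N_12)))) (by decide +kernel)
theorem L32540 : W_12 (nat_lit 2) (nat_lit 0x2800000017800bc000400000000000000000000000000) (nat_lit 0x0) (nat_lit 0x20001800000000000000000000000000000000000000) := D_12 (nat_lit 156) (nat_lit 173) (nat_lit 155) (nat_lit 6) (nat_lit 3) (nat_lit 10) (nat_lit 1) (nat_lit 6) (nat_lit 8) (by decide +kernel)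
theorem L32541 : W_12 (nat_lit 3) (nat_lit 0x2800000017800b8000400000000000000000000000000) (nat_lit 0x0) (nat_lit 0x20001800000006000000000000000000000000000000) := T_12 (nat_lit 122) (nat_lit 121) (nat_lit 3) (nat_lit 2) (nat_lit 7) L32540 (by decide +kernel)
theorem L32542 : W_12 (nat_lit 4) (nat_lit 0x2000000017800b8000400000000000000000000000000) (nat_lit 0x0) (nat_lit 0xa0005800000006000000000000000000000000000000) := T_12 (nat_lit 175) (nat_lit 158) (nat_lit 4) (nat_lit 5) (nat_lit 10) L32541 (by decide +kernel)
theorem L32543 : W_12 (nat_lit 5) (nat_lit 0x2000000017000b8000400000000000000000000000000) (nat_lit 0x0) (nat_lit 0xa00058000c0006000000000000000000000000000000) := T_12 (nat_lit 139) (nat_lit 138) (nat_lit 2) (nat_lit 2) (nat_lit 8) L32542 (by decide +kernel)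
theorem L32544 : W_12 (nat_lit 6) (nat_lit 0x2000000013000b8000400000000000000000000000000) (nat_lit 0x0) (nat_lit 0xa0005800cc0006000000000000000000000000000000) := T_12 (nat_lit 142) (nat_lit 143) (nat_lit 0) (nat_lit 8) (nat_lit 8) L32543 (by decide +kernel)
theorem L32545 : W_12 (nat_lit 7) (nat_lit 0x200000001300098000400000000000000000000000000) (nat_lit 0x0) (nat_lit 0xa0005800cc0066000000000000000000000000000000) := T_12 (nat_lit 125) (nat_lit 126) (nat_lit 1) (nat_lit 8) (nat_lit 7) L32544 (by decide +kernel)
theorem L32546 : W_12 (nat_lit 8) (nat_lit 0x200000001300090000400000000000000000000000000) (nat_lit 0x0) (nat_lit 0xa0005800ce006f000000020001000000000000000000) := Q_12 (nat_lit 123) (C_12 L32492 (C_12 L32493 (C_12 L32545 N_12))) (by decide +kernel)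
theorem L32548 : W_12 (nat_lit 2) (nat_lit 0x200000001700090000400000000000000000000000000) (nat_lit 0x0) (nat_lit 0x800140000000000000000000000000000000) := D_12 (nat_lit 143) (nat_lit 128) (nat_lit 126) (nat_lit 2) (nat_lit 5) (nat_lit 8) (nat_lit 2) (nat_lit 4) (nat_lit 8) (by decide +kernel)
theorem L32549 : W_12 (nat_lit 2) (nat_lit 0x200000001f00090000400000000000000000000000000) (nat_lit 0x0) (nat_lit 0x7000000000000000000000000000000000000000) := D_12 (nat_lit 157) (nat_lit 158) (nat_lit 156) (nat_lit 1) (nat_lit 8) (nat_lit 8) (nat_lit 1) (nat_lit 7) (nat_lit 8) (by decide +kernel)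
theorem L32550 : W_12 (nat_lit 3) (nat_lit 0x200000001700090000400000000000000000000000000) (nat_lit 0x0) (nat_lit 0x7000800100000000000000000000000000000000) := T_12 (nat_lit 143) (nat_lit 128) (nat_lit 2) (nat_lit 5) (nat_lit 8) L32549 (by decide +kernel)
theorem L32557 : W_12 (nat_lit 8) (nat_lit 0x200000001300090000400000000000000000000000000) (nat_lit 0x0) (nat_lit 0x7800cc0166000b00028000000000000000000000) := Q_12 (nat_lit 142) (C_12 L32547 (C_12 L32548 (C_12 L32550 (C_12 L32556 N_12)))) (by decide +kernel)
theorem L32567 : W_12 (nat_lit 11) (nat_lit 0x200000001300090000400000000000000000000000000) (nat_lit 0x0) (nat_lit 0x20001c000e00030007800cc016e000000000000000000000000000000) := Q_12 (nat_lit 142) (C_12 L32548 (C_12 L32550 (C_12 L32566 N_12))) (by decide +kernel)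
theorem L32568 : W_12 (nat_lit 14) (nat_lit 0x200000001300090000000000000000000000000000000) (nat_lit 0x0) (nat_lit 0x20001c004e000b0017800ce016f000f803fc007800080000000000000) := Q_12 (nat_lit 106) (C_12 L32486 (C_12 L32501 (C_12 L32534 (C_12 L32539 (C_12 L32546 (C_12 L32557 (C_12 L32567 N_12))))))) (by decide +kernel)
theorem L32569 : W_12 (nat_lit 2) (nat_lit 0x2000008013c00da000400070000000000000000000000) (nat_lit 0x0) (nat_lit 0x4000300000000000000000000000000) := D_12 (nat_lit 105) (nat_lit 122) (nat_lit 104) (nat_lit 5) (nat_lit 3) (nat_lit 5) (nat_lit 6) (nat_lit 2) (nat_lit 9) (by decide +kernel)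
theorem L32570 : W_12 (nat_lit 3) (nat_lit 0x2000000013c00da000400070000000000000000000000) (nat_lit 0x0) (nat_lit 0xc00000004000300000000000000000000000000) := T_12 (nat_lit 155) (nat_lit 154) (nat_lit 1) (nat_lit 5) (nat_lit 8) L32569 (by decide +kernel)
theorem L32571 : W_12 (nat_lit 4) (nat_lit 0x2000000013c00d8000400070000000000000000000000) (nat_lit 0x0) (nat_lit 0xc00000007000300000000000000000000000000) := T_12 (nat_lit 121) (nat_lit 120) (nat_lit 0) (nat_lit 5) (nat_lit 8) L32570 (by decide +kernel)
theorem L32572 : W_12 (nat_lit 5) (nat_lit 0x2000000013c00d8000400060000000000000000000000) (nat_lit 0x0) (nat_lit 0xc00000007000300010000800000000000000000) := T_12 (nat_lit 88) (nat_lit 71) (nat_lit 4) (nat_lit 4) (nat_lit 8) L32571 (by decide +kernel)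
theorem L32573 : W_12 (nat_lit 6) (nat_lit 0x2000000013800d8000400060000000000000000000000) (nat_lit 0x0) (nat_lit 0xc00060007000300010000800000000000000000) := T_12 (nat_lit 138) (nat_lit 137) (nat_lit 2) (nat_lit 1) (nat_lit 8) L32572 (by decide +kernel)
theorem L32574 : W_12 (nat_lit 7) (nat_lit 0x2000000013000d8000400060000000000000000000000) (nat_lit 0x0) (nat_lit 0x1c000e0007000300010000800000000000000000) := T_12 (nat_lit 139) (nat_lit 156) (nat_lit 5) (nat_lit 4) (nat_lit 5) L32573 (by decide +kernel)
theorem L32575 : W_12 (nat_lit 8) (nat_lit 0x2000000013000d8000400020000000000000000000000) (nat_lit 0x0) (nat_lit 0x1c000e0007000300050002800000000000000000) := T_12 (nat_lit 90) (nat_lit 73) (nat_lit 6) (nat_lit 4) (nat_lit 8) L32574 (by decide +kernel)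
theorem L32576 : W_12 (nat_lit 9) (nat_lit 0x2000000013000d8000400000000000000000000000000) (nat_lit 0x0) (nat_lit 0x1c000e0007000300070003800000000000000000) := T_12 (nat_lit 89) (nat_lit 72) (nat_lit 7) (nat_lit 4) (nat_lit 4) L32575 (by decide +kernel)
theorem L32577 : W_12 (nat_lit 10) (nat_lit 0x200000001300098000400000000000000000000000000) (nat_lit 0x0) (nat_lit 0x1c000e0067000300070003800000000000000000) := T_12 (nat_lit 126) (nat_lit 125) (nat_lit 1) (nat_lit 8) (nat_lit 7) L32576 (by decide +kernel)
theorem L32578 : W_12 (nat_lit 2) (nat_lit 0x4000200000801bc009a000400030000000000000000000000) (nat_lit 0x0) (nat_lit 0x4000300000000000000000000000000) := D_12 (nat_lit 105) (nat_lit 122) (nat_lit 104) (nat_lit 5) (nat_lit 3) (nat_lit 5) (nat_lit 6) (nat_lit 2) (nat_lit 9) (by decide +kernel)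
theorem L32579 : W_12 (nat_lit 3) (nat_lit 0x4000200000001bc009a000400030000000000000000000000) (nat_lit 0x0) (nat_lit 0xc00000004000300000000000000000000000000) := T_12 (nat_lit 155) (nat_lit 154) (nat_lit 1) (nat_lit 5) (nat_lit 8) L32578 (by decide +kernel)
theorem L32580 : W_12 (nat_lit 4) (nat_lit 0x4000200000001bc0098000400030000000000000000000000) (nat_lit 0x0) (nat_lit 0xc00000007000300000000000000000000000000) := T_12 (nat_lit 121) (nat_lit 120) (nat_lit 0) (nat_lit 5) (nat_lit 8) L32579 (by decide +kernel)
theorem L32581 : W_12 (nat_lit 5) (nat_lit 0x4000200000001bc0098000400020000000000000000000000) (nat_lit 0x0) (nat_lit 0xc00000007000300010000800000000000000000) := T_12 (nat_lit 88) (nat_lit 71) (nat_lit 4) (nat_lit 4) (nat_lit 8) L32580 (by decide +kernel)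
theorem L32582 : W_12 (nat_lit 6) (nat_lit 0x4000200000001b80098000400020000000000000000000000) (nat_lit 0x0) (nat_lit 0xc00060007000300010000800000000000000000) := T_12 (nat_lit 138) (nat_lit 137) (nat_lit 2) (nat_lit 1) (nat_lit 8) L32581 (by decide +kernel)
theorem L32583 : W_12 (nat_lit 7) (nat_lit 0x4000200000001b00098000400020000000000000000000000) (nat_lit 0x0) (nat_lit 0x1c000e0007000300010000800000000000000000) := T_12 (nat_lit 139) (nat_lit 156) (nat_lit 5) (nat_lit 4) (nat_lit 5) L32582 (by decide +kernel)
theorem L32584 : W_12 (nat_lit 8) (nat_lit 0x200000001b00098000400020000000000000000000000) (nat_lit 0x0) (nat_lit 0x4000000011c000e0007000300010000800000000000000000) := T_12 (nat_lit 194) (nat_lit 160) (nat_lit 6) (nat_lit 7) (nat_lit 11) L32583 (by decide +kernel)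
theorem L32585 : W_12 (nat_lit 9) (nat_lit 0x200000001300098000400020000000000000000000000) (nat_lit 0x0) (nat_lit 0x4000000011c00ce0007000300010000800000000000000000) := T_12 (nat_lit 143) (nat_lit 142) (nat_lit 0) (nat_lit 8) (nat_lit 8) L32584 (by decide +kernel)
theorem L32586 : W_12 (nat_lit 10) (nat_lit 0x200000001300098000400000000000000000000000000) (nat_lit 0x0) (nat_lit 0x4000000011c00ce0007000300030001800000000000000000) := T_12 (nat_lit 89) (nat_lit 72) (nat_lit 7) (nat_lit 4) (nat_lit 4) L32585 (by decide +kernel)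
theorem L32587 : W_12 (nat_lit 2) (nat_lit 0x2000000017000bc0006000f0000000000000000000000) (nat_lit 0x0) (nat_lit 0x80000000c000000000000000000) := D_12 (nat_lit 74) (nat_lit 75) (nat_lit 107) (nat_lit 2) (nat_lit 3) (nat_lit 5) (nat_lit 6) (nat_lit 5) (nat_lit 8) (by decide +kernel)
theorem L32588 : W_12 (nat_lit 3) (nat_lit 0x2000000017000bc000600070000000000000000000000) (nat_lit 0x0) (nat_lit 0x80018000c000000000000000000) := T_12 (nat_lit 91) (nat_lit 92) (nat_lit 1) (nat_lit 7) (nat_lit 5) L32587 (by decide +kernel)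
theorem L32589 : W_12 (nat_lit 4) (nat_lit 0x2000000017000bc000600030000000000000000000000) (nat_lit 0x0) (nat_lit 0x8001c000e000000000000000000) := T_12 (nat_lit 90) (nat_lit 73) (nat_lit 6) (nat_lit 4) (nat_lit 8) L32588 (by decide +kernel)
theorem L32590 : W_12 (nat_lit 5) (nat_lit 0x2000000017000bc000600020000000000000000000000) (nat_lit 0x0) (nat_lit 0x8001d000e800000000000000000) := T_12 (nat_lit 88) (nat_lit 71) (nat_lit 7) (nat_lit 3) (nat_lit 4) L32589 (by decide +kernel)
theorem L32591 : W_12 (nat_lit 6) (nat_lit 0x2000000017000bc000400020000000000000000000000) (nat_lit 0x0) (nat_lit 0xb001d000e800000000000000000) := T_12 (nat_lit 105) (nat_lit 104) (nat_lit 0) (nat_lit 6) (nat_lit 7) L32590 (by decide +kernel)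
theorem L32592 : W_12 (nat_lit 7) (nat_lit 0x2000000017000bc000400000000000000000000000000) (nat_lit 0x0) (nat_lit 0xb001f000f800000000000000000) := T_12 (nat_lit 89) (nat_lit 72) (nat_lit 7) (nat_lit 4) (nat_lit 4) L32591 (by decide +kernel)
theorem L32593 : W_12 (nat_lit 8) (nat_lit 0x20000000170009c000400000000000000000000000000) (nat_lit 0x0) (nat_lit 0x60000b001f000f800000000000000000) := T_12 (nat_lit 125) (nat_lit 126) (nat_lit 1) (nat_lit 8) (nat_lit 7) L32592 (by decide +kernel)
theorem L32594 : W_12 (nat_lit 9) (nat_lit 0x200000001700098000400000000000000000000000000) (nat_lit 0x0) (nat_lit 0x66000b001f000f800000000000000000) := T_12 (nat_lit 122) (nat_lit 121) (nat_lit 3) (nat_lit 2) (nat_lit 7) L32593 (by decide +kernel)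
theorem L32595 : W_12 (nat_lit 10) (nat_lit 0x200000001300098000400000000000000000000000000) (nat_lit 0x0) (nat_lit 0xc00066000b001f000f800000000000000000) := T_12 (nat_lit 142) (nat_lit 143) (nat_lit 0) (nat_lit 8) (nat_lit 8) L32594 (by decide +kernel)
theorem L32596 : W_12 (nat_lit 2) (nat_lit 0x2000000017800bc000400000000000000000000000000) (nat_lit 0x0) (nat_lit 0x20001800000000000000000000000000000000000000) := D_12 (nat_lit 156) (nat_lit 173) (nat_lit 155) (nat_lit 6) (nat_lit 3) (nat_lit 10) (nat_lit 1) (nat_lit 6) (nat_lit 8) (by decide +kernel)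
theorem L32597 : W_12 (nat_lit 3) (nat_lit 0x2000000017000bc000400000000000000000000000000) (nat_lit 0x0) (nat_lit 0x200018000c0000000000000000000000000000000000) := T_12 (nat_lit 139) (nat_lit 138) (nat_lit 2) (nat_lit 2) (nat_lit 8) L32596 (by decide +kernel)
theorem L32598 : W_12 (nat_lit 4) (nat_lit 0x2000000017000b8000400000000000000000000000000) (nat_lit 0x0) (nat_lit 0x200018000c0006000000000000000000000000000000) := T_12 (nat_lit 122) (nat_lit 121) (nat_lit 3) (nat_lit 2) (nat_lit 7) L32597 (by decide +kernel)
theorem L32599 : W_12 (nat_lit 5) (nat_lit 0x2000000013000b8000400000000000000000000000000) (nat_lit 0x0) (nat_lit 0x20001800cc0006000000000000000000000000000000) := T_12 (nat_lit 142) (nat_lit 143) (nat_lit 0) (nat_lit 8) (nat_lit 8) L32598 (by decide +kernel)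
theorem L32600 : W_12 (nat_lit 6) (nat_lit 0x200000001300098000400000000000000000000000000) (nat_lit 0x0) (nat_lit 0x20001800cc0066000000000000000000000000000000) := T_12 (nat_lit 125) (nat_lit 126) (nat_lit 1) (nat_lit 8) (nat_lit 7) L32599 (by decide +kernel)
theorem L32601 : W_12 (nat_lit 2) (nat_lit 0x2000008017c00d8000600070000000000000000000000) (nat_lit 0x0) (nat_lit 0x180080000000000000000000000) := D_12 (nat_lit 104) (nat_lit 103) (nat_lit 91) (nat_lit 3) (nat_lit 1) (nat_lit 6) (nat_lit 1) (nat_lit 6) (nat_lit 5) (by decide +kernel)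
theorem L32602 : W_12 (nat_lit 3) (nat_lit 0x2000008017c00d8000400070000000000000000000000) (nat_lit 0x0) (nat_lit 0x4000380080000000000000000000000) := T_12 (nat_lit 105) (nat_lit 122) (nat_lit 5) (nat_lit 3) (nat_lit 5) L32601 (by decide +kernel)
theorem L32603 : W_12 (nat_lit 4) (nat_lit 0x2000000017c00d8000400070000000000000000000000) (nat_lit 0x0) (nat_lit 0xc00000004000380080000000000000000000000) := T_12 (nat_lit 155) (nat_lit 154) (nat_lit 1) (nat_lit 5) (nat_lit 8) L32602 (by decide +kernel)
theorem L32604 : W_12 (nat_lit 5) (nat_lit 0x2000000017c00d8000400060000000000000000000000) (nat_lit 0x0) (nat_lit 0xc00000004000380090000800000000000000000) := T_12 (nat_lit 88) (nat_lit 71) (nat_lit 4) (nat_lit 4) (nat_lit 8) L32603 (by decide +kernel)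
theorem L32605 : W_12 (nat_lit 6) (nat_lit 0x2000000017800d8000400060000000000000000000000) (nat_lit 0x0) (nat_lit 0xc00060004000380090000800000000000000000) := T_12 (nat_lit 138) (nat_lit 137) (nat_lit 2) (nat_lit 1) (nat_lit 8) L32604 (by decide +kernel)
theorem L32606 : W_12 (nat_lit 7) (nat_lit 0x2000000017000d8000400060000000000000000000000) (nat_lit 0x0) (nat_lit 0x1c000e0004000380090000800000000000000000) := T_12 (nat_lit 139) (nat_lit 156) (nat_lit 5) (nat_lit 4) (nat_lit 5) L32605 (by decide +kernel)
theorem L32607 : W_12 (nat_lit 8) (nat_lit 0x2000000017000d8000400020000000000000000000000) (nat_lit 0x0) (nat_lit 0x1c000e00040003800d0002800000000000000000) := T_12 (nat_lit 90) (nat_lit 73) (nat_lit 6) (nat_lit 4) (nat_lit 8) L32606 (by decide +kernel)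
theorem L32608 : W_12 (nat_lit 9) (nat_lit 0x2000000017000d8000400000000000000000000000000) (nat_lit 0x0) (nat_lit 0x1c000e00040003800f0003800000000000000000) := T_12 (nat_lit 89) (nat_lit 72) (nat_lit 7) (nat_lit 4) (nat_lit 4) L32607 (by decide +kernel)
theorem L32609 : W_12 (nat_lit 10) (nat_lit 0x2000000013000d8000400000000000000000000000000) (nat_lit 0x0) (nat_lit 0x1c00ce00040003800f0003800000000000000000) := T_12 (nat_lit 142) (nat_lit 143) (nat_lit 2) (nat_lit 4) (nat_lit 8) L32608 (by decide +kernel)
theorem L32610 : W_12 (nat_lit 11) (nat_lit 0x200000001300098000400000000000000000000000000) (nat_lit 0x0) (nat_lit 0x1c00ce00640003800f0003800000000000000000) := T_12 (nat_lit 126) (nat_lit 125) (nat_lit 1) (nat_lit 8) (nat_lit 7) L32609 (by decide +kernel)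
theorem L32611 : W_12 (nat_lit 2) (nat_lit 0x200000001b80098000400020000000000000000000000) (nat_lit 0x0) (nat_lit 0x60020000000000000000000000000000000) := D_12 (nat_lit 138) (nat_lit 125) (nat_lit 137) (nat_lit 2) (nat_lit 2) (nat_lit 8) (nat_lit 2) (nat_lit 1) (nat_lit 8) (by decide +kernel)
theorem L32612 : W_12 (nat_lit 3) (nat_lit 0x200000001b00098000400020000000000000000000000) (nat_lit 0x0) (nat_lit 0x10000e0020000000000000000000000000000000) := T_12 (nat_lit 139) (nat_lit 156) (nat_lit 5) (nat_lit 4) (nat_lit 5) L32611 (by decide +kernel)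
theorem L32613 : W_12 (nat_lit 4) (nat_lit 0x200000001300098000400020000000000000000000000) (nat_lit 0x0) (nat_lit 0x1000ce0020000000000000000000000000000000) := T_12 (nat_lit 143) (nat_lit 142) (nat_lit 0) (nat_lit 8) (nat_lit 8) L32612 (by decide +kernel)
theorem L32614 : W_12 (nat_lit 5) (nat_lit 0x200000001300098000400000000000000000000000000) (nat_lit 0x0) (nat_lit 0x1000ce0020000000020001000000000000000000) := T_12 (nat_lit 89) (nat_lit 72) (nat_lit 7) (nat_lit 4) (nat_lit 4) L32613 (by decide +kernel)
theorem L32615 : W_12 (nat_lit 12) (nat_lit 0x200000001300090000400000000000000000000000000) (nat_lit 0x0) (nat_lit 0x4000020011c00ce006f000b801f000f800000000000000000) := Q_12 (nat_lit 123) (C_12 L32577 (C_12 L32586 (C_12 L32595 (C_12 L32600 (C_12 L32610 (C_12 L32614 N_12)))))) (by decide +kernel)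
theorem L32618 : W_12 (nat_lit 4) (nat_lit 0x200000001300090000400000000000000000000000000) (nat_lit 0x0) (nat_lit 0x4000000008000800060001000080000000000000) := Q_12 (nat_lit 89) (C_12 L32536 (C_12 L32480 (C_12 L32617 (C_12 L32485 N_12)))) (by decide +kernel)
theorem L32621 : W_12 (nat_lit 8) (nat_lit 0x200000001300090000400000000000000000000000000) (nat_lit 0x0) (nat_lit 0x4000000031800cc0166000b00028000000000000000000000) := Q_12 (nat_lit 142) (C_12 L32556 (C_12 L32548 (C_12 L32620 N_12))) (by decide +kernel)
theorem L32630 : W_12 (nat_lit 10) (nat_lit 0x200000001300090000400000000000000000000000000) (nat_lit 0x0) (nat_lit 0x14004e00070031800cc016e000000000000000000000000000000) := Q_12 (nat_lit 142) (C_12 L32620 (C_12 L32548 (C_12 L32629 N_12))) (by decide +kernel)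
theorem L32631 : W_12 (nat_lit 13) (nat_lit 0x200000001300090000000000000000000000000000000) (nat_lit 0x0) (nat_lit 0x14004e000f0035c00ce016f000f801f800f800080000000000000) := Q_12 (nat_lit 106) (C_12 L32546 (C_12 L32615 (C_12 L32618 (C_12 L32621 (C_12 L32630 N_12))))) (by decide +kernel)
theorem L32632 : W_12 (nat_lit 2) (nat_lit 0x200000001b00090000000000000000000000000000000) (nat_lit 0x0) (nat_lit 0x400060000000000000000000000000000000) := D_12 (nat_lit 126) (nat_lit 125) (nat_lit 142) (nat_lit 1) (nat_lit 8) (nat_lit 7) (nat_lit 2) (nat_lit 4) (nat_lit 8) (by decide +kernel)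
theorem L32633 : W_12 (nat_lit 2) (nat_lit 0x200000001b00090000000000000000000000000000000) (nat_lit 0x0) (nat_lit 0x400048000000000000000000000000000000) := D_12 (nat_lit 142) (nat_lit 123) (nat_lit 126) (nat_lit 0) (nat_lit 8) (nat_lit 8) (nat_lit 2) (nat_lit 4) (nat_lit 8) (by decide +kernel)
theorem L32634 : W_12 (nat_lit 2) (nat_lit 0x200000001b00090000000000000000000000000000000) (nat_lit 0x0) (nat_lit 0x400108000000000000000000000000000000) := D_12 (nat_lit 142) (nat_lit 123) (nat_lit 128) (nat_lit 0) (nat_lit 8) (nat_lit 8) (nat_lit 2) (nat_lit 5) (nat_lit 8) (by decide +kernel)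
theorem L32635 : W_12 (nat_lit 2) (nat_lit 0x4000240002001b00090000000000000000000000000000000) (nat_lit 0x0) (nat_lit 0x8000800040000000000000000000000) := D_12 (nat_lit 107) (nat_lit 123) (nat_lit 90) (nat_lit 6) (nat_lit 4) (nat_lit 10) (nat_lit 5) (nat_lit 5) (nat_lit 5) (by decide +kernel)
theorem L32636 : W_12 (nat_lit 3) (nat_lit 0x4000240000001b00090000000000000000000000000000000) (nat_lit 0x0) (nat_lit 0x800000002000000008000800040000000000000000000000) := T_12 (nat_lit 157) (nat_lit 191) (nat_lit 6) (nat_lit 4) (nat_lit 11) L32635 (by decide +kernel)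
theorem L32637 : W_12 (nat_lit 4) (nat_lit 0x240000001b00090000000000000000000000000000000) (nat_lit 0x0) (nat_lit 0x4800000012000000008000800040000000000000000000000) := T_12 (nat_lit 194) (nat_lit 160) (nat_lit 6) (nat_lit 7) (nat_lit 11) L32636 (by decide +kernel)
theorem L32640 : W_12 (nat_lit 4) (nat_lit 0x800240000001b000d0000000000000000000000000000000) (nat_lit 0x0) (nat_lit 0x2400180034000000000000000000000000000000000000000) := T_12 (nat_lit 175) (nat_lit 158) (nat_lit 5) (nat_lit 5) (nat_lit 7) L32639 (by decide +kernel)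
theorem L32641 : W_12 (nat_lit 5) (nat_lit 0x240000001b000d0000000000000000000000000000000) (nat_lit 0x0) (nat_lit 0x2c00180036000000000000000000000000000000000000000) := T_12 (nat_lit 191) (nat_lit 157) (nat_lit 6) (nat_lit 4) (nat_lit 11) L32640 (by decide +kernel)
theorem L32642 : W_12 (nat_lit 6) (nat_lit 0x240000001b00090000000000000000000000000000000) (nat_lit 0x0) (nat_lit 0x2c00180036000000060000000000000000000000000000000) := T_12 (nat_lit 126) (nat_lit 125) (nat_lit 1) (nat_lit 8) (nat_lit 7) L32641 (by decide +kernel)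
theorem L32643 : W_12 (nat_lit 2) (nat_lit 0x49003f0000801b000d0000000000000000000000000000000) (nat_lit 0x0) (nat_lit 0x1080008000000000000000000000000000000000000000000) := D_12 (nat_lit 171) (nat_lit 192) (nat_lit 187) (nat_lit 3) (nat_lit 1) (nat_lit 10) (nat_lit 1) (nat_lit 4) (nat_lit 10) (by decide +kernel)
theorem L32644 : W_12 (nat_lit 3) (nat_lit 0x48003f0000801b000d0000000000000000000000000000000) (nat_lit 0x0) (nat_lit 0x1380008000000000000000000000000000000000000000000) := T_12 (nat_lit 188) (nat_lit 189) (nat_lit 1) (nat_lit 5) (nat_lit 10) L32643 (by decide +kernel)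
theorem L32645 : W_12 (nat_lit 4) (nat_lit 0x48003e0000801b000d0000000000000000000000000000000) (nat_lit 0x0) (nat_lit 0x1380018000400000000000000000000000000000000000000) := T_12 (nat_lit 172) (nat_lit 154) (nat_lit 0) (nat_lit 5) (nat_lit 10) L32644 (by decide +kernel)
theorem L32646 : W_12 (nat_lit 5) (nat_lit 0x48003e0000001b000d0000000000000000000000000000000) (nat_lit 0x0) (nat_lit 0x1380018001c00000000000000000000000000000000000000) := T_12 (nat_lit 155) (nat_lit 156) (nat_lit 0) (nat_lit 6) (nat_lit 10) L32645 (by decide +kernel)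
theorem L32647 : W_12 (nat_lit 6) (nat_lit 0x48003c0000001b000d0000000000000000000000000000000) (nat_lit 0x0) (nat_lit 0x3380038001c00000000000000000000000000000000000000) := T_12 (nat_lit 173) (nat_lit 193) (nat_lit 3) (nat_lit 3) (nat_lit 10) L32646 (by decide +kernel)
theorem L32648 : W_12 (nat_lit 7) (nat_lit 0x8003c0000001b000d0000000000000000000000000000000) (nat_lit 0x0) (nat_lit 0xf380038001c00000000000000000000000000000000000000) := T_12 (nat_lit 194) (nat_lit 195) (nat_lit 3) (nat_lit 4) (nat_lit 10) L32647 (by decide +kernel)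
theorem L32649 : W_12 (nat_lit 8) (nat_lit 0x8002c0000001b000d0000000000000000000000000000000) (nat_lit 0x0) (nat_lit 0xf780138001c00000000000000000000000000000000000000) := T_12 (nat_lit 176) (nat_lit 190) (nat_lit 1) (nat_lit 7) (nat_lit 10) L32648 (by decide +kernel)
theorem L32650 : W_12 (nat_lit 9) (nat_lit 0x8002c0000001b00090000000000000000000000000000000) (nat_lit 0x0) (nat_lit 0xf780138001c00000060000000000000000000000000000000) := T_12 (nat_lit 126) (nat_lit 125) (nat_lit 1) (nat_lit 8) (nat_lit 7) L32649 (by decide +kernel)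
theorem L32651 : W_12 (nat_lit 10) (nat_lit 0x800240000001b00090000000000000000000000000000000) (nat_lit 0x0) (nat_lit 0xf7801b8005c00000060000000000000000000000000000000) := T_12 (nat_lit 175) (nat_lit 158) (nat_lit 5) (nat_lit 5) (nat_lit 7) L32650 (by decide +kernel)
theorem L32652 : W_12 (nat_lit 11) (nat_lit 0x240000001b00090000000000000000000000000000000) (nat_lit 0x0) (nat_lit 0xff801b8007c00000060000000000000000000000000000000) := T_12 (nat_lit 191) (nat_lit 157) (nat_lit 6) (nat_lit 4) (nat_lit 11) L32651 (by decide +kernel)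
theorem L32657 : W_12 (nat_lit 6) (nat_lit 0x240000001b00090000000000000000000000000000000) (nat_lit 0x0) (nat_lit 0x6c00180034000000060000000000000000000000000000000) := T_12 (nat_lit 126) (nat_lit 125) (nat_lit 1) (nat_lit 8) (nat_lit 7) L32656 (by decide +kernel)
theorem L32662 : W_12 (nat_lit 6) (nat_lit 0x240010001b00090000000000000000000000000000000) (nat_lit 0x0) (nat_lit 0x2000180027000000060000800040000000000000000000000) := T_12 (nat_lit 126) (nat_lit 125) (nat_lit 1) (nat_lit 8) (nat_lit 7) L32661 (by decide +kernel)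
theorem L32663 : W_12 (nat_lit 7) (nat_lit 0x240000001b00090000000000000000000000000000000) (nat_lit 0x0) (nat_lit 0x6000180037000000060000800040000000000000000000000) := T_12 (nat_lit 160) (nat_lit 194) (nat_lit 6) (nat_lit 7) (nat_lit 11) L32662 (by decide +kernel)
theorem L32664 : W_12 (nat_lit 12) (nat_lit 0x200000001b00090000000000000000000000000000000) (nat_lit 0x0) (nat_lit 0xff801f8037c00000068000800040000000000000000000000) := Q_12 (nat_lit 174) (C_12 L32637 (C_12 L32642 (C_12 L32652 (C_12 L32657 (C_12 L32663 N_12))))) (by decide +kernel)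
theorem L32665 : W_12 (nat_lit 13) (nat_lit 0x200000001300090000000000000000000000000000000) (nat_lit 0x0) (nat_lit 0xff801f8037c00c00168000800040000000000000000000000) := Q_12 (nat_lit 143) (C_12 L32632 (C_12 L32633 (C_12 L32634 (C_12 L32664 N_12)))) (by decide +kernel)
theorem L32669 : W_12 (nat_lit 5) (nat_lit 0x2400000017000b0000000000000000000000000000000) (nat_lit 0x0) (nat_lit 0x8000200038000c0006000000000000000000000000000000) := T_12 (nat_lit 191) (nat_lit 157) (nat_lit 6) (nat_lit 4) (nat_lit 11) L32668 (by decide +kernel)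
theorem L32670 : W_12 (nat_lit 6) (nat_lit 0x240000001700090000000000000000000000000000000) (nat_lit 0x0) (nat_lit 0x8000200038000c0066000000000000000000000000000000) := T_12 (nat_lit 125) (nat_lit 126) (nat_lit 1) (nat_lit 8) (nat_lit 7) L32669 (by decide +kernel)
theorem L32698 : W_12 (nat_lit 12) (nat_lit 0x200000001700090000000000000000000000000000000) (nat_lit 0x0) (nat_lit 0xff801f8037c000c006e000700018000000000000000000000) := Q_12 (nat_lit 174) (C_12 L32670 (C_12 L32680 (C_12 L32686 (C_12 L32691 (C_12 L32697 N_12))))) (by decide +kernel)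
theorem L32699 : W_12 (nat_lit 13) (nat_lit 0x200000001300090000000000000000000000000000000) (nat_lit 0x0) (nat_lit 0xff801f8037c00cc016e000700018000000000000000000000) := Q_12 (nat_lit 142) (C_12 L32400 (C_12 L32698 (C_12 L32399 N_12))) (by decide +kernel)
theorem L32703 : W_12 (nat_lit 5) (nat_lit 0x240000001b000d0000000000000000000000000000000) (nat_lit 0x0) (nat_lit 0x6c00180032000000000000000000000000000000000000000) := T_12 (nat_lit 191) (nat_lit 157) (nat_lit 6) (nat_lit 4) (nat_lit 11) L32702 (by decide +kernel)
theorem L32704 : W_12 (nat_lit 6) (nat_lit 0x240000001b00090000000000000000000000000000000) (nat_lit 0x0) (nat_lit 0x6c00180032000000060000000000000000000000000000000) := T_12 (nat_lit 126) (nat_lit 125) (nat_lit 1) (nat_lit 8) (nat_lit 7) L32703 (by decide +kernel)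
theorem L32705 : W_12 (nat_lit 2) (nat_lit 0x48002c0000001b00090000000000000000000000000000000) (nat_lit 0x0) (nat_lit 0x8400100000000000000000000000000000000000000000000) := D_12 (nat_lit 176) (nat_lit 195) (nat_lit 190) (nat_lit 3) (nat_lit 4) (nat_lit 10) (nat_lit 1) (nat_lit 7) (nat_lit 10) (by decide +kernel)
theorem L32706 : W_12 (nat_lit 3) (nat_lit 0x4800240000001b00090000000000000000000000000000000) (nat_lit 0x0) (nat_lit 0x8400180004000000000000000000000000000000000000000) := T_12 (nat_lit 175) (nat_lit 158) (nat_lit 5) (nat_lit 5) (nat_lit 7) L32705 (by decide +kernel)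
theorem L32707 : W_12 (nat_lit 4) (nat_lit 0x4000240000001b00090000000000000000000000000000000) (nat_lit 0x0) (nat_lit 0x8c00180006000000000000000000000000000000000000000) := T_12 (nat_lit 191) (nat_lit 157) (nat_lit 6) (nat_lit 4) (nat_lit 11) L32706 (by decide +kernel)
theorem L32708 : W_12 (nat_lit 5) (nat_lit 0x240000001b00090000000000000000000000000000000) (nat_lit 0x0) (nat_lit 0xcc00180016000000000000000000000000000000000000000) := T_12 (nat_lit 194) (nat_lit 160) (nat_lit 6) (nat_lit 7) (nat_lit 11) L32707 (by decide +kernel)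
theorem L32709 : W_12 (nat_lit 2) (nat_lit 0x240002001b00090000000000000000000000000000000) (nat_lit 0x0) (nat_lit 0x4000000000000800040000000000000000000000) := D_12 (nat_lit 107) (nat_lit 158) (nat_lit 90) (nat_lit 5) (nat_lit 5) (nat_lit 6) (nat_lit 5) (nat_lit 5) (nat_lit 5) (by decide +kernel)
theorem L32710 : W_12 (nat_lit 3) (nat_lit 0x240000001b00090000000000000000000000000000000) (nat_lit 0x0) (nat_lit 0x800000006000000000000800040000000000000000000000) := T_12 (nat_lit 157) (nat_lit 191) (nat_lit 6) (nat_lit 4) (nat_lit 11) L32709 (by decide +kernel)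
theorem L32711 : W_12 (nat_lit 8) (nat_lit 0x200000001b00090000000000000000000000000000000) (nat_lit 0x0) (nat_lit 0xec001c0037000000060000800040000000000000000000000) := Q_12 (nat_lit 174) (C_12 L32704 (C_12 L32708 (C_12 L32710 (C_12 L32657 (C_12 L32663 N_12))))) (by decide +kernel)
theorem L32712 : W_12 (nat_lit 2) (nat_lit 0x200000001b00090000000000000000000000000000000) (nat_lit 0x0) (nat_lit 0x400140000000000000000000000000000000) := D_12 (nat_lit 142) (nat_lit 128) (nat_lit 126) (nat_lit 2) (nat_lit 5) (nat_lit 8) (nat_lit 2) (nat_lit 4) (nat_lit 8) (by decide +kernel)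
theorem L32713 : W_12 (nat_lit 7) (nat_lit 0x4000200000001b00090000000000000000000000000000000) (nat_lit 0x0) (nat_lit 0x638004c0127000000000000000000000000000000) := T_12 (nat_lit 142) (nat_lit 128) (nat_lit 2) (nat_lit 5) (nat_lit 8) L32339 (by decide +kernel)
theorem L32714 : W_12 (nat_lit 8) (nat_lit 0x200000001b00090000000000000000000000000000000) (nat_lit 0x0) (nat_lit 0x40000000738004c0127000000000000000000000000000000) := T_12 (nat_lit 194) (nat_lit 160) (nat_lit 6) (nat_lit 7) (nat_lit 11) L32713 (by decide +kernel)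
theorem L32715 : W_12 (nat_lit 9) (nat_lit 0x200000001300090000000000000000000000000000000) (nat_lit 0x0) (nat_lit 0xec001c0077800cc0167000800040000000000000000000000) := Q_12 (nat_lit 143) (C_12 L32711 (C_12 L32632 (C_12 L32712 (C_12 L32714 N_12)))) (by decide +kernel)
theorem L32724 : W_12 (nat_lit 2) (nat_lit 0x2000020017000d0000800000000000000000000000000) (nat_lit 0x0) (nat_lit 0x800040004000000000000000000000000000000000000000) := D_12 (nat_lit 174) (nat_lit 191) (nat_lit 158) (nat_lit 6) (nat_lit 4) (nat_lit 11) (nat_lit 5) (nat_lit 5) (nat_lit 6) (by decide +kernel)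
theorem L32725 : W_12 (nat_lit 3) (nat_lit 0x2000020017000d0000000000000000000000000000000) (nat_lit 0x0) (nat_lit 0x800040004000000000000800040000000000000000000000) := T_12 (nat_lit 107) (nat_lit 90) (nat_lit 5) (nat_lit 5) (nat_lit 5) L32724 (by decide +kernel)
theorem L32726 : W_12 (nat_lit 4) (nat_lit 0x200002001700090000000000000000000000000000000) (nat_lit 0x0) (nat_lit 0x800040004000000060000800040000000000000000000000) := T_12 (nat_lit 126) (nat_lit 125) (nat_lit 1) (nat_lit 8) (nat_lit 7) L32725 (by decide +kernel)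
theorem L32727 : W_12 (nat_lit 8) (nat_lit 0x200000001700090000000000000000000000000000000) (nat_lit 0x0) (nat_lit 0x8000400060000c006e000f00050000000000000000000000) := Q_12 (nat_lit 157) (C_12 L32405 (C_12 L32721 (C_12 L32723 (C_12 L32726 N_12)))) (by decide +kernel)
theorem L32728 : W_12 (nat_lit 9) (nat_lit 0x200000001300090000000000000000000000000000000) (nat_lit 0x0) (nat_lit 0x800040006000cc016e000f00050000000000000000000000) := Q_12 (nat_lit 142) (C_12 L32400 (C_12 L32727 (C_12 L32399 N_12))) (by decide +kernel)
theorem L32729 : W_12 (nat_lit 2) (nat_lit 0x200002001700090000800000000000000000000000000) (nat_lit 0x0) (nat_lit 0x40004000000008000000000000000000000000000000) := D_12 (nat_lit 174) (nat_lit 158) (nat_lit 123) (nat_lit 5) (nat_lit 5) (nat_lit 6) (nat_lit 6) (nat_lit 4) (nat_lit 10) (by decide +kernel)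
theorem L32730 : W_12 (nat_lit 3) (nat_lit 0x200002001700090000000000000000000000000000000) (nat_lit 0x0) (nat_lit 0x40004000000008000800040000000000000000000000) := T_12 (nat_lit 107) (nat_lit 90) (nat_lit 5) (nat_lit 5) (nat_lit 5) L32729 (by decide +kernel)
theorem L32731 : W_12 (nat_lit 2) (nat_lit 0x2000030017800b4000000000000000000000000000000) (nat_lit 0x0) (nat_lit 0x40000000000000000200010000000000000000000000) := D_12 (nat_lit 105) (nat_lit 174) (nat_lit 88) (nat_lit 7) (nat_lit 3) (nat_lit 6) (nat_lit 7) (nat_lit 3) (nat_lit 5) (by decide +kernel)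
theorem L32732 : W_12 (nat_lit 3) (nat_lit 0x2000030017800b0000000000000000000000000000000) (nat_lit 0x0) (nat_lit 0x40000000000006000200010000000000000000000000) := T_12 (nat_lit 122) (nat_lit 121) (nat_lit 0) (nat_lit 6) (nat_lit 8) L32731 (by decide +kernel)
theorem L32733 : W_12 (nat_lit 4) (nat_lit 0x2000020017800b0000000000000000000000000000000) (nat_lit 0x0) (nat_lit 0x40001800000006000200010000000000000000000000) := T_12 (nat_lit 156) (nat_lit 155) (nat_lit 1) (nat_lit 6) (nat_lit 8) L32732 (by decide +kernel)
theorem L32734 : W_12 (nat_lit 5) (nat_lit 0x2000020017000b0000000000000000000000000000000) (nat_lit 0x0) (nat_lit 0x400018000c0006000200010000000000000000000000) := T_12 (nat_lit 139) (nat_lit 138) (nat_lit 2) (nat_lit 2) (nat_lit 8) L32733 (by decide +kernel)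
theorem L32735 : W_12 (nat_lit 6) (nat_lit 0x200002001700090000000000000000000000000000000) (nat_lit 0x0) (nat_lit 0x400018000c0066000200010000000000000000000000) := T_12 (nat_lit 125) (nat_lit 126) (nat_lit 1) (nat_lit 8) (nat_lit 7) L32734 (by decide +kernel)
theorem L32736 : W_12 (nat_lit 8) (nat_lit 0x200000001700090000000000000000000000000000000) (nat_lit 0x0) (nat_lit 0x400078000c006e000f00050000000000000000000000) := Q_12 (nat_lit 157) (C_12 L32721 (C_12 L32730 (C_12 L32735 N_12))) (by decide +kernel)
theorem L32737 : W_12 (nat_lit 9) (nat_lit 0x200000001300090000000000000000000000000000000) (nat_lit 0x0) (nat_lit 0x40007800cc016e000f00050000000000000000000000) := Q_12 (nat_lit 142) (C_12 L32400 (C_12 L32736 (C_12 L32399 N_12))) (by decide +kernel)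
theorem L32738 : W_12 (nat_lit 16) (nat_lit 0x200000001200090000000000000000000000000000000) (nat_lit 0x0) (nat_lit 0x20007c00ff801f8077c00de016f000f803fc00f800280000000000000) := Q_12 (nat_lit 140) (C_12 L32389 (C_12 L32398 (C_12 L32427 (C_12 L32475 (C_12 L32568 (C_12 L32631 (C_12 L32665 (C_12 L32699 (C_12 L32715 (C_12 L32728 (C_12 L32737 N_12))))))))))) (by decide +kernel)
theorem L32739 : W_12 (nat_lit 2) (nat_lit 0x380004001a00098000800000000000000000000000000) (nat_lit 0x0) (nat_lit 0x800040002000000000000000000000000000000000000000) := D_12 (nat_lit 174) (nat_lit 157) (nat_lit 191) (nat_lit 5) (nat_lit 5) (nat_lit 6) (nat_lit 5) (nat_lit 5) (nat_lit 7) (by decide +kernel)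
theorem L32740 : W_12 (nat_lit 3) (nat_lit 0x380004001a00098000000000000000000000000000000) (nat_lit 0x0) (nat_lit 0x80004000a000000000000800000000000000000000000000) := T_12 (nat_lit 107) (nat_lit 159) (nat_lit 7) (nat_lit 5) (nat_lit 6) L32739 (by decide +kernel)
theorem L32741 : W_12 (nat_lit 4) (nat_lit 0x280004001a00098000000000000000000000000000000) (nat_lit 0x0) (nat_lit 0x280014000a000000000000800000000000000000000000000) := T_12 (nat_lit 176) (nat_lit 193) (nat_lit 7) (nat_lit 5) (nat_lit 7) L32740 (by decide +kernel)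
theorem L32742 : W_12 (nat_lit 5) (nat_lit 0x280004001a00090000000000000000000000000000000) (nat_lit 0x0) (nat_lit 0x280014000a000000008000c00000000000000000000000000) := T_12 (nat_lit 123) (nat_lit 106) (nat_lit 4) (nat_lit 5) (nat_lit 10) L32741 (by decide +kernel)
theorem L32745 : W_12 (nat_lit 4) (nat_lit 0x280004001a00098000000000000000000000000000000) (nat_lit 0x0) (nat_lit 0x10003800140000000100000000000000000000000000000000000) := T_12 (nat_lit 176) (nat_lit 193) (nat_lit 7) (nat_lit 5) (nat_lit 7) L32744 (by decide +kernel)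
theorem L32746 : W_12 (nat_lit 5) (nat_lit 0x280004001a00090000000000000000000000000000000) (nat_lit 0x0) (nat_lit 0x10003800140000000100008000400000000000000000000000000) := T_12 (nat_lit 123) (nat_lit 106) (nat_lit 4) (nat_lit 5) (nat_lit 10) L32745 (by decide +kernel)
theorem L32747 : W_12 (nat_lit 2) (nat_lit 0x2c0004001a00090000800000000000000000000000000) (nat_lit 0x0) (nat_lit 0x8000400020000000000000000000000) := D_12 (nat_lit 106) (nat_lit 89) (nat_lit 123) (nat_lit 4) (nat_lit 5) (nat_lit 9) (nat_lit 4) (nat_lit 5) (nat_lit 10) (by decide +kernel)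
theorem L32748 : W_12 (nat_lit 3) (nat_lit 0x2c0004001a00090000000000000000000000000000000) (nat_lit 0x0) (nat_lit 0x2000000008000c00020000000000000000000000) := T_12 (nat_lit 107) (nat_lit 157) (nat_lit 5) (nat_lit 5) (nat_lit 6) L32747 (by decide +kernel)
theorem L32749 : W_12 (nat_lit 4) (nat_lit 0x280004001a00090000000000000000000000000000000) (nat_lit 0x0) (nat_lit 0x800040002000000008000c00020000000000000000000000) := T_12 (nat_lit 174) (nat_lit 191) (nat_lit 5) (nat_lit 5) (nat_lit 7) L32748 (by decide +kernel)
theorem L32751 : W_12 (nat_lit 3) (nat_lit 0x380004001a00098000800000000000000000000000000) (nat_lit 0x0) (nat_lit 0x1000000002000100000000000040002000000000000000000) := T_12 (nat_lit 140) (nat_lit 192) (nat_lit 4) (nat_lit 5) (nat_lit 11) L32750 (by decide +kernel)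
theorem L32752 : W_12 (nat_lit 4) (nat_lit 0x380004001a00098000000000000000000000000000000) (nat_lit 0x0) (nat_lit 0x100000000a000100000000800040002000000000000000000) := T_12 (nat_lit 107) (nat_lit 159) (nat_lit 7) (nat_lit 5) (nat_lit 6) L32751 (by decide +kernel)
theorem L32753 : W_12 (nat_lit 5) (nat_lit 0x280004001a00098000000000000000000000000000000) (nat_lit 0x0) (nat_lit 0x300010000a000100000000800040002000000000000000000) := T_12 (nat_lit 176) (nat_lit 193) (nat_lit 7) (nat_lit 5) (nat_lit 7) L32752 (by decide +kernel)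
theorem L32754 : W_12 (nat_lit 6) (nat_lit 0x280004001a00090000000000000000000000000000000) (nat_lit 0x0) (nat_lit 0x300010000a000100008000c00040002000000000000000000) := T_12 (nat_lit 123) (nat_lit 106) (nat_lit 4) (nat_lit 5) (nat_lit 10) L32753 (by decide +kernel)
theorem L32755 : W_12 (nat_lit 2) (nat_lit 0x2c0004001a00090000800000000000000000000000000) (nat_lit 0x0) (nat_lit 0x2000100008000000000000000000000000000000000000000) := D_12 (nat_lit 176) (nat_lit 193) (nat_lit 159) (nat_lit 7) (nat_lit 5) (nat_lit 7) (nat_lit 7) (nat_lit 5) (nat_lit 6) (by decide +kernel)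
theorem L32756 : W_12 (nat_lit 3) (nat_lit 0x2c0004001a00090000000000000000000000000000000) (nat_lit 0x0) (nat_lit 0x200010000a000000000000800000000000000000000000000) := T_12 (nat_lit 107) (nat_lit 157) (nat_lit 5) (nat_lit 5) (nat_lit 6) L32755 (by decide +kernel)
theorem L32757 : W_12 (nat_lit 4) (nat_lit 0x280004001a00090000000000000000000000000000000) (nat_lit 0x0) (nat_lit 0x280014000a000000000000800000000000000000000000000) := T_12 (nat_lit 174) (nat_lit 191) (nat_lit 5) (nat_lit 5) (nat_lit 7) L32756 (by decide +kernel)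
theorem L32758 : W_12 (nat_lit 7) (nat_lit 0x200004001a00090000000000000000000000000000000) (nat_lit 0x0) (nat_lit 0x100038001c000a000100008000c00060002000000000000000000) := Q_12 (nat_lit 175) (C_12 L32742 (C_12 L32746 (C_12 L32749 (C_12 L32754 (C_12 L32757 N_12))))) (by decide +kernel)
theorem L32759 : W_12 (nat_lit 2) (nat_lit 0x6000280004001a00098000000000000000000000000000000) (nat_lit 0x0) (nat_lit 0x40001000000000000100000000000000000000000000000000000) := D_12 (nat_lit 192) (nat_lit 210) (nat_lit 140) (nat_lit 7) (nat_lit 5) (nat_lit 8) (nat_lit 4) (nat_lit 5) (nat_lit 11) (by decide +kernel)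
theorem L32760 : W_12 (nat_lit 3) (nat_lit 0x6000280004001a00090000000000000000000000000000000) (nat_lit 0x0) (nat_lit 0x40001000000000000100008000400000000000000000000000000) := T_12 (nat_lit 123) (nat_lit 106) (nat_lit 4) (nat_lit 5) (nat_lit 10) L32759 (by decide +kernel)
theorem L32761 : W_12 (nat_lit 4) (nat_lit 0x4000280004001a00090000000000000000000000000000000) (nat_lit 0x0) (nat_lit 0x40003000100000000100008000400000000000000000000000000) := T_12 (nat_lit 193) (nat_lit 176) (nat_lit 7) (nat_lit 5) (nat_lit 7) L32760 (by decide +kernel)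
theorem L32762 : W_12 (nat_lit 5) (nat_lit 0x280004001a00090000000000000000000000000000000) (nat_lit 0x0) (nat_lit 0x40007000100010000100008000400000000000000000000000000) := T_12 (nat_lit 194) (nat_lit 160) (nat_lit 6) (nat_lit 7) (nat_lit 11) L32761 (by decide +kernel)
theorem L32764 : W_12 (nat_lit 3) (nat_lit 0x380004001a00090000000000000000000000000000000) (nat_lit 0x0) (nat_lit 0xc800040010000000000000000000000000000000000000000) := T_12 (nat_lit 194) (nat_lit 160) (nat_lit 6) (nat_lit 7) (nat_lit 11) L32763 (by decide +kernel)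
theorem L32765 : W_12 (nat_lit 4) (nat_lit 0x280004001a00090000000000000000000000000000000) (nat_lit 0x0) (nat_lit 0xe800140010000000000000000000000000000000000000000) := T_12 (nat_lit 176) (nat_lit 193) (nat_lit 7) (nat_lit 5) (nat_lit 7) L32764 (by decide +kernel)
theorem L32766 : W_12 (nat_lit 6) (nat_lit 0x200004001a00090000000000000000000000000000000) (nat_lit 0x0) (nat_lit 0x4000f8001c0012000100008000c00020000000000000000000000) := Q_12 (nat_lit 175) (C_12 L32749 (C_12 L32762 (C_12 L32765 N_12))) (by decide +kernel)
theorem L32767 : W_12 (nat_lit 2) (nat_lit 0x200016001a00090000800040000000000000000000000) (nat_lit 0x0) (nat_lit 0x400020001000000000000000000) := D_12 (nat_lit 89) (nat_lit 72) (nat_lit 106) (nat_lit 4) (nat_lit 5) (nat_lit 8) (nat_lit 4) (nat_lit 5) (nat_lit 9) (by decide +kernel)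
theorem L32768 : W_12 (nat_lit 3) (nat_lit 0x200016001a00090000800000000000000000000000000) (nat_lit 0x0) (nat_lit 0x100000000400060001000000000000000000) := T_12 (nat_lit 90) (nat_lit 140) (nat_lit 5) (nat_lit 5) (nat_lit 5) L32767 (by decide +kernel)
theorem L32769 : W_12 (nat_lit 4) (nat_lit 0x200016001a00090000000000000000000000000000000) (nat_lit 0x0) (nat_lit 0x40000000100000000c00060001000000000000000000) := T_12 (nat_lit 107) (nat_lit 174) (nat_lit 5) (nat_lit 5) (nat_lit 6) L32768 (by decide +kernel)
theorem L32770 : W_12 (nat_lit 5) (nat_lit 0x200014001a00090000000000000000000000000000000) (nat_lit 0x0) (nat_lit 0x4000a000100000000c00060001000000000000000000) := T_12 (nat_lit 157) (nat_lit 159) (nat_lit 2) (nat_lit 4) (nat_lit 9) L32769 (by decide +kernel)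
theorem L32771 : W_12 (nat_lit 6) (nat_lit 0x200004001a00090000000000000000000000000000000) (nat_lit 0x0) (nat_lit 0x400004001a000100000000c00060001000000000000000000) := T_12 (nat_lit 160) (nat_lit 194) (nat_lit 6) (nat_lit 7) (nat_lit 11) L32770 (by decide +kernel)
theorem L32772 : W_12 (nat_lit 2) (nat_lit 0x240016001a00090000000000000000000000000000000) (nat_lit 0x0) (nat_lit 0x10000800080000000000000000000000000000000000000000000) := D_12 (nat_lit 191) (nat_lit 175) (nat_lit 208) (nat_lit 5) (nat_lit 5) (nat_lit 7) (nat_lit 6) (nat_lit 4) (nat_lit 12) (by decide +kernel)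
theorem L32773 : W_12 (nat_lit 3) (nat_lit 0x200016001a00090000000000000000000000000000000) (nat_lit 0x0) (nat_lit 0x100008000c0000000000000000800000000000000000000000000) := T_12 (nat_lit 174) (nat_lit 107) (nat_lit 5) (nat_lit 5) (nat_lit 6) L32772 (by decide +kernel)
theorem L32774 : W_12 (nat_lit 4) (nat_lit 0x200014001a00090000000000000000000000000000000) (nat_lit 0x0) (nat_lit 0x100008000c000a000000000000800000000000000000000000000) := T_12 (nat_lit 157) (nat_lit 159) (nat_lit 2) (nat_lit 4) (nat_lit 9) L32773 (by decide +kernel)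
theorem L32775 : W_12 (nat_lit 5) (nat_lit 0x200004001a00090000000000000000000000000000000) (nat_lit 0x0) (nat_lit 0x100048000c001a000000000000800000000000000000000000000) := T_12 (nat_lit 160) (nat_lit 194) (nat_lit 6) (nat_lit 7) (nat_lit 11) L32774 (by decide +kernel)
theorem L32776 : W_12 (nat_lit 2) (nat_lit 0x30003c001a00090000000000000000000000000000000) (nat_lit 0x0) (nat_lit 0x40002000000000000000040000000000000000000000000000000) := D_12 (nat_lit 193) (nat_lit 210) (nat_lit 126) (nat_lit 6) (nat_lit 6) (nat_lit 12) (nat_lit 5) (nat_lit 7) (nat_lit 7) (by decide +kernel)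
theorem L32777 : W_12 (nat_lit 3) (nat_lit 0x20003c001a00090000000000000000000000000000000) (nat_lit 0x0) (nat_lit 0x40002000100000000000040000800000000000000000000000000) := T_12 (nat_lit 176) (nat_lit 107) (nat_lit 7) (nat_lit 5) (nat_lit 6) L32776 (by decide +kernel)
theorem L32778 : W_12 (nat_lit 4) (nat_lit 0x20001c001a00090000000000000000000000000000000) (nat_lit 0x0) (nat_lit 0x40002000100020000100040000800000000000000000000000000) := T_12 (nat_lit 161) (nat_lit 140) (nat_lit 0) (nat_lit 8) (nat_lit 9) L32777 (by decide +kernel)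
theorem L32779 : W_12 (nat_lit 5) (nat_lit 0x200014001a00090000000000000000000000000000000) (nat_lit 0x0) (nat_lit 0x4000200010002a000100040000800000000000000000000000000) := T_12 (nat_lit 159) (nat_lit 157) (nat_lit 2) (nat_lit 4) (nat_lit 9) L32778 (by decide +kernel)
theorem L32780 : W_12 (nat_lit 6) (nat_lit 0x200004001a00090000000000000000000000000000000) (nat_lit 0x0) (nat_lit 0x4000600010003a000100040000800000000000000000000000000) := T_12 (nat_lit 160) (nat_lit 194) (nat_lit 6) (nat_lit 7) (nat_lit 11) L32779 (by decide +kernel)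
theorem L32781 : W_12 (nat_lit 2) (nat_lit 0x50002c0004001a00098000000000000000000000000000000) (nat_lit 0x0) (nat_lit 0x4000a000000000000000000000000000000000000000000000000) := D_12 (nat_lit 193) (nat_lit 195) (nat_lit 210) (nat_lit 0) (nat_lit 8) (nat_lit 11) (nat_lit 7) (nat_lit 5) (nat_lit 8) (by decide +kernel)
theorem L32782 : W_12 (nat_lit 3) (nat_lit 0x40002c0004001a00098000000000000000000000000000000) (nat_lit 0x0) (nat_lit 0x4000b000000000000100000000000000000000000000000000000) := T_12 (nat_lit 192) (nat_lit 140) (nat_lit 4) (nat_lit 5) (nat_lit 11) L32781 (by decide +kernel)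
theorem L32783 : W_12 (nat_lit 4) (nat_lit 0x40002c0004001a00090000000000000000000000000000000) (nat_lit 0x0) (nat_lit 0x4000b000000000000100008000400000000000000000000000000) := T_12 (nat_lit 123) (nat_lit 106) (nat_lit 4) (nat_lit 5) (nat_lit 10) L32782 (by decide +kernel)
theorem L32784 : W_12 (nat_lit 5) (nat_lit 0x4000280004001a00090000000000000000000000000000000) (nat_lit 0x0) (nat_lit 0x4000b800040000000100008000400000000000000000000000000) := T_12 (nat_lit 174) (nat_lit 191) (nat_lit 5) (nat_lit 5) (nat_lit 7) L32783 (by decide +kernel)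
theorem L32785 : W_12 (nat_lit 6) (nat_lit 0x280004001a00090000000000000000000000000000000) (nat_lit 0x0) (nat_lit 0x4000f800040010000100008000400000000000000000000000000) := T_12 (nat_lit 194) (nat_lit 160) (nat_lit 6) (nat_lit 7) (nat_lit 11) L32784 (by decide +kernel)
theorem L32786 : W_12 (nat_lit 2) (nat_lit 0x10002c0014001a00098000000000000000000000000000000) (nat_lit 0x0) (nat_lit 0x100028000000000000000000000000000000000000000) := D_12 (nat_lit 161) (nat_lit 176) (nat_lit 159) (nat_lit 2) (nat_lit 4) (nat_lit 10) (nat_lit 1) (nat_lit 8) (nat_lit 9) (by decide +kernel)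
theorem L32787 : W_12 (nat_lit 3) (nat_lit 0x10002c0004001a00098000000000000000000000000000000) (nat_lit 0x0) (nat_lit 0x4000100038000000000000000000000000000000000000000) := T_12 (nat_lit 160) (nat_lit 194) (nat_lit 6) (nat_lit 7) (nat_lit 11) L32786 (by decide +kernel)
theorem L32788 : W_12 (nat_lit 4) (nat_lit 0x2c0004001a00098000000000000000000000000000000) (nat_lit 0x0) (nat_lit 0x5000100038000100000000000000000000000000000000000) := T_12 (nat_lit 192) (nat_lit 140) (nat_lit 4) (nat_lit 5) (nat_lit 11) L32787 (by decide +kernel)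
theorem L32789 : W_12 (nat_lit 5) (nat_lit 0x280004001a00098000000000000000000000000000000) (nat_lit 0x0) (nat_lit 0x5800140038000100000000000000000000000000000000000) := T_12 (nat_lit 174) (nat_lit 191) (nat_lit 5) (nat_lit 5) (nat_lit 7) L32788 (by decide +kernel)
theorem L32790 : W_12 (nat_lit 6) (nat_lit 0x280004001a00090000000000000000000000000000000) (nat_lit 0x0) (nat_lit 0x5800140038000100008000400000000000000000000000000) := T_12 (nat_lit 123) (nat_lit 106) (nat_lit 4) (nat_lit 5) (nat_lit 10) L32789 (by decide +kernel)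
theorem L32791 : W_12 (nat_lit 7) (nat_lit 0x200004001a00090000000000000000000000000000000) (nat_lit 0x0) (nat_lit 0x5000f8001c0038000100008000400000000000000000000000000) := Q_12 (nat_lit 175) (C_12 L32765 (C_12 L32785 (C_12 L32746 (C_12 L32762 (C_12 L32790 N_12))))) (by decide +kernel)
theorem L32792 : W_12 (nat_lit 8) (nat_lit 0x200000001a00090000000000000000000000000000000) (nat_lit 0x0) (nat_lit 0x5000f8001c003e000100048000c00060003000000000000000000) := Q_12 (nat_lit 158) (C_12 L32758 (C_12 L32766 (C_12 L32771 (C_12 L32775 (C_12 L32780 (C_12 L32791 N_12)))))) (by decide +kernel)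
theorem L32797 : W_12 (nat_lit 9) (nat_lit 0x200000001200090000000000000000000000000000000) (nat_lit 0x0) (nat_lit 0x5000f8001c003f000d00148000c00060003000000000000000000) := Q_12 (nat_lit 143) (C_12 L32792 (C_12 L32323 (C_12 L32796 N_12))) (by decide +kernel)
theorem L32798 : W_12 (nat_lit 2) (nat_lit 0x2000000012000f0000400000000000000000000000000) (nat_lit 0x0) (nat_lit 0x800008000200000000000000000000000000) := D_12 (nat_lit 123) (nat_lit 143) (nat_lit 105) (nat_lit 3) (nat_lit 4) (nat_lit 7) (nat_lit 0) (nat_lit 7) (nat_lit 7) (by decide +kernel)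
theorem L32799 : W_12 (nat_lit 3) (nat_lit 0x2000000012000f0000000000000000000000000000000) (nat_lit 0x0) (nat_lit 0x800008000e00000000000000000000000000) := T_12 (nat_lit 106) (nat_lit 107) (nat_lit 0) (nat_lit 8) (nat_lit 7) L32798 (by decide +kernel)
theorem L32800 : W_12 (nat_lit 4) (nat_lit 0x2000000012000b0000000000000000000000000000000) (nat_lit 0x0) (nat_lit 0x900048000e00000000000000000000000000) := T_12 (nat_lit 126) (nat_lit 140) (nat_lit 1) (nat_lit 8) (nat_lit 7) L32799 (by decide +kernel)
theorem L32801 : W_12 (nat_lit 5) (nat_lit 0x2000000013000b00008000e0000000000000000000000) (nat_lit 0x0) (nat_lit 0x10000c0008000600300002000000000000000000) := T_12 (nat_lit 123) (nat_lit 73) (nat_lit 5) (nat_lit 5) (nat_lit 4) L31975 (by decide +kernel)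
theorem L32802 : W_12 (nat_lit 6) (nat_lit 0x2000000012000b00008000e0000000000000000000000) (nat_lit 0x0) (nat_lit 0x30001c0008000600300002000000000000000000) := T_12 (nat_lit 140) (nat_lit 157) (nat_lit 5) (nat_lit 5) (nat_lit 5) L32801 (by decide +kernel)
theorem L32803 : W_12 (nat_lit 7) (nat_lit 0x2000000012000b0000800060000000000000000000000) (nat_lit 0x0) (nat_lit 0x30001c0008000600380006000000000000000000) := T_12 (nat_lit 91) (nat_lit 74) (nat_lit 6) (nat_lit 5) (nat_lit 8) L32802 (by decide +kernel)
theorem L32804 : W_12 (nat_lit 8) (nat_lit 0x2000000012000b0000800040000000000000000000000) (nat_lit 0x0) (nat_lit 0x30001c00080006003a0007000000000000000000) := T_12 (nat_lit 89) (nat_lit 72) (nat_lit 4) (nat_lit 5) (nat_lit 8) L32803 (by decide +kernel)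
theorem L32809 : W_12 (nat_lit 2) (nat_lit 0x2000000013000b0000800060002000000000000000000) (nat_lit 0x0) (nat_lit 0x80004000200000000000000) := D_12 (nat_lit 74) (nat_lit 91) (nat_lit 57) (nat_lit 6) (nat_lit 5) (nat_lit 8) (nat_lit 6) (nat_lit 5) (nat_lit 7) (by decide +kernel)
theorem L32810 : W_12 (nat_lit 3) (nat_lit 0x2000000013000b0000800060000000000000000000000) (nat_lit 0x0) (nat_lit 0x8000000080006000200000000000000) := T_12 (nat_lit 73) (nat_lit 123) (nat_lit 5) (nat_lit 5) (nat_lit 4) L32809 (by decide +kernel)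
theorem L32811 : W_12 (nat_lit 4) (nat_lit 0x2000000012000b0000800060000000000000000000000) (nat_lit 0x0) (nat_lit 0x2000100008000000080006000200000000000000) := T_12 (nat_lit 140) (nat_lit 157) (nat_lit 5) (nat_lit 5) (nat_lit 5) L32810 (by decide +kernel)
theorem L32812 : W_12 (nat_lit 5) (nat_lit 0x2000000012000b0000800040000000000000000000000) (nat_lit 0x0) (nat_lit 0x20001000080000000a0007000200000000000000) := T_12 (nat_lit 89) (nat_lit 72) (nat_lit 4) (nat_lit 5) (nat_lit 8) L32811 (by decide +kernel)
theorem L32816 : W_12 (nat_lit 2) (nat_lit 0x2000000013000b8000c00060000000000000000000000) (nat_lit 0x0) (nat_lit 0x10000c0000000000000000000000000000000000) := D_12 (nat_lit 139) (nat_lit 138) (nat_lit 156) (nat_lit 2) (nat_lit 2) (nat_lit 8) (nat_lit 5) (nat_lit 4) (nat_lit 5) (by decide +kernel)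
theorem L32817 : W_12 (nat_lit 3) (nat_lit 0x2000000013000b8000800060000000000000000000000) (nat_lit 0x0) (nat_lit 0x50000c0000000400000000000000000000000000) := T_12 (nat_lit 106) (nat_lit 158) (nat_lit 7) (nat_lit 4) (nat_lit 5) L32816 (by decide +kernel)
theorem L32818 : W_12 (nat_lit 4) (nat_lit 0x2000000013000b0000800060000000000000000000000) (nat_lit 0x0) (nat_lit 0x50000c0008000400000002000000000000000000) := T_12 (nat_lit 123) (nat_lit 73) (nat_lit 5) (nat_lit 5) (nat_lit 4) L32817 (by decide +kernel)
theorem L32819 : W_12 (nat_lit 5) (nat_lit 0x2000000012000b0000800060000000000000000000000) (nat_lit 0x0) (nat_lit 0x70001c0008000400000002000000000000000000) := T_12 (nat_lit 140) (nat_lit 157) (nat_lit 5) (nat_lit 5) (nat_lit 5) L32818 (by decide +kernel)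
theorem L32820 : W_12 (nat_lit 6) (nat_lit 0x2000000012000b0000800040000000000000000000000) (nat_lit 0x0) (nat_lit 0x70001c0008000400020003000000000000000000) := T_12 (nat_lit 89) (nat_lit 72) (nat_lit 4) (nat_lit 5) (nat_lit 8) L32819 (by decide +kernel)
theorem L32821 : W_12 (nat_lit 9) (nat_lit 0x2000000012000b0000800000000000000000000000000) (nat_lit 0x0) (nat_lit 0x70001c00080007003e0007000200000000000000) := Q_12 (nat_lit 90) (C_12 L32804 (C_12 L32808 (C_12 L32812 (C_12 L32815 (C_12 L32820 N_12))))) (by decide +kernel)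
theorem L32822 : W_12 (nat_lit 2) (nat_lit 0x2000000016000b0000800000000000000000000000000) (nat_lit 0x0) (nat_lit 0x800108000000000000000000000000000000) := D_12 (nat_lit 143) (nat_lit 123) (nat_lit 128) (nat_lit 0) (nat_lit 8) (nat_lit 8) (nat_lit 2) (nat_lit 5) (nat_lit 8) (by decide +kernel)
theorem L32824 : W_12 (nat_lit 3) (nat_lit 0x2000000012000b0000800000000000000000000000000) (nat_lit 0x0) (nat_lit 0x8000c00108000000040002000000000000000000) := Q_12 (nat_lit 142) (C_12 L32822 (C_12 L32823 N_12)) (by decide +kernel)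
theorem L32826 : W_12 (nat_lit 6) (nat_lit 0x2000000012000b0000800000000000000000000000000) (nat_lit 0x0) (nat_lit 0xc0004000000007001e0007000000000000000000) := Q_12 (nat_lit 90) (C_12 L32808 (C_12 L32825 N_12)) (by decide +kernel)
theorem L32831 : W_12 (nat_lit 2) (nat_lit 0x200006001a000b0000800000000000000000000000000) (nat_lit 0x0) (nat_lit 0x4000000018000000000000000000000000000000000000000) := D_12 (nat_lit 160) (nat_lit 194) (nat_lit 159) (nat_lit 6) (nat_lit 7) (nat_lit 11) (nat_lit 2) (nat_lit 4) (nat_lit 9) (by decide +kernel)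
theorem L32832 : W_12 (nat_lit 3) (nat_lit 0x2000060012000b0000800000000000000000000000000) (nat_lit 0x0) (nat_lit 0x4000000018000c00000000000000000000000000000000000) := T_12 (nat_lit 143) (nat_lit 142) (nat_lit 1) (nat_lit 8) (nat_lit 8) L32831 (by decide +kernel)
theorem L32833 : W_12 (nat_lit 4) (nat_lit 0x2000040012000b0000800000000000000000000000000) (nat_lit 0x0) (nat_lit 0x400004001a000c00000000000000000000000000000000000) := T_12 (nat_lit 157) (nat_lit 174) (nat_lit 5) (nat_lit 5) (nat_lit 6) L32832 (by decide +kernel)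
theorem L32843 : W_12 (nat_lit 11) (nat_lit 0x2000040012000b0000d00000000000000000000000000) (nat_lit 0x0) (nat_lit 0x2000fc00f80008003a000d00008000000000000000000000000000000) := T_12 (nat_lit 175) (nat_lit 123) (nat_lit 4) (nat_lit 5) (nat_lit 10) L32842 (by decide +kernel)
theorem L32844 : W_12 (nat_lit 12) (nat_lit 0x2000040012000b0000c00000000000000000000000000) (nat_lit 0x0) (nat_lit 0x2000fc00f80008003a000d00008000300000000000000000000000000) := T_12 (nat_lit 104) (nat_lit 105) (nat_lit 3) (nat_lit 2) (nat_lit 6) L32843 (by decide +kernel)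
theorem L32845 : W_12 (nat_lit 13) (nat_lit 0x2000040012000b0000800000000000000000000000000) (nat_lit 0x0) (nat_lit 0x2000fc00f80008003a000d00008000700020000000000000000000000) := T_12 (nat_lit 106) (nat_lit 89) (nat_lit 4) (nat_lit 5) (nat_lit 9) L32844 (by decide +kernel)
theorem L32846 : W_12 (nat_lit 2) (nat_lit 0x70002d00140012000b0000d00000000000000000000000000) (nat_lit 0x0) (nat_lit 0x80000000000028000000000000000000000000000000000000000) := D_12 (nat_lit 161) (nat_lit 159) (nat_lit 211) (nat_lit 1) (nat_lit 8) (nat_lit 9) (nat_lit 6) (nat_lit 7) (nat_lit 12) (by decide +kernel)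
theorem L32847 : W_12 (nat_lit 3) (nat_lit 0x70002d00040012000b0000d00000000000000000000000000) (nat_lit 0x0) (nat_lit 0x80000000000038000800000000000000000000000000000000000) := T_12 (nat_lit 160) (nat_lit 143) (nat_lit 6) (nat_lit 7) (nat_lit 11) L32846 (by decide +kernel)
theorem L32848 : W_12 (nat_lit 4) (nat_lit 0x30002d00040012000b0000d00000000000000000000000000) (nat_lit 0x0) (nat_lit 0x8000c000000038000800000000000000000000000000000000000) := T_12 (nat_lit 194) (nat_lit 195) (nat_lit 0) (nat_lit 8) (nat_lit 11) L32847 (by decide +kernel)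
theorem L32849 : W_12 (nat_lit 5) (nat_lit 0x30002c00040012000b0000d00000000000000000000000000) (nat_lit 0x0) (nat_lit 0x8000c000030038000800000000000000000000000000000000000) := T_12 (nat_lit 172) (nat_lit 173) (nat_lit 3) (nat_lit 2) (nat_lit 10) L32848 (by decide +kernel)
theorem L32850 : W_12 (nat_lit 6) (nat_lit 0x10002c00040012000b0000d00000000000000000000000000) (nat_lit 0x0) (nat_lit 0xc000e000030038000800000000000000000000000000000000000) := T_12 (nat_lit 193) (nat_lit 210) (nat_lit 7) (nat_lit 5) (nat_lit 8) L32849 (by decide +kernel)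
theorem L32851 : W_12 (nat_lit 7) (nat_lit 0x2c00040012000b0000d00000000000000000000000000) (nat_lit 0x0) (nat_lit 0xc000f000030038000c00000000000000000000000000000000000) := T_12 (nat_lit 192) (nat_lit 142) (nat_lit 6) (nat_lit 5) (nat_lit 11) L32850 (by decide +kernel)
theorem L32852 : W_12 (nat_lit 8) (nat_lit 0x2800040012000b0000d00000000000000000000000000) (nat_lit 0x0) (nat_lit 0xc000f800070038000c00000000000000000000000000000000000) := T_12 (nat_lit 174) (nat_lit 191) (nat_lit 5) (nat_lit 5) (nat_lit 7) L32851 (by decide +kernel)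
theorem L32853 : W_12 (nat_lit 9) (nat_lit 0x2000040012000b0000d00000000000000000000000000) (nat_lit 0x0) (nat_lit 0xc000f8000f0038000c00008000000000000000000000000000000) := T_12 (nat_lit 175) (nat_lit 123) (nat_lit 4) (nat_lit 5) (nat_lit 10) L32852 (by decide +kernel)
theorem L32854 : W_12 (nat_lit 10) (nat_lit 0x2000040012000b0000c00000000000000000000000000) (nat_lit 0x0) (nat_lit 0xc000f8000f0038000c00008000300000000000000000000000000) := T_12 (nat_lit 104) (nat_lit 105) (nat_lit 3) (nat_lit 2) (nat_lit 6) L32853 (by decide +kernel)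
theorem L32855 : W_12 (nat_lit 11) (nat_lit 0x2000040012000b0000800000000000000000000000000) (nat_lit 0x0) (nat_lit 0xc000f8000f0038000c00008000700020000000000000000000000) := T_12 (nat_lit 106) (nat_lit 89) (nat_lit 4) (nat_lit 5) (nat_lit 9) L32854 (by decide +kernel)
theorem L32856 : W_12 (nat_lit 14) (nat_lit 0x2000000012000b0000800000000000000000000000000) (nat_lit 0x0) (nat_lit 0x2000fc00f8000f003e000d00008000700020000000000000000000000) := Q_12 (nat_lit 158) (C_12 L32830 (C_12 L32833 (C_12 L32845 (C_12 L32855 N_12)))) (by decide +kernel)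
theorem L32857 : W_12 (nat_lit 15) (nat_lit 0x2000000012000b0000000000000000000000000000000) (nat_lit 0x0) (nat_lit 0x2000fc00f8000f003f000dc0108000f003e0007000200000000000000) := Q_12 (nat_lit 107) (C_12 L32821 (C_12 L32824 (C_12 L32826 (C_12 L32856 N_12)))) (by decide +kernel)
theorem L32858 : W_12 (nat_lit 2) (nat_lit 0x4000200004001a000b8000400000000000000000000000000) (nat_lit 0x0) (nat_lit 0x800020001000000000000000000) := D_12 (nat_lit 89) (nat_lit 107) (nat_lit 72) (nat_lit 4) (nat_lit 5) (nat_lit 9) (nat_lit 7) (nat_lit 4) (nat_lit 4) (by decide +kernel)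
theorem L32859 : W_12 (nat_lit 3) (nat_lit 0x4000200004001a000b8000000000000000000000000000000) (nat_lit 0x0) (nat_lit 0x80000000000000000c00020001000000000000000000) := T_12 (nat_lit 106) (nat_lit 175) (nat_lit 4) (nat_lit 5) (nat_lit 10) L32858 (by decide +kernel)
theorem L32860 : W_12 (nat_lit 4) (nat_lit 0x4000200004001a000b0000000000000000000000000000000) (nat_lit 0x0) (nat_lit 0x80000000000048000c00020001000000000000000000) := T_12 (nat_lit 123) (nat_lit 126) (nat_lit 3) (nat_lit 4) (nat_lit 7) L32859 (by decide +kernel)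
theorem L32861 : W_12 (nat_lit 5) (nat_lit 0x200004001a000b0000000000000000000000000000000) (nat_lit 0x0) (nat_lit 0x4000080010000000048000c00020001000000000000000000) := T_12 (nat_lit 194) (nat_lit 160) (nat_lit 6) (nat_lit 7) (nat_lit 11) L32860 (by decide +kernel)
theorem L32862 : W_12 (nat_lit 2) (nat_lit 0x200004001a000b8000400000000000000000000000000) (nat_lit 0x0) (nat_lit 0x800020001000000000000000000) := D_12 (nat_lit 89) (nat_lit 107) (nat_lit 72) (nat_lit 4) (nat_lit 5) (nat_lit 9) (nat_lit 7) (nat_lit 4) (nat_lit 4) (by decide +kernel)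
theorem L32863 : W_12 (nat_lit 3) (nat_lit 0x200004001a000b8000000000000000000000000000000) (nat_lit 0x0) (nat_lit 0x80000000000000000c00020001000000000000000000) := T_12 (nat_lit 106) (nat_lit 175) (nat_lit 4) (nat_lit 5) (nat_lit 10) L32862 (by decide +kernel)
theorem L32864 : W_12 (nat_lit 4) (nat_lit 0x200004001a000b0000000000000000000000000000000) (nat_lit 0x0) (nat_lit 0x80000000000048000c00020001000000000000000000) := T_12 (nat_lit 123) (nat_lit 126) (nat_lit 3) (nat_lit 4) (nat_lit 7) L32863 (by decide +kernel)
theorem L32865 : W_12 (nat_lit 2) (nat_lit 0x200014001a000f0000800000000000000000000000000) (nat_lit 0x0) (nat_lit 0x4000a000000000000000000000000000000000000000) := D_12 (nat_lit 157) (nat_lit 159) (nat_lit 174) (nat_lit 2) (nat_lit 4) (nat_lit 9) (nat_lit 5) (nat_lit 5) (nat_lit 6) (by decide +kernel)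
theorem L32866 : W_12 (nat_lit 3) (nat_lit 0x200014001a000f0000000000000000000000000000000) (nat_lit 0x0) (nat_lit 0x4000a000000000000c00000000000000000000000000) := T_12 (nat_lit 107) (nat_lit 106) (nat_lit 0) (nat_lit 8) (nat_lit 7) L32865 (by decide +kernel)
theorem L32867 : W_12 (nat_lit 4) (nat_lit 0x200004001a000f0000000000000000000000000000000) (nat_lit 0x0) (nat_lit 0x400004001a000000000000c00000000000000000000000000) := T_12 (nat_lit 160) (nat_lit 194) (nat_lit 6) (nat_lit 7) (nat_lit 11) L32866 (by decide +kernel)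
theorem L32868 : W_12 (nat_lit 5) (nat_lit 0x200004001a000b0000000000000000000000000000000) (nat_lit 0x0) (nat_lit 0x400004001a000000048000c00000000000000000000000000) := T_12 (nat_lit 126) (nat_lit 123) (nat_lit 3) (nat_lit 4) (nat_lit 7) L32867 (by decide +kernel)
theorem L32869 : W_12 (nat_lit 2) (nat_lit 0x240016001a000b0000000000000000000000000000000) (nat_lit 0x0) (nat_lit 0x10000800080000000000000000000000000000000000000000000) := D_12 (nat_lit 191) (nat_lit 175) (nat_lit 208) (nat_lit 5) (nat_lit 5) (nat_lit 7) (nat_lit 6) (nat_lit 4) (nat_lit 12) (by decide +kernel)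
theorem L32870 : W_12 (nat_lit 3) (nat_lit 0x200016001a000b0000000000000000000000000000000) (nat_lit 0x0) (nat_lit 0x100008000c0000000000000000800000000000000000000000000) := T_12 (nat_lit 174) (nat_lit 107) (nat_lit 5) (nat_lit 5) (nat_lit 6) L32869 (by decide +kernel)
theorem L32871 : W_12 (nat_lit 4) (nat_lit 0x200014001a000b0000000000000000000000000000000) (nat_lit 0x0) (nat_lit 0x100008000c000a000000000000800000000000000000000000000) := T_12 (nat_lit 157) (nat_lit 159) (nat_lit 2) (nat_lit 4) (nat_lit 9) L32870 (by decide +kernel)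
theorem L32872 : W_12 (nat_lit 5) (nat_lit 0x200004001a000b0000000000000000000000000000000) (nat_lit 0x0) (nat_lit 0x100048000c001a000000000000800000000000000000000000000) := T_12 (nat_lit 160) (nat_lit 194) (nat_lit 6) (nat_lit 7) (nat_lit 11) L32871 (by decide +kernel)
theorem L32873 : W_12 (nat_lit 2) (nat_lit 0x28001c001a000b8000000000000000000000000000000) (nat_lit 0x0) (nat_lit 0x800040020000000000000000000000000000000000000000) := D_12 (nat_lit 174) (nat_lit 161) (nat_lit 191) (nat_lit 1) (nat_lit 8) (nat_lit 9) (nat_lit 5) (nat_lit 5) (nat_lit 7) (by decide +kernel)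
theorem L32874 : W_12 (nat_lit 3) (nat_lit 0x20001c001a000b8000000000000000000000000000000) (nat_lit 0x0) (nat_lit 0x8000c0020000000000000400000000000000000000000000) := T_12 (nat_lit 175) (nat_lit 106) (nat_lit 4) (nat_lit 5) (nat_lit 10) L32873 (by decide +kernel)
theorem L32875 : W_12 (nat_lit 4) (nat_lit 0x200014001a000b8000000000000000000000000000000) (nat_lit 0x0) (nat_lit 0x8000c002a000000000000400000000000000000000000000) := T_12 (nat_lit 159) (nat_lit 157) (nat_lit 2) (nat_lit 4) (nat_lit 9) L32874 (by decide +kernel)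
theorem L32876 : W_12 (nat_lit 5) (nat_lit 0x200014001a000b0000000000000000000000000000000) (nat_lit 0x0) (nat_lit 0x8000c002a000000048000400000000000000000000000000) := T_12 (nat_lit 123) (nat_lit 126) (nat_lit 3) (nat_lit 4) (nat_lit 7) L32875 (by decide +kernel)
theorem L32877 : W_12 (nat_lit 6) (nat_lit 0x200004001a000b0000000000000000000000000000000) (nat_lit 0x0) (nat_lit 0x48000c003a000000048000400000000000000000000000000) := T_12 (nat_lit 160) (nat_lit 194) (nat_lit 6) (nat_lit 7) (nat_lit 11) L32876 (by decide +kernel)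
theorem L32878 : W_12 (nat_lit 7) (nat_lit 0x200000001a000b0000000000000000000000000000000) (nat_lit 0x0) (nat_lit 0x100048000c003e000000048000c00020001000000000000000000) := Q_12 (nat_lit 158) (C_12 L32861 (C_12 L32864 (C_12 L32868 (C_12 L32872 (C_12 L32877 N_12))))) (by decide +kernel)
theorem L32883 : W_12 (nat_lit 4) (nat_lit 0x200014001e000b0000000000000000000000000000000) (nat_lit 0x0) (nat_lit 0x18000c0068000000000000000000000000000000000000000) := T_12 (nat_lit 161) (nat_lit 162) (nat_lit 3) (nat_lit 5) (nat_lit 8) L32882 (by decide +kernel)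
theorem L32884 : W_12 (nat_lit 5) (nat_lit 0x200010001e000b0000000000000000000000000000000) (nat_lit 0x0) (nat_lit 0x18000c006e000000000000000000000000000000000000000) := T_12 (nat_lit 158) (nat_lit 157) (nat_lit 1) (nat_lit 8) (nat_lit 8) L32883 (by decide +kernel)
theorem L32885 : W_12 (nat_lit 6) (nat_lit 0x200010001a000b0000000000000000000000000000000) (nat_lit 0x0) (nat_lit 0x18000c006e000400100000000000000000000000000000000) := T_12 (nat_lit 142) (nat_lit 128) (nat_lit 2) (nat_lit 5) (nat_lit 8) L32884 (by decide +kernel)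
theorem L32886 : W_12 (nat_lit 7) (nat_lit 0x200000001a000b0000000000000000000000000000000) (nat_lit 0x0) (nat_lit 0x58000c007e000400100000000000000000000000000000000) := T_12 (nat_lit 160) (nat_lit 194) (nat_lit 6) (nat_lit 7) (nat_lit 11) L32885 (by decide +kernel)
theorem L32887 : W_12 (nat_lit 8) (nat_lit 0x2000000012000b0000000000000000000000000000000) (nat_lit 0x0) (nat_lit 0x100058000c007e000c00148000c00020001000000000000000000) := Q_12 (nat_lit 143) (C_12 L32878 (C_12 L32879 (C_12 L32880 (C_12 L32886 N_12)))) (by decide +kernel)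
theorem L32888 : W_12 (nat_lit 2) (nat_lit 0x200000001a001f0010000000000000000000000000000) (nat_lit 0x0) (nat_lit 0x600020000000000000000000000000000) := D_12 (nat_lit 129) (nat_lit 130) (nat_lit 113) (nat_lit 1) (nat_lit 11) (nat_lit 7) (nat_lit 2) (nat_lit 7) (nat_lit 7) (by decide +kernel)
theorem L32889 : W_12 (nat_lit 3) (nat_lit 0x200000001a001f0000000000000000000000000000000) (nat_lit 0x0) (nat_lit 0x600038000000000000000000000000000) := T_12 (nat_lit 112) (nat_lit 111) (nat_lit 2) (nat_lit 6) (nat_lit 7) L32888 (by decide +kernel)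
theorem L32890 : W_12 (nat_lit 4) (nat_lit 0x2000000012001f0000000000000000000000000000000) (nat_lit 0x0) (nat_lit 0x800608038000000000000000000000000000) := T_12 (nat_lit 143) (nat_lit 123) (nat_lit 3) (nat_lit 4) (nat_lit 7) L32889 (by decide +kernel)
theorem L32891 : W_12 (nat_lit 5) (nat_lit 0x2000000012000f0000000000000000000000000000000) (nat_lit 0x0) (nat_lit 0xc00708038000000000000000000000000000) := T_12 (nat_lit 128) (nat_lit 142) (nat_lit 1) (nat_lit 9) (nat_lit 7) L32890 (by decide +kernel)
theorem L32892 : W_12 (nat_lit 6) (nat_lit 0x2000000012000b0000000000000000000000000000000) (nat_lit 0x0) (nat_lit 0xd00748038000000000000000000000000000) := T_12 (nat_lit 126) (nat_lit 140) (nat_lit 1) (nat_lit 8) (nat_lit 7) L32891 (by decide +kernel)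
theorem L32894 : W_12 (nat_lit 3) (nat_lit 0x2000000012000f0000800000000000000000000000000) (nat_lit 0x0) (nat_lit 0x8000400100000000040002000000000000000000) := T_12 (nat_lit 142) (nat_lit 128) (nat_lit 1) (nat_lit 9) (nat_lit 7) L32893 (by decide +kernel)
theorem L32895 : W_12 (nat_lit 4) (nat_lit 0x2000000012000f0000000000000000000000000000000) (nat_lit 0x0) (nat_lit 0x8000400100000c00040002000000000000000000) := T_12 (nat_lit 107) (nat_lit 106) (nat_lit 0) (nat_lit 8) (nat_lit 7) L32894 (by decide +kernel)
theorem L32896 : W_12 (nat_lit 5) (nat_lit 0x2000000012000b0000000000000000000000000000000) (nat_lit 0x0) (nat_lit 0x8000500140000c00040002000000000000000000) := T_12 (nat_lit 126) (nat_lit 140) (nat_lit 1) (nat_lit 8) (nat_lit 7) L32895 (by decide +kernel)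
theorem L32897 : W_12 (nat_lit 16) (nat_lit 0x200000001200090000000000000000000000000000000) (nat_lit 0x0) (nat_lit 0x2000fc00f8000f007f000dc0768038f003e0007000200000000000000) := Q_12 (nat_lit 125) (C_12 L32800 (C_12 L32857 (C_12 L32887 (C_12 L32892 (C_12 L32896 N_12))))) (by decide +kernel)
theorem L32898 : W_12 (nat_lit 2) (nat_lit 0x30003c001a00090000000000000000000000000000000) (nat_lit 0x0) (nat_lit 0x40002000080000000000000000000000000000000000000000000) := D_12 (nat_lit 193) (nat_lit 210) (nat_lit 175) (nat_lit 6) (nat_lit 6) (nat_lit 12) (nat_lit 7) (nat_lit 5) (nat_lit 7) (by decide +kernel)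
theorem L32899 : W_12 (nat_lit 3) (nat_lit 0x20003c001a00090000000000000000000000000000000) (nat_lit 0x0) (nat_lit 0x40002000180000000000000000800000000000000000000000000) := T_12 (nat_lit 176) (nat_lit 107) (nat_lit 7) (nat_lit 5) (nat_lit 6) L32898 (by decide +kernel)
theorem L32900 : W_12 (nat_lit 4) (nat_lit 0x20001c001a00090000000000000000000000000000000) (nat_lit 0x0) (nat_lit 0x40002000180020000100000000800000000000000000000000000) := T_12 (nat_lit 161) (nat_lit 140) (nat_lit 0) (nat_lit 8) (nat_lit 9) L32899 (by decide +kernel)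
theorem L32901 : W_12 (nat_lit 5) (nat_lit 0x200014001a00090000000000000000000000000000000) (nat_lit 0x0) (nat_lit 0x4000200018002a000100000000800000000000000000000000000) := T_12 (nat_lit 159) (nat_lit 157) (nat_lit 2) (nat_lit 4) (nat_lit 9) L32900 (by decide +kernel)
theorem L32902 : W_12 (nat_lit 6) (nat_lit 0x200004001a00090000000000000000000000000000000) (nat_lit 0x0) (nat_lit 0x4000600018003a000100000000800000000000000000000000000) := T_12 (nat_lit 160) (nat_lit 194) (nat_lit 6) (nat_lit 7) (nat_lit 11) L32901 (by decide +kernel)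
theorem L32903 : W_12 (nat_lit 8) (nat_lit 0x200000001a00090000000000000000000000000000000) (nat_lit 0x0) (nat_lit 0x5000f8001c003e000100008000c00060003000000000000000000) := Q_12 (nat_lit 158) (C_12 L32758 (C_12 L32791 (C_12 L32766 (C_12 L32775 (C_12 L32771 (C_12 L32902 N_12)))))) (by decide +kernel)
theorem L32904 : W_12 (nat_lit 2) (nat_lit 0x200010001e00090000000000000000000000000000000) (nat_lit 0x0) (nat_lit 0x60000100000000000000000000000000000000000) := D_12 (nat_lit 161) (nat_lit 140) (nat_lit 162) (nat_lit 3) (nat_lit 4) (nat_lit 8) (nat_lit 3) (nat_lit 5) (nat_lit 8) (by decide +kernel)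
theorem L32905 : W_12 (nat_lit 3) (nat_lit 0x200010001a00090000000000000000000000000000000) (nat_lit 0x0) (nat_lit 0x60000500100000000000000000000000000000000) := T_12 (nat_lit 142) (nat_lit 128) (nat_lit 2) (nat_lit 5) (nat_lit 8) L32904 (by decide +kernel)
theorem L32906 : W_12 (nat_lit 4) (nat_lit 0x200000001a00090000000000000000000000000000000) (nat_lit 0x0) (nat_lit 0x4000000070000500100000000000000000000000000000000) := T_12 (nat_lit 160) (nat_lit 194) (nat_lit 6) (nat_lit 7) (nat_lit 11) L32905 (by decide +kernel)
theorem L32907 : W_12 (nat_lit 9) (nat_lit 0x200000001200090000000000000000000000000000000) (nat_lit 0x0) (nat_lit 0x5000f8001c007e000d00108000c00060003000000000000000000) := Q_12 (nat_lit 143) (C_12 L32323 (C_12 L32903 (C_12 L32906 N_12))) (by decide +kernel)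
theorem L32908 : W_12 (nat_lit 2) (nat_lit 0x200000001600090000000000000000000000000000000) (nat_lit 0x0) (nat_lit 0x800108000000000000000000000000000000) := D_12 (nat_lit 143) (nat_lit 123) (nat_lit 128) (nat_lit 0) (nat_lit 8) (nat_lit 8) (nat_lit 2) (nat_lit 5) (nat_lit 8) (by decide +kernel)
theorem L32910 : W_12 (nat_lit 2) (nat_lit 0x2000040016000900008000e0000000000000000000000) (nat_lit 0x0) (nat_lit 0x40002000100000000000000000000000000000000000) := D_12 (nat_lit 157) (nat_lit 140) (nat_lit 174) (nat_lit 5) (nat_lit 5) (nat_lit 5) (nat_lit 5) (nat_lit 5) (nat_lit 6) (by decide +kernel)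
theorem L32911 : W_12 (nat_lit 3) (nat_lit 0x2000000016000900008000e0000000000000000000000) (nat_lit 0x0) (nat_lit 0x40006000100000000400000000000000000000000000) := T_12 (nat_lit 158) (nat_lit 106) (nat_lit 4) (nat_lit 5) (nat_lit 9) L32910 (by decide +kernel)
theorem L32912 : W_12 (nat_lit 4) (nat_lit 0x200000001600090000800060000000000000000000000) (nat_lit 0x0) (nat_lit 0x40006000100000000400080004000000000000000000) := T_12 (nat_lit 91) (nat_lit 74) (nat_lit 6) (nat_lit 5) (nat_lit 8) L32911 (by decide +kernel)
theorem L32913 : W_12 (nat_lit 5) (nat_lit 0x200000001600090000800040000000000000000000000) (nat_lit 0x0) (nat_lit 0x400060001000000004000a0005000000000000000000) := T_12 (nat_lit 89) (nat_lit 72) (nat_lit 4) (nat_lit 5) (nat_lit 8) L32912 (by decide +kernel)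
theorem L32914 : W_12 (nat_lit 2) (nat_lit 0x200000001700090000800040000000000000000000000) (nat_lit 0x0) (nat_lit 0x28000000000002000000000000000000) := D_12 (nat_lit 73) (nat_lit 123) (nat_lit 125) (nat_lit 5) (nat_lit 5) (nat_lit 4) (nat_lit 7) (nat_lit 5) (nat_lit 4) (by decide +kernel)
theorem L32915 : W_12 (nat_lit 3) (nat_lit 0x200000001600090000800040000000000000000000000) (nat_lit 0x0) (nat_lit 0x2000100028000000000002000000000000000000) := T_12 (nat_lit 140) (nat_lit 157) (nat_lit 5) (nat_lit 5) (nat_lit 5) L32914 (by decide +kernel)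
theorem L32916 : W_12 (nat_lit 6) (nat_lit 0x200000001600090000800000000000000000000000000) (nat_lit 0x0) (nat_lit 0x400060001000280004000e0007000200000000000000) := Q_12 (nat_lit 90) (C_12 L31965 (C_12 L32913 (C_12 L32915 N_12))) (by decide +kernel)
theorem L32917 : W_12 (nat_lit 6) (nat_lit 0x200000001600090000800000000000000000000000000) (nat_lit 0x0) (nat_lit 0x4000e0001000000004000e0005000000000000000000) := T_12 (nat_lit 90) (nat_lit 159) (nat_lit 7) (nat_lit 5) (nat_lit 5) L32913 (by decide +kernel)
theorem L32926 : W_12 (nat_lit 2) (nat_lit 0x300006801600090000c00000000000000000000000000) (nat_lit 0x0) (nat_lit 0x2000080000000000008000000000000000000000000000000) := D_12 (nat_lit 175) (nat_lit 193) (nat_lit 123) (nat_lit 7) (nat_lit 5) (nat_lit 7) (nat_lit 4) (nat_lit 5) (nat_lit 10) (by decide +kernel)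
theorem L32927 : W_12 (nat_lit 3) (nat_lit 0x300006801600090000800000000000000000000000000) (nat_lit 0x0) (nat_lit 0x2000080000000000008000400020000000000000000000000) := T_12 (nat_lit 106) (nat_lit 89) (nat_lit 4) (nat_lit 5) (nat_lit 9) L32926 (by decide +kernel)
theorem L32928 : W_12 (nat_lit 4) (nat_lit 0x200006801600090000800000000000000000000000000) (nat_lit 0x0) (nat_lit 0x2000180008000000008000400020000000000000000000000) := T_12 (nat_lit 176) (nat_lit 159) (nat_lit 7) (nat_lit 5) (nat_lit 6) L32927 (by decide +kernel)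
theorem L32929 : W_12 (nat_lit 5) (nat_lit 0x200006001600090000800000000000000000000000000) (nat_lit 0x0) (nat_lit 0x2000180009800000008000400020000000000000000000000) := T_12 (nat_lit 155) (nat_lit 156) (nat_lit 2) (nat_lit 2) (nat_lit 9) L32928 (by decide +kernel)
theorem L32930 : W_12 (nat_lit 6) (nat_lit 0x200004001600090000800000000000000000000000000) (nat_lit 0x0) (nat_lit 0x20001c000b800000008000400020000000000000000000000) := T_12 (nat_lit 157) (nat_lit 174) (nat_lit 5) (nat_lit 5) (nat_lit 6) L32929 (by decide +kernel)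
theorem L32931 : W_12 (nat_lit 2) (nat_lit 0x22000f0016800d0000c00000000000000000000000000) (nat_lit 0x0) (nat_lit 0x10000c000000000000000000000000000000) := D_12 (nat_lit 123) (nat_lit 140) (nat_lit 122) (nat_lit 5) (nat_lit 4) (nat_lit 6) (nat_lit 6) (nat_lit 3) (nat_lit 10) (by decide +kernel)
theorem L32932 : W_12 (nat_lit 3) (nat_lit 0x20000f0016800d0000c00000000000000000000000000) (nat_lit 0x0) (nat_lit 0x3000000010000c000000000000000000000000000000) := T_12 (nat_lit 173) (nat_lit 172) (nat_lit 1) (nat_lit 6) (nat_lit 9) L32931 (by decide +kernel)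
theorem L32933 : W_12 (nat_lit 4) (nat_lit 0x20000f0016000d0000c00000000000000000000000000) (nat_lit 0x0) (nat_lit 0x300000001c000c000000000000000000000000000000) := T_12 (nat_lit 139) (nat_lit 138) (nat_lit 0) (nat_lit 6) (nat_lit 9) L32932 (by decide +kernel)
theorem L32934 : W_12 (nat_lit 5) (nat_lit 0x20000f001600090000c00000000000000000000000000) (nat_lit 0x0) (nat_lit 0x300000001c006c000000000000000000000000000000) := T_12 (nat_lit 126) (nat_lit 125) (nat_lit 0) (nat_lit 8) (nat_lit 7) L32933 (by decide +kernel)
theorem L32935 : W_12 (nat_lit 6) (nat_lit 0x20000f001600090000800000000000000000000000000) (nat_lit 0x0) (nat_lit 0x300000001c006c000400020000000000000000000000) := T_12 (nat_lit 106) (nat_lit 89) (nat_lit 4) (nat_lit 5) (nat_lit 9) L32934 (by decide +kernel)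
theorem L32936 : W_12 (nat_lit 7) (nat_lit 0x20000e001600090000800000000000000000000000000) (nat_lit 0x0) (nat_lit 0x300018001c006c000400020000000000000000000000) := T_12 (nat_lit 156) (nat_lit 155) (nat_lit 2) (nat_lit 2) (nat_lit 9) L32935 (by decide +kernel)
theorem L32937 : W_12 (nat_lit 8) (nat_lit 0x20000c001600090000800000000000000000000000000) (nat_lit 0x0) (nat_lit 0x700038001c006c000400020000000000000000000000) := T_12 (nat_lit 157) (nat_lit 174) (nat_lit 5) (nat_lit 5) (nat_lit 6) L32936 (by decide +kernel)
theorem L32938 : W_12 (nat_lit 9) (nat_lit 0x200004001600090000800000000000000000000000000) (nat_lit 0x0) (nat_lit 0x17000b8001c006c000400020000000000000000000000) := T_12 (nat_lit 159) (nat_lit 176) (nat_lit 7) (nat_lit 5) (nat_lit 6) L32937 (by decide +kernel)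
theorem L32939 : W_12 (nat_lit 2) (nat_lit 0x3400040016000d0000c00000000000000000000000000) (nat_lit 0x0) (nat_lit 0x2800080000000000000000000000000000000000000000000) := D_12 (nat_lit 175) (nat_lit 193) (nat_lit 191) (nat_lit 7) (nat_lit 5) (nat_lit 7) (nat_lit 5) (nat_lit 5) (nat_lit 7) (by decide +kernel)
theorem L32940 : W_12 (nat_lit 3) (nat_lit 0x3000040016000d0000c00000000000000000000000000) (nat_lit 0x0) (nat_lit 0x28000c0002000000000000000000000000000000000000000) := T_12 (nat_lit 174) (nat_lit 157) (nat_lit 5) (nat_lit 5) (nat_lit 6) L32939 (by decide +kernel)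
theorem L32941 : W_12 (nat_lit 4) (nat_lit 0x2000040016000d0000c00000000000000000000000000) (nat_lit 0x0) (nat_lit 0x28001c000a000000000000000000000000000000000000000) := T_12 (nat_lit 176) (nat_lit 159) (nat_lit 7) (nat_lit 5) (nat_lit 6) L32940 (by decide +kernel)
theorem L32942 : W_12 (nat_lit 5) (nat_lit 0x200004001600090000c00000000000000000000000000) (nat_lit 0x0) (nat_lit 0x28001c000a000000060000000000000000000000000000000) := T_12 (nat_lit 126) (nat_lit 125) (nat_lit 0) (nat_lit 8) (nat_lit 7) L32941 (by decide +kernel)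
theorem L32943 : W_12 (nat_lit 6) (nat_lit 0x200004001600090000800000000000000000000000000) (nat_lit 0x0) (nat_lit 0x28001c000a000000060000400020000000000000000000000) := T_12 (nat_lit 106) (nat_lit 89) (nat_lit 4) (nat_lit 5) (nat_lit 9) L32942 (by decide +kernel)
theorem L32944 : W_12 (nat_lit 2) (nat_lit 0x2c000c001600090000800000000000000000000000000) (nat_lit 0x0) (nat_lit 0x20001000000000000000020000000000000000000000000000000) := D_12 (nat_lit 192) (nat_lit 125) (nat_lit 209) (nat_lit 6) (nat_lit 5) (nat_lit 11) (nat_lit 6) (nat_lit 5) (nat_lit 12) (by decide +kernel)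
theorem L32945 : W_12 (nat_lit 3) (nat_lit 0x24000c001600090000800000000000000000000000000) (nat_lit 0x0) (nat_lit 0x20001800080000000000020000000000000000000000000000000) := T_12 (nat_lit 175) (nat_lit 191) (nat_lit 5) (nat_lit 5) (nat_lit 7) L32944 (by decide +kernel)
theorem L32946 : W_12 (nat_lit 4) (nat_lit 0x20000c001600090000800000000000000000000000000) (nat_lit 0x0) (nat_lit 0x200018000c0002000000020000000000000000000000000000000) := T_12 (nat_lit 174) (nat_lit 157) (nat_lit 5) (nat_lit 5) (nat_lit 6) L32945 (by decide +kernel)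
theorem L32947 : W_12 (nat_lit 5) (nat_lit 0x200004001600090000800000000000000000000000000) (nat_lit 0x0) (nat_lit 0x200018001c000a000000020000000000000000000000000000000) := T_12 (nat_lit 159) (nat_lit 176) (nat_lit 7) (nat_lit 5) (nat_lit 6) L32946 (by decide +kernel)
theorem L32948 : W_12 (nat_lit 10) (nat_lit 0x200000001600090000800000000000000000000000000) (nat_lit 0x0) (nat_lit 0x200038001f000f8001c006c000400020000000000000000000000) := Q_12 (nat_lit 158) (C_12 L32921 (C_12 L32925 (C_12 L32930 (C_12 L32938 (C_12 L32943 (C_12 L32947 N_12)))))) (by decide +kernel)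
theorem L32949 : W_12 (nat_lit 11) (nat_lit 0x200000001600090000000000000000000000000000000) (nat_lit 0x0) (nat_lit 0x200038001f000f8001c006c000c000e0007000200000000000000) := Q_12 (nat_lit 107) (C_12 L32909 (C_12 L32916 (C_12 L32917 (C_12 L32948 N_12)))) (by decide +kernel)
theorem L32950 : W_12 (nat_lit 2) (nat_lit 0x200000001f00090000000000000000000000000000000) (nat_lit 0x0) (nat_lit 0x7000000000000000000000000000000000000000) := D_12 (nat_lit 157) (nat_lit 156) (nat_lit 158) (nat_lit 1) (nat_lit 7) (nat_lit 8) (nat_lit 1) (nat_lit 8) (nat_lit 8) (by decide +kernel)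
theorem L32951 : W_12 (nat_lit 3) (nat_lit 0x200000001e00090000000000000000000000000000000) (nat_lit 0x0) (nat_lit 0x7000100040000000000000000000000000000000) := T_12 (nat_lit 140) (nat_lit 126) (nat_lit 2) (nat_lit 4) (nat_lit 8) L32950 (by decide +kernel)
theorem L32952 : W_12 (nat_lit 4) (nat_lit 0x200000001600090000000000000000000000000000000) (nat_lit 0x0) (nat_lit 0x7000900140000000000000000000000000000000) := T_12 (nat_lit 143) (nat_lit 128) (nat_lit 2) (nat_lit 5) (nat_lit 8) L32951 (by decide +kernel)
theorem L32953 : W_12 (nat_lit 12) (nat_lit 0x200000001200090000000000000000000000000000000) (nat_lit 0x0) (nat_lit 0x200038001f000f800dc016c000c000e0007000200000000000000) := Q_12 (nat_lit 142) (C_12 L32908 (C_12 L32949 (C_12 L32952 N_12))) (by decide +kernel)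
theorem L32954 : W_12 (nat_lit 2) (nat_lit 0x38000c001a000b8000000000000000000000000000000) (nat_lit 0x0) (nat_lit 0x13000000000000000000000000000000000000000) := D_12 (nat_lit 157) (nat_lit 156) (nat_lit 160) (nat_lit 3) (nat_lit 3) (nat_lit 9) (nat_lit 2) (nat_lit 4) (nat_lit 9) (by decide +kernel)
theorem L32955 : W_12 (nat_lit 3) (nat_lit 0x380004001a000b8000000000000000000000000000000) (nat_lit 0x0) (nat_lit 0x1b000000000000800000000000000000000000000) := T_12 (nat_lit 159) (nat_lit 107) (nat_lit 7) (nat_lit 5) (nat_lit 6) L32954 (by decide +kernel)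
theorem L32956 : W_12 (nat_lit 4) (nat_lit 0x280004001a000b8000000000000000000000000000000) (nat_lit 0x0) (nat_lit 0x200010001b000000000000800000000000000000000000000) := T_12 (nat_lit 176) (nat_lit 193) (nat_lit 7) (nat_lit 5) (nat_lit 7) L32955 (by decide +kernel)
theorem L32957 : W_12 (nat_lit 5) (nat_lit 0x280004001a00098000000000000000000000000000000) (nat_lit 0x0) (nat_lit 0x200010001b000000060000800000000000000000000000000) := T_12 (nat_lit 125) (nat_lit 126) (nat_lit 3) (nat_lit 4) (nat_lit 7) L32956 (by decide +kernel)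
theorem L32958 : W_12 (nat_lit 6) (nat_lit 0x280004001a00090000000000000000000000000000000) (nat_lit 0x0) (nat_lit 0x200010001b000000068000c00000000000000000000000000) := T_12 (nat_lit 123) (nat_lit 106) (nat_lit 4) (nat_lit 5) (nat_lit 10) L32957 (by decide +kernel)
theorem L32959 : W_12 (nat_lit 2) (nat_lit 0x380004001a00090000800000000000000000000000000) (nat_lit 0x0) (nat_lit 0x8000400020000000000000000000000) := D_12 (nat_lit 106) (nat_lit 89) (nat_lit 123) (nat_lit 4) (nat_lit 5) (nat_lit 9) (nat_lit 4) (nat_lit 5) (nat_lit 10) (by decide +kernel)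
theorem L32960 : W_12 (nat_lit 3) (nat_lit 0x380004001a00090000000000000000000000000000000) (nat_lit 0x0) (nat_lit 0x8000000008000c00020000000000000000000000) := T_12 (nat_lit 107) (nat_lit 159) (nat_lit 7) (nat_lit 5) (nat_lit 6) L32959 (by decide +kernel)
theorem L32961 : W_12 (nat_lit 4) (nat_lit 0x280004001a00090000000000000000000000000000000) (nat_lit 0x0) (nat_lit 0x2000100008000000008000c00020000000000000000000000) := T_12 (nat_lit 176) (nat_lit 193) (nat_lit 7) (nat_lit 5) (nat_lit 7) L32960 (by decide +kernel)
theorem L32962 : W_12 (nat_lit 2) (nat_lit 0x3c0014001a00090000000000000000000000000000000) (nat_lit 0x0) (nat_lit 0x2000a000000000000000000000000000000000000000) := D_12 (nat_lit 159) (nat_lit 173) (nat_lit 157) (nat_lit 2) (nat_lit 3) (nat_lit 10) (nat_lit 2) (nat_lit 4) (nat_lit 9) (by decide +kernel)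
theorem L32963 : W_12 (nat_lit 3) (nat_lit 0x3c0004001a00090000000000000000000000000000000) (nat_lit 0x0) (nat_lit 0x2003a000000000000000000000000000000000000000) := T_12 (nat_lit 160) (nat_lit 161) (nat_lit 2) (nat_lit 4) (nat_lit 10) L32962 (by decide +kernel)
theorem L32964 : W_12 (nat_lit 4) (nat_lit 0x2c0004001a00090000000000000000000000000000000) (nat_lit 0x0) (nat_lit 0x200012003a000000000000000000000000000000000000000) := T_12 (nat_lit 176) (nat_lit 193) (nat_lit 7) (nat_lit 5) (nat_lit 7) L32963 (by decide +kernel)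
theorem L32965 : W_12 (nat_lit 5) (nat_lit 0x280004001a00090000000000000000000000000000000) (nat_lit 0x0) (nat_lit 0x280016003a000000000000000000000000000000000000000) := T_12 (nat_lit 174) (nat_lit 191) (nat_lit 5) (nat_lit 5) (nat_lit 7) L32964 (by decide +kernel)
theorem L32966 : W_12 (nat_lit 7) (nat_lit 0x200004001a00090000000000000000000000000000000) (nat_lit 0x0) (nat_lit 0x28001e003b000000068000c00020000000000000000000000) := Q_12 (nat_lit 175) (C_12 L32757 (C_12 L32749 (C_12 L32958 (C_12 L32961 (C_12 L32965 N_12))))) (by decide +kernel)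
theorem L32970 : W_12 (nat_lit 5) (nat_lit 0x6000280004001a00098000000000000000000000000000000) (nat_lit 0x0) (nat_lit 0x200070009800000000000000060000000000000000000000000000000) := T_12 (nat_lit 125) (nat_lit 126) (nat_lit 3) (nat_lit 4) (nat_lit 7) L32969 (by decide +kernel)
theorem L32971 : W_12 (nat_lit 6) (nat_lit 0x6000280004001a00090000000000000000000000000000000) (nat_lit 0x0) (nat_lit 0x200070009800000000000000068000400000000000000000000000000) := T_12 (nat_lit 123) (nat_lit 106) (nat_lit 4) (nat_lit 5) (nat_lit 10) L32970 (by decide +kernel)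
theorem L32972 : W_12 (nat_lit 7) (nat_lit 0x4000280004001a00090000000000000000000000000000000) (nat_lit 0x0) (nat_lit 0x20007000b800100000000000068000400000000000000000000000000) := T_12 (nat_lit 193) (nat_lit 176) (nat_lit 7) (nat_lit 5) (nat_lit 7) L32971 (by decide +kernel)
theorem L32973 : W_12 (nat_lit 8) (nat_lit 0x280004001a00090000000000000000000000000000000) (nat_lit 0x0) (nat_lit 0x20007000f800100010000000068000400000000000000000000000000) := T_12 (nat_lit 194) (nat_lit 160) (nat_lit 6) (nat_lit 7) (nat_lit 11) L32972 (by decide +kernel)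
theorem L32976 : W_12 (nat_lit 4) (nat_lit 0x380004001a00090000000000000000000000000000000) (nat_lit 0x0) (nat_lit 0xc000040013000000000000800000000000000000000000000) := T_12 (nat_lit 194) (nat_lit 160) (nat_lit 6) (nat_lit 7) (nat_lit 11) L32975 (by decide +kernel)
theorem L32977 : W_12 (nat_lit 5) (nat_lit 0x280004001a00090000000000000000000000000000000) (nat_lit 0x0) (nat_lit 0xe000140013000000000000800000000000000000000000000) := T_12 (nat_lit 176) (nat_lit 193) (nat_lit 7) (nat_lit 5) (nat_lit 7) L32976 (by decide +kernel)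
theorem L32978 : W_12 (nat_lit 9) (nat_lit 0x200004001a00090000000000000000000000000000000) (nat_lit 0x0) (nat_lit 0x20007000f8001c0013000000068000c00020000000000000000000000) := Q_12 (nat_lit 175) (C_12 L32765 (C_12 L32749 (C_12 L32973 (C_12 L32977 N_12)))) (by decide +kernel)
theorem L32979 : W_12 (nat_lit 2) (nat_lit 0x30001c001a00090000000000000000000000000000000) (nat_lit 0x0) (nat_lit 0x40002000000000000000040000000000000000000000000000000) := D_12 (nat_lit 193) (nat_lit 210) (nat_lit 126) (nat_lit 6) (nat_lit 6) (nat_lit 12) (nat_lit 5) (nat_lit 7) (nat_lit 7) (by decide +kernel)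
theorem L32980 : W_12 (nat_lit 3) (nat_lit 0x20001c001a00090000000000000000000000000000000) (nat_lit 0x0) (nat_lit 0x40002000100000000000040000800000000000000000000000000) := T_12 (nat_lit 176) (nat_lit 107) (nat_lit 7) (nat_lit 5) (nat_lit 6) L32979 (by decide +kernel)
theorem L32981 : W_12 (nat_lit 4) (nat_lit 0x200014001a00090000000000000000000000000000000) (nat_lit 0x0) (nat_lit 0x4000200010000a000000040000800000000000000000000000000) := T_12 (nat_lit 159) (nat_lit 157) (nat_lit 2) (nat_lit 4) (nat_lit 9) L32980 (by decide +kernel)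
theorem L32982 : W_12 (nat_lit 5) (nat_lit 0x200004001a00090000000000000000000000000000000) (nat_lit 0x0) (nat_lit 0x4000600010001a000000040000800000000000000000000000000) := T_12 (nat_lit 160) (nat_lit 194) (nat_lit 6) (nat_lit 7) (nat_lit 11) L32981 (by decide +kernel)
theorem L32987 : W_12 (nat_lit 6) (nat_lit 0x3c0004001a000b8000000000000000000000000000000) (nat_lit 0x0) (nat_lit 0xc70003000b800000000000000000000000000000000000000) := T_12 (nat_lit 194) (nat_lit 195) (nat_lit 3) (nat_lit 4) (nat_lit 10) L32986 (by decide +kernel)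
theorem L32988 : W_12 (nat_lit 7) (nat_lit 0x380004001a000b8000000000000000000000000000000) (nat_lit 0x0) (nat_lit 0xcf0007000b800000000000000000000000000000000000000) := T_12 (nat_lit 174) (nat_lit 191) (nat_lit 5) (nat_lit 5) (nat_lit 7) L32987 (by decide +kernel)
theorem L32989 : W_12 (nat_lit 8) (nat_lit 0x280004001a000b8000000000000000000000000000000) (nat_lit 0x0) (nat_lit 0xef0017000b800000000000000000000000000000000000000) := T_12 (nat_lit 176) (nat_lit 193) (nat_lit 7) (nat_lit 5) (nat_lit 7) L32988 (by decide +kernel)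
theorem L32990 : W_12 (nat_lit 9) (nat_lit 0x280004001a00098000000000000000000000000000000) (nat_lit 0x0) (nat_lit 0xef0017000b800000060000000000000000000000000000000) := T_12 (nat_lit 125) (nat_lit 126) (nat_lit 3) (nat_lit 4) (nat_lit 7) L32989 (by decide +kernel)
theorem L32991 : W_12 (nat_lit 10) (nat_lit 0x280004001a00090000000000000000000000000000000) (nat_lit 0x0) (nat_lit 0xef0017000b800000068000400000000000000000000000000) := T_12 (nat_lit 123) (nat_lit 106) (nat_lit 4) (nat_lit 5) (nat_lit 10) L32990 (by decide +kernel)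
theorem L32992 : W_12 (nat_lit 11) (nat_lit 0x200004001a00090000000000000000000000000000000) (nat_lit 0x0) (nat_lit 0xef001f000b800000068000c00020000000000000000000000) := Q_12 (nat_lit 175) (C_12 L32961 (C_12 L32749 (C_12 L32991 (C_12 L32757 N_12)))) (by decide +kernel)
theorem L32993 : W_12 (nat_lit 3) (nat_lit 0x4000300004001a00090000000000000000000000000000000) (nat_lit 0x0) (nat_lit 0xa8000c0000000000000000000000000000000000000000000) := T_12 (nat_lit 175) (nat_lit 193) (nat_lit 7) (nat_lit 5) (nat_lit 7) L32763 (by decide +kernel)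
theorem L32994 : W_12 (nat_lit 4) (nat_lit 0x300004001a00090000000000000000000000000000000) (nat_lit 0x0) (nat_lit 0xe8000c0010000000000000000000000000000000000000000) := T_12 (nat_lit 194) (nat_lit 160) (nat_lit 6) (nat_lit 7) (nat_lit 11) L32993 (by decide +kernel)
theorem L32995 : W_12 (nat_lit 2) (nat_lit 0x300004001a00090000c00000000000000000000000000) (nat_lit 0x0) (nat_lit 0x2000080000000000008000000000000000000000000000000) := D_12 (nat_lit 175) (nat_lit 193) (nat_lit 123) (nat_lit 7) (nat_lit 5) (nat_lit 7) (nat_lit 4) (nat_lit 5) (nat_lit 10) (by decide +kernel)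
theorem L32996 : W_12 (nat_lit 3) (nat_lit 0x300004001a00090000800000000000000000000000000) (nat_lit 0x0) (nat_lit 0x2000080000000000008000400020000000000000000000000) := T_12 (nat_lit 106) (nat_lit 89) (nat_lit 4) (nat_lit 5) (nat_lit 9) L32995 (by decide +kernel)
theorem L32997 : W_12 (nat_lit 4) (nat_lit 0x300004001a00090000000000000000000000000000000) (nat_lit 0x0) (nat_lit 0x2000080008000000008000c00020000000000000000000000) := T_12 (nat_lit 107) (nat_lit 159) (nat_lit 7) (nat_lit 5) (nat_lit 6) L32996 (by decide +kernel)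
theorem L32998 : W_12 (nat_lit 2) (nat_lit 0x300014001a00090000c00000000000000000000000000) (nat_lit 0x0) (nat_lit 0x2000000000000000060000000000000000000000000000000) := D_12 (nat_lit 126) (nat_lit 125) (nat_lit 193) (nat_lit 0) (nat_lit 8) (nat_lit 7) (nat_lit 5) (nat_lit 7) (nat_lit 7) (by decide +kernel)
theorem L32999 : W_12 (nat_lit 3) (nat_lit 0x300014001a00090000800000000000000000000000000) (nat_lit 0x0) (nat_lit 0x2000000000000000060000400020000000000000000000000) := T_12 (nat_lit 106) (nat_lit 89) (nat_lit 4) (nat_lit 5) (nat_lit 9) L32998 (by decide +kernel)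
theorem L33000 : W_12 (nat_lit 4) (nat_lit 0x300014001a00090000000000000000000000000000000) (nat_lit 0x0) (nat_lit 0x2000000008000000060000c00020000000000000000000000) := T_12 (nat_lit 107) (nat_lit 159) (nat_lit 7) (nat_lit 5) (nat_lit 6) L32999 (by decide +kernel)
theorem L33001 : W_12 (nat_lit 5) (nat_lit 0x300004001a00090000000000000000000000000000000) (nat_lit 0x0) (nat_lit 0x6000000018000000060000c00020000000000000000000000) := T_12 (nat_lit 160) (nat_lit 194) (nat_lit 6) (nat_lit 7) (nat_lit 11) L33000 (by decide +kernel)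
theorem L33008 : W_12 (nat_lit 8) (nat_lit 0x200004001a00090000000000000000000000000000000) (nat_lit 0x0) (nat_lit 0xe8001c0018000000068000c00020000000000000000000000) := Q_12 (nat_lit 176) (C_12 L32994 (C_12 L32997 (C_12 L33001 (C_12 L33007 N_12)))) (by decide +kernel)
theorem L33009 : W_12 (nat_lit 2) (nat_lit 0x2c0014001a00090000000000000000000000000000000) (nat_lit 0x0) (nat_lit 0x2a000000000000000000000000000000000000000) := D_12 (nat_lit 159) (nat_lit 161) (nat_lit 157) (nat_lit 1) (nat_lit 8) (nat_lit 9) (nat_lit 2) (nat_lit 4) (nat_lit 9) (by decide +kernel)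
theorem L33010 : W_12 (nat_lit 3) (nat_lit 0x280014001a00090000000000000000000000000000000) (nat_lit 0x0) (nat_lit 0x80004002a000000000000000000000000000000000000000) := T_12 (nat_lit 174) (nat_lit 191) (nat_lit 5) (nat_lit 5) (nat_lit 7) L33009 (by decide +kernel)
theorem L33011 : W_12 (nat_lit 4) (nat_lit 0x280004001a00090000000000000000000000000000000) (nat_lit 0x0) (nat_lit 0x480004003a000000000000000000000000000000000000000) := T_12 (nat_lit 160) (nat_lit 194) (nat_lit 6) (nat_lit 7) (nat_lit 11) L33010 (by decide +kernel)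
theorem L33012 : W_12 (nat_lit 5) (nat_lit 0x40003c0005001a00098000000000000000000000000000000) (nat_lit 0x0) (nat_lit 0x700030008800000060000000000000000000000000000000) := T_12 (nat_lit 125) (nat_lit 126) (nat_lit 3) (nat_lit 4) (nat_lit 7) L32985 (by decide +kernel)
theorem L33013 : W_12 (nat_lit 6) (nat_lit 0x40003c0005001a00090000000000000000000000000000000) (nat_lit 0x0) (nat_lit 0x700030008800000068000400000000000000000000000000) := T_12 (nat_lit 123) (nat_lit 106) (nat_lit 4) (nat_lit 5) (nat_lit 10) L33012 (by decide +kernel)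
theorem L33014 : W_12 (nat_lit 7) (nat_lit 0x40003c0004001a00090000000000000000000000000000000) (nat_lit 0x0) (nat_lit 0x70003000b800000068000400000000000000000000000000) := T_12 (nat_lit 156) (nat_lit 157) (nat_lit 0) (nat_lit 7) (nat_lit 10) L33013 (by decide +kernel)
theorem L33015 : W_12 (nat_lit 8) (nat_lit 0x4000380004001a00090000000000000000000000000000000) (nat_lit 0x0) (nat_lit 0x870007000b800000068000400000000000000000000000000) := T_12 (nat_lit 174) (nat_lit 195) (nat_lit 3) (nat_lit 4) (nat_lit 10) L33014 (by decide +kernel)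
theorem L33016 : W_12 (nat_lit 9) (nat_lit 0x4000280004001a00090000000000000000000000000000000) (nat_lit 0x0) (nat_lit 0xa70017000b800000068000400000000000000000000000000) := T_12 (nat_lit 176) (nat_lit 193) (nat_lit 7) (nat_lit 5) (nat_lit 7) L33015 (by decide +kernel)
theorem L33017 : W_12 (nat_lit 10) (nat_lit 0x280004001a00090000000000000000000000000000000) (nat_lit 0x0) (nat_lit 0xe70017001b800000068000400000000000000000000000000) := T_12 (nat_lit 194) (nat_lit 160) (nat_lit 6) (nat_lit 7) (nat_lit 11) L33016 (by decide +kernel)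
theorem L33018 : W_12 (nat_lit 11) (nat_lit 0x200004001a00090000000000000000000000000000000) (nat_lit 0x0) (nat_lit 0x20007000ff001f003b800000068000400000000000000000000000000) := Q_12 (nat_lit 175) (C_12 L33011 (C_12 L32973 (C_12 L32965 (C_12 L32991 (C_12 L33017 N_12))))) (by decide +kernel)
theorem L33019 : W_12 (nat_lit 12) (nat_lit 0x200000001a00090000000000000000000000000000000) (nat_lit 0x0) (nat_lit 0x20007000ff001f003f800000068000c00020000000000000000000000) := Q_12 (nat_lit 158) (C_12 L32966 (C_12 L32978 (C_12 L32775 (C_12 L32982 (C_12 L32992 (C_12 L33008 (C_12 L33018 N_12))))))) (by decide +kernel)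
theorem L33025 : W_12 (nat_lit 2) (nat_lit 0x300004001e00090000000000000000000000000000000) (nat_lit 0x0) (nat_lit 0x2000080008000000000000000000000000000000000000000) := D_12 (nat_lit 193) (nat_lit 175) (nat_lit 159) (nat_lit 7) (nat_lit 5) (nat_lit 7) (nat_lit 4) (nat_lit 6) (nat_lit 11) (by decide +kernel)
theorem L33026 : W_12 (nat_lit 3) (nat_lit 0x300004001a00090000000000000000000000000000000) (nat_lit 0x0) (nat_lit 0x2000080008000400100000000000000000000000000000000) := T_12 (nat_lit 142) (nat_lit 128) (nat_lit 2) (nat_lit 5) (nat_lit 8) L33025 (by decide +kernel)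
theorem L33027 : W_12 (nat_lit 2) (nat_lit 0x4000300004001e00090000000000000000000000000000000) (nat_lit 0x0) (nat_lit 0x8000000020000800000000000000000000000000) := D_12 (nat_lit 159) (nat_lit 107) (nat_lit 125) (nat_lit 7) (nat_lit 5) (nat_lit 6) (nat_lit 7) (nat_lit 6) (nat_lit 7) (by decide +kernel)
theorem L33028 : W_12 (nat_lit 3) (nat_lit 0x4000300004001a00090000000000000000000000000000000) (nat_lit 0x0) (nat_lit 0x8000400120000800000000000000000000000000) := T_12 (nat_lit 142) (nat_lit 128) (nat_lit 2) (nat_lit 5) (nat_lit 8) L33027 (by decide +kernel)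
theorem L33029 : W_12 (nat_lit 4) (nat_lit 0x300004001a00090000000000000000000000000000000) (nat_lit 0x0) (nat_lit 0x4000000018000400120000800000000000000000000000000) := T_12 (nat_lit 194) (nat_lit 160) (nat_lit 6) (nat_lit 7) (nat_lit 11) L33028 (by decide +kernel)
theorem L33030 : W_12 (nat_lit 6) (nat_lit 0x200004001a00090000000000000000000000000000000) (nat_lit 0x0) (nat_lit 0xe8001e0038000400160000c00020000000000000000000000) := Q_12 (nat_lit 176) (C_12 L33001 (C_12 L32994 (C_12 L33024 (C_12 L33026 (C_12 L33029 N_12))))) (by decide +kernel)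
theorem L33031 : W_12 (nat_lit 7) (nat_lit 0x200000001a00090000000000000000000000000000000) (nat_lit 0x0) (nat_lit 0x4000e8001e003e000400160000c00020000000000000000000000) := Q_12 (nat_lit 158) (C_12 L32982 (C_12 L33020 (C_12 L33030 N_12))) (by decide +kernel)
theorem L33032 : W_12 (nat_lit 13) (nat_lit 0x200000001200090000000000000000000000000000000) (nat_lit 0x0) (nat_lit 0x20007000ff001f003f800c00168000c00020000000000000000000000) := Q_12 (nat_lit 143) (C_12 L32323 (C_12 L33019 (C_12 L33031 N_12))) (by decide +kernel)
theorem L33033 : W_12 (nat_lit 8) (nat_lit 0x200000001200090000000000000000000000000000000) (nat_lit 0x0) (nat_lit 0x6000100078000d00168002000100008000000000000000000) := Q_12 (nat_lit 143) (C_12 L32906 (C_12 L32334 (C_12 L32323 N_12))) (by decide +kernel)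
theorem L33034 : W_12 (nat_lit 2) (nat_lit 0x20000e001a00090000800040000000000000000000000) (nat_lit 0x0) (nat_lit 0x400020001000000000000000000) := D_12 (nat_lit 89) (nat_lit 72) (nat_lit 106) (nat_lit 4) (nat_lit 5) (nat_lit 8) (nat_lit 4) (nat_lit 5) (nat_lit 9) (by decide +kernel)
theorem L33035 : W_12 (nat_lit 3) (nat_lit 0x20000e001a00090000800000000000000000000000000) (nat_lit 0x0) (nat_lit 0x100000000400060001000000000000000000) := T_12 (nat_lit 90) (nat_lit 140) (nat_lit 5) (nat_lit 5) (nat_lit 5) L33034 (by decide +kernel)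
theorem L33036 : W_12 (nat_lit 4) (nat_lit 0x20000e001a00090000000000000000000000000000000) (nat_lit 0x0) (nat_lit 0x40000000100000000c00060001000000000000000000) := T_12 (nat_lit 107) (nat_lit 174) (nat_lit 5) (nat_lit 5) (nat_lit 6) L33035 (by decide +kernel)
theorem L33037 : W_12 (nat_lit 5) (nat_lit 0x200006001a00090000000000000000000000000000000) (nat_lit 0x0) (nat_lit 0x40018000100000000c00060001000000000000000000) := T_12 (nat_lit 159) (nat_lit 160) (nat_lit 2) (nat_lit 4) (nat_lit 9) L33036 (by decide +kernel)
theorem L33038 : W_12 (nat_lit 2) (nat_lit 0x200006001a00090000800040000000000000000000000) (nat_lit 0x0) (nat_lit 0x400020001000000000000000000) := D_12 (nat_lit 89) (nat_lit 72) (nat_lit 106) (nat_lit 4) (nat_lit 5) (nat_lit 8) (nat_lit 4) (nat_lit 5) (nat_lit 9) (by decide +kernel)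
theorem L33039 : W_12 (nat_lit 3) (nat_lit 0x200006001a00090000800000000000000000000000000) (nat_lit 0x0) (nat_lit 0x100000000400060001000000000000000000) := T_12 (nat_lit 90) (nat_lit 140) (nat_lit 5) (nat_lit 5) (nat_lit 5) L33038 (by decide +kernel)
theorem L33040 : W_12 (nat_lit 4) (nat_lit 0x200006001a00090000000000000000000000000000000) (nat_lit 0x0) (nat_lit 0x40000000100000000c00060001000000000000000000) := T_12 (nat_lit 107) (nat_lit 174) (nat_lit 5) (nat_lit 5) (nat_lit 6) L33039 (by decide +kernel)
theorem L33041 : W_12 (nat_lit 2) (nat_lit 0x200006001a00090000800000000000000000000000000) (nat_lit 0x0) (nat_lit 0x100018000000000000000000000000000000000000000) := D_12 (nat_lit 159) (nat_lit 160) (nat_lit 176) (nat_lit 2) (nat_lit 4) (nat_lit 9) (nat_lit 7) (nat_lit 5) (nat_lit 6) (by decide +kernel)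
theorem L33042 : W_12 (nat_lit 3) (nat_lit 0x200006001a00090000000000000000000000000000000) (nat_lit 0x0) (nat_lit 0x140018000000000000800000000000000000000000000) := T_12 (nat_lit 107) (nat_lit 174) (nat_lit 5) (nat_lit 5) (nat_lit 6) L33041 (by decide +kernel)
theorem L33043 : W_12 (nat_lit 2) (nat_lit 0x20000e001a00090000000000000000000000000000000) (nat_lit 0x0) (nat_lit 0x100001000000000000800000000000000000000000000) := D_12 (nat_lit 176) (nat_lit 156) (nat_lit 107) (nat_lit 3) (nat_lit 3) (nat_lit 9) (nat_lit 7) (nat_lit 5) (nat_lit 6) (by decide +kernel)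
theorem L33044 : W_12 (nat_lit 3) (nat_lit 0x200006001a00090000000000000000000000000000000) (nat_lit 0x0) (nat_lit 0x100019000000000000800000000000000000000000000) := T_12 (nat_lit 159) (nat_lit 160) (nat_lit 2) (nat_lit 4) (nat_lit 9) L33043 (by decide +kernel)
theorem L33045 : W_12 (nat_lit 2) (nat_lit 0x22000fc01a40090000000000000000000000000000000) (nat_lit 0x0) (nat_lit 0xc0000200000000000000000000000000000000000000) := D_12 (nat_lit 174) (nat_lit 153) (nat_lit 175) (nat_lit 3) (nat_lit 0) (nat_lit 9) (nat_lit 3) (nat_lit 1) (nat_lit 9) (by decide +kernel)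
theorem L33046 : W_12 (nat_lit 3) (nat_lit 0x22000f801a40090000000000000000000000000000000) (nat_lit 0x0) (nat_lit 0xc0000600100000000000000000000000000000000000) := T_12 (nat_lit 154) (nat_lit 140) (nat_lit 2) (nat_lit 1) (nat_lit 9) L33045 (by decide +kernel)
theorem L33047 : W_12 (nat_lit 4) (nat_lit 0x22000f001a40090000000000000000000000000000000) (nat_lit 0x0) (nat_lit 0xc0000e00120000000000000000000000000000000000) := T_12 (nat_lit 155) (nat_lit 137) (nat_lit 0) (nat_lit 5) (nat_lit 9) L33046 (by decide +kernel)
theorem L33048 : W_12 (nat_lit 5) (nat_lit 0x22000f001a00090000000000000000000000000000000) (nat_lit 0x0) (nat_lit 0xc0000e001e0000000000000000000000000000000000) := T_12 (nat_lit 138) (nat_lit 139) (nat_lit 0) (nat_lit 6) (nat_lit 9) L33047 (by decide +kernel)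
theorem L33049 : W_12 (nat_lit 6) (nat_lit 0x20000f001a00090000000000000000000000000000000) (nat_lit 0x0) (nat_lit 0xf0000e001e0000000000000000000000000000000000) := T_12 (nat_lit 173) (nat_lit 172) (nat_lit 1) (nat_lit 6) (nat_lit 9) L33048 (by decide +kernel)
theorem L33050 : W_12 (nat_lit 7) (nat_lit 0x20000e001a00090000000000000000000000000000000) (nat_lit 0x0) (nat_lit 0x1f0001e001e0000000000000000000000000000000000) := T_12 (nat_lit 156) (nat_lit 176) (nat_lit 3) (nat_lit 3) (nat_lit 9) L33049 (by decide +kernel)
theorem L33051 : W_12 (nat_lit 8) (nat_lit 0x200006001a00090000000000000000000000000000000) (nat_lit 0x0) (nat_lit 0x1f0019e001e0000000000000000000000000000000000) := T_12 (nat_lit 159) (nat_lit 160) (nat_lit 2) (nat_lit 4) (nat_lit 9) L33050 (by decide +kernel)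
theorem L33052 : W_12 (nat_lit 9) (nat_lit 0x200004001a00090000000000000000000000000000000) (nat_lit 0x0) (nat_lit 0x1f001be001e0000000c00060001000000000000000000) := Q_12 (nat_lit 157) (C_12 L33037 (C_12 L33040 (C_12 L33042 (C_12 L33044 (C_12 L33051 N_12))))) (by decide +kernel)
theorem L33053 : W_12 (nat_lit 2) (nat_lit 0x4000280004001a00090000c00000000000000000000000000) (nat_lit 0x0) (nat_lit 0x800040002000000000000000000000000000000000000000) := D_12 (nat_lit 174) (nat_lit 191) (nat_lit 157) (nat_lit 5) (nat_lit 5) (nat_lit 7) (nat_lit 5) (nat_lit 5) (nat_lit 6) (by decide +kernel)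
theorem L33054 : W_12 (nat_lit 3) (nat_lit 0x4000280004001a00090000400000000000000000000000000) (nat_lit 0x0) (nat_lit 0x800040002000000000000800020000000000000000000000) := T_12 (nat_lit 107) (nat_lit 89) (nat_lit 4) (nat_lit 5) (nat_lit 9) L33053 (by decide +kernel)
theorem L33055 : W_12 (nat_lit 4) (nat_lit 0x4000200004001a00090000400000000000000000000000000) (nat_lit 0x0) (nat_lit 0x8000c0002000000008000800020000000000000000000000) := T_12 (nat_lit 175) (nat_lit 123) (nat_lit 4) (nat_lit 5) (nat_lit 10) L33054 (by decide +kernel)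
theorem L33056 : W_12 (nat_lit 5) (nat_lit 0x200004001a00090000400000000000000000000000000) (nat_lit 0x0) (nat_lit 0x48000c0012000000008000800020000000000000000000000) := T_12 (nat_lit 194) (nat_lit 160) (nat_lit 6) (nat_lit 7) (nat_lit 11) L33055 (by decide +kernel)
theorem L33057 : W_12 (nat_lit 2) (nat_lit 0x280006001a000d0000d001c0000000000000000000000) (nat_lit 0x0) (nat_lit 0x20000000000002000000008000000000000000000) := D_12 (nat_lit 109) (nat_lit 75) (nat_lit 161) (nat_lit 7) (nat_lit 7) (nat_lit 4) (nat_lit 7) (nat_lit 7) (nat_lit 5) (by decide +kernel)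
theorem L33058 : W_12 (nat_lit 3) (nat_lit 0x280006001a000d0000d000c0000000000000000000000) (nat_lit 0x0) (nat_lit 0x20000000000002000300008000000000000000000) := T_12 (nat_lit 92) (nat_lit 93) (nat_lit 1) (nat_lit 8) (nat_lit 5) L33057 (by decide +kernel)
theorem L33059 : W_12 (nat_lit 4) (nat_lit 0x280006001a000d0000c000c0000000000000000000000) (nat_lit 0x0) (nat_lit 0x20000000000002300300008000000000000000000) := T_12 (nat_lit 104) (nat_lit 105) (nat_lit 2) (nat_lit 2) (nat_lit 6) L33058 (by decide +kernel)
theorem L33060 : W_12 (nat_lit 5) (nat_lit 0x280006001a000d0000c00040000000000000000000000) (nat_lit 0x0) (nat_lit 0x2000000000000230038000c000000000000000000) := T_12 (nat_lit 91) (nat_lit 74) (nat_lit 6) (nat_lit 5) (nat_lit 8) L33059 (by decide +kernel)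
theorem L33061 : W_12 (nat_lit 6) (nat_lit 0x200006001a000d0000c00040000000000000000000000) (nat_lit 0x0) (nat_lit 0x8002000000000800230038000c000000000000000000) := T_12 (nat_lit 175) (nat_lit 123) (nat_lit 4) (nat_lit 5) (nat_lit 10) L33060 (by decide +kernel)
theorem L33062 : W_12 (nat_lit 7) (nat_lit 0x200006001a000d0000c00000000000000000000000000) (nat_lit 0x0) (nat_lit 0x800200001000080023003c000c000000000000000000) := T_12 (nat_lit 90) (nat_lit 140) (nat_lit 5) (nat_lit 5) (nat_lit 5) L33061 (by decide +kernel)
theorem L33063 : W_12 (nat_lit 8) (nat_lit 0x200004001a000d0000c00000000000000000000000000) (nat_lit 0x0) (nat_lit 0xc00220001000080023003c000c000000000000000000) := T_12 (nat_lit 157) (nat_lit 174) (nat_lit 5) (nat_lit 5) (nat_lit 6) L33062 (by decide +kernel)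
theorem L33064 : W_12 (nat_lit 9) (nat_lit 0x200004001a00090000c00000000000000000000000000) (nat_lit 0x0) (nat_lit 0xc00220001000680023003c000c000000000000000000) := T_12 (nat_lit 126) (nat_lit 125) (nat_lit 0) (nat_lit 8) (nat_lit 7) L33063 (by decide +kernel)
theorem L33065 : W_12 (nat_lit 10) (nat_lit 0x200004001a00090000400000000000000000000000000) (nat_lit 0x0) (nat_lit 0xc0022000100068002b003e000c000000000000000000) := T_12 (nat_lit 107) (nat_lit 89) (nat_lit 4) (nat_lit 5) (nat_lit 9) L33064 (by decide +kernel)
theorem L33066 : W_12 (nat_lit 2) (nat_lit 0x4000200006001a000d0000d001c0000000000000000000000) (nat_lit 0x0) (nat_lit 0x20000000000002000000008000000000000000000) := D_12 (nat_lit 109) (nat_lit 75) (nat_lit 161) (nat_lit 7) (nat_lit 7) (nat_lit 4) (nat_lit 7) (nat_lit 7) (nat_lit 5) (by decide +kernel)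
theorem L33067 : W_12 (nat_lit 3) (nat_lit 0x4000200006001a000d0000d000c0000000000000000000000) (nat_lit 0x0) (nat_lit 0x20000000000002000300008000000000000000000) := T_12 (nat_lit 92) (nat_lit 93) (nat_lit 1) (nat_lit 8) (nat_lit 5) L33066 (by decide +kernel)
theorem L33068 : W_12 (nat_lit 4) (nat_lit 0x4000200006001a000d0000c000c0000000000000000000000) (nat_lit 0x0) (nat_lit 0x20000000000002300300008000000000000000000) := T_12 (nat_lit 104) (nat_lit 105) (nat_lit 2) (nat_lit 2) (nat_lit 6) L33067 (by decide +kernel)
theorem L33069 : W_12 (nat_lit 5) (nat_lit 0x4000200006001a000d0000c00040000000000000000000000) (nat_lit 0x0) (nat_lit 0x2000000000000230038000c000000000000000000) := T_12 (nat_lit 91) (nat_lit 74) (nat_lit 6) (nat_lit 5) (nat_lit 8) L33068 (by decide +kernel)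
theorem L33070 : W_12 (nat_lit 6) (nat_lit 0x4000200006001a000d0000c00000000000000000000000000) (nat_lit 0x0) (nat_lit 0x200001000000023003c000c000000000000000000) := T_12 (nat_lit 90) (nat_lit 140) (nat_lit 5) (nat_lit 5) (nat_lit 5) L33069 (by decide +kernel)
theorem L33071 : W_12 (nat_lit 7) (nat_lit 0x4000200004001a000d0000c00000000000000000000000000) (nat_lit 0x0) (nat_lit 0x400220001000000023003c000c000000000000000000) := T_12 (nat_lit 157) (nat_lit 174) (nat_lit 5) (nat_lit 5) (nat_lit 6) L33070 (by decide +kernel)
theorem L33072 : W_12 (nat_lit 8) (nat_lit 0x4000200004001a00090000c00000000000000000000000000) (nat_lit 0x0) (nat_lit 0x400220001000600023003c000c000000000000000000) := T_12 (nat_lit 126) (nat_lit 125) (nat_lit 0) (nat_lit 8) (nat_lit 7) L33071 (by decide +kernel)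
theorem L33073 : W_12 (nat_lit 9) (nat_lit 0x4000200004001a00090000400000000000000000000000000) (nat_lit 0x0) (nat_lit 0x40022000100060002b003e000c000000000000000000) := T_12 (nat_lit 107) (nat_lit 89) (nat_lit 4) (nat_lit 5) (nat_lit 9) L33072 (by decide +kernel)
theorem L33074 : W_12 (nat_lit 10) (nat_lit 0x200004001a00090000400000000000000000000000000) (nat_lit 0x0) (nat_lit 0x4000040032000100060002b003e000c000000000000000000) := T_12 (nat_lit 194) (nat_lit 160) (nat_lit 6) (nat_lit 7) (nat_lit 11) L33073 (by decide +kernel)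
theorem L33075 : W_12 (nat_lit 2) (nat_lit 0x200004001a00090000400020000000000000000000000) (nat_lit 0x0) (nat_lit 0x80000000000008000000000001000000000000000000) := D_12 (nat_lit 123) (nat_lit 175) (nat_lit 72) (nat_lit 4) (nat_lit 5) (nat_lit 10) (nat_lit 7) (nat_lit 4) (nat_lit 4) (by decide +kernel)
theorem L33076 : W_12 (nat_lit 3) (nat_lit 0x200004001a00090000400000000000000000000000000) (nat_lit 0x0) (nat_lit 0x80000000000008000800020001000000000000000000) := T_12 (nat_lit 89) (nat_lit 107) (nat_lit 4) (nat_lit 5) (nat_lit 9) L33075 (by decide +kernel)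
theorem L33077 : W_12 (nat_lit 2) (nat_lit 0x4000200004001a00098000400000000000000000000000000) (nat_lit 0x0) (nat_lit 0x100000000000020001000000000000000000) := D_12 (nat_lit 89) (nat_lit 72) (nat_lit 140) (nat_lit 7) (nat_lit 4) (nat_lit 4) (nat_lit 7) (nat_lit 4) (nat_lit 5) (by decide +kernel)
theorem L33078 : W_12 (nat_lit 3) (nat_lit 0x4000200004001a00090000400000000000000000000000000) (nat_lit 0x0) (nat_lit 0x80000000100008000000020001000000000000000000) := T_12 (nat_lit 123) (nat_lit 175) (nat_lit 4) (nat_lit 5) (nat_lit 10) L33077 (by decide +kernel)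
theorem L33079 : W_12 (nat_lit 4) (nat_lit 0x200004001a00090000400000000000000000000000000) (nat_lit 0x0) (nat_lit 0x4000080010000100008000000020001000000000000000000) := T_12 (nat_lit 194) (nat_lit 160) (nat_lit 6) (nat_lit 7) (nat_lit 11) L33078 (by decide +kernel)
theorem L33080 : W_12 (nat_lit 2) (nat_lit 0x40002c0006001a00090000400000000000000000000000000) (nat_lit 0x0) (nat_lit 0x8000100001000000000000000000000000000000000000000) := D_12 (nat_lit 176) (nat_lit 195) (nat_lit 156) (nat_lit 3) (nat_lit 4) (nat_lit 10) (nat_lit 0) (nat_lit 7) (nat_lit 10) (by decide +kernel)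
theorem L33081 : W_12 (nat_lit 3) (nat_lit 0x40002c0004001a00090000400000000000000000000000000) (nat_lit 0x0) (nat_lit 0x8000100003000000000000800000000000000000000000000) := T_12 (nat_lit 157) (nat_lit 107) (nat_lit 5) (nat_lit 5) (nat_lit 6) L33080 (by decide +kernel)
theorem L33082 : W_12 (nat_lit 4) (nat_lit 0x4000280004001a00090000400000000000000000000000000) (nat_lit 0x0) (nat_lit 0x8800140003000000000000800000000000000000000000000) := T_12 (nat_lit 174) (nat_lit 191) (nat_lit 5) (nat_lit 5) (nat_lit 7) L33081 (by decide +kernel)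
theorem L33083 : W_12 (nat_lit 5) (nat_lit 0x280004001a00090000400000000000000000000000000) (nat_lit 0x0) (nat_lit 0xc800140013000000000000800000000000000000000000000) := T_12 (nat_lit 194) (nat_lit 160) (nat_lit 6) (nat_lit 7) (nat_lit 11) L33082 (by decide +kernel)
theorem L33084 : W_12 (nat_lit 6) (nat_lit 0x200004001a00090000400000000000000000000000000) (nat_lit 0x0) (nat_lit 0xc8001c0013000000008000800000000000000000000000000) := T_12 (nat_lit 175) (nat_lit 123) (nat_lit 4) (nat_lit 5) (nat_lit 10) L33083 (by decide +kernel)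
theorem L33085 : W_12 (nat_lit 11) (nat_lit 0x200004001a00090000000000000000000000000000000) (nat_lit 0x0) (nat_lit 0xc8001c0033000100068002f003e000d000000000000000000) := Q_12 (nat_lit 106) (C_12 L33056 (C_12 L33065 (C_12 L33074 (C_12 L33076 (C_12 L33079 (C_12 L33084 N_12)))))) (by decide +kernel)
theorem L33086 : W_12 (nat_lit 2) (nat_lit 0x20000e001a000d0000d001c0000000000000000000000) (nat_lit 0x0) (nat_lit 0x20000000000002000000008000000000000000000) := D_12 (nat_lit 109) (nat_lit 75) (nat_lit 161) (nat_lit 7) (nat_lit 7) (nat_lit 4) (nat_lit 7) (nat_lit 7) (nat_lit 5) (by decide +kernel)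
theorem L33087 : W_12 (nat_lit 3) (nat_lit 0x20000e001a000d0000d000c0000000000000000000000) (nat_lit 0x0) (nat_lit 0x20000000000002000300008000000000000000000) := T_12 (nat_lit 92) (nat_lit 93) (nat_lit 1) (nat_lit 8) (nat_lit 5) L33086 (by decide +kernel)
theorem L33088 : W_12 (nat_lit 4) (nat_lit 0x20000e001a000d0000c000c0000000000000000000000) (nat_lit 0x0) (nat_lit 0x20000000000002300300008000000000000000000) := T_12 (nat_lit 104) (nat_lit 105) (nat_lit 2) (nat_lit 2) (nat_lit 6) L33087 (by decide +kernel)
theorem L33089 : W_12 (nat_lit 5) (nat_lit 0x20000e001a000d0000c00040000000000000000000000) (nat_lit 0x0) (nat_lit 0x2000000000000230038000c000000000000000000) := T_12 (nat_lit 91) (nat_lit 74) (nat_lit 6) (nat_lit 5) (nat_lit 8) L33088 (by decide +kernel)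
theorem L33090 : W_12 (nat_lit 6) (nat_lit 0x20000e001a000d0000c00000000000000000000000000) (nat_lit 0x0) (nat_lit 0x200001000000023003c000c000000000000000000) := T_12 (nat_lit 90) (nat_lit 140) (nat_lit 5) (nat_lit 5) (nat_lit 5) L33089 (by decide +kernel)
theorem L33091 : W_12 (nat_lit 7) (nat_lit 0x20000c001a000d0000c00000000000000000000000000) (nat_lit 0x0) (nat_lit 0x400220001000000023003c000c000000000000000000) := T_12 (nat_lit 157) (nat_lit 174) (nat_lit 5) (nat_lit 5) (nat_lit 6) L33090 (by decide +kernel)
theorem L33092 : W_12 (nat_lit 8) (nat_lit 0x200004001a000d0000c00000000000000000000000000) (nat_lit 0x0) (nat_lit 0x14002a0001000000023003c000c000000000000000000) := T_12 (nat_lit 159) (nat_lit 176) (nat_lit 7) (nat_lit 5) (nat_lit 6) L33091 (by decide +kernel)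
theorem L33093 : W_12 (nat_lit 9) (nat_lit 0x200004001a00090000c00000000000000000000000000) (nat_lit 0x0) (nat_lit 0x14002a0001000600023003c000c000000000000000000) := T_12 (nat_lit 126) (nat_lit 125) (nat_lit 0) (nat_lit 8) (nat_lit 7) L33092 (by decide +kernel)
theorem L33094 : W_12 (nat_lit 10) (nat_lit 0x200004001a00090000400000000000000000000000000) (nat_lit 0x0) (nat_lit 0x14002a000100060002b003e000c000000000000000000) := T_12 (nat_lit 107) (nat_lit 89) (nat_lit 4) (nat_lit 5) (nat_lit 9) L33093 (by decide +kernel)
theorem L33095 : W_12 (nat_lit 2) (nat_lit 0x200004001a00098000400000000000000000000000000) (nat_lit 0x0) (nat_lit 0x100000000000020001000000000000000000) := D_12 (nat_lit 89) (nat_lit 72) (nat_lit 140) (nat_lit 7) (nat_lit 4) (nat_lit 4) (nat_lit 7) (nat_lit 4) (nat_lit 5) (by decide +kernel)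
theorem L33096 : W_12 (nat_lit 3) (nat_lit 0x200004001a00090000400000000000000000000000000) (nat_lit 0x0) (nat_lit 0x80000000100008000000020001000000000000000000) := T_12 (nat_lit 123) (nat_lit 175) (nat_lit 4) (nat_lit 5) (nat_lit 10) L33095 (by decide +kernel)
theorem L33097 : W_12 (nat_lit 2) (nat_lit 0x2d0007801a40090000400000000000000000000000000) (nat_lit 0x0) (nat_lit 0x20008000080000000000000000000000000000000000) := D_12 (nat_lit 159) (nat_lit 173) (nat_lit 139) (nat_lit 2) (nat_lit 2) (nat_lit 10) (nat_lit 0) (nat_lit 6) (nat_lit 9) (by decide +kernel)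
theorem L33098 : W_12 (nat_lit 3) (nat_lit 0x2d0007801a00090000400000000000000000000000000) (nat_lit 0x0) (nat_lit 0x200080000e0000000000000000000000000000000000) := T_12 (nat_lit 138) (nat_lit 137) (nat_lit 0) (nat_lit 5) (nat_lit 9) L33097 (by decide +kernel)
theorem L33099 : W_12 (nat_lit 4) (nat_lit 0x2c0007801a00090000400000000000000000000000000) (nat_lit 0x0) (nat_lit 0x380080000e0000000000000000000000000000000000) := T_12 (nat_lit 172) (nat_lit 171) (nat_lit 1) (nat_lit 5) (nat_lit 9) L33098 (by decide +kernel)
theorem L33100 : W_12 (nat_lit 5) (nat_lit 0x2c0007001a00090000400000000000000000000000000) (nat_lit 0x0) (nat_lit 0x38008c000e0000000000000000000000000000000000) := T_12 (nat_lit 155) (nat_lit 154) (nat_lit 3) (nat_lit 1) (nat_lit 9) L33099 (by decide +kernel)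
theorem L33101 : W_12 (nat_lit 6) (nat_lit 0x2c0006001a00090000400000000000000000000000000) (nat_lit 0x0) (nat_lit 0x138009c000e0000000000000000000000000000000000) := T_12 (nat_lit 156) (nat_lit 176) (nat_lit 0) (nat_lit 7) (nat_lit 10) L33100 (by decide +kernel)
theorem L33102 : W_12 (nat_lit 7) (nat_lit 0x2c0004001a00090000400000000000000000000000000) (nat_lit 0x0) (nat_lit 0x13800bc000e0000000800000000000000000000000000) := T_12 (nat_lit 157) (nat_lit 107) (nat_lit 5) (nat_lit 5) (nat_lit 6) L33101 (by decide +kernel)
theorem L33103 : W_12 (nat_lit 8) (nat_lit 0x280004001a00090000400000000000000000000000000) (nat_lit 0x0) (nat_lit 0x80017800bc000e0000000800000000000000000000000000) := T_12 (nat_lit 174) (nat_lit 191) (nat_lit 5) (nat_lit 5) (nat_lit 7) L33102 (by decide +kernel)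
theorem L33104 : W_12 (nat_lit 9) (nat_lit 0x200004001a00090000400000000000000000000000000) (nat_lit 0x0) (nat_lit 0x8001f800bc000e0008000800000000000000000000000000) := T_12 (nat_lit 175) (nat_lit 123) (nat_lit 4) (nat_lit 5) (nat_lit 10) L33103 (by decide +kernel)
theorem L33105 : W_12 (nat_lit 11) (nat_lit 0x200004001a00090000000000000000000000000000000) (nat_lit 0x0) (nat_lit 0x8001f802bc001e0068002f003e000d000000000000000000) := Q_12 (nat_lit 106) (C_12 L33076 (C_12 L33094 (C_12 L33096 (C_12 L33104 N_12)))) (by decide +kernel)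
theorem L33106 : W_12 (nat_lit 2) (nat_lit 0x30003c001a00090000000000000000000000000000000) (nat_lit 0x0) (nat_lit 0x800c0000000000000000000000000000000000000000) := D_12 (nat_lit 162) (nat_lit 175) (nat_lit 163) (nat_lit 1) (nat_lit 9) (nat_lit 9) (nat_lit 1) (nat_lit 10) (nat_lit 9) (by decide +kernel)
theorem L33107 : W_12 (nat_lit 3) (nat_lit 0x20003c001a00090000000000000000000000000000000) (nat_lit 0x0) (nat_lit 0x1800c0000000000000800000000000000000000000000) := T_12 (nat_lit 176) (nat_lit 107) (nat_lit 7) (nat_lit 5) (nat_lit 6) L33106 (by decide +kernel)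
theorem L33108 : W_12 (nat_lit 4) (nat_lit 0x20001c001a00090000000000000000000000000000000) (nat_lit 0x0) (nat_lit 0x1800e0000100000000800000000000000000000000000) := T_12 (nat_lit 161) (nat_lit 140) (nat_lit 0) (nat_lit 8) (nat_lit 9) L33107 (by decide +kernel)
theorem L33109 : W_12 (nat_lit 5) (nat_lit 0x200014001a00090000000000000000000000000000000) (nat_lit 0x0) (nat_lit 0x1800ea000100000000800000000000000000000000000) := T_12 (nat_lit 159) (nat_lit 157) (nat_lit 2) (nat_lit 4) (nat_lit 9) L33108 (by decide +kernel)
theorem L33110 : W_12 (nat_lit 6) (nat_lit 0x200004001a00090000000000000000000000000000000) (nat_lit 0x0) (nat_lit 0x40001800fa000100000000800000000000000000000000000) := T_12 (nat_lit 160) (nat_lit 194) (nat_lit 6) (nat_lit 7) (nat_lit 11) L33109 (by decide +kernel)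
theorem L33111 : W_12 (nat_lit 2) (nat_lit 0x4800280004001a00098000000000000000000000000000000) (nat_lit 0x0) (nat_lit 0x10001000000000000100000000000000000000000000000000000) := D_12 (nat_lit 192) (nat_lit 208) (nat_lit 140) (nat_lit 5) (nat_lit 5) (nat_lit 8) (nat_lit 4) (nat_lit 5) (nat_lit 11) (by decide +kernel)
theorem L33112 : W_12 (nat_lit 3) (nat_lit 0x4800280004001a00090000000000000000000000000000000) (nat_lit 0x0) (nat_lit 0x10001000000000000100008000400000000000000000000000000) := T_12 (nat_lit 123) (nat_lit 106) (nat_lit 4) (nat_lit 5) (nat_lit 10) L33111 (by decide +kernel)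
theorem L33113 : W_12 (nat_lit 4) (nat_lit 0x4000280004001a00090000000000000000000000000000000) (nat_lit 0x0) (nat_lit 0x10001800040000000100008000400000000000000000000000000) := T_12 (nat_lit 191) (nat_lit 174) (nat_lit 5) (nat_lit 5) (nat_lit 7) L33112 (by decide +kernel)
theorem L33114 : W_12 (nat_lit 5) (nat_lit 0x280004001a00090000000000000000000000000000000) (nat_lit 0x0) (nat_lit 0x10005800040010000100008000400000000000000000000000000) := T_12 (nat_lit 194) (nat_lit 160) (nat_lit 6) (nat_lit 7) (nat_lit 11) L33113 (by decide +kernel)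
theorem L33115 : W_12 (nat_lit 2) (nat_lit 0x1000280004001a000b8000000000000000000000000000000) (nat_lit 0x0) (nat_lit 0x10000800040000000000000000000000000000000000000000000) := D_12 (nat_lit 191) (nat_lit 174) (nat_lit 208) (nat_lit 5) (nat_lit 5) (nat_lit 7) (nat_lit 5) (nat_lit 5) (nat_lit 8) (by decide +kernel)
theorem L33116 : W_12 (nat_lit 3) (nat_lit 0x280004001a000b8000000000000000000000000000000) (nat_lit 0x0) (nat_lit 0x10001800040000000100000000000000000000000000000000000) := T_12 (nat_lit 192) (nat_lit 140) (nat_lit 4) (nat_lit 5) (nat_lit 11) L33115 (by decide +kernel)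
theorem L33117 : W_12 (nat_lit 4) (nat_lit 0x280004001a00098000000000000000000000000000000) (nat_lit 0x0) (nat_lit 0x10001800040000000100060000000000000000000000000000000) := T_12 (nat_lit 125) (nat_lit 126) (nat_lit 3) (nat_lit 4) (nat_lit 7) L33116 (by decide +kernel)
theorem L33118 : W_12 (nat_lit 5) (nat_lit 0x280004001a00090000000000000000000000000000000) (nat_lit 0x0) (nat_lit 0x10001800040000000100068000400000000000000000000000000) := T_12 (nat_lit 123) (nat_lit 106) (nat_lit 4) (nat_lit 5) (nat_lit 10) L33117 (by decide +kernel)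
theorem L33121 : W_12 (nat_lit 4) (nat_lit 0x40002c0004001a00090000000000000000000000000000000) (nat_lit 0x0) (nat_lit 0x8000100008000000008000c00020000000000000000000000) := T_12 (nat_lit 176) (nat_lit 195) (nat_lit 3) (nat_lit 4) (nat_lit 10) L33120 (by decide +kernel)
theorem L33122 : W_12 (nat_lit 5) (nat_lit 0x2c0004001a00090000000000000000000000000000000) (nat_lit 0x0) (nat_lit 0xc000100018000000008000c00020000000000000000000000) := T_12 (nat_lit 194) (nat_lit 160) (nat_lit 6) (nat_lit 7) (nat_lit 11) L33121 (by decide +kernel)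
theorem L33123 : W_12 (nat_lit 6) (nat_lit 0x280004001a00090000000000000000000000000000000) (nat_lit 0x0) (nat_lit 0xc800140018000000008000c00020000000000000000000000) := T_12 (nat_lit 174) (nat_lit 191) (nat_lit 5) (nat_lit 5) (nat_lit 7) L33122 (by decide +kernel)
theorem L33124 : W_12 (nat_lit 2) (nat_lit 0x28001c001b000d8000000000000000000000000000000) (nat_lit 0x0) (nat_lit 0x100000000000000002800000000000000000000000000) := D_12 (nat_lit 176) (nat_lit 109) (nat_lit 107) (nat_lit 5) (nat_lit 7) (nat_lit 6) (nat_lit 7) (nat_lit 5) (nat_lit 6) (by decide +kernel)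
theorem L33125 : W_12 (nat_lit 3) (nat_lit 0x280014001b000d8000000000000000000000000000000) (nat_lit 0x0) (nat_lit 0x100028000000000002800000000000000000000000000) := T_12 (nat_lit 159) (nat_lit 161) (nat_lit 0) (nat_lit 8) (nat_lit 9) L33124 (by decide +kernel)
theorem L33126 : W_12 (nat_lit 4) (nat_lit 0x280004001b000d8000000000000000000000000000000) (nat_lit 0x0) (nat_lit 0x4000100038000000000002800000000000000000000000000) := T_12 (nat_lit 160) (nat_lit 194) (nat_lit 6) (nat_lit 7) (nat_lit 11) L33125 (by decide +kernel)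
theorem L33127 : W_12 (nat_lit 5) (nat_lit 0x280004001a000d8000000000000000000000000000000) (nat_lit 0x0) (nat_lit 0x5000100038000100000002800000000000000000000000000) := T_12 (nat_lit 140) (nat_lit 192) (nat_lit 4) (nat_lit 5) (nat_lit 11) L33126 (by decide +kernel)
theorem L33128 : W_12 (nat_lit 6) (nat_lit 0x280004001a00098000000000000000000000000000000) (nat_lit 0x0) (nat_lit 0x5000100038000100060002800000000000000000000000000) := T_12 (nat_lit 126) (nat_lit 125) (nat_lit 3) (nat_lit 4) (nat_lit 7) L33127 (by decide +kernel)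
theorem L33129 : W_12 (nat_lit 7) (nat_lit 0x280004001a00090000000000000000000000000000000) (nat_lit 0x0) (nat_lit 0x5000100038000100068002c00000000000000000000000000) := T_12 (nat_lit 123) (nat_lit 106) (nat_lit 4) (nat_lit 5) (nat_lit 10) L33128 (by decide +kernel)
theorem L33130 : W_12 (nat_lit 2) (nat_lit 0x2c0014001a00090000000000000000000000000000000) (nat_lit 0x0) (nat_lit 0x100028000000000000000000000000000000000000000) := D_12 (nat_lit 161) (nat_lit 176) (nat_lit 159) (nat_lit 2) (nat_lit 4) (nat_lit 10) (nat_lit 1) (nat_lit 8) (nat_lit 9) (by decide +kernel)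
theorem L33131 : W_12 (nat_lit 3) (nat_lit 0x280014001a00090000000000000000000000000000000) (nat_lit 0x0) (nat_lit 0x800140028000000000000000000000000000000000000000) := T_12 (nat_lit 174) (nat_lit 191) (nat_lit 5) (nat_lit 5) (nat_lit 7) L33130 (by decide +kernel)
theorem L33132 : W_12 (nat_lit 4) (nat_lit 0x280004001a00090000000000000000000000000000000) (nat_lit 0x0) (nat_lit 0x4800140038000000000000000000000000000000000000000) := T_12 (nat_lit 160) (nat_lit 194) (nat_lit 6) (nat_lit 7) (nat_lit 11) L33131 (by decide +kernel)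
theorem L33133 : W_12 (nat_lit 8) (nat_lit 0x200004001a00090000000000000000000000000000000) (nat_lit 0x0) (nat_lit 0x1000d8001c0038000100068002c00020000000000000000000000) := Q_12 (nat_lit 175) (C_12 L33114 (C_12 L33118 (C_12 L33123 (C_12 L33129 (C_12 L33132 N_12))))) (by decide +kernel)
theorem L33134 : W_12 (nat_lit 2) (nat_lit 0x2800fc001a00090000000000000000000000000000000) (nat_lit 0x0) (nat_lit 0x3800000000000000000000000000000000000000000000) := D_12 (nat_lit 180) (nat_lit 179) (nat_lit 181) (nat_lit 3) (nat_lit 6) (nat_lit 9) (nat_lit 3) (nat_lit 7) (nat_lit 9) (by decide +kernel)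
theorem L33135 : W_12 (nat_lit 3) (nat_lit 0x28007c001a00090000000000000000000000000000000) (nat_lit 0x0) (nat_lit 0x3800180000000000000000000000000000000000000000) := T_12 (nat_lit 163) (nat_lit 164) (nat_lit 0) (nat_lit 11) (nat_lit 9) L33134 (by decide +kernel)
theorem L33136 : W_12 (nat_lit 4) (nat_lit 0x28003c001a00090000000000000000000000000000000) (nat_lit 0x0) (nat_lit 0x39001c0000000000000000000000000000000000000000) := T_12 (nat_lit 162) (nat_lit 176) (nat_lit 1) (nat_lit 9) (nat_lit 9) L33135 (by decide +kernel)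
theorem L33137 : W_12 (nat_lit 5) (nat_lit 0x20003c001a00090000000000000000000000000000000) (nat_lit 0x0) (nat_lit 0x39c01c0000000000000000000000000000000000000000) := T_12 (nat_lit 175) (nat_lit 174) (nat_lit 1) (nat_lit 8) (nat_lit 9) L33136 (by decide +kernel)
theorem L33138 : W_12 (nat_lit 6) (nat_lit 0x20001c001a00090000000000000000000000000000000) (nat_lit 0x0) (nat_lit 0x39c01e0000100000000000000000000000000000000000) := T_12 (nat_lit 161) (nat_lit 140) (nat_lit 0) (nat_lit 8) (nat_lit 9) L33137 (by decide +kernel)
theorem L33139 : W_12 (nat_lit 7) (nat_lit 0x200014001a00090000000000000000000000000000000) (nat_lit 0x0) (nat_lit 0x39c01ea000100000000000000000000000000000000000) := T_12 (nat_lit 159) (nat_lit 157) (nat_lit 2) (nat_lit 4) (nat_lit 9) L33138 (by decide +kernel)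
theorem L33140 : W_12 (nat_lit 8) (nat_lit 0x200004001a00090000000000000000000000000000000) (nat_lit 0x0) (nat_lit 0x40039c01fa000100000000000000000000000000000000000) := T_12 (nat_lit 160) (nat_lit 194) (nat_lit 6) (nat_lit 7) (nat_lit 11) L33139 (by decide +kernel)
theorem L33141 : W_12 (nat_lit 12) (nat_lit 0x200000001a00090000000000000000000000000000000) (nat_lit 0x0) (nat_lit 0x1000d8039f81ffe001e0068002f003e000d000000000000000000) := Q_12 (nat_lit 158) (C_12 L33052 (C_12 L33085 (C_12 L32775 (C_12 L32771 (C_12 L33105 (C_12 L33110 (C_12 L33133 (C_12 L33140 N_12)))))))) (by decide +kernel)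
theorem L33142 : W_12 (nat_lit 13) (nat_lit 0x200000001200090000000000000000000000000000000) (nat_lit 0x0) (nat_lit 0x1000d8039f81ffe00de0168002f003e000d000000000000000000) := Q_12 (nat_lit 143) (C_12 L32906 (C_12 L33141 (C_12 L32323 N_12))) (by decide +kernel)
theorem L33143 : W_12 (nat_lit 2) (nat_lit 0x200000001f00090000000000000000000000000000000) (nat_lit 0x0) (nat_lit 0x70000000000000000000000000000000000000000) := D_12 (nat_lit 161) (nat_lit 162) (nat_lit 160) (nat_lit 3) (nat_lit 5) (nat_lit 8) (nat_lit 3) (nat_lit 4) (nat_lit 8) (by decide +kernel)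
theorem L33144 : W_12 (nat_lit 3) (nat_lit 0x200000001e00090000000000000000000000000000000) (nat_lit 0x0) (nat_lit 0x70000100040000000000000000000000000000000) := T_12 (nat_lit 140) (nat_lit 126) (nat_lit 2) (nat_lit 4) (nat_lit 8) L33143 (by decide +kernel)
theorem L33145 : W_12 (nat_lit 4) (nat_lit 0x200000001600090000000000000000000000000000000) (nat_lit 0x0) (nat_lit 0x70000900140000000000000000000000000000000) := T_12 (nat_lit 143) (nat_lit 128) (nat_lit 2) (nat_lit 5) (nat_lit 8) L33144 (by decide +kernel)
theorem L33149 : W_12 (nat_lit 5) (nat_lit 0x200000001600090000000000000000000000000000000) (nat_lit 0x0) (nat_lit 0x4000000076000900100000000000000000000000000000000) := T_12 (nat_lit 143) (nat_lit 128) (nat_lit 2) (nat_lit 5) (nat_lit 8) L33148 (by decide +kernel)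
theorem L33151 : W_12 (nat_lit 3) (nat_lit 0x200008001e00090000000000000000000000000000000) (nat_lit 0x0) (nat_lit 0x2000100006000000000000800000000000000000000000000) := T_12 (nat_lit 158) (nat_lit 157) (nat_lit 1) (nat_lit 8) (nat_lit 8) L33150 (by decide +kernel)
theorem L33152 : W_12 (nat_lit 4) (nat_lit 0x200008001600090000000000000000000000000000000) (nat_lit 0x0) (nat_lit 0x2000100006000800100000800000000000000000000000000) := T_12 (nat_lit 143) (nat_lit 128) (nat_lit 2) (nat_lit 5) (nat_lit 8) L33151 (by decide +kernel)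
theorem L33153 : W_12 (nat_lit 2) (nat_lit 0x4000200008001e00090000000040000000000000000000000) (nat_lit 0x0) (nat_lit 0x2000100000000000020000000000000000000000000000000) := D_12 (nat_lit 176) (nat_lit 125) (nat_lit 193) (nat_lit 7) (nat_lit 6) (nat_lit 7) (nat_lit 4) (nat_lit 6) (nat_lit 11) (by decide +kernel)
theorem L33154 : W_12 (nat_lit 3) (nat_lit 0x200008001e00090000000040000000000000000000000) (nat_lit 0x0) (nat_lit 0x6000100010000000020000000000000000000000000000000) := T_12 (nat_lit 194) (nat_lit 160) (nat_lit 6) (nat_lit 7) (nat_lit 11) L33153 (by decide +kernel)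
theorem L33155 : W_12 (nat_lit 4) (nat_lit 0x200008001e00090000000000000000000000000000000) (nat_lit 0x0) (nat_lit 0x6000100010000000020000800040000000000000000000000) := T_12 (nat_lit 90) (nat_lit 107) (nat_lit 7) (nat_lit 5) (nat_lit 5) L33154 (by decide +kernel)
theorem L33156 : W_12 (nat_lit 5) (nat_lit 0x200008001600090000000000000000000000000000000) (nat_lit 0x0) (nat_lit 0x6000100010000800120000800040000000000000000000000) := T_12 (nat_lit 143) (nat_lit 128) (nat_lit 2) (nat_lit 5) (nat_lit 8) L33155 (by decide +kernel)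
theorem L33159 : W_12 (nat_lit 4) (nat_lit 0x20001c001e00090000000040000000000000000000000) (nat_lit 0x0) (nat_lit 0x200010000c0060000000020000000000000000000000000000000) := T_12 (nat_lit 161) (nat_lit 162) (nat_lit 3) (nat_lit 5) (nat_lit 8) L33158 (by decide +kernel)
theorem L33160 : W_12 (nat_lit 5) (nat_lit 0x20000c001e00090000000040000000000000000000000) (nat_lit 0x0) (nat_lit 0x200050000c0070000000020000000000000000000000000000000) := T_12 (nat_lit 160) (nat_lit 194) (nat_lit 6) (nat_lit 7) (nat_lit 11) L33159 (by decide +kernel)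
theorem L33161 : W_12 (nat_lit 6) (nat_lit 0x200008001e00090000000040000000000000000000000) (nat_lit 0x0) (nat_lit 0x200050000c0076000000020000000000000000000000000000000) := T_12 (nat_lit 158) (nat_lit 157) (nat_lit 1) (nat_lit 8) (nat_lit 8) L33160 (by decide +kernel)
theorem L33162 : W_12 (nat_lit 7) (nat_lit 0x200008001600090000000040000000000000000000000) (nat_lit 0x0) (nat_lit 0x200050000c0076000800120000000000000000000000000000000) := T_12 (nat_lit 143) (nat_lit 128) (nat_lit 2) (nat_lit 5) (nat_lit 8) L33161 (by decide +kernel)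
theorem L33163 : W_12 (nat_lit 8) (nat_lit 0x200008001600090000000000000000000000000000000) (nat_lit 0x0) (nat_lit 0x200050000c0076000800120000800040000000000000000000000) := T_12 (nat_lit 90) (nat_lit 107) (nat_lit 7) (nat_lit 5) (nat_lit 5) L33162 (by decide +kernel)
theorem L33164 : W_12 (nat_lit 2) (nat_lit 0x400020000c001e00090000000000000000000000000000000) (nat_lit 0x0) (nat_lit 0x2000100000000000020000000000000000000000000000000) := D_12 (nat_lit 176) (nat_lit 125) (nat_lit 193) (nat_lit 7) (nat_lit 6) (nat_lit 7) (nat_lit 4) (nat_lit 6) (nat_lit 11) (by decide +kernel)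
theorem L33165 : W_12 (nat_lit 3) (nat_lit 0x20000c001e00090000000000000000000000000000000) (nat_lit 0x0) (nat_lit 0x6000100010000000020000000000000000000000000000000) := T_12 (nat_lit 194) (nat_lit 160) (nat_lit 6) (nat_lit 7) (nat_lit 11) L33164 (by decide +kernel)
theorem L33166 : W_12 (nat_lit 4) (nat_lit 0x200008001e00090000000000000000000000000000000) (nat_lit 0x0) (nat_lit 0x6000100016000000020000000000000000000000000000000) := T_12 (nat_lit 158) (nat_lit 157) (nat_lit 1) (nat_lit 8) (nat_lit 8) L33165 (by decide +kernel)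
theorem L33167 : W_12 (nat_lit 5) (nat_lit 0x200008001600090000000000000000000000000000000) (nat_lit 0x0) (nat_lit 0x6000100016000800120000000000000000000000000000000) := T_12 (nat_lit 143) (nat_lit 128) (nat_lit 2) (nat_lit 5) (nat_lit 8) L33166 (by decide +kernel)
theorem L33168 : W_12 (nat_lit 2) (nat_lit 0x3000080016000b0000000040000000000000000000000) (nat_lit 0x0) (nat_lit 0x140002000000000000000000000000000) := D_12 (nat_lit 126) (nat_lit 109) (nat_lit 128) (nat_lit 6) (nat_lit 6) (nat_lit 10) (nat_lit 1) (nat_lit 9) (nat_lit 7) (by decide +kernel)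
theorem L33169 : W_12 (nat_lit 3) (nat_lit 0x300008001600090000000040000000000000000000000) (nat_lit 0x0) (nat_lit 0x4000000000000000160002000000000000000000000000000) := T_12 (nat_lit 125) (nat_lit 194) (nat_lit 7) (nat_lit 6) (nat_lit 7) L33168 (by decide +kernel)
theorem L33170 : W_12 (nat_lit 4) (nat_lit 0x200008001600090000000040000000000000000000000) (nat_lit 0x0) (nat_lit 0x6000100000000000160002000000000000000000000000000) := T_12 (nat_lit 176) (nat_lit 193) (nat_lit 4) (nat_lit 6) (nat_lit 11) L33169 (by decide +kernel)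
theorem L33171 : W_12 (nat_lit 5) (nat_lit 0x200008001600090000000000000000000000000000000) (nat_lit 0x0) (nat_lit 0x6000100000000000160002800040000000000000000000000) := T_12 (nat_lit 90) (nat_lit 107) (nat_lit 7) (nat_lit 5) (nat_lit 5) L33170 (by decide +kernel)
theorem L33172 : W_12 (nat_lit 2) (nat_lit 0x300008001600090000000000000000000000000000000) (nat_lit 0x0) (nat_lit 0x20000800040000000000000000000000) := D_12 (nat_lit 107) (nat_lit 90) (nat_lit 125) (nat_lit 7) (nat_lit 5) (nat_lit 5) (nat_lit 4) (nat_lit 6) (nat_lit 10) (by decide +kernel)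
theorem L33173 : W_12 (nat_lit 3) (nat_lit 0x200008001600090000000000000000000000000000000) (nat_lit 0x0) (nat_lit 0x2000100000000000020000800040000000000000000000000) := T_12 (nat_lit 176) (nat_lit 193) (nat_lit 4) (nat_lit 6) (nat_lit 11) L33172 (by decide +kernel)
theorem L33174 : W_12 (nat_lit 9) (nat_lit 0x200000001600090000000000000000000000000000000) (nat_lit 0x0) (nat_lit 0x200070001c007e000800160002800040000000000000000000000) := Q_12 (nat_lit 159) (C_12 L33152 (C_12 L33156 (C_12 L33163 (C_12 L33167 (C_12 L33171 (C_12 L33173 N_12)))))) (by decide +kernel)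
theorem L33175 : W_12 (nat_lit 5) (nat_lit 0x200000001600090000800040000000000000000000000) (nat_lit 0x0) (nat_lit 0x40006000100020000400020003000000000000000000) := T_12 (nat_lit 89) (nat_lit 72) (nat_lit 4) (nat_lit 5) (nat_lit 8) L32007 (by decide +kernel)
theorem L33176 : W_12 (nat_lit 6) (nat_lit 0x200000001600090000800000000000000000000000000) (nat_lit 0x0) (nat_lit 0x400060001000200004000e0007000200000000000000) := Q_12 (nat_lit 90) (C_12 L32913 (C_12 L31965 (C_12 L33175 N_12))) (by decide +kernel)
theorem L33177 : W_12 (nat_lit 2) (nat_lit 0x2400040016000b0000c00000000000000000000000000) (nat_lit 0x0) (nat_lit 0x1800080000000000000000000000000000000000000000000) := D_12 (nat_lit 175) (nat_lit 192) (nat_lit 191) (nat_lit 6) (nat_lit 5) (nat_lit 11) (nat_lit 5) (nat_lit 5) (nat_lit 7) (by decide +kernel)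
theorem L33178 : W_12 (nat_lit 3) (nat_lit 0x2000040016000b0000c00000000000000000000000000) (nat_lit 0x0) (nat_lit 0x18000c0002000000000000000000000000000000000000000) := T_12 (nat_lit 174) (nat_lit 157) (nat_lit 5) (nat_lit 5) (nat_lit 6) L33177 (by decide +kernel)
theorem L33179 : W_12 (nat_lit 4) (nat_lit 0x200004001600090000c00000000000000000000000000) (nat_lit 0x0) (nat_lit 0x18000c0002000000060000000000000000000000000000000) := T_12 (nat_lit 125) (nat_lit 126) (nat_lit 0) (nat_lit 8) (nat_lit 7) L33178 (by decide +kernel)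
theorem L33180 : W_12 (nat_lit 5) (nat_lit 0x200004001600090000800000000000000000000000000) (nat_lit 0x0) (nat_lit 0x18000c0002000000060000400020000000000000000000000) := T_12 (nat_lit 106) (nat_lit 89) (nat_lit 4) (nat_lit 5) (nat_lit 9) L33179 (by decide +kernel)
theorem L33181 : W_12 (nat_lit 2) (nat_lit 0x2c0004001600090000c00000000000000000000000000) (nat_lit 0x0) (nat_lit 0x2000100008000000000000000000000000000000000000000) := D_12 (nat_lit 176) (nat_lit 159) (nat_lit 193) (nat_lit 7) (nat_lit 5) (nat_lit 6) (nat_lit 7) (nat_lit 5) (nat_lit 7) (by decide +kernel)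
theorem L33182 : W_12 (nat_lit 3) (nat_lit 0x240004001600090000c00000000000000000000000000) (nat_lit 0x0) (nat_lit 0x2800180008000000000000000000000000000000000000000) := T_12 (nat_lit 175) (nat_lit 191) (nat_lit 5) (nat_lit 5) (nat_lit 7) L33181 (by decide +kernel)
theorem L33183 : W_12 (nat_lit 4) (nat_lit 0x240004001600090000800000000000000000000000000) (nat_lit 0x0) (nat_lit 0x2800180008000000000000400020000000000000000000000) := T_12 (nat_lit 106) (nat_lit 89) (nat_lit 4) (nat_lit 5) (nat_lit 9) L33182 (by decide +kernel)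
theorem L33184 : W_12 (nat_lit 5) (nat_lit 0x200004001600090000800000000000000000000000000) (nat_lit 0x0) (nat_lit 0x28001c000a000000000000400020000000000000000000000) := T_12 (nat_lit 174) (nat_lit 157) (nat_lit 5) (nat_lit 5) (nat_lit 6) L33183 (by decide +kernel)
theorem L33185 : W_12 (nat_lit 2) (nat_lit 0x22000f0017800b0000e00000000000000000000000000) (nat_lit 0x0) (nat_lit 0x6000000010000000000000000000000) := D_12 (nat_lit 122) (nat_lit 88) (nat_lit 121) (nat_lit 7) (nat_lit 3) (nat_lit 5) (nat_lit 0) (nat_lit 6) (nat_lit 8) (by decide +kernel)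
theorem L33186 : W_12 (nat_lit 3) (nat_lit 0x22000f0016800b0000e00000000000000000000000000) (nat_lit 0x0) (nat_lit 0x10000100006000000010000000000000000000000) := T_12 (nat_lit 140) (nat_lit 160) (nat_lit 3) (nat_lit 3) (nat_lit 8) L33185 (by decide +kernel)
theorem L33187 : W_12 (nat_lit 4) (nat_lit 0x20000f0016800b0000e00000000000000000000000000) (nat_lit 0x0) (nat_lit 0x30010000100006000000010000000000000000000000) := T_12 (nat_lit 173) (nat_lit 172) (nat_lit 1) (nat_lit 6) (nat_lit 9) L33186 (by decide +kernel)
theorem L33188 : W_12 (nat_lit 5) (nat_lit 0x20000f0016000b0000e00000000000000000000000000) (nat_lit 0x0) (nat_lit 0x300100001c0006000000010000000000000000000000) := T_12 (nat_lit 139) (nat_lit 138) (nat_lit 0) (nat_lit 6) (nat_lit 9) L33187 (by decide +kernel)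
theorem L33189 : W_12 (nat_lit 6) (nat_lit 0x20000f0016000b0000c00000000000000000000000000) (nat_lit 0x0) (nat_lit 0x300100001c0006000300010000000000000000000000) := T_12 (nat_lit 105) (nat_lit 104) (nat_lit 3) (nat_lit 2) (nat_lit 6) L33188 (by decide +kernel)
theorem L33190 : W_12 (nat_lit 7) (nat_lit 0x20000e0016000b0000c00000000000000000000000000) (nat_lit 0x0) (nat_lit 0x300118001c0006000300010000000000000000000000) := T_12 (nat_lit 156) (nat_lit 155) (nat_lit 2) (nat_lit 2) (nat_lit 9) L33189 (by decide +kernel)
theorem L33191 : W_12 (nat_lit 8) (nat_lit 0x20000c0016000b0000c00000000000000000000000000) (nat_lit 0x0) (nat_lit 0x700138001c0006000300010000000000000000000000) := T_12 (nat_lit 157) (nat_lit 174) (nat_lit 5) (nat_lit 5) (nat_lit 6) L33190 (by decide +kernel)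
theorem L33192 : W_12 (nat_lit 9) (nat_lit 0x20000c001600090000c00000000000000000000000000) (nat_lit 0x0) (nat_lit 0x700138001c0066000300010000000000000000000000) := T_12 (nat_lit 125) (nat_lit 126) (nat_lit 0) (nat_lit 8) (nat_lit 7) L33191 (by decide +kernel)
theorem L33193 : W_12 (nat_lit 10) (nat_lit 0x20000c001600090000800000000000000000000000000) (nat_lit 0x0) (nat_lit 0x700138001c0066000700030000000000000000000000) := T_12 (nat_lit 106) (nat_lit 89) (nat_lit 4) (nat_lit 5) (nat_lit 9) L33192 (by decide +kernel)
theorem L33194 : W_12 (nat_lit 11) (nat_lit 0x200004001600090000800000000000000000000000000) (nat_lit 0x0) (nat_lit 0x17001b8001c0066000700030000000000000000000000) := T_12 (nat_lit 159) (nat_lit 176) (nat_lit 7) (nat_lit 5) (nat_lit 6) L33193 (by decide +kernel)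
theorem L33195 : W_12 (nat_lit 2) (nat_lit 0x3000040016000b0000c00000000000000000000000000) (nat_lit 0x0) (nat_lit 0x3000080000000000000000000000000000000000000000000) := D_12 (nat_lit 175) (nat_lit 193) (nat_lit 192) (nat_lit 7) (nat_lit 5) (nat_lit 7) (nat_lit 6) (nat_lit 5) (nat_lit 11) (by decide +kernel)
theorem L33196 : W_12 (nat_lit 3) (nat_lit 0x300004001600090000c00000000000000000000000000) (nat_lit 0x0) (nat_lit 0x3000080000000000060000000000000000000000000000000) := T_12 (nat_lit 125) (nat_lit 126) (nat_lit 0) (nat_lit 8) (nat_lit 7) L33195 (by decide +kernel)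
theorem L33197 : W_12 (nat_lit 4) (nat_lit 0x300004001600090000800000000000000000000000000) (nat_lit 0x0) (nat_lit 0x3000080000000000060000400020000000000000000000000) := T_12 (nat_lit 106) (nat_lit 89) (nat_lit 4) (nat_lit 5) (nat_lit 9) L33196 (by decide +kernel)
theorem L33198 : W_12 (nat_lit 5) (nat_lit 0x200004001600090000800000000000000000000000000) (nat_lit 0x0) (nat_lit 0x3000180008000000060000400020000000000000000000000) := T_12 (nat_lit 176) (nat_lit 159) (nat_lit 7) (nat_lit 5) (nat_lit 6) L33197 (by decide +kernel)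
theorem L33199 : W_12 (nat_lit 12) (nat_lit 0x200000001600090000800000000000000000000000000) (nat_lit 0x0) (nat_lit 0x200038001f001f8001c0066000700030000000000000000000000) := Q_12 (nat_lit 158) (C_12 L33180 (C_12 L33184 (C_12 L33194 (C_12 L33198 (C_12 L32947 N_12))))) (by decide +kernel)
theorem L33200 : W_12 (nat_lit 13) (nat_lit 0x200000001600090000000000000000000000000000000) (nat_lit 0x0) (nat_lit 0x200038001f001f8001c0066000f000f0007000200000000000000) := Q_12 (nat_lit 107) (C_12 L32917 (C_12 L32909 (C_12 L33176 (C_12 L33199 N_12)))) (by decide +kernel)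
theorem L33201 : W_12 (nat_lit 14) (nat_lit 0x200000001200090000000000000000000000000000000) (nat_lit 0x0) (nat_lit 0x200078001f007f800dc0166002f000f0007000200000000000000) := Q_12 (nat_lit 142) (C_12 L32952 (C_12 L33145 (C_12 L33149 (C_12 L33174 (C_12 L33200 N_12))))) (by decide +kernel)
theorem L33202 : W_12 (nat_lit 17) (nat_lit 0x200000001200080000000000000000000000000000000) (nat_lit 0x0) (nat_lit 0x70003e001fc00ff839f81ffe00de077f03af803fc00f800380008000000000) := Q_12 (nat_lit 124) (C_12 L32021 (C_12 L32322 (C_12 L32343 (C_12 L32738 (C_12 L32797 (C_12 L32897 (C_12 L32907 (C_12 L32953 (C_12 L33032 (C_12 L33033 (C_12 L33142 (C_12 L33201 N_12)))))))))))) (by decide +kernel)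
theorem L33214 : W_12 (nat_lit 2) (nat_lit 0x2800040012000f0000800000000000000000000000000) (nat_lit 0x0) (nat_lit 0x2000100008000000000000000000000000000000000000000) := D_12 (nat_lit 176) (nat_lit 193) (nat_lit 159) (nat_lit 7) (nat_lit 5) (nat_lit 7) (nat_lit 7) (nat_lit 5) (nat_lit 6) (by decide +kernel)
theorem L33215 : W_12 (nat_lit 3) (nat_lit 0x2800040012000f0000000000000000000000000000000) (nat_lit 0x0) (nat_lit 0x2000100008000000000000c00000000000000000000000000) := T_12 (nat_lit 107) (nat_lit 106) (nat_lit 0) (nat_lit 8) (nat_lit 7) L33214 (by decide +kernel)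
theorem L33216 : W_12 (nat_lit 4) (nat_lit 0x2800040012000b0000000000000000000000000000000) (nat_lit 0x0) (nat_lit 0x2000100008000100040000c00000000000000000000000000) := T_12 (nat_lit 126) (nat_lit 140) (nat_lit 1) (nat_lit 8) (nat_lit 7) L33215 (by decide +kernel)
theorem L33217 : W_12 (nat_lit 5) (nat_lit 0x280004001200090000000000000000000000000000000) (nat_lit 0x0) (nat_lit 0x2000100008000100060001c00000000000000000000000000) := T_12 (nat_lit 125) (nat_lit 108) (nat_lit 6) (nat_lit 5) (nat_lit 10) L33216 (by decide +kernel)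
theorem L33219 : W_12 (nat_lit 6) (nat_lit 0x280004001200080000000000000000000000000000000) (nat_lit 0x0) (nat_lit 0x380014000a000100078001c00080000000000000000000000) := Q_12 (nat_lit 124) (C_12 L33206 (C_12 L33210 (C_12 L33213 (C_12 L33217 (C_12 L33218 N_12))))) (by decide +kernel)
theorem L33220 : W_12 (nat_lit 2) (nat_lit 0x3000280004001300090000000000000000000000000000000) (nat_lit 0x0) (nat_lit 0x10000800040000000000000000000000000000000000000000000) := D_12 (nat_lit 191) (nat_lit 174) (nat_lit 208) (nat_lit 5) (nat_lit 5) (nat_lit 7) (nat_lit 5) (nat_lit 5) (nat_lit 8) (by decide +kernel)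
theorem L33221 : W_12 (nat_lit 3) (nat_lit 0x3000280004001300080000000000000000000000000000000) (nat_lit 0x0) (nat_lit 0x10000800140000000000010000000000000000000000000000000) := T_12 (nat_lit 124) (nat_lit 176) (nat_lit 7) (nat_lit 5) (nat_lit 7) L33220 (by decide +kernel)
theorem L33222 : W_12 (nat_lit 4) (nat_lit 0x1000280004001300080000000000000000000000000000000) (nat_lit 0x0) (nat_lit 0x50002800140000000000010000000000000000000000000000000) := T_12 (nat_lit 193) (nat_lit 210) (nat_lit 7) (nat_lit 5) (nat_lit 8) L33221 (by decide +kernel)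
theorem L33223 : W_12 (nat_lit 5) (nat_lit 0x1000280004001200080000000000000000000000000000000) (nat_lit 0x0) (nat_lit 0x50002800140000000100018000000000000000000000000000000) := T_12 (nat_lit 140) (nat_lit 123) (nat_lit 4) (nat_lit 5) (nat_lit 11) L33222 (by decide +kernel)
theorem L33224 : W_12 (nat_lit 2) (nat_lit 0x20003000280004001300080000000000000000000000000000000) (nat_lit 0x0) (nat_lit 0x200010000800000000000000000000000000000000000000000000000) := D_12 (nat_lit 208) (nat_lit 191) (nat_lit 225) (nat_lit 5) (nat_lit 5) (nat_lit 8) (nat_lit 5) (nat_lit 5) (nat_lit 9) (by decide +kernel)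
theorem L33225 : W_12 (nat_lit 3) (nat_lit 0x3000280004001300080000000000000000000000000000000) (nat_lit 0x0) (nat_lit 0x200030000800000002000000000000000000000000000000000000000) := T_12 (nat_lit 209) (nat_lit 157) (nat_lit 4) (nat_lit 5) (nat_lit 12) L33224 (by decide +kernel)
theorem L33226 : W_12 (nat_lit 4) (nat_lit 0x1000280004001300080000000000000000000000000000000) (nat_lit 0x0) (nat_lit 0x200070002800000002000000000000000000000000000000000000000) := T_12 (nat_lit 193) (nat_lit 210) (nat_lit 7) (nat_lit 5) (nat_lit 8) L33225 (by decide +kernel)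
theorem L33227 : W_12 (nat_lit 5) (nat_lit 0x1000280004001200080000000000000000000000000000000) (nat_lit 0x0) (nat_lit 0x200070002800000002000100008000000000000000000000000000000) := T_12 (nat_lit 140) (nat_lit 123) (nat_lit 4) (nat_lit 5) (nat_lit 11) L33226 (by decide +kernel)
theorem L33228 : W_12 (nat_lit 2) (nat_lit 0x1800280004001200090000000000000000000000000000000) (nat_lit 0x0) (nat_lit 0x40002000100000000000000000000000000000000000000000000) := D_12 (nat_lit 193) (nat_lit 210) (nat_lit 176) (nat_lit 7) (nat_lit 5) (nat_lit 8) (nat_lit 7) (nat_lit 5) (nat_lit 7) (by decide +kernel)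
theorem L33229 : W_12 (nat_lit 3) (nat_lit 0x1800280004001200080000000000000000000000000000000) (nat_lit 0x0) (nat_lit 0x40002000140000000000010000000000000000000000000000000) := T_12 (nat_lit 124) (nat_lit 174) (nat_lit 5) (nat_lit 5) (nat_lit 7) L33228 (by decide +kernel)
theorem L33230 : W_12 (nat_lit 4) (nat_lit 0x1000280004001200080000000000000000000000000000000) (nat_lit 0x0) (nat_lit 0x50002800140000000000010000000000000000000000000000000) := T_12 (nat_lit 191) (nat_lit 208) (nat_lit 5) (nat_lit 5) (nat_lit 8) L33229 (by decide +kernel)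
theorem L33231 : W_12 (nat_lit 2) (nat_lit 0x3000280004001200090000000000000000000000000000000) (nat_lit 0x0) (nat_lit 0x100008000400000000000000000000000000) := D_12 (nat_lit 123) (nat_lit 106) (nat_lit 140) (nat_lit 4) (nat_lit 5) (nat_lit 10) (nat_lit 4) (nat_lit 5) (nat_lit 11) (by decide +kernel)
theorem L33232 : W_12 (nat_lit 3) (nat_lit 0x3000280004001200080000000000000000000000000000000) (nat_lit 0x0) (nat_lit 0x100000000100018000400000000000000000000000000) := T_12 (nat_lit 124) (nat_lit 176) (nat_lit 7) (nat_lit 5) (nat_lit 7) L33231 (by decide +kernel)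
theorem L33233 : W_12 (nat_lit 4) (nat_lit 0x1000280004001200080000000000000000000000000000000) (nat_lit 0x0) (nat_lit 0x40002000100000000100018000400000000000000000000000000) := T_12 (nat_lit 193) (nat_lit 210) (nat_lit 7) (nat_lit 5) (nat_lit 8) L33232 (by decide +kernel)
theorem L33234 : W_12 (nat_lit 2) (nat_lit 0x2000180028000c001300090000000000000000000000000000000) (nat_lit 0x0) (nat_lit 0x400000000000100000000000000000800000000000000000000000000) := D_12 (nat_lit 176) (nat_lit 226) (nat_lit 107) (nat_lit 6) (nat_lit 5) (nat_lit 13) (nat_lit 7) (nat_lit 5) (nat_lit 6) (by decide +kernel)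
theorem L33235 : W_12 (nat_lit 3) (nat_lit 0x20001800280004001300090000000000000000000000000000000) (nat_lit 0x0) (nat_lit 0x400000000000100008000400000000800000000000000000000000000) := T_12 (nat_lit 159) (nat_lit 142) (nat_lit 6) (nat_lit 5) (nat_lit 12) L33234 (by decide +kernel)
theorem L33236 : W_12 (nat_lit 4) (nat_lit 0x1800280004001300090000000000000000000000000000000) (nat_lit 0x0) (nat_lit 0x40002000000010000a000400000000800000000000000000000000000) := T_12 (nat_lit 209) (nat_lit 157) (nat_lit 4) (nat_lit 5) (nat_lit 12) L33235 (by decide +kernel)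
theorem L33237 : W_12 (nat_lit 5) (nat_lit 0x1800280004001300080000000000000000000000000000000) (nat_lit 0x0) (nat_lit 0x40002000000014000a000400010000800000000000000000000000000) := T_12 (nat_lit 124) (nat_lit 174) (nat_lit 5) (nat_lit 5) (nat_lit 7) L33236 (by decide +kernel)
theorem L33238 : W_12 (nat_lit 6) (nat_lit 0x1000280004001300080000000000000000000000000000000) (nat_lit 0x0) (nat_lit 0x40003000080014000a000400010000800000000000000000000000000) := T_12 (nat_lit 191) (nat_lit 208) (nat_lit 5) (nat_lit 5) (nat_lit 8) L33237 (by decide +kernel)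
theorem L33239 : W_12 (nat_lit 7) (nat_lit 0x1000280004001200080000000000000000000000000000000) (nat_lit 0x0) (nat_lit 0x40003000080014000a000500018000800000000000000000000000000) := T_12 (nat_lit 140) (nat_lit 123) (nat_lit 4) (nat_lit 5) (nat_lit 11) L33238 (by decide +kernel)
theorem L33240 : W_12 (nat_lit 8) (nat_lit 0x280004001200080000000000000000000000000000000) (nat_lit 0x0) (nat_lit 0x60007000380014000a000500018000c00000000000000000000000000) := Q_12 (nat_lit 192) (C_12 L33223 (C_12 L33227 (C_12 L33230 (C_12 L33233 (C_12 L33239 N_12))))) (by decide +kernel)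
theorem L33241 : W_12 (nat_lit 2) (nat_lit 0x1000380004001200098000000000000000000000000000000) (nat_lit 0x0) (nat_lit 0x400020001000000000000000000000000000) := D_12 (nat_lit 125) (nat_lit 108) (nat_lit 142) (nat_lit 6) (nat_lit 5) (nat_lit 10) (nat_lit 6) (nat_lit 5) (nat_lit 11) (by decide +kernel)
theorem L33242 : W_12 (nat_lit 3) (nat_lit 0x380004001200098000000000000000000000000000000) (nat_lit 0x0) (nat_lit 0x1000000000000500020001000000000000000000000000000) := T_12 (nat_lit 192) (nat_lit 140) (nat_lit 4) (nat_lit 5) (nat_lit 11) L33241 (by decide +kernel)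
theorem L33243 : W_12 (nat_lit 4) (nat_lit 0x280004001200098000000000000000000000000000000) (nat_lit 0x0) (nat_lit 0x3000100000000500020001000000000000000000000000000) := T_12 (nat_lit 176) (nat_lit 193) (nat_lit 7) (nat_lit 5) (nat_lit 7) L33242 (by decide +kernel)
theorem L33244 : W_12 (nat_lit 5) (nat_lit 0x280004001200090000000000000000000000000000000) (nat_lit 0x0) (nat_lit 0x3000100000000500028001400000000000000000000000000) := T_12 (nat_lit 123) (nat_lit 106) (nat_lit 4) (nat_lit 5) (nat_lit 10) L33243 (by decide +kernel)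
theorem L33245 : W_12 (nat_lit 4) (nat_lit 0x380004001200090000000000000000000000000000000) (nat_lit 0x0) (nat_lit 0x800040003000000008000c00000000000000000000000000) := T_12 (nat_lit 123) (nat_lit 106) (nat_lit 4) (nat_lit 5) (nat_lit 10) L32072 (by decide +kernel)
theorem L33246 : W_12 (nat_lit 5) (nat_lit 0x280004001200090000000000000000000000000000000) (nat_lit 0x0) (nat_lit 0x2800140003000000008000c00000000000000000000000000) := T_12 (nat_lit 176) (nat_lit 193) (nat_lit 7) (nat_lit 5) (nat_lit 7) L33245 (by decide +kernel)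
theorem L33247 : W_12 (nat_lit 2) (nat_lit 0x2800040012000f0000000000000000000000000000000) (nat_lit 0x0) (nat_lit 0x1000000000000400100000000000000000000000000000000) := D_12 (nat_lit 142) (nat_lit 192) (nat_lit 128) (nat_lit 6) (nat_lit 5) (nat_lit 11) (nat_lit 1) (nat_lit 9) (nat_lit 7) (by decide +kernel)
theorem L33248 : W_12 (nat_lit 3) (nat_lit 0x2800040012000b0000000000000000000000000000000) (nat_lit 0x0) (nat_lit 0x1000000000000500140000000000000000000000000000000) := T_12 (nat_lit 126) (nat_lit 140) (nat_lit 1) (nat_lit 8) (nat_lit 7) L33247 (by decide +kernel)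
theorem L33249 : W_12 (nat_lit 4) (nat_lit 0x280004001200090000000000000000000000000000000) (nat_lit 0x0) (nat_lit 0x1000000000000500160001000000000000000000000000000) := T_12 (nat_lit 125) (nat_lit 108) (nat_lit 6) (nat_lit 5) (nat_lit 10) L33248 (by decide +kernel)
theorem L33250 : W_12 (nat_lit 6) (nat_lit 0x280004001200080000000000000000000000000000000) (nat_lit 0x0) (nat_lit 0x3800140003000500178001c00000000000000000000000000) := Q_12 (nat_lit 124) (C_12 L33213 (C_12 L33244 (C_12 L33246 (C_12 L33249 N_12)))) (by decide +kernel)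
theorem L33251 : W_12 (nat_lit 2) (nat_lit 0x28003c002e0004001600080000000000000000000000000000000) (nat_lit 0x0) (nat_lit 0x2000100000000000000002000000000000000000000000000000000000000) := D_12 (nat_lit 224) (nat_lit 241) (nat_lit 157) (nat_lit 6) (nat_lit 3) (nat_lit 14) (nat_lit 6) (nat_lit 3) (nat_lit 13) (by decide +kernel)
theorem L33252 : W_12 (nat_lit 3) (nat_lit 0x28003c002a0004001600080000000000000000000000000000000) (nat_lit 0x0) (nat_lit 0x2000100000004000040002000000000000000000000000000000000000000) := T_12 (nat_lit 174) (nat_lit 194) (nat_lit 0) (nat_lit 7) (nat_lit 11) L33251 (by decide +kernel)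
theorem L33253 : W_12 (nat_lit 4) (nat_lit 0x8003c002a0004001600080000000000000000000000000000000) (nat_lit 0x0) (nat_lit 0x200010002000400004000a000000000000000000000000000000000000000) := T_12 (nat_lit 209) (nat_lit 159) (nat_lit 6) (nat_lit 5) (nat_lit 12) L33252 (by decide +kernel)
theorem L33254 : W_12 (nat_lit 5) (nat_lit 0x8003c00280004001600080000000000000000000000000000000) (nat_lit 0x0) (nat_lit 0x200010002000400007000a000000000000000000000000000000000000000) := T_12 (nat_lit 173) (nat_lit 172) (nat_lit 0) (nat_lit 6) (nat_lit 11) L33253 (by decide +kernel)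
theorem L33255 : W_12 (nat_lit 6) (nat_lit 0x3c00280004001600080000000000000000000000000000000) (nat_lit 0x0) (nat_lit 0x200010002c00400007000a000000000000000000000000000000000000000) := T_12 (nat_lit 207) (nat_lit 206) (nat_lit 1) (nat_lit 6) (nat_lit 11) L33254 (by decide +kernel)
theorem L33256 : W_12 (nat_lit 7) (nat_lit 0x3800280004001600080000000000000000000000000000000) (nat_lit 0x0) (nat_lit 0x200010002c00440017000a000000000000000000000000000000000000000) := T_12 (nat_lit 190) (nat_lit 176) (nat_lit 2) (nat_lit 3) (nat_lit 11) L33255 (by decide +kernel)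
theorem L33257 : W_12 (nat_lit 8) (nat_lit 0x3000280004001600080000000000000000000000000000000) (nat_lit 0x0) (nat_lit 0x200010003c004c0017000a000000000000000000000000000000000000000) := T_12 (nat_lit 191) (nat_lit 208) (nat_lit 5) (nat_lit 5) (nat_lit 8) L33256 (by decide +kernel)
theorem L33258 : W_12 (nat_lit 9) (nat_lit 0x3000280004001200080000000000000000000000000000000) (nat_lit 0x0) (nat_lit 0x200010003c004c0017000a000400020000000000000000000000000000000) := T_12 (nat_lit 142) (nat_lit 125) (nat_lit 6) (nat_lit 5) (nat_lit 11) L33257 (by decide +kernel)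
theorem L33259 : W_12 (nat_lit 10) (nat_lit 0x1000280004001200080000000000000000000000000000000) (nat_lit 0x0) (nat_lit 0x200010007c006c0017000a000400020000000000000000000000000000000) := T_12 (nat_lit 193) (nat_lit 210) (nat_lit 7) (nat_lit 5) (nat_lit 8) L33258 (by decide +kernel)
theorem L33260 : W_12 (nat_lit 2) (nat_lit 0x20001000280004001700080000000000000000000000000000000) (nat_lit 0x0) (nat_lit 0x200010000800000000000000000000000000000000000000000000000) := D_12 (nat_lit 208) (nat_lit 225) (nat_lit 191) (nat_lit 5) (nat_lit 5) (nat_lit 9) (nat_lit 5) (nat_lit 5) (nat_lit 8) (by decide +kernel)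
theorem L33261 : W_12 (nat_lit 3) (nat_lit 0x1000280004001700080000000000000000000000000000000) (nat_lit 0x0) (nat_lit 0x200030000800000008000000000000000000000000000000000000000) := T_12 (nat_lit 209) (nat_lit 159) (nat_lit 6) (nat_lit 5) (nat_lit 12) L33260 (by decide +kernel)
theorem L33262 : W_12 (nat_lit 4) (nat_lit 0x1000280004001600080000000000000000000000000000000) (nat_lit 0x0) (nat_lit 0x200030000800000008000100008000000000000000000000000000000) := T_12 (nat_lit 140) (nat_lit 123) (nat_lit 4) (nat_lit 5) (nat_lit 11) L33261 (by decide +kernel)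
theorem L33263 : W_12 (nat_lit 5) (nat_lit 0x1000280004001200080000000000000000000000000000000) (nat_lit 0x0) (nat_lit 0x200030000800000008000500028000000000000000000000000000000) := T_12 (nat_lit 142) (nat_lit 125) (nat_lit 6) (nat_lit 5) (nat_lit 11) L33262 (by decide +kernel)
theorem L33264 : W_12 (nat_lit 2) (nat_lit 0x20003000280004001600080000000000000000000000000000000) (nat_lit 0x0) (nat_lit 0x2000100008000000000000000000000000000000) := D_12 (nat_lit 140) (nat_lit 123) (nat_lit 157) (nat_lit 4) (nat_lit 5) (nat_lit 11) (nat_lit 4) (nat_lit 5) (nat_lit 12) (by decide +kernel)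
theorem L33265 : W_12 (nat_lit 3) (nat_lit 0x3000280004001600080000000000000000000000000000000) (nat_lit 0x0) (nat_lit 0x2000000000000a000100008000000000000000000000000000000) := T_12 (nat_lit 209) (nat_lit 159) (nat_lit 6) (nat_lit 5) (nat_lit 12) L33264 (by decide +kernel)
theorem L33266 : W_12 (nat_lit 4) (nat_lit 0x1000280004001600080000000000000000000000000000000) (nat_lit 0x0) (nat_lit 0x6000200000000a000100008000000000000000000000000000000) := T_12 (nat_lit 193) (nat_lit 210) (nat_lit 7) (nat_lit 5) (nat_lit 8) L33265 (by decide +kernel)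
theorem L33267 : W_12 (nat_lit 5) (nat_lit 0x1000280004001200080000000000000000000000000000000) (nat_lit 0x0) (nat_lit 0x6000200000000a000500028000000000000000000000000000000) := T_12 (nat_lit 142) (nat_lit 125) (nat_lit 6) (nat_lit 5) (nat_lit 11) L33266 (by decide +kernel)
theorem L33268 : W_12 (nat_lit 2) (nat_lit 0x8003c002a0004001300080000000000000000000000000000000) (nat_lit 0x0) (nat_lit 0x40003000000000000000000000000000000000000000) := D_12 (nat_lit 157) (nat_lit 174) (nat_lit 156) (nat_lit 5) (nat_lit 4) (nat_lit 8) (nat_lit 6) (nat_lit 3) (nat_lit 12) (by decide +kernel)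
theorem L33269 : W_12 (nat_lit 3) (nat_lit 0x8003c00280004001300080000000000000000000000000000000) (nat_lit 0x0) (nat_lit 0x70003000000000000000000000000000000000000000) := T_12 (nat_lit 173) (nat_lit 172) (nat_lit 0) (nat_lit 6) (nat_lit 11) L33268 (by decide +kernel)
theorem L33270 : W_12 (nat_lit 4) (nat_lit 0x3c00280004001300080000000000000000000000000000000) (nat_lit 0x0) (nat_lit 0xc000000070003000000000000000000000000000000000000000) := T_12 (nat_lit 207) (nat_lit 206) (nat_lit 1) (nat_lit 6) (nat_lit 11) L33269 (by decide +kernel)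
theorem L33271 : W_12 (nat_lit 5) (nat_lit 0x3800280004001300080000000000000000000000000000000) (nat_lit 0x0) (nat_lit 0xc000400170003000000000000000000000000000000000000000) := T_12 (nat_lit 190) (nat_lit 176) (nat_lit 2) (nat_lit 3) (nat_lit 11) L33270 (by decide +kernel)
theorem L33272 : W_12 (nat_lit 6) (nat_lit 0x1800280004001300080000000000000000000000000000000) (nat_lit 0x0) (nat_lit 0x4c002400170003000000000000000000000000000000000000000) := T_12 (nat_lit 193) (nat_lit 210) (nat_lit 7) (nat_lit 5) (nat_lit 8) L33271 (by decide +kernel)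
theorem L33273 : W_12 (nat_lit 7) (nat_lit 0x1000280004001300080000000000000000000000000000000) (nat_lit 0x0) (nat_lit 0x5c002c00170003000000000000000000000000000000000000000) := T_12 (nat_lit 191) (nat_lit 208) (nat_lit 5) (nat_lit 5) (nat_lit 8) L33272 (by decide +kernel)
theorem L33274 : W_12 (nat_lit 8) (nat_lit 0x1000280004001200080000000000000000000000000000000) (nat_lit 0x0) (nat_lit 0x5c002c00170003000100008000000000000000000000000000000) := T_12 (nat_lit 140) (nat_lit 123) (nat_lit 4) (nat_lit 5) (nat_lit 11) L33273 (by decide +kernel)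
theorem L33275 : W_12 (nat_lit 11) (nat_lit 0x280004001200080000000000000000000000000000000) (nat_lit 0x0) (nat_lit 0x200030007c007c0017000b000500028000000000000000000000000000000) := Q_12 (nat_lit 192) (C_12 L33227 (C_12 L33259 (C_12 L33263 (C_12 L33267 (C_12 L33274 N_12))))) (by decide +kernel)
theorem L33276 : W_12 (nat_lit 2) (nat_lit 0x2c00040016000b8000800000000000000000000000000) (nat_lit 0x0) (nat_lit 0x8000000000000000040002000000000000000000) := D_12 (nat_lit 90) (nat_lit 73) (nat_lit 159) (nat_lit 7) (nat_lit 5) (nat_lit 4) (nat_lit 7) (nat_lit 5) (nat_lit 5) (by decide +kernel)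
theorem L33277 : W_12 (nat_lit 3) (nat_lit 0x2c00040012000b8000800000000000000000000000000) (nat_lit 0x0) (nat_lit 0x1000000008000400000000000040002000000000000000000) := T_12 (nat_lit 142) (nat_lit 192) (nat_lit 6) (nat_lit 5) (nat_lit 11) L33276 (by decide +kernel)
theorem L33278 : W_12 (nat_lit 4) (nat_lit 0x2c00040012000b8000000000000000000000000000000) (nat_lit 0x0) (nat_lit 0x100000000a000400000000800040002000000000000000000) := T_12 (nat_lit 107) (nat_lit 157) (nat_lit 5) (nat_lit 5) (nat_lit 6) L33277 (by decide +kernel)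
theorem L33279 : W_12 (nat_lit 5) (nat_lit 0x2800040012000b8000000000000000000000000000000) (nat_lit 0x0) (nat_lit 0x180004000a000400000000800040002000000000000000000) := T_12 (nat_lit 174) (nat_lit 191) (nat_lit 5) (nat_lit 5) (nat_lit 7) L33278 (by decide +kernel)
theorem L33280 : W_12 (nat_lit 6) (nat_lit 0x280004001200098000000000000000000000000000000) (nat_lit 0x0) (nat_lit 0x180004000a000400020001800040002000000000000000000) := T_12 (nat_lit 125) (nat_lit 108) (nat_lit 6) (nat_lit 5) (nat_lit 10) L33279 (by decide +kernel)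
theorem L33281 : W_12 (nat_lit 7) (nat_lit 0x280004001200090000000000000000000000000000000) (nat_lit 0x0) (nat_lit 0x180004000a000400028001c00040002000000000000000000) := T_12 (nat_lit 123) (nat_lit 106) (nat_lit 4) (nat_lit 5) (nat_lit 10) L33280 (by decide +kernel)
theorem L33282 : W_12 (nat_lit 2) (nat_lit 0x10003800040012000b0000000000000000000000000000000) (nat_lit 0x0) (nat_lit 0x10000800040000000000000000000000000000000000000000000) := D_12 (nat_lit 191) (nat_lit 208) (nat_lit 174) (nat_lit 5) (nat_lit 5) (nat_lit 8) (nat_lit 5) (nat_lit 5) (nat_lit 7) (by decide +kernel)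
theorem L33283 : W_12 (nat_lit 3) (nat_lit 0x3800040012000b0000000000000000000000000000000) (nat_lit 0x0) (nat_lit 0x10001800040000000400000000000000000000000000000000000) := T_12 (nat_lit 192) (nat_lit 142) (nat_lit 6) (nat_lit 5) (nat_lit 11) L33282 (by decide +kernel)
theorem L33284 : W_12 (nat_lit 4) (nat_lit 0x2800040012000b0000000000000000000000000000000) (nat_lit 0x0) (nat_lit 0x10003800140000000400000000000000000000000000000000000) := T_12 (nat_lit 176) (nat_lit 193) (nat_lit 7) (nat_lit 5) (nat_lit 7) L33283 (by decide +kernel)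
theorem L33285 : W_12 (nat_lit 5) (nat_lit 0x280004001200090000000000000000000000000000000) (nat_lit 0x0) (nat_lit 0x10003800140000000400020001000000000000000000000000000) := T_12 (nat_lit 125) (nat_lit 108) (nat_lit 6) (nat_lit 5) (nat_lit 10) L33284 (by decide +kernel)
theorem L33286 : W_12 (nat_lit 8) (nat_lit 0x280004001200080000000000000000000000000000000) (nat_lit 0x0) (nat_lit 0x1000380014000b000400038001c000c0002000000000000000000) := Q_12 (nat_lit 124) (C_12 L33246 (C_12 L33218 (C_12 L33281 (C_12 L33285 N_12)))) (by decide +kernel)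
theorem L33287 : W_12 (nat_lit 2) (nat_lit 0x100038000400120009a001800000000000000000000000000) (nat_lit 0x0) (nat_lit 0x10000800040000000000000000000000000000000000000000000) := D_12 (nat_lit 191) (nat_lit 174) (nat_lit 208) (nat_lit 5) (nat_lit 5) (nat_lit 7) (nat_lit 5) (nat_lit 5) (nat_lit 8) (by decide +kernel)
theorem L33288 : W_12 (nat_lit 3) (nat_lit 0x38000400120009a001800000000000000000000000000) (nat_lit 0x0) (nat_lit 0x10001800040000000100000000000000000000000000000000000) := T_12 (nat_lit 192) (nat_lit 140) (nat_lit 4) (nat_lit 5) (nat_lit 11) L33287 (by decide +kernel)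
theorem L33289 : W_12 (nat_lit 4) (nat_lit 0x380004001200098001800000000000000000000000000) (nat_lit 0x0) (nat_lit 0x10001800040000000100006000000000000000000000000000000) := T_12 (nat_lit 121) (nat_lit 122) (nat_lit 2) (nat_lit 2) (nat_lit 7) L33288 (by decide +kernel)
theorem L33290 : W_12 (nat_lit 5) (nat_lit 0x380004001200098000800000000000000000000000000) (nat_lit 0x0) (nat_lit 0x10001800040000000100006001000080000000000000000000000) := T_12 (nat_lit 108) (nat_lit 91) (nat_lit 6) (nat_lit 5) (nat_lit 9) L33289 (by decide +kernel)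
theorem L33291 : W_12 (nat_lit 6) (nat_lit 0x380004001200098000000000000000000000000000000) (nat_lit 0x0) (nat_lit 0x10001800040008000100006001800080000000000000000000000) := T_12 (nat_lit 107) (nat_lit 159) (nat_lit 7) (nat_lit 5) (nat_lit 6) L33290 (by decide +kernel)
theorem L33292 : W_12 (nat_lit 7) (nat_lit 0x280004001200098000000000000000000000000000000) (nat_lit 0x0) (nat_lit 0x10003800140008000100006001800080000000000000000000000) := T_12 (nat_lit 176) (nat_lit 193) (nat_lit 7) (nat_lit 5) (nat_lit 7) L33291 (by decide +kernel)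
theorem L33293 : W_12 (nat_lit 8) (nat_lit 0x280004001200090000000000000000000000000000000) (nat_lit 0x0) (nat_lit 0x1000380014000800010000e001c00080000000000000000000000) := T_12 (nat_lit 123) (nat_lit 106) (nat_lit 4) (nat_lit 5) (nat_lit 10) L33292 (by decide +kernel)
theorem L33294 : W_12 (nat_lit 9) (nat_lit 0x280004001200080000000000000000000000000000000) (nat_lit 0x0) (nat_lit 0x1000380014000800050017e001c000a0000000000000000000000) := Q_12 (nat_lit 124) (C_12 L33285 (C_12 L33293 (C_12 L33249 (C_12 L33218 (C_12 L32042 N_12))))) (by decide +kernel)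
theorem L33295 : W_12 (nat_lit 2) (nat_lit 0x20003000280004001600080000000000000000000000000000000) (nat_lit 0x0) (nat_lit 0x200010000800000000000000000000000000000000000000000000000) := D_12 (nat_lit 208) (nat_lit 225) (nat_lit 191) (nat_lit 5) (nat_lit 5) (nat_lit 9) (nat_lit 5) (nat_lit 5) (nat_lit 8) (by decide +kernel)
theorem L33296 : W_12 (nat_lit 3) (nat_lit 0x3000280004001600080000000000000000000000000000000) (nat_lit 0x0) (nat_lit 0x200030000800000008000000000000000000000000000000000000000) := T_12 (nat_lit 209) (nat_lit 159) (nat_lit 6) (nat_lit 5) (nat_lit 12) L33295 (by decide +kernel)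
theorem L33297 : W_12 (nat_lit 4) (nat_lit 0x1000280004001600080000000000000000000000000000000) (nat_lit 0x0) (nat_lit 0x200070002800000008000000000000000000000000000000000000000) := T_12 (nat_lit 193) (nat_lit 210) (nat_lit 7) (nat_lit 5) (nat_lit 8) L33296 (by decide +kernel)
theorem L33298 : W_12 (nat_lit 5) (nat_lit 0x1000280004001200080000000000000000000000000000000) (nat_lit 0x0) (nat_lit 0x200070002800000008000400020000000000000000000000000000000) := T_12 (nat_lit 142) (nat_lit 125) (nat_lit 6) (nat_lit 5) (nat_lit 11) L33297 (by decide +kernel)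
theorem L33299 : W_12 (nat_lit 2) (nat_lit 0x1800280004001200090000000000000000000000000000000) (nat_lit 0x0) (nat_lit 0x100008000400000000000000000000000000) := D_12 (nat_lit 123) (nat_lit 106) (nat_lit 140) (nat_lit 4) (nat_lit 5) (nat_lit 10) (nat_lit 4) (nat_lit 5) (nat_lit 11) (by decide +kernel)
theorem L33300 : W_12 (nat_lit 3) (nat_lit 0x1800280004001200080000000000000000000000000000000) (nat_lit 0x0) (nat_lit 0x40000000100018000400000000000000000000000000) := T_12 (nat_lit 124) (nat_lit 174) (nat_lit 5) (nat_lit 5) (nat_lit 7) L33299 (by decide +kernel)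
theorem L33301 : W_12 (nat_lit 4) (nat_lit 0x1000280004001200080000000000000000000000000000000) (nat_lit 0x0) (nat_lit 0x10000800040000000100018000400000000000000000000000000) := T_12 (nat_lit 191) (nat_lit 208) (nat_lit 5) (nat_lit 5) (nat_lit 8) L33300 (by decide +kernel)
theorem L33302 : W_12 (nat_lit 6) (nat_lit 0x280004001200080000000000000000000000000000000) (nat_lit 0x0) (nat_lit 0x20007000380004000a000500038000400000000000000000000000000) := Q_12 (nat_lit 192) (C_12 L33267 (C_12 L33227 (C_12 L33298 (C_12 L33263 (C_12 L33301 N_12))))) (by decide +kernel)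
theorem L33303 : W_12 (nat_lit 6) (nat_lit 0x280004001200080000000000000000000000000000000) (nat_lit 0x0) (nat_lit 0x200070003800100008000500038000400000000000000000000000000) := Q_12 (nat_lit 192) (C_12 L33298 (C_12 L33233 (C_12 L33263 N_12))) (by decide +kernel)
theorem L33304 : W_12 (nat_lit 2) (nat_lit 0x2c00040016000f8000800000000000000000000000000) (nat_lit 0x0) (nat_lit 0x8000000000000000040002000000000000000000) := D_12 (nat_lit 90) (nat_lit 73) (nat_lit 159) (nat_lit 7) (nat_lit 5) (nat_lit 4) (nat_lit 7) (nat_lit 5) (nat_lit 5) (by decide +kernel)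
theorem L33305 : W_12 (nat_lit 3) (nat_lit 0x2c00040016000f8000000000000000000000000000000) (nat_lit 0x0) (nat_lit 0xa000000000000800040002000000000000000000) := T_12 (nat_lit 107) (nat_lit 157) (nat_lit 5) (nat_lit 5) (nat_lit 6) L33304 (by decide +kernel)
theorem L33306 : W_12 (nat_lit 4) (nat_lit 0x2800040016000f8000000000000000000000000000000) (nat_lit 0x0) (nat_lit 0x80004000a000000000000800040002000000000000000000) := T_12 (nat_lit 174) (nat_lit 191) (nat_lit 5) (nat_lit 5) (nat_lit 7) L33305 (by decide +kernel)
theorem L33307 : W_12 (nat_lit 5) (nat_lit 0x2800040012000f8000000000000000000000000000000) (nat_lit 0x0) (nat_lit 0x80004000a000400100000800040002000000000000000000) := T_12 (nat_lit 142) (nat_lit 128) (nat_lit 1) (nat_lit 9) (nat_lit 7) L33306 (by decide +kernel)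
theorem L33308 : W_12 (nat_lit 6) (nat_lit 0x2800040012000b8000000000000000000000000000000) (nat_lit 0x0) (nat_lit 0x80004000a000500140000800040002000000000000000000) := T_12 (nat_lit 126) (nat_lit 140) (nat_lit 1) (nat_lit 8) (nat_lit 7) L33307 (by decide +kernel)
theorem L33309 : W_12 (nat_lit 7) (nat_lit 0x280004001200098000000000000000000000000000000) (nat_lit 0x0) (nat_lit 0x80004000a000500160001800040002000000000000000000) := T_12 (nat_lit 125) (nat_lit 108) (nat_lit 6) (nat_lit 5) (nat_lit 10) L33308 (by decide +kernel)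
theorem L33310 : W_12 (nat_lit 8) (nat_lit 0x280004001200090000000000000000000000000000000) (nat_lit 0x0) (nat_lit 0x80004000a000500168001c00040002000000000000000000) := T_12 (nat_lit 123) (nat_lit 106) (nat_lit 4) (nat_lit 5) (nat_lit 10) L33309 (by decide +kernel)
theorem L33311 : W_12 (nat_lit 2) (nat_lit 0x40003e0014001200090000000000000000000000000000000) (nat_lit 0x0) (nat_lit 0x3800000000000000000000000000000000000000) := D_12 (nat_lit 156) (nat_lit 157) (nat_lit 155) (nat_lit 0) (nat_lit 7) (nat_lit 10) (nat_lit 0) (nat_lit 6) (nat_lit 10) (by decide +kernel)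
theorem L33312 : W_12 (nat_lit 3) (nat_lit 0x40003c0014001200090000000000000000000000000000000) (nat_lit 0x0) (nat_lit 0x2000b800000000000000000000000000000000000000) := T_12 (nat_lit 173) (nat_lit 159) (nat_lit 2) (nat_lit 3) (nat_lit 10) L33311 (by decide +kernel)
theorem L33313 : W_12 (nat_lit 4) (nat_lit 0x40003c0004001200090000000000000000000000000000000) (nat_lit 0x0) (nat_lit 0x2003b800000000000000000000000000000000000000) := T_12 (nat_lit 160) (nat_lit 161) (nat_lit 2) (nat_lit 4) (nat_lit 10) L33312 (by decide +kernel)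
theorem L33314 : W_12 (nat_lit 5) (nat_lit 0x3c0004001200090000000000000000000000000000000) (nat_lit 0x0) (nat_lit 0xc00002003b800000000000000000000000000000000000000) := T_12 (nat_lit 194) (nat_lit 195) (nat_lit 3) (nat_lit 4) (nat_lit 10) L33313 (by decide +kernel)
theorem L33315 : W_12 (nat_lit 6) (nat_lit 0x380004001200090000000000000000000000000000000) (nat_lit 0x0) (nat_lit 0xc80006003b800000000000000000000000000000000000000) := T_12 (nat_lit 174) (nat_lit 191) (nat_lit 5) (nat_lit 5) (nat_lit 7) L33314 (by decide +kernel)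
theorem L33316 : W_12 (nat_lit 7) (nat_lit 0x280004001200090000000000000000000000000000000) (nat_lit 0x0) (nat_lit 0xe80016003b800000000000000000000000000000000000000) := T_12 (nat_lit 176) (nat_lit 193) (nat_lit 7) (nat_lit 5) (nat_lit 7) L33315 (by decide +kernel)
theorem L33317 : W_12 (nat_lit 9) (nat_lit 0x280004001200080000000000000000000000000000000) (nat_lit 0x0) (nat_lit 0xe80016003b800500178001c000e0002000000000000000000) := Q_12 (nat_lit 124) (C_12 L32042 (C_12 L33246 (C_12 L33310 (C_12 L33218 (C_12 L33316 N_12))))) (by decide +kernel)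
theorem L33318 : W_12 (nat_lit 2) (nat_lit 0x38000600120009a001800000000000000000000000000) (nat_lit 0x0) (nat_lit 0x1000000000000100000000000040000000000000000000000) := D_12 (nat_lit 140) (nat_lit 90) (nat_lit 192) (nat_lit 5) (nat_lit 5) (nat_lit 5) (nat_lit 4) (nat_lit 5) (nat_lit 11) (by decide +kernel)
theorem L33319 : W_12 (nat_lit 3) (nat_lit 0x38000400120009a001800000000000000000000000000) (nat_lit 0x0) (nat_lit 0x1000040002000100000000000040000000000000000000000) := T_12 (nat_lit 157) (nat_lit 174) (nat_lit 5) (nat_lit 5) (nat_lit 6) L33318 (by decide +kernel)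
theorem L33320 : W_12 (nat_lit 4) (nat_lit 0x380004001200098001800000000000000000000000000) (nat_lit 0x0) (nat_lit 0x1000040002000100006000000040000000000000000000000) := T_12 (nat_lit 121) (nat_lit 122) (nat_lit 2) (nat_lit 2) (nat_lit 7) L33319 (by decide +kernel)
theorem L33321 : W_12 (nat_lit 5) (nat_lit 0x380004001200098000800000000000000000000000000) (nat_lit 0x0) (nat_lit 0x10000400020001000060010000c0000000000000000000000) := T_12 (nat_lit 108) (nat_lit 91) (nat_lit 6) (nat_lit 5) (nat_lit 9) L33320 (by decide +kernel)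
theorem L33322 : W_12 (nat_lit 6) (nat_lit 0x380004001200098000000000000000000000000000000) (nat_lit 0x0) (nat_lit 0x100004000a0001000060018000c0000000000000000000000) := T_12 (nat_lit 107) (nat_lit 159) (nat_lit 7) (nat_lit 5) (nat_lit 6) L33321 (by decide +kernel)
theorem L33323 : W_12 (nat_lit 7) (nat_lit 0x280004001200098000000000000000000000000000000) (nat_lit 0x0) (nat_lit 0x300014000a0001000060018000c0000000000000000000000) := T_12 (nat_lit 176) (nat_lit 193) (nat_lit 7) (nat_lit 5) (nat_lit 7) L33322 (by decide +kernel)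
theorem L33324 : W_12 (nat_lit 8) (nat_lit 0x280004001200090000000000000000000000000000000) (nat_lit 0x0) (nat_lit 0x300014000a00010000e001c000c0000000000000000000000) := T_12 (nat_lit 123) (nat_lit 106) (nat_lit 4) (nat_lit 5) (nat_lit 10) L33323 (by decide +kernel)
theorem L33325 : W_12 (nat_lit 2) (nat_lit 0x380006001200098000800000000000000000000000000) (nat_lit 0x0) (nat_lit 0x1000000000000100000000000040000000000000000000000) := D_12 (nat_lit 140) (nat_lit 90) (nat_lit 192) (nat_lit 5) (nat_lit 5) (nat_lit 5) (nat_lit 4) (nat_lit 5) (nat_lit 11) (by decide +kernel)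
theorem L33326 : W_12 (nat_lit 3) (nat_lit 0x380004001200098000800000000000000000000000000) (nat_lit 0x0) (nat_lit 0x1000040002000100000000000040000000000000000000000) := T_12 (nat_lit 157) (nat_lit 174) (nat_lit 5) (nat_lit 5) (nat_lit 6) L33325 (by decide +kernel)
theorem L33327 : W_12 (nat_lit 4) (nat_lit 0x380004001200098000000000000000000000000000000) (nat_lit 0x0) (nat_lit 0x100004000a000100000000800040000000000000000000000) := T_12 (nat_lit 107) (nat_lit 159) (nat_lit 7) (nat_lit 5) (nat_lit 6) L33326 (by decide +kernel)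
theorem L33328 : W_12 (nat_lit 5) (nat_lit 0x280004001200098000000000000000000000000000000) (nat_lit 0x0) (nat_lit 0x300014000a000100000000800040000000000000000000000) := T_12 (nat_lit 176) (nat_lit 193) (nat_lit 7) (nat_lit 5) (nat_lit 7) L33327 (by decide +kernel)
theorem L33329 : W_12 (nat_lit 6) (nat_lit 0x280004001200090000000000000000000000000000000) (nat_lit 0x0) (nat_lit 0x300014000a000100008000c00040000000000000000000000) := T_12 (nat_lit 123) (nat_lit 106) (nat_lit 4) (nat_lit 5) (nat_lit 10) L33328 (by decide +kernel)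
theorem L33330 : W_12 (nat_lit 9) (nat_lit 0x280004001200080000000000000000000000000000000) (nat_lit 0x0) (nat_lit 0x300014000a00050017e001c000c0000000000000000000000) := Q_12 (nat_lit 124) (C_12 L33249 (C_12 L33244 (C_12 L33324 (C_12 L33218 (C_12 L33329 N_12))))) (by decide +kernel)
theorem L33331 : W_12 (nat_lit 2) (nat_lit 0x10002c000c001200098000800000000000000000000000000) (nat_lit 0x0) (nat_lit 0x20000000000000000400000000000040000000000000000000000) := D_12 (nat_lit 142) (nat_lit 90) (nat_lit 209) (nat_lit 7) (nat_lit 5) (nat_lit 5) (nat_lit 6) (nat_lit 5) (nat_lit 12) (by decide +kernel)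
theorem L33332 : W_12 (nat_lit 3) (nat_lit 0x10002c0004001200098000800000000000000000000000000) (nat_lit 0x0) (nat_lit 0x20000000100008000400000000000040000000000000000000000) := T_12 (nat_lit 159) (nat_lit 176) (nat_lit 7) (nat_lit 5) (nat_lit 6) L33331 (by decide +kernel)
theorem L33333 : W_12 (nat_lit 4) (nat_lit 0x2c0004001200098000800000000000000000000000000) (nat_lit 0x0) (nat_lit 0x20001000100008000500000000000040000000000000000000000) := T_12 (nat_lit 192) (nat_lit 140) (nat_lit 4) (nat_lit 5) (nat_lit 11) L33332 (by decide +kernel)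
theorem L33334 : W_12 (nat_lit 5) (nat_lit 0x2c0004001200098000000000000000000000000000000) (nat_lit 0x0) (nat_lit 0x2000100010000a000500000000800040000000000000000000000) := T_12 (nat_lit 107) (nat_lit 157) (nat_lit 5) (nat_lit 5) (nat_lit 6) L33333 (by decide +kernel)
theorem L33335 : W_12 (nat_lit 6) (nat_lit 0x280004001200098000000000000000000000000000000) (nat_lit 0x0) (nat_lit 0x2000180014000a000500000000800040000000000000000000000) := T_12 (nat_lit 174) (nat_lit 191) (nat_lit 5) (nat_lit 5) (nat_lit 7) L33334 (by decide +kernel)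
theorem L33336 : W_12 (nat_lit 7) (nat_lit 0x280004001200090000000000000000000000000000000) (nat_lit 0x0) (nat_lit 0x2000180014000a000500008000c00040000000000000000000000) := T_12 (nat_lit 123) (nat_lit 106) (nat_lit 4) (nat_lit 5) (nat_lit 10) L33335 (by decide +kernel)
theorem L33337 : W_12 (nat_lit 9) (nat_lit 0x280004001200080000000000000000000000000000000) (nat_lit 0x0) (nat_lit 0x2000180014000a000500178001c00040002000000000000000000) := Q_12 (nat_lit 124) (C_12 L33310 (C_12 L33281 (C_12 L33336 (C_12 L33249 (C_12 L33213 N_12))))) (by decide +kernel)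
theorem L33338 : W_12 (nat_lit 2) (nat_lit 0x3400b000280006001600090000000000000000000000000000000) (nat_lit 0x0) (nat_lit 0x400000000000040000000000000000800000000000000000000000000) := D_12 (nat_lit 174) (nat_lit 226) (nat_lit 107) (nat_lit 4) (nat_lit 5) (nat_lit 13) (nat_lit 5) (nat_lit 5) (nat_lit 6) (by decide +kernel)
theorem L33339 : W_12 (nat_lit 3) (nat_lit 0x3400b000280004001600090000000000000000000000000000000) (nat_lit 0x0) (nat_lit 0x400000000000040002000100000000800000000000000000000000000) := T_12 (nat_lit 157) (nat_lit 140) (nat_lit 4) (nat_lit 5) (nat_lit 12) L33338 (by decide +kernel)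
theorem L33340 : W_12 (nat_lit 4) (nat_lit 0x34003000280004001600090000000000000000000000000000000) (nat_lit 0x0) (nat_lit 0x40000000c000040002000100000000800000000000000000000000000) := T_12 (nat_lit 195) (nat_lit 194) (nat_lit 1) (nat_lit 8) (nat_lit 11) L33339 (by decide +kernel)
theorem L33341 : W_12 (nat_lit 5) (nat_lit 0x30003000280004001600090000000000000000000000000000000) (nat_lit 0x0) (nat_lit 0x40000c00c000040002000100000000800000000000000000000000000) := T_12 (nat_lit 206) (nat_lit 207) (nat_lit 2) (nat_lit 2) (nat_lit 12) L33340 (by decide +kernel)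
theorem L33342 : W_12 (nat_lit 6) (nat_lit 0x20003000280004001600090000000000000000000000000000000) (nat_lit 0x0) (nat_lit 0x60001c00c000040002000100000000800000000000000000000000000) := T_12 (nat_lit 208) (nat_lit 225) (nat_lit 5) (nat_lit 5) (nat_lit 9) L33341 (by decide +kernel)
theorem L33343 : W_12 (nat_lit 7) (nat_lit 0x3000280004001600090000000000000000000000000000000) (nat_lit 0x0) (nat_lit 0x60003c00c00004000a000100000000800000000000000000000000000) := T_12 (nat_lit 209) (nat_lit 159) (nat_lit 6) (nat_lit 5) (nat_lit 12) L33342 (by decide +kernel)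
theorem L33344 : W_12 (nat_lit 8) (nat_lit 0x3000280004001600080000000000000000000000000000000) (nat_lit 0x0) (nat_lit 0x60003c00c00014000a000100010000800000000000000000000000000) := T_12 (nat_lit 124) (nat_lit 176) (nat_lit 7) (nat_lit 5) (nat_lit 7) L33343 (by decide +kernel)
theorem L33345 : W_12 (nat_lit 9) (nat_lit 0x1000280004001600080000000000000000000000000000000) (nat_lit 0x0) (nat_lit 0x60007c00e00014000a000100010000800000000000000000000000000) := T_12 (nat_lit 193) (nat_lit 210) (nat_lit 7) (nat_lit 5) (nat_lit 8) L33344 (by decide +kernel)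
theorem L33346 : W_12 (nat_lit 10) (nat_lit 0x1000280004001200080000000000000000000000000000000) (nat_lit 0x0) (nat_lit 0x60007c00e00014000a000500030000800000000000000000000000000) := T_12 (nat_lit 142) (nat_lit 125) (nat_lit 6) (nat_lit 5) (nat_lit 11) L33345 (by decide +kernel)
theorem L33347 : W_12 (nat_lit 2) (nat_lit 0x180028000c001600090000000000000000000000000000000) (nat_lit 0x0) (nat_lit 0x100000000000000000800040000000000000000000000) := D_12 (nat_lit 107) (nat_lit 90) (nat_lit 176) (nat_lit 7) (nat_lit 5) (nat_lit 5) (nat_lit 7) (nat_lit 5) (nat_lit 6) (by decide +kernel)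
theorem L33348 : W_12 (nat_lit 3) (nat_lit 0x1800280004001600090000000000000000000000000000000) (nat_lit 0x0) (nat_lit 0x20000000100008000000000000800040000000000000000000000) := T_12 (nat_lit 159) (nat_lit 209) (nat_lit 6) (nat_lit 5) (nat_lit 12) L33347 (by decide +kernel)
theorem L33349 : W_12 (nat_lit 4) (nat_lit 0x1800280004001600080000000000000000000000000000000) (nat_lit 0x0) (nat_lit 0x20000000140008000000010000800040000000000000000000000) := T_12 (nat_lit 124) (nat_lit 174) (nat_lit 5) (nat_lit 5) (nat_lit 7) L33348 (by decide +kernel)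
theorem L33350 : W_12 (nat_lit 5) (nat_lit 0x1000280004001600080000000000000000000000000000000) (nat_lit 0x0) (nat_lit 0x30000800140008000000010000800040000000000000000000000) := T_12 (nat_lit 191) (nat_lit 208) (nat_lit 5) (nat_lit 5) (nat_lit 8) L33349 (by decide +kernel)
theorem L33351 : W_12 (nat_lit 6) (nat_lit 0x1000280004001200080000000000000000000000000000000) (nat_lit 0x0) (nat_lit 0x30000800140008000400030000800040000000000000000000000) := T_12 (nat_lit 142) (nat_lit 125) (nat_lit 6) (nat_lit 5) (nat_lit 11) L33350 (by decide +kernel)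
theorem L33352 : W_12 (nat_lit 2) (nat_lit 0x30002c0004001600090000800000000000000000000000000) (nat_lit 0x0) (nat_lit 0x20000000000008000000000000000040000000000000000000000) := D_12 (nat_lit 159) (nat_lit 209) (nat_lit 90) (nat_lit 6) (nat_lit 5) (nat_lit 12) (nat_lit 7) (nat_lit 5) (nat_lit 5) (by decide +kernel)
theorem L33353 : W_12 (nat_lit 3) (nat_lit 0x30002c0004001600090000000000000000000000000000000) (nat_lit 0x0) (nat_lit 0x2000000000000a000000000000800040000000000000000000000) := T_12 (nat_lit 107) (nat_lit 157) (nat_lit 5) (nat_lit 5) (nat_lit 6) L33352 (by decide +kernel)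
theorem L33354 : W_12 (nat_lit 4) (nat_lit 0x3000280004001600090000000000000000000000000000000) (nat_lit 0x0) (nat_lit 0x2000080004000a000000000000800040000000000000000000000) := T_12 (nat_lit 174) (nat_lit 191) (nat_lit 5) (nat_lit 5) (nat_lit 7) L33353 (by decide +kernel)
theorem L33355 : W_12 (nat_lit 5) (nat_lit 0x3000280004001600080000000000000000000000000000000) (nat_lit 0x0) (nat_lit 0x2000080014000a000000010000800040000000000000000000000) := T_12 (nat_lit 124) (nat_lit 176) (nat_lit 7) (nat_lit 5) (nat_lit 7) L33354 (by decide +kernel)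
theorem L33356 : W_12 (nat_lit 6) (nat_lit 0x1000280004001600080000000000000000000000000000000) (nat_lit 0x0) (nat_lit 0x6000280014000a000000010000800040000000000000000000000) := T_12 (nat_lit 193) (nat_lit 210) (nat_lit 7) (nat_lit 5) (nat_lit 8) L33355 (by decide +kernel)
theorem L33357 : W_12 (nat_lit 7) (nat_lit 0x1000280004001200080000000000000000000000000000000) (nat_lit 0x0) (nat_lit 0x6000280014000a000400030000800040000000000000000000000) := T_12 (nat_lit 142) (nat_lit 125) (nat_lit 6) (nat_lit 5) (nat_lit 11) L33356 (by decide +kernel)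
theorem L33358 : W_12 (nat_lit 11) (nat_lit 0x280004001200080000000000000000000000000000000) (nat_lit 0x0) (nat_lit 0x60007c00f80014000a000500030000800040000000000000000000000) := Q_12 (nat_lit 192) (C_12 L33298 (C_12 L33230 (C_12 L33346 (C_12 L33351 (C_12 L33357 N_12))))) (by decide +kernel)
theorem L33359 : W_12 (nat_lit 12) (nat_lit 0x280000001200080000000000000000000000000000000) (nat_lit 0x0) (nat_lit 0x200070007c00fc0017003f80050017e001c000e0002000000000000000000) := Q_12 (nat_lit 158) (C_12 L33219 (C_12 L33240 (C_12 L33250 (C_12 L33275 (C_12 L33286 (C_12 L33294 (C_12 L33302 (C_12 L33303 (C_12 L33317 (C_12 L33330 (C_12 L33337 (C_12 L33358 N_12)))))))))))) (by decide +kernel)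
theorem L33360 : W_12 (nat_lit 9) (nat_lit 0x280004001200080000000000000000000000000000000) (nat_lit 0x0) (nat_lit 0x5c003c00170003000100018000400000000000000000000000000) := Q_12 (nat_lit 192) (C_12 L33301 (C_12 L33274 (C_12 L33230 (C_12 L33233 N_12)))) (by decide +kernel)
theorem L33361 : W_12 (nat_lit 2) (nat_lit 0x280004001a00080000000000000000000000000000000) (nat_lit 0x0) (nat_lit 0x2000400100000000000000000000000000000000) := D_12 (nat_lit 142) (nat_lit 157) (nat_lit 128) (nat_lit 1) (nat_lit 8) (nat_lit 8) (nat_lit 2) (nat_lit 5) (nat_lit 8) (by decide +kernel)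
theorem L33362 : W_12 (nat_lit 2) (nat_lit 0x28001c001a00080000000000000000000000000000000) (nat_lit 0x0) (nat_lit 0x40020000100000000000000000000000000000000000) := D_12 (nat_lit 161) (nat_lit 174) (nat_lit 140) (nat_lit 1) (nat_lit 8) (nat_lit 9) (nat_lit 0) (nat_lit 8) (nat_lit 9) (by decide +kernel)
theorem L33363 : W_12 (nat_lit 3) (nat_lit 0x280014001a00080000000000000000000000000000000) (nat_lit 0x0) (nat_lit 0x4002a000100000000000000000000000000000000000) := T_12 (nat_lit 159) (nat_lit 157) (nat_lit 2) (nat_lit 4) (nat_lit 9) L33362 (by decide +kernel)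
theorem L33364 : W_12 (nat_lit 4) (nat_lit 0x280004001a00080000000000000000000000000000000) (nat_lit 0x0) (nat_lit 0x400004003a000100000000000000000000000000000000000) := T_12 (nat_lit 160) (nat_lit 194) (nat_lit 6) (nat_lit 7) (nat_lit 11) L33363 (by decide +kernel)
theorem L33365 : W_12 (nat_lit 2) (nat_lit 0x4000280004001f00080000000000000000000000000000000) (nat_lit 0x0) (nat_lit 0x100000000000000000c000000000000000000000000000000) := D_12 (nat_lit 123) (nat_lit 122) (nat_lit 192) (nat_lit 0) (nat_lit 7) (nat_lit 8) (nat_lit 4) (nat_lit 5) (nat_lit 11) (by decide +kernel)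
theorem L33366 : W_12 (nat_lit 3) (nat_lit 0x4000280004001e00080000000000000000000000000000000) (nat_lit 0x0) (nat_lit 0x100000000000010004c000000000000000000000000000000) := T_12 (nat_lit 140) (nat_lit 126) (nat_lit 2) (nat_lit 4) (nat_lit 8) L33365 (by decide +kernel)
theorem L33367 : W_12 (nat_lit 4) (nat_lit 0x4000280004001a00080000000000000000000000000000000) (nat_lit 0x0) (nat_lit 0x100000000000050014c000000000000000000000000000000) := T_12 (nat_lit 142) (nat_lit 128) (nat_lit 2) (nat_lit 5) (nat_lit 8) L33366 (by decide +kernel)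
theorem L33368 : W_12 (nat_lit 5) (nat_lit 0x280004001a00080000000000000000000000000000000) (nat_lit 0x0) (nat_lit 0x500000001000050014c000000000000000000000000000000) := T_12 (nat_lit 194) (nat_lit 160) (nat_lit 6) (nat_lit 7) (nat_lit 11) L33367 (by decide +kernel)
theorem L33369 : W_12 (nat_lit 6) (nat_lit 0x280004001200080000000000000000000000000000000) (nat_lit 0x0) (nat_lit 0x500004003a000d0014c000000000000000000000000000000) := Q_12 (nat_lit 143) (C_12 L33361 (C_12 L33364 (C_12 L33368 N_12))) (by decide +kernel)
theorem L33377 : W_12 (nat_lit 4) (nat_lit 0x280004001200090000000000000000000000000000000) (nat_lit 0x0) (nat_lit 0x2000100008000000008000c00020000000000000000000000) := T_12 (nat_lit 176) (nat_lit 193) (nat_lit 7) (nat_lit 5) (nat_lit 7) L33376 (by decide +kernel)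
theorem L33378 : W_12 (nat_lit 8) (nat_lit 0x280004001200080000000000000000000000000000000) (nat_lit 0x0) (nat_lit 0xe80016003b800c00018000c00020000000000000000000000) := Q_12 (nat_lit 124) (C_12 L32042 (C_12 L33316 (C_12 L33246 (C_12 L33374 (C_12 L33377 N_12))))) (by decide +kernel)
theorem L33385 : W_12 (nat_lit 8) (nat_lit 0x3000280004001300080000000000000000000000000000000) (nat_lit 0x0) (nat_lit 0x9c004c00170038000800000000000000000000000000000000000) := T_12 (nat_lit 191) (nat_lit 208) (nat_lit 5) (nat_lit 5) (nat_lit 8) L33384 (by decide +kernel)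
theorem L33386 : W_12 (nat_lit 9) (nat_lit 0x1000280004001300080000000000000000000000000000000) (nat_lit 0x0) (nat_lit 0xdc006c00170038000800000000000000000000000000000000000) := T_12 (nat_lit 193) (nat_lit 210) (nat_lit 7) (nat_lit 5) (nat_lit 8) L33385 (by decide +kernel)
theorem L33387 : W_12 (nat_lit 10) (nat_lit 0x1000280004001200080000000000000000000000000000000) (nat_lit 0x0) (nat_lit 0xdc006c00170038000900008000000000000000000000000000000) := T_12 (nat_lit 140) (nat_lit 123) (nat_lit 4) (nat_lit 5) (nat_lit 11) L33386 (by decide +kernel)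
theorem L33388 : W_12 (nat_lit 11) (nat_lit 0x280004001200080000000000000000000000000000000) (nat_lit 0x0) (nat_lit 0xdc007c00170038000900018000400000000000000000000000000) := Q_12 (nat_lit 192) (C_12 L33301 (C_12 L33387 (C_12 L33230 (C_12 L33233 N_12)))) (by decide +kernel)
theorem L33392 : W_12 (nat_lit 5) (nat_lit 0x28001c001a00080000000000000000000000000000000) (nat_lit 0x0) (nat_lit 0x39001e0000100000000000000000000000000000000000) := T_12 (nat_lit 161) (nat_lit 140) (nat_lit 0) (nat_lit 8) (nat_lit 9) L33391 (by decide +kernel)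
theorem L33393 : W_12 (nat_lit 6) (nat_lit 0x280014001a00080000000000000000000000000000000) (nat_lit 0x0) (nat_lit 0x39001ea000100000000000000000000000000000000000) := T_12 (nat_lit 159) (nat_lit 157) (nat_lit 2) (nat_lit 4) (nat_lit 9) L33392 (by decide +kernel)
theorem L33394 : W_12 (nat_lit 7) (nat_lit 0x280004001a00080000000000000000000000000000000) (nat_lit 0x0) (nat_lit 0x40039001fa000100000000000000000000000000000000000) := T_12 (nat_lit 160) (nat_lit 194) (nat_lit 6) (nat_lit 7) (nat_lit 11) L33393 (by decide +kernel)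
theorem L33395 : W_12 (nat_lit 8) (nat_lit 0x280004001200080000000000000000000000000000000) (nat_lit 0x0) (nat_lit 0x50039001fa000d0014c000000000000000000000000000000) := Q_12 (nat_lit 143) (C_12 L33361 (C_12 L33368 (C_12 L33394 N_12))) (by decide +kernel)
theorem L33396 : W_12 (nat_lit 2) (nat_lit 0x280014001e00080000000000000000000000000000000) (nat_lit 0x0) (nat_lit 0x20000100040000000000000000000000000000000) := D_12 (nat_lit 140) (nat_lit 126) (nat_lit 161) (nat_lit 2) (nat_lit 4) (nat_lit 8) (nat_lit 3) (nat_lit 4) (nat_lit 8) (by decide +kernel)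
theorem L33397 : W_12 (nat_lit 3) (nat_lit 0x280014001a00080000000000000000000000000000000) (nat_lit 0x0) (nat_lit 0x20000500140000000000000000000000000000000) := T_12 (nat_lit 142) (nat_lit 128) (nat_lit 2) (nat_lit 5) (nat_lit 8) L33396 (by decide +kernel)
theorem L33398 : W_12 (nat_lit 4) (nat_lit 0x280004001a00080000000000000000000000000000000) (nat_lit 0x0) (nat_lit 0x4000000030000500140000000000000000000000000000000) := T_12 (nat_lit 160) (nat_lit 194) (nat_lit 6) (nat_lit 7) (nat_lit 11) L33397 (by decide +kernel)
theorem L33399 : W_12 (nat_lit 8) (nat_lit 0x280004001200080000000000000000000000000000000) (nat_lit 0x0) (nat_lit 0x40039001fa000d00140000000000000000000000000000000) := Q_12 (nat_lit 143) (C_12 L33361 (C_12 L33394 (C_12 L33398 N_12))) (by decide +kernel)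
theorem L33400 : W_12 (nat_lit 12) (nat_lit 0x280000001200080000000000000000000000000000000) (nat_lit 0x0) (nat_lit 0xdc00fc039701ff800d0015c000c00020000000000000000000000) := Q_12 (nat_lit 158) (C_12 L33360 (C_12 L33369 (C_12 L33378 (C_12 L33388 (C_12 L33395 (C_12 L33399 N_12)))))) (by decide +kernel)
theorem L33404 : W_12 (nat_lit 9) (nat_lit 0x280004001200080000000000000000000000000000000) (nat_lit 0x0) (nat_lit 0x280014000b000d00178001c000e0002000000000000000000) := Q_12 (nat_lit 124) (C_12 L33377 (C_12 L33246 (C_12 L33310 (C_12 L33403 (C_12 L33218 N_12))))) (by decide +kernel)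
theorem L33405 : W_12 (nat_lit 12) (nat_lit 0x280000001200080000000000000000000000000000000) (nat_lit 0x0) (nat_lit 0x200070007c00fc0017000f000d0017e001c000e0002000000000000000000) := Q_12 (nat_lit 158) (C_12 L33360 (C_12 L33275 (C_12 L33286 (C_12 L33303 (C_12 L33302 (C_12 L33404 (C_12 L33358 (C_12 L33330 (C_12 L33337 N_12))))))))) (by decide +kernel)
theorem L33406 : W_12 (nat_lit 2) (nat_lit 0x280004001600080000000000000000000000000000000) (nat_lit 0x0) (nat_lit 0x2000800100000000000000000000000000000000) := D_12 (nat_lit 143) (nat_lit 157) (nat_lit 128) (nat_lit 1) (nat_lit 8) (nat_lit 8) (nat_lit 2) (nat_lit 5) (nat_lit 8) (by decide +kernel)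
theorem L33407 : W_12 (nat_lit 10) (nat_lit 0x280004001600080000000000000000000000000000000) (nat_lit 0x0) (nat_lit 0x60007c00f00014000a000100030000800000000000000000000000000) := T_12 (nat_lit 192) (nat_lit 125) (nat_lit 6) (nat_lit 5) (nat_lit 11) L33345 (by decide +kernel)
theorem L33408 : W_12 (nat_lit 2) (nat_lit 0x3400b000280004001f00090000000000000000000000000000000) (nat_lit 0x0) (nat_lit 0x70000000000000000000000000000000000000000) := D_12 (nat_lit 161) (nat_lit 160) (nat_lit 162) (nat_lit 3) (nat_lit 4) (nat_lit 8) (nat_lit 3) (nat_lit 5) (nat_lit 8) (by decide +kernel)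
theorem L33409 : W_12 (nat_lit 3) (nat_lit 0x3400b000280004001700090000000000000000000000000000000) (nat_lit 0x0) (nat_lit 0x70000800100000000000000000000000000000000) := T_12 (nat_lit 143) (nat_lit 128) (nat_lit 2) (nat_lit 5) (nat_lit 8) L33408 (by decide +kernel)
theorem L33410 : W_12 (nat_lit 4) (nat_lit 0x34003000280004001700090000000000000000000000000000000) (nat_lit 0x0) (nat_lit 0xc000000070000800100000000000000000000000000000000) := T_12 (nat_lit 195) (nat_lit 194) (nat_lit 1) (nat_lit 8) (nat_lit 11) L33409 (by decide +kernel)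
theorem L33411 : W_12 (nat_lit 5) (nat_lit 0x30003000280004001700090000000000000000000000000000000) (nat_lit 0x0) (nat_lit 0xc00c000000070000800100000000000000000000000000000000) := T_12 (nat_lit 206) (nat_lit 207) (nat_lit 2) (nat_lit 2) (nat_lit 12) L33410 (by decide +kernel)
theorem L33412 : W_12 (nat_lit 6) (nat_lit 0x20003000280004001700090000000000000000000000000000000) (nat_lit 0x0) (nat_lit 0x20001c00c000000070000800100000000000000000000000000000000) := T_12 (nat_lit 208) (nat_lit 225) (nat_lit 5) (nat_lit 5) (nat_lit 9) L33411 (by decide +kernel)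
theorem L33413 : W_12 (nat_lit 7) (nat_lit 0x3000280004001700090000000000000000000000000000000) (nat_lit 0x0) (nat_lit 0x20003c00c000000078000800100000000000000000000000000000000) := T_12 (nat_lit 209) (nat_lit 159) (nat_lit 6) (nat_lit 5) (nat_lit 12) L33412 (by decide +kernel)
theorem L33414 : W_12 (nat_lit 8) (nat_lit 0x3000280004001700080000000000000000000000000000000) (nat_lit 0x0) (nat_lit 0x20003c00c000100078000800110000000000000000000000000000000) := T_12 (nat_lit 124) (nat_lit 176) (nat_lit 7) (nat_lit 5) (nat_lit 7) L33413 (by decide +kernel)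
theorem L33415 : W_12 (nat_lit 9) (nat_lit 0x1000280004001700080000000000000000000000000000000) (nat_lit 0x0) (nat_lit 0x20007c00e000100078000800110000000000000000000000000000000) := T_12 (nat_lit 193) (nat_lit 210) (nat_lit 7) (nat_lit 5) (nat_lit 8) L33414 (by decide +kernel)
theorem L33416 : W_12 (nat_lit 10) (nat_lit 0x1000280004001600080000000000000000000000000000000) (nat_lit 0x0) (nat_lit 0x20007c00e000100078000900118000000000000000000000000000000) := T_12 (nat_lit 140) (nat_lit 123) (nat_lit 4) (nat_lit 5) (nat_lit 11) L33415 (by decide +kernel)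
theorem L33417 : W_12 (nat_lit 11) (nat_lit 0x280004001600080000000000000000000000000000000) (nat_lit 0x0) (nat_lit 0x20007c00f000100078000900138000000000000000000000000000000) := T_12 (nat_lit 192) (nat_lit 125) (nat_lit 6) (nat_lit 5) (nat_lit 11) L33416 (by decide +kernel)
theorem L33418 : W_12 (nat_lit 12) (nat_lit 0x280004001200080000000000000000000000000000000) (nat_lit 0x0) (nat_lit 0x60007c00f00014007a000d00138000800000000000000000000000000) := Q_12 (nat_lit 142) (C_12 L33406 (C_12 L33407 (C_12 L33417 N_12))) (by decide +kernel)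
theorem L33419 : W_12 (nat_lit 6) (nat_lit 0x280004001600080000000000000000000000000000000) (nat_lit 0x0) (nat_lit 0x30001800140008000000030000800040000000000000000000000) := T_12 (nat_lit 192) (nat_lit 125) (nat_lit 6) (nat_lit 5) (nat_lit 11) L33350 (by decide +kernel)
theorem L33420 : W_12 (nat_lit 7) (nat_lit 0x280004001200080000000000000000000000000000000) (nat_lit 0x0) (nat_lit 0x3000180014000a000c00130000800040000000000000000000000) := Q_12 (nat_lit 142) (C_12 L33406 (C_12 L33419 N_12)) (by decide +kernel)
theorem L33421 : W_12 (nat_lit 13) (nat_lit 0x280000001200080000000000000000000000000000000) (nat_lit 0x0) (nat_lit 0x20007000fc00fc0017007f800d00138000c00060000000000000000000000) := Q_12 (nat_lit 158) (C_12 L33388 (C_12 L33360 (C_12 L33275 (C_12 L33378 (C_12 L33302 (C_12 L33303 (C_12 L33418 (C_12 L33420 N_12)))))))) (by decide +kernel)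
theorem L33422 : W_12 (nat_lit 2) (nat_lit 0x3000280004001600080000000000000000000000000000000) (nat_lit 0x0) (nat_lit 0x2000800100000000000000000000000000000000) := D_12 (nat_lit 143) (nat_lit 128) (nat_lit 157) (nat_lit 2) (nat_lit 5) (nat_lit 8) (nat_lit 1) (nat_lit 8) (nat_lit 8) (by decide +kernel)
theorem L33423 : W_12 (nat_lit 3) (nat_lit 0x3000280004001200080000000000000000000000000000000) (nat_lit 0x0) (nat_lit 0x2000c00120000000000000000000000000000000) := T_12 (nat_lit 142) (nat_lit 125) (nat_lit 6) (nat_lit 5) (nat_lit 11) L33422 (by decide +kernel)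
theorem L33424 : W_12 (nat_lit 4) (nat_lit 0x1000280004001200080000000000000000000000000000000) (nat_lit 0x0) (nat_lit 0x40002000000002000c00120000000000000000000000000000000) := T_12 (nat_lit 193) (nat_lit 210) (nat_lit 7) (nat_lit 5) (nat_lit 8) L33423 (by decide +kernel)
theorem L33425 : W_12 (nat_lit 2) (nat_lit 0x8003c002a0004001700080000000000000000000000000000000) (nat_lit 0x0) (nat_lit 0x800140000000000000000000000000000000) := D_12 (nat_lit 143) (nat_lit 128) (nat_lit 126) (nat_lit 2) (nat_lit 5) (nat_lit 8) (nat_lit 2) (nat_lit 4) (nat_lit 8) (by decide +kernel)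
theorem L33426 : W_12 (nat_lit 3) (nat_lit 0x8003c002a0004001300080000000000000000000000000000000) (nat_lit 0x0) (nat_lit 0xc00160000000000000000000000000000000) := T_12 (nat_lit 142) (nat_lit 125) (nat_lit 6) (nat_lit 5) (nat_lit 11) L33425 (by decide +kernel)
theorem L33427 : W_12 (nat_lit 4) (nat_lit 0x8003c00280004001300080000000000000000000000000000000) (nat_lit 0x0) (nat_lit 0x30000000c00160000000000000000000000000000000) := T_12 (nat_lit 173) (nat_lit 172) (nat_lit 0) (nat_lit 6) (nat_lit 11) L33426 (by decide +kernel)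
theorem L33428 : W_12 (nat_lit 5) (nat_lit 0x3c00280004001300080000000000000000000000000000000) (nat_lit 0x0) (nat_lit 0xc000000030000000c00160000000000000000000000000000000) := T_12 (nat_lit 207) (nat_lit 206) (nat_lit 1) (nat_lit 6) (nat_lit 11) L33427 (by decide +kernel)
theorem L33429 : W_12 (nat_lit 6) (nat_lit 0x3800280004001300080000000000000000000000000000000) (nat_lit 0x0) (nat_lit 0xc000400130000000c00160000000000000000000000000000000) := T_12 (nat_lit 190) (nat_lit 176) (nat_lit 2) (nat_lit 3) (nat_lit 11) L33428 (by decide +kernel)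
theorem L33430 : W_12 (nat_lit 7) (nat_lit 0x1800280004001300080000000000000000000000000000000) (nat_lit 0x0) (nat_lit 0x4c002400130000000c00160000000000000000000000000000000) := T_12 (nat_lit 193) (nat_lit 210) (nat_lit 7) (nat_lit 5) (nat_lit 8) L33429 (by decide +kernel)
theorem L33431 : W_12 (nat_lit 8) (nat_lit 0x1800280004001200080000000000000000000000000000000) (nat_lit 0x0) (nat_lit 0x4c002400130000000d00168000000000000000000000000000000) := T_12 (nat_lit 140) (nat_lit 123) (nat_lit 4) (nat_lit 5) (nat_lit 11) L33430 (by decide +kernel)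
theorem L33432 : W_12 (nat_lit 9) (nat_lit 0x1000280004001200080000000000000000000000000000000) (nat_lit 0x0) (nat_lit 0x5c002c00130000000d00168000000000000000000000000000000) := T_12 (nat_lit 191) (nat_lit 208) (nat_lit 5) (nat_lit 5) (nat_lit 8) L33431 (by decide +kernel)
theorem L33433 : W_12 (nat_lit 2) (nat_lit 0x1000280004001600080000000000000000000000000000000) (nat_lit 0x0) (nat_lit 0x2000800100000000000000000000000000000000) := D_12 (nat_lit 143) (nat_lit 128) (nat_lit 157) (nat_lit 2) (nat_lit 5) (nat_lit 8) (nat_lit 1) (nat_lit 8) (nat_lit 8) (by decide +kernel)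
theorem L33434 : W_12 (nat_lit 3) (nat_lit 0x1000280004001200080000000000000000000000000000000) (nat_lit 0x0) (nat_lit 0x2000c00120000000000000000000000000000000) := T_12 (nat_lit 142) (nat_lit 125) (nat_lit 6) (nat_lit 5) (nat_lit 11) L33433 (by decide +kernel)
theorem L33435 : W_12 (nat_lit 10) (nat_lit 0x280004001200080000000000000000000000000000000) (nat_lit 0x0) (nat_lit 0x5c003c00170003000d00168000000000000000000000000000000) := Q_12 (nat_lit 192) (C_12 L33274 (C_12 L33424 (C_12 L33432 (C_12 L33434 N_12)))) (by decide +kernel)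
theorem L33436 : W_12 (nat_lit 6) (nat_lit 0x280004001200080000000000000000000000000000000) (nat_lit 0x0) (nat_lit 0x10003800140003000c00078001c00000000000000000000000000) := Q_12 (nat_lit 124) (C_12 L33403 (C_12 L33285 (C_12 L33246 N_12))) (by decide +kernel)
theorem L33441 : W_12 (nat_lit 6) (nat_lit 0x280004001200080000000000000000000000000000000) (nat_lit 0x0) (nat_lit 0x10003800140000000d00078001400000000000000000000000000) := Q_12 (nat_lit 124) (C_12 L33403 (C_12 L33285 (C_12 L33440 (C_12 L33213 N_12)))) (by decide +kernel)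
theorem L33442 : W_12 (nat_lit 5) (nat_lit 0x280004001200080000000000000000000000000000000) (nat_lit 0x0) (nat_lit 0x10001800040002000d00138000400000000000000000000000000) := Q_12 (nat_lit 192) (C_12 L33434 (C_12 L33301 N_12)) (by decide +kernel)
theorem L33443 : W_12 (nat_lit 5) (nat_lit 0x280004001200080000000000000000000000000000000) (nat_lit 0x0) (nat_lit 0x40003000100002000d00138000400000000000000000000000000) := Q_12 (nat_lit 192) (C_12 L33434 (C_12 L33233 N_12)) (by decide +kernel)
theorem L33444 : W_12 (nat_lit 2) (nat_lit 0x3800040012000f0000800000000000000000000000000) (nat_lit 0x0) (nat_lit 0x800040002000000000000000000000000000000000000000) := D_12 (nat_lit 174) (nat_lit 191) (nat_lit 157) (nat_lit 5) (nat_lit 5) (nat_lit 7) (nat_lit 5) (nat_lit 5) (nat_lit 6) (by decide +kernel)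
theorem L33445 : W_12 (nat_lit 3) (nat_lit 0x3800040012000f0000000000000000000000000000000) (nat_lit 0x0) (nat_lit 0x800040002000000000000c00000000000000000000000000) := T_12 (nat_lit 107) (nat_lit 106) (nat_lit 0) (nat_lit 8) (nat_lit 7) L33444 (by decide +kernel)
theorem L33446 : W_12 (nat_lit 4) (nat_lit 0x3800040012000b0000000000000000000000000000000) (nat_lit 0x0) (nat_lit 0x800040002000100040000c00000000000000000000000000) := T_12 (nat_lit 126) (nat_lit 140) (nat_lit 1) (nat_lit 8) (nat_lit 7) L33445 (by decide +kernel)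
theorem L33447 : W_12 (nat_lit 5) (nat_lit 0x380004001200090000000000000000000000000000000) (nat_lit 0x0) (nat_lit 0x800040002000100060001c00000000000000000000000000) := T_12 (nat_lit 125) (nat_lit 108) (nat_lit 6) (nat_lit 5) (nat_lit 10) L33446 (by decide +kernel)
theorem L33448 : W_12 (nat_lit 6) (nat_lit 0x280004001200090000000000000000000000000000000) (nat_lit 0x0) (nat_lit 0x2800140002000100060001c00000000000000000000000000) := T_12 (nat_lit 176) (nat_lit 193) (nat_lit 7) (nat_lit 5) (nat_lit 7) L33447 (by decide +kernel)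
theorem L33452 : W_12 (nat_lit 7) (nat_lit 0x280004001200080000000000000000000000000000000) (nat_lit 0x0) (nat_lit 0x2800140003000d00078001c00080000000000000000000000) := Q_12 (nat_lit 124) (C_12 L33403 (C_12 L33246 (C_12 L33448 (C_12 L33451 N_12)))) (by decide +kernel)
theorem L33453 : W_12 (nat_lit 2) (nat_lit 0x1800280004001600090000000000000000000000000000000) (nat_lit 0x0) (nat_lit 0x40002000100000000000000000000000000000000000000000000) := D_12 (nat_lit 193) (nat_lit 210) (nat_lit 176) (nat_lit 7) (nat_lit 5) (nat_lit 8) (nat_lit 7) (nat_lit 5) (nat_lit 7) (by decide +kernel)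
theorem L33454 : W_12 (nat_lit 3) (nat_lit 0x1800280004001600080000000000000000000000000000000) (nat_lit 0x0) (nat_lit 0x40002000140000000000010000000000000000000000000000000) := T_12 (nat_lit 124) (nat_lit 174) (nat_lit 5) (nat_lit 5) (nat_lit 7) L33453 (by decide +kernel)
theorem L33455 : W_12 (nat_lit 4) (nat_lit 0x1000280004001600080000000000000000000000000000000) (nat_lit 0x0) (nat_lit 0x50002800140000000000010000000000000000000000000000000) := T_12 (nat_lit 191) (nat_lit 208) (nat_lit 5) (nat_lit 5) (nat_lit 8) L33454 (by decide +kernel)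
theorem L33456 : W_12 (nat_lit 5) (nat_lit 0x280004001600080000000000000000000000000000000) (nat_lit 0x0) (nat_lit 0x50003800140000000000030000000000000000000000000000000) := T_12 (nat_lit 192) (nat_lit 125) (nat_lit 6) (nat_lit 5) (nat_lit 11) L33455 (by decide +kernel)
theorem L33457 : W_12 (nat_lit 6) (nat_lit 0x280004001200080000000000000000000000000000000) (nat_lit 0x0) (nat_lit 0x50003800140002000c00130000000000000000000000000000000) := Q_12 (nat_lit 142) (C_12 L33406 (C_12 L33456 N_12)) (by decide +kernel)
theorem L33458 : W_12 (nat_lit 11) (nat_lit 0x280000001200080000000000000000000000000000000) (nat_lit 0x0) (nat_lit 0x5c003c00170007000d00178001c00080000000000000000000000) := Q_12 (nat_lit 158) (C_12 L33360 (C_12 L33435 (C_12 L33436 (C_12 L33441 (C_12 L33442 (C_12 L33443 (C_12 L33452 (C_12 L33457 N_12)))))))) (by decide +kernel)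
theorem L33459 : W_12 (nat_lit 2) (nat_lit 0x40003e0002001200080000000000000000000000000000000) (nat_lit 0x0) (nat_lit 0xe00000000000000000000000000000000000000000000000) := D_12 (nat_lit 190) (nat_lit 189) (nat_lit 191) (nat_lit 1) (nat_lit 6) (nat_lit 10) (nat_lit 1) (nat_lit 7) (nat_lit 10) (by decide +kernel)
theorem L33460 : W_12 (nat_lit 3) (nat_lit 0x40003c0002001200080000000000000000000000000000000) (nat_lit 0x0) (nat_lit 0x2e00020000000000000000000000000000000000000000000) := T_12 (nat_lit 173) (nat_lit 193) (nat_lit 3) (nat_lit 3) (nat_lit 10) L33459 (by decide +kernel)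
theorem L33461 : W_12 (nat_lit 4) (nat_lit 0x3c0002001200080000000000000000000000000000000) (nat_lit 0x0) (nat_lit 0xee00020000000000000000000000000000000000000000000) := T_12 (nat_lit 194) (nat_lit 195) (nat_lit 3) (nat_lit 4) (nat_lit 10) L33460 (by decide +kernel)
theorem L33462 : W_12 (nat_lit 5) (nat_lit 0x3c0000001200080000000000000000000000000000000) (nat_lit 0x0) (nat_lit 0xee00020003000000000000000000000000000000000000000) := T_12 (nat_lit 157) (nat_lit 156) (nat_lit 0) (nat_lit 7) (nat_lit 10) L33461 (by decide +kernel)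
theorem L33463 : W_12 (nat_lit 2) (nat_lit 0x8003e0012001300080000000000000000000000000000000) (nat_lit 0x0) (nat_lit 0x20001000000000000000008000000000000000000000000000000) := D_12 (nat_lit 192) (nat_lit 123) (nat_lit 209) (nat_lit 7) (nat_lit 4) (nat_lit 7) (nat_lit 7) (nat_lit 4) (nat_lit 8) (by decide +kernel)
theorem L33464 : W_12 (nat_lit 3) (nat_lit 0x8003e0012001200080000000000000000000000000000000) (nat_lit 0x0) (nat_lit 0x20001000000000000100018000000000000000000000000000000) := T_12 (nat_lit 140) (nat_lit 124) (nat_lit 6) (nat_lit 4) (nat_lit 11) L33463 (by decide +kernel)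
theorem L33465 : W_12 (nat_lit 4) (nat_lit 0x8003c0012001200080000000000000000000000000000000) (nat_lit 0x0) (nat_lit 0x20001000020008000100018000000000000000000000000000000) := T_12 (nat_lit 173) (nat_lit 159) (nat_lit 2) (nat_lit 3) (nat_lit 10) L33464 (by decide +kernel)
theorem L33466 : W_12 (nat_lit 5) (nat_lit 0x8003c0002001200080000000000000000000000000000000) (nat_lit 0x0) (nat_lit 0x20001000020038000100018000000000000000000000000000000) := T_12 (nat_lit 160) (nat_lit 161) (nat_lit 2) (nat_lit 4) (nat_lit 10) L33465 (by decide +kernel)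
theorem L33467 : W_12 (nat_lit 6) (nat_lit 0x8003c0000001200080000000000000000000000000000000) (nat_lit 0x0) (nat_lit 0x2000100002003b000100018000000000000000000000000000000) := T_12 (nat_lit 157) (nat_lit 156) (nat_lit 0) (nat_lit 7) (nat_lit 10) L33466 (by decide +kernel)
theorem L33468 : W_12 (nat_lit 7) (nat_lit 0x3c0000001200080000000000000000000000000000000) (nat_lit 0x0) (nat_lit 0x20001c0002003b000100018000000000000000000000000000000) := T_12 (nat_lit 191) (nat_lit 190) (nat_lit 1) (nat_lit 7) (nat_lit 10) L33467 (by decide +kernel)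
theorem L33477 : W_12 (nat_lit 8) (nat_lit 0x380000001200080000000000000000000000000000000) (nat_lit 0x0) (nat_lit 0x2000fe0006003b000100018000000000000000000000000000000) := Q_12 (nat_lit 174) (C_12 L33462 (C_12 L33468 (C_12 L33471 (C_12 L33476 N_12)))) (by decide +kernel)
theorem L33480 : W_12 (nat_lit 4) (nat_lit 0x3c0002001200080000000000000000000000000000000) (nat_lit 0x0) (nat_lit 0x20001c00000000000100018000000000000000000000000000000) := T_12 (nat_lit 191) (nat_lit 190) (nat_lit 1) (nat_lit 7) (nat_lit 10) L33479 (by decide +kernel)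
theorem L33481 : W_12 (nat_lit 5) (nat_lit 0x3c0000001200080000000000000000000000000000000) (nat_lit 0x0) (nat_lit 0x20001c00000003000100018000000000000000000000000000000) := T_12 (nat_lit 157) (nat_lit 156) (nat_lit 0) (nat_lit 7) (nat_lit 10) L33480 (by decide +kernel)
theorem L33482 : W_12 (nat_lit 2) (nat_lit 0x49003f0000801200080000000000000000000000000000000) (nat_lit 0x0) (nat_lit 0x1080008000000000000000000000000000000000000000000) := D_12 (nat_lit 171) (nat_lit 192) (nat_lit 187) (nat_lit 3) (nat_lit 1) (nat_lit 10) (nat_lit 1) (nat_lit 4) (nat_lit 10) (by decide +kernel)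
theorem L33483 : W_12 (nat_lit 3) (nat_lit 0x48003f0000801200080000000000000000000000000000000) (nat_lit 0x0) (nat_lit 0x1380008000000000000000000000000000000000000000000) := T_12 (nat_lit 188) (nat_lit 189) (nat_lit 1) (nat_lit 5) (nat_lit 10) L33482 (by decide +kernel)
theorem L33484 : W_12 (nat_lit 4) (nat_lit 0x48003e0000801200080000000000000000000000000000000) (nat_lit 0x0) (nat_lit 0x1380018000400000000000000000000000000000000000000) := T_12 (nat_lit 172) (nat_lit 154) (nat_lit 0) (nat_lit 5) (nat_lit 10) L33483 (by decide +kernel)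
theorem L33485 : W_12 (nat_lit 5) (nat_lit 0x48003e0000001200080000000000000000000000000000000) (nat_lit 0x0) (nat_lit 0x1380018001c00000000000000000000000000000000000000) := T_12 (nat_lit 155) (nat_lit 156) (nat_lit 0) (nat_lit 6) (nat_lit 10) L33484 (by decide +kernel)
theorem L33486 : W_12 (nat_lit 6) (nat_lit 0x48003c0000001200080000000000000000000000000000000) (nat_lit 0x0) (nat_lit 0x3380038001c00000000000000000000000000000000000000) := T_12 (nat_lit 173) (nat_lit 193) (nat_lit 3) (nat_lit 3) (nat_lit 10) L33485 (by decide +kernel)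
theorem L33487 : W_12 (nat_lit 7) (nat_lit 0x8003c0000001200080000000000000000000000000000000) (nat_lit 0x0) (nat_lit 0xf380038001c00000000000000000000000000000000000000) := T_12 (nat_lit 194) (nat_lit 195) (nat_lit 3) (nat_lit 4) (nat_lit 10) L33486 (by decide +kernel)
theorem L33488 : W_12 (nat_lit 8) (nat_lit 0x3c0000001200080000000000000000000000000000000) (nat_lit 0x0) (nat_lit 0xff80038001c00000000000000000000000000000000000000) := T_12 (nat_lit 191) (nat_lit 190) (nat_lit 1) (nat_lit 7) (nat_lit 10) L33487 (by decide +kernel)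
theorem L33492 : W_12 (nat_lit 2) (nat_lit 0x44003c0000001200080000000000000000000000000000000) (nat_lit 0x0) (nat_lit 0x2200020000000000000000000000000000000000000000000) := D_12 (nat_lit 173) (nat_lit 193) (nat_lit 189) (nat_lit 3) (nat_lit 3) (nat_lit 10) (nat_lit 1) (nat_lit 6) (nat_lit 10) (by decide +kernel)
theorem L33493 : W_12 (nat_lit 3) (nat_lit 0x4003c0000001200080000000000000000000000000000000) (nat_lit 0x0) (nat_lit 0xe200020000000000000000000000000000000000000000000) := T_12 (nat_lit 194) (nat_lit 195) (nat_lit 3) (nat_lit 4) (nat_lit 10) L33492 (by decide +kernel)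
theorem L33494 : W_12 (nat_lit 4) (nat_lit 0x3c0000001200080000000000000000000000000000000) (nat_lit 0x0) (nat_lit 0xee00020000000000000000000000000000000000000000000) := T_12 (nat_lit 190) (nat_lit 191) (nat_lit 1) (nat_lit 7) (nat_lit 10) L33493 (by decide +kernel)
theorem L33495 : W_12 (nat_lit 9) (nat_lit 0x380000001200080000000000000000000000000000000) (nat_lit 0x0) (nat_lit 0x2000ff80078003c00100018000000000000000000000000000000) := Q_12 (nat_lit 174) (C_12 L33476 (C_12 L33462 (C_12 L33481 (C_12 L33488 (C_12 L33491 (C_12 L33494 N_12)))))) (by decide +kernel)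
theorem L33496 : W_12 (nat_lit 4) (nat_lit 0x4000380000001200080000000000000000000000000000000) (nat_lit 0x0) (nat_lit 0xa000060003800000000000000000000000000000000000000) := T_12 (nat_lit 174) (nat_lit 195) (nat_lit 3) (nat_lit 4) (nat_lit 10) L33490 (by decide +kernel)
theorem L33497 : W_12 (nat_lit 4) (nat_lit 0x4000380000001200080000000000000000000000000000000) (nat_lit 0x0) (nat_lit 0xa000060038000000000000000000000000000000000000000) := T_12 (nat_lit 174) (nat_lit 195) (nat_lit 3) (nat_lit 4) (nat_lit 10) L33470 (by decide +kernel)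
theorem L33498 : W_12 (nat_lit 2) (nat_lit 0x80004000380010001200080000000000000000000000000000000) (nat_lit 0x0) (nat_lit 0x1000000000000000008000400000000000000000000000000000000000) := D_12 (nat_lit 159) (nat_lit 142) (nat_lit 228) (nat_lit 4) (nat_lit 7) (nat_lit 12) (nat_lit 4) (nat_lit 7) (nat_lit 13) (by decide +kernel)
theorem L33499 : W_12 (nat_lit 3) (nat_lit 0x4000380010001200080000000000000000000000000000000) (nat_lit 0x0) (nat_lit 0x1000080000000000028000400000000000000000000000000000000000) := T_12 (nat_lit 211) (nat_lit 161) (nat_lit 6) (nat_lit 7) (nat_lit 12) L33498 (by decide +kernel)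
theorem L33500 : W_12 (nat_lit 4) (nat_lit 0x4000380000001200080000000000000000000000000000000) (nat_lit 0x0) (nat_lit 0x1000080000000000038000c00000000000000000000000000000000000) := T_12 (nat_lit 160) (nat_lit 143) (nat_lit 6) (nat_lit 7) (nat_lit 11) L33499 (by decide +kernel)
theorem L33501 : W_12 (nat_lit 5) (nat_lit 0x380000001200080000000000000000000000000000000) (nat_lit 0x0) (nat_lit 0x100008000e00006003b800c00000000000000000000000000000000000) := Q_12 (nat_lit 194) (C_12 L33496 (C_12 L33497 (C_12 L33500 N_12))) (by decide +kernel)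
theorem L33506 : W_12 (nat_lit 2) (nat_lit 0x8003f0010801200080000000000000000000000000000000) (nat_lit 0x0) (nat_lit 0x3000008000000000000000000000000000000000000000000) := D_12 (nat_lit 192) (nat_lit 171) (nat_lit 193) (nat_lit 3) (nat_lit 1) (nat_lit 10) (nat_lit 3) (nat_lit 2) (nat_lit 10) (by decide +kernel)
theorem L33507 : W_12 (nat_lit 3) (nat_lit 0x8003e0010801200080000000000000000000000000000000) (nat_lit 0x0) (nat_lit 0x3000018000400000000000000000000000000000000000000) := T_12 (nat_lit 172) (nat_lit 154) (nat_lit 0) (nat_lit 5) (nat_lit 10) L33506 (by decide +kernel)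
theorem L33508 : W_12 (nat_lit 4) (nat_lit 0x8003e0010001200080000000000000000000000000000000) (nat_lit 0x0) (nat_lit 0x3000018001c00000000000000000000000000000000000000) := T_12 (nat_lit 155) (nat_lit 156) (nat_lit 0) (nat_lit 6) (nat_lit 10) L33507 (by decide +kernel)
theorem L33509 : W_12 (nat_lit 5) (nat_lit 0x8003c0010001200080000000000000000000000000000000) (nat_lit 0x0) (nat_lit 0x3000038009c00000000000000000000000000000000000000) := T_12 (nat_lit 173) (nat_lit 159) (nat_lit 2) (nat_lit 3) (nat_lit 10) L33508 (by decide +kernel)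
theorem L33510 : W_12 (nat_lit 6) (nat_lit 0x8003c0000001200080000000000000000000000000000000) (nat_lit 0x0) (nat_lit 0x3000038039c00000000000000000000000000000000000000) := T_12 (nat_lit 160) (nat_lit 161) (nat_lit 2) (nat_lit 4) (nat_lit 10) L33509 (by decide +kernel)
theorem L33511 : W_12 (nat_lit 7) (nat_lit 0x3c0000001200080000000000000000000000000000000) (nat_lit 0x0) (nat_lit 0x3c00038039c00000000000000000000000000000000000000) := T_12 (nat_lit 191) (nat_lit 190) (nat_lit 1) (nat_lit 7) (nat_lit 10) L33510 (by decide +kernel)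
theorem L33515 : W_12 (nat_lit 2) (nat_lit 0x4003c0010001200080000000000000000000000000000000) (nat_lit 0x0) (nat_lit 0x200020008000000000000000000000000000000000000000) := D_12 (nat_lit 173) (nat_lit 159) (nat_lit 189) (nat_lit 2) (nat_lit 3) (nat_lit 10) (nat_lit 1) (nat_lit 6) (nat_lit 10) (by decide +kernel)
theorem L33516 : W_12 (nat_lit 3) (nat_lit 0x4003c0000001200080000000000000000000000000000000) (nat_lit 0x0) (nat_lit 0x200020038000000000000000000000000000000000000000) := T_12 (nat_lit 160) (nat_lit 161) (nat_lit 2) (nat_lit 4) (nat_lit 10) L33515 (by decide +kernel)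
theorem L33517 : W_12 (nat_lit 4) (nat_lit 0x3c0000001200080000000000000000000000000000000) (nat_lit 0x0) (nat_lit 0xe00020038000000000000000000000000000000000000000) := T_12 (nat_lit 190) (nat_lit 191) (nat_lit 1) (nat_lit 7) (nat_lit 10) L33516 (by decide +kernel)
theorem L33518 : W_12 (nat_lit 8) (nat_lit 0x380000001200080000000000000000000000000000000) (nat_lit 0x0) (nat_lit 0x20003e0007803bc00100018000000000000000000000000000000) := Q_12 (nat_lit 174) (C_12 L33481 (C_12 L33505 (C_12 L33511 (C_12 L33514 (C_12 L33517 N_12))))) (by decide +kernel)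
theorem L33521 : W_12 (nat_lit 4) (nat_lit 0x4000380000001200080000000000000000000000000000000) (nat_lit 0x0) (nat_lit 0xae00060000000000000000000000000000000000000000000) := T_12 (nat_lit 174) (nat_lit 195) (nat_lit 3) (nat_lit 4) (nat_lit 10) L33520 (by decide +kernel)
theorem L33522 : W_12 (nat_lit 5) (nat_lit 0x380000001200080000000000000000000000000000000) (nat_lit 0x0) (nat_lit 0x100008000ee00060038000c00000000000000000000000000000000000) := Q_12 (nat_lit 194) (C_12 L33521 (C_12 L33500 N_12)) (by decide +kernel)
theorem L33523 : W_12 (nat_lit 4) (nat_lit 0x380000001a00080000000000000000000000000000000) (nat_lit 0x0) (nat_lit 0x50015c000000000000000000000000000000) := T_12 (nat_lit 142) (nat_lit 128) (nat_lit 2) (nat_lit 5) (nat_lit 8) L14622 (by decide +kernel)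
theorem L33524 : W_12 (nat_lit 2) (nat_lit 0x380020001e00090000000000000000000000000000000) (nat_lit 0x0) (nat_lit 0x4000000010000100000000000000000000000000000000000) := D_12 (nat_lit 160) (nat_lit 140) (nat_lit 194) (nat_lit 3) (nat_lit 4) (nat_lit 8) (nat_lit 6) (nat_lit 7) (nat_lit 11) (by decide +kernel)
theorem L33525 : W_12 (nat_lit 3) (nat_lit 0x380000001e00090000000000000000000000000000000) (nat_lit 0x0) (nat_lit 0x4000000070000100000000000000000000000000000000000) := T_12 (nat_lit 161) (nat_lit 162) (nat_lit 3) (nat_lit 5) (nat_lit 8) L33524 (by decide +kernel)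
theorem L33526 : W_12 (nat_lit 4) (nat_lit 0x380000001e00080000000000000000000000000000000) (nat_lit 0x0) (nat_lit 0x4000000070000100018000000000000000000000000000000) := T_12 (nat_lit 124) (nat_lit 123) (nat_lit 0) (nat_lit 8) (nat_lit 8) L33525 (by decide +kernel)
theorem L33527 : W_12 (nat_lit 5) (nat_lit 0x380000001a00080000000000000000000000000000000) (nat_lit 0x0) (nat_lit 0x4000000070000500118000000000000000000000000000000) := T_12 (nat_lit 142) (nat_lit 128) (nat_lit 2) (nat_lit 5) (nat_lit 8) L33526 (by decide +kernel)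
theorem L33528 : W_12 (nat_lit 2) (nat_lit 0x380000001f00080000000000000000000000000000000) (nat_lit 0x0) (nat_lit 0x4000000030000000000000000000000000000000000000000) := D_12 (nat_lit 160) (nat_lit 194) (nat_lit 161) (nat_lit 6) (nat_lit 7) (nat_lit 11) (nat_lit 3) (nat_lit 4) (nat_lit 8) (by decide +kernel)
theorem L33529 : W_12 (nat_lit 3) (nat_lit 0x380000001e00080000000000000000000000000000000) (nat_lit 0x0) (nat_lit 0x4000000030000100040000000000000000000000000000000) := T_12 (nat_lit 140) (nat_lit 126) (nat_lit 2) (nat_lit 4) (nat_lit 8) L33528 (by decide +kernel)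
theorem L33530 : W_12 (nat_lit 4) (nat_lit 0x380000001a00080000000000000000000000000000000) (nat_lit 0x0) (nat_lit 0x4000000030000500140000000000000000000000000000000) := T_12 (nat_lit 142) (nat_lit 128) (nat_lit 2) (nat_lit 5) (nat_lit 8) L33529 (by decide +kernel)
theorem L33531 : W_12 (nat_lit 2) (nat_lit 0x380010001a000e0000000000000000000000000000000) (nat_lit 0x0) (nat_lit 0x100018000000000000000000000000000000) := D_12 (nat_lit 124) (nat_lit 123) (nat_lit 140) (nat_lit 3) (nat_lit 4) (nat_lit 7) (nat_lit 1) (nat_lit 8) (nat_lit 7) (by decide +kernel)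
theorem L33532 : W_12 (nat_lit 3) (nat_lit 0x380010001a000c0000000000000000000000000000000) (nat_lit 0x0) (nat_lit 0x100038001000000000000000000000000000) := T_12 (nat_lit 125) (nat_lit 108) (nat_lit 4) (nat_lit 7) (nat_lit 10) L33531 (by decide +kernel)
theorem L33533 : W_12 (nat_lit 4) (nat_lit 0x380010001a00080000000000000000000000000000000) (nat_lit 0x0) (nat_lit 0x2000000000000100078001000000000000000000000000000) := T_12 (nat_lit 126) (nat_lit 193) (nat_lit 5) (nat_lit 7) (nat_lit 7) L33532 (by decide +kernel)
theorem L33534 : W_12 (nat_lit 5) (nat_lit 0x380000001a00080000000000000000000000000000000) (nat_lit 0x0) (nat_lit 0x6000000010000100078001000000000000000000000000000) := T_12 (nat_lit 160) (nat_lit 194) (nat_lit 6) (nat_lit 7) (nat_lit 11) L33533 (by decide +kernel)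
theorem L33535 : W_12 (nat_lit 2) (nat_lit 0x4000380000001e00090000000000000000000000000000000) (nat_lit 0x0) (nat_lit 0x2000000008000000020000000000000000000000000000000) := D_12 (nat_lit 159) (nat_lit 125) (nat_lit 193) (nat_lit 7) (nat_lit 6) (nat_lit 7) (nat_lit 4) (nat_lit 6) (nat_lit 11) (by decide +kernel)
theorem L33536 : W_12 (nat_lit 3) (nat_lit 0x4000380000001e00080000000000000000000000000000000) (nat_lit 0x0) (nat_lit 0x2000000008000000038000000000000000000000000000000) := T_12 (nat_lit 124) (nat_lit 123) (nat_lit 0) (nat_lit 8) (nat_lit 8) L33535 (by decide +kernel)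
theorem L33537 : W_12 (nat_lit 4) (nat_lit 0x4000380000001a00080000000000000000000000000000000) (nat_lit 0x0) (nat_lit 0x2000000008000400138000000000000000000000000000000) := T_12 (nat_lit 142) (nat_lit 128) (nat_lit 2) (nat_lit 5) (nat_lit 8) L33536 (by decide +kernel)
theorem L33538 : W_12 (nat_lit 5) (nat_lit 0x380000001a00080000000000000000000000000000000) (nat_lit 0x0) (nat_lit 0x6000000018000400138000000000000000000000000000000) := T_12 (nat_lit 194) (nat_lit 160) (nat_lit 6) (nat_lit 7) (nat_lit 11) L33537 (by decide +kernel)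
theorem L33539 : W_12 (nat_lit 6) (nat_lit 0x380000001200080000000000000000000000000000000) (nat_lit 0x0) (nat_lit 0x6000000078000d0017c001000000000000000000000000000) := Q_12 (nat_lit 143) (C_12 L33523 (C_12 L33527 (C_12 L33530 (C_12 L33534 (C_12 L33538 N_12))))) (by decide +kernel)
theorem L33540 : W_12 (nat_lit 6) (nat_lit 0x380000001200080000000000000000000000000000000) (nat_lit 0x0) (nat_lit 0x20001e0006003b800100018000000000000000000000000000000) := Q_12 (nat_lit 174) (C_12 L33481 (C_12 L33517 (C_12 L33514 N_12))) (by decide +kernel)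
theorem L33541 : W_12 (nat_lit 10) (nat_lit 0x280000001200080000000000000000000000000000000) (nat_lit 0x0) (nat_lit 0x10000a000ff8017807bc00d0017c001000000000000000000000000000) := Q_12 (nat_lit 176) (C_12 L33477 (C_12 L33495 (C_12 L33501 (C_12 L33518 (C_12 L33522 (C_12 L33539 (C_12 L33540 N_12))))))) (by decide +kernel)
theorem L33542 : W_12 (nat_lit 2) (nat_lit 0x8007c002a0014001200080000000000000000000000000000000) (nat_lit 0x0) (nat_lit 0x180000000000020000000000000000000000000000000000000000) := D_12 (nat_lit 211) (nat_lit 212) (nat_lit 161) (nat_lit 3) (nat_lit 4) (nat_lit 11) (nat_lit 6) (nat_lit 7) (nat_lit 12) (by decide +kernel)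
theorem L33543 : W_12 (nat_lit 3) (nat_lit 0x8007c002a0004001200080000000000000000000000000000000) (nat_lit 0x0) (nat_lit 0x180000000000030000800000000000000000000000000000000000) := T_12 (nat_lit 160) (nat_lit 143) (nat_lit 6) (nat_lit 7) (nat_lit 11) L33542 (by decide +kernel)
theorem L33544 : W_12 (nat_lit 4) (nat_lit 0x8003c002a0004001200080000000000000000000000000000000) (nat_lit 0x0) (nat_lit 0x180004000040030000800000000000000000000000000000000000) := T_12 (nat_lit 194) (nat_lit 174) (nat_lit 0) (nat_lit 7) (nat_lit 11) L33543 (by decide +kernel)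
theorem L33545 : W_12 (nat_lit 5) (nat_lit 0x8003c00280004001200080000000000000000000000000000000) (nat_lit 0x0) (nat_lit 0x180004000070030000800000000000000000000000000000000000) := T_12 (nat_lit 173) (nat_lit 172) (nat_lit 0) (nat_lit 6) (nat_lit 11) L33544 (by decide +kernel)
theorem L33546 : W_12 (nat_lit 6) (nat_lit 0x3c00280004001200080000000000000000000000000000000) (nat_lit 0x0) (nat_lit 0x18c004000070030000800000000000000000000000000000000000) := T_12 (nat_lit 207) (nat_lit 206) (nat_lit 1) (nat_lit 6) (nat_lit 11) L33545 (by decide +kernel)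
theorem L33547 : W_12 (nat_lit 7) (nat_lit 0x3800280004001200080000000000000000000000000000000) (nat_lit 0x0) (nat_lit 0x18c004400170030000800000000000000000000000000000000000) := T_12 (nat_lit 190) (nat_lit 176) (nat_lit 2) (nat_lit 3) (nat_lit 11) L33546 (by decide +kernel)
theorem L33548 : W_12 (nat_lit 8) (nat_lit 0x3000280004001200080000000000000000000000000000000) (nat_lit 0x0) (nat_lit 0x19c004c00170030000800000000000000000000000000000000000) := T_12 (nat_lit 191) (nat_lit 208) (nat_lit 5) (nat_lit 5) (nat_lit 8) L33547 (by decide +kernel)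
theorem L33549 : W_12 (nat_lit 9) (nat_lit 0x1000280004001200080000000000000000000000000000000) (nat_lit 0x0) (nat_lit 0x1dc006c00170030000800000000000000000000000000000000000) := T_12 (nat_lit 193) (nat_lit 210) (nat_lit 7) (nat_lit 5) (nat_lit 8) L33548 (by decide +kernel)
theorem L33550 : W_12 (nat_lit 2) (nat_lit 0x10001000280004001300080000000000000000000000000000000) (nat_lit 0x0) (nat_lit 0x200020000000000002000000000000000000000000000000000000000) := D_12 (nat_lit 209) (nat_lit 225) (nat_lit 157) (nat_lit 5) (nat_lit 5) (nat_lit 9) (nat_lit 4) (nat_lit 5) (nat_lit 12) (by decide +kernel)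
theorem L33551 : W_12 (nat_lit 3) (nat_lit 0x10001000280004001200080000000000000000000000000000000) (nat_lit 0x0) (nat_lit 0x200020000000000002000100008000000000000000000000000000000) := T_12 (nat_lit 140) (nat_lit 123) (nat_lit 4) (nat_lit 5) (nat_lit 11) L33550 (by decide +kernel)
theorem L33552 : W_12 (nat_lit 4) (nat_lit 0x1000280004001200080000000000000000000000000000000) (nat_lit 0x0) (nat_lit 0x200030000800000002000100008000000000000000000000000000000) := T_12 (nat_lit 208) (nat_lit 191) (nat_lit 5) (nat_lit 5) (nat_lit 8) L33551 (by decide +kernel)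
theorem L33557 : W_12 (nat_lit 6) (nat_lit 0x20003000280004001300080000000000000000000000000000000) (nat_lit 0x0) (nat_lit 0x20009c00c000000038000800000000000000000000000000000000000) := T_12 (nat_lit 208) (nat_lit 225) (nat_lit 5) (nat_lit 5) (nat_lit 9) L33556 (by decide +kernel)
theorem L33558 : W_12 (nat_lit 7) (nat_lit 0x3000280004001300080000000000000000000000000000000) (nat_lit 0x0) (nat_lit 0x2000bc00c00000003a000800000000000000000000000000000000000) := T_12 (nat_lit 209) (nat_lit 157) (nat_lit 4) (nat_lit 5) (nat_lit 12) L33557 (by decide +kernel)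
theorem L33559 : W_12 (nat_lit 8) (nat_lit 0x3000280004001200080000000000000000000000000000000) (nat_lit 0x0) (nat_lit 0x2000bc00c00000003a000900008000000000000000000000000000000) := T_12 (nat_lit 140) (nat_lit 123) (nat_lit 4) (nat_lit 5) (nat_lit 11) L33558 (by decide +kernel)
theorem L33560 : W_12 (nat_lit 9) (nat_lit 0x1000280004001200080000000000000000000000000000000) (nat_lit 0x0) (nat_lit 0x2000fc00e00000003a000900008000000000000000000000000000000) := T_12 (nat_lit 193) (nat_lit 210) (nat_lit 7) (nat_lit 5) (nat_lit 8) L33559 (by decide +kernel)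
theorem L33561 : W_12 (nat_lit 2) (nat_lit 0x40001000280004001300080000000000000000000000000000000) (nat_lit 0x0) (nat_lit 0x800020000000000002000000000000000000000000000000000000000) := D_12 (nat_lit 209) (nat_lit 157) (nat_lit 227) (nat_lit 4) (nat_lit 5) (nat_lit 12) (nat_lit 7) (nat_lit 5) (nat_lit 9) (by decide +kernel)
theorem L33562 : W_12 (nat_lit 3) (nat_lit 0x1000280004001300080000000000000000000000000000000) (nat_lit 0x0) (nat_lit 0x800060002000000002000000000000000000000000000000000000000) := T_12 (nat_lit 210) (nat_lit 193) (nat_lit 7) (nat_lit 5) (nat_lit 8) L33561 (by decide +kernel)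
theorem L33563 : W_12 (nat_lit 4) (nat_lit 0x1000280004001200080000000000000000000000000000000) (nat_lit 0x0) (nat_lit 0x800060002000000002000100008000000000000000000000000000000) := T_12 (nat_lit 140) (nat_lit 123) (nat_lit 4) (nat_lit 5) (nat_lit 11) L33562 (by decide +kernel)
theorem L33564 : W_12 (nat_lit 11) (nat_lit 0x280004001200080000000000000000000000000000000) (nat_lit 0x0) (nat_lit 0xa001fc00fc0017003b000900008000000000000000000000000000000) := Q_12 (nat_lit 192) (C_12 L33274 (C_12 L33387 (C_12 L33549 (C_12 L33227 (C_12 L33552 (C_12 L33560 (C_12 L33563 N_12))))))) (by decide +kernel)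
theorem L33565 : W_12 (nat_lit 5) (nat_lit 0x280004001600080000000000000000000000000000000) (nat_lit 0x0) (nat_lit 0x200070003800000008000000020000000000000000000000000000000) := T_12 (nat_lit 192) (nat_lit 125) (nat_lit 6) (nat_lit 5) (nat_lit 11) L33297 (by decide +kernel)
theorem L33566 : W_12 (nat_lit 6) (nat_lit 0x280004001200080000000000000000000000000000000) (nat_lit 0x0) (nat_lit 0x20007000380000000a000c00120000000000000000000000000000000) := Q_12 (nat_lit 142) (C_12 L33406 (C_12 L33565 N_12)) (by decide +kernel)
theorem L33567 : W_12 (nat_lit 2) (nat_lit 0x1000280004001700080000000000000000000000000000000) (nat_lit 0x0) (nat_lit 0x800140000000000000000000000000000000) := D_12 (nat_lit 143) (nat_lit 128) (nat_lit 126) (nat_lit 2) (nat_lit 5) (nat_lit 8) (nat_lit 2) (nat_lit 4) (nat_lit 8) (by decide +kernel)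
theorem L33568 : W_12 (nat_lit 3) (nat_lit 0x1000280004001300080000000000000000000000000000000) (nat_lit 0x0) (nat_lit 0xc00160000000000000000000000000000000) := T_12 (nat_lit 142) (nat_lit 125) (nat_lit 6) (nat_lit 5) (nat_lit 11) L33567 (by decide +kernel)
theorem L33569 : W_12 (nat_lit 4) (nat_lit 0x1000280004001200080000000000000000000000000000000) (nat_lit 0x0) (nat_lit 0xd00168000000000000000000000000000000) := T_12 (nat_lit 140) (nat_lit 123) (nat_lit 4) (nat_lit 5) (nat_lit 11) L33568 (by decide +kernel)
theorem L33570 : W_12 (nat_lit 10) (nat_lit 0x280004001200080000000000000000000000000000000) (nat_lit 0x0) (nat_lit 0x2001fc007c00170038000d00168000000000000000000000000000000) := Q_12 (nat_lit 192) (C_12 L33432 (C_12 L33549 (C_12 L33298 (C_12 L33263 (C_12 L33569 N_12))))) (by decide +kernel)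
theorem L33571 : W_12 (nat_lit 12) (nat_lit 0x280000001200080000000000000000000000000000000) (nat_lit 0x0) (nat_lit 0x2000b001fc00fc039701ff000d00168000000000000000000000000000000) := Q_12 (nat_lit 158) (C_12 L33275 (C_12 L33564 (C_12 L33435 (C_12 L33566 (C_12 L33570 (C_12 L33399 N_12)))))) (by decide +kernel)
theorem L33572 : W_12 (nat_lit 8) (nat_lit 0x280004001200080000000000000000000000000000000) (nat_lit 0x0) (nat_lit 0xe80016003b800000038001c000a0000000000000000000000) := Q_12 (nat_lit 124) (C_12 L33451 (C_12 L33377 (C_12 L33316 N_12))) (by decide +kernel)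
theorem L33593 : W_12 (nat_lit 13) (nat_lit 0x280004001200080000000000000000000000000000000) (nat_lit 0x0) (nat_lit 0xc000f80007003a00090007e001c00080000000000000000000000) := Q_12 (nat_lit 124) (C_12 L33451 (C_12 L33583 (C_12 L33213 (C_12 L33592 N_12)))) (by decide +kernel)
theorem L33594 : W_12 (nat_lit 5) (nat_lit 0x280004001200080000000000000000000000000000000) (nat_lit 0x0) (nat_lit 0x3000100008000100078001c000a0000000000000000000000) := Q_12 (nat_lit 124) (C_12 L33377 (C_12 L33213 (C_12 L33218 N_12))) (by decide +kernel)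
theorem L33611 : W_12 (nat_lit 11) (nat_lit 0x280004001200080000000000000000000000000000000) (nat_lit 0x0) (nat_lit 0xd80014003a00090007e001c00080000000000000000000000) := Q_12 (nat_lit 124) (C_12 L33451 (C_12 L33603 (C_12 L33213 (C_12 L33610 N_12)))) (by decide +kernel)
theorem L33612 : W_12 (nat_lit 8) (nat_lit 0x280004001200080000000000000000000000000000000) (nat_lit 0x0) (nat_lit 0xe80016003b800000030001800080000000000000000000000) := Q_12 (nat_lit 124) (C_12 L33451 (C_12 L33316 (C_12 L33218 N_12))) (by decide +kernel)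
theorem L33613 : W_12 (nat_lit 14) (nat_lit 0x280000001200080000000000000000000000000000000) (nat_lit 0x0) (nat_lit 0xa001fc00fc0017003f80090007e001c000a0000000000000000000000) := Q_12 (nat_lit 158) (C_12 L33360 (C_12 L33564 (C_12 L33572 (C_12 L33388 (C_12 L33593 (C_12 L33594 (C_12 L33611 (C_12 L33612 N_12)))))))) (by decide +kernel)
theorem L33614 : W_12 (nat_lit 6) (nat_lit 0x280004001200080000000000000000000000000000000) (nat_lit 0x0) (nat_lit 0x10003800140008000c00078001c00020000000000000000000000) := Q_12 (nat_lit 124) (C_12 L33403 (C_12 L33377 (C_12 L33285 N_12))) (by decide +kernel)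
theorem L33615 : W_12 (nat_lit 2) (nat_lit 0x20001000280004001600080000000000000000000000000000000) (nat_lit 0x0) (nat_lit 0x800040002000000000000000000000000000000000000000000000000) := D_12 (nat_lit 210) (nat_lit 193) (nat_lit 227) (nat_lit 7) (nat_lit 5) (nat_lit 8) (nat_lit 7) (nat_lit 5) (nat_lit 9) (by decide +kernel)
theorem L33616 : W_12 (nat_lit 3) (nat_lit 0x1000280004001600080000000000000000000000000000000) (nat_lit 0x0) (nat_lit 0x800060002000000008000000000000000000000000000000000000000) := T_12 (nat_lit 209) (nat_lit 159) (nat_lit 6) (nat_lit 5) (nat_lit 12) L33615 (by decide +kernel)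
theorem L33617 : W_12 (nat_lit 4) (nat_lit 0x280004001600080000000000000000000000000000000) (nat_lit 0x0) (nat_lit 0x800060003000000008000000020000000000000000000000000000000) := T_12 (nat_lit 192) (nat_lit 125) (nat_lit 6) (nat_lit 5) (nat_lit 11) L33616 (by decide +kernel)
theorem L33618 : W_12 (nat_lit 5) (nat_lit 0x280004001200080000000000000000000000000000000) (nat_lit 0x0) (nat_lit 0x80006000300000000a000c00120000000000000000000000000000000) := Q_12 (nat_lit 142) (C_12 L33406 (C_12 L33617 N_12)) (by decide +kernel)
theorem L33619 : W_12 (nat_lit 9) (nat_lit 0x280000001200080000000000000000000000000000000) (nat_lit 0x0) (nat_lit 0xa0007000f80016003f800c00178001c000e0000000000000000000000) := Q_12 (nat_lit 158) (C_12 L33612 (C_12 L33378 (C_12 L33566 (C_12 L33457 (C_12 L33614 (C_12 L33420 (C_12 L33618 N_12))))))) (by decide +kernel)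
theorem L33620 : W_12 (nat_lit 2) (nat_lit 0x2800040016001a0000000000000000000000000000000) (nat_lit 0x0) (nat_lit 0x10001000080000000000000000000000) := D_12 (nat_lit 108) (nat_lit 124) (nat_lit 91) (nat_lit 6) (nat_lit 5) (nat_lit 10) (nat_lit 5) (nat_lit 6) (nat_lit 5) (by decide +kernel)
theorem L33621 : W_12 (nat_lit 3) (nat_lit 0x2800000016001a0000000000000000000000000000000) (nat_lit 0x0) (nat_lit 0x1000000004000000010001000080000000000000000000000) := T_12 (nat_lit 158) (nat_lit 192) (nat_lit 6) (nat_lit 5) (nat_lit 11) L33620 (by decide +kernel)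
theorem L33622 : W_12 (nat_lit 4) (nat_lit 0x2800000016000a0000000000000000000000000000000) (nat_lit 0x0) (nat_lit 0x1000000004000000150001000080000000000000000000000) := T_12 (nat_lit 128) (nat_lit 126) (nat_lit 1) (nat_lit 9) (nat_lit 7) L33621 (by decide +kernel)
theorem L33623 : W_12 (nat_lit 2) (nat_lit 0x10002800080016000a00010000c0004000000000000000000) (nat_lit 0x0) (nat_lit 0x100008000400000000000000) := D_12 (nat_lit 75) (nat_lit 92) (nat_lit 58) (nat_lit 6) (nat_lit 6) (nat_lit 8) (nat_lit 6) (nat_lit 6) (nat_lit 7) (by decide +kernel)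
theorem L33624 : W_12 (nat_lit 3) (nat_lit 0x10002800080016000a00010000c0000000000000000000000) (nat_lit 0x0) (nat_lit 0x1000000010000c000400000000000000) := T_12 (nat_lit 74) (nat_lit 124) (nat_lit 5) (nat_lit 6) (nat_lit 4) L33623 (by decide +kernel)
theorem L33625 : W_12 (nat_lit 4) (nat_lit 0x10002800080016000a0001000040000000000000000000000) (nat_lit 0x0) (nat_lit 0x1000000018000e000400000000000000) := T_12 (nat_lit 91) (nat_lit 73) (nat_lit 4) (nat_lit 6) (nat_lit 8) L33624 (by decide +kernel)
theorem L33626 : W_12 (nat_lit 5) (nat_lit 0x10002800080016000a0001000000000000000000000000000) (nat_lit 0x0) (nat_lit 0x100008001c000e000400000000000000) := T_12 (nat_lit 90) (nat_lit 107) (nat_lit 4) (nat_lit 6) (nat_lit 9) L33625 (by decide +kernel)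
theorem L33627 : W_12 (nat_lit 6) (nat_lit 0x10002800080016000a0000000000000000000000000000000) (nat_lit 0x0) (nat_lit 0x100000000100018001c000e000400000000000000) := T_12 (nat_lit 108) (nat_lit 160) (nat_lit 7) (nat_lit 6) (nat_lit 6) L33626 (by decide +kernel)
theorem L33628 : W_12 (nat_lit 7) (nat_lit 0x10002800000016000a0000000000000000000000000000000) (nat_lit 0x0) (nat_lit 0x1000180000000100018001c000e000400000000000000) := T_12 (nat_lit 159) (nat_lit 176) (nat_lit 5) (nat_lit 6) (nat_lit 7) L33627 (by decide +kernel)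
theorem L33629 : W_12 (nat_lit 8) (nat_lit 0x2800000016000a0000000000000000000000000000000) (nat_lit 0x0) (nat_lit 0x100010001c0000000100018001c000e000400000000000000) := T_12 (nat_lit 192) (nat_lit 158) (nat_lit 6) (nat_lit 5) (nat_lit 11) L33628 (by decide +kernel)
theorem L33630 : W_12 (nat_lit 2) (nat_lit 0x2800000016000e0000000000000000000000000000000) (nat_lit 0x0) (nat_lit 0x180010000000000000000000000000000000) := D_12 (nat_lit 140) (nat_lit 124) (nat_lit 139) (nat_lit 1) (nat_lit 8) (nat_lit 7) (nat_lit 2) (nat_lit 3) (nat_lit 8) (by decide +kernel)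
theorem L33631 : W_12 (nat_lit 3) (nat_lit 0x2800000016000a0000000000000000000000000000000) (nat_lit 0x0) (nat_lit 0x180150000000000000000000000000000000) := T_12 (nat_lit 126) (nat_lit 128) (nat_lit 1) (nat_lit 9) (nat_lit 7) L33630 (by decide +kernel)
theorem L33632 : W_12 (nat_lit 2) (nat_lit 0x2800040016001a0000000000000000000000000000000) (nat_lit 0x0) (nat_lit 0x8000000000001000080000000000000000000000) := D_12 (nat_lit 108) (nat_lit 159) (nat_lit 91) (nat_lit 5) (nat_lit 6) (nat_lit 6) (nat_lit 5) (nat_lit 6) (nat_lit 5) (by decide +kernel)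
theorem L33633 : W_12 (nat_lit 3) (nat_lit 0x2800000016001a0000000000000000000000000000000) (nat_lit 0x0) (nat_lit 0x100000000c000000000001000080000000000000000000000) := T_12 (nat_lit 158) (nat_lit 192) (nat_lit 6) (nat_lit 5) (nat_lit 11) L33632 (by decide +kernel)
theorem L33634 : W_12 (nat_lit 4) (nat_lit 0x2800000016000a0000000000000000000000000000000) (nat_lit 0x0) (nat_lit 0x100000000c000000140001000080000000000000000000000) := T_12 (nat_lit 128) (nat_lit 126) (nat_lit 1) (nat_lit 9) (nat_lit 7) L33633 (by decide +kernel)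
theorem L33635 : W_12 (nat_lit 9) (nat_lit 0x280000001600080000000000000000000000000000000) (nat_lit 0x0) (nat_lit 0x100010001c0001801700018001c000e000400000000000000) := Q_12 (nat_lit 125) (C_12 L33622 (C_12 L33629 (C_12 L33631 (C_12 L33634 N_12)))) (by decide +kernel)
theorem L33636 : W_12 (nat_lit 2) (nat_lit 0x280000001f00080000000000000000000000000000000) (nat_lit 0x0) (nat_lit 0x1c000000000000000000000000000000) := D_12 (nat_lit 123) (nat_lit 122) (nat_lit 124) (nat_lit 0) (nat_lit 7) (nat_lit 8) (nat_lit 0) (nat_lit 8) (nat_lit 8) (by decide +kernel)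
theorem L33637 : W_12 (nat_lit 3) (nat_lit 0x280000001e00080000000000000000000000000000000) (nat_lit 0x0) (nat_lit 0x10005c000000000000000000000000000000) := T_12 (nat_lit 140) (nat_lit 126) (nat_lit 2) (nat_lit 4) (nat_lit 8) L33636 (by decide +kernel)
theorem L33638 : W_12 (nat_lit 4) (nat_lit 0x280000001600080000000000000000000000000000000) (nat_lit 0x0) (nat_lit 0x90015c000000000000000000000000000000) := T_12 (nat_lit 143) (nat_lit 128) (nat_lit 2) (nat_lit 5) (nat_lit 8) L33637 (by decide +kernel)
theorem L33639 : W_12 (nat_lit 2) (nat_lit 0x280010001e00090000000000000000000000000000000) (nat_lit 0x0) (nat_lit 0x60000100000000000000000000000000000000000) := D_12 (nat_lit 161) (nat_lit 162) (nat_lit 140) (nat_lit 3) (nat_lit 5) (nat_lit 8) (nat_lit 3) (nat_lit 4) (nat_lit 8) (by decide +kernel)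
theorem L33640 : W_12 (nat_lit 3) (nat_lit 0x280000001e00090000000000000000000000000000000) (nat_lit 0x0) (nat_lit 0x4000000070000100000000000000000000000000000000000) := T_12 (nat_lit 160) (nat_lit 194) (nat_lit 6) (nat_lit 7) (nat_lit 11) L33639 (by decide +kernel)
theorem L33641 : W_12 (nat_lit 4) (nat_lit 0x280000001e00080000000000000000000000000000000) (nat_lit 0x0) (nat_lit 0x4000000070000100018000000000000000000000000000000) := T_12 (nat_lit 124) (nat_lit 123) (nat_lit 0) (nat_lit 8) (nat_lit 8) L33640 (by decide +kernel)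
theorem L33642 : W_12 (nat_lit 5) (nat_lit 0x280000001600080000000000000000000000000000000) (nat_lit 0x0) (nat_lit 0x4000000070000900118000000000000000000000000000000) := T_12 (nat_lit 143) (nat_lit 128) (nat_lit 2) (nat_lit 5) (nat_lit 8) L33641 (by decide +kernel)
theorem L33643 : W_12 (nat_lit 2) (nat_lit 0x280000001f00080000000000000000000000000000000) (nat_lit 0x0) (nat_lit 0x70000000000000000000000000000000000000000) := D_12 (nat_lit 161) (nat_lit 162) (nat_lit 160) (nat_lit 3) (nat_lit 5) (nat_lit 8) (nat_lit 3) (nat_lit 4) (nat_lit 8) (by decide +kernel)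
theorem L33644 : W_12 (nat_lit 3) (nat_lit 0x280000001e00080000000000000000000000000000000) (nat_lit 0x0) (nat_lit 0x70000100040000000000000000000000000000000) := T_12 (nat_lit 140) (nat_lit 126) (nat_lit 2) (nat_lit 4) (nat_lit 8) L33643 (by decide +kernel)
theorem L33645 : W_12 (nat_lit 4) (nat_lit 0x280000001600080000000000000000000000000000000) (nat_lit 0x0) (nat_lit 0x70000900140000000000000000000000000000000) := T_12 (nat_lit 143) (nat_lit 128) (nat_lit 2) (nat_lit 5) (nat_lit 8) L33644 (by decide +kernel)
theorem L33646 : W_12 (nat_lit 2) (nat_lit 0x2c0030001e00090000000000000000000000000000000) (nat_lit 0x0) (nat_lit 0x80000000c000000000000000000000000000000000000000) := D_12 (nat_lit 158) (nat_lit 159) (nat_lit 191) (nat_lit 1) (nat_lit 8) (nat_lit 9) (nat_lit 5) (nat_lit 5) (nat_lit 7) (by decide +kernel)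
theorem L33647 : W_12 (nat_lit 3) (nat_lit 0x280030001e00090000000000000000000000000000000) (nat_lit 0x0) (nat_lit 0x80014000c000000000000000000000000000000000000000) := T_12 (nat_lit 174) (nat_lit 176) (nat_lit 2) (nat_lit 4) (nat_lit 10) L33646 (by decide +kernel)
theorem L33648 : W_12 (nat_lit 4) (nat_lit 0x280010001e00090000000000000000000000000000000) (nat_lit 0x0) (nat_lit 0x80014006c000000000000000000000000000000000000000) := T_12 (nat_lit 161) (nat_lit 162) (nat_lit 3) (nat_lit 5) (nat_lit 8) L33647 (by decide +kernel)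
theorem L33649 : W_12 (nat_lit 5) (nat_lit 0x280000001e00090000000000000000000000000000000) (nat_lit 0x0) (nat_lit 0x480014007c000000000000000000000000000000000000000) := T_12 (nat_lit 160) (nat_lit 194) (nat_lit 6) (nat_lit 7) (nat_lit 11) L33648 (by decide +kernel)
theorem L33650 : W_12 (nat_lit 6) (nat_lit 0x280000001e00080000000000000000000000000000000) (nat_lit 0x0) (nat_lit 0x480014007c000000018000000000000000000000000000000) := T_12 (nat_lit 124) (nat_lit 123) (nat_lit 0) (nat_lit 8) (nat_lit 8) L33649 (by decide +kernel)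
theorem L33651 : W_12 (nat_lit 7) (nat_lit 0x280000001600080000000000000000000000000000000) (nat_lit 0x0) (nat_lit 0x480014007c000800118000000000000000000000000000000) := T_12 (nat_lit 143) (nat_lit 128) (nat_lit 2) (nat_lit 5) (nat_lit 8) L33650 (by decide +kernel)
theorem L33652 : W_12 (nat_lit 7) (nat_lit 0x280000001600080000000000000000000000000000000) (nat_lit 0x0) (nat_lit 0x480014007c00090005c000000000000000000000000000000) := Q_12 (nat_lit 143) (C_12 L33637 (C_12 L33650 (C_12 L33644 N_12))) (by decide +kernel)
theorem L33653 : W_12 (nat_lit 10) (nat_lit 0x280000001200080000000000000000000000000000000) (nat_lit 0x0) (nat_lit 0x580014007c000d8017c0018001c000e000400000000000000) := Q_12 (nat_lit 142) (C_12 L33635 (C_12 L33638 (C_12 L33642 (C_12 L33645 (C_12 L33651 (C_12 L33652 N_12)))))) (by decide +kernel)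
theorem L33656 : W_12 (nat_lit 5) (nat_lit 0x280000001600080000000000000000000000000000000) (nat_lit 0x0) (nat_lit 0x100000000c000180170001000080000000000000000000000) := Q_12 (nat_lit 125) (C_12 L33634 (C_12 L33655 (C_12 L33631 N_12))) (by decide +kernel)
theorem L33657 : W_12 (nat_lit 2) (nat_lit 0x5800280004001e00080000000000000000000000000000000) (nat_lit 0x0) (nat_lit 0x40000000000018000000000000000000000000000000) := D_12 (nat_lit 124) (nat_lit 174) (nat_lit 123) (nat_lit 5) (nat_lit 5) (nat_lit 7) (nat_lit 0) (nat_lit 8) (nat_lit 8) (by decide +kernel)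
theorem L33658 : W_12 (nat_lit 3) (nat_lit 0x5000280004001e00080000000000000000000000000000000) (nat_lit 0x0) (nat_lit 0x10000800040000000000018000000000000000000000000000000) := T_12 (nat_lit 191) (nat_lit 208) (nat_lit 5) (nat_lit 5) (nat_lit 8) L33657 (by decide +kernel)
theorem L33659 : W_12 (nat_lit 4) (nat_lit 0x4000280004001e00080000000000000000000000000000000) (nat_lit 0x0) (nat_lit 0x10001800040000000000038000000000000000000000000000000) := T_12 (nat_lit 192) (nat_lit 125) (nat_lit 6) (nat_lit 5) (nat_lit 11) L33658 (by decide +kernel)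
theorem L33660 : W_12 (nat_lit 5) (nat_lit 0x280004001e00080000000000000000000000000000000) (nat_lit 0x0) (nat_lit 0x10005800040010000000038000000000000000000000000000000) := T_12 (nat_lit 194) (nat_lit 160) (nat_lit 6) (nat_lit 7) (nat_lit 11) L33659 (by decide +kernel)
theorem L33661 : W_12 (nat_lit 6) (nat_lit 0x280000001e00080000000000000000000000000000000) (nat_lit 0x0) (nat_lit 0x10005800040016000000038000000000000000000000000000000) := T_12 (nat_lit 158) (nat_lit 157) (nat_lit 1) (nat_lit 8) (nat_lit 8) L33660 (by decide +kernel)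
theorem L33662 : W_12 (nat_lit 7) (nat_lit 0x280000001600080000000000000000000000000000000) (nat_lit 0x0) (nat_lit 0x10005800040016000800138000000000000000000000000000000) := T_12 (nat_lit 143) (nat_lit 128) (nat_lit 2) (nat_lit 5) (nat_lit 8) L33661 (by decide +kernel)
theorem L33663 : W_12 (nat_lit 7) (nat_lit 0x280000001600080000000000000000000000000000000) (nat_lit 0x0) (nat_lit 0x1000580004007600090007c000000000000000000000000000000) := Q_12 (nat_lit 143) (C_12 L33637 (C_12 L33661 (C_12 L33644 N_12))) (by decide +kernel)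
theorem L33664 : W_12 (nat_lit 8) (nat_lit 0x280000001200080000000000000000000000000000000) (nat_lit 0x0) (nat_lit 0x1000580004007e000d8017c001000080000000000000000000000) := Q_12 (nat_lit 142) (C_12 L33656 (C_12 L33645 (C_12 L33642 (C_12 L33662 (C_12 L33663 N_12))))) (by decide +kernel)
theorem L33665 : W_12 (nat_lit 2) (nat_lit 0x7800280004001e00080000000000000000000000000000000) (nat_lit 0x0) (nat_lit 0x100000000000018000000000000000000000000000000) := D_12 (nat_lit 124) (nat_lit 176) (nat_lit 123) (nat_lit 7) (nat_lit 5) (nat_lit 7) (nat_lit 0) (nat_lit 8) (nat_lit 8) (by decide +kernel)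
theorem L33666 : W_12 (nat_lit 3) (nat_lit 0x5800280004001e00080000000000000000000000000000000) (nat_lit 0x0) (nat_lit 0x40002000100000000000018000000000000000000000000000000) := T_12 (nat_lit 193) (nat_lit 210) (nat_lit 7) (nat_lit 5) (nat_lit 8) L33665 (by decide +kernel)
theorem L33667 : W_12 (nat_lit 4) (nat_lit 0x5000280004001e00080000000000000000000000000000000) (nat_lit 0x0) (nat_lit 0x50002800100000000000018000000000000000000000000000000) := T_12 (nat_lit 191) (nat_lit 208) (nat_lit 5) (nat_lit 5) (nat_lit 8) L33666 (by decide +kernel)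
theorem L33668 : W_12 (nat_lit 5) (nat_lit 0x4000280004001e00080000000000000000000000000000000) (nat_lit 0x0) (nat_lit 0x50003800100000000000038000000000000000000000000000000) := T_12 (nat_lit 192) (nat_lit 125) (nat_lit 6) (nat_lit 5) (nat_lit 11) L33667 (by decide +kernel)
theorem L33669 : W_12 (nat_lit 6) (nat_lit 0x280004001e00080000000000000000000000000000000) (nat_lit 0x0) (nat_lit 0x50007800100010000000038000000000000000000000000000000) := T_12 (nat_lit 194) (nat_lit 160) (nat_lit 6) (nat_lit 7) (nat_lit 11) L33668 (by decide +kernel)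
theorem L33670 : W_12 (nat_lit 7) (nat_lit 0x280000001e00080000000000000000000000000000000) (nat_lit 0x0) (nat_lit 0x50007800100016000000038000000000000000000000000000000) := T_12 (nat_lit 158) (nat_lit 157) (nat_lit 1) (nat_lit 8) (nat_lit 8) L33669 (by decide +kernel)
theorem L33671 : W_12 (nat_lit 8) (nat_lit 0x280000001600080000000000000000000000000000000) (nat_lit 0x0) (nat_lit 0x50007800100016000800138000000000000000000000000000000) := T_12 (nat_lit 143) (nat_lit 128) (nat_lit 2) (nat_lit 5) (nat_lit 8) L33670 (by decide +kernel)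
theorem L33672 : W_12 (nat_lit 8) (nat_lit 0x280000001600080000000000000000000000000000000) (nat_lit 0x0) (nat_lit 0x5000780010007600090007c000000000000000000000000000000) := Q_12 (nat_lit 143) (C_12 L33637 (C_12 L33670 (C_12 L33644 N_12))) (by decide +kernel)
theorem L33673 : W_12 (nat_lit 9) (nat_lit 0x280000001200080000000000000000000000000000000) (nat_lit 0x0) (nat_lit 0x5000780010007e000d8017c001000080000000000000000000000) := Q_12 (nat_lit 142) (C_12 L33656 (C_12 L33645 (C_12 L33642 (C_12 L33671 (C_12 L33672 N_12))))) (by decide +kernel)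
theorem L33674 : W_12 (nat_lit 5) (nat_lit 0x280004001200080000000000000000000000000000000) (nat_lit 0x0) (nat_lit 0x2000100008000c00078001c000a0000000000000000000000) := Q_12 (nat_lit 124) (C_12 L33403 (C_12 L33377 (C_12 L33218 N_12))) (by decide +kernel)
theorem L33675 : W_12 (nat_lit 7) (nat_lit 0x280004001200080000000000000000000000000000000) (nat_lit 0x0) (nat_lit 0x480004001a000c00078001c00080000000000000000000000) := Q_12 (nat_lit 124) (C_12 L33451 (C_12 L33374 (C_12 L33403 N_12))) (by decide +kernel)
theorem L33676 : W_12 (nat_lit 9) (nat_lit 0x280000001200080000000000000000000000000000000) (nat_lit 0x0) (nat_lit 0xe8039601ff800d00178001c000a0000000000000000000000) := Q_12 (nat_lit 158) (C_12 L33612 (C_12 L33399 (C_12 L33452 (C_12 L33674 (C_12 L33675 N_12))))) (by decide +kernel)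
theorem L33677 : W_12 (nat_lit 2) (nat_lit 0x5800280004001e00090000000000000000000000000000000) (nat_lit 0x0) (nat_lit 0x40002000100000000000000000000000000000000000000000000) := D_12 (nat_lit 193) (nat_lit 210) (nat_lit 176) (nat_lit 7) (nat_lit 5) (nat_lit 8) (nat_lit 7) (nat_lit 5) (nat_lit 7) (by decide +kernel)
theorem L33678 : W_12 (nat_lit 3) (nat_lit 0x5800280004001e00080000000000000000000000000000000) (nat_lit 0x0) (nat_lit 0x40002000140000000000010000000000000000000000000000000) := T_12 (nat_lit 124) (nat_lit 174) (nat_lit 5) (nat_lit 5) (nat_lit 7) L33677 (by decide +kernel)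
theorem L33679 : W_12 (nat_lit 4) (nat_lit 0x5000280004001e00080000000000000000000000000000000) (nat_lit 0x0) (nat_lit 0x50002800140000000000010000000000000000000000000000000) := T_12 (nat_lit 191) (nat_lit 208) (nat_lit 5) (nat_lit 5) (nat_lit 8) L33678 (by decide +kernel)
theorem L33680 : W_12 (nat_lit 5) (nat_lit 0x4000280004001e00080000000000000000000000000000000) (nat_lit 0x0) (nat_lit 0x50003800140000000000030000000000000000000000000000000) := T_12 (nat_lit 192) (nat_lit 125) (nat_lit 6) (nat_lit 5) (nat_lit 11) L33679 (by decide +kernel)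
theorem L33681 : W_12 (nat_lit 6) (nat_lit 0x280004001e00080000000000000000000000000000000) (nat_lit 0x0) (nat_lit 0x50007800140010000000030000000000000000000000000000000) := T_12 (nat_lit 194) (nat_lit 160) (nat_lit 6) (nat_lit 7) (nat_lit 11) L33680 (by decide +kernel)
theorem L33682 : W_12 (nat_lit 7) (nat_lit 0x280000001e00080000000000000000000000000000000) (nat_lit 0x0) (nat_lit 0x50007800140016000000030000000000000000000000000000000) := T_12 (nat_lit 158) (nat_lit 157) (nat_lit 1) (nat_lit 8) (nat_lit 8) L33681 (by decide +kernel)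
theorem L33683 : W_12 (nat_lit 8) (nat_lit 0x280000001600080000000000000000000000000000000) (nat_lit 0x0) (nat_lit 0x50007800140016000800130000000000000000000000000000000) := T_12 (nat_lit 143) (nat_lit 128) (nat_lit 2) (nat_lit 5) (nat_lit 8) L33682 (by decide +kernel)
theorem L33684 : W_12 (nat_lit 2) (nat_lit 0x280004001f00080000000000000000000000000000000) (nat_lit 0x0) (nat_lit 0x4000000030000000000000000000000000000000000000000) := D_12 (nat_lit 160) (nat_lit 194) (nat_lit 161) (nat_lit 6) (nat_lit 7) (nat_lit 11) (nat_lit 3) (nat_lit 4) (nat_lit 8) (by decide +kernel)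
theorem L33685 : W_12 (nat_lit 3) (nat_lit 0x280004001e00080000000000000000000000000000000) (nat_lit 0x0) (nat_lit 0x4000000030000100040000000000000000000000000000000) := T_12 (nat_lit 140) (nat_lit 126) (nat_lit 2) (nat_lit 4) (nat_lit 8) L33684 (by decide +kernel)
theorem L33686 : W_12 (nat_lit 4) (nat_lit 0x280004001600080000000000000000000000000000000) (nat_lit 0x0) (nat_lit 0x4000000032000900040000000000000000000000000000000) := T_12 (nat_lit 143) (nat_lit 157) (nat_lit 1) (nat_lit 8) (nat_lit 8) L33685 (by decide +kernel)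
theorem L33687 : W_12 (nat_lit 5) (nat_lit 0x280000001600080000000000000000000000000000000) (nat_lit 0x0) (nat_lit 0x80006000700000003e000900060000000000000000000000000000000) := Q_12 (nat_lit 158) (C_12 L33617 (C_12 L33686 N_12)) (by decide +kernel)
theorem L33688 : W_12 (nat_lit 9) (nat_lit 0x280000001200080000000000000000000000000000000) (nat_lit 0x0) (nat_lit 0x80007000780014007e000d80170001000080000000000000000000000) := Q_12 (nat_lit 142) (C_12 L33656 (C_12 L33645 (C_12 L33683 (C_12 L33687 N_12)))) (by decide +kernel)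
theorem L33689 : W_12 (nat_lit 2) (nat_lit 0x7000280024001e00080000000000000000000000000000000) (nat_lit 0x0) (nat_lit 0x100000000000018000000000000000000000000000000) := D_12 (nat_lit 124) (nat_lit 176) (nat_lit 123) (nat_lit 7) (nat_lit 5) (nat_lit 7) (nat_lit 0) (nat_lit 8) (nat_lit 8) (by decide +kernel)
theorem L33690 : W_12 (nat_lit 3) (nat_lit 0x5000280024001e00080000000000000000000000000000000) (nat_lit 0x0) (nat_lit 0x40002000100000000000018000000000000000000000000000000) := T_12 (nat_lit 193) (nat_lit 210) (nat_lit 7) (nat_lit 5) (nat_lit 8) L33689 (by decide +kernel)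
theorem L33691 : W_12 (nat_lit 4) (nat_lit 0x5000280004001e00080000000000000000000000000000000) (nat_lit 0x0) (nat_lit 0x40002000100060000000018000000000000000000000000000000) := T_12 (nat_lit 161) (nat_lit 162) (nat_lit 3) (nat_lit 5) (nat_lit 8) L33690 (by decide +kernel)
theorem L33692 : W_12 (nat_lit 5) (nat_lit 0x4000280004001e00080000000000000000000000000000000) (nat_lit 0x0) (nat_lit 0x40003000100060000000038000000000000000000000000000000) := T_12 (nat_lit 192) (nat_lit 125) (nat_lit 6) (nat_lit 5) (nat_lit 11) L33691 (by decide +kernel)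
theorem L33693 : W_12 (nat_lit 6) (nat_lit 0x280004001e00080000000000000000000000000000000) (nat_lit 0x0) (nat_lit 0x40007000100070000000038000000000000000000000000000000) := T_12 (nat_lit 194) (nat_lit 160) (nat_lit 6) (nat_lit 7) (nat_lit 11) L33692 (by decide +kernel)
theorem L33694 : W_12 (nat_lit 7) (nat_lit 0x280000001e00080000000000000000000000000000000) (nat_lit 0x0) (nat_lit 0x40007000100076000000038000000000000000000000000000000) := T_12 (nat_lit 158) (nat_lit 157) (nat_lit 1) (nat_lit 8) (nat_lit 8) L33693 (by decide +kernel)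
theorem L33695 : W_12 (nat_lit 8) (nat_lit 0x280000001600080000000000000000000000000000000) (nat_lit 0x0) (nat_lit 0x40007000100076000800138000000000000000000000000000000) := T_12 (nat_lit 143) (nat_lit 128) (nat_lit 2) (nat_lit 5) (nat_lit 8) L33694 (by decide +kernel)
theorem L33696 : W_12 (nat_lit 9) (nat_lit 0x280000001200080000000000000000000000000000000) (nat_lit 0x0) (nat_lit 0x80006000700010007e000d80178001000080000000000000000000000) := Q_12 (nat_lit 142) (C_12 L33656 (C_12 L33687 (C_12 L33645 (C_12 L33642 (C_12 L33695 N_12))))) (by decide +kernel)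
theorem L33697 : W_12 (nat_lit 15) (nat_lit 0x200000001200080000000000000000000000000000000) (nat_lit 0x0) (nat_lit 0x2001f001fc00ff839f81ffc00d8017e001c001e000e000400000000000000) := Q_12 (nat_lit 175) (C_12 L33359 (C_12 L33400 (C_12 L33405 (C_12 L33421 (C_12 L33458 (C_12 L33541 (C_12 L33571 (C_12 L33613 (C_12 L33619 (C_12 L33653 (C_12 L33664 (C_12 L33673 (C_12 L33676 (C_12 L33688 (C_12 L33696 N_12))))))))))))))) (by decide +kernel)
theorem L37105 : W_12 (nat_lit 2) (nat_lit 0x2000048013e0080000000000000000000000000000000) (nat_lit 0x0) (nat_lit 0x3800000000000000000000000000000) := D_12 (nat_lit 120) (nat_lit 119) (nat_lit 121) (nat_lit 0) (nat_lit 4) (nat_lit 8) (nat_lit 0) (nat_lit 5) (nat_lit 8) (by decide +kernel)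
theorem L37106 : W_12 (nat_lit 3) (nat_lit 0x2000048013c0080000000000000000000000000000000) (nat_lit 0x0) (nat_lit 0x2000020003800000000000000000000000000000) := T_12 (nat_lit 137) (nat_lit 157) (nat_lit 3) (nat_lit 1) (nat_lit 8) L37105 (by decide +kernel)
theorem L37107 : W_12 (nat_lit 4) (nat_lit 0x2000008013c0080000000000000000000000000000000) (nat_lit 0x0) (nat_lit 0xe000020003800000000000000000000000000000) := T_12 (nat_lit 158) (nat_lit 159) (nat_lit 3) (nat_lit 2) (nat_lit 8) L37106 (by decide +kernel)
theorem L37108 : W_12 (nat_lit 5) (nat_lit 0x2000000013c0080000000000000000000000000000000) (nat_lit 0x0) (nat_lit 0xec00020003800000000000000000000000000000) := T_12 (nat_lit 155) (nat_lit 154) (nat_lit 1) (nat_lit 5) (nat_lit 8) L37107 (by decide +kernel)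
theorem L37112 : W_12 (nat_lit 2) (nat_lit 0x2200050013c0082000000000000000000000000000000) (nat_lit 0x0) (nat_lit 0x4000100008000000000000000000000) := D_12 (nat_lit 104) (nat_lit 87) (nat_lit 122) (nat_lit 7) (nat_lit 2) (nat_lit 5) (nat_lit 4) (nat_lit 3) (nat_lit 10) (by decide +kernel)
theorem L37113 : W_12 (nat_lit 3) (nat_lit 0x2000050013c0082000000000000000000000000000000) (nat_lit 0x0) (nat_lit 0x400020000000000004000100008000000000000000000000) := T_12 (nat_lit 173) (nat_lit 190) (nat_lit 4) (nat_lit 3) (nat_lit 11) L37112 (by decide +kernel)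
theorem L37114 : W_12 (nat_lit 4) (nat_lit 0x2000050013c0080000000000000000000000000000000) (nat_lit 0x0) (nat_lit 0x400020000000000007000100008000000000000000000000) := T_12 (nat_lit 121) (nat_lit 120) (nat_lit 0) (nat_lit 5) (nat_lit 8) L37113 (by decide +kernel)
theorem L37115 : W_12 (nat_lit 5) (nat_lit 0x2000010013c0080000000000000000000000000000000) (nat_lit 0x0) (nat_lit 0x40002000c000000007000100008000000000000000000000) := T_12 (nat_lit 158) (nat_lit 159) (nat_lit 3) (nat_lit 2) (nat_lit 8) L37114 (by decide +kernel)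
theorem L37116 : W_12 (nat_lit 2) (nat_lit 0x2200018013c0088000000000000000000000000000000) (nat_lit 0x0) (nat_lit 0x4000400020000000000000000000000) := D_12 (nat_lit 106) (nat_lit 89) (nat_lit 122) (nat_lit 5) (nat_lit 4) (nat_lit 5) (nat_lit 6) (nat_lit 3) (nat_lit 10) (by decide +kernel)
theorem L37117 : W_12 (nat_lit 3) (nat_lit 0x2000018013c0088000000000000000000000000000000) (nat_lit 0x0) (nat_lit 0x400020000000000004000400020000000000000000000000) := T_12 (nat_lit 173) (nat_lit 190) (nat_lit 6) (nat_lit 3) (nat_lit 11) L37116 (by decide +kernel)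
theorem L37118 : W_12 (nat_lit 4) (nat_lit 0x2000010013c0088000000000000000000000000000000) (nat_lit 0x0) (nat_lit 0x400020000c00000004000400020000000000000000000000) := T_12 (nat_lit 155) (nat_lit 154) (nat_lit 1) (nat_lit 5) (nat_lit 8) L37117 (by decide +kernel)
theorem L37119 : W_12 (nat_lit 2) (nat_lit 0x2000050013c0088000400000000000000000000000000) (nat_lit 0x0) (nat_lit 0x1000080000000000010000000000000000000000000000000) := D_12 (nat_lit 175) (nat_lit 192) (nat_lit 124) (nat_lit 4) (nat_lit 5) (nat_lit 11) (nat_lit 4) (nat_lit 5) (nat_lit 10) (by decide +kernel)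
theorem L37120 : W_12 (nat_lit 3) (nat_lit 0x2000050013c0088000000000000000000000000000000) (nat_lit 0x0) (nat_lit 0x1000080000000000010000400020000000000000000000000) := T_12 (nat_lit 106) (nat_lit 89) (nat_lit 7) (nat_lit 4) (nat_lit 5) L37119 (by decide +kernel)
theorem L37121 : W_12 (nat_lit 4) (nat_lit 0x2000010013c0088000000000000000000000000000000) (nat_lit 0x0) (nat_lit 0x100008000c000000010000400020000000000000000000000) := T_12 (nat_lit 158) (nat_lit 159) (nat_lit 3) (nat_lit 2) (nat_lit 8) L37120 (by decide +kernel)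
theorem L37122 : W_12 (nat_lit 9) (nat_lit 0x2000010013c0080000000000000000000000000000000) (nat_lit 0x0) (nat_lit 0x16001b800ec0000001c000600020000000000000000000000) := Q_12 (nat_lit 123) (C_12 L37118 (C_12 L33761 (C_12 L37121 N_12))) (by decide +kernel)
theorem L37133 : W_12 (nat_lit 12) (nat_lit 0x2000000013c0080000000000000000000000000000000) (nat_lit 0x0) (nat_lit 0x16001f800fc0000001f001f00038000000000000000000000) := Q_12 (nat_lit 156) (C_12 L33773 (C_12 L37115 (C_12 L37122 (C_12 L37132 N_12)))) (by decide +kernel)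
theorem L37134 : W_12 (nat_lit 13) (nat_lit 0x200000001380080000000000000000000000000000000) (nat_lit 0x0) (nat_lit 0x16001f800fe0007001f801f8003c000000000000000000000) := Q_12 (nat_lit 138) (C_12 L37104 (C_12 L37108 (C_12 L33742 (C_12 L37111 (C_12 L37133 N_12))))) (by decide +kernel)
theorem L37138 : W_12 (nat_lit 2) (nat_lit 0x2000024013f0081000000000000000000000000000000) (nat_lit 0x0) (nat_lit 0x1c000000000000000000000000000000) := D_12 (nat_lit 123) (nat_lit 122) (nat_lit 124) (nat_lit 2) (nat_lit 0) (nat_lit 8) (nat_lit 2) (nat_lit 1) (nat_lit 8) (by decide +kernel)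
theorem L37139 : W_12 (nat_lit 3) (nat_lit 0x2000024013e0081000000000000000000000000000000) (nat_lit 0x0) (nat_lit 0x100001001c000000000000000000000000000000) := T_12 (nat_lit 136) (nat_lit 156) (nat_lit 3) (nat_lit 0) (nat_lit 8) L37138 (by decide +kernel)
theorem L37140 : W_12 (nat_lit 4) (nat_lit 0x2000004013e0081000000000000000000000000000000) (nat_lit 0x0) (nat_lit 0x700001001c000000000000000000000000000000) := T_12 (nat_lit 157) (nat_lit 158) (nat_lit 3) (nat_lit 1) (nat_lit 8) L37139 (by decide +kernel)
theorem L37141 : W_12 (nat_lit 5) (nat_lit 0x2000000013e0081000000000000000000000000000000) (nat_lit 0x0) (nat_lit 0x760001001c000000000000000000000000000000) := T_12 (nat_lit 154) (nat_lit 153) (nat_lit 1) (nat_lit 4) (nat_lit 8) L37140 (by decide +kernel)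
theorem L37142 : W_12 (nat_lit 6) (nat_lit 0x2000000013c0081000000000000000000000000000000) (nat_lit 0x0) (nat_lit 0x760003001c800000000000000000000000000000) := T_12 (nat_lit 137) (nat_lit 119) (nat_lit 0) (nat_lit 4) (nat_lit 8) L37141 (by decide +kernel)
theorem L37143 : W_12 (nat_lit 7) (nat_lit 0x2000000013c0080000000000000000000000000000000) (nat_lit 0x0) (nat_lit 0x760003001f800000000000000000000000000000) := T_12 (nat_lit 120) (nat_lit 121) (nat_lit 0) (nat_lit 5) (nat_lit 8) L37142 (by decide +kernel)
theorem L37144 : W_12 (nat_lit 5) (nat_lit 0x2000004013e0080000000000000000000000000000000) (nat_lit 0x0) (nat_lit 0x700001001d800000000000000000000000000000) := T_12 (nat_lit 120) (nat_lit 119) (nat_lit 0) (nat_lit 4) (nat_lit 8) L37140 (by decide +kernel)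
theorem L37145 : W_12 (nat_lit 6) (nat_lit 0x2000004013c0080000000000000000000000000000000) (nat_lit 0x0) (nat_lit 0x720003001d800000000000000000000000000000) := T_12 (nat_lit 137) (nat_lit 153) (nat_lit 1) (nat_lit 4) (nat_lit 8) L37144 (by decide +kernel)
theorem L37146 : W_12 (nat_lit 7) (nat_lit 0x2000000013c0080000000000000000000000000000000) (nat_lit 0x0) (nat_lit 0x7e0003001d800000000000000000000000000000) := T_12 (nat_lit 154) (nat_lit 155) (nat_lit 1) (nat_lit 5) (nat_lit 8) L37145 (by decide +kernel)
theorem L37147 : W_12 (nat_lit 2) (nat_lit 0x2000004013f0088000000000000000000000000000000) (nat_lit 0x0) (nat_lit 0x7000000000000000000000000000000000000000) := D_12 (nat_lit 157) (nat_lit 158) (nat_lit 156) (nat_lit 3) (nat_lit 1) (nat_lit 8) (nat_lit 3) (nat_lit 0) (nat_lit 8) (by decide +kernel)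
theorem L37148 : W_12 (nat_lit 3) (nat_lit 0x2000004013e0088000000000000000000000000000000) (nat_lit 0x0) (nat_lit 0x7000010004000000000000000000000000000000) := T_12 (nat_lit 136) (nat_lit 122) (nat_lit 2) (nat_lit 0) (nat_lit 8) L37147 (by decide +kernel)
theorem L37149 : W_12 (nat_lit 4) (nat_lit 0x2000004013e0080000000000000000000000000000000) (nat_lit 0x0) (nat_lit 0x700001001c000000000000000000000000000000) := T_12 (nat_lit 123) (nat_lit 124) (nat_lit 2) (nat_lit 1) (nat_lit 8) L37148 (by decide +kernel)
theorem L37150 : W_12 (nat_lit 5) (nat_lit 0x2000004013c0080000000000000000000000000000000) (nat_lit 0x0) (nat_lit 0x720003001c000000000000000000000000000000) := T_12 (nat_lit 137) (nat_lit 153) (nat_lit 1) (nat_lit 4) (nat_lit 8) L37149 (by decide +kernel)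
theorem L37151 : W_12 (nat_lit 6) (nat_lit 0x2000000013c0080000000000000000000000000000000) (nat_lit 0x0) (nat_lit 0x7e0003001c000000000000000000000000000000) := T_12 (nat_lit 154) (nat_lit 155) (nat_lit 1) (nat_lit 5) (nat_lit 8) L37150 (by decide +kernel)
theorem L37152 : W_12 (nat_lit 2) (nat_lit 0x2000008013c0086000000000000000000000000000000) (nat_lit 0x0) (nat_lit 0x10000000000000000200010000000000000000000000) := D_12 (nat_lit 105) (nat_lit 88) (nat_lit 172) (nat_lit 5) (nat_lit 3) (nat_lit 5) (nat_lit 6) (nat_lit 2) (nat_lit 10) (by decide +kernel)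
theorem L37153 : W_12 (nat_lit 3) (nat_lit 0x2000008013c0082000000000000000000000000000000) (nat_lit 0x0) (nat_lit 0x10000000400004000200010000000000000000000000) := T_12 (nat_lit 122) (nat_lit 142) (nat_lit 0) (nat_lit 6) (nat_lit 8) L37152 (by decide +kernel)
theorem L37154 : W_12 (nat_lit 4) (nat_lit 0x2000008013c0080000000000000000000000000000000) (nat_lit 0x0) (nat_lit 0x10000000400007000200010000000000000000000000) := T_12 (nat_lit 121) (nat_lit 120) (nat_lit 0) (nat_lit 5) (nat_lit 8) L37153 (by decide +kernel)
theorem L37155 : W_12 (nat_lit 5) (nat_lit 0x2000000013c0080000000000000000000000000000000) (nat_lit 0x0) (nat_lit 0x10000c00400007000200010000000000000000000000) := T_12 (nat_lit 155) (nat_lit 154) (nat_lit 1) (nat_lit 5) (nat_lit 8) L37154 (by decide +kernel)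
theorem L37156 : W_12 (nat_lit 3) (nat_lit 0x2000008013c0082000000000000000000000000000000) (nat_lit 0x0) (nat_lit 0x400020001000400000000100000000000000000000000000) := T_12 (nat_lit 156) (nat_lit 142) (nat_lit 1) (nat_lit 6) (nat_lit 8) L33771 (by decide +kernel)
theorem L37157 : W_12 (nat_lit 4) (nat_lit 0x2000000013c0082000000000000000000000000000000) (nat_lit 0x0) (nat_lit 0x400020001c00400000000100000000000000000000000000) := T_12 (nat_lit 155) (nat_lit 154) (nat_lit 1) (nat_lit 5) (nat_lit 8) L37156 (by decide +kernel)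
theorem L37158 : W_12 (nat_lit 5) (nat_lit 0x2000000013c0080000000000000000000000000000000) (nat_lit 0x0) (nat_lit 0x400020001c00400003000100000000000000000000000000) := T_12 (nat_lit 121) (nat_lit 120) (nat_lit 0) (nat_lit 5) (nat_lit 8) L37157 (by decide +kernel)
theorem L37159 : W_12 (nat_lit 2) (nat_lit 0x2000000013f0089000000000000000000000000000000) (nat_lit 0x0) (nat_lit 0x7000000000000000000000000000000000000000) := D_12 (nat_lit 157) (nat_lit 158) (nat_lit 156) (nat_lit 3) (nat_lit 1) (nat_lit 8) (nat_lit 3) (nat_lit 0) (nat_lit 8) (by decide +kernel)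
theorem L37160 : W_12 (nat_lit 3) (nat_lit 0x2000000013e0089000000000000000000000000000000) (nat_lit 0x0) (nat_lit 0x7000010004000000000000000000000000000000) := T_12 (nat_lit 136) (nat_lit 122) (nat_lit 2) (nat_lit 0) (nat_lit 8) L37159 (by decide +kernel)
theorem L37161 : W_12 (nat_lit 4) (nat_lit 0x2000000013e0081000000000000000000000000000000) (nat_lit 0x0) (nat_lit 0x700001001c000000000000000000000000000000) := T_12 (nat_lit 123) (nat_lit 124) (nat_lit 2) (nat_lit 1) (nat_lit 8) L37160 (by decide +kernel)
theorem L37162 : W_12 (nat_lit 5) (nat_lit 0x2000000013c0081000000000000000000000000000000) (nat_lit 0x0) (nat_lit 0x700003001c800000000000000000000000000000) := T_12 (nat_lit 137) (nat_lit 119) (nat_lit 0) (nat_lit 4) (nat_lit 8) L37161 (by decide +kernel)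
theorem L37163 : W_12 (nat_lit 6) (nat_lit 0x2000000013c0080000000000000000000000000000000) (nat_lit 0x0) (nat_lit 0x700003001f800000000000000000000000000000) := T_12 (nat_lit 120) (nat_lit 121) (nat_lit 0) (nat_lit 5) (nat_lit 8) L37162 (by decide +kernel)
theorem L37164 : W_12 (nat_lit 10) (nat_lit 0x200000001380080000000000000000000000000000000) (nat_lit 0x0) (nat_lit 0x600030007e0047001f800380014000000000000000000000) := Q_12 (nat_lit 138) (C_12 L37104 (C_12 L37137 (C_12 L37143 (C_12 L37146 (C_12 L37151 (C_12 L37155 (C_12 L37158 (C_12 L37163 N_12)))))))) (by decide +kernel)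
theorem L37169 : W_12 (nat_lit 4) (nat_lit 0x2000010013c0080000000000000000000000000000000) (nat_lit 0x0) (nat_lit 0x40002000200003001c000400020000000000000000000000) := Q_12 (nat_lit 123) (C_12 L37166 (C_12 L33747 (C_12 L37168 N_12))) (by decide +kernel)
theorem L37171 : W_12 (nat_lit 5) (nat_lit 0x2000000013c0080000000000000000000000000000000) (nat_lit 0x0) (nat_lit 0x400020003c0043001c000400020000000000000000000000) := Q_12 (nat_lit 156) (C_12 L37169 (C_12 L37170 N_12)) (by decide +kernel)
theorem L37172 : W_12 (nat_lit 2) (nat_lit 0x2000000013e008a000000000000000000000000000000) (nat_lit 0x0) (nat_lit 0x410004000000000000000000000000000000) := D_12 (nat_lit 122) (nat_lit 136) (nat_lit 142) (nat_lit 2) (nat_lit 0) (nat_lit 8) (nat_lit 0) (nat_lit 6) (nat_lit 8) (by decide +kernel)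
theorem L37173 : W_12 (nat_lit 3) (nat_lit 0x2000000013c008a000000000000000000000000000000) (nat_lit 0x0) (nat_lit 0x430014000000000000000000000000000000) := T_12 (nat_lit 137) (nat_lit 124) (nat_lit 2) (nat_lit 1) (nat_lit 8) L37172 (by decide +kernel)
theorem L37174 : W_12 (nat_lit 4) (nat_lit 0x2000000013c0088000000000000000000000000000000) (nat_lit 0x0) (nat_lit 0x430017000000000000000000000000000000) := T_12 (nat_lit 121) (nat_lit 120) (nat_lit 0) (nat_lit 5) (nat_lit 8) L37173 (by decide +kernel)
theorem L37182 : W_12 (nat_lit 6) (nat_lit 0x2000000013c0088000000000000000000000000000000) (nat_lit 0x0) (nat_lit 0x400020003000030007800500028000000000000000000000) := Q_12 (nat_lit 156) (C_12 L37168 (C_12 L33747 (C_12 L37177 (C_12 L37181 N_12)))) (by decide +kernel)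
theorem L37183 : W_12 (nat_lit 4) (nat_lit 0x2000000013c0088000000000000000000000000000000) (nat_lit 0x0) (nat_lit 0x400020003000030014000400020000000000000000000000) := Q_12 (nat_lit 156) (C_12 L37168 (C_12 L33747 (C_12 L37166 N_12))) (by decide +kernel)
theorem L37203 : W_12 (nat_lit 2) (nat_lit 0x2000000013c008a000400030001000000000000000000) (nat_lit 0x0) (nat_lit 0x40002000100000000000000) := D_12 (nat_lit 73) (nat_lit 56) (nat_lit 90) (nat_lit 6) (nat_lit 4) (nat_lit 7) (nat_lit 6) (nat_lit 4) (nat_lit 8) (by decide +kernel)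
theorem L37204 : W_12 (nat_lit 3) (nat_lit 0x2000000013c008a000400030000000000000000000000) (nat_lit 0x0) (nat_lit 0x10000000040003000100000000000000) := T_12 (nat_lit 72) (nat_lit 124) (nat_lit 7) (nat_lit 4) (nat_lit 4) L37203 (by decide +kernel)
theorem L37205 : W_12 (nat_lit 4) (nat_lit 0x2000000013c008a000400020000000000000000000000) (nat_lit 0x0) (nat_lit 0x10000000050003800100000000000000) := T_12 (nat_lit 88) (nat_lit 71) (nat_lit 4) (nat_lit 4) (nat_lit 8) L37204 (by decide +kernel)
theorem L37206 : W_12 (nat_lit 5) (nat_lit 0x2000000013c008a000400000000000000000000000000) (nat_lit 0x0) (nat_lit 0x1000000010000000070003800100000000000000) := T_12 (nat_lit 89) (nat_lit 156) (nat_lit 5) (nat_lit 4) (nat_lit 5) L37205 (by decide +kernel)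
theorem L37207 : W_12 (nat_lit 6) (nat_lit 0x2000000013c0088000400000000000000000000000000) (nat_lit 0x0) (nat_lit 0x1000000013000000070003800100000000000000) := T_12 (nat_lit 121) (nat_lit 120) (nat_lit 0) (nat_lit 5) (nat_lit 8) L37206 (by decide +kernel)
theorem L37208 : W_12 (nat_lit 9) (nat_lit 0x2000000013c0088000000000000000000000000000000) (nat_lit 0x0) (nat_lit 0x60003000400017001f80078003800140000000000000) := Q_12 (nat_lit 106) (C_12 L37186 (C_12 L37189 (C_12 L37196 (C_12 L37202 (C_12 L37207 N_12))))) (by decide +kernel)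
theorem L37209 : W_12 (nat_lit 2) (nat_lit 0x2000000013c0089000000000000000000000000000000) (nat_lit 0x0) (nat_lit 0x20010800000000000000000000000000000) := D_12 (nat_lit 137) (nat_lit 124) (nat_lit 119) (nat_lit 2) (nat_lit 1) (nat_lit 8) (nat_lit 0) (nat_lit 4) (nat_lit 8) (by decide +kernel)
theorem L37210 : W_12 (nat_lit 3) (nat_lit 0x2000000013c0088000000000000000000000000000000) (nat_lit 0x0) (nat_lit 0x20013800000000000000000000000000000) := T_12 (nat_lit 120) (nat_lit 121) (nat_lit 0) (nat_lit 5) (nat_lit 8) L37209 (by decide +kernel)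
theorem L37211 : W_12 (nat_lit 10) (nat_lit 0x2000000013c0080000000000000000000000000000000) (nat_lit 0x0) (nat_lit 0x40006000300043001f801f80078003800140000000000000) := Q_12 (nat_lit 123) (C_12 L37174 (C_12 L37182 (C_12 L37183 (C_12 L37208 (C_12 L37210 N_12))))) (by decide +kernel)
theorem L37212 : W_12 (nat_lit 11) (nat_lit 0x200000001380080000000000000000000000000000000) (nat_lit 0x0) (nat_lit 0x600070003c0047001f801f8007c003800140000000000000) := Q_12 (nat_lit 138) (C_12 L37171 (C_12 L37158 (C_12 L37104 (C_12 L37211 (C_12 L37155 N_12))))) (by decide +kernel)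
theorem L37213 : W_12 (nat_lit 6) (nat_lit 0x200000001380080000000000000000000000000000000) (nat_lit 0x0) (nat_lit 0x40002000fe00460003800100000000000000000000000000) := Q_12 (nat_lit 138) (C_12 L37158 (C_12 L37111 (C_12 L33742 N_12))) (by decide +kernel)
theorem L37214 : W_12 (nat_lit 2) (nat_lit 0x2000080013c0082000000000000000000000000000000) (nat_lit 0x0) (nat_lit 0x10000400004000000000000000000000000000000) := D_12 (nat_lit 142) (nat_lit 122) (nat_lit 160) (nat_lit 0) (nat_lit 6) (nat_lit 8) (nat_lit 3) (nat_lit 3) (nat_lit 8) (by decide +kernel)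
theorem L37215 : W_12 (nat_lit 3) (nat_lit 0x2000000013c0082000000000000000000000000000000) (nat_lit 0x0) (nat_lit 0x1c000400004000000000000000000000000000000) := T_12 (nat_lit 159) (nat_lit 158) (nat_lit 3) (nat_lit 2) (nat_lit 8) L37214 (by decide +kernel)
theorem L37216 : W_12 (nat_lit 4) (nat_lit 0x2000000013c0080000000000000000000000000000000) (nat_lit 0x0) (nat_lit 0x1c000400007000000000000000000000000000000) := T_12 (nat_lit 121) (nat_lit 120) (nat_lit 0) (nat_lit 5) (nat_lit 8) L37215 (by decide +kernel)
theorem L37217 : W_12 (nat_lit 2) (nat_lit 0x2000088013c0080000000000000000000000000000000) (nat_lit 0x0) (nat_lit 0x11000400000000000000000000000000000000000) := D_12 (nat_lit 142) (nat_lit 156) (nat_lit 160) (nat_lit 1) (nat_lit 6) (nat_lit 8) (nat_lit 3) (nat_lit 3) (nat_lit 8) (by decide +kernel)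
theorem L37218 : W_12 (nat_lit 3) (nat_lit 0x2000008013c0080000000000000000000000000000000) (nat_lit 0x0) (nat_lit 0x1d000400000000000000000000000000000000000) := T_12 (nat_lit 159) (nat_lit 158) (nat_lit 3) (nat_lit 2) (nat_lit 8) L37217 (by decide +kernel)
theorem L37219 : W_12 (nat_lit 4) (nat_lit 0x2000000013c0080000000000000000000000000000000) (nat_lit 0x0) (nat_lit 0x1dc00400000000000000000000000000000000000) := T_12 (nat_lit 155) (nat_lit 154) (nat_lit 1) (nat_lit 5) (nat_lit 8) L37218 (by decide +kernel)
theorem L37220 : W_12 (nat_lit 10) (nat_lit 0x200000001380080000000000000000000000000000000) (nat_lit 0x0) (nat_lit 0x60003001dc0047001f800380014000000000000000000000) := Q_12 (nat_lit 138) (C_12 L37158 (C_12 L37104 (C_12 L37216 (C_12 L37219 N_12)))) (by decide +kernel)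
theorem L37221 : W_12 (nat_lit 2) (nat_lit 0x2000040013c0088000000000000000000000000000000) (nat_lit 0x0) (nat_lit 0x2000020010000000000000000000000000000000) := D_12 (nat_lit 137) (nat_lit 157) (nat_lit 124) (nat_lit 3) (nat_lit 1) (nat_lit 8) (nat_lit 2) (nat_lit 1) (nat_lit 8) (by decide +kernel)
theorem L37222 : W_12 (nat_lit 3) (nat_lit 0x2000000013c0088000000000000000000000000000000) (nat_lit 0x0) (nat_lit 0xe000020010000000000000000000000000000000) := T_12 (nat_lit 158) (nat_lit 159) (nat_lit 3) (nat_lit 2) (nat_lit 8) L37221 (by decide +kernel)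
theorem L37232 : W_12 (nat_lit 5) (nat_lit 0x2000000013c0080000000000000000000000000000000) (nat_lit 0x0) (nat_lit 0x14000a000f00003001c000400020000000000000000000000) := Q_12 (nat_lit 123) (C_12 L37222 (C_12 L37183 (C_12 L37225 (C_12 L37228 (C_12 L37231 N_12))))) (by decide +kernel)
theorem L37233 : W_12 (nat_lit 11) (nat_lit 0x200000001380080000000000000000000000000000000) (nat_lit 0x0) (nat_lit 0x14000e001f00047001f801f80078003800140000000000000) := Q_12 (nat_lit 138) (C_12 L37211 (C_12 L37216 (C_12 L37163 (C_12 L37232 (C_12 L33742 N_12))))) (by decide +kernel)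
theorem L37238 : W_12 (nat_lit 2) (nat_lit 0x200001001380084000000000000000000000000000000) (nat_lit 0x0) (nat_lit 0x800400002000000000000000000000000000000) := D_12 (nat_lit 142) (nat_lit 121) (nat_lit 155) (nat_lit 0) (nat_lit 6) (nat_lit 8) (nat_lit 1) (nat_lit 6) (nat_lit 8) (by decide +kernel)
theorem L37239 : W_12 (nat_lit 2) (nat_lit 0x220001001380084000000000000000000000000000000) (nat_lit 0x0) (nat_lit 0x400000000000000008000400000000000000000000000000) := D_12 (nat_lit 123) (nat_lit 106) (nat_lit 190) (nat_lit 6) (nat_lit 3) (nat_lit 10) (nat_lit 6) (nat_lit 3) (nat_lit 11) (by decide +kernel)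
theorem L37240 : W_12 (nat_lit 2) (nat_lit 0x270001801380086800000000000000000000000000000) (nat_lit 0x0) (nat_lit 0x80000600000000000000000000000000000000000000) := D_12 (nat_lit 154) (nat_lit 153) (nat_lit 175) (nat_lit 3) (nat_lit 0) (nat_lit 9) (nat_lit 0) (nat_lit 5) (nat_lit 10) (by decide +kernel)
theorem L37241 : W_12 (nat_lit 3) (nat_lit 0x270001001380086800000000000000000000000000000) (nat_lit 0x0) (nat_lit 0x80000e00000000000200000000000000000000000000) := T_12 (nat_lit 155) (nat_lit 105) (nat_lit 5) (nat_lit 3) (nat_lit 6) L37240 (by decide +kernel)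
theorem L37242 : W_12 (nat_lit 4) (nat_lit 0x260001001380086800000000000000000000000000000) (nat_lit 0x0) (nat_lit 0x200090000e00000000000200000000000000000000000000) := T_12 (nat_lit 172) (nat_lit 189) (nat_lit 5) (nat_lit 3) (nat_lit 7) L37241 (by decide +kernel)
theorem L37243 : W_12 (nat_lit 5) (nat_lit 0x220001001380086800000000000000000000000000000) (nat_lit 0x0) (nat_lit 0xa000d0000e00000000000200000000000000000000000000) := T_12 (nat_lit 174) (nat_lit 191) (nat_lit 7) (nat_lit 3) (nat_lit 7) L37242 (by decide +kernel)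
theorem L37244 : W_12 (nat_lit 6) (nat_lit 0x220001001380086000000000000000000000000000000) (nat_lit 0x0) (nat_lit 0xa000d0000e00000001800200000000000000000000000000) := T_12 (nat_lit 119) (nat_lit 120) (nat_lit 3) (nat_lit 0) (nat_lit 7) L37243 (by decide +kernel)
theorem L37245 : W_12 (nat_lit 7) (nat_lit 0x220001001380084000000000000000000000000000000) (nat_lit 0x0) (nat_lit 0xa000d0000e00000003800300000000000000000000000000) := T_12 (nat_lit 121) (nat_lit 104) (nat_lit 4) (nat_lit 3) (nat_lit 10) L37244 (by decide +kernel)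
theorem L37246 : W_12 (nat_lit 8) (nat_lit 0x200001001380084000000000000000000000000000000) (nat_lit 0x0) (nat_lit 0xe000f0000e0000000b800700000000000000000000000000) := Q_12 (nat_lit 173) (C_12 L37239 (C_12 L37245 N_12)) (by decide +kernel)
theorem L37254 : W_12 (nat_lit 9) (nat_lit 0x200001001380080000000000000000000000000000000) (nat_lit 0x0) (nat_lit 0xe000f0000e0040001f8007c0028000000000000000000000) := Q_12 (nat_lit 122) (C_12 L37237 (C_12 L37238 (C_12 L37246 (C_12 L37253 N_12)))) (by decide +kernel)
theorem L37274 : W_12 (nat_lit 2) (nat_lit 0x270003001380086800000000000000000000000000000) (nat_lit 0x0) (nat_lit 0xc004000000000000000000000000000000000000000) := D_12 (nat_lit 171) (nat_lit 158) (nat_lit 170) (nat_lit 2) (nat_lit 1) (nat_lit 10) (nat_lit 2) (nat_lit 0) (nat_lit 10) (by decide +kernel)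
theorem L37275 : W_12 (nat_lit 3) (nat_lit 0x260003001380086800000000000000000000000000000) (nat_lit 0x0) (nat_lit 0x20001c004000000000000000000000000000000000000000) := T_12 (nat_lit 172) (nat_lit 189) (nat_lit 5) (nat_lit 3) (nat_lit 7) L37274 (by decide +kernel)
theorem L37276 : W_12 (nat_lit 4) (nat_lit 0x260001001380086800000000000000000000000000000) (nat_lit 0x0) (nat_lit 0x20001c006000000000000200000000000000000000000000) := T_12 (nat_lit 157) (nat_lit 105) (nat_lit 7) (nat_lit 3) (nat_lit 6) L37275 (by decide +kernel)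
theorem L37277 : W_12 (nat_lit 5) (nat_lit 0x220001001380086800000000000000000000000000000) (nat_lit 0x0) (nat_lit 0xa0005c006000000000000200000000000000000000000000) := T_12 (nat_lit 174) (nat_lit 191) (nat_lit 7) (nat_lit 3) (nat_lit 7) L37276 (by decide +kernel)
theorem L37278 : W_12 (nat_lit 6) (nat_lit 0x220001001380086000000000000000000000000000000) (nat_lit 0x0) (nat_lit 0xa0005c006000000001800200000000000000000000000000) := T_12 (nat_lit 119) (nat_lit 120) (nat_lit 3) (nat_lit 0) (nat_lit 7) L37277 (by decide +kernel)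
theorem L37279 : W_12 (nat_lit 7) (nat_lit 0x220001001380084000000000000000000000000000000) (nat_lit 0x0) (nat_lit 0xa0005c006000000003800300000000000000000000000000) := T_12 (nat_lit 121) (nat_lit 104) (nat_lit 4) (nat_lit 3) (nat_lit 10) L37278 (by decide +kernel)
theorem L37286 : W_12 (nat_lit 2) (nat_lit 0x80008000c00230001001380086800000000000000000000000000000) (nat_lit 0x0) (nat_lit 0x1000100000000000000000800000000000000000000000000000000000000) := D_12 (nat_lit 224) (nat_lit 155) (nat_lit 240) (nat_lit 4) (nat_lit 3) (nat_lit 13) (nat_lit 5) (nat_lit 3) (nat_lit 10) (by decide +kernel)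
theorem L37287 : W_12 (nat_lit 3) (nat_lit 0x8000c00230001001380086800000000000000000000000000000) (nat_lit 0x0) (nat_lit 0x1000180004000000000000800000000000000000000000000000000000000) := T_12 (nat_lit 223) (nat_lit 206) (nat_lit 5) (nat_lit 3) (nat_lit 9) L37286 (by decide +kernel)
theorem L37288 : W_12 (nat_lit 4) (nat_lit 0xc00230001001380086800000000000000000000000000000) (nat_lit 0x0) (nat_lit 0x100018000c000000000002800000000000000000000000000000000000000) := T_12 (nat_lit 207) (nat_lit 157) (nat_lit 6) (nat_lit 3) (nat_lit 12) L37287 (by decide +kernel)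
theorem L37289 : W_12 (nat_lit 5) (nat_lit 0x800230001001380086800000000000000000000000000000) (nat_lit 0x0) (nat_lit 0x100018001c000400000002800000000000000000000000000000000000000) := T_12 (nat_lit 190) (nat_lit 208) (nat_lit 7) (nat_lit 3) (nat_lit 8) L37288 (by decide +kernel)
theorem L37290 : W_12 (nat_lit 6) (nat_lit 0x230001001380086800000000000000000000000000000) (nat_lit 0x0) (nat_lit 0x100018001c000c00040002800000000000000000000000000000000000000) := T_12 (nat_lit 191) (nat_lit 174) (nat_lit 7) (nat_lit 3) (nat_lit 7) L37289 (by decide +kernel)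
theorem L37291 : W_12 (nat_lit 7) (nat_lit 0x220001001380086800000000000000000000000000000) (nat_lit 0x0) (nat_lit 0x100018001c000e00050002800000000000000000000000000000000000000) := T_12 (nat_lit 172) (nat_lit 189) (nat_lit 5) (nat_lit 3) (nat_lit 7) L37290 (by decide +kernel)
theorem L37292 : W_12 (nat_lit 8) (nat_lit 0x220001001380086000000000000000000000000000000) (nat_lit 0x0) (nat_lit 0x100018001c000e00050002800000001800000000000000000000000000000) := T_12 (nat_lit 119) (nat_lit 120) (nat_lit 3) (nat_lit 0) (nat_lit 7) L37291 (by decide +kernel)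
theorem L37293 : W_12 (nat_lit 9) (nat_lit 0x220001001380084000000000000000000000000000000) (nat_lit 0x0) (nat_lit 0x100018001c000e00050002800000003800100000000000000000000000000) := T_12 (nat_lit 121) (nat_lit 104) (nat_lit 4) (nat_lit 3) (nat_lit 10) L37292 (by decide +kernel)
theorem L37294 : W_12 (nat_lit 10) (nat_lit 0x220001001380080000000000000000000000000000000) (nat_lit 0x0) (nat_lit 0x100018001c000e0005c006800000007800300008000000000000000000000) := Q_12 (nat_lit 122) (C_12 L37270 (C_12 L37273 (C_12 L37279 (C_12 L37282 (C_12 L37285 (C_12 L37293 N_12)))))) (by decide +kernel)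
theorem L37311 : W_12 (nat_lit 5) (nat_lit 0x220001001380080000000000000000000000000000000) (nat_lit 0x0) (nat_lit 0xa0005000280000000f800300008000000000000000000000) := Q_12 (nat_lit 122) (C_12 L37285 (C_12 L37273 (C_12 L37282 (C_12 L37310 N_12)))) (by decide +kernel)
theorem L37315 : W_12 (nat_lit 11) (nat_lit 0x200001001380080000000000000000000000000000000) (nat_lit 0x0) (nat_lit 0x100038001c000f800fc00680000001f800300018000000000000000000000) := Q_12 (nat_lit 173) (C_12 L37258 (C_12 L37265 (C_12 L37294 (C_12 L37301 (C_12 L37307 (C_12 L37311 (C_12 L37314 N_12))))))) (by decide +kernel)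
theorem L37316 : W_12 (nat_lit 6) (nat_lit 0x200001001380086800000000000000000000000000000) (nat_lit 0x0) (nat_lit 0xa0007c006000000000000300000000000000000000000000) := T_12 (nat_lit 173) (nat_lit 104) (nat_lit 4) (nat_lit 3) (nat_lit 10) L37277 (by decide +kernel)
theorem L37317 : W_12 (nat_lit 7) (nat_lit 0x200001001380086000000000000000000000000000000) (nat_lit 0x0) (nat_lit 0xa0007c006000000001800300000000000000000000000000) := T_12 (nat_lit 119) (nat_lit 120) (nat_lit 3) (nat_lit 0) (nat_lit 7) L37316 (by decide +kernel)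
theorem L37318 : W_12 (nat_lit 8) (nat_lit 0x200001001380084000000000000000000000000000000) (nat_lit 0x0) (nat_lit 0xa0007c006000400003800300000000000000000000000000) := T_12 (nat_lit 121) (nat_lit 142) (nat_lit 0) (nat_lit 6) (nat_lit 8) L37317 (by decide +kernel)
theorem L37319 : W_12 (nat_lit 5) (nat_lit 0x200001001380084000000000000000000000000000000) (nat_lit 0x0) (nat_lit 0xc0006000200000000b800700008000000000000000000000) := Q_12 (nat_lit 173) (C_12 L37310 (C_12 L37239 (C_12 L37285 N_12))) (by decide +kernel)
theorem L37336 : W_12 (nat_lit 10) (nat_lit 0x200001001380084000000000000000000000000000000) (nat_lit 0x0) (nat_lit 0x14000e00078001e001e000400018003e00070000000000000000000000) := Q_12 (nat_lit 157) (C_12 L37320 (C_12 L37327 (C_12 L37335 N_12))) (by decide +kernel)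
theorem L37337 : W_12 (nat_lit 11) (nat_lit 0x200001001380080000000000000000000000000000000) (nat_lit 0x0) (nat_lit 0x14000e0007e001fc01e00040001f803f00078000000000000000000000) := Q_12 (nat_lit 122) (C_12 L37237 (C_12 L37318 (C_12 L37319 (C_12 L37336 N_12)))) (by decide +kernel)
theorem L37338 : W_12 (nat_lit 12) (nat_lit 0x200000001380080000000000000000000000000000000) (nat_lit 0x0) (nat_lit 0x10017800fc007f801fc01fe0040001f803fc0078000000000000000000000) := Q_12 (nat_lit 156) (C_12 L37235 (C_12 L37254 (C_12 L37315 (C_12 L37337 N_12)))) (by decide +kernel)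
theorem L37342 : W_12 (nat_lit 2) (nat_lit 0x12002000058013e008d000280000000000000000000000000) (nat_lit 0x0) (nat_lit 0x140008000000000000000000000) := D_12 (nat_lit 104) (nat_lit 102) (nat_lit 87) (nat_lit 3) (nat_lit 0) (nat_lit 6) (nat_lit 4) (nat_lit 3) (nat_lit 9) (by decide +kernel)
theorem L37343 : W_12 (nat_lit 3) (nat_lit 0x12002000048013e008d000280000000000000000000000000) (nat_lit 0x0) (nat_lit 0x1000400000000140008000000000000000000000) := T_12 (nat_lit 156) (nat_lit 142) (nat_lit 1) (nat_lit 6) (nat_lit 8) L37342 (by decide +kernel)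
theorem L37344 : W_12 (nat_lit 4) (nat_lit 0x12002000048013e008d000080000000000000000000000000) (nat_lit 0x0) (nat_lit 0x1000400000000340018000000000000000000000) := T_12 (nat_lit 105) (nat_lit 88) (nat_lit 5) (nat_lit 3) (nat_lit 5) L37343 (by decide +kernel)
theorem L37345 : W_12 (nat_lit 5) (nat_lit 0x12002000048013e008d000000000000000000000000000000) (nat_lit 0x0) (nat_lit 0x10004000000003c001c000000000000000000000) := T_12 (nat_lit 103) (nat_lit 86) (nat_lit 7) (nat_lit 1) (nat_lit 5) L37344 (by decide +kernel)
theorem L37346 : W_12 (nat_lit 6) (nat_lit 0x10002000048013e008d000000000000000000000000000000) (nat_lit 0x0) (nat_lit 0x2000100010004000000003c001c000000000000000000000) := T_12 (nat_lit 189) (nat_lit 172) (nat_lit 6) (nat_lit 2) (nat_lit 11) L37345 (by decide +kernel)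
theorem L37347 : W_12 (nat_lit 7) (nat_lit 0x10002000048013e008c000000000000000000000000000000) (nat_lit 0x0) (nat_lit 0x2000100010004000018003c001c000000000000000000000) := T_12 (nat_lit 120) (nat_lit 119) (nat_lit 0) (nat_lit 4) (nat_lit 8) L37346 (by decide +kernel)
theorem L37348 : W_12 (nat_lit 8) (nat_lit 0x10002000048013e0088000000000000000000000000000000) (nat_lit 0x0) (nat_lit 0x2000100010004100058003c001c000000000000000000000) := T_12 (nat_lit 122) (nat_lit 136) (nat_lit 2) (nat_lit 0) (nat_lit 8) L37347 (by decide +kernel)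
theorem L37349 : W_12 (nat_lit 9) (nat_lit 0x10002000048013c0088000000000000000000000000000000) (nat_lit 0x0) (nat_lit 0x2000100030004300058003c001c000000000000000000000) := T_12 (nat_lit 137) (nat_lit 157) (nat_lit 3) (nat_lit 1) (nat_lit 8) L37348 (by decide +kernel)
theorem L37350 : W_12 (nat_lit 10) (nat_lit 0x10002000040013c0088000000000000000000000000000000) (nat_lit 0x0) (nat_lit 0x200010003c004300058003c001c000000000000000000000) := T_12 (nat_lit 155) (nat_lit 154) (nat_lit 1) (nat_lit 5) (nat_lit 8) L37349 (by decide +kernel)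
theorem L37351 : W_12 (nat_lit 11) (nat_lit 0x2000040013c0088000000000000000000000000000000) (nat_lit 0x0) (nat_lit 0x1200090003c004300058003c001c000000000000000000000) := T_12 (nat_lit 192) (nat_lit 175) (nat_lit 4) (nat_lit 5) (nat_lit 11) L37350 (by decide +kernel)
theorem L37354 : W_12 (nat_lit 4) (nat_lit 0x10002000058013c0088000000000000000000000000000000) (nat_lit 0x0) (nat_lit 0x10000000030014000200010000000000000000000000) := T_12 (nat_lit 137) (nat_lit 124) (nat_lit 2) (nat_lit 1) (nat_lit 8) L37353 (by decide +kernel)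
theorem L37355 : W_12 (nat_lit 5) (nat_lit 0x10002000048013c0088000000000000000000000000000000) (nat_lit 0x0) (nat_lit 0x10001000430014000200010000000000000000000000) := T_12 (nat_lit 156) (nat_lit 142) (nat_lit 1) (nat_lit 6) (nat_lit 8) L37354 (by decide +kernel)
theorem L37356 : W_12 (nat_lit 6) (nat_lit 0x2000048013c0088000000000000000000000000000000) (nat_lit 0x0) (nat_lit 0x1000090001000430014000200010000000000000000000000) := T_12 (nat_lit 192) (nat_lit 175) (nat_lit 4) (nat_lit 5) (nat_lit 11) L37355 (by decide +kernel)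
theorem L37357 : W_12 (nat_lit 7) (nat_lit 0x2000040013c0088000000000000000000000000000000) (nat_lit 0x0) (nat_lit 0x1000090001c00430014000200010000000000000000000000) := T_12 (nat_lit 155) (nat_lit 154) (nat_lit 1) (nat_lit 5) (nat_lit 8) L37356 (by decide +kernel)
theorem L37360 : W_12 (nat_lit 7) (nat_lit 0x2000048013c0088000000000000000000000000000000) (nat_lit 0x0) (nat_lit 0x16001b8003000400004000200000000000000000000000000) := T_12 (nat_lit 175) (nat_lit 192) (nat_lit 4) (nat_lit 5) (nat_lit 11) L37359 (by decide +kernel)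
theorem L37361 : W_12 (nat_lit 8) (nat_lit 0x2000040013c0088000000000000000000000000000000) (nat_lit 0x0) (nat_lit 0x16001b8003c00400004000200000000000000000000000000) := T_12 (nat_lit 155) (nat_lit 154) (nat_lit 1) (nat_lit 5) (nat_lit 8) L37360 (by decide +kernel)
theorem L37362 : W_12 (nat_lit 12) (nat_lit 0x200004001380088000000000000000000000000000000) (nat_lit 0x0) (nat_lit 0x16001b8003c004700158003c001c000000000000000000000) := Q_12 (nat_lit 138) (C_12 L37221 (C_12 L37351 (C_12 L37357 (C_12 L37361 N_12)))) (by decide +kernel)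
theorem L37370 : W_12 (nat_lit 5) (nat_lit 0x200004001380088000000000000000000000000000000) (nat_lit 0x0) (nat_lit 0x400020001e00440004000400020000000000000000000000) := Q_12 (nat_lit 156) (C_12 L37364 (C_12 L37367 (C_12 L37369 N_12))) (by decide +kernel)
theorem L37371 : W_12 (nat_lit 13) (nat_lit 0x200004001380080000000000000000000000000000000) (nat_lit 0x0) (nat_lit 0x16001b8003e0047001d8007c003c000000000000000000000) := Q_12 (nat_lit 123) (C_12 L37341 (C_12 L37362 (C_12 L37370 N_12))) (by decide +kernel)
theorem L37372 : W_12 (nat_lit 2) (nat_lit 0x20000c001380080000000000000000000000000000000) (nat_lit 0x0) (nat_lit 0x30000400000000000000000000000000000000000) := D_12 (nat_lit 160) (nat_lit 161) (nat_lit 142) (nat_lit 0) (nat_lit 8) (nat_lit 9) (nat_lit 3) (nat_lit 3) (nat_lit 8) (by decide +kernel)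
theorem L37373 : W_12 (nat_lit 3) (nat_lit 0x200004001380080000000000000000000000000000000) (nat_lit 0x0) (nat_lit 0x38000440000000000000000000000000000000000) := T_12 (nat_lit 159) (nat_lit 138) (nat_lit 3) (nat_lit 2) (nat_lit 8) L37372 (by decide +kernel)
theorem L37381 : W_12 (nat_lit 2) (nat_lit 0x1800280016001380080000000000000000000000000000000) (nat_lit 0x0) (nat_lit 0x40000000000014000000000000000000000000000000) := D_12 (nat_lit 174) (nat_lit 124) (nat_lit 122) (nat_lit 6) (nat_lit 4) (nat_lit 11) (nat_lit 4) (nat_lit 4) (nat_lit 11) (by decide +kernel)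
theorem L37382 : W_12 (nat_lit 3) (nat_lit 0x1000280016001380080000000000000000000000000000000) (nat_lit 0x0) (nat_lit 0x10000800040000000000014000000000000000000000000000000) := T_12 (nat_lit 191) (nat_lit 208) (nat_lit 5) (nat_lit 5) (nat_lit 8) L37381 (by decide +kernel)
theorem L37383 : W_12 (nat_lit 4) (nat_lit 0x280016001380080000000000000000000000000000000) (nat_lit 0x0) (nat_lit 0x30001800040000000000014000000000000000000000000000000) := T_12 (nat_lit 192) (nat_lit 209) (nat_lit 4) (nat_lit 5) (nat_lit 12) L37382 (by decide +kernel)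
theorem L37384 : W_12 (nat_lit 5) (nat_lit 0x280006001380080000000000000000000000000000000) (nat_lit 0x0) (nat_lit 0x30001800040018000000014000000000000000000000000000000) := T_12 (nat_lit 160) (nat_lit 159) (nat_lit 0) (nat_lit 7) (nat_lit 9) L37383 (by decide +kernel)
theorem L37395 : W_12 (nat_lit 6) (nat_lit 0x280004001380080000000000000000000000000000000) (nat_lit 0x0) (nat_lit 0x3000180014001bc00400014000000000000000000000000000000) := Q_12 (nat_lit 157) (C_12 L37384 (C_12 L37387 (C_12 L37391 (C_12 L37394 N_12)))) (by decide +kernel)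
theorem L37396 : W_12 (nat_lit 2) (nat_lit 0x380004001380098000800000000000000000000000000) (nat_lit 0x0) (nat_lit 0x800040002000000000000000000000000000000000000000) := D_12 (nat_lit 174) (nat_lit 157) (nat_lit 191) (nat_lit 6) (nat_lit 4) (nat_lit 10) (nat_lit 5) (nat_lit 5) (nat_lit 7) (by decide +kernel)
theorem L37397 : W_12 (nat_lit 3) (nat_lit 0x380004001380098000000000000000000000000000000) (nat_lit 0x0) (nat_lit 0x80004000a000000000000800000000000000000000000000) := T_12 (nat_lit 107) (nat_lit 159) (nat_lit 7) (nat_lit 5) (nat_lit 6) L37396 (by decide +kernel)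
theorem L37398 : W_12 (nat_lit 4) (nat_lit 0x280004001380098000000000000000000000000000000) (nat_lit 0x0) (nat_lit 0x280014000a000000000000800000000000000000000000000) := T_12 (nat_lit 176) (nat_lit 193) (nat_lit 7) (nat_lit 5) (nat_lit 7) L37397 (by decide +kernel)
theorem L37399 : W_12 (nat_lit 5) (nat_lit 0x280004001380090000000000000000000000000000000) (nat_lit 0x0) (nat_lit 0x280014000a000000008000c00000000000000000000000000) := T_12 (nat_lit 123) (nat_lit 106) (nat_lit 4) (nat_lit 5) (nat_lit 10) L37398 (by decide +kernel)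
theorem L37403 : W_12 (nat_lit 2) (nat_lit 0x380004001380098000800000000000000000000000000) (nat_lit 0x0) (nat_lit 0x2000000000000000040002000000000000000000) := D_12 (nat_lit 90) (nat_lit 73) (nat_lit 157) (nat_lit 5) (nat_lit 5) (nat_lit 4) (nat_lit 5) (nat_lit 5) (nat_lit 5) (by decide +kernel)
theorem L37404 : W_12 (nat_lit 3) (nat_lit 0x380004001380098000000000000000000000000000000) (nat_lit 0x0) (nat_lit 0xa000000000000800040002000000000000000000) := T_12 (nat_lit 107) (nat_lit 159) (nat_lit 7) (nat_lit 5) (nat_lit 6) L37403 (by decide +kernel)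
theorem L37405 : W_12 (nat_lit 4) (nat_lit 0x280004001380098000000000000000000000000000000) (nat_lit 0x0) (nat_lit 0x200010000a000000000000800040002000000000000000000) := T_12 (nat_lit 176) (nat_lit 193) (nat_lit 7) (nat_lit 5) (nat_lit 7) L37404 (by decide +kernel)
theorem L37406 : W_12 (nat_lit 5) (nat_lit 0x280004001380090000000000000000000000000000000) (nat_lit 0x0) (nat_lit 0x200010000a000000008000c00040002000000000000000000) := T_12 (nat_lit 123) (nat_lit 106) (nat_lit 4) (nat_lit 5) (nat_lit 10) L37405 (by decide +kernel)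
theorem L37413 : W_12 (nat_lit 2) (nat_lit 0x40003c0014001380098000000000000000000000000000000) (nat_lit 0x0) (nat_lit 0x2000a000000000000000000000000000000000000000) := D_12 (nat_lit 159) (nat_lit 173) (nat_lit 157) (nat_lit 2) (nat_lit 3) (nat_lit 10) (nat_lit 0) (nat_lit 7) (nat_lit 9) (by decide +kernel)
theorem L37414 : W_12 (nat_lit 3) (nat_lit 0x40003c0004001380098000000000000000000000000000000) (nat_lit 0x0) (nat_lit 0x2003a000000000000000000000000000000000000000) := T_12 (nat_lit 160) (nat_lit 161) (nat_lit 2) (nat_lit 4) (nat_lit 10) L37413 (by decide +kernel)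
theorem L37415 : W_12 (nat_lit 4) (nat_lit 0x3c0004001380098000000000000000000000000000000) (nat_lit 0x0) (nat_lit 0xc00002003a000000000000000000000000000000000000000) := T_12 (nat_lit 194) (nat_lit 195) (nat_lit 3) (nat_lit 4) (nat_lit 10) L37414 (by decide +kernel)
theorem L37416 : W_12 (nat_lit 5) (nat_lit 0x2c0004001380098000000000000000000000000000000) (nat_lit 0x0) (nat_lit 0xe00012003a000000000000000000000000000000000000000) := T_12 (nat_lit 176) (nat_lit 193) (nat_lit 7) (nat_lit 5) (nat_lit 7) L37415 (by decide +kernel)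
theorem L37417 : W_12 (nat_lit 6) (nat_lit 0x2c0004001380090000000000000000000000000000000) (nat_lit 0x0) (nat_lit 0xe00012003a000000008000400000000000000000000000000) := T_12 (nat_lit 123) (nat_lit 106) (nat_lit 4) (nat_lit 5) (nat_lit 10) L37416 (by decide +kernel)
theorem L37418 : W_12 (nat_lit 7) (nat_lit 0x280004001380090000000000000000000000000000000) (nat_lit 0x0) (nat_lit 0xe80016003a000000008000400000000000000000000000000) := T_12 (nat_lit 174) (nat_lit 191) (nat_lit 5) (nat_lit 5) (nat_lit 7) L37417 (by decide +kernel)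
theorem L37419 : W_12 (nat_lit 8) (nat_lit 0x280004001380080000000000000000000000000000000) (nat_lit 0x0) (nat_lit 0xe80016003a000000018000c00060002000000000000000000) := Q_12 (nat_lit 124) (C_12 L37399 (C_12 L37402 (C_12 L37406 (C_12 L37409 (C_12 L37412 (C_12 L37418 N_12)))))) (by decide +kernel)
theorem L37420 : W_12 (nat_lit 9) (nat_lit 0x200004001380080000000000000000000000000000000) (nat_lit 0x0) (nat_lit 0x80007000f8001e003bc0040001c000c00060002000000000000000000) := Q_12 (nat_lit 175) (C_12 L37376 (C_12 L37380 (C_12 L37395 (C_12 L37419 N_12)))) (by decide +kernel)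
theorem L37421 : W_12 (nat_lit 14) (nat_lit 0x200000001380080000000000000000000000000000000) (nat_lit 0x0) (nat_lit 0x80007000fe001f803fe0047001d800fc007c002000000000000000000) := Q_12 (nat_lit 158) (C_12 L37339 (C_12 L37371 (C_12 L37373 (C_12 L37420 N_12)))) (by decide +kernel)
theorem L37422 : W_12 (nat_lit 2) (nat_lit 0x240003001380080000000000000000000000000000000) (nat_lit 0x0) (nat_lit 0x800000000000000004000200000000000000000000000000) := D_12 (nat_lit 122) (nat_lit 105) (nat_lit 191) (nat_lit 7) (nat_lit 3) (nat_lit 6) (nat_lit 4) (nat_lit 4) (nat_lit 11) (by decide +kernel)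
theorem L37423 : W_12 (nat_lit 2) (nat_lit 0x240003001380080000000000000000000000000000000) (nat_lit 0x0) (nat_lit 0x10000800000000000000010000000000000000000000000000000) := D_12 (nat_lit 191) (nat_lit 208) (nat_lit 124) (nat_lit 4) (nat_lit 4) (nat_lit 12) (nat_lit 6) (nat_lit 4) (nat_lit 11) (by decide +kernel)
theorem L37424 : W_12 (nat_lit 6) (nat_lit 0x200003001380080000000000000000000000000000000) (nat_lit 0x0) (nat_lit 0x100018001c000400000001c000600010000000000000000000000) := Q_12 (nat_lit 174) (C_12 L37422 (C_12 L34161 (C_12 L37423 N_12))) (by decide +kernel)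
theorem L37425 : W_12 (nat_lit 2) (nat_lit 0x10002c0003401380080000200000000000000000000000000) (nat_lit 0x0) (nat_lit 0x400020000000000004000000000000000000000000000000000000000) := D_12 (nat_lit 209) (nat_lit 226) (nat_lit 158) (nat_lit 4) (nat_lit 5) (nat_lit 13) (nat_lit 4) (nat_lit 5) (nat_lit 12) (by decide +kernel)
theorem L37426 : W_12 (nat_lit 3) (nat_lit 0x2c0003401380080000200000000000000000000000000) (nat_lit 0x0) (nat_lit 0x400020001000000004000000008000000000000000000000000000000) := T_12 (nat_lit 192) (nat_lit 123) (nat_lit 7) (nat_lit 4) (nat_lit 7) L37425 (by decide +kernel)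
theorem L37427 : W_12 (nat_lit 4) (nat_lit 0x240003401380080000200000000000000000000000000) (nat_lit 0x0) (nat_lit 0x400020001000180004000000008000000000000000000000000000000) := T_12 (nat_lit 175) (nat_lit 176) (nat_lit 0) (nat_lit 7) (nat_lit 10) L37426 (by decide +kernel)
theorem L37428 : W_12 (nat_lit 5) (nat_lit 0x240003001380080000200000000000000000000000000) (nat_lit 0x0) (nat_lit 0x400020001000180004c00000008000000000000000000000000000000) := T_12 (nat_lit 154) (nat_lit 155) (nat_lit 2) (nat_lit 1) (nat_lit 9) L37427 (by decide +kernel)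
theorem L37429 : W_12 (nat_lit 6) (nat_lit 0x240003001380080000000000000000000000000000000) (nat_lit 0x0) (nat_lit 0x400020001000180004c0000000c000200000000000000000000000000) := T_12 (nat_lit 105) (nat_lit 122) (nat_lit 7) (nat_lit 3) (nat_lit 6) L37428 (by decide +kernel)
theorem L37430 : W_12 (nat_lit 7) (nat_lit 0x200003001380080000000000000000000000000000000) (nat_lit 0x0) (nat_lit 0x4000300018001c0004c0000001c000200000000000000000000000000) := Q_12 (nat_lit 174) (C_12 L37423 (C_12 L37422 (C_12 L37429 N_12))) (by decide +kernel)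
theorem L37431 : W_12 (nat_lit 2) (nat_lit 0x2c0003401380088000200000000000000000000000000) (nat_lit 0x0) (nat_lit 0x400020000000000000000400000000000000000000000000) := D_12 (nat_lit 173) (nat_lit 190) (nat_lit 106) (nat_lit 6) (nat_lit 3) (nat_lit 11) (nat_lit 5) (nat_lit 4) (nat_lit 6) (by decide +kernel)
theorem L37432 : W_12 (nat_lit 3) (nat_lit 0x2c0003401380080000200000000000000000000000000) (nat_lit 0x0) (nat_lit 0x1400020000000000008000400000000000000000000000000) := T_12 (nat_lit 123) (nat_lit 192) (nat_lit 7) (nat_lit 4) (nat_lit 7) L37431 (by decide +kernel)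
theorem L37433 : W_12 (nat_lit 4) (nat_lit 0x240003401380080000200000000000000000000000000) (nat_lit 0x0) (nat_lit 0x14001a0000000000008000400000000000000000000000000) := T_12 (nat_lit 175) (nat_lit 176) (nat_lit 0) (nat_lit 7) (nat_lit 10) L37432 (by decide +kernel)
theorem L37434 : W_12 (nat_lit 5) (nat_lit 0x240003001380080000200000000000000000000000000) (nat_lit 0x0) (nat_lit 0x14001a0000c00000008000400000000000000000000000000) := T_12 (nat_lit 154) (nat_lit 155) (nat_lit 2) (nat_lit 1) (nat_lit 9) L37433 (by decide +kernel)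
theorem L37435 : W_12 (nat_lit 6) (nat_lit 0x240003001380080000000000000000000000000000000) (nat_lit 0x0) (nat_lit 0x14001a0000c0000000c000600000000000000000000000000) := T_12 (nat_lit 105) (nat_lit 122) (nat_lit 7) (nat_lit 3) (nat_lit 6) L37434 (by decide +kernel)
theorem L37436 : W_12 (nat_lit 7) (nat_lit 0x200003001380080000000000000000000000000000000) (nat_lit 0x0) (nat_lit 0x10001c001e0000c0000001c000600000000000000000000000000) := Q_12 (nat_lit 174) (C_12 L37423 (C_12 L37422 (C_12 L37435 N_12))) (by decide +kernel)
theorem L37447 : W_12 (nat_lit 7) (nat_lit 0x200003001380080000000000000000000000000000000) (nat_lit 0x0) (nat_lit 0x400020003801cc00060004000200000000000000000000000000) := Q_12 (nat_lit 158) (C_12 L34172 (C_12 L37441 (C_12 L37446 N_12))) (by decide +kernel)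
theorem L37452 : W_12 (nat_lit 6) (nat_lit 0x200003001380080000000000000000000000000000000) (nat_lit 0x0) (nat_lit 0x100018001cc00060008000400000000000000000000000000) := Q_12 (nat_lit 158) (C_12 L34172 (C_12 L37451 (C_12 L34198 N_12))) (by decide +kernel)
theorem L37453 : W_12 (nat_lit 8) (nat_lit 0x200001001380080000000000000000000000000000000) (nat_lit 0x0) (nat_lit 0x400034001e001f801ec0006001c000600010000000000000000000000) := Q_12 (nat_lit 157) (C_12 L37424 (C_12 L37430 (C_12 L37436 (C_12 L37447 (C_12 L37452 N_12))))) (by decide +kernel)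
theorem L37454 : W_12 (nat_lit 2) (nat_lit 0xa000200034000b001780080000200000000000000000000000000) (nat_lit 0x0) (nat_lit 0x1400040000000000000000000000000000000000000000000000000000) := D_12 (nat_lit 210) (nat_lit 226) (nat_lit 228) (nat_lit 5) (nat_lit 6) (nat_lit 9) (nat_lit 7) (nat_lit 6) (nat_lit 9) (by decide +kernel)
theorem L37455 : W_12 (nat_lit 3) (nat_lit 0x2000200034000b001780080000200000000000000000000000000) (nat_lit 0x0) (nat_lit 0x14000c0004000000000000000000000000000000000000000000000000) := T_12 (nat_lit 211) (nat_lit 194) (nat_lit 7) (nat_lit 6) (nat_lit 8) L37454 (by decide +kernel)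
theorem L37456 : W_12 (nat_lit 4) (nat_lit 0x200034000b001780080000200000000000000000000000000) (nat_lit 0x0) (nat_lit 0x14000e0005000000000000000000000000000000000000000000000000) := T_12 (nat_lit 209) (nat_lit 192) (nat_lit 5) (nat_lit 6) (nat_lit 8) L37455 (by decide +kernel)
theorem L37457 : W_12 (nat_lit 5) (nat_lit 0x34000b001780080000200000000000000000000000000) (nat_lit 0x0) (nat_lit 0x14000e0007000000000000000010000000000000000000000000000000) := T_12 (nat_lit 193) (nat_lit 124) (nat_lit 4) (nat_lit 6) (nat_lit 11) L37456 (by decide +kernel)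
theorem L37458 : W_12 (nat_lit 6) (nat_lit 0x34000b001380080000200000000000000000000000000) (nat_lit 0x0) (nat_lit 0x14000e0007000000010000400010000000000000000000000000000000) := T_12 (nat_lit 142) (nat_lit 160) (nat_lit 3) (nat_lit 3) (nat_lit 8) L37457 (by decide +kernel)
theorem L37459 : W_12 (nat_lit 7) (nat_lit 0x340003001380080000200000000000000000000000000) (nat_lit 0x0) (nat_lit 0x14000e000700000001c000400010000000000000000000000000000000) := T_12 (nat_lit 159) (nat_lit 158) (nat_lit 3) (nat_lit 3) (nat_lit 9) L37458 (by decide +kernel)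
theorem L37460 : W_12 (nat_lit 8) (nat_lit 0x340003001380080000000000000000000000000000000) (nat_lit 0x0) (nat_lit 0x14000e000700000001c000400014000200000000000000000000000000) := T_12 (nat_lit 105) (nat_lit 122) (nat_lit 7) (nat_lit 3) (nat_lit 6) L37459 (by decide +kernel)
theorem L37461 : W_12 (nat_lit 9) (nat_lit 0x240003001380080000000000000000000000000000000) (nat_lit 0x0) (nat_lit 0x14000e000700018001c000400014000200000000000000000000000000) := T_12 (nat_lit 176) (nat_lit 175) (nat_lit 0) (nat_lit 7) (nat_lit 10) L37460 (by decide +kernel)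
theorem L37462 : W_12 (nat_lit 10) (nat_lit 0x200003001380080000000000000000000000000000000) (nat_lit 0x0) (nat_lit 0x14000f00078001c001c000400014000200000000000000000000000000) := Q_12 (nat_lit 174) (C_12 L37461 (C_12 L37423 (C_12 L37422 N_12))) (by decide +kernel)
theorem L37463 : W_12 (nat_lit 6) (nat_lit 0x340003001780084000000000000000000000000000000) (nat_lit 0x0) (nat_lit 0x14000e0007000000018000000010000000000000000000000000000000) := T_12 (nat_lit 159) (nat_lit 160) (nat_lit 3) (nat_lit 3) (nat_lit 8) L37331 (by decide +kernel)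
theorem L37464 : W_12 (nat_lit 7) (nat_lit 0x340003001380084000000000000000000000000000000) (nat_lit 0x0) (nat_lit 0x14000e0007000000018000400012000000000000000000000000000000) := T_12 (nat_lit 142) (nat_lit 121) (nat_lit 0) (nat_lit 6) (nat_lit 8) L37463 (by decide +kernel)
theorem L37465 : W_12 (nat_lit 8) (nat_lit 0x340003001380080000000000000000000000000000000) (nat_lit 0x0) (nat_lit 0x14000e0007000000018000400016000200000000000000000000000000) := T_12 (nat_lit 122) (nat_lit 105) (nat_lit 7) (nat_lit 3) (nat_lit 6) L37464 (by decide +kernel)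
theorem L37466 : W_12 (nat_lit 9) (nat_lit 0x240003001380080000000000000000000000000000000) (nat_lit 0x0) (nat_lit 0x14000e0007000180018000400016000200000000000000000000000000) := T_12 (nat_lit 176) (nat_lit 175) (nat_lit 0) (nat_lit 7) (nat_lit 10) L37465 (by decide +kernel)
theorem L37467 : W_12 (nat_lit 10) (nat_lit 0x200003001380080000000000000000000000000000000) (nat_lit 0x0) (nat_lit 0x14000f00078001c0018000400016000200000000000000000000000000) := Q_12 (nat_lit 174) (C_12 L37466 (C_12 L37423 (C_12 L37422 N_12))) (by decide +kernel)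
theorem L37468 : W_12 (nat_lit 2) (nat_lit 0x24000b0017e008c000000000000000000000000000000) (nat_lit 0x0) (nat_lit 0x20000000000000000400020000000000000000000000) := D_12 (nat_lit 106) (nat_lit 89) (nat_lit 173) (nat_lit 5) (nat_lit 4) (nat_lit 5) (nat_lit 6) (nat_lit 3) (nat_lit 10) (by decide +kernel)
theorem L37469 : W_12 (nat_lit 3) (nat_lit 0x24000b0017e0084000000000000000000000000000000) (nat_lit 0x0) (nat_lit 0x20000000000018000400020000000000000000000000) := T_12 (nat_lit 123) (nat_lit 124) (nat_lit 2) (nat_lit 1) (nat_lit 8) L37468 (by decide +kernel)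
theorem L37470 : W_12 (nat_lit 4) (nat_lit 0x24000b0017c0084000000000000000000000000000000) (nat_lit 0x0) (nat_lit 0x20000000030018000400020000000000000000000000) := T_12 (nat_lit 137) (nat_lit 136) (nat_lit 3) (nat_lit 0) (nat_lit 8) L37469 (by decide +kernel)
theorem L37471 : W_12 (nat_lit 5) (nat_lit 0x24000b001780084000000000000000000000000000000) (nat_lit 0x0) (nat_lit 0x20004000070018000400020000000000000000000000) := T_12 (nat_lit 138) (nat_lit 158) (nat_lit 3) (nat_lit 2) (nat_lit 8) L37470 (by decide +kernel)
theorem L37472 : W_12 (nat_lit 6) (nat_lit 0x240003001780084000000000000000000000000000000) (nat_lit 0x0) (nat_lit 0x2001c000070018000400020000000000000000000000) := T_12 (nat_lit 159) (nat_lit 160) (nat_lit 3) (nat_lit 3) (nat_lit 8) L37471 (by decide +kernel)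
theorem L37473 : W_12 (nat_lit 7) (nat_lit 0x240003001380084000000000000000000000000000000) (nat_lit 0x0) (nat_lit 0x2001c00047001a000400020000000000000000000000) := T_12 (nat_lit 142) (nat_lit 121) (nat_lit 0) (nat_lit 6) (nat_lit 8) L37472 (by decide +kernel)
theorem L37474 : W_12 (nat_lit 8) (nat_lit 0x240003001380080000000000000000000000000000000) (nat_lit 0x0) (nat_lit 0x2001c00047001e000600020000000000000000000000) := T_12 (nat_lit 122) (nat_lit 105) (nat_lit 7) (nat_lit 3) (nat_lit 6) L37473 (by decide +kernel)
theorem L37475 : W_12 (nat_lit 9) (nat_lit 0x200003001380080000000000000000000000000000000) (nat_lit 0x0) (nat_lit 0x1000080006001c00047001e000600020000000000000000000000) := Q_12 (nat_lit 174) (C_12 L37474 (C_12 L37423 (C_12 L37422 N_12))) (by decide +kernel)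
theorem L37476 : W_12 (nat_lit 8) (nat_lit 0x200003001380080000000000000000000000000000000) (nat_lit 0x0) (nat_lit 0x38003c001c000c00006000c000600010000000000000000000000) := Q_12 (nat_lit 174) (C_12 L34161 (C_12 L37422 (C_12 L34157 N_12))) (by decide +kernel)
theorem L37477 : W_12 (nat_lit 2) (nat_lit 0x20000b001380080000000000000000000000000000000) (nat_lit 0x0) (nat_lit 0x14000040000000000000000000000000000000000) := D_12 (nat_lit 158) (nat_lit 138) (nat_lit 160) (nat_lit 3) (nat_lit 2) (nat_lit 8) (nat_lit 0) (nat_lit 7) (nat_lit 9) (by decide +kernel)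
theorem L37484 : W_12 (nat_lit 8) (nat_lit 0x20000b001780084000000000000000000000000000000) (nat_lit 0x0) (nat_lit 0x20000000000018003fc0078000000000000000000000) := T_12 (nat_lit 105) (nat_lit 88) (nat_lit 7) (nat_lit 3) (nat_lit 5) L37483 (by decide +kernel)
theorem L37485 : W_12 (nat_lit 9) (nat_lit 0x20000b001780080000000000000000000000000000000) (nat_lit 0x0) (nat_lit 0x2000000000001e003fc0078000000000000000000000) := T_12 (nat_lit 122) (nat_lit 121) (nat_lit 0) (nat_lit 6) (nat_lit 8) L37484 (by decide +kernel)
theorem L37486 : W_12 (nat_lit 10) (nat_lit 0x20000b001380080000000000000000000000000000000) (nat_lit 0x0) (nat_lit 0x2001000040001e003fc0078000000000000000000000) := T_12 (nat_lit 142) (nat_lit 160) (nat_lit 3) (nat_lit 3) (nat_lit 8) L37485 (by decide +kernel)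
theorem L37487 : W_12 (nat_lit 11) (nat_lit 0x200003001380080000000000000000000000000000000) (nat_lit 0x0) (nat_lit 0x12001c00044001e003fc0078000000000000000000000) := Q_12 (nat_lit 159) (C_12 L37477 (C_12 L37486 (C_12 L34189 N_12))) (by decide +kernel)
theorem L37492 : W_12 (nat_lit 6) (nat_lit 0x34000b001380080000000000000000000000000000000) (nat_lit 0x0) (nat_lit 0x14000e0007000000010000400010000000000000000000000000000000) := T_12 (nat_lit 142) (nat_lit 160) (nat_lit 3) (nat_lit 3) (nat_lit 8) L37491 (by decide +kernel)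
theorem L37493 : W_12 (nat_lit 7) (nat_lit 0x340003001380080000000000000000000000000000000) (nat_lit 0x0) (nat_lit 0x14000e000700000001c000400010000000000000000000000000000000) := T_12 (nat_lit 159) (nat_lit 158) (nat_lit 3) (nat_lit 3) (nat_lit 9) L37492 (by decide +kernel)
theorem L37494 : W_12 (nat_lit 8) (nat_lit 0x240003001380080000000000000000000000000000000) (nat_lit 0x0) (nat_lit 0x14000e000700018001c000400010000000000000000000000000000000) := T_12 (nat_lit 176) (nat_lit 175) (nat_lit 0) (nat_lit 7) (nat_lit 10) L37493 (by decide +kernel)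
theorem L37495 : W_12 (nat_lit 9) (nat_lit 0x200003001380080000000000000000000000000000000) (nat_lit 0x0) (nat_lit 0x14000f8007c001c001c000460010000000000000000000000000000000) := Q_12 (nat_lit 174) (C_12 L37423 (C_12 L34157 (C_12 L37494 N_12))) (by decide +kernel)
theorem L37496 : W_12 (nat_lit 12) (nat_lit 0x200001001380080000000000000000000000000000000) (nat_lit 0x0) (nat_lit 0x14000f8007c001e001e00047001e003fc0078000000000000000000000) := Q_12 (nat_lit 157) (C_12 L37462 (C_12 L37424 (C_12 L37467 (C_12 L37475 (C_12 L37476 (C_12 L37487 (C_12 L37495 N_12))))))) (by decide +kernel)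
theorem L37497 : W_12 (nat_lit 13) (nat_lit 0x200000001380080000000000000000000000000000000) (nat_lit 0x0) (nat_lit 0x14000fc007e001f801fe0047001e003fc0078000000000000000000000) := Q_12 (nat_lit 156) (C_12 L37235 (C_12 L34150 (C_12 L37453 (C_12 L37496 N_12)))) (by decide +kernel)
theorem L37498 : W_12 (nat_lit 6) (nat_lit 0x200000001380080000000000000000000000000000000) (nat_lit 0x0) (nat_lit 0x1001ee00460007000200010000000000000000000000) := Q_12 (nat_lit 138) (C_12 L37155 (C_12 L37216 (C_12 L37111 N_12))) (by decide +kernel)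
theorem L37499 : W_12 (nat_lit 15) (nat_lit 0x200000001300080000000000000000000000000000000) (nat_lit 0x0) (nat_lit 0x1001f800fc00ff801fc03fe004f001f803fc007c003800140000000000000) := Q_12 (nat_lit 139) (C_12 L37134 (C_12 L37164 (C_12 L37212 (C_12 L37213 (C_12 L37220 (C_12 L37233 (C_12 L37338 (C_12 L37421 (C_12 L37497 (C_12 L37498 N_12)))))))))) (by decide +kernel)
theorem L37500 : W_12 (nat_lit 2) (nat_lit 0x240003001700080000000000000000000000000000000) (nat_lit 0x0) (nat_lit 0xc00080000000000000000000000000000000000) := D_12 (nat_lit 155) (nat_lit 139) (nat_lit 154) (nat_lit 1) (nat_lit 6) (nat_lit 8) (nat_lit 2) (nat_lit 1) (nat_lit 9) (by decide +kernel)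
theorem L37501 : W_12 (nat_lit 2) (nat_lit 0x240003001700080000000000000000000000000000000) (nat_lit 0x0) (nat_lit 0x4c00000000000000000000000000000000000000) := D_12 (nat_lit 155) (nat_lit 158) (nat_lit 154) (nat_lit 2) (nat_lit 2) (nat_lit 9) (nat_lit 2) (nat_lit 1) (nat_lit 9) (by decide +kernel)
theorem L37502 : W_12 (nat_lit 2) (nat_lit 0xa000200034000b001700080000000000000000000000000000000) (nat_lit 0x0) (nat_lit 0x1400040000000000000000000000000000000000000000000000000000) := D_12 (nat_lit 210) (nat_lit 226) (nat_lit 228) (nat_lit 5) (nat_lit 6) (nat_lit 9) (nat_lit 7) (nat_lit 6) (nat_lit 9) (by decide +kernel)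
theorem L37503 : W_12 (nat_lit 3) (nat_lit 0x2000200034000b001700080000000000000000000000000000000) (nat_lit 0x0) (nat_lit 0x14000c0004000000000000000000000000000000000000000000000000) := T_12 (nat_lit 211) (nat_lit 194) (nat_lit 7) (nat_lit 6) (nat_lit 8) L37502 (by decide +kernel)
theorem L37504 : W_12 (nat_lit 4) (nat_lit 0x200034000b001700080000000000000000000000000000000) (nat_lit 0x0) (nat_lit 0x14000e0005000000000000000000000000000000000000000000000000) := T_12 (nat_lit 209) (nat_lit 192) (nat_lit 5) (nat_lit 6) (nat_lit 8) L37503 (by decide +kernel)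
theorem L37505 : W_12 (nat_lit 5) (nat_lit 0x34000b001700080000000000000000000000000000000) (nat_lit 0x0) (nat_lit 0x14000e0007000000000000000010000000000000000000000000000000) := T_12 (nat_lit 193) (nat_lit 124) (nat_lit 4) (nat_lit 6) (nat_lit 11) L37504 (by decide +kernel)
theorem L37506 : W_12 (nat_lit 6) (nat_lit 0x340003001700080000000000000000000000000000000) (nat_lit 0x0) (nat_lit 0x14000e000700000000c000000010000000000000000000000000000000) := T_12 (nat_lit 159) (nat_lit 158) (nat_lit 3) (nat_lit 3) (nat_lit 9) L37505 (by decide +kernel)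
theorem L37507 : W_12 (nat_lit 7) (nat_lit 0x240003001700080000000000000000000000000000000) (nat_lit 0x0) (nat_lit 0x14000e000700018000c000000010000000000000000000000000000000) := T_12 (nat_lit 176) (nat_lit 175) (nat_lit 0) (nat_lit 7) (nat_lit 10) L37506 (by decide +kernel)
theorem L37508 : W_12 (nat_lit 8) (nat_lit 0x240002001700080000000000000000000000000000000) (nat_lit 0x0) (nat_lit 0x14000e000700018000dc00080010000000000000000000000000000000) := Q_12 (nat_lit 156) (C_12 L37500 (C_12 L37501 (C_12 L37507 N_12))) (by decide +kernel)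
theorem L37509 : W_12 (nat_lit 2) (nat_lit 0xc00240002001700088000000000000000000000000000000) (nat_lit 0x0) (nat_lit 0x80004000200000000000000000000000000) := D_12 (nat_lit 122) (nat_lit 105) (nat_lit 139) (nat_lit 4) (nat_lit 4) (nat_lit 10) (nat_lit 4) (nat_lit 4) (nat_lit 11) (by decide +kernel)
theorem L37510 : W_12 (nat_lit 3) (nat_lit 0xc00240002001700080000000000000000000000000000000) (nat_lit 0x0) (nat_lit 0x2000000008000c000200000000000000000000000000) := T_12 (nat_lit 123) (nat_lit 173) (nat_lit 5) (nat_lit 4) (nat_lit 7) L37509 (by decide +kernel)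
theorem L37511 : W_12 (nat_lit 4) (nat_lit 0x800240002001700080000000000000000000000000000000) (nat_lit 0x0) (nat_lit 0x800040002000000008000c000200000000000000000000000000) := T_12 (nat_lit 190) (nat_lit 207) (nat_lit 5) (nat_lit 4) (nat_lit 8) L37510 (by decide +kernel)
theorem L37512 : W_12 (nat_lit 5) (nat_lit 0x240002001700080000000000000000000000000000000) (nat_lit 0x0) (nat_lit 0x8000c0002000000008001c000200000000000000000000000000) := T_12 (nat_lit 191) (nat_lit 124) (nat_lit 6) (nat_lit 4) (nat_lit 11) L37511 (by decide +kernel)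
theorem L37513 : W_12 (nat_lit 2) (nat_lit 0x800240002001780080000000000000000000000000000000) (nat_lit 0x0) (nat_lit 0x10000000000001800000000000000000000000000000000000000) := D_12 (nat_lit 156) (nat_lit 155) (nat_lit 208) (nat_lit 1) (nat_lit 6) (nat_lit 8) (nat_lit 4) (nat_lit 4) (nat_lit 12) (by decide +kernel)
theorem L37514 : W_12 (nat_lit 3) (nat_lit 0x800240002001700080000000000000000000000000000000) (nat_lit 0x0) (nat_lit 0x10000000000001800080004000000000000000000000000000000) := T_12 (nat_lit 139) (nat_lit 122) (nat_lit 4) (nat_lit 4) (nat_lit 11) L37513 (by decide +kernel)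
theorem L37515 : W_12 (nat_lit 2) (nat_lit 0x10000800240002001700080000000000000000000000000000000) (nat_lit 0x0) (nat_lit 0x100008000400000000000000000000000000000000000000000000000) := D_12 (nat_lit 207) (nat_lit 224) (nat_lit 190) (nat_lit 5) (nat_lit 4) (nat_lit 9) (nat_lit 5) (nat_lit 4) (nat_lit 8) (by decide +kernel)
theorem L37516 : W_12 (nat_lit 3) (nat_lit 0x800240002001700080000000000000000000000000000000) (nat_lit 0x0) (nat_lit 0x100018000400000004000000000000000000000000000000000000000) := T_12 (nat_lit 208) (nat_lit 158) (nat_lit 6) (nat_lit 4) (nat_lit 12) L37515 (by decide +kernel)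
theorem L37517 : W_12 (nat_lit 5) (nat_lit 0x240002001700080000000000000000000000000000000) (nat_lit 0x0) (nat_lit 0x100018000c0002000580008000c000200000000000000000000000000) := Q_12 (nat_lit 191) (C_12 L37511 (C_12 L37514 (C_12 L37516 N_12))) (by decide +kernel)
theorem L37518 : W_12 (nat_lit 4) (nat_lit 0x240002001700080000000000000000000000000000000) (nat_lit 0x0) (nat_lit 0x100018000c00000004000000010000000000000000000000000000000) := T_12 (nat_lit 191) (nat_lit 124) (nat_lit 6) (nat_lit 4) (nat_lit 11) L37516 (by decide +kernel)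
theorem L37519 : W_12 (nat_lit 9) (nat_lit 0x200002001700080000000000000000000000000000000) (nat_lit 0x0) (nat_lit 0x15000f8007c001e000dc0008001c000200000000000000000000000000) := Q_12 (nat_lit 174) (C_12 L37508 (C_12 L37512 (C_12 L37517 (C_12 L37518 N_12)))) (by decide +kernel)
theorem L37520 : W_12 (nat_lit 3) (nat_lit 0x800240002001700080000000000000000000000000000000) (nat_lit 0x0) (nat_lit 0x10000000000005000080004000000000000000000000000000000) := T_12 (nat_lit 139) (nat_lit 122) (nat_lit 4) (nat_lit 4) (nat_lit 11) L35187 (by decide +kernel)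
theorem L37521 : W_12 (nat_lit 5) (nat_lit 0x240002001700080000000000000000000000000000000) (nat_lit 0x0) (nat_lit 0x100018000c0002000500008000c000200000000000000000000000000) := Q_12 (nat_lit 191) (C_12 L37511 (C_12 L37516 (C_12 L37520 N_12))) (by decide +kernel)
theorem L37522 : W_12 (nat_lit 2) (nat_lit 0x24000200170008c000000000000000000000000000000) (nat_lit 0x0) (nat_lit 0x80012000000000000000000000000000000) := D_12 (nat_lit 121) (nat_lit 124) (nat_lit 139) (nat_lit 3) (nat_lit 2) (nat_lit 7) (nat_lit 0) (nat_lit 6) (nat_lit 8) (by decide +kernel)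
theorem L37523 : W_12 (nat_lit 3) (nat_lit 0x240002001700088000000000000000000000000000000) (nat_lit 0x0) (nat_lit 0x80016000200000000000000000000000000) := T_12 (nat_lit 122) (nat_lit 105) (nat_lit 4) (nat_lit 4) (nat_lit 10) L37522 (by decide +kernel)
theorem L37524 : W_12 (nat_lit 2) (nat_lit 0x2c0002001700088000400000000000000000000000000) (nat_lit 0x0) (nat_lit 0x400020001000000000000000000000000000000000000000) := D_12 (nat_lit 173) (nat_lit 190) (nat_lit 156) (nat_lit 5) (nat_lit 4) (nat_lit 7) (nat_lit 5) (nat_lit 4) (nat_lit 6) (by decide +kernel)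
theorem L37525 : W_12 (nat_lit 3) (nat_lit 0x2c0002001700088000000000000000000000000000000) (nat_lit 0x0) (nat_lit 0x400020005000000000000400000000000000000000000000) := T_12 (nat_lit 106) (nat_lit 158) (nat_lit 7) (nat_lit 4) (nat_lit 6) L37524 (by decide +kernel)
theorem L37526 : W_12 (nat_lit 4) (nat_lit 0x240002001700088000000000000000000000000000000) (nat_lit 0x0) (nat_lit 0x14000a0005000000000000400000000000000000000000000) := T_12 (nat_lit 175) (nat_lit 192) (nat_lit 7) (nat_lit 4) (nat_lit 7) L37525 (by decide +kernel)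
theorem L37527 : W_12 (nat_lit 5) (nat_lit 0x240002001700080000000000000000000000000000000) (nat_lit 0x0) (nat_lit 0x14000a000500008001e000600000000000000000000000000) := Q_12 (nat_lit 123) (C_12 L37523 (C_12 L37526 N_12)) (by decide +kernel)
theorem L37528 : W_12 (nat_lit 4) (nat_lit 0x240002001700080000000000000000000000000000000) (nat_lit 0x0) (nat_lit 0x10000800000005000080014000000000000000000000000000000) := T_12 (nat_lit 191) (nat_lit 124) (nat_lit 6) (nat_lit 4) (nat_lit 11) L37520 (by decide +kernel)
theorem L37529 : W_12 (nat_lit 6) (nat_lit 0x200002001700080000000000000000000000000000000) (nat_lit 0x0) (nat_lit 0x100018001c000e000500008001e000600000000000000000000000000) := Q_12 (nat_lit 174) (C_12 L37518 (C_12 L37512 (C_12 L37521 (C_12 L37527 (C_12 L37528 N_12))))) (by decide +kernel)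
theorem L37530 : W_12 (nat_lit 2) (nat_lit 0x5800268006001780088000000000000000000000000000000) (nat_lit 0x0) (nat_lit 0x8000060000000000000000000000000000000000) := D_12 (nat_lit 138) (nat_lit 159) (nat_lit 137) (nat_lit 3) (nat_lit 2) (nat_lit 8) (nat_lit 3) (nat_lit 1) (nat_lit 8) (by decide +kernel)
theorem L37531 : W_12 (nat_lit 3) (nat_lit 0x5800268002001780088000000000000000000000000000000) (nat_lit 0x0) (nat_lit 0x1000000000000c000060000000000000000000000000000000000) := T_12 (nat_lit 158) (nat_lit 208) (nat_lit 6) (nat_lit 4) (nat_lit 12) L37530 (by decide +kernel)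
theorem L37532 : W_12 (nat_lit 4) (nat_lit 0x1800268002001780088000000000000000000000000000000) (nat_lit 0x0) (nat_lit 0x1000600000000c000060000000000000000000000000000000000) := T_12 (nat_lit 194) (nat_lit 193) (nat_lit 0) (nat_lit 7) (nat_lit 11) L37531 (by decide +kernel)
theorem L37533 : W_12 (nat_lit 5) (nat_lit 0x1800260002001780088000000000000000000000000000000) (nat_lit 0x0) (nat_lit 0x1000600001800c000060000000000000000000000000000000000) := T_12 (nat_lit 171) (nat_lit 172) (nat_lit 3) (nat_lit 1) (nat_lit 10) L37532 (by decide +kernel)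
theorem L37534 : W_12 (nat_lit 6) (nat_lit 0x1800240002001780088000000000000000000000000000000) (nat_lit 0x0) (nat_lit 0x1000640003800c000060000000000000000000000000000000000) := T_12 (nat_lit 173) (nat_lit 190) (nat_lit 5) (nat_lit 4) (nat_lit 7) L37533 (by decide +kernel)
theorem L37535 : W_12 (nat_lit 7) (nat_lit 0x1800240002001780080000000000000000000000000000000) (nat_lit 0x0) (nat_lit 0x100064000b800c000060008000000000000000000000000000000) := T_12 (nat_lit 123) (nat_lit 175) (nat_lit 7) (nat_lit 4) (nat_lit 7) L37534 (by decide +kernel)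
theorem L37536 : W_12 (nat_lit 8) (nat_lit 0x800240002001780080000000000000000000000000000000) (nat_lit 0x0) (nat_lit 0x300074000b800c000060008000000000000000000000000000000) := T_12 (nat_lit 192) (nat_lit 209) (nat_lit 7) (nat_lit 4) (nat_lit 8) L37535 (by decide +kernel)
theorem L37537 : W_12 (nat_lit 9) (nat_lit 0x800240002001700080000000000000000000000000000000) (nat_lit 0x0) (nat_lit 0x300074000b800c0000e000c000000000000000000000000000000) := T_12 (nat_lit 139) (nat_lit 122) (nat_lit 4) (nat_lit 4) (nat_lit 11) L37536 (by decide +kernel)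
theorem L37538 : W_12 (nat_lit 2) (nat_lit 0x10000800240002001700080000000000000000000000000000000) (nat_lit 0x0) (nat_lit 0x400020001000000000000000000000000000000000000000000000000) := D_12 (nat_lit 209) (nat_lit 192) (nat_lit 226) (nat_lit 7) (nat_lit 4) (nat_lit 8) (nat_lit 7) (nat_lit 4) (nat_lit 9) (by decide +kernel)
theorem L37539 : W_12 (nat_lit 3) (nat_lit 0x800240002001700080000000000000000000000000000000) (nat_lit 0x0) (nat_lit 0x400030001000000004000000000000000000000000000000000000000) := T_12 (nat_lit 208) (nat_lit 158) (nat_lit 6) (nat_lit 4) (nat_lit 12) L37538 (by decide +kernel)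
theorem L37540 : W_12 (nat_lit 10) (nat_lit 0x240002001700080000000000000000000000000000000) (nat_lit 0x0) (nat_lit 0x500038007c000b800c0000e000c000200000000000000000000000000) := Q_12 (nat_lit 191) (C_12 L37511 (C_12 L37516 (C_12 L37537 (C_12 L37539 N_12)))) (by decide +kernel)
theorem L37541 : W_12 (nat_lit 2) (nat_lit 0x24000200170008c000000000000000000000000000000) (nat_lit 0x0) (nat_lit 0x80003000000000000000000000000000000) := D_12 (nat_lit 121) (nat_lit 120) (nat_lit 139) (nat_lit 3) (nat_lit 1) (nat_lit 7) (nat_lit 0) (nat_lit 6) (nat_lit 8) (by decide +kernel)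
theorem L37542 : W_12 (nat_lit 3) (nat_lit 0x240002001700088000000000000000000000000000000) (nat_lit 0x0) (nat_lit 0x80007000200000000000000000000000000) := T_12 (nat_lit 122) (nat_lit 105) (nat_lit 4) (nat_lit 4) (nat_lit 10) L37541 (by decide +kernel)
theorem L37543 : W_12 (nat_lit 2) (nat_lit 0x2c0002001700088000400000000000000000000000000) (nat_lit 0x0) (nat_lit 0x10000800040000000000000000000000) := D_12 (nat_lit 107) (nat_lit 90) (nat_lit 124) (nat_lit 6) (nat_lit 4) (nat_lit 9) (nat_lit 6) (nat_lit 4) (nat_lit 10) (by decide +kernel)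
theorem L37544 : W_12 (nat_lit 3) (nat_lit 0x2c0002001700088000000000000000000000000000000) (nat_lit 0x0) (nat_lit 0x4000000010000c00040000000000000000000000) := T_12 (nat_lit 106) (nat_lit 158) (nat_lit 7) (nat_lit 4) (nat_lit 6) L37543 (by decide +kernel)
theorem L37545 : W_12 (nat_lit 4) (nat_lit 0x240002001700088000000000000000000000000000000) (nat_lit 0x0) (nat_lit 0x1000080004000000010000c00040000000000000000000000) := T_12 (nat_lit 175) (nat_lit 192) (nat_lit 7) (nat_lit 4) (nat_lit 7) L37544 (by decide +kernel)
theorem L37546 : W_12 (nat_lit 5) (nat_lit 0x240002001700080000000000000000000000000000000) (nat_lit 0x0) (nat_lit 0x100008000400008001f000e00040000000000000000000000) := Q_12 (nat_lit 123) (C_12 L37523 (C_12 L37542 (C_12 L37545 N_12))) (by decide +kernel)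
theorem L37547 : W_12 (nat_lit 11) (nat_lit 0x200002001700080000000000000000000000000000000) (nat_lit 0x0) (nat_lit 0x500038007c000f800c0000e001f000e00040000000000000000000000) := Q_12 (nat_lit 174) (C_12 L37518 (C_12 L37512 (C_12 L37540 (C_12 L37546 N_12)))) (by decide +kernel)
theorem L37548 : W_12 (nat_lit 2) (nat_lit 0x24000200170008c000000000000000000000000000000) (nat_lit 0x0) (nat_lit 0x13000000000000000000000000000000) := D_12 (nat_lit 121) (nat_lit 124) (nat_lit 120) (nat_lit 3) (nat_lit 2) (nat_lit 7) (nat_lit 3) (nat_lit 1) (nat_lit 7) (by decide +kernel)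
theorem L37549 : W_12 (nat_lit 3) (nat_lit 0x240002001700088000000000000000000000000000000) (nat_lit 0x0) (nat_lit 0x17000200000000000000000000000000) := T_12 (nat_lit 122) (nat_lit 105) (nat_lit 4) (nat_lit 4) (nat_lit 10) L37548 (by decide +kernel)
theorem L37550 : W_12 (nat_lit 2) (nat_lit 0x40003c000200170008c000000000000000000000000000000) (nat_lit 0x0) (nat_lit 0x2400020000000000000000000000000000000000000000000) := D_12 (nat_lit 173) (nat_lit 193) (nat_lit 190) (nat_lit 3) (nat_lit 3) (nat_lit 10) (nat_lit 5) (nat_lit 4) (nat_lit 7) (by decide +kernel)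
theorem L37551 : W_12 (nat_lit 3) (nat_lit 0x3c000200170008c000000000000000000000000000000) (nat_lit 0x0) (nat_lit 0xe400020000000000000000000000000000000000000000000) := T_12 (nat_lit 194) (nat_lit 195) (nat_lit 3) (nat_lit 4) (nat_lit 10) L37550 (by decide +kernel)
theorem L37552 : W_12 (nat_lit 4) (nat_lit 0x3c0002001700088000000000000000000000000000000) (nat_lit 0x0) (nat_lit 0xe400020000000000004000200000000000000000000000000) := T_12 (nat_lit 122) (nat_lit 105) (nat_lit 4) (nat_lit 4) (nat_lit 10) L37551 (by decide +kernel)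
theorem L37553 : W_12 (nat_lit 5) (nat_lit 0x2c0002001700088000000000000000000000000000000) (nat_lit 0x0) (nat_lit 0xe400120001000000004000200000000000000000000000000) := T_12 (nat_lit 176) (nat_lit 156) (nat_lit 0) (nat_lit 7) (nat_lit 10) L37552 (by decide +kernel)
theorem L37554 : W_12 (nat_lit 6) (nat_lit 0x240002001700088000000000000000000000000000000) (nat_lit 0x0) (nat_lit 0xf4001a0001000000004000200000000000000000000000000) := T_12 (nat_lit 175) (nat_lit 192) (nat_lit 7) (nat_lit 4) (nat_lit 7) L37553 (by decide +kernel)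
theorem L37555 : W_12 (nat_lit 2) (nat_lit 0x3e0002001700098000000000000000000000000000000) (nat_lit 0x0) (nat_lit 0x6000000008000000000000000000000000000000000000000) := D_12 (nat_lit 193) (nat_lit 194) (nat_lit 159) (nat_lit 3) (nat_lit 3) (nat_lit 10) (nat_lit 4) (nat_lit 6) (nat_lit 11) (by decide +kernel)
theorem L37556 : W_12 (nat_lit 3) (nat_lit 0x3c0002001700098000000000000000000000000000000) (nat_lit 0x0) (nat_lit 0x6400020008000000000000000000000000000000000000000) := T_12 (nat_lit 173) (nat_lit 190) (nat_lit 5) (nat_lit 4) (nat_lit 7) L37555 (by decide +kernel)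
theorem L37557 : W_12 (nat_lit 4) (nat_lit 0x2c0002001700098000000000000000000000000000000) (nat_lit 0x0) (nat_lit 0x6400120009000000000000000000000000000000000000000) := T_12 (nat_lit 176) (nat_lit 156) (nat_lit 0) (nat_lit 7) (nat_lit 10) L37556 (by decide +kernel)
theorem L37558 : W_12 (nat_lit 5) (nat_lit 0x240002001700098000000000000000000000000000000) (nat_lit 0x0) (nat_lit 0x74001a0009000000000000000000000000000000000000000) := T_12 (nat_lit 175) (nat_lit 192) (nat_lit 7) (nat_lit 4) (nat_lit 7) L37557 (by decide +kernel)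
theorem L37559 : W_12 (nat_lit 6) (nat_lit 0x240002001700088000000000000000000000000000000) (nat_lit 0x0) (nat_lit 0x74001a0009000000010000800000000000000000000000000) := T_12 (nat_lit 124) (nat_lit 107) (nat_lit 6) (nat_lit 4) (nat_lit 10) L37558 (by decide +kernel)
theorem L37560 : W_12 (nat_lit 7) (nat_lit 0x240002001700080000000000000000000000000000000) (nat_lit 0x0) (nat_lit 0xf4001a000900008001f000a00000000000000000000000000) := Q_12 (nat_lit 123) (C_12 L37542 (C_12 L37549 (C_12 L37554 (C_12 L37559 N_12)))) (by decide +kernel)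
theorem L37561 : W_12 (nat_lit 2) (nat_lit 0x1800240002001700088000000000000000000000000000000) (nat_lit 0x0) (nat_lit 0x8000400020000000000000000000000000000000000000000000) := D_12 (nat_lit 190) (nat_lit 173) (nat_lit 207) (nat_lit 5) (nat_lit 4) (nat_lit 7) (nat_lit 5) (nat_lit 4) (nat_lit 8) (by decide +kernel)
theorem L37562 : W_12 (nat_lit 3) (nat_lit 0x1800240002001700080000000000000000000000000000000) (nat_lit 0x0) (nat_lit 0x80004000a0000000000008000000000000000000000000000000) := T_12 (nat_lit 123) (nat_lit 175) (nat_lit 7) (nat_lit 4) (nat_lit 7) L37561 (by decide +kernel)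
theorem L37563 : W_12 (nat_lit 4) (nat_lit 0x800240002001700080000000000000000000000000000000) (nat_lit 0x0) (nat_lit 0x280014000a0000000000008000000000000000000000000000000) := T_12 (nat_lit 192) (nat_lit 209) (nat_lit 7) (nat_lit 4) (nat_lit 8) L37562 (by decide +kernel)
theorem L37564 : W_12 (nat_lit 5) (nat_lit 0x240002001700080000000000000000000000000000000) (nat_lit 0x0) (nat_lit 0x38001c000a000180008000c000000000000000000000000000000) := Q_12 (nat_lit 191) (C_12 L37514 (C_12 L37563 N_12)) (by decide +kernel)
theorem L37565 : W_12 (nat_lit 4) (nat_lit 0x240002001700080000000000000000000000000000000) (nat_lit 0x0) (nat_lit 0x10000800000001800080014000000000000000000000000000000) := T_12 (nat_lit 191) (nat_lit 124) (nat_lit 6) (nat_lit 4) (nat_lit 11) L37514 (by decide +kernel)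
theorem L37566 : W_12 (nat_lit 5) (nat_lit 0x240002001700080000000000000000000000000000000) (nat_lit 0x0) (nat_lit 0x28001c000a0000000000018000000000000000000000000000000) := T_12 (nat_lit 191) (nat_lit 124) (nat_lit 6) (nat_lit 4) (nat_lit 11) L37563 (by decide +kernel)
theorem L37567 : W_12 (nat_lit 8) (nat_lit 0x200002001700080000000000000000000000000000000) (nat_lit 0x0) (nat_lit 0x3800fc001e000980008001f000a00000000000000000000000000) := Q_12 (nat_lit 174) (C_12 L37560 (C_12 L37512 (C_12 L37564 (C_12 L37565 (C_12 L37566 N_12))))) (by decide +kernel)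
theorem L37571 : W_12 (nat_lit 2) (nat_lit 0x20000300178008c002f00000000000000000000000000) (nat_lit 0x0) (nat_lit 0x100000c0000000000000000000000000) := D_12 (nat_lit 103) (nat_lit 124) (nat_lit 102) (nat_lit 3) (nat_lit 1) (nat_lit 6) (nat_lit 3) (nat_lit 0) (nat_lit 6) (by decide +kernel)
theorem L37572 : W_12 (nat_lit 3) (nat_lit 0x20000300178008c002e00000000000000000000000000) (nat_lit 0x0) (nat_lit 0x100001c0008000000000000000000000) := T_12 (nat_lit 104) (nat_lit 87) (nat_lit 4) (nat_lit 3) (nat_lit 9) L37571 (by decide +kernel)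
theorem L37573 : W_12 (nat_lit 4) (nat_lit 0x20000300178008c000e00000000000000000000000000) (nat_lit 0x0) (nat_lit 0x100031c0008000000000000000000000) := T_12 (nat_lit 109) (nat_lit 108) (nat_lit 1) (nat_lit 7) (nat_lit 6) L37572 (by decide +kernel)
theorem L37574 : W_12 (nat_lit 5) (nat_lit 0x20000300178008c000600000000000000000000000000) (nat_lit 0x0) (nat_lit 0x100039c0048000000000000000000000) := T_12 (nat_lit 107) (nat_lit 90) (nat_lit 6) (nat_lit 4) (nat_lit 9) L37573 (by decide +kernel)
theorem L37575 : W_12 (nat_lit 6) (nat_lit 0x200003001780084000600000000000000000000000000) (nat_lit 0x0) (nat_lit 0x200000000000180039c0048000000000000000000000) := T_12 (nat_lit 123) (nat_lit 173) (nat_lit 6) (nat_lit 3) (nat_lit 10) L37574 (by decide +kernel)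
theorem L37576 : W_12 (nat_lit 7) (nat_lit 0x200003001780084000200000000000000000000000000) (nat_lit 0x0) (nat_lit 0x20000000000018003dc0068000000000000000000000) := T_12 (nat_lit 106) (nat_lit 89) (nat_lit 6) (nat_lit 3) (nat_lit 9) L37575 (by decide +kernel)
theorem L37577 : W_12 (nat_lit 8) (nat_lit 0x200003001780084000000000000000000000000000000) (nat_lit 0x0) (nat_lit 0x20000000000018003fc0078000000000000000000000) := T_12 (nat_lit 105) (nat_lit 88) (nat_lit 7) (nat_lit 3) (nat_lit 5) L37576 (by decide +kernel)
theorem L37578 : W_12 (nat_lit 9) (nat_lit 0x200002001780084000000000000000000000000000000) (nat_lit 0x0) (nat_lit 0x20001800000018003fc0078000000000000000000000) := T_12 (nat_lit 156) (nat_lit 155) (nat_lit 1) (nat_lit 6) (nat_lit 8) L37577 (by decide +kernel)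
theorem L37579 : W_12 (nat_lit 10) (nat_lit 0x200002001780080000000000000000000000000000000) (nat_lit 0x0) (nat_lit 0x2000180000001e003fc0078000000000000000000000) := T_12 (nat_lit 122) (nat_lit 121) (nat_lit 0) (nat_lit 6) (nat_lit 8) L37578 (by decide +kernel)
theorem L37583 : W_12 (nat_lit 2) (nat_lit 0x2000028017c0080000000000000000000000000000000) (nat_lit 0x0) (nat_lit 0xc000020000000000000000000000000000000000) := D_12 (nat_lit 158) (nat_lit 137) (nat_lit 159) (nat_lit 3) (nat_lit 1) (nat_lit 8) (nat_lit 3) (nat_lit 2) (nat_lit 8) (by decide +kernel)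
theorem L37584 : W_12 (nat_lit 3) (nat_lit 0x200002801780080000000000000000000000000000000) (nat_lit 0x0) (nat_lit 0xc400060000000000000000000000000000000000) := T_12 (nat_lit 138) (nat_lit 154) (nat_lit 1) (nat_lit 5) (nat_lit 8) L37583 (by decide +kernel)
theorem L37585 : W_12 (nat_lit 4) (nat_lit 0x200002001780080000000000000000000000000000000) (nat_lit 0x0) (nat_lit 0xdc00060000000000000000000000000000000000) := T_12 (nat_lit 155) (nat_lit 156) (nat_lit 1) (nat_lit 6) (nat_lit 8) L37584 (by decide +kernel)
theorem L37586 : W_12 (nat_lit 11) (nat_lit 0x200002001700080000000000000000000000000000000) (nat_lit 0x0) (nat_lit 0x80006000dc000e001e003fc0078000000000000000000000) := Q_12 (nat_lit 139) (C_12 L37570 (C_12 L37579 (C_12 L37582 (C_12 L37585 N_12)))) (by decide +kernel)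
theorem L37587 : W_12 (nat_lit 5) (nat_lit 0x200002001700080000000000000000000000000000000) (nat_lit 0x0) (nat_lit 0x80004000dc000e000e000200010000000000000000000000) := Q_12 (nat_lit 139) (C_12 L37570 (C_12 L37585 N_12)) (by decide +kernel)
theorem L37588 : W_12 (nat_lit 2) (nat_lit 0x2000020017c0082000000000000000000000000000000) (nat_lit 0x0) (nat_lit 0xc000020000000000000000000000000000000000) := D_12 (nat_lit 158) (nat_lit 137) (nat_lit 159) (nat_lit 3) (nat_lit 1) (nat_lit 8) (nat_lit 3) (nat_lit 2) (nat_lit 8) (by decide +kernel)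
theorem L37589 : W_12 (nat_lit 3) (nat_lit 0x200002001780082000000000000000000000000000000) (nat_lit 0x0) (nat_lit 0xc000060001000000000000000000000000000000) := T_12 (nat_lit 138) (nat_lit 120) (nat_lit 0) (nat_lit 5) (nat_lit 8) L37588 (by decide +kernel)
theorem L37590 : W_12 (nat_lit 4) (nat_lit 0x200002001780080000000000000000000000000000000) (nat_lit 0x0) (nat_lit 0xc000060007000000000000000000000000000000) := T_12 (nat_lit 121) (nat_lit 122) (nat_lit 0) (nat_lit 6) (nat_lit 8) L37589 (by decide +kernel)
theorem L37591 : W_12 (nat_lit 11) (nat_lit 0x200002001700080000000000000000000000000000000) (nat_lit 0x0) (nat_lit 0x2000dc000e001f003fc0078000000000000000000000) := Q_12 (nat_lit 139) (C_12 L37590 (C_12 L37579 (C_12 L37585 N_12))) (by decide +kernel)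
theorem L37592 : W_12 (nat_lit 2) (nat_lit 0x800340003001700080000000000000000000000000000000) (nat_lit 0x0) (nat_lit 0x10000000000000000080004000000000000000000000000000000) := D_12 (nat_lit 139) (nat_lit 122) (nat_lit 208) (nat_lit 4) (nat_lit 4) (nat_lit 11) (nat_lit 4) (nat_lit 4) (nat_lit 12) (by decide +kernel)
theorem L37593 : W_12 (nat_lit 3) (nat_lit 0x340003001700080000000000000000000000000000000) (nat_lit 0x0) (nat_lit 0x10000800000000000080014000000000000000000000000000000) := T_12 (nat_lit 191) (nat_lit 124) (nat_lit 6) (nat_lit 4) (nat_lit 11) L37592 (by decide +kernel)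
theorem L37594 : W_12 (nat_lit 4) (nat_lit 0x240003001700080000000000000000000000000000000) (nat_lit 0x0) (nat_lit 0x10000800180000000080014000000000000000000000000000000) := T_12 (nat_lit 176) (nat_lit 175) (nat_lit 0) (nat_lit 7) (nat_lit 10) L37593 (by decide +kernel)
theorem L37595 : W_12 (nat_lit 2) (nat_lit 0x800240003001700080000000000000000000000000000000) (nat_lit 0x0) (nat_lit 0x10000000000000000080004000000000000000000000000000000) := D_12 (nat_lit 139) (nat_lit 122) (nat_lit 208) (nat_lit 4) (nat_lit 4) (nat_lit 11) (nat_lit 4) (nat_lit 4) (nat_lit 12) (by decide +kernel)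
theorem L37596 : W_12 (nat_lit 3) (nat_lit 0x240003001700080000000000000000000000000000000) (nat_lit 0x0) (nat_lit 0x10000800000000000080014000000000000000000000000000000) := T_12 (nat_lit 191) (nat_lit 124) (nat_lit 6) (nat_lit 4) (nat_lit 11) L37595 (by decide +kernel)
theorem L37597 : W_12 (nat_lit 2) (nat_lit 0xc00340007001700080000000000000000000000000000000) (nat_lit 0x0) (nat_lit 0x20003000000000000000000000000000000000000000000000000) := D_12 (nat_lit 192) (nat_lit 193) (nat_lit 209) (nat_lit 2) (nat_lit 3) (nat_lit 11) (nat_lit 7) (nat_lit 4) (nat_lit 8) (by decide +kernel)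
theorem L37598 : W_12 (nat_lit 3) (nat_lit 0x800340007001700080000000000000000000000000000000) (nat_lit 0x0) (nat_lit 0x28003400000000000000000000000000000000000000000000000) := T_12 (nat_lit 190) (nat_lit 207) (nat_lit 5) (nat_lit 4) (nat_lit 8) L37597 (by decide +kernel)
theorem L37599 : W_12 (nat_lit 4) (nat_lit 0x340007001700080000000000000000000000000000000) (nat_lit 0x0) (nat_lit 0x38003c00000000000000000000000000000000000000000000000) := T_12 (nat_lit 191) (nat_lit 208) (nat_lit 6) (nat_lit 4) (nat_lit 12) L37598 (by decide +kernel)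
theorem L37600 : W_12 (nat_lit 5) (nat_lit 0x340003001700080000000000000000000000000000000) (nat_lit 0x0) (nat_lit 0x38003c0000000c000000000000000000000000000000000000000) := T_12 (nat_lit 158) (nat_lit 159) (nat_lit 3) (nat_lit 3) (nat_lit 9) L37599 (by decide +kernel)
theorem L37601 : W_12 (nat_lit 6) (nat_lit 0x240003001700080000000000000000000000000000000) (nat_lit 0x0) (nat_lit 0x38003c0018000c000000000000000000000000000000000000000) := T_12 (nat_lit 176) (nat_lit 175) (nat_lit 0) (nat_lit 7) (nat_lit 10) L37600 (by decide +kernel)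
theorem L37602 : W_12 (nat_lit 8) (nat_lit 0x200003001700080000000000000000000000000000000) (nat_lit 0x0) (nat_lit 0x14000f8007c001c000c000080014000000000000000000000000000000) := Q_12 (nat_lit 174) (C_12 L37594 (C_12 L37596 (C_12 L37601 (C_12 L37507 N_12)))) (by decide +kernel)
theorem L37603 : W_12 (nat_lit 2) (nat_lit 0x200003001700080000000000000000000000000000000) (nat_lit 0x0) (nat_lit 0xc00080000000000000000000000000000000000) := D_12 (nat_lit 155) (nat_lit 139) (nat_lit 154) (nat_lit 1) (nat_lit 6) (nat_lit 8) (nat_lit 2) (nat_lit 1) (nat_lit 9) (by decide +kernel)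
theorem L37604 : W_12 (nat_lit 2) (nat_lit 0x200003001700080000000000000000000000000000000) (nat_lit 0x0) (nat_lit 0x4c00000000000000000000000000000000000000) := D_12 (nat_lit 155) (nat_lit 158) (nat_lit 154) (nat_lit 2) (nat_lit 2) (nat_lit 9) (nat_lit 2) (nat_lit 1) (nat_lit 9) (by decide +kernel)
theorem L37605 : W_12 (nat_lit 9) (nat_lit 0x200002001700080000000000000000000000000000000) (nat_lit 0x0) (nat_lit 0x14000f8007c001c000dc00080014000000000000000000000000000000) := Q_12 (nat_lit 156) (C_12 L37602 (C_12 L37603 (C_12 L37604 N_12))) (by decide +kernel)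
theorem L37606 : W_12 (nat_lit 5) (nat_lit 0x240002001700080000000000000000000000000000000) (nat_lit 0x0) (nat_lit 0x500038001c000a0004000000008000000000000000000000000000000) := Q_12 (nat_lit 191) (C_12 L37563 (C_12 L37539 (C_12 L37516 N_12))) (by decide +kernel)
theorem L37607 : W_12 (nat_lit 7) (nat_lit 0x240002001700080000000000000000000000000000000) (nat_lit 0x0) (nat_lit 0xf4001a000900000001f000a00000000000000000000000000) := Q_12 (nat_lit 123) (C_12 L37559 (C_12 L37554 (C_12 L37549 N_12))) (by decide +kernel)
theorem L37608 : W_12 (nat_lit 4) (nat_lit 0x240002001700080000000000000000000000000000000) (nat_lit 0x0) (nat_lit 0x400030001800000004000000010000000000000000000000000000000) := T_12 (nat_lit 191) (nat_lit 124) (nat_lit 6) (nat_lit 4) (nat_lit 11) L37539 (by decide +kernel)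
theorem L37609 : W_12 (nat_lit 8) (nat_lit 0x200002001700080000000000000000000000000000000) (nat_lit 0x0) (nat_lit 0x50003800fc001e000d00000001f000a00000000000000000000000000) := Q_12 (nat_lit 174) (C_12 L37606 (C_12 L37566 (C_12 L37518 (C_12 L37607 (C_12 L37608 N_12))))) (by decide +kernel)
theorem L37610 : W_12 (nat_lit 2) (nat_lit 0xc00340003001700080000000000000000000000000000000) (nat_lit 0x0) (nat_lit 0x20003000000000000000000000000000000000000000000000000) := D_12 (nat_lit 192) (nat_lit 209) (nat_lit 193) (nat_lit 7) (nat_lit 4) (nat_lit 8) (nat_lit 2) (nat_lit 3) (nat_lit 11) (by decide +kernel)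
theorem L37611 : W_12 (nat_lit 3) (nat_lit 0x800340003001700080000000000000000000000000000000) (nat_lit 0x0) (nat_lit 0x28003400000000000000000000000000000000000000000000000) := T_12 (nat_lit 190) (nat_lit 207) (nat_lit 5) (nat_lit 4) (nat_lit 8) L37610 (by decide +kernel)
theorem L37612 : W_12 (nat_lit 4) (nat_lit 0x340003001700080000000000000000000000000000000) (nat_lit 0x0) (nat_lit 0x28003c00000000000000010000000000000000000000000000000) := T_12 (nat_lit 191) (nat_lit 124) (nat_lit 6) (nat_lit 4) (nat_lit 11) L37611 (by decide +kernel)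
theorem L37613 : W_12 (nat_lit 5) (nat_lit 0x240003001700080000000000000000000000000000000) (nat_lit 0x0) (nat_lit 0x28003c00180000000000010000000000000000000000000000000) := T_12 (nat_lit 176) (nat_lit 175) (nat_lit 0) (nat_lit 7) (nat_lit 10) L37612 (by decide +kernel)
theorem L37614 : W_12 (nat_lit 2) (nat_lit 0x800240003001700080000000000000000000000000000000) (nat_lit 0x0) (nat_lit 0x10000000000004000080000000000000000000000000000000000) := D_12 (nat_lit 208) (nat_lit 139) (nat_lit 158) (nat_lit 4) (nat_lit 4) (nat_lit 12) (nat_lit 6) (nat_lit 4) (nat_lit 12) (by decide +kernel)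
theorem L37615 : W_12 (nat_lit 3) (nat_lit 0x240003001700080000000000000000000000000000000) (nat_lit 0x0) (nat_lit 0x10000800000004000080010000000000000000000000000000000) := T_12 (nat_lit 191) (nat_lit 124) (nat_lit 6) (nat_lit 4) (nat_lit 11) L37614 (by decide +kernel)
theorem L37616 : W_12 (nat_lit 8) (nat_lit 0x200003001700080000000000000000000000000000000) (nat_lit 0x0) (nat_lit 0x14000f8007c001c000c000080010000000000000000000000000000000) := Q_12 (nat_lit 174) (C_12 L37613 (C_12 L37615 (C_12 L37601 (C_12 L37507 N_12)))) (by decide +kernel)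
theorem L37617 : W_12 (nat_lit 9) (nat_lit 0x200002001700080000000000000000000000000000000) (nat_lit 0x0) (nat_lit 0x14000f8007c001c000dc00080010000000000000000000000000000000) := Q_12 (nat_lit 156) (C_12 L37616 (C_12 L37604 (C_12 L37603 N_12))) (by decide +kernel)
theorem L37618 : W_12 (nat_lit 12) (nat_lit 0x200000001700080000000000000000000000000000000) (nat_lit 0x0) (nat_lit 0x15000f800fc001f800fc000e001f003fc0078000000000000000000000) := Q_12 (nat_lit 157) (C_12 L37519 (C_12 L37529 (C_12 L37547 (C_12 L37567 (C_12 L37586 (C_12 L37587 (C_12 L37591 (C_12 L37605 (C_12 L37609 (C_12 L37617 N_12)))))))))) (by decide +kernel)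
theorem L37619 : W_12 (nat_lit 13) (nat_lit 0x200000001300080000000000000000000000000000000) (nat_lit 0x0) (nat_lit 0x15000f800fc001f800fc00ce015f003fc0078000000000000000000000) := Q_12 (nat_lit 142) (C_12 L37618 (C_12 L34311 N_12)) (by decide +kernel)
theorem L37620 : W_12 (nat_lit 2) (nat_lit 0x2800080004000200010001300080000000000000000000000000000000) (nat_lit 0x0) (nat_lit 0x50001000000000000000000000000000000000000000000000000000000000) := D_12 (nat_lit 228) (nat_lit 244) (nat_lit 246) (nat_lit 5) (nat_lit 7) (nat_lit 10) (nat_lit 7) (nat_lit 7) (nat_lit 10) (by decide +kernel)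
theorem L37621 : W_12 (nat_lit 3) (nat_lit 0x800080004000200010001300080000000000000000000000000000000) (nat_lit 0x0) (nat_lit 0x50003000100000000000000000000000000000000000000000000000000000) := T_12 (nat_lit 229) (nat_lit 212) (nat_lit 7) (nat_lit 7) (nat_lit 9) L37620 (by decide +kernel)
theorem L37622 : W_12 (nat_lit 4) (nat_lit 0x80004000200010001300080000000000000000000000000000000) (nat_lit 0x0) (nat_lit 0x50003800140000000000000000000000000000000000000000000000000000) := T_12 (nat_lit 227) (nat_lit 210) (nat_lit 5) (nat_lit 7) (nat_lit 9) L37621 (by decide +kernel)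
theorem L37623 : W_12 (nat_lit 5) (nat_lit 0x4000200010001300080000000000000000000000000000000) (nat_lit 0x0) (nat_lit 0x500038001c0000000000020000000000000000000000000000000000000000) := T_12 (nat_lit 211) (nat_lit 161) (nat_lit 6) (nat_lit 7) (nat_lit 12) L37622 (by decide +kernel)
theorem L37624 : W_12 (nat_lit 6) (nat_lit 0x4000200000001300080000000000000000000000000000000) (nat_lit 0x0) (nat_lit 0x500038001c0000000000030000800000000000000000000000000000000000) := T_12 (nat_lit 160) (nat_lit 143) (nat_lit 6) (nat_lit 7) (nat_lit 11) L37623 (by decide +kernel)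
theorem L37625 : W_12 (nat_lit 2) (nat_lit 0x4000200000001b00080000000000000000000000000000000) (nat_lit 0x0) (nat_lit 0x400140000000000000000000000000000000) := D_12 (nat_lit 142) (nat_lit 128) (nat_lit 126) (nat_lit 2) (nat_lit 5) (nat_lit 8) (nat_lit 2) (nat_lit 4) (nat_lit 8) (by decide +kernel)
theorem L37626 : W_12 (nat_lit 3) (nat_lit 0x4000200000001300080000000000000000000000000000000) (nat_lit 0x0) (nat_lit 0x10000c00140000000000000000000000000000000) := T_12 (nat_lit 143) (nat_lit 160) (nat_lit 6) (nat_lit 7) (nat_lit 11) L37625 (by decide +kernel)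
theorem L37627 : W_12 (nat_lit 2) (nat_lit 0x4c00240002001300088000000000000000000000000000000) (nat_lit 0x0) (nat_lit 0x80004000200000000000000000000000000) := D_12 (nat_lit 122) (nat_lit 105) (nat_lit 139) (nat_lit 4) (nat_lit 4) (nat_lit 10) (nat_lit 4) (nat_lit 4) (nat_lit 11) (by decide +kernel)
theorem L37628 : W_12 (nat_lit 3) (nat_lit 0x4c00240002001300080000000000000000000000000000000) (nat_lit 0x0) (nat_lit 0x2000000008000c000200000000000000000000000000) := T_12 (nat_lit 123) (nat_lit 173) (nat_lit 5) (nat_lit 4) (nat_lit 7) L37627 (by decide +kernel)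
theorem L37629 : W_12 (nat_lit 4) (nat_lit 0x4800240002001300080000000000000000000000000000000) (nat_lit 0x0) (nat_lit 0x800040002000000008000c000200000000000000000000000000) := T_12 (nat_lit 190) (nat_lit 207) (nat_lit 5) (nat_lit 4) (nat_lit 8) L37628 (by decide +kernel)
theorem L37630 : W_12 (nat_lit 5) (nat_lit 0x4000240002001300080000000000000000000000000000000) (nat_lit 0x0) (nat_lit 0x8000c0002000000008001c000200000000000000000000000000) := T_12 (nat_lit 191) (nat_lit 124) (nat_lit 6) (nat_lit 4) (nat_lit 11) L37629 (by decide +kernel)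
theorem L37631 : W_12 (nat_lit 2) (nat_lit 0x4800240002001380080000000000000000000000000000000) (nat_lit 0x0) (nat_lit 0x10000000000005000000000000000000000000000000000000000) := D_12 (nat_lit 208) (nat_lit 158) (nat_lit 156) (nat_lit 6) (nat_lit 4) (nat_lit 12) (nat_lit 4) (nat_lit 4) (nat_lit 12) (by decide +kernel)
theorem L37632 : W_12 (nat_lit 3) (nat_lit 0x4800240002001300080000000000000000000000000000000) (nat_lit 0x0) (nat_lit 0x10000000000005000080004000000000000000000000000000000) := T_12 (nat_lit 139) (nat_lit 122) (nat_lit 4) (nat_lit 4) (nat_lit 11) L37631 (by decide +kernel)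
theorem L37633 : W_12 (nat_lit 2) (nat_lit 0x10004800240002001300080000000000000000000000000000000) (nat_lit 0x0) (nat_lit 0x100008000400000000000000000000000000000000000000000000000) := D_12 (nat_lit 207) (nat_lit 224) (nat_lit 190) (nat_lit 5) (nat_lit 4) (nat_lit 9) (nat_lit 5) (nat_lit 4) (nat_lit 8) (by decide +kernel)
theorem L37634 : W_12 (nat_lit 3) (nat_lit 0x4800240002001300080000000000000000000000000000000) (nat_lit 0x0) (nat_lit 0x100018000400000004000000000000000000000000000000000000000) := T_12 (nat_lit 208) (nat_lit 158) (nat_lit 6) (nat_lit 4) (nat_lit 12) L37633 (by decide +kernel)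
theorem L37635 : W_12 (nat_lit 5) (nat_lit 0x4000240002001300080000000000000000000000000000000) (nat_lit 0x0) (nat_lit 0x100018000c0002000500008000c000200000000000000000000000000) := Q_12 (nat_lit 191) (C_12 L37629 (C_12 L37632 (C_12 L37634 N_12))) (by decide +kernel)
theorem L37636 : W_12 (nat_lit 4) (nat_lit 0x4000240002001300080000000000000000000000000000000) (nat_lit 0x0) (nat_lit 0x100018000c00000004000000010000000000000000000000000000000) := T_12 (nat_lit 191) (nat_lit 124) (nat_lit 6) (nat_lit 4) (nat_lit 11) L37634 (by decide +kernel)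
theorem L37637 : W_12 (nat_lit 2) (nat_lit 0x40002c0002001b0008d000000000000000000000000000000) (nat_lit 0x0) (nat_lit 0x8000100001000000000000000000000000000000000000000) := D_12 (nat_lit 176) (nat_lit 195) (nat_lit 156) (nat_lit 3) (nat_lit 4) (nat_lit 10) (nat_lit 0) (nat_lit 7) (nat_lit 10) (by decide +kernel)
theorem L37638 : W_12 (nat_lit 3) (nat_lit 0x4000240002001b0008d000000000000000000000000000000) (nat_lit 0x0) (nat_lit 0x9000180001000000000000000000000000000000000000000) := T_12 (nat_lit 175) (nat_lit 192) (nat_lit 7) (nat_lit 4) (nat_lit 7) L37637 (by decide +kernel)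
theorem L37639 : W_12 (nat_lit 4) (nat_lit 0x400024000200130008d000000000000000000000000000000) (nat_lit 0x0) (nat_lit 0x9000180001000c00000000000000000000000000000000000) := T_12 (nat_lit 143) (nat_lit 142) (nat_lit 0) (nat_lit 7) (nat_lit 8) L37638 (by decide +kernel)
theorem L37640 : W_12 (nat_lit 5) (nat_lit 0x400024000200130008c000000000000000000000000000000) (nat_lit 0x0) (nat_lit 0x9000180001000c00003000000000000000000000000000000) := T_12 (nat_lit 120) (nat_lit 121) (nat_lit 3) (nat_lit 1) (nat_lit 7) L37639 (by decide +kernel)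
theorem L37641 : W_12 (nat_lit 6) (nat_lit 0x4000240002001300088000000000000000000000000000000) (nat_lit 0x0) (nat_lit 0x9000180001000c00007000200000000000000000000000000) := T_12 (nat_lit 122) (nat_lit 105) (nat_lit 4) (nat_lit 4) (nat_lit 10) L37640 (by decide +kernel)
theorem L37642 : W_12 (nat_lit 2) (nat_lit 0x40002c0002001b0009d000400000000000000000000000000) (nat_lit 0x0) (nat_lit 0x400020001000000000000000000000000000000000000000) := D_12 (nat_lit 173) (nat_lit 190) (nat_lit 156) (nat_lit 5) (nat_lit 4) (nat_lit 7) (nat_lit 5) (nat_lit 4) (nat_lit 6) (by decide +kernel)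
theorem L37643 : W_12 (nat_lit 3) (nat_lit 0x40002c0002001b0009d000000000000000000000000000000) (nat_lit 0x0) (nat_lit 0x400020005000000000000400000000000000000000000000) := T_12 (nat_lit 106) (nat_lit 158) (nat_lit 7) (nat_lit 4) (nat_lit 6) L37642 (by decide +kernel)
theorem L37644 : W_12 (nat_lit 4) (nat_lit 0x4000240002001b0009d000000000000000000000000000000) (nat_lit 0x0) (nat_lit 0x14000a0005000000000000400000000000000000000000000) := T_12 (nat_lit 175) (nat_lit 192) (nat_lit 7) (nat_lit 4) (nat_lit 7) L37643 (by decide +kernel)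
theorem L37645 : W_12 (nat_lit 5) (nat_lit 0x4000240002001b0009c000000000000000000000000000000) (nat_lit 0x0) (nat_lit 0x14000a0005000000003000400000000000000000000000000) := T_12 (nat_lit 120) (nat_lit 121) (nat_lit 3) (nat_lit 1) (nat_lit 7) L37644 (by decide +kernel)
theorem L37646 : W_12 (nat_lit 6) (nat_lit 0x4000240002001b00098000000000000000000000000000000) (nat_lit 0x0) (nat_lit 0x14000a0005000000007000600000000000000000000000000) := T_12 (nat_lit 122) (nat_lit 105) (nat_lit 4) (nat_lit 4) (nat_lit 10) L37645 (by decide +kernel)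
theorem L37647 : W_12 (nat_lit 7) (nat_lit 0x4000240002001300098000000000000000000000000000000) (nat_lit 0x0) (nat_lit 0x14000a0005000c00007000600000000000000000000000000) := T_12 (nat_lit 143) (nat_lit 142) (nat_lit 0) (nat_lit 8) (nat_lit 8) L37646 (by decide +kernel)
theorem L37648 : W_12 (nat_lit 8) (nat_lit 0x4000240002001300088000000000000000000000000000000) (nat_lit 0x0) (nat_lit 0x14000a0005000c00017000e00000000000000000000000000) := T_12 (nat_lit 124) (nat_lit 107) (nat_lit 6) (nat_lit 4) (nat_lit 10) L37647 (by decide +kernel)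
theorem L37649 : W_12 (nat_lit 2) (nat_lit 0x4000260002001300088000400000000000000000000000000) (nat_lit 0x0) (nat_lit 0x4000200010000000000000000000000) := D_12 (nat_lit 105) (nat_lit 88) (nat_lit 122) (nat_lit 4) (nat_lit 4) (nat_lit 9) (nat_lit 4) (nat_lit 4) (nat_lit 10) (by decide +kernel)
theorem L37650 : W_12 (nat_lit 3) (nat_lit 0x4000260002001300088000000000000000000000000000000) (nat_lit 0x0) (nat_lit 0x1000000004000600010000000000000000000000) := T_12 (nat_lit 106) (nat_lit 156) (nat_lit 5) (nat_lit 4) (nat_lit 6) L37649 (by decide +kernel)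
theorem L37651 : W_12 (nat_lit 4) (nat_lit 0x4000240002001300088000000000000000000000000000000) (nat_lit 0x0) (nat_lit 0x400020001000000004000600010000000000000000000000) := T_12 (nat_lit 173) (nat_lit 190) (nat_lit 5) (nat_lit 4) (nat_lit 7) L37650 (by decide +kernel)
theorem L37652 : W_12 (nat_lit 2) (nat_lit 0x40002c0002001b0008d000400000000000000000000000000) (nat_lit 0x0) (nat_lit 0x10000800040000000000000000000000) := D_12 (nat_lit 107) (nat_lit 90) (nat_lit 124) (nat_lit 6) (nat_lit 4) (nat_lit 9) (nat_lit 6) (nat_lit 4) (nat_lit 10) (by decide +kernel)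
theorem L37653 : W_12 (nat_lit 3) (nat_lit 0x40002c0002001b0008d000000000000000000000000000000) (nat_lit 0x0) (nat_lit 0x4000000010000c00040000000000000000000000) := T_12 (nat_lit 106) (nat_lit 158) (nat_lit 7) (nat_lit 4) (nat_lit 6) L37652 (by decide +kernel)
theorem L37654 : W_12 (nat_lit 4) (nat_lit 0x4000240002001b0008d000000000000000000000000000000) (nat_lit 0x0) (nat_lit 0x1000080004000000010000c00040000000000000000000000) := T_12 (nat_lit 175) (nat_lit 192) (nat_lit 7) (nat_lit 4) (nat_lit 7) L37653 (by decide +kernel)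
theorem L37655 : W_12 (nat_lit 5) (nat_lit 0x400024000200130008d000000000000000000000000000000) (nat_lit 0x0) (nat_lit 0x1000080004000c00010000c00040000000000000000000000) := T_12 (nat_lit 143) (nat_lit 142) (nat_lit 0) (nat_lit 7) (nat_lit 8) L37654 (by decide +kernel)
theorem L37656 : W_12 (nat_lit 6) (nat_lit 0x400024000200130008c000000000000000000000000000000) (nat_lit 0x0) (nat_lit 0x1000080004000c00013000c00040000000000000000000000) := T_12 (nat_lit 120) (nat_lit 121) (nat_lit 3) (nat_lit 1) (nat_lit 7) L37655 (by decide +kernel)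
theorem L37657 : W_12 (nat_lit 7) (nat_lit 0x4000240002001300088000000000000000000000000000000) (nat_lit 0x0) (nat_lit 0x1000080004000c00017000e00040000000000000000000000) := T_12 (nat_lit 122) (nat_lit 105) (nat_lit 4) (nat_lit 4) (nat_lit 10) L37656 (by decide +kernel)
theorem L37658 : W_12 (nat_lit 2) (nat_lit 0x4000260002001300088000400000000000000000000000000) (nat_lit 0x0) (nat_lit 0x10000800040000000000000000000000) := D_12 (nat_lit 107) (nat_lit 124) (nat_lit 90) (nat_lit 6) (nat_lit 4) (nat_lit 10) (nat_lit 6) (nat_lit 4) (nat_lit 9) (by decide +kernel)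
theorem L37659 : W_12 (nat_lit 3) (nat_lit 0x4000260002001300088000000000000000000000000000000) (nat_lit 0x0) (nat_lit 0x1000000010000c00040000000000000000000000) := T_12 (nat_lit 106) (nat_lit 156) (nat_lit 5) (nat_lit 4) (nat_lit 6) L37658 (by decide +kernel)
theorem L37660 : W_12 (nat_lit 4) (nat_lit 0x4000240002001300088000000000000000000000000000000) (nat_lit 0x0) (nat_lit 0x400020001000000010000c00040000000000000000000000) := T_12 (nat_lit 173) (nat_lit 190) (nat_lit 5) (nat_lit 4) (nat_lit 7) L37659 (by decide +kernel)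
theorem L37661 : W_12 (nat_lit 9) (nat_lit 0x4000240002001300080000000000000000000000000000000) (nat_lit 0x0) (nat_lit 0x94001a0005000c0001f000e00050000000000000000000000) := Q_12 (nat_lit 123) (C_12 L37641 (C_12 L37648 (C_12 L37651 (C_12 L37657 (C_12 L37660 N_12))))) (by decide +kernel)
theorem L37662 : W_12 (nat_lit 4) (nat_lit 0x4000240002001300080000000000000000000000000000000) (nat_lit 0x0) (nat_lit 0x10000800000005000080014000000000000000000000000000000) := T_12 (nat_lit 191) (nat_lit 124) (nat_lit 6) (nat_lit 4) (nat_lit 11) L37632 (by decide +kernel)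
theorem L37663 : W_12 (nat_lit 10) (nat_lit 0x4000240000001300080000000000000000000000000000000) (nat_lit 0x0) (nat_lit 0x100018009c001a0007000c8001f000e00050000000000000000000000) := Q_12 (nat_lit 157) (C_12 L37630 (C_12 L37635 (C_12 L37636 (C_12 L37661 (C_12 L37662 N_12))))) (by decide +kernel)
theorem L37664 : W_12 (nat_lit 2) (nat_lit 0x5800240002001380088000000000000000000000000000000) (nat_lit 0x0) (nat_lit 0x2400020000000000000000000000000000000000000000000) := D_12 (nat_lit 173) (nat_lit 190) (nat_lit 193) (nat_lit 5) (nat_lit 4) (nat_lit 7) (nat_lit 0) (nat_lit 7) (nat_lit 11) (by decide +kernel)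
theorem L37665 : W_12 (nat_lit 3) (nat_lit 0x5800240002001380080000000000000000000000000000000) (nat_lit 0x0) (nat_lit 0x24000a0000000000008000000000000000000000000000000) := T_12 (nat_lit 123) (nat_lit 175) (nat_lit 7) (nat_lit 4) (nat_lit 7) L37664 (by decide +kernel)
theorem L37666 : W_12 (nat_lit 4) (nat_lit 0x4800240002001380080000000000000000000000000000000) (nat_lit 0x0) (nat_lit 0x200034000a0000000000008000000000000000000000000000000) := T_12 (nat_lit 192) (nat_lit 209) (nat_lit 7) (nat_lit 4) (nat_lit 8) L37665 (by decide +kernel)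
theorem L37667 : W_12 (nat_lit 5) (nat_lit 0x4800240002001300080000000000000000000000000000000) (nat_lit 0x0) (nat_lit 0x200034000a000000008000c000000000000000000000000000000) := T_12 (nat_lit 139) (nat_lit 122) (nat_lit 4) (nat_lit 4) (nat_lit 11) L37666 (by decide +kernel)
theorem L37668 : W_12 (nat_lit 2) (nat_lit 0x10004800240002001300080000000000000000000000000000000) (nat_lit 0x0) (nat_lit 0x400020001000000000000000000000000000000000000000000000000) := D_12 (nat_lit 209) (nat_lit 192) (nat_lit 226) (nat_lit 7) (nat_lit 4) (nat_lit 8) (nat_lit 7) (nat_lit 4) (nat_lit 9) (by decide +kernel)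
theorem L37669 : W_12 (nat_lit 3) (nat_lit 0x4800240002001300080000000000000000000000000000000) (nat_lit 0x0) (nat_lit 0x400030001000000004000000000000000000000000000000000000000) := T_12 (nat_lit 208) (nat_lit 158) (nat_lit 6) (nat_lit 4) (nat_lit 12) L37668 (by decide +kernel)
theorem L37670 : W_12 (nat_lit 6) (nat_lit 0x4000240002001300080000000000000000000000000000000) (nat_lit 0x0) (nat_lit 0x500038003c000a000400008000c000200000000000000000000000000) := Q_12 (nat_lit 191) (C_12 L37629 (C_12 L37634 (C_12 L37667 (C_12 L37669 N_12)))) (by decide +kernel)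
theorem L37671 : W_12 (nat_lit 2) (nat_lit 0x40003c0002001b0008d000000000000000000000000000000) (nat_lit 0x0) (nat_lit 0x2400020000000000000000000000000000000000000000000) := D_12 (nat_lit 173) (nat_lit 193) (nat_lit 190) (nat_lit 3) (nat_lit 3) (nat_lit 10) (nat_lit 5) (nat_lit 4) (nat_lit 7) (by decide +kernel)
theorem L37672 : W_12 (nat_lit 3) (nat_lit 0x40002c0002001b0008d000000000000000000000000000000) (nat_lit 0x0) (nat_lit 0xa400120000000000000000000000000000000000000000000) := T_12 (nat_lit 176) (nat_lit 195) (nat_lit 3) (nat_lit 4) (nat_lit 10) L37671 (by decide +kernel)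
theorem L37673 : W_12 (nat_lit 4) (nat_lit 0x4000240002001b0008d000000000000000000000000000000) (nat_lit 0x0) (nat_lit 0xb4001a0000000000000000000000000000000000000000000) := T_12 (nat_lit 175) (nat_lit 192) (nat_lit 7) (nat_lit 4) (nat_lit 7) L37672 (by decide +kernel)
theorem L37674 : W_12 (nat_lit 5) (nat_lit 0x400024000200130008d000000000000000000000000000000) (nat_lit 0x0) (nat_lit 0xb4001a0000000c00000000000000000000000000000000000) := T_12 (nat_lit 143) (nat_lit 142) (nat_lit 0) (nat_lit 7) (nat_lit 8) L37673 (by decide +kernel)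
theorem L37675 : W_12 (nat_lit 6) (nat_lit 0x400024000200130008c000000000000000000000000000000) (nat_lit 0x0) (nat_lit 0xb4001a0000000c00003000000000000000000000000000000) := T_12 (nat_lit 120) (nat_lit 121) (nat_lit 3) (nat_lit 1) (nat_lit 7) L37674 (by decide +kernel)
theorem L37676 : W_12 (nat_lit 7) (nat_lit 0x4000240002001300088000000000000000000000000000000) (nat_lit 0x0) (nat_lit 0xb4001a0000000c00007000200000000000000000000000000) := T_12 (nat_lit 122) (nat_lit 105) (nat_lit 4) (nat_lit 4) (nat_lit 10) L37675 (by decide +kernel)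
theorem L37677 : W_12 (nat_lit 2) (nat_lit 0x4000260002001b00098000600000000000000000000000000) (nat_lit 0x0) (nat_lit 0x4000000000000000020001000000000000000000) := D_12 (nat_lit 89) (nat_lit 72) (nat_lit 158) (nat_lit 7) (nat_lit 4) (nat_lit 4) (nat_lit 7) (nat_lit 4) (nat_lit 5) (by decide +kernel)
theorem L37678 : W_12 (nat_lit 3) (nat_lit 0x4000260002001b00098000200000000000000000000000000) (nat_lit 0x0) (nat_lit 0x4000000000000400030001000000000000000000) := T_12 (nat_lit 106) (nat_lit 88) (nat_lit 4) (nat_lit 4) (nat_lit 9) L37677 (by decide +kernel)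
theorem L37679 : W_12 (nat_lit 4) (nat_lit 0x4000240002001b00098000200000000000000000000000000) (nat_lit 0x0) (nat_lit 0x400020004000000000000400030001000000000000000000) := T_12 (nat_lit 173) (nat_lit 190) (nat_lit 5) (nat_lit 4) (nat_lit 7) L37678 (by decide +kernel)
theorem L37680 : W_12 (nat_lit 5) (nat_lit 0x4000240002001b00098000000000000000000000000000000) (nat_lit 0x0) (nat_lit 0x400020004000000004000600030001000000000000000000) := T_12 (nat_lit 105) (nat_lit 122) (nat_lit 4) (nat_lit 4) (nat_lit 10) L37679 (by decide +kernel)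
theorem L37681 : W_12 (nat_lit 6) (nat_lit 0x4000240002001300098000000000000000000000000000000) (nat_lit 0x0) (nat_lit 0x400020004000c00004000600030001000000000000000000) := T_12 (nat_lit 143) (nat_lit 142) (nat_lit 0) (nat_lit 8) (nat_lit 8) L37680 (by decide +kernel)
theorem L37682 : W_12 (nat_lit 7) (nat_lit 0x4000240002001300088000000000000000000000000000000) (nat_lit 0x0) (nat_lit 0x400020004000c00014000e00030001000000000000000000) := T_12 (nat_lit 124) (nat_lit 107) (nat_lit 6) (nat_lit 4) (nat_lit 10) L37681 (by decide +kernel)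
theorem L37683 : W_12 (nat_lit 2) (nat_lit 0x40002e0002001300088000000000000000000000000000000) (nat_lit 0x0) (nat_lit 0xa000100000000000000000000000000000000000000000000) := D_12 (nat_lit 176) (nat_lit 193) (nat_lit 195) (nat_lit 3) (nat_lit 3) (nat_lit 10) (nat_lit 3) (nat_lit 4) (nat_lit 10) (by decide +kernel)
theorem L37684 : W_12 (nat_lit 3) (nat_lit 0x4000260002001300088000000000000000000000000000000) (nat_lit 0x0) (nat_lit 0xb000180000000000000000000000000000000000000000000) := T_12 (nat_lit 175) (nat_lit 192) (nat_lit 7) (nat_lit 4) (nat_lit 7) L37683 (by decide +kernel)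
theorem L37685 : W_12 (nat_lit 4) (nat_lit 0x4000240002001300088000000000000000000000000000000) (nat_lit 0x0) (nat_lit 0xb4001a0000000000000000000000000000000000000000000) := T_12 (nat_lit 173) (nat_lit 190) (nat_lit 5) (nat_lit 4) (nat_lit 7) L37684 (by decide +kernel)
theorem L37686 : W_12 (nat_lit 8) (nat_lit 0x4000240002001300080000000000000000000000000000000) (nat_lit 0x0) (nat_lit 0xb4001a0004000c0001f000e00070001000000000000000000) := Q_12 (nat_lit 123) (C_12 L37676 (C_12 L37657 (C_12 L37682 (C_12 L37685 N_12)))) (by decide +kernel)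
theorem L37687 : W_12 (nat_lit 4) (nat_lit 0x4000240002001300080000000000000000000000000000000) (nat_lit 0x0) (nat_lit 0x400030001800000004000000010000000000000000000000000000000) := T_12 (nat_lit 191) (nat_lit 124) (nat_lit 6) (nat_lit 4) (nat_lit 11) L37669 (by decide +kernel)
theorem L37688 : W_12 (nat_lit 9) (nat_lit 0x4000240000001300080000000000000000000000000000000) (nat_lit 0x0) (nat_lit 0x50003800bc001a0006000c8001f000e00070001000000000000000000) := Q_12 (nat_lit 157) (C_12 L37636 (C_12 L37630 (C_12 L37670 (C_12 L37686 (C_12 L37687 N_12))))) (by decide +kernel)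
theorem L37689 : W_12 (nat_lit 2) (nat_lit 0x4000340003801300080000000000000000000000000000000) (nat_lit 0x0) (nat_lit 0xc80000000000000000000000000000000000) := D_12 (nat_lit 142) (nat_lit 143) (nat_lit 139) (nat_lit 1) (nat_lit 7) (nat_lit 8) (nat_lit 1) (nat_lit 6) (nat_lit 8) (by decide +kernel)
theorem L37690 : W_12 (nat_lit 3) (nat_lit 0x4000340003001300080000000000000000000000000000000) (nat_lit 0x0) (nat_lit 0xc00c80000000000000000000000000000000000) := T_12 (nat_lit 155) (nat_lit 154) (nat_lit 2) (nat_lit 1) (nat_lit 9) L37689 (by decide +kernel)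
theorem L37691 : W_12 (nat_lit 4) (nat_lit 0x4000240003001300080000000000000000000000000000000) (nat_lit 0x0) (nat_lit 0x180000c00c80000000000000000000000000000000000) := T_12 (nat_lit 176) (nat_lit 175) (nat_lit 0) (nat_lit 7) (nat_lit 10) L37690 (by decide +kernel)
theorem L37692 : W_12 (nat_lit 2) (nat_lit 0x4000240003001700080000000000000000000000000000000) (nat_lit 0x0) (nat_lit 0xc00080000000000000000000000000000000000) := D_12 (nat_lit 155) (nat_lit 154) (nat_lit 139) (nat_lit 2) (nat_lit 1) (nat_lit 9) (nat_lit 1) (nat_lit 6) (nat_lit 8) (by decide +kernel)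
theorem L37693 : W_12 (nat_lit 3) (nat_lit 0x4000240003001300080000000000000000000000000000000) (nat_lit 0x0) (nat_lit 0xc00c80000000000000000000000000000000000) := T_12 (nat_lit 142) (nat_lit 143) (nat_lit 1) (nat_lit 7) (nat_lit 8) L37692 (by decide +kernel)
theorem L37694 : W_12 (nat_lit 2) (nat_lit 0x40002c0003401300088000000000000000000000000000000) (nat_lit 0x0) (nat_lit 0x400020000000000000000400000000000000000000000000) := D_12 (nat_lit 173) (nat_lit 190) (nat_lit 106) (nat_lit 5) (nat_lit 4) (nat_lit 7) (nat_lit 5) (nat_lit 4) (nat_lit 6) (by decide +kernel)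
theorem L37695 : W_12 (nat_lit 3) (nat_lit 0x40002c0003401300080000000000000000000000000000000) (nat_lit 0x0) (nat_lit 0x1400020000000000008000400000000000000000000000000) := T_12 (nat_lit 123) (nat_lit 192) (nat_lit 7) (nat_lit 4) (nat_lit 7) L37694 (by decide +kernel)
theorem L37696 : W_12 (nat_lit 4) (nat_lit 0x4000240003401300080000000000000000000000000000000) (nat_lit 0x0) (nat_lit 0x14001a0000000000008000400000000000000000000000000) := T_12 (nat_lit 175) (nat_lit 176) (nat_lit 0) (nat_lit 7) (nat_lit 10) L37695 (by decide +kernel)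
theorem L37697 : W_12 (nat_lit 5) (nat_lit 0x4000240003001300080000000000000000000000000000000) (nat_lit 0x0) (nat_lit 0x14001a0000c00000008000400000000000000000000000000) := T_12 (nat_lit 154) (nat_lit 155) (nat_lit 2) (nat_lit 1) (nat_lit 9) L37696 (by decide +kernel)
theorem L37698 : W_12 (nat_lit 2) (nat_lit 0x40002c0003001b00088000000000000000000000000000000) (nat_lit 0x0) (nat_lit 0x400020000000000000000400000000000000000000000000) := D_12 (nat_lit 173) (nat_lit 190) (nat_lit 106) (nat_lit 5) (nat_lit 4) (nat_lit 7) (nat_lit 5) (nat_lit 4) (nat_lit 6) (by decide +kernel)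
theorem L37699 : W_12 (nat_lit 3) (nat_lit 0x40002c0003001b00080000000000000000000000000000000) (nat_lit 0x0) (nat_lit 0x1400020000000000008000400000000000000000000000000) := T_12 (nat_lit 123) (nat_lit 192) (nat_lit 7) (nat_lit 4) (nat_lit 7) L37698 (by decide +kernel)
theorem L37700 : W_12 (nat_lit 4) (nat_lit 0x40002c0003001300080000000000000000000000000000000) (nat_lit 0x0) (nat_lit 0x1400020000000c00008000400000000000000000000000000) := T_12 (nat_lit 143) (nat_lit 142) (nat_lit 1) (nat_lit 7) (nat_lit 8) L37699 (by decide +kernel)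
theorem L37701 : W_12 (nat_lit 5) (nat_lit 0x4000240003001300080000000000000000000000000000000) (nat_lit 0x0) (nat_lit 0x14001a0000000c00008000400000000000000000000000000) := T_12 (nat_lit 175) (nat_lit 176) (nat_lit 0) (nat_lit 7) (nat_lit 10) L37700 (by decide +kernel)
theorem L37702 : W_12 (nat_lit 6) (nat_lit 0x4000240002001300080000000000000000000000000000000) (nat_lit 0x0) (nat_lit 0x14001a0001c00c80008000400000000000000000000000000) := Q_12 (nat_lit 156) (C_12 L37691 (C_12 L37693 (C_12 L37697 (C_12 L37701 N_12)))) (by decide +kernel)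
theorem L37703 : W_12 (nat_lit 2) (nat_lit 0x4c00340002001300080000000000000000000000000000000) (nat_lit 0x0) (nat_lit 0x20003000000000000000000000000000000000000000000000000) := D_12 (nat_lit 192) (nat_lit 193) (nat_lit 209) (nat_lit 2) (nat_lit 3) (nat_lit 11) (nat_lit 7) (nat_lit 4) (nat_lit 8) (by decide +kernel)
theorem L37704 : W_12 (nat_lit 3) (nat_lit 0x4c00240002001300080000000000000000000000000000000) (nat_lit 0x0) (nat_lit 0x20003000180000000000000000000000000000000000000000000) := T_12 (nat_lit 176) (nat_lit 175) (nat_lit 1) (nat_lit 7) (nat_lit 10) L37703 (by decide +kernel)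
theorem L37705 : W_12 (nat_lit 4) (nat_lit 0x4800240002001300080000000000000000000000000000000) (nat_lit 0x0) (nat_lit 0x28003400180000000000000000000000000000000000000000000) := T_12 (nat_lit 190) (nat_lit 207) (nat_lit 5) (nat_lit 4) (nat_lit 8) L37704 (by decide +kernel)
theorem L37706 : W_12 (nat_lit 5) (nat_lit 0x4000240002001300080000000000000000000000000000000) (nat_lit 0x0) (nat_lit 0x28003c00180000000000010000000000000000000000000000000) := T_12 (nat_lit 191) (nat_lit 124) (nat_lit 6) (nat_lit 4) (nat_lit 11) L37705 (by decide +kernel)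
theorem L37707 : W_12 (nat_lit 2) (nat_lit 0x7800240002001380088000000000000000000000000000000) (nat_lit 0x0) (nat_lit 0x18000000000001000000000000000000000000000000000000000) := D_12 (nat_lit 208) (nat_lit 156) (nat_lit 207) (nat_lit 4) (nat_lit 4) (nat_lit 12) (nat_lit 1) (nat_lit 7) (nat_lit 11) (by decide +kernel)
theorem L37708 : W_12 (nat_lit 3) (nat_lit 0x5800240002001380088000000000000000000000000000000) (nat_lit 0x0) (nat_lit 0x18002000020001000000000000000000000000000000000000000) := T_12 (nat_lit 193) (nat_lit 173) (nat_lit 0) (nat_lit 7) (nat_lit 11) L37707 (by decide +kernel)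
theorem L37709 : W_12 (nat_lit 4) (nat_lit 0x5800240002001380080000000000000000000000000000000) (nat_lit 0x0) (nat_lit 0x180020000a0001000000008000000000000000000000000000000) := T_12 (nat_lit 123) (nat_lit 175) (nat_lit 7) (nat_lit 4) (nat_lit 7) L37708 (by decide +kernel)
theorem L37710 : W_12 (nat_lit 5) (nat_lit 0x4800240002001380080000000000000000000000000000000) (nat_lit 0x0) (nat_lit 0x380030000a0001000000008000000000000000000000000000000) := T_12 (nat_lit 192) (nat_lit 209) (nat_lit 7) (nat_lit 4) (nat_lit 8) L37709 (by decide +kernel)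
theorem L37711 : W_12 (nat_lit 6) (nat_lit 0x4800240002001300080000000000000000000000000000000) (nat_lit 0x0) (nat_lit 0x380030000a000100008000c000000000000000000000000000000) := T_12 (nat_lit 139) (nat_lit 122) (nat_lit 4) (nat_lit 4) (nat_lit 11) L37710 (by decide +kernel)
theorem L37712 : W_12 (nat_lit 7) (nat_lit 0x4000240002001300080000000000000000000000000000000) (nat_lit 0x0) (nat_lit 0x380038000a000100008001c000000000000000000000000000000) := T_12 (nat_lit 191) (nat_lit 124) (nat_lit 6) (nat_lit 4) (nat_lit 11) L37711 (by decide +kernel)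
theorem L37713 : W_12 (nat_lit 8) (nat_lit 0x4000240000001300080000000000000000000000000000000) (nat_lit 0x0) (nat_lit 0x38003c001a0003c00c8001c000600000000000000000000000000) := Q_12 (nat_lit 157) (C_12 L37630 (C_12 L37702 (C_12 L37706 (C_12 L37712 N_12)))) (by decide +kernel)
theorem L37714 : W_12 (nat_lit 2) (nat_lit 0x400024000200130008e000000000000000000000000000000) (nat_lit 0x0) (nat_lit 0xc80000000000000000000000000000000000) := D_12 (nat_lit 142) (nat_lit 143) (nat_lit 139) (nat_lit 0) (nat_lit 7) (nat_lit 8) (nat_lit 0) (nat_lit 6) (nat_lit 8) (by decide +kernel)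
theorem L37715 : W_12 (nat_lit 3) (nat_lit 0x400024000200130008c000000000000000000000000000000) (nat_lit 0x0) (nat_lit 0xc80003000000000000000000000000000000) := T_12 (nat_lit 121) (nat_lit 120) (nat_lit 3) (nat_lit 1) (nat_lit 7) L37714 (by decide +kernel)
theorem L37716 : W_12 (nat_lit 4) (nat_lit 0x4000240002001300088000000000000000000000000000000) (nat_lit 0x0) (nat_lit 0xc80007000200000000000000000000000000) := T_12 (nat_lit 122) (nat_lit 105) (nat_lit 4) (nat_lit 4) (nat_lit 10) L37715 (by decide +kernel)
theorem L37717 : W_12 (nat_lit 8) (nat_lit 0x4000240002001300080000000000000000000000000000000) (nat_lit 0x0) (nat_lit 0x400020005000c8001f000e00070001000000000000000000) := Q_12 (nat_lit 123) (C_12 L37660 (C_12 L37682 (C_12 L37651 (C_12 L37716 N_12)))) (by decide +kernel)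
theorem L37718 : W_12 (nat_lit 9) (nat_lit 0x4000240000001300080000000000000000000000000000000) (nat_lit 0x0) (nat_lit 0x500038003c000a0007000c8001f000e00070001000000000000000000) := Q_12 (nat_lit 157) (C_12 L37712 (C_12 L37687 (C_12 L37670 (C_12 L37662 (C_12 L37717 N_12))))) (by decide +kernel)
theorem L37719 : W_12 (nat_lit 9) (nat_lit 0x4000240000001300080000000000000000000000000000000) (nat_lit 0x0) (nat_lit 0x500038001c00020007000c8001f000e00070001000000000000000000) := Q_12 (nat_lit 157) (C_12 L37717 (C_12 L37687 (C_12 L37630 (C_12 L37635 N_12)))) (by decide +kernel)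
theorem L37720 : W_12 (nat_lit 5) (nat_lit 0x4000240002001300080000000000000000000000000000000) (nat_lit 0x0) (nat_lit 0x500038003c00180004000000000000000000000000000000000000000) := Q_12 (nat_lit 191) (C_12 L37705 (C_12 L37669 (C_12 L37634 N_12))) (by decide +kernel)
theorem L37721 : W_12 (nat_lit 2) (nat_lit 0x40002c0002001300080000000000000000000000000000000) (nat_lit 0x0) (nat_lit 0x8000100001000000000000000000000000000000000000000) := D_12 (nat_lit 176) (nat_lit 156) (nat_lit 195) (nat_lit 0) (nat_lit 7) (nat_lit 10) (nat_lit 3) (nat_lit 4) (nat_lit 10) (by decide +kernel)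
theorem L37722 : W_12 (nat_lit 2) (nat_lit 0x40002c0002001300088000400000000000000000000000000) (nat_lit 0x0) (nat_lit 0x4000200010000000000000000000000) := D_12 (nat_lit 105) (nat_lit 122) (nat_lit 88) (nat_lit 4) (nat_lit 4) (nat_lit 10) (nat_lit 4) (nat_lit 4) (nat_lit 9) (by decide +kernel)
theorem L37723 : W_12 (nat_lit 3) (nat_lit 0x40002c0002001300088000000000000000000000000000000) (nat_lit 0x0) (nat_lit 0x4000000004000600010000000000000000000000) := T_12 (nat_lit 106) (nat_lit 158) (nat_lit 7) (nat_lit 4) (nat_lit 6) L37722 (by decide +kernel)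
theorem L37724 : W_12 (nat_lit 4) (nat_lit 0x40002c0002001300080000000000000000000000000000000) (nat_lit 0x0) (nat_lit 0x100000000400000000c000600010000000000000000000000) := T_12 (nat_lit 123) (nat_lit 192) (nat_lit 7) (nat_lit 4) (nat_lit 7) L37723 (by decide +kernel)
theorem L37725 : W_12 (nat_lit 5) (nat_lit 0x4000240002001300080000000000000000000000000000000) (nat_lit 0x0) (nat_lit 0x900018000500000000c000600010000000000000000000000) := Q_12 (nat_lit 175) (C_12 L37721 (C_12 L37724 N_12)) (by decide +kernel)
theorem L37726 : W_12 (nat_lit 7) (nat_lit 0x4000240000001300080000000000000000000000000000000) (nat_lit 0x0) (nat_lit 0x50003800bc001a0007c00c8000c000600010000000000000000000000) := Q_12 (nat_lit 157) (C_12 L37670 (C_12 L37702 (C_12 L37635 (C_12 L37720 (C_12 L37725 N_12))))) (by decide +kernel)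
theorem L37727 : W_12 (nat_lit 4) (nat_lit 0x40002c0000001300080000000000000000000000000000000) (nat_lit 0x0) (nat_lit 0xae00120000000000000000000000000000000000000000000) := T_12 (nat_lit 176) (nat_lit 195) (nat_lit 3) (nat_lit 4) (nat_lit 10) L34799 (by decide +kernel)
theorem L37728 : W_12 (nat_lit 2) (nat_lit 0x50002c0004001300080000000000000000000000000000000) (nat_lit 0x0) (nat_lit 0x10000800000000000000010000000000000000000000000000000) := D_12 (nat_lit 191) (nat_lit 124) (nat_lit 208) (nat_lit 5) (nat_lit 5) (nat_lit 7) (nat_lit 5) (nat_lit 5) (nat_lit 8) (by decide +kernel)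
theorem L37729 : W_12 (nat_lit 3) (nat_lit 0x50002c0000001300080000000000000000000000000000000) (nat_lit 0x0) (nat_lit 0x10000800000004000000018000000000000000000000000000000) := T_12 (nat_lit 158) (nat_lit 123) (nat_lit 4) (nat_lit 5) (nat_lit 11) L37728 (by decide +kernel)
theorem L37730 : W_12 (nat_lit 2) (nat_lit 0x50002c0004001300080000000000000000000000000000000) (nat_lit 0x0) (nat_lit 0x4000a000000000000000000000000000000000000000000000000) := D_12 (nat_lit 193) (nat_lit 195) (nat_lit 210) (nat_lit 0) (nat_lit 8) (nat_lit 11) (nat_lit 7) (nat_lit 5) (nat_lit 8) (by decide +kernel)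
theorem L37731 : W_12 (nat_lit 3) (nat_lit 0x50002c0000001300080000000000000000000000000000000) (nat_lit 0x0) (nat_lit 0x4000a000000004000000008000000000000000000000000000000) := T_12 (nat_lit 158) (nat_lit 123) (nat_lit 4) (nat_lit 5) (nat_lit 11) L37730 (by decide +kernel)
theorem L37732 : W_12 (nat_lit 4) (nat_lit 0x40002c0000001300080000000000000000000000000000000) (nat_lit 0x0) (nat_lit 0x5000b800030004000000018000000000000000000000000000000) := Q_12 (nat_lit 192) (C_12 L34801 (C_12 L37729 (C_12 L37731 N_12))) (by decide +kernel)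
theorem L37733 : W_12 (nat_lit 2) (nat_lit 0x48003c0004001300080000000000000000000000000000000) (nat_lit 0x0) (nat_lit 0x10001000000000000000008000000000000000000000000000000) := D_12 (nat_lit 192) (nat_lit 123) (nat_lit 208) (nat_lit 4) (nat_lit 5) (nat_lit 11) (nat_lit 5) (nat_lit 5) (nat_lit 8) (by decide +kernel)
theorem L37734 : W_12 (nat_lit 3) (nat_lit 0x48003c0000001300080000000000000000000000000000000) (nat_lit 0x0) (nat_lit 0x10001000000004000000018000000000000000000000000000000) := T_12 (nat_lit 158) (nat_lit 124) (nat_lit 5) (nat_lit 5) (nat_lit 7) L37733 (by decide +kernel)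
theorem L37735 : W_12 (nat_lit 4) (nat_lit 0x40003c0000001300080000000000000000000000000000000) (nat_lit 0x0) (nat_lit 0x10001c00000004000000018000000000000000000000000000000) := T_12 (nat_lit 191) (nat_lit 190) (nat_lit 1) (nat_lit 7) (nat_lit 10) L37734 (by decide +kernel)
theorem L37736 : W_12 (nat_lit 5) (nat_lit 0x40002c0000001300080000000000000000000000000000000) (nat_lit 0x0) (nat_lit 0x10009c00100004000000018000000000000000000000000000000) := T_12 (nat_lit 176) (nat_lit 195) (nat_lit 3) (nat_lit 4) (nat_lit 10) L37735 (by decide +kernel)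
theorem L37737 : W_12 (nat_lit 2) (nat_lit 0x44003e0001001380082000000000000000000000000000000) (nat_lit 0x0) (nat_lit 0x400004000100000000000000000000000000) := D_12 (nat_lit 122) (nat_lit 104) (nat_lit 142) (nat_lit 4) (nat_lit 3) (nat_lit 10) (nat_lit 0) (nat_lit 6) (nat_lit 8) (by decide +kernel)
theorem L37738 : W_12 (nat_lit 3) (nat_lit 0x44003e0001001380080000000000000000000000000000000) (nat_lit 0x0) (nat_lit 0x440006000100000000000000000000000000) := T_12 (nat_lit 121) (nat_lit 138) (nat_lit 4) (nat_lit 3) (nat_lit 11) L37737 (by decide +kernel)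
theorem L37739 : W_12 (nat_lit 4) (nat_lit 0x44003e0001001300080000000000000000000000000000000) (nat_lit 0x0) (nat_lit 0x4c000e000100000000000000000000000000) := T_12 (nat_lit 139) (nat_lit 123) (nat_lit 6) (nat_lit 3) (nat_lit 11) L37738 (by decide +kernel)
theorem L37740 : W_12 (nat_lit 5) (nat_lit 0x44003e0000001300080000000000000000000000000000000) (nat_lit 0x0) (nat_lit 0x18004c000e000100000000000000000000000000) := T_12 (nat_lit 156) (nat_lit 155) (nat_lit 0) (nat_lit 6) (nat_lit 10) L37739 (by decide +kernel)
theorem L37741 : W_12 (nat_lit 6) (nat_lit 0x40003e0000001300080000000000000000000000000000000) (nat_lit 0x0) (nat_lit 0x6000000018004c000e000100000000000000000000000000) := T_12 (nat_lit 190) (nat_lit 189) (nat_lit 1) (nat_lit 6) (nat_lit 10) L37740 (by decide +kernel)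
theorem L37742 : W_12 (nat_lit 7) (nat_lit 0x40003c0000001300080000000000000000000000000000000) (nat_lit 0x0) (nat_lit 0x26000200018004c000e000100000000000000000000000000) := T_12 (nat_lit 173) (nat_lit 193) (nat_lit 3) (nat_lit 3) (nat_lit 10) L37741 (by decide +kernel)
theorem L37743 : W_12 (nat_lit 8) (nat_lit 0x40002c0000001300080000000000000000000000000000000) (nat_lit 0x0) (nat_lit 0xa6001200018004c000e000100000000000000000000000000) := T_12 (nat_lit 176) (nat_lit 195) (nat_lit 3) (nat_lit 4) (nat_lit 10) L37742 (by decide +kernel)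
theorem L37744 : W_12 (nat_lit 2) (nat_lit 0x400000051003f800080130008e000000000000000000000000000000) (nat_lit 0x0) (nat_lit 0xc80000000000000000000000000000000000) := D_12 (nat_lit 142) (nat_lit 143) (nat_lit 139) (nat_lit 0) (nat_lit 7) (nat_lit 8) (nat_lit 0) (nat_lit 6) (nat_lit 8) (by decide +kernel)
theorem L37745 : W_12 (nat_lit 3) (nat_lit 0x400000051003f800080130008a000000000000000000000000000000) (nat_lit 0x0) (nat_lit 0xc80005000000000000000000000000000000) := T_12 (nat_lit 122) (nat_lit 120) (nat_lit 3) (nat_lit 1) (nat_lit 7) L37744 (by decide +kernel)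
theorem L37746 : W_12 (nat_lit 4) (nat_lit 0x400000051003f8000801300088000000000000000000000000000000) (nat_lit 0x0) (nat_lit 0xcc0007000000000000000000000000000000) := T_12 (nat_lit 121) (nat_lit 138) (nat_lit 5) (nat_lit 2) (nat_lit 7) L37745 (by decide +kernel)
theorem L37747 : W_12 (nat_lit 5) (nat_lit 0x400000051003f8000801300080000000000000000000000000000000) (nat_lit 0x0) (nat_lit 0x4000cc000f000000000000000000000000000000) := T_12 (nat_lit 123) (nat_lit 158) (nat_lit 4) (nat_lit 5) (nat_lit 11) L37746 (by decide +kernel)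
theorem L37748 : W_12 (nat_lit 6) (nat_lit 0x51003f8000801300080000000000000000000000000000000) (nat_lit 0x0) (nat_lit 0x40002000000000004000cc000f000000000000000000000000000000) := T_12 (nat_lit 222) (nat_lit 205) (nat_lit 6) (nat_lit 1) (nat_lit 13) L37747 (by decide +kernel)
theorem L37749 : W_12 (nat_lit 7) (nat_lit 0x41003f8000801300080000000000000000000000000000000) (nat_lit 0x0) (nat_lit 0x40002001800000004000cc000f000000000000000000000000000000) := T_12 (nat_lit 192) (nat_lit 191) (nat_lit 3) (nat_lit 1) (nat_lit 10) L37748 (by decide +kernel)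
theorem L37750 : W_12 (nat_lit 8) (nat_lit 0x41003f0000801300080000000000000000000000000000000) (nat_lit 0x0) (nat_lit 0x40002001880008004000cc000f000000000000000000000000000000) := T_12 (nat_lit 171) (nat_lit 187) (nat_lit 1) (nat_lit 4) (nat_lit 10) L37749 (by decide +kernel)
theorem L37751 : W_12 (nat_lit 9) (nat_lit 0x40003f0000801300080000000000000000000000000000000) (nat_lit 0x0) (nat_lit 0x40002001b80008004000cc000f000000000000000000000000000000) := T_12 (nat_lit 188) (nat_lit 189) (nat_lit 1) (nat_lit 5) (nat_lit 10) L37750 (by decide +kernel)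
theorem L37752 : W_12 (nat_lit 10) (nat_lit 0x40003e0000801300080000000000000000000000000000000) (nat_lit 0x0) (nat_lit 0x40002001b80018004400cc000f000000000000000000000000000000) := T_12 (nat_lit 172) (nat_lit 154) (nat_lit 0) (nat_lit 5) (nat_lit 10) L37751 (by decide +kernel)
theorem L37753 : W_12 (nat_lit 11) (nat_lit 0x40003e0000001300080000000000000000000000000000000) (nat_lit 0x0) (nat_lit 0x40002001b80018005c00cc000f000000000000000000000000000000) := T_12 (nat_lit 155) (nat_lit 156) (nat_lit 0) (nat_lit 6) (nat_lit 10) L37752 (by decide +kernel)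
theorem L37754 : W_12 (nat_lit 12) (nat_lit 0x40003c0000001300080000000000000000000000000000000) (nat_lit 0x0) (nat_lit 0x40002003b80038005c00cc000f000000000000000000000000000000) := T_12 (nat_lit 173) (nat_lit 193) (nat_lit 3) (nat_lit 3) (nat_lit 10) L37753 (by decide +kernel)
theorem L37755 : W_12 (nat_lit 13) (nat_lit 0x40002c0000001300080000000000000000000000000000000) (nat_lit 0x0) (nat_lit 0x40012003f80138005c00cc001f000100000000000000000000000000) := Q_12 (nat_lit 176) (C_12 L37742 (C_12 L37735 (C_12 L34799 (C_12 L37754 N_12)))) (by decide +kernel)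
theorem L37756 : W_12 (nat_lit 14) (nat_lit 0x4000240000001300080000000000000000000000000000000) (nat_lit 0x0) (nat_lit 0x4005200bf801b8005c00cc001f000100000000000000000000000000) := Q_12 (nat_lit 175) (C_12 L37727 (C_12 L37732 (C_12 L37736 (C_12 L37743 (C_12 L37755 N_12))))) (by decide +kernel)
theorem L37757 : W_12 (nat_lit 5) (nat_lit 0x4800240000001300080000000000000000000000000000000) (nat_lit 0x0) (nat_lit 0x28003400180002000000010000000000000000000000000000000) := T_12 (nat_lit 157) (nat_lit 124) (nat_lit 6) (nat_lit 4) (nat_lit 11) L37705 (by decide +kernel)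
theorem L37758 : W_12 (nat_lit 4) (nat_lit 0x4800240000001300080000000000000000000000000000000) (nat_lit 0x0) (nat_lit 0x400030001000000006000000010000000000000000000000000000000) := T_12 (nat_lit 157) (nat_lit 124) (nat_lit 6) (nat_lit 4) (nat_lit 11) L37669 (by decide +kernel)
theorem L37759 : W_12 (nat_lit 5) (nat_lit 0x4800240000001300080000000000000000000000000000000) (nat_lit 0x0) (nat_lit 0x500038003400180006000000000000000000000000000000000000000) := Q_12 (nat_lit 157) (C_12 L37705 (C_12 L37669 (C_12 L37634 N_12))) (by decide +kernel)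
theorem L37760 : W_12 (nat_lit 2) (nat_lit 0x48002c0000001300080000000000000000000000000000000) (nat_lit 0x0) (nat_lit 0x8400100000000000000000000000000000000000000000000) := D_12 (nat_lit 176) (nat_lit 190) (nat_lit 195) (nat_lit 1) (nat_lit 7) (nat_lit 10) (nat_lit 3) (nat_lit 4) (nat_lit 10) (by decide +kernel)
theorem L37761 : W_12 (nat_lit 2) (nat_lit 0x48002c0004001300080000000000000000000000000000000) (nat_lit 0x0) (nat_lit 0x200010001000000000000000000000000000000000000000000000000) := D_12 (nat_lit 208) (nat_lit 192) (nat_lit 225) (nat_lit 5) (nat_lit 5) (nat_lit 8) (nat_lit 6) (nat_lit 4) (nat_lit 13) (by decide +kernel)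
theorem L37762 : W_12 (nat_lit 3) (nat_lit 0x48002c0000001300080000000000000000000000000000000) (nat_lit 0x0) (nat_lit 0x200010001000000004000000010000000000000000000000000000000) := T_12 (nat_lit 158) (nat_lit 124) (nat_lit 5) (nat_lit 5) (nat_lit 7) L37761 (by decide +kernel)
theorem L37763 : W_12 (nat_lit 4) (nat_lit 0x4800240000001300080000000000000000000000000000000) (nat_lit 0x0) (nat_lit 0x200010009400180004000000010000000000000000000000000000000) := Q_12 (nat_lit 175) (C_12 L37760 (C_12 L37762 N_12)) (by decide +kernel)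
theorem L37764 : W_12 (nat_lit 4) (nat_lit 0x4800240000001300080000000000000000000000000000000) (nat_lit 0x0) (nat_lit 0x100018000400000006000000010000000000000000000000000000000) := T_12 (nat_lit 157) (nat_lit 124) (nat_lit 6) (nat_lit 4) (nat_lit 11) L37634 (by decide +kernel)
theorem L37765 : W_12 (nat_lit 6) (nat_lit 0x4000240000001300080000000000000000000000000000000) (nat_lit 0x0) (nat_lit 0x70003800bc00180006000000010000000000000000000000000000000) := Q_12 (nat_lit 191) (C_12 L37757 (C_12 L37758 (C_12 L37759 (C_12 L37763 (C_12 L37764 N_12))))) (by decide +kernel)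
theorem L37766 : W_12 (nat_lit 9) (nat_lit 0x4000240000001300080000000000000000000000000000000) (nat_lit 0x0) (nat_lit 0x100018000c00020007000c8001f000e00070001000000000000000000) := Q_12 (nat_lit 157) (C_12 L37717 (C_12 L37662 (C_12 L37630 (C_12 L37635 (C_12 L37636 N_12))))) (by decide +kernel)
theorem L37767 : W_12 (nat_lit 2) (nat_lit 0x40002c000200130009d000000000000000000000000000000) (nat_lit 0x0) (nat_lit 0x8000100001000000000000000000000000000000000000000) := D_12 (nat_lit 176) (nat_lit 156) (nat_lit 195) (nat_lit 0) (nat_lit 7) (nat_lit 10) (nat_lit 3) (nat_lit 4) (nat_lit 10) (by decide +kernel)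
theorem L37768 : W_12 (nat_lit 3) (nat_lit 0x400024000200130009d000000000000000000000000000000) (nat_lit 0x0) (nat_lit 0x9000180001000000000000000000000000000000000000000) := T_12 (nat_lit 175) (nat_lit 192) (nat_lit 7) (nat_lit 4) (nat_lit 7) L37767 (by decide +kernel)
theorem L37769 : W_12 (nat_lit 4) (nat_lit 0x400024000200130008d000000000000000000000000000000) (nat_lit 0x0) (nat_lit 0x9000180001000000010000800000000000000000000000000) := T_12 (nat_lit 124) (nat_lit 107) (nat_lit 6) (nat_lit 4) (nat_lit 10) L37768 (by decide +kernel)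
theorem L37770 : W_12 (nat_lit 5) (nat_lit 0x400024000200130008c000000000000000000000000000000) (nat_lit 0x0) (nat_lit 0x9000180001000000013000800000000000000000000000000) := T_12 (nat_lit 120) (nat_lit 121) (nat_lit 3) (nat_lit 1) (nat_lit 7) L37769 (by decide +kernel)
theorem L37771 : W_12 (nat_lit 6) (nat_lit 0x4000240002001300088000000000000000000000000000000) (nat_lit 0x0) (nat_lit 0x9000180001000000017000a00000000000000000000000000) := T_12 (nat_lit 122) (nat_lit 105) (nat_lit 4) (nat_lit 4) (nat_lit 10) L37770 (by decide +kernel)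
theorem L37772 : W_12 (nat_lit 7) (nat_lit 0x4000240000001300088000000000000000000000000000000) (nat_lit 0x0) (nat_lit 0xb4001a0003000000017000e00040000000000000000000000) := Q_12 (nat_lit 157) (C_12 L37685 (C_12 L37660 (C_12 L37771 N_12))) (by decide +kernel)
theorem L37773 : W_12 (nat_lit 5) (nat_lit 0x4000240000001300088000000000000000000000000000000) (nat_lit 0x0) (nat_lit 0x400020003000c80017000e00040000000000000000000000) := Q_12 (nat_lit 157) (C_12 L37716 (C_12 L37660 N_12)) (by decide +kernel)
theorem L37774 : W_12 (nat_lit 5) (nat_lit 0x4000240000001300088000000000000000000000000000000) (nat_lit 0x0) (nat_lit 0xb4001a0002000c80007000200000000000000000000000000) := Q_12 (nat_lit 157) (C_12 L37716 (C_12 L37685 N_12)) (by decide +kernel)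
theorem L37775 : W_12 (nat_lit 2) (nat_lit 0x44003e0000001300088000000000000000000000000000000) (nat_lit 0x0) (nat_lit 0x1800080000000000000000000000000000000000) := D_12 (nat_lit 156) (nat_lit 155) (nat_lit 139) (nat_lit 0) (nat_lit 6) (nat_lit 10) (nat_lit 6) (nat_lit 3) (nat_lit 11) (by decide +kernel)
theorem L37776 : W_12 (nat_lit 3) (nat_lit 0x40003e0000001300088000000000000000000000000000000) (nat_lit 0x0) (nat_lit 0x600000001800080000000000000000000000000000000000) := T_12 (nat_lit 190) (nat_lit 189) (nat_lit 1) (nat_lit 6) (nat_lit 10) L37775 (by decide +kernel)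
theorem L37777 : W_12 (nat_lit 4) (nat_lit 0x40003c0000001300088000000000000000000000000000000) (nat_lit 0x0) (nat_lit 0x2600020001800080000000000000000000000000000000000) := T_12 (nat_lit 173) (nat_lit 193) (nat_lit 3) (nat_lit 3) (nat_lit 10) L37776 (by decide +kernel)
theorem L37778 : W_12 (nat_lit 5) (nat_lit 0x40002c0000001300088000000000000000000000000000000) (nat_lit 0x0) (nat_lit 0xa600120001800080000000000000000000000000000000000) := T_12 (nat_lit 176) (nat_lit 195) (nat_lit 3) (nat_lit 4) (nat_lit 10) L37777 (by decide +kernel)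
theorem L37779 : W_12 (nat_lit 2) (nat_lit 0x40002c0004001300088000000000000000000000000000000) (nat_lit 0x0) (nat_lit 0x10000400020000000000000000000000) := D_12 (nat_lit 106) (nat_lit 124) (nat_lit 89) (nat_lit 4) (nat_lit 5) (nat_lit 10) (nat_lit 7) (nat_lit 4) (nat_lit 5) (by decide +kernel)
theorem L37780 : W_12 (nat_lit 3) (nat_lit 0x40002c0000001300088000000000000000000000000000000) (nat_lit 0x0) (nat_lit 0x1000000004000000010000400020000000000000000000000) := T_12 (nat_lit 158) (nat_lit 192) (nat_lit 4) (nat_lit 5) (nat_lit 11) L37779 (by decide +kernel)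
theorem L37781 : W_12 (nat_lit 6) (nat_lit 0x4000240000001300088000000000000000000000000000000) (nat_lit 0x0) (nat_lit 0xb6001a0005800080010000400020000000000000000000000) := Q_12 (nat_lit 175) (C_12 L37778 (C_12 L37780 N_12)) (by decide +kernel)
theorem L37782 : W_12 (nat_lit 2) (nat_lit 0x40002c0002001b0008c000000000000000000000000000000) (nat_lit 0x0) (nat_lit 0x8000100001000000000000000000000000000000000000000) := D_12 (nat_lit 176) (nat_lit 156) (nat_lit 195) (nat_lit 0) (nat_lit 7) (nat_lit 10) (nat_lit 3) (nat_lit 4) (nat_lit 10) (by decide +kernel)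
theorem L37783 : W_12 (nat_lit 3) (nat_lit 0x4000240002001b0008c000000000000000000000000000000) (nat_lit 0x0) (nat_lit 0x9000180001000000000000000000000000000000000000000) := T_12 (nat_lit 175) (nat_lit 192) (nat_lit 7) (nat_lit 4) (nat_lit 7) L37782 (by decide +kernel)
theorem L37784 : W_12 (nat_lit 4) (nat_lit 0x400024000200130008c000000000000000000000000000000) (nat_lit 0x0) (nat_lit 0x9000180001000c00000000000000000000000000000000000) := T_12 (nat_lit 143) (nat_lit 142) (nat_lit 0) (nat_lit 7) (nat_lit 8) L37783 (by decide +kernel)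
theorem L37785 : W_12 (nat_lit 5) (nat_lit 0x4000240002001300088000000000000000000000000000000) (nat_lit 0x0) (nat_lit 0x9000180001000c00004000200000000000000000000000000) := T_12 (nat_lit 122) (nat_lit 105) (nat_lit 4) (nat_lit 4) (nat_lit 10) L37784 (by decide +kernel)
theorem L37786 : W_12 (nat_lit 2) (nat_lit 0x40002c0002001b00098000000000000000000000000000000) (nat_lit 0x0) (nat_lit 0x8000100001000000000000000000000000000000000000000) := D_12 (nat_lit 176) (nat_lit 156) (nat_lit 195) (nat_lit 0) (nat_lit 7) (nat_lit 10) (nat_lit 3) (nat_lit 4) (nat_lit 10) (by decide +kernel)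
theorem L37787 : W_12 (nat_lit 3) (nat_lit 0x4000240002001b00098000000000000000000000000000000) (nat_lit 0x0) (nat_lit 0x9000180001000000000000000000000000000000000000000) := T_12 (nat_lit 175) (nat_lit 192) (nat_lit 7) (nat_lit 4) (nat_lit 7) L37786 (by decide +kernel)
theorem L37788 : W_12 (nat_lit 4) (nat_lit 0x4000240002001300098000000000000000000000000000000) (nat_lit 0x0) (nat_lit 0x9000180001000c00000000000000000000000000000000000) := T_12 (nat_lit 143) (nat_lit 142) (nat_lit 0) (nat_lit 8) (nat_lit 8) L37787 (by decide +kernel)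
theorem L37789 : W_12 (nat_lit 5) (nat_lit 0x4000240002001300088000000000000000000000000000000) (nat_lit 0x0) (nat_lit 0x9000180001000c00010000800000000000000000000000000) := T_12 (nat_lit 124) (nat_lit 107) (nat_lit 6) (nat_lit 4) (nat_lit 10) L37788 (by decide +kernel)
theorem L37790 : W_12 (nat_lit 7) (nat_lit 0x4000240000001300088000000000000000000000000000000) (nat_lit 0x0) (nat_lit 0x9000180003000c80017000a00000000000000000000000000) := Q_12 (nat_lit 157) (C_12 L37771 (C_12 L37716 (C_12 L37785 (C_12 L37789 N_12)))) (by decide +kernel)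
theorem L37791 : W_12 (nat_lit 8) (nat_lit 0x4000240000001300080000000000000000000000000000000) (nat_lit 0x0) (nat_lit 0xb6001a0007800c8001f000e00060000000000000000000000) := Q_12 (nat_lit 123) (C_12 L37772 (C_12 L37773 (C_12 L37774 (C_12 L37781 (C_12 L37790 N_12))))) (by decide +kernel)
theorem L37792 : W_12 (nat_lit 8) (nat_lit 0x4000240000001300080000000000000000000000000000000) (nat_lit 0x0) (nat_lit 0x40003800b8001a000700008001c000600010000000000000000000000) := Q_12 (nat_lit 157) (C_12 L37725 (C_12 L37712 (C_12 L37687 (C_12 L37662 N_12)))) (by decide +kernel)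
theorem L37793 : W_12 (nat_lit 15) (nat_lit 0x4000200000001300080000000000000000000000000000000) (nat_lit 0x0) (nat_lit 0x74007a00bf801f8007c00cc001f000f00070001000000000000000000) := Q_12 (nat_lit 174) (C_12 L37663 (C_12 L37688 (C_12 L37713 (C_12 L37718 (C_12 L37719 (C_12 L37726 (C_12 L37756 (C_12 L37765 (C_12 L37766 (C_12 L37791 (C_12 L37792 N_12))))))))))) (by decide +kernel)
theorem L37794 : W_12 (nat_lit 7) (nat_lit 0x4000240002001300080000000000000000000000000000000) (nat_lit 0x0) (nat_lit 0xb4001a000100000001f000e00040000000000000000000000) := Q_12 (nat_lit 123) (C_12 L37771 (C_12 L37660 (C_12 L37685 N_12))) (by decide +kernel)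
theorem L37795 : W_12 (nat_lit 7) (nat_lit 0x4000240002001300080000000000000000000000000000000) (nat_lit 0x0) (nat_lit 0x38003c001a000100008000c000200000000000000000000000000) := Q_12 (nat_lit 191) (C_12 L37711 (C_12 L37629 (C_12 L37705 (C_12 L37667 N_12)))) (by decide +kernel)
theorem L37796 : W_12 (nat_lit 8) (nat_lit 0x4000240000001300080000000000000000000000000000000) (nat_lit 0x0) (nat_lit 0x3800bc001a000300008001f000e00040000000000000000000000) := Q_12 (nat_lit 157) (C_12 L37794 (C_12 L37712 (C_12 L37630 (C_12 L37795 (C_12 L37706 N_12))))) (by decide +kernel)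
theorem L37797 : W_12 (nat_lit 2) (nat_lit 0x400024000200130008e000000000000000000000000000000) (nat_lit 0x0) (nat_lit 0x400010000800000000000000000000000000) := D_12 (nat_lit 124) (nat_lit 107) (nat_lit 142) (nat_lit 6) (nat_lit 4) (nat_lit 10) (nat_lit 3) (nat_lit 2) (nat_lit 7) (by decide +kernel)
theorem L37798 : W_12 (nat_lit 3) (nat_lit 0x400024000200130008c000000000000000000000000000000) (nat_lit 0x0) (nat_lit 0x400013000800000000000000000000000000) := T_12 (nat_lit 121) (nat_lit 120) (nat_lit 3) (nat_lit 1) (nat_lit 7) L37797 (by decide +kernel)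
theorem L37799 : W_12 (nat_lit 4) (nat_lit 0x4000240002001300088000000000000000000000000000000) (nat_lit 0x0) (nat_lit 0x400017000a00000000000000000000000000) := T_12 (nat_lit 122) (nat_lit 105) (nat_lit 4) (nat_lit 4) (nat_lit 10) L37798 (by decide +kernel)
theorem L37800 : W_12 (nat_lit 5) (nat_lit 0x4000240002001300080000000000000000000000000000000) (nat_lit 0x0) (nat_lit 0x40002000100040001f000e00050000000000000000000000) := Q_12 (nat_lit 123) (C_12 L37660 (C_12 L37651 (C_12 L37799 N_12))) (by decide +kernel)
theorem L37801 : W_12 (nat_lit 8) (nat_lit 0x4000240000001300080000000000000000000000000000000) (nat_lit 0x0) (nat_lit 0x500038003c000a000700048001f000e00050000000000000000000000) := Q_12 (nat_lit 157) (C_12 L37800 (C_12 L37712 (C_12 L37670 (C_12 L37687 N_12)))) (by decide +kernel)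
theorem L37802 : W_12 (nat_lit 6) (nat_lit 0x4000240000001300080000000000000000000000000000000) (nat_lit 0x0) (nat_lit 0x500038001c0002000700048001f000e00050000000000000000000000) := Q_12 (nat_lit 157) (C_12 L37800 (C_12 L37687 (C_12 L37635 N_12))) (by decide +kernel)
theorem L37803 : W_12 (nat_lit 2) (nat_lit 0x50002c0000001300080000000000000000000000000000000) (nat_lit 0x0) (nat_lit 0x6000000008000000000000000000000000000000) := D_12 (nat_lit 123) (nat_lit 158) (nat_lit 157) (nat_lit 4) (nat_lit 5) (nat_lit 11) (nat_lit 7) (nat_lit 4) (nat_lit 7) (by decide +kernel)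
theorem L37804 : W_12 (nat_lit 4) (nat_lit 0x40002c0000001300080000000000000000000000000000000) (nat_lit 0x0) (nat_lit 0x4000b800030006000000008000000000000000000000000000000) := Q_12 (nat_lit 192) (C_12 L34801 (C_12 L37731 (C_12 L37803 N_12))) (by decide +kernel)
theorem L37806 : W_12 (nat_lit 3) (nat_lit 0x48003c0010001300080000000000000000000000000000000) (nat_lit 0x0) (nat_lit 0x20001000000003000000008000000000000000000000000000000) := T_12 (nat_lit 157) (nat_lit 156) (nat_lit 0) (nat_lit 7) (nat_lit 10) L37805 (by decide +kernel)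
theorem L37807 : W_12 (nat_lit 4) (nat_lit 0x40003c0010001300080000000000000000000000000000000) (nat_lit 0x0) (nat_lit 0x20001c00000003000000008000000000000000000000000000000) := T_12 (nat_lit 191) (nat_lit 190) (nat_lit 1) (nat_lit 7) (nat_lit 10) L37806 (by decide +kernel)
theorem L37808 : W_12 (nat_lit 5) (nat_lit 0x40003c0000001300080000000000000000000000000000000) (nat_lit 0x0) (nat_lit 0x20001c00000033000000008000000000000000000000000000000) := T_12 (nat_lit 160) (nat_lit 161) (nat_lit 2) (nat_lit 4) (nat_lit 10) L37807 (by decide +kernel)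
theorem L37809 : W_12 (nat_lit 6) (nat_lit 0x40002c0000001300080000000000000000000000000000000) (nat_lit 0x0) (nat_lit 0x20009c00100033000000008000000000000000000000000000000) := T_12 (nat_lit 176) (nat_lit 195) (nat_lit 3) (nat_lit 4) (nat_lit 10) L37808 (by decide +kernel)
theorem L37810 : W_12 (nat_lit 2) (nat_lit 0x40003c0002001300088000000000000000000000000000000) (nat_lit 0x0) (nat_lit 0x2400020000000000000000000000000000000000000000000) := D_12 (nat_lit 173) (nat_lit 190) (nat_lit 193) (nat_lit 5) (nat_lit 4) (nat_lit 7) (nat_lit 3) (nat_lit 3) (nat_lit 10) (by decide +kernel)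
theorem L37811 : W_12 (nat_lit 3) (nat_lit 0x40003c0002001300080000000000000000000000000000000) (nat_lit 0x0) (nat_lit 0x3400020000000000008000000000000000000000000000000) := T_12 (nat_lit 123) (nat_lit 192) (nat_lit 7) (nat_lit 4) (nat_lit 7) L37810 (by decide +kernel)
theorem L37812 : W_12 (nat_lit 4) (nat_lit 0x40002c0002001300080000000000000000000000000000000) (nat_lit 0x0) (nat_lit 0x3400120001000000008000000000000000000000000000000) := T_12 (nat_lit 176) (nat_lit 156) (nat_lit 0) (nat_lit 7) (nat_lit 10) L37811 (by decide +kernel)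
theorem L37813 : W_12 (nat_lit 2) (nat_lit 0x100048003e0002001300080000000000000000000000000000000) (nat_lit 0x0) (nat_lit 0x400020001000000000000000000000000000000000000000000000000) := D_12 (nat_lit 209) (nat_lit 192) (nat_lit 226) (nat_lit 7) (nat_lit 4) (nat_lit 8) (nat_lit 7) (nat_lit 4) (nat_lit 9) (by decide +kernel)
theorem L37814 : W_12 (nat_lit 3) (nat_lit 0x48003e0002001300080000000000000000000000000000000) (nat_lit 0x0) (nat_lit 0x400030001000000004000000000000000000000000000000000000000) := T_12 (nat_lit 208) (nat_lit 158) (nat_lit 6) (nat_lit 4) (nat_lit 12) L37813 (by decide +kernel)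
theorem L37815 : W_12 (nat_lit 4) (nat_lit 0x48003c0002001300080000000000000000000000000000000) (nat_lit 0x0) (nat_lit 0x400030003000020004000000000000000000000000000000000000000) := T_12 (nat_lit 173) (nat_lit 193) (nat_lit 3) (nat_lit 3) (nat_lit 10) L37814 (by decide +kernel)
theorem L37816 : W_12 (nat_lit 5) (nat_lit 0x40003c0002001300080000000000000000000000000000000) (nat_lit 0x0) (nat_lit 0x400030003c00020004000000000000000000000000000000000000000) := T_12 (nat_lit 191) (nat_lit 190) (nat_lit 1) (nat_lit 7) (nat_lit 10) L37815 (by decide +kernel)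
theorem L37817 : W_12 (nat_lit 6) (nat_lit 0x40002c0002001300080000000000000000000000000000000) (nat_lit 0x0) (nat_lit 0x400030003c00120005000000000000000000000000000000000000000) := T_12 (nat_lit 176) (nat_lit 156) (nat_lit 0) (nat_lit 7) (nat_lit 10) L37816 (by decide +kernel)
theorem L37818 : W_12 (nat_lit 2) (nat_lit 0x5000100048003e0002001300080000000000000000000000000000000) (nat_lit 0x0) (nat_lit 0xa000200000000000000000000000000000000000000000000000000000000) := D_12 (nat_lit 225) (nat_lit 241) (nat_lit 243) (nat_lit 5) (nat_lit 4) (nat_lit 10) (nat_lit 7) (nat_lit 4) (nat_lit 10) (by decide +kernel)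
theorem L37819 : W_12 (nat_lit 3) (nat_lit 0x1000100048003e0002001300080000000000000000000000000000000) (nat_lit 0x0) (nat_lit 0xa000600020000000000000000000000000000000000000000000000000000) := T_12 (nat_lit 226) (nat_lit 209) (nat_lit 7) (nat_lit 4) (nat_lit 9) L37818 (by decide +kernel)
theorem L37820 : W_12 (nat_lit 4) (nat_lit 0x100048003e0002001300080000000000000000000000000000000) (nat_lit 0x0) (nat_lit 0xa000700028000000000000000000000000000000000000000000000000000) := T_12 (nat_lit 224) (nat_lit 207) (nat_lit 5) (nat_lit 4) (nat_lit 9) L37819 (by decide +kernel)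
theorem L37821 : W_12 (nat_lit 5) (nat_lit 0x48003e0002001300080000000000000000000000000000000) (nat_lit 0x0) (nat_lit 0xa000700038000000000004000000000000000000000000000000000000000) := T_12 (nat_lit 208) (nat_lit 158) (nat_lit 6) (nat_lit 4) (nat_lit 12) L37820 (by decide +kernel)
theorem L37822 : W_12 (nat_lit 6) (nat_lit 0x48003c0002001300080000000000000000000000000000000) (nat_lit 0x0) (nat_lit 0xa000700038002000020004000000000000000000000000000000000000000) := T_12 (nat_lit 173) (nat_lit 193) (nat_lit 3) (nat_lit 3) (nat_lit 10) L37821 (by decide +kernel)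
theorem L37823 : W_12 (nat_lit 7) (nat_lit 0x40003c0002001300080000000000000000000000000000000) (nat_lit 0x0) (nat_lit 0xa000700038002c00020004000000000000000000000000000000000000000) := T_12 (nat_lit 191) (nat_lit 190) (nat_lit 1) (nat_lit 7) (nat_lit 10) L37822 (by decide +kernel)
theorem L37824 : W_12 (nat_lit 8) (nat_lit 0x40002c0002001300080000000000000000000000000000000) (nat_lit 0x0) (nat_lit 0xa000700038002c00120005000000000000000000000000000000000000000) := T_12 (nat_lit 176) (nat_lit 156) (nat_lit 0) (nat_lit 7) (nat_lit 10) L37823 (by decide +kernel)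
theorem L37825 : W_12 (nat_lit 9) (nat_lit 0x40002c0000001300080000000000000000000000000000000) (nat_lit 0x0) (nat_lit 0xa000700038003c0012000700000000c000600010000000000000000000000) := Q_12 (nat_lit 157) (C_12 L37812 (C_12 L37724 (C_12 L37817 (C_12 L37824 N_12)))) (by decide +kernel)
theorem L37826 : W_12 (nat_lit 10) (nat_lit 0x4000240000001300080000000000000000000000000000000) (nat_lit 0x0) (nat_lit 0xa00070007800be001b00378004c000e000700010000000000000000000000) := Q_12 (nat_lit 175) (C_12 L37743 (C_12 L37727 (C_12 L37804 (C_12 L37809 (C_12 L37825 N_12))))) (by decide +kernel)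
theorem L37827 : W_12 (nat_lit 2) (nat_lit 0x51003f801080130008e000000000000000000000000000000) (nat_lit 0x0) (nat_lit 0x480010000000000000000000000000000000) := D_12 (nat_lit 142) (nat_lit 139) (nat_lit 124) (nat_lit 0) (nat_lit 6) (nat_lit 8) (nat_lit 3) (nat_lit 2) (nat_lit 7) (by decide +kernel)
theorem L37828 : W_12 (nat_lit 3) (nat_lit 0x51003f801080130008a000000000000000000000000000000) (nat_lit 0x0) (nat_lit 0x480015000000000000000000000000000000) := T_12 (nat_lit 122) (nat_lit 120) (nat_lit 3) (nat_lit 1) (nat_lit 7) L37827 (by decide +kernel)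
theorem L37829 : W_12 (nat_lit 4) (nat_lit 0x51003f8010801300082000000000000000000000000000000) (nat_lit 0x0) (nat_lit 0x400048001d000000000000000000000000000000) := T_12 (nat_lit 123) (nat_lit 158) (nat_lit 4) (nat_lit 5) (nat_lit 11) L37828 (by decide +kernel)
theorem L37830 : W_12 (nat_lit 5) (nat_lit 0x51003f8010801300080000000000000000000000000000000) (nat_lit 0x0) (nat_lit 0x40004c001f000000000000000000000000000000) := T_12 (nat_lit 121) (nat_lit 138) (nat_lit 5) (nat_lit 2) (nat_lit 7) L37829 (by decide +kernel)
theorem L37831 : W_12 (nat_lit 6) (nat_lit 0x41003f8010801300080000000000000000000000000000000) (nat_lit 0x0) (nat_lit 0x18000000040004c001f000000000000000000000000000000) := T_12 (nat_lit 192) (nat_lit 191) (nat_lit 3) (nat_lit 1) (nat_lit 10) L37830 (by decide +kernel)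
theorem L37832 : W_12 (nat_lit 7) (nat_lit 0x41003f0010801300080000000000000000000000000000000) (nat_lit 0x0) (nat_lit 0x18800080040004c001f000000000000000000000000000000) := T_12 (nat_lit 171) (nat_lit 187) (nat_lit 1) (nat_lit 4) (nat_lit 10) L37831 (by decide +kernel)
theorem L37833 : W_12 (nat_lit 8) (nat_lit 0x40003f0010801300080000000000000000000000000000000) (nat_lit 0x0) (nat_lit 0x1b800080040004c001f000000000000000000000000000000) := T_12 (nat_lit 188) (nat_lit 189) (nat_lit 1) (nat_lit 5) (nat_lit 10) L37832 (by decide +kernel)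
theorem L37834 : W_12 (nat_lit 9) (nat_lit 0x40003e0010801300080000000000000000000000000000000) (nat_lit 0x0) (nat_lit 0x1b800180044004c001f000000000000000000000000000000) := T_12 (nat_lit 172) (nat_lit 154) (nat_lit 0) (nat_lit 5) (nat_lit 10) L37833 (by decide +kernel)
theorem L37835 : W_12 (nat_lit 10) (nat_lit 0x40003e0000801300080000000000000000000000000000000) (nat_lit 0x0) (nat_lit 0x1b800180344004c001f000000000000000000000000000000) := T_12 (nat_lit 160) (nat_lit 161) (nat_lit 2) (nat_lit 4) (nat_lit 10) L37834 (by decide +kernel)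
theorem L37836 : W_12 (nat_lit 11) (nat_lit 0x40003e0000001300080000000000000000000000000000000) (nat_lit 0x0) (nat_lit 0x1b80018035c004c001f000000000000000000000000000000) := T_12 (nat_lit 155) (nat_lit 156) (nat_lit 0) (nat_lit 6) (nat_lit 10) L37835 (by decide +kernel)
theorem L37837 : W_12 (nat_lit 12) (nat_lit 0x40003c0000001300080000000000000000000000000000000) (nat_lit 0x0) (nat_lit 0x3b80038035c004c001f000000000000000000000000000000) := T_12 (nat_lit 173) (nat_lit 193) (nat_lit 3) (nat_lit 3) (nat_lit 10) L37836 (by decide +kernel)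
theorem L37838 : W_12 (nat_lit 13) (nat_lit 0x40002c0000001300080000000000000000000000000000000) (nat_lit 0x0) (nat_lit 0x10003f80138035c004c001f000100000000000000000000000000) := Q_12 (nat_lit 176) (C_12 L37742 (C_12 L37735 (C_12 L34799 (C_12 L37837 N_12)))) (by decide +kernel)
theorem L37839 : W_12 (nat_lit 14) (nat_lit 0x4000240000001300080000000000000000000000000000000) (nat_lit 0x0) (nat_lit 0x5000bf801b8035c004c001f000100000000000000000000000000) := Q_12 (nat_lit 175) (C_12 L37743 (C_12 L37736 (C_12 L37732 (C_12 L37727 (C_12 L37838 N_12))))) (by decide +kernel)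
theorem L37840 : W_12 (nat_lit 6) (nat_lit 0x4000240000001300080000000000000000000000000000000) (nat_lit 0x0) (nat_lit 0x100018000c0002000700048001f000e00050000000000000000000000) := Q_12 (nat_lit 157) (C_12 L37800 (C_12 L37662 (C_12 L37635 (C_12 L37636 N_12)))) (by decide +kernel)
theorem L37841 : W_12 (nat_lit 5) (nat_lit 0x4000240000001300088000000000000000000000000000000) (nat_lit 0x0) (nat_lit 0x400020003000400017000e00050000000000000000000000) := Q_12 (nat_lit 157) (C_12 L37799 (C_12 L37660 (C_12 L37651 N_12))) (by decide +kernel)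
theorem L37842 : W_12 (nat_lit 2) (nat_lit 0x40002c000200130008d000000000000000000000000000000) (nat_lit 0x0) (nat_lit 0x8000100001000000000000000000000000000000000000000) := D_12 (nat_lit 176) (nat_lit 156) (nat_lit 195) (nat_lit 0) (nat_lit 7) (nat_lit 10) (nat_lit 3) (nat_lit 4) (nat_lit 10) (by decide +kernel)
theorem L37843 : W_12 (nat_lit 3) (nat_lit 0x400024000200130008d000000000000000000000000000000) (nat_lit 0x0) (nat_lit 0x9000180001000000000000000000000000000000000000000) := T_12 (nat_lit 175) (nat_lit 192) (nat_lit 7) (nat_lit 4) (nat_lit 7) L37842 (by decide +kernel)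
theorem L37844 : W_12 (nat_lit 4) (nat_lit 0x400024000200130008c000000000000000000000000000000) (nat_lit 0x0) (nat_lit 0x9000180001000000003000000000000000000000000000000) := T_12 (nat_lit 120) (nat_lit 121) (nat_lit 3) (nat_lit 1) (nat_lit 7) L37843 (by decide +kernel)
theorem L37845 : W_12 (nat_lit 5) (nat_lit 0x4000240002001300088000000000000000000000000000000) (nat_lit 0x0) (nat_lit 0x9000180001000000007000200000000000000000000000000) := T_12 (nat_lit 122) (nat_lit 105) (nat_lit 4) (nat_lit 4) (nat_lit 10) L37844 (by decide +kernel)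
theorem L37846 : W_12 (nat_lit 6) (nat_lit 0x4000240000001300088000000000000000000000000000000) (nat_lit 0x0) (nat_lit 0xb4001a0003000000007000600010000000000000000000000) := Q_12 (nat_lit 157) (C_12 L37685 (C_12 L37651 (C_12 L37845 N_12))) (by decide +kernel)
theorem L37847 : W_12 (nat_lit 6) (nat_lit 0x4000240000001300088000000000000000000000000000000) (nat_lit 0x0) (nat_lit 0xb4001a0003000400017000a00000000000000000000000000) := Q_12 (nat_lit 157) (C_12 L37845 (C_12 L37799 (C_12 L37685 N_12))) (by decide +kernel)
theorem L37848 : W_12 (nat_lit 5) (nat_lit 0x4000240000001300088000000000000000000000000000000) (nat_lit 0x0) (nat_lit 0xb4001a0002000400017000a00000000000000000000000000) := Q_12 (nat_lit 157) (C_12 L37799 (C_12 L37685 N_12)) (by decide +kernel)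
theorem L37849 : W_12 (nat_lit 2) (nat_lit 0x40002c000200130008c000000000000000000000000000000) (nat_lit 0x0) (nat_lit 0x8000100001000000000000000000000000000000000000000) := D_12 (nat_lit 176) (nat_lit 156) (nat_lit 195) (nat_lit 0) (nat_lit 7) (nat_lit 10) (nat_lit 3) (nat_lit 4) (nat_lit 10) (by decide +kernel)
theorem L37850 : W_12 (nat_lit 3) (nat_lit 0x400024000200130008c000000000000000000000000000000) (nat_lit 0x0) (nat_lit 0x9000180001000000000000000000000000000000000000000) := T_12 (nat_lit 175) (nat_lit 192) (nat_lit 7) (nat_lit 4) (nat_lit 7) L37849 (by decide +kernel)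
theorem L37851 : W_12 (nat_lit 4) (nat_lit 0x4000240002001300088000000000000000000000000000000) (nat_lit 0x0) (nat_lit 0x9000180001000000004000200000000000000000000000000) := T_12 (nat_lit 122) (nat_lit 105) (nat_lit 4) (nat_lit 4) (nat_lit 10) L37850 (by decide +kernel)
theorem L37852 : W_12 (nat_lit 2) (nat_lit 0x40002c0002001300098000000000000000000000000000000) (nat_lit 0x0) (nat_lit 0x8000100001000000000000000000000000000000000000000) := D_12 (nat_lit 176) (nat_lit 156) (nat_lit 195) (nat_lit 0) (nat_lit 7) (nat_lit 10) (nat_lit 3) (nat_lit 4) (nat_lit 10) (by decide +kernel)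
theorem L37853 : W_12 (nat_lit 3) (nat_lit 0x4000240002001300098000000000000000000000000000000) (nat_lit 0x0) (nat_lit 0x9000180001000000000000000000000000000000000000000) := T_12 (nat_lit 175) (nat_lit 192) (nat_lit 7) (nat_lit 4) (nat_lit 7) L37852 (by decide +kernel)
theorem L37854 : W_12 (nat_lit 4) (nat_lit 0x4000240002001300088000000000000000000000000000000) (nat_lit 0x0) (nat_lit 0x9000180001000000010000800000000000000000000000000) := T_12 (nat_lit 124) (nat_lit 107) (nat_lit 6) (nat_lit 4) (nat_lit 10) L37853 (by decide +kernel)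
theorem L37855 : W_12 (nat_lit 6) (nat_lit 0x4000240000001300088000000000000000000000000000000) (nat_lit 0x0) (nat_lit 0x9000180003000400017000a00000000000000000000000000) := Q_12 (nat_lit 157) (C_12 L37845 (C_12 L37799 (C_12 L37851 (C_12 L37854 N_12)))) (by decide +kernel)
theorem L37856 : W_12 (nat_lit 8) (nat_lit 0x4000240000001300080000000000000000000000000000000) (nat_lit 0x0) (nat_lit 0xb6001a000780048001f000e00070000000000000000000000) := Q_12 (nat_lit 123) (C_12 L37781 (C_12 L37772 (C_12 L37841 (C_12 L37846 (C_12 L37847 (C_12 L37848 (C_12 L37855 N_12))))))) (by decide +kernel)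
theorem L37857 : W_12 (nat_lit 15) (nat_lit 0x4000200000001300080000000000000000000000000000000) (nat_lit 0x0) (nat_lit 0xa00070007800bf801f8037c004c001f000f00070000000000000000000000) := Q_12 (nat_lit 174) (C_12 L37792 (C_12 L37765 (C_12 L37796 (C_12 L37801 (C_12 L37802 (C_12 L37826 (C_12 L37839 (C_12 L37840 (C_12 L37856 N_12))))))))) (by decide +kernel)
theorem L37858 : W_12 (nat_lit 16) (nat_lit 0x200000001300080000000000000000000000000000000) (nat_lit 0x0) (nat_lit 0x5a003f401fa00ff801f8037c00cc015f000f00070001000000000000000000) := Q_12 (nat_lit 194) (C_12 L37624 (C_12 L37626 (C_12 L37793 (C_12 L37857 N_12)))) (by decide +kernel)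
theorem L37859 : W_12 (nat_lit 2) (nat_lit 0x340010001b000c0002000000000000000000000000000) (nat_lit 0x0) (nat_lit 0x20000000000000000100008000000000000000000) := D_12 (nat_lit 92) (nat_lit 75) (nat_lit 161) (nat_lit 7) (nat_lit 7) (nat_lit 4) (nat_lit 7) (nat_lit 7) (nat_lit 5) (by decide +kernel)
theorem L37860 : W_12 (nat_lit 3) (nat_lit 0x340010001b000c0000000000000000000000000000000) (nat_lit 0x0) (nat_lit 0x28000000000002000100008000000000000000000) := T_12 (nat_lit 109) (nat_lit 159) (nat_lit 5) (nat_lit 7) (nat_lit 6) L37859 (by decide +kernel)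
theorem L37861 : W_12 (nat_lit 4) (nat_lit 0x340010001b00080000000000000000000000000000000) (nat_lit 0x0) (nat_lit 0x2000000028000000040002000100008000000000000000000) := T_12 (nat_lit 126) (nat_lit 193) (nat_lit 5) (nat_lit 7) (nat_lit 7) L37860 (by decide +kernel)
theorem L37862 : W_12 (nat_lit 2) (nat_lit 0x8000000024003e0010801b00080000000000000000000000000000000) (nat_lit 0x0) (nat_lit 0x1000010000400000000000000000000000000000000000000) := D_12 (nat_lit 172) (nat_lit 192) (nat_lit 154) (nat_lit 3) (nat_lit 2) (nat_lit 10) (nat_lit 0) (nat_lit 5) (nat_lit 10) (by decide +kernel)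
theorem L37863 : W_12 (nat_lit 3) (nat_lit 0x8000000024003e0010001b00080000000000000000000000000000000) (nat_lit 0x0) (nat_lit 0x1000010001c00000000000000000000000000000000000000) := T_12 (nat_lit 155) (nat_lit 156) (nat_lit 0) (nat_lit 6) (nat_lit 10) L37862 (by decide +kernel)
theorem L37864 : W_12 (nat_lit 4) (nat_lit 0x8000000024003c0010001b00080000000000000000000000000000000) (nat_lit 0x0) (nat_lit 0x1200030001c00000000000000000000000000000000000000) := T_12 (nat_lit 173) (nat_lit 189) (nat_lit 1) (nat_lit 6) (nat_lit 10) L37863 (by decide +kernel)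
theorem L37865 : W_12 (nat_lit 5) (nat_lit 0x24003c0010001b00080000000000000000000000000000000) (nat_lit 0x0) (nat_lit 0x800040001200030001c00000000000000000000000000000000000000) := T_12 (nat_lit 227) (nat_lit 210) (nat_lit 6) (nat_lit 6) (nat_lit 13) L37864 (by decide +kernel)
theorem L37866 : W_12 (nat_lit 6) (nat_lit 0x20003c0010001b00080000000000000000000000000000000) (nat_lit 0x0) (nat_lit 0x800040001e00030001c00000000000000000000000000000000000000) := T_12 (nat_lit 190) (nat_lit 191) (nat_lit 1) (nat_lit 7) (nat_lit 10) L37865 (by decide +kernel)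
theorem L37867 : W_12 (nat_lit 7) (nat_lit 0x2000340010001b00080000000000000000000000000000000) (nat_lit 0x0) (nat_lit 0x800040001e000b0021c00000000000000000000000000000000000000) := T_12 (nat_lit 175) (nat_lit 161) (nat_lit 2) (nat_lit 4) (nat_lit 10) L37866 (by decide +kernel)
theorem L37868 : W_12 (nat_lit 8) (nat_lit 0x340010001b00080000000000000000000000000000000) (nat_lit 0x0) (nat_lit 0x800040003e000b0021c00000040000000000000000000000000000000) := T_12 (nat_lit 193) (nat_lit 126) (nat_lit 5) (nat_lit 7) (nat_lit 7) L37867 (by decide +kernel)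
theorem L37869 : W_12 (nat_lit 2) (nat_lit 0x3e0010001b00080000000000000000000000000000000) (nat_lit 0x0) (nat_lit 0xe00000000000000000000000000000000000000000000000) := D_12 (nat_lit 190) (nat_lit 189) (nat_lit 191) (nat_lit 1) (nat_lit 6) (nat_lit 10) (nat_lit 1) (nat_lit 7) (nat_lit 10) (by decide +kernel)
theorem L37870 : W_12 (nat_lit 3) (nat_lit 0x3c0010001b00080000000000000000000000000000000) (nat_lit 0x0) (nat_lit 0xe00020008000000000000000000000000000000000000000) := T_12 (nat_lit 173) (nat_lit 159) (nat_lit 2) (nat_lit 3) (nat_lit 10) L37869 (by decide +kernel)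
theorem L37871 : W_12 (nat_lit 4) (nat_lit 0x340010001b00080000000000000000000000000000000) (nat_lit 0x0) (nat_lit 0xe000a0028000000000000000000000000000000000000000) := T_12 (nat_lit 175) (nat_lit 161) (nat_lit 2) (nat_lit 4) (nat_lit 10) L37870 (by decide +kernel)
theorem L37872 : W_12 (nat_lit 2) (nat_lit 0x340010001b000c0002000080000000000000000000000) (nat_lit 0x0) (nat_lit 0x10000c000000000000000000) := D_12 (nat_lit 92) (nat_lit 75) (nat_lit 74) (nat_lit 7) (nat_lit 7) (nat_lit 4) (nat_lit 4) (nat_lit 7) (nat_lit 8) (by decide +kernel)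
theorem L37873 : W_12 (nat_lit 3) (nat_lit 0x340010001b000c0002000000000000000000000000000) (nat_lit 0x0) (nat_lit 0x100018000c000000000000000000) := T_12 (nat_lit 91) (nat_lit 108) (nat_lit 4) (nat_lit 7) (nat_lit 9) L37872 (by decide +kernel)
theorem L37874 : W_12 (nat_lit 4) (nat_lit 0x340010001b000c0000000000000000000000000000000) (nat_lit 0x0) (nat_lit 0x800000000000300018000c000000000000000000) := T_12 (nat_lit 109) (nat_lit 159) (nat_lit 5) (nat_lit 7) (nat_lit 6) L37873 (by decide +kernel)
theorem L37875 : W_12 (nat_lit 5) (nat_lit 0x340010001b00080000000000000000000000000000000) (nat_lit 0x0) (nat_lit 0x200000000800000004000300018000c000000000000000000) := T_12 (nat_lit 126) (nat_lit 193) (nat_lit 5) (nat_lit 7) (nat_lit 7) L37874 (by decide +kernel)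
theorem L37876 : W_12 (nat_lit 9) (nat_lit 0x240010001b00080000000000000000000000000000000) (nat_lit 0x0) (nat_lit 0x800040003e001b0029c0000004000300018000c000000000000000000) := Q_12 (nat_lit 176) (C_12 L37861 (C_12 L37868 (C_12 L37871 (C_12 L37875 N_12)))) (by decide +kernel)
theorem L37877 : W_12 (nat_lit 10) (nat_lit 0x240000001b00080000000000000000000000000000000) (nat_lit 0x0) (nat_lit 0x800040007e001b0039c0000004000300018000c000000000000000000) := T_12 (nat_lit 160) (nat_lit 194) (nat_lit 6) (nat_lit 7) (nat_lit 11) L37876 (by decide +kernel)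
theorem L37878 : W_12 (nat_lit 5) (nat_lit 0x240002001b00080000000000000000000000000000000) (nat_lit 0x0) (nat_lit 0x8000c0002000000008001c000200000000000000000000000000) := T_12 (nat_lit 191) (nat_lit 124) (nat_lit 6) (nat_lit 4) (nat_lit 11) L34362 (by decide +kernel)
theorem L37879 : W_12 (nat_lit 2) (nat_lit 0x4000260002001b00098000400000000000000000000000000) (nat_lit 0x0) (nat_lit 0x4000200010000000000000000000000) := D_12 (nat_lit 105) (nat_lit 88) (nat_lit 122) (nat_lit 4) (nat_lit 4) (nat_lit 9) (nat_lit 4) (nat_lit 4) (nat_lit 10) (by decide +kernel)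
theorem L37880 : W_12 (nat_lit 3) (nat_lit 0x4000260002001b00098000000000000000000000000000000) (nat_lit 0x0) (nat_lit 0x1000000004000600010000000000000000000000) := T_12 (nat_lit 106) (nat_lit 156) (nat_lit 5) (nat_lit 4) (nat_lit 6) L37879 (by decide +kernel)
theorem L37881 : W_12 (nat_lit 4) (nat_lit 0x4000240002001b00098000000000000000000000000000000) (nat_lit 0x0) (nat_lit 0x400020001000000004000600010000000000000000000000) := T_12 (nat_lit 173) (nat_lit 190) (nat_lit 5) (nat_lit 4) (nat_lit 7) L37880 (by decide +kernel)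
theorem L37882 : W_12 (nat_lit 5) (nat_lit 0x4000240002001b00088000000000000000000000000000000) (nat_lit 0x0) (nat_lit 0x400020001000000014000e00010000000000000000000000) := T_12 (nat_lit 124) (nat_lit 107) (nat_lit 6) (nat_lit 4) (nat_lit 10) L37881 (by decide +kernel)
theorem L37883 : W_12 (nat_lit 6) (nat_lit 0x240002001b00088000000000000000000000000000000) (nat_lit 0x0) (nat_lit 0x4400020011000000014000e00010000000000000000000000) := T_12 (nat_lit 194) (nat_lit 160) (nat_lit 6) (nat_lit 7) (nat_lit 11) L37882 (by decide +kernel)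
theorem L37884 : W_12 (nat_lit 5) (nat_lit 0x240002001b0008d000000000000000000000000000000) (nat_lit 0x0) (nat_lit 0xf4001a0010000000000000000000000000000000000000000) := T_12 (nat_lit 194) (nat_lit 160) (nat_lit 6) (nat_lit 7) (nat_lit 11) L37673 (by decide +kernel)
theorem L37885 : W_12 (nat_lit 6) (nat_lit 0x240002001b0008c000000000000000000000000000000) (nat_lit 0x0) (nat_lit 0xf4001a0010000000003000000000000000000000000000000) := T_12 (nat_lit 120) (nat_lit 121) (nat_lit 3) (nat_lit 1) (nat_lit 7) L37884 (by decide +kernel)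
theorem L37886 : W_12 (nat_lit 7) (nat_lit 0x240002001b00088000000000000000000000000000000) (nat_lit 0x0) (nat_lit 0xf4001a0010000000007000200000000000000000000000000) := T_12 (nat_lit 122) (nat_lit 105) (nat_lit 4) (nat_lit 4) (nat_lit 10) L37885 (by decide +kernel)
theorem L37887 : W_12 (nat_lit 2) (nat_lit 0x3c0002001b00088000a00000000000000000000000000) (nat_lit 0x0) (nat_lit 0x400050000000000000000000000) := D_12 (nat_lit 106) (nat_lit 88) (nat_lit 90) (nat_lit 4) (nat_lit 4) (nat_lit 9) (nat_lit 6) (nat_lit 4) (nat_lit 9) (by decide +kernel)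
theorem L37888 : W_12 (nat_lit 3) (nat_lit 0x3c0002001b00088000200000000000000000000000000) (nat_lit 0x0) (nat_lit 0x10000c00050000000000000000000000) := T_12 (nat_lit 107) (nat_lit 124) (nat_lit 6) (nat_lit 4) (nat_lit 10) L37887 (by decide +kernel)
theorem L37889 : W_12 (nat_lit 4) (nat_lit 0x3c0002001b00088000000000000000000000000000000) (nat_lit 0x0) (nat_lit 0x14000e00050000000000000000000000) := T_12 (nat_lit 105) (nat_lit 122) (nat_lit 4) (nat_lit 4) (nat_lit 10) L37888 (by decide +kernel)
theorem L37890 : W_12 (nat_lit 5) (nat_lit 0x2c0002001b00088000000000000000000000000000000) (nat_lit 0x0) (nat_lit 0x100001000000014000e00050000000000000000000000) := T_12 (nat_lit 176) (nat_lit 156) (nat_lit 0) (nat_lit 7) (nat_lit 10) L37889 (by decide +kernel)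
theorem L37891 : W_12 (nat_lit 6) (nat_lit 0x240002001b00088000000000000000000000000000000) (nat_lit 0x0) (nat_lit 0x1000180001000000014000e00050000000000000000000000) := T_12 (nat_lit 175) (nat_lit 192) (nat_lit 7) (nat_lit 4) (nat_lit 7) L37890 (by decide +kernel)
theorem L37892 : W_12 (nat_lit 2) (nat_lit 0x260002001b00088000400000000000000000000000000) (nat_lit 0x0) (nat_lit 0x10000800040000000000000000000000) := D_12 (nat_lit 107) (nat_lit 124) (nat_lit 90) (nat_lit 6) (nat_lit 4) (nat_lit 10) (nat_lit 6) (nat_lit 4) (nat_lit 9) (by decide +kernel)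
theorem L37893 : W_12 (nat_lit 3) (nat_lit 0x260002001b00088000000000000000000000000000000) (nat_lit 0x0) (nat_lit 0x1000000010000c00040000000000000000000000) := T_12 (nat_lit 106) (nat_lit 156) (nat_lit 5) (nat_lit 4) (nat_lit 6) L37892 (by decide +kernel)
theorem L37894 : W_12 (nat_lit 4) (nat_lit 0x240002001b00088000000000000000000000000000000) (nat_lit 0x0) (nat_lit 0x400020001000000010000c00040000000000000000000000) := T_12 (nat_lit 173) (nat_lit 190) (nat_lit 5) (nat_lit 4) (nat_lit 7) L37893 (by decide +kernel)
theorem L37895 : W_12 (nat_lit 8) (nat_lit 0x240002001b00080000000000000000000000000000000) (nat_lit 0x0) (nat_lit 0xf4001a001100000001f000e00050000000000000000000000) := Q_12 (nat_lit 123) (C_12 L37883 (C_12 L37886 (C_12 L37891 (C_12 L37894 N_12)))) (by decide +kernel)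
theorem L37896 : W_12 (nat_lit 2) (nat_lit 0x4000260002001b00088000400000000000000000000000000) (nat_lit 0x0) (nat_lit 0x4000200010000000000000000000000) := D_12 (nat_lit 105) (nat_lit 88) (nat_lit 122) (nat_lit 4) (nat_lit 4) (nat_lit 9) (nat_lit 4) (nat_lit 4) (nat_lit 10) (by decide +kernel)
theorem L37897 : W_12 (nat_lit 3) (nat_lit 0x4000260002001b00088000000000000000000000000000000) (nat_lit 0x0) (nat_lit 0x1000000004000600010000000000000000000000) := T_12 (nat_lit 106) (nat_lit 156) (nat_lit 5) (nat_lit 4) (nat_lit 6) L37896 (by decide +kernel)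
theorem L37898 : W_12 (nat_lit 4) (nat_lit 0x4000240002001b00088000000000000000000000000000000) (nat_lit 0x0) (nat_lit 0x400020001000000004000600010000000000000000000000) := T_12 (nat_lit 173) (nat_lit 190) (nat_lit 5) (nat_lit 4) (nat_lit 7) L37897 (by decide +kernel)
theorem L37899 : W_12 (nat_lit 5) (nat_lit 0x240002001b00088000000000000000000000000000000) (nat_lit 0x0) (nat_lit 0x4400020011000000004000600010000000000000000000000) := T_12 (nat_lit 194) (nat_lit 160) (nat_lit 6) (nat_lit 7) (nat_lit 11) L37898 (by decide +kernel)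
theorem L37900 : W_12 (nat_lit 2) (nat_lit 0x3c0002001b00088000000000000000000000000000000) (nat_lit 0x0) (nat_lit 0xc000000010000000000000000000000000000000000000000) := D_12 (nat_lit 194) (nat_lit 160) (nat_lit 195) (nat_lit 6) (nat_lit 7) (nat_lit 11) (nat_lit 3) (nat_lit 4) (nat_lit 10) (by decide +kernel)
theorem L37901 : W_12 (nat_lit 3) (nat_lit 0x2c0002001b00088000000000000000000000000000000) (nat_lit 0x0) (nat_lit 0xc000100011000000000000000000000000000000000000000) := T_12 (nat_lit 176) (nat_lit 156) (nat_lit 0) (nat_lit 7) (nat_lit 10) L37900 (by decide +kernel)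
theorem L37902 : W_12 (nat_lit 4) (nat_lit 0x240002001b00088000000000000000000000000000000) (nat_lit 0x0) (nat_lit 0xd000180011000000000000000000000000000000000000000) := T_12 (nat_lit 175) (nat_lit 192) (nat_lit 7) (nat_lit 4) (nat_lit 7) L37901 (by decide +kernel)
theorem L37903 : W_12 (nat_lit 6) (nat_lit 0x240002001b00080000000000000000000000000000000) (nat_lit 0x0) (nat_lit 0x2000dc001a001100008000f000600010000000000000000000000) := Q_12 (nat_lit 123) (C_12 L37899 (C_12 L34744 (C_12 L37902 N_12))) (by decide +kernel)
theorem L37904 : W_12 (nat_lit 2) (nat_lit 0x4c00340002001b00080000000000000000000000000000000) (nat_lit 0x0) (nat_lit 0x20003000000000000000000000000000000000000000000000000) := D_12 (nat_lit 192) (nat_lit 193) (nat_lit 209) (nat_lit 2) (nat_lit 3) (nat_lit 11) (nat_lit 7) (nat_lit 4) (nat_lit 8) (by decide +kernel)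
theorem L37905 : W_12 (nat_lit 3) (nat_lit 0x4c00240002001b00080000000000000000000000000000000) (nat_lit 0x0) (nat_lit 0x20003000180000000000000000000000000000000000000000000) := T_12 (nat_lit 176) (nat_lit 175) (nat_lit 1) (nat_lit 7) (nat_lit 10) L37904 (by decide +kernel)
theorem L37906 : W_12 (nat_lit 4) (nat_lit 0x4800240002001b00080000000000000000000000000000000) (nat_lit 0x0) (nat_lit 0x28003400180000000000000000000000000000000000000000000) := T_12 (nat_lit 190) (nat_lit 207) (nat_lit 5) (nat_lit 4) (nat_lit 8) L37905 (by decide +kernel)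
theorem L37907 : W_12 (nat_lit 5) (nat_lit 0x4000240002001b00080000000000000000000000000000000) (nat_lit 0x0) (nat_lit 0x28003c00180000000000010000000000000000000000000000000) := T_12 (nat_lit 191) (nat_lit 124) (nat_lit 6) (nat_lit 4) (nat_lit 11) L37906 (by decide +kernel)
theorem L37908 : W_12 (nat_lit 6) (nat_lit 0x240002001b00080000000000000000000000000000000) (nat_lit 0x0) (nat_lit 0x28007c00180010000000010000000000000000000000000000000) := T_12 (nat_lit 194) (nat_lit 160) (nat_lit 6) (nat_lit 7) (nat_lit 11) L37907 (by decide +kernel)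
theorem L37909 : W_12 (nat_lit 2) (nat_lit 0x10005800240002001b80088000000000000000000000000000000) (nat_lit 0x0) (nat_lit 0x8002000020000000000000000000000000000000000000000000) := D_12 (nat_lit 193) (nat_lit 207) (nat_lit 173) (nat_lit 1) (nat_lit 7) (nat_lit 11) (nat_lit 0) (nat_lit 7) (nat_lit 11) (by decide +kernel)
theorem L37910 : W_12 (nat_lit 3) (nat_lit 0x10001800240002001b80088000000000000000000000000000000) (nat_lit 0x0) (nat_lit 0x8006000020010000000000000000000000000000000000000000) := T_12 (nat_lit 194) (nat_lit 160) (nat_lit 6) (nat_lit 7) (nat_lit 11) L37909 (by decide +kernel)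
theorem L37911 : W_12 (nat_lit 4) (nat_lit 0x1800240002001b80088000000000000000000000000000000) (nat_lit 0x0) (nat_lit 0x18006000020011000000000000000000000000000000000000000) := T_12 (nat_lit 208) (nat_lit 156) (nat_lit 4) (nat_lit 4) (nat_lit 12) L37910 (by decide +kernel)
theorem L37912 : W_12 (nat_lit 5) (nat_lit 0x1800240002001b80080000000000000000000000000000000) (nat_lit 0x0) (nat_lit 0x180060000a0011000000008000000000000000000000000000000) := T_12 (nat_lit 123) (nat_lit 175) (nat_lit 7) (nat_lit 4) (nat_lit 7) L37911 (by decide +kernel)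
theorem L37913 : W_12 (nat_lit 6) (nat_lit 0x800240002001b80080000000000000000000000000000000) (nat_lit 0x0) (nat_lit 0x380070000a0011000000008000000000000000000000000000000) := T_12 (nat_lit 192) (nat_lit 209) (nat_lit 7) (nat_lit 4) (nat_lit 8) L37912 (by decide +kernel)
theorem L37914 : W_12 (nat_lit 7) (nat_lit 0x800240002001b00080000000000000000000000000000000) (nat_lit 0x0) (nat_lit 0x380070000a001100008000c000000000000000000000000000000) := T_12 (nat_lit 139) (nat_lit 122) (nat_lit 4) (nat_lit 4) (nat_lit 11) L37913 (by decide +kernel)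
theorem L37915 : W_12 (nat_lit 8) (nat_lit 0x240002001b00080000000000000000000000000000000) (nat_lit 0x0) (nat_lit 0x380078000a001100008001c000000000000000000000000000000) := T_12 (nat_lit 191) (nat_lit 124) (nat_lit 6) (nat_lit 4) (nat_lit 11) L37914 (by decide +kernel)
theorem L37916 : W_12 (nat_lit 9) (nat_lit 0x240000001b00080000000000000000000000000000000) (nat_lit 0x0) (nat_lit 0x3800fc001a001300008001f000e00050000000000000000000000) := Q_12 (nat_lit 157) (C_12 L37878 (C_12 L37895 (C_12 L37903 (C_12 L37908 (C_12 L37915 N_12))))) (by decide +kernel)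
theorem L37917 : W_12 (nat_lit 2) (nat_lit 0x40002e0002001b4009e000100000000000000000000000000) (nat_lit 0x0) (nat_lit 0x1800080000000000000000000000000000000000) := D_12 (nat_lit 156) (nat_lit 139) (nat_lit 155) (nat_lit 4) (nat_lit 3) (nat_lit 10) (nat_lit 7) (nat_lit 2) (nat_lit 6) (by decide +kernel)
theorem L37918 : W_12 (nat_lit 3) (nat_lit 0x40002e0002001b4009e000000000000000000000000000000) (nat_lit 0x0) (nat_lit 0x1800080000000180000000000000000000000000) := T_12 (nat_lit 104) (nat_lit 103) (nat_lit 0) (nat_lit 5) (nat_lit 7) L37917 (by decide +kernel)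
theorem L37919 : W_12 (nat_lit 4) (nat_lit 0x40002e0002001b0009e000000000000000000000000000000) (nat_lit 0x0) (nat_lit 0x18000e0000000180000000000000000000000000) := T_12 (nat_lit 138) (nat_lit 137) (nat_lit 1) (nat_lit 5) (nat_lit 7) L37918 (by decide +kernel)
theorem L37920 : W_12 (nat_lit 5) (nat_lit 0x40002e0002001b0009c000000000000000000000000000000) (nat_lit 0x0) (nat_lit 0x18000e0003000180000000000000000000000000) := T_12 (nat_lit 121) (nat_lit 120) (nat_lit 3) (nat_lit 1) (nat_lit 7) L37919 (by decide +kernel)
theorem L37921 : W_12 (nat_lit 6) (nat_lit 0x40002e0002001b00098000000000000000000000000000000) (nat_lit 0x0) (nat_lit 0x18000e0007000380000000000000000000000000) := T_12 (nat_lit 122) (nat_lit 105) (nat_lit 4) (nat_lit 4) (nat_lit 10) L37920 (by decide +kernel)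
theorem L37922 : W_12 (nat_lit 7) (nat_lit 0x40002c0002001b00098000000000000000000000000000000) (nat_lit 0x0) (nat_lit 0x4000200018000e0007000380000000000000000000000000) := T_12 (nat_lit 173) (nat_lit 190) (nat_lit 5) (nat_lit 4) (nat_lit 7) L37921 (by decide +kernel)
theorem L37923 : W_12 (nat_lit 8) (nat_lit 0x40002c0002001b00088000000000000000000000000000000) (nat_lit 0x0) (nat_lit 0x4000200018000e0017000b80000000000000000000000000) := T_12 (nat_lit 124) (nat_lit 107) (nat_lit 6) (nat_lit 4) (nat_lit 10) L37922 (by decide +kernel)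
theorem L37924 : W_12 (nat_lit 9) (nat_lit 0x2c0002001b00088000000000000000000000000000000) (nat_lit 0x0) (nat_lit 0x44000200118000e0017000b80000000000000000000000000) := T_12 (nat_lit 194) (nat_lit 160) (nat_lit 6) (nat_lit 7) (nat_lit 11) L37923 (by decide +kernel)
theorem L37925 : W_12 (nat_lit 10) (nat_lit 0x240002001b00088000000000000000000000000000000) (nat_lit 0x0) (nat_lit 0x54000a00118000e0017000b80000000000000000000000000) := T_12 (nat_lit 175) (nat_lit 192) (nat_lit 7) (nat_lit 4) (nat_lit 7) L37924 (by decide +kernel)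
theorem L37926 : W_12 (nat_lit 2) (nat_lit 0x260002001b00088000600000000000000000000000000) (nat_lit 0x0) (nat_lit 0x10000800040000000000000000000000) := D_12 (nat_lit 107) (nat_lit 124) (nat_lit 90) (nat_lit 6) (nat_lit 4) (nat_lit 10) (nat_lit 6) (nat_lit 4) (nat_lit 9) (by decide +kernel)
theorem L37927 : W_12 (nat_lit 3) (nat_lit 0x260002001b00088000200000000000000000000000000) (nat_lit 0x0) (nat_lit 0x10000c00050000000000000000000000) := T_12 (nat_lit 106) (nat_lit 88) (nat_lit 4) (nat_lit 4) (nat_lit 9) L37926 (by decide +kernel)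
theorem L37928 : W_12 (nat_lit 4) (nat_lit 0x240002001b00088000200000000000000000000000000) (nat_lit 0x0) (nat_lit 0x400020000000000010000c00050000000000000000000000) := T_12 (nat_lit 173) (nat_lit 190) (nat_lit 5) (nat_lit 4) (nat_lit 7) L37927 (by decide +kernel)
theorem L37929 : W_12 (nat_lit 5) (nat_lit 0x240002001b00088000000000000000000000000000000) (nat_lit 0x0) (nat_lit 0x400020000000000014000e00050000000000000000000000) := T_12 (nat_lit 105) (nat_lit 122) (nat_lit 4) (nat_lit 4) (nat_lit 10) L37928 (by decide +kernel)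
theorem L37930 : W_12 (nat_lit 2) (nat_lit 0x40002c0002001b00088000600000000000000000000000000) (nat_lit 0x0) (nat_lit 0x10000800040000000000000000000000) := D_12 (nat_lit 107) (nat_lit 124) (nat_lit 90) (nat_lit 6) (nat_lit 4) (nat_lit 10) (nat_lit 6) (nat_lit 4) (nat_lit 9) (by decide +kernel)
theorem L37931 : W_12 (nat_lit 3) (nat_lit 0x40002c0002001b00088000200000000000000000000000000) (nat_lit 0x0) (nat_lit 0x10000c00050000000000000000000000) := T_12 (nat_lit 106) (nat_lit 88) (nat_lit 4) (nat_lit 4) (nat_lit 9) L37930 (by decide +kernel)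
theorem L37932 : W_12 (nat_lit 4) (nat_lit 0x2c0002001b00088000200000000000000000000000000) (nat_lit 0x0) (nat_lit 0x4000000010000000010000c00050000000000000000000000) := T_12 (nat_lit 194) (nat_lit 160) (nat_lit 6) (nat_lit 7) (nat_lit 11) L37931 (by decide +kernel)
theorem L37933 : W_12 (nat_lit 5) (nat_lit 0x2c0002001b00088000000000000000000000000000000) (nat_lit 0x0) (nat_lit 0x4000000010000000014000e00050000000000000000000000) := T_12 (nat_lit 105) (nat_lit 122) (nat_lit 4) (nat_lit 4) (nat_lit 10) L37932 (by decide +kernel)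
theorem L37934 : W_12 (nat_lit 6) (nat_lit 0x240002001b00088000000000000000000000000000000) (nat_lit 0x0) (nat_lit 0x5000080010000000014000e00050000000000000000000000) := T_12 (nat_lit 175) (nat_lit 192) (nat_lit 7) (nat_lit 4) (nat_lit 7) L37933 (by decide +kernel)
theorem L37935 : W_12 (nat_lit 11) (nat_lit 0x240002001b00080000000000000000000000000000000) (nat_lit 0x0) (nat_lit 0x54000a00118000e001f000f80050000000000000000000000) := Q_12 (nat_lit 123) (C_12 L37899 (C_12 L37894 (C_12 L37925 (C_12 L37929 (C_12 L37934 N_12))))) (by decide +kernel)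
theorem L37936 : W_12 (nat_lit 2) (nat_lit 0x7800240002001b00080000000000000000000000000000000) (nat_lit 0x0) (nat_lit 0x18000400000000000000000000000000000000000000000000000) := D_12 (nat_lit 207) (nat_lit 190) (nat_lit 208) (nat_lit 5) (nat_lit 4) (nat_lit 8) (nat_lit 1) (nat_lit 7) (nat_lit 11) (by decide +kernel)
theorem L37937 : W_12 (nat_lit 3) (nat_lit 0x5800240002001b00080000000000000000000000000000000) (nat_lit 0x0) (nat_lit 0x18002400020000000000000000000000000000000000000000000) := T_12 (nat_lit 193) (nat_lit 173) (nat_lit 0) (nat_lit 7) (nat_lit 11) L37936 (by decide +kernel)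
theorem L37938 : W_12 (nat_lit 4) (nat_lit 0x4800240002001b00080000000000000000000000000000000) (nat_lit 0x0) (nat_lit 0x38003400020000000000000000000000000000000000000000000) := T_12 (nat_lit 192) (nat_lit 209) (nat_lit 7) (nat_lit 4) (nat_lit 8) L37937 (by decide +kernel)
theorem L37939 : W_12 (nat_lit 5) (nat_lit 0x800240002001b00080000000000000000000000000000000) (nat_lit 0x0) (nat_lit 0x38007400020010000000000000000000000000000000000000000) := T_12 (nat_lit 194) (nat_lit 160) (nat_lit 6) (nat_lit 7) (nat_lit 11) L37938 (by decide +kernel)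
theorem L37940 : W_12 (nat_lit 2) (nat_lit 0x5c00240002001b00088000000000000000000000000000000) (nat_lit 0x0) (nat_lit 0x80004000200000000000000000000000000) := D_12 (nat_lit 122) (nat_lit 105) (nat_lit 139) (nat_lit 4) (nat_lit 4) (nat_lit 10) (nat_lit 4) (nat_lit 4) (nat_lit 11) (by decide +kernel)
theorem L37941 : W_12 (nat_lit 3) (nat_lit 0x5c00240002001b00080000000000000000000000000000000) (nat_lit 0x0) (nat_lit 0x8000000008000c000200000000000000000000000000) := T_12 (nat_lit 123) (nat_lit 175) (nat_lit 7) (nat_lit 4) (nat_lit 7) L37940 (by decide +kernel)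
theorem L37942 : W_12 (nat_lit 4) (nat_lit 0x4c00240002001b00080000000000000000000000000000000) (nat_lit 0x0) (nat_lit 0x2000100008000000008000c000200000000000000000000000000) := T_12 (nat_lit 192) (nat_lit 209) (nat_lit 7) (nat_lit 4) (nat_lit 8) L37941 (by decide +kernel)
theorem L37943 : W_12 (nat_lit 5) (nat_lit 0xc00240002001b00080000000000000000000000000000000) (nat_lit 0x0) (nat_lit 0x2000500008001000008000c000200000000000000000000000000) := T_12 (nat_lit 194) (nat_lit 160) (nat_lit 6) (nat_lit 7) (nat_lit 11) L37942 (by decide +kernel)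
theorem L37944 : W_12 (nat_lit 6) (nat_lit 0x800240002001b00080000000000000000000000000000000) (nat_lit 0x0) (nat_lit 0x2800540008001000008000c000200000000000000000000000000) := T_12 (nat_lit 190) (nat_lit 207) (nat_lit 5) (nat_lit 4) (nat_lit 8) L37943 (by decide +kernel)
theorem L37945 : W_12 (nat_lit 8) (nat_lit 0x240002001b00080000000000000000000000000000000) (nat_lit 0x0) (nat_lit 0x400038007c000a001100008000c000200000000000000000000000000) := Q_12 (nat_lit 191) (C_12 L34362 (C_12 L37914 (C_12 L37939 (C_12 L37944 (C_12 L34398 N_12))))) (by decide +kernel)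
theorem L37946 : W_12 (nat_lit 5) (nat_lit 0x4000240002001b00080000000000000000000000000000000) (nat_lit 0x0) (nat_lit 0x38003c00020000000000010000000000000000000000000000000) := T_12 (nat_lit 191) (nat_lit 124) (nat_lit 6) (nat_lit 4) (nat_lit 11) L37938 (by decide +kernel)
theorem L37947 : W_12 (nat_lit 6) (nat_lit 0x240002001b00080000000000000000000000000000000) (nat_lit 0x0) (nat_lit 0x38007c00020010000000010000000000000000000000000000000) := T_12 (nat_lit 194) (nat_lit 160) (nat_lit 6) (nat_lit 7) (nat_lit 11) L37946 (by decide +kernel)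
theorem L37948 : W_12 (nat_lit 6) (nat_lit 0x240002001b00080000000000000000000000000000000) (nat_lit 0x0) (nat_lit 0x400030005800000011000080014000000000000000000000000000000) := T_12 (nat_lit 191) (nat_lit 124) (nat_lit 6) (nat_lit 4) (nat_lit 11) L34398 (by decide +kernel)
theorem L37949 : W_12 (nat_lit 12) (nat_lit 0x240000001b00080000000000000000000000000000000) (nat_lit 0x0) (nat_lit 0x400038007c000a00138000e001f000f80050000000000000000000000) := Q_12 (nat_lit 157) (C_12 L37878 (C_12 L37935 (C_12 L37945 (C_12 L37947 (C_12 L37948 N_12))))) (by decide +kernel)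
theorem L37950 : W_12 (nat_lit 2) (nat_lit 0x4000260002001b4009e000100000000000000000000000000) (nat_lit 0x0) (nat_lit 0x1800080000000000000000000000000000000000) := D_12 (nat_lit 156) (nat_lit 139) (nat_lit 155) (nat_lit 4) (nat_lit 3) (nat_lit 10) (nat_lit 7) (nat_lit 2) (nat_lit 6) (by decide +kernel)
theorem L37951 : W_12 (nat_lit 3) (nat_lit 0x4000260002001b4009e000000000000000000000000000000) (nat_lit 0x0) (nat_lit 0x1800080000000180000000000000000000000000) := T_12 (nat_lit 104) (nat_lit 103) (nat_lit 0) (nat_lit 5) (nat_lit 7) L37950 (by decide +kernel)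
theorem L37952 : W_12 (nat_lit 4) (nat_lit 0x4000260002001b0009e000000000000000000000000000000) (nat_lit 0x0) (nat_lit 0x18000e0000000180000000000000000000000000) := T_12 (nat_lit 138) (nat_lit 137) (nat_lit 1) (nat_lit 5) (nat_lit 7) L37951 (by decide +kernel)
theorem L37953 : W_12 (nat_lit 5) (nat_lit 0x4000260002001b0009c000000000000000000000000000000) (nat_lit 0x0) (nat_lit 0x18000e0003000180000000000000000000000000) := T_12 (nat_lit 121) (nat_lit 120) (nat_lit 3) (nat_lit 1) (nat_lit 7) L37952 (by decide +kernel)
theorem L37954 : W_12 (nat_lit 6) (nat_lit 0x4000260002001b00098000000000000000000000000000000) (nat_lit 0x0) (nat_lit 0x18000e0007000380000000000000000000000000) := T_12 (nat_lit 122) (nat_lit 105) (nat_lit 4) (nat_lit 4) (nat_lit 10) L37953 (by decide +kernel)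
theorem L37955 : W_12 (nat_lit 7) (nat_lit 0x4000240002001b00098000000000000000000000000000000) (nat_lit 0x0) (nat_lit 0x4000200018000e0007000380000000000000000000000000) := T_12 (nat_lit 173) (nat_lit 190) (nat_lit 5) (nat_lit 4) (nat_lit 7) L37954 (by decide +kernel)
theorem L37956 : W_12 (nat_lit 8) (nat_lit 0x4000240002001b00088000000000000000000000000000000) (nat_lit 0x0) (nat_lit 0x4000200018000e0017000b80000000000000000000000000) := T_12 (nat_lit 124) (nat_lit 107) (nat_lit 6) (nat_lit 4) (nat_lit 10) L37955 (by decide +kernel)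
theorem L37957 : W_12 (nat_lit 9) (nat_lit 0x240002001b00088000000000000000000000000000000) (nat_lit 0x0) (nat_lit 0x44000200118000e0017000b80000000000000000000000000) := T_12 (nat_lit 194) (nat_lit 160) (nat_lit 6) (nat_lit 7) (nat_lit 11) L37956 (by decide +kernel)
theorem L37958 : W_12 (nat_lit 2) (nat_lit 0x4000240002001b00088000a00000000000000000000000000) (nat_lit 0x0) (nat_lit 0x400050000000000000000000000) := D_12 (nat_lit 106) (nat_lit 90) (nat_lit 88) (nat_lit 6) (nat_lit 4) (nat_lit 9) (nat_lit 4) (nat_lit 4) (nat_lit 9) (by decide +kernel)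
theorem L37959 : W_12 (nat_lit 3) (nat_lit 0x4000240002001b00088000800000000000000000000000000) (nat_lit 0x0) (nat_lit 0x4000600050000000000000000000000) := T_12 (nat_lit 105) (nat_lit 122) (nat_lit 4) (nat_lit 4) (nat_lit 10) L37958 (by decide +kernel)
theorem L37960 : W_12 (nat_lit 4) (nat_lit 0x4000240002001b00088000000000000000000000000000000) (nat_lit 0x0) (nat_lit 0x14000e00050000000000000000000000) := T_12 (nat_lit 107) (nat_lit 124) (nat_lit 6) (nat_lit 4) (nat_lit 10) L37959 (by decide +kernel)
theorem L37961 : W_12 (nat_lit 5) (nat_lit 0x240002001b00088000000000000000000000000000000) (nat_lit 0x0) (nat_lit 0x4000000010000000014000e00050000000000000000000000) := T_12 (nat_lit 194) (nat_lit 160) (nat_lit 6) (nat_lit 7) (nat_lit 11) L37960 (by decide +kernel)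
theorem L37962 : W_12 (nat_lit 10) (nat_lit 0x240002001b00080000000000000000000000000000000) (nat_lit 0x0) (nat_lit 0x44000200118000e001f000f80050000000000000000000000) := Q_12 (nat_lit 123) (C_12 L37929 (C_12 L37899 (C_12 L37957 (C_12 L37894 (C_12 L37961 N_12))))) (by decide +kernel)
theorem L37963 : W_12 (nat_lit 6) (nat_lit 0x240002001b00080000000000000000000000000000000) (nat_lit 0x0) (nat_lit 0x400038007c0002001100008000c000200000000000000000000000000) := Q_12 (nat_lit 191) (C_12 L34398 (C_12 L34362 (C_12 L37939 N_12))) (by decide +kernel)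
theorem L37964 : W_12 (nat_lit 11) (nat_lit 0x240000001b00080000000000000000000000000000000) (nat_lit 0x0) (nat_lit 0x400038007c000200138000e001f000f80050000000000000000000000) := Q_12 (nat_lit 157) (C_12 L37878 (C_12 L37962 (C_12 L37963 (C_12 L37948 (C_12 L37947 N_12))))) (by decide +kernel)
theorem L37965 : W_12 (nat_lit 2) (nat_lit 0x4c00240002001b00088000000000000000000000000000000) (nat_lit 0x0) (nat_lit 0x20001000080000000000000000000000000000000000000000000) := D_12 (nat_lit 192) (nat_lit 209) (nat_lit 175) (nat_lit 7) (nat_lit 4) (nat_lit 8) (nat_lit 7) (nat_lit 4) (nat_lit 7) (by decide +kernel)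
theorem L37966 : W_12 (nat_lit 3) (nat_lit 0x4c00240002001b00080000000000000000000000000000000) (nat_lit 0x0) (nat_lit 0x200010000a0000000000008000000000000000000000000000000) := T_12 (nat_lit 123) (nat_lit 173) (nat_lit 5) (nat_lit 4) (nat_lit 7) L37965 (by decide +kernel)
theorem L37967 : W_12 (nat_lit 4) (nat_lit 0x4800240002001b00080000000000000000000000000000000) (nat_lit 0x0) (nat_lit 0x280014000a0000000000008000000000000000000000000000000) := T_12 (nat_lit 190) (nat_lit 207) (nat_lit 5) (nat_lit 4) (nat_lit 8) L37966 (by decide +kernel)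
theorem L37968 : W_12 (nat_lit 5) (nat_lit 0x4000240002001b00080000000000000000000000000000000) (nat_lit 0x0) (nat_lit 0x28001c000a0000000000018000000000000000000000000000000) := T_12 (nat_lit 191) (nat_lit 124) (nat_lit 6) (nat_lit 4) (nat_lit 11) L37967 (by decide +kernel)
theorem L37969 : W_12 (nat_lit 6) (nat_lit 0x240002001b00080000000000000000000000000000000) (nat_lit 0x0) (nat_lit 0x28005c000a0010000000018000000000000000000000000000000) := T_12 (nat_lit 194) (nat_lit 160) (nat_lit 6) (nat_lit 7) (nat_lit 11) L37968 (by decide +kernel)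
theorem L37970 : W_12 (nat_lit 11) (nat_lit 0x240000001b00080000000000000000000000000000000) (nat_lit 0x0) (nat_lit 0x40003800dc001a00138000e001f000f80050000000000000000000000) := Q_12 (nat_lit 157) (C_12 L37878 (C_12 L37962 (C_12 L37903 (C_12 L37948 (C_12 L37969 N_12))))) (by decide +kernel)
theorem L37971 : W_12 (nat_lit 2) (nat_lit 0x3e0002001b0008d000000000000000000000000000000) (nat_lit 0x0) (nat_lit 0x38000000000000000000000000000000000000000) := D_12 (nat_lit 160) (nat_lit 159) (nat_lit 161) (nat_lit 2) (nat_lit 3) (nat_lit 10) (nat_lit 2) (nat_lit 4) (nat_lit 10) (by decide +kernel)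
theorem L37972 : W_12 (nat_lit 3) (nat_lit 0x3c0002001b0008d000000000000000000000000000000) (nat_lit 0x0) (nat_lit 0x400020038000000000000000000000000000000000000000) := T_12 (nat_lit 173) (nat_lit 190) (nat_lit 5) (nat_lit 4) (nat_lit 7) L37971 (by decide +kernel)
theorem L37973 : W_12 (nat_lit 4) (nat_lit 0x2c0002001b0008d000000000000000000000000000000) (nat_lit 0x0) (nat_lit 0x400120039000000000000000000000000000000000000000) := T_12 (nat_lit 176) (nat_lit 156) (nat_lit 0) (nat_lit 7) (nat_lit 10) L37972 (by decide +kernel)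
theorem L37974 : W_12 (nat_lit 5) (nat_lit 0x240002001b0008d000000000000000000000000000000) (nat_lit 0x0) (nat_lit 0x14001a0039000000000000000000000000000000000000000) := T_12 (nat_lit 175) (nat_lit 192) (nat_lit 7) (nat_lit 4) (nat_lit 7) L37973 (by decide +kernel)
theorem L37975 : W_12 (nat_lit 6) (nat_lit 0x240002001b0008c000000000000000000000000000000) (nat_lit 0x0) (nat_lit 0x14001a0039000000003000000000000000000000000000000) := T_12 (nat_lit 120) (nat_lit 121) (nat_lit 3) (nat_lit 1) (nat_lit 7) L37974 (by decide +kernel)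
theorem L37976 : W_12 (nat_lit 7) (nat_lit 0x240002001b00088000000000000000000000000000000) (nat_lit 0x0) (nat_lit 0x14001a0039000000007000200000000000000000000000000) := T_12 (nat_lit 122) (nat_lit 105) (nat_lit 4) (nat_lit 4) (nat_lit 10) L37975 (by decide +kernel)
theorem L37977 : W_12 (nat_lit 8) (nat_lit 0x240002001b00080000000000000000000000000000000) (nat_lit 0x0) (nat_lit 0x14001a003900000001f000e00050000000000000000000000) := Q_12 (nat_lit 123) (C_12 L37929 (C_12 L37976 (C_12 L37894 (C_12 L37891 N_12)))) (by decide +kernel)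
theorem L37978 : W_12 (nat_lit 2) (nat_lit 0x10001800240002001b80080000000000000000000000000000000) (nat_lit 0x0) (nat_lit 0x100008000400000000000000000000000000000000000000000000000) := D_12 (nat_lit 207) (nat_lit 190) (nat_lit 224) (nat_lit 5) (nat_lit 4) (nat_lit 8) (nat_lit 5) (nat_lit 4) (nat_lit 9) (by decide +kernel)
theorem L37979 : W_12 (nat_lit 3) (nat_lit 0x1800240002001b80080000000000000000000000000000000) (nat_lit 0x0) (nat_lit 0x100018000400000001000000000000000000000000000000000000000) := T_12 (nat_lit 208) (nat_lit 156) (nat_lit 4) (nat_lit 4) (nat_lit 12) L37978 (by decide +kernel)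
theorem L37980 : W_12 (nat_lit 4) (nat_lit 0x800240002001b80080000000000000000000000000000000) (nat_lit 0x0) (nat_lit 0x100038001400000001000000000000000000000000000000000000000) := T_12 (nat_lit 192) (nat_lit 209) (nat_lit 7) (nat_lit 4) (nat_lit 8) L37979 (by decide +kernel)
theorem L37981 : W_12 (nat_lit 5) (nat_lit 0x800240002001b00080000000000000000000000000000000) (nat_lit 0x0) (nat_lit 0x100038001400000001000080004000000000000000000000000000000) := T_12 (nat_lit 139) (nat_lit 122) (nat_lit 4) (nat_lit 4) (nat_lit 11) L37980 (by decide +kernel)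
theorem L37982 : W_12 (nat_lit 2) (nat_lit 0xc00240002001b00088000000000000000000000000000000) (nat_lit 0x0) (nat_lit 0x20001000080000000000000000000000000000000000000000000) := D_12 (nat_lit 192) (nat_lit 209) (nat_lit 175) (nat_lit 7) (nat_lit 4) (nat_lit 8) (nat_lit 7) (nat_lit 4) (nat_lit 7) (by decide +kernel)
theorem L37983 : W_12 (nat_lit 3) (nat_lit 0xc00240002001b00080000000000000000000000000000000) (nat_lit 0x0) (nat_lit 0x200010000a0000000000008000000000000000000000000000000) := T_12 (nat_lit 123) (nat_lit 173) (nat_lit 5) (nat_lit 4) (nat_lit 7) L37982 (by decide +kernel)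
theorem L37984 : W_12 (nat_lit 4) (nat_lit 0x800240002001b00080000000000000000000000000000000) (nat_lit 0x0) (nat_lit 0x280014000a0000000000008000000000000000000000000000000) := T_12 (nat_lit 190) (nat_lit 207) (nat_lit 5) (nat_lit 4) (nat_lit 8) L37983 (by decide +kernel)
theorem L37985 : W_12 (nat_lit 2) (nat_lit 0x1800240002001b00088000000000000000000000000000000) (nat_lit 0x0) (nat_lit 0x80004000200000000000000000000000000) := D_12 (nat_lit 122) (nat_lit 139) (nat_lit 105) (nat_lit 4) (nat_lit 4) (nat_lit 11) (nat_lit 4) (nat_lit 4) (nat_lit 10) (by decide +kernel)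
theorem L37986 : W_12 (nat_lit 3) (nat_lit 0x1800240002001b00080000000000000000000000000000000) (nat_lit 0x0) (nat_lit 0x8000000008000c000200000000000000000000000000) := T_12 (nat_lit 123) (nat_lit 175) (nat_lit 7) (nat_lit 4) (nat_lit 7) L37985 (by decide +kernel)
theorem L37987 : W_12 (nat_lit 4) (nat_lit 0x800240002001b00080000000000000000000000000000000) (nat_lit 0x0) (nat_lit 0x2000100008000000008000c000200000000000000000000000000) := T_12 (nat_lit 192) (nat_lit 209) (nat_lit 7) (nat_lit 4) (nat_lit 8) L37986 (by decide +kernel)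
theorem L37988 : W_12 (nat_lit 6) (nat_lit 0x240002001b00080000000000000000000000000000000) (nat_lit 0x0) (nat_lit 0x100038001c000a000100008000c000200000000000000000000000000) := Q_12 (nat_lit 191) (C_12 L34362 (C_12 L37981 (C_12 L37984 (C_12 L37987 N_12)))) (by decide +kernel)
theorem L37989 : W_12 (nat_lit 6) (nat_lit 0x240002001b00080000000000000000000000000000000) (nat_lit 0x0) (nat_lit 0x100038001c00000001000080014000000000000000000000000000000) := T_12 (nat_lit 191) (nat_lit 124) (nat_lit 6) (nat_lit 4) (nat_lit 11) L37981 (by decide +kernel)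
theorem L37990 : W_12 (nat_lit 5) (nat_lit 0x240002001b00080000000000000000000000000000000) (nat_lit 0x0) (nat_lit 0x28001c000a0000000000018000000000000000000000000000000) := T_12 (nat_lit 191) (nat_lit 124) (nat_lit 6) (nat_lit 4) (nat_lit 11) L37984 (by decide +kernel)
theorem L37991 : W_12 (nat_lit 5) (nat_lit 0x240002001b00080000000000000000000000000000000) (nat_lit 0x0) (nat_lit 0x2000180008000000008001c000200000000000000000000000000) := T_12 (nat_lit 191) (nat_lit 124) (nat_lit 6) (nat_lit 4) (nat_lit 11) L37987 (by decide +kernel)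
theorem L37992 : W_12 (nat_lit 9) (nat_lit 0x240000001b00080000000000000000000000000000000) (nat_lit 0x0) (nat_lit 0x100038001c001a003b00008001f000e00050000000000000000000000) := Q_12 (nat_lit 157) (C_12 L37878 (C_12 L37977 (C_12 L37988 (C_12 L37989 (C_12 L37990 (C_12 L37991 N_12)))))) (by decide +kernel)
theorem L37993 : W_12 (nat_lit 2) (nat_lit 0x200010000b0004d00340002001b80080000000000000000000000000000000) (nat_lit 0x0) (nat_lit 0x800040002000000000000000000000000000000000000000000000000000000000) := D_12 (nat_lit 246) (nat_lit 229) (nat_lit 263) (nat_lit 7) (nat_lit 7) (nat_lit 10) (nat_lit 7) (nat_lit 7) (nat_lit 11) (by decide +kernel)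
theorem L37994 : W_12 (nat_lit 3) (nat_lit 0x10000b0004d00340002001b80080000000000000000000000000000000) (nat_lit 0x0) (nat_lit 0x800060002000000002000000000000000000000000000000000000000000000000) := T_12 (nat_lit 245) (nat_lit 193) (nat_lit 4) (nat_lit 7) (nat_lit 14) L37993 (by decide +kernel)
theorem L37995 : W_12 (nat_lit 4) (nat_lit 0xb0004d00340002001b80080000000000000000000000000000000) (nat_lit 0x0) (nat_lit 0x800060003000000002000000008000000000000000000000000000000000000000) := T_12 (nat_lit 228) (nat_lit 159) (nat_lit 4) (nat_lit 7) (nat_lit 13) L37994 (by decide +kernel)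
theorem L37996 : W_12 (nat_lit 5) (nat_lit 0x30004d00340002001b80080000000000000000000000000000000) (nat_lit 0x0) (nat_lit 0x8000600030000c0002000000008000000000000000000000000000000000000000) := T_12 (nat_lit 211) (nat_lit 210) (nat_lit 0) (nat_lit 7) (nat_lit 12) L37995 (by decide +kernel)
theorem L37997 : W_12 (nat_lit 6) (nat_lit 0x30004c00340002001b80080000000000000000000000000000000) (nat_lit 0x0) (nat_lit 0x8000600030000c0002300000008000000000000000000000000000000000000000) := T_12 (nat_lit 188) (nat_lit 189) (nat_lit 3) (nat_lit 1) (nat_lit 11) L37996 (by decide +kernel)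
theorem L37998 : W_12 (nat_lit 7) (nat_lit 0x10004c00340002001b80080000000000000000000000000000000) (nat_lit 0x0) (nat_lit 0x8000600034000e0002300000008000000000000000000000000000000000000000) := T_12 (nat_lit 209) (nat_lit 226) (nat_lit 7) (nat_lit 4) (nat_lit 9) L37997 (by decide +kernel)
theorem L37999 : W_12 (nat_lit 8) (nat_lit 0x4c00340002001b80080000000000000000000000000000000) (nat_lit 0x0) (nat_lit 0x8000600034000f0002300000009000000000000000000000000000000000000000) := T_12 (nat_lit 208) (nat_lit 156) (nat_lit 4) (nat_lit 4) (nat_lit 12) L37998 (by decide +kernel)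
theorem L38000 : W_12 (nat_lit 9) (nat_lit 0x4c00340002001b00080000000000000000000000000000000) (nat_lit 0x0) (nat_lit 0x8000600034000f0002300000009000080004000000000000000000000000000000) := T_12 (nat_lit 139) (nat_lit 122) (nat_lit 4) (nat_lit 4) (nat_lit 11) L37999 (by decide +kernel)
theorem L38001 : W_12 (nat_lit 10) (nat_lit 0x4c00240002001b00080000000000000000000000000000000) (nat_lit 0x0) (nat_lit 0x8000600034000f0002300180009000080004000000000000000000000000000000) := T_12 (nat_lit 176) (nat_lit 175) (nat_lit 1) (nat_lit 7) (nat_lit 10) L38000 (by decide +kernel)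
theorem L38002 : W_12 (nat_lit 11) (nat_lit 0x4800240002001b00080000000000000000000000000000000) (nat_lit 0x0) (nat_lit 0x8000600034000f8002700180009000080004000000000000000000000000000000) := T_12 (nat_lit 190) (nat_lit 207) (nat_lit 5) (nat_lit 4) (nat_lit 8) L38001 (by decide +kernel)
theorem L38003 : W_12 (nat_lit 12) (nat_lit 0x800240002001b00080000000000000000000000000000000) (nat_lit 0x0) (nat_lit 0x8000600034000f8006700180019000080004000000000000000000000000000000) := T_12 (nat_lit 194) (nat_lit 160) (nat_lit 6) (nat_lit 7) (nat_lit 11) L38002 (by decide +kernel)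
theorem L38004 : W_12 (nat_lit 2) (nat_lit 0xf8004800240002001b00080000000000000000000000000000000) (nat_lit 0x0) (nat_lit 0x3800000000000000000000000000000000000000000000000000000000) := D_12 (nat_lit 228) (nat_lit 227) (nat_lit 229) (nat_lit 3) (nat_lit 3) (nat_lit 12) (nat_lit 3) (nat_lit 4) (nat_lit 12) (by decide +kernel)
theorem L38005 : W_12 (nat_lit 3) (nat_lit 0x78004800240002001b00080000000000000000000000000000000) (nat_lit 0x0) (nat_lit 0x3800080008000000000000000000000000000000000000000000000000) := T_12 (nat_lit 211) (nat_lit 195) (nat_lit 2) (nat_lit 4) (nat_lit 12) L38004 (by decide +kernel)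
theorem L38006 : W_12 (nat_lit 4) (nat_lit 0x38004800240002001b00080000000000000000000000000000000) (nat_lit 0x0) (nat_lit 0x38000c000a000000000000000000000000000000000000000000000000) := T_12 (nat_lit 210) (nat_lit 193) (nat_lit 2) (nat_lit 3) (nat_lit 12) L38005 (by decide +kernel)
theorem L38007 : W_12 (nat_lit 5) (nat_lit 0x18004800240002001b00080000000000000000000000000000000) (nat_lit 0x0) (nat_lit 0x3c000e000a000000000000000000000000000000000000000000000000) := T_12 (nat_lit 209) (nat_lit 226) (nat_lit 7) (nat_lit 4) (nat_lit 9) L38006 (by decide +kernel)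
theorem L38008 : W_12 (nat_lit 6) (nat_lit 0x8004800240002001b00080000000000000000000000000000000) (nat_lit 0x0) (nat_lit 0x3d000f000a000000000000000000000000000000000000000000000000) := T_12 (nat_lit 208) (nat_lit 224) (nat_lit 5) (nat_lit 4) (nat_lit 9) L38007 (by decide +kernel)
theorem L38009 : W_12 (nat_lit 7) (nat_lit 0x4800240002001b00080000000000000000000000000000000) (nat_lit 0x0) (nat_lit 0x3d000f800a400000000000000000000000000000000000000000000000) := T_12 (nat_lit 207) (nat_lit 190) (nat_lit 5) (nat_lit 4) (nat_lit 8) L38008 (by decide +kernel)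
theorem L38010 : W_12 (nat_lit 8) (nat_lit 0x800240002001b00080000000000000000000000000000000) (nat_lit 0x0) (nat_lit 0x3d000f800e400000010000000000000000000000000000000000000000) := T_12 (nat_lit 194) (nat_lit 160) (nat_lit 6) (nat_lit 7) (nat_lit 11) L38009 (by decide +kernel)
theorem L38011 : W_12 (nat_lit 2) (nat_lit 0x6000e00010000c00340012001b80080000000000000000000000000000000) (nat_lit 0x0) (nat_lit 0x40002000000000000000040000000000000000000000000000000) := D_12 (nat_lit 193) (nat_lit 126) (nat_lit 210) (nat_lit 5) (nat_lit 7) (nat_lit 7) (nat_lit 6) (nat_lit 6) (nat_lit 13) (by decide +kernel)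
theorem L38012 : W_12 (nat_lit 3) (nat_lit 0x6000600010000c00340012001b80080000000000000000000000000000000) (nat_lit 0x0) (nat_lit 0x1800040002000000000000000040000000000000000000000000000000) := T_12 (nat_lit 227) (nat_lit 228) (nat_lit 1) (nat_lit 7) (nat_lit 13) L38011 (by decide +kernel)
theorem L38013 : W_12 (nat_lit 4) (nat_lit 0x6000600010000c00240012001b80080000000000000000000000000000000) (nat_lit 0x0) (nat_lit 0x1800040002000180000000000040000000000000000000000000000000) := T_12 (nat_lit 176) (nat_lit 175) (nat_lit 1) (nat_lit 7) (nat_lit 10) L38012 (by decide +kernel)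
theorem L38014 : W_12 (nat_lit 5) (nat_lit 0x6000600010000800240012001b80080000000000000000000000000000000) (nat_lit 0x0) (nat_lit 0x18000400024001a0000000000040000000000000000000000000000000) := T_12 (nat_lit 190) (nat_lit 173) (nat_lit 4) (nat_lit 4) (nat_lit 14) L38013 (by decide +kernel)
theorem L38015 : W_12 (nat_lit 6) (nat_lit 0x2000600010000800240012001b80080000000000000000000000000000000) (nat_lit 0x0) (nat_lit 0x400040018000400024001a0000000000040000000000000000000000000000000) := T_12 (nat_lit 242) (nat_lit 258) (nat_lit 5) (nat_lit 4) (nat_lit 11) L38014 (by decide +kernel)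
theorem L38016 : W_12 (nat_lit 7) (nat_lit 0x600010000800240012001b80080000000000000000000000000000000) (nat_lit 0x0) (nat_lit 0x400060019000400024001a0000000000040000000000000000000000000000000) := T_12 (nat_lit 241) (nat_lit 224) (nat_lit 5) (nat_lit 4) (nat_lit 10) L38015 (by decide +kernel)
theorem L38017 : W_12 (nat_lit 8) (nat_lit 0x400010000800240012001b80080000000000000000000000000000000) (nat_lit 0x0) (nat_lit 0x4000e001b000400024001a0000000000040000000000000000000000000000000) := T_12 (nat_lit 225) (nat_lit 243) (nat_lit 7) (nat_lit 4) (nat_lit 10) L38016 (by decide +kernel)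
theorem L38018 : W_12 (nat_lit 9) (nat_lit 0x10000800240012001b80080000000000000000000000000000000) (nat_lit 0x0) (nat_lit 0x4000e001f000600024001a0000000000040000000000000000000000000000000) := T_12 (nat_lit 226) (nat_lit 209) (nat_lit 7) (nat_lit 4) (nat_lit 9) L38017 (by decide +kernel)
theorem L38019 : W_12 (nat_lit 10) (nat_lit 0x800240012001b80080000000000000000000000000000000) (nat_lit 0x0) (nat_lit 0x4000e001f000700024001a0001000000040000000000000000000000000000000) := T_12 (nat_lit 208) (nat_lit 156) (nat_lit 4) (nat_lit 4) (nat_lit 12) L38018 (by decide +kernel)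
theorem L38020 : W_12 (nat_lit 11) (nat_lit 0x800240002001b80080000000000000000000000000000000) (nat_lit 0x0) (nat_lit 0x4000e001f000700064001a0011000000040000000000000000000000000000000) := T_12 (nat_lit 160) (nat_lit 194) (nat_lit 6) (nat_lit 7) (nat_lit 11) L38019 (by decide +kernel)
theorem L38021 : W_12 (nat_lit 12) (nat_lit 0x800240002001b00080000000000000000000000000000000) (nat_lit 0x0) (nat_lit 0x4000e001f000700064001a0011000080044000000000000000000000000000000) := T_12 (nat_lit 139) (nat_lit 122) (nat_lit 4) (nat_lit 4) (nat_lit 11) L38020 (by decide +kernel)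
theorem L38022 : W_12 (nat_lit 7) (nat_lit 0x4800240002001b80080000000000000000000000000000000) (nat_lit 0x0) (nat_lit 0x3d000f800a000000001000000000000000000000000000000000000000) := T_12 (nat_lit 208) (nat_lit 156) (nat_lit 4) (nat_lit 4) (nat_lit 12) L35019 (by decide +kernel)
theorem L38023 : W_12 (nat_lit 8) (nat_lit 0x800240002001b80080000000000000000000000000000000) (nat_lit 0x0) (nat_lit 0x3d000f800e000000011000000000000000000000000000000000000000) := T_12 (nat_lit 194) (nat_lit 160) (nat_lit 6) (nat_lit 7) (nat_lit 11) L38022 (by decide +kernel)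
theorem L38024 : W_12 (nat_lit 9) (nat_lit 0x800240002001b00080000000000000000000000000000000) (nat_lit 0x0) (nat_lit 0x3d000f800e000000011000080004000000000000000000000000000000) := T_12 (nat_lit 139) (nat_lit 122) (nat_lit 4) (nat_lit 4) (nat_lit 11) L38023 (by decide +kernel)
theorem L38025 : W_12 (nat_lit 13) (nat_lit 0x240002001b00080000000000000000000000000000000) (nat_lit 0x0) (nat_lit 0x84006e003f000f800ef001a001900008004c000200000000000000000000000000) := Q_12 (nat_lit 191) (C_12 L34362 (C_12 L38003 (C_12 L38010 (C_12 L38021 (C_12 L38024 N_12))))) (by decide +kernel)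
theorem L38026 : W_12 (nat_lit 8) (nat_lit 0x4000240002001b00080000000000000000000000000000000) (nat_lit 0x0) (nat_lit 0x3d000f800ac00000000000000010000000000000000000000000000000) := T_12 (nat_lit 191) (nat_lit 124) (nat_lit 6) (nat_lit 4) (nat_lit 11) L38009 (by decide +kernel)
theorem L38027 : W_12 (nat_lit 9) (nat_lit 0x240002001b00080000000000000000000000000000000) (nat_lit 0x0) (nat_lit 0x3d000f800ec00000010000000010000000000000000000000000000000) := T_12 (nat_lit 194) (nat_lit 160) (nat_lit 6) (nat_lit 7) (nat_lit 11) L38026 (by decide +kernel)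
theorem L38028 : W_12 (nat_lit 10) (nat_lit 0x240002001b00080000000000000000000000000000000) (nat_lit 0x0) (nat_lit 0x3d000f800e800000011000080014000000000000000000000000000000) := T_12 (nat_lit 191) (nat_lit 124) (nat_lit 6) (nat_lit 4) (nat_lit 11) L38024 (by decide +kernel)
theorem L38029 : W_12 (nat_lit 14) (nat_lit 0x240000001b00080000000000000000000000000000000) (nat_lit 0x0) (nat_lit 0x84006e003f000f800ef001a001b8000e005f000f80050000000000000000000000) := Q_12 (nat_lit 157) (C_12 L37878 (C_12 L37962 (C_12 L38025 (C_12 L38027 (C_12 L38028 N_12))))) (by decide +kernel)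
theorem L38030 : W_12 (nat_lit 2) (nat_lit 0x3e0002001b0008d000000000000000000000000000000) (nat_lit 0x0) (nat_lit 0xe000000000000000000000000000000000000000000000000) := D_12 (nat_lit 194) (nat_lit 193) (nat_lit 195) (nat_lit 3) (nat_lit 3) (nat_lit 10) (nat_lit 3) (nat_lit 4) (nat_lit 10) (by decide +kernel)
theorem L38031 : W_12 (nat_lit 3) (nat_lit 0x3c0002001b0008d000000000000000000000000000000) (nat_lit 0x0) (nat_lit 0xe400020000000000000000000000000000000000000000000) := T_12 (nat_lit 173) (nat_lit 190) (nat_lit 5) (nat_lit 4) (nat_lit 7) L38030 (by decide +kernel)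
theorem L38032 : W_12 (nat_lit 4) (nat_lit 0x2c0002001b0008d000000000000000000000000000000) (nat_lit 0x0) (nat_lit 0xe400120001000000000000000000000000000000000000000) := T_12 (nat_lit 176) (nat_lit 156) (nat_lit 0) (nat_lit 7) (nat_lit 10) L38031 (by decide +kernel)
theorem L38033 : W_12 (nat_lit 5) (nat_lit 0x240002001b0008d000000000000000000000000000000) (nat_lit 0x0) (nat_lit 0xf4001a0001000000000000000000000000000000000000000) := T_12 (nat_lit 175) (nat_lit 192) (nat_lit 7) (nat_lit 4) (nat_lit 7) L38032 (by decide +kernel)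
theorem L38034 : W_12 (nat_lit 6) (nat_lit 0x240002001b0008c000000000000000000000000000000) (nat_lit 0x0) (nat_lit 0xf4001a0001000000003000000000000000000000000000000) := T_12 (nat_lit 120) (nat_lit 121) (nat_lit 3) (nat_lit 1) (nat_lit 7) L38033 (by decide +kernel)
theorem L38035 : W_12 (nat_lit 7) (nat_lit 0x240002001b00088000000000000000000000000000000) (nat_lit 0x0) (nat_lit 0xf4001a0001000000007000200000000000000000000000000) := T_12 (nat_lit 122) (nat_lit 105) (nat_lit 4) (nat_lit 4) (nat_lit 10) L38034 (by decide +kernel)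
theorem L38036 : W_12 (nat_lit 8) (nat_lit 0x240002001b00080000000000000000000000000000000) (nat_lit 0x0) (nat_lit 0xf4001a000100000001f000e00050000000000000000000000) := Q_12 (nat_lit 123) (C_12 L37929 (C_12 L38035 (C_12 L37894 (C_12 L37891 N_12)))) (by decide +kernel)
theorem L38037 : W_12 (nat_lit 9) (nat_lit 0x240000001b00080000000000000000000000000000000) (nat_lit 0x0) (nat_lit 0x10003800fc001a000300008001f000e00050000000000000000000000) := Q_12 (nat_lit 157) (C_12 L38036 (C_12 L37991 (C_12 L37989 (C_12 L37988 (C_12 L37878 (C_12 L37990 N_12)))))) (by decide +kernel)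
theorem L38038 : W_12 (nat_lit 2) (nat_lit 0x3e0012001b000c8000c00000000000000000000000000) (nat_lit 0x0) (nat_lit 0x4000200010000000000000000000000) := D_12 (nat_lit 105) (nat_lit 88) (nat_lit 122) (nat_lit 4) (nat_lit 4) (nat_lit 9) (nat_lit 4) (nat_lit 4) (nat_lit 10) (by decide +kernel)
theorem L38039 : W_12 (nat_lit 3) (nat_lit 0x3e0012001b000c8000800000000000000000000000000) (nat_lit 0x0) (nat_lit 0x4000600050000000000000000000000) := T_12 (nat_lit 106) (nat_lit 90) (nat_lit 6) (nat_lit 4) (nat_lit 9) L38038 (by decide +kernel)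
theorem L38040 : W_12 (nat_lit 4) (nat_lit 0x3c0012001b000c8000800000000000000000000000000) (nat_lit 0x0) (nat_lit 0x400020000000000004000600050000000000000000000000) := T_12 (nat_lit 173) (nat_lit 190) (nat_lit 5) (nat_lit 4) (nat_lit 7) L38039 (by decide +kernel)
theorem L38041 : W_12 (nat_lit 5) (nat_lit 0x3c0012001b000c8000000000000000000000000000000) (nat_lit 0x0) (nat_lit 0x400020000000000014000e00050000000000000000000000) := T_12 (nat_lit 107) (nat_lit 124) (nat_lit 6) (nat_lit 4) (nat_lit 10) L38040 (by decide +kernel)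
theorem L38042 : W_12 (nat_lit 6) (nat_lit 0x3c0012001b000c0000000000000000000000000000000) (nat_lit 0x0) (nat_lit 0x140002000000000001c000e00050000000000000000000000) := T_12 (nat_lit 123) (nat_lit 192) (nat_lit 7) (nat_lit 4) (nat_lit 7) L38041 (by decide +kernel)
theorem L38043 : W_12 (nat_lit 7) (nat_lit 0x3c0010001b000c0000000000000000000000000000000) (nat_lit 0x0) (nat_lit 0x140002000300000001c000e00050000000000000000000000) := T_12 (nat_lit 157) (nat_lit 156) (nat_lit 0) (nat_lit 7) (nat_lit 10) L38042 (by decide +kernel)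
theorem L38044 : W_12 (nat_lit 8) (nat_lit 0x340010001b000c0000000000000000000000000000000) (nat_lit 0x0) (nat_lit 0x14000a002300000001c000e00050000000000000000000000) := T_12 (nat_lit 175) (nat_lit 161) (nat_lit 2) (nat_lit 4) (nat_lit 10) L38043 (by decide +kernel)
theorem L38045 : W_12 (nat_lit 9) (nat_lit 0x340010001b00080000000000000000000000000000000) (nat_lit 0x0) (nat_lit 0x34000a002300000005c000e00050000000000000000000000) := T_12 (nat_lit 126) (nat_lit 193) (nat_lit 5) (nat_lit 7) (nat_lit 7) L38044 (by decide +kernel)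
theorem L38046 : W_12 (nat_lit 2) (nat_lit 0x3e0010001b00080000000000000000000000000000000) (nat_lit 0x0) (nat_lit 0x3800000000000000000000000000000000000000) := D_12 (nat_lit 156) (nat_lit 157) (nat_lit 155) (nat_lit 0) (nat_lit 7) (nat_lit 10) (nat_lit 0) (nat_lit 6) (nat_lit 10) (by decide +kernel)
theorem L38047 : W_12 (nat_lit 3) (nat_lit 0x3c0010001b00080000000000000000000000000000000) (nat_lit 0x0) (nat_lit 0x2000b800000000000000000000000000000000000000) := T_12 (nat_lit 173) (nat_lit 159) (nat_lit 2) (nat_lit 3) (nat_lit 10) L38046 (by decide +kernel)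
theorem L38048 : W_12 (nat_lit 4) (nat_lit 0x340010001b00080000000000000000000000000000000) (nat_lit 0x0) (nat_lit 0xa002b800000000000000000000000000000000000000) := T_12 (nat_lit 175) (nat_lit 161) (nat_lit 2) (nat_lit 4) (nat_lit 10) L38047 (by decide +kernel)
theorem L38049 : W_12 (nat_lit 10) (nat_lit 0x240010001b00080000000000000000000000000000000) (nat_lit 0x0) (nat_lit 0x34001a002b80000005c003e001d000c000000000000000000) := Q_12 (nat_lit 176) (C_12 L37875 (C_12 L38045 (C_12 L38048 N_12))) (by decide +kernel)
theorem L38050 : W_12 (nat_lit 11) (nat_lit 0x240000001b00080000000000000000000000000000000) (nat_lit 0x0) (nat_lit 0x74001a003b80000005c003e001d000c000000000000000000) := T_12 (nat_lit 160) (nat_lit 194) (nat_lit 6) (nat_lit 7) (nat_lit 11) L38049 (by decide +kernel)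
theorem L38052 : W_12 (nat_lit 3) (nat_lit 0x2e0002001b00098000000000000000000000000000000) (nat_lit 0x0) (nat_lit 0xe000100010000000000000000000000000000000000000000) := T_12 (nat_lit 194) (nat_lit 160) (nat_lit 6) (nat_lit 7) (nat_lit 11) L38051 (by decide +kernel)
theorem L38053 : W_12 (nat_lit 4) (nat_lit 0x2c0002001b00098000000000000000000000000000000) (nat_lit 0x0) (nat_lit 0xe400120010000000000000000000000000000000000000000) := T_12 (nat_lit 173) (nat_lit 190) (nat_lit 5) (nat_lit 4) (nat_lit 7) L38052 (by decide +kernel)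
theorem L38054 : W_12 (nat_lit 5) (nat_lit 0x240002001b00098000000000000000000000000000000) (nat_lit 0x0) (nat_lit 0xf4001a0010000000000000000000000000000000000000000) := T_12 (nat_lit 175) (nat_lit 192) (nat_lit 7) (nat_lit 4) (nat_lit 7) L38053 (by decide +kernel)
theorem L38055 : W_12 (nat_lit 6) (nat_lit 0x240002001b00088000000000000000000000000000000) (nat_lit 0x0) (nat_lit 0xf4001a0010000000010000800000000000000000000000000) := T_12 (nat_lit 124) (nat_lit 107) (nat_lit 6) (nat_lit 4) (nat_lit 10) L38054 (by decide +kernel)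
theorem L38056 : W_12 (nat_lit 8) (nat_lit 0x240002001b00080000000000000000000000000000000) (nat_lit 0x0) (nat_lit 0xf4001a001000000001f000e00050000000000000000000000) := Q_12 (nat_lit 123) (C_12 L37961 (C_12 L37886 (C_12 L37929 (C_12 L38055 N_12)))) (by decide +kernel)
theorem L38057 : W_12 (nat_lit 9) (nat_lit 0x240002001b00080000000000000000000000000000000) (nat_lit 0x0) (nat_lit 0x3d000f800fc000a001000008000c000200000000000000000000000000) := Q_12 (nat_lit 191) (C_12 L38010 (C_12 L37987 (C_12 L34362 N_12))) (by decide +kernel)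
theorem L38058 : W_12 (nat_lit 10) (nat_lit 0x240000001b00080000000000000000000000000000000) (nat_lit 0x0) (nat_lit 0x3d000f800fc001a001200008001f000e00050000000000000000000000) := Q_12 (nat_lit 157) (C_12 L37991 (C_12 L38056 (C_12 L38027 (C_12 L38057 N_12)))) (by decide +kernel)
theorem L38059 : W_12 (nat_lit 7) (nat_lit 0x240002001b00080000000000000000000000000000000) (nat_lit 0x0) (nat_lit 0xd00018001100000001c000e00050000000000000000000000) := Q_12 (nat_lit 123) (C_12 L37961 (C_12 L37902 (C_12 L37891 N_12))) (by decide +kernel)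
theorem L38060 : W_12 (nat_lit 2) (nat_lit 0x4c002c0002001b00088000000000000000000000000000000) (nat_lit 0x0) (nat_lit 0x80004000200000000000000000000000000) := D_12 (nat_lit 122) (nat_lit 105) (nat_lit 139) (nat_lit 4) (nat_lit 4) (nat_lit 10) (nat_lit 4) (nat_lit 4) (nat_lit 11) (by decide +kernel)
theorem L38061 : W_12 (nat_lit 3) (nat_lit 0x4c002c0002001b00080000000000000000000000000000000) (nat_lit 0x0) (nat_lit 0x100000000000008000c000200000000000000000000000000) := T_12 (nat_lit 123) (nat_lit 192) (nat_lit 7) (nat_lit 4) (nat_lit 7) L38060 (by decide +kernel)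
theorem L38062 : W_12 (nat_lit 4) (nat_lit 0x4c00240002001b00080000000000000000000000000000000) (nat_lit 0x0) (nat_lit 0x100018000000008000c000200000000000000000000000000) := T_12 (nat_lit 175) (nat_lit 176) (nat_lit 1) (nat_lit 7) (nat_lit 10) L38061 (by decide +kernel)
theorem L38063 : W_12 (nat_lit 5) (nat_lit 0x4800240002001b00080000000000000000000000000000000) (nat_lit 0x0) (nat_lit 0x800140018000000008000c000200000000000000000000000000) := T_12 (nat_lit 190) (nat_lit 207) (nat_lit 5) (nat_lit 4) (nat_lit 8) L38062 (by decide +kernel)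
theorem L38064 : W_12 (nat_lit 6) (nat_lit 0x800240002001b00080000000000000000000000000000000) (nat_lit 0x0) (nat_lit 0x800540018001000008000c000200000000000000000000000000) := T_12 (nat_lit 194) (nat_lit 160) (nat_lit 6) (nat_lit 7) (nat_lit 11) L38063 (by decide +kernel)
theorem L38065 : W_12 (nat_lit 10) (nat_lit 0x240002001b00080000000000000000000000000000000) (nat_lit 0x0) (nat_lit 0x3d000f800fc0018001100008000c000200000000000000000000000000) := Q_12 (nat_lit 191) (C_12 L38024 (C_12 L37987 (C_12 L38010 (C_12 L38064 N_12)))) (by decide +kernel)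
theorem L38066 : W_12 (nat_lit 11) (nat_lit 0x240000001b00080000000000000000000000000000000) (nat_lit 0x0) (nat_lit 0x3d000f800fc0018001300008001c000e00050000000000000000000000) := Q_12 (nat_lit 157) (C_12 L37991 (C_12 L38059 (C_12 L38028 (C_12 L38065 (C_12 L38027 N_12))))) (by decide +kernel)
theorem L38067 : W_12 (nat_lit 2) (nat_lit 0x40002c0003001b00088000600020000000000000000000000) (nat_lit 0x0) (nat_lit 0x800040002000000000000000000) := D_12 (nat_lit 90) (nat_lit 107) (nat_lit 73) (nat_lit 6) (nat_lit 4) (nat_lit 9) (nat_lit 6) (nat_lit 4) (nat_lit 8) (by decide +kernel)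
theorem L38068 : W_12 (nat_lit 3) (nat_lit 0x40002c0003001b00088000600000000000000000000000000) (nat_lit 0x0) (nat_lit 0x80000000800060002000000000000000000) := T_12 (nat_lit 89) (nat_lit 139) (nat_lit 5) (nat_lit 4) (nat_lit 5) L38067 (by decide +kernel)
theorem L38069 : W_12 (nat_lit 4) (nat_lit 0x40002c0002001b00088000600000000000000000000000000) (nat_lit 0x0) (nat_lit 0x20001000080000000800060002000000000000000000) := T_12 (nat_lit 156) (nat_lit 173) (nat_lit 5) (nat_lit 4) (nat_lit 6) L38068 (by decide +kernel)
theorem L38070 : W_12 (nat_lit 5) (nat_lit 0x40002c0002001b00088000200000000000000000000000000) (nat_lit 0x0) (nat_lit 0x20001000080000000c00070002000000000000000000) := T_12 (nat_lit 106) (nat_lit 88) (nat_lit 4) (nat_lit 4) (nat_lit 9) L38069 (by decide +kernel)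
theorem L38071 : W_12 (nat_lit 6) (nat_lit 0x40002c0002001b00088000000000000000000000000000000) (nat_lit 0x0) (nat_lit 0x20001000080004000e00070002000000000000000000) := T_12 (nat_lit 105) (nat_lit 122) (nat_lit 4) (nat_lit 4) (nat_lit 10) L38070 (by decide +kernel)
theorem L38072 : W_12 (nat_lit 7) (nat_lit 0x40002c0002001b00080000000000000000000000000000000) (nat_lit 0x0) (nat_lit 0x100002000100008000c000e00070002000000000000000000) := T_12 (nat_lit 123) (nat_lit 192) (nat_lit 7) (nat_lit 4) (nat_lit 7) L38071 (by decide +kernel)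
theorem L38073 : W_12 (nat_lit 8) (nat_lit 0x2c0002001b00080000000000000000000000000000000) (nat_lit 0x0) (nat_lit 0x500002001100008000c000e00070002000000000000000000) := T_12 (nat_lit 194) (nat_lit 160) (nat_lit 6) (nat_lit 7) (nat_lit 11) L38072 (by decide +kernel)
theorem L38074 : W_12 (nat_lit 2) (nat_lit 0x3c0002001b00080000000000000000000000000000000) (nat_lit 0x0) (nat_lit 0xc000000010000000000000000000000000000000000000000) := D_12 (nat_lit 194) (nat_lit 160) (nat_lit 195) (nat_lit 6) (nat_lit 7) (nat_lit 11) (nat_lit 3) (nat_lit 4) (nat_lit 10) (by decide +kernel)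
theorem L38075 : W_12 (nat_lit 3) (nat_lit 0x2c0002001b00080000000000000000000000000000000) (nat_lit 0x0) (nat_lit 0xc000100011000000000000000000000000000000000000000) := T_12 (nat_lit 176) (nat_lit 156) (nat_lit 0) (nat_lit 7) (nat_lit 10) L38074 (by decide +kernel)
theorem L38076 : W_12 (nat_lit 2) (nat_lit 0x8003c001a001b0008d000000000000000000000000000000) (nat_lit 0x0) (nat_lit 0x2000000000000000040002000000000000000000000000000) := D_12 (nat_lit 126) (nat_lit 193) (nat_lit 109) (nat_lit 5) (nat_lit 7) (nat_lit 7) (nat_lit 5) (nat_lit 7) (nat_lit 6) (by decide +kernel)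
theorem L38077 : W_12 (nat_lit 3) (nat_lit 0x8003c0012001b0008d000000000000000000000000000000) (nat_lit 0x0) (nat_lit 0x2000020008000000040002000000000000000000000000000) := T_12 (nat_lit 159) (nat_lit 173) (nat_lit 2) (nat_lit 3) (nat_lit 10) L38076 (by decide +kernel)
theorem L38078 : W_12 (nat_lit 4) (nat_lit 0x8003c0002001b0008d000000000000000000000000000000) (nat_lit 0x0) (nat_lit 0x2000020038000000040002000000000000000000000000000) := T_12 (nat_lit 160) (nat_lit 161) (nat_lit 2) (nat_lit 4) (nat_lit 10) L38077 (by decide +kernel)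
theorem L38079 : W_12 (nat_lit 5) (nat_lit 0x8002c0002001b0008d000000000000000000000000000000) (nat_lit 0x0) (nat_lit 0x2000120039000000040002000000000000000000000000000) := T_12 (nat_lit 176) (nat_lit 156) (nat_lit 0) (nat_lit 7) (nat_lit 10) L38078 (by decide +kernel)
theorem L38080 : W_12 (nat_lit 6) (nat_lit 0x2c0002001b0008d000000000000000000000000000000) (nat_lit 0x0) (nat_lit 0x2800120039000080040002000000000000000000000000000) := T_12 (nat_lit 191) (nat_lit 139) (nat_lit 4) (nat_lit 4) (nat_lit 11) L38079 (by decide +kernel)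
theorem L38081 : W_12 (nat_lit 7) (nat_lit 0x2c0002001b0008c000000000000000000000000000000) (nat_lit 0x0) (nat_lit 0x2800120039000080043002000000000000000000000000000) := T_12 (nat_lit 120) (nat_lit 121) (nat_lit 3) (nat_lit 1) (nat_lit 7) L38080 (by decide +kernel)
theorem L38082 : W_12 (nat_lit 8) (nat_lit 0x2c0002001b00088000000000000000000000000000000) (nat_lit 0x0) (nat_lit 0x2800120039000080047002200000000000000000000000000) := T_12 (nat_lit 122) (nat_lit 105) (nat_lit 4) (nat_lit 4) (nat_lit 10) L38081 (by decide +kernel)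
theorem L38083 : W_12 (nat_lit 9) (nat_lit 0x2c0002001b00080000000000000000000000000000000) (nat_lit 0x0) (nat_lit 0x380012003900008004f002200000000000000000000000000) := T_12 (nat_lit 123) (nat_lit 192) (nat_lit 7) (nat_lit 4) (nat_lit 7) L38082 (by decide +kernel)
theorem L38084 : W_12 (nat_lit 2) (nat_lit 0x10003c0002001b00080000000000000000000000000000000) (nat_lit 0x0) (nat_lit 0x400020000800000000000000000000000000000000000000000000000) := D_12 (nat_lit 209) (nat_lit 226) (nat_lit 191) (nat_lit 4) (nat_lit 5) (nat_lit 13) (nat_lit 7) (nat_lit 4) (nat_lit 8) (by decide +kernel)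
theorem L38085 : W_12 (nat_lit 3) (nat_lit 0x3c0002001b00080000000000000000000000000000000) (nat_lit 0x0) (nat_lit 0x400020001800000000000000008000000000000000000000000000000) := T_12 (nat_lit 192) (nat_lit 123) (nat_lit 7) (nat_lit 4) (nat_lit 7) L38084 (by decide +kernel)
theorem L38086 : W_12 (nat_lit 4) (nat_lit 0x2c0002001b00080000000000000000000000000000000) (nat_lit 0x0) (nat_lit 0x400020001800100001000000008000000000000000000000000000000) := T_12 (nat_lit 176) (nat_lit 156) (nat_lit 0) (nat_lit 7) (nat_lit 10) L38085 (by decide +kernel)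
theorem L38087 : W_12 (nat_lit 2) (nat_lit 0x50003e0002001b00080000000000000000000000000000000) (nat_lit 0x0) (nat_lit 0x400020000800000000000000000000000000000000000000000000000) := D_12 (nat_lit 209) (nat_lit 226) (nat_lit 191) (nat_lit 4) (nat_lit 5) (nat_lit 13) (nat_lit 7) (nat_lit 4) (nat_lit 8) (by decide +kernel)
theorem L38088 : W_12 (nat_lit 3) (nat_lit 0x40003e0002001b00080000000000000000000000000000000) (nat_lit 0x0) (nat_lit 0x400020001800000000000000008000000000000000000000000000000) := T_12 (nat_lit 192) (nat_lit 123) (nat_lit 7) (nat_lit 4) (nat_lit 7) L38087 (by decide +kernel)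
theorem L38089 : W_12 (nat_lit 4) (nat_lit 0x40003c0002001b00080000000000000000000000000000000) (nat_lit 0x0) (nat_lit 0x400020003800020000000000008000000000000000000000000000000) := T_12 (nat_lit 173) (nat_lit 193) (nat_lit 3) (nat_lit 3) (nat_lit 10) L38088 (by decide +kernel)
theorem L38090 : W_12 (nat_lit 5) (nat_lit 0x40002c0002001b00080000000000000000000000000000000) (nat_lit 0x0) (nat_lit 0x40002000b800120000000000008000000000000000000000000000000) := T_12 (nat_lit 176) (nat_lit 195) (nat_lit 3) (nat_lit 4) (nat_lit 10) L38089 (by decide +kernel)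
theorem L38091 : W_12 (nat_lit 6) (nat_lit 0x2c0002001b00080000000000000000000000000000000) (nat_lit 0x0) (nat_lit 0x40002000f800120010000000008000000000000000000000000000000) := T_12 (nat_lit 194) (nat_lit 160) (nat_lit 6) (nat_lit 7) (nat_lit 11) L38090 (by decide +kernel)
theorem L38092 : W_12 (nat_lit 10) (nat_lit 0x240002001b00080000000000000000000000000000000) (nat_lit 0x0) (nat_lit 0x40002000f8001a003900008004f002e00070002000000000000000000) := Q_12 (nat_lit 175) (C_12 L38073 (C_12 L38075 (C_12 L38083 (C_12 L38086 (C_12 L38091 N_12))))) (by decide +kernel)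
theorem L38093 : W_12 (nat_lit 2) (nat_lit 0x5800268002001b00088000400050000000000000000000000) (nat_lit 0x0) (nat_lit 0x20002800000000000000000) := D_12 (nat_lit 89) (nat_lit 71) (nat_lit 73) (nat_lit 4) (nat_lit 4) (nat_lit 8) (nat_lit 6) (nat_lit 4) (nat_lit 8) (by decide +kernel)
theorem L38094 : W_12 (nat_lit 3) (nat_lit 0x5800268002001b00088000400010000000000000000000000) (nat_lit 0x0) (nat_lit 0x800060002800000000000000000) := T_12 (nat_lit 90) (nat_lit 107) (nat_lit 6) (nat_lit 4) (nat_lit 9) L38093 (by decide +kernel)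
theorem L38095 : W_12 (nat_lit 4) (nat_lit 0x5800268002001b00088000400000000000000000000000000) (nat_lit 0x0) (nat_lit 0xa00070002800000000000000000) := T_12 (nat_lit 88) (nat_lit 105) (nat_lit 4) (nat_lit 4) (nat_lit 9) L38094 (by decide +kernel)
theorem L38096 : W_12 (nat_lit 5) (nat_lit 0x5800268002001b00088000000000000000000000000000000) (nat_lit 0x0) (nat_lit 0x1000000000000e00070002800000000000000000) := T_12 (nat_lit 106) (nat_lit 156) (nat_lit 5) (nat_lit 4) (nat_lit 6) L38095 (by decide +kernel)
theorem L38097 : W_12 (nat_lit 6) (nat_lit 0x5800260002001b00088000000000000000000000000000000) (nat_lit 0x0) (nat_lit 0x18001000000000000e00070002800000000000000000) := T_12 (nat_lit 171) (nat_lit 172) (nat_lit 3) (nat_lit 1) (nat_lit 10) L38096 (by decide +kernel)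
theorem L38098 : W_12 (nat_lit 7) (nat_lit 0x5800240002001b00088000000000000000000000000000000) (nat_lit 0x0) (nat_lit 0x2000038001000000000000e00070002800000000000000000) := T_12 (nat_lit 173) (nat_lit 193) (nat_lit 0) (nat_lit 7) (nat_lit 11) L38097 (by decide +kernel)
theorem L38099 : W_12 (nat_lit 8) (nat_lit 0x5800240002001b00080000000000000000000000000000000) (nat_lit 0x0) (nat_lit 0x20000b8001000000008000e00070002800000000000000000) := T_12 (nat_lit 123) (nat_lit 175) (nat_lit 7) (nat_lit 4) (nat_lit 7) L38098 (by decide +kernel)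
theorem L38100 : W_12 (nat_lit 9) (nat_lit 0x4800240002001b00080000000000000000000000000000000) (nat_lit 0x0) (nat_lit 0x200030000b8001000000008000e00070002800000000000000000) := T_12 (nat_lit 192) (nat_lit 209) (nat_lit 7) (nat_lit 4) (nat_lit 8) L38099 (by decide +kernel)
theorem L38101 : W_12 (nat_lit 10) (nat_lit 0x4000240002001b00080000000000000000000000000000000) (nat_lit 0x0) (nat_lit 0x200038000b8001000000018000e00070002800000000000000000) := T_12 (nat_lit 191) (nat_lit 124) (nat_lit 6) (nat_lit 4) (nat_lit 11) L38100 (by decide +kernel)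
theorem L38102 : W_12 (nat_lit 11) (nat_lit 0x240002001b00080000000000000000000000000000000) (nat_lit 0x0) (nat_lit 0x200078000b8011000000018000e00070002800000000000000000) := T_12 (nat_lit 194) (nat_lit 160) (nat_lit 6) (nat_lit 7) (nat_lit 11) L38101 (by decide +kernel)
theorem L38103 : W_12 (nat_lit 12) (nat_lit 0x240000001b00080000000000000000000000000000000) (nat_lit 0x0) (nat_lit 0x3d000f800f8001b803b00008005f002e00070002800000000000000000) := Q_12 (nat_lit 157) (C_12 L37991 (C_12 L38059 (C_12 L38028 (C_12 L38092 (C_12 L38102 N_12))))) (by decide +kernel)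
theorem L38104 : W_12 (nat_lit 15) (nat_lit 0x200000001b00080000000000000000000000000000000) (nat_lit 0x0) (nat_lit 0x84006e003f000f800ff001f803bc000e005f003f801f000e800000000000000000) := Q_12 (nat_lit 174) (C_12 L37877 (C_12 L37916 (C_12 L37949 (C_12 L37964 (C_12 L37970 (C_12 L37992 (C_12 L38029 (C_12 L38037 (C_12 L38050 (C_12 L38058 (C_12 L38066 (C_12 L38103 N_12)))))))))))) (by decide +kernel)
theorem L38106 : W_12 (nat_lit 3) (nat_lit 0x4000200000001b00080000000000000000000000000000000) (nat_lit 0x0) (nat_lit 0x40011c000000000000000000000000000000) := T_12 (nat_lit 142) (nat_lit 128) (nat_lit 2) (nat_lit 5) (nat_lit 8) L38105 (by decide +kernel)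
theorem L38107 : W_12 (nat_lit 4) (nat_lit 0x200000001b00080000000000000000000000000000000) (nat_lit 0x0) (nat_lit 0x400000001000040011c000000000000000000000000000000) := T_12 (nat_lit 194) (nat_lit 160) (nat_lit 6) (nat_lit 7) (nat_lit 11) L38106 (by decide +kernel)
theorem L38108 : W_12 (nat_lit 16) (nat_lit 0x200000001300080000000000000000000000000000000) (nat_lit 0x0) (nat_lit 0x84006e003f000f800ff001f803bc00ce015f003f801f000e800000000000000000) := Q_12 (nat_lit 143) (C_12 L35643 (C_12 L38104 (C_12 L38107 N_12))) (by decide +kernel)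
theorem L38109 : W_12 (nat_lit 2) (nat_lit 0x2000080017c0084000000000000000000000000000000) (nat_lit 0x0) (nat_lit 0x1c00000000000000000000000000000000000000) := D_12 (nat_lit 155) (nat_lit 154) (nat_lit 156) (nat_lit 1) (nat_lit 5) (nat_lit 8) (nat_lit 1) (nat_lit 6) (nat_lit 8) (by decide +kernel)
theorem L38110 : W_12 (nat_lit 3) (nat_lit 0x200008001780084000000000000000000000000000000) (nat_lit 0x0) (nat_lit 0x5c00040000000000000000000000000000000000) := T_12 (nat_lit 138) (nat_lit 158) (nat_lit 3) (nat_lit 2) (nat_lit 8) L38109 (by decide +kernel)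
theorem L38111 : W_12 (nat_lit 4) (nat_lit 0x200000001780084000000000000000000000000000000) (nat_lit 0x0) (nat_lit 0x1dc00040000000000000000000000000000000000) := T_12 (nat_lit 159) (nat_lit 160) (nat_lit 3) (nat_lit 3) (nat_lit 8) L38110 (by decide +kernel)
theorem L38112 : W_12 (nat_lit 5) (nat_lit 0x200000001780080000000000000000000000000000000) (nat_lit 0x0) (nat_lit 0x1dc00040006000000000000000000000000000000) := T_12 (nat_lit 122) (nat_lit 121) (nat_lit 0) (nat_lit 6) (nat_lit 8) L38111 (by decide +kernel)
theorem L38113 : W_12 (nat_lit 2) (nat_lit 0x200000801780082000000000000000000000000000000) (nat_lit 0x0) (nat_lit 0x400040001000000000000000000000000000000) := D_12 (nat_lit 138) (nat_lit 154) (nat_lit 120) (nat_lit 1) (nat_lit 5) (nat_lit 8) (nat_lit 0) (nat_lit 5) (nat_lit 8) (by decide +kernel)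
theorem L38114 : W_12 (nat_lit 3) (nat_lit 0x200000801780080000000000000000000000000000000) (nat_lit 0x0) (nat_lit 0x400040007000000000000000000000000000000) := T_12 (nat_lit 121) (nat_lit 122) (nat_lit 0) (nat_lit 6) (nat_lit 8) L38113 (by decide +kernel)
theorem L38115 : W_12 (nat_lit 4) (nat_lit 0x200000001780080000000000000000000000000000000) (nat_lit 0x0) (nat_lit 0x1c00040007000000000000000000000000000000) := T_12 (nat_lit 155) (nat_lit 156) (nat_lit 1) (nat_lit 6) (nat_lit 8) L38114 (by decide +kernel)
theorem L38116 : W_12 (nat_lit 2) (nat_lit 0x200008001780082000000000000000000000000000000) (nat_lit 0x0) (nat_lit 0x4000040001000000000000000000000000000000) := D_12 (nat_lit 138) (nat_lit 158) (nat_lit 120) (nat_lit 3) (nat_lit 2) (nat_lit 8) (nat_lit 0) (nat_lit 5) (nat_lit 8) (by decide +kernel)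
theorem L38117 : W_12 (nat_lit 3) (nat_lit 0x200000001780082000000000000000000000000000000) (nat_lit 0x0) (nat_lit 0x1c000040001000000000000000000000000000000) := T_12 (nat_lit 159) (nat_lit 160) (nat_lit 3) (nat_lit 3) (nat_lit 8) L38116 (by decide +kernel)
theorem L38118 : W_12 (nat_lit 4) (nat_lit 0x200000001780080000000000000000000000000000000) (nat_lit 0x0) (nat_lit 0x1c000040007000000000000000000000000000000) := T_12 (nat_lit 121) (nat_lit 122) (nat_lit 0) (nat_lit 6) (nat_lit 8) L38117 (by decide +kernel)
theorem L38122 : W_12 (nat_lit 2) (nat_lit 0xa00220009001780084000700000000000000000000000000) (nat_lit 0x0) (nat_lit 0x14000400000000000000000000000000000000000000000000000) := D_12 (nat_lit 190) (nat_lit 206) (nat_lit 208) (nat_lit 5) (nat_lit 3) (nat_lit 8) (nat_lit 7) (nat_lit 3) (nat_lit 8) (by decide +kernel)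
theorem L38123 : W_12 (nat_lit 3) (nat_lit 0x200220009001780084000700000000000000000000000000) (nat_lit 0x0) (nat_lit 0x14000c00040000000000000000000000000000000000000000000) := T_12 (nat_lit 191) (nat_lit 174) (nat_lit 7) (nat_lit 3) (nat_lit 7) L38122 (by decide +kernel)
theorem L38124 : W_12 (nat_lit 4) (nat_lit 0x220009001780084000700000000000000000000000000) (nat_lit 0x0) (nat_lit 0x14000e00050000000000000000000000000000000000000000000) := T_12 (nat_lit 189) (nat_lit 172) (nat_lit 5) (nat_lit 3) (nat_lit 7) L38123 (by decide +kernel)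
theorem L38125 : W_12 (nat_lit 5) (nat_lit 0x200009001780084000700000000000000000000000000) (nat_lit 0x0) (nat_lit 0x14000e00070000000000008000000000000000000000000000000) := T_12 (nat_lit 173) (nat_lit 123) (nat_lit 6) (nat_lit 3) (nat_lit 10) L38124 (by decide +kernel)
theorem L38126 : W_12 (nat_lit 6) (nat_lit 0x200009001780084000300000000000000000000000000) (nat_lit 0x0) (nat_lit 0x14000e00070000000000008000400020000000000000000000000) := T_12 (nat_lit 106) (nat_lit 89) (nat_lit 6) (nat_lit 3) (nat_lit 9) L38125 (by decide +kernel)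
theorem L38127 : W_12 (nat_lit 7) (nat_lit 0x200009001780084000200000000000000000000000000) (nat_lit 0x0) (nat_lit 0x14000e00070000000000008000500028000000000000000000000) := T_12 (nat_lit 104) (nat_lit 87) (nat_lit 4) (nat_lit 3) (nat_lit 9) L38126 (by decide +kernel)
theorem L38128 : W_12 (nat_lit 8) (nat_lit 0x200008001780084000200000000000000000000000000) (nat_lit 0x0) (nat_lit 0x14000e00070001800000008000500028000000000000000000000) := T_12 (nat_lit 156) (nat_lit 155) (nat_lit 1) (nat_lit 6) (nat_lit 8) L38127 (by decide +kernel)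
theorem L38129 : W_12 (nat_lit 9) (nat_lit 0x200000001780084000200000000000000000000000000) (nat_lit 0x0) (nat_lit 0x14000e00070019800000008000500028000000000000000000000) := T_12 (nat_lit 159) (nat_lit 160) (nat_lit 3) (nat_lit 3) (nat_lit 8) L38128 (by decide +kernel)
theorem L38132 : W_12 (nat_lit 10) (nat_lit 0x200000001780084000000000000000000000000000000) (nat_lit 0x0) (nat_lit 0x14000e0007001b800000008000700038001800080000000000000) := Q_12 (nat_lit 105) (C_12 L38121 (C_12 L38129 (C_12 L38131 N_12))) (by decide +kernel)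
theorem L38133 : W_12 (nat_lit 11) (nat_lit 0x200000001780080000000000000000000000000000000) (nat_lit 0x0) (nat_lit 0x14000e0007001b80000000e000700038001800080000000000000) := T_12 (nat_lit 122) (nat_lit 121) (nat_lit 0) (nat_lit 6) (nat_lit 8) L38132 (by decide +kernel)
theorem L38134 : W_12 (nat_lit 2) (nat_lit 0x200008801780080000000000000000000000000000000) (nat_lit 0x0) (nat_lit 0x4400040000000000000000000000000000000000) := D_12 (nat_lit 138) (nat_lit 158) (nat_lit 154) (nat_lit 3) (nat_lit 2) (nat_lit 8) (nat_lit 1) (nat_lit 5) (nat_lit 8) (by decide +kernel)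
theorem L38135 : W_12 (nat_lit 3) (nat_lit 0x200000801780080000000000000000000000000000000) (nat_lit 0x0) (nat_lit 0x1c400040000000000000000000000000000000000) := T_12 (nat_lit 159) (nat_lit 160) (nat_lit 3) (nat_lit 3) (nat_lit 8) L38134 (by decide +kernel)
theorem L38136 : W_12 (nat_lit 4) (nat_lit 0x200000001780080000000000000000000000000000000) (nat_lit 0x0) (nat_lit 0x1dc00040000000000000000000000000000000000) := T_12 (nat_lit 155) (nat_lit 156) (nat_lit 1) (nat_lit 6) (nat_lit 8) L38135 (by decide +kernel)
theorem L38137 : W_12 (nat_lit 12) (nat_lit 0x200000001700080000000000000000000000000000000) (nat_lit 0x0) (nat_lit 0x14000e0007001fc000c000f000700038001800080000000000000) := Q_12 (nat_lit 139) (C_12 L38112 (C_12 L38115 (C_12 L38118 (C_12 L38133 (C_12 L38136 N_12))))) (by decide +kernel)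
theorem L38138 : W_12 (nat_lit 13) (nat_lit 0x200000001300080000000000000000000000000000000) (nat_lit 0x0) (nat_lit 0x14000e0007001fc00cc014f000700038001800080000000000000) := Q_12 (nat_lit 142) (C_12 L34311 (C_12 L34314 (C_12 L34313 (C_12 L38137 N_12)))) (by decide +kernel)
theorem L38139 : W_12 (nat_lit 2) (nat_lit 0x2000300009001780084000000000000000000000000000000) (nat_lit 0x0) (nat_lit 0x40000000000006000000000000000000000000000000000000000) := D_12 (nat_lit 158) (nat_lit 210) (nat_lit 157) (nat_lit 4) (nat_lit 6) (nat_lit 12) (nat_lit 3) (nat_lit 3) (nat_lit 9) (by decide +kernel)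
theorem L38140 : W_12 (nat_lit 3) (nat_lit 0x2000300008001780084000000000000000000000000000000) (nat_lit 0x0) (nat_lit 0x40000000000007800000000000000000000000000000000000000) := T_12 (nat_lit 156) (nat_lit 155) (nat_lit 1) (nat_lit 6) (nat_lit 8) L38139 (by decide +kernel)
theorem L38141 : W_12 (nat_lit 4) (nat_lit 0x300008001780084000000000000000000000000000000) (nat_lit 0x0) (nat_lit 0x40002000000007800000010000000000000000000000000000000) := T_12 (nat_lit 193) (nat_lit 124) (nat_lit 4) (nat_lit 6) (nat_lit 11) L38140 (by decide +kernel)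
theorem L38142 : W_12 (nat_lit 5) (nat_lit 0x300008001780080000000000000000000000000000000) (nat_lit 0x0) (nat_lit 0x40002000000007800000016000000000000000000000000000000) := T_12 (nat_lit 122) (nat_lit 121) (nat_lit 0) (nat_lit 6) (nat_lit 8) L38141 (by decide +kernel)
theorem L38143 : W_12 (nat_lit 2) (nat_lit 0x40002000300008001780084000000000000000000000000000000) (nat_lit 0x0) (nat_lit 0x1000080004000000000000000000000000000000000000000000000000) := D_12 (nat_lit 211) (nat_lit 194) (nat_lit 228) (nat_lit 7) (nat_lit 6) (nat_lit 8) (nat_lit 7) (nat_lit 6) (nat_lit 9) (by decide +kernel)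
theorem L38144 : W_12 (nat_lit 3) (nat_lit 0x2000300008001780084000000000000000000000000000000) (nat_lit 0x0) (nat_lit 0x10000c0004000000004000000000000000000000000000000000000000) := T_12 (nat_lit 210) (nat_lit 158) (nat_lit 4) (nat_lit 6) (nat_lit 12) L38143 (by decide +kernel)
theorem L38145 : W_12 (nat_lit 4) (nat_lit 0x300008001780084000000000000000000000000000000) (nat_lit 0x0) (nat_lit 0x10000c0006000000004000000010000000000000000000000000000000) := T_12 (nat_lit 193) (nat_lit 124) (nat_lit 4) (nat_lit 6) (nat_lit 11) L38144 (by decide +kernel)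
theorem L38146 : W_12 (nat_lit 5) (nat_lit 0x300008001780080000000000000000000000000000000) (nat_lit 0x0) (nat_lit 0x10000c0006000000004000000016000000000000000000000000000000) := T_12 (nat_lit 122) (nat_lit 121) (nat_lit 0) (nat_lit 6) (nat_lit 8) L38145 (by decide +kernel)
theorem L38147 : W_12 (nat_lit 2) (nat_lit 0x7400320009001780084000000000000000000000000000000) (nat_lit 0x0) (nat_lit 0x4000200010000000000000000000000000000000000000000000) := D_12 (nat_lit 189) (nat_lit 172) (nat_lit 206) (nat_lit 5) (nat_lit 3) (nat_lit 7) (nat_lit 5) (nat_lit 3) (nat_lit 8) (by decide +kernel)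
theorem L38148 : W_12 (nat_lit 3) (nat_lit 0x7400300009001780084000000000000000000000000000000) (nat_lit 0x0) (nat_lit 0x4000200030000000000008000000000000000000000000000000) := T_12 (nat_lit 173) (nat_lit 123) (nat_lit 6) (nat_lit 3) (nat_lit 11) L38147 (by decide +kernel)
theorem L38149 : W_12 (nat_lit 4) (nat_lit 0x7400300009001780080000000000000000000000000000000) (nat_lit 0x0) (nat_lit 0x400020003000000000000e000000000000000000000000000000) := T_12 (nat_lit 122) (nat_lit 121) (nat_lit 0) (nat_lit 6) (nat_lit 8) L38148 (by decide +kernel)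
theorem L38150 : W_12 (nat_lit 5) (nat_lit 0x7000300009001780080000000000000000000000000000000) (nat_lit 0x0) (nat_lit 0x4000e0003000000000000e000000000000000000000000000000) := T_12 (nat_lit 190) (nat_lit 191) (nat_lit 2) (nat_lit 3) (nat_lit 11) L38149 (by decide +kernel)
theorem L38151 : W_12 (nat_lit 6) (nat_lit 0x6000300009001780080000000000000000000000000000000) (nat_lit 0x0) (nat_lit 0x24001e0003000000000000e000000000000000000000000000000) := T_12 (nat_lit 192) (nat_lit 209) (nat_lit 5) (nat_lit 6) (nat_lit 8) L38150 (by decide +kernel)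
theorem L38152 : W_12 (nat_lit 7) (nat_lit 0x2000300009001780080000000000000000000000000000000) (nat_lit 0x0) (nat_lit 0xa4005e0003000000000000e000000000000000000000000000000) := T_12 (nat_lit 194) (nat_lit 211) (nat_lit 7) (nat_lit 6) (nat_lit 8) L38151 (by decide +kernel)
theorem L38153 : W_12 (nat_lit 8) (nat_lit 0x2000300008001780080000000000000000000000000000000) (nat_lit 0x0) (nat_lit 0xa4005e0003000180000000e000000000000000000000000000000) := T_12 (nat_lit 156) (nat_lit 155) (nat_lit 1) (nat_lit 6) (nat_lit 8) L38152 (by decide +kernel)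
theorem L38154 : W_12 (nat_lit 9) (nat_lit 0x300008001780080000000000000000000000000000000) (nat_lit 0x0) (nat_lit 0xa4007e0003000180000001e000000000000000000000000000000) := T_12 (nat_lit 193) (nat_lit 124) (nat_lit 4) (nat_lit 6) (nat_lit 11) L38153 (by decide +kernel)
theorem L38155 : W_12 (nat_lit 2) (nat_lit 0x20032000b001780084000600000000000000000000000000) (nat_lit 0x0) (nat_lit 0xc000400000000000000000000000000000000000000000000000) := D_12 (nat_lit 190) (nat_lit 207) (nat_lit 206) (nat_lit 6) (nat_lit 3) (nat_lit 12) (nat_lit 5) (nat_lit 3) (nat_lit 8) (by decide +kernel)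
theorem L38156 : W_12 (nat_lit 3) (nat_lit 0x32000b001780084000600000000000000000000000000) (nat_lit 0x0) (nat_lit 0xc000600010000000000000000000000000000000000000000000) := T_12 (nat_lit 189) (nat_lit 172) (nat_lit 5) (nat_lit 3) (nat_lit 7) L38155 (by decide +kernel)
theorem L38157 : W_12 (nat_lit 4) (nat_lit 0x30000b001780084000600000000000000000000000000) (nat_lit 0x0) (nat_lit 0xc000600030000000000008000000000000000000000000000000) := T_12 (nat_lit 173) (nat_lit 123) (nat_lit 6) (nat_lit 3) (nat_lit 10) L38156 (by decide +kernel)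
theorem L38158 : W_12 (nat_lit 5) (nat_lit 0x30000b001780084000200000000000000000000000000) (nat_lit 0x0) (nat_lit 0xc000600030000000000008000400020000000000000000000000) := T_12 (nat_lit 106) (nat_lit 89) (nat_lit 6) (nat_lit 3) (nat_lit 9) L38157 (by decide +kernel)
theorem L38159 : W_12 (nat_lit 6) (nat_lit 0x30000b001780084000000000000000000000000000000) (nat_lit 0x0) (nat_lit 0xc000600030000000000008000600030000000000000000000000) := T_12 (nat_lit 105) (nat_lit 88) (nat_lit 7) (nat_lit 3) (nat_lit 5) L38158 (by decide +kernel)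
theorem L38160 : W_12 (nat_lit 7) (nat_lit 0x300009001780084000000000000000000000000000000) (nat_lit 0x0) (nat_lit 0xc000600030006000000008000600030000000000000000000000) := T_12 (nat_lit 157) (nat_lit 158) (nat_lit 3) (nat_lit 3) (nat_lit 9) L38159 (by decide +kernel)
theorem L38161 : W_12 (nat_lit 8) (nat_lit 0x300008001780084000000000000000000000000000000) (nat_lit 0x0) (nat_lit 0xc000600030007800000008000600030000000000000000000000) := T_12 (nat_lit 156) (nat_lit 155) (nat_lit 1) (nat_lit 6) (nat_lit 8) L38160 (by decide +kernel)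
theorem L38162 : W_12 (nat_lit 9) (nat_lit 0x300008001780080000000000000000000000000000000) (nat_lit 0x0) (nat_lit 0xc00060003000780000000e000600030000000000000000000000) := T_12 (nat_lit 122) (nat_lit 121) (nat_lit 0) (nat_lit 6) (nat_lit 8) L38161 (by decide +kernel)
theorem L38163 : W_12 (nat_lit 2) (nat_lit 0x2000300009001780080000000000000000000000000000000) (nat_lit 0x0) (nat_lit 0x40000000000006000000000000000000000000000000000000000) := D_12 (nat_lit 158) (nat_lit 157) (nat_lit 210) (nat_lit 3) (nat_lit 3) (nat_lit 9) (nat_lit 4) (nat_lit 6) (nat_lit 12) (by decide +kernel)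
theorem L38164 : W_12 (nat_lit 3) (nat_lit 0x300009001780080000000000000000000000000000000) (nat_lit 0x0) (nat_lit 0x40002000000006000000010000000000000000000000000000000) := T_12 (nat_lit 193) (nat_lit 124) (nat_lit 4) (nat_lit 6) (nat_lit 11) L38163 (by decide +kernel)
theorem L38165 : W_12 (nat_lit 4) (nat_lit 0x300008001780080000000000000000000000000000000) (nat_lit 0x0) (nat_lit 0x40002000000007800000010000000000000000000000000000000) := T_12 (nat_lit 156) (nat_lit 155) (nat_lit 1) (nat_lit 6) (nat_lit 8) L38164 (by decide +kernel)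
theorem L38166 : W_12 (nat_lit 10) (nat_lit 0x200008001780080000000000000000000000000000000) (nat_lit 0x0) (nat_lit 0x10000ec007e0013000780000001e000600030000000000000000000000) := Q_12 (nat_lit 176) (C_12 L38142 (C_12 L38146 (C_12 L38154 (C_12 L38162 (C_12 L38165 N_12))))) (by decide +kernel)
theorem L38167 : W_12 (nat_lit 11) (nat_lit 0x200000001780080000000000000000000000000000000) (nat_lit 0x0) (nat_lit 0x10000ec007e0013001f80000001e000600030000000000000000000000) := T_12 (nat_lit 159) (nat_lit 160) (nat_lit 3) (nat_lit 3) (nat_lit 8) L38166 (by decide +kernel)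
theorem L38168 : W_12 (nat_lit 12) (nat_lit 0x200000001700080000000000000000000000000000000) (nat_lit 0x0) (nat_lit 0x10000ec007e0013001fc000c001f000600030000000000000000000000) := Q_12 (nat_lit 139) (C_12 L38136 (C_12 L38115 (C_12 L38118 (C_12 L38167 N_12)))) (by decide +kernel)
theorem L38169 : W_12 (nat_lit 13) (nat_lit 0x200000001300080000000000000000000000000000000) (nat_lit 0x0) (nat_lit 0x10000ec007e0013001fc00cc015f000600030000000000000000000000) := Q_12 (nat_lit 142) (C_12 L34311 (C_12 L34313 (C_12 L34314 (C_12 L38168 N_12)))) (by decide +kernel)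
theorem L38171 : W_12 (nat_lit 3) (nat_lit 0x200000001700080000000000000000000000000000000) (nat_lit 0x0) (nat_lit 0x80011c000000000000000000000000000000) := T_12 (nat_lit 143) (nat_lit 128) (nat_lit 2) (nat_lit 5) (nat_lit 8) L38170 (by decide +kernel)
theorem L38172 : W_12 (nat_lit 3) (nat_lit 0x200000001700080000000000000000000000000000000) (nat_lit 0x0) (nat_lit 0x80005c000000000000000000000000000000) := T_12 (nat_lit 143) (nat_lit 126) (nat_lit 2) (nat_lit 4) (nat_lit 8) L38170 (by decide +kernel)
theorem L38173 : W_12 (nat_lit 2) (nat_lit 0x220001001780084000000000000000000000000000000) (nat_lit 0x0) (nat_lit 0x400000000000000008000400000000000000000000000000) := D_12 (nat_lit 123) (nat_lit 190) (nat_lit 106) (nat_lit 6) (nat_lit 3) (nat_lit 11) (nat_lit 6) (nat_lit 3) (nat_lit 10) (by decide +kernel)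
theorem L38174 : W_12 (nat_lit 3) (nat_lit 0x220001001780080000000000000000000000000000000) (nat_lit 0x0) (nat_lit 0x40000000000000000e000400000000000000000000000000) := T_12 (nat_lit 122) (nat_lit 121) (nat_lit 0) (nat_lit 6) (nat_lit 8) L38173 (by decide +kernel)
theorem L38178 : W_12 (nat_lit 5) (nat_lit 0x230009001780084000000000000000000000000000000) (nat_lit 0x0) (nat_lit 0x78001c0004000000010000000000000000000000000000000) := T_12 (nat_lit 174) (nat_lit 191) (nat_lit 7) (nat_lit 3) (nat_lit 7) L38177 (by decide +kernel)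
theorem L38179 : W_12 (nat_lit 6) (nat_lit 0x220009001780084000000000000000000000000000000) (nat_lit 0x0) (nat_lit 0x7a001d0004000000010000000000000000000000000000000) := T_12 (nat_lit 172) (nat_lit 189) (nat_lit 5) (nat_lit 3) (nat_lit 7) L38178 (by decide +kernel)
theorem L38180 : W_12 (nat_lit 7) (nat_lit 0x220001001780084000000000000000000000000000000) (nat_lit 0x0) (nat_lit 0x7a001d001c000000010000000000000000000000000000000) := T_12 (nat_lit 159) (nat_lit 160) (nat_lit 3) (nat_lit 3) (nat_lit 8) L38179 (by decide +kernel)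
theorem L38181 : W_12 (nat_lit 8) (nat_lit 0x220001001780080000000000000000000000000000000) (nat_lit 0x0) (nat_lit 0x7a001d001c000000016000000000000000000000000000000) := T_12 (nat_lit 122) (nat_lit 121) (nat_lit 0) (nat_lit 6) (nat_lit 8) L38180 (by decide +kernel)
theorem L38182 : W_12 (nat_lit 2) (nat_lit 0x600220009001780084000000000000000000000000000000) (nat_lit 0x0) (nat_lit 0x10000800040000000000000000000000000000000000000000000) := D_12 (nat_lit 191) (nat_lit 208) (nat_lit 174) (nat_lit 7) (nat_lit 3) (nat_lit 8) (nat_lit 7) (nat_lit 3) (nat_lit 7) (by decide +kernel)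
theorem L38183 : W_12 (nat_lit 3) (nat_lit 0x600220009001780080000000000000000000000000000000) (nat_lit 0x0) (nat_lit 0x10000800050000000000004000000000000000000000000000000) := T_12 (nat_lit 122) (nat_lit 172) (nat_lit 5) (nat_lit 3) (nat_lit 7) L38182 (by decide +kernel)
theorem L38184 : W_12 (nat_lit 4) (nat_lit 0x400220009001780080000000000000000000000000000000) (nat_lit 0x0) (nat_lit 0x14000a00050000000000004000000000000000000000000000000) := T_12 (nat_lit 189) (nat_lit 206) (nat_lit 5) (nat_lit 3) (nat_lit 8) L38183 (by decide +kernel)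
theorem L38185 : W_12 (nat_lit 5) (nat_lit 0x220009001780080000000000000000000000000000000) (nat_lit 0x0) (nat_lit 0x14000e0005000000000000c000000000000000000000000000000) := T_12 (nat_lit 190) (nat_lit 123) (nat_lit 6) (nat_lit 3) (nat_lit 11) L38184 (by decide +kernel)
theorem L38186 : W_12 (nat_lit 6) (nat_lit 0x220001001780080000000000000000000000000000000) (nat_lit 0x0) (nat_lit 0x14000e0005001800000000c000000000000000000000000000000) := T_12 (nat_lit 159) (nat_lit 160) (nat_lit 3) (nat_lit 3) (nat_lit 8) L38185 (by decide +kernel)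
theorem L38191 : W_12 (nat_lit 6) (nat_lit 0xd002c00220001001780080000000000000000000000000000000) (nat_lit 0x0) (nat_lit 0x10000c00040001c001c000000010000000000000000000000000000000) := T_12 (nat_lit 159) (nat_lit 160) (nat_lit 3) (nat_lit 3) (nat_lit 8) L38190 (by decide +kernel)
theorem L38192 : W_12 (nat_lit 7) (nat_lit 0xd000c00220001001780080000000000000000000000000000000) (nat_lit 0x0) (nat_lit 0x10000c00070001c001c000000010000000000000000000000000000000) := T_12 (nat_lit 193) (nat_lit 192) (nat_lit 1) (nat_lit 6) (nat_lit 11) L38191 (by decide +kernel)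
theorem L38193 : W_12 (nat_lit 8) (nat_lit 0xc000c00220001001780080000000000000000000000000000000) (nat_lit 0x0) (nat_lit 0x10000c30070001c001c000000010000000000000000000000000000000) := T_12 (nat_lit 204) (nat_lit 205) (nat_lit 2) (nat_lit 0) (nat_lit 12) L38192 (by decide +kernel)
theorem L38194 : W_12 (nat_lit 9) (nat_lit 0x4000c00220001001780080000000000000000000000000000000) (nat_lit 0x0) (nat_lit 0x10800cb0070001c001c000000010000000000000000000000000000000) := T_12 (nat_lit 207) (nat_lit 223) (nat_lit 5) (nat_lit 3) (nat_lit 9) L38193 (by decide +kernel)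
theorem L38195 : W_12 (nat_lit 10) (nat_lit 0x4000400220001001780080000000000000000000000000000000) (nat_lit 0x0) (nat_lit 0x10800db0078001c001c000000010000000000000000000000000000000) := T_12 (nat_lit 191) (nat_lit 208) (nat_lit 7) (nat_lit 3) (nat_lit 8) L38194 (by decide +kernel)
theorem L38196 : W_12 (nat_lit 11) (nat_lit 0x400220001001780080000000000000000000000000000000) (nat_lit 0x0) (nat_lit 0x10800df007a001c001c000000010000000000000000000000000000000) := T_12 (nat_lit 206) (nat_lit 189) (nat_lit 5) (nat_lit 3) (nat_lit 8) L38195 (by decide +kernel)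
theorem L38197 : W_12 (nat_lit 12) (nat_lit 0x220001001780080000000000000000000000000000000) (nat_lit 0x0) (nat_lit 0x10800df007e001c001c000000018000000000000000000000000000000) := T_12 (nat_lit 190) (nat_lit 123) (nat_lit 6) (nat_lit 3) (nat_lit 11) L38196 (by decide +kernel)
theorem L38198 : W_12 (nat_lit 13) (nat_lit 0x200001001780080000000000000000000000000000000) (nat_lit 0x0) (nat_lit 0x10800df007e001f001c00000001e000400000000000000000000000000) := Q_12 (nat_lit 173) (C_12 L38174 (C_12 L38181 (C_12 L38186 (C_12 L38197 N_12)))) (by decide +kernel)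
theorem L38199 : W_12 (nat_lit 14) (nat_lit 0x200000001780080000000000000000000000000000000) (nat_lit 0x0) (nat_lit 0x10800df007e001f001d80000001e000400000000000000000000000000) := T_12 (nat_lit 156) (nat_lit 155) (nat_lit 1) (nat_lit 6) (nat_lit 8) L38198 (by decide +kernel)
theorem L38200 : W_12 (nat_lit 15) (nat_lit 0x200000001700080000000000000000000000000000000) (nat_lit 0x0) (nat_lit 0x10800df007e001f001dc000c001f000400000000000000000000000000) := Q_12 (nat_lit 139) (C_12 L38136 (C_12 L38115 (C_12 L38118 (C_12 L38199 N_12)))) (by decide +kernel)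
theorem L38201 : W_12 (nat_lit 16) (nat_lit 0x200000001300080000000000000000000000000000000) (nat_lit 0x0) (nat_lit 0x10800df007e001f001dc00cc015f000400000000000000000000000000) := Q_12 (nat_lit 142) (C_12 L34311 (C_12 L38171 (C_12 L38172 (C_12 L38200 N_12)))) (by decide +kernel)
theorem L38203 : W_12 (nat_lit 3) (nat_lit 0x240000001780084000000000000000000000000000000) (nat_lit 0x0) (nat_lit 0x800020003800000000000000000000000000000000000000) := T_12 (nat_lit 156) (nat_lit 155) (nat_lit 1) (nat_lit 6) (nat_lit 8) L38202 (by decide +kernel)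
theorem L38204 : W_12 (nat_lit 4) (nat_lit 0x240000001780080000000000000000000000000000000) (nat_lit 0x0) (nat_lit 0x800020003800000006000000000000000000000000000000) := T_12 (nat_lit 122) (nat_lit 121) (nat_lit 0) (nat_lit 6) (nat_lit 8) L38203 (by decide +kernel)
theorem L38205 : W_12 (nat_lit 2) (nat_lit 0x8003c0008001780084000000000000000000000000000000) (nat_lit 0x0) (nat_lit 0x2000000004000000010000000000000000000000000000000) := D_12 (nat_lit 124) (nat_lit 158) (nat_lit 193) (nat_lit 5) (nat_lit 5) (nat_lit 7) (nat_lit 4) (nat_lit 6) (nat_lit 11) (by decide +kernel)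
theorem L38206 : W_12 (nat_lit 3) (nat_lit 0x8002c0008001780084000000000000000000000000000000) (nat_lit 0x0) (nat_lit 0x2400100004000000010000000000000000000000000000000) := T_12 (nat_lit 176) (nat_lit 190) (nat_lit 1) (nat_lit 7) (nat_lit 10) L38205 (by decide +kernel)
theorem L38207 : W_12 (nat_lit 4) (nat_lit 0x2c0008001780084000000000000000000000000000000) (nat_lit 0x0) (nat_lit 0x2c00100006000000010000000000000000000000000000000) := T_12 (nat_lit 191) (nat_lit 157) (nat_lit 4) (nat_lit 4) (nat_lit 11) L38206 (by decide +kernel)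
theorem L38208 : W_12 (nat_lit 5) (nat_lit 0x2c0000001780084000000000000000000000000000000) (nat_lit 0x0) (nat_lit 0x2c0010001e000000010000000000000000000000000000000) := T_12 (nat_lit 159) (nat_lit 160) (nat_lit 3) (nat_lit 3) (nat_lit 8) L38207 (by decide +kernel)
theorem L38209 : W_12 (nat_lit 6) (nat_lit 0x2c0000001780080000000000000000000000000000000) (nat_lit 0x0) (nat_lit 0x2c0010001e000000016000000000000000000000000000000) := T_12 (nat_lit 122) (nat_lit 121) (nat_lit 0) (nat_lit 6) (nat_lit 8) L38208 (by decide +kernel)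
theorem L38232 : W_12 (nat_lit 2) (nat_lit 0x48003e0014001780084000000000000000000000000000000) (nat_lit 0x0) (nat_lit 0x200010001000000000000000000000000000000000000000000000000) := D_12 (nat_lit 208) (nat_lit 192) (nat_lit 225) (nat_lit 5) (nat_lit 5) (nat_lit 8) (nat_lit 6) (nat_lit 4) (nat_lit 13) (by decide +kernel)
theorem L38233 : W_12 (nat_lit 3) (nat_lit 0x48003e0010001780084000000000000000000000000000000) (nat_lit 0x0) (nat_lit 0x200010001000000004000000010000000000000000000000000000000) := T_12 (nat_lit 158) (nat_lit 124) (nat_lit 5) (nat_lit 5) (nat_lit 7) L38232 (by decide +kernel)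
theorem L38234 : W_12 (nat_lit 4) (nat_lit 0x48003c0010001780084000000000000000000000000000000) (nat_lit 0x0) (nat_lit 0x200010003000020004000000010000000000000000000000000000000) := T_12 (nat_lit 173) (nat_lit 193) (nat_lit 3) (nat_lit 3) (nat_lit 10) L38233 (by decide +kernel)
theorem L38235 : W_12 (nat_lit 5) (nat_lit 0x8003c0010001780084000000000000000000000000000000) (nat_lit 0x0) (nat_lit 0x20001000f000020004000000010000000000000000000000000000000) := T_12 (nat_lit 194) (nat_lit 195) (nat_lit 3) (nat_lit 4) (nat_lit 10) L38234 (by decide +kernel)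
theorem L38236 : W_12 (nat_lit 6) (nat_lit 0x3c0010001780084000000000000000000000000000000) (nat_lit 0x0) (nat_lit 0x20001000fc00020004000000010000000000000000000000000000000) := T_12 (nat_lit 191) (nat_lit 190) (nat_lit 1) (nat_lit 7) (nat_lit 10) L38235 (by decide +kernel)
theorem L38237 : W_12 (nat_lit 7) (nat_lit 0x2c0010001780084000000000000000000000000000000) (nat_lit 0x0) (nat_lit 0x20001000fc00120024000000010000000000000000000000000000000) := T_12 (nat_lit 176) (nat_lit 161) (nat_lit 2) (nat_lit 4) (nat_lit 10) L38236 (by decide +kernel)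
theorem L38238 : W_12 (nat_lit 8) (nat_lit 0x2c0000001780084000000000000000000000000000000) (nat_lit 0x0) (nat_lit 0x20001000fc0012003c000000010000000000000000000000000000000) := T_12 (nat_lit 160) (nat_lit 159) (nat_lit 3) (nat_lit 3) (nat_lit 8) L38237 (by decide +kernel)
theorem L38239 : W_12 (nat_lit 9) (nat_lit 0x2c0000001780080000000000000000000000000000000) (nat_lit 0x0) (nat_lit 0x20001000fc0012003c000000016000000000000000000000000000000) := T_12 (nat_lit 122) (nat_lit 121) (nat_lit 0) (nat_lit 6) (nat_lit 8) L38238 (by decide +kernel)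
theorem L38245 : W_12 (nat_lit 7) (nat_lit 0x2c0010001780080000000000000000000000000000000) (nat_lit 0x0) (nat_lit 0x80004000f000120024000000016000000000000000000000000000000) := T_12 (nat_lit 122) (nat_lit 121) (nat_lit 0) (nat_lit 6) (nat_lit 8) L38244 (by decide +kernel)
theorem L38246 : W_12 (nat_lit 8) (nat_lit 0x2c0000001780080000000000000000000000000000000) (nat_lit 0x0) (nat_lit 0x80004000f00012003c000000016000000000000000000000000000000) := T_12 (nat_lit 160) (nat_lit 159) (nat_lit 3) (nat_lit 3) (nat_lit 8) L38245 (by decide +kernel)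
theorem L38247 : W_12 (nat_lit 2) (nat_lit 0x8003c0010001780080000000000000000000000000000000) (nat_lit 0x0) (nat_lit 0x2000000014000000000000000000000000000000) := D_12 (nat_lit 157) (nat_lit 122) (nat_lit 124) (nat_lit 4) (nat_lit 4) (nat_lit 11) (nat_lit 6) (nat_lit 4) (nat_lit 11) (by decide +kernel)
theorem L38248 : W_12 (nat_lit 3) (nat_lit 0x3c0010001780080000000000000000000000000000000) (nat_lit 0x0) (nat_lit 0xc00000002000000014000000000000000000000000000000) := T_12 (nat_lit 191) (nat_lit 190) (nat_lit 1) (nat_lit 7) (nat_lit 10) L38247 (by decide +kernel)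
theorem L38249 : W_12 (nat_lit 4) (nat_lit 0x2c0010001780080000000000000000000000000000000) (nat_lit 0x0) (nat_lit 0xc00100022000000014000000000000000000000000000000) := T_12 (nat_lit 176) (nat_lit 161) (nat_lit 2) (nat_lit 4) (nat_lit 10) L38248 (by decide +kernel)
theorem L38250 : W_12 (nat_lit 5) (nat_lit 0x2c0000001780080000000000000000000000000000000) (nat_lit 0x0) (nat_lit 0xc0010003a000000014000000000000000000000000000000) := T_12 (nat_lit 160) (nat_lit 159) (nat_lit 3) (nat_lit 3) (nat_lit 8) L38249 (by decide +kernel)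
theorem L38255 : W_12 (nat_lit 10) (nat_lit 0x240000001780080000000000000000000000000000000) (nat_lit 0x0) (nat_lit 0xa000f000fc001a003e000000016000000000000000000000000000000) := Q_12 (nat_lit 175) (C_12 L38209 (C_12 L38214 (C_12 L38220 (C_12 L38225 (C_12 L38231 (C_12 L38239 (C_12 L38246 (C_12 L38250 (C_12 L38254 N_12))))))))) (by decide +kernel)
theorem L38258 : W_12 (nat_lit 7) (nat_lit 0x240009001780080000000000000000000000000000000) (nat_lit 0x0) (nat_lit 0x7a001b0004000000016000000000000000000000000000000) := T_12 (nat_lit 122) (nat_lit 121) (nat_lit 0) (nat_lit 6) (nat_lit 8) L38257 (by decide +kernel)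
theorem L38259 : W_12 (nat_lit 8) (nat_lit 0x240008001780080000000000000000000000000000000) (nat_lit 0x0) (nat_lit 0x7a001b0005800000016000000000000000000000000000000) := T_12 (nat_lit 156) (nat_lit 155) (nat_lit 1) (nat_lit 6) (nat_lit 8) L38258 (by decide +kernel)
theorem L38260 : W_12 (nat_lit 9) (nat_lit 0x240000001780080000000000000000000000000000000) (nat_lit 0x0) (nat_lit 0x7a001b001d800000016000000000000000000000000000000) := T_12 (nat_lit 159) (nat_lit 160) (nat_lit 3) (nat_lit 3) (nat_lit 8) L38259 (by decide +kernel)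
theorem L38269 : W_12 (nat_lit 10) (nat_lit 0x240008001780084000000000000000000000000000000) (nat_lit 0x0) (nat_lit 0x2000100007800000010001f0007e000400000000000000000) := T_12 (nat_lit 156) (nat_lit 155) (nat_lit 1) (nat_lit 6) (nat_lit 8) L38268 (by decide +kernel)
theorem L38270 : W_12 (nat_lit 11) (nat_lit 0x240000001780084000000000000000000000000000000) (nat_lit 0x0) (nat_lit 0x200010001f800000010001f0007e000400000000000000000) := T_12 (nat_lit 159) (nat_lit 160) (nat_lit 3) (nat_lit 3) (nat_lit 8) L38269 (by decide +kernel)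
theorem L38271 : W_12 (nat_lit 12) (nat_lit 0x240000001780080000000000000000000000000000000) (nat_lit 0x0) (nat_lit 0x200010001f800000016001f0007e000400000000000000000) := T_12 (nat_lit 122) (nat_lit 121) (nat_lit 0) (nat_lit 6) (nat_lit 8) L38270 (by decide +kernel)
theorem L38272 : W_12 (nat_lit 2) (nat_lit 0x240002001780080000000000000000000000000000000) (nat_lit 0x0) (nat_lit 0x800000000000000014000000000000000000000000000000) := D_12 (nat_lit 191) (nat_lit 122) (nat_lit 124) (nat_lit 4) (nat_lit 4) (nat_lit 11) (nat_lit 6) (nat_lit 4) (nat_lit 11) (by decide +kernel)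
theorem L38273 : W_12 (nat_lit 2) (nat_lit 0x340003001780080000000000000000000000000000000) (nat_lit 0x0) (nat_lit 0x1c000000000000000000000000000000000000000) := D_12 (nat_lit 159) (nat_lit 160) (nat_lit 158) (nat_lit 3) (nat_lit 3) (nat_lit 8) (nat_lit 3) (nat_lit 3) (nat_lit 9) (by decide +kernel)
theorem L38274 : W_12 (nat_lit 3) (nat_lit 0x240003001780080000000000000000000000000000000) (nat_lit 0x0) (nat_lit 0x18001c000000000000000000000000000000000000000) := T_12 (nat_lit 176) (nat_lit 175) (nat_lit 0) (nat_lit 7) (nat_lit 10) L38273 (by decide +kernel)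
theorem L38275 : W_12 (nat_lit 4) (nat_lit 0x240002001780080000000000000000000000000000000) (nat_lit 0x0) (nat_lit 0x18001d800000000000000000000000000000000000000) := T_12 (nat_lit 156) (nat_lit 155) (nat_lit 1) (nat_lit 6) (nat_lit 8) L38274 (by decide +kernel)
theorem L38276 : W_12 (nat_lit 5) (nat_lit 0x240000001780080000000000000000000000000000000) (nat_lit 0x0) (nat_lit 0x1000080018001f800000014000000000000000000000000000000) := Q_12 (nat_lit 157) (C_12 L38272 (C_12 L35186 (C_12 L38275 N_12))) (by decide +kernel)
theorem L38277 : W_12 (nat_lit 3) (nat_lit 0x240002001780080000000000000000000000000000000) (nat_lit 0x0) (nat_lit 0x10000800000005000000010000000000000000000000000000000) := T_12 (nat_lit 191) (nat_lit 124) (nat_lit 6) (nat_lit 4) (nat_lit 11) L35187 (by decide +kernel)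
theorem L38278 : W_12 (nat_lit 3) (nat_lit 0x240002001780080000000000000000000000000000000) (nat_lit 0x0) (nat_lit 0x10000800000001800000010000000000000000000000000000000) := T_12 (nat_lit 191) (nat_lit 124) (nat_lit 6) (nat_lit 4) (nat_lit 11) L37513 (by decide +kernel)
theorem L38279 : W_12 (nat_lit 2) (nat_lit 0xc00340002001780080000000000000000000000000000000) (nat_lit 0x0) (nat_lit 0x20003000000000000000000000000000000000000000000000000) := D_12 (nat_lit 192) (nat_lit 209) (nat_lit 193) (nat_lit 7) (nat_lit 4) (nat_lit 8) (nat_lit 2) (nat_lit 3) (nat_lit 11) (by decide +kernel)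
theorem L38280 : W_12 (nat_lit 3) (nat_lit 0xc00240002001780080000000000000000000000000000000) (nat_lit 0x0) (nat_lit 0x20003000180000000000000000000000000000000000000000000) := T_12 (nat_lit 176) (nat_lit 175) (nat_lit 1) (nat_lit 7) (nat_lit 10) L38279 (by decide +kernel)
theorem L38281 : W_12 (nat_lit 4) (nat_lit 0x800240002001780080000000000000000000000000000000) (nat_lit 0x0) (nat_lit 0x28003400180000000000000000000000000000000000000000000) := T_12 (nat_lit 190) (nat_lit 207) (nat_lit 5) (nat_lit 4) (nat_lit 8) L38280 (by decide +kernel)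
theorem L38282 : W_12 (nat_lit 5) (nat_lit 0x240002001780080000000000000000000000000000000) (nat_lit 0x0) (nat_lit 0x28003c00180000000000010000000000000000000000000000000) := T_12 (nat_lit 191) (nat_lit 124) (nat_lit 6) (nat_lit 4) (nat_lit 11) L38281 (by decide +kernel)
theorem L38283 : W_12 (nat_lit 6) (nat_lit 0x240000001780080000000000000000000000000000000) (nat_lit 0x0) (nat_lit 0x38003c0018001f800000010000000000000000000000000000000) := Q_12 (nat_lit 157) (C_12 L38275 (C_12 L38277 (C_12 L38278 (C_12 L38282 N_12)))) (by decide +kernel)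
theorem L38284 : W_12 (nat_lit 13) (nat_lit 0x200000001780080000000000000000000000000000000) (nat_lit 0x0) (nat_lit 0xa000f800fe001f003f800000016001f0007e000400000000000000000) := Q_12 (nat_lit 174) (C_12 L38204 (C_12 L38255 (C_12 L38260 (C_12 L38271 (C_12 L38276 (C_12 L38283 N_12)))))) (by decide +kernel)
theorem L38285 : W_12 (nat_lit 14) (nat_lit 0x200000001700080000000000000000000000000000000) (nat_lit 0x0) (nat_lit 0xa000f800fe001f003fc000c0017001f0007e000400000000000000000) := Q_12 (nat_lit 139) (C_12 L38136 (C_12 L38115 (C_12 L38118 (C_12 L38284 N_12)))) (by decide +kernel)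
theorem L38286 : W_12 (nat_lit 15) (nat_lit 0x200000001300080000000000000000000000000000000) (nat_lit 0x0) (nat_lit 0xa000f800fe001f003fc00cc0157001f0007e000400000000000000000) := Q_12 (nat_lit 142) (C_12 L34311 (C_12 L34313 (C_12 L34314 (C_12 L38285 N_12)))) (by decide +kernel)
theorem L38287 : W_12 (nat_lit 2) (nat_lit 0x400020001c001300080000000000000000000000000000000) (nat_lit 0x0) (nat_lit 0x20000c0000000000000000000000000000000000) := D_12 (nat_lit 139) (nat_lit 157) (nat_lit 138) (nat_lit 0) (nat_lit 7) (nat_lit 9) (nat_lit 3) (nat_lit 2) (nat_lit 8) (by decide +kernel)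
theorem L38288 : W_12 (nat_lit 3) (nat_lit 0x4000200014001300080000000000000000000000000000000) (nat_lit 0x0) (nat_lit 0x2a0000c0000000000000000000000000000000000) := T_12 (nat_lit 159) (nat_lit 161) (nat_lit 0) (nat_lit 8) (nat_lit 9) L38287 (by decide +kernel)
theorem L38289 : W_12 (nat_lit 4) (nat_lit 0x4000200004001300080000000000000000000000000000000) (nat_lit 0x0) (nat_lit 0x3a0008c0000000000000000000000000000000000) := T_12 (nat_lit 160) (nat_lit 143) (nat_lit 6) (nat_lit 7) (nat_lit 11) L38288 (by decide +kernel)
theorem L38290 : W_12 (nat_lit 2) (nat_lit 0x5800280014001300090000000000000000000000000000000) (nat_lit 0x0) (nat_lit 0x40002000100000000000000000000000000000000000000000000) := D_12 (nat_lit 193) (nat_lit 210) (nat_lit 176) (nat_lit 7) (nat_lit 5) (nat_lit 8) (nat_lit 7) (nat_lit 5) (nat_lit 7) (by decide +kernel)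
theorem L38291 : W_12 (nat_lit 3) (nat_lit 0x5800280014001300080000000000000000000000000000000) (nat_lit 0x0) (nat_lit 0x40002000140000000000010000000000000000000000000000000) := T_12 (nat_lit 124) (nat_lit 174) (nat_lit 5) (nat_lit 5) (nat_lit 7) L38290 (by decide +kernel)
theorem L38292 : W_12 (nat_lit 4) (nat_lit 0x5000280014001300080000000000000000000000000000000) (nat_lit 0x0) (nat_lit 0x50002800140000000000010000000000000000000000000000000) := T_12 (nat_lit 191) (nat_lit 208) (nat_lit 5) (nat_lit 5) (nat_lit 8) L38291 (by decide +kernel)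
theorem L38293 : W_12 (nat_lit 5) (nat_lit 0x4000280014001300080000000000000000000000000000000) (nat_lit 0x0) (nat_lit 0x50003800140000000000018000000000000000000000000000000) := T_12 (nat_lit 192) (nat_lit 123) (nat_lit 4) (nat_lit 5) (nat_lit 11) L38292 (by decide +kernel)
theorem L38294 : W_12 (nat_lit 6) (nat_lit 0x4000280004001300080000000000000000000000000000000) (nat_lit 0x0) (nat_lit 0x50003800140010000800018000000000000000000000000000000) := T_12 (nat_lit 160) (nat_lit 143) (nat_lit 6) (nat_lit 7) (nat_lit 11) L38293 (by decide +kernel)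
theorem L38295 : W_12 (nat_lit 2) (nat_lit 0xf000280034001300080000000000000000000000000000000) (nat_lit 0x0) (nat_lit 0x30000800000000000000000000000000000000000000000000000) := D_12 (nat_lit 208) (nat_lit 191) (nat_lit 209) (nat_lit 5) (nat_lit 5) (nat_lit 8) (nat_lit 1) (nat_lit 8) (nat_lit 11) (by decide +kernel)
theorem L38296 : W_12 (nat_lit 3) (nat_lit 0x7000280034001300080000000000000000000000000000000) (nat_lit 0x0) (nat_lit 0x30008800040000000000000000000000000000000000000000000) := T_12 (nat_lit 195) (nat_lit 174) (nat_lit 0) (nat_lit 8) (nat_lit 11) L38295 (by decide +kernel)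
theorem L38297 : W_12 (nat_lit 4) (nat_lit 0x5000280034001300080000000000000000000000000000000) (nat_lit 0x0) (nat_lit 0x7000a800040000000000000000000000000000000000000000000) := T_12 (nat_lit 193) (nat_lit 210) (nat_lit 7) (nat_lit 5) (nat_lit 8) L38296 (by decide +kernel)
theorem L38298 : W_12 (nat_lit 5) (nat_lit 0x5000280014001300080000000000000000000000000000000) (nat_lit 0x0) (nat_lit 0x7000a800040028000000000000000000000000000000000000000) := T_12 (nat_lit 161) (nat_lit 159) (nat_lit 0) (nat_lit 8) (nat_lit 9) L38297 (by decide +kernel)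
theorem L38299 : W_12 (nat_lit 6) (nat_lit 0x5000280004001300080000000000000000000000000000000) (nat_lit 0x0) (nat_lit 0x7000a800040038000800000000000000000000000000000000000) := T_12 (nat_lit 160) (nat_lit 143) (nat_lit 6) (nat_lit 7) (nat_lit 11) L38298 (by decide +kernel)
theorem L38300 : W_12 (nat_lit 7) (nat_lit 0x4000280004001300080000000000000000000000000000000) (nat_lit 0x0) (nat_lit 0x7000b800040038000800008000000000000000000000000000000) := T_12 (nat_lit 192) (nat_lit 123) (nat_lit 4) (nat_lit 5) (nat_lit 11) L38299 (by decide +kernel)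
theorem L38301 : W_12 (nat_lit 2) (nat_lit 0x10007000280034001300090000000000000000000000000000000) (nat_lit 0x0) (nat_lit 0x200020008000000000000000000000000000000000000000000000000) := D_12 (nat_lit 209) (nat_lit 195) (nat_lit 225) (nat_lit 1) (nat_lit 8) (nat_lit 11) (nat_lit 5) (nat_lit 5) (nat_lit 9) (by decide +kernel)
theorem L38302 : W_12 (nat_lit 3) (nat_lit 0x7000280034001300090000000000000000000000000000000) (nat_lit 0x0) (nat_lit 0x200030008800000000000000000000000000000000000000000000000) := T_12 (nat_lit 208) (nat_lit 191) (nat_lit 5) (nat_lit 5) (nat_lit 8) L38301 (by decide +kernel)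
theorem L38303 : W_12 (nat_lit 4) (nat_lit 0x7000280034001300080000000000000000000000000000000) (nat_lit 0x0) (nat_lit 0x200030008800100000000000010000000000000000000000000000000) := T_12 (nat_lit 124) (nat_lit 176) (nat_lit 7) (nat_lit 5) (nat_lit 7) L38302 (by decide +kernel)
theorem L38304 : W_12 (nat_lit 5) (nat_lit 0x5000280034001300080000000000000000000000000000000) (nat_lit 0x0) (nat_lit 0x20007000a800100000000000010000000000000000000000000000000) := T_12 (nat_lit 193) (nat_lit 210) (nat_lit 7) (nat_lit 5) (nat_lit 8) L38303 (by decide +kernel)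
theorem L38305 : W_12 (nat_lit 6) (nat_lit 0x5000280014001300080000000000000000000000000000000) (nat_lit 0x0) (nat_lit 0x20007000a800100028000000010000000000000000000000000000000) := T_12 (nat_lit 161) (nat_lit 159) (nat_lit 0) (nat_lit 8) (nat_lit 9) L38304 (by decide +kernel)
theorem L38306 : W_12 (nat_lit 7) (nat_lit 0x5000280004001300080000000000000000000000000000000) (nat_lit 0x0) (nat_lit 0x20007000a800100038000800010000000000000000000000000000000) := T_12 (nat_lit 160) (nat_lit 143) (nat_lit 6) (nat_lit 7) (nat_lit 11) L38305 (by decide +kernel)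
theorem L38307 : W_12 (nat_lit 8) (nat_lit 0x4000280004001300080000000000000000000000000000000) (nat_lit 0x0) (nat_lit 0x20007000b800100038000800018000000000000000000000000000000) := T_12 (nat_lit 192) (nat_lit 123) (nat_lit 4) (nat_lit 5) (nat_lit 11) L38306 (by decide +kernel)
theorem L38308 : W_12 (nat_lit 2) (nat_lit 0x48002c0034001300080000000000000000000000000000000) (nat_lit 0x0) (nat_lit 0x200010001000000000000000000000000000000000000000000000000) := D_12 (nat_lit 208) (nat_lit 192) (nat_lit 225) (nat_lit 5) (nat_lit 5) (nat_lit 8) (nat_lit 6) (nat_lit 4) (nat_lit 13) (by decide +kernel)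
theorem L38309 : W_12 (nat_lit 3) (nat_lit 0x40002c0034001300080000000000000000000000000000000) (nat_lit 0x0) (nat_lit 0x200010001800000000000000010000000000000000000000000000000) := T_12 (nat_lit 191) (nat_lit 124) (nat_lit 5) (nat_lit 5) (nat_lit 7) L38308 (by decide +kernel)
theorem L38310 : W_12 (nat_lit 4) (nat_lit 0x4000280034001300080000000000000000000000000000000) (nat_lit 0x0) (nat_lit 0x200010001800140000000000010000000000000000000000000000000) := T_12 (nat_lit 174) (nat_lit 176) (nat_lit 2) (nat_lit 4) (nat_lit 10) L38309 (by decide +kernel)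
theorem L38311 : W_12 (nat_lit 5) (nat_lit 0x4000280014001300080000000000000000000000000000000) (nat_lit 0x0) (nat_lit 0x200010001800140028000000010000000000000000000000000000000) := T_12 (nat_lit 161) (nat_lit 159) (nat_lit 0) (nat_lit 8) (nat_lit 9) L38310 (by decide +kernel)
theorem L38312 : W_12 (nat_lit 6) (nat_lit 0x4000280004001300080000000000000000000000000000000) (nat_lit 0x0) (nat_lit 0x200010001800140038000800010000000000000000000000000000000) := T_12 (nat_lit 160) (nat_lit 143) (nat_lit 6) (nat_lit 7) (nat_lit 11) L38311 (by decide +kernel)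
theorem L38313 : W_12 (nat_lit 2) (nat_lit 0x4000380014001300080000000000000000000000000000000) (nat_lit 0x0) (nat_lit 0x8000040020000000000000000000000000000000000000000) := D_12 (nat_lit 174) (nat_lit 161) (nat_lit 195) (nat_lit 2) (nat_lit 4) (nat_lit 10) (nat_lit 3) (nat_lit 4) (nat_lit 10) (by decide +kernel)
theorem L38314 : W_12 (nat_lit 3) (nat_lit 0x4000380004001300080000000000000000000000000000000) (nat_lit 0x0) (nat_lit 0x8000040030000800000000000000000000000000000000000) := T_12 (nat_lit 160) (nat_lit 143) (nat_lit 6) (nat_lit 7) (nat_lit 11) L38313 (by decide +kernel)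
theorem L38315 : W_12 (nat_lit 2) (nat_lit 0x4000380004001300090000800000000000000000000000000) (nat_lit 0x0) (nat_lit 0x8000400020000000000000000000000) := D_12 (nat_lit 106) (nat_lit 123) (nat_lit 89) (nat_lit 4) (nat_lit 5) (nat_lit 10) (nat_lit 4) (nat_lit 5) (nat_lit 9) (by decide +kernel)
theorem L38316 : W_12 (nat_lit 3) (nat_lit 0x4000380004001300090000000000000000000000000000000) (nat_lit 0x0) (nat_lit 0x8000000008000c00020000000000000000000000) := T_12 (nat_lit 107) (nat_lit 159) (nat_lit 7) (nat_lit 5) (nat_lit 6) L38315 (by decide +kernel)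
theorem L38317 : W_12 (nat_lit 4) (nat_lit 0x4000380004001300080000000000000000000000000000000) (nat_lit 0x0) (nat_lit 0x2000000008000000018000c00020000000000000000000000) := T_12 (nat_lit 124) (nat_lit 193) (nat_lit 7) (nat_lit 5) (nat_lit 7) L38316 (by decide +kernel)
theorem L38318 : W_12 (nat_lit 5) (nat_lit 0x4000280004001300080000000000000000000000000000000) (nat_lit 0x0) (nat_lit 0xa000140038000800018000c00020000000000000000000000) := Q_12 (nat_lit 176) (C_12 L38314 (C_12 L38317 N_12)) (by decide +kernel)
theorem L38319 : W_12 (nat_lit 2) (nat_lit 0x5800280004001300090000000000000000000000000000000) (nat_lit 0x0) (nat_lit 0x40002000100000000000000000000000000000000000000000000) := D_12 (nat_lit 193) (nat_lit 210) (nat_lit 176) (nat_lit 7) (nat_lit 5) (nat_lit 8) (nat_lit 7) (nat_lit 5) (nat_lit 7) (by decide +kernel)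
theorem L38320 : W_12 (nat_lit 3) (nat_lit 0x5800280004001300080000000000000000000000000000000) (nat_lit 0x0) (nat_lit 0x40002000140000000000010000000000000000000000000000000) := T_12 (nat_lit 124) (nat_lit 174) (nat_lit 5) (nat_lit 5) (nat_lit 7) L38319 (by decide +kernel)
theorem L38321 : W_12 (nat_lit 4) (nat_lit 0x5000280004001300080000000000000000000000000000000) (nat_lit 0x0) (nat_lit 0x50002800140000000000010000000000000000000000000000000) := T_12 (nat_lit 191) (nat_lit 208) (nat_lit 5) (nat_lit 5) (nat_lit 8) L38320 (by decide +kernel)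
theorem L38322 : W_12 (nat_lit 5) (nat_lit 0x4000280004001300080000000000000000000000000000000) (nat_lit 0x0) (nat_lit 0x50003800140000000000018000000000000000000000000000000) := T_12 (nat_lit 192) (nat_lit 123) (nat_lit 4) (nat_lit 5) (nat_lit 11) L38321 (by decide +kernel)
theorem L38323 : W_12 (nat_lit 9) (nat_lit 0x4000200004001300080000000000000000000000000000000) (nat_lit 0x0) (nat_lit 0x20007000b8001c0038000800018000c00020000000000000000000000) := Q_12 (nat_lit 175) (C_12 L38294 (C_12 L38300 (C_12 L38307 (C_12 L38312 (C_12 L38318 (C_12 L38322 N_12)))))) (by decide +kernel)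
theorem L38324 : W_12 (nat_lit 5) (nat_lit 0x4000280004001300080000000000000000000000000000000) (nat_lit 0x0) (nat_lit 0x800060003000000012000800008000000000000000000000000000000) := T_12 (nat_lit 160) (nat_lit 143) (nat_lit 6) (nat_lit 7) (nat_lit 11) L36335 (by decide +kernel)
theorem L38325 : W_12 (nat_lit 2) (nat_lit 0x40002c0014001300080000000000000000000000000000000) (nat_lit 0x0) (nat_lit 0x8000100020000000000000000000000000000000000000000) := D_12 (nat_lit 176) (nat_lit 161) (nat_lit 195) (nat_lit 2) (nat_lit 4) (nat_lit 10) (nat_lit 3) (nat_lit 4) (nat_lit 10) (by decide +kernel)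
theorem L38326 : W_12 (nat_lit 3) (nat_lit 0x40002c0004001300080000000000000000000000000000000) (nat_lit 0x0) (nat_lit 0x8000100030000800000000000000000000000000000000000) := T_12 (nat_lit 160) (nat_lit 143) (nat_lit 6) (nat_lit 7) (nat_lit 11) L38325 (by decide +kernel)
theorem L38327 : W_12 (nat_lit 2) (nat_lit 0x40002c00040013000900008000a0000000000000000000000) (nat_lit 0x0) (nat_lit 0x40005000000000000000000) := D_12 (nat_lit 90) (nat_lit 74) (nat_lit 72) (nat_lit 6) (nat_lit 5) (nat_lit 8) (nat_lit 4) (nat_lit 5) (nat_lit 8) (by decide +kernel)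
theorem L38328 : W_12 (nat_lit 3) (nat_lit 0x40002c0004001300090000800080000000000000000000000) (nat_lit 0x0) (nat_lit 0x400060005000000000000000000) := T_12 (nat_lit 89) (nat_lit 106) (nat_lit 4) (nat_lit 5) (nat_lit 9) L38327 (by decide +kernel)
theorem L38329 : W_12 (nat_lit 4) (nat_lit 0x40002c0004001300090000800000000000000000000000000) (nat_lit 0x0) (nat_lit 0x14000e0005000000000000000000) := T_12 (nat_lit 91) (nat_lit 108) (nat_lit 6) (nat_lit 5) (nat_lit 9) L38328 (by decide +kernel)
theorem L38330 : W_12 (nat_lit 5) (nat_lit 0x40002c0004001300090000000000000000000000000000000) (nat_lit 0x0) (nat_lit 0x2000000000001c000e0005000000000000000000) := T_12 (nat_lit 107) (nat_lit 157) (nat_lit 5) (nat_lit 5) (nat_lit 6) L38329 (by decide +kernel)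
theorem L38331 : W_12 (nat_lit 6) (nat_lit 0x40002c0004001300080000000000000000000000000000000) (nat_lit 0x0) (nat_lit 0x800000002000000010001c000e0005000000000000000000) := T_12 (nat_lit 124) (nat_lit 191) (nat_lit 5) (nat_lit 5) (nat_lit 7) L38330 (by decide +kernel)
theorem L38332 : W_12 (nat_lit 7) (nat_lit 0x4000280004001300080000000000000000000000000000000) (nat_lit 0x0) (nat_lit 0x8800140032000800010001c000e0005000000000000000000) := Q_12 (nat_lit 174) (C_12 L38326 (C_12 L38331 N_12)) (by decide +kernel)
theorem L38333 : W_12 (nat_lit 8) (nat_lit 0x4000200004001300080000000000000000000000000000000) (nat_lit 0x0) (nat_lit 0x80007000b8001c0032000800018001c000e0005000000000000000000) := Q_12 (nat_lit 175) (C_12 L38322 (C_12 L38324 (C_12 L38332 N_12))) (by decide +kernel)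
theorem L38334 : W_12 (nat_lit 2) (nat_lit 0x20005000280004001300080000000000000000000000000000000) (nat_lit 0x0) (nat_lit 0x800040002000000000000000000000000000000000000000000000000) := D_12 (nat_lit 210) (nat_lit 193) (nat_lit 227) (nat_lit 7) (nat_lit 5) (nat_lit 8) (nat_lit 7) (nat_lit 5) (nat_lit 9) (by decide +kernel)
theorem L38335 : W_12 (nat_lit 3) (nat_lit 0x5000280004001300080000000000000000000000000000000) (nat_lit 0x0) (nat_lit 0x800060002000000002000000000000000000000000000000000000000) := T_12 (nat_lit 209) (nat_lit 157) (nat_lit 4) (nat_lit 5) (nat_lit 12) L38334 (by decide +kernel)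
theorem L38336 : W_12 (nat_lit 4) (nat_lit 0x4000280004001300080000000000000000000000000000000) (nat_lit 0x0) (nat_lit 0x800060003000000002000000008000000000000000000000000000000) := T_12 (nat_lit 192) (nat_lit 123) (nat_lit 4) (nat_lit 5) (nat_lit 11) L38335 (by decide +kernel)
theorem L38337 : W_12 (nat_lit 2) (nat_lit 0x40003e0004001300080000000000000000000000000000000) (nat_lit 0x0) (nat_lit 0x3800000000000000000000000000000000000000) := D_12 (nat_lit 156) (nat_lit 157) (nat_lit 155) (nat_lit 0) (nat_lit 7) (nat_lit 10) (nat_lit 0) (nat_lit 6) (nat_lit 10) (by decide +kernel)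
theorem L38338 : W_12 (nat_lit 3) (nat_lit 0x40003c0004001300080000000000000000000000000000000) (nat_lit 0x0) (nat_lit 0x2000020003800000000000000000000000000000000000000) := T_12 (nat_lit 173) (nat_lit 193) (nat_lit 3) (nat_lit 3) (nat_lit 10) L38337 (by decide +kernel)
theorem L38339 : W_12 (nat_lit 4) (nat_lit 0x40002c0004001300080000000000000000000000000000000) (nat_lit 0x0) (nat_lit 0xa000120003800000000000000000000000000000000000000) := T_12 (nat_lit 176) (nat_lit 195) (nat_lit 3) (nat_lit 4) (nat_lit 10) L38338 (by decide +kernel)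
theorem L38340 : W_12 (nat_lit 2) (nat_lit 0x40003c0004001300080000000000000000000000000000000) (nat_lit 0x0) (nat_lit 0x2000020000000000010000000000000000000000000000000) := D_12 (nat_lit 193) (nat_lit 173) (nat_lit 124) (nat_lit 3) (nat_lit 3) (nat_lit 10) (nat_lit 7) (nat_lit 5) (nat_lit 7) (by decide +kernel)
theorem L38341 : W_12 (nat_lit 3) (nat_lit 0x40002c0004001300080000000000000000000000000000000) (nat_lit 0x0) (nat_lit 0xa000120000000000010000000000000000000000000000000) := T_12 (nat_lit 176) (nat_lit 195) (nat_lit 3) (nat_lit 4) (nat_lit 10) L38340 (by decide +kernel)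
theorem L38342 : W_12 (nat_lit 7) (nat_lit 0x4000280004001300080000000000000000000000000000000) (nat_lit 0x0) (nat_lit 0xa800160003800000010001c000e0005000000000000000000) := Q_12 (nat_lit 174) (C_12 L38331 (C_12 L38339 (C_12 L38341 N_12))) (by decide +kernel)
theorem L38343 : W_12 (nat_lit 3) (nat_lit 0x5000280004001300080000000000000000000000000000000) (nat_lit 0x0) (nat_lit 0x200030000800000002000000000000000000000000000000000000000) := T_12 (nat_lit 209) (nat_lit 157) (nat_lit 4) (nat_lit 5) (nat_lit 12) L36514 (by decide +kernel)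
theorem L38344 : W_12 (nat_lit 4) (nat_lit 0x4000280004001300080000000000000000000000000000000) (nat_lit 0x0) (nat_lit 0x200030001800000002000000008000000000000000000000000000000) := T_12 (nat_lit 192) (nat_lit 123) (nat_lit 4) (nat_lit 5) (nat_lit 11) L38343 (by decide +kernel)
theorem L38345 : W_12 (nat_lit 8) (nat_lit 0x4000200004001300080000000000000000000000000000000) (nat_lit 0x0) (nat_lit 0xa0007000b8001e0003800000018001c000e0005000000000000000000) := Q_12 (nat_lit 175) (C_12 L38322 (C_12 L38336 (C_12 L38342 (C_12 L38344 N_12)))) (by decide +kernel)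
theorem L38346 : W_12 (nat_lit 10) (nat_lit 0x4000200000001300080000000000000000000000000000000) (nat_lit 0x0) (nat_lit 0xa0007000b8001e003f8008c0018001c000e0005000000000000000000) := Q_12 (nat_lit 158) (C_12 L38289 (C_12 L38323 (C_12 L38333 (C_12 L38345 N_12)))) (by decide +kernel)
theorem L38347 : W_12 (nat_lit 2) (nat_lit 0x44003e0005001300088000000000000000000000000000000) (nat_lit 0x0) (nat_lit 0x10000400020000000000000000000000) := D_12 (nat_lit 106) (nat_lit 124) (nat_lit 89) (nat_lit 4) (nat_lit 5) (nat_lit 10) (nat_lit 7) (nat_lit 4) (nat_lit 5) (by decide +kernel)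
theorem L38348 : W_12 (nat_lit 3) (nat_lit 0x44003e0001001300088000000000000000000000000000000) (nat_lit 0x0) (nat_lit 0x1000000004000000010000400020000000000000000000000) := T_12 (nat_lit 158) (nat_lit 192) (nat_lit 4) (nat_lit 5) (nat_lit 11) L38347 (by decide +kernel)
theorem L38349 : W_12 (nat_lit 4) (nat_lit 0x44003e0001001300080000000000000000000000000000000) (nat_lit 0x0) (nat_lit 0x1000000004000080018000400020000000000000000000000) := T_12 (nat_lit 123) (nat_lit 139) (nat_lit 6) (nat_lit 3) (nat_lit 11) L38348 (by decide +kernel)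
theorem L38350 : W_12 (nat_lit 5) (nat_lit 0x44003e0000001300080000000000000000000000000000000) (nat_lit 0x0) (nat_lit 0x1000000005800080018000400020000000000000000000000) := T_12 (nat_lit 156) (nat_lit 155) (nat_lit 0) (nat_lit 6) (nat_lit 10) L38349 (by decide +kernel)
theorem L38351 : W_12 (nat_lit 6) (nat_lit 0x40003e0000001300080000000000000000000000000000000) (nat_lit 0x0) (nat_lit 0x1600000005800080018000400020000000000000000000000) := T_12 (nat_lit 190) (nat_lit 189) (nat_lit 1) (nat_lit 6) (nat_lit 10) L38350 (by decide +kernel)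
theorem L38352 : W_12 (nat_lit 7) (nat_lit 0x40003c0000001300080000000000000000000000000000000) (nat_lit 0x0) (nat_lit 0x3600020005800080018000400020000000000000000000000) := T_12 (nat_lit 173) (nat_lit 193) (nat_lit 3) (nat_lit 3) (nat_lit 10) L38351 (by decide +kernel)
theorem L38353 : W_12 (nat_lit 8) (nat_lit 0x40002c0000001300080000000000000000000000000000000) (nat_lit 0x0) (nat_lit 0xb600120005800080018000400020000000000000000000000) := T_12 (nat_lit 176) (nat_lit 195) (nat_lit 3) (nat_lit 4) (nat_lit 10) L38352 (by decide +kernel)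
theorem L38354 : W_12 (nat_lit 3) (nat_lit 0x40002c0004001300080000000000000000000000000000000) (nat_lit 0x0) (nat_lit 0x10001800000000000000018000000000000000000000000000000) := T_12 (nat_lit 192) (nat_lit 123) (nat_lit 4) (nat_lit 5) (nat_lit 11) L37728 (by decide +kernel)
theorem L38355 : W_12 (nat_lit 2) (nat_lit 0x58002c0004001300080000000000000000000000000000000) (nat_lit 0x0) (nat_lit 0x40002000020000000000000000000000000000000000000000000) := D_12 (nat_lit 193) (nat_lit 210) (nat_lit 173) (nat_lit 7) (nat_lit 5) (nat_lit 8) (nat_lit 0) (nat_lit 7) (nat_lit 11) (by decide +kernel)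
theorem L38356 : W_12 (nat_lit 3) (nat_lit 0x50002c0004001300080000000000000000000000000000000) (nat_lit 0x0) (nat_lit 0x50002800020000000000000000000000000000000000000000000) := T_12 (nat_lit 191) (nat_lit 208) (nat_lit 5) (nat_lit 5) (nat_lit 8) L38355 (by decide +kernel)
theorem L38357 : W_12 (nat_lit 4) (nat_lit 0x40002c0004001300080000000000000000000000000000000) (nat_lit 0x0) (nat_lit 0x50003800020000000000008000000000000000000000000000000) := T_12 (nat_lit 192) (nat_lit 123) (nat_lit 4) (nat_lit 5) (nat_lit 11) L38356 (by decide +kernel)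
theorem L38358 : W_12 (nat_lit 2) (nat_lit 0x40003c00040013000900008000a0000000000000000000000) (nat_lit 0x0) (nat_lit 0x40005000000000000000000) := D_12 (nat_lit 90) (nat_lit 74) (nat_lit 72) (nat_lit 6) (nat_lit 5) (nat_lit 8) (nat_lit 4) (nat_lit 5) (nat_lit 8) (by decide +kernel)
theorem L38359 : W_12 (nat_lit 3) (nat_lit 0x40003c0004001300090000800080000000000000000000000) (nat_lit 0x0) (nat_lit 0x400060005000000000000000000) := T_12 (nat_lit 89) (nat_lit 106) (nat_lit 4) (nat_lit 5) (nat_lit 9) L38358 (by decide +kernel)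
theorem L38360 : W_12 (nat_lit 4) (nat_lit 0x40003c0004001300090000800000000000000000000000000) (nat_lit 0x0) (nat_lit 0x14000e0005000000000000000000) := T_12 (nat_lit 91) (nat_lit 108) (nat_lit 6) (nat_lit 5) (nat_lit 9) L38359 (by decide +kernel)
theorem L38361 : W_12 (nat_lit 5) (nat_lit 0x40003c0004001300090000000000000000000000000000000) (nat_lit 0x0) (nat_lit 0x8000000000001c000e0005000000000000000000) := T_12 (nat_lit 107) (nat_lit 159) (nat_lit 7) (nat_lit 5) (nat_lit 6) L38360 (by decide +kernel)
theorem L38362 : W_12 (nat_lit 6) (nat_lit 0x40002c0004001300090000000000000000000000000000000) (nat_lit 0x0) (nat_lit 0x2000100008000000000001c000e0005000000000000000000) := T_12 (nat_lit 176) (nat_lit 193) (nat_lit 7) (nat_lit 5) (nat_lit 7) L38361 (by decide +kernel)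
theorem L38363 : W_12 (nat_lit 7) (nat_lit 0x40002c0004001300080000000000000000000000000000000) (nat_lit 0x0) (nat_lit 0x2800100008000000010001c000e0005000000000000000000) := T_12 (nat_lit 124) (nat_lit 191) (nat_lit 5) (nat_lit 5) (nat_lit 7) L38362 (by decide +kernel)
theorem L38364 : W_12 (nat_lit 2) (nat_lit 0x70002c0004001300080000000000000000000000000000000) (nat_lit 0x0) (nat_lit 0x120000000000010000000000000000000000000000000) := D_12 (nat_lit 176) (nat_lit 124) (nat_lit 173) (nat_lit 7) (nat_lit 5) (nat_lit 7) (nat_lit 3) (nat_lit 3) (nat_lit 10) (by decide +kernel)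
theorem L38365 : W_12 (nat_lit 3) (nat_lit 0x50002c0004001300080000000000000000000000000000000) (nat_lit 0x0) (nat_lit 0x40002000120000000000010000000000000000000000000000000) := T_12 (nat_lit 193) (nat_lit 210) (nat_lit 7) (nat_lit 5) (nat_lit 8) L38364 (by decide +kernel)
theorem L38366 : W_12 (nat_lit 4) (nat_lit 0x40002c0004001300080000000000000000000000000000000) (nat_lit 0x0) (nat_lit 0x40003000120000000000018000000000000000000000000000000) := T_12 (nat_lit 192) (nat_lit 123) (nat_lit 4) (nat_lit 5) (nat_lit 11) L38365 (by decide +kernel)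
theorem L38367 : W_12 (nat_lit 8) (nat_lit 0x40002c0000001300080000000000000000000000000000000) (nat_lit 0x0) (nat_lit 0x5000380012000c000000018001c000e0005000000000000000000) := Q_12 (nat_lit 158) (C_12 L38354 (C_12 L38357 (C_12 L38363 (C_12 L38366 N_12)))) (by decide +kernel)
theorem L38368 : W_12 (nat_lit 9) (nat_lit 0x4000240000001300080000000000000000000000000000000) (nat_lit 0x0) (nat_lit 0x5000be001b000d800080018001c000e0005000000000000000000) := Q_12 (nat_lit 175) (C_12 L37736 (C_12 L37727 (C_12 L37732 (C_12 L38353 (C_12 L38367 N_12))))) (by decide +kernel)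
theorem L38369 : W_12 (nat_lit 2) (nat_lit 0x40002e000200134009e000100000000000000000000000000) (nat_lit 0x0) (nat_lit 0x1800080000000000000000000000000000000000) := D_12 (nat_lit 156) (nat_lit 139) (nat_lit 155) (nat_lit 4) (nat_lit 3) (nat_lit 10) (nat_lit 7) (nat_lit 2) (nat_lit 6) (by decide +kernel)
theorem L38370 : W_12 (nat_lit 3) (nat_lit 0x40002e000200130009e000100000000000000000000000000) (nat_lit 0x0) (nat_lit 0x18000e0000000000000000000000000000000000) := T_12 (nat_lit 138) (nat_lit 137) (nat_lit 1) (nat_lit 5) (nat_lit 7) L38369 (by decide +kernel)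
theorem L38371 : W_12 (nat_lit 4) (nat_lit 0x40002e000200130009e000000000000000000000000000000) (nat_lit 0x0) (nat_lit 0x18000e0000000180000000000000000000000000) := T_12 (nat_lit 104) (nat_lit 103) (nat_lit 0) (nat_lit 5) (nat_lit 7) L38370 (by decide +kernel)
theorem L38372 : W_12 (nat_lit 5) (nat_lit 0x40002c000200130009e000000000000000000000000000000) (nat_lit 0x0) (nat_lit 0x4000200018000e0000000180000000000000000000000000) := T_12 (nat_lit 173) (nat_lit 190) (nat_lit 5) (nat_lit 4) (nat_lit 7) L38371 (by decide +kernel)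
theorem L38373 : W_12 (nat_lit 6) (nat_lit 0x40002c000200130009c000000000000000000000000000000) (nat_lit 0x0) (nat_lit 0x4000200018000e0003000180000000000000000000000000) := T_12 (nat_lit 121) (nat_lit 120) (nat_lit 3) (nat_lit 1) (nat_lit 7) L38372 (by decide +kernel)
theorem L38374 : W_12 (nat_lit 7) (nat_lit 0x40002c0002001300098000000000000000000000000000000) (nat_lit 0x0) (nat_lit 0x4000200018000e0007000380000000000000000000000000) := T_12 (nat_lit 122) (nat_lit 105) (nat_lit 4) (nat_lit 4) (nat_lit 10) L38373 (by decide +kernel)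
theorem L38375 : W_12 (nat_lit 8) (nat_lit 0x40002c0002001300088000000000000000000000000000000) (nat_lit 0x0) (nat_lit 0x4000200018000e0017000b80000000000000000000000000) := T_12 (nat_lit 124) (nat_lit 107) (nat_lit 6) (nat_lit 4) (nat_lit 10) L38374 (by decide +kernel)
theorem L38376 : W_12 (nat_lit 9) (nat_lit 0x4000240002001300088000000000000000000000000000000) (nat_lit 0x0) (nat_lit 0x14000a00018000e0017000b80000000000000000000000000) := T_12 (nat_lit 175) (nat_lit 192) (nat_lit 7) (nat_lit 4) (nat_lit 7) L38375 (by decide +kernel)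
theorem L38377 : W_12 (nat_lit 2) (nat_lit 0x40002e0002001300088000400000000000000000000000000) (nat_lit 0x0) (nat_lit 0x10000800040000000000000000000000) := D_12 (nat_lit 107) (nat_lit 90) (nat_lit 124) (nat_lit 6) (nat_lit 4) (nat_lit 9) (nat_lit 6) (nat_lit 4) (nat_lit 10) (by decide +kernel)
theorem L38378 : W_12 (nat_lit 3) (nat_lit 0x40002e0002001300088000000000000000000000000000000) (nat_lit 0x0) (nat_lit 0x4000000010000c00040000000000000000000000) := T_12 (nat_lit 106) (nat_lit 158) (nat_lit 7) (nat_lit 4) (nat_lit 6) L38377 (by decide +kernel)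
theorem L38379 : W_12 (nat_lit 4) (nat_lit 0x4000260002001300088000000000000000000000000000000) (nat_lit 0x0) (nat_lit 0x1000080004000000010000c00040000000000000000000000) := T_12 (nat_lit 175) (nat_lit 192) (nat_lit 7) (nat_lit 4) (nat_lit 7) L38378 (by decide +kernel)
theorem L38380 : W_12 (nat_lit 5) (nat_lit 0x4000240002001300088000000000000000000000000000000) (nat_lit 0x0) (nat_lit 0x14000a0004000000010000c00040000000000000000000000) := T_12 (nat_lit 173) (nat_lit 190) (nat_lit 5) (nat_lit 4) (nat_lit 7) L38379 (by decide +kernel)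
theorem L38381 : W_12 (nat_lit 2) (nat_lit 0x40002c0002001300098000400000000000000000000000000) (nat_lit 0x0) (nat_lit 0x4000200010000000000000000000000) := D_12 (nat_lit 105) (nat_lit 122) (nat_lit 88) (nat_lit 4) (nat_lit 4) (nat_lit 10) (nat_lit 4) (nat_lit 4) (nat_lit 9) (by decide +kernel)
theorem L38382 : W_12 (nat_lit 3) (nat_lit 0x40002c0002001300098000000000000000000000000000000) (nat_lit 0x0) (nat_lit 0x4000000004000600010000000000000000000000) := T_12 (nat_lit 106) (nat_lit 158) (nat_lit 7) (nat_lit 4) (nat_lit 6) L38381 (by decide +kernel)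
theorem L38383 : W_12 (nat_lit 4) (nat_lit 0x4000240002001300098000000000000000000000000000000) (nat_lit 0x0) (nat_lit 0x1000080004000000004000600010000000000000000000000) := T_12 (nat_lit 175) (nat_lit 192) (nat_lit 7) (nat_lit 4) (nat_lit 7) L38382 (by decide +kernel)
theorem L38384 : W_12 (nat_lit 5) (nat_lit 0x4000240002001300088000000000000000000000000000000) (nat_lit 0x0) (nat_lit 0x1000080004000000014000e00010000000000000000000000) := T_12 (nat_lit 124) (nat_lit 107) (nat_lit 6) (nat_lit 4) (nat_lit 10) L38383 (by decide +kernel)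
theorem L38385 : W_12 (nat_lit 10) (nat_lit 0x4000240002001300080000000000000000000000000000000) (nat_lit 0x0) (nat_lit 0x14000a00058000e001f000f80050000000000000000000000) := Q_12 (nat_lit 123) (C_12 L37660 (C_12 L37651 (C_12 L38376 (C_12 L38380 (C_12 L38384 N_12))))) (by decide +kernel)
theorem L38386 : W_12 (nat_lit 11) (nat_lit 0x4000240000001300080000000000000000000000000000000) (nat_lit 0x0) (nat_lit 0x500038003c000a00078000e001f000f80050000000000000000000000) := Q_12 (nat_lit 157) (C_12 L37712 (C_12 L37687 (C_12 L37670 (C_12 L37662 (C_12 L38385 N_12))))) (by decide +kernel)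
theorem L38387 : W_12 (nat_lit 2) (nat_lit 0x400026000200134009e000100000000000000000000000000) (nat_lit 0x0) (nat_lit 0x1800080000000000000000000000000000000000) := D_12 (nat_lit 156) (nat_lit 139) (nat_lit 155) (nat_lit 4) (nat_lit 3) (nat_lit 10) (nat_lit 7) (nat_lit 2) (nat_lit 6) (by decide +kernel)
theorem L38388 : W_12 (nat_lit 3) (nat_lit 0x400024000200134009e000100000000000000000000000000) (nat_lit 0x0) (nat_lit 0x400020001800080000000000000000000000000000000000) := T_12 (nat_lit 173) (nat_lit 190) (nat_lit 5) (nat_lit 4) (nat_lit 7) L38387 (by decide +kernel)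
theorem L38389 : W_12 (nat_lit 4) (nat_lit 0x400024000200134009e000000000000000000000000000000) (nat_lit 0x0) (nat_lit 0x400020001800080000000180000000000000000000000000) := T_12 (nat_lit 104) (nat_lit 103) (nat_lit 0) (nat_lit 5) (nat_lit 7) L38388 (by decide +kernel)
theorem L38390 : W_12 (nat_lit 5) (nat_lit 0x400024000200130009e000000000000000000000000000000) (nat_lit 0x0) (nat_lit 0x4000200018000e0000000180000000000000000000000000) := T_12 (nat_lit 138) (nat_lit 137) (nat_lit 1) (nat_lit 5) (nat_lit 7) L38389 (by decide +kernel)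
theorem L38391 : W_12 (nat_lit 6) (nat_lit 0x400024000200130008e000000000000000000000000000000) (nat_lit 0x0) (nat_lit 0x4000200018000e0010000980000000000000000000000000) := T_12 (nat_lit 124) (nat_lit 107) (nat_lit 6) (nat_lit 4) (nat_lit 10) L38390 (by decide +kernel)
theorem L38392 : W_12 (nat_lit 7) (nat_lit 0x400024000200130008c000000000000000000000000000000) (nat_lit 0x0) (nat_lit 0x4000200018000e0013000980000000000000000000000000) := T_12 (nat_lit 121) (nat_lit 120) (nat_lit 3) (nat_lit 1) (nat_lit 7) L38391 (by decide +kernel)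
theorem L38393 : W_12 (nat_lit 8) (nat_lit 0x4000240002001300088000000000000000000000000000000) (nat_lit 0x0) (nat_lit 0x4000200018000e0017000b80000000000000000000000000) := T_12 (nat_lit 122) (nat_lit 105) (nat_lit 4) (nat_lit 4) (nat_lit 10) L38392 (by decide +kernel)
theorem L38394 : W_12 (nat_lit 2) (nat_lit 0x400026000200130008d002c00020001000000000000000000) (nat_lit 0x0) (nat_lit 0x10000800040000000000000) := D_12 (nat_lit 71) (nat_lit 54) (nat_lit 88) (nat_lit 4) (nat_lit 4) (nat_lit 7) (nat_lit 4) (nat_lit 4) (nat_lit 8) (by decide +kernel)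
theorem L38395 : W_12 (nat_lit 3) (nat_lit 0x400026000200130008d002c00020000000000000000000000) (nat_lit 0x0) (nat_lit 0x80000000000010001800040000000000000) := T_12 (nat_lit 72) (nat_lit 139) (nat_lit 5) (nat_lit 4) (nat_lit 4) L38394 (by decide +kernel)
theorem L38396 : W_12 (nat_lit 4) (nat_lit 0x400026000200130008d002c00000000000000000000000000) (nat_lit 0x0) (nat_lit 0x4000080000000000030001800040000000000000) := T_12 (nat_lit 89) (nat_lit 158) (nat_lit 7) (nat_lit 4) (nat_lit 5) L38395 (by decide +kernel)
theorem L38397 : W_12 (nat_lit 5) (nat_lit 0x400026000200130008d000c00000000000000000000000000) (nat_lit 0x0) (nat_lit 0x4000080000003000030001800040000000000000) := T_12 (nat_lit 109) (nat_lit 108) (nat_lit 1) (nat_lit 7) (nat_lit 6) L38396 (by decide +kernel)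
theorem L38398 : W_12 (nat_lit 6) (nat_lit 0x400026000200130008d000800000000000000000000000000) (nat_lit 0x0) (nat_lit 0x4000080000003400070001800040000000000000) := T_12 (nat_lit 106) (nat_lit 90) (nat_lit 6) (nat_lit 4) (nat_lit 9) L38397 (by decide +kernel)
theorem L38399 : W_12 (nat_lit 7) (nat_lit 0x400026000200130008d000000000000000000000000000000) (nat_lit 0x0) (nat_lit 0x4000080010003c00070001800040000000000000) := T_12 (nat_lit 107) (nat_lit 124) (nat_lit 6) (nat_lit 4) (nat_lit 10) L38398 (by decide +kernel)
theorem L38400 : W_12 (nat_lit 8) (nat_lit 0x400026000200130008c000000000000000000000000000000) (nat_lit 0x0) (nat_lit 0x4000080013003c00070001800040000000000000) := T_12 (nat_lit 120) (nat_lit 121) (nat_lit 3) (nat_lit 1) (nat_lit 7) L38399 (by decide +kernel)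
theorem L38401 : W_12 (nat_lit 9) (nat_lit 0x4000260002001300088000000000000000000000000000000) (nat_lit 0x0) (nat_lit 0x4000080017003e00070001800040000000000000) := T_12 (nat_lit 122) (nat_lit 105) (nat_lit 4) (nat_lit 4) (nat_lit 10) L38400 (by decide +kernel)
theorem L38402 : W_12 (nat_lit 10) (nat_lit 0x4000240002001300088000000000000000000000000000000) (nat_lit 0x0) (nat_lit 0x400020004000080017003e00070001800040000000000000) := T_12 (nat_lit 173) (nat_lit 190) (nat_lit 5) (nat_lit 4) (nat_lit 7) L38401 (by decide +kernel)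
theorem L38403 : W_12 (nat_lit 2) (nat_lit 0x4000240002001300098000600000000000000000000000000) (nat_lit 0x0) (nat_lit 0x4000000000000000020001000000000000000000) := D_12 (nat_lit 89) (nat_lit 72) (nat_lit 158) (nat_lit 7) (nat_lit 4) (nat_lit 4) (nat_lit 7) (nat_lit 4) (nat_lit 5) (by decide +kernel)
theorem L38404 : W_12 (nat_lit 3) (nat_lit 0x4000240002001300098000200000000000000000000000000) (nat_lit 0x0) (nat_lit 0x4000000000000400030001000000000000000000) := T_12 (nat_lit 106) (nat_lit 88) (nat_lit 4) (nat_lit 4) (nat_lit 9) L38403 (by decide +kernel)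
theorem L38405 : W_12 (nat_lit 4) (nat_lit 0x4000240002001300098000000000000000000000000000000) (nat_lit 0x0) (nat_lit 0x4000000004000600030001000000000000000000) := T_12 (nat_lit 105) (nat_lit 122) (nat_lit 4) (nat_lit 4) (nat_lit 10) L38404 (by decide +kernel)
theorem L38406 : W_12 (nat_lit 5) (nat_lit 0x4000240002001300088000000000000000000000000000000) (nat_lit 0x0) (nat_lit 0x4000000014000e00030001000000000000000000) := T_12 (nat_lit 124) (nat_lit 107) (nat_lit 6) (nat_lit 4) (nat_lit 10) L38405 (by decide +kernel)
theorem L38407 : W_12 (nat_lit 11) (nat_lit 0x4000240002001300080000000000000000000000000000000) (nat_lit 0x0) (nat_lit 0x4000200058000e001f003f80070001800040000000000000) := Q_12 (nat_lit 123) (C_12 L37660 (C_12 L37651 (C_12 L38393 (C_12 L38402 (C_12 L38406 N_12))))) (by decide +kernel)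
theorem L38408 : W_12 (nat_lit 12) (nat_lit 0x4000240000001300080000000000000000000000000000000) (nat_lit 0x0) (nat_lit 0x500038001c000200078000e001f003f80070001800040000000000000) := Q_12 (nat_lit 157) (C_12 L37687 (C_12 L37630 (C_12 L37635 (C_12 L38407 N_12)))) (by decide +kernel)
theorem L38409 : W_12 (nat_lit 4) (nat_lit 0x40003c0000001300080000000000000000000000000000000) (nat_lit 0x0) (nat_lit 0x20001c00000003000000008000000000000000000000000000000) := T_12 (nat_lit 191) (nat_lit 190) (nat_lit 1) (nat_lit 7) (nat_lit 10) L35952 (by decide +kernel)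
theorem L38410 : W_12 (nat_lit 5) (nat_lit 0x40002c0000001300080000000000000000000000000000000) (nat_lit 0x0) (nat_lit 0x20009c00100003000000008000000000000000000000000000000) := T_12 (nat_lit 176) (nat_lit 195) (nat_lit 3) (nat_lit 4) (nat_lit 10) L38409 (by decide +kernel)
theorem L38411 : W_12 (nat_lit 4) (nat_lit 0x40002c0000001300080000000000000000000000000000000) (nat_lit 0x0) (nat_lit 0xa000120003800000000000000000000000000000000000000) := T_12 (nat_lit 176) (nat_lit 195) (nat_lit 3) (nat_lit 4) (nat_lit 10) L34803 (by decide +kernel)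
theorem L38412 : W_12 (nat_lit 10) (nat_lit 0x4000240000001300080000000000000000000000000000000) (nat_lit 0x0) (nat_lit 0xa00070007800be001b000780000000c000600010000000000000000000000) := Q_12 (nat_lit 175) (C_12 L37825 (C_12 L37804 (C_12 L37727 (C_12 L38410 (C_12 L38411 N_12))))) (by decide +kernel)
theorem L38413 : W_12 (nat_lit 12) (nat_lit 0x4000240000001300080000000000000000000000000000000) (nat_lit 0x0) (nat_lit 0x100018000c000200078000e001f003f80070001800040000000000000) := Q_12 (nat_lit 157) (C_12 L38407 (C_12 L37636 (C_12 L37630 (C_12 L37635 (C_12 L37662 N_12))))) (by decide +kernel)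
theorem L38414 : W_12 (nat_lit 6) (nat_lit 0x4000240000001300088000000000000000000000000000000) (nat_lit 0x0) (nat_lit 0xb4001a0006000000014000e00070001000000000000000000) := Q_12 (nat_lit 157) (C_12 L38380 (C_12 L38406 (C_12 L37685 N_12))) (by decide +kernel)
theorem L38415 : W_12 (nat_lit 9) (nat_lit 0x4000240000001300088000000000000000000000000000000) (nat_lit 0x0) (nat_lit 0x14000a00078000e0017000f80070001000000000000000000) := Q_12 (nat_lit 157) (C_12 L38380 (C_12 L38406 (C_12 L38393 (C_12 L37651 N_12)))) (by decide +kernel)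
theorem L38416 : W_12 (nat_lit 9) (nat_lit 0x4000240000001300088000000000000000000000000000000) (nat_lit 0x0) (nat_lit 0x4000200078000e0017000f80070001000000000000000000) := Q_12 (nat_lit 157) (C_12 L37660 (C_12 L38406 (C_12 L37651 (C_12 L38393 N_12)))) (by decide +kernel)
theorem L38417 : W_12 (nat_lit 9) (nat_lit 0x4000240000001300088000000000000000000000000000000) (nat_lit 0x0) (nat_lit 0xb4001a00038000e0017000b80000000000000000000000000) := Q_12 (nat_lit 157) (C_12 L37854 (C_12 L38393 (C_12 L37851 (C_12 L37685 N_12)))) (by decide +kernel)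
theorem L38418 : W_12 (nat_lit 6) (nat_lit 0x4000240000001300088000000000000000000000000000000) (nat_lit 0x0) (nat_lit 0x9000180007000000014000e00030001000000000000000000) := Q_12 (nat_lit 157) (C_12 L37854 (C_12 L38406 (C_12 L37851 N_12))) (by decide +kernel)
theorem L38419 : W_12 (nat_lit 10) (nat_lit 0x4000240000001300080000000000000000000000000000000) (nat_lit 0x0) (nat_lit 0xb6001a00078000e001f000f80070001000000000000000000) := Q_12 (nat_lit 123) (C_12 L37846 (C_12 L38414 (C_12 L38415 (C_12 L38416 (C_12 L37781 (C_12 L38417 (C_12 L38418 N_12))))))) (by decide +kernel)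
theorem L38420 : W_12 (nat_lit 13) (nat_lit 0x4000200000001300080000000000000000000000000000000) (nat_lit 0x0) (nat_lit 0xa00070007800be001f000f8000e001f003f800f0005800040000000000000) := Q_12 (nat_lit 174) (C_12 L38368 (C_12 L37796 (C_12 L38386 (C_12 L38408 (C_12 L38412 (C_12 L37765 (C_12 L38413 (C_12 L38419 (C_12 L37792 N_12))))))))) (by decide +kernel)
theorem L38421 : W_12 (nat_lit 2) (nat_lit 0x10003000080004000300010001300080000000000000000000000000000000) (nat_lit 0x0) (nat_lit 0x200020000000000002000000000000000000000000000000000000000000000000) := D_12 (nat_lit 245) (nat_lit 261) (nat_lit 193) (nat_lit 5) (nat_lit 7) (nat_lit 11) (nat_lit 4) (nat_lit 7) (nat_lit 14) (by decide +kernel)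
theorem L38422 : W_12 (nat_lit 3) (nat_lit 0x10003000080004000200010001300080000000000000000000000000000000) (nat_lit 0x0) (nat_lit 0x200020000000000002000100008000000000000000000000000000000000000000) := T_12 (nat_lit 176) (nat_lit 159) (nat_lit 4) (nat_lit 7) (nat_lit 13) L38421 (by decide +kernel)
theorem L38423 : W_12 (nat_lit 4) (nat_lit 0x3000080004000200010001300080000000000000000000000000000000) (nat_lit 0x0) (nat_lit 0x200030000800000002000100008000000000000000000000000000000000000000) := T_12 (nat_lit 244) (nat_lit 227) (nat_lit 5) (nat_lit 7) (nat_lit 10) L38422 (by decide +kernel)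
theorem L38424 : W_12 (nat_lit 5) (nat_lit 0x2000080004000200010001300080000000000000000000000000000000) (nat_lit 0x0) (nat_lit 0x200070001800000002000100008000000000000000000000000000000000000000) := T_12 (nat_lit 228) (nat_lit 246) (nat_lit 7) (nat_lit 7) (nat_lit 10) L38423 (by decide +kernel)
theorem L38425 : W_12 (nat_lit 6) (nat_lit 0x80004000200010001300080000000000000000000000000000000) (nat_lit 0x0) (nat_lit 0x200070003800100002000100008000000000000000000000000000000000000000) := T_12 (nat_lit 229) (nat_lit 212) (nat_lit 7) (nat_lit 7) (nat_lit 9) L38424 (by decide +kernel)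
theorem L38426 : W_12 (nat_lit 7) (nat_lit 0x4000200010001300080000000000000000000000000000000) (nat_lit 0x0) (nat_lit 0x200070003800180002000100028000000000000000000000000000000000000000) := T_12 (nat_lit 211) (nat_lit 161) (nat_lit 6) (nat_lit 7) (nat_lit 12) L38425 (by decide +kernel)
theorem L38427 : W_12 (nat_lit 8) (nat_lit 0x4000200000001300080000000000000000000000000000000) (nat_lit 0x0) (nat_lit 0x200070003800180002000100038000800000000000000000000000000000000000) := T_12 (nat_lit 160) (nat_lit 143) (nat_lit 6) (nat_lit 7) (nat_lit 11) L38426 (by decide +kernel)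
theorem L38428 : W_12 (nat_lit 14) (nat_lit 0x200000001300080000000000000000000000000000000) (nat_lit 0x0) (nat_lit 0x20007a003f001f800fe001f003f8008e001f003f800f0005800040000000000000) := Q_12 (nat_lit 194) (C_12 L37624 (C_12 L38346 (C_12 L38420 (C_12 L38427 N_12)))) (by decide +kernel)
theorem L38429 : W_12 (nat_lit 2) (nat_lit 0x200014001b00080000000000000000000000000000000) (nat_lit 0x0) (nat_lit 0x2a000000000000000000000000000000000000000) := D_12 (nat_lit 159) (nat_lit 157) (nat_lit 161) (nat_lit 2) (nat_lit 4) (nat_lit 9) (nat_lit 0) (nat_lit 8) (nat_lit 9) (by decide +kernel)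
theorem L38430 : W_12 (nat_lit 3) (nat_lit 0x200004001b00080000000000000000000000000000000) (nat_lit 0x0) (nat_lit 0x400000003a000000000000000000000000000000000000000) := T_12 (nat_lit 160) (nat_lit 194) (nat_lit 6) (nat_lit 7) (nat_lit 11) L38429 (by decide +kernel)
theorem L38431 : W_12 (nat_lit 2) (nat_lit 0x5800280004001b00090000000000000000000000000000000) (nat_lit 0x0) (nat_lit 0x40002000100000000000000000000000000000000000000000000) := D_12 (nat_lit 193) (nat_lit 210) (nat_lit 176) (nat_lit 7) (nat_lit 5) (nat_lit 8) (nat_lit 7) (nat_lit 5) (nat_lit 7) (by decide +kernel)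
theorem L38432 : W_12 (nat_lit 3) (nat_lit 0x5800280004001b00080000000000000000000000000000000) (nat_lit 0x0) (nat_lit 0x40002000140000000000010000000000000000000000000000000) := T_12 (nat_lit 124) (nat_lit 174) (nat_lit 5) (nat_lit 5) (nat_lit 7) L38431 (by decide +kernel)
theorem L38433 : W_12 (nat_lit 4) (nat_lit 0x5000280004001b00080000000000000000000000000000000) (nat_lit 0x0) (nat_lit 0x50002800140000000000010000000000000000000000000000000) := T_12 (nat_lit 191) (nat_lit 208) (nat_lit 5) (nat_lit 5) (nat_lit 8) L38432 (by decide +kernel)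
theorem L38434 : W_12 (nat_lit 5) (nat_lit 0x4000280004001b00080000000000000000000000000000000) (nat_lit 0x0) (nat_lit 0x50003800140000000000018000000000000000000000000000000) := T_12 (nat_lit 192) (nat_lit 123) (nat_lit 4) (nat_lit 5) (nat_lit 11) L38433 (by decide +kernel)
theorem L38435 : W_12 (nat_lit 6) (nat_lit 0x280004001b00080000000000000000000000000000000) (nat_lit 0x0) (nat_lit 0x50007800140010000000018000000000000000000000000000000) := T_12 (nat_lit 194) (nat_lit 160) (nat_lit 6) (nat_lit 7) (nat_lit 11) L38434 (by decide +kernel)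
theorem L38436 : W_12 (nat_lit 2) (nat_lit 0xf000280004001b00080000000000000000000000000000000) (nat_lit 0x0) (nat_lit 0x30000800000000000000000000000000000000000000000000000) := D_12 (nat_lit 208) (nat_lit 191) (nat_lit 209) (nat_lit 5) (nat_lit 5) (nat_lit 8) (nat_lit 1) (nat_lit 8) (nat_lit 11) (by decide +kernel)
theorem L38437 : W_12 (nat_lit 3) (nat_lit 0x7000280004001b00080000000000000000000000000000000) (nat_lit 0x0) (nat_lit 0x30008800040000000000000000000000000000000000000000000) := T_12 (nat_lit 195) (nat_lit 174) (nat_lit 0) (nat_lit 8) (nat_lit 11) L38436 (by decide +kernel)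
theorem L38438 : W_12 (nat_lit 4) (nat_lit 0x5000280004001b00080000000000000000000000000000000) (nat_lit 0x0) (nat_lit 0x7000a800040000000000000000000000000000000000000000000) := T_12 (nat_lit 193) (nat_lit 210) (nat_lit 7) (nat_lit 5) (nat_lit 8) L38437 (by decide +kernel)
theorem L38439 : W_12 (nat_lit 5) (nat_lit 0x1000280004001b00080000000000000000000000000000000) (nat_lit 0x0) (nat_lit 0x7000e800040010000000000000000000000000000000000000000) := T_12 (nat_lit 194) (nat_lit 160) (nat_lit 6) (nat_lit 7) (nat_lit 11) L38438 (by decide +kernel)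
theorem L38440 : W_12 (nat_lit 6) (nat_lit 0x280004001b00080000000000000000000000000000000) (nat_lit 0x0) (nat_lit 0x7000f800040010000000008000000000000000000000000000000) := T_12 (nat_lit 192) (nat_lit 123) (nat_lit 4) (nat_lit 5) (nat_lit 11) L38439 (by decide +kernel)
theorem L38441 : W_12 (nat_lit 2) (nat_lit 0x10007000280004001b00090000000000000000000000000000000) (nat_lit 0x0) (nat_lit 0x200020008000000000000000000000000000000000000000000000000) := D_12 (nat_lit 209) (nat_lit 195) (nat_lit 225) (nat_lit 1) (nat_lit 8) (nat_lit 11) (nat_lit 5) (nat_lit 5) (nat_lit 9) (by decide +kernel)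
theorem L38442 : W_12 (nat_lit 3) (nat_lit 0x7000280004001b00090000000000000000000000000000000) (nat_lit 0x0) (nat_lit 0x200030008800000000000000000000000000000000000000000000000) := T_12 (nat_lit 208) (nat_lit 191) (nat_lit 5) (nat_lit 5) (nat_lit 8) L38441 (by decide +kernel)
theorem L38443 : W_12 (nat_lit 4) (nat_lit 0x7000280004001b00080000000000000000000000000000000) (nat_lit 0x0) (nat_lit 0x200030008800100000000000010000000000000000000000000000000) := T_12 (nat_lit 124) (nat_lit 176) (nat_lit 7) (nat_lit 5) (nat_lit 7) L38442 (by decide +kernel)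
theorem L38444 : W_12 (nat_lit 5) (nat_lit 0x5000280004001b00080000000000000000000000000000000) (nat_lit 0x0) (nat_lit 0x20007000a800100000000000010000000000000000000000000000000) := T_12 (nat_lit 193) (nat_lit 210) (nat_lit 7) (nat_lit 5) (nat_lit 8) L38443 (by decide +kernel)
theorem L38445 : W_12 (nat_lit 6) (nat_lit 0x1000280004001b00080000000000000000000000000000000) (nat_lit 0x0) (nat_lit 0x20007000e800100010000000010000000000000000000000000000000) := T_12 (nat_lit 194) (nat_lit 160) (nat_lit 6) (nat_lit 7) (nat_lit 11) L38444 (by decide +kernel)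
theorem L38446 : W_12 (nat_lit 7) (nat_lit 0x280004001b00080000000000000000000000000000000) (nat_lit 0x0) (nat_lit 0x20007000f800100010000000018000000000000000000000000000000) := T_12 (nat_lit 192) (nat_lit 123) (nat_lit 4) (nat_lit 5) (nat_lit 11) L38445 (by decide +kernel)
theorem L38447 : W_12 (nat_lit 2) (nat_lit 0x8002c0034001b00080000000000000000000000000000000) (nat_lit 0x0) (nat_lit 0x200010001000000000000000000000000000000000000000000000000) := D_12 (nat_lit 208) (nat_lit 192) (nat_lit 225) (nat_lit 5) (nat_lit 5) (nat_lit 8) (nat_lit 6) (nat_lit 4) (nat_lit 13) (by decide +kernel)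
theorem L38448 : W_12 (nat_lit 3) (nat_lit 0x2c0034001b00080000000000000000000000000000000) (nat_lit 0x0) (nat_lit 0x200010001800000000000000010000000000000000000000000000000) := T_12 (nat_lit 191) (nat_lit 124) (nat_lit 5) (nat_lit 5) (nat_lit 7) L38447 (by decide +kernel)
theorem L38449 : W_12 (nat_lit 4) (nat_lit 0x280034001b00080000000000000000000000000000000) (nat_lit 0x0) (nat_lit 0x200010001800140000000000010000000000000000000000000000000) := T_12 (nat_lit 174) (nat_lit 176) (nat_lit 2) (nat_lit 4) (nat_lit 10) L38448 (by decide +kernel)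
theorem L38450 : W_12 (nat_lit 5) (nat_lit 0x280014001b00080000000000000000000000000000000) (nat_lit 0x0) (nat_lit 0x200010001800140028000000010000000000000000000000000000000) := T_12 (nat_lit 161) (nat_lit 159) (nat_lit 0) (nat_lit 8) (nat_lit 9) L38449 (by decide +kernel)
theorem L38451 : W_12 (nat_lit 6) (nat_lit 0x280004001b00080000000000000000000000000000000) (nat_lit 0x0) (nat_lit 0x200010005800140038000000010000000000000000000000000000000) := T_12 (nat_lit 160) (nat_lit 194) (nat_lit 6) (nat_lit 7) (nat_lit 11) L38450 (by decide +kernel)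
theorem L38452 : W_12 (nat_lit 2) (nat_lit 0x1800280004001b00090000000000000000000000000000000) (nat_lit 0x0) (nat_lit 0x40002000100000000000000000000000000000000000000000000) := D_12 (nat_lit 193) (nat_lit 210) (nat_lit 176) (nat_lit 7) (nat_lit 5) (nat_lit 8) (nat_lit 7) (nat_lit 5) (nat_lit 7) (by decide +kernel)
theorem L38453 : W_12 (nat_lit 3) (nat_lit 0x1800280004001b00080000000000000000000000000000000) (nat_lit 0x0) (nat_lit 0x40002000140000000000010000000000000000000000000000000) := T_12 (nat_lit 124) (nat_lit 174) (nat_lit 5) (nat_lit 5) (nat_lit 7) L38452 (by decide +kernel)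
theorem L38454 : W_12 (nat_lit 4) (nat_lit 0x1000280004001b00080000000000000000000000000000000) (nat_lit 0x0) (nat_lit 0x50002800140000000000010000000000000000000000000000000) := T_12 (nat_lit 191) (nat_lit 208) (nat_lit 5) (nat_lit 5) (nat_lit 8) L38453 (by decide +kernel)
theorem L38455 : W_12 (nat_lit 5) (nat_lit 0x280004001b00080000000000000000000000000000000) (nat_lit 0x0) (nat_lit 0x50003800140000000000018000000000000000000000000000000) := T_12 (nat_lit 192) (nat_lit 123) (nat_lit 4) (nat_lit 5) (nat_lit 11) L38454 (by decide +kernel)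
theorem L38456 : W_12 (nat_lit 2) (nat_lit 0x380034001b00080000000000000000000000000000000) (nat_lit 0x0) (nat_lit 0x2000000000000000050000000000000000000000000000000) := D_12 (nat_lit 193) (nat_lit 126) (nat_lit 124) (nat_lit 5) (nat_lit 7) (nat_lit 7) (nat_lit 7) (nat_lit 5) (nat_lit 7) (by decide +kernel)
theorem L38457 : W_12 (nat_lit 3) (nat_lit 0x280034001b00080000000000000000000000000000000) (nat_lit 0x0) (nat_lit 0x2000140000000000050000000000000000000000000000000) := T_12 (nat_lit 176) (nat_lit 174) (nat_lit 2) (nat_lit 4) (nat_lit 10) L38456 (by decide +kernel)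
theorem L38458 : W_12 (nat_lit 4) (nat_lit 0x280014001b00080000000000000000000000000000000) (nat_lit 0x0) (nat_lit 0x2000140028000000050000000000000000000000000000000) := T_12 (nat_lit 161) (nat_lit 159) (nat_lit 0) (nat_lit 8) (nat_lit 9) L38457 (by decide +kernel)
theorem L38459 : W_12 (nat_lit 5) (nat_lit 0x280004001b00080000000000000000000000000000000) (nat_lit 0x0) (nat_lit 0x6000140038000000050000000000000000000000000000000) := T_12 (nat_lit 160) (nat_lit 194) (nat_lit 6) (nat_lit 7) (nat_lit 11) L38458 (by decide +kernel)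
theorem L38460 : W_12 (nat_lit 8) (nat_lit 0x200004001b00080000000000000000000000000000000) (nat_lit 0x0) (nat_lit 0x20007000f8001c0038000000058000000000000000000000000000000) := Q_12 (nat_lit 175) (C_12 L38435 (C_12 L38440 (C_12 L38446 (C_12 L38451 (C_12 L38455 (C_12 L38459 N_12)))))) (by decide +kernel)
theorem L38461 : W_12 (nat_lit 2) (nat_lit 0x58002c0004001b00080000000000000000000000000000000) (nat_lit 0x0) (nat_lit 0x8400100000000000000000000000000000000000000000000) := D_12 (nat_lit 176) (nat_lit 195) (nat_lit 190) (nat_lit 3) (nat_lit 4) (nat_lit 10) (nat_lit 1) (nat_lit 7) (nat_lit 10) (by decide +kernel)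
theorem L38462 : W_12 (nat_lit 3) (nat_lit 0x5800280004001b00080000000000000000000000000000000) (nat_lit 0x0) (nat_lit 0x8400140000000000010000000000000000000000000000000) := T_12 (nat_lit 174) (nat_lit 124) (nat_lit 5) (nat_lit 5) (nat_lit 7) L38461 (by decide +kernel)
theorem L38463 : W_12 (nat_lit 4) (nat_lit 0x5000280004001b00080000000000000000000000000000000) (nat_lit 0x0) (nat_lit 0x10008c00140000000000010000000000000000000000000000000) := T_12 (nat_lit 191) (nat_lit 208) (nat_lit 5) (nat_lit 5) (nat_lit 8) L38462 (by decide +kernel)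
theorem L38464 : W_12 (nat_lit 5) (nat_lit 0x1000280004001b00080000000000000000000000000000000) (nat_lit 0x0) (nat_lit 0x1000cc00140010000000010000000000000000000000000000000) := T_12 (nat_lit 194) (nat_lit 160) (nat_lit 6) (nat_lit 7) (nat_lit 11) L38463 (by decide +kernel)
theorem L38465 : W_12 (nat_lit 2) (nat_lit 0x20001000280004001b00080000000000000000000000000000000) (nat_lit 0x0) (nat_lit 0x800040002000000000000000000000000000000000000000000000000) := D_12 (nat_lit 210) (nat_lit 193) (nat_lit 227) (nat_lit 7) (nat_lit 5) (nat_lit 8) (nat_lit 7) (nat_lit 5) (nat_lit 9) (by decide +kernel)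
theorem L38466 : W_12 (nat_lit 3) (nat_lit 0x1000280004001b00080000000000000000000000000000000) (nat_lit 0x0) (nat_lit 0x800060002000000002000000000000000000000000000000000000000) := T_12 (nat_lit 209) (nat_lit 157) (nat_lit 4) (nat_lit 5) (nat_lit 12) L38465 (by decide +kernel)
theorem L38467 : W_12 (nat_lit 7) (nat_lit 0x280004001b00080000000000000000000000000000000) (nat_lit 0x0) (nat_lit 0xa0007000fc00140012000000010000000000000000000000000000000) := Q_12 (nat_lit 192) (C_12 L38454 (C_12 L38439 (C_12 L38445 (C_12 L38464 (C_12 L38466 N_12))))) (by decide +kernel)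
theorem L38468 : W_12 (nat_lit 5) (nat_lit 0x4000280004001b00080000000000000000000000000000000) (nat_lit 0x0) (nat_lit 0x10009c00140000000000018000000000000000000000000000000) := T_12 (nat_lit 192) (nat_lit 123) (nat_lit 4) (nat_lit 5) (nat_lit 11) L38463 (by decide +kernel)
theorem L38469 : W_12 (nat_lit 6) (nat_lit 0x280004001b00080000000000000000000000000000000) (nat_lit 0x0) (nat_lit 0x1000dc00140010000000018000000000000000000000000000000) := T_12 (nat_lit 194) (nat_lit 160) (nat_lit 6) (nat_lit 7) (nat_lit 11) L38468 (by decide +kernel)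
theorem L38470 : W_12 (nat_lit 2) (nat_lit 0x4000380004001b00090000000000000000000000000000000) (nat_lit 0x0) (nat_lit 0x8800040000000000000000000000000000000000000000000) := D_12 (nat_lit 174) (nat_lit 195) (nat_lit 191) (nat_lit 3) (nat_lit 4) (nat_lit 10) (nat_lit 5) (nat_lit 5) (nat_lit 7) (by decide +kernel)
theorem L38471 : W_12 (nat_lit 3) (nat_lit 0x4000280004001b00090000000000000000000000000000000) (nat_lit 0x0) (nat_lit 0xa800140000000000000000000000000000000000000000000) := T_12 (nat_lit 176) (nat_lit 193) (nat_lit 7) (nat_lit 5) (nat_lit 7) L38470 (by decide +kernel)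
theorem L38472 : W_12 (nat_lit 4) (nat_lit 0x280004001b00090000000000000000000000000000000) (nat_lit 0x0) (nat_lit 0xe800140010000000000000000000000000000000000000000) := T_12 (nat_lit 194) (nat_lit 160) (nat_lit 6) (nat_lit 7) (nat_lit 11) L38471 (by decide +kernel)
theorem L38473 : W_12 (nat_lit 2) (nat_lit 0x2c0004001b00090000800000000000000000000000000) (nat_lit 0x0) (nat_lit 0x8000400020000000000000000000000) := D_12 (nat_lit 106) (nat_lit 123) (nat_lit 89) (nat_lit 4) (nat_lit 5) (nat_lit 10) (nat_lit 4) (nat_lit 5) (nat_lit 9) (by decide +kernel)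
theorem L38474 : W_12 (nat_lit 3) (nat_lit 0x2c0004001b00090000000000000000000000000000000) (nat_lit 0x0) (nat_lit 0x2000000008000c00020000000000000000000000) := T_12 (nat_lit 107) (nat_lit 157) (nat_lit 5) (nat_lit 5) (nat_lit 6) L38473 (by decide +kernel)
theorem L38475 : W_12 (nat_lit 4) (nat_lit 0x280004001b00090000000000000000000000000000000) (nat_lit 0x0) (nat_lit 0x800040002000000008000c00020000000000000000000000) := T_12 (nat_lit 174) (nat_lit 191) (nat_lit 5) (nat_lit 5) (nat_lit 7) L38474 (by decide +kernel)
theorem L38476 : W_12 (nat_lit 2) (nat_lit 0x4000380004001b00090000c00040000000000000000000000) (nat_lit 0x0) (nat_lit 0x1000080004000000000000000000) := D_12 (nat_lit 91) (nat_lit 108) (nat_lit 74) (nat_lit 6) (nat_lit 5) (nat_lit 9) (nat_lit 6) (nat_lit 5) (nat_lit 8) (by decide +kernel)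
theorem L38477 : W_12 (nat_lit 3) (nat_lit 0x4000380004001b00090000c00000000000000000000000000) (nat_lit 0x0) (nat_lit 0x20000000000010000c0004000000000000000000) := T_12 (nat_lit 90) (nat_lit 157) (nat_lit 5) (nat_lit 5) (nat_lit 5) L38476 (by decide +kernel)
theorem L38478 : W_12 (nat_lit 4) (nat_lit 0x4000380004001b00090000400000000000000000000000000) (nat_lit 0x0) (nat_lit 0x20000000000018000e0004000000000000000000) := T_12 (nat_lit 107) (nat_lit 89) (nat_lit 4) (nat_lit 5) (nat_lit 9) L38477 (by decide +kernel)
theorem L38479 : W_12 (nat_lit 5) (nat_lit 0x4000380004001b00090000000000000000000000000000000) (nat_lit 0x0) (nat_lit 0x2000000008001c000e0004000000000000000000) := T_12 (nat_lit 106) (nat_lit 123) (nat_lit 4) (nat_lit 5) (nat_lit 10) L38478 (by decide +kernel)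
theorem L38480 : W_12 (nat_lit 6) (nat_lit 0x380004001b00090000000000000000000000000000000) (nat_lit 0x0) (nat_lit 0x4000000012000000008001c000e0004000000000000000000) := T_12 (nat_lit 194) (nat_lit 160) (nat_lit 6) (nat_lit 7) (nat_lit 11) L38479 (by decide +kernel)
theorem L38481 : W_12 (nat_lit 7) (nat_lit 0x280004001b00090000000000000000000000000000000) (nat_lit 0x0) (nat_lit 0x6000100012000000008001c000e0004000000000000000000) := T_12 (nat_lit 176) (nat_lit 193) (nat_lit 7) (nat_lit 5) (nat_lit 7) L38480 (by decide +kernel)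
theorem L38482 : W_12 (nat_lit 8) (nat_lit 0x280004001b00080000000000000000000000000000000) (nat_lit 0x0) (nat_lit 0xe800140012000000018001c000e0004000000000000000000) := Q_12 (nat_lit 124) (C_12 L38472 (C_12 L38475 (C_12 L38481 N_12))) (by decide +kernel)
theorem L38483 : W_12 (nat_lit 2) (nat_lit 0x20005000280004001b00080000000000000000000000000000000) (nat_lit 0x0) (nat_lit 0x800040002000000000000000000000000000000000000000000000000) := D_12 (nat_lit 210) (nat_lit 193) (nat_lit 227) (nat_lit 7) (nat_lit 5) (nat_lit 8) (nat_lit 7) (nat_lit 5) (nat_lit 9) (by decide +kernel)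
theorem L38484 : W_12 (nat_lit 3) (nat_lit 0x5000280004001b00080000000000000000000000000000000) (nat_lit 0x0) (nat_lit 0x800060002000000002000000000000000000000000000000000000000) := T_12 (nat_lit 209) (nat_lit 157) (nat_lit 4) (nat_lit 5) (nat_lit 12) L38483 (by decide +kernel)
theorem L38485 : W_12 (nat_lit 4) (nat_lit 0x4000280004001b00080000000000000000000000000000000) (nat_lit 0x0) (nat_lit 0x800060003000000002000000008000000000000000000000000000000) := T_12 (nat_lit 192) (nat_lit 123) (nat_lit 4) (nat_lit 5) (nat_lit 11) L38484 (by decide +kernel)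
theorem L38486 : W_12 (nat_lit 5) (nat_lit 0x280004001b00080000000000000000000000000000000) (nat_lit 0x0) (nat_lit 0x800060007000000012000000008000000000000000000000000000000) := T_12 (nat_lit 194) (nat_lit 160) (nat_lit 6) (nat_lit 7) (nat_lit 11) L38485 (by decide +kernel)
theorem L38487 : W_12 (nat_lit 9) (nat_lit 0x200004001b00080000000000000000000000000000000) (nat_lit 0x0) (nat_lit 0xa0007000fc001c0012000000018001c000e0004000000000000000000) := Q_12 (nat_lit 175) (C_12 L38455 (C_12 L38440 (C_12 L38446 (C_12 L38467 (C_12 L38469 (C_12 L38482 (C_12 L38486 N_12))))))) (by decide +kernel)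
theorem L38488 : W_12 (nat_lit 4) (nat_lit 0x280004001b00080000000000000000000000000000000) (nat_lit 0x0) (nat_lit 0x800060003000000002000000008000000000000000000000000000000) := T_12 (nat_lit 192) (nat_lit 123) (nat_lit 4) (nat_lit 5) (nat_lit 11) L38466 (by decide +kernel)
theorem L38489 : W_12 (nat_lit 2) (nat_lit 0x20001000280004001b00080000000000000000000000000000000) (nat_lit 0x0) (nat_lit 0x200010000800000000000000000000000000000000000000000000000) := D_12 (nat_lit 208) (nat_lit 191) (nat_lit 225) (nat_lit 5) (nat_lit 5) (nat_lit 8) (nat_lit 5) (nat_lit 5) (nat_lit 9) (by decide +kernel)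
theorem L38490 : W_12 (nat_lit 3) (nat_lit 0x1000280004001b00080000000000000000000000000000000) (nat_lit 0x0) (nat_lit 0x200030000800000002000000000000000000000000000000000000000) := T_12 (nat_lit 209) (nat_lit 157) (nat_lit 4) (nat_lit 5) (nat_lit 12) L38489 (by decide +kernel)
theorem L38491 : W_12 (nat_lit 5) (nat_lit 0x280004001b00080000000000000000000000000000000) (nat_lit 0x0) (nat_lit 0xa00070003800140002000000010000000000000000000000000000000) := Q_12 (nat_lit 192) (C_12 L38466 (C_12 L38454 (C_12 L38490 N_12))) (by decide +kernel)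
theorem L38492 : W_12 (nat_lit 4) (nat_lit 0x280004001b00080000000000000000000000000000000) (nat_lit 0x0) (nat_lit 0x200030001800000002000000008000000000000000000000000000000) := T_12 (nat_lit 192) (nat_lit 123) (nat_lit 4) (nat_lit 5) (nat_lit 11) L38490 (by decide +kernel)
theorem L38493 : W_12 (nat_lit 3) (nat_lit 0x380004001b00098000000000000000000000000000000) (nat_lit 0x0) (nat_lit 0xa000000000000800040002000000000000000000) := T_12 (nat_lit 107) (nat_lit 159) (nat_lit 7) (nat_lit 5) (nat_lit 6) L32750 (by decide +kernel)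
theorem L38494 : W_12 (nat_lit 4) (nat_lit 0x280004001b00098000000000000000000000000000000) (nat_lit 0x0) (nat_lit 0x200010000a000000000000800040002000000000000000000) := T_12 (nat_lit 176) (nat_lit 193) (nat_lit 7) (nat_lit 5) (nat_lit 7) L38493 (by decide +kernel)
theorem L38495 : W_12 (nat_lit 5) (nat_lit 0x280004001b00090000000000000000000000000000000) (nat_lit 0x0) (nat_lit 0x200010000a000000008000c00040002000000000000000000) := T_12 (nat_lit 123) (nat_lit 106) (nat_lit 4) (nat_lit 5) (nat_lit 10) L38494 (by decide +kernel)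
theorem L38496 : W_12 (nat_lit 2) (nat_lit 0x380004001b00090000800000000000000000000000000) (nat_lit 0x0) (nat_lit 0x8000400020000000000000000000000) := D_12 (nat_lit 106) (nat_lit 123) (nat_lit 89) (nat_lit 4) (nat_lit 5) (nat_lit 10) (nat_lit 4) (nat_lit 5) (nat_lit 9) (by decide +kernel)
theorem L38497 : W_12 (nat_lit 3) (nat_lit 0x380004001b00090000000000000000000000000000000) (nat_lit 0x0) (nat_lit 0x8000000008000c00020000000000000000000000) := T_12 (nat_lit 107) (nat_lit 159) (nat_lit 7) (nat_lit 5) (nat_lit 6) L38496 (by decide +kernel)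
theorem L38498 : W_12 (nat_lit 4) (nat_lit 0x280004001b00090000000000000000000000000000000) (nat_lit 0x0) (nat_lit 0x2000100008000000008000c00020000000000000000000000) := T_12 (nat_lit 176) (nat_lit 193) (nat_lit 7) (nat_lit 5) (nat_lit 7) L38497 (by decide +kernel)
theorem L38499 : W_12 (nat_lit 2) (nat_lit 0x2c0004001b00090000800000000000000000000000000) (nat_lit 0x0) (nat_lit 0x2000100008000000000000000000000000000000000000000) := D_12 (nat_lit 176) (nat_lit 159) (nat_lit 193) (nat_lit 7) (nat_lit 5) (nat_lit 6) (nat_lit 7) (nat_lit 5) (nat_lit 7) (by decide +kernel)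
theorem L38500 : W_12 (nat_lit 3) (nat_lit 0x2c0004001b00090000000000000000000000000000000) (nat_lit 0x0) (nat_lit 0x200010000a000000000000800000000000000000000000000) := T_12 (nat_lit 107) (nat_lit 157) (nat_lit 5) (nat_lit 5) (nat_lit 6) L38499 (by decide +kernel)
theorem L38501 : W_12 (nat_lit 4) (nat_lit 0x280004001b00090000000000000000000000000000000) (nat_lit 0x0) (nat_lit 0x280014000a000000000000800000000000000000000000000) := T_12 (nat_lit 174) (nat_lit 191) (nat_lit 5) (nat_lit 5) (nat_lit 7) L38500 (by decide +kernel)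
theorem L38502 : W_12 (nat_lit 2) (nat_lit 0x3c0014001b00098000000000000000000000000000000) (nat_lit 0x0) (nat_lit 0x2000a000000000000000000000000000000000000000) := D_12 (nat_lit 159) (nat_lit 173) (nat_lit 157) (nat_lit 2) (nat_lit 3) (nat_lit 10) (nat_lit 2) (nat_lit 4) (nat_lit 9) (by decide +kernel)
theorem L38503 : W_12 (nat_lit 3) (nat_lit 0x3c0004001b00098000000000000000000000000000000) (nat_lit 0x0) (nat_lit 0x2003a000000000000000000000000000000000000000) := T_12 (nat_lit 160) (nat_lit 161) (nat_lit 2) (nat_lit 4) (nat_lit 10) L38502 (by decide +kernel)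
theorem L38504 : W_12 (nat_lit 4) (nat_lit 0x2c0004001b00098000000000000000000000000000000) (nat_lit 0x0) (nat_lit 0x200012003a000000000000000000000000000000000000000) := T_12 (nat_lit 176) (nat_lit 193) (nat_lit 7) (nat_lit 5) (nat_lit 7) L38503 (by decide +kernel)
theorem L38505 : W_12 (nat_lit 5) (nat_lit 0x2c0004001b00090000000000000000000000000000000) (nat_lit 0x0) (nat_lit 0x200012003a000000008000400000000000000000000000000) := T_12 (nat_lit 123) (nat_lit 106) (nat_lit 4) (nat_lit 5) (nat_lit 10) L38504 (by decide +kernel)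
theorem L38506 : W_12 (nat_lit 6) (nat_lit 0x280004001b00090000000000000000000000000000000) (nat_lit 0x0) (nat_lit 0x280016003a000000008000400000000000000000000000000) := T_12 (nat_lit 174) (nat_lit 191) (nat_lit 5) (nat_lit 5) (nat_lit 7) L38505 (by decide +kernel)
theorem L38507 : W_12 (nat_lit 7) (nat_lit 0x280004001b00080000000000000000000000000000000) (nat_lit 0x0) (nat_lit 0x280016003a000000018000c00060002000000000000000000) := Q_12 (nat_lit 124) (C_12 L38475 (C_12 L38495 (C_12 L38498 (C_12 L38501 (C_12 L38506 N_12))))) (by decide +kernel)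
theorem L38508 : W_12 (nat_lit 8) (nat_lit 0x200004001b00080000000000000000000000000000000) (nat_lit 0x0) (nat_lit 0xa000700038001e003a000000018000c00060002000000000000000000) := Q_12 (nat_lit 175) (C_12 L38455 (C_12 L38488 (C_12 L38491 (C_12 L38492 (C_12 L38507 N_12))))) (by decide +kernel)
theorem L38509 : W_12 (nat_lit 2) (nat_lit 0x40003e0006001b00098000000000000000000000000000000) (nat_lit 0x0) (nat_lit 0x18008000000000000000000000000000000000000000) := D_12 (nat_lit 172) (nat_lit 159) (nat_lit 171) (nat_lit 2) (nat_lit 2) (nat_lit 10) (nat_lit 2) (nat_lit 1) (nat_lit 10) (by decide +kernel)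
theorem L38510 : W_12 (nat_lit 3) (nat_lit 0x40003c0006001b00098000000000000000000000000000000) (nat_lit 0x0) (nat_lit 0x400038008000000000000000000000000000000000000000) := T_12 (nat_lit 173) (nat_lit 190) (nat_lit 5) (nat_lit 4) (nat_lit 7) L38509 (by decide +kernel)
theorem L38511 : W_12 (nat_lit 4) (nat_lit 0x40003c0004001b00098000000000000000000000000000000) (nat_lit 0x0) (nat_lit 0x40003800b000000000000000000000000000000000000000) := T_12 (nat_lit 157) (nat_lit 156) (nat_lit 0) (nat_lit 7) (nat_lit 10) L38510 (by decide +kernel)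
theorem L38512 : W_12 (nat_lit 5) (nat_lit 0x3c0004001b00098000000000000000000000000000000) (nat_lit 0x0) (nat_lit 0xc40003800b000000000000000000000000000000000000000) := T_12 (nat_lit 194) (nat_lit 195) (nat_lit 3) (nat_lit 4) (nat_lit 10) L38511 (by decide +kernel)
theorem L38513 : W_12 (nat_lit 6) (nat_lit 0x2c0004001b00098000000000000000000000000000000) (nat_lit 0x0) (nat_lit 0xe40013800b000000000000000000000000000000000000000) := T_12 (nat_lit 176) (nat_lit 193) (nat_lit 7) (nat_lit 5) (nat_lit 7) L38512 (by decide +kernel)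
theorem L38514 : W_12 (nat_lit 7) (nat_lit 0x280004001b00098000000000000000000000000000000) (nat_lit 0x0) (nat_lit 0xec0017800b000000000000000000000000000000000000000) := T_12 (nat_lit 174) (nat_lit 191) (nat_lit 5) (nat_lit 5) (nat_lit 7) L38513 (by decide +kernel)
theorem L38515 : W_12 (nat_lit 8) (nat_lit 0x280004001b00090000000000000000000000000000000) (nat_lit 0x0) (nat_lit 0xec0017800b000000008000400000000000000000000000000) := T_12 (nat_lit 123) (nat_lit 106) (nat_lit 4) (nat_lit 5) (nat_lit 10) L38514 (by decide +kernel)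
theorem L38516 : W_12 (nat_lit 9) (nat_lit 0x280004001b00080000000000000000000000000000000) (nat_lit 0x0) (nat_lit 0xec0017800b000000018000c00020000000000000000000000) := Q_12 (nat_lit 124) (C_12 L38475 (C_12 L38501 (C_12 L38498 (C_12 L38515 N_12)))) (by decide +kernel)
theorem L38517 : W_12 (nat_lit 10) (nat_lit 0x200004001b00080000000000000000000000000000000) (nat_lit 0x0) (nat_lit 0xa0007000fc001f800b000000018000c00020000000000000000000000) := Q_12 (nat_lit 175) (C_12 L38492 (C_12 L38455 (C_12 L38491 (C_12 L38516 (C_12 L38488 N_12))))) (by decide +kernel)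
theorem L38518 : W_12 (nat_lit 11) (nat_lit 0x200000001b00080000000000000000000000000000000) (nat_lit 0x0) (nat_lit 0xa0007000fc001f803f000000058001c000e0006000000000000000000) := Q_12 (nat_lit 158) (C_12 L38430 (C_12 L38460 (C_12 L38487 (C_12 L38508 (C_12 L38517 N_12))))) (by decide +kernel)
theorem L38519 : W_12 (nat_lit 12) (nat_lit 0x200000001300080000000000000000000000000000000) (nat_lit 0x0) (nat_lit 0xa0007000fc001f803f000c0015c001c000e0006000000000000000000) := Q_12 (nat_lit 143) (C_12 L38107 (C_12 L38518 (C_12 L35643 N_12))) (by decide +kernel)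
theorem L38520 : W_12 (nat_lit 2) (nat_lit 0x40003c0004001b00080000000000000000000000000000000) (nat_lit 0x0) (nat_lit 0x2000020000000000010000000000000000000000000000000) := D_12 (nat_lit 193) (nat_lit 173) (nat_lit 124) (nat_lit 3) (nat_lit 3) (nat_lit 10) (nat_lit 7) (nat_lit 5) (nat_lit 7) (by decide +kernel)
theorem L38521 : W_12 (nat_lit 3) (nat_lit 0x40002c0004001b00080000000000000000000000000000000) (nat_lit 0x0) (nat_lit 0xa000120000000000010000000000000000000000000000000) := T_12 (nat_lit 176) (nat_lit 195) (nat_lit 3) (nat_lit 4) (nat_lit 10) L38520 (by decide +kernel)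
theorem L38522 : W_12 (nat_lit 4) (nat_lit 0x2c0004001b00080000000000000000000000000000000) (nat_lit 0x0) (nat_lit 0xe000120010000000010000000000000000000000000000000) := T_12 (nat_lit 194) (nat_lit 160) (nat_lit 6) (nat_lit 7) (nat_lit 11) L38521 (by decide +kernel)
theorem L38523 : W_12 (nat_lit 2) (nat_lit 0x40002c0004001b000900008000c0002000000000000000000) (nat_lit 0x0) (nat_lit 0x20001000080000000000000) := D_12 (nat_lit 72) (nat_lit 55) (nat_lit 89) (nat_lit 4) (nat_lit 5) (nat_lit 7) (nat_lit 4) (nat_lit 5) (nat_lit 8) (by decide +kernel)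
theorem L38524 : W_12 (nat_lit 3) (nat_lit 0x40002c0004001b000900008000c0000000000000000000000) (nat_lit 0x0) (nat_lit 0x8000000020003000080000000000000) := T_12 (nat_lit 73) (nat_lit 123) (nat_lit 5) (nat_lit 5) (nat_lit 4) L38523 (by decide +kernel)
theorem L38525 : W_12 (nat_lit 4) (nat_lit 0x40002c0004001b00090000800080000000000000000000000) (nat_lit 0x0) (nat_lit 0x8000000060007000080000000000000) := T_12 (nat_lit 90) (nat_lit 74) (nat_lit 6) (nat_lit 5) (nat_lit 8) L38524 (by decide +kernel)
theorem L38526 : W_12 (nat_lit 5) (nat_lit 0x2c0004001b00090000800080000000000000000000000) (nat_lit 0x0) (nat_lit 0x4000000010000000008000000060007000080000000000000) := T_12 (nat_lit 194) (nat_lit 160) (nat_lit 6) (nat_lit 7) (nat_lit 11) L38525 (by decide +kernel)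
theorem L38527 : W_12 (nat_lit 6) (nat_lit 0x2c0004001b00090000800000000000000000000000000) (nat_lit 0x0) (nat_lit 0x40000000100000000080010000e0007000080000000000000) := T_12 (nat_lit 91) (nat_lit 108) (nat_lit 6) (nat_lit 5) (nat_lit 9) L38526 (by decide +kernel)
theorem L38528 : W_12 (nat_lit 7) (nat_lit 0x2c0004001b00090000000000000000000000000000000) (nat_lit 0x0) (nat_lit 0x40000000120000000080018000e0007000080000000000000) := T_12 (nat_lit 107) (nat_lit 157) (nat_lit 5) (nat_lit 5) (nat_lit 6) L38527 (by decide +kernel)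
theorem L38529 : W_12 (nat_lit 8) (nat_lit 0x2c0004001b00080000000000000000000000000000000) (nat_lit 0x0) (nat_lit 0x48000000120000000180018000e0007000080000000000000) := T_12 (nat_lit 124) (nat_lit 191) (nat_lit 5) (nat_lit 5) (nat_lit 7) L38528 (by decide +kernel)
theorem L38530 : W_12 (nat_lit 2) (nat_lit 0x40003e0004001b00080000000000000000000000000000000) (nat_lit 0x0) (nat_lit 0xe00000000000000000000000000000000000000000000000) := D_12 (nat_lit 190) (nat_lit 189) (nat_lit 191) (nat_lit 1) (nat_lit 6) (nat_lit 10) (nat_lit 1) (nat_lit 7) (nat_lit 10) (by decide +kernel)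
theorem L38531 : W_12 (nat_lit 3) (nat_lit 0x40003c0004001b00080000000000000000000000000000000) (nat_lit 0x0) (nat_lit 0x2e00020000000000000000000000000000000000000000000) := T_12 (nat_lit 173) (nat_lit 193) (nat_lit 3) (nat_lit 3) (nat_lit 10) L38530 (by decide +kernel)
theorem L38532 : W_12 (nat_lit 4) (nat_lit 0x40002c0004001b00080000000000000000000000000000000) (nat_lit 0x0) (nat_lit 0xae00120000000000000000000000000000000000000000000) := T_12 (nat_lit 176) (nat_lit 195) (nat_lit 3) (nat_lit 4) (nat_lit 10) L38531 (by decide +kernel)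
theorem L38533 : W_12 (nat_lit 5) (nat_lit 0x2c0004001b00080000000000000000000000000000000) (nat_lit 0x0) (nat_lit 0xee00120010000000000000000000000000000000000000000) := T_12 (nat_lit 194) (nat_lit 160) (nat_lit 6) (nat_lit 7) (nat_lit 11) L38532 (by decide +kernel)
theorem L38534 : W_12 (nat_lit 2) (nat_lit 0x3c0014001b000900008000c0002000000000000000000) (nat_lit 0x0) (nat_lit 0x20001000080000000000000) := D_12 (nat_lit 72) (nat_lit 55) (nat_lit 89) (nat_lit 4) (nat_lit 5) (nat_lit 7) (nat_lit 4) (nat_lit 5) (nat_lit 8) (by decide +kernel)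
theorem L38535 : W_12 (nat_lit 3) (nat_lit 0x3c0014001b000900008000c0000000000000000000000) (nat_lit 0x0) (nat_lit 0x8000000020003000080000000000000) := T_12 (nat_lit 73) (nat_lit 123) (nat_lit 5) (nat_lit 5) (nat_lit 4) L38534 (by decide +kernel)
theorem L38536 : W_12 (nat_lit 4) (nat_lit 0x3c0014001b00090000800080000000000000000000000) (nat_lit 0x0) (nat_lit 0x8000000060007000080000000000000) := T_12 (nat_lit 90) (nat_lit 74) (nat_lit 6) (nat_lit 5) (nat_lit 8) L38535 (by decide +kernel)
theorem L38537 : W_12 (nat_lit 5) (nat_lit 0x3c0004001b00090000800080000000000000000000000) (nat_lit 0x0) (nat_lit 0x30000000008000000060007000080000000000000) := T_12 (nat_lit 160) (nat_lit 161) (nat_lit 2) (nat_lit 4) (nat_lit 10) L38536 (by decide +kernel)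
theorem L38538 : W_12 (nat_lit 6) (nat_lit 0x2c0004001b00090000800080000000000000000000000) (nat_lit 0x0) (nat_lit 0x2000100030000000008000000060007000080000000000000) := T_12 (nat_lit 176) (nat_lit 193) (nat_lit 7) (nat_lit 5) (nat_lit 7) L38537 (by decide +kernel)
theorem L38539 : W_12 (nat_lit 7) (nat_lit 0x2c0004001b00090000800000000000000000000000000) (nat_lit 0x0) (nat_lit 0x20001000300000000080010000e0007000080000000000000) := T_12 (nat_lit 91) (nat_lit 108) (nat_lit 6) (nat_lit 5) (nat_lit 9) L38538 (by decide +kernel)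
theorem L38540 : W_12 (nat_lit 8) (nat_lit 0x2c0004001b00090000000000000000000000000000000) (nat_lit 0x0) (nat_lit 0x20001000320000000080018000e0007000080000000000000) := T_12 (nat_lit 107) (nat_lit 157) (nat_lit 5) (nat_lit 5) (nat_lit 6) L38539 (by decide +kernel)
theorem L38541 : W_12 (nat_lit 9) (nat_lit 0x2c0004001b00080000000000000000000000000000000) (nat_lit 0x0) (nat_lit 0x28001000320000000180018000e0007000080000000000000) := T_12 (nat_lit 124) (nat_lit 191) (nat_lit 5) (nat_lit 5) (nat_lit 7) L38540 (by decide +kernel)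
theorem L38542 : W_12 (nat_lit 2) (nat_lit 0x40003c0004001b000900008000c0002000000000000000000) (nat_lit 0x0) (nat_lit 0x20001000080000000000000) := D_12 (nat_lit 72) (nat_lit 55) (nat_lit 89) (nat_lit 4) (nat_lit 5) (nat_lit 7) (nat_lit 4) (nat_lit 5) (nat_lit 8) (by decide +kernel)
theorem L38543 : W_12 (nat_lit 3) (nat_lit 0x40003c0004001b000900008000c0000000000000000000000) (nat_lit 0x0) (nat_lit 0x8000000020003000080000000000000) := T_12 (nat_lit 73) (nat_lit 123) (nat_lit 5) (nat_lit 5) (nat_lit 4) L38542 (by decide +kernel)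
theorem L38544 : W_12 (nat_lit 4) (nat_lit 0x40003c0004001b00090000800080000000000000000000000) (nat_lit 0x0) (nat_lit 0x8000000060007000080000000000000) := T_12 (nat_lit 90) (nat_lit 74) (nat_lit 6) (nat_lit 5) (nat_lit 8) L38543 (by decide +kernel)
theorem L38545 : W_12 (nat_lit 5) (nat_lit 0x3c0004001b00090000800080000000000000000000000) (nat_lit 0x0) (nat_lit 0xc000000000000000008000000060007000080000000000000) := T_12 (nat_lit 194) (nat_lit 195) (nat_lit 3) (nat_lit 4) (nat_lit 10) L38544 (by decide +kernel)
theorem L38546 : W_12 (nat_lit 6) (nat_lit 0x2c0004001b00090000800080000000000000000000000) (nat_lit 0x0) (nat_lit 0xe000100000000000008000000060007000080000000000000) := T_12 (nat_lit 176) (nat_lit 193) (nat_lit 7) (nat_lit 5) (nat_lit 7) L38545 (by decide +kernel)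
theorem L38547 : W_12 (nat_lit 7) (nat_lit 0x2c0004001b00090000800000000000000000000000000) (nat_lit 0x0) (nat_lit 0xe0001000000000000080010000e0007000080000000000000) := T_12 (nat_lit 91) (nat_lit 108) (nat_lit 6) (nat_lit 5) (nat_lit 9) L38546 (by decide +kernel)
theorem L38548 : W_12 (nat_lit 8) (nat_lit 0x2c0004001b00090000000000000000000000000000000) (nat_lit 0x0) (nat_lit 0xe0001000020000000080018000e0007000080000000000000) := T_12 (nat_lit 107) (nat_lit 157) (nat_lit 5) (nat_lit 5) (nat_lit 6) L38547 (by decide +kernel)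
theorem L38549 : W_12 (nat_lit 9) (nat_lit 0x2c0004001b00080000000000000000000000000000000) (nat_lit 0x0) (nat_lit 0xe8001000020000000180018000e0007000080000000000000) := T_12 (nat_lit 124) (nat_lit 191) (nat_lit 5) (nat_lit 5) (nat_lit 7) L38548 (by decide +kernel)
theorem L38550 : W_12 (nat_lit 10) (nat_lit 0x280004001b00080000000000000000000000000000000) (nat_lit 0x0) (nat_lit 0xee001600320000000180018000e0007000080000000000000) := Q_12 (nat_lit 174) (C_12 L38522 (C_12 L38529 (C_12 L38533 (C_12 L38541 (C_12 L38549 N_12))))) (by decide +kernel)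
theorem L38551 : W_12 (nat_lit 11) (nat_lit 0x200004001b00080000000000000000000000000000000) (nat_lit 0x0) (nat_lit 0xa0007000fe001e00320000000180018000e0007000080000000000000) := Q_12 (nat_lit 175) (C_12 L38492 (C_12 L38469 (C_12 L38491 (C_12 L38550 (C_12 L38488 N_12))))) (by decide +kernel)
theorem L38552 : W_12 (nat_lit 9) (nat_lit 0x280004001b00090000000000000000000000000000000) (nat_lit 0x0) (nat_lit 0x28001400320000000080018000e0007000080000000000000) := T_12 (nat_lit 174) (nat_lit 191) (nat_lit 5) (nat_lit 5) (nat_lit 7) L38540 (by decide +kernel)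
theorem L38553 : W_12 (nat_lit 2) (nat_lit 0x2c0004001b000900008000c0002000000000000000000) (nat_lit 0x0) (nat_lit 0x20001000080000000000000) := D_12 (nat_lit 72) (nat_lit 55) (nat_lit 89) (nat_lit 4) (nat_lit 5) (nat_lit 7) (nat_lit 4) (nat_lit 5) (nat_lit 8) (by decide +kernel)
theorem L38554 : W_12 (nat_lit 3) (nat_lit 0x2c0004001b000900008000c0000000000000000000000) (nat_lit 0x0) (nat_lit 0x8000000020003000080000000000000) := T_12 (nat_lit 73) (nat_lit 123) (nat_lit 5) (nat_lit 5) (nat_lit 4) L38553 (by decide +kernel)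
theorem L38555 : W_12 (nat_lit 4) (nat_lit 0x2c0004001b00090000800080000000000000000000000) (nat_lit 0x0) (nat_lit 0x8000000060007000080000000000000) := T_12 (nat_lit 90) (nat_lit 74) (nat_lit 6) (nat_lit 5) (nat_lit 8) L38554 (by decide +kernel)
theorem L38556 : W_12 (nat_lit 5) (nat_lit 0x2c0004001b00090000800000000000000000000000000) (nat_lit 0x0) (nat_lit 0x80010000e0007000080000000000000) := T_12 (nat_lit 91) (nat_lit 108) (nat_lit 6) (nat_lit 5) (nat_lit 9) L38555 (by decide +kernel)
theorem L38557 : W_12 (nat_lit 6) (nat_lit 0x2c0004001b00090000000000000000000000000000000) (nat_lit 0x0) (nat_lit 0x20000000080018000e0007000080000000000000) := T_12 (nat_lit 107) (nat_lit 157) (nat_lit 5) (nat_lit 5) (nat_lit 6) L38556 (by decide +kernel)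
theorem L38558 : W_12 (nat_lit 7) (nat_lit 0x280004001b00090000000000000000000000000000000) (nat_lit 0x0) (nat_lit 0x8000400020000000080018000e0007000080000000000000) := T_12 (nat_lit 174) (nat_lit 191) (nat_lit 5) (nat_lit 5) (nat_lit 7) L38557 (by decide +kernel)
theorem L38559 : W_12 (nat_lit 2) (nat_lit 0x380004001b00090001800040002000000000000000000) (nat_lit 0x0) (nat_lit 0x20001000080000000000000) := D_12 (nat_lit 72) (nat_lit 55) (nat_lit 89) (nat_lit 4) (nat_lit 5) (nat_lit 7) (nat_lit 4) (nat_lit 5) (nat_lit 8) (by decide +kernel)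
theorem L38560 : W_12 (nat_lit 3) (nat_lit 0x380004001b00090001800040000000000000000000000) (nat_lit 0x0) (nat_lit 0x8000000020003000080000000000000) := T_12 (nat_lit 73) (nat_lit 123) (nat_lit 5) (nat_lit 5) (nat_lit 4) L38559 (by decide +kernel)
theorem L38561 : W_12 (nat_lit 4) (nat_lit 0x380004001b00090001800000000000000000000000000) (nat_lit 0x0) (nat_lit 0x2000000008000000060003000080000000000000) := T_12 (nat_lit 90) (nat_lit 157) (nat_lit 5) (nat_lit 5) (nat_lit 5) L38560 (by decide +kernel)
theorem L38562 : W_12 (nat_lit 5) (nat_lit 0x380004001b00090000800000000000000000000000000) (nat_lit 0x0) (nat_lit 0x20000000080010000e0003000080000000000000) := T_12 (nat_lit 108) (nat_lit 91) (nat_lit 6) (nat_lit 5) (nat_lit 9) L38561 (by decide +kernel)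
theorem L38563 : W_12 (nat_lit 6) (nat_lit 0x380004001b00090000000000000000000000000000000) (nat_lit 0x0) (nat_lit 0xa0000000080018000e0003000080000000000000) := T_12 (nat_lit 107) (nat_lit 159) (nat_lit 7) (nat_lit 5) (nat_lit 6) L38562 (by decide +kernel)
theorem L38564 : W_12 (nat_lit 7) (nat_lit 0x280004001b00090000000000000000000000000000000) (nat_lit 0x0) (nat_lit 0x200010000a0000000080018000e0003000080000000000000) := T_12 (nat_lit 176) (nat_lit 193) (nat_lit 7) (nat_lit 5) (nat_lit 7) L38563 (by decide +kernel)
theorem L38565 : W_12 (nat_lit 6) (nat_lit 0x380004001b00090000800080000000000000000000000) (nat_lit 0x0) (nat_lit 0x800040030000000008000000060007000080000000000000) := T_12 (nat_lit 174) (nat_lit 191) (nat_lit 5) (nat_lit 5) (nat_lit 7) L38537 (by decide +kernel)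
theorem L38566 : W_12 (nat_lit 7) (nat_lit 0x380004001b00090000800000000000000000000000000) (nat_lit 0x0) (nat_lit 0x8000400300000000080010000e0007000080000000000000) := T_12 (nat_lit 91) (nat_lit 108) (nat_lit 6) (nat_lit 5) (nat_lit 9) L38565 (by decide +kernel)
theorem L38567 : W_12 (nat_lit 8) (nat_lit 0x380004001b00090000000000000000000000000000000) (nat_lit 0x0) (nat_lit 0x8000400380000000080018000e0007000080000000000000) := T_12 (nat_lit 107) (nat_lit 159) (nat_lit 7) (nat_lit 5) (nat_lit 6) L38566 (by decide +kernel)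
theorem L38568 : W_12 (nat_lit 9) (nat_lit 0x280004001b00090000000000000000000000000000000) (nat_lit 0x0) (nat_lit 0x28001400380000000080018000e0007000080000000000000) := T_12 (nat_lit 176) (nat_lit 193) (nat_lit 7) (nat_lit 5) (nat_lit 7) L38567 (by decide +kernel)
theorem L38569 : W_12 (nat_lit 2) (nat_lit 0x3c0014001b00090000000000000000000000000000000) (nat_lit 0x0) (nat_lit 0x2000a000000000000000000000000000000000000000) := D_12 (nat_lit 159) (nat_lit 173) (nat_lit 157) (nat_lit 2) (nat_lit 3) (nat_lit 10) (nat_lit 2) (nat_lit 4) (nat_lit 9) (by decide +kernel)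
theorem L38570 : W_12 (nat_lit 3) (nat_lit 0x3c0004001b00090000000000000000000000000000000) (nat_lit 0x0) (nat_lit 0x2003a000000000000000000000000000000000000000) := T_12 (nat_lit 160) (nat_lit 161) (nat_lit 2) (nat_lit 4) (nat_lit 10) L38569 (by decide +kernel)
theorem L38571 : W_12 (nat_lit 4) (nat_lit 0x2c0004001b00090000000000000000000000000000000) (nat_lit 0x0) (nat_lit 0x200012003a000000000000000000000000000000000000000) := T_12 (nat_lit 176) (nat_lit 193) (nat_lit 7) (nat_lit 5) (nat_lit 7) L38570 (by decide +kernel)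
theorem L38572 : W_12 (nat_lit 5) (nat_lit 0x280004001b00090000000000000000000000000000000) (nat_lit 0x0) (nat_lit 0x280016003a000000000000000000000000000000000000000) := T_12 (nat_lit 174) (nat_lit 191) (nat_lit 5) (nat_lit 5) (nat_lit 7) L38571 (by decide +kernel)
theorem L38573 : W_12 (nat_lit 10) (nat_lit 0x280004001b00080000000000000000000000000000000) (nat_lit 0x0) (nat_lit 0x280016003a0000000180018000e0007000080000000000000) := Q_12 (nat_lit 124) (C_12 L38552 (C_12 L38558 (C_12 L38564 (C_12 L38568 (C_12 L38501 (C_12 L38572 N_12)))))) (by decide +kernel)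
theorem L38574 : W_12 (nat_lit 11) (nat_lit 0x200004001b00080000000000000000000000000000000) (nat_lit 0x0) (nat_lit 0xa000700038001e003a0000000180018000e0007000080000000000000) := Q_12 (nat_lit 175) (C_12 L38492 (C_12 L38455 (C_12 L38491 (C_12 L38573 (C_12 L38488 N_12))))) (by decide +kernel)
theorem L38575 : W_12 (nat_lit 6) (nat_lit 0x3c0004001b00090000800000000000000000000000000) (nat_lit 0x0) (nat_lit 0xc0000000000000000080010000e0007000080000000000000) := T_12 (nat_lit 91) (nat_lit 108) (nat_lit 6) (nat_lit 5) (nat_lit 9) L38545 (by decide +kernel)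
theorem L38576 : W_12 (nat_lit 7) (nat_lit 0x3c0004001b00090000000000000000000000000000000) (nat_lit 0x0) (nat_lit 0xc0000000080000000080018000e0007000080000000000000) := T_12 (nat_lit 107) (nat_lit 159) (nat_lit 7) (nat_lit 5) (nat_lit 6) L38575 (by decide +kernel)
theorem L38577 : W_12 (nat_lit 8) (nat_lit 0x2c0004001b00090000000000000000000000000000000) (nat_lit 0x0) (nat_lit 0xe0001000080000000080018000e0007000080000000000000) := T_12 (nat_lit 176) (nat_lit 193) (nat_lit 7) (nat_lit 5) (nat_lit 7) L38576 (by decide +kernel)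
theorem L38578 : W_12 (nat_lit 9) (nat_lit 0x280004001b00090000000000000000000000000000000) (nat_lit 0x0) (nat_lit 0xe8001400080000000080018000e0007000080000000000000) := T_12 (nat_lit 174) (nat_lit 191) (nat_lit 5) (nat_lit 5) (nat_lit 7) L38577 (by decide +kernel)
theorem L38579 : W_12 (nat_lit 2) (nat_lit 0x44003e000d001b00090000000000000000000000000000000) (nat_lit 0x0) (nat_lit 0xc0008000000000000000000000000000000) := D_12 (nat_lit 139) (nat_lit 123) (nat_lit 138) (nat_lit 6) (nat_lit 3) (nat_lit 11) (nat_lit 3) (nat_lit 2) (nat_lit 8) (by decide +kernel)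
theorem L38580 : W_12 (nat_lit 3) (nat_lit 0x44003e0005001b00090000000000000000000000000000000) (nat_lit 0x0) (nat_lit 0x100080000c0008000000000000000000000000000000) := T_12 (nat_lit 159) (nat_lit 172) (nat_lit 2) (nat_lit 2) (nat_lit 10) L38579 (by decide +kernel)
theorem L38581 : W_12 (nat_lit 4) (nat_lit 0x40003e0005001b00090000000000000000000000000000000) (nat_lit 0x0) (nat_lit 0x6000100080000c0008000000000000000000000000000000) := T_12 (nat_lit 190) (nat_lit 189) (nat_lit 1) (nat_lit 6) (nat_lit 10) L38580 (by decide +kernel)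
theorem L38582 : W_12 (nat_lit 5) (nat_lit 0x40003c0005001b00090000000000000000000000000000000) (nat_lit 0x0) (nat_lit 0x6000300088000c0008000000000000000000000000000000) := T_12 (nat_lit 173) (nat_lit 155) (nat_lit 0) (nat_lit 6) (nat_lit 10) L38581 (by decide +kernel)
theorem L38583 : W_12 (nat_lit 6) (nat_lit 0x40003c0004001b00090000000000000000000000000000000) (nat_lit 0x0) (nat_lit 0x60003000b8000c0008000000000000000000000000000000) := T_12 (nat_lit 156) (nat_lit 157) (nat_lit 0) (nat_lit 7) (nat_lit 10) L38582 (by decide +kernel)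
theorem L38584 : W_12 (nat_lit 7) (nat_lit 0x3c0004001b00090000000000000000000000000000000) (nat_lit 0x0) (nat_lit 0xc60003000b8000c0008000000000000000000000000000000) := T_12 (nat_lit 194) (nat_lit 195) (nat_lit 3) (nat_lit 4) (nat_lit 10) L38583 (by decide +kernel)
theorem L38585 : W_12 (nat_lit 8) (nat_lit 0x380004001b00090000000000000000000000000000000) (nat_lit 0x0) (nat_lit 0xce0007000b8000c0008000000000000000000000000000000) := T_12 (nat_lit 174) (nat_lit 191) (nat_lit 5) (nat_lit 5) (nat_lit 7) L38584 (by decide +kernel)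
theorem L38586 : W_12 (nat_lit 9) (nat_lit 0x280004001b00090000000000000000000000000000000) (nat_lit 0x0) (nat_lit 0xee0017000b8000c0008000000000000000000000000000000) := T_12 (nat_lit 176) (nat_lit 193) (nat_lit 7) (nat_lit 5) (nat_lit 7) L38585 (by decide +kernel)
theorem L38587 : W_12 (nat_lit 10) (nat_lit 0x280004001b00080000000000000000000000000000000) (nat_lit 0x0) (nat_lit 0xee0017000b8000c00180018000e0007000080000000000000) := Q_12 (nat_lit 124) (C_12 L38558 (C_12 L38564 (C_12 L38578 (C_12 L38501 (C_12 L38586 N_12))))) (by decide +kernel)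
theorem L38588 : W_12 (nat_lit 11) (nat_lit 0x200004001b00080000000000000000000000000000000) (nat_lit 0x0) (nat_lit 0xa0007000fe001f000b8000c00180018000e0007000080000000000000) := Q_12 (nat_lit 175) (C_12 L38492 (C_12 L38455 (C_12 L38491 (C_12 L38587 (C_12 L38488 N_12))))) (by decide +kernel)
theorem L38589 : W_12 (nat_lit 12) (nat_lit 0x200000001b00080000000000000000000000000000000) (nat_lit 0x0) (nat_lit 0xa0007000fe001f003f8000c00580018000e0007000080000000000000) := Q_12 (nat_lit 158) (C_12 L38430 (C_12 L38460 (C_12 L38551 (C_12 L38574 (C_12 L38588 N_12))))) (by decide +kernel)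
theorem L38590 : W_12 (nat_lit 13) (nat_lit 0x200000001300080000000000000000000000000000000) (nat_lit 0x0) (nat_lit 0xa0007000fe001f003f800cc015c0018000e0007000080000000000000) := Q_12 (nat_lit 143) (C_12 L38107 (C_12 L38589 (C_12 L35643 N_12))) (by decide +kernel)
theorem L38591 : W_12 (nat_lit 2) (nat_lit 0x3000380014001b00080000000000000000000000000000000) (nat_lit 0x0) (nat_lit 0x40028000000000000000000000000000000000000000) := D_12 (nat_lit 161) (nat_lit 174) (nat_lit 159) (nat_lit 2) (nat_lit 4) (nat_lit 10) (nat_lit 0) (nat_lit 8) (nat_lit 9) (by decide +kernel)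
theorem L38592 : W_12 (nat_lit 3) (nat_lit 0x3000380004001b00080000000000000000000000000000000) (nat_lit 0x0) (nat_lit 0x40038000000040000000000000000000000000000000) := T_12 (nat_lit 160) (nat_lit 126) (nat_lit 5) (nat_lit 7) (nat_lit 7) L38591 (by decide +kernel)
theorem L38593 : W_12 (nat_lit 4) (nat_lit 0x3000280004001b00080000000000000000000000000000000) (nat_lit 0x0) (nat_lit 0x140038000000050000000000000000000000000000000) := T_12 (nat_lit 176) (nat_lit 124) (nat_lit 7) (nat_lit 5) (nat_lit 7) L38592 (by decide +kernel)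
theorem L38594 : W_12 (nat_lit 5) (nat_lit 0x1000280004001b00080000000000000000000000000000000) (nat_lit 0x0) (nat_lit 0x40002000140038000000050000000000000000000000000000000) := T_12 (nat_lit 193) (nat_lit 210) (nat_lit 7) (nat_lit 5) (nat_lit 8) L38593 (by decide +kernel)
theorem L38595 : W_12 (nat_lit 6) (nat_lit 0x280004001b00080000000000000000000000000000000) (nat_lit 0x0) (nat_lit 0x40003000140038000000058000000000000000000000000000000) := T_12 (nat_lit 192) (nat_lit 123) (nat_lit 4) (nat_lit 5) (nat_lit 11) L38594 (by decide +kernel)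
theorem L38596 : W_12 (nat_lit 2) (nat_lit 0x7000380004001b00080000000000000000000000000000000) (nat_lit 0x0) (nat_lit 0x18000040000000000000000000000000000000000000000000) := D_12 (nat_lit 195) (nat_lit 174) (nat_lit 196) (nat_lit 3) (nat_lit 4) (nat_lit 10) (nat_lit 0) (nat_lit 9) (nat_lit 11) (by decide +kernel)
theorem L38597 : W_12 (nat_lit 3) (nat_lit 0x7000280004001b00080000000000000000000000000000000) (nat_lit 0x0) (nat_lit 0x18000140000000000010000000000000000000000000000000) := T_12 (nat_lit 176) (nat_lit 124) (nat_lit 7) (nat_lit 5) (nat_lit 7) L38596 (by decide +kernel)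
theorem L38598 : W_12 (nat_lit 4) (nat_lit 0x5000280004001b00080000000000000000000000000000000) (nat_lit 0x0) (nat_lit 0x4001a000140000000000010000000000000000000000000000000) := T_12 (nat_lit 193) (nat_lit 210) (nat_lit 7) (nat_lit 5) (nat_lit 8) L38597 (by decide +kernel)
theorem L38599 : W_12 (nat_lit 5) (nat_lit 0x1000280004001b00080000000000000000000000000000000) (nat_lit 0x0) (nat_lit 0x4001e000140010000000010000000000000000000000000000000) := T_12 (nat_lit 194) (nat_lit 160) (nat_lit 6) (nat_lit 7) (nat_lit 11) L38598 (by decide +kernel)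
theorem L38600 : W_12 (nat_lit 6) (nat_lit 0x280004001b00080000000000000000000000000000000) (nat_lit 0x0) (nat_lit 0x4001f000140010000000018000000000000000000000000000000) := T_12 (nat_lit 192) (nat_lit 123) (nat_lit 4) (nat_lit 5) (nat_lit 11) L38599 (by decide +kernel)
theorem L38601 : W_12 (nat_lit 2) (nat_lit 0x280004001b00088000000000000000000000000000000) (nat_lit 0x0) (nat_lit 0x10000400020000000000000000000000) := D_12 (nat_lit 106) (nat_lit 124) (nat_lit 89) (nat_lit 4) (nat_lit 5) (nat_lit 10) (nat_lit 7) (nat_lit 4) (nat_lit 5) (by decide +kernel)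
theorem L38602 : W_12 (nat_lit 3) (nat_lit 0x280004001b00080000000000000000000000000000000) (nat_lit 0x0) (nat_lit 0x1000000000000000018000400020000000000000000000000) := T_12 (nat_lit 123) (nat_lit 192) (nat_lit 4) (nat_lit 5) (nat_lit 11) L38601 (by decide +kernel)
theorem L38603 : W_12 (nat_lit 2) (nat_lit 0x1f000280004001b00080000000000000000000000000000000) (nat_lit 0x0) (nat_lit 0x700000000000000000000000000000000000000000000000000000) := D_12 (nat_lit 213) (nat_lit 212) (nat_lit 214) (nat_lit 3) (nat_lit 5) (nat_lit 11) (nat_lit 3) (nat_lit 6) (nat_lit 11) (by decide +kernel)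
theorem L38604 : W_12 (nat_lit 3) (nat_lit 0xf000280004001b00080000000000000000000000000000000) (nat_lit 0x0) (nat_lit 0x700010000100000000000000000000000000000000000000000000) := T_12 (nat_lit 196) (nat_lit 176) (nat_lit 0) (nat_lit 9) (nat_lit 11) L38603 (by decide +kernel)
theorem L38605 : W_12 (nat_lit 4) (nat_lit 0x7000280004001b00080000000000000000000000000000000) (nat_lit 0x0) (nat_lit 0x700018000140000000000000000000000000000000000000000000) := T_12 (nat_lit 195) (nat_lit 174) (nat_lit 0) (nat_lit 8) (nat_lit 11) L38604 (by decide +kernel)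
theorem L38606 : W_12 (nat_lit 5) (nat_lit 0x5000280004001b00080000000000000000000000000000000) (nat_lit 0x0) (nat_lit 0x74001a000140000000000000000000000000000000000000000000) := T_12 (nat_lit 193) (nat_lit 210) (nat_lit 7) (nat_lit 5) (nat_lit 8) L38605 (by decide +kernel)
theorem L38607 : W_12 (nat_lit 6) (nat_lit 0x4000280004001b00080000000000000000000000000000000) (nat_lit 0x0) (nat_lit 0x74001b000140000000000008000000000000000000000000000000) := T_12 (nat_lit 192) (nat_lit 123) (nat_lit 4) (nat_lit 5) (nat_lit 11) L38606 (by decide +kernel)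
theorem L38608 : W_12 (nat_lit 7) (nat_lit 0x280004001b00080000000000000000000000000000000) (nat_lit 0x0) (nat_lit 0x74001f000140010000000008000000000000000000000000000000) := T_12 (nat_lit 194) (nat_lit 160) (nat_lit 6) (nat_lit 7) (nat_lit 11) L38607 (by decide +kernel)
theorem L38609 : W_12 (nat_lit 8) (nat_lit 0x200004001b00080000000000000000000000000000000) (nat_lit 0x0) (nat_lit 0x74001f0001c0038000000058000400020000000000000000000000) := Q_12 (nat_lit 175) (C_12 L38595 (C_12 L38600 (C_12 L38602 (C_12 L38608 (C_12 L38459 N_12))))) (by decide +kernel)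
theorem L38610 : W_12 (nat_lit 2) (nat_lit 0x380004001b000900008000a0000000000000000000000) (nat_lit 0x0) (nat_lit 0x40005000000000000000000) := D_12 (nat_lit 90) (nat_lit 74) (nat_lit 72) (nat_lit 6) (nat_lit 5) (nat_lit 8) (nat_lit 4) (nat_lit 5) (nat_lit 8) (by decide +kernel)
theorem L38611 : W_12 (nat_lit 3) (nat_lit 0x380004001b00090000800080000000000000000000000) (nat_lit 0x0) (nat_lit 0x400060005000000000000000000) := T_12 (nat_lit 89) (nat_lit 106) (nat_lit 4) (nat_lit 5) (nat_lit 9) L38610 (by decide +kernel)
theorem L38612 : W_12 (nat_lit 4) (nat_lit 0x380004001b00090000800000000000000000000000000) (nat_lit 0x0) (nat_lit 0x14000e0005000000000000000000) := T_12 (nat_lit 91) (nat_lit 108) (nat_lit 6) (nat_lit 5) (nat_lit 9) L38611 (by decide +kernel)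
theorem L38613 : W_12 (nat_lit 5) (nat_lit 0x380004001b00090000000000000000000000000000000) (nat_lit 0x0) (nat_lit 0x8000000000001c000e0005000000000000000000) := T_12 (nat_lit 107) (nat_lit 159) (nat_lit 7) (nat_lit 5) (nat_lit 6) L38612 (by decide +kernel)
theorem L38614 : W_12 (nat_lit 6) (nat_lit 0x280004001b00090000000000000000000000000000000) (nat_lit 0x0) (nat_lit 0x2000100008000000000001c000e0005000000000000000000) := T_12 (nat_lit 176) (nat_lit 193) (nat_lit 7) (nat_lit 5) (nat_lit 7) L38613 (by decide +kernel)
theorem L38615 : W_12 (nat_lit 2) (nat_lit 0x280004001b00090000c00000000000000000000000000) (nat_lit 0x0) (nat_lit 0x40002000000000000000040000000000000000000000) := D_12 (nat_lit 157) (nat_lit 90) (nat_lit 174) (nat_lit 5) (nat_lit 5) (nat_lit 5) (nat_lit 5) (nat_lit 5) (nat_lit 6) (by decide +kernel)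
theorem L38616 : W_12 (nat_lit 3) (nat_lit 0x280004001b00090000400000000000000000000000000) (nat_lit 0x0) (nat_lit 0x40002000000000000800060000000000000000000000) := T_12 (nat_lit 107) (nat_lit 89) (nat_lit 4) (nat_lit 5) (nat_lit 9) L38615 (by decide +kernel)
theorem L38617 : W_12 (nat_lit 4) (nat_lit 0x280004001b00090000000000000000000000000000000) (nat_lit 0x0) (nat_lit 0x40002000000008000c00060000000000000000000000) := T_12 (nat_lit 106) (nat_lit 123) (nat_lit 4) (nat_lit 5) (nat_lit 10) L38616 (by decide +kernel)
theorem L38618 : W_12 (nat_lit 2) (nat_lit 0xa0002000300009001780084000000000000000000000000000000) (nat_lit 0x0) (nat_lit 0x1400040000000000000000000000000000000000000000000000000000) := D_12 (nat_lit 210) (nat_lit 228) (nat_lit 226) (nat_lit 7) (nat_lit 6) (nat_lit 9) (nat_lit 5) (nat_lit 6) (nat_lit 9) (by decide +kernel)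
theorem L38619 : W_12 (nat_lit 3) (nat_lit 0x80002000300009001780084000000000000000000000000000000) (nat_lit 0x0) (nat_lit 0x1400060001000000000000000000000000000000000000000000000000) := T_12 (nat_lit 209) (nat_lit 192) (nat_lit 5) (nat_lit 6) (nat_lit 8) L38618 (by decide +kernel)
theorem L38620 : W_12 (nat_lit 4) (nat_lit 0x2000300009001780084000000000000000000000000000000) (nat_lit 0x0) (nat_lit 0x14000e0005000000000000000000000000000000000000000000000000) := T_12 (nat_lit 211) (nat_lit 194) (nat_lit 7) (nat_lit 6) (nat_lit 8) L38619 (by decide +kernel)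
theorem L38621 : W_12 (nat_lit 5) (nat_lit 0x2000300009001780080000000000000000000000000000000) (nat_lit 0x0) (nat_lit 0x14000e0005000000000000000006000000000000000000000000000000) := T_12 (nat_lit 122) (nat_lit 121) (nat_lit 0) (nat_lit 6) (nat_lit 8) L38620 (by decide +kernel)
theorem L38622 : W_12 (nat_lit 6) (nat_lit 0x300009001780080000000000000000000000000000000) (nat_lit 0x0) (nat_lit 0x14000e0007000000000000000016000000000000000000000000000000) := T_12 (nat_lit 193) (nat_lit 124) (nat_lit 4) (nat_lit 6) (nat_lit 11) L38621 (by decide +kernel)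
theorem L38623 : W_12 (nat_lit 7) (nat_lit 0x300008001780080000000000000000000000000000000) (nat_lit 0x0) (nat_lit 0x14000e0007000000001800000016000000000000000000000000000000) := T_12 (nat_lit 156) (nat_lit 155) (nat_lit 1) (nat_lit 6) (nat_lit 8) L38622 (by decide +kernel)
theorem L38624 : W_12 (nat_lit 10) (nat_lit 0x200008001780080000000000000000000000000000000) (nat_lit 0x0) (nat_lit 0x14000ec00760013000780000001e000600030000000000000000000000) := Q_12 (nat_lit 176) (C_12 L38165 (C_12 L38623 (C_12 L38162 (C_12 L38146 N_12)))) (by decide +kernel)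
theorem L38625 : W_12 (nat_lit 11) (nat_lit 0x200000001780080000000000000000000000000000000) (nat_lit 0x0) (nat_lit 0x14000ec00760013001f80000001e000600030000000000000000000000) := T_12 (nat_lit 159) (nat_lit 160) (nat_lit 3) (nat_lit 3) (nat_lit 8) L38624 (by decide +kernel)
theorem L38626 : W_12 (nat_lit 12) (nat_lit 0x200000001700080000000000000000000000000000000) (nat_lit 0x0) (nat_lit 0x14000ec00760013001fc000c001f000600030000000000000000000000) := Q_12 (nat_lit 139) (C_12 L38136 (C_12 L38115 (C_12 L38118 (C_12 L38625 N_12)))) (by decide +kernel)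
theorem L38627 : W_12 (nat_lit 13) (nat_lit 0x200000001300080000000000000000000000000000000) (nat_lit 0x0) (nat_lit 0x14000ec00760013001fc00cc015f000600030000000000000000000000) := Q_12 (nat_lit 142) (C_12 L38172 (C_12 L34313 (C_12 L38171 (C_12 L38626 N_12)))) (by decide +kernel)
theorem L38628 : W_12 (nat_lit 8) (nat_lit 0x200010001300080000000000000000000000000000000) (nat_lit 0x0) (nat_lit 0x200070003800180006000100028000800000000000000000000000000000000000) := T_12 (nat_lit 194) (nat_lit 143) (nat_lit 6) (nat_lit 7) (nat_lit 11) L38426 (by decide +kernel)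
theorem L38629 : W_12 (nat_lit 6) (nat_lit 0x200010001300080000000000000000000000000000000) (nat_lit 0x0) (nat_lit 0x500038001c0004000000020000800000000000000000000000000000000000) := T_12 (nat_lit 194) (nat_lit 143) (nat_lit 6) (nat_lit 7) (nat_lit 11) L37623 (by decide +kernel)
theorem L38632 : W_12 (nat_lit 2) (nat_lit 0x1800280014001300090000000000000000000000000000000) (nat_lit 0x0) (nat_lit 0x40002000100000000000000000000000000000000000000000000) := D_12 (nat_lit 193) (nat_lit 210) (nat_lit 176) (nat_lit 7) (nat_lit 5) (nat_lit 8) (nat_lit 7) (nat_lit 5) (nat_lit 7) (by decide +kernel)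
theorem L38633 : W_12 (nat_lit 3) (nat_lit 0x1800280014001300080000000000000000000000000000000) (nat_lit 0x0) (nat_lit 0x40002000140000000000010000000000000000000000000000000) := T_12 (nat_lit 124) (nat_lit 174) (nat_lit 5) (nat_lit 5) (nat_lit 7) L38632 (by decide +kernel)
theorem L38634 : W_12 (nat_lit 4) (nat_lit 0x1000280014001300080000000000000000000000000000000) (nat_lit 0x0) (nat_lit 0x50002800140000000000010000000000000000000000000000000) := T_12 (nat_lit 191) (nat_lit 208) (nat_lit 5) (nat_lit 5) (nat_lit 8) L38633 (by decide +kernel)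
theorem L38635 : W_12 (nat_lit 5) (nat_lit 0x280014001300080000000000000000000000000000000) (nat_lit 0x0) (nat_lit 0x50003800140000000000018000000000000000000000000000000) := T_12 (nat_lit 192) (nat_lit 123) (nat_lit 4) (nat_lit 5) (nat_lit 11) L38634 (by decide +kernel)
theorem L38636 : W_12 (nat_lit 5) (nat_lit 0x280014001300080000000000000000000000000000000) (nat_lit 0x0) (nat_lit 0xa00070003800140002000000010000000000000000000000000000000) := Q_12 (nat_lit 192) (C_12 L38634 (C_12 L36339 (C_12 L36886 N_12))) (by decide +kernel)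
theorem L38637 : W_12 (nat_lit 4) (nat_lit 0x280014001300080000000000000000000000000000000) (nat_lit 0x0) (nat_lit 0x200030001800000002000000008000000000000000000000000000000) := T_12 (nat_lit 192) (nat_lit 123) (nat_lit 4) (nat_lit 5) (nat_lit 11) L36886 (by decide +kernel)
theorem L38640 : W_12 (nat_lit 2) (nat_lit 0x2c0014001300090000800000000000000000000000000) (nat_lit 0x0) (nat_lit 0x8000400020000000000000000000000) := D_12 (nat_lit 106) (nat_lit 123) (nat_lit 89) (nat_lit 4) (nat_lit 5) (nat_lit 10) (nat_lit 4) (nat_lit 5) (nat_lit 9) (by decide +kernel)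
theorem L38641 : W_12 (nat_lit 3) (nat_lit 0x2c0014001300090000000000000000000000000000000) (nat_lit 0x0) (nat_lit 0x2000000008000c00020000000000000000000000) := T_12 (nat_lit 107) (nat_lit 157) (nat_lit 5) (nat_lit 5) (nat_lit 6) L38640 (by decide +kernel)
theorem L38642 : W_12 (nat_lit 4) (nat_lit 0x280014001300090000000000000000000000000000000) (nat_lit 0x0) (nat_lit 0x800040002000000008000c00020000000000000000000000) := T_12 (nat_lit 174) (nat_lit 191) (nat_lit 5) (nat_lit 5) (nat_lit 7) L38641 (by decide +kernel)
theorem L38645 : W_12 (nat_lit 4) (nat_lit 0x380014001300090000400000000000000000000000000) (nat_lit 0x0) (nat_lit 0x20000000000018000e0004000000000000000000) := T_12 (nat_lit 107) (nat_lit 89) (nat_lit 4) (nat_lit 5) (nat_lit 9) L38644 (by decide +kernel)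
theorem L38646 : W_12 (nat_lit 5) (nat_lit 0x380014001300090000000000000000000000000000000) (nat_lit 0x0) (nat_lit 0x2000000008001c000e0004000000000000000000) := T_12 (nat_lit 106) (nat_lit 123) (nat_lit 4) (nat_lit 5) (nat_lit 10) L38645 (by decide +kernel)
theorem L38647 : W_12 (nat_lit 6) (nat_lit 0x280014001300090000000000000000000000000000000) (nat_lit 0x0) (nat_lit 0x2000100002000000008001c000e0004000000000000000000) := T_12 (nat_lit 176) (nat_lit 193) (nat_lit 7) (nat_lit 5) (nat_lit 7) L38646 (by decide +kernel)
theorem L38648 : W_12 (nat_lit 7) (nat_lit 0x280014001300080000000000000000000000000000000) (nat_lit 0x0) (nat_lit 0x2800140022000000018001c000e0004000000000000000000) := Q_12 (nat_lit 124) (C_12 L38639 (C_12 L38642 (C_12 L38647 N_12))) (by decide +kernel)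
theorem L38649 : W_12 (nat_lit 8) (nat_lit 0x200014001300080000000000000000000000000000000) (nat_lit 0x0) (nat_lit 0xa000700038001c0022000000018001c000e0004000000000000000000) := Q_12 (nat_lit 175) (C_12 L36340 (C_12 L38635 (C_12 L38636 (C_12 L38637 (C_12 L38648 N_12))))) (by decide +kernel)
theorem L38651 : W_12 (nat_lit 3) (nat_lit 0x200014001300080000000000000000000000000000000) (nat_lit 0x0) (nat_lit 0x280004c0000000000000000000000000000000000) := T_12 (nat_lit 159) (nat_lit 161) (nat_lit 0) (nat_lit 8) (nat_lit 9) L38650 (by decide +kernel)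
theorem L38652 : W_12 (nat_lit 2) (nat_lit 0x2000140013e0082000000000000000000000000000000) (nat_lit 0x0) (nat_lit 0xe00000000000000000000000000000000000000) := D_12 (nat_lit 154) (nat_lit 153) (nat_lit 155) (nat_lit 1) (nat_lit 4) (nat_lit 8) (nat_lit 1) (nat_lit 5) (nat_lit 8) (by decide +kernel)
theorem L38653 : W_12 (nat_lit 3) (nat_lit 0x2000140013c0082000000000000000000000000000000) (nat_lit 0x0) (nat_lit 0x2e00020000000000000000000000000000000000) := T_12 (nat_lit 137) (nat_lit 157) (nat_lit 3) (nat_lit 1) (nat_lit 8) L38652 (by decide +kernel)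
theorem L38654 : W_12 (nat_lit 4) (nat_lit 0x2000140013c0080000000000000000000000000000000) (nat_lit 0x0) (nat_lit 0x2e00020003000000000000000000000000000000) := T_12 (nat_lit 121) (nat_lit 120) (nat_lit 0) (nat_lit 5) (nat_lit 8) L38653 (by decide +kernel)
theorem L38655 : W_12 (nat_lit 2) (nat_lit 0x2000148017c0082000000000000000000000000000000) (nat_lit 0x0) (nat_lit 0x800140000000000000000000000000000000) := D_12 (nat_lit 143) (nat_lit 126) (nat_lit 128) (nat_lit 2) (nat_lit 4) (nat_lit 8) (nat_lit 2) (nat_lit 5) (nat_lit 8) (by decide +kernel)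
theorem L38656 : W_12 (nat_lit 3) (nat_lit 0x2000148013c0082000000000000000000000000000000) (nat_lit 0x0) (nat_lit 0xc00144000000000000000000000000000000) := T_12 (nat_lit 142) (nat_lit 122) (nat_lit 0) (nat_lit 6) (nat_lit 8) L38655 (by decide +kernel)
theorem L38657 : W_12 (nat_lit 4) (nat_lit 0x2000140013c0082000000000000000000000000000000) (nat_lit 0x0) (nat_lit 0xc00c00144000000000000000000000000000000) := T_12 (nat_lit 155) (nat_lit 154) (nat_lit 1) (nat_lit 5) (nat_lit 8) L38656 (by decide +kernel)
theorem L38658 : W_12 (nat_lit 5) (nat_lit 0x2000140013c0080000000000000000000000000000000) (nat_lit 0x0) (nat_lit 0xc00c00147000000000000000000000000000000) := T_12 (nat_lit 121) (nat_lit 120) (nat_lit 0) (nat_lit 5) (nat_lit 8) L38657 (by decide +kernel)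
theorem L38659 : W_12 (nat_lit 2) (nat_lit 0x2000140013e008a000000000000000000000000000000) (nat_lit 0x0) (nat_lit 0x410004000000000000000000000000000000) := D_12 (nat_lit 122) (nat_lit 136) (nat_lit 142) (nat_lit 2) (nat_lit 0) (nat_lit 8) (nat_lit 0) (nat_lit 6) (nat_lit 8) (by decide +kernel)
theorem L38660 : W_12 (nat_lit 3) (nat_lit 0x2000140013e0082000000000000000000000000000000) (nat_lit 0x0) (nat_lit 0x41001c000000000000000000000000000000) := T_12 (nat_lit 123) (nat_lit 124) (nat_lit 2) (nat_lit 1) (nat_lit 8) L38659 (by decide +kernel)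
theorem L38661 : W_12 (nat_lit 4) (nat_lit 0x2000140013c0082000000000000000000000000000000) (nat_lit 0x0) (nat_lit 0x200043001c000000000000000000000000000000) := T_12 (nat_lit 137) (nat_lit 157) (nat_lit 3) (nat_lit 1) (nat_lit 8) L38660 (by decide +kernel)
theorem L38662 : W_12 (nat_lit 5) (nat_lit 0x2000140013c0080000000000000000000000000000000) (nat_lit 0x0) (nat_lit 0x200043001f000000000000000000000000000000) := T_12 (nat_lit 121) (nat_lit 120) (nat_lit 0) (nat_lit 5) (nat_lit 8) L38661 (by decide +kernel)
theorem L38663 : W_12 (nat_lit 2) (nat_lit 0x2000144013c0080000000000000000000000000000000) (nat_lit 0x0) (nat_lit 0x2200020000000000000000000000000000000000) := D_12 (nat_lit 137) (nat_lit 157) (nat_lit 153) (nat_lit 3) (nat_lit 1) (nat_lit 8) (nat_lit 1) (nat_lit 4) (nat_lit 8) (by decide +kernel)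
theorem L38664 : W_12 (nat_lit 3) (nat_lit 0x2000140013c0080000000000000000000000000000000) (nat_lit 0x0) (nat_lit 0x2e00020000000000000000000000000000000000) := T_12 (nat_lit 154) (nat_lit 155) (nat_lit 1) (nat_lit 5) (nat_lit 8) L38663 (by decide +kernel)
theorem L38665 : W_12 (nat_lit 6) (nat_lit 0x200014001380080000000000000000000000000000000) (nat_lit 0x0) (nat_lit 0x2e00c7015f000000000000000000000000000000) := Q_12 (nat_lit 138) (C_12 L38654 (C_12 L38658 (C_12 L38662 (C_12 L38664 N_12)))) (by decide +kernel)
theorem L38666 : W_12 (nat_lit 2) (nat_lit 0x200014001380080000000000000000000000000000000) (nat_lit 0x0) (nat_lit 0xa000040000000000000000000000000000000000) := D_12 (nat_lit 159) (nat_lit 157) (nat_lit 138) (nat_lit 0) (nat_lit 7) (nat_lit 9) (nat_lit 3) (nat_lit 2) (nat_lit 8) (by decide +kernel)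
theorem L38667 : W_12 (nat_lit 2) (nat_lit 0x200014001380080000000000000000000000000000000) (nat_lit 0x0) (nat_lit 0x8000440000000000000000000000000000000000) := D_12 (nat_lit 159) (nat_lit 142) (nat_lit 138) (nat_lit 3) (nat_lit 3) (nat_lit 8) (nat_lit 3) (nat_lit 2) (nat_lit 8) (by decide +kernel)
theorem L38668 : W_12 (nat_lit 2) (nat_lit 0x200014001380080000000000000000000000000000000) (nat_lit 0x0) (nat_lit 0xa000400000000000000000000000000000000000) := D_12 (nat_lit 159) (nat_lit 142) (nat_lit 157) (nat_lit 3) (nat_lit 3) (nat_lit 8) (nat_lit 0) (nat_lit 7) (nat_lit 9) (by decide +kernel)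
theorem L38669 : W_12 (nat_lit 7) (nat_lit 0x200014001300080000000000000000000000000000000) (nat_lit 0x0) (nat_lit 0xae00cf015f000000000000000000000000000000) := Q_12 (nat_lit 139) (C_12 L38665 (C_12 L38666 (C_12 L38667 (C_12 L38668 N_12)))) (by decide +kernel)
theorem L38670 : W_12 (nat_lit 9) (nat_lit 0x200010001300080000000000000000000000000000000) (nat_lit 0x0) (nat_lit 0xa000700038001c002ee00cf015f001c000e0004000000000000000000) := Q_12 (nat_lit 158) (C_12 L38631 (C_12 L38649 (C_12 L38651 (C_12 L38669 N_12)))) (by decide +kernel)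
theorem L38671 : W_12 (nat_lit 2) (nat_lit 0x2000148013c0086000000000000000000000000000000) (nat_lit 0x0) (nat_lit 0x10000000000000000200010000000000000000000000) := D_12 (nat_lit 105) (nat_lit 88) (nat_lit 172) (nat_lit 5) (nat_lit 3) (nat_lit 5) (nat_lit 6) (nat_lit 2) (nat_lit 10) (by decide +kernel)
theorem L38672 : W_12 (nat_lit 3) (nat_lit 0x2000148013c0082000000000000000000000000000000) (nat_lit 0x0) (nat_lit 0x10000000400004000200010000000000000000000000) := T_12 (nat_lit 122) (nat_lit 142) (nat_lit 0) (nat_lit 6) (nat_lit 8) L38671 (by decide +kernel)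
theorem L38673 : W_12 (nat_lit 4) (nat_lit 0x2000140013c0082000000000000000000000000000000) (nat_lit 0x0) (nat_lit 0x10000c00400004000200010000000000000000000000) := T_12 (nat_lit 155) (nat_lit 154) (nat_lit 1) (nat_lit 5) (nat_lit 8) L38672 (by decide +kernel)
theorem L38674 : W_12 (nat_lit 5) (nat_lit 0x2000140013c0080000000000000000000000000000000) (nat_lit 0x0) (nat_lit 0x10000c00400007000200010000000000000000000000) := T_12 (nat_lit 121) (nat_lit 120) (nat_lit 0) (nat_lit 5) (nat_lit 8) L38673 (by decide +kernel)
theorem L38675 : W_12 (nat_lit 6) (nat_lit 0x200014001380080000000000000000000000000000000) (nat_lit 0x0) (nat_lit 0x10002e0047001f000200010000000000000000000000) := Q_12 (nat_lit 138) (C_12 L38664 (C_12 L38674 (C_12 L38662 N_12))) (by decide +kernel)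
theorem L38676 : W_12 (nat_lit 7) (nat_lit 0x200014001300080000000000000000000000000000000) (nat_lit 0x0) (nat_lit 0x1000ae004f001f000200010000000000000000000000) := Q_12 (nat_lit 139) (C_12 L38675 (C_12 L38668 (C_12 L38667 (C_12 L38666 N_12)))) (by decide +kernel)
theorem L38677 : W_12 (nat_lit 9) (nat_lit 0x200010001300080000000000000000000000000000000) (nat_lit 0x0) (nat_lit 0xa000700038001d002ee004f001f001e000f0004000000000000000000) := Q_12 (nat_lit 158) (C_12 L38651 (C_12 L38649 (C_12 L38676 N_12))) (by decide +kernel)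
theorem L38678 : W_12 (nat_lit 2) (nat_lit 0x200010001b00080000000000000000000000000000000) (nat_lit 0x0) (nat_lit 0x400140000000000000000000000000000000) := D_12 (nat_lit 142) (nat_lit 128) (nat_lit 126) (nat_lit 2) (nat_lit 5) (nat_lit 8) (nat_lit 2) (nat_lit 4) (nat_lit 8) (by decide +kernel)
theorem L38679 : W_12 (nat_lit 3) (nat_lit 0x200010001300080000000000000000000000000000000) (nat_lit 0x0) (nat_lit 0x4000000000000c00140000000000000000000000000000000) := T_12 (nat_lit 143) (nat_lit 194) (nat_lit 6) (nat_lit 7) (nat_lit 11) L38678 (by decide +kernel)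
theorem L38680 : W_12 (nat_lit 10) (nat_lit 0x200000001300080000000000000000000000000000000) (nat_lit 0x0) (nat_lit 0x200070003a001f00078001d003ee00cf015f001e000f0004000000000000000000) := Q_12 (nat_lit 160) (C_12 L38628 (C_12 L38629 (C_12 L38670 (C_12 L38677 (C_12 L38679 N_12))))) (by decide +kernel)
theorem L38681 : W_12 (nat_lit 2) (nat_lit 0x4000200000001f00080000000000000000000000000000000) (nat_lit 0x0) (nat_lit 0x7000000000000000000000000000000000000000) := D_12 (nat_lit 157) (nat_lit 158) (nat_lit 156) (nat_lit 1) (nat_lit 8) (nat_lit 8) (nat_lit 1) (nat_lit 7) (nat_lit 8) (by decide +kernel)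
theorem L38682 : W_12 (nat_lit 3) (nat_lit 0x4000200000001b00080000000000000000000000000000000) (nat_lit 0x0) (nat_lit 0x7000400100000000000000000000000000000000) := T_12 (nat_lit 142) (nat_lit 128) (nat_lit 2) (nat_lit 5) (nat_lit 8) L38681 (by decide +kernel)
theorem L38683 : W_12 (nat_lit 4) (nat_lit 0x200000001b00080000000000000000000000000000000) (nat_lit 0x0) (nat_lit 0x4000000017000400100000000000000000000000000000000) := T_12 (nat_lit 194) (nat_lit 160) (nat_lit 6) (nat_lit 7) (nat_lit 11) L38682 (by decide +kernel)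
theorem L38684 : W_12 (nat_lit 13) (nat_lit 0x200000001300080000000000000000000000000000000) (nat_lit 0x0) (nat_lit 0xa0007000fe001f003f800cc01580018000e0007000080000000000000) := Q_12 (nat_lit 143) (C_12 L38589 (C_12 L35643 (C_12 L38683 N_12))) (by decide +kernel)
theorem L38685 : W_12 (nat_lit 2) (nat_lit 0x40003e0005001b00098000000000000000000000000000000) (nat_lit 0x0) (nat_lit 0x600000000000080000000000000000000000000000000000) := D_12 (nat_lit 190) (nat_lit 189) (nat_lit 139) (nat_lit 1) (nat_lit 6) (nat_lit 10) (nat_lit 6) (nat_lit 3) (nat_lit 11) (by decide +kernel)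
theorem L38686 : W_12 (nat_lit 3) (nat_lit 0x40003c0005001b00098000000000000000000000000000000) (nat_lit 0x0) (nat_lit 0x600020000800080000000000000000000000000000000000) := T_12 (nat_lit 173) (nat_lit 155) (nat_lit 0) (nat_lit 6) (nat_lit 10) L38685 (by decide +kernel)
theorem L38687 : W_12 (nat_lit 4) (nat_lit 0x40003c0005001b00090000000000000000000000000000000) (nat_lit 0x0) (nat_lit 0x600020000800080008000400000000000000000000000000) := T_12 (nat_lit 123) (nat_lit 106) (nat_lit 4) (nat_lit 5) (nat_lit 10) L38686 (by decide +kernel)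
theorem L38688 : W_12 (nat_lit 5) (nat_lit 0x40003c0004001b00090000000000000000000000000000000) (nat_lit 0x0) (nat_lit 0x600020003800080008000400000000000000000000000000) := T_12 (nat_lit 156) (nat_lit 157) (nat_lit 0) (nat_lit 7) (nat_lit 10) L38687 (by decide +kernel)
theorem L38689 : W_12 (nat_lit 6) (nat_lit 0x3c0004001b00090000000000000000000000000000000) (nat_lit 0x0) (nat_lit 0xc600020003800080008000400000000000000000000000000) := T_12 (nat_lit 194) (nat_lit 195) (nat_lit 3) (nat_lit 4) (nat_lit 10) L38688 (by decide +kernel)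
theorem L38690 : W_12 (nat_lit 7) (nat_lit 0x380004001b00090000000000000000000000000000000) (nat_lit 0x0) (nat_lit 0xce00060003800080008000400000000000000000000000000) := T_12 (nat_lit 174) (nat_lit 191) (nat_lit 5) (nat_lit 5) (nat_lit 7) L38689 (by decide +kernel)
theorem L38691 : W_12 (nat_lit 8) (nat_lit 0x280004001b00090000000000000000000000000000000) (nat_lit 0x0) (nat_lit 0xee00160003800080008000400000000000000000000000000) := T_12 (nat_lit 176) (nat_lit 193) (nat_lit 7) (nat_lit 5) (nat_lit 7) L38690 (by decide +kernel)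
theorem L38692 : W_12 (nat_lit 10) (nat_lit 0x280004001b00080000000000000000000000000000000) (nat_lit 0x0) (nat_lit 0xee0016000b800080018001c000e0007000080000000000000) := Q_12 (nat_lit 124) (C_12 L38578 (C_12 L38617 (C_12 L38614 (C_12 L38501 (C_12 L38691 N_12))))) (by decide +kernel)
theorem L38693 : W_12 (nat_lit 11) (nat_lit 0x200004001b00080000000000000000000000000000000) (nat_lit 0x0) (nat_lit 0xa0007000fe001e000b800080018001c000e0007000080000000000000) := Q_12 (nat_lit 175) (C_12 L38602 (C_12 L38492 (C_12 L38491 (C_12 L38692 N_12)))) (by decide +kernel)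
theorem L38694 : W_12 (nat_lit 12) (nat_lit 0x200000001b00080000000000000000000000000000000) (nat_lit 0x0) (nat_lit 0xa0077001fe001e003f800080058001c000e0007000080000000000000) := Q_12 (nat_lit 158) (C_12 L38430 (C_12 L38574 (C_12 L38609 (C_12 L38551 (C_12 L38693 N_12))))) (by decide +kernel)
theorem L38695 : W_12 (nat_lit 13) (nat_lit 0x200000001300080000000000000000000000000000000) (nat_lit 0x0) (nat_lit 0xa0077001fe001e003f800c8015c001c000e0007000080000000000000) := Q_12 (nat_lit 143) (C_12 L38694 (C_12 L38683 (C_12 L38107 (C_12 L35643 N_12)))) (by decide +kernel)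
theorem L38696 : W_12 (nat_lit 17) (nat_lit 0x200000001200080000000000000000000000000000000) (nat_lit 0x0) (nat_lit 0xa4007f003fc07ff01ff801fc03fe00df015f803fc01fe00fc001c0000000000000) := Q_12 (nat_lit 140) (C_12 L37499 (C_12 L37619 (C_12 L37858 (C_12 L38108 (C_12 L38138 (C_12 L38169 (C_12 L38201 (C_12 L38286 (C_12 L38428 (C_12 L38519 (C_12 L38590 (C_12 L38627 (C_12 L38680 (C_12 L38684 (C_12 L38695 N_12))))))))))))))) (by decide +kernel)
theorem L38705 : W_12 (nat_lit 5) (nat_lit 0x380004001200080000000000000000000000000000000) (nat_lit 0x0) (nat_lit 0xa00070003c00000008000500028000000000000000000000000000000) := Q_12 (nat_lit 192) (C_12 L38699 (C_12 L38701 (C_12 L38704 (C_12 L13788 N_12)))) (by decide +kernel)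
theorem L38706 : W_12 (nat_lit 2) (nat_lit 0x3800040012000b8000000000000000000000000000000) (nat_lit 0x0) (nat_lit 0x1000000000000500000000000000000000000000000000000) := D_12 (nat_lit 192) (nat_lit 142) (nat_lit 140) (nat_lit 6) (nat_lit 5) (nat_lit 11) (nat_lit 4) (nat_lit 5) (nat_lit 11) (by decide +kernel)
theorem L38707 : W_12 (nat_lit 3) (nat_lit 0x3800040012000b0000000000000000000000000000000) (nat_lit 0x0) (nat_lit 0x1000000000000500008000400000000000000000000000000) := T_12 (nat_lit 123) (nat_lit 106) (nat_lit 4) (nat_lit 5) (nat_lit 10) L38706 (by decide +kernel)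
theorem L38708 : W_12 (nat_lit 4) (nat_lit 0x380004001200090000000000000000000000000000000) (nat_lit 0x0) (nat_lit 0x1000000000000500028001400000000000000000000000000) := T_12 (nat_lit 125) (nat_lit 108) (nat_lit 6) (nat_lit 5) (nat_lit 10) L38707 (by decide +kernel)
theorem L38709 : W_12 (nat_lit 5) (nat_lit 0x380004001200080000000000000000000000000000000) (nat_lit 0x0) (nat_lit 0x3000000000000500038001400000000000000000000000000) := T_12 (nat_lit 124) (nat_lit 193) (nat_lit 7) (nat_lit 5) (nat_lit 7) L38708 (by decide +kernel)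
theorem L38711 : W_12 (nat_lit 2) (nat_lit 0x20001000380004001700080000000000000000000000000000000) (nat_lit 0x0) (nat_lit 0x200010000800000000000000000000000000000000000000000000000) := D_12 (nat_lit 208) (nat_lit 191) (nat_lit 225) (nat_lit 5) (nat_lit 5) (nat_lit 8) (nat_lit 5) (nat_lit 5) (nat_lit 9) (by decide +kernel)
theorem L38712 : W_12 (nat_lit 3) (nat_lit 0x1000380004001700080000000000000000000000000000000) (nat_lit 0x0) (nat_lit 0x200030000800000002000000000000000000000000000000000000000) := T_12 (nat_lit 209) (nat_lit 157) (nat_lit 4) (nat_lit 5) (nat_lit 12) L38711 (by decide +kernel)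
theorem L38713 : W_12 (nat_lit 4) (nat_lit 0x1000380004001300080000000000000000000000000000000) (nat_lit 0x0) (nat_lit 0x200030000800000002000400020000000000000000000000000000000) := T_12 (nat_lit 142) (nat_lit 125) (nat_lit 6) (nat_lit 5) (nat_lit 11) L38712 (by decide +kernel)
theorem L38714 : W_12 (nat_lit 5) (nat_lit 0x1000380004001200080000000000000000000000000000000) (nat_lit 0x0) (nat_lit 0x200030000800000002000500028000000000000000000000000000000) := T_12 (nat_lit 140) (nat_lit 123) (nat_lit 4) (nat_lit 5) (nat_lit 11) L38713 (by decide +kernel)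
theorem L38718 : W_12 (nat_lit 5) (nat_lit 0x1a00380004001200080000000000000000000000000000000) (nat_lit 0x0) (nat_lit 0x10000c0006000000000000a000100008000000000000000000000000000000) := T_12 (nat_lit 140) (nat_lit 123) (nat_lit 4) (nat_lit 5) (nat_lit 11) L38717 (by decide +kernel)
theorem L38719 : W_12 (nat_lit 6) (nat_lit 0x1800380004001200080000000000000000000000000000000) (nat_lit 0x0) (nat_lit 0x10000c0006000060000000a000100008000000000000000000000000000000) := T_12 (nat_lit 189) (nat_lit 190) (nat_lit 2) (nat_lit 2) (nat_lit 11) L38718 (by decide +kernel)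
theorem L38720 : W_12 (nat_lit 7) (nat_lit 0x1000380004001200080000000000000000000000000000000) (nat_lit 0x0) (nat_lit 0x10000c00070000e0000000a000100008000000000000000000000000000000) := T_12 (nat_lit 191) (nat_lit 208) (nat_lit 5) (nat_lit 5) (nat_lit 8) L38719 (by decide +kernel)
theorem L38721 : W_12 (nat_lit 2) (nat_lit 0x20001000380004001600080000000000000000000000000000000) (nat_lit 0x0) (nat_lit 0x2000100008000000000000000000000000000000) := D_12 (nat_lit 140) (nat_lit 123) (nat_lit 157) (nat_lit 4) (nat_lit 5) (nat_lit 11) (nat_lit 4) (nat_lit 5) (nat_lit 12) (by decide +kernel)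
theorem L38722 : W_12 (nat_lit 3) (nat_lit 0x1000380004001600080000000000000000000000000000000) (nat_lit 0x0) (nat_lit 0x2000000000000a000100008000000000000000000000000000000) := T_12 (nat_lit 209) (nat_lit 159) (nat_lit 6) (nat_lit 5) (nat_lit 12) L38721 (by decide +kernel)
theorem L38723 : W_12 (nat_lit 4) (nat_lit 0x1000380004001200080000000000000000000000000000000) (nat_lit 0x0) (nat_lit 0x2000000000000a000500028000000000000000000000000000000) := T_12 (nat_lit 142) (nat_lit 125) (nat_lit 6) (nat_lit 5) (nat_lit 11) L38722 (by decide +kernel)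
theorem L38724 : W_12 (nat_lit 2) (nat_lit 0x1a003800040012000b0000000000000000000000000000000) (nat_lit 0x0) (nat_lit 0x100008000400000000000000000000000000) := D_12 (nat_lit 123) (nat_lit 106) (nat_lit 140) (nat_lit 4) (nat_lit 5) (nat_lit 10) (nat_lit 4) (nat_lit 5) (nat_lit 11) (by decide +kernel)
theorem L38725 : W_12 (nat_lit 3) (nat_lit 0x1a003800040012000a0000000000000000000000000000000) (nat_lit 0x0) (nat_lit 0x100018001400000000000000000000000000) := T_12 (nat_lit 124) (nat_lit 108) (nat_lit 6) (nat_lit 5) (nat_lit 10) L38724 (by decide +kernel)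
theorem L38726 : W_12 (nat_lit 4) (nat_lit 0x18003800040012000a0000000000000000000000000000000) (nat_lit 0x0) (nat_lit 0x600000000000100018001400000000000000000000000000) := T_12 (nat_lit 189) (nat_lit 190) (nat_lit 2) (nat_lit 2) (nat_lit 11) L38725 (by decide +kernel)
theorem L38727 : W_12 (nat_lit 5) (nat_lit 0x10003800040012000a0000000000000000000000000000000) (nat_lit 0x0) (nat_lit 0x10000e00000000000100018001400000000000000000000000000) := T_12 (nat_lit 191) (nat_lit 208) (nat_lit 5) (nat_lit 5) (nat_lit 8) L38726 (by decide +kernel)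
theorem L38728 : W_12 (nat_lit 6) (nat_lit 0x1000380004001200080000000000000000000000000000000) (nat_lit 0x0) (nat_lit 0x10000e00000000000500038001400000000000000000000000000) := T_12 (nat_lit 125) (nat_lit 142) (nat_lit 6) (nat_lit 5) (nat_lit 11) L38727 (by decide +kernel)
theorem L38729 : W_12 (nat_lit 8) (nat_lit 0x380004001200080000000000000000000000000000000) (nat_lit 0x0) (nat_lit 0x10000e00070001e0000000a000500038001400000000000000000000000000) := Q_12 (nat_lit 192) (C_12 L38714 (C_12 L38720 (C_12 L38704 (C_12 L38723 (C_12 L38728 N_12))))) (by decide +kernel)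
theorem L38730 : W_12 (nat_lit 9) (nat_lit 0x380000001200080000000000000000000000000000000) (nat_lit 0x0) (nat_lit 0x10000e00070003e0000000e000500038001c000a0000000000000000000000) := Q_12 (nat_lit 158) (C_12 L38705 (C_12 L38709 (C_12 L13762 (C_12 L38710 (C_12 L38729 N_12))))) (by decide +kernel)
theorem L38731 : W_12 (nat_lit 2) (nat_lit 0x40003e0002001200080000000000000000000000000000000) (nat_lit 0x0) (nat_lit 0x38000000000000000000000000000000000000000) := D_12 (nat_lit 160) (nat_lit 159) (nat_lit 161) (nat_lit 2) (nat_lit 3) (nat_lit 10) (nat_lit 2) (nat_lit 4) (nat_lit 10) (by decide +kernel)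
theorem L38732 : W_12 (nat_lit 3) (nat_lit 0x40003c0002001200080000000000000000000000000000000) (nat_lit 0x0) (nat_lit 0x2000020038000000000000000000000000000000000000000) := T_12 (nat_lit 173) (nat_lit 193) (nat_lit 3) (nat_lit 3) (nat_lit 10) L38731 (by decide +kernel)
theorem L38733 : W_12 (nat_lit 4) (nat_lit 0x3c0002001200080000000000000000000000000000000) (nat_lit 0x0) (nat_lit 0xe000020038000000000000000000000000000000000000000) := T_12 (nat_lit 194) (nat_lit 195) (nat_lit 3) (nat_lit 4) (nat_lit 10) L38732 (by decide +kernel)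
theorem L38734 : W_12 (nat_lit 5) (nat_lit 0x3c0000001200080000000000000000000000000000000) (nat_lit 0x0) (nat_lit 0xe00002003b000000000000000000000000000000000000000) := T_12 (nat_lit 157) (nat_lit 156) (nat_lit 0) (nat_lit 7) (nat_lit 10) L38733 (by decide +kernel)
theorem L38735 : W_12 (nat_lit 2) (nat_lit 0x40003e0012001200080000000000000000000000000000000) (nat_lit 0x0) (nat_lit 0xe00000000000000000000000000000000000000000000000) := D_12 (nat_lit 190) (nat_lit 189) (nat_lit 191) (nat_lit 1) (nat_lit 6) (nat_lit 10) (nat_lit 1) (nat_lit 7) (nat_lit 10) (by decide +kernel)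
theorem L38736 : W_12 (nat_lit 3) (nat_lit 0x40003c0012001200080000000000000000000000000000000) (nat_lit 0x0) (nat_lit 0x2e00020000000000000000000000000000000000000000000) := T_12 (nat_lit 173) (nat_lit 193) (nat_lit 3) (nat_lit 3) (nat_lit 10) L38735 (by decide +kernel)
theorem L38737 : W_12 (nat_lit 4) (nat_lit 0x3c0012001200080000000000000000000000000000000) (nat_lit 0x0) (nat_lit 0xee00020000000000000000000000000000000000000000000) := T_12 (nat_lit 194) (nat_lit 195) (nat_lit 3) (nat_lit 4) (nat_lit 10) L38736 (by decide +kernel)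
theorem L38738 : W_12 (nat_lit 5) (nat_lit 0x3c0010001200080000000000000000000000000000000) (nat_lit 0x0) (nat_lit 0xee00020003000000000000000000000000000000000000000) := T_12 (nat_lit 157) (nat_lit 156) (nat_lit 0) (nat_lit 7) (nat_lit 10) L38737 (by decide +kernel)
theorem L38739 : W_12 (nat_lit 6) (nat_lit 0x3c0000001200080000000000000000000000000000000) (nat_lit 0x0) (nat_lit 0xee00020033000000000000000000000000000000000000000) := T_12 (nat_lit 160) (nat_lit 161) (nat_lit 2) (nat_lit 4) (nat_lit 10) L38738 (by decide +kernel)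
theorem L38743 : W_12 (nat_lit 2) (nat_lit 0x8003e0010001200080000000000000000000000000000000) (nat_lit 0x0) (nat_lit 0xe000000000000000000000000000000000000000000000000) := D_12 (nat_lit 194) (nat_lit 195) (nat_lit 193) (nat_lit 3) (nat_lit 4) (nat_lit 10) (nat_lit 3) (nat_lit 3) (nat_lit 10) (by decide +kernel)
theorem L38744 : W_12 (nat_lit 3) (nat_lit 0x8003c0010001200080000000000000000000000000000000) (nat_lit 0x0) (nat_lit 0xe000020008000000000000000000000000000000000000000) := T_12 (nat_lit 173) (nat_lit 159) (nat_lit 2) (nat_lit 3) (nat_lit 10) L38743 (by decide +kernel)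
theorem L38745 : W_12 (nat_lit 4) (nat_lit 0x8003c0000001200080000000000000000000000000000000) (nat_lit 0x0) (nat_lit 0xe000020038000000000000000000000000000000000000000) := T_12 (nat_lit 160) (nat_lit 161) (nat_lit 2) (nat_lit 4) (nat_lit 10) L38744 (by decide +kernel)
theorem L38746 : W_12 (nat_lit 5) (nat_lit 0x3c0000001200080000000000000000000000000000000) (nat_lit 0x0) (nat_lit 0xec00020038000000000000000000000000000000000000000) := T_12 (nat_lit 191) (nat_lit 190) (nat_lit 1) (nat_lit 7) (nat_lit 10) L38745 (by decide +kernel)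
theorem L38747 : W_12 (nat_lit 7) (nat_lit 0x380000001200080000000000000000000000000000000) (nat_lit 0x0) (nat_lit 0xee0006003f000100010000000000000000000000000000000) := Q_12 (nat_lit 174) (C_12 L38734 (C_12 L38739 (C_12 L38742 (C_12 L38746 N_12)))) (by decide +kernel)
theorem L38748 : W_12 (nat_lit 4) (nat_lit 0x3c0000001200080000000000000000000000000000000) (nat_lit 0x0) (nat_lit 0xee00020000000000000000000000000000000000000000000) := T_12 (nat_lit 194) (nat_lit 195) (nat_lit 3) (nat_lit 4) (nat_lit 10) L33520 (by decide +kernel)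
theorem L38749 : W_12 (nat_lit 2) (nat_lit 0x40003e0010001200080000000000000000000000000000000) (nat_lit 0x0) (nat_lit 0x3800000000000000000000000000000000000000) := D_12 (nat_lit 156) (nat_lit 157) (nat_lit 155) (nat_lit 0) (nat_lit 7) (nat_lit 10) (nat_lit 0) (nat_lit 6) (nat_lit 10) (by decide +kernel)
theorem L38750 : W_12 (nat_lit 3) (nat_lit 0x40003c0010001200080000000000000000000000000000000) (nat_lit 0x0) (nat_lit 0x2000020003800000000000000000000000000000000000000) := T_12 (nat_lit 173) (nat_lit 193) (nat_lit 3) (nat_lit 3) (nat_lit 10) L38749 (by decide +kernel)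
theorem L38751 : W_12 (nat_lit 4) (nat_lit 0x3c0010001200080000000000000000000000000000000) (nat_lit 0x0) (nat_lit 0xe000020003800000000000000000000000000000000000000) := T_12 (nat_lit 194) (nat_lit 195) (nat_lit 3) (nat_lit 4) (nat_lit 10) L38750 (by decide +kernel)
theorem L38752 : W_12 (nat_lit 5) (nat_lit 0x3c0000001200080000000000000000000000000000000) (nat_lit 0x0) (nat_lit 0xe000020033800000000000000000000000000000000000000) := T_12 (nat_lit 160) (nat_lit 161) (nat_lit 2) (nat_lit 4) (nat_lit 10) L38751 (by decide +kernel)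
theorem L38753 : W_12 (nat_lit 7) (nat_lit 0x380000001200080000000000000000000000000000000) (nat_lit 0x0) (nat_lit 0xee00060037800100010000000000000000000000000000000) := Q_12 (nat_lit 174) (C_12 L38739 (C_12 L38742 (C_12 L38748 (C_12 L38752 N_12)))) (by decide +kernel)
theorem L38755 : W_12 (nat_lit 4) (nat_lit 0x48003c0002001200080000000000000000000000000000000) (nat_lit 0x0) (nat_lit 0x20001000000030000100018000000000000000000000000000000) := T_12 (nat_lit 160) (nat_lit 161) (nat_lit 2) (nat_lit 4) (nat_lit 10) L38754 (by decide +kernel)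
theorem L38756 : W_12 (nat_lit 5) (nat_lit 0x48003c0000001200080000000000000000000000000000000) (nat_lit 0x0) (nat_lit 0x20001000000033000100018000000000000000000000000000000) := T_12 (nat_lit 157) (nat_lit 156) (nat_lit 0) (nat_lit 7) (nat_lit 10) L38755 (by decide +kernel)
theorem L38757 : W_12 (nat_lit 6) (nat_lit 0x8003c0000001200080000000000000000000000000000000) (nat_lit 0x0) (nat_lit 0x2000d000000033000100018000000000000000000000000000000) := T_12 (nat_lit 194) (nat_lit 195) (nat_lit 3) (nat_lit 4) (nat_lit 10) L38756 (by decide +kernel)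
theorem L38758 : W_12 (nat_lit 7) (nat_lit 0x3c0000001200080000000000000000000000000000000) (nat_lit 0x0) (nat_lit 0x2000dc00000033000100018000000000000000000000000000000) := T_12 (nat_lit 191) (nat_lit 190) (nat_lit 1) (nat_lit 7) (nat_lit 10) L38757 (by decide +kernel)
theorem L38759 : W_12 (nat_lit 8) (nat_lit 0x380000001200080000000000000000000000000000000) (nat_lit 0x0) (nat_lit 0x2000fe0006003b800100018000000000000000000000000000000) := Q_12 (nat_lit 174) (C_12 L38752 (C_12 L38748 (C_12 L33505 (C_12 L38758 N_12)))) (by decide +kernel)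
theorem L38760 : W_12 (nat_lit 2) (nat_lit 0x180068003c0012001200080000000000000000000000000000000) (nat_lit 0x0) (nat_lit 0x400060000000000000000000000000000000000000000000000000000) := D_12 (nat_lit 209) (nat_lit 226) (nat_lit 210) (nat_lit 7) (nat_lit 4) (nat_lit 9) (nat_lit 2) (nat_lit 3) (nat_lit 12) (by decide +kernel)
theorem L38761 : W_12 (nat_lit 3) (nat_lit 0x180048003c0012001200080000000000000000000000000000000) (nat_lit 0x0) (nat_lit 0x400060003000000000000000000000000000000000000000000000000) := T_12 (nat_lit 193) (nat_lit 192) (nat_lit 1) (nat_lit 7) (nat_lit 11) L38760 (by decide +kernel)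
theorem L38762 : W_12 (nat_lit 4) (nat_lit 0x100048003c0012001200080000000000000000000000000000000) (nat_lit 0x0) (nat_lit 0x500068003000000000000000000000000000000000000000000000000) := T_12 (nat_lit 207) (nat_lit 224) (nat_lit 5) (nat_lit 4) (nat_lit 9) L38761 (by decide +kernel)
theorem L38763 : W_12 (nat_lit 5) (nat_lit 0x48003c0012001200080000000000000000000000000000000) (nat_lit 0x0) (nat_lit 0x500078003000000004000000000000000000000000000000000000000) := T_12 (nat_lit 208) (nat_lit 158) (nat_lit 6) (nat_lit 4) (nat_lit 12) L38762 (by decide +kernel)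
theorem L38764 : W_12 (nat_lit 6) (nat_lit 0x40003c0012001200080000000000000000000000000000000) (nat_lit 0x0) (nat_lit 0x500078003c00000004000000000000000000000000000000000000000) := T_12 (nat_lit 191) (nat_lit 190) (nat_lit 1) (nat_lit 7) (nat_lit 10) L38763 (by decide +kernel)
theorem L38765 : W_12 (nat_lit 7) (nat_lit 0x3c0012001200080000000000000000000000000000000) (nat_lit 0x0) (nat_lit 0x50007800fc00000004000000000000000000000000000000000000000) := T_12 (nat_lit 194) (nat_lit 195) (nat_lit 3) (nat_lit 4) (nat_lit 10) L38764 (by decide +kernel)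
theorem L38766 : W_12 (nat_lit 8) (nat_lit 0x3c0002001200080000000000000000000000000000000) (nat_lit 0x0) (nat_lit 0x50007800fc00000034000000000000000000000000000000000000000) := T_12 (nat_lit 160) (nat_lit 161) (nat_lit 2) (nat_lit 4) (nat_lit 10) L38765 (by decide +kernel)
theorem L38767 : W_12 (nat_lit 9) (nat_lit 0x3c0000001200080000000000000000000000000000000) (nat_lit 0x0) (nat_lit 0x50007800fc00000037000000000000000000000000000000000000000) := T_12 (nat_lit 157) (nat_lit 156) (nat_lit 0) (nat_lit 7) (nat_lit 10) L38766 (by decide +kernel)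
theorem L38768 : W_12 (nat_lit 10) (nat_lit 0x380000001200080000000000000000000000000000000) (nat_lit 0x0) (nat_lit 0x50007800fe0006003f800000000000000000000000000000000000000) := Q_12 (nat_lit 174) (C_12 L33505 (C_12 L38752 (C_12 L38748 (C_12 L38767 N_12)))) (by decide +kernel)
theorem L38773 : W_12 (nat_lit 6) (nat_lit 0x8003c0000001200080000000000000000000000000000000) (nat_lit 0x0) (nat_lit 0x20001000100002003d800000010000000000000000000000000000000) := T_12 (nat_lit 160) (nat_lit 161) (nat_lit 2) (nat_lit 4) (nat_lit 10) L38772 (by decide +kernel)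
theorem L38774 : W_12 (nat_lit 7) (nat_lit 0x3c0000001200080000000000000000000000000000000) (nat_lit 0x0) (nat_lit 0x200010001c0002003d800000010000000000000000000000000000000) := T_12 (nat_lit 191) (nat_lit 190) (nat_lit 1) (nat_lit 7) (nat_lit 10) L38773 (by decide +kernel)
theorem L38775 : W_12 (nat_lit 2) (nat_lit 0x48003c0014001200080000000000000000000000000000000) (nat_lit 0x0) (nat_lit 0x200010001000000000000000000000000000000000000000000000000) := D_12 (nat_lit 208) (nat_lit 192) (nat_lit 225) (nat_lit 5) (nat_lit 5) (nat_lit 8) (nat_lit 6) (nat_lit 4) (nat_lit 13) (by decide +kernel)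
theorem L38776 : W_12 (nat_lit 3) (nat_lit 0x48003c0010001200080000000000000000000000000000000) (nat_lit 0x0) (nat_lit 0x200010001000000004000000010000000000000000000000000000000) := T_12 (nat_lit 158) (nat_lit 124) (nat_lit 5) (nat_lit 5) (nat_lit 7) L38775 (by decide +kernel)
theorem L38777 : W_12 (nat_lit 4) (nat_lit 0x8003c0010001200080000000000000000000000000000000) (nat_lit 0x0) (nat_lit 0x20001000d000000004000000010000000000000000000000000000000) := T_12 (nat_lit 194) (nat_lit 195) (nat_lit 3) (nat_lit 4) (nat_lit 10) L38776 (by decide +kernel)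
theorem L38778 : W_12 (nat_lit 5) (nat_lit 0x3c0010001200080000000000000000000000000000000) (nat_lit 0x0) (nat_lit 0x20001000dc00000004000000010000000000000000000000000000000) := T_12 (nat_lit 191) (nat_lit 190) (nat_lit 1) (nat_lit 7) (nat_lit 10) L38777 (by decide +kernel)
theorem L38779 : W_12 (nat_lit 6) (nat_lit 0x3c0000001200080000000000000000000000000000000) (nat_lit 0x0) (nat_lit 0x20001000dc00000034000000010000000000000000000000000000000) := T_12 (nat_lit 160) (nat_lit 161) (nat_lit 2) (nat_lit 4) (nat_lit 10) L38778 (by decide +kernel)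
theorem L38780 : W_12 (nat_lit 8) (nat_lit 0x380000001200080000000000000000000000000000000) (nat_lit 0x0) (nat_lit 0x20001000fe0006003d800000010000000000000000000000000000000) := Q_12 (nat_lit 174) (C_12 L38748 (C_12 L38774 (C_12 L33471 (C_12 L38779 N_12)))) (by decide +kernel)
theorem L38781 : W_12 (nat_lit 2) (nat_lit 0x42003f00168012000b8000000000000000000000000000000) (nat_lit 0x0) (nat_lit 0x1000000000000500000000000000000000000000000000000) := D_12 (nat_lit 192) (nat_lit 140) (nat_lit 142) (nat_lit 7) (nat_lit 4) (nat_lit 7) (nat_lit 6) (nat_lit 5) (nat_lit 11) (by decide +kernel)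
theorem L38782 : W_12 (nat_lit 3) (nat_lit 0x42003f0016801200098000000000000000000000000000000) (nat_lit 0x0) (nat_lit 0x1000000000000500020001000000000000000000000000000) := T_12 (nat_lit 125) (nat_lit 108) (nat_lit 6) (nat_lit 5) (nat_lit 10) L38781 (by decide +kernel)
theorem L38783 : W_12 (nat_lit 4) (nat_lit 0x42003f0016801200090000000000000000000000000000000) (nat_lit 0x0) (nat_lit 0x1000000000000500028001400000000000000000000000000) := T_12 (nat_lit 123) (nat_lit 106) (nat_lit 4) (nat_lit 5) (nat_lit 10) L38782 (by decide +kernel)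
theorem L38784 : W_12 (nat_lit 5) (nat_lit 0x42003f0016801200080000000000000000000000000000000) (nat_lit 0x0) (nat_lit 0x1000000000000500038001c00000000000000000000000000) := T_12 (nat_lit 124) (nat_lit 107) (nat_lit 5) (nat_lit 5) (nat_lit 6) L38783 (by decide +kernel)
theorem L38785 : W_12 (nat_lit 6) (nat_lit 0x42003f0012801200080000000000000000000000000000000) (nat_lit 0x0) (nat_lit 0x1000008004000500038001c00000000000000000000000000) := T_12 (nat_lit 158) (nat_lit 171) (nat_lit 2) (nat_lit 1) (nat_lit 10) L38784 (by decide +kernel)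
theorem L38786 : W_12 (nat_lit 7) (nat_lit 0x42003f0012001200080000000000000000000000000000000) (nat_lit 0x0) (nat_lit 0x1000008004c00500038001c00000000000000000000000000) := T_12 (nat_lit 155) (nat_lit 154) (nat_lit 0) (nat_lit 5) (nat_lit 10) L38785 (by decide +kernel)
theorem L38787 : W_12 (nat_lit 8) (nat_lit 0x42003e0012001200080000000000000000000000000000000) (nat_lit 0x0) (nat_lit 0x1100018004c00500038001c00000000000000000000000000) := T_12 (nat_lit 172) (nat_lit 188) (nat_lit 1) (nat_lit 5) (nat_lit 10) L38786 (by decide +kernel)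
theorem L38788 : W_12 (nat_lit 9) (nat_lit 0x40003e0012001200080000000000000000000000000000000) (nat_lit 0x0) (nat_lit 0x1700018004c00500038001c00000000000000000000000000) := T_12 (nat_lit 189) (nat_lit 190) (nat_lit 1) (nat_lit 6) (nat_lit 10) L38787 (by decide +kernel)
theorem L38789 : W_12 (nat_lit 10) (nat_lit 0x40003c0012001200080000000000000000000000000000000) (nat_lit 0x0) (nat_lit 0x170003800cc00500038001c00000000000000000000000000) := T_12 (nat_lit 173) (nat_lit 159) (nat_lit 2) (nat_lit 3) (nat_lit 10) L38788 (by decide +kernel)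
theorem L38790 : W_12 (nat_lit 11) (nat_lit 0x40003c0002001200080000000000000000000000000000000) (nat_lit 0x0) (nat_lit 0x170003803cc00500038001c00000000000000000000000000) := T_12 (nat_lit 160) (nat_lit 161) (nat_lit 2) (nat_lit 4) (nat_lit 10) L38789 (by decide +kernel)
theorem L38791 : W_12 (nat_lit 12) (nat_lit 0x3c0002001200080000000000000000000000000000000) (nat_lit 0x0) (nat_lit 0xd70003803cc00500038001c00000000000000000000000000) := T_12 (nat_lit 194) (nat_lit 195) (nat_lit 3) (nat_lit 4) (nat_lit 10) L38790 (by decide +kernel)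
theorem L38792 : W_12 (nat_lit 13) (nat_lit 0x3c0000001200080000000000000000000000000000000) (nat_lit 0x0) (nat_lit 0xd70003803fc00500038001c00000000000000000000000000) := T_12 (nat_lit 157) (nat_lit 156) (nat_lit 0) (nat_lit 7) (nat_lit 10) L38791 (by decide +kernel)
theorem L38793 : W_12 (nat_lit 14) (nat_lit 0x380000001200080000000000000000000000000000000) (nat_lit 0x0) (nat_lit 0x20003000df0007803fc00500038001c00000000000000000000000000) := Q_12 (nat_lit 174) (C_12 L38758 (C_12 L38779 (C_12 L38742 (C_12 L33505 (C_12 L38792 (C_12 L33514 N_12)))))) (by decide +kernel)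
theorem L38794 : W_12 (nat_lit 2) (nat_lit 0x380008001600080000000000000000000000000000000) (nat_lit 0x0) (nat_lit 0x5000000000000000020000000000000000000000000000000) := D_12 (nat_lit 125) (nat_lit 192) (nat_lit 194) (nat_lit 5) (nat_lit 6) (nat_lit 7) (nat_lit 7) (nat_lit 6) (nat_lit 7) (by decide +kernel)
theorem L38797 : W_12 (nat_lit 2) (nat_lit 0x7000380008001600080000000000000000000000000000000) (nat_lit 0x0) (nat_lit 0x8000060000000000000000000000000000000000000000000) := D_12 (nat_lit 174) (nat_lit 195) (nat_lit 173) (nat_lit 3) (nat_lit 4) (nat_lit 10) (nat_lit 3) (nat_lit 3) (nat_lit 10) (by decide +kernel)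
theorem L38798 : W_12 (nat_lit 3) (nat_lit 0x3000380008001600080000000000000000000000000000000) (nat_lit 0x0) (nat_lit 0x8000c000060000000000000000000000000000000000000000000) := T_12 (nat_lit 194) (nat_lit 211) (nat_lit 7) (nat_lit 6) (nat_lit 8) L38797 (by decide +kernel)
theorem L38799 : W_12 (nat_lit 4) (nat_lit 0x2000380008001600080000000000000000000000000000000) (nat_lit 0x0) (nat_lit 0xa000d000060000000000000000000000000000000000000000000) := T_12 (nat_lit 192) (nat_lit 209) (nat_lit 5) (nat_lit 6) (nat_lit 8) L38798 (by decide +kernel)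
theorem L38800 : W_12 (nat_lit 5) (nat_lit 0x380008001600080000000000000000000000000000000) (nat_lit 0x0) (nat_lit 0xa000f000060000000000010000000000000000000000000000000) := T_12 (nat_lit 193) (nat_lit 124) (nat_lit 4) (nat_lit 6) (nat_lit 11) L38799 (by decide +kernel)
theorem L38801 : W_12 (nat_lit 2) (nat_lit 0x2000380008001600080000000000000000000000000000000) (nat_lit 0x0) (nat_lit 0x80004000000000000000020000000000000000000000000000000) := D_12 (nat_lit 194) (nat_lit 125) (nat_lit 211) (nat_lit 7) (nat_lit 6) (nat_lit 7) (nat_lit 7) (nat_lit 6) (nat_lit 8) (by decide +kernel)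
theorem L38802 : W_12 (nat_lit 3) (nat_lit 0x380008001600080000000000000000000000000000000) (nat_lit 0x0) (nat_lit 0x80006000000000000000030000000000000000000000000000000) := T_12 (nat_lit 193) (nat_lit 124) (nat_lit 4) (nat_lit 6) (nat_lit 11) L38801 (by decide +kernel)
theorem L38803 : W_12 (nat_lit 6) (nat_lit 0x380008001200080000000000000000000000000000000) (nat_lit 0x0) (nat_lit 0xa000f000060000000400030000000000000000000000000000000) := Q_12 (nat_lit 142) (C_12 L38794 (C_12 L38796 (C_12 L38800 (C_12 L38802 N_12)))) (by decide +kernel)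
theorem L38804 : W_12 (nat_lit 2) (nat_lit 0x3c0008001200080000000000000000000000000000000) (nat_lit 0x0) (nat_lit 0x20030000000000000000000000000000000000000000) := D_12 (nat_lit 160) (nat_lit 173) (nat_lit 161) (nat_lit 2) (nat_lit 3) (nat_lit 10) (nat_lit 2) (nat_lit 4) (nat_lit 10) (by decide +kernel)
theorem L38805 : W_12 (nat_lit 2) (nat_lit 0x40003f000a001200080000000000000000000000000000000) (nat_lit 0x0) (nat_lit 0x700000000000000000000000000000000000000000000000) := D_12 (nat_lit 189) (nat_lit 188) (nat_lit 190) (nat_lit 1) (nat_lit 5) (nat_lit 10) (nat_lit 1) (nat_lit 6) (nat_lit 10) (by decide +kernel)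
theorem L38806 : W_12 (nat_lit 3) (nat_lit 0x40003e000a001200080000000000000000000000000000000) (nat_lit 0x0) (nat_lit 0x700010004000000000000000000000000000000000000000) := T_12 (nat_lit 172) (nat_lit 158) (nat_lit 2) (nat_lit 2) (nat_lit 10) L38805 (by decide +kernel)
theorem L38807 : W_12 (nat_lit 4) (nat_lit 0x40003c000a001200080000000000000000000000000000000) (nat_lit 0x0) (nat_lit 0x2700030004000000000000000000000000000000000000000) := T_12 (nat_lit 173) (nat_lit 193) (nat_lit 3) (nat_lit 3) (nat_lit 10) L38806 (by decide +kernel)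
theorem L38808 : W_12 (nat_lit 5) (nat_lit 0x3c000a001200080000000000000000000000000000000) (nat_lit 0x0) (nat_lit 0xe700030004000000000000000000000000000000000000000) := T_12 (nat_lit 194) (nat_lit 195) (nat_lit 3) (nat_lit 4) (nat_lit 10) L38807 (by decide +kernel)
theorem L38809 : W_12 (nat_lit 6) (nat_lit 0x3c0008001200080000000000000000000000000000000) (nat_lit 0x0) (nat_lit 0xe700030007000000000000000000000000000000000000000) := T_12 (nat_lit 157) (nat_lit 156) (nat_lit 0) (nat_lit 7) (nat_lit 10) L38808 (by decide +kernel)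
theorem L38810 : W_12 (nat_lit 2) (nat_lit 0x40003c0018001200080000000000000000000000000000000) (nat_lit 0x0) (nat_lit 0x1000080000000000000000400000000000000000000000000000000000) := D_12 (nat_lit 211) (nat_lit 142) (nat_lit 228) (nat_lit 4) (nat_lit 7) (nat_lit 12) (nat_lit 4) (nat_lit 7) (nat_lit 13) (by decide +kernel)
theorem L38811 : W_12 (nat_lit 3) (nat_lit 0x40003c0008001200080000000000000000000000000000000) (nat_lit 0x0) (nat_lit 0x1000080000000000030000400000000000000000000000000000000000) := T_12 (nat_lit 160) (nat_lit 161) (nat_lit 2) (nat_lit 4) (nat_lit 10) L38810 (by decide +kernel)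
theorem L38812 : W_12 (nat_lit 4) (nat_lit 0x3c0008001200080000000000000000000000000000000) (nat_lit 0x0) (nat_lit 0x100008000c000000030000400000000000000000000000000000000000) := T_12 (nat_lit 194) (nat_lit 195) (nat_lit 3) (nat_lit 4) (nat_lit 10) L38811 (by decide +kernel)
theorem L38813 : W_12 (nat_lit 7) (nat_lit 0x380008001200080000000000000000000000000000000) (nat_lit 0x0) (nat_lit 0x100008000e700070037000400000000000000000000000000000000000) := Q_12 (nat_lit 174) (C_12 L38804 (C_12 L38809 (C_12 L38812 N_12))) (by decide +kernel)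
theorem L38814 : W_12 (nat_lit 2) (nat_lit 0x60003c001a001600080000000000000000000000000000000) (nat_lit 0x0) (nat_lit 0x800040000000000004000000000000000000000000000000000000000) := D_12 (nat_lit 210) (nat_lit 158) (nat_lit 227) (nat_lit 4) (nat_lit 6) (nat_lit 12) (nat_lit 6) (nat_lit 6) (nat_lit 13) (by decide +kernel)
theorem L38815 : W_12 (nat_lit 3) (nat_lit 0x40003c001a001600080000000000000000000000000000000) (nat_lit 0x0) (nat_lit 0x800040002000000004000000010000000000000000000000000000000) := T_12 (nat_lit 193) (nat_lit 124) (nat_lit 4) (nat_lit 6) (nat_lit 11) L38814 (by decide +kernel)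
theorem L38816 : W_12 (nat_lit 4) (nat_lit 0x40003c001a001200080000000000000000000000000000000) (nat_lit 0x0) (nat_lit 0x800040002000000004000400030000000000000000000000000000000) := T_12 (nat_lit 142) (nat_lit 125) (nat_lit 7) (nat_lit 6) (nat_lit 7) L38815 (by decide +kernel)
theorem L38817 : W_12 (nat_lit 5) (nat_lit 0x3c001a001200080000000000000000000000000000000) (nat_lit 0x0) (nat_lit 0x80004000e000000004000400030000000000000000000000000000000) := T_12 (nat_lit 194) (nat_lit 195) (nat_lit 3) (nat_lit 4) (nat_lit 10) L38816 (by decide +kernel)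
theorem L38818 : W_12 (nat_lit 6) (nat_lit 0x3c000a001200080000000000000000000000000000000) (nat_lit 0x0) (nat_lit 0x80004000e000000034000400030000000000000000000000000000000) := T_12 (nat_lit 160) (nat_lit 161) (nat_lit 2) (nat_lit 4) (nat_lit 10) L38817 (by decide +kernel)
theorem L38819 : W_12 (nat_lit 7) (nat_lit 0x3c0008001200080000000000000000000000000000000) (nat_lit 0x0) (nat_lit 0x80004000e000000037000400030000000000000000000000000000000) := T_12 (nat_lit 157) (nat_lit 156) (nat_lit 0) (nat_lit 7) (nat_lit 10) L38818 (by decide +kernel)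
theorem L38820 : W_12 (nat_lit 8) (nat_lit 0x380008001200080000000000000000000000000000000) (nat_lit 0x0) (nat_lit 0x80004000e700070037000400030000000000000000000000000000000) := Q_12 (nat_lit 174) (C_12 L38809 (C_12 L38804 (C_12 L38819 N_12))) (by decide +kernel)
theorem L38821 : W_12 (nat_lit 2) (nat_lit 0x1c00060003c001a001200080000000000000000000000000000000) (nat_lit 0x0) (nat_lit 0x600001000000000000000000000000000000000000000000000000) := D_12 (nat_lit 213) (nat_lit 214) (nat_lit 192) (nat_lit 0) (nat_lit 10) (nat_lit 12) (nat_lit 0) (nat_lit 9) (nat_lit 12) (by decide +kernel)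
theorem L38822 : W_12 (nat_lit 3) (nat_lit 0xc00060003c001a001200080000000000000000000000000000000) (nat_lit 0x0) (nat_lit 0x2000700001000000000000000000000000000000000000000000000000) := T_12 (nat_lit 212) (nat_lit 229) (nat_lit 7) (nat_lit 7) (nat_lit 9) L38821 (by decide +kernel)
theorem L38823 : W_12 (nat_lit 4) (nat_lit 0xc00040003c001a001200080000000000000000000000000000000) (nat_lit 0x0) (nat_lit 0x2000700003000000004000000000000000000000000000000000000000) := T_12 (nat_lit 193) (nat_lit 158) (nat_lit 4) (nat_lit 6) (nat_lit 12) L38822 (by decide +kernel)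
theorem L38824 : W_12 (nat_lit 5) (nat_lit 0x800040003c001a001200080000000000000000000000000000000) (nat_lit 0x0) (nat_lit 0x2800740003000000004000000000000000000000000000000000000000) := T_12 (nat_lit 210) (nat_lit 227) (nat_lit 5) (nat_lit 7) (nat_lit 9) L38823 (by decide +kernel)
theorem L38825 : W_12 (nat_lit 6) (nat_lit 0x40003c001a001200080000000000000000000000000000000) (nat_lit 0x0) (nat_lit 0x38007c0003000000004000000000000000000000000000000000000000) := T_12 (nat_lit 211) (nat_lit 228) (nat_lit 4) (nat_lit 7) (nat_lit 13) L38824 (by decide +kernel)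
theorem L38826 : W_12 (nat_lit 7) (nat_lit 0x3c001a001200080000000000000000000000000000000) (nat_lit 0x0) (nat_lit 0x38007c000f000000004000000000000000000000000000000000000000) := T_12 (nat_lit 194) (nat_lit 195) (nat_lit 3) (nat_lit 4) (nat_lit 10) L38825 (by decide +kernel)
theorem L38827 : W_12 (nat_lit 8) (nat_lit 0x3c000a001200080000000000000000000000000000000) (nat_lit 0x0) (nat_lit 0x38007c000f000000034000000000000000000000000000000000000000) := T_12 (nat_lit 160) (nat_lit 161) (nat_lit 2) (nat_lit 4) (nat_lit 10) L38826 (by decide +kernel)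
theorem L38828 : W_12 (nat_lit 9) (nat_lit 0x3c0008001200080000000000000000000000000000000) (nat_lit 0x0) (nat_lit 0x38007c000f000000037000000000000000000000000000000000000000) := T_12 (nat_lit 157) (nat_lit 156) (nat_lit 0) (nat_lit 7) (nat_lit 10) L38827 (by decide +kernel)
theorem L38829 : W_12 (nat_lit 10) (nat_lit 0x380008001200080000000000000000000000000000000) (nat_lit 0x0) (nat_lit 0x38007c000f700070037000000000000000000000000000000000000000) := Q_12 (nat_lit 174) (C_12 L38809 (C_12 L38804 (C_12 L38828 N_12))) (by decide +kernel)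
theorem L38830 : W_12 (nat_lit 2) (nat_lit 0x2000380008001200080000000000000000000000000000000) (nat_lit 0x0) (nat_lit 0x4000400010000000000000000000000000000000) := D_12 (nat_lit 124) (nat_lit 142) (nat_lit 158) (nat_lit 4) (nat_lit 6) (nat_lit 11) (nat_lit 7) (nat_lit 5) (nat_lit 7) (by decide +kernel)
theorem L38831 : W_12 (nat_lit 3) (nat_lit 0x2000380008001200080000000000000000000000000000000) (nat_lit 0x0) (nat_lit 0x20001000000000000400030000000000000000000000000000000) := T_12 (nat_lit 142) (nat_lit 124) (nat_lit 4) (nat_lit 6) (nat_lit 11) L38795 (by decide +kernel)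
theorem L38832 : W_12 (nat_lit 2) (nat_lit 0x8000c0002000380008001200080000000000000000000000000000000) (nat_lit 0x0) (nat_lit 0x8000400020000000000000000000000000000000000000000000000000000) := D_12 (nat_lit 226) (nat_lit 243) (nat_lit 209) (nat_lit 5) (nat_lit 6) (nat_lit 10) (nat_lit 5) (nat_lit 6) (nat_lit 9) (by decide +kernel)
theorem L38833 : W_12 (nat_lit 3) (nat_lit 0xc0002000380008001200080000000000000000000000000000000) (nat_lit 0x0) (nat_lit 0x8000c00020000000000010000000000000000000000000000000000000000) := T_12 (nat_lit 227) (nat_lit 160) (nat_lit 6) (nat_lit 6) (nat_lit 13) L38832 (by decide +kernel)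
theorem L38834 : W_12 (nat_lit 4) (nat_lit 0x40002000380008001200080000000000000000000000000000000) (nat_lit 0x0) (nat_lit 0x8001c000a0000000000010000000000000000000000000000000000000000) := T_12 (nat_lit 211) (nat_lit 228) (nat_lit 7) (nat_lit 6) (nat_lit 9) L38833 (by decide +kernel)
theorem L38835 : W_12 (nat_lit 5) (nat_lit 0x2000380008001200080000000000000000000000000000000) (nat_lit 0x0) (nat_lit 0x8001c000e0000000000014000000000000000000000000000000000000000) := T_12 (nat_lit 210) (nat_lit 158) (nat_lit 4) (nat_lit 6) (nat_lit 12) L38834 (by decide +kernel)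
theorem L38836 : W_12 (nat_lit 6) (nat_lit 0x380008001200080000000000000000000000000000000) (nat_lit 0x0) (nat_lit 0x8001c000e0003000000014000400030000000000000000000000000000000) := Q_12 (nat_lit 193) (C_12 L38830 (C_12 L38831 (C_12 L38835 N_12))) (by decide +kernel)
theorem L38837 : W_12 (nat_lit 2) (nat_lit 0x40003f00090012000a0000000000000000000000000000000) (nat_lit 0x0) (nat_lit 0x700000000000000000000000000000000000000000000000) := D_12 (nat_lit 189) (nat_lit 188) (nat_lit 190) (nat_lit 1) (nat_lit 5) (nat_lit 10) (nat_lit 1) (nat_lit 6) (nat_lit 10) (by decide +kernel)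
theorem L38838 : W_12 (nat_lit 3) (nat_lit 0x40003e00090012000a0000000000000000000000000000000) (nat_lit 0x0) (nat_lit 0x700010004000000000000000000000000000000000000000) := T_12 (nat_lit 172) (nat_lit 158) (nat_lit 2) (nat_lit 2) (nat_lit 10) L38837 (by decide +kernel)
theorem L38839 : W_12 (nat_lit 4) (nat_lit 0x40003e0009001200080000000000000000000000000000000) (nat_lit 0x0) (nat_lit 0x700010004000400020000000000000000000000000000000) := T_12 (nat_lit 125) (nat_lit 142) (nat_lit 7) (nat_lit 6) (nat_lit 7) L38838 (by decide +kernel)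
theorem L38840 : W_12 (nat_lit 5) (nat_lit 0x40003c0009001200080000000000000000000000000000000) (nat_lit 0x0) (nat_lit 0x700030004800400020000000000000000000000000000000) := T_12 (nat_lit 173) (nat_lit 155) (nat_lit 0) (nat_lit 6) (nat_lit 10) L38839 (by decide +kernel)
theorem L38841 : W_12 (nat_lit 6) (nat_lit 0x3c0009001200080000000000000000000000000000000) (nat_lit 0x0) (nat_lit 0xc700030004800400020000000000000000000000000000000) := T_12 (nat_lit 194) (nat_lit 195) (nat_lit 3) (nat_lit 4) (nat_lit 10) L38840 (by decide +kernel)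
theorem L38842 : W_12 (nat_lit 7) (nat_lit 0x3c0008001200080000000000000000000000000000000) (nat_lit 0x0) (nat_lit 0xc700030007800400020000000000000000000000000000000) := T_12 (nat_lit 156) (nat_lit 157) (nat_lit 0) (nat_lit 7) (nat_lit 10) L38841 (by decide +kernel)
theorem L38843 : W_12 (nat_lit 8) (nat_lit 0x380008001200080000000000000000000000000000000) (nat_lit 0x0) (nat_lit 0x100008000c700070037800400020000000000000000000000000000000) := Q_12 (nat_lit 174) (C_12 L38812 (C_12 L38842 (C_12 L38804 N_12))) (by decide +kernel)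
theorem L38844 : W_12 (nat_lit 11) (nat_lit 0x380000001200080000000000000000000000000000000) (nat_lit 0x0) (nat_lit 0x8003c007e000f70007003f800400030000000000000000000000000000000) := Q_12 (nat_lit 159) (C_12 L38803 (C_12 L38813 (C_12 L38820 (C_12 L38829 (C_12 L38836 (C_12 L38843 N_12)))))) (by decide +kernel)
theorem L38845 : W_12 (nat_lit 2) (nat_lit 0x4000900078003c000a001200090000000000000000000000000000000) (nat_lit 0x0) (nat_lit 0xc000200000000000000000000000000000000000000000000000000000000) := D_12 (nat_lit 225) (nat_lit 243) (nat_lit 242) (nat_lit 7) (nat_lit 4) (nat_lit 10) (nat_lit 6) (nat_lit 4) (nat_lit 14) (by decide +kernel)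
theorem L38846 : W_12 (nat_lit 3) (nat_lit 0x900078003c000a001200090000000000000000000000000000000) (nat_lit 0x0) (nat_lit 0xc000600020000000000000000000000000000000000000000000000000000) := T_12 (nat_lit 226) (nat_lit 209) (nat_lit 7) (nat_lit 4) (nat_lit 9) L38845 (by decide +kernel)
theorem L38847 : W_12 (nat_lit 4) (nat_lit 0x800078003c000a001200090000000000000000000000000000000) (nat_lit 0x0) (nat_lit 0xc000600038000000000000000000000000000000000000000000000000000) := T_12 (nat_lit 208) (nat_lit 207) (nat_lit 1) (nat_lit 7) (nat_lit 11) L38846 (by decide +kernel)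
theorem L38848 : W_12 (nat_lit 5) (nat_lit 0x800068003c000a001200090000000000000000000000000000000) (nat_lit 0x0) (nat_lit 0xc000600138001000000000000000000000000000000000000000000000000) := T_12 (nat_lit 192) (nat_lit 212) (nat_lit 3) (nat_lit 4) (nat_lit 11) L38847 (by decide +kernel)
theorem L38849 : W_12 (nat_lit 6) (nat_lit 0x68003c000a001200090000000000000000000000000000000) (nat_lit 0x0) (nat_lit 0xc0016001b8001000000000000000000000000000000000000000000000000) := T_12 (nat_lit 211) (nat_lit 228) (nat_lit 4) (nat_lit 7) (nat_lit 13) L38848 (by decide +kernel)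
theorem L38850 : W_12 (nat_lit 7) (nat_lit 0x68003c0002001200090000000000000000000000000000000) (nat_lit 0x0) (nat_lit 0xc0016001b8001000000008000400000000000000000000000000000000000) := T_12 (nat_lit 159) (nat_lit 142) (nat_lit 4) (nat_lit 6) (nat_lit 11) L38849 (by decide +kernel)
theorem L38851 : W_12 (nat_lit 8) (nat_lit 0x60003c0002001200090000000000000000000000000000000) (nat_lit 0x0) (nat_lit 0xc0016001b8001800000008000500000000000000000000000000000000000) := T_12 (nat_lit 191) (nat_lit 140) (nat_lit 6) (nat_lit 4) (nat_lit 11) L38850 (by decide +kernel)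
theorem L38852 : W_12 (nat_lit 9) (nat_lit 0x60003c0002001200080000000000000000000000000000000) (nat_lit 0x0) (nat_lit 0xc0016001b800180000000c000500010000000000000000000000000000000) := T_12 (nat_lit 124) (nat_lit 158) (nat_lit 7) (nat_lit 5) (nat_lit 7) L38851 (by decide +kernel)
theorem L38853 : W_12 (nat_lit 10) (nat_lit 0x40003c0002001200080000000000000000000000000000000) (nat_lit 0x0) (nat_lit 0xc0016001b800380002000c000500010000000000000000000000000000000) := T_12 (nat_lit 193) (nat_lit 173) (nat_lit 3) (nat_lit 3) (nat_lit 10) L38852 (by decide +kernel)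
theorem L38854 : W_12 (nat_lit 11) (nat_lit 0x3c0002001200080000000000000000000000000000000) (nat_lit 0x0) (nat_lit 0xc0016001b800f80002000c000500010000000000000000000000000000000) := T_12 (nat_lit 194) (nat_lit 195) (nat_lit 3) (nat_lit 4) (nat_lit 10) L38853 (by decide +kernel)
theorem L38855 : W_12 (nat_lit 12) (nat_lit 0x3c0000001200080000000000000000000000000000000) (nat_lit 0x0) (nat_lit 0xc0016001b800f80002000f000500010000000000000000000000000000000) := T_12 (nat_lit 157) (nat_lit 156) (nat_lit 0) (nat_lit 7) (nat_lit 10) L38854 (by decide +kernel)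
theorem L38857 : W_12 (nat_lit 2) (nat_lit 0x40003c0012001300090000000000000000000000000000000) (nat_lit 0x0) (nat_lit 0x1000000000000000008000800000000000000000000000000) := D_12 (nat_lit 123) (nat_lit 107) (nat_lit 192) (nat_lit 6) (nat_lit 4) (nat_lit 10) (nat_lit 7) (nat_lit 4) (nat_lit 7) (by decide +kernel)
theorem L38858 : W_12 (nat_lit 3) (nat_lit 0x40003c0012001200090000000000000000000000000000000) (nat_lit 0x0) (nat_lit 0x1800000000000100008000800000000000000000000000000) := T_12 (nat_lit 140) (nat_lit 191) (nat_lit 6) (nat_lit 4) (nat_lit 11) L38857 (by decide +kernel)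
theorem L38859 : W_12 (nat_lit 4) (nat_lit 0x40003c0002001200090000000000000000000000000000000) (nat_lit 0x0) (nat_lit 0x1800000030000100008000800000000000000000000000000) := T_12 (nat_lit 160) (nat_lit 161) (nat_lit 2) (nat_lit 4) (nat_lit 10) L38858 (by decide +kernel)
theorem L38860 : W_12 (nat_lit 5) (nat_lit 0x40003c0000001200090000000000000000000000000000000) (nat_lit 0x0) (nat_lit 0x1800000033000100008000800000000000000000000000000) := T_12 (nat_lit 157) (nat_lit 156) (nat_lit 0) (nat_lit 7) (nat_lit 10) L38859 (by decide +kernel)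
theorem L38861 : W_12 (nat_lit 6) (nat_lit 0x3c0000001200090000000000000000000000000000000) (nat_lit 0x0) (nat_lit 0xd800000033000100008000800000000000000000000000000) := T_12 (nat_lit 194) (nat_lit 195) (nat_lit 3) (nat_lit 4) (nat_lit 10) L38860 (by decide +kernel)
theorem L38864 : W_12 (nat_lit 7) (nat_lit 0x3c0000001200080000000000000000000000000000000) (nat_lit 0x0) (nat_lit 0xf800000037000100018000800000000000000000000000000) := Q_12 (nat_lit 124) (C_12 L38856 (C_12 L38861 (C_12 L38863 N_12))) (by decide +kernel)
theorem L38865 : W_12 (nat_lit 13) (nat_lit 0x380000001200080000000000000000000000000000000) (nat_lit 0x0) (nat_lit 0xc0016001b800f80006003f800500018000800000000000000000000000000) := Q_12 (nat_lit 174) (C_12 L33514 (C_12 L38752 (C_12 L38855 (C_12 L33471 (C_12 L38864 N_12))))) (by decide +kernel)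
theorem L38866 : W_12 (nat_lit 15) (nat_lit 0x300000001200080000000000000000000000000000000) (nat_lit 0x0) (nat_lit 0x1c003f007f800ff000f803fc00500038001c000a0000000000000000000000) := Q_12 (nat_lit 175) (C_12 L38730 (C_12 L38747 (C_12 L38753 (C_12 L38759 (C_12 L38768 (C_12 L38780 (C_12 L38793 (C_12 L38844 (C_12 L38865 N_12))))))))) (by decide +kernel)
theorem L38867 : W_12 (nat_lit 2) (nat_lit 0x4000600010001c0004000300010001200080000000000000000000000000000000) (nat_lit 0x0) (nat_lit 0x4000200010000000000000000000000000000000000000000000000000000000000000) := D_12 (nat_lit 261) (nat_lit 278) (nat_lit 244) (nat_lit 5) (nat_lit 7) (nat_lit 12) (nat_lit 5) (nat_lit 7) (nat_lit 11) (by decide +kernel)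
theorem L38868 : W_12 (nat_lit 3) (nat_lit 0x600010001c0004000300010001200080000000000000000000000000000000) (nat_lit 0x0) (nat_lit 0x4000600010000000000008000000000000000000000000000000000000000000000000) := T_12 (nat_lit 262) (nat_lit 195) (nat_lit 6) (nat_lit 7) (nat_lit 15) L38867 (by decide +kernel)
theorem L38869 : W_12 (nat_lit 4) (nat_lit 0x200010001c0004000300010001200080000000000000000000000000000000) (nat_lit 0x0) (nat_lit 0x4000e00050000000000008000000000000000000000000000000000000000000000000) := T_12 (nat_lit 246) (nat_lit 263) (nat_lit 7) (nat_lit 7) (nat_lit 11) L38868 (by decide +kernel)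
theorem L38870 : W_12 (nat_lit 5) (nat_lit 0x10001c0004000300010001200080000000000000000000000000000000) (nat_lit 0x0) (nat_lit 0x4000e0007000000000000a000000000000000000000000000000000000000000000000) := T_12 (nat_lit 245) (nat_lit 193) (nat_lit 4) (nat_lit 7) (nat_lit 14) L38869 (by decide +kernel)
theorem L38871 : W_12 (nat_lit 6) (nat_lit 0x1c0004000300010001200080000000000000000000000000000000) (nat_lit 0x0) (nat_lit 0x4000e0007000100000000a000000008000000000000000000000000000000000000000) := T_12 (nat_lit 228) (nat_lit 159) (nat_lit 4) (nat_lit 7) (nat_lit 13) L38870 (by decide +kernel)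
theorem L38872 : W_12 (nat_lit 7) (nat_lit 0xc0004000300010001200080000000000000000000000000000000) (nat_lit 0x0) (nat_lit 0x4000e0007000300010000a000000008000000000000000000000000000000000000000) := T_12 (nat_lit 212) (nat_lit 229) (nat_lit 7) (nat_lit 7) (nat_lit 9) L38871 (by decide +kernel)
theorem L38873 : W_12 (nat_lit 8) (nat_lit 0x80004000300010001200080000000000000000000000000000000) (nat_lit 0x0) (nat_lit 0x4000e0007000380014000a000000008000000000000000000000000000000000000000) := T_12 (nat_lit 210) (nat_lit 227) (nat_lit 5) (nat_lit 7) (nat_lit 9) L38872 (by decide +kernel)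
theorem L38874 : W_12 (nat_lit 9) (nat_lit 0x4000300010001200080000000000000000000000000000000) (nat_lit 0x0) (nat_lit 0x4000e000700038001c000a000000028000000000000000000000000000000000000000) := T_12 (nat_lit 211) (nat_lit 161) (nat_lit 6) (nat_lit 7) (nat_lit 12) L38873 (by decide +kernel)
theorem L38875 : W_12 (nat_lit 10) (nat_lit 0x4000300000001200080000000000000000000000000000000) (nat_lit 0x0) (nat_lit 0x4000e000700038001c000a000000038000800000000000000000000000000000000000) := T_12 (nat_lit 160) (nat_lit 143) (nat_lit 6) (nat_lit 7) (nat_lit 11) L38874 (by decide +kernel)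
theorem L38876 : W_12 (nat_lit 2) (nat_lit 0x1000080004000300010001200080000000000000000000000000000000) (nat_lit 0x0) (nat_lit 0x10000800040000000000000000000000000000000000000000000000000000) := D_12 (nat_lit 227) (nat_lit 210) (nat_lit 244) (nat_lit 5) (nat_lit 7) (nat_lit 9) (nat_lit 5) (nat_lit 7) (nat_lit 10) (by decide +kernel)
theorem L38877 : W_12 (nat_lit 3) (nat_lit 0x1000080004000300000001200080000000000000000000000000000000) (nat_lit 0x0) (nat_lit 0x10000800040000000000030000000000000000000000000000000000000000) := T_12 (nat_lit 160) (nat_lit 161) (nat_lit 6) (nat_lit 7) (nat_lit 12) L38876 (by decide +kernel)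
theorem L38878 : W_12 (nat_lit 4) (nat_lit 0x80004000300000001200080000000000000000000000000000000) (nat_lit 0x0) (nat_lit 0x10001800040000000000038000000000000000000000000000000000000000) := T_12 (nat_lit 228) (nat_lit 159) (nat_lit 4) (nat_lit 7) (nat_lit 13) L38877 (by decide +kernel)
theorem L38879 : W_12 (nat_lit 2) (nat_lit 0x800020001a00180004000300010001200080000000000000000000000000000000) (nat_lit 0x0) (nat_lit 0x10000400000000000000008000000000000000000000000000000000000000000000000) := D_12 (nat_lit 262) (nat_lit 195) (nat_lit 280) (nat_lit 6) (nat_lit 7) (nat_lit 15) (nat_lit 7) (nat_lit 7) (nat_lit 12) (by decide +kernel)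
theorem L38880 : W_12 (nat_lit 3) (nat_lit 0x20001a00180004000300010001200080000000000000000000000000000000) (nat_lit 0x0) (nat_lit 0x10000c00040000000000008000000000000000000000000000000000000000000000000) := T_12 (nat_lit 263) (nat_lit 246) (nat_lit 7) (nat_lit 7) (nat_lit 11) L38879 (by decide +kernel)
theorem L38881 : W_12 (nat_lit 4) (nat_lit 0x20001800180004000300010001200080000000000000000000000000000000) (nat_lit 0x0) (nat_lit 0x10000c00040000600000008000000000000000000000000000000000000000000000000) := T_12 (nat_lit 225) (nat_lit 226) (nat_lit 2) (nat_lit 4) (nat_lit 13) L38880 (by decide +kernel)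
theorem L38882 : W_12 (nat_lit 5) (nat_lit 0x1800180004000300010001200080000000000000000000000000000000) (nat_lit 0x0) (nat_lit 0x10000c0006000060000000a000000000000000000000000000000000000000000000000) := T_12 (nat_lit 245) (nat_lit 193) (nat_lit 4) (nat_lit 7) (nat_lit 14) L38881 (by decide +kernel)
theorem L38883 : W_12 (nat_lit 6) (nat_lit 0x800180004000300010001200080000000000000000000000000000000) (nat_lit 0x0) (nat_lit 0x10000c0007000160000000a000000000000000000000000000000000000000000000000) := T_12 (nat_lit 228) (nat_lit 244) (nat_lit 5) (nat_lit 7) (nat_lit 10) L38882 (by decide +kernel)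
theorem L38884 : W_12 (nat_lit 7) (nat_lit 0x800080004000300010001200080000000000000000000000000000000) (nat_lit 0x0) (nat_lit 0x10000c0007000360010000a000000000000000000000000000000000000000000000000) := T_12 (nat_lit 212) (nat_lit 229) (nat_lit 7) (nat_lit 7) (nat_lit 9) L38883 (by decide +kernel)
theorem L38885 : W_12 (nat_lit 8) (nat_lit 0x80004000300010001200080000000000000000000000000000000) (nat_lit 0x0) (nat_lit 0x10000c00070003e0014000a000000000000000000000000000000000000000000000000) := T_12 (nat_lit 227) (nat_lit 210) (nat_lit 5) (nat_lit 7) (nat_lit 9) L38884 (by decide +kernel)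
theorem L38886 : W_12 (nat_lit 9) (nat_lit 0x80004000300000001200080000000000000000000000000000000) (nat_lit 0x0) (nat_lit 0x10000c00070003e0014000a000000030000000000000000000000000000000000000000) := T_12 (nat_lit 160) (nat_lit 161) (nat_lit 6) (nat_lit 7) (nat_lit 12) L38885 (by decide +kernel)
theorem L38887 : W_12 (nat_lit 2) (nat_lit 0x20001000080004000300000001200080000000000000000000000000000000) (nat_lit 0x0) (nat_lit 0x800040002000000000000000000000000000000000000000000000000000000000) := D_12 (nat_lit 246) (nat_lit 229) (nat_lit 263) (nat_lit 7) (nat_lit 7) (nat_lit 10) (nat_lit 7) (nat_lit 7) (nat_lit 11) (by decide +kernel)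
theorem L38888 : W_12 (nat_lit 3) (nat_lit 0x1000080004000300000001200080000000000000000000000000000000) (nat_lit 0x0) (nat_lit 0x800060002000000002000000000000000000000000000000000000000000000000) := T_12 (nat_lit 245) (nat_lit 193) (nat_lit 4) (nat_lit 7) (nat_lit 14) L38887 (by decide +kernel)
theorem L38889 : W_12 (nat_lit 4) (nat_lit 0x80004000300000001200080000000000000000000000000000000) (nat_lit 0x0) (nat_lit 0x800060003000000002000000008000000000000000000000000000000000000000) := T_12 (nat_lit 228) (nat_lit 159) (nat_lit 4) (nat_lit 7) (nat_lit 13) L38888 (by decide +kernel)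
theorem L38890 : W_12 (nat_lit 2) (nat_lit 0xd001c000300010001200080000000000000000000000000000000) (nat_lit 0x0) (nat_lit 0x20000c0000000000000000000000000000000000000000000) := D_12 (nat_lit 175) (nat_lit 174) (nat_lit 193) (nat_lit 3) (nat_lit 4) (nat_lit 10) (nat_lit 0) (nat_lit 9) (nat_lit 11) (by decide +kernel)
theorem L38891 : W_12 (nat_lit 3) (nat_lit 0xd000c000300010001200080000000000000000000000000000000) (nat_lit 0x0) (nat_lit 0x320000c0000000000000000000000000000000000000000000) := T_12 (nat_lit 196) (nat_lit 197) (nat_lit 1) (nat_lit 10) (nat_lit 11) L38890 (by decide +kernel)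
theorem L38892 : W_12 (nat_lit 4) (nat_lit 0xc000c000300010001200080000000000000000000000000000000) (nat_lit 0x0) (nat_lit 0x300320000c0000000000000000000000000000000000000000000) := T_12 (nat_lit 208) (nat_lit 209) (nat_lit 2) (nat_lit 4) (nat_lit 12) L38891 (by decide +kernel)
theorem L38893 : W_12 (nat_lit 5) (nat_lit 0x8000c000300010001200080000000000000000000000000000000) (nat_lit 0x0) (nat_lit 0x8000700320000c0000000000000000000000000000000000000000000) := T_12 (nat_lit 210) (nat_lit 227) (nat_lit 5) (nat_lit 7) (nat_lit 9) L38892 (by decide +kernel)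
theorem L38894 : W_12 (nat_lit 6) (nat_lit 0x8000c000300000001200080000000000000000000000000000000) (nat_lit 0x0) (nat_lit 0x8000700320000c0030000000000000000000000000000000000000000) := T_12 (nat_lit 160) (nat_lit 161) (nat_lit 6) (nat_lit 7) (nat_lit 12) L38893 (by decide +kernel)
theorem L38895 : W_12 (nat_lit 2) (nat_lit 0x4001e002c000300010001200080000000000000000000000000000000) (nat_lit 0x0) (nat_lit 0x2000000008000400000000000000000000000000000000000) := D_12 (nat_lit 159) (nat_lit 142) (nat_lit 193) (nat_lit 4) (nat_lit 7) (nat_lit 12) (nat_lit 5) (nat_lit 6) (nat_lit 9) (by decide +kernel)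
theorem L38896 : W_12 (nat_lit 3) (nat_lit 0x1e002c000300010001200080000000000000000000000000000000) (nat_lit 0x0) (nat_lit 0x600000002000000008000400000000000000000000000000000000000) := T_12 (nat_lit 226) (nat_lit 225) (nat_lit 1) (nat_lit 8) (nat_lit 12) L38895 (by decide +kernel)
theorem L38897 : W_12 (nat_lit 4) (nat_lit 0xe002c000300010001200080000000000000000000000000000000) (nat_lit 0x0) (nat_lit 0x2600100002000000008000400000000000000000000000000000000000) := T_12 (nat_lit 212) (nat_lit 229) (nat_lit 7) (nat_lit 7) (nat_lit 9) L38896 (by decide +kernel)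
theorem L38898 : W_12 (nat_lit 5) (nat_lit 0xc002c000300010001200080000000000000000000000000000000) (nat_lit 0x0) (nat_lit 0x2600130002000000008000400000000000000000000000000000000000) := T_12 (nat_lit 209) (nat_lit 208) (nat_lit 2) (nat_lit 4) (nat_lit 12) L38897 (by decide +kernel)
theorem L38899 : W_12 (nat_lit 6) (nat_lit 0x8002c000300010001200080000000000000000000000000000000) (nat_lit 0x0) (nat_lit 0x2e00170002000000008000400000000000000000000000000000000000) := T_12 (nat_lit 210) (nat_lit 227) (nat_lit 5) (nat_lit 7) (nat_lit 9) L38898 (by decide +kernel)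
theorem L38900 : W_12 (nat_lit 7) (nat_lit 0x8002c000300000001200080000000000000000000000000000000) (nat_lit 0x0) (nat_lit 0x2e00170002000000038000400000000000000000000000000000000000) := T_12 (nat_lit 160) (nat_lit 161) (nat_lit 6) (nat_lit 7) (nat_lit 12) L38899 (by decide +kernel)
theorem L38901 : W_12 (nat_lit 8) (nat_lit 0x8000c000300000001200080000000000000000000000000000000) (nat_lit 0x0) (nat_lit 0x2e00170032000000038000400000000000000000000000000000000000) := T_12 (nat_lit 197) (nat_lit 196) (nat_lit 0) (nat_lit 10) (nat_lit 11) L38900 (by decide +kernel)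
theorem L38902 : W_12 (nat_lit 2) (nat_lit 0x8000c000380000001200080000000000000000000000000000000) (nat_lit 0x0) (nat_lit 0x32000000000000000000000000000000000000000000000000) := D_12 (nat_lit 196) (nat_lit 197) (nat_lit 193) (nat_lit 0) (nat_lit 10) (nat_lit 11) (nat_lit 0) (nat_lit 9) (nat_lit 11) (by decide +kernel)
theorem L38903 : W_12 (nat_lit 3) (nat_lit 0x8000c000300000001200080000000000000000000000000000000) (nat_lit 0x0) (nat_lit 0x320000c0000000000000000000000000000000000000000000) := T_12 (nat_lit 175) (nat_lit 174) (nat_lit 3) (nat_lit 4) (nat_lit 10) L38902 (by decide +kernel)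
theorem L38904 : W_12 (nat_lit 2) (nat_lit 0x4001e002d000300010001200080000000000000000000000000000000) (nat_lit 0x0) (nat_lit 0x80008000400000000000000000000000000000000000) := D_12 (nat_lit 159) (nat_lit 142) (nat_lit 175) (nat_lit 4) (nat_lit 7) (nat_lit 12) (nat_lit 6) (nat_lit 5) (nat_lit 13) (by decide +kernel)
theorem L38905 : W_12 (nat_lit 3) (nat_lit 0x4001e002c000300010001200080000000000000000000000000000000) (nat_lit 0x0) (nat_lit 0x1800080008000400000000000000000000000000000000000) := T_12 (nat_lit 192) (nat_lit 191) (nat_lit 0) (nat_lit 8) (nat_lit 12) L38904 (by decide +kernel)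
theorem L38906 : W_12 (nat_lit 4) (nat_lit 0x1e002c000300010001200080000000000000000000000000000000) (nat_lit 0x0) (nat_lit 0x600000001800080008000400000000000000000000000000000000000) := T_12 (nat_lit 226) (nat_lit 225) (nat_lit 1) (nat_lit 8) (nat_lit 12) L38905 (by decide +kernel)
theorem L38907 : W_12 (nat_lit 5) (nat_lit 0xe002c000300010001200080000000000000000000000000000000) (nat_lit 0x0) (nat_lit 0x2600100001800080008000400000000000000000000000000000000000) := T_12 (nat_lit 212) (nat_lit 229) (nat_lit 7) (nat_lit 7) (nat_lit 9) L38906 (by decide +kernel)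
theorem L38908 : W_12 (nat_lit 6) (nat_lit 0xc002c000300010001200080000000000000000000000000000000) (nat_lit 0x0) (nat_lit 0x2600130001800080008000400000000000000000000000000000000000) := T_12 (nat_lit 209) (nat_lit 208) (nat_lit 2) (nat_lit 4) (nat_lit 12) L38907 (by decide +kernel)
theorem L38909 : W_12 (nat_lit 7) (nat_lit 0x8002c000300010001200080000000000000000000000000000000) (nat_lit 0x0) (nat_lit 0x2e00170001800080008000400000000000000000000000000000000000) := T_12 (nat_lit 210) (nat_lit 227) (nat_lit 5) (nat_lit 7) (nat_lit 9) L38908 (by decide +kernel)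
theorem L38910 : W_12 (nat_lit 8) (nat_lit 0x8002c000300000001200080000000000000000000000000000000) (nat_lit 0x0) (nat_lit 0x2e00170001800080038000400000000000000000000000000000000000) := T_12 (nat_lit 160) (nat_lit 161) (nat_lit 6) (nat_lit 7) (nat_lit 12) L38909 (by decide +kernel)
theorem L38911 : W_12 (nat_lit 9) (nat_lit 0x8000c000300000001200080000000000000000000000000000000) (nat_lit 0x0) (nat_lit 0x2e00170031800080038000400000000000000000000000000000000000) := T_12 (nat_lit 197) (nat_lit 196) (nat_lit 0) (nat_lit 10) (nat_lit 11) L38910 (by decide +kernel)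
theorem L38912 : W_12 (nat_lit 2) (nat_lit 0x1e000c000340018001200080000000000000000000000000000000) (nat_lit 0x0) (nat_lit 0x600000002000000000000000000000000000000000000000000000000) := D_12 (nat_lit 226) (nat_lit 225) (nat_lit 193) (nat_lit 1) (nat_lit 8) (nat_lit 12) (nat_lit 5) (nat_lit 6) (nat_lit 9) (by decide +kernel)
theorem L38913 : W_12 (nat_lit 3) (nat_lit 0xe000c000340018001200080000000000000000000000000000000) (nat_lit 0x0) (nat_lit 0x2600100002000000000000000000000000000000000000000000000000) := T_12 (nat_lit 212) (nat_lit 229) (nat_lit 7) (nat_lit 7) (nat_lit 9) L38912 (by decide +kernel)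
theorem L38914 : W_12 (nat_lit 4) (nat_lit 0xe000c000340010001200080000000000000000000000000000000) (nat_lit 0x0) (nat_lit 0x2600100002000000008000400000000000000000000000000000000000) := T_12 (nat_lit 159) (nat_lit 142) (nat_lit 4) (nat_lit 7) (nat_lit 12) L38913 (by decide +kernel)
theorem L38915 : W_12 (nat_lit 5) (nat_lit 0xe000c000300010001200080000000000000000000000000000000) (nat_lit 0x0) (nat_lit 0x26001000020000c0008000400000000000000000000000000000000000) := T_12 (nat_lit 174) (nat_lit 175) (nat_lit 3) (nat_lit 4) (nat_lit 10) L38914 (by decide +kernel)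
theorem L38916 : W_12 (nat_lit 6) (nat_lit 0xc000c000300010001200080000000000000000000000000000000) (nat_lit 0x0) (nat_lit 0x26001300020000c0008000400000000000000000000000000000000000) := T_12 (nat_lit 209) (nat_lit 208) (nat_lit 2) (nat_lit 4) (nat_lit 12) L38915 (by decide +kernel)
theorem L38917 : W_12 (nat_lit 7) (nat_lit 0x8000c000300010001200080000000000000000000000000000000) (nat_lit 0x0) (nat_lit 0x2e001700020000c0008000400000000000000000000000000000000000) := T_12 (nat_lit 210) (nat_lit 227) (nat_lit 5) (nat_lit 7) (nat_lit 9) L38916 (by decide +kernel)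
theorem L38918 : W_12 (nat_lit 8) (nat_lit 0x8000c000300000001200080000000000000000000000000000000) (nat_lit 0x0) (nat_lit 0x2e001700020000c0038000400000000000000000000000000000000000) := T_12 (nat_lit 160) (nat_lit 161) (nat_lit 6) (nat_lit 7) (nat_lit 12) L38917 (by decide +kernel)
theorem L38919 : W_12 (nat_lit 10) (nat_lit 0x80004000300000001200080000000000000000000000000000000) (nat_lit 0x0) (nat_lit 0x2e0017003b8000c0038000400000000000000000000000000000000000) := Q_12 (nat_lit 195) (C_12 L38894 (C_12 L38901 (C_12 L38903 (C_12 L38911 (C_12 L38918 N_12))))) (by decide +kernel)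
theorem L38920 : W_12 (nat_lit 11) (nat_lit 0x4000300000001200080000000000000000000000000000000) (nat_lit 0x0) (nat_lit 0x10000c00070003e001f003b8000c0038000400000000000000000000000000000000000) := Q_12 (nat_lit 211) (C_12 L38878 (C_12 L38886 (C_12 L38889 (C_12 L38919 N_12)))) (by decide +kernel)
theorem L38921 : W_12 (nat_lit 9) (nat_lit 0x4000300010001200080000000000000000000000000000000) (nat_lit 0x0) (nat_lit 0x10000c00070003e001c000a000000020000000000000000000000000000000000000000) := T_12 (nat_lit 211) (nat_lit 161) (nat_lit 6) (nat_lit 7) (nat_lit 12) L38885 (by decide +kernel)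
theorem L38922 : W_12 (nat_lit 10) (nat_lit 0x4000300000001200080000000000000000000000000000000) (nat_lit 0x0) (nat_lit 0x10000c00070003e001c000a000000030000800000000000000000000000000000000000) := T_12 (nat_lit 160) (nat_lit 143) (nat_lit 6) (nat_lit 7) (nat_lit 11) L38921 (by decide +kernel)
theorem L38923 : W_12 (nat_lit 2) (nat_lit 0x4000300008001e00080000000000000000000000000000000) (nat_lit 0x0) (nat_lit 0x1000080002000000000000000000000000000000000000000000000000) := D_12 (nat_lit 211) (nat_lit 228) (nat_lit 193) (nat_lit 4) (nat_lit 7) (nat_lit 13) (nat_lit 7) (nat_lit 6) (nat_lit 8) (by decide +kernel)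
theorem L38924 : W_12 (nat_lit 3) (nat_lit 0x4000300000001e00080000000000000000000000000000000) (nat_lit 0x0) (nat_lit 0x1000080002000000008000000020000000000000000000000000000000) := T_12 (nat_lit 159) (nat_lit 125) (nat_lit 7) (nat_lit 6) (nat_lit 7) L38923 (by decide +kernel)
theorem L38925 : W_12 (nat_lit 4) (nat_lit 0x4000300000001600080000000000000000000000000000000) (nat_lit 0x0) (nat_lit 0x1000080002000000008000800120000000000000000000000000000000) := T_12 (nat_lit 143) (nat_lit 128) (nat_lit 2) (nat_lit 5) (nat_lit 8) L38924 (by decide +kernel)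
theorem L38926 : W_12 (nat_lit 2) (nat_lit 0x4c00340022001f00088000000000000000000000000000000) (nat_lit 0x0) (nat_lit 0x20003000000000000000000000000000000000000000000000000) := D_12 (nat_lit 192) (nat_lit 193) (nat_lit 209) (nat_lit 2) (nat_lit 3) (nat_lit 11) (nat_lit 7) (nat_lit 4) (nat_lit 8) (by decide +kernel)
theorem L38927 : W_12 (nat_lit 3) (nat_lit 0x4400340022001f00088000000000000000000000000000000) (nat_lit 0x0) (nat_lit 0x28003800000000000000000000000000000000000000000000000) := T_12 (nat_lit 191) (nat_lit 207) (nat_lit 5) (nat_lit 4) (nat_lit 8) L38926 (by decide +kernel)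
theorem L38928 : W_12 (nat_lit 4) (nat_lit 0x4000340022001f00088000000000000000000000000000000) (nat_lit 0x0) (nat_lit 0x28003c00020000000000000000000000000000000000000000000) := T_12 (nat_lit 190) (nat_lit 173) (nat_lit 5) (nat_lit 4) (nat_lit 7) L38927 (by decide +kernel)
theorem L38929 : W_12 (nat_lit 5) (nat_lit 0x4000340020001f00088000000000000000000000000000000) (nat_lit 0x0) (nat_lit 0x28003c00020003000000000000000000000000000000000000000) := T_12 (nat_lit 157) (nat_lit 156) (nat_lit 1) (nat_lit 7) (nat_lit 8) L38928 (by decide +kernel)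
theorem L38930 : W_12 (nat_lit 6) (nat_lit 0x4000340020001e00088000000000000000000000000000000) (nat_lit 0x0) (nat_lit 0x28003c00020003000100004000000000000000000000000000000) := T_12 (nat_lit 140) (nat_lit 122) (nat_lit 0) (nat_lit 7) (nat_lit 8) L38929 (by decide +kernel)
theorem L38931 : W_12 (nat_lit 7) (nat_lit 0x4000340000001e00088000000000000000000000000000000) (nat_lit 0x0) (nat_lit 0x28003c00020063000100004000000000000000000000000000000) := T_12 (nat_lit 161) (nat_lit 162) (nat_lit 3) (nat_lit 5) (nat_lit 8) L38930 (by decide +kernel)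
theorem L38932 : W_12 (nat_lit 8) (nat_lit 0x4000340000001e00080000000000000000000000000000000) (nat_lit 0x0) (nat_lit 0x28003c0002006300010001c000000000000000000000000000000) := T_12 (nat_lit 123) (nat_lit 124) (nat_lit 0) (nat_lit 8) (nat_lit 8) L38931 (by decide +kernel)
theorem L38933 : W_12 (nat_lit 9) (nat_lit 0x4000340000001600080000000000000000000000000000000) (nat_lit 0x0) (nat_lit 0x28003c0002006300090011c000000000000000000000000000000) := T_12 (nat_lit 143) (nat_lit 128) (nat_lit 2) (nat_lit 5) (nat_lit 8) L38932 (by decide +kernel)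
theorem L38934 : W_12 (nat_lit 2) (nat_lit 0x40003e0000001e00080000000000000000000000000000000) (nat_lit 0x0) (nat_lit 0xe00000000000000000000000000000000000000000000000) := D_12 (nat_lit 190) (nat_lit 189) (nat_lit 191) (nat_lit 1) (nat_lit 6) (nat_lit 10) (nat_lit 1) (nat_lit 7) (nat_lit 10) (by decide +kernel)
theorem L38935 : W_12 (nat_lit 3) (nat_lit 0x40003c0000001e00080000000000000000000000000000000) (nat_lit 0x0) (nat_lit 0x2e00020000000000000000000000000000000000000000000) := T_12 (nat_lit 173) (nat_lit 193) (nat_lit 3) (nat_lit 3) (nat_lit 10) L38934 (by decide +kernel)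
theorem L38936 : W_12 (nat_lit 4) (nat_lit 0x4000340000001e00080000000000000000000000000000000) (nat_lit 0x0) (nat_lit 0xae000a0000000000000000000000000000000000000000000) := T_12 (nat_lit 175) (nat_lit 195) (nat_lit 3) (nat_lit 4) (nat_lit 10) L38935 (by decide +kernel)
theorem L38937 : W_12 (nat_lit 5) (nat_lit 0x4000340000001600080000000000000000000000000000000) (nat_lit 0x0) (nat_lit 0xae000a0000000800100000000000000000000000000000000) := T_12 (nat_lit 143) (nat_lit 128) (nat_lit 2) (nat_lit 5) (nat_lit 8) L38936 (by decide +kernel)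
theorem L38938 : W_12 (nat_lit 2) (nat_lit 0x48003c0020001e00090000000000000000000000000000000) (nat_lit 0x0) (nat_lit 0x3000100000000000000000000000000000000000) := D_12 (nat_lit 157) (nat_lit 156) (nat_lit 140) (nat_lit 0) (nat_lit 7) (nat_lit 10) (nat_lit 6) (nat_lit 4) (nat_lit 11) (by decide +kernel)
theorem L38939 : W_12 (nat_lit 3) (nat_lit 0x40003c0020001e00090000000000000000000000000000000) (nat_lit 0x0) (nat_lit 0xc00000003000100000000000000000000000000000000000) := T_12 (nat_lit 191) (nat_lit 190) (nat_lit 1) (nat_lit 7) (nat_lit 10) L38938 (by decide +kernel)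
theorem L38940 : W_12 (nat_lit 4) (nat_lit 0x4000340020001e00090000000000000000000000000000000) (nat_lit 0x0) (nat_lit 0x8c00080003000100000000000000000000000000000000000) := T_12 (nat_lit 175) (nat_lit 195) (nat_lit 3) (nat_lit 4) (nat_lit 10) L38939 (by decide +kernel)
theorem L38941 : W_12 (nat_lit 5) (nat_lit 0x4000340000001e00090000000000000000000000000000000) (nat_lit 0x0) (nat_lit 0x8c00080063000100000000000000000000000000000000000) := T_12 (nat_lit 161) (nat_lit 162) (nat_lit 3) (nat_lit 5) (nat_lit 8) L38940 (by decide +kernel)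
theorem L38942 : W_12 (nat_lit 6) (nat_lit 0x4000340000001e00080000000000000000000000000000000) (nat_lit 0x0) (nat_lit 0x8c00080063000100018000000000000000000000000000000) := T_12 (nat_lit 124) (nat_lit 123) (nat_lit 0) (nat_lit 8) (nat_lit 8) L38941 (by decide +kernel)
theorem L38943 : W_12 (nat_lit 7) (nat_lit 0x4000340000001600080000000000000000000000000000000) (nat_lit 0x0) (nat_lit 0x8c00080063000900118000000000000000000000000000000) := T_12 (nat_lit 143) (nat_lit 128) (nat_lit 2) (nat_lit 5) (nat_lit 8) L38942 (by decide +kernel)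
theorem L38944 : W_12 (nat_lit 2) (nat_lit 0x40003e0000001600080000000000000000000000000000000) (nat_lit 0x0) (nat_lit 0xe00000000000000000000000000000000000000000000000) := D_12 (nat_lit 190) (nat_lit 189) (nat_lit 191) (nat_lit 1) (nat_lit 6) (nat_lit 10) (nat_lit 1) (nat_lit 7) (nat_lit 10) (by decide +kernel)
theorem L38945 : W_12 (nat_lit 3) (nat_lit 0x40003c0000001600080000000000000000000000000000000) (nat_lit 0x0) (nat_lit 0x2e00020000000000000000000000000000000000000000000) := T_12 (nat_lit 173) (nat_lit 193) (nat_lit 3) (nat_lit 3) (nat_lit 10) L38944 (by decide +kernel)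
theorem L38946 : W_12 (nat_lit 4) (nat_lit 0x4000340000001600080000000000000000000000000000000) (nat_lit 0x0) (nat_lit 0xae000a0000000000000000000000000000000000000000000) := T_12 (nat_lit 175) (nat_lit 195) (nat_lit 3) (nat_lit 4) (nat_lit 10) L38945 (by decide +kernel)
theorem L38947 : W_12 (nat_lit 2) (nat_lit 0x40003e0000001600080000000000000000000000000000000) (nat_lit 0x0) (nat_lit 0x3800000000000000000000000000000000000000) := D_12 (nat_lit 156) (nat_lit 157) (nat_lit 155) (nat_lit 0) (nat_lit 7) (nat_lit 10) (nat_lit 0) (nat_lit 6) (nat_lit 10) (by decide +kernel)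
theorem L38948 : W_12 (nat_lit 3) (nat_lit 0x40003c0000001600080000000000000000000000000000000) (nat_lit 0x0) (nat_lit 0x2000020003800000000000000000000000000000000000000) := T_12 (nat_lit 173) (nat_lit 193) (nat_lit 3) (nat_lit 3) (nat_lit 10) L38947 (by decide +kernel)
theorem L38949 : W_12 (nat_lit 4) (nat_lit 0x4000340000001600080000000000000000000000000000000) (nat_lit 0x0) (nat_lit 0xa0000a0003800000000000000000000000000000000000000) := T_12 (nat_lit 175) (nat_lit 195) (nat_lit 3) (nat_lit 4) (nat_lit 10) L38948 (by decide +kernel)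
theorem L38950 : W_12 (nat_lit 10) (nat_lit 0x4000300000001600080000000000000000000000000000000) (nat_lit 0x0) (nat_lit 0x2800be000e006380090011c000000000000000000000000000000) := Q_12 (nat_lit 174) (C_12 L38933 (C_12 L38937 (C_12 L38943 (C_12 L38946 (C_12 L38949 N_12))))) (by decide +kernel)
theorem L38953 : W_12 (nat_lit 4) (nat_lit 0x48003c00000016000a0000000000000000000000000000000) (nat_lit 0x0) (nat_lit 0x20001000000003000100018000000000000000000000000000000) := T_12 (nat_lit 157) (nat_lit 156) (nat_lit 0) (nat_lit 7) (nat_lit 10) L38952 (by decide +kernel)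
theorem L38954 : W_12 (nat_lit 5) (nat_lit 0x40003c00000016000a0000000000000000000000000000000) (nat_lit 0x0) (nat_lit 0x20001c00000003000100018000000000000000000000000000000) := T_12 (nat_lit 191) (nat_lit 190) (nat_lit 1) (nat_lit 7) (nat_lit 10) L38953 (by decide +kernel)
theorem L38955 : W_12 (nat_lit 6) (nat_lit 0x40003400000016000a0000000000000000000000000000000) (nat_lit 0x0) (nat_lit 0x20009c00080003000100018000000000000000000000000000000) := T_12 (nat_lit 175) (nat_lit 195) (nat_lit 3) (nat_lit 4) (nat_lit 10) L38954 (by decide +kernel)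
theorem L38956 : W_12 (nat_lit 7) (nat_lit 0x4000340000001600080000000000000000000000000000000) (nat_lit 0x0) (nat_lit 0x20009c0008000b000100038000000000000000000000000000000) := T_12 (nat_lit 125) (nat_lit 159) (nat_lit 7) (nat_lit 6) (nat_lit 7) L38955 (by decide +kernel)
theorem L38957 : W_12 (nat_lit 2) (nat_lit 0x44003e0000001e00080000000000000000000000000000000) (nat_lit 0x0) (nat_lit 0x3800000000000000000000000000000000000000) := D_12 (nat_lit 156) (nat_lit 155) (nat_lit 157) (nat_lit 0) (nat_lit 6) (nat_lit 10) (nat_lit 0) (nat_lit 7) (nat_lit 10) (by decide +kernel)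
theorem L38958 : W_12 (nat_lit 3) (nat_lit 0x44003c0000001e00080000000000000000000000000000000) (nat_lit 0x0) (nat_lit 0x200020003800000000000000000000000000000000000000) := T_12 (nat_lit 173) (nat_lit 189) (nat_lit 1) (nat_lit 6) (nat_lit 10) L38957 (by decide +kernel)
theorem L38959 : W_12 (nat_lit 4) (nat_lit 0x44003c0000001600080000000000000000000000000000000) (nat_lit 0x0) (nat_lit 0x200020003800800100000000000000000000000000000000) := T_12 (nat_lit 143) (nat_lit 128) (nat_lit 2) (nat_lit 5) (nat_lit 8) L38958 (by decide +kernel)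
theorem L38960 : W_12 (nat_lit 5) (nat_lit 0x40003c0000001600080000000000000000000000000000000) (nat_lit 0x0) (nat_lit 0xe00020003800800100000000000000000000000000000000) := T_12 (nat_lit 190) (nat_lit 191) (nat_lit 1) (nat_lit 7) (nat_lit 10) L38959 (by decide +kernel)
theorem L38961 : W_12 (nat_lit 6) (nat_lit 0x4000340000001600080000000000000000000000000000000) (nat_lit 0x0) (nat_lit 0x8e000a0003800800100000000000000000000000000000000) := T_12 (nat_lit 175) (nat_lit 195) (nat_lit 3) (nat_lit 4) (nat_lit 10) L38960 (by decide +kernel)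
theorem L38962 : W_12 (nat_lit 2) (nat_lit 0xa0004c0034002a001f00088000000000000000000000000000000) (nat_lit 0x0) (nat_lit 0x400050000000000000000000000000000000000000000000000000000) := D_12 (nat_lit 208) (nat_lit 210) (nat_lit 226) (nat_lit 0) (nat_lit 7) (nat_lit 12) (nat_lit 7) (nat_lit 4) (nat_lit 9) (by decide +kernel)
theorem L38963 : W_12 (nat_lit 3) (nat_lit 0x80004c0034002a001f00088000000000000000000000000000000) (nat_lit 0x0) (nat_lit 0x400070001000000000000000000000000000000000000000000000000) := T_12 (nat_lit 209) (nat_lit 192) (nat_lit 7) (nat_lit 4) (nat_lit 8) L38962 (by decide +kernel)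
theorem L38964 : W_12 (nat_lit 4) (nat_lit 0x8000440034002a001f00088000000000000000000000000000000) (nat_lit 0x0) (nat_lit 0x400078001800000000000000000000000000000000000000000000000) := T_12 (nat_lit 191) (nat_lit 207) (nat_lit 5) (nat_lit 4) (nat_lit 8) L38963 (by decide +kernel)
theorem L38965 : W_12 (nat_lit 5) (nat_lit 0x8000400034002a001f00088000000000000000000000000000000) (nat_lit 0x0) (nat_lit 0x400078001c00020000000000000000000000000000000000000000000) := T_12 (nat_lit 190) (nat_lit 173) (nat_lit 5) (nat_lit 4) (nat_lit 7) L38964 (by decide +kernel)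
theorem L38966 : W_12 (nat_lit 6) (nat_lit 0x400034002a001f00088000000000000000000000000000000) (nat_lit 0x0) (nat_lit 0x14000f8001c00020000000000000000000000000000000000000000000) := T_12 (nat_lit 211) (nat_lit 228) (nat_lit 4) (nat_lit 7) (nat_lit 13) L38965 (by decide +kernel)
theorem L38967 : W_12 (nat_lit 7) (nat_lit 0x4000340028001f00088000000000000000000000000000000) (nat_lit 0x0) (nat_lit 0x14000f8001c00020003000000000000000000000000000000000000000) := T_12 (nat_lit 157) (nat_lit 156) (nat_lit 1) (nat_lit 7) (nat_lit 8) L38966 (by decide +kernel)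
theorem L38968 : W_12 (nat_lit 8) (nat_lit 0x4000340020001f00088000000000000000000000000000000) (nat_lit 0x0) (nat_lit 0x14000f8001c0002000b000000020000000000000000000000000000000) := T_12 (nat_lit 159) (nat_lit 125) (nat_lit 7) (nat_lit 6) (nat_lit 7) L38967 (by decide +kernel)
theorem L38969 : W_12 (nat_lit 9) (nat_lit 0x4000340020001e00088000000000000000000000000000000) (nat_lit 0x0) (nat_lit 0x14000f8001c0002000b000100024000000000000000000000000000000) := T_12 (nat_lit 140) (nat_lit 122) (nat_lit 0) (nat_lit 7) (nat_lit 8) L38968 (by decide +kernel)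
theorem L38970 : W_12 (nat_lit 10) (nat_lit 0x4000340000001e00088000000000000000000000000000000) (nat_lit 0x0) (nat_lit 0x14000f8001c0002006b000100024000000000000000000000000000000) := T_12 (nat_lit 161) (nat_lit 162) (nat_lit 3) (nat_lit 5) (nat_lit 8) L38969 (by decide +kernel)
theorem L38971 : W_12 (nat_lit 11) (nat_lit 0x4000340000001e00080000000000000000000000000000000) (nat_lit 0x0) (nat_lit 0x14000f8001c0002006b00010003c000000000000000000000000000000) := T_12 (nat_lit 123) (nat_lit 124) (nat_lit 0) (nat_lit 8) (nat_lit 8) L38970 (by decide +kernel)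
theorem L38972 : W_12 (nat_lit 12) (nat_lit 0x4000340000001600080000000000000000000000000000000) (nat_lit 0x0) (nat_lit 0x14000f8001c0002006b00090013c000000000000000000000000000000) := T_12 (nat_lit 143) (nat_lit 128) (nat_lit 2) (nat_lit 5) (nat_lit 8) L38971 (by decide +kernel)
theorem L38973 : W_12 (nat_lit 2) (nat_lit 0x44003e0020001f000a8000000000000000000000000000000) (nat_lit 0x0) (nat_lit 0x1800080000000000000000000000000000000000) := D_12 (nat_lit 156) (nat_lit 155) (nat_lit 139) (nat_lit 0) (nat_lit 6) (nat_lit 10) (nat_lit 6) (nat_lit 3) (nat_lit 11) (by decide +kernel)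
theorem L38974 : W_12 (nat_lit 3) (nat_lit 0x44003c0020001f000a8000000000000000000000000000000) (nat_lit 0x0) (nat_lit 0x200020001800080000000000000000000000000000000000) := T_12 (nat_lit 173) (nat_lit 189) (nat_lit 1) (nat_lit 6) (nat_lit 10) L38973 (by decide +kernel)
theorem L38975 : W_12 (nat_lit 4) (nat_lit 0x44003c0020001f00088000000000000000000000000000000) (nat_lit 0x0) (nat_lit 0x200020009800080020000000000000000000000000000000) := T_12 (nat_lit 125) (nat_lit 159) (nat_lit 7) (nat_lit 6) (nat_lit 7) L38974 (by decide +kernel)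
theorem L38976 : W_12 (nat_lit 5) (nat_lit 0x40003c0020001f00088000000000000000000000000000000) (nat_lit 0x0) (nat_lit 0xe00020009800080020000000000000000000000000000000) := T_12 (nat_lit 190) (nat_lit 191) (nat_lit 1) (nat_lit 7) (nat_lit 10) L38975 (by decide +kernel)
theorem L38977 : W_12 (nat_lit 6) (nat_lit 0x4000340020001f00088000000000000000000000000000000) (nat_lit 0x0) (nat_lit 0x8e000a0009800080020000000000000000000000000000000) := T_12 (nat_lit 175) (nat_lit 195) (nat_lit 3) (nat_lit 4) (nat_lit 10) L38976 (by decide +kernel)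
theorem L38978 : W_12 (nat_lit 7) (nat_lit 0x4000340020001e00088000000000000000000000000000000) (nat_lit 0x0) (nat_lit 0x8e000a0009800180024000000000000000000000000000000) := T_12 (nat_lit 140) (nat_lit 122) (nat_lit 0) (nat_lit 7) (nat_lit 8) L38977 (by decide +kernel)
theorem L38979 : W_12 (nat_lit 8) (nat_lit 0x4000340000001e00088000000000000000000000000000000) (nat_lit 0x0) (nat_lit 0x8e000a0069800180024000000000000000000000000000000) := T_12 (nat_lit 161) (nat_lit 162) (nat_lit 3) (nat_lit 5) (nat_lit 8) L38978 (by decide +kernel)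
theorem L38980 : W_12 (nat_lit 9) (nat_lit 0x4000340000001e00080000000000000000000000000000000) (nat_lit 0x0) (nat_lit 0x8e000a006980018003c000000000000000000000000000000) := T_12 (nat_lit 123) (nat_lit 124) (nat_lit 0) (nat_lit 8) (nat_lit 8) L38979 (by decide +kernel)
theorem L38981 : W_12 (nat_lit 10) (nat_lit 0x4000340000001600080000000000000000000000000000000) (nat_lit 0x0) (nat_lit 0x8e000a006980098013c000000000000000000000000000000) := T_12 (nat_lit 143) (nat_lit 128) (nat_lit 2) (nat_lit 5) (nat_lit 8) L38980 (by decide +kernel)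
theorem L38982 : W_12 (nat_lit 2) (nat_lit 0x40003c0020001f000a8000000000000000000000000000000) (nat_lit 0x0) (nat_lit 0x1000000003000000000000000000000000000000000000000) := D_12 (nat_lit 157) (nat_lit 156) (nat_lit 192) (nat_lit 1) (nat_lit 7) (nat_lit 8) (nat_lit 7) (nat_lit 4) (nat_lit 7) (by decide +kernel)
theorem L38983 : W_12 (nat_lit 3) (nat_lit 0x4000340020001f000a8000000000000000000000000000000) (nat_lit 0x0) (nat_lit 0x9000080003000000000000000000000000000000000000000) := T_12 (nat_lit 175) (nat_lit 195) (nat_lit 3) (nat_lit 4) (nat_lit 10) L38982 (by decide +kernel)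
theorem L38984 : W_12 (nat_lit 4) (nat_lit 0x4000340020001e000a8000000000000000000000000000000) (nat_lit 0x0) (nat_lit 0x9000080003000100004000000000000000000000000000000) := T_12 (nat_lit 140) (nat_lit 122) (nat_lit 0) (nat_lit 7) (nat_lit 8) L38983 (by decide +kernel)
theorem L38985 : W_12 (nat_lit 5) (nat_lit 0x4000340000001e000a8000000000000000000000000000000) (nat_lit 0x0) (nat_lit 0x9000080063000100004000000000000000000000000000000) := T_12 (nat_lit 161) (nat_lit 162) (nat_lit 3) (nat_lit 5) (nat_lit 8) L38984 (by decide +kernel)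
theorem L38986 : W_12 (nat_lit 6) (nat_lit 0x4000340000001e000a0000000000000000000000000000000) (nat_lit 0x0) (nat_lit 0x900008006300010001c000000000000000000000000000000) := T_12 (nat_lit 123) (nat_lit 124) (nat_lit 0) (nat_lit 8) (nat_lit 8) L38985 (by decide +kernel)
theorem L38987 : W_12 (nat_lit 7) (nat_lit 0x40003400000016000a0000000000000000000000000000000) (nat_lit 0x0) (nat_lit 0x900008006300090011c000000000000000000000000000000) := T_12 (nat_lit 143) (nat_lit 128) (nat_lit 2) (nat_lit 5) (nat_lit 8) L38986 (by decide +kernel)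
theorem L38988 : W_12 (nat_lit 8) (nat_lit 0x4000340000001600080000000000000000000000000000000) (nat_lit 0x0) (nat_lit 0x900008006b00090013c000000000000000000000000000000) := T_12 (nat_lit 125) (nat_lit 159) (nat_lit 7) (nat_lit 6) (nat_lit 7) L38987 (by decide +kernel)
theorem L38989 : W_12 (nat_lit 2) (nat_lit 0x44003e0000001e000a8000000000000000000000000000000) (nat_lit 0x0) (nat_lit 0x2000100004000000000000000000000000000000) := D_12 (nat_lit 140) (nat_lit 122) (nat_lit 157) (nat_lit 0) (nat_lit 7) (nat_lit 8) (nat_lit 5) (nat_lit 4) (nat_lit 7) (by decide +kernel)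
theorem L38990 : W_12 (nat_lit 3) (nat_lit 0x44003e0000001e000a0000000000000000000000000000000) (nat_lit 0x0) (nat_lit 0x200010001c000000000000000000000000000000) := T_12 (nat_lit 123) (nat_lit 124) (nat_lit 0) (nat_lit 8) (nat_lit 8) L38989 (by decide +kernel)
theorem L38991 : W_12 (nat_lit 4) (nat_lit 0x44003e00000016000a0000000000000000000000000000000) (nat_lit 0x0) (nat_lit 0x200090011c000000000000000000000000000000) := T_12 (nat_lit 143) (nat_lit 128) (nat_lit 2) (nat_lit 5) (nat_lit 8) L38990 (by decide +kernel)
theorem L38992 : W_12 (nat_lit 5) (nat_lit 0x44003c00000016000a0000000000000000000000000000000) (nat_lit 0x0) (nat_lit 0x20002000200090011c000000000000000000000000000000) := T_12 (nat_lit 173) (nat_lit 189) (nat_lit 1) (nat_lit 6) (nat_lit 10) L38991 (by decide +kernel)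
theorem L38993 : W_12 (nat_lit 6) (nat_lit 0x44003c0000001600080000000000000000000000000000000) (nat_lit 0x0) (nat_lit 0x20002000a00090013c000000000000000000000000000000) := T_12 (nat_lit 125) (nat_lit 159) (nat_lit 7) (nat_lit 6) (nat_lit 7) L38992 (by decide +kernel)
theorem L38994 : W_12 (nat_lit 7) (nat_lit 0x40003c0000001600080000000000000000000000000000000) (nat_lit 0x0) (nat_lit 0xe0002000a00090013c000000000000000000000000000000) := T_12 (nat_lit 190) (nat_lit 191) (nat_lit 1) (nat_lit 7) (nat_lit 10) L38993 (by decide +kernel)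
theorem L38995 : W_12 (nat_lit 8) (nat_lit 0x4000340000001600080000000000000000000000000000000) (nat_lit 0x0) (nat_lit 0x8e000a000a00090013c000000000000000000000000000000) := T_12 (nat_lit 175) (nat_lit 195) (nat_lit 3) (nat_lit 4) (nat_lit 10) L38994 (by decide +kernel)
theorem L38996 : W_12 (nat_lit 13) (nat_lit 0x4000300000001600080000000000000000000000000000000) (nat_lit 0x0) (nat_lit 0x14000f8009e000e006b80098013c000000000000000000000000000000) := Q_12 (nat_lit 174) (C_12 L38956 (C_12 L38943 (C_12 L38961 (C_12 L38972 (C_12 L38981 (C_12 L38988 (C_12 L38995 N_12))))))) (by decide +kernel)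
theorem L38997 : W_12 (nat_lit 2) (nat_lit 0x4000300008001600080000000000000000000000000000000) (nat_lit 0x0) (nat_lit 0x1000080002000000000000000000000000000000000000000000000000) := D_12 (nat_lit 211) (nat_lit 228) (nat_lit 193) (nat_lit 4) (nat_lit 7) (nat_lit 13) (nat_lit 7) (nat_lit 6) (nat_lit 8) (by decide +kernel)
theorem L38998 : W_12 (nat_lit 3) (nat_lit 0x4000300000001600080000000000000000000000000000000) (nat_lit 0x0) (nat_lit 0x1000080002000000008000000020000000000000000000000000000000) := T_12 (nat_lit 159) (nat_lit 125) (nat_lit 7) (nat_lit 6) (nat_lit 7) L38997 (by decide +kernel)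
theorem L38999 : W_12 (nat_lit 14) (nat_lit 0x4000300000001200080000000000000000000000000000000) (nat_lit 0x0) (nat_lit 0x14000f800be000e006b800d8013c000000000000000000000000000000) := Q_12 (nat_lit 142) (C_12 L38925 (C_12 L38950 (C_12 L38996 (C_12 L38998 N_12)))) (by decide +kernel)
theorem L39000 : W_12 (nat_lit 2) (nat_lit 0x4000300000001e00090000000000000000000000000000000) (nat_lit 0x0) (nat_lit 0x2000000008000000020000000000000000000000000000000) := D_12 (nat_lit 159) (nat_lit 125) (nat_lit 193) (nat_lit 7) (nat_lit 6) (nat_lit 7) (nat_lit 4) (nat_lit 6) (nat_lit 11) (by decide +kernel)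
theorem L39001 : W_12 (nat_lit 3) (nat_lit 0x4000300000001e00080000000000000000000000000000000) (nat_lit 0x0) (nat_lit 0x2000000008000000038000000000000000000000000000000) := T_12 (nat_lit 124) (nat_lit 123) (nat_lit 0) (nat_lit 8) (nat_lit 8) L39000 (by decide +kernel)
theorem L39002 : W_12 (nat_lit 4) (nat_lit 0x4000300000001a00080000000000000000000000000000000) (nat_lit 0x0) (nat_lit 0x2000000008000400138000000000000000000000000000000) := T_12 (nat_lit 142) (nat_lit 128) (nat_lit 2) (nat_lit 5) (nat_lit 8) L39001 (by decide +kernel)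
theorem L39003 : W_12 (nat_lit 5) (nat_lit 0x4000300000001200080000000000000000000000000000000) (nat_lit 0x0) (nat_lit 0x2000000018000c00138000000000000000000000000000000) := T_12 (nat_lit 143) (nat_lit 160) (nat_lit 6) (nat_lit 7) (nat_lit 11) L39002 (by decide +kernel)
theorem L39004 : W_12 (nat_lit 2) (nat_lit 0x80004000300010001200080000000000000000000000000000000) (nat_lit 0x0) (nat_lit 0x1000000000000000008000400000000000000000000000000000000000) := D_12 (nat_lit 159) (nat_lit 142) (nat_lit 228) (nat_lit 4) (nat_lit 7) (nat_lit 12) (nat_lit 4) (nat_lit 7) (nat_lit 13) (by decide +kernel)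
theorem L39005 : W_12 (nat_lit 3) (nat_lit 0x4000300010001200080000000000000000000000000000000) (nat_lit 0x0) (nat_lit 0x1000080000000000028000400000000000000000000000000000000000) := T_12 (nat_lit 211) (nat_lit 161) (nat_lit 6) (nat_lit 7) (nat_lit 12) L39004 (by decide +kernel)
theorem L39006 : W_12 (nat_lit 4) (nat_lit 0x4000300000001200080000000000000000000000000000000) (nat_lit 0x0) (nat_lit 0x1000080000000000038000c00000000000000000000000000000000000) := T_12 (nat_lit 160) (nat_lit 143) (nat_lit 6) (nat_lit 7) (nat_lit 11) L39005 (by decide +kernel)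
theorem L39007 : W_12 (nat_lit 15) (nat_lit 0x300000001200080000000000000000000000000000000) (nat_lit 0x0) (nat_lit 0x14000e00070003e001f803fe000e007b800d8013c000000000000000000000000000000) := Q_12 (nat_lit 194) (C_12 L38875 (C_12 L38920 (C_12 L38922 (C_12 L38999 (C_12 L39003 (C_12 L39006 N_12)))))) (by decide +kernel)
theorem L39008 : W_12 (nat_lit 2) (nat_lit 0x52003f0006801600080000800000000000000000000000000) (nat_lit 0x0) (nat_lit 0x400020000000000000000100000000000000000000000000000000000) := D_12 (nat_lit 209) (nat_lit 226) (nat_lit 140) (nat_lit 4) (nat_lit 5) (nat_lit 13) (nat_lit 4) (nat_lit 5) (nat_lit 12) (by decide +kernel)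
theorem L39009 : W_12 (nat_lit 3) (nat_lit 0x42003f0006801600080000800000000000000000000000000) (nat_lit 0x0) (nat_lit 0x400020001000000000000100020000000000000000000000000000000) := T_12 (nat_lit 192) (nat_lit 125) (nat_lit 6) (nat_lit 5) (nat_lit 11) L39008 (by decide +kernel)
theorem L39010 : W_12 (nat_lit 4) (nat_lit 0x42003f0006801600080000000000000000000000000000000) (nat_lit 0x0) (nat_lit 0x400020001000000000000100030000800000000000000000000000000) := T_12 (nat_lit 107) (nat_lit 124) (nat_lit 5) (nat_lit 5) (nat_lit 6) L39009 (by decide +kernel)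
theorem L39011 : W_12 (nat_lit 5) (nat_lit 0x42003f0006801200080000000000000000000000000000000) (nat_lit 0x0) (nat_lit 0x400020001000000000000d00030000800000000000000000000000000) := T_12 (nat_lit 142) (nat_lit 143) (nat_lit 1) (nat_lit 8) (nat_lit 8) L39010 (by decide +kernel)
theorem L39012 : W_12 (nat_lit 6) (nat_lit 0x42003f0002801200080000000000000000000000000000000) (nat_lit 0x0) (nat_lit 0x400020001000008004000d00030000800000000000000000000000000) := T_12 (nat_lit 158) (nat_lit 171) (nat_lit 2) (nat_lit 1) (nat_lit 10) L39011 (by decide +kernel)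
theorem L39013 : W_12 (nat_lit 7) (nat_lit 0x42003f0002001200080000000000000000000000000000000) (nat_lit 0x0) (nat_lit 0x400020001000008004c00d00030000800000000000000000000000000) := T_12 (nat_lit 155) (nat_lit 154) (nat_lit 0) (nat_lit 5) (nat_lit 10) L39012 (by decide +kernel)
theorem L39014 : W_12 (nat_lit 8) (nat_lit 0x42003e0002001200080000000000000000000000000000000) (nat_lit 0x0) (nat_lit 0x400020001100018004c00d00030000800000000000000000000000000) := T_12 (nat_lit 172) (nat_lit 188) (nat_lit 1) (nat_lit 5) (nat_lit 10) L39013 (by decide +kernel)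
theorem L39015 : W_12 (nat_lit 9) (nat_lit 0x40003e0002001200080000000000000000000000000000000) (nat_lit 0x0) (nat_lit 0x400020001700018004c00d00030000800000000000000000000000000) := T_12 (nat_lit 189) (nat_lit 190) (nat_lit 1) (nat_lit 6) (nat_lit 10) L39014 (by decide +kernel)
theorem L39016 : W_12 (nat_lit 10) (nat_lit 0x40003c0002001200080000000000000000000000000000000) (nat_lit 0x0) (nat_lit 0x400020003700038004c00d00030000800000000000000000000000000) := T_12 (nat_lit 173) (nat_lit 193) (nat_lit 3) (nat_lit 3) (nat_lit 10) L39015 (by decide +kernel)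
theorem L39017 : W_12 (nat_lit 11) (nat_lit 0x3c0002001200080000000000000000000000000000000) (nat_lit 0x0) (nat_lit 0x40002000f700038004c00d00030000800000000000000000000000000) := T_12 (nat_lit 194) (nat_lit 195) (nat_lit 3) (nat_lit 4) (nat_lit 10) L39016 (by decide +kernel)
theorem L39018 : W_12 (nat_lit 12) (nat_lit 0x3c0000001200080000000000000000000000000000000) (nat_lit 0x0) (nat_lit 0x40002000f700038007c00d00030000800000000000000000000000000) := T_12 (nat_lit 157) (nat_lit 156) (nat_lit 0) (nat_lit 7) (nat_lit 10) L39017 (by decide +kernel)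
theorem L39019 : W_12 (nat_lit 13) (nat_lit 0x380000001200080000000000000000000000000000000) (nat_lit 0x0) (nat_lit 0x40002000ff00078007c00d00030000800000000000000000000000000) := Q_12 (nat_lit 174) (C_12 L38748 (C_12 L38742 (C_12 L39018 (C_12 L33491 N_12)))) (by decide +kernel)
theorem L39022 : W_12 (nat_lit 4) (nat_lit 0x3c0012001200080000000000000000000000000000000) (nat_lit 0x0) (nat_lit 0x20001c00000000000100018000000000000000000000000000000) := T_12 (nat_lit 191) (nat_lit 190) (nat_lit 1) (nat_lit 7) (nat_lit 10) L39021 (by decide +kernel)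
theorem L39023 : W_12 (nat_lit 5) (nat_lit 0x3c0002001200080000000000000000000000000000000) (nat_lit 0x0) (nat_lit 0x20001c00000030000100018000000000000000000000000000000) := T_12 (nat_lit 160) (nat_lit 161) (nat_lit 2) (nat_lit 4) (nat_lit 10) L39022 (by decide +kernel)
theorem L39024 : W_12 (nat_lit 6) (nat_lit 0x3c0000001200080000000000000000000000000000000) (nat_lit 0x0) (nat_lit 0x20001c00000033000100018000000000000000000000000000000) := T_12 (nat_lit 157) (nat_lit 156) (nat_lit 0) (nat_lit 7) (nat_lit 10) L39023 (by decide +kernel)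
theorem L39025 : W_12 (nat_lit 7) (nat_lit 0x380000001200080000000000000000000000000000000) (nat_lit 0x0) (nat_lit 0x2000fe00060033800100018000000000000000000000000000000) := Q_12 (nat_lit 174) (C_12 L33491 (C_12 L39024 (C_12 L38748 N_12))) (by decide +kernel)
theorem L39031 : W_12 (nat_lit 7) (nat_lit 0x3c0012001200080000000000000000000000000000000) (nat_lit 0x0) (nat_lit 0x50003e003c00000004000100000000000000000000000000000000000) := T_12 (nat_lit 191) (nat_lit 190) (nat_lit 1) (nat_lit 7) (nat_lit 10) L39030 (by decide +kernel)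
theorem L39032 : W_12 (nat_lit 8) (nat_lit 0x3c0002001200080000000000000000000000000000000) (nat_lit 0x0) (nat_lit 0x50003e003c00000034000100000000000000000000000000000000000) := T_12 (nat_lit 160) (nat_lit 161) (nat_lit 2) (nat_lit 4) (nat_lit 10) L39031 (by decide +kernel)
theorem L39033 : W_12 (nat_lit 9) (nat_lit 0x3c0000001200080000000000000000000000000000000) (nat_lit 0x0) (nat_lit 0x50003e003c00000037000100000000000000000000000000000000000) := T_12 (nat_lit 157) (nat_lit 156) (nat_lit 0) (nat_lit 7) (nat_lit 10) L39032 (by decide +kernel)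
theorem L39034 : W_12 (nat_lit 2) (nat_lit 0x48003c0002001200080000000000000000000000000000000) (nat_lit 0x0) (nat_lit 0x30000800000000000000000000000000000000000) := D_12 (nat_lit 160) (nat_lit 161) (nat_lit 143) (nat_lit 2) (nat_lit 4) (nat_lit 10) (nat_lit 6) (nat_lit 7) (nat_lit 11) (by decide +kernel)
theorem L39035 : W_12 (nat_lit 3) (nat_lit 0x8003c0002001200080000000000000000000000000000000) (nat_lit 0x0) (nat_lit 0xc000000030000800000000000000000000000000000000000) := T_12 (nat_lit 194) (nat_lit 195) (nat_lit 3) (nat_lit 4) (nat_lit 10) L39034 (by decide +kernel)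
theorem L39036 : W_12 (nat_lit 4) (nat_lit 0x8003c0000001200080000000000000000000000000000000) (nat_lit 0x0) (nat_lit 0xc000000033000800000000000000000000000000000000000) := T_12 (nat_lit 157) (nat_lit 156) (nat_lit 0) (nat_lit 7) (nat_lit 10) L39035 (by decide +kernel)
theorem L39037 : W_12 (nat_lit 5) (nat_lit 0x3c0000001200080000000000000000000000000000000) (nat_lit 0x0) (nat_lit 0xcc00000033000800000000000000000000000000000000000) := T_12 (nat_lit 191) (nat_lit 190) (nat_lit 1) (nat_lit 7) (nat_lit 10) L39036 (by decide +kernel)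
theorem L39038 : W_12 (nat_lit 10) (nat_lit 0x380000001200080000000000000000000000000000000) (nat_lit 0x0) (nat_lit 0x50003e00fe00060037800900000000000000000000000000000000000) := Q_12 (nat_lit 174) (C_12 L33491 (C_12 L39033 (C_12 L38748 (C_12 L39037 N_12)))) (by decide +kernel)
theorem L39039 : W_12 (nat_lit 2) (nat_lit 0x8003c0012001200080000000000000000000000000000000) (nat_lit 0x0) (nat_lit 0x10000000000004000000010000000000000000000000000000000) := D_12 (nat_lit 158) (nat_lit 124) (nat_lit 208) (nat_lit 5) (nat_lit 5) (nat_lit 7) (nat_lit 6) (nat_lit 4) (nat_lit 12) (by decide +kernel)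
theorem L39040 : W_12 (nat_lit 3) (nat_lit 0x3c0012001200080000000000000000000000000000000) (nat_lit 0x0) (nat_lit 0x10000c00000004000000010000000000000000000000000000000) := T_12 (nat_lit 191) (nat_lit 190) (nat_lit 1) (nat_lit 7) (nat_lit 10) L39039 (by decide +kernel)
theorem L39041 : W_12 (nat_lit 4) (nat_lit 0x3c0002001200080000000000000000000000000000000) (nat_lit 0x0) (nat_lit 0x10000c00000034000000010000000000000000000000000000000) := T_12 (nat_lit 160) (nat_lit 161) (nat_lit 2) (nat_lit 4) (nat_lit 10) L39040 (by decide +kernel)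
theorem L39042 : W_12 (nat_lit 5) (nat_lit 0x3c0000001200080000000000000000000000000000000) (nat_lit 0x0) (nat_lit 0x10000c00000037000000010000000000000000000000000000000) := T_12 (nat_lit 157) (nat_lit 156) (nat_lit 0) (nat_lit 7) (nat_lit 10) L39041 (by decide +kernel)
theorem L39043 : W_12 (nat_lit 7) (nat_lit 0x380000001200080000000000000000000000000000000) (nat_lit 0x0) (nat_lit 0x20001000fc00060037800800010000000000000000000000000000000) := Q_12 (nat_lit 174) (C_12 L39037 (C_12 L33491 (C_12 L39042 (C_12 L38779 N_12)))) (by decide +kernel)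
theorem L39046 : W_12 (nat_lit 4) (nat_lit 0x3c0010001200080000000000000000000000000000000) (nat_lit 0x0) (nat_lit 0x200010001c00000004000000010000000000000000000000000000000) := T_12 (nat_lit 191) (nat_lit 190) (nat_lit 1) (nat_lit 7) (nat_lit 10) L39045 (by decide +kernel)
theorem L39047 : W_12 (nat_lit 5) (nat_lit 0x3c0000001200080000000000000000000000000000000) (nat_lit 0x0) (nat_lit 0x200010001c00000034000000010000000000000000000000000000000) := T_12 (nat_lit 160) (nat_lit 161) (nat_lit 2) (nat_lit 4) (nat_lit 10) L39046 (by decide +kernel)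
theorem L39057 : W_12 (nat_lit 7) (nat_lit 0x3c0000001200080000000000000000000000000000000) (nat_lit 0x0) (nat_lit 0x400020003000000037000d00038001c00000000000000000000000000) := Q_12 (nat_lit 158) (C_12 L13209 (C_12 L39052 (C_12 L39056 N_12))) (by decide +kernel)
theorem L39058 : W_12 (nat_lit 10) (nat_lit 0x380000001200080000000000000000000000000000000) (nat_lit 0x0) (nat_lit 0x70003e003c00040037000d00038001c00000000000000000000000000) := Q_12 (nat_lit 174) (C_12 L39033 (C_12 L39024 (C_12 L39042 (C_12 L38742 (C_12 L39047 (C_12 L39057 N_12)))))) (by decide +kernel)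
theorem L39059 : W_12 (nat_lit 2) (nat_lit 0x20003000380004001f00080000000000000000000000000000000) (nat_lit 0x0) (nat_lit 0x4000000030000000000000000000000000000000000000000) := D_12 (nat_lit 160) (nat_lit 161) (nat_lit 194) (nat_lit 3) (nat_lit 4) (nat_lit 8) (nat_lit 6) (nat_lit 7) (nat_lit 11) (by decide +kernel)
theorem L39060 : W_12 (nat_lit 3) (nat_lit 0x20003000380004001700080000000000000000000000000000000) (nat_lit 0x0) (nat_lit 0x4000000030000800100000000000000000000000000000000) := T_12 (nat_lit 143) (nat_lit 128) (nat_lit 2) (nat_lit 5) (nat_lit 8) L39059 (by decide +kernel)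
theorem L39061 : W_12 (nat_lit 4) (nat_lit 0x20003000380004001300080000000000000000000000000000000) (nat_lit 0x0) (nat_lit 0x4000000030000c00120000000000000000000000000000000) := T_12 (nat_lit 142) (nat_lit 125) (nat_lit 6) (nat_lit 5) (nat_lit 11) L39060 (by decide +kernel)
theorem L39062 : W_12 (nat_lit 5) (nat_lit 0x3000380004001300080000000000000000000000000000000) (nat_lit 0x0) (nat_lit 0x20004000000032000c00120000000000000000000000000000000) := T_12 (nat_lit 209) (nat_lit 157) (nat_lit 4) (nat_lit 5) (nat_lit 12) L39061 (by decide +kernel)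
theorem L39063 : W_12 (nat_lit 6) (nat_lit 0x1000380004001300080000000000000000000000000000000) (nat_lit 0x0) (nat_lit 0x60006000000032000c00120000000000000000000000000000000) := T_12 (nat_lit 193) (nat_lit 210) (nat_lit 7) (nat_lit 5) (nat_lit 8) L39062 (by decide +kernel)
theorem L39064 : W_12 (nat_lit 7) (nat_lit 0x1000380004001200080000000000000000000000000000000) (nat_lit 0x0) (nat_lit 0x60006000000032000d00128000000000000000000000000000000) := T_12 (nat_lit 140) (nat_lit 123) (nat_lit 4) (nat_lit 5) (nat_lit 11) L39063 (by decide +kernel)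
theorem L39065 : W_12 (nat_lit 8) (nat_lit 0x380004001200080000000000000000000000000000000) (nat_lit 0x0) (nat_lit 0x200070007c00000032000d00128000000000000000000000000000000) := Q_12 (nat_lit 192) (C_12 L38714 (C_12 L38701 (C_12 L39064 N_12))) (by decide +kernel)
theorem L39069 : W_12 (nat_lit 5) (nat_lit 0x380004001200098001000000000000000000000000000) (nat_lit 0x0) (nat_lit 0x10000000020001000060008000c0002000000000000000000) := T_12 (nat_lit 107) (nat_lit 91) (nat_lit 6) (nat_lit 5) (nat_lit 9) L39068 (by decide +kernel)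
theorem L39070 : W_12 (nat_lit 6) (nat_lit 0x380004001200090001000000000000000000000000000) (nat_lit 0x0) (nat_lit 0x100000000200010000e000c000c0002000000000000000000) := T_12 (nat_lit 123) (nat_lit 106) (nat_lit 4) (nat_lit 5) (nat_lit 10) L39069 (by decide +kernel)
theorem L39071 : W_12 (nat_lit 7) (nat_lit 0x380004001200090000000000000000000000000000000) (nat_lit 0x0) (nat_lit 0x100000000200010002e001c000c0002000000000000000000) := T_12 (nat_lit 108) (nat_lit 125) (nat_lit 6) (nat_lit 5) (nat_lit 10) L39070 (by decide +kernel)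
theorem L39072 : W_12 (nat_lit 8) (nat_lit 0x380004001200080000000000000000000000000000000) (nat_lit 0x0) (nat_lit 0x300000000200010003e001c000c0002000000000000000000) := T_12 (nat_lit 124) (nat_lit 193) (nat_lit 7) (nat_lit 5) (nat_lit 7) L39071 (by decide +kernel)
theorem L39073 : W_12 (nat_lit 2) (nat_lit 0x3800040012000b8000000000000000000000000000000) (nat_lit 0x0) (nat_lit 0x1000000000000c00000000000000000000000000000000000) := D_12 (nat_lit 142) (nat_lit 143) (nat_lit 192) (nat_lit 0) (nat_lit 8) (nat_lit 8) (nat_lit 6) (nat_lit 5) (nat_lit 11) (by decide +kernel)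
theorem L39074 : W_12 (nat_lit 3) (nat_lit 0x3800040012000b0000000000000000000000000000000) (nat_lit 0x0) (nat_lit 0x1000000000000c00008000400000000000000000000000000) := T_12 (nat_lit 123) (nat_lit 106) (nat_lit 4) (nat_lit 5) (nat_lit 10) L39073 (by decide +kernel)
theorem L39075 : W_12 (nat_lit 4) (nat_lit 0x380004001200090000000000000000000000000000000) (nat_lit 0x0) (nat_lit 0x1000000000000c00028001400000000000000000000000000) := T_12 (nat_lit 125) (nat_lit 108) (nat_lit 6) (nat_lit 5) (nat_lit 10) L39074 (by decide +kernel)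
theorem L39076 : W_12 (nat_lit 5) (nat_lit 0x380004001200080000000000000000000000000000000) (nat_lit 0x0) (nat_lit 0x3000000000000c00038001400000000000000000000000000) := T_12 (nat_lit 124) (nat_lit 193) (nat_lit 7) (nat_lit 5) (nat_lit 7) L39075 (by decide +kernel)
theorem L39084 : W_12 (nat_lit 2) (nat_lit 0x1a00380004001f00080000000000000000000000000000000) (nat_lit 0x0) (nat_lit 0x4000000030000000000000000000000000000000000000000) := D_12 (nat_lit 160) (nat_lit 161) (nat_lit 194) (nat_lit 3) (nat_lit 4) (nat_lit 8) (nat_lit 6) (nat_lit 7) (nat_lit 11) (by decide +kernel)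
theorem L39085 : W_12 (nat_lit 3) (nat_lit 0x1a00380004001700080000000000000000000000000000000) (nat_lit 0x0) (nat_lit 0x4000000030000800100000000000000000000000000000000) := T_12 (nat_lit 143) (nat_lit 128) (nat_lit 2) (nat_lit 5) (nat_lit 8) L39084 (by decide +kernel)
theorem L39086 : W_12 (nat_lit 4) (nat_lit 0x1a00380004001600080000000000000000000000000000000) (nat_lit 0x0) (nat_lit 0x4000000030000900108000000000000000000000000000000) := T_12 (nat_lit 140) (nat_lit 123) (nat_lit 4) (nat_lit 5) (nat_lit 11) L39085 (by decide +kernel)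
theorem L39087 : W_12 (nat_lit 5) (nat_lit 0x1800380004001600080000000000000000000000000000000) (nat_lit 0x0) (nat_lit 0x4600000030000900108000000000000000000000000000000) := T_12 (nat_lit 189) (nat_lit 190) (nat_lit 2) (nat_lit 2) (nat_lit 11) L39086 (by decide +kernel)
theorem L39088 : W_12 (nat_lit 6) (nat_lit 0x1000380004001600080000000000000000000000000000000) (nat_lit 0x0) (nat_lit 0x10004e00000030000900108000000000000000000000000000000) := T_12 (nat_lit 191) (nat_lit 208) (nat_lit 5) (nat_lit 5) (nat_lit 8) L39087 (by decide +kernel)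
theorem L39089 : W_12 (nat_lit 7) (nat_lit 0x380004001600080000000000000000000000000000000) (nat_lit 0x0) (nat_lit 0x10005e00000030000900128000000000000000000000000000000) := T_12 (nat_lit 192) (nat_lit 125) (nat_lit 6) (nat_lit 5) (nat_lit 11) L39088 (by decide +kernel)
theorem L39090 : W_12 (nat_lit 8) (nat_lit 0x380004001200080000000000000000000000000000000) (nat_lit 0x0) (nat_lit 0x200030005e00000032000d00128000000000000000000000000000000) := Q_12 (nat_lit 142) (C_12 L39082 (C_12 L39083 (C_12 L39089 N_12))) (by decide +kernel)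
theorem L39091 : W_12 (nat_lit 2) (nat_lit 0x380004001200090001400000000000000000000000000) (nat_lit 0x0) (nat_lit 0x8000a0000000000000000000000) := D_12 (nat_lit 107) (nat_lit 91) (nat_lit 89) (nat_lit 6) (nat_lit 5) (nat_lit 9) (nat_lit 4) (nat_lit 5) (nat_lit 9) (by decide +kernel)
theorem L39092 : W_12 (nat_lit 3) (nat_lit 0x380004001200090001000000000000000000000000000) (nat_lit 0x0) (nat_lit 0x8000c000a0000000000000000000000) := T_12 (nat_lit 106) (nat_lit 123) (nat_lit 4) (nat_lit 5) (nat_lit 10) L39091 (by decide +kernel)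
theorem L39093 : W_12 (nat_lit 4) (nat_lit 0x380004001200090000000000000000000000000000000) (nat_lit 0x0) (nat_lit 0x28001c000a0000000000000000000000) := T_12 (nat_lit 108) (nat_lit 125) (nat_lit 6) (nat_lit 5) (nat_lit 10) L39092 (by decide +kernel)
theorem L39094 : W_12 (nat_lit 5) (nat_lit 0x380004001200080000000000000000000000000000000) (nat_lit 0x0) (nat_lit 0x2000000000000000038001c000a0000000000000000000000) := T_12 (nat_lit 124) (nat_lit 193) (nat_lit 7) (nat_lit 5) (nat_lit 7) L39093 (by decide +kernel)
theorem L39095 : W_12 (nat_lit 9) (nat_lit 0x380000001200080000000000000000000000000000000) (nat_lit 0x0) (nat_lit 0xa00070007e00000036000d0013e001c000e0002000000000000000000) := Q_12 (nat_lit 158) (C_12 L39065 (C_12 L38709 (C_12 L39072 (C_12 L39076 (C_12 L39078 (C_12 L39090 (C_12 L39094 N_12))))))) (by decide +kernel)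
theorem L39096 : W_12 (nat_lit 2) (nat_lit 0x40003c0000001200080000000000000000000000000000000) (nat_lit 0x0) (nat_lit 0x30000800000000000000000000000000000000000) := D_12 (nat_lit 160) (nat_lit 161) (nat_lit 143) (nat_lit 2) (nat_lit 4) (nat_lit 10) (nat_lit 6) (nat_lit 7) (nat_lit 11) (by decide +kernel)
theorem L39097 : W_12 (nat_lit 3) (nat_lit 0x3c0000001200080000000000000000000000000000000) (nat_lit 0x0) (nat_lit 0xc000000030000800000000000000000000000000000000000) := T_12 (nat_lit 194) (nat_lit 195) (nat_lit 3) (nat_lit 4) (nat_lit 10) L39096 (by decide +kernel)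
theorem L39098 : W_12 (nat_lit 6) (nat_lit 0x380000001200080000000000000000000000000000000) (nat_lit 0x0) (nat_lit 0x20001000fe00060034000800010000000000000000000000000000000) := Q_12 (nat_lit 174) (C_12 L38748 (C_12 L39047 (C_12 L39097 N_12))) (by decide +kernel)
theorem L39099 : W_12 (nat_lit 5) (nat_lit 0x380000001200080000000000000000000000000000000) (nat_lit 0x0) (nat_lit 0xcc00040037000900010000000000000000000000000000000) := Q_12 (nat_lit 174) (C_12 L39097 (C_12 L38742 N_12)) (by decide +kernel)
theorem L39100 : W_12 (nat_lit 8) (nat_lit 0x380000001200080000000000000000000000000000000) (nat_lit 0x0) (nat_lit 0x40002000f000060037800d00038001c00000000000000000000000000) := Q_12 (nat_lit 174) (C_12 L39097 (C_12 L33491 (C_12 L39057 N_12))) (by decide +kernel)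
theorem L39101 : W_12 (nat_lit 14) (nat_lit 0x300000001200080000000000000000000000000000000) (nat_lit 0x0) (nat_lit 0xf0007e00ff000f8037c00d0013e001c000e0002000000000000000000) := Q_12 (nat_lit 175) (C_12 L38753 (C_12 L39019 (C_12 L39025 (C_12 L39038 (C_12 L39043 (C_12 L39058 (C_12 L39095 (C_12 L39098 (C_12 L39099 (C_12 L39100 N_12)))))))))) (by decide +kernel)
theorem L39107 : W_12 (nat_lit 7) (nat_lit 0x300008001600080000000000000000000000000000000) (nat_lit 0x0) (nat_lit 0x50000800040000000200038001c000a000000000000000000) := T_12 (nat_lit 125) (nat_lit 194) (nat_lit 7) (nat_lit 6) (nat_lit 7) L39106 (by decide +kernel)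
theorem L39108 : W_12 (nat_lit 2) (nat_lit 0x3000080016000a0000000000000000000000000000000) (nat_lit 0x0) (nat_lit 0x2000000000000000010000800000000000000000000000000) := D_12 (nat_lit 124) (nat_lit 193) (nat_lit 107) (nat_lit 4) (nat_lit 6) (nat_lit 11) (nat_lit 4) (nat_lit 6) (nat_lit 10) (by decide +kernel)
theorem L39109 : W_12 (nat_lit 3) (nat_lit 0x300008001600080000000000000000000000000000000) (nat_lit 0x0) (nat_lit 0x6000000000000000030000800000000000000000000000000) := T_12 (nat_lit 125) (nat_lit 194) (nat_lit 7) (nat_lit 6) (nat_lit 7) L39108 (by decide +kernel)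
theorem L39110 : W_12 (nat_lit 2) (nat_lit 0x2000300008001600080000000000000000000000000000000) (nat_lit 0x0) (nat_lit 0x80004000000000000000020000000000000000000000000000000) := D_12 (nat_lit 194) (nat_lit 125) (nat_lit 211) (nat_lit 7) (nat_lit 6) (nat_lit 7) (nat_lit 7) (nat_lit 6) (nat_lit 8) (by decide +kernel)
theorem L39111 : W_12 (nat_lit 3) (nat_lit 0x300008001600080000000000000000000000000000000) (nat_lit 0x0) (nat_lit 0x80006000000000000000030000000000000000000000000000000) := T_12 (nat_lit 193) (nat_lit 124) (nat_lit 4) (nat_lit 6) (nat_lit 11) L39110 (by decide +kernel)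
theorem L39115 : W_12 (nat_lit 8) (nat_lit 0x300000001600080000000000000000000000000000000) (nat_lit 0x0) (nat_lit 0x4000e000700008000c0000000300038001c000a000000000000000000) := Q_12 (nat_lit 159) (C_12 L39107 (C_12 L39109 (C_12 L39111 (C_12 L39114 N_12)))) (by decide +kernel)
theorem L39116 : W_12 (nat_lit 2) (nat_lit 0x380024001e00090000000000000000000000000000000) (nat_lit 0x0) (nat_lit 0x1000000000000000020001000000000000000000000000000) := D_12 (nat_lit 125) (nat_lit 192) (nat_lit 108) (nat_lit 6) (nat_lit 5) (nat_lit 11) (nat_lit 6) (nat_lit 5) (nat_lit 10) (by decide +kernel)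
theorem L39117 : W_12 (nat_lit 3) (nat_lit 0x300024001e00090000000000000000000000000000000) (nat_lit 0x0) (nat_lit 0x3000080000000000020001000000000000000000000000000) := T_12 (nat_lit 175) (nat_lit 193) (nat_lit 7) (nat_lit 5) (nat_lit 7) L39116 (by decide +kernel)
theorem L39118 : W_12 (nat_lit 4) (nat_lit 0x300024001e00080000000000000000000000000000000) (nat_lit 0x0) (nat_lit 0x3000080000000000038001000000000000000000000000000) := T_12 (nat_lit 124) (nat_lit 123) (nat_lit 0) (nat_lit 8) (nat_lit 8) L39117 (by decide +kernel)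
theorem L39119 : W_12 (nat_lit 5) (nat_lit 0x300004001e00080000000000000000000000000000000) (nat_lit 0x0) (nat_lit 0x3000080060000000038001000000000000000000000000000) := T_12 (nat_lit 161) (nat_lit 162) (nat_lit 3) (nat_lit 5) (nat_lit 8) L39118 (by decide +kernel)
theorem L39120 : W_12 (nat_lit 6) (nat_lit 0x300000001e00080000000000000000000000000000000) (nat_lit 0x0) (nat_lit 0x3000080066000000038001000000000000000000000000000) := T_12 (nat_lit 158) (nat_lit 157) (nat_lit 1) (nat_lit 8) (nat_lit 8) L39119 (by decide +kernel)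
theorem L39121 : W_12 (nat_lit 7) (nat_lit 0x300000001600080000000000000000000000000000000) (nat_lit 0x0) (nat_lit 0x3000080066000800138001000000000000000000000000000) := T_12 (nat_lit 143) (nat_lit 128) (nat_lit 2) (nat_lit 5) (nat_lit 8) L39120 (by decide +kernel)
theorem L39122 : W_12 (nat_lit 2) (nat_lit 0x300028001e00090000000000000000000000000000000) (nat_lit 0x0) (nat_lit 0x4000000000000000020000800000000000000000000000000) := D_12 (nat_lit 125) (nat_lit 107) (nat_lit 194) (nat_lit 4) (nat_lit 6) (nat_lit 10) (nat_lit 7) (nat_lit 6) (nat_lit 7) (by decide +kernel)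
theorem L39123 : W_12 (nat_lit 3) (nat_lit 0x300020001e00090000000000000000000000000000000) (nat_lit 0x0) (nat_lit 0x6000000008000000020000800000000000000000000000000) := T_12 (nat_lit 159) (nat_lit 193) (nat_lit 4) (nat_lit 6) (nat_lit 11) L39122 (by decide +kernel)
theorem L39124 : W_12 (nat_lit 4) (nat_lit 0x300000001e00090000000000000000000000000000000) (nat_lit 0x0) (nat_lit 0x6000000068000000020000800000000000000000000000000) := T_12 (nat_lit 161) (nat_lit 162) (nat_lit 3) (nat_lit 5) (nat_lit 8) L39123 (by decide +kernel)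
theorem L39125 : W_12 (nat_lit 5) (nat_lit 0x300000001e00080000000000000000000000000000000) (nat_lit 0x0) (nat_lit 0x6000000068000000038000800000000000000000000000000) := T_12 (nat_lit 124) (nat_lit 123) (nat_lit 0) (nat_lit 8) (nat_lit 8) L39124 (by decide +kernel)
theorem L39126 : W_12 (nat_lit 6) (nat_lit 0x300000001600080000000000000000000000000000000) (nat_lit 0x0) (nat_lit 0x6000000068000800138000800000000000000000000000000) := T_12 (nat_lit 143) (nat_lit 128) (nat_lit 2) (nat_lit 5) (nat_lit 8) L39125 (by decide +kernel)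
theorem L39127 : W_12 (nat_lit 2) (nat_lit 0x300004001600080000000000000000000000000000000) (nat_lit 0x0) (nat_lit 0x2000800100000000000000000000000000000000) := D_12 (nat_lit 143) (nat_lit 128) (nat_lit 157) (nat_lit 2) (nat_lit 5) (nat_lit 8) (nat_lit 1) (nat_lit 8) (nat_lit 8) (by decide +kernel)
theorem L39130 : W_12 (nat_lit 4) (nat_lit 0x30000c001600080000000000000000000000000000000) (nat_lit 0x0) (nat_lit 0x5000080000000800120001000000000000000000000000000) := T_12 (nat_lit 143) (nat_lit 128) (nat_lit 2) (nat_lit 5) (nat_lit 8) L39129 (by decide +kernel)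
theorem L39131 : W_12 (nat_lit 2) (nat_lit 0x30000c0016000a0000000000000000000000000000000) (nat_lit 0x0) (nat_lit 0x1000080000000000000001000000000000000000000000000) := D_12 (nat_lit 175) (nat_lit 192) (nat_lit 108) (nat_lit 6) (nat_lit 5) (nat_lit 11) (nat_lit 5) (nat_lit 6) (nat_lit 6) (by decide +kernel)
theorem L39132 : W_12 (nat_lit 3) (nat_lit 0x30000c001600080000000000000000000000000000000) (nat_lit 0x0) (nat_lit 0x5000080000000000020001000000000000000000000000000) := T_12 (nat_lit 125) (nat_lit 194) (nat_lit 7) (nat_lit 6) (nat_lit 7) L39131 (by decide +kernel)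
theorem L39133 : W_12 (nat_lit 2) (nat_lit 0x200030000c001600080000000000000000000000000000000) (nat_lit 0x0) (nat_lit 0x80004000000000000000020000000000000000000000000000000) := D_12 (nat_lit 194) (nat_lit 125) (nat_lit 211) (nat_lit 7) (nat_lit 6) (nat_lit 7) (nat_lit 7) (nat_lit 6) (nat_lit 8) (by decide +kernel)
theorem L39134 : W_12 (nat_lit 3) (nat_lit 0x30000c001600080000000000000000000000000000000) (nat_lit 0x0) (nat_lit 0xc0006000000000000000020000000000000000000000000000000) := T_12 (nat_lit 193) (nat_lit 210) (nat_lit 4) (nat_lit 6) (nat_lit 12) L39133 (by decide +kernel)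
theorem L39139 : W_12 (nat_lit 6) (nat_lit 0x30000c001e00080000000000000000000000000000000) (nat_lit 0x0) (nat_lit 0x70003c00080060000000020000000000000000000000000000000) := T_12 (nat_lit 193) (nat_lit 210) (nat_lit 4) (nat_lit 6) (nat_lit 12) L39138 (by decide +kernel)
theorem L39140 : W_12 (nat_lit 7) (nat_lit 0x30000c001600080000000000000000000000000000000) (nat_lit 0x0) (nat_lit 0x70003c00080060000800120000000000000000000000000000000) := T_12 (nat_lit 143) (nat_lit 128) (nat_lit 2) (nat_lit 5) (nat_lit 8) L39139 (by decide +kernel)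
theorem L39141 : W_12 (nat_lit 2) (nat_lit 0x780030002c001e00080000000000000000000000000000000) (nat_lit 0x0) (nat_lit 0x18000000080000000000000000000000000000000000000000000) := D_12 (nat_lit 208) (nat_lit 207) (nat_lit 175) (nat_lit 1) (nat_lit 7) (nat_lit 11) (nat_lit 5) (nat_lit 5) (nat_lit 8) (by decide +kernel)
theorem L39142 : W_12 (nat_lit 3) (nat_lit 0x700030002c001e00080000000000000000000000000000000) (nat_lit 0x0) (nat_lit 0x18000c00080000000000000000000000000000000000000000000) := T_12 (nat_lit 191) (nat_lit 190) (nat_lit 2) (nat_lit 3) (nat_lit 11) L39141 (by decide +kernel)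
theorem L39143 : W_12 (nat_lit 4) (nat_lit 0x600030002c001e00080000000000000000000000000000000) (nat_lit 0x0) (nat_lit 0x38001c00080000000000000000000000000000000000000000000) := T_12 (nat_lit 192) (nat_lit 209) (nat_lit 5) (nat_lit 6) (nat_lit 8) L39142 (by decide +kernel)
theorem L39144 : W_12 (nat_lit 5) (nat_lit 0x600030000c001e00080000000000000000000000000000000) (nat_lit 0x0) (nat_lit 0x38001c00080060000000000000000000000000000000000000000) := T_12 (nat_lit 161) (nat_lit 162) (nat_lit 3) (nat_lit 5) (nat_lit 8) L39143 (by decide +kernel)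
theorem L39145 : W_12 (nat_lit 6) (nat_lit 0x200030000c001e00080000000000000000000000000000000) (nat_lit 0x0) (nat_lit 0xb8005c00080060000000000000000000000000000000000000000) := T_12 (nat_lit 194) (nat_lit 211) (nat_lit 7) (nat_lit 6) (nat_lit 8) L39144 (by decide +kernel)
theorem L39146 : W_12 (nat_lit 7) (nat_lit 0x200030000c001600080000000000000000000000000000000) (nat_lit 0x0) (nat_lit 0xb8005c00080060000800100000000000000000000000000000000) := T_12 (nat_lit 143) (nat_lit 128) (nat_lit 2) (nat_lit 5) (nat_lit 8) L39145 (by decide +kernel)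
theorem L39147 : W_12 (nat_lit 8) (nat_lit 0x30000c001600080000000000000000000000000000000) (nat_lit 0x0) (nat_lit 0xf8007c00080060000800100000000000000000000000000000000) := T_12 (nat_lit 193) (nat_lit 210) (nat_lit 4) (nat_lit 6) (nat_lit 12) L39146 (by decide +kernel)
theorem L39148 : W_12 (nat_lit 9) (nat_lit 0x300004001600080000000000000000000000000000000) (nat_lit 0x0) (nat_lit 0xf8007c00080068000800120001000000000000000000000000000) := Q_12 (nat_lit 159) (C_12 L39130 (C_12 L39132 (C_12 L39134 (C_12 L39140 (C_12 L39147 N_12))))) (by decide +kernel)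
theorem L39149 : W_12 (nat_lit 2) (nat_lit 0x300038000d001600080000000000000000000000000000000) (nat_lit 0x0) (nat_lit 0x10000c00000000000000000000000000000000000000000000000) := D_12 (nat_lit 191) (nat_lit 190) (nat_lit 208) (nat_lit 2) (nat_lit 3) (nat_lit 11) (nat_lit 5) (nat_lit 5) (nat_lit 8) (by decide +kernel)
theorem L39150 : W_12 (nat_lit 3) (nat_lit 0x300030000d001600080000000000000000000000000000000) (nat_lit 0x0) (nat_lit 0x10000c00080000000000020000000000000000000000000000000) := T_12 (nat_lit 175) (nat_lit 125) (nat_lit 6) (nat_lit 5) (nat_lit 11) L39149 (by decide +kernel)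
theorem L39151 : W_12 (nat_lit 4) (nat_lit 0x200030000d001600080000000000000000000000000000000) (nat_lit 0x0) (nat_lit 0x30001c00080000000000020000000000000000000000000000000) := T_12 (nat_lit 192) (nat_lit 209) (nat_lit 5) (nat_lit 6) (nat_lit 8) L39150 (by decide +kernel)
theorem L39152 : W_12 (nat_lit 5) (nat_lit 0x30000d001600080000000000000000000000000000000) (nat_lit 0x0) (nat_lit 0x70003c00080000000000020000000000000000000000000000000) := T_12 (nat_lit 193) (nat_lit 210) (nat_lit 4) (nat_lit 6) (nat_lit 12) L39151 (by decide +kernel)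
theorem L39153 : W_12 (nat_lit 6) (nat_lit 0x30000c001600080000000000000000000000000000000) (nat_lit 0x0) (nat_lit 0x70003c00080003000000020000000000000000000000000000000) := T_12 (nat_lit 156) (nat_lit 157) (nat_lit 3) (nat_lit 3) (nat_lit 9) L39152 (by decide +kernel)
theorem L39154 : W_12 (nat_lit 2) (nat_lit 0x780030000d001600080000000000000000000000000000000) (nat_lit 0x0) (nat_lit 0x18000000080000000000000000000000000000000000000000000) := D_12 (nat_lit 208) (nat_lit 207) (nat_lit 175) (nat_lit 1) (nat_lit 7) (nat_lit 11) (nat_lit 5) (nat_lit 5) (nat_lit 8) (by decide +kernel)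
theorem L39155 : W_12 (nat_lit 3) (nat_lit 0x700030000d001600080000000000000000000000000000000) (nat_lit 0x0) (nat_lit 0x18000c00080000000000000000000000000000000000000000000) := T_12 (nat_lit 191) (nat_lit 190) (nat_lit 2) (nat_lit 3) (nat_lit 11) L39154 (by decide +kernel)
theorem L39156 : W_12 (nat_lit 4) (nat_lit 0x600030000d001600080000000000000000000000000000000) (nat_lit 0x0) (nat_lit 0x38001c00080000000000000000000000000000000000000000000) := T_12 (nat_lit 192) (nat_lit 209) (nat_lit 5) (nat_lit 6) (nat_lit 8) L39155 (by decide +kernel)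
theorem L39157 : W_12 (nat_lit 5) (nat_lit 0x200030000d001600080000000000000000000000000000000) (nat_lit 0x0) (nat_lit 0xb8005c00080000000000000000000000000000000000000000000) := T_12 (nat_lit 194) (nat_lit 211) (nat_lit 7) (nat_lit 6) (nat_lit 8) L39156 (by decide +kernel)
theorem L39158 : W_12 (nat_lit 6) (nat_lit 0x200030000c001600080000000000000000000000000000000) (nat_lit 0x0) (nat_lit 0xb8005c00080003000000000000000000000000000000000000000) := T_12 (nat_lit 156) (nat_lit 157) (nat_lit 3) (nat_lit 3) (nat_lit 9) L39157 (by decide +kernel)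
theorem L39159 : W_12 (nat_lit 7) (nat_lit 0x30000c001600080000000000000000000000000000000) (nat_lit 0x0) (nat_lit 0xf8007c00080003000000000000000000000000000000000000000) := T_12 (nat_lit 193) (nat_lit 210) (nat_lit 4) (nat_lit 6) (nat_lit 12) L39158 (by decide +kernel)
theorem L39160 : W_12 (nat_lit 8) (nat_lit 0x300004001600080000000000000000000000000000000) (nat_lit 0x0) (nat_lit 0xf8007c0008000b000000020001000000000000000000000000000) := Q_12 (nat_lit 159) (C_12 L39134 (C_12 L39132 (C_12 L39153 (C_12 L39159 N_12)))) (by decide +kernel)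
theorem L39161 : W_12 (nat_lit 10) (nat_lit 0x300000001600080000000000000000000000000000000) (nat_lit 0x0) (nat_lit 0xf8007c0008006f000800120001000000000000000000000000000) := Q_12 (nat_lit 158) (C_12 L39127 (C_12 L39148 (C_12 L39160 N_12))) (by decide +kernel)
theorem L39166 : W_12 (nat_lit 6) (nat_lit 0x300000001600080000000000000000000000000000000) (nat_lit 0x0) (nat_lit 0x200008006e000800118000000000000000000000000000000) := T_12 (nat_lit 143) (nat_lit 128) (nat_lit 2) (nat_lit 5) (nat_lit 8) L39165 (by decide +kernel)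
theorem L39167 : W_12 (nat_lit 2) (nat_lit 0x300024001e000b0001800020000000000000000000000) (nat_lit 0x0) (nat_lit 0x40003000000000000000000) := D_12 (nat_lit 90) (nat_lit 73) (nat_lit 72) (nat_lit 7) (nat_lit 5) (nat_lit 4) (nat_lit 4) (nat_lit 5) (nat_lit 8) (by decide +kernel)
theorem L39168 : W_12 (nat_lit 3) (nat_lit 0x300024001e000b0001800000000000000000000000000) (nat_lit 0x0) (nat_lit 0x400060003000000000000000000) := T_12 (nat_lit 89) (nat_lit 106) (nat_lit 4) (nat_lit 5) (nat_lit 9) L39167 (by decide +kernel)
theorem L39169 : W_12 (nat_lit 4) (nat_lit 0x300024001e00090001800000000000000000000000000) (nat_lit 0x0) (nat_lit 0x80000000000020000400060003000000000000000000) := T_12 (nat_lit 125) (nat_lit 175) (nat_lit 6) (nat_lit 5) (nat_lit 10) L39168 (by decide +kernel)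
theorem L39170 : W_12 (nat_lit 5) (nat_lit 0x300024001e00090000800000000000000000000000000) (nat_lit 0x0) (nat_lit 0x800000000000200014000e0003000000000000000000) := T_12 (nat_lit 108) (nat_lit 91) (nat_lit 6) (nat_lit 5) (nat_lit 9) L39169 (by decide +kernel)
theorem L39171 : W_12 (nat_lit 6) (nat_lit 0x300024001e00090000000000000000000000000000000) (nat_lit 0x0) (nat_lit 0x80008000000020001c000e0003000000000000000000) := T_12 (nat_lit 107) (nat_lit 159) (nat_lit 7) (nat_lit 5) (nat_lit 6) L39170 (by decide +kernel)
theorem L39172 : W_12 (nat_lit 7) (nat_lit 0x300024001e00080000000000000000000000000000000) (nat_lit 0x0) (nat_lit 0x80008000000038001c000e0003000000000000000000) := T_12 (nat_lit 124) (nat_lit 123) (nat_lit 0) (nat_lit 8) (nat_lit 8) L39171 (by decide +kernel)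
theorem L39173 : W_12 (nat_lit 8) (nat_lit 0x300004001e00080000000000000000000000000000000) (nat_lit 0x0) (nat_lit 0x80068000000038001c000e0003000000000000000000) := T_12 (nat_lit 161) (nat_lit 162) (nat_lit 3) (nat_lit 5) (nat_lit 8) L39172 (by decide +kernel)
theorem L39174 : W_12 (nat_lit 9) (nat_lit 0x300000001e00080000000000000000000000000000000) (nat_lit 0x0) (nat_lit 0x8006e000000038001c000e0003000000000000000000) := T_12 (nat_lit 158) (nat_lit 157) (nat_lit 1) (nat_lit 8) (nat_lit 8) L39173 (by decide +kernel)
theorem L39175 : W_12 (nat_lit 10) (nat_lit 0x300000001600080000000000000000000000000000000) (nat_lit 0x0) (nat_lit 0x8006e000800138001c000e0003000000000000000000) := T_12 (nat_lit 143) (nat_lit 128) (nat_lit 2) (nat_lit 5) (nat_lit 8) L39174 (by decide +kernel)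
theorem L39176 : W_12 (nat_lit 11) (nat_lit 0x300000001200080000000000000000000000000000000) (nat_lit 0x0) (nat_lit 0x4000f8007c0008006f000c00138003c001e000b000000000000000000) := Q_12 (nat_lit 142) (C_12 L39115 (C_12 L39121 (C_12 L39126 (C_12 L39161 (C_12 L39166 (C_12 L39175 N_12)))))) (by decide +kernel)
theorem L39177 : W_12 (nat_lit 2) (nat_lit 0x42003f0022001f80084000000010000000000000000000000) (nat_lit 0x0) (nat_lit 0xc00040000000000000000000000000000000000) := D_12 (nat_lit 155) (nat_lit 154) (nat_lit 138) (nat_lit 0) (nat_lit 5) (nat_lit 10) (nat_lit 6) (nat_lit 2) (nat_lit 11) (by decide +kernel)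
theorem L39178 : W_12 (nat_lit 3) (nat_lit 0x42003e0022001f80084000000010000000000000000000000) (nat_lit 0x0) (nat_lit 0x100010000c00040000000000000000000000000000000000) := T_12 (nat_lit 172) (nat_lit 188) (nat_lit 1) (nat_lit 5) (nat_lit 10) L39177 (by decide +kernel)
theorem L39179 : W_12 (nat_lit 4) (nat_lit 0x40003e0022001f80084000000010000000000000000000000) (nat_lit 0x0) (nat_lit 0x700010000c00040000000000000000000000000000000000) := T_12 (nat_lit 189) (nat_lit 190) (nat_lit 1) (nat_lit 6) (nat_lit 10) L39178 (by decide +kernel)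
theorem L39180 : W_12 (nat_lit 5) (nat_lit 0x40003c0022001f80084000000010000000000000000000000) (nat_lit 0x0) (nat_lit 0x2700030000c00040000000000000000000000000000000000) := T_12 (nat_lit 173) (nat_lit 193) (nat_lit 3) (nat_lit 3) (nat_lit 10) L39179 (by decide +kernel)
theorem L39181 : W_12 (nat_lit 6) (nat_lit 0x4000340022001f80084000000010000000000000000000000) (nat_lit 0x0) (nat_lit 0xa7000b0000c00040000000000000000000000000000000000) := T_12 (nat_lit 175) (nat_lit 195) (nat_lit 3) (nat_lit 4) (nat_lit 10) L39180 (by decide +kernel)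
theorem L39182 : W_12 (nat_lit 7) (nat_lit 0x4000340022001f80084000000000000000000000000000000) (nat_lit 0x0) (nat_lit 0xa7000b0000c00040000000200010000000000000000000000) := T_12 (nat_lit 88) (nat_lit 105) (nat_lit 7) (nat_lit 3) (nat_lit 5) L39181 (by decide +kernel)
theorem L39183 : W_12 (nat_lit 8) (nat_lit 0x4000300022001f80084000000000000000000000000000000) (nat_lit 0x0) (nat_lit 0xaf000f0000c00040000000200010000000000000000000000) := T_12 (nat_lit 174) (nat_lit 191) (nat_lit 4) (nat_lit 4) (nat_lit 11) L39182 (by decide +kernel)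
theorem L39184 : W_12 (nat_lit 9) (nat_lit 0x4000300022001f00084000000000000000000000000000000) (nat_lit 0x0) (nat_lit 0xaf000f0000c000c0002000200010000000000000000000000) := T_12 (nat_lit 139) (nat_lit 121) (nat_lit 0) (nat_lit 6) (nat_lit 8) L39183 (by decide +kernel)
theorem L39185 : W_12 (nat_lit 10) (nat_lit 0x4000300022001f00080000000000000000000000000000000) (nat_lit 0x0) (nat_lit 0xaf000f0000c000c000e000200010000000000000000000000) := T_12 (nat_lit 122) (nat_lit 123) (nat_lit 0) (nat_lit 7) (nat_lit 8) L39184 (by decide +kernel)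
theorem L39186 : W_12 (nat_lit 11) (nat_lit 0x4000300022001e00080000000000000000000000000000000) (nat_lit 0x0) (nat_lit 0xaf000f0001c001c000e000200010000000000000000000000) := T_12 (nat_lit 140) (nat_lit 156) (nat_lit 1) (nat_lit 7) (nat_lit 8) L39185 (by decide +kernel)
theorem L39187 : W_12 (nat_lit 12) (nat_lit 0x4000300002001e00080000000000000000000000000000000) (nat_lit 0x0) (nat_lit 0xaf000f0061c001c000e000200010000000000000000000000) := T_12 (nat_lit 161) (nat_lit 162) (nat_lit 3) (nat_lit 5) (nat_lit 8) L39186 (by decide +kernel)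
theorem L39188 : W_12 (nat_lit 13) (nat_lit 0x4000300000001e00080000000000000000000000000000000) (nat_lit 0x0) (nat_lit 0xaf000f0067c001c000e000200010000000000000000000000) := T_12 (nat_lit 157) (nat_lit 158) (nat_lit 1) (nat_lit 8) (nat_lit 8) L39187 (by decide +kernel)
theorem L39189 : W_12 (nat_lit 14) (nat_lit 0x4000300000001600080000000000000000000000000000000) (nat_lit 0x0) (nat_lit 0xaf000f0067c009c010e000200010000000000000000000000) := T_12 (nat_lit 143) (nat_lit 128) (nat_lit 2) (nat_lit 5) (nat_lit 8) L39188 (by decide +kernel)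
theorem L39190 : W_12 (nat_lit 2) (nat_lit 0x4000380004001e00080000000000000000000000000000000) (nat_lit 0x0) (nat_lit 0x1000000008000000020000000000000000000000000000000) := D_12 (nat_lit 125) (nat_lit 159) (nat_lit 192) (nat_lit 7) (nat_lit 6) (nat_lit 7) (nat_lit 6) (nat_lit 5) (nat_lit 11) (by decide +kernel)
theorem L39191 : W_12 (nat_lit 3) (nat_lit 0x4000380000001e00080000000000000000000000000000000) (nat_lit 0x0) (nat_lit 0x100000000e000000020000000000000000000000000000000) := T_12 (nat_lit 158) (nat_lit 157) (nat_lit 1) (nat_lit 8) (nat_lit 8) L39190 (by decide +kernel)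
theorem L39192 : W_12 (nat_lit 4) (nat_lit 0x4000380000001600080000000000000000000000000000000) (nat_lit 0x0) (nat_lit 0x100000000e000800120000000000000000000000000000000) := T_12 (nat_lit 143) (nat_lit 128) (nat_lit 2) (nat_lit 5) (nat_lit 8) L39191 (by decide +kernel)
theorem L39193 : W_12 (nat_lit 2) (nat_lit 0x48003c00020016000a0000000000000000000000000000000) (nat_lit 0x0) (nat_lit 0x10001000000004000000000000000000000000000000000000000) := D_12 (nat_lit 158) (nat_lit 192) (nat_lit 208) (nat_lit 6) (nat_lit 5) (nat_lit 11) (nat_lit 6) (nat_lit 4) (nat_lit 12) (by decide +kernel)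
theorem L39194 : W_12 (nat_lit 3) (nat_lit 0x48003c0002001600080000000000000000000000000000000) (nat_lit 0x0) (nat_lit 0x1000100000000c000000020000000000000000000000000000000) := T_12 (nat_lit 125) (nat_lit 159) (nat_lit 7) (nat_lit 6) (nat_lit 7) L39193 (by decide +kernel)
theorem L39195 : W_12 (nat_lit 4) (nat_lit 0x48003c0000001600080000000000000000000000000000000) (nat_lit 0x0) (nat_lit 0x1000100000000f000000020000000000000000000000000000000) := T_12 (nat_lit 157) (nat_lit 156) (nat_lit 0) (nat_lit 7) (nat_lit 10) L39194 (by decide +kernel)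
theorem L39196 : W_12 (nat_lit 5) (nat_lit 0x40003c0000001600080000000000000000000000000000000) (nat_lit 0x0) (nat_lit 0x10001c0000000f000000020000000000000000000000000000000) := T_12 (nat_lit 191) (nat_lit 190) (nat_lit 1) (nat_lit 7) (nat_lit 10) L39195 (by decide +kernel)
theorem L39197 : W_12 (nat_lit 6) (nat_lit 0x4000380000001600080000000000000000000000000000000) (nat_lit 0x0) (nat_lit 0x10009c0004000f000000020000000000000000000000000000000) := T_12 (nat_lit 174) (nat_lit 195) (nat_lit 3) (nat_lit 4) (nat_lit 10) L39196 (by decide +kernel)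
theorem L39198 : W_12 (nat_lit 2) (nat_lit 0x5800380024001e00080000000000000000000000000000000) (nat_lit 0x0) (nat_lit 0x600040000000000000000000000000000000000000000000) := D_12 (nat_lit 190) (nat_lit 189) (nat_lit 174) (nat_lit 2) (nat_lit 2) (nat_lit 11) (nat_lit 1) (nat_lit 7) (nat_lit 10) (by decide +kernel)
theorem L39199 : W_12 (nat_lit 3) (nat_lit 0x5000380024001e00080000000000000000000000000000000) (nat_lit 0x0) (nat_lit 0x10000e00040000000000000000000000000000000000000000000) := T_12 (nat_lit 191) (nat_lit 208) (nat_lit 5) (nat_lit 5) (nat_lit 8) L39198 (by decide +kernel)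
theorem L39200 : W_12 (nat_lit 4) (nat_lit 0x4000380024001e00080000000000000000000000000000000) (nat_lit 0x0) (nat_lit 0x10001e00040000000000020000000000000000000000000000000) := T_12 (nat_lit 192) (nat_lit 125) (nat_lit 6) (nat_lit 5) (nat_lit 11) L39199 (by decide +kernel)
theorem L39201 : W_12 (nat_lit 5) (nat_lit 0x4000380004001e00080000000000000000000000000000000) (nat_lit 0x0) (nat_lit 0x10001e00040060000000020000000000000000000000000000000) := T_12 (nat_lit 161) (nat_lit 162) (nat_lit 3) (nat_lit 5) (nat_lit 8) L39200 (by decide +kernel)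
theorem L39202 : W_12 (nat_lit 6) (nat_lit 0x4000380000001e00080000000000000000000000000000000) (nat_lit 0x0) (nat_lit 0x10001e00040066000000020000000000000000000000000000000) := T_12 (nat_lit 158) (nat_lit 157) (nat_lit 1) (nat_lit 8) (nat_lit 8) L39201 (by decide +kernel)
theorem L39203 : W_12 (nat_lit 7) (nat_lit 0x4000380000001600080000000000000000000000000000000) (nat_lit 0x0) (nat_lit 0x10001e00040066000800120000000000000000000000000000000) := T_12 (nat_lit 143) (nat_lit 128) (nat_lit 2) (nat_lit 5) (nat_lit 8) L39202 (by decide +kernel)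
theorem L39204 : W_12 (nat_lit 6) (nat_lit 0x4000380000001600080000000000000000000000000000000) (nat_lit 0x0) (nat_lit 0x8e00060003800800100000000000000000000000000000000) := T_12 (nat_lit 174) (nat_lit 195) (nat_lit 3) (nat_lit 4) (nat_lit 10) L38960 (by decide +kernel)
theorem L39205 : W_12 (nat_lit 2) (nat_lit 0x10000000044003e0028801e00080000000000000000000000000000000) (nat_lit 0x0) (nat_lit 0x10004400000000000000000000000000000000000000) := D_12 (nat_lit 172) (nat_lit 158) (nat_lit 154) (nat_lit 2) (nat_lit 2) (nat_lit 10) (nat_lit 0) (nat_lit 5) (nat_lit 10) (by decide +kernel)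
theorem L39206 : W_12 (nat_lit 3) (nat_lit 0x10000000044003e0028001e00080000000000000000000000000000000) (nat_lit 0x0) (nat_lit 0x10005c00000000000000000000000000000000000000) := T_12 (nat_lit 155) (nat_lit 156) (nat_lit 0) (nat_lit 6) (nat_lit 10) L39205 (by decide +kernel)
theorem L39207 : W_12 (nat_lit 4) (nat_lit 0x10000000044003c0028001e00080000000000000000000000000000000) (nat_lit 0x0) (nat_lit 0x200030005c00000000000000000000000000000000000000) := T_12 (nat_lit 173) (nat_lit 189) (nat_lit 1) (nat_lit 6) (nat_lit 10) L39206 (by decide +kernel)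
theorem L39208 : W_12 (nat_lit 5) (nat_lit 0x10000000040003c0028001e00080000000000000000000000000000000) (nat_lit 0x0) (nat_lit 0xe00030005c00000000000000000000000000000000000000) := T_12 (nat_lit 190) (nat_lit 191) (nat_lit 1) (nat_lit 7) (nat_lit 10) L39207 (by decide +kernel)
theorem L39209 : W_12 (nat_lit 6) (nat_lit 0x1000000004000380028001e00080000000000000000000000000000000) (nat_lit 0x0) (nat_lit 0x8e00070005c00000000000000000000000000000000000000) := T_12 (nat_lit 174) (nat_lit 195) (nat_lit 3) (nat_lit 4) (nat_lit 10) L39208 (by decide +kernel)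
theorem L39210 : W_12 (nat_lit 7) (nat_lit 0x1000000004000380008001e00080000000000000000000000000000000) (nat_lit 0x0) (nat_lit 0x8e00070065c00000000000000000000000000000000000000) := T_12 (nat_lit 161) (nat_lit 162) (nat_lit 3) (nat_lit 5) (nat_lit 8) L39209 (by decide +kernel)
theorem L39211 : W_12 (nat_lit 8) (nat_lit 0x4000380008001e00080000000000000000000000000000000) (nat_lit 0x0) (nat_lit 0x1000080008e00070065c00000000000000000000000000000000000000) := T_12 (nat_lit 228) (nat_lit 211) (nat_lit 4) (nat_lit 7) (nat_lit 13) L39210 (by decide +kernel)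
theorem L39212 : W_12 (nat_lit 9) (nat_lit 0x4000380008001600080000000000000000000000000000000) (nat_lit 0x0) (nat_lit 0x1000080008e00070065c00800100000000000000000000000000000000) := T_12 (nat_lit 143) (nat_lit 128) (nat_lit 2) (nat_lit 5) (nat_lit 8) L39211 (by decide +kernel)
theorem L39213 : W_12 (nat_lit 10) (nat_lit 0x4000380000001600080000000000000000000000000000000) (nat_lit 0x0) (nat_lit 0x1000080008e0007006dc00800120000000000000000000000000000000) := T_12 (nat_lit 159) (nat_lit 125) (nat_lit 7) (nat_lit 6) (nat_lit 7) L39212 (by decide +kernel)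
theorem L39214 : W_12 (nat_lit 11) (nat_lit 0x4000300000001600080000000000000000000000000000000) (nat_lit 0x0) (nat_lit 0x1000090009e000f006fc00800120000000000000000000000000000000) := Q_12 (nat_lit 175) (C_12 L39192 (C_12 L39197 (C_12 L39203 (C_12 L39204 (C_12 L39213 N_12))))) (by decide +kernel)
theorem L39215 : W_12 (nat_lit 15) (nat_lit 0x4000300000001200080000000000000000000000000000000) (nat_lit 0x0) (nat_lit 0x100009000bf000f006fc00dc012e000200010000000000000000000000) := Q_12 (nat_lit 142) (C_12 L38998 (C_12 L39189 (C_12 L39214 N_12))) (by decide +kernel)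
theorem L39216 : W_12 (nat_lit 14) (nat_lit 0x4000300000001a00080000000000000000000000000000000) (nat_lit 0x0) (nat_lit 0xaf000f0067c005c010e000200010000000000000000000000) := T_12 (nat_lit 142) (nat_lit 128) (nat_lit 2) (nat_lit 5) (nat_lit 8) L39188 (by decide +kernel)
theorem L39217 : W_12 (nat_lit 15) (nat_lit 0x4000300000001200080000000000000000000000000000000) (nat_lit 0x0) (nat_lit 0xaf000f0077c00dc010e000200010000000000000000000000) := T_12 (nat_lit 143) (nat_lit 160) (nat_lit 6) (nat_lit 7) (nat_lit 11) L39216 (by decide +kernel)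
theorem L39218 : W_12 (nat_lit 4) (nat_lit 0x4000300000001a00080000000000000000000000000000000) (nat_lit 0x0) (nat_lit 0x1000080002000000008000400120000000000000000000000000000000) := T_12 (nat_lit 142) (nat_lit 128) (nat_lit 2) (nat_lit 5) (nat_lit 8) L38924 (by decide +kernel)
theorem L39219 : W_12 (nat_lit 5) (nat_lit 0x4000300000001200080000000000000000000000000000000) (nat_lit 0x0) (nat_lit 0x1000080002000000018000c00120000000000000000000000000000000) := T_12 (nat_lit 143) (nat_lit 160) (nat_lit 6) (nat_lit 7) (nat_lit 11) L39218 (by decide +kernel)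
theorem L39220 : W_12 (nat_lit 16) (nat_lit 0x300000001200080000000000000000000000000000000) (nat_lit 0x0) (nat_lit 0x10000c00070003e001f003ff000f007fc00dc012e000200010000000000000000000000) := Q_12 (nat_lit 194) (C_12 L38920 (C_12 L39215 (C_12 L38922 (C_12 L39217 (C_12 L39006 (C_12 L39219 N_12)))))) (by decide +kernel)
theorem L39221 : W_12 (nat_lit 2) (nat_lit 0x3000080016000a0003000080000000000000000000000) (nat_lit 0x0) (nat_lit 0x800040002000000000000000000) := D_12 (nat_lit 90) (nat_lit 73) (nat_lit 107) (nat_lit 4) (nat_lit 6) (nat_lit 8) (nat_lit 4) (nat_lit 6) (nat_lit 9) (by decide +kernel)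
theorem L39222 : W_12 (nat_lit 3) (nat_lit 0x3000080016000a0003000000000000000000000000000) (nat_lit 0x0) (nat_lit 0x40000000000008000c0002000000000000000000) := T_12 (nat_lit 91) (nat_lit 158) (nat_lit 5) (nat_lit 6) (nat_lit 5) L39221 (by decide +kernel)
theorem L39223 : W_12 (nat_lit 4) (nat_lit 0x3000080016000a0001000000000000000000000000000) (nat_lit 0x0) (nat_lit 0x40000000000028001c0002000000000000000000) := T_12 (nat_lit 109) (nat_lit 92) (nat_lit 6) (nat_lit 6) (nat_lit 9) L39222 (by decide +kernel)
theorem L39224 : W_12 (nat_lit 5) (nat_lit 0x3000080016000a0000000000000000000000000000000) (nat_lit 0x0) (nat_lit 0x140000000000038001c0002000000000000000000) := T_12 (nat_lit 108) (nat_lit 160) (nat_lit 7) (nat_lit 6) (nat_lit 6) L39223 (by decide +kernel)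
theorem L39225 : W_12 (nat_lit 6) (nat_lit 0x300008001600080000000000000000000000000000000) (nat_lit 0x0) (nat_lit 0x40000000140000000200038001c0002000000000000000000) := T_12 (nat_lit 125) (nat_lit 194) (nat_lit 7) (nat_lit 6) (nat_lit 7) L39224 (by decide +kernel)
theorem L39226 : W_12 (nat_lit 7) (nat_lit 0x300000001600080000000000000000000000000000000) (nat_lit 0x0) (nat_lit 0x4000e000700000001c0000000300038001c0002000000000000000000) := Q_12 (nat_lit 159) (C_12 L39225 (C_12 L39111 (C_12 L39114 N_12))) (by decide +kernel)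
theorem L39227 : W_12 (nat_lit 2) (nat_lit 0x300014001e00080000000000000000000000000000000) (nat_lit 0x0) (nat_lit 0x60000100000000000000000000000000000000000) := D_12 (nat_lit 161) (nat_lit 162) (nat_lit 140) (nat_lit 3) (nat_lit 5) (nat_lit 8) (nat_lit 3) (nat_lit 4) (nat_lit 8) (by decide +kernel)
theorem L39228 : W_12 (nat_lit 3) (nat_lit 0x300004001e00080000000000000000000000000000000) (nat_lit 0x0) (nat_lit 0x4000000070000100000000000000000000000000000000000) := T_12 (nat_lit 160) (nat_lit 194) (nat_lit 6) (nat_lit 7) (nat_lit 11) L39227 (by decide +kernel)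
theorem L39229 : W_12 (nat_lit 4) (nat_lit 0x300000001e00080000000000000000000000000000000) (nat_lit 0x0) (nat_lit 0x4000000076000100000000000000000000000000000000000) := T_12 (nat_lit 158) (nat_lit 157) (nat_lit 1) (nat_lit 8) (nat_lit 8) L39228 (by decide +kernel)
theorem L39230 : W_12 (nat_lit 5) (nat_lit 0x300000001600080000000000000000000000000000000) (nat_lit 0x0) (nat_lit 0x4000000076000900100000000000000000000000000000000) := T_12 (nat_lit 143) (nat_lit 128) (nat_lit 2) (nat_lit 5) (nat_lit 8) L39229 (by decide +kernel)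
theorem L39231 : W_12 (nat_lit 2) (nat_lit 0x300024001f00080000000000000000000000000000000) (nat_lit 0x0) (nat_lit 0x1c000000000000000000000000000000) := D_12 (nat_lit 123) (nat_lit 122) (nat_lit 124) (nat_lit 0) (nat_lit 7) (nat_lit 8) (nat_lit 0) (nat_lit 8) (nat_lit 8) (by decide +kernel)
theorem L39232 : W_12 (nat_lit 3) (nat_lit 0x300024001e00080000000000000000000000000000000) (nat_lit 0x0) (nat_lit 0x1000010001c000000000000000000000000000000) := T_12 (nat_lit 140) (nat_lit 160) (nat_lit 3) (nat_lit 4) (nat_lit 8) L39231 (by decide +kernel)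
theorem L39233 : W_12 (nat_lit 4) (nat_lit 0x300004001e00080000000000000000000000000000000) (nat_lit 0x0) (nat_lit 0x7000010001c000000000000000000000000000000) := T_12 (nat_lit 161) (nat_lit 162) (nat_lit 3) (nat_lit 5) (nat_lit 8) L39232 (by decide +kernel)
theorem L39234 : W_12 (nat_lit 5) (nat_lit 0x300000001e00080000000000000000000000000000000) (nat_lit 0x0) (nat_lit 0x7600010001c000000000000000000000000000000) := T_12 (nat_lit 158) (nat_lit 157) (nat_lit 1) (nat_lit 8) (nat_lit 8) L39233 (by decide +kernel)
theorem L39235 : W_12 (nat_lit 6) (nat_lit 0x300000001600080000000000000000000000000000000) (nat_lit 0x0) (nat_lit 0x7600090011c000000000000000000000000000000) := T_12 (nat_lit 143) (nat_lit 128) (nat_lit 2) (nat_lit 5) (nat_lit 8) L39234 (by decide +kernel)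
theorem L39236 : W_12 (nat_lit 8) (nat_lit 0x300000001200080000000000000000000000000000000) (nat_lit 0x0) (nat_lit 0x4000e000700000007e000d0013c0038001c0002000000000000000000) := Q_12 (nat_lit 142) (C_12 L39226 (C_12 L39230 (C_12 L39126 (C_12 L39235 N_12)))) (by decide +kernel)
theorem L39237 : W_12 (nat_lit 10) (nat_lit 0x380000001200080000000000000000000000000000000) (nat_lit 0x0) (nat_lit 0x70003e003c0006003f800100018000000000000000000000000000000) := Q_12 (nat_lit 174) (C_12 L39033 (C_12 L39024 (C_12 L39047 (C_12 L38742 (C_12 L33514 N_12))))) (by decide +kernel)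
theorem L39238 : W_12 (nat_lit 5) (nat_lit 0x380000001200080000000000000000000000000000000) (nat_lit 0x0) (nat_lit 0xee00060007800100010000000000000000000000000000000) := Q_12 (nat_lit 174) (C_12 L33491 (C_12 L38742 (C_12 L38748 N_12))) (by decide +kernel)
theorem L39246 : W_12 (nat_lit 8) (nat_lit 0x380004001200080000000000000000000000000000000) (nat_lit 0x0) (nat_lit 0x18000c00070003e0000000a000100008000000000000000000000000000000) := Q_12 (nat_lit 192) (C_12 L38720 (C_12 L38701 (C_12 L39242 (C_12 L39245 N_12)))) (by decide +kernel)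
theorem L39247 : W_12 (nat_lit 2) (nat_lit 0x4000300010003800040012000b8000000000000000000000000000000) (nat_lit 0x0) (nat_lit 0x10000800040000000000000000000000000000000000000000000000000000) := D_12 (nat_lit 227) (nat_lit 210) (nat_lit 244) (nat_lit 7) (nat_lit 5) (nat_lit 9) (nat_lit 7) (nat_lit 5) (nat_lit 10) (by decide +kernel)
theorem L39248 : W_12 (nat_lit 3) (nat_lit 0x300010003800040012000b8000000000000000000000000000000) (nat_lit 0x0) (nat_lit 0x10000c00040000000000008000000000000000000000000000000000000000) := T_12 (nat_lit 226) (nat_lit 159) (nat_lit 6) (nat_lit 5) (nat_lit 13) L39247 (by decide +kernel)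
theorem L39249 : W_12 (nat_lit 4) (nat_lit 0x100010003800040012000b8000000000000000000000000000000) (nat_lit 0x0) (nat_lit 0x10000e00060000000000008000000000000000000000000000000000000000) := T_12 (nat_lit 209) (nat_lit 225) (nat_lit 5) (nat_lit 5) (nat_lit 9) L39248 (by decide +kernel)
theorem L39250 : W_12 (nat_lit 5) (nat_lit 0x10003800040012000b8000000000000000000000000000000) (nat_lit 0x0) (nat_lit 0x10000e00070000800000008000000000000000000000000000000000000000) := T_12 (nat_lit 208) (nat_lit 191) (nat_lit 5) (nat_lit 5) (nat_lit 8) L39249 (by decide +kernel)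
theorem L39251 : W_12 (nat_lit 6) (nat_lit 0x3800040012000b8000000000000000000000000000000) (nat_lit 0x0) (nat_lit 0x10000e00070001800000008000100000000000000000000000000000000000) := T_12 (nat_lit 192) (nat_lit 140) (nat_lit 4) (nat_lit 5) (nat_lit 11) L39250 (by decide +kernel)
theorem L39252 : W_12 (nat_lit 7) (nat_lit 0x380004001200098000000000000000000000000000000) (nat_lit 0x0) (nat_lit 0x10000e00070001800000008000100020001000000000000000000000000000) := T_12 (nat_lit 125) (nat_lit 108) (nat_lit 6) (nat_lit 5) (nat_lit 10) L39251 (by decide +kernel)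
theorem L39253 : W_12 (nat_lit 8) (nat_lit 0x380004001200090000000000000000000000000000000) (nat_lit 0x0) (nat_lit 0x10000e00070001800000008000100028001400000000000000000000000000) := T_12 (nat_lit 123) (nat_lit 106) (nat_lit 4) (nat_lit 5) (nat_lit 10) L39252 (by decide +kernel)
theorem L39254 : W_12 (nat_lit 9) (nat_lit 0x380004001200080000000000000000000000000000000) (nat_lit 0x0) (nat_lit 0x10000e00070001800000008000100038001c000a0000000000000000000000) := Q_12 (nat_lit 124) (C_12 L39093 (C_12 L39253 (C_12 L33376 (C_12 L13761 N_12)))) (by decide +kernel)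
theorem L39255 : W_12 (nat_lit 10) (nat_lit 0x380000001200080000000000000000000000000000000) (nat_lit 0x0) (nat_lit 0x18000e00070003e0000000e000100038001c000a0000000000000000000000) := Q_12 (nat_lit 158) (C_12 L39246 (C_12 L39094 (C_12 L39254 (C_12 L39078 N_12)))) (by decide +kernel)
theorem L39256 : W_12 (nat_lit 5) (nat_lit 0x380000001200080000000000000000000000000000000) (nat_lit 0x0) (nat_lit 0xe00006003b800800000000000000000000000000000000000) := Q_12 (nat_lit 174) (C_12 L39097 (C_12 L33491 (C_12 L33514 N_12))) (by decide +kernel)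
theorem L39257 : W_12 (nat_lit 11) (nat_lit 0x300000001200080000000000000000000000000000000) (nat_lit 0x0) (nat_lit 0x18000f0007e00fe000e003f800900038001c000a0000000000000000000000) := Q_12 (nat_lit 175) (C_12 L39237 (C_12 L39238 (C_12 L39025 (C_12 L39038 (C_12 L39098 (C_12 L39255 (C_12 L39099 (C_12 L39256 N_12)))))))) (by decide +kernel)
theorem L39258 : W_12 (nat_lit 2) (nat_lit 0x30002a001f00090000000000000000000000000000000) (nat_lit 0x0) (nat_lit 0x20000800040000000000000000000000) := D_12 (nat_lit 107) (nat_lit 90) (nat_lit 125) (nat_lit 7) (nat_lit 5) (nat_lit 5) (nat_lit 4) (nat_lit 6) (nat_lit 10) (by decide +kernel)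
theorem L39259 : W_12 (nat_lit 3) (nat_lit 0x300022001f00090000000000000000000000000000000) (nat_lit 0x0) (nat_lit 0x2000000008000000020000800040000000000000000000000) := T_12 (nat_lit 159) (nat_lit 193) (nat_lit 4) (nat_lit 6) (nat_lit 11) L39258 (by decide +kernel)
theorem L39260 : W_12 (nat_lit 4) (nat_lit 0x300020001f00090000000000000000000000000000000) (nat_lit 0x0) (nat_lit 0x200000000b000000020000800040000000000000000000000) := T_12 (nat_lit 157) (nat_lit 156) (nat_lit 1) (nat_lit 7) (nat_lit 8) L39259 (by decide +kernel)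
theorem L39261 : W_12 (nat_lit 5) (nat_lit 0x300020001e00090000000000000000000000000000000) (nat_lit 0x0) (nat_lit 0x200000001b000100020000800040000000000000000000000) := T_12 (nat_lit 140) (nat_lit 160) (nat_lit 3) (nat_lit 4) (nat_lit 8) L39260 (by decide +kernel)
theorem L39262 : W_12 (nat_lit 6) (nat_lit 0x300000001e00090000000000000000000000000000000) (nat_lit 0x0) (nat_lit 0x200000007b000100020000800040000000000000000000000) := T_12 (nat_lit 161) (nat_lit 162) (nat_lit 3) (nat_lit 5) (nat_lit 8) L39261 (by decide +kernel)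
theorem L39263 : W_12 (nat_lit 7) (nat_lit 0x300000001e00080000000000000000000000000000000) (nat_lit 0x0) (nat_lit 0x200000007b000100038000800040000000000000000000000) := T_12 (nat_lit 124) (nat_lit 123) (nat_lit 0) (nat_lit 8) (nat_lit 8) L39262 (by decide +kernel)
theorem L39264 : W_12 (nat_lit 8) (nat_lit 0x300000001600080000000000000000000000000000000) (nat_lit 0x0) (nat_lit 0x200000007b000900138000800040000000000000000000000) := T_12 (nat_lit 143) (nat_lit 128) (nat_lit 2) (nat_lit 5) (nat_lit 8) L39263 (by decide +kernel)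
theorem L39265 : W_12 (nat_lit 2) (nat_lit 0x300038002d001f80084000000000000000000000000000000) (nat_lit 0x0) (nat_lit 0x10000c00000000000000000000000000000000000000000000000) := D_12 (nat_lit 191) (nat_lit 190) (nat_lit 208) (nat_lit 2) (nat_lit 3) (nat_lit 11) (nat_lit 5) (nat_lit 5) (nat_lit 8) (by decide +kernel)
theorem L39266 : W_12 (nat_lit 3) (nat_lit 0x300030002d001f80084000000000000000000000000000000) (nat_lit 0x0) (nat_lit 0x10000c00080000000000020000000000000000000000000000000) := T_12 (nat_lit 175) (nat_lit 125) (nat_lit 6) (nat_lit 5) (nat_lit 11) L39265 (by decide +kernel)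
theorem L39267 : W_12 (nat_lit 4) (nat_lit 0x200030002d001f80084000000000000000000000000000000) (nat_lit 0x0) (nat_lit 0x30001c00080000000000020000000000000000000000000000000) := T_12 (nat_lit 192) (nat_lit 209) (nat_lit 5) (nat_lit 6) (nat_lit 8) L39266 (by decide +kernel)
theorem L39268 : W_12 (nat_lit 5) (nat_lit 0x30002d001f80084000000000000000000000000000000) (nat_lit 0x0) (nat_lit 0x70003c00080000000000020000000000000000000000000000000) := T_12 (nat_lit 193) (nat_lit 210) (nat_lit 4) (nat_lit 6) (nat_lit 12) L39267 (by decide +kernel)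
theorem L39269 : W_12 (nat_lit 6) (nat_lit 0x300025001f80084000000000000000000000000000000) (nat_lit 0x0) (nat_lit 0x70003c00080008000040020000000000000000000000000000000) := T_12 (nat_lit 159) (nat_lit 138) (nat_lit 3) (nat_lit 2) (nat_lit 8) L39268 (by decide +kernel)
theorem L39270 : W_12 (nat_lit 7) (nat_lit 0x300024001f80084000000000000000000000000000000) (nat_lit 0x0) (nat_lit 0x70003c00080009800040020000000000000000000000000000000) := T_12 (nat_lit 156) (nat_lit 155) (nat_lit 1) (nat_lit 6) (nat_lit 8) L39269 (by decide +kernel)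
theorem L39271 : W_12 (nat_lit 8) (nat_lit 0x300024001f00084000000000000000000000000000000) (nat_lit 0x0) (nat_lit 0x70003c000800098000c0022000000000000000000000000000000) := T_12 (nat_lit 139) (nat_lit 121) (nat_lit 0) (nat_lit 6) (nat_lit 8) L39270 (by decide +kernel)
theorem L39272 : W_12 (nat_lit 9) (nat_lit 0x300024001f00080000000000000000000000000000000) (nat_lit 0x0) (nat_lit 0x70003c000800098000c002e000000000000000000000000000000) := T_12 (nat_lit 122) (nat_lit 123) (nat_lit 0) (nat_lit 7) (nat_lit 8) L39271 (by decide +kernel)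
theorem L39273 : W_12 (nat_lit 10) (nat_lit 0x300024001e00080000000000000000000000000000000) (nat_lit 0x0) (nat_lit 0x70003c000800198001c002e000000000000000000000000000000) := T_12 (nat_lit 140) (nat_lit 160) (nat_lit 3) (nat_lit 4) (nat_lit 8) L39272 (by decide +kernel)
theorem L39274 : W_12 (nat_lit 11) (nat_lit 0x300004001e00080000000000000000000000000000000) (nat_lit 0x0) (nat_lit 0x70003c000800798001c002e000000000000000000000000000000) := T_12 (nat_lit 161) (nat_lit 162) (nat_lit 3) (nat_lit 5) (nat_lit 8) L39273 (by decide +kernel)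
theorem L39275 : W_12 (nat_lit 12) (nat_lit 0x300000001e00080000000000000000000000000000000) (nat_lit 0x0) (nat_lit 0x70003c0008007f8001c002e000000000000000000000000000000) := T_12 (nat_lit 158) (nat_lit 157) (nat_lit 1) (nat_lit 8) (nat_lit 8) L39274 (by decide +kernel)
theorem L39276 : W_12 (nat_lit 13) (nat_lit 0x300000001600080000000000000000000000000000000) (nat_lit 0x0) (nat_lit 0x70003c0008007f8009c012e000000000000000000000000000000) := T_12 (nat_lit 143) (nat_lit 128) (nat_lit 2) (nat_lit 5) (nat_lit 8) L39275 (by decide +kernel)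
theorem L39277 : W_12 (nat_lit 2) (nat_lit 0x300028001f00090000000000000000000000000000000) (nat_lit 0x0) (nat_lit 0x20000800040000000000000000000000) := D_12 (nat_lit 107) (nat_lit 125) (nat_lit 90) (nat_lit 4) (nat_lit 6) (nat_lit 10) (nat_lit 7) (nat_lit 5) (nat_lit 5) (by decide +kernel)
theorem L39278 : W_12 (nat_lit 3) (nat_lit 0x300020001f00090000000000000000000000000000000) (nat_lit 0x0) (nat_lit 0x2000000008000000020000800040000000000000000000000) := T_12 (nat_lit 159) (nat_lit 193) (nat_lit 4) (nat_lit 6) (nat_lit 11) L39277 (by decide +kernel)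
theorem L39279 : W_12 (nat_lit 4) (nat_lit 0x300020001e00090000000000000000000000000000000) (nat_lit 0x0) (nat_lit 0x2000000018000100020000800040000000000000000000000) := T_12 (nat_lit 140) (nat_lit 160) (nat_lit 3) (nat_lit 4) (nat_lit 8) L39278 (by decide +kernel)
theorem L39280 : W_12 (nat_lit 5) (nat_lit 0x300000001e00090000000000000000000000000000000) (nat_lit 0x0) (nat_lit 0x2000000078000100020000800040000000000000000000000) := T_12 (nat_lit 161) (nat_lit 162) (nat_lit 3) (nat_lit 5) (nat_lit 8) L39279 (by decide +kernel)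
theorem L39281 : W_12 (nat_lit 6) (nat_lit 0x300000001e00080000000000000000000000000000000) (nat_lit 0x0) (nat_lit 0x2000000078000100038000800040000000000000000000000) := T_12 (nat_lit 124) (nat_lit 123) (nat_lit 0) (nat_lit 8) (nat_lit 8) L39280 (by decide +kernel)
theorem L39282 : W_12 (nat_lit 7) (nat_lit 0x300000001600080000000000000000000000000000000) (nat_lit 0x0) (nat_lit 0x2000000078000900138000800040000000000000000000000) := T_12 (nat_lit 143) (nat_lit 128) (nat_lit 2) (nat_lit 5) (nat_lit 8) L39281 (by decide +kernel)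
theorem L39283 : W_12 (nat_lit 2) (nat_lit 0x30003000580016800a0000000000000000000000000000000) (nat_lit 0x0) (nat_lit 0x800040000000000004000000000000000000000000000000000000000) := D_12 (nat_lit 210) (nat_lit 158) (nat_lit 227) (nat_lit 4) (nat_lit 6) (nat_lit 12) (nat_lit 6) (nat_lit 6) (nat_lit 13) (by decide +kernel)
theorem L39284 : W_12 (nat_lit 3) (nat_lit 0x10003000580016800a0000000000000000000000000000000) (nat_lit 0x0) (nat_lit 0x800060002000000004000000000000000000000000000000000000000) := T_12 (nat_lit 193) (nat_lit 209) (nat_lit 5) (nat_lit 6) (nat_lit 8) L39283 (by decide +kernel)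
theorem L39285 : W_12 (nat_lit 4) (nat_lit 0x3000580016800a0000000000000000000000000000000) (nat_lit 0x0) (nat_lit 0x800060003000080004000000000000000000000000000000000000000) := T_12 (nat_lit 192) (nat_lit 175) (nat_lit 5) (nat_lit 6) (nat_lit 7) L39284 (by decide +kernel)
theorem L39286 : W_12 (nat_lit 5) (nat_lit 0x3000580016000a0000000000000000000000000000000) (nat_lit 0x0) (nat_lit 0x800060003000080004000180000000000000000000000000000000000) := T_12 (nat_lit 139) (nat_lit 140) (nat_lit 3) (nat_lit 3) (nat_lit 8) L39285 (by decide +kernel)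
theorem L39287 : W_12 (nat_lit 6) (nat_lit 0x300058001600080000000000000000000000000000000) (nat_lit 0x0) (nat_lit 0x800060003000080004000180020001000000000000000000000000000) := T_12 (nat_lit 125) (nat_lit 108) (nat_lit 7) (nat_lit 6) (nat_lit 6) L39286 (by decide +kernel)
theorem L39288 : W_12 (nat_lit 7) (nat_lit 0x300018001600080000000000000000000000000000000) (nat_lit 0x0) (nat_lit 0x800060003000080064000180020001000000000000000000000000000) := T_12 (nat_lit 162) (nat_lit 161) (nat_lit 0) (nat_lit 9) (nat_lit 9) L39287 (by decide +kernel)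
theorem L39293 : W_12 (nat_lit 2) (nat_lit 0x300038001600080000000000000000000000000000000) (nat_lit 0x0) (nat_lit 0x4000180000000000000000000000000000000000) := D_12 (nat_lit 140) (nat_lit 139) (nat_lit 158) (nat_lit 3) (nat_lit 3) (nat_lit 8) (nat_lit 0) (nat_lit 8) (nat_lit 9) (by decide +kernel)
theorem L39294 : W_12 (nat_lit 3) (nat_lit 0x300018001600080000000000000000000000000000000) (nat_lit 0x0) (nat_lit 0x64000180000000000000000000000000000000000) := T_12 (nat_lit 161) (nat_lit 162) (nat_lit 0) (nat_lit 9) (nat_lit 9) L39293 (by decide +kernel)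
theorem L39295 : W_12 (nat_lit 2) (nat_lit 0x5000100008003c005a0016000a0000000000000000000000000000000) (nat_lit 0x0) (nat_lit 0xa000200000000000000000000000000000000000000000000000000000000) := D_12 (nat_lit 225) (nat_lit 241) (nat_lit 243) (nat_lit 5) (nat_lit 4) (nat_lit 10) (nat_lit 7) (nat_lit 4) (nat_lit 10) (by decide +kernel)
theorem L39296 : W_12 (nat_lit 3) (nat_lit 0x1000100008003c005a0016000a0000000000000000000000000000000) (nat_lit 0x0) (nat_lit 0xa000600020000000000000000000000000000000000000000000000000000) := T_12 (nat_lit 226) (nat_lit 209) (nat_lit 7) (nat_lit 4) (nat_lit 9) L39295 (by decide +kernel)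
theorem L39297 : W_12 (nat_lit 4) (nat_lit 0x100008003c005a0016000a0000000000000000000000000000000) (nat_lit 0x0) (nat_lit 0xa000700028000000000000000000000000000000000000000000000000000) := T_12 (nat_lit 224) (nat_lit 207) (nat_lit 5) (nat_lit 4) (nat_lit 9) L39296 (by decide +kernel)
theorem L39298 : W_12 (nat_lit 5) (nat_lit 0x8003c005a0016000a0000000000000000000000000000000) (nat_lit 0x0) (nat_lit 0xa000700038000000000004000000000000000000000000000000000000000) := T_12 (nat_lit 208) (nat_lit 158) (nat_lit 6) (nat_lit 4) (nat_lit 12) L39297 (by decide +kernel)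
theorem L39299 : W_12 (nat_lit 6) (nat_lit 0x8003c00580016000a0000000000000000000000000000000) (nat_lit 0x0) (nat_lit 0xa000700038000000000007000000000000000000000000000000000000000) := T_12 (nat_lit 157) (nat_lit 156) (nat_lit 0) (nat_lit 7) (nat_lit 10) L39298 (by decide +kernel)
theorem L39300 : W_12 (nat_lit 7) (nat_lit 0x3c00580016000a0000000000000000000000000000000) (nat_lit 0x0) (nat_lit 0xa000700038000c00000007000000000000000000000000000000000000000) := T_12 (nat_lit 191) (nat_lit 190) (nat_lit 1) (nat_lit 7) (nat_lit 10) L39299 (by decide +kernel)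
theorem L39301 : W_12 (nat_lit 8) (nat_lit 0x3800580016000a0000000000000000000000000000000) (nat_lit 0x0) (nat_lit 0xa000700038000c00060007000000000000000000000000000000000000000) := T_12 (nat_lit 174) (nat_lit 173) (nat_lit 2) (nat_lit 3) (nat_lit 10) L39300 (by decide +kernel)
theorem L39302 : W_12 (nat_lit 9) (nat_lit 0x3000580016000a0000000000000000000000000000000) (nat_lit 0x0) (nat_lit 0xa000700038001c000e0007000000000000000000000000000000000000000) := T_12 (nat_lit 175) (nat_lit 192) (nat_lit 5) (nat_lit 6) (nat_lit 7) L39301 (by decide +kernel)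
theorem L39303 : W_12 (nat_lit 10) (nat_lit 0x300058001600080000000000000000000000000000000) (nat_lit 0x0) (nat_lit 0xa000700038001c000e0007000000020001000000000000000000000000000) := T_12 (nat_lit 125) (nat_lit 108) (nat_lit 7) (nat_lit 6) (nat_lit 6) L39302 (by decide +kernel)
theorem L39304 : W_12 (nat_lit 11) (nat_lit 0x300018001600080000000000000000000000000000000) (nat_lit 0x0) (nat_lit 0xa000700038001c000e0067000000020001000000000000000000000000000) := T_12 (nat_lit 162) (nat_lit 161) (nat_lit 0) (nat_lit 9) (nat_lit 9) L39303 (by decide +kernel)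
theorem L39305 : W_12 (nat_lit 2) (nat_lit 0x300038001d001700080001000000000000000000000000000) (nat_lit 0x0) (nat_lit 0x10000c00000000000000000000000000000000000000000000000) := D_12 (nat_lit 191) (nat_lit 190) (nat_lit 208) (nat_lit 2) (nat_lit 3) (nat_lit 11) (nat_lit 5) (nat_lit 5) (nat_lit 8) (by decide +kernel)
theorem L39306 : W_12 (nat_lit 3) (nat_lit 0x300030001d001700080001000000000000000000000000000) (nat_lit 0x0) (nat_lit 0x10000c00080000000000008000000000000000000000000000000) := T_12 (nat_lit 175) (nat_lit 123) (nat_lit 4) (nat_lit 5) (nat_lit 11) L39305 (by decide +kernel)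
theorem L39307 : W_12 (nat_lit 4) (nat_lit 0x200030001d001700080001000000000000000000000000000) (nat_lit 0x0) (nat_lit 0x30001c00080000000000008000000000000000000000000000000) := T_12 (nat_lit 192) (nat_lit 209) (nat_lit 5) (nat_lit 6) (nat_lit 8) L39306 (by decide +kernel)
theorem L39308 : W_12 (nat_lit 5) (nat_lit 0x30001d001700080001000000000000000000000000000) (nat_lit 0x0) (nat_lit 0x70003c00080000000000008000000000000000000000000000000) := T_12 (nat_lit 193) (nat_lit 210) (nat_lit 4) (nat_lit 6) (nat_lit 12) L39307 (by decide +kernel)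
theorem L39309 : W_12 (nat_lit 6) (nat_lit 0x30001c001700080001000000000000000000000000000) (nat_lit 0x0) (nat_lit 0x70003c00080003000000008000000000000000000000000000000) := T_12 (nat_lit 156) (nat_lit 157) (nat_lit 3) (nat_lit 3) (nat_lit 9) L39308 (by decide +kernel)
theorem L39310 : W_12 (nat_lit 7) (nat_lit 0x300018001700080001000000000000000000000000000) (nat_lit 0x0) (nat_lit 0x70003c00080027000000008000000000000000000000000000000) := T_12 (nat_lit 158) (nat_lit 161) (nat_lit 0) (nat_lit 8) (nat_lit 9) L39309 (by decide +kernel)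
theorem L39311 : W_12 (nat_lit 8) (nat_lit 0x300018001600080001000000000000000000000000000) (nat_lit 0x0) (nat_lit 0x70003c00080027000180008000000000000000000000000000000) := T_12 (nat_lit 140) (nat_lit 139) (nat_lit 3) (nat_lit 3) (nat_lit 8) L39310 (by decide +kernel)
theorem L39312 : W_12 (nat_lit 9) (nat_lit 0x300018001600080000000000000000000000000000000) (nat_lit 0x0) (nat_lit 0x70003c00080027000180028001000000000000000000000000000) := T_12 (nat_lit 108) (nat_lit 125) (nat_lit 7) (nat_lit 6) (nat_lit 6) L39311 (by decide +kernel)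
theorem L39313 : W_12 (nat_lit 2) (nat_lit 0x5000100008003c001a0016800a0000000000000000000000000000000) (nat_lit 0x0) (nat_lit 0xa000200000000000000000000000000000000000000000000000000000000) := D_12 (nat_lit 225) (nat_lit 241) (nat_lit 243) (nat_lit 5) (nat_lit 4) (nat_lit 10) (nat_lit 7) (nat_lit 4) (nat_lit 10) (by decide +kernel)
theorem L39314 : W_12 (nat_lit 3) (nat_lit 0x1000100008003c001a0016800a0000000000000000000000000000000) (nat_lit 0x0) (nat_lit 0xa000600020000000000000000000000000000000000000000000000000000) := T_12 (nat_lit 226) (nat_lit 209) (nat_lit 7) (nat_lit 4) (nat_lit 9) L39313 (by decide +kernel)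
theorem L39315 : W_12 (nat_lit 4) (nat_lit 0x100008003c001a0016800a0000000000000000000000000000000) (nat_lit 0x0) (nat_lit 0xa000700028000000000000000000000000000000000000000000000000000) := T_12 (nat_lit 224) (nat_lit 207) (nat_lit 5) (nat_lit 4) (nat_lit 9) L39314 (by decide +kernel)
theorem L39316 : W_12 (nat_lit 5) (nat_lit 0x8003c001a0016800a0000000000000000000000000000000) (nat_lit 0x0) (nat_lit 0xa000700038000000000004000000000000000000000000000000000000000) := T_12 (nat_lit 208) (nat_lit 158) (nat_lit 6) (nat_lit 4) (nat_lit 12) L39315 (by decide +kernel)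
theorem L39317 : W_12 (nat_lit 6) (nat_lit 0x8003c00180016800a0000000000000000000000000000000) (nat_lit 0x0) (nat_lit 0xa000700038000000000007000000000000000000000000000000000000000) := T_12 (nat_lit 157) (nat_lit 156) (nat_lit 0) (nat_lit 7) (nat_lit 10) L39316 (by decide +kernel)
theorem L39318 : W_12 (nat_lit 7) (nat_lit 0x3c00180016800a0000000000000000000000000000000) (nat_lit 0x0) (nat_lit 0xa000700038000c00000007000000000000000000000000000000000000000) := T_12 (nat_lit 191) (nat_lit 190) (nat_lit 1) (nat_lit 7) (nat_lit 10) L39317 (by decide +kernel)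
theorem L39319 : W_12 (nat_lit 8) (nat_lit 0x3800180016800a0000000000000000000000000000000) (nat_lit 0x0) (nat_lit 0xa000700038000c00060007000000000000000000000000000000000000000) := T_12 (nat_lit 174) (nat_lit 173) (nat_lit 2) (nat_lit 3) (nat_lit 10) L39318 (by decide +kernel)
theorem L39320 : W_12 (nat_lit 9) (nat_lit 0x3000180016800a0000000000000000000000000000000) (nat_lit 0x0) (nat_lit 0xa000700038001c000e0007000000000000000000000000000000000000000) := T_12 (nat_lit 175) (nat_lit 192) (nat_lit 5) (nat_lit 6) (nat_lit 7) L39319 (by decide +kernel)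
theorem L39321 : W_12 (nat_lit 10) (nat_lit 0x300018001680080000000000000000000000000000000) (nat_lit 0x0) (nat_lit 0xa000700038001c000e0007000000020001000000000000000000000000000) := T_12 (nat_lit 125) (nat_lit 108) (nat_lit 7) (nat_lit 6) (nat_lit 6) L39320 (by decide +kernel)
theorem L39322 : W_12 (nat_lit 11) (nat_lit 0x300018001600080000000000000000000000000000000) (nat_lit 0x0) (nat_lit 0xa000700038001c000e0007000180020001000000000000000000000000000) := T_12 (nat_lit 139) (nat_lit 140) (nat_lit 3) (nat_lit 3) (nat_lit 8) L39321 (by decide +kernel)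
theorem L39323 : W_12 (nat_lit 12) (nat_lit 0x300008001600080000000000000000000000000000000) (nat_lit 0x0) (nat_lit 0xa000f00078003c000e0077000180028001000000000000000000000000000) := Q_12 (nat_lit 160) (C_12 L39288 (C_12 L39292 (C_12 L39294 (C_12 L39304 (C_12 L39312 (C_12 L39322 N_12)))))) (by decide +kernel)
theorem L39324 : W_12 (nat_lit 2) (nat_lit 0x34003000080016000a0001000140000000000000000000000) (nat_lit 0x0) (nat_lit 0x8000a000000000000000000) := D_12 (nat_lit 91) (nat_lit 75) (nat_lit 73) (nat_lit 6) (nat_lit 6) (nat_lit 8) (nat_lit 4) (nat_lit 6) (nat_lit 8) (by decide +kernel)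
theorem L39325 : W_12 (nat_lit 3) (nat_lit 0x34003000080016000a0001000100000000000000000000000) (nat_lit 0x0) (nat_lit 0x8000c000a000000000000000000) := T_12 (nat_lit 90) (nat_lit 107) (nat_lit 4) (nat_lit 6) (nat_lit 9) L39324 (by decide +kernel)
theorem L39326 : W_12 (nat_lit 4) (nat_lit 0x34003000080016000a0001000000000000000000000000000) (nat_lit 0x0) (nat_lit 0x28001c000a000000000000000000) := T_12 (nat_lit 92) (nat_lit 109) (nat_lit 6) (nat_lit 6) (nat_lit 9) L39325 (by decide +kernel)
theorem L39327 : W_12 (nat_lit 5) (nat_lit 0x34003000080016000a0000000000000000000000000000000) (nat_lit 0x0) (nat_lit 0x100000000000038001c000a000000000000000000) := T_12 (nat_lit 108) (nat_lit 160) (nat_lit 7) (nat_lit 6) (nat_lit 6) L39326 (by decide +kernel)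
theorem L39328 : W_12 (nat_lit 6) (nat_lit 0x30003000080016000a0000000000000000000000000000000) (nat_lit 0x0) (nat_lit 0xc000000100000000000038001c000a000000000000000000) := T_12 (nat_lit 190) (nat_lit 191) (nat_lit 2) (nat_lit 3) (nat_lit 11) L39327 (by decide +kernel)
theorem L39329 : W_12 (nat_lit 7) (nat_lit 0x3000300008001600080000000000000000000000000000000) (nat_lit 0x0) (nat_lit 0xc000800100000000200038001c000a000000000000000000) := T_12 (nat_lit 125) (nat_lit 175) (nat_lit 5) (nat_lit 6) (nat_lit 7) L39328 (by decide +kernel)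
theorem L39330 : W_12 (nat_lit 8) (nat_lit 0x2000300008001600080000000000000000000000000000000) (nat_lit 0x0) (nat_lit 0x20001c000800100000000200038001c000a000000000000000000) := T_12 (nat_lit 192) (nat_lit 209) (nat_lit 5) (nat_lit 6) (nat_lit 8) L39329 (by decide +kernel)
theorem L39331 : W_12 (nat_lit 9) (nat_lit 0x300008001600080000000000000000000000000000000) (nat_lit 0x0) (nat_lit 0x20003c000800100000000300038001c000a000000000000000000) := T_12 (nat_lit 193) (nat_lit 124) (nat_lit 4) (nat_lit 6) (nat_lit 11) L39330 (by decide +kernel)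
theorem L39332 : W_12 (nat_lit 12) (nat_lit 0x300008001600080000000000000000000000000000000) (nat_lit 0x0) (nat_lit 0xa000700038001c000e0077000180020001000000000000000000000000000) := Q_12 (nat_lit 160) (C_12 L39294 (C_12 L39322 (C_12 L39292 (C_12 L39304 N_12)))) (by decide +kernel)
theorem L39333 : W_12 (nat_lit 2) (nat_lit 0x1000060002000300008001600080000000000000000000000000000000) (nat_lit 0x0) (nat_lit 0x20000800000000000000010000000000000000000000000000000000000000) := D_12 (nat_lit 227) (nat_lit 160) (nat_lit 245) (nat_lit 6) (nat_lit 6) (nat_lit 13) (nat_lit 7) (nat_lit 6) (nat_lit 10) (by decide +kernel)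
theorem L39334 : W_12 (nat_lit 3) (nat_lit 0x60002000300008001600080000000000000000000000000000000) (nat_lit 0x0) (nat_lit 0x20001800080000000000010000000000000000000000000000000000000000) := T_12 (nat_lit 228) (nat_lit 211) (nat_lit 7) (nat_lit 6) (nat_lit 9) L39333 (by decide +kernel)
theorem L39335 : W_12 (nat_lit 4) (nat_lit 0x40002000300008001600080000000000000000000000000000000) (nat_lit 0x0) (nat_lit 0x20001c000a0000000000010000000000000000000000000000000000000000) := T_12 (nat_lit 209) (nat_lit 226) (nat_lit 5) (nat_lit 6) (nat_lit 9) L39334 (by decide +kernel)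
theorem L39336 : W_12 (nat_lit 5) (nat_lit 0x2000300008001600080000000000000000000000000000000) (nat_lit 0x0) (nat_lit 0x20001c000e0000000000014000000000000000000000000000000000000000) := T_12 (nat_lit 210) (nat_lit 158) (nat_lit 4) (nat_lit 6) (nat_lit 12) L39335 (by decide +kernel)
theorem L39337 : W_12 (nat_lit 6) (nat_lit 0x300008001600080000000000000000000000000000000) (nat_lit 0x0) (nat_lit 0x20001c000e0002000000014000000010000000000000000000000000000000) := T_12 (nat_lit 193) (nat_lit 124) (nat_lit 4) (nat_lit 6) (nat_lit 11) L39336 (by decide +kernel)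
theorem L39338 : W_12 (nat_lit 2) (nat_lit 0x800040002000300008001600080000000000000000000000000000000) (nat_lit 0x0) (nat_lit 0x20001000080000000000000000000000000000000000000000000000000000) := D_12 (nat_lit 228) (nat_lit 211) (nat_lit 245) (nat_lit 7) (nat_lit 6) (nat_lit 9) (nat_lit 7) (nat_lit 6) (nat_lit 10) (by decide +kernel)
theorem L39339 : W_12 (nat_lit 3) (nat_lit 0x40002000300008001600080000000000000000000000000000000) (nat_lit 0x0) (nat_lit 0x20001800080000000000010000000000000000000000000000000000000000) := T_12 (nat_lit 227) (nat_lit 160) (nat_lit 6) (nat_lit 6) (nat_lit 13) L39338 (by decide +kernel)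
theorem L39340 : W_12 (nat_lit 4) (nat_lit 0x2000300008001600080000000000000000000000000000000) (nat_lit 0x0) (nat_lit 0x200018000c0000000000014000000000000000000000000000000000000000) := T_12 (nat_lit 210) (nat_lit 158) (nat_lit 4) (nat_lit 6) (nat_lit 12) L39339 (by decide +kernel)
theorem L39341 : W_12 (nat_lit 5) (nat_lit 0x300008001600080000000000000000000000000000000) (nat_lit 0x0) (nat_lit 0x200018000c0002000000014000000010000000000000000000000000000000) := T_12 (nat_lit 193) (nat_lit 124) (nat_lit 4) (nat_lit 6) (nat_lit 11) L39340 (by decide +kernel)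
theorem L39342 : W_12 (nat_lit 13) (nat_lit 0x300000001600080000000000000000000000000000000) (nat_lit 0x0) (nat_lit 0x2a001f000f8003c000e007f0001800380038001c000a000000000000000000) := Q_12 (nat_lit 159) (C_12 L39323 (C_12 L39331 (C_12 L39114 (C_12 L39332 (C_12 L39337 (C_12 L39341 N_12)))))) (by decide +kernel)
theorem L39343 : W_12 (nat_lit 2) (nat_lit 0x380034001e00090000000000000000000000000000000) (nat_lit 0x0) (nat_lit 0x1000000000000000020001000000000000000000000000000) := D_12 (nat_lit 125) (nat_lit 192) (nat_lit 108) (nat_lit 6) (nat_lit 5) (nat_lit 11) (nat_lit 6) (nat_lit 5) (nat_lit 10) (by decide +kernel)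
theorem L39344 : W_12 (nat_lit 3) (nat_lit 0x380034001e00080000000000000000000000000000000) (nat_lit 0x0) (nat_lit 0x3000000000000000030001000000000000000000000000000) := T_12 (nat_lit 124) (nat_lit 193) (nat_lit 7) (nat_lit 5) (nat_lit 7) L39343 (by decide +kernel)
theorem L39345 : W_12 (nat_lit 4) (nat_lit 0x300034001e00080000000000000000000000000000000) (nat_lit 0x0) (nat_lit 0x30000c0000000000030001000000000000000000000000000) := T_12 (nat_lit 175) (nat_lit 174) (nat_lit 2) (nat_lit 4) (nat_lit 10) L39344 (by decide +kernel)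
theorem L39346 : W_12 (nat_lit 5) (nat_lit 0x300024001e00080000000000000000000000000000000) (nat_lit 0x0) (nat_lit 0x30000c0010000100030001000000000000000000000000000) := T_12 (nat_lit 160) (nat_lit 140) (nat_lit 3) (nat_lit 4) (nat_lit 8) L39345 (by decide +kernel)
theorem L39347 : W_12 (nat_lit 6) (nat_lit 0x300004001e00080000000000000000000000000000000) (nat_lit 0x0) (nat_lit 0x30000c0070000100030001000000000000000000000000000) := T_12 (nat_lit 161) (nat_lit 162) (nat_lit 3) (nat_lit 5) (nat_lit 8) L39346 (by decide +kernel)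
theorem L39348 : W_12 (nat_lit 7) (nat_lit 0x300000001e00080000000000000000000000000000000) (nat_lit 0x0) (nat_lit 0x30000c0076000100030001000000000000000000000000000) := T_12 (nat_lit 158) (nat_lit 157) (nat_lit 1) (nat_lit 8) (nat_lit 8) L39347 (by decide +kernel)
theorem L39349 : W_12 (nat_lit 8) (nat_lit 0x300000001600080000000000000000000000000000000) (nat_lit 0x0) (nat_lit 0x30000c0076000900130001000000000000000000000000000) := T_12 (nat_lit 143) (nat_lit 128) (nat_lit 2) (nat_lit 5) (nat_lit 8) L39348 (by decide +kernel)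
theorem L39350 : W_12 (nat_lit 5) (nat_lit 0x300000001600080000000000000000000000000000000) (nat_lit 0x0) (nat_lit 0x200008000e000800118000000000000000000000000000000) := T_12 (nat_lit 143) (nat_lit 128) (nat_lit 2) (nat_lit 5) (nat_lit 8) L12495 (by decide +kernel)
theorem L39351 : W_12 (nat_lit 14) (nat_lit 0x300000001200080000000000000000000000000000000) (nat_lit 0x0) (nat_lit 0x2a001f000f8003c000e007f800dc013e003c001e000b000000000000000000) := Q_12 (nat_lit 142) (C_12 L39175 (C_12 L39235 (C_12 L39264 (C_12 L39276 (C_12 L39282 (C_12 L39342 (C_12 L39349 (C_12 L39350 N_12)))))))) (by decide +kernel)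
theorem L39352 : W_12 (nat_lit 5) (nat_lit 0x300000001a00080000000000000000000000000000000) (nat_lit 0x0) (nat_lit 0x200008000e000400118000000000000000000000000000000) := T_12 (nat_lit 142) (nat_lit 128) (nat_lit 2) (nat_lit 5) (nat_lit 8) L12495 (by decide +kernel)
theorem L39353 : W_12 (nat_lit 6) (nat_lit 0x300000001a00080000000000000000000000000000000) (nat_lit 0x0) (nat_lit 0x7600050011c000000000000000000000000000000) := T_12 (nat_lit 142) (nat_lit 128) (nat_lit 2) (nat_lit 5) (nat_lit 8) L39234 (by decide +kernel)
theorem L39354 : W_12 (nat_lit 2) (nat_lit 0x300020001e00090000000000000000000000000000000) (nat_lit 0x0) (nat_lit 0x4000000010000100000000000000000000000000000000000) := D_12 (nat_lit 160) (nat_lit 140) (nat_lit 194) (nat_lit 3) (nat_lit 4) (nat_lit 8) (nat_lit 6) (nat_lit 7) (nat_lit 11) (by decide +kernel)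
theorem L39355 : W_12 (nat_lit 3) (nat_lit 0x300000001e00090000000000000000000000000000000) (nat_lit 0x0) (nat_lit 0x4000000070000100000000000000000000000000000000000) := T_12 (nat_lit 161) (nat_lit 162) (nat_lit 3) (nat_lit 5) (nat_lit 8) L39354 (by decide +kernel)
theorem L39356 : W_12 (nat_lit 4) (nat_lit 0x300000001e00080000000000000000000000000000000) (nat_lit 0x0) (nat_lit 0x4000000070000100018000000000000000000000000000000) := T_12 (nat_lit 124) (nat_lit 123) (nat_lit 0) (nat_lit 8) (nat_lit 8) L39355 (by decide +kernel)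
theorem L39357 : W_12 (nat_lit 5) (nat_lit 0x300000001a00080000000000000000000000000000000) (nat_lit 0x0) (nat_lit 0x4000000070000500118000000000000000000000000000000) := T_12 (nat_lit 142) (nat_lit 128) (nat_lit 2) (nat_lit 5) (nat_lit 8) L39356 (by decide +kernel)
theorem L39358 : W_12 (nat_lit 5) (nat_lit 0x300000001a00080000000000000000000000000000000) (nat_lit 0x0) (nat_lit 0x4000000076000500100000000000000000000000000000000) := T_12 (nat_lit 142) (nat_lit 128) (nat_lit 2) (nat_lit 5) (nat_lit 8) L39229 (by decide +kernel)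
theorem L39359 : W_12 (nat_lit 2) (nat_lit 0x40003e0000001a00080000000000000000000000000000000) (nat_lit 0x0) (nat_lit 0xe00000000000000000000000000000000000000000000000) := D_12 (nat_lit 190) (nat_lit 189) (nat_lit 191) (nat_lit 1) (nat_lit 6) (nat_lit 10) (nat_lit 1) (nat_lit 7) (nat_lit 10) (by decide +kernel)
theorem L39360 : W_12 (nat_lit 3) (nat_lit 0x40003c0000001a00080000000000000000000000000000000) (nat_lit 0x0) (nat_lit 0x2e00020000000000000000000000000000000000000000000) := T_12 (nat_lit 173) (nat_lit 193) (nat_lit 3) (nat_lit 3) (nat_lit 10) L39359 (by decide +kernel)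
theorem L39361 : W_12 (nat_lit 4) (nat_lit 0x4000380000001a00080000000000000000000000000000000) (nat_lit 0x0) (nat_lit 0xae00060000000000000000000000000000000000000000000) := T_12 (nat_lit 174) (nat_lit 195) (nat_lit 3) (nat_lit 4) (nat_lit 10) L39360 (by decide +kernel)
theorem L39362 : W_12 (nat_lit 5) (nat_lit 0x380000001a00080000000000000000000000000000000) (nat_lit 0x0) (nat_lit 0xee00060010000000000000000000000000000000000000000) := T_12 (nat_lit 194) (nat_lit 160) (nat_lit 6) (nat_lit 7) (nat_lit 11) L39361 (by decide +kernel)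
theorem L39363 : W_12 (nat_lit 2) (nat_lit 0x40003e0002001a00080000000000000000000000000000000) (nat_lit 0x0) (nat_lit 0xe00000000000000000000000000000000000000000000000) := D_12 (nat_lit 190) (nat_lit 189) (nat_lit 191) (nat_lit 1) (nat_lit 6) (nat_lit 10) (nat_lit 1) (nat_lit 7) (nat_lit 10) (by decide +kernel)
theorem L39364 : W_12 (nat_lit 3) (nat_lit 0x40003c0002001a00080000000000000000000000000000000) (nat_lit 0x0) (nat_lit 0x2e00020000000000000000000000000000000000000000000) := T_12 (nat_lit 173) (nat_lit 193) (nat_lit 3) (nat_lit 3) (nat_lit 10) L39363 (by decide +kernel)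
theorem L39365 : W_12 (nat_lit 4) (nat_lit 0x3c0002001a00080000000000000000000000000000000) (nat_lit 0x0) (nat_lit 0xee00020000000000000000000000000000000000000000000) := T_12 (nat_lit 194) (nat_lit 195) (nat_lit 3) (nat_lit 4) (nat_lit 10) L39364 (by decide +kernel)
theorem L39366 : W_12 (nat_lit 5) (nat_lit 0x3c0000001a00080000000000000000000000000000000) (nat_lit 0x0) (nat_lit 0xee00020003000000000000000000000000000000000000000) := T_12 (nat_lit 157) (nat_lit 156) (nat_lit 0) (nat_lit 7) (nat_lit 10) L39365 (by decide +kernel)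
theorem L39367 : W_12 (nat_lit 2) (nat_lit 0x48003e0005001a00080000000000000000000000000000000) (nat_lit 0x0) (nat_lit 0x200010001000000000000000000000000000000000000000000000000) := D_12 (nat_lit 208) (nat_lit 225) (nat_lit 192) (nat_lit 6) (nat_lit 4) (nat_lit 13) (nat_lit 5) (nat_lit 5) (nat_lit 8) (by decide +kernel)
theorem L39368 : W_12 (nat_lit 3) (nat_lit 0x48003e0001001a00080000000000000000000000000000000) (nat_lit 0x0) (nat_lit 0x200010001000000004000000010000000000000000000000000000000) := T_12 (nat_lit 158) (nat_lit 124) (nat_lit 5) (nat_lit 5) (nat_lit 7) L39367 (by decide +kernel)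
theorem L39369 : W_12 (nat_lit 4) (nat_lit 0x48003e0000001a00080000000000000000000000000000000) (nat_lit 0x0) (nat_lit 0x200010001000000005800000010000000000000000000000000000000) := T_12 (nat_lit 156) (nat_lit 155) (nat_lit 0) (nat_lit 6) (nat_lit 10) L39368 (by decide +kernel)
theorem L39370 : W_12 (nat_lit 5) (nat_lit 0x48003c0000001a00080000000000000000000000000000000) (nat_lit 0x0) (nat_lit 0x200010003000020005800000010000000000000000000000000000000) := T_12 (nat_lit 173) (nat_lit 193) (nat_lit 3) (nat_lit 3) (nat_lit 10) L39369 (by decide +kernel)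
theorem L39371 : W_12 (nat_lit 6) (nat_lit 0x8003c0000001a00080000000000000000000000000000000) (nat_lit 0x0) (nat_lit 0x20001000f000020005800000010000000000000000000000000000000) := T_12 (nat_lit 194) (nat_lit 195) (nat_lit 3) (nat_lit 4) (nat_lit 10) L39370 (by decide +kernel)
theorem L39372 : W_12 (nat_lit 7) (nat_lit 0x3c0000001a00080000000000000000000000000000000) (nat_lit 0x0) (nat_lit 0x20001000fc00020005800000010000000000000000000000000000000) := T_12 (nat_lit 191) (nat_lit 190) (nat_lit 1) (nat_lit 7) (nat_lit 10) L39371 (by decide +kernel)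
theorem L39373 : W_12 (nat_lit 2) (nat_lit 0x42003f0002001a00080000000000000000000000000000000) (nat_lit 0x0) (nat_lit 0x800c000000000000000000000000000000000000000) := D_12 (nat_lit 158) (nat_lit 171) (nat_lit 159) (nat_lit 2) (nat_lit 1) (nat_lit 10) (nat_lit 2) (nat_lit 2) (nat_lit 10) (by decide +kernel)
theorem L39374 : W_12 (nat_lit 3) (nat_lit 0x42003e0002001a00080000000000000000000000000000000) (nat_lit 0x0) (nat_lit 0x10001800c000000000000000000000000000000000000000) := T_12 (nat_lit 172) (nat_lit 188) (nat_lit 1) (nat_lit 5) (nat_lit 10) L39373 (by decide +kernel)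
theorem L39375 : W_12 (nat_lit 4) (nat_lit 0x40003e0002001a00080000000000000000000000000000000) (nat_lit 0x0) (nat_lit 0x70001800c000000000000000000000000000000000000000) := T_12 (nat_lit 189) (nat_lit 190) (nat_lit 1) (nat_lit 6) (nat_lit 10) L39374 (by decide +kernel)
theorem L39376 : W_12 (nat_lit 5) (nat_lit 0x40003c0002001a00080000000000000000000000000000000) (nat_lit 0x0) (nat_lit 0x270003800c000000000000000000000000000000000000000) := T_12 (nat_lit 173) (nat_lit 193) (nat_lit 3) (nat_lit 3) (nat_lit 10) L39375 (by decide +kernel)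
theorem L39377 : W_12 (nat_lit 6) (nat_lit 0x3c0002001a00080000000000000000000000000000000) (nat_lit 0x0) (nat_lit 0xe70003800c000000000000000000000000000000000000000) := T_12 (nat_lit 194) (nat_lit 195) (nat_lit 3) (nat_lit 4) (nat_lit 10) L39376 (by decide +kernel)
theorem L39378 : W_12 (nat_lit 7) (nat_lit 0x3c0000001a00080000000000000000000000000000000) (nat_lit 0x0) (nat_lit 0xe70003800f000000000000000000000000000000000000000) := T_12 (nat_lit 157) (nat_lit 156) (nat_lit 0) (nat_lit 7) (nat_lit 10) L39377 (by decide +kernel)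
theorem L39379 : W_12 (nat_lit 4) (nat_lit 0x3c0000001a00080000000000000000000000000000000) (nat_lit 0x0) (nat_lit 0xee00020000000000000000000000000000000000000000000) := T_12 (nat_lit 194) (nat_lit 195) (nat_lit 3) (nat_lit 4) (nat_lit 10) L39360 (by decide +kernel)
theorem L39380 : W_12 (nat_lit 2) (nat_lit 0x60003c0002001b00090000000000000000000000000000000) (nat_lit 0x0) (nat_lit 0x1000000000000000008000800000000000000000000000000) := D_12 (nat_lit 123) (nat_lit 107) (nat_lit 192) (nat_lit 6) (nat_lit 4) (nat_lit 10) (nat_lit 7) (nat_lit 4) (nat_lit 7) (by decide +kernel)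
theorem L39381 : W_12 (nat_lit 3) (nat_lit 0x60003c0002001a00090000000000000000000000000000000) (nat_lit 0x0) (nat_lit 0x1800000000000100008000800000000000000000000000000) := T_12 (nat_lit 140) (nat_lit 191) (nat_lit 6) (nat_lit 4) (nat_lit 11) L39380 (by decide +kernel)
theorem L39382 : W_12 (nat_lit 4) (nat_lit 0x60003c0002001a00080000000000000000000000000000000) (nat_lit 0x0) (nat_lit 0x1800000004000100018000800000000000000000000000000) := T_12 (nat_lit 124) (nat_lit 158) (nat_lit 7) (nat_lit 5) (nat_lit 7) L39381 (by decide +kernel)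
theorem L39383 : W_12 (nat_lit 5) (nat_lit 0x40003c0002001a00080000000000000000000000000000000) (nat_lit 0x0) (nat_lit 0x3800020004000100018000800000000000000000000000000) := T_12 (nat_lit 193) (nat_lit 173) (nat_lit 3) (nat_lit 3) (nat_lit 10) L39382 (by decide +kernel)
theorem L39384 : W_12 (nat_lit 6) (nat_lit 0x3c0002001a00080000000000000000000000000000000) (nat_lit 0x0) (nat_lit 0xf800020004000100018000800000000000000000000000000) := T_12 (nat_lit 194) (nat_lit 195) (nat_lit 3) (nat_lit 4) (nat_lit 10) L39383 (by decide +kernel)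
theorem L39385 : W_12 (nat_lit 7) (nat_lit 0x3c0000001a00080000000000000000000000000000000) (nat_lit 0x0) (nat_lit 0xf800020007000100018000800000000000000000000000000) := T_12 (nat_lit 157) (nat_lit 156) (nat_lit 0) (nat_lit 7) (nat_lit 10) L39384 (by decide +kernel)
theorem L39386 : W_12 (nat_lit 8) (nat_lit 0x380000001a00080000000000000000000000000000000) (nat_lit 0x0) (nat_lit 0x20001000ff0007800f800100018000800000000000000000000000000) := Q_12 (nat_lit 174) (C_12 L39366 (C_12 L12722 (C_12 L39372 (C_12 L39378 (C_12 L39379 (C_12 L39385 N_12)))))) (by decide +kernel)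
theorem L39387 : W_12 (nat_lit 2) (nat_lit 0x3e0012001a00080000000000000000000000000000000) (nat_lit 0x0) (nat_lit 0xe00000000000000000000000000000000000000000000000) := D_12 (nat_lit 190) (nat_lit 189) (nat_lit 191) (nat_lit 1) (nat_lit 6) (nat_lit 10) (nat_lit 1) (nat_lit 7) (nat_lit 10) (by decide +kernel)
theorem L39388 : W_12 (nat_lit 3) (nat_lit 0x3c0012001a00080000000000000000000000000000000) (nat_lit 0x0) (nat_lit 0xe00020008000000000000000000000000000000000000000) := T_12 (nat_lit 173) (nat_lit 159) (nat_lit 2) (nat_lit 3) (nat_lit 10) L39387 (by decide +kernel)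
theorem L39389 : W_12 (nat_lit 4) (nat_lit 0x3c0002001a00080000000000000000000000000000000) (nat_lit 0x0) (nat_lit 0xe00020038000000000000000000000000000000000000000) := T_12 (nat_lit 160) (nat_lit 161) (nat_lit 2) (nat_lit 4) (nat_lit 10) L39388 (by decide +kernel)
theorem L39390 : W_12 (nat_lit 5) (nat_lit 0x3c0000001a00080000000000000000000000000000000) (nat_lit 0x0) (nat_lit 0xe0002003b000000000000000000000000000000000000000) := T_12 (nat_lit 157) (nat_lit 156) (nat_lit 0) (nat_lit 7) (nat_lit 10) L39389 (by decide +kernel)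
theorem L39391 : W_12 (nat_lit 2) (nat_lit 0x8003e0015001a00080000000000000000000000000000000) (nat_lit 0x0) (nat_lit 0x200010001000000000000000000000000000000000000000000000000) := D_12 (nat_lit 208) (nat_lit 225) (nat_lit 192) (nat_lit 6) (nat_lit 4) (nat_lit 13) (nat_lit 5) (nat_lit 5) (nat_lit 8) (by decide +kernel)
theorem L39392 : W_12 (nat_lit 3) (nat_lit 0x8003e0011001a00080000000000000000000000000000000) (nat_lit 0x0) (nat_lit 0x200010001000000004000000010000000000000000000000000000000) := T_12 (nat_lit 158) (nat_lit 124) (nat_lit 5) (nat_lit 5) (nat_lit 7) L39391 (by decide +kernel)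
theorem L39393 : W_12 (nat_lit 4) (nat_lit 0x8003e0010001a00080000000000000000000000000000000) (nat_lit 0x0) (nat_lit 0x200010001000000005800000010000000000000000000000000000000) := T_12 (nat_lit 156) (nat_lit 155) (nat_lit 0) (nat_lit 6) (nat_lit 10) L39392 (by decide +kernel)
theorem L39394 : W_12 (nat_lit 5) (nat_lit 0x8003c0010001a00080000000000000000000000000000000) (nat_lit 0x0) (nat_lit 0x20001000100002000d800000010000000000000000000000000000000) := T_12 (nat_lit 173) (nat_lit 159) (nat_lit 2) (nat_lit 3) (nat_lit 10) L39393 (by decide +kernel)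
theorem L39395 : W_12 (nat_lit 6) (nat_lit 0x8003c0000001a00080000000000000000000000000000000) (nat_lit 0x0) (nat_lit 0x20001000100002003d800000010000000000000000000000000000000) := T_12 (nat_lit 160) (nat_lit 161) (nat_lit 2) (nat_lit 4) (nat_lit 10) L39394 (by decide +kernel)
theorem L39396 : W_12 (nat_lit 7) (nat_lit 0x3c0000001a00080000000000000000000000000000000) (nat_lit 0x0) (nat_lit 0x200010001c0002003d800000010000000000000000000000000000000) := T_12 (nat_lit 191) (nat_lit 190) (nat_lit 1) (nat_lit 7) (nat_lit 10) L39395 (by decide +kernel)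
theorem L39397 : W_12 (nat_lit 2) (nat_lit 0x3c0012001a00080000000000000000000000000000000) (nat_lit 0x0) (nat_lit 0x2000c000000000000000000000000000000000000000) := D_12 (nat_lit 159) (nat_lit 173) (nat_lit 158) (nat_lit 2) (nat_lit 3) (nat_lit 10) (nat_lit 2) (nat_lit 4) (nat_lit 9) (by decide +kernel)
theorem L39398 : W_12 (nat_lit 3) (nat_lit 0x3c0002001a00080000000000000000000000000000000) (nat_lit 0x0) (nat_lit 0x2003c000000000000000000000000000000000000000) := T_12 (nat_lit 160) (nat_lit 161) (nat_lit 2) (nat_lit 4) (nat_lit 10) L39397 (by decide +kernel)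
theorem L39399 : W_12 (nat_lit 4) (nat_lit 0x3c0000001a00080000000000000000000000000000000) (nat_lit 0x0) (nat_lit 0x2003f000000000000000000000000000000000000000) := T_12 (nat_lit 157) (nat_lit 156) (nat_lit 0) (nat_lit 7) (nat_lit 10) L39398 (by decide +kernel)
theorem L39400 : W_12 (nat_lit 2) (nat_lit 0x3e0010001a00080000000000000000000000000000000) (nat_lit 0x0) (nat_lit 0xe00000000000000000000000000000000000000000000000) := D_12 (nat_lit 190) (nat_lit 189) (nat_lit 191) (nat_lit 1) (nat_lit 6) (nat_lit 10) (nat_lit 1) (nat_lit 7) (nat_lit 10) (by decide +kernel)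
theorem L39401 : W_12 (nat_lit 3) (nat_lit 0x3c0010001a00080000000000000000000000000000000) (nat_lit 0x0) (nat_lit 0xe00020008000000000000000000000000000000000000000) := T_12 (nat_lit 173) (nat_lit 159) (nat_lit 2) (nat_lit 3) (nat_lit 10) L39400 (by decide +kernel)
theorem L39402 : W_12 (nat_lit 4) (nat_lit 0x3c0000001a00080000000000000000000000000000000) (nat_lit 0x0) (nat_lit 0xe00020038000000000000000000000000000000000000000) := T_12 (nat_lit 160) (nat_lit 161) (nat_lit 2) (nat_lit 4) (nat_lit 10) L39401 (by decide +kernel)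
theorem L39403 : W_12 (nat_lit 8) (nat_lit 0x380000001a00080000000000000000000000000000000) (nat_lit 0x0) (nat_lit 0x200010001e0006003f800100010000000000000000000000000000000) := Q_12 (nat_lit 174) (C_12 L12722 (C_12 L39390 (C_12 L39396 (C_12 L39399 (C_12 L39402 N_12))))) (by decide +kernel)
theorem L39404 : W_12 (nat_lit 2) (nat_lit 0x4000380004001a00090000800000000000000000000000000) (nat_lit 0x0) (nat_lit 0x8000400020000000000000000000000) := D_12 (nat_lit 106) (nat_lit 123) (nat_lit 89) (nat_lit 4) (nat_lit 5) (nat_lit 10) (nat_lit 4) (nat_lit 5) (nat_lit 9) (by decide +kernel)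
theorem L39405 : W_12 (nat_lit 3) (nat_lit 0x4000380004001a00090000000000000000000000000000000) (nat_lit 0x0) (nat_lit 0x8000000008000c00020000000000000000000000) := T_12 (nat_lit 107) (nat_lit 159) (nat_lit 7) (nat_lit 5) (nat_lit 6) L39404 (by decide +kernel)
theorem L39406 : W_12 (nat_lit 4) (nat_lit 0x4000380004001a00080000000000000000000000000000000) (nat_lit 0x0) (nat_lit 0x2000000008000000018000c00020000000000000000000000) := T_12 (nat_lit 124) (nat_lit 193) (nat_lit 7) (nat_lit 5) (nat_lit 7) L39405 (by decide +kernel)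
theorem L39407 : W_12 (nat_lit 5) (nat_lit 0x380004001a00080000000000000000000000000000000) (nat_lit 0x0) (nat_lit 0x6000000018000000018000c00020000000000000000000000) := T_12 (nat_lit 194) (nat_lit 160) (nat_lit 6) (nat_lit 7) (nat_lit 11) L39406 (by decide +kernel)
theorem L39408 : W_12 (nat_lit 2) (nat_lit 0x2000380004001a00080000000000000000000000000000000) (nat_lit 0x0) (nat_lit 0x800040001000000000000000000000000000000000000000000000000) := D_12 (nat_lit 210) (nat_lit 227) (nat_lit 192) (nat_lit 4) (nat_lit 6) (nat_lit 13) (nat_lit 7) (nat_lit 5) (nat_lit 8) (by decide +kernel)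
theorem L39409 : W_12 (nat_lit 3) (nat_lit 0x380004001a00080000000000000000000000000000000) (nat_lit 0x0) (nat_lit 0x800040003000000000000000010000000000000000000000000000000) := T_12 (nat_lit 193) (nat_lit 124) (nat_lit 7) (nat_lit 5) (nat_lit 7) L39408 (by decide +kernel)
theorem L39410 : W_12 (nat_lit 2) (nat_lit 0x38001c001a00080000000000000000000000000000000) (nat_lit 0x0) (nat_lit 0x60000100000000000000000000000000000000000) := D_12 (nat_lit 161) (nat_lit 162) (nat_lit 140) (nat_lit 1) (nat_lit 9) (nat_lit 9) (nat_lit 0) (nat_lit 8) (nat_lit 9) (by decide +kernel)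
theorem L39411 : W_12 (nat_lit 3) (nat_lit 0x380014001a00080000000000000000000000000000000) (nat_lit 0x0) (nat_lit 0x6a000100000000000000000000000000000000000) := T_12 (nat_lit 159) (nat_lit 157) (nat_lit 2) (nat_lit 4) (nat_lit 9) L39410 (by decide +kernel)
theorem L39412 : W_12 (nat_lit 4) (nat_lit 0x380004001a00080000000000000000000000000000000) (nat_lit 0x0) (nat_lit 0x400000007a000100000000000000000000000000000000000) := T_12 (nat_lit 160) (nat_lit 194) (nat_lit 6) (nat_lit 7) (nat_lit 11) L39411 (by decide +kernel)
theorem L39413 : W_12 (nat_lit 6) (nat_lit 0x380000001a00080000000000000000000000000000000) (nat_lit 0x0) (nat_lit 0x80004000700000007e000100018000c00020000000000000000000000) := Q_12 (nat_lit 158) (C_12 L39407 (C_12 L39409 (C_12 L39412 N_12))) (by decide +kernel)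
theorem L39414 : W_12 (nat_lit 9) (nat_lit 0x300000001a00080000000000000000000000000000000) (nat_lit 0x0) (nat_lit 0xa0005000ff000f807f800100018000c00020000000000000000000000) := Q_12 (nat_lit 175) (C_12 L39362 (C_12 L39386 (C_12 L39403 (C_12 L39413 N_12)))) (by decide +kernel)
theorem L39415 : W_12 (nat_lit 10) (nat_lit 0x300000001200080000000000000000000000000000000) (nat_lit 0x0) (nat_lit 0xa0005000ff000f807f800d0011c000c00020000000000000000000000) := Q_12 (nat_lit 143) (C_12 L39352 (C_12 L39353 (C_12 L39357 (C_12 L39358 (C_12 L39414 N_12))))) (by decide +kernel)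
theorem L39416 : W_12 (nat_lit 2) (nat_lit 0x4000380024001e00090000000000000000000000000000000) (nat_lit 0x0) (nat_lit 0x1000000000000000020001000000000000000000000000000) := D_12 (nat_lit 125) (nat_lit 192) (nat_lit 108) (nat_lit 6) (nat_lit 5) (nat_lit 11) (nat_lit 6) (nat_lit 5) (nat_lit 10) (by decide +kernel)
theorem L39417 : W_12 (nat_lit 3) (nat_lit 0x4000380020001e00090000000000000000000000000000000) (nat_lit 0x0) (nat_lit 0x3000000004000000020001000000000000000000000000000) := T_12 (nat_lit 158) (nat_lit 193) (nat_lit 7) (nat_lit 5) (nat_lit 7) L39416 (by decide +kernel)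
theorem L39418 : W_12 (nat_lit 4) (nat_lit 0x4000380000001e00090000000000000000000000000000000) (nat_lit 0x0) (nat_lit 0x3000000064000000020001000000000000000000000000000) := T_12 (nat_lit 161) (nat_lit 162) (nat_lit 3) (nat_lit 5) (nat_lit 8) L39417 (by decide +kernel)
theorem L39419 : W_12 (nat_lit 5) (nat_lit 0x4000380000001e00080000000000000000000000000000000) (nat_lit 0x0) (nat_lit 0x3000000064000000038001000000000000000000000000000) := T_12 (nat_lit 124) (nat_lit 123) (nat_lit 0) (nat_lit 8) (nat_lit 8) L39418 (by decide +kernel)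
theorem L39420 : W_12 (nat_lit 6) (nat_lit 0x4000380000001600080000000000000000000000000000000) (nat_lit 0x0) (nat_lit 0x3000000064000800138001000000000000000000000000000) := T_12 (nat_lit 143) (nat_lit 128) (nat_lit 2) (nat_lit 5) (nat_lit 8) L39419 (by decide +kernel)
theorem L39421 : W_12 (nat_lit 4) (nat_lit 0x4000380000001600080000000000000000000000000000000) (nat_lit 0x0) (nat_lit 0xae00060000000000000000000000000000000000000000000) := T_12 (nat_lit 174) (nat_lit 195) (nat_lit 3) (nat_lit 4) (nat_lit 10) L38945 (by decide +kernel)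
theorem L39422 : W_12 (nat_lit 2) (nat_lit 0x48003c0000001e00080000000000000000000000000000000) (nat_lit 0x0) (nat_lit 0x4000000018000000000000000000000000000000) := D_12 (nat_lit 124) (nat_lit 123) (nat_lit 158) (nat_lit 0) (nat_lit 8) (nat_lit 8) (nat_lit 5) (nat_lit 5) (nat_lit 7) (by decide +kernel)
theorem L39423 : W_12 (nat_lit 3) (nat_lit 0x48003c0000001600080000000000000000000000000000000) (nat_lit 0x0) (nat_lit 0x4000800118000000000000000000000000000000) := T_12 (nat_lit 143) (nat_lit 128) (nat_lit 2) (nat_lit 5) (nat_lit 8) L39422 (by decide +kernel)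
theorem L39424 : W_12 (nat_lit 4) (nat_lit 0x40003c0000001600080000000000000000000000000000000) (nat_lit 0x0) (nat_lit 0xc00000004000800118000000000000000000000000000000) := T_12 (nat_lit 191) (nat_lit 190) (nat_lit 1) (nat_lit 7) (nat_lit 10) L39423 (by decide +kernel)
theorem L39425 : W_12 (nat_lit 5) (nat_lit 0x4000380000001600080000000000000000000000000000000) (nat_lit 0x0) (nat_lit 0x8c00040004000800118000000000000000000000000000000) := T_12 (nat_lit 174) (nat_lit 195) (nat_lit 3) (nat_lit 4) (nat_lit 10) L39424 (by decide +kernel)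
theorem L39426 : W_12 (nat_lit 7) (nat_lit 0x4000300000001600080000000000000000000000000000000) (nat_lit 0x0) (nat_lit 0xbe000e0064000800138001000000000000000000000000000) := Q_12 (nat_lit 175) (C_12 L39420 (C_12 L39421 (C_12 L39425 N_12))) (by decide +kernel)
theorem L39427 : W_12 (nat_lit 2) (nat_lit 0x6000380020001e00090000000000000000000000000000000) (nat_lit 0x0) (nat_lit 0x8000060000000000000000000000000000000000000000000) := D_12 (nat_lit 174) (nat_lit 195) (nat_lit 173) (nat_lit 3) (nat_lit 4) (nat_lit 10) (nat_lit 3) (nat_lit 3) (nat_lit 10) (by decide +kernel)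
theorem L39428 : W_12 (nat_lit 3) (nat_lit 0x6000300020001e00090000000000000000000000000000000) (nat_lit 0x0) (nat_lit 0x80000e0004000000000000000000000000000000000000000) := T_12 (nat_lit 175) (nat_lit 158) (nat_lit 7) (nat_lit 5) (nat_lit 7) L39427 (by decide +kernel)
theorem L39429 : W_12 (nat_lit 4) (nat_lit 0x4000300020001e00090000000000000000000000000000000) (nat_lit 0x0) (nat_lit 0xa0000e000c000000000000000000000000000000000000000) := T_12 (nat_lit 193) (nat_lit 159) (nat_lit 4) (nat_lit 6) (nat_lit 11) L39428 (by decide +kernel)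
theorem L39430 : W_12 (nat_lit 5) (nat_lit 0x4000300000001e00090000000000000000000000000000000) (nat_lit 0x0) (nat_lit 0xa0000e006c000000000000000000000000000000000000000) := T_12 (nat_lit 161) (nat_lit 162) (nat_lit 3) (nat_lit 5) (nat_lit 8) L39429 (by decide +kernel)
theorem L39431 : W_12 (nat_lit 6) (nat_lit 0x4000300000001e00080000000000000000000000000000000) (nat_lit 0x0) (nat_lit 0xa0000e006c000000018000000000000000000000000000000) := T_12 (nat_lit 124) (nat_lit 123) (nat_lit 0) (nat_lit 8) (nat_lit 8) L39430 (by decide +kernel)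
theorem L39432 : W_12 (nat_lit 7) (nat_lit 0x4000300000001600080000000000000000000000000000000) (nat_lit 0x0) (nat_lit 0xa0000e006c000800118000000000000000000000000000000) := T_12 (nat_lit 143) (nat_lit 128) (nat_lit 2) (nat_lit 5) (nat_lit 8) L39431 (by decide +kernel)
theorem L39433 : W_12 (nat_lit 2) (nat_lit 0x4000300028001e00090000000000000000000000000000000) (nat_lit 0x0) (nat_lit 0x4000000000000800040000000000000000000000) := D_12 (nat_lit 107) (nat_lit 158) (nat_lit 90) (nat_lit 7) (nat_lit 5) (nat_lit 6) (nat_lit 7) (nat_lit 5) (nat_lit 5) (by decide +kernel)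
theorem L39434 : W_12 (nat_lit 3) (nat_lit 0x4000300020001e00090000000000000000000000000000000) (nat_lit 0x0) (nat_lit 0xc000000020000800040000000000000000000000) := T_12 (nat_lit 159) (nat_lit 125) (nat_lit 7) (nat_lit 6) (nat_lit 7) L39433 (by decide +kernel)
theorem L39435 : W_12 (nat_lit 4) (nat_lit 0x4000300000001e00090000000000000000000000000000000) (nat_lit 0x0) (nat_lit 0x6c000000020000800040000000000000000000000) := T_12 (nat_lit 161) (nat_lit 162) (nat_lit 3) (nat_lit 5) (nat_lit 8) L39434 (by decide +kernel)
theorem L39436 : W_12 (nat_lit 5) (nat_lit 0x4000300000001e00080000000000000000000000000000000) (nat_lit 0x0) (nat_lit 0x6c000000038000800040000000000000000000000) := T_12 (nat_lit 124) (nat_lit 123) (nat_lit 0) (nat_lit 8) (nat_lit 8) L39435 (by decide +kernel)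
theorem L39437 : W_12 (nat_lit 6) (nat_lit 0x4000300000001600080000000000000000000000000000000) (nat_lit 0x0) (nat_lit 0x6c000800138000800040000000000000000000000) := T_12 (nat_lit 143) (nat_lit 128) (nat_lit 2) (nat_lit 5) (nat_lit 8) L39436 (by decide +kernel)
theorem L39438 : W_12 (nat_lit 8) (nat_lit 0x4000300000001200080000000000000000000000000000000) (nat_lit 0x0) (nat_lit 0x100008000be000e006c000c00138001800040000000000000000000000) := Q_12 (nat_lit 142) (C_12 L38998 (C_12 L39426 (C_12 L39432 (C_12 L39437 N_12)))) (by decide +kernel)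
theorem L39439 : W_12 (nat_lit 12) (nat_lit 0x300000001200080000000000000000000000000000000) (nat_lit 0x0) (nat_lit 0x10000c00070003e001f003fe000e007c000c00138001800040000000000000000000000) := Q_12 (nat_lit 194) (C_12 L39438 (C_12 L38922 (C_12 L39003 (C_12 L39006 (C_12 L38920 N_12))))) (by decide +kernel)
theorem L39440 : W_12 (nat_lit 6) (nat_lit 0x380000001200080000000000000000000000000000000) (nat_lit 0x0) (nat_lit 0x200010001c0006003f800100010000000000000000000000000000000) := Q_12 (nat_lit 174) (C_12 L33514 (C_12 L39047 (C_12 L38742 N_12))) (by decide +kernel)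
theorem L39441 : W_12 (nat_lit 2) (nat_lit 0x3000b00048003c000200170008c000000000000000000000000000000) (nat_lit 0x0) (nat_lit 0x1000000000000000008000000020000000000000000000000000000000) := D_12 (nat_lit 159) (nat_lit 228) (nat_lit 125) (nat_lit 4) (nat_lit 7) (nat_lit 13) (nat_lit 7) (nat_lit 6) (nat_lit 7) (by decide +kernel)
theorem L39442 : W_12 (nat_lit 3) (nat_lit 0x3000b00048003c000200130008c000000000000000000000000000000) (nat_lit 0x0) (nat_lit 0x1000000000000000008000c00020000000000000000000000000000000) := T_12 (nat_lit 142) (nat_lit 143) (nat_lit 0) (nat_lit 7) (nat_lit 8) L39441 (by decide +kernel)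
theorem L39443 : W_12 (nat_lit 4) (nat_lit 0x3000300048003c000200130008c000000000000000000000000000000) (nat_lit 0x0) (nat_lit 0x10000c0000000000008000c00020000000000000000000000000000000) := T_12 (nat_lit 211) (nat_lit 210) (nat_lit 1) (nat_lit 7) (nat_lit 12) L39442 (by decide +kernel)
theorem L39444 : W_12 (nat_lit 5) (nat_lit 0x3000300048003c0002001300084000000000000000000000000000000) (nat_lit 0x0) (nat_lit 0x10000c0000000000008000c00028000200000000000000000000000000) := T_12 (nat_lit 123) (nat_lit 105) (nat_lit 4) (nat_lit 4) (nat_lit 10) L39443 (by decide +kernel)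
theorem L39445 : W_12 (nat_lit 6) (nat_lit 0x1000300048003c0002001300084000000000000000000000000000000) (nat_lit 0x0) (nat_lit 0x20012000c0000000000008000c00028000200000000000000000000000000) := T_12 (nat_lit 225) (nat_lit 241) (nat_lit 5) (nat_lit 4) (nat_lit 10) L39444 (by decide +kernel)
theorem L39446 : W_12 (nat_lit 7) (nat_lit 0x1000300048003c0002001300080000000000000000000000000000000) (nat_lit 0x0) (nat_lit 0x20012000c0000000000008000c8002c000200000000000000000000000000) := T_12 (nat_lit 122) (nat_lit 139) (nat_lit 4) (nat_lit 4) (nat_lit 11) L39445 (by decide +kernel)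
theorem L39447 : W_12 (nat_lit 8) (nat_lit 0x1000300048003c0002001200080000000000000000000000000000000) (nat_lit 0x0) (nat_lit 0x20012000c0001000000008000d8002c000200000000000000000000000000) := T_12 (nat_lit 140) (nat_lit 192) (nat_lit 7) (nat_lit 4) (nat_lit 8) L39446 (by decide +kernel)
theorem L39448 : W_12 (nat_lit 9) (nat_lit 0x1000100048003c0002001200080000000000000000000000000000000) (nat_lit 0x0) (nat_lit 0x20016000e0001000000008000d8002c000200000000000000000000000000) := T_12 (nat_lit 209) (nat_lit 226) (nat_lit 7) (nat_lit 4) (nat_lit 9) L39447 (by decide +kernel)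
theorem L39449 : W_12 (nat_lit 10) (nat_lit 0x100048003c0002001200080000000000000000000000000000000) (nat_lit 0x0) (nat_lit 0x20017000e8001000000008000d8002c000200000000000000000000000000) := T_12 (nat_lit 224) (nat_lit 207) (nat_lit 5) (nat_lit 4) (nat_lit 9) L39448 (by decide +kernel)
theorem L39450 : W_12 (nat_lit 11) (nat_lit 0x48003c0002001200080000000000000000000000000000000) (nat_lit 0x0) (nat_lit 0x20017000f800100000000c000d8002c000200000000000000000000000000) := T_12 (nat_lit 208) (nat_lit 158) (nat_lit 6) (nat_lit 4) (nat_lit 12) L39449 (by decide +kernel)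
theorem L39451 : W_12 (nat_lit 12) (nat_lit 0x40003c0002001200080000000000000000000000000000000) (nat_lit 0x0) (nat_lit 0x20017000f8001c0000000c000d8002c000200000000000000000000000000) := T_12 (nat_lit 191) (nat_lit 190) (nat_lit 1) (nat_lit 7) (nat_lit 10) L39450 (by decide +kernel)
theorem L39452 : W_12 (nat_lit 13) (nat_lit 0x3c0002001200080000000000000000000000000000000) (nat_lit 0x0) (nat_lit 0x20017000f800dc0000000c000d8002c000200000000000000000000000000) := T_12 (nat_lit 194) (nat_lit 195) (nat_lit 3) (nat_lit 4) (nat_lit 10) L39451 (by decide +kernel)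
theorem L39453 : W_12 (nat_lit 14) (nat_lit 0x3c0000001200080000000000000000000000000000000) (nat_lit 0x0) (nat_lit 0x20017000f800dc0000000f000d8002c000200000000000000000000000000) := T_12 (nat_lit 157) (nat_lit 156) (nat_lit 0) (nat_lit 7) (nat_lit 10) L39452 (by decide +kernel)
theorem L39457 : W_12 (nat_lit 2) (nat_lit 0x48003c0004001200080000000000000000000000000000000) (nat_lit 0x0) (nat_lit 0x200010001000000000000000000000000000000000000000000000000) := D_12 (nat_lit 208) (nat_lit 192) (nat_lit 225) (nat_lit 5) (nat_lit 5) (nat_lit 8) (nat_lit 6) (nat_lit 4) (nat_lit 13) (by decide +kernel)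
theorem L39458 : W_12 (nat_lit 3) (nat_lit 0x48003c0000001200080000000000000000000000000000000) (nat_lit 0x0) (nat_lit 0x200010001000000004000000010000000000000000000000000000000) := T_12 (nat_lit 158) (nat_lit 124) (nat_lit 5) (nat_lit 5) (nat_lit 7) L39457 (by decide +kernel)
theorem L39459 : W_12 (nat_lit 4) (nat_lit 0x40003c0000001200080000000000000000000000000000000) (nat_lit 0x0) (nat_lit 0x200010001c00000004000000010000000000000000000000000000000) := T_12 (nat_lit 191) (nat_lit 190) (nat_lit 1) (nat_lit 7) (nat_lit 10) L39458 (by decide +kernel)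
theorem L39460 : W_12 (nat_lit 5) (nat_lit 0x3c0000001200080000000000000000000000000000000) (nat_lit 0x0) (nat_lit 0x20001000dc00000004000000010000000000000000000000000000000) := T_12 (nat_lit 194) (nat_lit 195) (nat_lit 3) (nat_lit 4) (nat_lit 10) L39459 (by decide +kernel)
theorem L39461 : W_12 (nat_lit 2) (nat_lit 0x10800000042003f0009001e00088000000000000000000000000000000) (nat_lit 0x0) (nat_lit 0x180004000000000000000000000000000000) := D_12 (nat_lit 122) (nat_lit 139) (nat_lit 140) (nat_lit 5) (nat_lit 3) (nat_lit 7) (nat_lit 0) (nat_lit 7) (nat_lit 8) (by decide +kernel)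
theorem L39462 : W_12 (nat_lit 3) (nat_lit 0x10800000042003f0009001e00080000000000000000000000000000000) (nat_lit 0x0) (nat_lit 0x18001c000000000000000000000000000000) := T_12 (nat_lit 123) (nat_lit 124) (nat_lit 0) (nat_lit 8) (nat_lit 8) L39461 (by decide +kernel)
theorem L39463 : W_12 (nat_lit 4) (nat_lit 0x10800000042003f0009001600080000000000000000000000000000000) (nat_lit 0x0) (nat_lit 0x98011c000000000000000000000000000000) := T_12 (nat_lit 143) (nat_lit 128) (nat_lit 2) (nat_lit 5) (nat_lit 8) L39462 (by decide +kernel)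
theorem L39464 : W_12 (nat_lit 5) (nat_lit 0x800000042003f0009001600080000000000000000000000000000000) (nat_lit 0x0) (nat_lit 0x100008000000000000000098011c000000000000000000000000000000) := T_12 (nat_lit 228) (nat_lit 211) (nat_lit 4) (nat_lit 7) (nat_lit 13) L39463 (by decide +kernel)
theorem L39465 : W_12 (nat_lit 6) (nat_lit 0x800000042003f0009001200080000000000000000000000000000000) (nat_lit 0x0) (nat_lit 0x1000080000000000000000d8013c000000000000000000000000000000) := T_12 (nat_lit 142) (nat_lit 125) (nat_lit 7) (nat_lit 6) (nat_lit 7) L39464 (by decide +kernel)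
theorem L39466 : W_12 (nat_lit 7) (nat_lit 0x42003f0009001200080000000000000000000000000000000) (nat_lit 0x0) (nat_lit 0x1080084000000000000000d8013c000000000000000000000000000000) := T_12 (nat_lit 223) (nat_lit 206) (nat_lit 6) (nat_lit 2) (nat_lit 13) L39465 (by decide +kernel)
theorem L39467 : W_12 (nat_lit 8) (nat_lit 0x42003f0001001200080000000000000000000000000000000) (nat_lit 0x0) (nat_lit 0x108008400000000000c000d8013c000000000000000000000000000000) := T_12 (nat_lit 159) (nat_lit 158) (nat_lit 2) (nat_lit 2) (nat_lit 10) L39466 (by decide +kernel)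
theorem L39468 : W_12 (nat_lit 9) (nat_lit 0x42003e0001001200080000000000000000000000000000000) (nat_lit 0x0) (nat_lit 0x108008400010001000c000d8013c000000000000000000000000000000) := T_12 (nat_lit 172) (nat_lit 188) (nat_lit 1) (nat_lit 5) (nat_lit 10) L39467 (by decide +kernel)
theorem L39469 : W_12 (nat_lit 10) (nat_lit 0x40003e0001001200080000000000000000000000000000000) (nat_lit 0x0) (nat_lit 0x108008400070001000c000d8013c000000000000000000000000000000) := T_12 (nat_lit 189) (nat_lit 190) (nat_lit 1) (nat_lit 6) (nat_lit 10) L39468 (by decide +kernel)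
theorem L39470 : W_12 (nat_lit 11) (nat_lit 0x40003c0001001200080000000000000000000000000000000) (nat_lit 0x0) (nat_lit 0x108008400070003000c800d8013c000000000000000000000000000000) := T_12 (nat_lit 173) (nat_lit 155) (nat_lit 0) (nat_lit 6) (nat_lit 10) L39469 (by decide +kernel)
theorem L39471 : W_12 (nat_lit 12) (nat_lit 0x3c0001001200080000000000000000000000000000000) (nat_lit 0x0) (nat_lit 0x108008400c70003000c800d8013c000000000000000000000000000000) := T_12 (nat_lit 194) (nat_lit 195) (nat_lit 3) (nat_lit 4) (nat_lit 10) L39470 (by decide +kernel)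
theorem L39472 : W_12 (nat_lit 13) (nat_lit 0x3c0000001200080000000000000000000000000000000) (nat_lit 0x0) (nat_lit 0x108008400c70003000f800d8013c000000000000000000000000000000) := T_12 (nat_lit 156) (nat_lit 157) (nat_lit 0) (nat_lit 7) (nat_lit 10) L39471 (by decide +kernel)
theorem L39473 : W_12 (nat_lit 2) (nat_lit 0x40003c0004001200090000000000000000000000000000000) (nat_lit 0x0) (nat_lit 0xa000000000000800000000000000000000000000) := D_12 (nat_lit 107) (nat_lit 157) (nat_lit 159) (nat_lit 5) (nat_lit 5) (nat_lit 6) (nat_lit 7) (nat_lit 5) (nat_lit 6) (by decide +kernel)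
theorem L39474 : W_12 (nat_lit 3) (nat_lit 0x40003c0004001200080000000000000000000000000000000) (nat_lit 0x0) (nat_lit 0x80000000a000000010000800000000000000000000000000) := T_12 (nat_lit 124) (nat_lit 191) (nat_lit 5) (nat_lit 5) (nat_lit 7) L39473 (by decide +kernel)
theorem L39475 : W_12 (nat_lit 4) (nat_lit 0x3c0004001200080000000000000000000000000000000) (nat_lit 0x0) (nat_lit 0xc80000000a000000010000800000000000000000000000000) := T_12 (nat_lit 194) (nat_lit 195) (nat_lit 3) (nat_lit 4) (nat_lit 10) L39474 (by decide +kernel)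
theorem L39476 : W_12 (nat_lit 5) (nat_lit 0x3c0004001200080000000000000000000000000000000) (nat_lit 0x0) (nat_lit 0x1800000000000c00038001400000000000000000000000000) := T_12 (nat_lit 124) (nat_lit 191) (nat_lit 5) (nat_lit 5) (nat_lit 7) L39055 (by decide +kernel)
theorem L39477 : W_12 (nat_lit 2) (nat_lit 0x40003c0006001600080000000000000000000000000000000) (nat_lit 0x0) (nat_lit 0x1000000008000000020000000000000000000000000000000) := D_12 (nat_lit 125) (nat_lit 159) (nat_lit 192) (nat_lit 7) (nat_lit 6) (nat_lit 7) (nat_lit 6) (nat_lit 5) (nat_lit 11) (by decide +kernel)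
theorem L39478 : W_12 (nat_lit 3) (nat_lit 0x40003c0006001200080000000000000000000000000000000) (nat_lit 0x0) (nat_lit 0x1000000008000c00020000000000000000000000000000000) := T_12 (nat_lit 142) (nat_lit 143) (nat_lit 1) (nat_lit 8) (nat_lit 8) L39477 (by decide +kernel)
theorem L39479 : W_12 (nat_lit 4) (nat_lit 0x40003c0004001200080000000000000000000000000000000) (nat_lit 0x0) (nat_lit 0x100000000b000c00020000000000000000000000000000000) := T_12 (nat_lit 157) (nat_lit 156) (nat_lit 0) (nat_lit 7) (nat_lit 10) L39478 (by decide +kernel)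
theorem L39480 : W_12 (nat_lit 5) (nat_lit 0x3c0004001200080000000000000000000000000000000) (nat_lit 0x0) (nat_lit 0xd00000000b000c00020000000000000000000000000000000) := T_12 (nat_lit 194) (nat_lit 195) (nat_lit 3) (nat_lit 4) (nat_lit 10) L39479 (by decide +kernel)
theorem L39481 : W_12 (nat_lit 6) (nat_lit 0x3c0000001200080000000000000000000000000000000) (nat_lit 0x0) (nat_lit 0xd80000000f000c00038001c00000000000000000000000000) := Q_12 (nat_lit 158) (C_12 L39475 (C_12 L39476 (C_12 L39480 N_12))) (by decide +kernel)
theorem L39482 : W_12 (nat_lit 15) (nat_lit 0x380000001200080000000000000000000000000000000) (nat_lit 0x0) (nat_lit 0x20017800fc00df0007000f800d8013c001e00000000000000000000000000) := Q_12 (nat_lit 174) (C_12 L39453 (C_12 L33476 (C_12 L39456 (C_12 L39460 (C_12 L39472 (C_12 L39481 N_12)))))) (by decide +kernel)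
theorem L39483 : W_12 (nat_lit 7) (nat_lit 0x380000001200080000000000000000000000000000000) (nat_lit 0x0) (nat_lit 0x2000dc00040033000900018000000000000000000000000000000) := Q_12 (nat_lit 174) (C_12 L39097 (C_12 L33476 (C_12 L39024 N_12))) (by decide +kernel)
theorem L39484 : W_12 (nat_lit 15) (nat_lit 0x380000001200080000000000000000000000000000000) (nat_lit 0x0) (nat_lit 0x20017000f800dc0006003f800d8002c000200000000000000000000000000) := Q_12 (nat_lit 174) (C_12 L39097 (C_12 L39453 (C_12 L33514 N_12))) (by decide +kernel)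
theorem L39485 : W_12 (nat_lit 7) (nat_lit 0x380000001200080000000000000000000000000000000) (nat_lit 0x0) (nat_lit 0x1000dc0004003f000c00038001c00000000000000000000000000) := Q_12 (nat_lit 174) (C_12 L39097 (C_12 L39481 (C_12 L39456 N_12))) (by decide +kernel)
theorem L39486 : W_12 (nat_lit 3) (nat_lit 0x380004001e00080000000000000000000000000000000) (nat_lit 0x0) (nat_lit 0x5000000018000000020000000000000000000000000000000) := T_12 (nat_lit 194) (nat_lit 160) (nat_lit 6) (nat_lit 7) (nat_lit 11) L39190 (by decide +kernel)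
theorem L39487 : W_12 (nat_lit 4) (nat_lit 0x380000001e00080000000000000000000000000000000) (nat_lit 0x0) (nat_lit 0x500000001e000000020000000000000000000000000000000) := T_12 (nat_lit 158) (nat_lit 157) (nat_lit 1) (nat_lit 8) (nat_lit 8) L39486 (by decide +kernel)
theorem L39488 : W_12 (nat_lit 5) (nat_lit 0x380000001600080000000000000000000000000000000) (nat_lit 0x0) (nat_lit 0x500000001e000800120000000000000000000000000000000) := T_12 (nat_lit 143) (nat_lit 128) (nat_lit 2) (nat_lit 5) (nat_lit 8) L39487 (by decide +kernel)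
theorem L39489 : W_12 (nat_lit 2) (nat_lit 0x380010001e00090000000000000000000000000000000) (nat_lit 0x0) (nat_lit 0x60000100000000000000000000000000000000000) := D_12 (nat_lit 161) (nat_lit 140) (nat_lit 162) (nat_lit 3) (nat_lit 4) (nat_lit 8) (nat_lit 3) (nat_lit 5) (nat_lit 8) (by decide +kernel)
theorem L39490 : W_12 (nat_lit 3) (nat_lit 0x380000001e00090000000000000000000000000000000) (nat_lit 0x0) (nat_lit 0x4000000070000100000000000000000000000000000000000) := T_12 (nat_lit 160) (nat_lit 194) (nat_lit 6) (nat_lit 7) (nat_lit 11) L39489 (by decide +kernel)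
theorem L39491 : W_12 (nat_lit 4) (nat_lit 0x380000001e00080000000000000000000000000000000) (nat_lit 0x0) (nat_lit 0x4000000070000100018000000000000000000000000000000) := T_12 (nat_lit 124) (nat_lit 123) (nat_lit 0) (nat_lit 8) (nat_lit 8) L39490 (by decide +kernel)
theorem L39492 : W_12 (nat_lit 5) (nat_lit 0x380000001600080000000000000000000000000000000) (nat_lit 0x0) (nat_lit 0x4000000070000900118000000000000000000000000000000) := T_12 (nat_lit 143) (nat_lit 128) (nat_lit 2) (nat_lit 5) (nat_lit 8) L39491 (by decide +kernel)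
theorem L39493 : W_12 (nat_lit 2) (nat_lit 0x1000380024001e00080000000000000000000000000000000) (nat_lit 0x0) (nat_lit 0x100018000000000000000000000000000000) := D_12 (nat_lit 123) (nat_lit 124) (nat_lit 140) (nat_lit 0) (nat_lit 8) (nat_lit 8) (nat_lit 4) (nat_lit 5) (nat_lit 11) (by decide +kernel)
theorem L39494 : W_12 (nat_lit 3) (nat_lit 0x380024001e00080000000000000000000000000000000) (nat_lit 0x0) (nat_lit 0x1000000000000100038000000000000000000000000000000) := T_12 (nat_lit 192) (nat_lit 125) (nat_lit 6) (nat_lit 5) (nat_lit 11) L39493 (by decide +kernel)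
theorem L39495 : W_12 (nat_lit 4) (nat_lit 0x380004001e00080000000000000000000000000000000) (nat_lit 0x0) (nat_lit 0x1000000060000100038000000000000000000000000000000) := T_12 (nat_lit 161) (nat_lit 162) (nat_lit 3) (nat_lit 5) (nat_lit 8) L39494 (by decide +kernel)
theorem L39496 : W_12 (nat_lit 5) (nat_lit 0x380000001e00080000000000000000000000000000000) (nat_lit 0x0) (nat_lit 0x1000000066000100038000000000000000000000000000000) := T_12 (nat_lit 158) (nat_lit 157) (nat_lit 1) (nat_lit 8) (nat_lit 8) L39495 (by decide +kernel)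
theorem L39497 : W_12 (nat_lit 6) (nat_lit 0x380000001600080000000000000000000000000000000) (nat_lit 0x0) (nat_lit 0x1000000066000900138000000000000000000000000000000) := T_12 (nat_lit 143) (nat_lit 128) (nat_lit 2) (nat_lit 5) (nat_lit 8) L39496 (by decide +kernel)
theorem L39499 : W_12 (nat_lit 2) (nat_lit 0x3800040016000a0000000000000000000000000000000) (nat_lit 0x0) (nat_lit 0x10001000080000000000000000000000) := D_12 (nat_lit 108) (nat_lit 124) (nat_lit 91) (nat_lit 6) (nat_lit 5) (nat_lit 10) (nat_lit 5) (nat_lit 6) (nat_lit 5) (by decide +kernel)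
theorem L39500 : W_12 (nat_lit 3) (nat_lit 0x3800000016000a0000000000000000000000000000000) (nat_lit 0x0) (nat_lit 0x1000000004000000010001000080000000000000000000000) := T_12 (nat_lit 158) (nat_lit 192) (nat_lit 6) (nat_lit 5) (nat_lit 11) L39499 (by decide +kernel)
theorem L39501 : W_12 (nat_lit 6) (nat_lit 0x3800000016000a0000000000000000000000000000000) (nat_lit 0x0) (nat_lit 0x400000000c0000000000038001c000a000000000000000000) := T_12 (nat_lit 159) (nat_lit 194) (nat_lit 7) (nat_lit 6) (nat_lit 7) L39105 (by decide +kernel)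
theorem L39502 : W_12 (nat_lit 7) (nat_lit 0x380000001600080000000000000000000000000000000) (nat_lit 0x0) (nat_lit 0x500000000c0000000300038001c000a000000000000000000) := Q_12 (nat_lit 125) (C_12 L39498 (C_12 L39500 (C_12 L39501 N_12))) (by decide +kernel)
theorem L39503 : W_12 (nat_lit 8) (nat_lit 0x380000001200080000000000000000000000000000000) (nat_lit 0x0) (nat_lit 0x500000007e000d001380038001c000a000000000000000000) := Q_12 (nat_lit 142) (C_12 L39488 (C_12 L39492 (C_12 L39497 (C_12 L39502 N_12)))) (by decide +kernel)
theorem L39504 : W_12 (nat_lit 6) (nat_lit 0x380000001200080000000000000000000000000000000) (nat_lit 0x0) (nat_lit 0x20001000dc00040034000800010000000000000000000000000000000) := Q_12 (nat_lit 174) (C_12 L39097 (C_12 L39460 (C_12 L39047 N_12))) (by decide +kernel)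
theorem L39505 : W_12 (nat_lit 16) (nat_lit 0x300000001200080000000000000000000000000000000) (nat_lit 0x0) (nat_lit 0x20017800fc00df000f007f800d8013c003e001c000a000000000000000000) := Q_12 (nat_lit 175) (C_12 L39440 (C_12 L39482 (C_12 L39099 (C_12 L39483 (C_12 L39484 (C_12 L39485 (C_12 L39503 (C_12 L39504 N_12)))))))) (by decide +kernel)
theorem L39506 : W_12 (nat_lit 2) (nat_lit 0x60003c0002001b00090000000000000000000000000000000) (nat_lit 0x0) (nat_lit 0x8000800040000000000000000000000) := D_12 (nat_lit 107) (nat_lit 123) (nat_lit 90) (nat_lit 6) (nat_lit 4) (nat_lit 10) (nat_lit 5) (nat_lit 5) (nat_lit 5) (by decide +kernel)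
theorem L39507 : W_12 (nat_lit 3) (nat_lit 0x60003c0002001a00090000000000000000000000000000000) (nat_lit 0x0) (nat_lit 0x800000000000100008000800040000000000000000000000) := T_12 (nat_lit 140) (nat_lit 191) (nat_lit 6) (nat_lit 4) (nat_lit 11) L39506 (by decide +kernel)
theorem L39508 : W_12 (nat_lit 4) (nat_lit 0x60003c0002001a00080000000000000000000000000000000) (nat_lit 0x0) (nat_lit 0x800000004000100018000800040000000000000000000000) := T_12 (nat_lit 124) (nat_lit 158) (nat_lit 7) (nat_lit 5) (nat_lit 7) L39507 (by decide +kernel)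
theorem L39509 : W_12 (nat_lit 5) (nat_lit 0x40003c0002001a00080000000000000000000000000000000) (nat_lit 0x0) (nat_lit 0x2800020004000100018000800040000000000000000000000) := T_12 (nat_lit 193) (nat_lit 173) (nat_lit 3) (nat_lit 3) (nat_lit 10) L39508 (by decide +kernel)
theorem L39510 : W_12 (nat_lit 6) (nat_lit 0x3c0002001a00080000000000000000000000000000000) (nat_lit 0x0) (nat_lit 0xe800020004000100018000800040000000000000000000000) := T_12 (nat_lit 194) (nat_lit 195) (nat_lit 3) (nat_lit 4) (nat_lit 10) L39509 (by decide +kernel)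
theorem L39511 : W_12 (nat_lit 7) (nat_lit 0x3c0000001a00080000000000000000000000000000000) (nat_lit 0x0) (nat_lit 0xe800020007000100018000800040000000000000000000000) := T_12 (nat_lit 157) (nat_lit 156) (nat_lit 0) (nat_lit 7) (nat_lit 10) L39510 (by decide +kernel)
theorem L39512 : W_12 (nat_lit 8) (nat_lit 0x380000001a00080000000000000000000000000000000) (nat_lit 0x0) (nat_lit 0xef0007800f000100018000800040000000000000000000000) := Q_12 (nat_lit 174) (C_12 L39379 (C_12 L12722 (C_12 L39378 (C_12 L39511 N_12)))) (by decide +kernel)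
theorem L39513 : W_12 (nat_lit 5) (nat_lit 0x380000001a00080000000000000000000000000000000) (nat_lit 0x0) (nat_lit 0xe0006003f000100010000000000000000000000000000000) := Q_12 (nat_lit 174) (C_12 L39402 (C_12 L12722 (C_12 L39399 N_12))) (by decide +kernel)
theorem L39514 : W_12 (nat_lit 2) (nat_lit 0x4000380004001a00090001400000000000000000000000000) (nat_lit 0x0) (nat_lit 0x8000a0000000000000000000000) := D_12 (nat_lit 107) (nat_lit 91) (nat_lit 89) (nat_lit 6) (nat_lit 5) (nat_lit 9) (nat_lit 4) (nat_lit 5) (nat_lit 9) (by decide +kernel)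
theorem L39515 : W_12 (nat_lit 3) (nat_lit 0x4000380004001a00090001000000000000000000000000000) (nat_lit 0x0) (nat_lit 0x8000c000a0000000000000000000000) := T_12 (nat_lit 106) (nat_lit 123) (nat_lit 4) (nat_lit 5) (nat_lit 10) L39514 (by decide +kernel)
theorem L39516 : W_12 (nat_lit 4) (nat_lit 0x4000380004001a00090000000000000000000000000000000) (nat_lit 0x0) (nat_lit 0x28001c000a0000000000000000000000) := T_12 (nat_lit 108) (nat_lit 125) (nat_lit 6) (nat_lit 5) (nat_lit 10) L39515 (by decide +kernel)
theorem L39517 : W_12 (nat_lit 5) (nat_lit 0x4000380004001a00080000000000000000000000000000000) (nat_lit 0x0) (nat_lit 0x2000000000000000038001c000a0000000000000000000000) := T_12 (nat_lit 124) (nat_lit 193) (nat_lit 7) (nat_lit 5) (nat_lit 7) L39516 (by decide +kernel)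
theorem L39518 : W_12 (nat_lit 6) (nat_lit 0x380004001a00080000000000000000000000000000000) (nat_lit 0x0) (nat_lit 0x6000000010000000038001c000a0000000000000000000000) := T_12 (nat_lit 194) (nat_lit 160) (nat_lit 6) (nat_lit 7) (nat_lit 11) L39517 (by decide +kernel)
theorem L39519 : W_12 (nat_lit 7) (nat_lit 0x380000001a00080000000000000000000000000000000) (nat_lit 0x0) (nat_lit 0x600000007e000100038001c000a0000000000000000000000) := Q_12 (nat_lit 158) (C_12 L39412 (C_12 L39518 (C_12 L14643 N_12))) (by decide +kernel)
theorem L39520 : W_12 (nat_lit 9) (nat_lit 0x300000001a00080000000000000000000000000000000) (nat_lit 0x0) (nat_lit 0xef000f807f000100038001c000e0000000000000000000000) := Q_12 (nat_lit 175) (C_12 L39362 (C_12 L39512 (C_12 L39513 (C_12 L39519 N_12)))) (by decide +kernel)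
theorem L39521 : W_12 (nat_lit 10) (nat_lit 0x300000001200080000000000000000000000000000000) (nat_lit 0x0) (nat_lit 0xef000f807f000d0013c001c000e0000000000000000000000) := Q_12 (nat_lit 143) (C_12 L39353 (C_12 L39352 (C_12 L39358 (C_12 L39357 (C_12 L39520 N_12))))) (by decide +kernel)
theorem L39522 : W_12 (nat_lit 3) (nat_lit 0x4000380024001e00080000000000000000000000000000000) (nat_lit 0x0) (nat_lit 0x3000000000000000030001000000000000000000000000000) := T_12 (nat_lit 124) (nat_lit 193) (nat_lit 7) (nat_lit 5) (nat_lit 7) L39416 (by decide +kernel)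
theorem L39523 : W_12 (nat_lit 4) (nat_lit 0x4000380004001e00080000000000000000000000000000000) (nat_lit 0x0) (nat_lit 0x3000000060000000030001000000000000000000000000000) := T_12 (nat_lit 161) (nat_lit 162) (nat_lit 3) (nat_lit 5) (nat_lit 8) L39522 (by decide +kernel)
theorem L39524 : W_12 (nat_lit 5) (nat_lit 0x4000380000001e00080000000000000000000000000000000) (nat_lit 0x0) (nat_lit 0x3000000066000000030001000000000000000000000000000) := T_12 (nat_lit 158) (nat_lit 157) (nat_lit 1) (nat_lit 8) (nat_lit 8) L39523 (by decide +kernel)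
theorem L39525 : W_12 (nat_lit 6) (nat_lit 0x4000380000001600080000000000000000000000000000000) (nat_lit 0x0) (nat_lit 0x3000000066000800130001000000000000000000000000000) := T_12 (nat_lit 143) (nat_lit 128) (nat_lit 2) (nat_lit 5) (nat_lit 8) L39524 (by decide +kernel)
theorem L39526 : W_12 (nat_lit 7) (nat_lit 0x4000300000001600080000000000000000000000000000000) (nat_lit 0x0) (nat_lit 0xbe000e0067800800130001000000000000000000000000000) := Q_12 (nat_lit 175) (C_12 L39525 (C_12 L39421 (C_12 L39204 N_12))) (by decide +kernel)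
theorem L39527 : W_12 (nat_lit 2) (nat_lit 0x6000300000001600080000000000000000000000000000000) (nat_lit 0x0) (nat_lit 0x80000000000008000000010000000000000000000000000000000) := D_12 (nat_lit 159) (nat_lit 124) (nat_lit 211) (nat_lit 4) (nat_lit 6) (nat_lit 11) (nat_lit 7) (nat_lit 6) (nat_lit 8) (by decide +kernel)
theorem L39528 : W_12 (nat_lit 2) (nat_lit 0x6000380024001e00080000000000000000000000000000000) (nat_lit 0x0) (nat_lit 0x800040001000000000000000000000000000000000000000000000000) := D_12 (nat_lit 210) (nat_lit 227) (nat_lit 192) (nat_lit 4) (nat_lit 6) (nat_lit 13) (nat_lit 7) (nat_lit 5) (nat_lit 8) (by decide +kernel)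
theorem L39529 : W_12 (nat_lit 3) (nat_lit 0x6000300024001e00080000000000000000000000000000000) (nat_lit 0x0) (nat_lit 0x800040001000080000000000010000000000000000000000000000000) := T_12 (nat_lit 175) (nat_lit 124) (nat_lit 7) (nat_lit 5) (nat_lit 7) L39528 (by decide +kernel)
theorem L39530 : W_12 (nat_lit 4) (nat_lit 0x6000300004001e00080000000000000000000000000000000) (nat_lit 0x0) (nat_lit 0x800040001000080060000000010000000000000000000000000000000) := T_12 (nat_lit 161) (nat_lit 162) (nat_lit 3) (nat_lit 5) (nat_lit 8) L39529 (by decide +kernel)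
theorem L39531 : W_12 (nat_lit 5) (nat_lit 0x6000300000001e00080000000000000000000000000000000) (nat_lit 0x0) (nat_lit 0x800040001000080066000000010000000000000000000000000000000) := T_12 (nat_lit 158) (nat_lit 157) (nat_lit 1) (nat_lit 8) (nat_lit 8) L39530 (by decide +kernel)
theorem L39532 : W_12 (nat_lit 6) (nat_lit 0x6000300000001600080000000000000000000000000000000) (nat_lit 0x0) (nat_lit 0x800040001000080066000800110000000000000000000000000000000) := T_12 (nat_lit 143) (nat_lit 128) (nat_lit 2) (nat_lit 5) (nat_lit 8) L39531 (by decide +kernel)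
theorem L39533 : W_12 (nat_lit 2) (nat_lit 0x6000300004001e00080000000000000000000000000000000) (nat_lit 0x0) (nat_lit 0xc0000000000008000000000000000000000000000000000000000) := D_12 (nat_lit 159) (nat_lit 211) (nat_lit 210) (nat_lit 7) (nat_lit 6) (nat_lit 8) (nat_lit 4) (nat_lit 6) (nat_lit 12) (by decide +kernel)
theorem L39534 : W_12 (nat_lit 3) (nat_lit 0x6000300000001e00080000000000000000000000000000000) (nat_lit 0x0) (nat_lit 0xc000000000000e000000000000000000000000000000000000000) := T_12 (nat_lit 158) (nat_lit 157) (nat_lit 1) (nat_lit 8) (nat_lit 8) L39533 (by decide +kernel)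
theorem L39535 : W_12 (nat_lit 4) (nat_lit 0x6000300000001600080000000000000000000000000000000) (nat_lit 0x0) (nat_lit 0xc000000000000e000800100000000000000000000000000000000) := T_12 (nat_lit 143) (nat_lit 128) (nat_lit 2) (nat_lit 5) (nat_lit 8) L39534 (by decide +kernel)
theorem L39536 : W_12 (nat_lit 7) (nat_lit 0x4000300000001600080000000000000000000000000000000) (nat_lit 0x0) (nat_lit 0x8000c000300008006e000800110000000000000000000000000000000) := Q_12 (nat_lit 193) (C_12 L39527 (C_12 L39532 (C_12 L39535 N_12))) (by decide +kernel)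
theorem L39537 : W_12 (nat_lit 12) (nat_lit 0x4000300000001200080000000000000000000000000000000) (nat_lit 0x0) (nat_lit 0x18000d000be000f006fc00c00130001000000000000000000000000000) := Q_12 (nat_lit 142) (C_12 L39214 (C_12 L38998 (C_12 L39526 (C_12 L39536 N_12)))) (by decide +kernel)
theorem L39538 : W_12 (nat_lit 2) (nat_lit 0x4000380004001e000a0000000000000000000000000000000) (nat_lit 0x0) (nat_lit 0x10001000080000000000000000000000) := D_12 (nat_lit 108) (nat_lit 91) (nat_lit 124) (nat_lit 5) (nat_lit 6) (nat_lit 5) (nat_lit 6) (nat_lit 5) (nat_lit 10) (by decide +kernel)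
theorem L39539 : W_12 (nat_lit 3) (nat_lit 0x4000300004001e000a0000000000000000000000000000000) (nat_lit 0x0) (nat_lit 0x1000080000000000010001000080000000000000000000000) := T_12 (nat_lit 175) (nat_lit 192) (nat_lit 6) (nat_lit 5) (nat_lit 11) L39538 (by decide +kernel)
theorem L39540 : W_12 (nat_lit 4) (nat_lit 0x4000300004001e00080000000000000000000000000000000) (nat_lit 0x0) (nat_lit 0x1000080008000000030001000080000000000000000000000) := T_12 (nat_lit 125) (nat_lit 159) (nat_lit 7) (nat_lit 6) (nat_lit 7) L39539 (by decide +kernel)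
theorem L39541 : W_12 (nat_lit 5) (nat_lit 0x4000300000001e00080000000000000000000000000000000) (nat_lit 0x0) (nat_lit 0x100008000e000000030001000080000000000000000000000) := T_12 (nat_lit 158) (nat_lit 157) (nat_lit 1) (nat_lit 8) (nat_lit 8) L39540 (by decide +kernel)
theorem L39542 : W_12 (nat_lit 6) (nat_lit 0x4000300000001a00080000000000000000000000000000000) (nat_lit 0x0) (nat_lit 0x100008000e000400130001000080000000000000000000000) := T_12 (nat_lit 142) (nat_lit 128) (nat_lit 2) (nat_lit 5) (nat_lit 8) L39541 (by decide +kernel)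
theorem L39543 : W_12 (nat_lit 7) (nat_lit 0x4000300000001200080000000000000000000000000000000) (nat_lit 0x0) (nat_lit 0x100008001e000c00130001000080000000000000000000000) := T_12 (nat_lit 143) (nat_lit 160) (nat_lit 6) (nat_lit 7) (nat_lit 11) L39542 (by decide +kernel)
theorem L39544 : W_12 (nat_lit 13) (nat_lit 0x300000001200080000000000000000000000000000000) (nat_lit 0x0) (nat_lit 0x10000c00070003e001f003fe000f007fc00c00130001000080000000000000000000000) := Q_12 (nat_lit 194) (C_12 L39537 (C_12 L38922 (C_12 L39543 (C_12 L38920 N_12)))) (by decide +kernel)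
theorem L39545 : W_12 (nat_lit 5) (nat_lit 0x300004001e00080000000000000000000000000000000) (nat_lit 0x0) (nat_lit 0x7000080010000000038001000000000000000000000000000) := T_12 (nat_lit 194) (nat_lit 160) (nat_lit 6) (nat_lit 7) (nat_lit 11) L12633 (by decide +kernel)
theorem L39546 : W_12 (nat_lit 6) (nat_lit 0x300000001e00080000000000000000000000000000000) (nat_lit 0x0) (nat_lit 0x7000080016000000038001000000000000000000000000000) := T_12 (nat_lit 158) (nat_lit 157) (nat_lit 1) (nat_lit 8) (nat_lit 8) L39545 (by decide +kernel)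
theorem L39547 : W_12 (nat_lit 7) (nat_lit 0x300000001600080000000000000000000000000000000) (nat_lit 0x0) (nat_lit 0x7000080016000800138001000000000000000000000000000) := T_12 (nat_lit 143) (nat_lit 128) (nat_lit 2) (nat_lit 5) (nat_lit 8) L39546 (by decide +kernel)
theorem L39548 : W_12 (nat_lit 3) (nat_lit 0x300000001e00090000000000000000000000000000000) (nat_lit 0x0) (nat_lit 0x6000000018000000020000000000000000000000000000000) := T_12 (nat_lit 194) (nat_lit 160) (nat_lit 6) (nat_lit 7) (nat_lit 11) L39000 (by decide +kernel)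
theorem L39549 : W_12 (nat_lit 4) (nat_lit 0x300000001e00080000000000000000000000000000000) (nat_lit 0x0) (nat_lit 0x6000000018000000038000000000000000000000000000000) := T_12 (nat_lit 124) (nat_lit 123) (nat_lit 0) (nat_lit 8) (nat_lit 8) L39548 (by decide +kernel)
theorem L39550 : W_12 (nat_lit 5) (nat_lit 0x300000001600080000000000000000000000000000000) (nat_lit 0x0) (nat_lit 0x6000000018000800138000000000000000000000000000000) := T_12 (nat_lit 143) (nat_lit 128) (nat_lit 2) (nat_lit 5) (nat_lit 8) L39549 (by decide +kernel)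
theorem L39551 : W_12 (nat_lit 5) (nat_lit 0x4000380004001e000a0000000000000000000000000000000) (nat_lit 0x0) (nat_lit 0xae00060000000000000001000080000000000000000000000) := T_12 (nat_lit 91) (nat_lit 108) (nat_lit 5) (nat_lit 6) (nat_lit 5) L14273 (by decide +kernel)
theorem L39552 : W_12 (nat_lit 6) (nat_lit 0x4000300004001e000a0000000000000000000000000000000) (nat_lit 0x0) (nat_lit 0xbe000e0000000000000001000080000000000000000000000) := T_12 (nat_lit 175) (nat_lit 192) (nat_lit 6) (nat_lit 5) (nat_lit 11) L39551 (by decide +kernel)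
theorem L39553 : W_12 (nat_lit 7) (nat_lit 0x4000300004001e00080000000000000000000000000000000) (nat_lit 0x0) (nat_lit 0xbe000e0008000000020001000080000000000000000000000) := T_12 (nat_lit 125) (nat_lit 159) (nat_lit 7) (nat_lit 6) (nat_lit 7) L39552 (by decide +kernel)
theorem L39554 : W_12 (nat_lit 8) (nat_lit 0x300004001e00080000000000000000000000000000000) (nat_lit 0x0) (nat_lit 0xfe000e0018000000020001000080000000000000000000000) := T_12 (nat_lit 194) (nat_lit 160) (nat_lit 6) (nat_lit 7) (nat_lit 11) L39553 (by decide +kernel)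
theorem L39555 : W_12 (nat_lit 9) (nat_lit 0x300000001e00080000000000000000000000000000000) (nat_lit 0x0) (nat_lit 0xfe000e001e000000020001000080000000000000000000000) := T_12 (nat_lit 158) (nat_lit 157) (nat_lit 1) (nat_lit 8) (nat_lit 8) L39554 (by decide +kernel)
theorem L39556 : W_12 (nat_lit 10) (nat_lit 0x300000001600080000000000000000000000000000000) (nat_lit 0x0) (nat_lit 0xfe000e001e000800120001000080000000000000000000000) := T_12 (nat_lit 143) (nat_lit 128) (nat_lit 2) (nat_lit 5) (nat_lit 8) L39555 (by decide +kernel)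
theorem L39557 : W_12 (nat_lit 5) (nat_lit 0x300004001e00080000000000000000000000000000000) (nat_lit 0x0) (nat_lit 0x5000080018000000030001000080000000000000000000000) := T_12 (nat_lit 194) (nat_lit 160) (nat_lit 6) (nat_lit 7) (nat_lit 11) L39540 (by decide +kernel)
theorem L39558 : W_12 (nat_lit 6) (nat_lit 0x300000001e00080000000000000000000000000000000) (nat_lit 0x0) (nat_lit 0x500008001e000000030001000080000000000000000000000) := T_12 (nat_lit 158) (nat_lit 157) (nat_lit 1) (nat_lit 8) (nat_lit 8) L39557 (by decide +kernel)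
theorem L39559 : W_12 (nat_lit 7) (nat_lit 0x300000001600080000000000000000000000000000000) (nat_lit 0x0) (nat_lit 0x500008001e000800130001000080000000000000000000000) := T_12 (nat_lit 143) (nat_lit 128) (nat_lit 2) (nat_lit 5) (nat_lit 8) L39558 (by decide +kernel)
theorem L39560 : W_12 (nat_lit 11) (nat_lit 0x300000001200080000000000000000000000000000000) (nat_lit 0x0) (nat_lit 0x4000e000fe000e001e000c001380038001c0002000000000000000000) := Q_12 (nat_lit 142) (C_12 L39350 (C_12 L39547 (C_12 L39550 (C_12 L39556 (C_12 L39559 (C_12 L39226 N_12)))))) (by decide +kernel)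
theorem L39561 : W_12 (nat_lit 17) (nat_lit 0x200000001200080000000000000000000000000000000) (nat_lit 0x0) (nat_lit 0x14000e0007e003f807fe03ff001f807fc00dc013e003e001f000b000000000000000000) := Q_12 (nat_lit 176) (C_12 L38866 (C_12 L39007 (C_12 L39101 (C_12 L39176 (C_12 L39220 (C_12 L39236 (C_12 L39257 (C_12 L39351 (C_12 L39415 (C_12 L39439 (C_12 L39505 (C_12 L39521 (C_12 L39544 (C_12 L39560 N_12)))))))))))))) (by decide +kernel)
theorem L39565 : W_12 (nat_lit 2) (nat_lit 0x200000001600090000800060002000000000000000000) (nat_lit 0x0) (nat_lit 0x2000100008000000000000000000000000000000) := D_12 (nat_lit 140) (nat_lit 157) (nat_lit 123) (nat_lit 5) (nat_lit 5) (nat_lit 5) (nat_lit 5) (nat_lit 5) (nat_lit 4) (by decide +kernel)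
theorem L39566 : W_12 (nat_lit 3) (nat_lit 0x200000001600090000800060000000000000000000000) (nat_lit 0x0) (nat_lit 0x2000100028000000000002000000000000000000) := T_12 (nat_lit 73) (nat_lit 125) (nat_lit 7) (nat_lit 5) (nat_lit 4) L39565 (by decide +kernel)
theorem L39567 : W_12 (nat_lit 4) (nat_lit 0x200000001200090000800060000000000000000000000) (nat_lit 0x0) (nat_lit 0xa000500028000000000002000000000000000000) := T_12 (nat_lit 142) (nat_lit 159) (nat_lit 7) (nat_lit 5) (nat_lit 5) L39566 (by decide +kernel)
theorem L39568 : W_12 (nat_lit 5) (nat_lit 0x200000001200090000800040000000000000000000000) (nat_lit 0x0) (nat_lit 0xa000500028000000020003000000000000000000) := T_12 (nat_lit 89) (nat_lit 72) (nat_lit 4) (nat_lit 5) (nat_lit 8) L39567 (by decide +kernel)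
theorem L39569 : W_12 (nat_lit 2) (nat_lit 0x2000000016000900008000c0002000000000000000000) (nat_lit 0x0) (nat_lit 0x2000100008000000000000000000000000000000) := D_12 (nat_lit 140) (nat_lit 123) (nat_lit 157) (nat_lit 5) (nat_lit 5) (nat_lit 4) (nat_lit 5) (nat_lit 5) (nat_lit 5) (by decide +kernel)
theorem L39570 : W_12 (nat_lit 3) (nat_lit 0x2000000016000900008000c0000000000000000000000) (nat_lit 0x0) (nat_lit 0x2000100028000000000002000000000000000000) := T_12 (nat_lit 73) (nat_lit 125) (nat_lit 7) (nat_lit 5) (nat_lit 4) L39569 (by decide +kernel)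
theorem L39571 : W_12 (nat_lit 4) (nat_lit 0x2000000012000900008000c0000000000000000000000) (nat_lit 0x0) (nat_lit 0xa000500028000000000002000000000000000000) := T_12 (nat_lit 142) (nat_lit 159) (nat_lit 7) (nat_lit 5) (nat_lit 5) L39570 (by decide +kernel)
theorem L39572 : W_12 (nat_lit 5) (nat_lit 0x200000001200090000800040000000000000000000000) (nat_lit 0x0) (nat_lit 0xa000500028000000080006000000000000000000) := T_12 (nat_lit 91) (nat_lit 74) (nat_lit 6) (nat_lit 5) (nat_lit 8) L39571 (by decide +kernel)
theorem L39573 : W_12 (nat_lit 6) (nat_lit 0x200000001200090000800000000000000000000000000) (nat_lit 0x0) (nat_lit 0xe0005000280014000e0007000200000000000000) := Q_12 (nat_lit 90) (C_12 L39564 (C_12 L31959 (C_12 L39568 (C_12 L39572 N_12)))) (by decide +kernel)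
theorem L39577 : W_12 (nat_lit 2) (nat_lit 0x28000c001200090000c00000000000000000000000000) (nat_lit 0x0) (nat_lit 0x20001000080000000000000000000000) := D_12 (nat_lit 108) (nat_lit 91) (nat_lit 125) (nat_lit 6) (nat_lit 5) (nat_lit 9) (nat_lit 6) (nat_lit 5) (nat_lit 10) (by decide +kernel)
theorem L39578 : W_12 (nat_lit 3) (nat_lit 0x20000c001200090000c00000000000000000000000000) (nat_lit 0x0) (nat_lit 0x80000000000028001000080000000000000000000000) := T_12 (nat_lit 175) (nat_lit 123) (nat_lit 4) (nat_lit 5) (nat_lit 10) L39577 (by decide +kernel)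
theorem L39579 : W_12 (nat_lit 4) (nat_lit 0x200004001200090000c00000000000000000000000000) (nat_lit 0x0) (nat_lit 0x180008000000028001000080000000000000000000000) := T_12 (nat_lit 159) (nat_lit 176) (nat_lit 7) (nat_lit 5) (nat_lit 6) L39578 (by decide +kernel)
theorem L39580 : W_12 (nat_lit 5) (nat_lit 0x200004001200090000800000000000000000000000000) (nat_lit 0x0) (nat_lit 0x1800080000000280014000a0000000000000000000000) := T_12 (nat_lit 106) (nat_lit 89) (nat_lit 4) (nat_lit 5) (nat_lit 9) L39579 (by decide +kernel)
theorem L39581 : W_12 (nat_lit 2) (nat_lit 0x20000c001200090003c00000000000000000000000000) (nat_lit 0x0) (nat_lit 0x8000000000000c000000000000000000000000000000) := D_12 (nat_lit 123) (nat_lit 175) (nat_lit 122) (nat_lit 4) (nat_lit 5) (nat_lit 10) (nat_lit 1) (nat_lit 7) (nat_lit 6) (by decide +kernel)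
theorem L39582 : W_12 (nat_lit 3) (nat_lit 0x20000c001200090001c00000000000000000000000000) (nat_lit 0x0) (nat_lit 0x8000000000004c002000000000000000000000000000) := T_12 (nat_lit 109) (nat_lit 126) (nat_lit 3) (nat_lit 4) (nat_lit 6) L39581 (by decide +kernel)
theorem L39583 : W_12 (nat_lit 4) (nat_lit 0x20000c001200090001800000000000000000000000000) (nat_lit 0x0) (nat_lit 0x8000000000004c002400020000000000000000000000) := T_12 (nat_lit 106) (nat_lit 89) (nat_lit 4) (nat_lit 5) (nat_lit 9) L39582 (by decide +kernel)
theorem L39584 : W_12 (nat_lit 5) (nat_lit 0x200004001200090001800000000000000000000000000) (nat_lit 0x0) (nat_lit 0x18000800000004c002400020000000000000000000000) := T_12 (nat_lit 159) (nat_lit 176) (nat_lit 7) (nat_lit 5) (nat_lit 6) L39583 (by decide +kernel)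
theorem L39585 : W_12 (nat_lit 6) (nat_lit 0x200004001200090000800000000000000000000000000) (nat_lit 0x0) (nat_lit 0x18000800000004c0034000a0000000000000000000000) := T_12 (nat_lit 108) (nat_lit 91) (nat_lit 6) (nat_lit 5) (nat_lit 9) L39584 (by decide +kernel)
theorem L39590 : W_12 (nat_lit 2) (nat_lit 0x28000c001200090001800000000000000000000000000) (nat_lit 0x0) (nat_lit 0x800040002000000000000000000000000000000000000000) := D_12 (nat_lit 174) (nat_lit 191) (nat_lit 157) (nat_lit 5) (nat_lit 5) (nat_lit 7) (nat_lit 5) (nat_lit 5) (nat_lit 6) (by decide +kernel)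
theorem L39591 : W_12 (nat_lit 3) (nat_lit 0x20000c001200090001800000000000000000000000000) (nat_lit 0x0) (nat_lit 0x8000c0002000000020000000000000000000000000000000) := T_12 (nat_lit 175) (nat_lit 125) (nat_lit 6) (nat_lit 5) (nat_lit 10) L39590 (by decide +kernel)
theorem L39592 : W_12 (nat_lit 4) (nat_lit 0x200004001200090001800000000000000000000000000) (nat_lit 0x0) (nat_lit 0x8001c000a000000020000000000000000000000000000000) := T_12 (nat_lit 159) (nat_lit 176) (nat_lit 7) (nat_lit 5) (nat_lit 6) L39591 (by decide +kernel)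
theorem L39593 : W_12 (nat_lit 5) (nat_lit 0x200004001200090000800000000000000000000000000) (nat_lit 0x0) (nat_lit 0x8001c000a000000020001000080000000000000000000000) := T_12 (nat_lit 108) (nat_lit 91) (nat_lit 6) (nat_lit 5) (nat_lit 9) L39592 (by decide +kernel)
theorem L39594 : W_12 (nat_lit 7) (nat_lit 0x200000001200090000800000000000000000000000000) (nat_lit 0x0) (nat_lit 0x8001c000e00000006c0034000a0000000000000000000000) := Q_12 (nat_lit 158) (C_12 L39576 (C_12 L39580 (C_12 L39585 (C_12 L39589 (C_12 L39593 N_12))))) (by decide +kernel)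
theorem L39595 : W_12 (nat_lit 2) (nat_lit 0x2000000013000900008000e0002000000000000000000) (nat_lit 0x0) (nat_lit 0x400060000000000000000000000000000000) := D_12 (nat_lit 125) (nat_lit 126) (nat_lit 142) (nat_lit 1) (nat_lit 8) (nat_lit 7) (nat_lit 7) (nat_lit 5) (nat_lit 4) (by decide +kernel)
theorem L39596 : W_12 (nat_lit 3) (nat_lit 0x2000000013000900008000e0000000000000000000000) (nat_lit 0x0) (nat_lit 0x400068000000000002000000000000000000) := T_12 (nat_lit 73) (nat_lit 123) (nat_lit 5) (nat_lit 5) (nat_lit 4) L39595 (by decide +kernel)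
theorem L39597 : W_12 (nat_lit 4) (nat_lit 0x2000000012000900008000e0000000000000000000000) (nat_lit 0x0) (nat_lit 0x2000500068000000000002000000000000000000) := T_12 (nat_lit 140) (nat_lit 157) (nat_lit 5) (nat_lit 5) (nat_lit 5) L39596 (by decide +kernel)
theorem L39598 : W_12 (nat_lit 5) (nat_lit 0x200000001200090000800060000000000000000000000) (nat_lit 0x0) (nat_lit 0x2000500068000000080006000000000000000000) := T_12 (nat_lit 91) (nat_lit 74) (nat_lit 6) (nat_lit 5) (nat_lit 8) L39597 (by decide +kernel)
theorem L39599 : W_12 (nat_lit 6) (nat_lit 0x200000001200090000800040000000000000000000000) (nat_lit 0x0) (nat_lit 0x20005000680000000a0007000000000000000000) := T_12 (nat_lit 89) (nat_lit 72) (nat_lit 4) (nat_lit 5) (nat_lit 8) L39598 (by decide +kernel)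
theorem L39600 : W_12 (nat_lit 2) (nat_lit 0x2000000013000900008000c0002000000000000000000) (nat_lit 0x0) (nat_lit 0x400060000000000000000000000000000000) := D_12 (nat_lit 125) (nat_lit 126) (nat_lit 142) (nat_lit 1) (nat_lit 8) (nat_lit 7) (nat_lit 7) (nat_lit 5) (nat_lit 4) (by decide +kernel)
theorem L39601 : W_12 (nat_lit 3) (nat_lit 0x2000000013000900008000c0000000000000000000000) (nat_lit 0x0) (nat_lit 0x400068000000000002000000000000000000) := T_12 (nat_lit 73) (nat_lit 123) (nat_lit 5) (nat_lit 5) (nat_lit 4) L39600 (by decide +kernel)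
theorem L39602 : W_12 (nat_lit 4) (nat_lit 0x2000000012000900008000c0000000000000000000000) (nat_lit 0x0) (nat_lit 0x2000500068000000000002000000000000000000) := T_12 (nat_lit 140) (nat_lit 157) (nat_lit 5) (nat_lit 5) (nat_lit 5) L39601 (by decide +kernel)
theorem L39603 : W_12 (nat_lit 5) (nat_lit 0x200000001200090000800040000000000000000000000) (nat_lit 0x0) (nat_lit 0x2000500068000000080006000000000000000000) := T_12 (nat_lit 91) (nat_lit 74) (nat_lit 6) (nat_lit 5) (nat_lit 8) L39602 (by decide +kernel)
theorem L39604 : W_12 (nat_lit 7) (nat_lit 0x200000001200090000800000000000000000000000000) (nat_lit 0x0) (nat_lit 0x60005000680014000e0007000080000000000000) := Q_12 (nat_lit 90) (C_12 L39564 (C_12 L39599 (C_12 L31983 (C_12 L39603 N_12)))) (by decide +kernel)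
theorem L39605 : W_12 (nat_lit 2) (nat_lit 0x200000001600098000800068016000000000000000000) (nat_lit 0x0) (nat_lit 0x4000000000000400000000000100000000000000) := D_12 (nat_lit 106) (nat_lit 56) (nat_lit 158) (nat_lit 5) (nat_lit 5) (nat_lit 3) (nat_lit 4) (nat_lit 5) (nat_lit 9) (by decide +kernel)
theorem L39606 : W_12 (nat_lit 3) (nat_lit 0x200000001600090000800068016000000000000000000) (nat_lit 0x0) (nat_lit 0x4000100008000400000000000100000000000000) := T_12 (nat_lit 123) (nat_lit 140) (nat_lit 5) (nat_lit 5) (nat_lit 4) L39605 (by decide +kernel)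
theorem L39607 : W_12 (nat_lit 4) (nat_lit 0x200000001600090000800068006000000000000000000) (nat_lit 0x0) (nat_lit 0x4000100008000400000018000100000000000000) := T_12 (nat_lit 76) (nat_lit 75) (nat_lit 1) (nat_lit 8) (nat_lit 4) L39606 (by decide +kernel)
theorem L39608 : W_12 (nat_lit 5) (nat_lit 0x200000001600090000800060006000000000000000000) (nat_lit 0x0) (nat_lit 0x4000100008000400018018000100000000000000) := T_12 (nat_lit 87) (nat_lit 88) (nat_lit 2) (nat_lit 2) (nat_lit 5) L39607 (by decide +kernel)
theorem L39609 : W_12 (nat_lit 6) (nat_lit 0x200000001600090000800060002000000000000000000) (nat_lit 0x0) (nat_lit 0x400010000800040001801c000300000000000000) := T_12 (nat_lit 74) (nat_lit 57) (nat_lit 6) (nat_lit 5) (nat_lit 7) L39608 (by decide +kernel)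
theorem L39610 : W_12 (nat_lit 7) (nat_lit 0x200000001600090000800060000000000000000000000) (nat_lit 0x0) (nat_lit 0x400010002800040001801e000300000000000000) := T_12 (nat_lit 73) (nat_lit 125) (nat_lit 7) (nat_lit 5) (nat_lit 4) L39609 (by decide +kernel)
theorem L39611 : W_12 (nat_lit 8) (nat_lit 0x200000001200090000800060000000000000000000000) (nat_lit 0x0) (nat_lit 0xc00050002800040001801e000300000000000000) := T_12 (nat_lit 142) (nat_lit 159) (nat_lit 7) (nat_lit 5) (nat_lit 5) L39610 (by decide +kernel)
theorem L39612 : W_12 (nat_lit 9) (nat_lit 0x200000001200090000800040000000000000000000000) (nat_lit 0x0) (nat_lit 0xc00050002800040003801f000300000000000000) := T_12 (nat_lit 89) (nat_lit 72) (nat_lit 4) (nat_lit 5) (nat_lit 8) L39611 (by decide +kernel)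
theorem L39613 : W_12 (nat_lit 2) (nat_lit 0x2000000016000980008000c0002000100000000000000) (nat_lit 0x0) (nat_lit 0x1000080004000000000) := D_12 (nat_lit 55) (nat_lit 38) (nat_lit 72) (nat_lit 4) (nat_lit 5) (nat_lit 6) (nat_lit 4) (nat_lit 5) (nat_lit 7) (by decide +kernel)
theorem L39614 : W_12 (nat_lit 3) (nat_lit 0x2000000016000980008000c0002000000000000000000) (nat_lit 0x0) (nat_lit 0x400000001000180004000000000) := T_12 (nat_lit 56) (nat_lit 106) (nat_lit 5) (nat_lit 5) (nat_lit 3) L39613 (by decide +kernel)
theorem L39615 : W_12 (nat_lit 4) (nat_lit 0x2000000016000900008000c0002000000000000000000) (nat_lit 0x0) (nat_lit 0x100008000400000001000180004000000000) := T_12 (nat_lit 123) (nat_lit 140) (nat_lit 5) (nat_lit 5) (nat_lit 4) L39614 (by decide +kernel)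
theorem L39616 : W_12 (nat_lit 5) (nat_lit 0x2000000016000900008000c0000000000000000000000) (nat_lit 0x0) (nat_lit 0x100028000400000003000180004000000000) := T_12 (nat_lit 73) (nat_lit 125) (nat_lit 7) (nat_lit 5) (nat_lit 4) L39615 (by decide +kernel)
theorem L39617 : W_12 (nat_lit 6) (nat_lit 0x2000000012000900008000c0000000000000000000000) (nat_lit 0x0) (nat_lit 0x8000500028000400000003000180004000000000) := T_12 (nat_lit 142) (nat_lit 159) (nat_lit 7) (nat_lit 5) (nat_lit 5) L39616 (by decide +kernel)
theorem L39618 : W_12 (nat_lit 7) (nat_lit 0x200000001200090000800040000000000000000000000) (nat_lit 0x0) (nat_lit 0x8000500028000400080007000180004000000000) := T_12 (nat_lit 91) (nat_lit 74) (nat_lit 6) (nat_lit 5) (nat_lit 8) L39617 (by decide +kernel)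
theorem L39619 : W_12 (nat_lit 2) (nat_lit 0x2000000016000980008000c0002000100000000000000) (nat_lit 0x0) (nat_lit 0x4000000000001000000000000000008000000000) := D_12 (nat_lit 108) (nat_lit 158) (nat_lit 39) (nat_lit 6) (nat_lit 5) (nat_lit 9) (nat_lit 7) (nat_lit 5) (nat_lit 2) (by decide +kernel)
theorem L39620 : W_12 (nat_lit 3) (nat_lit 0x2000000016000980008000c0002000000000000000000) (nat_lit 0x0) (nat_lit 0x4000000000001400000000000100008000000000) := T_12 (nat_lit 56) (nat_lit 106) (nat_lit 5) (nat_lit 5) (nat_lit 3) L39619 (by decide +kernel)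
theorem L39621 : W_12 (nat_lit 4) (nat_lit 0x2000000016000900008000c0002000000000000000000) (nat_lit 0x0) (nat_lit 0x4000100008001400000000000100008000000000) := T_12 (nat_lit 123) (nat_lit 140) (nat_lit 5) (nat_lit 5) (nat_lit 4) L39620 (by decide +kernel)
theorem L39622 : W_12 (nat_lit 5) (nat_lit 0x2000000016000900008000c0000000000000000000000) (nat_lit 0x0) (nat_lit 0x4000100028001400000002000100008000000000) := T_12 (nat_lit 73) (nat_lit 125) (nat_lit 7) (nat_lit 5) (nat_lit 4) L39621 (by decide +kernel)
theorem L39623 : W_12 (nat_lit 6) (nat_lit 0x2000000012000900008000c0000000000000000000000) (nat_lit 0x0) (nat_lit 0xc000500028001400000002000100008000000000) := T_12 (nat_lit 142) (nat_lit 159) (nat_lit 7) (nat_lit 5) (nat_lit 5) L39622 (by decide +kernel)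
theorem L39624 : W_12 (nat_lit 7) (nat_lit 0x200000001200090000800040000000000000000000000) (nat_lit 0x0) (nat_lit 0xc000500028001400080006000100008000000000) := T_12 (nat_lit 91) (nat_lit 74) (nat_lit 6) (nat_lit 5) (nat_lit 8) L39623 (by decide +kernel)
theorem L39625 : W_12 (nat_lit 10) (nat_lit 0x200000001200090000800000000000000000000000000) (nat_lit 0x0) (nat_lit 0xc0005000280014000f801f00038000c000000000) := Q_12 (nat_lit 90) (C_12 L39564 (C_12 L31959 (C_12 L39612 (C_12 L39618 (C_12 L39624 (C_12 L31971 N_12)))))) (by decide +kernel)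
theorem L39626 : W_12 (nat_lit 11) (nat_lit 0x200000001200090000800000000000000000000000000) (nat_lit 0x0) (nat_lit 0xb8005c006e0006000e0007000380004000000000) := Q_12 (nat_lit 90) (C_12 L39603 (C_12 L39618 (C_12 L31983 (C_12 L31959 (C_12 L31996 N_12))))) (by decide +kernel)
theorem L39627 : W_12 (nat_lit 5) (nat_lit 0x200000001200090000800000000000000000000000000) (nat_lit 0x0) (nat_lit 0x60001000080014000e0007000280000000000000) := Q_12 (nat_lit 90) (C_12 L31983 (C_12 L39564 (C_12 L31986 N_12))) (by decide +kernel)
theorem L39628 : W_12 (nat_lit 2) (nat_lit 0x200006001200090000c00040000000000000000000000) (nat_lit 0x0) (nat_lit 0x100008000400000000000000000000000000000000000) := D_12 (nat_lit 159) (nat_lit 176) (nat_lit 142) (nat_lit 7) (nat_lit 5) (nat_lit 6) (nat_lit 7) (nat_lit 5) (nat_lit 5) (by decide +kernel)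
theorem L39629 : W_12 (nat_lit 3) (nat_lit 0x200006001200090000c00000000000000000000000000) (nat_lit 0x0) (nat_lit 0x100008000500000000000040000000000000000000000) := T_12 (nat_lit 90) (nat_lit 140) (nat_lit 5) (nat_lit 5) (nat_lit 5) L39628 (by decide +kernel)
theorem L39630 : W_12 (nat_lit 4) (nat_lit 0x200004001200090000c00000000000000000000000000) (nat_lit 0x0) (nat_lit 0x14000a000500000000000040000000000000000000000) := T_12 (nat_lit 157) (nat_lit 174) (nat_lit 5) (nat_lit 5) (nat_lit 6) L39629 (by decide +kernel)
theorem L39631 : W_12 (nat_lit 5) (nat_lit 0x200004001200090000800000000000000000000000000) (nat_lit 0x0) (nat_lit 0x14000a000500000000400060000000000000000000000) := T_12 (nat_lit 106) (nat_lit 89) (nat_lit 4) (nat_lit 5) (nat_lit 9) L39630 (by decide +kernel)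
theorem L39632 : W_12 (nat_lit 2) (nat_lit 0x200006001200090000800040000000000000000000000) (nat_lit 0x0) (nat_lit 0x100008000400000000000000000000000000000000000) := D_12 (nat_lit 159) (nat_lit 176) (nat_lit 142) (nat_lit 7) (nat_lit 5) (nat_lit 6) (nat_lit 7) (nat_lit 5) (nat_lit 5) (by decide +kernel)
theorem L39633 : W_12 (nat_lit 3) (nat_lit 0x200006001200090000800000000000000000000000000) (nat_lit 0x0) (nat_lit 0x100008000500000000000040000000000000000000000) := T_12 (nat_lit 90) (nat_lit 140) (nat_lit 5) (nat_lit 5) (nat_lit 5) L39632 (by decide +kernel)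
theorem L39634 : W_12 (nat_lit 4) (nat_lit 0x200004001200090000800000000000000000000000000) (nat_lit 0x0) (nat_lit 0x14000a000500000000000040000000000000000000000) := T_12 (nat_lit 157) (nat_lit 174) (nat_lit 5) (nat_lit 5) (nat_lit 6) L39633 (by decide +kernel)
theorem L39635 : W_12 (nat_lit 6) (nat_lit 0x200000001200090000800000000000000000000000000) (nat_lit 0x0) (nat_lit 0x28001c000e000500068000400060000000000000000000000) := Q_12 (nat_lit 158) (C_12 L39589 (C_12 L31942 (C_12 L39631 (C_12 L39634 N_12)))) (by decide +kernel)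
theorem L39636 : W_12 (nat_lit 2) (nat_lit 0x200004001600090000800068016000000000000000000) (nat_lit 0x0) (nat_lit 0x40002000100000000000000000000000000000000000) := D_12 (nat_lit 157) (nat_lit 140) (nat_lit 174) (nat_lit 5) (nat_lit 5) (nat_lit 5) (nat_lit 5) (nat_lit 5) (nat_lit 6) (by decide +kernel)
theorem L39637 : W_12 (nat_lit 3) (nat_lit 0x200000001600090000800068016000000000000000000) (nat_lit 0x0) (nat_lit 0x40006000100000000400000000000000000000000000) := T_12 (nat_lit 158) (nat_lit 106) (nat_lit 4) (nat_lit 5) (nat_lit 9) L39636 (by decide +kernel)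
theorem L39638 : W_12 (nat_lit 4) (nat_lit 0x200000001600090000800068006000000000000000000) (nat_lit 0x0) (nat_lit 0x40006000100000000400000018000000000000000000) := T_12 (nat_lit 76) (nat_lit 75) (nat_lit 1) (nat_lit 8) (nat_lit 4) L39637 (by decide +kernel)
theorem L39639 : W_12 (nat_lit 5) (nat_lit 0x200000001600090000800060006000000000000000000) (nat_lit 0x0) (nat_lit 0x40006000100000000400018018000000000000000000) := T_12 (nat_lit 87) (nat_lit 88) (nat_lit 2) (nat_lit 2) (nat_lit 5) L39638 (by decide +kernel)
theorem L39640 : W_12 (nat_lit 6) (nat_lit 0x200000001600090000800060002000000000000000000) (nat_lit 0x0) (nat_lit 0x4000600010000000040001801c000200000000000000) := T_12 (nat_lit 74) (nat_lit 57) (nat_lit 6) (nat_lit 5) (nat_lit 7) L39639 (by decide +kernel)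
theorem L39641 : W_12 (nat_lit 7) (nat_lit 0x200000001600090000800060000000000000000000000) (nat_lit 0x0) (nat_lit 0x4000600010002000040001801e000200000000000000) := T_12 (nat_lit 73) (nat_lit 125) (nat_lit 7) (nat_lit 5) (nat_lit 4) L39640 (by decide +kernel)
theorem L39642 : W_12 (nat_lit 8) (nat_lit 0x200000001200090000800060000000000000000000000) (nat_lit 0x0) (nat_lit 0x4000e00050002000040001801e000200000000000000) := T_12 (nat_lit 142) (nat_lit 159) (nat_lit 7) (nat_lit 5) (nat_lit 5) L39641 (by decide +kernel)
theorem L39643 : W_12 (nat_lit 9) (nat_lit 0x200000001200090000800040000000000000000000000) (nat_lit 0x0) (nat_lit 0x4000e00050002000040003801f000200000000000000) := T_12 (nat_lit 89) (nat_lit 72) (nat_lit 4) (nat_lit 5) (nat_lit 8) L39642 (by decide +kernel)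
theorem L39648 : W_12 (nat_lit 6) (nat_lit 0x2000000013000d0000800040000000000000000000000) (nat_lit 0x0) (nat_lit 0xc000400000003700180004000000000000000000) := T_12 (nat_lit 142) (nat_lit 159) (nat_lit 7) (nat_lit 5) (nat_lit 5) L39647 (by decide +kernel)
theorem L39649 : W_12 (nat_lit 7) (nat_lit 0x200000001300090000800040000000000000000000000) (nat_lit 0x0) (nat_lit 0xc000400060003700180004000000000000000000) := T_12 (nat_lit 126) (nat_lit 125) (nat_lit 1) (nat_lit 8) (nat_lit 7) L39648 (by decide +kernel)
theorem L39650 : W_12 (nat_lit 8) (nat_lit 0x200000001200090000800040000000000000000000000) (nat_lit 0x0) (nat_lit 0xe000500060003700180004000000000000000000) := T_12 (nat_lit 140) (nat_lit 157) (nat_lit 5) (nat_lit 5) (nat_lit 5) L39649 (by decide +kernel)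
theorem L39651 : W_12 (nat_lit 2) (nat_lit 0x2000040013000d0000800060000000000000000000000) (nat_lit 0x0) (nat_lit 0x100008000400000000000000000000000000000000000) := D_12 (nat_lit 159) (nat_lit 142) (nat_lit 176) (nat_lit 7) (nat_lit 5) (nat_lit 5) (nat_lit 7) (nat_lit 5) (nat_lit 6) (by decide +kernel)
theorem L39652 : W_12 (nat_lit 3) (nat_lit 0x2000000013000d0000800060000000000000000000000) (nat_lit 0x0) (nat_lit 0x10000c000400000000400000000000000000000000000) := T_12 (nat_lit 158) (nat_lit 106) (nat_lit 4) (nat_lit 5) (nat_lit 9) L39651 (by decide +kernel)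
theorem L39653 : W_12 (nat_lit 4) (nat_lit 0x200000001300090000800060000000000000000000000) (nat_lit 0x0) (nat_lit 0x10000c000400060000400000000000000000000000000) := T_12 (nat_lit 126) (nat_lit 125) (nat_lit 1) (nat_lit 8) (nat_lit 7) L39652 (by decide +kernel)
theorem L39654 : W_12 (nat_lit 5) (nat_lit 0x200000001200090000800060000000000000000000000) (nat_lit 0x0) (nat_lit 0x10000e000500060000400000000000000000000000000) := T_12 (nat_lit 140) (nat_lit 157) (nat_lit 5) (nat_lit 5) (nat_lit 5) L39653 (by decide +kernel)
theorem L39655 : W_12 (nat_lit 6) (nat_lit 0x200000001200090000800040000000000000000000000) (nat_lit 0x0) (nat_lit 0x10000e000500060000400020001000000000000000000) := T_12 (nat_lit 89) (nat_lit 72) (nat_lit 4) (nat_lit 5) (nat_lit 8) L39654 (by decide +kernel)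
theorem L39656 : W_12 (nat_lit 10) (nat_lit 0x200000001200090000800000000000000000000000000) (nat_lit 0x0) (nat_lit 0x14000e0005000600037001f801f000200000000000000) := Q_12 (nat_lit 90) (C_12 L39564 (C_12 L31959 (C_12 L39643 (C_12 L39650 (C_12 L39655 N_12))))) (by decide +kernel)
theorem L39657 : W_12 (nat_lit 2) (nat_lit 0x2000040013000d00008000e0000000000000000000000) (nat_lit 0x0) (nat_lit 0x100008000400000000000000000000000000000000000) := D_12 (nat_lit 159) (nat_lit 142) (nat_lit 176) (nat_lit 7) (nat_lit 5) (nat_lit 5) (nat_lit 7) (nat_lit 5) (nat_lit 6) (by decide +kernel)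
theorem L39658 : W_12 (nat_lit 3) (nat_lit 0x2000000013000d00008000e0000000000000000000000) (nat_lit 0x0) (nat_lit 0x10000c000400000001000000000000000000000000000) := T_12 (nat_lit 158) (nat_lit 108) (nat_lit 6) (nat_lit 5) (nat_lit 9) L39657 (by decide +kernel)
theorem L39659 : W_12 (nat_lit 4) (nat_lit 0x2000000013000900008000e0000000000000000000000) (nat_lit 0x0) (nat_lit 0x10000c000400060001000000000000000000000000000) := T_12 (nat_lit 126) (nat_lit 125) (nat_lit 1) (nat_lit 8) (nat_lit 7) L39658 (by decide +kernel)
theorem L39660 : W_12 (nat_lit 5) (nat_lit 0x2000000012000900008000e0000000000000000000000) (nat_lit 0x0) (nat_lit 0x10000e000500060001000000000000000000000000000) := T_12 (nat_lit 140) (nat_lit 157) (nat_lit 5) (nat_lit 5) (nat_lit 5) L39659 (by decide +kernel)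
theorem L39661 : W_12 (nat_lit 6) (nat_lit 0x200000001200090000800060000000000000000000000) (nat_lit 0x0) (nat_lit 0x10000e000500060001000080004000000000000000000) := T_12 (nat_lit 91) (nat_lit 74) (nat_lit 6) (nat_lit 5) (nat_lit 8) L39660 (by decide +kernel)
theorem L39662 : W_12 (nat_lit 7) (nat_lit 0x200000001200090000800040000000000000000000000) (nat_lit 0x0) (nat_lit 0x10000e0005000600010000a0005000000000000000000) := T_12 (nat_lit 89) (nat_lit 72) (nat_lit 4) (nat_lit 5) (nat_lit 8) L39661 (by decide +kernel)
theorem L39663 : W_12 (nat_lit 8) (nat_lit 0x200000001200090000800000000000000000000000000) (nat_lit 0x0) (nat_lit 0x10000e0005000680010000e0007000280000000000000) := Q_12 (nat_lit 90) (C_12 L31986 (C_12 L31959 (C_12 L31983 (C_12 L39662 N_12)))) (by decide +kernel)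
theorem L39667 : W_12 (nat_lit 2) (nat_lit 0x2d002c001200098001800040000000000000000000000) (nat_lit 0x0) (nat_lit 0x1000000000000100000000000000002000000000000000000) := D_12 (nat_lit 140) (nat_lit 192) (nat_lit 73) (nat_lit 4) (nat_lit 5) (nat_lit 11) (nat_lit 5) (nat_lit 5) (nat_lit 4) (by decide +kernel)
theorem L39668 : W_12 (nat_lit 3) (nat_lit 0x2d002c001200090001800040000000000000000000000) (nat_lit 0x0) (nat_lit 0x1000000000000100008000400000002000000000000000000) := T_12 (nat_lit 123) (nat_lit 106) (nat_lit 4) (nat_lit 5) (nat_lit 10) L39667 (by decide +kernel)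
theorem L39669 : W_12 (nat_lit 4) (nat_lit 0x2d000c001200090001800040000000000000000000000) (nat_lit 0x0) (nat_lit 0x1000000030000100008000400000002000000000000000000) := T_12 (nat_lit 161) (nat_lit 160) (nat_lit 1) (nat_lit 8) (nat_lit 9) L39668 (by decide +kernel)
theorem L39670 : W_12 (nat_lit 5) (nat_lit 0x2c000c001200090001800040000000000000000000000) (nat_lit 0x0) (nat_lit 0x1000030030000100008000400000002000000000000000000) := T_12 (nat_lit 172) (nat_lit 173) (nat_lit 2) (nat_lit 2) (nat_lit 10) L39669 (by decide +kernel)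
theorem L39671 : W_12 (nat_lit 6) (nat_lit 0x28000c001200090001800040000000000000000000000) (nat_lit 0x0) (nat_lit 0x1800070030000100008000400000002000000000000000000) := T_12 (nat_lit 174) (nat_lit 191) (nat_lit 5) (nat_lit 5) (nat_lit 7) L39670 (by decide +kernel)
theorem L39672 : W_12 (nat_lit 7) (nat_lit 0x20000c001200090001800040000000000000000000000) (nat_lit 0x0) (nat_lit 0x18000f0030000100028000400000002000000000000000000) := T_12 (nat_lit 175) (nat_lit 125) (nat_lit 6) (nat_lit 5) (nat_lit 10) L39671 (by decide +kernel)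
theorem L39673 : W_12 (nat_lit 8) (nat_lit 0x20000c001200090001800000000000000000000000000) (nat_lit 0x0) (nat_lit 0x18000f0030000500028000400040002000000000000000000) := T_12 (nat_lit 90) (nat_lit 142) (nat_lit 7) (nat_lit 5) (nat_lit 5) L39672 (by decide +kernel)
theorem L39674 : W_12 (nat_lit 9) (nat_lit 0x200004001200090001800000000000000000000000000) (nat_lit 0x0) (nat_lit 0x18001f0038000500028000400040002000000000000000000) := T_12 (nat_lit 159) (nat_lit 176) (nat_lit 7) (nat_lit 5) (nat_lit 6) L39673 (by decide +kernel)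
theorem L39675 : W_12 (nat_lit 10) (nat_lit 0x200004001200090000800000000000000000000000000) (nat_lit 0x0) (nat_lit 0x18001f00380005000280014000c0002000000000000000000) := T_12 (nat_lit 108) (nat_lit 91) (nat_lit 6) (nat_lit 5) (nat_lit 9) L39674 (by decide +kernel)
theorem L39676 : W_12 (nat_lit 2) (nat_lit 0x20000c001300090001800040000000000000000000000) (nat_lit 0x0) (nat_lit 0x80000000000060000000000000000000000000000000) := D_12 (nat_lit 125) (nat_lit 175) (nat_lit 126) (nat_lit 6) (nat_lit 5) (nat_lit 10) (nat_lit 1) (nat_lit 8) (nat_lit 7) (by decide +kernel)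
theorem L39677 : W_12 (nat_lit 3) (nat_lit 0x20000c001200090001800040000000000000000000000) (nat_lit 0x0) (nat_lit 0x80002000100060000000000000000000000000000000) := T_12 (nat_lit 140) (nat_lit 157) (nat_lit 5) (nat_lit 5) (nat_lit 5) L39676 (by decide +kernel)
theorem L39678 : W_12 (nat_lit 4) (nat_lit 0x20000c001200090001800000000000000000000000000) (nat_lit 0x0) (nat_lit 0x80002000500060000000040000000000000000000000) := T_12 (nat_lit 90) (nat_lit 142) (nat_lit 7) (nat_lit 5) (nat_lit 5) L39677 (by decide +kernel)
theorem L39679 : W_12 (nat_lit 5) (nat_lit 0x200004001200090001800000000000000000000000000) (nat_lit 0x0) (nat_lit 0x18000a000500060000000040000000000000000000000) := T_12 (nat_lit 159) (nat_lit 176) (nat_lit 7) (nat_lit 5) (nat_lit 6) L39678 (by decide +kernel)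
theorem L39680 : W_12 (nat_lit 6) (nat_lit 0x200004001200090000800000000000000000000000000) (nat_lit 0x0) (nat_lit 0x18000a0005000600010000c0000000000000000000000) := T_12 (nat_lit 108) (nat_lit 91) (nat_lit 6) (nat_lit 5) (nat_lit 9) L39679 (by decide +kernel)
theorem L39681 : W_12 (nat_lit 11) (nat_lit 0x200000001200090000800000000000000000000000000) (nat_lit 0x0) (nat_lit 0x18001f003e0005000680014000c0006000000000000000000) := Q_12 (nat_lit 158) (C_12 L39666 (C_12 L39675 (C_12 L39593 (C_12 L39680 (C_12 L39634 N_12))))) (by decide +kernel)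
theorem L39682 : W_12 (nat_lit 12) (nat_lit 0x200000001200090000000000000000000000000000000) (nat_lit 0x0) (nat_lit 0x38001f003f8005c006e003f001f801f00038000c000000000) := Q_12 (nat_lit 107) (C_12 L39573 (C_12 L39594 (C_12 L39604 (C_12 L39625 (C_12 L39626 (C_12 L39627 (C_12 L39635 (C_12 L39656 (C_12 L39663 (C_12 L39681 N_12)))))))))) (by decide +kernel)
theorem L39683 : W_12 (nat_lit 2) (nat_lit 0x20000c001200090000800040000000000000000000000) (nat_lit 0x0) (nat_lit 0x1000080004000000000000000000) := D_12 (nat_lit 91) (nat_lit 74) (nat_lit 108) (nat_lit 6) (nat_lit 5) (nat_lit 8) (nat_lit 6) (nat_lit 5) (nat_lit 9) (by decide +kernel)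
theorem L39684 : W_12 (nat_lit 3) (nat_lit 0x20000c001200090000800000000000000000000000000) (nat_lit 0x0) (nat_lit 0x4000000010000c0004000000000000000000) := T_12 (nat_lit 90) (nat_lit 142) (nat_lit 7) (nat_lit 5) (nat_lit 5) L39683 (by decide +kernel)
theorem L39685 : W_12 (nat_lit 4) (nat_lit 0x200004001200090000800000000000000000000000000) (nat_lit 0x0) (nat_lit 0x1000080004000000010000c0004000000000000000000) := T_12 (nat_lit 159) (nat_lit 176) (nat_lit 7) (nat_lit 5) (nat_lit 6) L39684 (by decide +kernel)
theorem L39686 : W_12 (nat_lit 7) (nat_lit 0x200000001200090000800000000000000000000000000) (nat_lit 0x0) (nat_lit 0x8001c000e0005000600010000c0004000000000000000000) := Q_12 (nat_lit 158) (C_12 L39666 (C_12 L39680 (C_12 L39685 (C_12 L39593 (C_12 L39634 N_12))))) (by decide +kernel)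
theorem L39687 : W_12 (nat_lit 12) (nat_lit 0x200000001200090000000000000000000000000000000) (nat_lit 0x0) (nat_lit 0x28001c000f8005c006e003f001f801f00038000c000000000) := Q_12 (nat_lit 107) (C_12 L39663 (C_12 L39627 (C_12 L39625 (C_12 L39594 (C_12 L39626 (C_12 L39656 (C_12 L39635 (C_12 L39686 N_12)))))))) (by decide +kernel)
theorem L39688 : W_12 (nat_lit 2) (nat_lit 0x4000280006001a00090000c00000000000000000000000000) (nat_lit 0x0) (nat_lit 0x20001000080000000000000000000000) := D_12 (nat_lit 108) (nat_lit 91) (nat_lit 125) (nat_lit 6) (nat_lit 5) (nat_lit 9) (nat_lit 6) (nat_lit 5) (nat_lit 10) (by decide +kernel)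
theorem L39689 : W_12 (nat_lit 3) (nat_lit 0x4000200006001a00090000c00000000000000000000000000) (nat_lit 0x0) (nat_lit 0x80000000000028001000080000000000000000000000) := T_12 (nat_lit 175) (nat_lit 123) (nat_lit 4) (nat_lit 5) (nat_lit 10) L39688 (by decide +kernel)
theorem L39690 : W_12 (nat_lit 4) (nat_lit 0x200006001a00090000c00000000000000000000000000) (nat_lit 0x0) (nat_lit 0x4000080010000000028001000080000000000000000000000) := T_12 (nat_lit 194) (nat_lit 160) (nat_lit 6) (nat_lit 7) (nat_lit 11) L39689 (by decide +kernel)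
theorem L39691 : W_12 (nat_lit 5) (nat_lit 0x200006001200090000c00000000000000000000000000) (nat_lit 0x0) (nat_lit 0x4000080010000c00028001000080000000000000000000000) := T_12 (nat_lit 143) (nat_lit 142) (nat_lit 1) (nat_lit 8) (nat_lit 8) L39690 (by decide +kernel)
theorem L39692 : W_12 (nat_lit 6) (nat_lit 0x200004001200090000c00000000000000000000000000) (nat_lit 0x0) (nat_lit 0x40000c0012000c00028001000080000000000000000000000) := T_12 (nat_lit 157) (nat_lit 174) (nat_lit 5) (nat_lit 5) (nat_lit 6) L39691 (by decide +kernel)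
theorem L39693 : W_12 (nat_lit 7) (nat_lit 0x200004001200090000800000000000000000000000000) (nat_lit 0x0) (nat_lit 0x40000c0012000c000280014000a0000000000000000000000) := T_12 (nat_lit 106) (nat_lit 89) (nat_lit 4) (nat_lit 5) (nat_lit 9) L39692 (by decide +kernel)
theorem L39694 : W_12 (nat_lit 2) (nat_lit 0x4000200006001a00090003c00000000000000000000000000) (nat_lit 0x0) (nat_lit 0x8000000000000c000000000000000000000000000000) := D_12 (nat_lit 123) (nat_lit 175) (nat_lit 122) (nat_lit 4) (nat_lit 5) (nat_lit 10) (nat_lit 1) (nat_lit 7) (nat_lit 6) (by decide +kernel)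
theorem L39695 : W_12 (nat_lit 3) (nat_lit 0x4000200006001a00090001c00000000000000000000000000) (nat_lit 0x0) (nat_lit 0x8000000000004c002000000000000000000000000000) := T_12 (nat_lit 109) (nat_lit 126) (nat_lit 3) (nat_lit 4) (nat_lit 6) L39694 (by decide +kernel)
theorem L39696 : W_12 (nat_lit 4) (nat_lit 0x4000200006001a00090001800000000000000000000000000) (nat_lit 0x0) (nat_lit 0x8000000000004c002400020000000000000000000000) := T_12 (nat_lit 106) (nat_lit 89) (nat_lit 4) (nat_lit 5) (nat_lit 9) L39695 (by decide +kernel)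
theorem L39697 : W_12 (nat_lit 5) (nat_lit 0x200006001a00090001800000000000000000000000000) (nat_lit 0x0) (nat_lit 0x400008001000000004c002400020000000000000000000000) := T_12 (nat_lit 194) (nat_lit 160) (nat_lit 6) (nat_lit 7) (nat_lit 11) L39696 (by decide +kernel)
theorem L39698 : W_12 (nat_lit 6) (nat_lit 0x200006001200090001800000000000000000000000000) (nat_lit 0x0) (nat_lit 0x4000080010000c0004c002400020000000000000000000000) := T_12 (nat_lit 143) (nat_lit 142) (nat_lit 1) (nat_lit 8) (nat_lit 8) L39697 (by decide +kernel)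
theorem L39699 : W_12 (nat_lit 7) (nat_lit 0x200004001200090001800000000000000000000000000) (nat_lit 0x0) (nat_lit 0x40000c0012000c0004c002400020000000000000000000000) := T_12 (nat_lit 157) (nat_lit 174) (nat_lit 5) (nat_lit 5) (nat_lit 6) L39698 (by decide +kernel)
theorem L39700 : W_12 (nat_lit 8) (nat_lit 0x200004001200090000800000000000000000000000000) (nat_lit 0x0) (nat_lit 0x40000c0012000c0004c0034000a0000000000000000000000) := T_12 (nat_lit 108) (nat_lit 91) (nat_lit 6) (nat_lit 5) (nat_lit 9) L39699 (by decide +kernel)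
theorem L39701 : W_12 (nat_lit 2) (nat_lit 0x10007000280006001a00090001800000000000000000000000000) (nat_lit 0x0) (nat_lit 0x200020008000000000000000000000000000000000000000000000000) := D_12 (nat_lit 209) (nat_lit 195) (nat_lit 225) (nat_lit 1) (nat_lit 8) (nat_lit 11) (nat_lit 5) (nat_lit 5) (nat_lit 9) (by decide +kernel)
theorem L39702 : W_12 (nat_lit 3) (nat_lit 0x7000280006001a00090001800000000000000000000000000) (nat_lit 0x0) (nat_lit 0x200030008800000000000000000000000000000000000000000000000) := T_12 (nat_lit 208) (nat_lit 191) (nat_lit 5) (nat_lit 5) (nat_lit 8) L39701 (by decide +kernel)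
theorem L39703 : W_12 (nat_lit 4) (nat_lit 0x6000280006001a00090001800000000000000000000000000) (nat_lit 0x0) (nat_lit 0x200070009800000000000000000000000000000000000000000000000) := T_12 (nat_lit 192) (nat_lit 210) (nat_lit 7) (nat_lit 5) (nat_lit 8) L39702 (by decide +kernel)
theorem L39704 : W_12 (nat_lit 5) (nat_lit 0x4000280006001a00090001800000000000000000000000000) (nat_lit 0x0) (nat_lit 0x20007000b800100000000000000000000000000000000000000000000) := T_12 (nat_lit 193) (nat_lit 176) (nat_lit 7) (nat_lit 5) (nat_lit 7) L39703 (by decide +kernel)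
theorem L39705 : W_12 (nat_lit 6) (nat_lit 0x4000200006001a00090001800000000000000000000000000) (nat_lit 0x0) (nat_lit 0x20007000b800180000000000020000000000000000000000000000000) := T_12 (nat_lit 175) (nat_lit 125) (nat_lit 6) (nat_lit 5) (nat_lit 10) L39704 (by decide +kernel)
theorem L39706 : W_12 (nat_lit 7) (nat_lit 0x200006001a00090001800000000000000000000000000) (nat_lit 0x0) (nat_lit 0x20007000f800180010000000020000000000000000000000000000000) := T_12 (nat_lit 194) (nat_lit 160) (nat_lit 6) (nat_lit 7) (nat_lit 11) L39705 (by decide +kernel)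
theorem L39707 : W_12 (nat_lit 8) (nat_lit 0x200006001200090001800000000000000000000000000) (nat_lit 0x0) (nat_lit 0x20007000f800180010000c00020000000000000000000000000000000) := T_12 (nat_lit 143) (nat_lit 142) (nat_lit 1) (nat_lit 8) (nat_lit 8) L39706 (by decide +kernel)
theorem L39708 : W_12 (nat_lit 9) (nat_lit 0x200004001200090001800000000000000000000000000) (nat_lit 0x0) (nat_lit 0x20007000f8001c0012000c00020000000000000000000000000000000) := T_12 (nat_lit 157) (nat_lit 174) (nat_lit 5) (nat_lit 5) (nat_lit 6) L39707 (by decide +kernel)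
theorem L39709 : W_12 (nat_lit 10) (nat_lit 0x200004001200090000800000000000000000000000000) (nat_lit 0x0) (nat_lit 0x20007000f8001c0012000c00020001000080000000000000000000000) := T_12 (nat_lit 108) (nat_lit 91) (nat_lit 6) (nat_lit 5) (nat_lit 9) L39708 (by decide +kernel)
theorem L39710 : W_12 (nat_lit 11) (nat_lit 0x200000001200090000800000000000000000000000000) (nat_lit 0x0) (nat_lit 0x20007000f8001c0016000c0006c0034000a0000000000000000000000) := Q_12 (nat_lit 158) (C_12 L39589 (C_12 L39576 (C_12 L39693 (C_12 L39700 (C_12 L39709 N_12))))) (by decide +kernel)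
theorem L39723 : W_12 (nat_lit 4) (nat_lit 0x380004001200090003c00100000000000000000000000) (nat_lit 0x0) (nat_lit 0xc800040030000800000000000000000000000000000000000) := T_12 (nat_lit 174) (nat_lit 191) (nat_lit 5) (nat_lit 5) (nat_lit 7) L39722 (by decide +kernel)
theorem L39724 : W_12 (nat_lit 5) (nat_lit 0x280004001200090003c00100000000000000000000000) (nat_lit 0x0) (nat_lit 0xe800140030000800000000000000000000000000000000000) := T_12 (nat_lit 176) (nat_lit 193) (nat_lit 7) (nat_lit 5) (nat_lit 7) L39723 (by decide +kernel)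
theorem L39725 : W_12 (nat_lit 6) (nat_lit 0x280004001200090003c00000000000000000000000000) (nat_lit 0x0) (nat_lit 0xe800140030000800000000000300000000000000000000000) := T_12 (nat_lit 92) (nat_lit 93) (nat_lit 2) (nat_lit 4) (nat_lit 6) L39724 (by decide +kernel)
theorem L39726 : W_12 (nat_lit 7) (nat_lit 0x280004001200090001c00000000000000000000000000) (nat_lit 0x0) (nat_lit 0xe800140030000800040002000300000000000000000000000) := T_12 (nat_lit 109) (nat_lit 126) (nat_lit 3) (nat_lit 4) (nat_lit 6) L39725 (by decide +kernel)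
theorem L39727 : W_12 (nat_lit 8) (nat_lit 0x280004001200090000c00000000000000000000000000) (nat_lit 0x0) (nat_lit 0xe800140030000800040003000380000000000000000000000) := T_12 (nat_lit 108) (nat_lit 91) (nat_lit 6) (nat_lit 5) (nat_lit 9) L39726 (by decide +kernel)
theorem L39728 : W_12 (nat_lit 9) (nat_lit 0x200004001200090000c00000000000000000000000000) (nat_lit 0x0) (nat_lit 0xe8001c0030000800048003000380000000000000000000000) := T_12 (nat_lit 175) (nat_lit 123) (nat_lit 4) (nat_lit 5) (nat_lit 10) L39727 (by decide +kernel)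
theorem L39729 : W_12 (nat_lit 10) (nat_lit 0x200000001200090000c00000000000000000000000000) (nat_lit 0x0) (nat_lit 0xe8001c00340008000480030003a0000000000000000000000) := T_12 (nat_lit 158) (nat_lit 89) (nat_lit 4) (nat_lit 5) (nat_lit 9) L39728 (by decide +kernel)
theorem L39730 : W_12 (nat_lit 5) (nat_lit 0x2800040012000d0000c00000000000000000000000000) (nat_lit 0x0) (nat_lit 0xe800140030000800000000000000000000000000000000000) := T_12 (nat_lit 174) (nat_lit 191) (nat_lit 5) (nat_lit 5) (nat_lit 7) L32078 (by decide +kernel)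
theorem L39731 : W_12 (nat_lit 6) (nat_lit 0x2000040012000d0000c00000000000000000000000000) (nat_lit 0x0) (nat_lit 0xe8001c0030000800008000000000000000000000000000000) := T_12 (nat_lit 175) (nat_lit 123) (nat_lit 4) (nat_lit 5) (nat_lit 10) L39730 (by decide +kernel)
theorem L39732 : W_12 (nat_lit 7) (nat_lit 0x200004001200090000c00000000000000000000000000) (nat_lit 0x0) (nat_lit 0xe8001c0030000800068000000000000000000000000000000) := T_12 (nat_lit 126) (nat_lit 125) (nat_lit 0) (nat_lit 8) (nat_lit 7) L39731 (by decide +kernel)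
theorem L39733 : W_12 (nat_lit 8) (nat_lit 0x200000001200090000c00000000000000000000000000) (nat_lit 0x0) (nat_lit 0xe8001c0034000800068000000020000000000000000000000) := T_12 (nat_lit 158) (nat_lit 89) (nat_lit 4) (nat_lit 5) (nat_lit 9) L39732 (by decide +kernel)
theorem L39734 : W_12 (nat_lit 11) (nat_lit 0x200000001200090000800000000000000000000000000) (nat_lit 0x0) (nat_lit 0xe8001c0034000d000680034003a0008000000000000000000) := Q_12 (nat_lit 106) (C_12 L39712 (C_12 L39715 (C_12 L39720 (C_12 L39729 (C_12 L39733 N_12))))) (by decide +kernel)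
theorem L39751 : W_12 (nat_lit 6) (nat_lit 0x2000000013000d00008000e0000000000000000000000) (nat_lit 0x0) (nat_lit 0x6000100030000c00000003000100008000000000000000000) := T_12 (nat_lit 143) (nat_lit 142) (nat_lit 2) (nat_lit 4) (nat_lit 8) L39750 (by decide +kernel)
theorem L39752 : W_12 (nat_lit 7) (nat_lit 0x2000000013000900008000e0000000000000000000000) (nat_lit 0x0) (nat_lit 0x6000100030000c00060003000100008000000000000000000) := T_12 (nat_lit 126) (nat_lit 125) (nat_lit 1) (nat_lit 8) (nat_lit 7) L39751 (by decide +kernel)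
theorem L39753 : W_12 (nat_lit 8) (nat_lit 0x2000000012000900008000e0000000000000000000000) (nat_lit 0x0) (nat_lit 0x6000100032000d00060003000100008000000000000000000) := T_12 (nat_lit 140) (nat_lit 157) (nat_lit 5) (nat_lit 5) (nat_lit 5) L39752 (by decide +kernel)
theorem L39754 : W_12 (nat_lit 9) (nat_lit 0x200000001200090000800060000000000000000000000) (nat_lit 0x0) (nat_lit 0x6000100032000d0006000300018000c000000000000000000) := T_12 (nat_lit 91) (nat_lit 74) (nat_lit 6) (nat_lit 5) (nat_lit 8) L39753 (by decide +kernel)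
theorem L39755 : W_12 (nat_lit 10) (nat_lit 0x200000001200090000800040000000000000000000000) (nat_lit 0x0) (nat_lit 0x6000100032000d000600030001a000d000000000000000000) := T_12 (nat_lit 89) (nat_lit 72) (nat_lit 4) (nat_lit 5) (nat_lit 8) L39754 (by decide +kernel)
theorem L39756 : W_12 (nat_lit 11) (nat_lit 0x200000001200090000800000000000000000000000000) (nat_lit 0x0) (nat_lit 0x6000100032000d000680034001e000fc00380000000000000) := Q_12 (nat_lit 90) (C_12 L31986 (C_12 L39739 (C_12 L39746 (C_12 L31983 (C_12 L39755 N_12))))) (by decide +kernel)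
theorem L39757 : W_12 (nat_lit 2) (nat_lit 0x4000200000001b000d0002c00060000000000000000000000) (nat_lit 0x0) (nat_lit 0x20000000000000000100008000000000000000000) := D_12 (nat_lit 92) (nat_lit 161) (nat_lit 75) (nat_lit 7) (nat_lit 7) (nat_lit 5) (nat_lit 7) (nat_lit 7) (nat_lit 4) (by decide +kernel)
theorem L39758 : W_12 (nat_lit 3) (nat_lit 0x4000200000001b000d0000c00060000000000000000000000) (nat_lit 0x0) (nat_lit 0x20000000000003000100008000000000000000000) := T_12 (nat_lit 109) (nat_lit 108) (nat_lit 3) (nat_lit 4) (nat_lit 6) L39757 (by decide +kernel)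
theorem L39759 : W_12 (nat_lit 4) (nat_lit 0x200000001b000d0000c00060000000000000000000000) (nat_lit 0x0) (nat_lit 0x4000000030000000000003000100008000000000000000000) := T_12 (nat_lit 194) (nat_lit 160) (nat_lit 6) (nat_lit 7) (nat_lit 11) L39758 (by decide +kernel)
theorem L39760 : W_12 (nat_lit 5) (nat_lit 0x200000001b000d0000800060000000000000000000000) (nat_lit 0x0) (nat_lit 0x4000000034000000000003400100008000000000000000000) := T_12 (nat_lit 106) (nat_lit 158) (nat_lit 4) (nat_lit 5) (nat_lit 9) L39759 (by decide +kernel)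
theorem L39761 : W_12 (nat_lit 6) (nat_lit 0x2000000013000d0000800060000000000000000000000) (nat_lit 0x0) (nat_lit 0x4000000034000c00000003400100008000000000000000000) := T_12 (nat_lit 143) (nat_lit 142) (nat_lit 2) (nat_lit 4) (nat_lit 8) L39760 (by decide +kernel)
theorem L39762 : W_12 (nat_lit 7) (nat_lit 0x200000001300090000800060000000000000000000000) (nat_lit 0x0) (nat_lit 0x4000000034000c00060003400100008000000000000000000) := T_12 (nat_lit 126) (nat_lit 125) (nat_lit 1) (nat_lit 8) (nat_lit 7) L39761 (by decide +kernel)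
theorem L39763 : W_12 (nat_lit 8) (nat_lit 0x200000001200090000800060000000000000000000000) (nat_lit 0x0) (nat_lit 0x4000000036000d00060003400100008000000000000000000) := T_12 (nat_lit 140) (nat_lit 157) (nat_lit 5) (nat_lit 5) (nat_lit 5) L39762 (by decide +kernel)
theorem L39764 : W_12 (nat_lit 9) (nat_lit 0x200000001200090000800040000000000000000000000) (nat_lit 0x0) (nat_lit 0x4000000036000d00060003400120009000000000000000000) := T_12 (nat_lit 89) (nat_lit 72) (nat_lit 4) (nat_lit 5) (nat_lit 8) L39763 (by decide +kernel)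
theorem L39765 : W_12 (nat_lit 5) (nat_lit 0x2000000013000d00008000c0000000000000000000000) (nat_lit 0x0) (nat_lit 0x4000c00000003700100000000000000000000000) := T_12 (nat_lit 142) (nat_lit 143) (nat_lit 2) (nat_lit 4) (nat_lit 8) L39646 (by decide +kernel)
theorem L39766 : W_12 (nat_lit 6) (nat_lit 0x2000000013000900008000c0000000000000000000000) (nat_lit 0x0) (nat_lit 0x4000c00060003700100000000000000000000000) := T_12 (nat_lit 126) (nat_lit 125) (nat_lit 1) (nat_lit 8) (nat_lit 7) L39765 (by decide +kernel)
theorem L39767 : W_12 (nat_lit 7) (nat_lit 0x2000000012000900008000c0000000000000000000000) (nat_lit 0x0) (nat_lit 0x6000d00060003700100000000000000000000000) := T_12 (nat_lit 140) (nat_lit 157) (nat_lit 5) (nat_lit 5) (nat_lit 5) L39766 (by decide +kernel)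
theorem L39768 : W_12 (nat_lit 8) (nat_lit 0x200000001200090000800040000000000000000000000) (nat_lit 0x0) (nat_lit 0x6000d00060003700180004000000000000000000) := T_12 (nat_lit 91) (nat_lit 74) (nat_lit 6) (nat_lit 5) (nat_lit 8) L39767 (by decide +kernel)
theorem L39771 : W_12 (nat_lit 4) (nat_lit 0x2000000013000d00008000e0000000000000000000000) (nat_lit 0x0) (nat_lit 0x4000c00000000700100000000000000000000000) := T_12 (nat_lit 142) (nat_lit 143) (nat_lit 2) (nat_lit 4) (nat_lit 8) L39770 (by decide +kernel)
theorem L39772 : W_12 (nat_lit 5) (nat_lit 0x2000000013000900008000e0000000000000000000000) (nat_lit 0x0) (nat_lit 0x4000c00060000700100000000000000000000000) := T_12 (nat_lit 126) (nat_lit 125) (nat_lit 1) (nat_lit 8) (nat_lit 7) L39771 (by decide +kernel)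
theorem L39773 : W_12 (nat_lit 6) (nat_lit 0x2000000012000900008000e0000000000000000000000) (nat_lit 0x0) (nat_lit 0x6000d00060000700100000000000000000000000) := T_12 (nat_lit 140) (nat_lit 157) (nat_lit 5) (nat_lit 5) (nat_lit 5) L39772 (by decide +kernel)
theorem L39774 : W_12 (nat_lit 7) (nat_lit 0x2000000012000900008000c0000000000000000000000) (nat_lit 0x0) (nat_lit 0x6000d00060000700120001000000000000000000) := T_12 (nat_lit 89) (nat_lit 72) (nat_lit 4) (nat_lit 5) (nat_lit 8) L39773 (by decide +kernel)
theorem L39775 : W_12 (nat_lit 8) (nat_lit 0x200000001200090000800040000000000000000000000) (nat_lit 0x0) (nat_lit 0x6000d000600007001a0005000000000000000000) := T_12 (nat_lit 91) (nat_lit 74) (nat_lit 6) (nat_lit 5) (nat_lit 8) L39774 (by decide +kernel)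
theorem L39776 : W_12 (nat_lit 11) (nat_lit 0x200000001200090000800000000000000000000000000) (nat_lit 0x0) (nat_lit 0x6000100036000d000600037001e000d000000000000000000) := Q_12 (nat_lit 90) (C_12 L39564 (C_12 L39755 (C_12 L39764 (C_12 L39768 (C_12 L39775 N_12))))) (by decide +kernel)
theorem L39777 : W_12 (nat_lit 4) (nat_lit 0x2000000012000d0000c00000000000000000000000000) (nat_lit 0x0) (nat_lit 0x8000c0006000000008000000020000000000000000000000) := T_12 (nat_lit 158) (nat_lit 89) (nat_lit 4) (nat_lit 5) (nat_lit 9) L39587 (by decide +kernel)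
theorem L39778 : W_12 (nat_lit 5) (nat_lit 0x200000001200090000c00000000000000000000000000) (nat_lit 0x0) (nat_lit 0x8000c0006000000068000000020000000000000000000000) := T_12 (nat_lit 126) (nat_lit 125) (nat_lit 0) (nat_lit 8) (nat_lit 7) L39777 (by decide +kernel)
theorem L39782 : W_12 (nat_lit 2) (nat_lit 0x200006001a000d0002c00040000000000000000000000) (nat_lit 0x0) (nat_lit 0x20000000000000000100008000000000000000000) := D_12 (nat_lit 92) (nat_lit 75) (nat_lit 161) (nat_lit 7) (nat_lit 7) (nat_lit 4) (nat_lit 7) (nat_lit 7) (nat_lit 5) (by decide +kernel)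
theorem L39783 : W_12 (nat_lit 3) (nat_lit 0x200006001a000d0000c00040000000000000000000000) (nat_lit 0x0) (nat_lit 0x20000000000003000100008000000000000000000) := T_12 (nat_lit 109) (nat_lit 108) (nat_lit 3) (nat_lit 4) (nat_lit 6) L39782 (by decide +kernel)
theorem L39784 : W_12 (nat_lit 4) (nat_lit 0x2000060012000d0000c00040000000000000000000000) (nat_lit 0x0) (nat_lit 0x20000c00000003000100008000000000000000000) := T_12 (nat_lit 143) (nat_lit 142) (nat_lit 1) (nat_lit 8) (nat_lit 8) L39783 (by decide +kernel)
theorem L39785 : W_12 (nat_lit 5) (nat_lit 0x2000060012000d0000c00000000000000000000000000) (nat_lit 0x0) (nat_lit 0x20000d00000003000140008000000000000000000) := T_12 (nat_lit 90) (nat_lit 140) (nat_lit 5) (nat_lit 5) (nat_lit 5) L39784 (by decide +kernel)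
theorem L39786 : W_12 (nat_lit 6) (nat_lit 0x2000040012000d0000c00000000000000000000000000) (nat_lit 0x0) (nat_lit 0x40022000d00000003000140008000000000000000000) := T_12 (nat_lit 157) (nat_lit 174) (nat_lit 5) (nat_lit 5) (nat_lit 6) L39785 (by decide +kernel)
theorem L39787 : W_12 (nat_lit 7) (nat_lit 0x200004001200090000c00000000000000000000000000) (nat_lit 0x0) (nat_lit 0x40022000d00060003000140008000000000000000000) := T_12 (nat_lit 126) (nat_lit 125) (nat_lit 0) (nat_lit 8) (nat_lit 7) L39786 (by decide +kernel)
theorem L39788 : W_12 (nat_lit 8) (nat_lit 0x200000001200090000c00000000000000000000000000) (nat_lit 0x0) (nat_lit 0x40026000d00060003000160008000000000000000000) := T_12 (nat_lit 158) (nat_lit 89) (nat_lit 4) (nat_lit 5) (nat_lit 9) L39787 (by decide +kernel)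
theorem L39789 : W_12 (nat_lit 9) (nat_lit 0x200000001200090000800000000000000000000000000) (nat_lit 0x0) (nat_lit 0xe8001c0036000d00068003400160008000000000000000000) := Q_12 (nat_lit 106) (C_12 L39720 (C_12 L39733 (C_12 L39778 (C_12 L39781 (C_12 L39788 N_12))))) (by decide +kernel)
theorem L39790 : W_12 (nat_lit 2) (nat_lit 0x40003c00040012000900008000e0000000000000000000000) (nat_lit 0x0) (nat_lit 0x30000800000000000000000000000000000000000) := D_12 (nat_lit 160) (nat_lit 161) (nat_lit 143) (nat_lit 2) (nat_lit 4) (nat_lit 10) (nat_lit 6) (nat_lit 7) (nat_lit 11) (by decide +kernel)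
theorem L39791 : W_12 (nat_lit 3) (nat_lit 0x3c00040012000900008000e0000000000000000000000) (nat_lit 0x0) (nat_lit 0xc000000030000800000000000000000000000000000000000) := T_12 (nat_lit 194) (nat_lit 195) (nat_lit 3) (nat_lit 4) (nat_lit 10) L39790 (by decide +kernel)
theorem L39792 : W_12 (nat_lit 4) (nat_lit 0x2c00040012000900008000e0000000000000000000000) (nat_lit 0x0) (nat_lit 0xe000100030000800000000000000000000000000000000000) := T_12 (nat_lit 176) (nat_lit 193) (nat_lit 7) (nat_lit 5) (nat_lit 7) L39791 (by decide +kernel)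
theorem L39793 : W_12 (nat_lit 5) (nat_lit 0x2400040012000900008000e0000000000000000000000) (nat_lit 0x0) (nat_lit 0xe800180030000800000000000000000000000000000000000) := T_12 (nat_lit 175) (nat_lit 191) (nat_lit 5) (nat_lit 5) (nat_lit 7) L39792 (by decide +kernel)
theorem L39794 : W_12 (nat_lit 6) (nat_lit 0x2000040012000900008000e0000000000000000000000) (nat_lit 0x0) (nat_lit 0xe8001c0032000800000000000000000000000000000000000) := T_12 (nat_lit 174) (nat_lit 157) (nat_lit 5) (nat_lit 5) (nat_lit 6) L39793 (by decide +kernel)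
theorem L39795 : W_12 (nat_lit 7) (nat_lit 0x2000000012000900008000e0000000000000000000000) (nat_lit 0x0) (nat_lit 0xe8001c0036000800000001000000000000000000000000000) := T_12 (nat_lit 158) (nat_lit 108) (nat_lit 6) (nat_lit 5) (nat_lit 9) L39794 (by decide +kernel)
theorem L39796 : W_12 (nat_lit 8) (nat_lit 0x200000001200090000800060000000000000000000000) (nat_lit 0x0) (nat_lit 0xe8001c0036000800000001000080004000000000000000000) := T_12 (nat_lit 91) (nat_lit 74) (nat_lit 6) (nat_lit 5) (nat_lit 8) L39795 (by decide +kernel)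
theorem L39797 : W_12 (nat_lit 9) (nat_lit 0x200000001200090000800040000000000000000000000) (nat_lit 0x0) (nat_lit 0xe8001c00360008000000010000a0005000000000000000000) := T_12 (nat_lit 89) (nat_lit 72) (nat_lit 4) (nat_lit 5) (nat_lit 8) L39796 (by decide +kernel)
theorem L39798 : W_12 (nat_lit 11) (nat_lit 0x200000001200090000800000000000000000000000000) (nat_lit 0x0) (nat_lit 0xe8001c0036000d000680030001e000f000280000000000000) := Q_12 (nat_lit 90) (C_12 L39739 (C_12 L39755 (C_12 L31986 (C_12 L39797 (C_12 L31983 N_12))))) (by decide +kernel)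
theorem L39805 : W_12 (nat_lit 2) (nat_lit 0x100028000400120009a001800000000000000000000000000) (nat_lit 0x0) (nat_lit 0x40002000100000000000000000000000000000000000000000000) := D_12 (nat_lit 193) (nat_lit 176) (nat_lit 210) (nat_lit 7) (nat_lit 5) (nat_lit 7) (nat_lit 7) (nat_lit 5) (nat_lit 8) (by decide +kernel)
theorem L39806 : W_12 (nat_lit 3) (nat_lit 0x28000400120009a001800000000000000000000000000) (nat_lit 0x0) (nat_lit 0x40003000100000000100000000000000000000000000000000000) := T_12 (nat_lit 192) (nat_lit 140) (nat_lit 4) (nat_lit 5) (nat_lit 11) L39805 (by decide +kernel)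
theorem L39807 : W_12 (nat_lit 4) (nat_lit 0x280004001200098001800000000000000000000000000) (nat_lit 0x0) (nat_lit 0x40003000100000000100006000000000000000000000000000000) := T_12 (nat_lit 121) (nat_lit 122) (nat_lit 2) (nat_lit 2) (nat_lit 7) L39806 (by decide +kernel)
theorem L39808 : W_12 (nat_lit 5) (nat_lit 0x280004001200090001800000000000000000000000000) (nat_lit 0x0) (nat_lit 0x4000300010000000010000e000400000000000000000000000000) := T_12 (nat_lit 123) (nat_lit 106) (nat_lit 4) (nat_lit 5) (nat_lit 10) L39807 (by decide +kernel)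
theorem L39809 : W_12 (nat_lit 6) (nat_lit 0x200004001200090001800000000000000000000000000) (nat_lit 0x0) (nat_lit 0x4000300018000000010002e000400000000000000000000000000) := T_12 (nat_lit 175) (nat_lit 125) (nat_lit 6) (nat_lit 5) (nat_lit 10) L39808 (by decide +kernel)
theorem L39810 : W_12 (nat_lit 7) (nat_lit 0x200004001200090000800000000000000000000000000) (nat_lit 0x0) (nat_lit 0x4000300018000000010002e001400080000000000000000000000) := T_12 (nat_lit 108) (nat_lit 91) (nat_lit 6) (nat_lit 5) (nat_lit 9) L39809 (by decide +kernel)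
theorem L39818 : W_12 (nat_lit 9) (nat_lit 0x200000001200090000800000000000000000000000000) (nat_lit 0x0) (nat_lit 0x4000f8001c0036000d0002e0014000c0007000380014000000000) := Q_12 (nat_lit 158) (C_12 L39804 (C_12 L39666 (C_12 L39810 (C_12 L39817 N_12)))) (by decide +kernel)
theorem L39819 : W_12 (nat_lit 7) (nat_lit 0x2000000012000900008000e0000000000000000000000) (nat_lit 0x0) (nat_lit 0xe8001c0036000800000000400000000000000000000000000) := T_12 (nat_lit 158) (nat_lit 106) (nat_lit 4) (nat_lit 5) (nat_lit 9) L39794 (by decide +kernel)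
theorem L39820 : W_12 (nat_lit 8) (nat_lit 0x200000001200090000800060000000000000000000000) (nat_lit 0x0) (nat_lit 0xe8001c0036000800000000400080004000000000000000000) := T_12 (nat_lit 91) (nat_lit 74) (nat_lit 6) (nat_lit 5) (nat_lit 8) L39819 (by decide +kernel)
theorem L39821 : W_12 (nat_lit 9) (nat_lit 0x200000001200090000800040000000000000000000000) (nat_lit 0x0) (nat_lit 0xe8001c00360008000000004000a0005000000000000000000) := T_12 (nat_lit 89) (nat_lit 72) (nat_lit 4) (nat_lit 5) (nat_lit 8) L39820 (by decide +kernel)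
theorem L39822 : W_12 (nat_lit 10) (nat_lit 0x200000001200090000800000000000000000000000000) (nat_lit 0x0) (nat_lit 0xe8001c0036000d000680007001e0007000280000000000000) := Q_12 (nat_lit 90) (C_12 L39739 (C_12 L39775 (C_12 L31986 (C_12 L39821 (C_12 L31983 N_12))))) (by decide +kernel)
theorem L39823 : W_12 (nat_lit 12) (nat_lit 0x200000001200090000000000000000000000000000000) (nat_lit 0x0) (nat_lit 0x20007000f8001c0036000d0006e003f003e000fc00380014000000000) := Q_12 (nat_lit 107) (C_12 L39710 (C_12 L39627 (C_12 L39734 (C_12 L39756 (C_12 L39776 (C_12 L39789 (C_12 L39798 (C_12 L39818 (C_12 L39822 N_12))))))))) (by decide +kernel)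
theorem L39824 : W_12 (nat_lit 2) (nat_lit 0x200000001e00090000800068016000000000000000000) (nat_lit 0x0) (nat_lit 0x6000000000000400000000000000000000000000) := D_12 (nat_lit 158) (nat_lit 106) (nat_lit 157) (nat_lit 4) (nat_lit 5) (nat_lit 9) (nat_lit 1) (nat_lit 8) (nat_lit 8) (by decide +kernel)
theorem L39825 : W_12 (nat_lit 3) (nat_lit 0x200000001600090000800068016000000000000000000) (nat_lit 0x0) (nat_lit 0x6000800008000400000000000000000000000000) := T_12 (nat_lit 143) (nat_lit 123) (nat_lit 0) (nat_lit 8) (nat_lit 8) L39824 (by decide +kernel)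
theorem L39826 : W_12 (nat_lit 4) (nat_lit 0x200000001600090000800068006000000000000000000) (nat_lit 0x0) (nat_lit 0x6000800008000400000018000000000000000000) := T_12 (nat_lit 76) (nat_lit 75) (nat_lit 1) (nat_lit 8) (nat_lit 4) L39825 (by decide +kernel)
theorem L39827 : W_12 (nat_lit 5) (nat_lit 0x200000001600090000800060006000000000000000000) (nat_lit 0x0) (nat_lit 0x6000800008000400018018000000000000000000) := T_12 (nat_lit 87) (nat_lit 88) (nat_lit 2) (nat_lit 2) (nat_lit 5) L39826 (by decide +kernel)
theorem L39828 : W_12 (nat_lit 6) (nat_lit 0x200000001600090000800060002000000000000000000) (nat_lit 0x0) (nat_lit 0x600080000800040001801c000200000000000000) := T_12 (nat_lit 74) (nat_lit 57) (nat_lit 6) (nat_lit 5) (nat_lit 7) L39827 (by decide +kernel)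
theorem L39829 : W_12 (nat_lit 7) (nat_lit 0x200000001600090000800060000000000000000000000) (nat_lit 0x0) (nat_lit 0x600080002800040001801e000200000000000000) := T_12 (nat_lit 73) (nat_lit 125) (nat_lit 7) (nat_lit 5) (nat_lit 4) L39828 (by decide +kernel)
theorem L39830 : W_12 (nat_lit 8) (nat_lit 0x200000001200090000800060000000000000000000000) (nat_lit 0x0) (nat_lit 0xe000c0002800040001801e000200000000000000) := T_12 (nat_lit 142) (nat_lit 159) (nat_lit 7) (nat_lit 5) (nat_lit 5) L39829 (by decide +kernel)
theorem L39831 : W_12 (nat_lit 9) (nat_lit 0x200000001200090000800040000000000000000000000) (nat_lit 0x0) (nat_lit 0xe000c0002800040003801f000200000000000000) := T_12 (nat_lit 89) (nat_lit 72) (nat_lit 4) (nat_lit 5) (nat_lit 8) L39830 (by decide +kernel)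
theorem L39832 : W_12 (nat_lit 2) (nat_lit 0x200000001e000900008002c0003400000000000000000) (nat_lit 0x0) (nat_lit 0x6000000000001000000000000000000000000000) := D_12 (nat_lit 158) (nat_lit 108) (nat_lit 157) (nat_lit 6) (nat_lit 5) (nat_lit 9) (nat_lit 1) (nat_lit 8) (nat_lit 8) (by decide +kernel)
theorem L39833 : W_12 (nat_lit 3) (nat_lit 0x2000000016000900008002c0003400000000000000000) (nat_lit 0x0) (nat_lit 0x6000800008001000000000000000000000000000) := T_12 (nat_lit 143) (nat_lit 123) (nat_lit 0) (nat_lit 8) (nat_lit 8) L39832 (by decide +kernel)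
theorem L39834 : W_12 (nat_lit 4) (nat_lit 0x2000000016000900008000c0003400000000000000000) (nat_lit 0x0) (nat_lit 0x6000800008001000300000000000000000000000) := T_12 (nat_lit 93) (nat_lit 92) (nat_lit 0) (nat_lit 8) (nat_lit 5) L39833 (by decide +kernel)
theorem L39835 : W_12 (nat_lit 5) (nat_lit 0x2000000016000900008000c0003000000000000000000) (nat_lit 0x0) (nat_lit 0x6000800008001000300000c00000000000000000) := T_12 (nat_lit 70) (nat_lit 71) (nat_lit 3) (nat_lit 2) (nat_lit 4) L39834 (by decide +kernel)
theorem L39836 : W_12 (nat_lit 6) (nat_lit 0x2000000016000900008000c0002000000000000000000) (nat_lit 0x0) (nat_lit 0x6000800008001000300001c00080000000000000) := T_12 (nat_lit 72) (nat_lit 55) (nat_lit 4) (nat_lit 5) (nat_lit 7) L39835 (by decide +kernel)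
theorem L39837 : W_12 (nat_lit 7) (nat_lit 0x2000000016000900008000c0000000000000000000000) (nat_lit 0x0) (nat_lit 0x6000800028001000300003c00080000000000000) := T_12 (nat_lit 73) (nat_lit 125) (nat_lit 7) (nat_lit 5) (nat_lit 4) L39836 (by decide +kernel)
theorem L39838 : W_12 (nat_lit 8) (nat_lit 0x2000000012000900008000c0000000000000000000000) (nat_lit 0x0) (nat_lit 0xe000c00028001000300003c00080000000000000) := T_12 (nat_lit 142) (nat_lit 159) (nat_lit 7) (nat_lit 5) (nat_lit 5) L39837 (by decide +kernel)
theorem L39839 : W_12 (nat_lit 9) (nat_lit 0x200000001200090000800040000000000000000000000) (nat_lit 0x0) (nat_lit 0xe000c00028001000380007c00080000000000000) := T_12 (nat_lit 91) (nat_lit 74) (nat_lit 6) (nat_lit 5) (nat_lit 8) L39838 (by decide +kernel)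
theorem L39840 : W_12 (nat_lit 2) (nat_lit 0x200000001e000900008000c0002000000000000000000) (nat_lit 0x0) (nat_lit 0x6000000000001000000000000000000000000000) := D_12 (nat_lit 158) (nat_lit 108) (nat_lit 157) (nat_lit 6) (nat_lit 5) (nat_lit 9) (nat_lit 1) (nat_lit 8) (nat_lit 8) (by decide +kernel)
theorem L39841 : W_12 (nat_lit 3) (nat_lit 0x2000000016000900008000c0002000000000000000000) (nat_lit 0x0) (nat_lit 0x6000800008001000000000000000000000000000) := T_12 (nat_lit 143) (nat_lit 123) (nat_lit 0) (nat_lit 8) (nat_lit 8) L39840 (by decide +kernel)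
theorem L39842 : W_12 (nat_lit 4) (nat_lit 0x2000000016000900008000c0000000000000000000000) (nat_lit 0x0) (nat_lit 0x6000800028001000000002000000000000000000) := T_12 (nat_lit 73) (nat_lit 125) (nat_lit 7) (nat_lit 5) (nat_lit 4) L39841 (by decide +kernel)
theorem L39843 : W_12 (nat_lit 5) (nat_lit 0x2000000012000900008000c0000000000000000000000) (nat_lit 0x0) (nat_lit 0xe000c00028001000000002000000000000000000) := T_12 (nat_lit 142) (nat_lit 159) (nat_lit 7) (nat_lit 5) (nat_lit 5) L39842 (by decide +kernel)
theorem L39844 : W_12 (nat_lit 6) (nat_lit 0x200000001200090000800040000000000000000000000) (nat_lit 0x0) (nat_lit 0xe000c00028001000080006000000000000000000) := T_12 (nat_lit 91) (nat_lit 74) (nat_lit 6) (nat_lit 5) (nat_lit 8) L39843 (by decide +kernel)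
theorem L39845 : W_12 (nat_lit 2) (nat_lit 0x200000001e00090000800060002000000000000000000) (nat_lit 0x0) (nat_lit 0x6000000000000400000000000000000000000000) := D_12 (nat_lit 158) (nat_lit 106) (nat_lit 157) (nat_lit 4) (nat_lit 5) (nat_lit 9) (nat_lit 1) (nat_lit 8) (nat_lit 8) (by decide +kernel)
theorem L39846 : W_12 (nat_lit 3) (nat_lit 0x200000001600090000800060002000000000000000000) (nat_lit 0x0) (nat_lit 0x6000800008000400000000000000000000000000) := T_12 (nat_lit 143) (nat_lit 123) (nat_lit 0) (nat_lit 8) (nat_lit 8) L39845 (by decide +kernel)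
theorem L39847 : W_12 (nat_lit 4) (nat_lit 0x200000001600090000800060000000000000000000000) (nat_lit 0x0) (nat_lit 0x6000800028000400000002000000000000000000) := T_12 (nat_lit 73) (nat_lit 125) (nat_lit 7) (nat_lit 5) (nat_lit 4) L39846 (by decide +kernel)
theorem L39848 : W_12 (nat_lit 5) (nat_lit 0x200000001200090000800060000000000000000000000) (nat_lit 0x0) (nat_lit 0xe000c00028000400000002000000000000000000) := T_12 (nat_lit 142) (nat_lit 159) (nat_lit 7) (nat_lit 5) (nat_lit 5) L39847 (by decide +kernel)
theorem L39849 : W_12 (nat_lit 6) (nat_lit 0x200000001200090000800040000000000000000000000) (nat_lit 0x0) (nat_lit 0xe000c00028000400020003000000000000000000) := T_12 (nat_lit 89) (nat_lit 72) (nat_lit 4) (nat_lit 5) (nat_lit 8) L39848 (by decide +kernel)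
theorem L39850 : W_12 (nat_lit 10) (nat_lit 0x200000001200090000800000000000000000000000000) (nat_lit 0x0) (nat_lit 0xe000c000680014003f801fc00380000000000000) := Q_12 (nat_lit 90) (C_12 L39746 (C_12 L31959 (C_12 L39564 (C_12 L39831 (C_12 L39839 (C_12 L39844 (C_12 L39849 N_12))))))) (by decide +kernel)
theorem L39851 : W_12 (nat_lit 2) (nat_lit 0x200006001a00090001800000000000000000000000000) (nat_lit 0x0) (nat_lit 0x4000000018000000000000000000000000000000000000000) := D_12 (nat_lit 160) (nat_lit 194) (nat_lit 159) (nat_lit 6) (nat_lit 7) (nat_lit 11) (nat_lit 2) (nat_lit 4) (nat_lit 9) (by decide +kernel)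
theorem L39852 : W_12 (nat_lit 3) (nat_lit 0x200006001200090001800000000000000000000000000) (nat_lit 0x0) (nat_lit 0x4000000018000c00000000000000000000000000000000000) := T_12 (nat_lit 143) (nat_lit 142) (nat_lit 1) (nat_lit 8) (nat_lit 8) L39851 (by decide +kernel)
theorem L39853 : W_12 (nat_lit 4) (nat_lit 0x200004001200090001800000000000000000000000000) (nat_lit 0x0) (nat_lit 0x400004001a000c00000000000000000000000000000000000) := T_12 (nat_lit 157) (nat_lit 174) (nat_lit 5) (nat_lit 5) (nat_lit 6) L39852 (by decide +kernel)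
theorem L39854 : W_12 (nat_lit 5) (nat_lit 0x200004001200090000800000000000000000000000000) (nat_lit 0x0) (nat_lit 0x400004001a000c00000001000080000000000000000000000) := T_12 (nat_lit 108) (nat_lit 91) (nat_lit 6) (nat_lit 5) (nat_lit 9) L39853 (by decide +kernel)
theorem L39855 : W_12 (nat_lit 9) (nat_lit 0x200000001200090000800000000000000000000000000) (nat_lit 0x0) (nat_lit 0x48000c001e000c0006c0034000a0000000000000000000000) := Q_12 (nat_lit 158) (C_12 L39576 (C_12 L39693 (C_12 L39700 (C_12 L39589 (C_12 L39854 N_12))))) (by decide +kernel)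
theorem L39856 : W_12 (nat_lit 10) (nat_lit 0x200000001200090000800000000000000000000000000) (nat_lit 0x0) (nat_lit 0x400000003e000d000600037001e000f000200000000000000) := Q_12 (nat_lit 90) (C_12 L31959 (C_12 L39775 (C_12 L39564 (C_12 L39764 (C_12 L39768 N_12))))) (by decide +kernel)
theorem L39859 : W_12 (nat_lit 4) (nat_lit 0x200000001200090000800040000000000000000000000) (nat_lit 0x0) (nat_lit 0xa000500028000000000002000000000000000000) := T_12 (nat_lit 142) (nat_lit 159) (nat_lit 7) (nat_lit 5) (nat_lit 5) L39858 (by decide +kernel)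
theorem L39860 : W_12 (nat_lit 10) (nat_lit 0x200000001200090000800000000000000000000000000) (nat_lit 0x0) (nat_lit 0x400000003e000d0006800340016000b000180000000000000) := Q_12 (nat_lit 90) (C_12 L31971 (C_12 L39849 (C_12 L39764 (C_12 L31983 (C_12 L39859 N_12))))) (by decide +kernel)
theorem L39861 : W_12 (nat_lit 2) (nat_lit 0x2000000013000d0000800060000000000000000000000) (nat_lit 0x0) (nat_lit 0x8000c00000000000000000000000000000000000) := D_12 (nat_lit 142) (nat_lit 159) (nat_lit 143) (nat_lit 7) (nat_lit 5) (nat_lit 5) (nat_lit 2) (nat_lit 4) (nat_lit 8) (by decide +kernel)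
theorem L39862 : W_12 (nat_lit 3) (nat_lit 0x200000001300090000800060000000000000000000000) (nat_lit 0x0) (nat_lit 0x8000c00060000000000000000000000000000000) := T_12 (nat_lit 126) (nat_lit 125) (nat_lit 1) (nat_lit 8) (nat_lit 7) L39861 (by decide +kernel)
theorem L39863 : W_12 (nat_lit 4) (nat_lit 0x200000001200090000800060000000000000000000000) (nat_lit 0x0) (nat_lit 0xa000d00060000000000000000000000000000000) := T_12 (nat_lit 140) (nat_lit 157) (nat_lit 5) (nat_lit 5) (nat_lit 5) L39862 (by decide +kernel)
theorem L39864 : W_12 (nat_lit 5) (nat_lit 0x200000001200090000800040000000000000000000000) (nat_lit 0x0) (nat_lit 0xa000d00060000000020001000000000000000000) := T_12 (nat_lit 89) (nat_lit 72) (nat_lit 4) (nat_lit 5) (nat_lit 8) L39863 (by decide +kernel)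
theorem L39865 : W_12 (nat_lit 7) (nat_lit 0x200000001200090000800000000000000000000000000) (nat_lit 0x0) (nat_lit 0xe000d000680010000e0007000200000000000000) := Q_12 (nat_lit 90) (C_12 L39739 (C_12 L39859 (C_12 L31986 (C_12 L39844 (C_12 L39864 N_12))))) (by decide +kernel)
theorem L39866 : W_12 (nat_lit 9) (nat_lit 0x200000001200090000800000000000000000000000000) (nat_lit 0x0) (nat_lit 0xe000d000680037001c0006000300008000000000) := Q_12 (nat_lit 90) (C_12 L39624 (C_12 L39859 (C_12 L39768 (C_12 L31986 (C_12 L39844 N_12))))) (by decide +kernel)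
theorem L39867 : W_12 (nat_lit 12) (nat_lit 0x200000001200090000000000000000000000000000000) (nat_lit 0x0) (nat_lit 0x48000c003f800dc006e003f003f801fc0038000c000000000) := Q_12 (nat_lit 107) (C_12 L39627 (C_12 L39625 (C_12 L39850 (C_12 L39626 (C_12 L39855 (C_12 L39856 (C_12 L39860 (C_12 L39865 (C_12 L39866 N_12))))))))) (by decide +kernel)
theorem L39868 : W_12 (nat_lit 2) (nat_lit 0x70002d00140012000b8000800000000000000000000000000) (nat_lit 0x0) (nat_lit 0x80000000000028000000000000000000000000000000000000000) := D_12 (nat_lit 161) (nat_lit 159) (nat_lit 211) (nat_lit 1) (nat_lit 8) (nat_lit 9) (nat_lit 6) (nat_lit 7) (nat_lit 12) (by decide +kernel)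
theorem L39869 : W_12 (nat_lit 3) (nat_lit 0x70002d00040012000b8000800000000000000000000000000) (nat_lit 0x0) (nat_lit 0x80000000000038000800000000000000000000000000000000000) := T_12 (nat_lit 160) (nat_lit 143) (nat_lit 6) (nat_lit 7) (nat_lit 11) L39868 (by decide +kernel)
theorem L39870 : W_12 (nat_lit 4) (nat_lit 0x30002d00040012000b8000800000000000000000000000000) (nat_lit 0x0) (nat_lit 0x8000c000000038000800000000000000000000000000000000000) := T_12 (nat_lit 194) (nat_lit 195) (nat_lit 0) (nat_lit 8) (nat_lit 11) L39869 (by decide +kernel)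
theorem L39871 : W_12 (nat_lit 5) (nat_lit 0x30002c00040012000b8000800000000000000000000000000) (nat_lit 0x0) (nat_lit 0x8000c000030038000800000000000000000000000000000000000) := T_12 (nat_lit 172) (nat_lit 173) (nat_lit 3) (nat_lit 2) (nat_lit 10) L39870 (by decide +kernel)
theorem L39872 : W_12 (nat_lit 6) (nat_lit 0x10002c00040012000b8000800000000000000000000000000) (nat_lit 0x0) (nat_lit 0xc000e000030038000800000000000000000000000000000000000) := T_12 (nat_lit 193) (nat_lit 210) (nat_lit 7) (nat_lit 5) (nat_lit 8) L39871 (by decide +kernel)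
theorem L39873 : W_12 (nat_lit 7) (nat_lit 0x2c00040012000b8000800000000000000000000000000) (nat_lit 0x0) (nat_lit 0xc000f000030038000900000000000000000000000000000000000) := T_12 (nat_lit 192) (nat_lit 140) (nat_lit 4) (nat_lit 5) (nat_lit 11) L39872 (by decide +kernel)
theorem L39874 : W_12 (nat_lit 8) (nat_lit 0x2c00040012000b8000000000000000000000000000000) (nat_lit 0x0) (nat_lit 0xc000f00003003a000900000000800000000000000000000000000) := T_12 (nat_lit 107) (nat_lit 157) (nat_lit 5) (nat_lit 5) (nat_lit 6) L39873 (by decide +kernel)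
theorem L39875 : W_12 (nat_lit 9) (nat_lit 0x2800040012000b8000000000000000000000000000000) (nat_lit 0x0) (nat_lit 0xc000f80007003a000900000000800000000000000000000000000) := T_12 (nat_lit 174) (nat_lit 191) (nat_lit 5) (nat_lit 5) (nat_lit 7) L39874 (by decide +kernel)
theorem L39876 : W_12 (nat_lit 10) (nat_lit 0x2800040012000b0000000000000000000000000000000) (nat_lit 0x0) (nat_lit 0xc000f80007003a000900008000c00000000000000000000000000) := T_12 (nat_lit 123) (nat_lit 106) (nat_lit 4) (nat_lit 5) (nat_lit 10) L39875 (by decide +kernel)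
theorem L39877 : W_12 (nat_lit 11) (nat_lit 0x280004001200090000000000000000000000000000000) (nat_lit 0x0) (nat_lit 0xc000f80007003a000900028001c00000000000000000000000000) := T_12 (nat_lit 125) (nat_lit 108) (nat_lit 6) (nat_lit 5) (nat_lit 10) L39876 (by decide +kernel)
theorem L39878 : W_12 (nat_lit 2) (nat_lit 0x50003c00040012000b8000800000000000000000000000000) (nat_lit 0x0) (nat_lit 0x30000800000000000000000000000000000000000) := D_12 (nat_lit 160) (nat_lit 161) (nat_lit 143) (nat_lit 2) (nat_lit 4) (nat_lit 10) (nat_lit 6) (nat_lit 7) (nat_lit 11) (by decide +kernel)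
theorem L39879 : W_12 (nat_lit 3) (nat_lit 0x10003c00040012000b8000800000000000000000000000000) (nat_lit 0x0) (nat_lit 0xc000000030000800000000000000000000000000000000000) := T_12 (nat_lit 194) (nat_lit 195) (nat_lit 3) (nat_lit 4) (nat_lit 10) L39878 (by decide +kernel)
theorem L39880 : W_12 (nat_lit 4) (nat_lit 0x10002c00040012000b8000800000000000000000000000000) (nat_lit 0x0) (nat_lit 0xc000100038000800000000000000000000000000000000000) := T_12 (nat_lit 176) (nat_lit 159) (nat_lit 7) (nat_lit 5) (nat_lit 6) L39879 (by decide +kernel)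
theorem L39881 : W_12 (nat_lit 5) (nat_lit 0x2c00040012000b8000800000000000000000000000000) (nat_lit 0x0) (nat_lit 0xd000100038000900000000000000000000000000000000000) := T_12 (nat_lit 192) (nat_lit 140) (nat_lit 4) (nat_lit 5) (nat_lit 11) L39880 (by decide +kernel)
theorem L39882 : W_12 (nat_lit 6) (nat_lit 0x2c00040012000b8000000000000000000000000000000) (nat_lit 0x0) (nat_lit 0xd00010003a000900000000800000000000000000000000000) := T_12 (nat_lit 107) (nat_lit 157) (nat_lit 5) (nat_lit 5) (nat_lit 6) L39881 (by decide +kernel)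
theorem L39883 : W_12 (nat_lit 7) (nat_lit 0x2800040012000b8000000000000000000000000000000) (nat_lit 0x0) (nat_lit 0xd80014003a000900000000800000000000000000000000000) := T_12 (nat_lit 174) (nat_lit 191) (nat_lit 5) (nat_lit 5) (nat_lit 7) L39882 (by decide +kernel)
theorem L39884 : W_12 (nat_lit 8) (nat_lit 0x2800040012000b0000000000000000000000000000000) (nat_lit 0x0) (nat_lit 0xd80014003a000900008000c00000000000000000000000000) := T_12 (nat_lit 123) (nat_lit 106) (nat_lit 4) (nat_lit 5) (nat_lit 10) L39883 (by decide +kernel)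
theorem L39885 : W_12 (nat_lit 9) (nat_lit 0x280004001200090000000000000000000000000000000) (nat_lit 0x0) (nat_lit 0xd80014003a000900028001c00000000000000000000000000) := T_12 (nat_lit 125) (nat_lit 108) (nat_lit 6) (nat_lit 5) (nat_lit 10) L39884 (by decide +kernel)
theorem L39886 : W_12 (nat_lit 12) (nat_lit 0x200004001200090000000000000000000000000000000) (nat_lit 0x0) (nat_lit 0xd000f8001f003a000900028001c00080000000000000000000000) := Q_12 (nat_lit 175) (C_12 L33206 (C_12 L32038 (C_12 L39877 (C_12 L33218 (C_12 L39885 N_12))))) (by decide +kernel)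
theorem L39890 : W_12 (nat_lit 2) (nat_lit 0x3c00040012000f8000000000000000000000000000000) (nat_lit 0x0) (nat_lit 0x3000000000000800000000000000000000000000) := D_12 (nat_lit 157) (nat_lit 107) (nat_lit 156) (nat_lit 5) (nat_lit 5) (nat_lit 6) (nat_lit 0) (nat_lit 7) (nat_lit 10) (by decide +kernel)
theorem L39891 : W_12 (nat_lit 3) (nat_lit 0x3800040012000f8000000000000000000000000000000) (nat_lit 0x0) (nat_lit 0x800040003000000000000800000000000000000000000000) := T_12 (nat_lit 174) (nat_lit 191) (nat_lit 5) (nat_lit 5) (nat_lit 7) L39890 (by decide +kernel)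
theorem L39892 : W_12 (nat_lit 4) (nat_lit 0x3800040012000b8000000000000000000000000000000) (nat_lit 0x0) (nat_lit 0x800040003000800040000800000000000000000000000000) := T_12 (nat_lit 126) (nat_lit 143) (nat_lit 3) (nat_lit 4) (nat_lit 7) L39891 (by decide +kernel)
theorem L39893 : W_12 (nat_lit 5) (nat_lit 0x380004001200098000000000000000000000000000000) (nat_lit 0x0) (nat_lit 0x800040003000800060001800000000000000000000000000) := T_12 (nat_lit 125) (nat_lit 108) (nat_lit 6) (nat_lit 5) (nat_lit 10) L39892 (by decide +kernel)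
theorem L39894 : W_12 (nat_lit 6) (nat_lit 0x280004001200098000000000000000000000000000000) (nat_lit 0x0) (nat_lit 0x2800140003000800060001800000000000000000000000000) := T_12 (nat_lit 176) (nat_lit 193) (nat_lit 7) (nat_lit 5) (nat_lit 7) L39893 (by decide +kernel)
theorem L39895 : W_12 (nat_lit 7) (nat_lit 0x280004001200090000000000000000000000000000000) (nat_lit 0x0) (nat_lit 0x2800140003000800068001c00000000000000000000000000) := T_12 (nat_lit 123) (nat_lit 106) (nat_lit 4) (nat_lit 5) (nat_lit 10) L39894 (by decide +kernel)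
theorem L39896 : W_12 (nat_lit 8) (nat_lit 0x200004001200090000000000000000000000000000000) (nat_lit 0x0) (nat_lit 0x100038001c0003000900068001c00080000000000000000000000) := Q_12 (nat_lit 175) (C_12 L32038 (C_12 L39889 (C_12 L39895 (C_12 L33451 N_12)))) (by decide +kernel)
theorem L39897 : W_12 (nat_lit 6) (nat_lit 0x200004001200090000000000000000000000000000000) (nat_lit 0x0) (nat_lit 0x8000c0002000100068003c000e0004000000000000000000) := Q_12 (nat_lit 107) (C_12 L39589 (C_12 L39576 (C_12 L39666 N_12))) (by decide +kernel)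
theorem L39898 : W_12 (nat_lit 6) (nat_lit 0x200004001200090000000000000000000000000000000) (nat_lit 0x0) (nat_lit 0x100038001c0008000900068001c00080000000000000000000000) := Q_12 (nat_lit 175) (C_12 L39889 (C_12 L33218 (C_12 L32038 N_12))) (by decide +kernel)
theorem L39899 : W_12 (nat_lit 8) (nat_lit 0x200004001200090000000000000000000000000000000) (nat_lit 0x0) (nat_lit 0xe8001c003a00080006c003c000a0000000000000000000000) := Q_12 (nat_lit 107) (C_12 L39804 (C_12 L31942 (C_12 L39589 (C_12 L39576 (C_12 L39585 N_12))))) (by decide +kernel)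
theorem L39900 : W_12 (nat_lit 2) (nat_lit 0x20000e0013000d0001c00000000000000000000000000) (nat_lit 0x0) (nat_lit 0x10000880000000000000000000000000000000000) := D_12 (nat_lit 160) (nat_lit 143) (nat_lit 139) (nat_lit 2) (nat_lit 4) (nat_lit 9) (nat_lit 0) (nat_lit 7) (nat_lit 9) (by decide +kernel)
theorem L39901 : W_12 (nat_lit 3) (nat_lit 0x20000e0012000d0001c00000000000000000000000000) (nat_lit 0x0) (nat_lit 0x10000980000000000040000000000000000000000) := T_12 (nat_lit 140) (nat_lit 90) (nat_lit 5) (nat_lit 5) (nat_lit 5) L39900 (by decide +kernel)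
theorem L39902 : W_12 (nat_lit 4) (nat_lit 0x20000c0012000d0001c00000000000000000000000000) (nat_lit 0x0) (nat_lit 0x40012000980000000000040000000000000000000000) := T_12 (nat_lit 157) (nat_lit 174) (nat_lit 5) (nat_lit 5) (nat_lit 6) L39901 (by decide +kernel)
theorem L39903 : W_12 (nat_lit 5) (nat_lit 0x20000c0012000d0000c00000000000000000000000000) (nat_lit 0x0) (nat_lit 0x40012000980000003000040000000000000000000000) := T_12 (nat_lit 108) (nat_lit 109) (nat_lit 3) (nat_lit 4) (nat_lit 6) L39902 (by decide +kernel)
theorem L39904 : W_12 (nat_lit 6) (nat_lit 0x2000040012000d0000c00000000000000000000000000) (nat_lit 0x0) (nat_lit 0x14001a000980000003000040000000000000000000000) := T_12 (nat_lit 159) (nat_lit 176) (nat_lit 7) (nat_lit 5) (nat_lit 6) L39903 (by decide +kernel)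
theorem L39905 : W_12 (nat_lit 7) (nat_lit 0x200004001200090000c00000000000000000000000000) (nat_lit 0x0) (nat_lit 0x14001a000980060003000040000000000000000000000) := T_12 (nat_lit 126) (nat_lit 125) (nat_lit 0) (nat_lit 8) (nat_lit 7) L39904 (by decide +kernel)
theorem L39906 : W_12 (nat_lit 8) (nat_lit 0x200004001200090000800000000000000000000000000) (nat_lit 0x0) (nat_lit 0x14001a000980060003400060000000000000000000000) := T_12 (nat_lit 106) (nat_lit 89) (nat_lit 4) (nat_lit 5) (nat_lit 9) L39905 (by decide +kernel)
theorem L39910 : W_12 (nat_lit 9) (nat_lit 0x200004001200090000000000000000000000000000000) (nat_lit 0x0) (nat_lit 0x14001a000980060003c000e0005000000000000000000) := Q_12 (nat_lit 107) (C_12 L39576 (C_12 L39666 (C_12 L39906 (C_12 L39909 N_12)))) (by decide +kernel)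
theorem L39911 : W_12 (nat_lit 5) (nat_lit 0x380004001200098000800000000000000000000000000) (nat_lit 0x0) (nat_lit 0x10000000020001000060010000c0002000000000000000000) := T_12 (nat_lit 108) (nat_lit 91) (nat_lit 6) (nat_lit 5) (nat_lit 9) L39068 (by decide +kernel)
theorem L39912 : W_12 (nat_lit 6) (nat_lit 0x380004001200098000000000000000000000000000000) (nat_lit 0x0) (nat_lit 0x100000000a0001000060018000c0002000000000000000000) := T_12 (nat_lit 107) (nat_lit 159) (nat_lit 7) (nat_lit 5) (nat_lit 6) L39911 (by decide +kernel)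
theorem L39913 : W_12 (nat_lit 7) (nat_lit 0x280004001200098000000000000000000000000000000) (nat_lit 0x0) (nat_lit 0x300010000a0001000060018000c0002000000000000000000) := T_12 (nat_lit 176) (nat_lit 193) (nat_lit 7) (nat_lit 5) (nat_lit 7) L39912 (by decide +kernel)
theorem L39914 : W_12 (nat_lit 8) (nat_lit 0x280004001200090000000000000000000000000000000) (nat_lit 0x0) (nat_lit 0x300010000a00010000e001c000c0002000000000000000000) := T_12 (nat_lit 123) (nat_lit 106) (nat_lit 4) (nat_lit 5) (nat_lit 10) L39913 (by decide +kernel)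
theorem L39915 : W_12 (nat_lit 2) (nat_lit 0x2c0004001200090000800000000000000000000000000) (nat_lit 0x0) (nat_lit 0x2000100008000000000000000000000000000000000000000) := D_12 (nat_lit 176) (nat_lit 193) (nat_lit 159) (nat_lit 7) (nat_lit 5) (nat_lit 7) (nat_lit 7) (nat_lit 5) (nat_lit 6) (by decide +kernel)
theorem L39916 : W_12 (nat_lit 3) (nat_lit 0x2c0004001200090000000000000000000000000000000) (nat_lit 0x0) (nat_lit 0x200010000a000000000000800000000000000000000000000) := T_12 (nat_lit 107) (nat_lit 157) (nat_lit 5) (nat_lit 5) (nat_lit 6) L39915 (by decide +kernel)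
theorem L39917 : W_12 (nat_lit 4) (nat_lit 0x280004001200090000000000000000000000000000000) (nat_lit 0x0) (nat_lit 0x280014000a000000000000800000000000000000000000000) := T_12 (nat_lit 174) (nat_lit 191) (nat_lit 5) (nat_lit 5) (nat_lit 7) L39916 (by decide +kernel)
theorem L39918 : W_12 (nat_lit 13) (nat_lit 0x200004001200090000000000000000000000000000000) (nat_lit 0x0) (nat_lit 0xd000f8001f003a00090000e001c000c0002000000000000000000) := Q_12 (nat_lit 175) (C_12 L32038 (C_12 L33583 (C_12 L33210 (C_12 L39914 (C_12 L39917 (C_12 L33603 N_12)))))) (by decide +kernel)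
theorem L39919 : W_12 (nat_lit 2) (nat_lit 0x20000c0012000f0001800000000000000000000000000) (nat_lit 0x0) (nat_lit 0x10000800008000000000000000000000000000000) := D_12 (nat_lit 143) (nat_lit 123) (nat_lit 160) (nat_lit 3) (nat_lit 4) (nat_lit 7) (nat_lit 4) (nat_lit 7) (nat_lit 10) (by decide +kernel)
theorem L39920 : W_12 (nat_lit 3) (nat_lit 0x20000c0012000b0001800000000000000000000000000) (nat_lit 0x0) (nat_lit 0x10000900048000000000000000000000000000000) := T_12 (nat_lit 126) (nat_lit 140) (nat_lit 1) (nat_lit 8) (nat_lit 7) L39919 (by decide +kernel)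
theorem L39921 : W_12 (nat_lit 4) (nat_lit 0x20000c001200090001800000000000000000000000000) (nat_lit 0x0) (nat_lit 0x80010000900068000000000000000000000000000000) := T_12 (nat_lit 125) (nat_lit 175) (nat_lit 6) (nat_lit 5) (nat_lit 10) L39920 (by decide +kernel)
theorem L39922 : W_12 (nat_lit 5) (nat_lit 0x200004001200090001800000000000000000000000000) (nat_lit 0x0) (nat_lit 0x180018000900068000000000000000000000000000000) := T_12 (nat_lit 159) (nat_lit 176) (nat_lit 7) (nat_lit 5) (nat_lit 6) L39921 (by decide +kernel)
theorem L39923 : W_12 (nat_lit 6) (nat_lit 0x200004001200090000800000000000000000000000000) (nat_lit 0x0) (nat_lit 0x180018000900068001000080000000000000000000000) := T_12 (nat_lit 108) (nat_lit 91) (nat_lit 6) (nat_lit 5) (nat_lit 9) L39922 (by decide +kernel)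
theorem L39924 : W_12 (nat_lit 8) (nat_lit 0x200004001200090000000000000000000000000000000) (nat_lit 0x0) (nat_lit 0x4000300018001800090006e003c000a0000000000000000000000) := Q_12 (nat_lit 107) (C_12 L39810 (C_12 L39576 (C_12 L39585 (C_12 L31942 (C_12 L39923 N_12))))) (by decide +kernel)
theorem L39925 : W_12 (nat_lit 5) (nat_lit 0x200004001200090000000000000000000000000000000) (nat_lit 0x0) (nat_lit 0x28001c000a000900068001c00000000000000000000000000) := Q_12 (nat_lit 175) (C_12 L39917 (C_12 L39889 N_12)) (by decide +kernel)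
theorem L39926 : W_12 (nat_lit 2) (nat_lit 0x40003e00140012000f8000000000000000000000000000000) (nat_lit 0x0) (nat_lit 0x3800000000000000000000000000000000000000) := D_12 (nat_lit 156) (nat_lit 157) (nat_lit 155) (nat_lit 0) (nat_lit 7) (nat_lit 10) (nat_lit 0) (nat_lit 6) (nat_lit 10) (by decide +kernel)
theorem L39927 : W_12 (nat_lit 3) (nat_lit 0x40003c00140012000f8000000000000000000000000000000) (nat_lit 0x0) (nat_lit 0x2000b800000000000000000000000000000000000000) := T_12 (nat_lit 173) (nat_lit 159) (nat_lit 2) (nat_lit 3) (nat_lit 10) L39926 (by decide +kernel)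
theorem L39928 : W_12 (nat_lit 4) (nat_lit 0x40003c00040012000f8000000000000000000000000000000) (nat_lit 0x0) (nat_lit 0x2003b800000000000000000000000000000000000000) := T_12 (nat_lit 160) (nat_lit 161) (nat_lit 2) (nat_lit 4) (nat_lit 10) L39927 (by decide +kernel)
theorem L39929 : W_12 (nat_lit 5) (nat_lit 0x3c00040012000f8000000000000000000000000000000) (nat_lit 0x0) (nat_lit 0xc00002003b800000000000000000000000000000000000000) := T_12 (nat_lit 194) (nat_lit 195) (nat_lit 3) (nat_lit 4) (nat_lit 10) L39928 (by decide +kernel)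
theorem L39930 : W_12 (nat_lit 6) (nat_lit 0x3800040012000f8000000000000000000000000000000) (nat_lit 0x0) (nat_lit 0xc80006003b800000000000000000000000000000000000000) := T_12 (nat_lit 174) (nat_lit 191) (nat_lit 5) (nat_lit 5) (nat_lit 7) L39929 (by decide +kernel)
theorem L39931 : W_12 (nat_lit 7) (nat_lit 0x3800040012000b8000000000000000000000000000000) (nat_lit 0x0) (nat_lit 0xc80006003b800800040000000000000000000000000000000) := T_12 (nat_lit 126) (nat_lit 143) (nat_lit 3) (nat_lit 4) (nat_lit 7) L39930 (by decide +kernel)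
theorem L39932 : W_12 (nat_lit 8) (nat_lit 0x380004001200098000000000000000000000000000000) (nat_lit 0x0) (nat_lit 0xc80006003b800800060001000000000000000000000000000) := T_12 (nat_lit 125) (nat_lit 108) (nat_lit 6) (nat_lit 5) (nat_lit 10) L39931 (by decide +kernel)
theorem L39933 : W_12 (nat_lit 9) (nat_lit 0x280004001200098000000000000000000000000000000) (nat_lit 0x0) (nat_lit 0xe80016003b800800060001000000000000000000000000000) := T_12 (nat_lit 176) (nat_lit 193) (nat_lit 7) (nat_lit 5) (nat_lit 7) L39932 (by decide +kernel)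
theorem L39934 : W_12 (nat_lit 10) (nat_lit 0x280004001200090000000000000000000000000000000) (nat_lit 0x0) (nat_lit 0xe80016003b800800068001400000000000000000000000000) := T_12 (nat_lit 123) (nat_lit 106) (nat_lit 4) (nat_lit 5) (nat_lit 10) L39933 (by decide +kernel)
theorem L39935 : W_12 (nat_lit 11) (nat_lit 0x200004001200090000000000000000000000000000000) (nat_lit 0x0) (nat_lit 0x1000f8001e003b800900068001400000000000000000000000000) := Q_12 (nat_lit 175) (C_12 L39889 (C_12 L32038 (C_12 L39934 (C_12 L32216 N_12)))) (by decide +kernel)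
theorem L39936 : W_12 (nat_lit 6) (nat_lit 0x200004001200090000000000000000000000000000000) (nat_lit 0x0) (nat_lit 0xe8001c003a000800020001800080000000000000000000000) := Q_12 (nat_lit 175) (C_12 L32216 (C_12 L39917 (C_12 L33451 (C_12 L33218 N_12)))) (by decide +kernel)
theorem L39937 : W_12 (nat_lit 2) (nat_lit 0x380004001300098000800000000000000000000000000) (nat_lit 0x0) (nat_lit 0x2000000000000000040002000000000000000000) := D_12 (nat_lit 90) (nat_lit 73) (nat_lit 157) (nat_lit 5) (nat_lit 5) (nat_lit 4) (nat_lit 5) (nat_lit 5) (nat_lit 5) (by decide +kernel)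
theorem L39938 : W_12 (nat_lit 3) (nat_lit 0x380004001200098000800000000000000000000000000) (nat_lit 0x0) (nat_lit 0x1000000002000100000000000040002000000000000000000) := T_12 (nat_lit 140) (nat_lit 192) (nat_lit 4) (nat_lit 5) (nat_lit 11) L39937 (by decide +kernel)
theorem L39939 : W_12 (nat_lit 4) (nat_lit 0x380004001200098000000000000000000000000000000) (nat_lit 0x0) (nat_lit 0x100000000a000100000000800040002000000000000000000) := T_12 (nat_lit 107) (nat_lit 159) (nat_lit 7) (nat_lit 5) (nat_lit 6) L39938 (by decide +kernel)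
theorem L39940 : W_12 (nat_lit 5) (nat_lit 0x280004001200098000000000000000000000000000000) (nat_lit 0x0) (nat_lit 0x300010000a000100000000800040002000000000000000000) := T_12 (nat_lit 176) (nat_lit 193) (nat_lit 7) (nat_lit 5) (nat_lit 7) L39939 (by decide +kernel)
theorem L39941 : W_12 (nat_lit 6) (nat_lit 0x280004001200090000000000000000000000000000000) (nat_lit 0x0) (nat_lit 0x300010000a000100008000c00040002000000000000000000) := T_12 (nat_lit 123) (nat_lit 106) (nat_lit 4) (nat_lit 5) (nat_lit 10) L39940 (by decide +kernel)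
theorem L39942 : W_12 (nat_lit 11) (nat_lit 0x200004001200090000000000000000000000000000000) (nat_lit 0x0) (nat_lit 0xc000f8001f003a000900008000c00040002000000000000000000) := Q_12 (nat_lit 175) (C_12 L32216 (C_12 L39917 (C_12 L33592 (C_12 L39941 (C_12 L33610 N_12))))) (by decide +kernel)
theorem L39943 : W_12 (nat_lit 14) (nat_lit 0x200000001200090000000000000000000000000000000) (nat_lit 0x0) (nat_lit 0xd000f8001f003f80098006e003c000e0007000000000000000000) := Q_12 (nat_lit 158) (C_12 L39886 (C_12 L39896 (C_12 L39897 (C_12 L39898 (C_12 L39899 (C_12 L39910 (C_12 L39918 (C_12 L39924 (C_12 L39925 (C_12 L39935 (C_12 L39936 (C_12 L39942 N_12)))))))))))) (by decide +kernel)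
theorem L39944 : W_12 (nat_lit 2) (nat_lit 0x200010001e00090000000000000000000000000000000) (nat_lit 0x0) (nat_lit 0x60000100000000000000000000000000000000000) := D_12 (nat_lit 161) (nat_lit 162) (nat_lit 140) (nat_lit 3) (nat_lit 5) (nat_lit 8) (nat_lit 3) (nat_lit 4) (nat_lit 8) (by decide +kernel)
theorem L39945 : W_12 (nat_lit 3) (nat_lit 0x200000001e00090000000000000000000000000000000) (nat_lit 0x0) (nat_lit 0x4000000070000100000000000000000000000000000000000) := T_12 (nat_lit 160) (nat_lit 194) (nat_lit 6) (nat_lit 7) (nat_lit 11) L39944 (by decide +kernel)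
theorem L39946 : W_12 (nat_lit 4) (nat_lit 0x200000001a00090000000000000000000000000000000) (nat_lit 0x0) (nat_lit 0x4000000070000500008000000000000000000000000000000) := T_12 (nat_lit 142) (nat_lit 123) (nat_lit 0) (nat_lit 8) (nat_lit 8) L39945 (by decide +kernel)
theorem L39947 : W_12 (nat_lit 2) (nat_lit 0x200000001a000d0000000000000000000000000000000) (nat_lit 0x0) (nat_lit 0x500008000000000000000000000000000000) := D_12 (nat_lit 142) (nat_lit 123) (nat_lit 140) (nat_lit 0) (nat_lit 8) (nat_lit 8) (nat_lit 2) (nat_lit 4) (nat_lit 8) (by decide +kernel)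
theorem L39948 : W_12 (nat_lit 2) (nat_lit 0x200000001a000d0000000000000000000000000000000) (nat_lit 0x0) (nat_lit 0x400028000000000000000000000000000000) := D_12 (nat_lit 123) (nat_lit 125) (nat_lit 142) (nat_lit 3) (nat_lit 4) (nat_lit 7) (nat_lit 0) (nat_lit 8) (nat_lit 8) (by decide +kernel)
theorem L39949 : W_12 (nat_lit 2) (nat_lit 0x200000001a000d0000000000000000000000000000000) (nat_lit 0x0) (nat_lit 0x500020000000000000000000000000000000) := D_12 (nat_lit 140) (nat_lit 125) (nat_lit 142) (nat_lit 1) (nat_lit 8) (nat_lit 7) (nat_lit 2) (nat_lit 4) (nat_lit 8) (by decide +kernel)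
theorem L39950 : W_12 (nat_lit 3) (nat_lit 0x200000001a00090000000000000000000000000000000) (nat_lit 0x0) (nat_lit 0x500068000000000000000000000000000000) := Q_12 (nat_lit 126) (C_12 L39947 (C_12 L32329 (C_12 L39948 (C_12 L39949 N_12)))) (by decide +kernel)
theorem L39953 : W_12 (nat_lit 6) (nat_lit 0x200000001a00090000000000000000000000000000000) (nat_lit 0x0) (nat_lit 0x6000100038000100068003000100008000000000000000000) := Q_12 (nat_lit 126) (C_12 L32329 (C_12 L39952 (C_12 L32333 N_12))) (by decide +kernel)
theorem L39954 : W_12 (nat_lit 5) (nat_lit 0x200010001a00098000000000000000000000000000000) (nat_lit 0x0) (nat_lit 0x2000100028000000060002000100008000000000000000000) := T_12 (nat_lit 126) (nat_lit 125) (nat_lit 3) (nat_lit 4) (nat_lit 7) L32326 (by decide +kernel)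
theorem L39955 : W_12 (nat_lit 6) (nat_lit 0x200010001a00090000000000000000000000000000000) (nat_lit 0x0) (nat_lit 0x2000100028000400068002000100008000000000000000000) := T_12 (nat_lit 123) (nat_lit 142) (nat_lit 0) (nat_lit 8) (nat_lit 8) L39954 (by decide +kernel)
theorem L39956 : W_12 (nat_lit 7) (nat_lit 0x200000001a00090000000000000000000000000000000) (nat_lit 0x0) (nat_lit 0x6000100038000400068002000100008000000000000000000) := T_12 (nat_lit 160) (nat_lit 194) (nat_lit 6) (nat_lit 7) (nat_lit 11) L39955 (by decide +kernel)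
theorem L39957 : W_12 (nat_lit 6) (nat_lit 0x200000001a00090000000000000000000000000000000) (nat_lit 0x0) (nat_lit 0x6000100038000500060002000100008000000000000000000) := Q_12 (nat_lit 126) (C_12 L32333 (C_12 L39949 N_12)) (by decide +kernel)
theorem L39958 : W_12 (nat_lit 8) (nat_lit 0x200000001200090000000000000000000000000000000) (nat_lit 0x0) (nat_lit 0x6000100078000d00068003000100008000000000000000000) := Q_12 (nat_lit 143) (C_12 L39946 (C_12 L39950 (C_12 L39953 (C_12 L39956 (C_12 L39957 N_12))))) (by decide +kernel)
theorem L39959 : W_12 (nat_lit 7) (nat_lit 0x200004001200090000000000000000000000000000000) (nat_lit 0x0) (nat_lit 0x100038001c000a000100028001c000c0002000000000000000000) := Q_12 (nat_lit 175) (C_12 L39917 (C_12 L33218 (C_12 L39941 (C_12 L33451 (C_12 L32038 N_12))))) (by decide +kernel)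
theorem L39960 : W_12 (nat_lit 2) (nat_lit 0x1000280004001a00098000000000000000000000000000000) (nat_lit 0x0) (nat_lit 0x40002000100000000000000000000000000000000000000000000) := D_12 (nat_lit 193) (nat_lit 176) (nat_lit 210) (nat_lit 7) (nat_lit 5) (nat_lit 7) (nat_lit 7) (nat_lit 5) (nat_lit 8) (by decide +kernel)
theorem L39961 : W_12 (nat_lit 3) (nat_lit 0x280004001a00098000000000000000000000000000000) (nat_lit 0x0) (nat_lit 0x40003000100000000100000000000000000000000000000000000) := T_12 (nat_lit 192) (nat_lit 140) (nat_lit 4) (nat_lit 5) (nat_lit 11) L39960 (by decide +kernel)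
theorem L39962 : W_12 (nat_lit 4) (nat_lit 0x280004001200098000000000000000000000000000000) (nat_lit 0x0) (nat_lit 0x40003000100000000d00000000000000000000000000000000000) := T_12 (nat_lit 143) (nat_lit 142) (nat_lit 0) (nat_lit 8) (nat_lit 8) L39961 (by decide +kernel)
theorem L39963 : W_12 (nat_lit 5) (nat_lit 0x280004001200090000000000000000000000000000000) (nat_lit 0x0) (nat_lit 0x40003000100000000d00008000400000000000000000000000000) := T_12 (nat_lit 123) (nat_lit 106) (nat_lit 4) (nat_lit 5) (nat_lit 10) L39962 (by decide +kernel)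
theorem L39964 : W_12 (nat_lit 6) (nat_lit 0x200004001200090000000000000000000000000000000) (nat_lit 0x0) (nat_lit 0x4000f8001c0032000d00028001c00080000000000000000000000) := Q_12 (nat_lit 175) (C_12 L32216 (C_12 L33451 (C_12 L39963 N_12))) (by decide +kernel)
theorem L39965 : W_12 (nat_lit 2) (nat_lit 0x200006001a00090000000000000000000000000000000) (nat_lit 0x0) (nat_lit 0x4000000018000000000000000000000000000000000000000) := D_12 (nat_lit 160) (nat_lit 194) (nat_lit 159) (nat_lit 6) (nat_lit 7) (nat_lit 11) (nat_lit 2) (nat_lit 4) (nat_lit 9) (by decide +kernel)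
theorem L39966 : W_12 (nat_lit 3) (nat_lit 0x200006001200090000000000000000000000000000000) (nat_lit 0x0) (nat_lit 0x4000000018000c00000000000000000000000000000000000) := T_12 (nat_lit 143) (nat_lit 142) (nat_lit 1) (nat_lit 8) (nat_lit 8) L39965 (by decide +kernel)
theorem L39967 : W_12 (nat_lit 2) (nat_lit 0x4000200006001a00090000800040000000000000000000000) (nat_lit 0x0) (nat_lit 0x400020001000000000000000000) := D_12 (nat_lit 89) (nat_lit 72) (nat_lit 106) (nat_lit 4) (nat_lit 5) (nat_lit 8) (nat_lit 4) (nat_lit 5) (nat_lit 9) (by decide +kernel)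
theorem L39968 : W_12 (nat_lit 3) (nat_lit 0x4000200006001a00090000800000000000000000000000000) (nat_lit 0x0) (nat_lit 0x100000000400060001000000000000000000) := T_12 (nat_lit 90) (nat_lit 140) (nat_lit 5) (nat_lit 5) (nat_lit 5) L39967 (by decide +kernel)
theorem L39969 : W_12 (nat_lit 4) (nat_lit 0x4000200006001a00090000000000000000000000000000000) (nat_lit 0x0) (nat_lit 0x40000000100000000c00060001000000000000000000) := T_12 (nat_lit 107) (nat_lit 174) (nat_lit 5) (nat_lit 5) (nat_lit 6) L39968 (by decide +kernel)
theorem L39970 : W_12 (nat_lit 5) (nat_lit 0x200006001a00090000000000000000000000000000000) (nat_lit 0x0) (nat_lit 0x4000040010000100000000c00060001000000000000000000) := T_12 (nat_lit 194) (nat_lit 160) (nat_lit 6) (nat_lit 7) (nat_lit 11) L39969 (by decide +kernel)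
theorem L39971 : W_12 (nat_lit 6) (nat_lit 0x200006001200090000000000000000000000000000000) (nat_lit 0x0) (nat_lit 0x4000040010000d00000000c00060001000000000000000000) := T_12 (nat_lit 143) (nat_lit 142) (nat_lit 1) (nat_lit 8) (nat_lit 8) L39970 (by decide +kernel)
theorem L39972 : W_12 (nat_lit 4) (nat_lit 0x200006001200090000000000000000000000000000000) (nat_lit 0x0) (nat_lit 0x40000000100000000c00060001000000000000000000) := T_12 (nat_lit 107) (nat_lit 174) (nat_lit 5) (nat_lit 5) (nat_lit 6) L39908 (by decide +kernel)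
theorem L39973 : W_12 (nat_lit 7) (nat_lit 0x200004001200090000000000000000000000000000000) (nat_lit 0x0) (nat_lit 0x400004001a000d00000000c00060001000000000000000000) := Q_12 (nat_lit 157) (C_12 L39966 (C_12 L39971 (C_12 L39972 N_12))) (by decide +kernel)
theorem L39974 : W_12 (nat_lit 6) (nat_lit 0x200004001200090000000000000000000000000000000) (nat_lit 0x0) (nat_lit 0x5000f8001c0038000d00028001c00080000000000000000000000) := Q_12 (nat_lit 175) (C_12 L39963 (C_12 L33440 (C_12 L32216 (C_12 L33218 N_12)))) (by decide +kernel)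
theorem L39975 : W_12 (nat_lit 4) (nat_lit 0x200004001200090000800000000000000000000000000) (nat_lit 0x0) (nat_lit 0x800000000000280014000a0000000000000000000000) := T_12 (nat_lit 106) (nat_lit 89) (nat_lit 4) (nat_lit 5) (nat_lit 9) L39714 (by decide +kernel)
theorem L39976 : W_12 (nat_lit 2) (nat_lit 0x20000c001200090000800040000000000000000000000) (nat_lit 0x0) (nat_lit 0x400020001000000000000000000) := D_12 (nat_lit 89) (nat_lit 106) (nat_lit 72) (nat_lit 4) (nat_lit 5) (nat_lit 9) (nat_lit 4) (nat_lit 5) (nat_lit 8) (by decide +kernel)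
theorem L39977 : W_12 (nat_lit 3) (nat_lit 0x20000c001200090000800000000000000000000000000) (nat_lit 0x0) (nat_lit 0x400000000400060001000000000000000000) := T_12 (nat_lit 90) (nat_lit 142) (nat_lit 7) (nat_lit 5) (nat_lit 5) L39976 (by decide +kernel)
theorem L39978 : W_12 (nat_lit 4) (nat_lit 0x200004001200090000800000000000000000000000000) (nat_lit 0x0) (nat_lit 0x100008000400000000400060001000000000000000000) := T_12 (nat_lit 159) (nat_lit 176) (nat_lit 7) (nat_lit 5) (nat_lit 6) L39977 (by decide +kernel)
theorem L39979 : W_12 (nat_lit 8) (nat_lit 0x200004001200090000000000000000000000000000000) (nat_lit 0x0) (nat_lit 0x4000300018000800050002e001c000e0005000000000000000000) := Q_12 (nat_lit 107) (C_12 L39810 (C_12 L39975 (C_12 L39685 (C_12 L39978 N_12)))) (by decide +kernel)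
theorem L39980 : W_12 (nat_lit 6) (nat_lit 0x200004001200090000000000000000000000000000000) (nat_lit 0x0) (nat_lit 0x5000f8001c0030000d00008000400000000000000000000000000) := Q_12 (nat_lit 175) (C_12 L32038 (C_12 L33440 (C_12 L32216 (C_12 L39963 N_12)))) (by decide +kernel)
theorem L39981 : W_12 (nat_lit 9) (nat_lit 0x200000001200090000000000000000000000000000000) (nat_lit 0x0) (nat_lit 0x5000f8001c003e000d0002e001c000e0007000000000000000000) := Q_12 (nat_lit 158) (C_12 L39959 (C_12 L39964 (C_12 L39973 (C_12 L39974 (C_12 L39936 (C_12 L39979 (C_12 L39980 N_12))))))) (by decide +kernel)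
theorem L39982 : W_12 (nat_lit 5) (nat_lit 0x200004001200090000000000000000000000000000000) (nat_lit 0x0) (nat_lit 0x180008000400028001c000e0005000000000000000000) := Q_12 (nat_lit 107) (C_12 L39975 (C_12 L39978 (C_12 L39685 N_12))) (by decide +kernel)
theorem L39983 : W_12 (nat_lit 6) (nat_lit 0x200004001200090000000000000000000000000000000) (nat_lit 0x0) (nat_lit 0xe8001c0032000c00068001c00080000000000000000000000) := Q_12 (nat_lit 175) (C_12 L33451 (C_12 L32216 (C_12 L33403 N_12))) (by decide +kernel)
theorem L39984 : W_12 (nat_lit 6) (nat_lit 0x200004001200090000000000000000000000000000000) (nat_lit 0x0) (nat_lit 0x48000c001a000c00068001c000a0000000000000000000000) := Q_12 (nat_lit 107) (C_12 L39975 (C_12 L39854 (C_12 L39589 N_12))) (by decide +kernel)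
theorem L39985 : W_12 (nat_lit 6) (nat_lit 0x200004001200090000000000000000000000000000000) (nat_lit 0x0) (nat_lit 0x400014001a000c00060003c000e0001000000000000000000) := Q_12 (nat_lit 107) (C_12 L39978 (C_12 L39854 (C_12 L39576 N_12))) (by decide +kernel)
theorem L39986 : W_12 (nat_lit 9) (nat_lit 0x200004001200090000000000000000000000000000000) (nat_lit 0x0) (nat_lit 0x40001c001a000c0004c003c000e0001000000000000000000) := Q_12 (nat_lit 107) (C_12 L39978 (C_12 L39854 (C_12 L39700 (C_12 L39585 N_12)))) (by decide +kernel)
theorem L39987 : W_12 (nat_lit 5) (nat_lit 0x200004001200090000000000000000000000000000000) (nat_lit 0x0) (nat_lit 0x28001c000a000c00068001c00000000000000000000000000) := Q_12 (nat_lit 175) (C_12 L39917 (C_12 L33403 N_12)) (by decide +kernel)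
theorem L39988 : W_12 (nat_lit 2) (nat_lit 0x40003c00040012000b8000000000000000000000000000000) (nat_lit 0x0) (nat_lit 0x1000000008000400000000000000000000000000000000000) := D_12 (nat_lit 142) (nat_lit 192) (nat_lit 159) (nat_lit 6) (nat_lit 5) (nat_lit 11) (nat_lit 7) (nat_lit 6) (nat_lit 7) (by decide +kernel)
theorem L39989 : W_12 (nat_lit 3) (nat_lit 0x3c00040012000b8000000000000000000000000000000) (nat_lit 0x0) (nat_lit 0xd000000008000400000000000000000000000000000000000) := T_12 (nat_lit 194) (nat_lit 195) (nat_lit 3) (nat_lit 4) (nat_lit 10) L39988 (by decide +kernel)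
theorem L39990 : W_12 (nat_lit 4) (nat_lit 0x3800040012000b8000000000000000000000000000000) (nat_lit 0x0) (nat_lit 0xd800040008000400000000000000000000000000000000000) := T_12 (nat_lit 174) (nat_lit 191) (nat_lit 5) (nat_lit 5) (nat_lit 7) L39989 (by decide +kernel)
theorem L39991 : W_12 (nat_lit 5) (nat_lit 0x380004001200098000000000000000000000000000000) (nat_lit 0x0) (nat_lit 0xd800040008000400020001000000000000000000000000000) := T_12 (nat_lit 125) (nat_lit 108) (nat_lit 6) (nat_lit 5) (nat_lit 10) L39990 (by decide +kernel)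
theorem L39992 : W_12 (nat_lit 6) (nat_lit 0x280004001200098000000000000000000000000000000) (nat_lit 0x0) (nat_lit 0xf800140008000400020001000000000000000000000000000) := T_12 (nat_lit 176) (nat_lit 193) (nat_lit 7) (nat_lit 5) (nat_lit 7) L39991 (by decide +kernel)
theorem L39993 : W_12 (nat_lit 7) (nat_lit 0x280004001200090000000000000000000000000000000) (nat_lit 0x0) (nat_lit 0xf800140008000400028001400000000000000000000000000) := T_12 (nat_lit 123) (nat_lit 106) (nat_lit 4) (nat_lit 5) (nat_lit 10) L39992 (by decide +kernel)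
theorem L39994 : W_12 (nat_lit 8) (nat_lit 0x200004001200090000000000000000000000000000000) (nat_lit 0x0) (nat_lit 0xf8001c0038000c00068001400000000000000000000000000) := Q_12 (nat_lit 175) (C_12 L39993 (C_12 L33403 (C_12 L32216 N_12))) (by decide +kernel)
theorem L39995 : W_12 (nat_lit 7) (nat_lit 0x200004001200090000000000000000000000000000000) (nat_lit 0x0) (nat_lit 0xe8001c003a000c00008000c00020000000000000000000000) := Q_12 (nat_lit 175) (C_12 L39917 (C_12 L32216 (C_12 L33374 (C_12 L32069 N_12)))) (by decide +kernel)
theorem L39996 : W_12 (nat_lit 10) (nat_lit 0x200000001200090000000000000000000000000000000) (nat_lit 0x0) (nat_lit 0xf8001c003e000c0006c003c000e0005000000000000000000) := Q_12 (nat_lit 158) (C_12 L39982 (C_12 L39983 (C_12 L39984 (C_12 L39936 (C_12 L39985 (C_12 L39986 (C_12 L39987 (C_12 L39994 (C_12 L39995 N_12))))))))) (by decide +kernel)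
theorem L40003 : W_12 (nat_lit 8) (nat_lit 0x200004001200090000000000000000000000000000000) (nat_lit 0x0) (nat_lit 0x100038001c000a000100008001c000e0006000000000000000000) := Q_12 (nat_lit 175) (C_12 L32069 (C_12 L32038 (C_12 L40002 (C_12 L39917 N_12)))) (by decide +kernel)
theorem L40008 : W_12 (nat_lit 7) (nat_lit 0x200004001200090000000000000000000000000000000) (nat_lit 0x0) (nat_lit 0x18000800040004c003c000e0005000000000000000000) := Q_12 (nat_lit 107) (C_12 L39978 (C_12 L39585 (C_12 L40007 (C_12 L39685 N_12)))) (by decide +kernel)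
theorem L40009 : W_12 (nat_lit 4) (nat_lit 0x200006001200090000000000000000000000000000000) (nat_lit 0x0) (nat_lit 0x400000001000000018000c0004000000000000000000) := T_12 (nat_lit 107) (nat_lit 174) (nat_lit 5) (nat_lit 5) (nat_lit 6) L39665 (by decide +kernel)
theorem L40010 : W_12 (nat_lit 5) (nat_lit 0x200004001200090000000000000000000000000000000) (nat_lit 0x0) (nat_lit 0x400004001a000d000000018000c0004000000000000000000) := Q_12 (nat_lit 157) (C_12 L40009 (C_12 L39966 N_12)) (by decide +kernel)
theorem L40011 : W_12 (nat_lit 9) (nat_lit 0x200000001200090000000000000000000000000000000) (nat_lit 0x0) (nat_lit 0x5000f8001c003e000d0004c003c000e0007000000000000000000) := Q_12 (nat_lit 158) (C_12 L40003 (C_12 L39980 (C_12 L39973 (C_12 L39995 (C_12 L40008 (C_12 L40010 N_12)))))) (by decide +kernel)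
theorem L40015 : W_12 (nat_lit 5) (nat_lit 0x2000000013000b0000800060006000000000000000000) (nat_lit 0x0) (nat_lit 0x140001800000018000c000200000) := T_12 (nat_lit 87) (nat_lit 88) (nat_lit 2) (nat_lit 2) (nat_lit 5) L40014 (by decide +kernel)
theorem L40016 : W_12 (nat_lit 6) (nat_lit 0x2000000013000b0000800060004000000000000000000) (nat_lit 0x0) (nat_lit 0x140001800200038000c000200000) := T_12 (nat_lit 73) (nat_lit 57) (nat_lit 6) (nat_lit 5) (nat_lit 7) L40015 (by decide +kernel)
theorem L40017 : W_12 (nat_lit 7) (nat_lit 0x200000001300090000800060004000000000000000000) (nat_lit 0x0) (nat_lit 0x6000140001800200038000c000200000) := T_12 (nat_lit 125) (nat_lit 126) (nat_lit 1) (nat_lit 8) (nat_lit 7) L40016 (by decide +kernel)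
theorem L40018 : W_12 (nat_lit 8) (nat_lit 0x200000001200090000800060004000000000000000000) (nat_lit 0x0) (nat_lit 0x200010006000140001800200038000c000200000) := T_12 (nat_lit 140) (nat_lit 157) (nat_lit 5) (nat_lit 5) (nat_lit 5) L40017 (by decide +kernel)
theorem L40019 : W_12 (nat_lit 9) (nat_lit 0x200000001200090000800060000000000000000000000) (nat_lit 0x0) (nat_lit 0x200010006000140009800600038000c000200000) := T_12 (nat_lit 74) (nat_lit 91) (nat_lit 6) (nat_lit 5) (nat_lit 8) L40018 (by decide +kernel)
theorem L40020 : W_12 (nat_lit 10) (nat_lit 0x200000001200090000800040000000000000000000000) (nat_lit 0x0) (nat_lit 0x20001000600014000b800700038000c000200000) := T_12 (nat_lit 89) (nat_lit 72) (nat_lit 4) (nat_lit 5) (nat_lit 8) L40019 (by decide +kernel)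
theorem L40021 : W_12 (nat_lit 2) (nat_lit 0x200000001f00090000800040000000000000000000000) (nat_lit 0x0) (nat_lit 0x4000000030000000000000000000000000000000000000000) := D_12 (nat_lit 160) (nat_lit 161) (nat_lit 194) (nat_lit 3) (nat_lit 4) (nat_lit 8) (nat_lit 6) (nat_lit 7) (nat_lit 11) (by decide +kernel)
theorem L40022 : W_12 (nat_lit 3) (nat_lit 0x200000001700090000800040000000000000000000000) (nat_lit 0x0) (nat_lit 0x4000000030000800040000000000000000000000000000000) := T_12 (nat_lit 143) (nat_lit 126) (nat_lit 2) (nat_lit 4) (nat_lit 8) L40021 (by decide +kernel)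
theorem L40023 : W_12 (nat_lit 4) (nat_lit 0x200000001300090000800040000000000000000000000) (nat_lit 0x0) (nat_lit 0x4000000038000c00040000000000000000000000000000000) := T_12 (nat_lit 142) (nat_lit 159) (nat_lit 7) (nat_lit 5) (nat_lit 5) L40022 (by decide +kernel)
theorem L40024 : W_12 (nat_lit 5) (nat_lit 0x200000001200090000800040000000000000000000000) (nat_lit 0x0) (nat_lit 0x400000003a000d00040000000000000000000000000000000) := T_12 (nat_lit 140) (nat_lit 157) (nat_lit 5) (nat_lit 5) (nat_lit 5) L40023 (by decide +kernel)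
theorem L40025 : W_12 (nat_lit 11) (nat_lit 0x200000001200090000800000000000000000000000000) (nat_lit 0x0) (nat_lit 0x600010003a000d000600034001f800f00038000c000200000) := Q_12 (nat_lit 90) (C_12 L31959 (C_12 L39864 (C_12 L39755 (C_12 L40020 (C_12 L40024 N_12))))) (by decide +kernel)
theorem L40026 : W_12 (nat_lit 8) (nat_lit 0x200000001200090000800000000000000000000000000) (nat_lit 0x0) (nat_lit 0xe8001c00360009000600034000e0001000000000000000000) := Q_12 (nat_lit 158) (C_12 L39909 (C_12 L39804 (C_12 L39576 N_12))) (by decide +kernel)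
theorem L40027 : W_12 (nat_lit 2) (nat_lit 0x200000001600090000c00060002000200000000000000) (nat_lit 0x0) (nat_lit 0x100018000000000) := D_12 (nat_lit 56) (nat_lit 40) (nat_lit 39) (nat_lit 6) (nat_lit 5) (nat_lit 6) (nat_lit 5) (nat_lit 5) (nat_lit 2) (by decide +kernel)
theorem L40028 : W_12 (nat_lit 3) (nat_lit 0x200000001600090000800060002000200000000000000) (nat_lit 0x0) (nat_lit 0x4000000000000400000000000100018000000000) := T_12 (nat_lit 106) (nat_lit 158) (nat_lit 4) (nat_lit 5) (nat_lit 9) L40027 (by decide +kernel)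
theorem L40029 : W_12 (nat_lit 4) (nat_lit 0x200000001600090000800060002000000000000000000) (nat_lit 0x0) (nat_lit 0x4000000000000400000004000300018000000000) := T_12 (nat_lit 57) (nat_lit 74) (nat_lit 6) (nat_lit 5) (nat_lit 7) L40028 (by decide +kernel)
theorem L40030 : W_12 (nat_lit 5) (nat_lit 0x200000001600090000800060000000000000000000000) (nat_lit 0x0) (nat_lit 0x4000000020000400000006000300018000000000) := T_12 (nat_lit 73) (nat_lit 125) (nat_lit 7) (nat_lit 5) (nat_lit 4) L40029 (by decide +kernel)
theorem L40031 : W_12 (nat_lit 6) (nat_lit 0x200000001200090000800060000000000000000000000) (nat_lit 0x0) (nat_lit 0xc000400020000400000006000300018000000000) := T_12 (nat_lit 142) (nat_lit 159) (nat_lit 7) (nat_lit 5) (nat_lit 5) L40030 (by decide +kernel)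
theorem L40032 : W_12 (nat_lit 7) (nat_lit 0x200000001200090000800040000000000000000000000) (nat_lit 0x0) (nat_lit 0xc000400020000400020007000300018000000000) := T_12 (nat_lit 89) (nat_lit 72) (nat_lit 4) (nat_lit 5) (nat_lit 8) L40031 (by decide +kernel)
theorem L40033 : W_12 (nat_lit 2) (nat_lit 0x2000000016000900018000c0002000080000000000000) (nat_lit 0x0) (nat_lit 0x10000c000000000) := D_12 (nat_lit 56) (nat_lit 38) (nat_lit 39) (nat_lit 4) (nat_lit 5) (nat_lit 6) (nat_lit 7) (nat_lit 5) (nat_lit 2) (by decide +kernel)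
theorem L40034 : W_12 (nat_lit 3) (nat_lit 0x2000000016000900008000c0002000080000000000000) (nat_lit 0x0) (nat_lit 0x400000000000100000000000010000c000000000) := T_12 (nat_lit 108) (nat_lit 158) (nat_lit 6) (nat_lit 5) (nat_lit 9) L40033 (by decide +kernel)
theorem L40035 : W_12 (nat_lit 4) (nat_lit 0x2000000016000900008000c0002000000000000000000) (nat_lit 0x0) (nat_lit 0x400000000000100000000100018000c000000000) := T_12 (nat_lit 55) (nat_lit 72) (nat_lit 4) (nat_lit 5) (nat_lit 7) L40034 (by decide +kernel)
theorem L40036 : W_12 (nat_lit 5) (nat_lit 0x2000000016000900008000c0000000000000000000000) (nat_lit 0x0) (nat_lit 0x400000002000100000000300018000c000000000) := T_12 (nat_lit 73) (nat_lit 125) (nat_lit 7) (nat_lit 5) (nat_lit 4) L40035 (by decide +kernel)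
theorem L40037 : W_12 (nat_lit 6) (nat_lit 0x2000000012000900008000c0000000000000000000000) (nat_lit 0x0) (nat_lit 0xc00040002000100000000300018000c000000000) := T_12 (nat_lit 142) (nat_lit 159) (nat_lit 7) (nat_lit 5) (nat_lit 5) L40036 (by decide +kernel)
theorem L40038 : W_12 (nat_lit 7) (nat_lit 0x200000001200090000800040000000000000000000000) (nat_lit 0x0) (nat_lit 0xc00040002000100008000700018000c000000000) := T_12 (nat_lit 91) (nat_lit 74) (nat_lit 6) (nat_lit 5) (nat_lit 8) L40037 (by decide +kernel)
theorem L40039 : W_12 (nat_lit 2) (nat_lit 0x2000000016000b0000800060000000000000000000000) (nat_lit 0x0) (nat_lit 0x4000000040000400000000000000000000000000) := D_12 (nat_lit 106) (nat_lit 158) (nat_lit 126) (nat_lit 4) (nat_lit 5) (nat_lit 9) (nat_lit 0) (nat_lit 8) (nat_lit 7) (by decide +kernel)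
theorem L40040 : W_12 (nat_lit 3) (nat_lit 0x200000001600090000800060000000000000000000000) (nat_lit 0x0) (nat_lit 0x4000000060000400000002000000000000000000) := T_12 (nat_lit 125) (nat_lit 73) (nat_lit 7) (nat_lit 5) (nat_lit 4) L40039 (by decide +kernel)
theorem L40041 : W_12 (nat_lit 4) (nat_lit 0x200000001200090000800060000000000000000000000) (nat_lit 0x0) (nat_lit 0xc000400060000400000002000000000000000000) := T_12 (nat_lit 142) (nat_lit 159) (nat_lit 7) (nat_lit 5) (nat_lit 5) L40040 (by decide +kernel)
theorem L40042 : W_12 (nat_lit 5) (nat_lit 0x200000001200090000800040000000000000000000000) (nat_lit 0x0) (nat_lit 0xc000400060000400020003000000000000000000) := T_12 (nat_lit 89) (nat_lit 72) (nat_lit 4) (nat_lit 5) (nat_lit 8) L40041 (by decide +kernel)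
theorem L40043 : W_12 (nat_lit 2) (nat_lit 0x2000000016000b00008000c0000000000000000000000) (nat_lit 0x0) (nat_lit 0x100040000400000000000000000000000000) := D_12 (nat_lit 126) (nat_lit 106) (nat_lit 140) (nat_lit 0) (nat_lit 8) (nat_lit 7) (nat_lit 1) (nat_lit 8) (nat_lit 7) (by decide +kernel)
theorem L40044 : W_12 (nat_lit 3) (nat_lit 0x2000000016000900008000c0000000000000000000000) (nat_lit 0x0) (nat_lit 0x100060000400000002000000000000000000) := T_12 (nat_lit 125) (nat_lit 73) (nat_lit 7) (nat_lit 5) (nat_lit 4) L40043 (by decide +kernel)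
theorem L40045 : W_12 (nat_lit 4) (nat_lit 0x2000000012000900008000c0000000000000000000000) (nat_lit 0x0) (nat_lit 0x8000500060000400000002000000000000000000) := T_12 (nat_lit 142) (nat_lit 159) (nat_lit 7) (nat_lit 5) (nat_lit 5) L40044 (by decide +kernel)
theorem L40046 : W_12 (nat_lit 5) (nat_lit 0x200000001200090000800040000000000000000000000) (nat_lit 0x0) (nat_lit 0x8000500060000400080006000000000000000000) := T_12 (nat_lit 91) (nat_lit 74) (nat_lit 6) (nat_lit 5) (nat_lit 8) L40045 (by decide +kernel)
theorem L40047 : W_12 (nat_lit 8) (nat_lit 0x200000001200090000800000000000000000000000000) (nat_lit 0x0) (nat_lit 0xc0005000600014000e000700038001c000000000) := Q_12 (nat_lit 90) (C_12 L31959 (C_12 L39564 (C_12 L40032 (C_12 L40038 (C_12 L40042 (C_12 L40046 N_12)))))) (by decide +kernel)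
theorem L40048 : W_12 (nat_lit 6) (nat_lit 0x200000001200090000800000000000000000000000000) (nat_lit 0x0) (nat_lit 0x400014001e000d000000014000e0001000000000000000000) := Q_12 (nat_lit 158) (C_12 L39978 (C_12 L39854 (C_12 L39909 N_12))) (by decide +kernel)
theorem L40049 : W_12 (nat_lit 8) (nat_lit 0x200000001200090000800000000000000000000000000) (nat_lit 0x0) (nat_lit 0xe8001c003e000c000200014000e0001000000000000000000) := Q_12 (nat_lit 158) (C_12 L39978 (C_12 L39854 (C_12 L39804 N_12))) (by decide +kernel)
theorem L40050 : W_12 (nat_lit 2) (nat_lit 0x200006001a000d0000c00000000000000000000000000) (nat_lit 0x0) (nat_lit 0x100018000000000000000000000000000000000000000) := D_12 (nat_lit 159) (nat_lit 176) (nat_lit 160) (nat_lit 7) (nat_lit 5) (nat_lit 6) (nat_lit 2) (nat_lit 4) (nat_lit 9) (by decide +kernel)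
theorem L40051 : W_12 (nat_lit 3) (nat_lit 0x2000060012000d0000c00000000000000000000000000) (nat_lit 0x0) (nat_lit 0x100018000c00000000000000000000000000000000000) := T_12 (nat_lit 143) (nat_lit 142) (nat_lit 1) (nat_lit 8) (nat_lit 8) L40050 (by decide +kernel)
theorem L40052 : W_12 (nat_lit 4) (nat_lit 0x2000040012000d0000c00000000000000000000000000) (nat_lit 0x0) (nat_lit 0x14001a000c00000000000000000000000000000000000) := T_12 (nat_lit 157) (nat_lit 174) (nat_lit 5) (nat_lit 5) (nat_lit 6) L40051 (by decide +kernel)
theorem L40053 : W_12 (nat_lit 5) (nat_lit 0x200004001200090000c00000000000000000000000000) (nat_lit 0x0) (nat_lit 0x14001a000c00060000000000000000000000000000000) := T_12 (nat_lit 126) (nat_lit 125) (nat_lit 0) (nat_lit 8) (nat_lit 7) L40052 (by decide +kernel)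
theorem L40054 : W_12 (nat_lit 6) (nat_lit 0x200004001200090000800000000000000000000000000) (nat_lit 0x0) (nat_lit 0x14001a000c00060000400020000000000000000000000) := T_12 (nat_lit 106) (nat_lit 89) (nat_lit 4) (nat_lit 5) (nat_lit 9) L40053 (by decide +kernel)
theorem L40055 : W_12 (nat_lit 8) (nat_lit 0x200000001200090000800000000000000000000000000) (nat_lit 0x0) (nat_lit 0xe8001c003e000c000600034000a0000000000000000000000) := Q_12 (nat_lit 158) (C_12 L39593 (C_12 L39854 (C_12 L39804 (C_12 L39576 (C_12 L40054 N_12))))) (by decide +kernel)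
theorem L40056 : W_12 (nat_lit 9) (nat_lit 0x200000001200090000800000000000000000000000000) (nat_lit 0x0) (nat_lit 0x14001e000d00060000400060007000380014000000000) := Q_12 (nat_lit 158) (C_12 L39978 (C_12 L40054 (C_12 L39909 (C_12 L39817 N_12)))) (by decide +kernel)
theorem L40057 : W_12 (nat_lit 12) (nat_lit 0x200000001200090000000000000000000000000000000) (nat_lit 0x0) (nat_lit 0xe8001c003e000d00060003f001f800f00038001c000200000) := Q_12 (nat_lit 107) (C_12 L39686 (C_12 L40025 (C_12 L39776 (C_12 L39856 (C_12 L40026 (C_12 L40047 (C_12 L40048 (C_12 L40049 (C_12 L40055 (C_12 L40056 N_12)))))))))) (by decide +kernel)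
theorem L40058 : W_12 (nat_lit 6) (nat_lit 0x200000001a00090000000000000000000000000000000) (nat_lit 0x0) (nat_lit 0x6000100038000100068002000100008000000000000000000) := Q_12 (nat_lit 126) (C_12 L32333 (C_12 L32329 N_12)) (by decide +kernel)
theorem L40059 : W_12 (nat_lit 8) (nat_lit 0x200000001200090000000000000000000000000000000) (nat_lit 0x0) (nat_lit 0x6000100078000d00068002000100008000000000000000000) := Q_12 (nat_lit 143) (C_12 L39957 (C_12 L39950 (C_12 L40058 (C_12 L39946 (C_12 L39956 N_12))))) (by decide +kernel)
theorem L40060 : W_12 (nat_lit 15) (nat_lit 0x200000001200080000000000000000000000000000000) (nat_lit 0x0) (nat_lit 0x2000f000f8001f007f800dc007e003f003f801fc0038001c000200000) := Q_12 (nat_lit 124) (C_12 L39682 (C_12 L39687 (C_12 L39823 (C_12 L39867 (C_12 L39943 (C_12 L39958 (C_12 L39981 (C_12 L39996 (C_12 L40011 (C_12 L40057 (C_12 L40059 N_12))))))))))) (by decide +kernel)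
theorem L59812 : W_12 (nat_lit 2) (nat_lit 0x4200300028801fc0084000000000000000000000000000000) (nat_lit 0x0) (nat_lit 0x1000080002000000000000000000000000000000000000000000000000) := D_12 (nat_lit 211) (nat_lit 228) (nat_lit 193) (nat_lit 4) (nat_lit 7) (nat_lit 13) (nat_lit 7) (nat_lit 6) (nat_lit 8) (by decide +kernel)
theorem L59813 : W_12 (nat_lit 3) (nat_lit 0x4200200028801fc0084000000000000000000000000000000) (nat_lit 0x0) (nat_lit 0x1000080002000100000000000020000000000000000000000000000000) := T_12 (nat_lit 176) (nat_lit 125) (nat_lit 7) (nat_lit 6) (nat_lit 7) L59812 (by decide +kernel)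
theorem L59814 : W_12 (nat_lit 4) (nat_lit 0x4000200028801fc0084000000000000000000000000000000) (nat_lit 0x0) (nat_lit 0x1000080002200110000000000020000000000000000000000000000000) := T_12 (nat_lit 189) (nat_lit 172) (nat_lit 6) (nat_lit 2) (nat_lit 11) L59813 (by decide +kernel)
theorem L59815 : W_12 (nat_lit 5) (nat_lit 0x4000200020801fc0084000000000000000000000000000000) (nat_lit 0x0) (nat_lit 0x100008000220011000c000000020000000000000000000000000000000) := T_12 (nat_lit 159) (nat_lit 158) (nat_lit 3) (nat_lit 2) (nat_lit 8) L59814 (by decide +kernel)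
theorem L59816 : W_12 (nat_lit 6) (nat_lit 0x4000200020801f80084000000000000000000000000000000) (nat_lit 0x0) (nat_lit 0x100008000220011000c400040020000000000000000000000000000000) := T_12 (nat_lit 138) (nat_lit 154) (nat_lit 1) (nat_lit 5) (nat_lit 8) L59815 (by decide +kernel)
theorem L59817 : W_12 (nat_lit 7) (nat_lit 0x4000200020001f80084000000000000000000000000000000) (nat_lit 0x0) (nat_lit 0x100008000220011000dc00040020000000000000000000000000000000) := T_12 (nat_lit 155) (nat_lit 156) (nat_lit 1) (nat_lit 6) (nat_lit 8) L59816 (by decide +kernel)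
theorem L59818 : W_12 (nat_lit 8) (nat_lit 0x4000200020001f00084000000000000000000000000000000) (nat_lit 0x0) (nat_lit 0x100008000220011000dc000c0022000000000000000000000000000000) := T_12 (nat_lit 139) (nat_lit 121) (nat_lit 0) (nat_lit 6) (nat_lit 8) L59817 (by decide +kernel)
theorem L59819 : W_12 (nat_lit 9) (nat_lit 0x4000200000001f00084000000000000000000000000000000) (nat_lit 0x0) (nat_lit 0x100008000220011006dc000c0022000000000000000000000000000000) := T_12 (nat_lit 161) (nat_lit 162) (nat_lit 3) (nat_lit 5) (nat_lit 8) L59818 (by decide +kernel)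
theorem L59820 : W_12 (nat_lit 10) (nat_lit 0x4000200000001f00080000000000000000000000000000000) (nat_lit 0x0) (nat_lit 0x100008000220011006dc000c002e000000000000000000000000000000) := T_12 (nat_lit 122) (nat_lit 123) (nat_lit 0) (nat_lit 7) (nat_lit 8) L59819 (by decide +kernel)
theorem L59821 : W_12 (nat_lit 11) (nat_lit 0x4000200000001e00080000000000000000000000000000000) (nat_lit 0x0) (nat_lit 0x100008000220011006dc001c006e000000000000000000000000000000) := T_12 (nat_lit 140) (nat_lit 126) (nat_lit 2) (nat_lit 4) (nat_lit 8) L59820 (by decide +kernel)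
theorem L59822 : W_12 (nat_lit 12) (nat_lit 0x4000200000001a00080000000000000000000000000000000) (nat_lit 0x0) (nat_lit 0x100008000220011006dc005c016e000000000000000000000000000000) := T_12 (nat_lit 142) (nat_lit 128) (nat_lit 2) (nat_lit 5) (nat_lit 8) L59821 (by decide +kernel)
theorem L59823 : W_12 (nat_lit 13) (nat_lit 0x200000001a00080000000000000000000000000000000) (nat_lit 0x0) (nat_lit 0x100008000620011007dc005c016e000000000000000000000000000000) := T_12 (nat_lit 194) (nat_lit 160) (nat_lit 6) (nat_lit 7) (nat_lit 11) L59822 (by decide +kernel)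
theorem L59824 : W_12 (nat_lit 2) (nat_lit 0x200000001f00080000000000000000000000000000000) (nat_lit 0x0) (nat_lit 0x70000000000000000000000000000000000000000) := D_12 (nat_lit 161) (nat_lit 162) (nat_lit 160) (nat_lit 3) (nat_lit 5) (nat_lit 8) (nat_lit 3) (nat_lit 4) (nat_lit 8) (by decide +kernel)
theorem L59825 : W_12 (nat_lit 3) (nat_lit 0x200000001e00080000000000000000000000000000000) (nat_lit 0x0) (nat_lit 0x70000100040000000000000000000000000000000) := T_12 (nat_lit 140) (nat_lit 126) (nat_lit 2) (nat_lit 4) (nat_lit 8) L59824 (by decide +kernel)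
theorem L59826 : W_12 (nat_lit 4) (nat_lit 0x200000001a00080000000000000000000000000000000) (nat_lit 0x0) (nat_lit 0x70000500140000000000000000000000000000000) := T_12 (nat_lit 142) (nat_lit 128) (nat_lit 2) (nat_lit 5) (nat_lit 8) L59825 (by decide +kernel)
theorem L59827 : W_12 (nat_lit 14) (nat_lit 0x200000001200080000000000000000000000000000000) (nat_lit 0x0) (nat_lit 0x100008000620011007dc00dc077e03bc00100008000000000000000000) := Q_12 (nat_lit 143) (C_12 L31886 (C_12 L59798 (C_12 L31832 (C_12 L59811 (C_12 L59823 (C_12 L59806 (C_12 L59826 N_12))))))) (by decide +kernel)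
theorem L61736 : W_12 (nat_lit 3) (nat_lit 0x200000001200090000c00060000000000000000000000) (nat_lit 0x0) (nat_lit 0x300180004000000000000000000) := T_12 (nat_lit 91) (nat_lit 74) (nat_lit 6) (nat_lit 5) (nat_lit 8) L31960 (by decide +kernel)
theorem L61737 : W_12 (nat_lit 4) (nat_lit 0x200000001200090000c00040000000000000000000000) (nat_lit 0x0) (nat_lit 0x3001a0005000000000000000000) := T_12 (nat_lit 89) (nat_lit 72) (nat_lit 4) (nat_lit 5) (nat_lit 8) L61736 (by decide +kernel)
theorem L61738 : W_12 (nat_lit 2) (nat_lit 0x2000000013000d0000d001c0000000000000000000000) (nat_lit 0x0) (nat_lit 0x3000000008000000000000000000) := D_12 (nat_lit 109) (nat_lit 108) (nat_lit 75) (nat_lit 3) (nat_lit 4) (nat_lit 6) (nat_lit 7) (nat_lit 7) (nat_lit 4) (by decide +kernel)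
theorem L61739 : W_12 (nat_lit 3) (nat_lit 0x2000000013000d0000d000c0000000000000000000000) (nat_lit 0x0) (nat_lit 0x3000300008000000000000000000) := T_12 (nat_lit 92) (nat_lit 93) (nat_lit 1) (nat_lit 8) (nat_lit 5) L61738 (by decide +kernel)
theorem L61740 : W_12 (nat_lit 4) (nat_lit 0x2000000013000d0000c000c0000000000000000000000) (nat_lit 0x0) (nat_lit 0x3300300008000000000000000000) := T_12 (nat_lit 104) (nat_lit 105) (nat_lit 2) (nat_lit 2) (nat_lit 6) L61739 (by decide +kernel)
theorem L61741 : W_12 (nat_lit 5) (nat_lit 0x2000000013000d0000c00040000000000000000000000) (nat_lit 0x0) (nat_lit 0x330038000c000000000000000000) := T_12 (nat_lit 91) (nat_lit 74) (nat_lit 6) (nat_lit 5) (nat_lit 8) L61740 (by decide +kernel)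
theorem L61742 : W_12 (nat_lit 6) (nat_lit 0x200000001300090000c00040000000000000000000000) (nat_lit 0x0) (nat_lit 0x6000330038000c000000000000000000) := T_12 (nat_lit 126) (nat_lit 125) (nat_lit 1) (nat_lit 8) (nat_lit 7) L61741 (by decide +kernel)
theorem L61743 : W_12 (nat_lit 7) (nat_lit 0x200000001200090000c00040000000000000000000000) (nat_lit 0x0) (nat_lit 0x200010006000330038000c000000000000000000) := T_12 (nat_lit 140) (nat_lit 157) (nat_lit 5) (nat_lit 5) (nat_lit 5) L61742 (by decide +kernel)
theorem L61744 : W_12 (nat_lit 2) (nat_lit 0x2000000013000d0001c000f0000000000000000000000) (nat_lit 0x0) (nat_lit 0x8000000000000c00000000000000000) := D_12 (nat_lit 71) (nat_lit 123) (nat_lit 70) (nat_lit 4) (nat_lit 4) (nat_lit 8) (nat_lit 0) (nat_lit 6) (nat_lit 5) (by decide +kernel)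
theorem L61745 : W_12 (nat_lit 3) (nat_lit 0x2000000013000d0001c00070000000000000000000000) (nat_lit 0x0) (nat_lit 0x8000000080004c00000000000000000) := T_12 (nat_lit 91) (nat_lit 74) (nat_lit 6) (nat_lit 5) (nat_lit 8) L61744 (by decide +kernel)
theorem L61746 : W_12 (nat_lit 4) (nat_lit 0x2000000013000d0001c00060000000000000000000000) (nat_lit 0x0) (nat_lit 0x8000000098004c00000000000000000) := T_12 (nat_lit 88) (nat_lit 87) (nat_lit 3) (nat_lit 2) (nat_lit 5) L61745 (by decide +kernel)
theorem L61747 : W_12 (nat_lit 5) (nat_lit 0x2000000013000d0000c00060000000000000000000000) (nat_lit 0x0) (nat_lit 0x8003000098004c00000000000000000) := T_12 (nat_lit 108) (nat_lit 109) (nat_lit 3) (nat_lit 4) (nat_lit 6) L61746 (by decide +kernel)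
theorem L61748 : W_12 (nat_lit 6) (nat_lit 0x2000000013000d0000c00040000000000000000000000) (nat_lit 0x0) (nat_lit 0x80030000b8005c00000000000000000) := T_12 (nat_lit 89) (nat_lit 72) (nat_lit 4) (nat_lit 5) (nat_lit 8) L61747 (by decide +kernel)
theorem L61749 : W_12 (nat_lit 7) (nat_lit 0x200000001300090000c00040000000000000000000000) (nat_lit 0x0) (nat_lit 0x680030000b8005c00000000000000000) := T_12 (nat_lit 126) (nat_lit 125) (nat_lit 1) (nat_lit 8) (nat_lit 7) L61748 (by decide +kernel)
theorem L61750 : W_12 (nat_lit 8) (nat_lit 0x200000001200090000c00040000000000000000000000) (nat_lit 0x0) (nat_lit 0x20001000680030000b8005c00000000000000000) := T_12 (nat_lit 140) (nat_lit 157) (nat_lit 5) (nat_lit 5) (nat_lit 5) L61749 (by decide +kernel)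
theorem L61751 : W_12 (nat_lit 2) (nat_lit 0x2000000013800da001c00070000000000000000000000) (nat_lit 0x0) (nat_lit 0x60001000000000000000000000000000000) := D_12 (nat_lit 138) (nat_lit 137) (nat_lit 120) (nat_lit 2) (nat_lit 1) (nat_lit 8) (nat_lit 0) (nat_lit 5) (nat_lit 8) (by decide +kernel)
theorem L61752 : W_12 (nat_lit 3) (nat_lit 0x2000000013000da001c00070000000000000000000000) (nat_lit 0x0) (nat_lit 0x10000e0001000000000000000000000000000000) := T_12 (nat_lit 139) (nat_lit 156) (nat_lit 5) (nat_lit 4) (nat_lit 5) L61751 (by decide +kernel)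
theorem L61753 : W_12 (nat_lit 4) (nat_lit 0x2000000013000d8001c00070000000000000000000000) (nat_lit 0x0) (nat_lit 0x10000e0007000000000000000000000000000000) := T_12 (nat_lit 121) (nat_lit 122) (nat_lit 2) (nat_lit 2) (nat_lit 7) L61752 (by decide +kernel)
theorem L61754 : W_12 (nat_lit 5) (nat_lit 0x2000000013000d0001c00070000000000000000000000) (nat_lit 0x0) (nat_lit 0x10000e000f000000000000800000000000000000) := T_12 (nat_lit 123) (nat_lit 71) (nat_lit 4) (nat_lit 4) (nat_lit 8) L61753 (by decide +kernel)
theorem L61755 : W_12 (nat_lit 6) (nat_lit 0x2000000012000d0001c00070000000000000000000000) (nat_lit 0x0) (nat_lit 0x30001e000f000000000000800000000000000000) := T_12 (nat_lit 140) (nat_lit 157) (nat_lit 5) (nat_lit 5) (nat_lit 5) L61754 (by decide +kernel)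
theorem L61756 : W_12 (nat_lit 7) (nat_lit 0x2000000012000d0001c00060000000000000000000000) (nat_lit 0x0) (nat_lit 0x30001e000f000000018000800000000000000000) := T_12 (nat_lit 88) (nat_lit 87) (nat_lit 3) (nat_lit 2) (nat_lit 5) L61755 (by decide +kernel)
theorem L61757 : W_12 (nat_lit 8) (nat_lit 0x2000000012000d0000c00060000000000000000000000) (nat_lit 0x0) (nat_lit 0x30001e000f003000018000800000000000000000) := T_12 (nat_lit 108) (nat_lit 109) (nat_lit 3) (nat_lit 4) (nat_lit 6) L61756 (by decide +kernel)
theorem L61758 : W_12 (nat_lit 9) (nat_lit 0x2000000012000d0000c00040000000000000000000000) (nat_lit 0x0) (nat_lit 0x30001e000f003000038001800000000000000000) := T_12 (nat_lit 89) (nat_lit 72) (nat_lit 4) (nat_lit 5) (nat_lit 8) L61757 (by decide +kernel)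
theorem L61759 : W_12 (nat_lit 10) (nat_lit 0x200000001200090000c00040000000000000000000000) (nat_lit 0x0) (nat_lit 0x30001e006f003000038001800000000000000000) := T_12 (nat_lit 126) (nat_lit 125) (nat_lit 0) (nat_lit 8) (nat_lit 7) L61758 (by decide +kernel)
theorem L61760 : W_12 (nat_lit 11) (nat_lit 0x200000001200090000800040000000000000000000000) (nat_lit 0x0) (nat_lit 0x30001e006f0037003b800dc00000000000000000) := Q_12 (nat_lit 106) (C_12 L61737 (C_12 L61743 (C_12 L61750 (C_12 L61759 N_12)))) (by decide +kernel)
theorem L61761 : W_12 (nat_lit 2) (nat_lit 0x200000001200090000800040005000000000000000000) (nat_lit 0x0) (nat_lit 0x2000280000000000000) := D_12 (nat_lit 73) (nat_lit 55) (nat_lit 57) (nat_lit 4) (nat_lit 5) (nat_lit 7) (nat_lit 6) (nat_lit 5) (nat_lit 7) (by decide +kernel)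
theorem L61762 : W_12 (nat_lit 3) (nat_lit 0x200000001200090000800040001000000000000000000) (nat_lit 0x0) (nat_lit 0x80006000280000000000000) := T_12 (nat_lit 74) (nat_lit 91) (nat_lit 6) (nat_lit 5) (nat_lit 8) L61761 (by decide +kernel)
theorem L61763 : W_12 (nat_lit 4) (nat_lit 0x200000001200090000800040000000000000000000000) (nat_lit 0x0) (nat_lit 0xa0007000280000000000000) := T_12 (nat_lit 72) (nat_lit 89) (nat_lit 4) (nat_lit 5) (nat_lit 8) L61762 (by decide +kernel)
theorem L61764 : W_12 (nat_lit 2) (nat_lit 0x2000000013000b00008000c0002000100014000000000) (nat_lit 0x0) (nat_lit 0x8000a00000) := D_12 (nat_lit 39) (nat_lit 23) (nat_lit 21) (nat_lit 6) (nat_lit 5) (nat_lit 5) (nat_lit 4) (nat_lit 5) (nat_lit 5) (by decide +kernel)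
theorem L61765 : W_12 (nat_lit 3) (nat_lit 0x2000000013000b00008000c0002000100010000000000) (nat_lit 0x0) (nat_lit 0x8000c000a00000) := T_12 (nat_lit 38) (nat_lit 55) (nat_lit 4) (nat_lit 5) (nat_lit 6) L61764 (by decide +kernel)
theorem L61766 : W_12 (nat_lit 4) (nat_lit 0x2000000013000b00008000c0002000100000000000000) (nat_lit 0x0) (nat_lit 0x28001c000a00000) := T_12 (nat_lit 40) (nat_lit 57) (nat_lit 6) (nat_lit 5) (nat_lit 6) L61765 (by decide +kernel)
theorem L61767 : W_12 (nat_lit 5) (nat_lit 0x2000000013000b00008000c0002000000000000000000) (nat_lit 0x0) (nat_lit 0x100000000000038001c000a00000) := T_12 (nat_lit 56) (nat_lit 108) (nat_lit 7) (nat_lit 5) (nat_lit 3) L61766 (by decide +kernel)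
theorem L61768 : W_12 (nat_lit 6) (nat_lit 0x2000000013000900008000c0002000000000000000000) (nat_lit 0x0) (nat_lit 0x6000100000000000038001c000a00000) := T_12 (nat_lit 125) (nat_lit 126) (nat_lit 1) (nat_lit 8) (nat_lit 7) L61767 (by decide +kernel)
theorem L61769 : W_12 (nat_lit 7) (nat_lit 0x2000000013000900008000c0000000000000000000000) (nat_lit 0x0) (nat_lit 0x6800100000000200038001c000a00000) := T_12 (nat_lit 73) (nat_lit 123) (nat_lit 5) (nat_lit 5) (nat_lit 4) L61768 (by decide +kernel)
theorem L61770 : W_12 (nat_lit 8) (nat_lit 0x2000000012000900008000c0000000000000000000000) (nat_lit 0x0) (nat_lit 0x200010006800100000000200038001c000a00000) := T_12 (nat_lit 140) (nat_lit 157) (nat_lit 5) (nat_lit 5) (nat_lit 5) L61769 (by decide +kernel)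
theorem L61771 : W_12 (nat_lit 9) (nat_lit 0x200000001200090000800040000000000000000000000) (nat_lit 0x0) (nat_lit 0x200010006800100008000600038001c000a00000) := T_12 (nat_lit 91) (nat_lit 74) (nat_lit 6) (nat_lit 5) (nat_lit 8) L61770 (by decide +kernel)
theorem L61772 : W_12 (nat_lit 12) (nat_lit 0x200000001200090000800000000000000000000000000) (nat_lit 0x0) (nat_lit 0x30001e006f0037003f800fc0038001c000a00000) := Q_12 (nat_lit 90) (C_12 L61760 (C_12 L31983 (C_12 L61763 (C_12 L61771 N_12)))) (by decide +kernel)
theorem L61773 : W_12 (nat_lit 5) (nat_lit 0x2000000012000900008000c0000000000000000000000) (nat_lit 0x0) (nat_lit 0x1000080006000100008001400000002000000000000000000) := T_12 (nat_lit 140) (nat_lit 157) (nat_lit 5) (nat_lit 5) (nat_lit 5) L58545 (by decide +kernel)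
theorem L61774 : W_12 (nat_lit 6) (nat_lit 0x200000001200090000800040000000000000000000000) (nat_lit 0x0) (nat_lit 0x1000080006000100008001400080006000000000000000000) := T_12 (nat_lit 91) (nat_lit 74) (nat_lit 6) (nat_lit 5) (nat_lit 8) L61773 (by decide +kernel)
theorem L61775 : W_12 (nat_lit 7) (nat_lit 0x200000001200090000800000000000000000000000000) (nat_lit 0x0) (nat_lit 0x10000800060001000080014000e0007000280000000000000) := Q_12 (nat_lit 90) (C_12 L61763 (C_12 L39564 (C_12 L61774 (C_12 L31983 N_12)))) (by decide +kernel)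
theorem L61776 : W_12 (nat_lit 2) (nat_lit 0x4000200000001a000d0002c00300000000000000000000000) (nat_lit 0x0) (nat_lit 0xc0004000000000000000000) := D_12 (nat_lit 91) (nat_lit 90) (nat_lit 74) (nat_lit 1) (nat_lit 8) (nat_lit 5) (nat_lit 4) (nat_lit 7) (nat_lit 8) (by decide +kernel)
theorem L61777 : W_12 (nat_lit 3) (nat_lit 0x4000200000001a000d0002c00100000000000000000000000) (nat_lit 0x0) (nat_lit 0x2c0014000000000000000000) := T_12 (nat_lit 93) (nat_lit 76) (nat_lit 6) (nat_lit 7) (nat_lit 8) L61776 (by decide +kernel)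
theorem L61778 : W_12 (nat_lit 4) (nat_lit 0x200000001a000d0002c00100000000000000000000000) (nat_lit 0x0) (nat_lit 0x40000000100000000000000002c0014000000000000000000) := T_12 (nat_lit 194) (nat_lit 160) (nat_lit 6) (nat_lit 7) (nat_lit 11) L61777 (by decide +kernel)
theorem L61779 : W_12 (nat_lit 5) (nat_lit 0x2000000012000d0002c00100000000000000000000000) (nat_lit 0x0) (nat_lit 0x40000000300008000000000002c0014000000000000000000) := T_12 (nat_lit 143) (nat_lit 161) (nat_lit 7) (nat_lit 7) (nat_lit 5) L61778 (by decide +kernel)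
theorem L61780 : W_12 (nat_lit 6) (nat_lit 0x2000000012000d0002c00000000000000000000000000) (nat_lit 0x0) (nat_lit 0x40000000300008000000000003c001c000000000000000000) := T_12 (nat_lit 92) (nat_lit 75) (nat_lit 7) (nat_lit 7) (nat_lit 4) L61779 (by decide +kernel)
theorem L61781 : W_12 (nat_lit 7) (nat_lit 0x2000000012000d0000c00000000000000000000000000) (nat_lit 0x0) (nat_lit 0x40000000300008000000030003c001c000000000000000000) := T_12 (nat_lit 109) (nat_lit 108) (nat_lit 3) (nat_lit 4) (nat_lit 6) L61780 (by decide +kernel)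
theorem L61782 : W_12 (nat_lit 8) (nat_lit 0x200000001200090000c00000000000000000000000000) (nat_lit 0x0) (nat_lit 0x40000000300008000600030003c001c000000000000000000) := T_12 (nat_lit 126) (nat_lit 125) (nat_lit 0) (nat_lit 8) (nat_lit 7) L61781 (by decide +kernel)
theorem L61783 : W_12 (nat_lit 9) (nat_lit 0x200000001200090000800000000000000000000000000) (nat_lit 0x0) (nat_lit 0x48000c00360008000680034003e001c000000000000000000) := Q_12 (nat_lit 106) (C_12 L39781 (C_12 L61782 N_12)) (by decide +kernel)
theorem L61784 : W_12 (nat_lit 6) (nat_lit 0x200000001200090000800000000000000000000000000) (nat_lit 0x0) (nat_lit 0x400060001000080004000e0007000280000000000000) := Q_12 (nat_lit 90) (C_12 L61763 (C_12 L60862 (C_12 L31986 (C_12 L31983 N_12)))) (by decide +kernel)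
theorem L61785 : W_12 (nat_lit 5) (nat_lit 0x2000000013000d0000800040000000000000000000000) (nat_lit 0x0) (nat_lit 0x4000000000003700180004000000000000000000) := T_12 (nat_lit 91) (nat_lit 74) (nat_lit 6) (nat_lit 5) (nat_lit 8) L58595 (by decide +kernel)
theorem L61786 : W_12 (nat_lit 6) (nat_lit 0x200000001300090000800040000000000000000000000) (nat_lit 0x0) (nat_lit 0x4000000060003700180004000000000000000000) := T_12 (nat_lit 126) (nat_lit 125) (nat_lit 1) (nat_lit 8) (nat_lit 7) L61785 (by decide +kernel)
theorem L61787 : W_12 (nat_lit 7) (nat_lit 0x200000001200090000800040000000000000000000000) (nat_lit 0x0) (nat_lit 0x6000100060003700180004000000000000000000) := T_12 (nat_lit 140) (nat_lit 157) (nat_lit 5) (nat_lit 5) (nat_lit 5) L61786 (by decide +kernel)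
theorem L61788 : W_12 (nat_lit 2) (nat_lit 0x2000000013800b4001e00060000000000000000000000) (nat_lit 0x0) (nat_lit 0x2000018000000000000000000000) := D_12 (nat_lit 88) (nat_lit 109) (nat_lit 87) (nat_lit 0) (nat_lit 7) (nat_lit 6) (nat_lit 3) (nat_lit 2) (nat_lit 5) (by decide +kernel)
theorem L61789 : W_12 (nat_lit 3) (nat_lit 0x2000000013800b4000e00060000000000000000000000) (nat_lit 0x0) (nat_lit 0x2003000018000000000000000000000) := T_12 (nat_lit 108) (nat_lit 121) (nat_lit 1) (nat_lit 6) (nat_lit 6) L61788 (by decide +kernel)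
theorem L61790 : W_12 (nat_lit 4) (nat_lit 0x2000000013800b0000e00060000000000000000000000) (nat_lit 0x0) (nat_lit 0x1000000006003000018000000000000000000000) := T_12 (nat_lit 122) (nat_lit 156) (nat_lit 6) (nat_lit 3) (nat_lit 9) L61789 (by decide +kernel)
theorem L61791 : W_12 (nat_lit 5) (nat_lit 0x2000000013800b0000c00060000000000000000000000) (nat_lit 0x0) (nat_lit 0x1000000006003300018000000000000000000000) := T_12 (nat_lit 105) (nat_lit 104) (nat_lit 3) (nat_lit 2) (nat_lit 6) L61790 (by decide +kernel)
theorem L61792 : W_12 (nat_lit 6) (nat_lit 0x2000000013000b0000c00060000000000000000000000) (nat_lit 0x0) (nat_lit 0x10000c0006003300018000000000000000000000) := T_12 (nat_lit 139) (nat_lit 138) (nat_lit 2) (nat_lit 2) (nat_lit 8) L61791 (by decide +kernel)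
theorem L61793 : W_12 (nat_lit 7) (nat_lit 0x2000000013000b0000800060000000000000000000000) (nat_lit 0x0) (nat_lit 0x50000c0006003700018000000000000000000000) := T_12 (nat_lit 106) (nat_lit 158) (nat_lit 4) (nat_lit 5) (nat_lit 9) L61792 (by decide +kernel)
theorem L61794 : W_12 (nat_lit 8) (nat_lit 0x200000001300090000800060000000000000000000000) (nat_lit 0x0) (nat_lit 0x50000c0066003700018000000000000000000000) := T_12 (nat_lit 125) (nat_lit 126) (nat_lit 1) (nat_lit 8) (nat_lit 7) L61793 (by decide +kernel)
theorem L61795 : W_12 (nat_lit 9) (nat_lit 0x200000001200090000800060000000000000000000000) (nat_lit 0x0) (nat_lit 0x70001c0066003700018000000000000000000000) := T_12 (nat_lit 140) (nat_lit 157) (nat_lit 5) (nat_lit 5) (nat_lit 5) L61794 (by decide +kernel)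
theorem L61796 : W_12 (nat_lit 10) (nat_lit 0x200000001200090000800040000000000000000000000) (nat_lit 0x0) (nat_lit 0x70001c0066003700038001000000000000000000) := T_12 (nat_lit 89) (nat_lit 72) (nat_lit 4) (nat_lit 5) (nat_lit 8) L61795 (by decide +kernel)
theorem L61797 : W_12 (nat_lit 11) (nat_lit 0x200000001200090000800000000000000000000000000) (nat_lit 0x0) (nat_lit 0x400070001c00660037001f8007000280000000000000) := Q_12 (nat_lit 90) (C_12 L60862 (C_12 L39564 (C_12 L61763 (C_12 L61787 (C_12 L61796 N_12))))) (by decide +kernel)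
theorem L61798 : W_12 (nat_lit 4) (nat_lit 0x200004001200090000800000000000000000000000000) (nat_lit 0x0) (nat_lit 0x8000c0002000000008000400020000000000000000000000) := T_12 (nat_lit 106) (nat_lit 89) (nat_lit 4) (nat_lit 5) (nat_lit 9) L39780 (by decide +kernel)
theorem L61799 : W_12 (nat_lit 2) (nat_lit 0x200004001200090001c00000000000000000000000000) (nat_lit 0x0) (nat_lit 0x60002000000000000000000000000000) := D_12 (nat_lit 126) (nat_lit 109) (nat_lit 125) (nat_lit 3) (nat_lit 4) (nat_lit 6) (nat_lit 0) (nat_lit 8) (nat_lit 7) (by decide +kernel)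
theorem L61800 : W_12 (nat_lit 3) (nat_lit 0x200004001200090001800000000000000000000000000) (nat_lit 0x0) (nat_lit 0x60002400020000000000000000000000) := T_12 (nat_lit 106) (nat_lit 89) (nat_lit 4) (nat_lit 5) (nat_lit 9) L61799 (by decide +kernel)
theorem L61801 : W_12 (nat_lit 4) (nat_lit 0x200004001200090000800000000000000000000000000) (nat_lit 0x0) (nat_lit 0x600034000a0000000000000000000000) := T_12 (nat_lit 108) (nat_lit 91) (nat_lit 6) (nat_lit 5) (nat_lit 9) L61800 (by decide +kernel)
theorem L61802 : W_12 (nat_lit 2) (nat_lit 0x2000060012000b0001800000000000000000000000000) (nat_lit 0x0) (nat_lit 0x100140000000000000000000000000000000) := D_12 (nat_lit 126) (nat_lit 140) (nat_lit 128) (nat_lit 1) (nat_lit 8) (nat_lit 7) (nat_lit 0) (nat_lit 9) (nat_lit 7) (by decide +kernel)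
theorem L61803 : W_12 (nat_lit 3) (nat_lit 0x200006001200090001800000000000000000000000000) (nat_lit 0x0) (nat_lit 0x80000000100160000000000000000000000000000000) := T_12 (nat_lit 125) (nat_lit 175) (nat_lit 6) (nat_lit 5) (nat_lit 10) L61802 (by decide +kernel)
theorem L61804 : W_12 (nat_lit 4) (nat_lit 0x200006001200090000800000000000000000000000000) (nat_lit 0x0) (nat_lit 0x80000000100160001000080000000000000000000000) := T_12 (nat_lit 108) (nat_lit 91) (nat_lit 6) (nat_lit 5) (nat_lit 9) L61803 (by decide +kernel)
theorem L61805 : W_12 (nat_lit 5) (nat_lit 0x200004001200090000800000000000000000000000000) (nat_lit 0x0) (nat_lit 0xc0002000100160001000080000000000000000000000) := T_12 (nat_lit 157) (nat_lit 174) (nat_lit 5) (nat_lit 5) (nat_lit 6) L61804 (by decide +kernel)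
theorem L61806 : W_12 (nat_lit 6) (nat_lit 0x200000001200090000800000000000000000000000000) (nat_lit 0x0) (nat_lit 0x8000c00060001001680034000a0000000000000000000000) := Q_12 (nat_lit 158) (C_12 L61798 (C_12 L61801 (C_12 L61805 N_12))) (by decide +kernel)
theorem L61807 : W_12 (nat_lit 2) (nat_lit 0x2000000013000d00018000e0000000000000000000000) (nat_lit 0x0) (nat_lit 0x2000018000000000000000000000) := D_12 (nat_lit 88) (nat_lit 109) (nat_lit 87) (nat_lit 3) (nat_lit 3) (nat_lit 5) (nat_lit 3) (nat_lit 2) (nat_lit 5) (by decide +kernel)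
theorem L61808 : W_12 (nat_lit 3) (nat_lit 0x2000000013000d00008000e0000000000000000000000) (nat_lit 0x0) (nat_lit 0x4000000000003000018000000000000000000000) := T_12 (nat_lit 108) (nat_lit 158) (nat_lit 6) (nat_lit 5) (nat_lit 9) L61807 (by decide +kernel)
theorem L61809 : W_12 (nat_lit 4) (nat_lit 0x2000000013000d0000800060000000000000000000000) (nat_lit 0x0) (nat_lit 0x4000000000003000098004000000000000000000) := T_12 (nat_lit 91) (nat_lit 74) (nat_lit 6) (nat_lit 5) (nat_lit 8) L61808 (by decide +kernel)
theorem L61810 : W_12 (nat_lit 5) (nat_lit 0x200000001300090000800060000000000000000000000) (nat_lit 0x0) (nat_lit 0x4000000060003000098004000000000000000000) := T_12 (nat_lit 126) (nat_lit 125) (nat_lit 1) (nat_lit 8) (nat_lit 7) L61809 (by decide +kernel)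
theorem L61811 : W_12 (nat_lit 6) (nat_lit 0x200000001200090000800060000000000000000000000) (nat_lit 0x0) (nat_lit 0x6000100060003000098004000000000000000000) := T_12 (nat_lit 140) (nat_lit 157) (nat_lit 5) (nat_lit 5) (nat_lit 5) L61810 (by decide +kernel)
theorem L61812 : W_12 (nat_lit 7) (nat_lit 0x200000001200090000800040000000000000000000000) (nat_lit 0x0) (nat_lit 0x60001000600030000b8005000000000000000000) := T_12 (nat_lit 89) (nat_lit 72) (nat_lit 4) (nat_lit 5) (nat_lit 8) L61811 (by decide +kernel)
theorem L61813 : W_12 (nat_lit 8) (nat_lit 0x200000001200090000800000000000000000000000000) (nat_lit 0x0) (nat_lit 0x60001000680030000f8007000280000000000000) := Q_12 (nat_lit 90) (C_12 L31986 (C_12 L61763 (C_12 L61812 (C_12 L31983 N_12)))) (by decide +kernel)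
theorem L61814 : W_12 (nat_lit 2) (nat_lit 0x200004001200098001c00000000000000000000000000) (nat_lit 0x0) (nat_lit 0x44002000000000000000000000000000) := D_12 (nat_lit 109) (nat_lit 126) (nat_lit 122) (nat_lit 3) (nat_lit 4) (nat_lit 6) (nat_lit 1) (nat_lit 7) (nat_lit 6) (by decide +kernel)
theorem L61815 : W_12 (nat_lit 3) (nat_lit 0x200004001200098000c00000000000000000000000000) (nat_lit 0x0) (nat_lit 0x44003000080000000000000000000000) := T_12 (nat_lit 108) (nat_lit 91) (nat_lit 6) (nat_lit 5) (nat_lit 9) L61814 (by decide +kernel)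
theorem L61816 : W_12 (nat_lit 4) (nat_lit 0x200004001200090000c00000000000000000000000000) (nat_lit 0x0) (nat_lit 0x8000000000004c003000080000000000000000000000) := T_12 (nat_lit 123) (nat_lit 175) (nat_lit 4) (nat_lit 5) (nat_lit 10) L61815 (by decide +kernel)
theorem L61817 : W_12 (nat_lit 5) (nat_lit 0x200000001200090000c00000000000000000000000000) (nat_lit 0x0) (nat_lit 0x8000400000004c0030000a0000000000000000000000) := T_12 (nat_lit 158) (nat_lit 89) (nat_lit 4) (nat_lit 5) (nat_lit 9) L61816 (by decide +kernel)
theorem L61818 : W_12 (nat_lit 9) (nat_lit 0x200000001200090000800000000000000000000000000) (nat_lit 0x0) (nat_lit 0x400008003400080006c0034003e001d000080000000000000) := Q_12 (nat_lit 106) (C_12 L61817 (C_12 L39715 (C_12 L60836 (C_12 L61782 N_12)))) (by decide +kernel)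
theorem L61820 : W_12 (nat_lit 9) (nat_lit 0x2000060012000b0000800000000000000000000000000) (nat_lit 0x0) (nat_lit 0x500038001c00040000000380009c0000000000040000000000000000000000) := T_12 (nat_lit 140) (nat_lit 90) (nat_lit 5) (nat_lit 5) (nat_lit 5) L32121 (by decide +kernel)
theorem L61821 : W_12 (nat_lit 10) (nat_lit 0x2000040012000b0000800000000000000000000000000) (nat_lit 0x0) (nat_lit 0x500038001c000400004003a0009c0000000000040000000000000000000000) := T_12 (nat_lit 157) (nat_lit 174) (nat_lit 5) (nat_lit 5) (nat_lit 6) L61820 (by decide +kernel)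
theorem L61822 : W_12 (nat_lit 11) (nat_lit 0x2000000012000b0000800000000000000000000000000) (nat_lit 0x0) (nat_lit 0x500038001c00040000c003e0009c00000010000c0000000000000000000000) := Q_12 (nat_lit 158) (C_12 L61819 (C_12 L61821 N_12)) (by decide +kernel)
theorem L61823 : W_12 (nat_lit 2) (nat_lit 0x200000001a001f0010800000000000000000000000000) (nat_lit 0x0) (nat_lit 0x600020000000000000000000000000000) := D_12 (nat_lit 129) (nat_lit 130) (nat_lit 113) (nat_lit 1) (nat_lit 11) (nat_lit 7) (nat_lit 2) (nat_lit 7) (nat_lit 7) (by decide +kernel)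
theorem L61824 : W_12 (nat_lit 3) (nat_lit 0x200000001a001f0000800000000000000000000000000) (nat_lit 0x0) (nat_lit 0x600038000000000000000000000000000) := T_12 (nat_lit 112) (nat_lit 111) (nat_lit 2) (nat_lit 6) (nat_lit 7) L61823 (by decide +kernel)
theorem L61825 : W_12 (nat_lit 4) (nat_lit 0x2000000012001f0000800000000000000000000000000) (nat_lit 0x0) (nat_lit 0x800608038000000000000000000000000000) := T_12 (nat_lit 143) (nat_lit 123) (nat_lit 3) (nat_lit 4) (nat_lit 7) L61824 (by decide +kernel)
theorem L61826 : W_12 (nat_lit 5) (nat_lit 0x2000000012000f0000800000000000000000000000000) (nat_lit 0x0) (nat_lit 0x800708039000000000000000000000000000) := T_12 (nat_lit 128) (nat_lit 108) (nat_lit 0) (nat_lit 9) (nat_lit 7) L61825 (by decide +kernel)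
theorem L61827 : W_12 (nat_lit 6) (nat_lit 0x2000000012000b0000800000000000000000000000000) (nat_lit 0x0) (nat_lit 0x800748039400000000000000000000000000) := T_12 (nat_lit 126) (nat_lit 106) (nat_lit 0) (nat_lit 8) (nat_lit 7) L61826 (by decide +kernel)
theorem L61829 : W_12 (nat_lit 12) (nat_lit 0x200000001200090000800000000000000000000000000) (nat_lit 0x0) (nat_lit 0x500038001c00040000c003e0009c07680394000c0000000000000000000000) := Q_12 (nat_lit 125) (C_12 L61822 (C_12 L61827 (C_12 L61828 N_12))) (by decide +kernel)
theorem L61830 : W_12 (nat_lit 2) (nat_lit 0x210007801340098000e80000000000000000000000000) (nat_lit 0x0) (nat_lit 0x80006000000000000000000000000000000) := D_12 (nat_lit 122) (nat_lit 139) (nat_lit 121) (nat_lit 5) (nat_lit 3) (nat_lit 6) (nat_lit 6) (nat_lit 2) (nat_lit 10) (by decide +kernel)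
theorem L61831 : W_12 (nat_lit 3) (nat_lit 0x210007801300098000e80000000000000000000000000) (nat_lit 0x0) (nat_lit 0xe0006000000000000000000000000000000) := T_12 (nat_lit 138) (nat_lit 137) (nat_lit 0) (nat_lit 5) (nat_lit 9) L61830 (by decide +kernel)
theorem L61832 : W_12 (nat_lit 4) (nat_lit 0x200007801300098000e80000000000000000000000000) (nat_lit 0x0) (nat_lit 0x180000000e0006000000000000000000000000000000) := T_12 (nat_lit 172) (nat_lit 171) (nat_lit 1) (nat_lit 5) (nat_lit 9) L61831 (by decide +kernel)
theorem L61833 : W_12 (nat_lit 5) (nat_lit 0x200007001300098000e80000000000000000000000000) (nat_lit 0x0) (nat_lit 0x18000c000e0006000000000000000000000000000000) := T_12 (nat_lit 155) (nat_lit 154) (nat_lit 2) (nat_lit 1) (nat_lit 9) L61832 (by decide +kernel)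
theorem L61834 : W_12 (nat_lit 6) (nat_lit 0x200006001300098000e80000000000000000000000000) (nat_lit 0x0) (nat_lit 0x38001c000e0006000000000000000000000000000000) := T_12 (nat_lit 156) (nat_lit 173) (nat_lit 5) (nat_lit 4) (nat_lit 6) L61833 (by decide +kernel)
theorem L61835 : W_12 (nat_lit 7) (nat_lit 0x200006001300098000e00000000000000000000000000) (nat_lit 0x0) (nat_lit 0x38001c000e0006000180000000000000000000000000) := T_12 (nat_lit 103) (nat_lit 104) (nat_lit 3) (nat_lit 1) (nat_lit 6) L61834 (by decide +kernel)
theorem L61836 : W_12 (nat_lit 8) (nat_lit 0x200006001300098000c00000000000000000000000000) (nat_lit 0x0) (nat_lit 0x38001c000e0006000380010000000000000000000000) := T_12 (nat_lit 105) (nat_lit 88) (nat_lit 4) (nat_lit 4) (nat_lit 9) L61835 (by decide +kernel)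
theorem L61837 : W_12 (nat_lit 9) (nat_lit 0x200006001200098000c00000000000000000000000000) (nat_lit 0x0) (nat_lit 0x38001c001e0006000380050000000000000000000000) := T_12 (nat_lit 140) (nat_lit 90) (nat_lit 6) (nat_lit 4) (nat_lit 9) L61836 (by decide +kernel)
theorem L61838 : W_12 (nat_lit 10) (nat_lit 0x200006001200090000c00000000000000000000000000) (nat_lit 0x0) (nat_lit 0xb8001c001e000e000380050000000000000000000000) := T_12 (nat_lit 123) (nat_lit 175) (nat_lit 4) (nat_lit 5) (nat_lit 10) L61837 (by decide +kernel)
theorem L61839 : W_12 (nat_lit 11) (nat_lit 0x200002001200090000c00000000000000000000000000) (nat_lit 0x0) (nat_lit 0xf8005c001e000e000380050000000000000000000000) := T_12 (nat_lit 158) (nat_lit 174) (nat_lit 5) (nat_lit 5) (nat_lit 6) L61838 (by decide +kernel)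
theorem L61840 : W_12 (nat_lit 2) (nat_lit 0x280006001a000d0002c00100000000000000000000000) (nat_lit 0x0) (nat_lit 0x4000000018000000000000000000000000000000000000000) := D_12 (nat_lit 160) (nat_lit 194) (nat_lit 159) (nat_lit 6) (nat_lit 7) (nat_lit 11) (nat_lit 2) (nat_lit 4) (nat_lit 9) (by decide +kernel)
theorem L61841 : W_12 (nat_lit 3) (nat_lit 0x2800060012000d0002c00100000000000000000000000) (nat_lit 0x0) (nat_lit 0x4000000038000800000000000000000000000000000000000) := T_12 (nat_lit 143) (nat_lit 161) (nat_lit 7) (nat_lit 7) (nat_lit 5) L61840 (by decide +kernel)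
theorem L61842 : W_12 (nat_lit 4) (nat_lit 0x2800060012000d0002c00000000000000000000000000) (nat_lit 0x0) (nat_lit 0x4000000038000800000000000100008000000000000000000) := T_12 (nat_lit 92) (nat_lit 75) (nat_lit 7) (nat_lit 7) (nat_lit 4) L61841 (by decide +kernel)
theorem L61843 : W_12 (nat_lit 5) (nat_lit 0x2800060012000d0000c00000000000000000000000000) (nat_lit 0x0) (nat_lit 0x4000000038000800000003000100008000000000000000000) := T_12 (nat_lit 109) (nat_lit 108) (nat_lit 3) (nat_lit 4) (nat_lit 6) L61842 (by decide +kernel)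
theorem L61844 : W_12 (nat_lit 6) (nat_lit 0x2000060012000d0000c00000000000000000000000000) (nat_lit 0x0) (nat_lit 0x4000080038000800008003000100008000000000000000000) := T_12 (nat_lit 175) (nat_lit 123) (nat_lit 4) (nat_lit 5) (nat_lit 10) L61843 (by decide +kernel)
theorem L61845 : W_12 (nat_lit 7) (nat_lit 0x2000020012000d0000c00000000000000000000000000) (nat_lit 0x0) (nat_lit 0x40000c003c000800008003000100008000000000000000000) := T_12 (nat_lit 158) (nat_lit 174) (nat_lit 5) (nat_lit 5) (nat_lit 6) L61844 (by decide +kernel)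
theorem L61846 : W_12 (nat_lit 8) (nat_lit 0x200002001200090000c00000000000000000000000000) (nat_lit 0x0) (nat_lit 0x40000c003c000800068003000100008000000000000000000) := T_12 (nat_lit 126) (nat_lit 125) (nat_lit 0) (nat_lit 8) (nat_lit 7) L61845 (by decide +kernel)
theorem L61847 : W_12 (nat_lit 2) (nat_lit 0x2000020013000d0000c00000000000000000000000000) (nat_lit 0x0) (nat_lit 0x800040000000000008000000000000000000000000000000) := D_12 (nat_lit 174) (nat_lit 191) (nat_lit 123) (nat_lit 6) (nat_lit 4) (nat_lit 11) (nat_lit 6) (nat_lit 4) (nat_lit 10) (by decide +kernel)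
theorem L61848 : W_12 (nat_lit 3) (nat_lit 0x2000020012000d0000c00000000000000000000000000) (nat_lit 0x0) (nat_lit 0x800040000000100008000000040000000000000000000000) := T_12 (nat_lit 140) (nat_lit 90) (nat_lit 5) (nat_lit 5) (nat_lit 5) L61847 (by decide +kernel)
theorem L61849 : W_12 (nat_lit 4) (nat_lit 0x200002001200090000c00000000000000000000000000) (nat_lit 0x0) (nat_lit 0x800040000000100068000000040000000000000000000000) := T_12 (nat_lit 126) (nat_lit 125) (nat_lit 0) (nat_lit 8) (nat_lit 7) L61848 (by decide +kernel)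
theorem L61850 : W_12 (nat_lit 2) (nat_lit 0x200006001a000d0002c00140000000000000000000000) (nat_lit 0x0) (nat_lit 0x4000000018000000000000000000000000000000000000000) := D_12 (nat_lit 160) (nat_lit 194) (nat_lit 159) (nat_lit 6) (nat_lit 7) (nat_lit 11) (nat_lit 2) (nat_lit 4) (nat_lit 9) (by decide +kernel)
theorem L61851 : W_12 (nat_lit 3) (nat_lit 0x2000060012000d0002c00140000000000000000000000) (nat_lit 0x0) (nat_lit 0x4000000038000800000000000000000000000000000000000) := T_12 (nat_lit 143) (nat_lit 161) (nat_lit 7) (nat_lit 7) (nat_lit 5) L61850 (by decide +kernel)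
theorem L61852 : W_12 (nat_lit 4) (nat_lit 0x2000060012000d0002c00040000000000000000000000) (nat_lit 0x0) (nat_lit 0x4000000038000800000000000100008000000000000000000) := T_12 (nat_lit 92) (nat_lit 75) (nat_lit 7) (nat_lit 7) (nat_lit 4) L61851 (by decide +kernel)
theorem L61853 : W_12 (nat_lit 5) (nat_lit 0x2000060012000d0002c00000000000000000000000000) (nat_lit 0x0) (nat_lit 0x4000000038000900000000000140008000000000000000000) := T_12 (nat_lit 90) (nat_lit 140) (nat_lit 5) (nat_lit 5) (nat_lit 5) L61852 (by decide +kernel)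
theorem L61854 : W_12 (nat_lit 6) (nat_lit 0x2000060012000d0000c00000000000000000000000000) (nat_lit 0x0) (nat_lit 0x4000000038000900000003000140008000000000000000000) := T_12 (nat_lit 109) (nat_lit 108) (nat_lit 3) (nat_lit 4) (nat_lit 6) L61853 (by decide +kernel)
theorem L61855 : W_12 (nat_lit 7) (nat_lit 0x2000020012000d0000c00000000000000000000000000) (nat_lit 0x0) (nat_lit 0x400004003c000900000003000140008000000000000000000) := T_12 (nat_lit 158) (nat_lit 174) (nat_lit 5) (nat_lit 5) (nat_lit 6) L61854 (by decide +kernel)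
theorem L61856 : W_12 (nat_lit 8) (nat_lit 0x200002001200090000c00000000000000000000000000) (nat_lit 0x0) (nat_lit 0x400004003c000900060003000140008000000000000000000) := T_12 (nat_lit 126) (nat_lit 125) (nat_lit 0) (nat_lit 8) (nat_lit 7) L61855 (by decide +kernel)
theorem L61857 : W_12 (nat_lit 4) (nat_lit 0x2000020013400b8000e00000000000000000000000000) (nat_lit 0x0) (nat_lit 0xa0005c00020000000000000000000000000000000000) := T_12 (nat_lit 158) (nat_lit 175) (nat_lit 7) (nat_lit 4) (nat_lit 6) L32169 (by decide +kernel)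
theorem L61858 : W_12 (nat_lit 5) (nat_lit 0x2000020013400b0000e00000000000000000000000000) (nat_lit 0x0) (nat_lit 0xa0005c00020008000000010000000000000000000000) := T_12 (nat_lit 123) (nat_lit 88) (nat_lit 4) (nat_lit 4) (nat_lit 9) L61857 (by decide +kernel)
theorem L61859 : W_12 (nat_lit 6) (nat_lit 0x2000020013000b0000e00000000000000000000000000) (nat_lit 0x0) (nat_lit 0xa0005c000e0008000000010000000000000000000000) := T_12 (nat_lit 138) (nat_lit 139) (nat_lit 2) (nat_lit 2) (nat_lit 8) L61858 (by decide +kernel)
theorem L61860 : W_12 (nat_lit 7) (nat_lit 0x2000020013000b0000c00000000000000000000000000) (nat_lit 0x0) (nat_lit 0xa0005c000e0008000300010000000000000000000000) := T_12 (nat_lit 105) (nat_lit 104) (nat_lit 3) (nat_lit 2) (nat_lit 6) L61859 (by decide +kernel)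
theorem L61861 : W_12 (nat_lit 8) (nat_lit 0x2000020012000b0000c00000000000000000000000000) (nat_lit 0x0) (nat_lit 0xa0005c001e0008000300050000000000000000000000) := T_12 (nat_lit 140) (nat_lit 90) (nat_lit 5) (nat_lit 5) (nat_lit 5) L61860 (by decide +kernel)
theorem L61862 : W_12 (nat_lit 9) (nat_lit 0x200002001200090000c00000000000000000000000000) (nat_lit 0x0) (nat_lit 0xa0005c001e0068000300050000000000000000000000) := T_12 (nat_lit 125) (nat_lit 126) (nat_lit 0) (nat_lit 8) (nat_lit 7) L61861 (by decide +kernel)
theorem L61863 : W_12 (nat_lit 12) (nat_lit 0x200000001200090000c00000000000000000000000000) (nat_lit 0x0) (nat_lit 0x48000f803fc009e006e003380150008000000000000000000) := Q_12 (nat_lit 157) (C_12 L61839 (C_12 L61846 (C_12 L61849 (C_12 L61856 (C_12 L61862 N_12))))) (by decide +kernel)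
theorem L61864 : W_12 (nat_lit 2) (nat_lit 0x200000001300090000c00040002000000000000000000) (nat_lit 0x0) (nat_lit 0x20001000080000000000000) := D_12 (nat_lit 72) (nat_lit 89) (nat_lit 55) (nat_lit 4) (nat_lit 5) (nat_lit 8) (nat_lit 4) (nat_lit 5) (nat_lit 7) (by decide +kernel)
theorem L61865 : W_12 (nat_lit 3) (nat_lit 0x200000001300090000c00040000000000000000000000) (nat_lit 0x0) (nat_lit 0x8000000020003000080000000000000) := T_12 (nat_lit 73) (nat_lit 123) (nat_lit 5) (nat_lit 5) (nat_lit 4) L61864 (by decide +kernel)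
theorem L61866 : W_12 (nat_lit 4) (nat_lit 0x200000001200090000c00040000000000000000000000) (nat_lit 0x0) (nat_lit 0x2000100008000000020003000080000000000000) := T_12 (nat_lit 140) (nat_lit 157) (nat_lit 5) (nat_lit 5) (nat_lit 5) L61865 (by decide +kernel)
theorem L61867 : W_12 (nat_lit 2) (nat_lit 0x2000000012000d0001c00040003000100000000000000) (nat_lit 0x0) (nat_lit 0x4000200010000000000) := D_12 (nat_lit 57) (nat_lit 74) (nat_lit 40) (nat_lit 6) (nat_lit 5) (nat_lit 7) (nat_lit 6) (nat_lit 5) (nat_lit 6) (by decide +kernel)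
theorem L61868 : W_12 (nat_lit 3) (nat_lit 0x2000000012000d0001c00040003000000000000000000) (nat_lit 0x0) (nat_lit 0x8000000000004000300010000000000) := T_12 (nat_lit 56) (nat_lit 123) (nat_lit 5) (nat_lit 5) (nat_lit 3) L61867 (by decide +kernel)
theorem L61869 : W_12 (nat_lit 4) (nat_lit 0x2000000012000d0001c00040001000000000000000000) (nat_lit 0x0) (nat_lit 0x8000000000006000380010000000000) := T_12 (nat_lit 73) (nat_lit 55) (nat_lit 4) (nat_lit 5) (nat_lit 7) L61868 (by decide +kernel)
theorem L61870 : W_12 (nat_lit 5) (nat_lit 0x2000000012000d0000c00040001000000000000000000) (nat_lit 0x0) (nat_lit 0x8003000000006000380010000000000) := T_12 (nat_lit 108) (nat_lit 109) (nat_lit 3) (nat_lit 4) (nat_lit 6) L61869 (by decide +kernel)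
theorem L61871 : W_12 (nat_lit 6) (nat_lit 0x2000000012000d0000c00040000000000000000000000) (nat_lit 0x0) (nat_lit 0x8003000020007000380010000000000) := T_12 (nat_lit 72) (nat_lit 89) (nat_lit 4) (nat_lit 5) (nat_lit 8) L61870 (by decide +kernel)
theorem L61872 : W_12 (nat_lit 7) (nat_lit 0x200000001200090000c00040000000000000000000000) (nat_lit 0x0) (nat_lit 0x68003000020007000380010000000000) := T_12 (nat_lit 126) (nat_lit 125) (nat_lit 0) (nat_lit 8) (nat_lit 7) L61871 (by decide +kernel)
theorem L61873 : W_12 (nat_lit 7) (nat_lit 0x200000001300090000c00060000000000000000000000) (nat_lit 0x0) (nat_lit 0x10000c0066003300018000000000000000000000) := T_12 (nat_lit 125) (nat_lit 126) (nat_lit 1) (nat_lit 8) (nat_lit 7) L61792 (by decide +kernel)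
theorem L61874 : W_12 (nat_lit 8) (nat_lit 0x200000001200090000c00060000000000000000000000) (nat_lit 0x0) (nat_lit 0x30001c0066003300018000000000000000000000) := T_12 (nat_lit 140) (nat_lit 157) (nat_lit 5) (nat_lit 5) (nat_lit 5) L61873 (by decide +kernel)
theorem L61875 : W_12 (nat_lit 9) (nat_lit 0x200000001200090000c00040000000000000000000000) (nat_lit 0x0) (nat_lit 0x30001c0066003300038001000000000000000000) := T_12 (nat_lit 89) (nat_lit 72) (nat_lit 4) (nat_lit 5) (nat_lit 8) L61874 (by decide +kernel)
theorem L61876 : W_12 (nat_lit 2) (nat_lit 0x2000000013000d0002c0044001e001100000000000000) (nat_lit 0x0) (nat_lit 0x800020002000000000000000) := D_12 (nat_lit 77) (nat_lit 95) (nat_lit 61) (nat_lit 3) (nat_lit 6) (nat_lit 4) (nat_lit 2) (nat_lit 6) (nat_lit 4) (by decide +kernel)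
theorem L61877 : W_12 (nat_lit 3) (nat_lit 0x2000000013000d0002c0044001e000100000000000000) (nat_lit 0x0) (nat_lit 0x800020003800000000000000) := T_12 (nat_lit 60) (nat_lit 59) (nat_lit 2) (nat_lit 5) (nat_lit 4) L61876 (by decide +kernel)
theorem L61878 : W_12 (nat_lit 4) (nat_lit 0x2000000013000d0002c0004001e000100000000000000) (nat_lit 0x0) (nat_lit 0xe00020003800000000000000) := T_12 (nat_lit 94) (nat_lit 93) (nat_lit 3) (nat_lit 5) (nat_lit 4) L61877 (by decide +kernel)
theorem L61879 : W_12 (nat_lit 5) (nat_lit 0x2000000013000d0002c0004001e000000000000000000) (nat_lit 0x0) (nat_lit 0xe00020003980000000000000) := T_12 (nat_lit 56) (nat_lit 55) (nat_lit 0) (nat_lit 8) (nat_lit 4) L61878 (by decide +kernel)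
theorem L61880 : W_12 (nat_lit 6) (nat_lit 0x2000000013000d0002c0004000e000000000000000000) (nat_lit 0x0) (nat_lit 0xe20030003980000000000000) := T_12 (nat_lit 76) (nat_lit 89) (nat_lit 1) (nat_lit 8) (nat_lit 4) L61879 (by decide +kernel)
theorem L61881 : W_12 (nat_lit 7) (nat_lit 0x2000000013000d0002c00040006000000000000000000) (nat_lit 0x0) (nat_lit 0xf20038003980000000000000) := T_12 (nat_lit 75) (nat_lit 92) (nat_lit 7) (nat_lit 7) (nat_lit 4) L61880 (by decide +kernel)
theorem L61882 : W_12 (nat_lit 8) (nat_lit 0x2000000013000d0000c00040006000000000000000000) (nat_lit 0x0) (nat_lit 0x3000f20038003980000000000000) := T_12 (nat_lit 109) (nat_lit 108) (nat_lit 3) (nat_lit 4) (nat_lit 6) L61881 (by decide +kernel)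
theorem L61883 : W_12 (nat_lit 9) (nat_lit 0x2000000013000d0000c00040002000000000000000000) (nat_lit 0x0) (nat_lit 0x3000f2003c003b80000000000000) := T_12 (nat_lit 74) (nat_lit 57) (nat_lit 6) (nat_lit 5) (nat_lit 7) L61882 (by decide +kernel)
theorem L61884 : W_12 (nat_lit 10) (nat_lit 0x2000000013000d0000c00040000000000000000000000) (nat_lit 0x0) (nat_lit 0x8003000f2003e003b80000000000000) := T_12 (nat_lit 73) (nat_lit 123) (nat_lit 5) (nat_lit 5) (nat_lit 4) L61883 (by decide +kernel)
theorem L61885 : W_12 (nat_lit 11) (nat_lit 0x2000000012000d0000c00040000000000000000000000) (nat_lit 0x0) (nat_lit 0x2000100008003000f2003e003b80000000000000) := T_12 (nat_lit 140) (nat_lit 157) (nat_lit 5) (nat_lit 5) (nat_lit 5) L61884 (by decide +kernel)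
theorem L61886 : W_12 (nat_lit 12) (nat_lit 0x200000001200090000c00040000000000000000000000) (nat_lit 0x0) (nat_lit 0x2000100068003000f2003e003b80000000000000) := T_12 (nat_lit 126) (nat_lit 125) (nat_lit 0) (nat_lit 8) (nat_lit 7) L61885 (by decide +kernel)
theorem L61887 : W_12 (nat_lit 2) (nat_lit 0x2000000013000d0002c00040006000180000000000000) (nat_lit 0x0) (nat_lit 0x100018000000000000000000) := D_12 (nat_lit 75) (nat_lit 92) (nat_lit 76) (nat_lit 7) (nat_lit 7) (nat_lit 4) (nat_lit 0) (nat_lit 8) (nat_lit 4) (by decide +kernel)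
theorem L61888 : W_12 (nat_lit 3) (nat_lit 0x2000000013000d0002c00040006000080000000000000) (nat_lit 0x0) (nat_lit 0x100018000100004000000000) := T_12 (nat_lit 56) (nat_lit 38) (nat_lit 4) (nat_lit 5) (nat_lit 6) L61887 (by decide +kernel)
theorem L61889 : W_12 (nat_lit 4) (nat_lit 0x2000000013000d0000c00040006000080000000000000) (nat_lit 0x0) (nat_lit 0x3000100018000100004000000000) := T_12 (nat_lit 109) (nat_lit 108) (nat_lit 3) (nat_lit 4) (nat_lit 6) L61888 (by decide +kernel)
theorem L61890 : W_12 (nat_lit 5) (nat_lit 0x2000000013000d0000c00040006000000000000000000) (nat_lit 0x0) (nat_lit 0x3000100019000180004000000000) := T_12 (nat_lit 55) (nat_lit 72) (nat_lit 4) (nat_lit 5) (nat_lit 7) L61889 (by decide +kernel)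
theorem L61891 : W_12 (nat_lit 6) (nat_lit 0x2000000013000d0000c00040002000000000000000000) (nat_lit 0x0) (nat_lit 0x300010001d000380004000000000) := T_12 (nat_lit 74) (nat_lit 57) (nat_lit 6) (nat_lit 5) (nat_lit 7) L61890 (by decide +kernel)
theorem L61892 : W_12 (nat_lit 7) (nat_lit 0x2000000013000d0000c00040000000000000000000000) (nat_lit 0x0) (nat_lit 0x800300010001f000380004000000000) := T_12 (nat_lit 73) (nat_lit 123) (nat_lit 5) (nat_lit 5) (nat_lit 4) L61891 (by decide +kernel)
theorem L61893 : W_12 (nat_lit 8) (nat_lit 0x2000000012000d0000c00040000000000000000000000) (nat_lit 0x0) (nat_lit 0x200010000800300010001f000380004000000000) := T_12 (nat_lit 140) (nat_lit 157) (nat_lit 5) (nat_lit 5) (nat_lit 5) L61892 (by decide +kernel)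
theorem L61894 : W_12 (nat_lit 9) (nat_lit 0x200000001200090000c00040000000000000000000000) (nat_lit 0x0) (nat_lit 0x200010006800300010001f000380004000000000) := T_12 (nat_lit 126) (nat_lit 125) (nat_lit 0) (nat_lit 8) (nat_lit 7) L61893 (by decide +kernel)
theorem L61895 : W_12 (nat_lit 13) (nat_lit 0x200000001200090000c00000000000000000000000000) (nat_lit 0x0) (nat_lit 0x30001c006e003300f7803f003b80014000000000) := Q_12 (nat_lit 90) (C_12 L61866 (C_12 L61872 (C_12 L61875 (C_12 L61886 (C_12 L61894 N_12))))) (by decide +kernel)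
theorem L61896 : W_12 (nat_lit 14) (nat_lit 0x200000001200090000800000000000000000000000000) (nat_lit 0x0) (nat_lit 0x48000f803fc009e006e003780f7803f003b80014000000000) := Q_12 (nat_lit 106) (C_12 L61863 (C_12 L60836 (C_12 L61895 (C_12 L39781 N_12)))) (by decide +kernel)
theorem L61897 : W_12 (nat_lit 15) (nat_lit 0x200000001200080000800000000000000000000000000) (nat_lit 0x0) (nat_lit 0x500038001c00058000f803fc009e077f03b780ff803fc03b8001c000a00000) := Q_12 (nat_lit 124) (C_12 L61772 (C_12 L61775 (C_12 L61783 (C_12 L61784 (C_12 L61797 (C_12 L61806 (C_12 L61813 (C_12 L61818 (C_12 L61829 (C_12 L61896 N_12)))))))))) (by decide +kernel)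
theorem L61898 : W_12 (nat_lit 2) (nat_lit 0x200000001600090000c00068016000000000000000000) (nat_lit 0x0) (nat_lit 0x8000000000000000100008000000000) := D_12 (nat_lit 56) (nat_lit 39) (nat_lit 123) (nat_lit 5) (nat_lit 5) (nat_lit 2) (nat_lit 5) (nat_lit 5) (nat_lit 3) (by decide +kernel)
theorem L61899 : W_12 (nat_lit 3) (nat_lit 0x200000001600090000800068016000000000000000000) (nat_lit 0x0) (nat_lit 0x4000000008000400000000000100008000000000) := T_12 (nat_lit 106) (nat_lit 158) (nat_lit 4) (nat_lit 5) (nat_lit 9) L61898 (by decide +kernel)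
theorem L61900 : W_12 (nat_lit 4) (nat_lit 0x200000001600090000800068006000000000000000000) (nat_lit 0x0) (nat_lit 0x4000000008000400000018000100008000000000) := T_12 (nat_lit 76) (nat_lit 75) (nat_lit 1) (nat_lit 8) (nat_lit 4) L61899 (by decide +kernel)
theorem L61901 : W_12 (nat_lit 5) (nat_lit 0x200000001600090000800060006000000000000000000) (nat_lit 0x0) (nat_lit 0x4000000008000400018018000100008000000000) := T_12 (nat_lit 87) (nat_lit 88) (nat_lit 2) (nat_lit 2) (nat_lit 5) L61900 (by decide +kernel)
theorem L61902 : W_12 (nat_lit 6) (nat_lit 0x200000001600090000800060002000000000000000000) (nat_lit 0x0) (nat_lit 0x400000000800040001801c000300008000000000) := T_12 (nat_lit 74) (nat_lit 57) (nat_lit 6) (nat_lit 5) (nat_lit 7) L61901 (by decide +kernel)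
theorem L61903 : W_12 (nat_lit 7) (nat_lit 0x200000001600090000800060000000000000000000000) (nat_lit 0x0) (nat_lit 0x400000002800040001801e000300008000000000) := T_12 (nat_lit 73) (nat_lit 125) (nat_lit 7) (nat_lit 5) (nat_lit 4) L61902 (by decide +kernel)
theorem L61904 : W_12 (nat_lit 8) (nat_lit 0x200000001200090000800060000000000000000000000) (nat_lit 0x0) (nat_lit 0xc00040002800040001801e000300008000000000) := T_12 (nat_lit 142) (nat_lit 159) (nat_lit 7) (nat_lit 5) (nat_lit 5) L61903 (by decide +kernel)
theorem L61905 : W_12 (nat_lit 9) (nat_lit 0x200000001200090000800040000000000000000000000) (nat_lit 0x0) (nat_lit 0xc00040002800040003801f000300008000000000) := T_12 (nat_lit 89) (nat_lit 72) (nat_lit 4) (nat_lit 5) (nat_lit 8) L61904 (by decide +kernel)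
theorem L61906 : W_12 (nat_lit 10) (nat_lit 0x200000001200090000800000000000000000000000000) (nat_lit 0x0) (nat_lit 0xc0004000280014000f801f000380008000000000) := Q_12 (nat_lit 90) (C_12 L39564 (C_12 L61763 (C_12 L31966 (C_12 L61905 (C_12 L32003 N_12))))) (by decide +kernel)
theorem L61907 : W_12 (nat_lit 2) (nat_lit 0x200000001300090000800040002000000000000000000) (nat_lit 0x0) (nat_lit 0x8000400020000000000000000000000000000000) := D_12 (nat_lit 142) (nat_lit 159) (nat_lit 125) (nat_lit 7) (nat_lit 5) (nat_lit 5) (nat_lit 7) (nat_lit 5) (nat_lit 4) (by decide +kernel)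
theorem L61908 : W_12 (nat_lit 3) (nat_lit 0x200000001300090000800040000000000000000000000) (nat_lit 0x0) (nat_lit 0x8000400028000000000002000000000000000000) := T_12 (nat_lit 73) (nat_lit 123) (nat_lit 5) (nat_lit 5) (nat_lit 4) L61907 (by decide +kernel)
theorem L61909 : W_12 (nat_lit 4) (nat_lit 0x200000001200090000800040000000000000000000000) (nat_lit 0x0) (nat_lit 0xa000500028000000000002000000000000000000) := T_12 (nat_lit 140) (nat_lit 157) (nat_lit 5) (nat_lit 5) (nat_lit 5) L61908 (by decide +kernel)
theorem L61910 : W_12 (nat_lit 8) (nat_lit 0x200000001200090000800000000000000000000000000) (nat_lit 0x0) (nat_lit 0xe0005000680037001c0006000200000000000000) := Q_12 (nat_lit 90) (C_12 L31986 (C_12 L31966 (C_12 L61787 (C_12 L61909 N_12)))) (by decide +kernel)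
theorem L61911 : W_12 (nat_lit 11) (nat_lit 0x200000001200090000800000000000000000000000000) (nat_lit 0x0) (nat_lit 0xf0005c006e003700078003000180008000000000) := Q_12 (nat_lit 90) (C_12 L31983 (C_12 L61909 (C_12 L32003 (C_12 L61796 N_12)))) (by decide +kernel)
theorem L61912 : W_12 (nat_lit 13) (nat_lit 0x200000001200080000800000000000000000000000000) (nat_lit 0x0) (nat_lit 0x8000c000f0005e017f0037003f801fc0038001c000a00000) := Q_12 (nat_lit 124) (C_12 L61784 (C_12 L61813 (C_12 L61906 (C_12 L61772 (C_12 L61797 (C_12 L61806 (C_12 L61910 (C_12 L61911 N_12)))))))) (by decide +kernel)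
theorem L61913 : W_12 (nat_lit 2) (nat_lit 0x200000001200080003e00100000000000000000000000) (nat_lit 0x0) (nat_lit 0xe000000000000000000000000000000) := D_12 (nat_lit 122) (nat_lit 121) (nat_lit 123) (nat_lit 1) (nat_lit 6) (nat_lit 6) (nat_lit 1) (nat_lit 7) (nat_lit 6) (by decide +kernel)
theorem L61914 : W_12 (nat_lit 3) (nat_lit 0x200000001200080003c00100000000000000000000000) (nat_lit 0x0) (nat_lit 0xe000200080000000000000000000000) := T_12 (nat_lit 105) (nat_lit 91) (nat_lit 2) (nat_lit 3) (nat_lit 6) L61913 (by decide +kernel)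
theorem L61915 : W_12 (nat_lit 4) (nat_lit 0x200000001200080003c00000000000000000000000000) (nat_lit 0x0) (nat_lit 0xe000200380000000000000000000000) := T_12 (nat_lit 92) (nat_lit 93) (nat_lit 2) (nat_lit 4) (nat_lit 6) L61914 (by decide +kernel)
theorem L61916 : W_12 (nat_lit 5) (nat_lit 0x200000001200080001c00000000000000000000000000) (nat_lit 0x0) (nat_lit 0x4e002200380000000000000000000000) := T_12 (nat_lit 109) (nat_lit 126) (nat_lit 3) (nat_lit 4) (nat_lit 6) L61915 (by decide +kernel)
theorem L61917 : W_12 (nat_lit 2) (nat_lit 0x200000001200080001f00090000000000000000000000) (nat_lit 0x0) (nat_lit 0x7000000000000000000000000000000) := D_12 (nat_lit 121) (nat_lit 120) (nat_lit 122) (nat_lit 1) (nat_lit 5) (nat_lit 6) (nat_lit 1) (nat_lit 6) (nat_lit 6) (by decide +kernel)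
theorem L61918 : W_12 (nat_lit 3) (nat_lit 0x200000001200080001e00090000000000000000000000) (nat_lit 0x0) (nat_lit 0x7000100040000000000000000000000) := T_12 (nat_lit 104) (nat_lit 90) (nat_lit 2) (nat_lit 2) (nat_lit 6) L61917 (by decide +kernel)
theorem L61919 : W_12 (nat_lit 4) (nat_lit 0x200000001200080001e00010000000000000000000000) (nat_lit 0x0) (nat_lit 0x70001001c0000000000000000000000) := T_12 (nat_lit 91) (nat_lit 92) (nat_lit 2) (nat_lit 3) (nat_lit 6) L61918 (by decide +kernel)
theorem L61920 : W_12 (nat_lit 5) (nat_lit 0x200000001200080001e00000000000000000000000000) (nat_lit 0x0) (nat_lit 0x70001001d8000000000000000000000) := T_12 (nat_lit 88) (nat_lit 87) (nat_lit 0) (nat_lit 6) (nat_lit 6) L61919 (by decide +kernel)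
theorem L61921 : W_12 (nat_lit 2) (nat_lit 0x200000001200080003e00090000000000000000000000) (nat_lit 0x0) (nat_lit 0xe000000000000000000000000000000) := D_12 (nat_lit 122) (nat_lit 121) (nat_lit 123) (nat_lit 1) (nat_lit 6) (nat_lit 6) (nat_lit 1) (nat_lit 7) (nat_lit 6) (by decide +kernel)
theorem L61922 : W_12 (nat_lit 3) (nat_lit 0x200000001200080001e00090000000000000000000000) (nat_lit 0x0) (nat_lit 0xe002000020000000000000000000000) := T_12 (nat_lit 109) (nat_lit 89) (nat_lit 0) (nat_lit 7) (nat_lit 6) L61921 (by decide +kernel)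
theorem L61923 : W_12 (nat_lit 4) (nat_lit 0x200000001200080001e00010000000000000000000000) (nat_lit 0x0) (nat_lit 0xe0020001a0000000000000000000000) := T_12 (nat_lit 91) (nat_lit 92) (nat_lit 2) (nat_lit 3) (nat_lit 6) L61922 (by decide +kernel)
theorem L61924 : W_12 (nat_lit 5) (nat_lit 0x200000001200080001e00000000000000000000000000) (nat_lit 0x0) (nat_lit 0xe0020001b8000000000000000000000) := T_12 (nat_lit 88) (nat_lit 87) (nat_lit 0) (nat_lit 6) (nat_lit 6) L61923 (by decide +kernel)
theorem L61925 : W_12 (nat_lit 2) (nat_lit 0x200000001200080001f00080000000000000000000000) (nat_lit 0x0) (nat_lit 0x1c000000000000000000000) := D_12 (nat_lit 87) (nat_lit 88) (nat_lit 86) (nat_lit 0) (nat_lit 6) (nat_lit 6) (nat_lit 0) (nat_lit 5) (nat_lit 6) (by decide +kernel)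
theorem L61926 : W_12 (nat_lit 3) (nat_lit 0x200000001200080001e00080000000000000000000000) (nat_lit 0x0) (nat_lit 0x10005c000000000000000000000) := T_12 (nat_lit 104) (nat_lit 90) (nat_lit 2) (nat_lit 2) (nat_lit 6) L61925 (by decide +kernel)
theorem L61927 : W_12 (nat_lit 4) (nat_lit 0x200000001200080001e00000000000000000000000000) (nat_lit 0x0) (nat_lit 0x1001dc000000000000000000000) := T_12 (nat_lit 91) (nat_lit 92) (nat_lit 2) (nat_lit 3) (nat_lit 6) L61926 (by decide +kernel)
theorem L61928 : W_12 (nat_lit 2) (nat_lit 0x200000001200084001e00010000000000000000000000) (nat_lit 0x0) (nat_lit 0x8002000020000000000000000000000) := D_12 (nat_lit 109) (nat_lit 89) (nat_lit 123) (nat_lit 0) (nat_lit 7) (nat_lit 6) (nat_lit 1) (nat_lit 7) (nat_lit 6) (by decide +kernel)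
theorem L61929 : W_12 (nat_lit 3) (nat_lit 0x200000001200080001e00010000000000000000000000) (nat_lit 0x0) (nat_lit 0xe002000020000000000000000000000) := T_12 (nat_lit 122) (nat_lit 121) (nat_lit 1) (nat_lit 6) (nat_lit 6) L61928 (by decide +kernel)
theorem L61930 : W_12 (nat_lit 4) (nat_lit 0x200000001200080001e00000000000000000000000000) (nat_lit 0x0) (nat_lit 0xe002000038000000000000000000000) := T_12 (nat_lit 88) (nat_lit 87) (nat_lit 0) (nat_lit 6) (nat_lit 6) L61929 (by decide +kernel)
theorem L61931 : W_12 (nat_lit 2) (nat_lit 0x200000001200080001f00080000000000000000000000) (nat_lit 0x0) (nat_lit 0x7000000000000000000000000000000) := D_12 (nat_lit 121) (nat_lit 120) (nat_lit 122) (nat_lit 1) (nat_lit 5) (nat_lit 6) (nat_lit 1) (nat_lit 6) (nat_lit 6) (by decide +kernel)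
theorem L61932 : W_12 (nat_lit 3) (nat_lit 0x200000001200080001e00080000000000000000000000) (nat_lit 0x0) (nat_lit 0x7000100040000000000000000000000) := T_12 (nat_lit 104) (nat_lit 90) (nat_lit 2) (nat_lit 2) (nat_lit 6) L61931 (by decide +kernel)
theorem L61933 : W_12 (nat_lit 4) (nat_lit 0x200000001200080001e00000000000000000000000000) (nat_lit 0x0) (nat_lit 0x70001001c0000000000000000000000) := T_12 (nat_lit 91) (nat_lit 92) (nat_lit 2) (nat_lit 3) (nat_lit 6) L61932 (by decide +kernel)
theorem L61934 : W_12 (nat_lit 6) (nat_lit 0x200000001200080001c00000000000000000000000000) (nat_lit 0x0) (nat_lit 0xf0023001fc000000000000000000000) := Q_12 (nat_lit 105) (C_12 L61920 (C_12 L61924 (C_12 L61927 (C_12 L61930 (C_12 L61933 N_12))))) (by decide +kernel)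
theorem L61935 : W_12 (nat_lit 2) (nat_lit 0x200000001200080003e00100000000000000000000000) (nat_lit 0x0) (nat_lit 0x38000000000000000000000) := D_12 (nat_lit 88) (nat_lit 89) (nat_lit 87) (nat_lit 0) (nat_lit 7) (nat_lit 6) (nat_lit 0) (nat_lit 6) (nat_lit 6) (by decide +kernel)
theorem L61936 : W_12 (nat_lit 3) (nat_lit 0x200000001200080003c00100000000000000000000000) (nat_lit 0x0) (nat_lit 0x2000b8000000000000000000000) := T_12 (nat_lit 105) (nat_lit 91) (nat_lit 2) (nat_lit 3) (nat_lit 6) L61935 (by decide +kernel)
theorem L61937 : W_12 (nat_lit 4) (nat_lit 0x200000001200080003c00000000000000000000000000) (nat_lit 0x0) (nat_lit 0x2003b8000000000000000000000) := T_12 (nat_lit 92) (nat_lit 93) (nat_lit 2) (nat_lit 4) (nat_lit 6) L61936 (by decide +kernel)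
theorem L61938 : W_12 (nat_lit 5) (nat_lit 0x200000001200080001c00000000000000000000000000) (nat_lit 0x0) (nat_lit 0x400022003b8000000000000000000000) := T_12 (nat_lit 109) (nat_lit 126) (nat_lit 3) (nat_lit 4) (nat_lit 6) L61937 (by decide +kernel)
theorem L61939 : W_12 (nat_lit 2) (nat_lit 0x2000000012000a0001f00008000000000000000000000) (nat_lit 0x0) (nat_lit 0x7000000000000000000000000000000) := D_12 (nat_lit 121) (nat_lit 122) (nat_lit 120) (nat_lit 1) (nat_lit 6) (nat_lit 6) (nat_lit 1) (nat_lit 5) (nat_lit 6) (by decide +kernel)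
theorem L61940 : W_12 (nat_lit 3) (nat_lit 0x2000000012000a0001e00008000000000000000000000) (nat_lit 0x0) (nat_lit 0x7000100004000000000000000000000) := T_12 (nat_lit 104) (nat_lit 86) (nat_lit 0) (nat_lit 5) (nat_lit 6) L61939 (by decide +kernel)
theorem L61941 : W_12 (nat_lit 4) (nat_lit 0x200000001200080001e00008000000000000000000000) (nat_lit 0x0) (nat_lit 0x67000100004000000000000000000000) := T_12 (nat_lit 125) (nat_lit 126) (nat_lit 3) (nat_lit 3) (nat_lit 6) L61940 (by decide +kernel)
theorem L61942 : W_12 (nat_lit 5) (nat_lit 0x200000001200080001e00000000000000000000000000) (nat_lit 0x0) (nat_lit 0x6700010001c000000000000000000000) := T_12 (nat_lit 87) (nat_lit 88) (nat_lit 0) (nat_lit 6) (nat_lit 6) L61941 (by decide +kernel)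
theorem L61943 : W_12 (nat_lit 2) (nat_lit 0x2000000016000a0001e00090000000000000000000000) (nat_lit 0x0) (nat_lit 0x18000000000000000040000000000000000000000) := D_12 (nat_lit 159) (nat_lit 90) (nat_lit 160) (nat_lit 4) (nat_lit 6) (nat_lit 9) (nat_lit 7) (nat_lit 6) (nat_lit 6) (by decide +kernel)
theorem L61944 : W_12 (nat_lit 3) (nat_lit 0x2000000012000a0001e00090000000000000000000000) (nat_lit 0x0) (nat_lit 0x1c000400000000000040000000000000000000000) := T_12 (nat_lit 142) (nat_lit 158) (nat_lit 5) (nat_lit 6) (nat_lit 5) L61943 (by decide +kernel)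
theorem L61945 : W_12 (nat_lit 4) (nat_lit 0x200000001200080001e00090000000000000000000000) (nat_lit 0x0) (nat_lit 0x1c000400060000000040000000000000000000000) := T_12 (nat_lit 125) (nat_lit 126) (nat_lit 3) (nat_lit 3) (nat_lit 6) L61944 (by decide +kernel)
theorem L61946 : W_12 (nat_lit 5) (nat_lit 0x200000001200080001e00080000000000000000000000) (nat_lit 0x0) (nat_lit 0x1c000400060000000058000000000000000000000) := T_12 (nat_lit 88) (nat_lit 87) (nat_lit 0) (nat_lit 6) (nat_lit 6) L61945 (by decide +kernel)
theorem L61947 : W_12 (nat_lit 6) (nat_lit 0x200000001200080001e00000000000000000000000000) (nat_lit 0x0) (nat_lit 0x1c0004000600000001d8000000000000000000000) := T_12 (nat_lit 91) (nat_lit 92) (nat_lit 2) (nat_lit 3) (nat_lit 6) L61946 (by decide +kernel)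
theorem L61948 : W_12 (nat_lit 7) (nat_lit 0x200000001200080001c00000000000000000000000000) (nat_lit 0x0) (nat_lit 0x1c0004000670003001dc000000000000000000000) := Q_12 (nat_lit 105) (C_12 L61933 (C_12 L61942 (C_12 L61927 (C_12 L61947 N_12)))) (by decide +kernel)
theorem L61949 : W_12 (nat_lit 2) (nat_lit 0x200000001300088003c00120000000000000000000000) (nat_lit 0x0) (nat_lit 0x2000000000000000040002000000000000000000) := D_12 (nat_lit 90) (nat_lit 157) (nat_lit 73) (nat_lit 6) (nat_lit 4) (nat_lit 9) (nat_lit 6) (nat_lit 4) (nat_lit 8) (by decide +kernel)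
theorem L61950 : W_12 (nat_lit 3) (nat_lit 0x200000001200088003c00120000000000000000000000) (nat_lit 0x0) (nat_lit 0x6000100000000000040002000000000000000000) := T_12 (nat_lit 140) (nat_lit 158) (nat_lit 7) (nat_lit 4) (nat_lit 5) L61949 (by decide +kernel)
theorem L61951 : W_12 (nat_lit 4) (nat_lit 0x200000001200088003c00100000000000000000000000) (nat_lit 0x0) (nat_lit 0x6000100000000000070002000000000000000000) := T_12 (nat_lit 89) (nat_lit 88) (nat_lit 0) (nat_lit 7) (nat_lit 6) L61950 (by decide +kernel)
theorem L61952 : W_12 (nat_lit 5) (nat_lit 0x200000001200080003c00100000000000000000000000) (nat_lit 0x0) (nat_lit 0x600010000c000000070002000000000000000000) := T_12 (nat_lit 123) (nat_lit 122) (nat_lit 1) (nat_lit 7) (nat_lit 6) L61951 (by decide +kernel)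
theorem L61953 : W_12 (nat_lit 6) (nat_lit 0x200000001200080003c00000000000000000000000000) (nat_lit 0x0) (nat_lit 0x600010000c000000370002000000000000000000) := T_12 (nat_lit 92) (nat_lit 93) (nat_lit 2) (nat_lit 4) (nat_lit 6) L61952 (by decide +kernel)
theorem L61954 : W_12 (nat_lit 7) (nat_lit 0x200000001200080001c00000000000000000000000000) (nat_lit 0x0) (nat_lit 0x600010004c002000370002000000000000000000) := T_12 (nat_lit 109) (nat_lit 126) (nat_lit 3) (nat_lit 4) (nat_lit 6) L61953 (by decide +kernel)
theorem L61955 : W_12 (nat_lit 2) (nat_lit 0x200000001300088003c00020000000000000000000000) (nat_lit 0x0) (nat_lit 0x2000000000000000040002000000000000000000) := D_12 (nat_lit 90) (nat_lit 157) (nat_lit 73) (nat_lit 6) (nat_lit 4) (nat_lit 9) (nat_lit 6) (nat_lit 4) (nat_lit 8) (by decide +kernel)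
theorem L61956 : W_12 (nat_lit 3) (nat_lit 0x200000001200088003c00020000000000000000000000) (nat_lit 0x0) (nat_lit 0x6000100000000000040002000000000000000000) := T_12 (nat_lit 140) (nat_lit 158) (nat_lit 7) (nat_lit 4) (nat_lit 5) L61955 (by decide +kernel)
theorem L61957 : W_12 (nat_lit 4) (nat_lit 0x200000001200088003c00000000000000000000000000) (nat_lit 0x0) (nat_lit 0x6000100000000000070002000000000000000000) := T_12 (nat_lit 89) (nat_lit 88) (nat_lit 0) (nat_lit 7) (nat_lit 6) L61956 (by decide +kernel)
theorem L61958 : W_12 (nat_lit 5) (nat_lit 0x200000001200080003c00000000000000000000000000) (nat_lit 0x0) (nat_lit 0x600010000c000000070002000000000000000000) := T_12 (nat_lit 123) (nat_lit 122) (nat_lit 1) (nat_lit 7) (nat_lit 6) L61957 (by decide +kernel)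
theorem L61959 : W_12 (nat_lit 6) (nat_lit 0x200000001200080001c00000000000000000000000000) (nat_lit 0x0) (nat_lit 0x600010004c002000070002000000000000000000) := T_12 (nat_lit 109) (nat_lit 126) (nat_lit 3) (nat_lit 4) (nat_lit 6) L61958 (by decide +kernel)
theorem L61960 : W_12 (nat_lit 8) (nat_lit 0x200000001200080001800000000000000000000000000) (nat_lit 0x0) (nat_lit 0x1e00050006f0027003fc002000000000000000000) := Q_12 (nat_lit 106) (C_12 L61916 (C_12 L61934 (C_12 L61938 (C_12 L61948 (C_12 L61954 (C_12 L61959 N_12)))))) (by decide +kernel)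
theorem L61961 : W_12 (nat_lit 6) (nat_lit 0x200000001200080003800000000000000000000000000) (nat_lit 0x0) (nat_lit 0x600010004c000400070002000000000000000000) := T_12 (nat_lit 106) (nat_lit 126) (nat_lit 3) (nat_lit 4) (nat_lit 6) L61958 (by decide +kernel)
theorem L61962 : W_12 (nat_lit 6) (nat_lit 0x200000001200080003800000000000000000000000000) (nat_lit 0x0) (nat_lit 0x600010000e0006003f8002000000000000000000) := Q_12 (nat_lit 106) (C_12 L61958 (C_12 L61937 (C_12 L61915 N_12))) (by decide +kernel)
theorem L61963 : W_12 (nat_lit 5) (nat_lit 0x200000001200080003800000000000000000000000000) (nat_lit 0x0) (nat_lit 0x400006003b8000000000000000000000) := T_12 (nat_lit 106) (nat_lit 126) (nat_lit 3) (nat_lit 4) (nat_lit 6) L61937 (by decide +kernel)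
theorem L61964 : W_12 (nat_lit 2) (nat_lit 0x200000001a002c0003800100000000000000000000000) (nat_lit 0x0) (nat_lit 0x4000000010000000000000000080000000000000000000000) := D_12 (nat_lit 160) (nat_lit 194) (nat_lit 91) (nat_lit 6) (nat_lit 7) (nat_lit 11) (nat_lit 4) (nat_lit 7) (nat_lit 9) (by decide +kernel)
theorem L61965 : W_12 (nat_lit 3) (nat_lit 0x2000000012002c0003800100000000000000000000000) (nat_lit 0x0) (nat_lit 0x4000000030000800000000000080000000000000000000000) := T_12 (nat_lit 143) (nat_lit 161) (nat_lit 7) (nat_lit 7) (nat_lit 5) L61964 (by decide +kernel)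
theorem L61966 : W_12 (nat_lit 4) (nat_lit 0x2000000012000c0003800100000000000000000000000) (nat_lit 0x0) (nat_lit 0x4000000030000800300000000080000000000000000000000) := T_12 (nat_lit 129) (nat_lit 128) (nat_lit 0) (nat_lit 10) (nat_lit 7) L61965 (by decide +kernel)
theorem L61967 : W_12 (nat_lit 5) (nat_lit 0x2000000012000c0003800000000000000000000000000) (nat_lit 0x0) (nat_lit 0x4000000030000800300000000180008000000000000000000) := T_12 (nat_lit 92) (nat_lit 75) (nat_lit 7) (nat_lit 7) (nat_lit 4) L61966 (by decide +kernel)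
theorem L61968 : W_12 (nat_lit 2) (nat_lit 0x2000000012000c0003800000000000000000000000000) (nat_lit 0x0) (nat_lit 0x320000000000000000000000000000000) := D_12 (nat_lit 128) (nat_lit 129) (nat_lit 125) (nat_lit 0) (nat_lit 10) (nat_lit 7) (nat_lit 0) (nat_lit 9) (nat_lit 7) (by decide +kernel)
theorem L61969 : W_12 (nat_lit 2) (nat_lit 0x200000001a000c0003800100000000000000000000000) (nat_lit 0x0) (nat_lit 0x4000000010000000000000000080000000000000000000000) := D_12 (nat_lit 160) (nat_lit 194) (nat_lit 91) (nat_lit 6) (nat_lit 7) (nat_lit 11) (nat_lit 4) (nat_lit 7) (nat_lit 9) (by decide +kernel)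
theorem L61970 : W_12 (nat_lit 3) (nat_lit 0x2000000012000c0003800100000000000000000000000) (nat_lit 0x0) (nat_lit 0x4000000030000800000000000080000000000000000000000) := T_12 (nat_lit 143) (nat_lit 161) (nat_lit 7) (nat_lit 7) (nat_lit 5) L61969 (by decide +kernel)
theorem L61971 : W_12 (nat_lit 4) (nat_lit 0x2000000012000c0003800000000000000000000000000) (nat_lit 0x0) (nat_lit 0x4000000030000800000000000180008000000000000000000) := T_12 (nat_lit 92) (nat_lit 75) (nat_lit 7) (nat_lit 7) (nat_lit 4) L61970 (by decide +kernel)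
theorem L61972 : W_12 (nat_lit 6) (nat_lit 0x200000001200080003800000000000000000000000000) (nat_lit 0x0) (nat_lit 0x4000000030000800360000000180008000000000000000000) := Q_12 (nat_lit 126) (C_12 L61967 (C_12 L61968 (C_12 L61971 N_12))) (by decide +kernel)
theorem L61973 : W_12 (nat_lit 7) (nat_lit 0x200000001200080001800000000000000000000000000) (nat_lit 0x0) (nat_lit 0x400000003600090036e0026003f800a000000000000000000) := Q_12 (nat_lit 109) (C_12 L61961 (C_12 L61962 (C_12 L61963 (C_12 L61972 N_12)))) (by decide +kernel)
theorem L61974 : W_12 (nat_lit 2) (nat_lit 0x200024001e00080003800000000000000000000000000) (nat_lit 0x0) (nat_lit 0x4000000010000100000000000000000000000000000000000) := D_12 (nat_lit 160) (nat_lit 140) (nat_lit 194) (nat_lit 3) (nat_lit 4) (nat_lit 8) (nat_lit 6) (nat_lit 7) (nat_lit 11) (by decide +kernel)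
theorem L61975 : W_12 (nat_lit 3) (nat_lit 0x200004001e00080003800000000000000000000000000) (nat_lit 0x0) (nat_lit 0x4000000070000100000000000000000000000000000000000) := T_12 (nat_lit 161) (nat_lit 162) (nat_lit 3) (nat_lit 5) (nat_lit 8) L61974 (by decide +kernel)
theorem L61976 : W_12 (nat_lit 4) (nat_lit 0x200000001e00080003800000000000000000000000000) (nat_lit 0x0) (nat_lit 0x4000000076000100000000000000000000000000000000000) := T_12 (nat_lit 158) (nat_lit 157) (nat_lit 1) (nat_lit 8) (nat_lit 8) L61975 (by decide +kernel)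
theorem L61977 : W_12 (nat_lit 5) (nat_lit 0x200000001a00080003800000000000000000000000000) (nat_lit 0x0) (nat_lit 0x4000000076000500100000000000000000000000000000000) := T_12 (nat_lit 142) (nat_lit 128) (nat_lit 2) (nat_lit 5) (nat_lit 8) L61976 (by decide +kernel)
theorem L61978 : W_12 (nat_lit 2) (nat_lit 0x4000200000001a00180003800000000000000000000000000) (nat_lit 0x0) (nat_lit 0x640000000000000000000000000000000) := D_12 (nat_lit 129) (nat_lit 130) (nat_lit 126) (nat_lit 1) (nat_lit 11) (nat_lit 7) (nat_lit 0) (nat_lit 10) (nat_lit 7) (by decide +kernel)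
theorem L61979 : W_12 (nat_lit 3) (nat_lit 0x4000200000001a00080003800000000000000000000000000) (nat_lit 0x0) (nat_lit 0x400740000000000000000000000000000000) := T_12 (nat_lit 128) (nat_lit 142) (nat_lit 2) (nat_lit 5) (nat_lit 8) L61978 (by decide +kernel)
theorem L61980 : W_12 (nat_lit 4) (nat_lit 0x200000001a00080003800000000000000000000000000) (nat_lit 0x0) (nat_lit 0x4000000010000400740000000000000000000000000000000) := T_12 (nat_lit 194) (nat_lit 160) (nat_lit 6) (nat_lit 7) (nat_lit 11) L61979 (by decide +kernel)
theorem L61981 : W_12 (nat_lit 2) (nat_lit 0x200010001a000c0003800000000000000000000000000) (nat_lit 0x0) (nat_lit 0x20000000000000000100008000000000000000000) := D_12 (nat_lit 92) (nat_lit 75) (nat_lit 161) (nat_lit 7) (nat_lit 7) (nat_lit 4) (nat_lit 7) (nat_lit 7) (nat_lit 5) (by decide +kernel)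
theorem L61982 : W_12 (nat_lit 3) (nat_lit 0x200010001a00080003800000000000000000000000000) (nat_lit 0x0) (nat_lit 0x20000000040000000180008000000000000000000) := T_12 (nat_lit 126) (nat_lit 91) (nat_lit 4) (nat_lit 7) (nat_lit 9) L61981 (by decide +kernel)
theorem L61983 : W_12 (nat_lit 4) (nat_lit 0x200000001a00080003800000000000000000000000000) (nat_lit 0x0) (nat_lit 0x4000000030000000040000000180008000000000000000000) := T_12 (nat_lit 160) (nat_lit 194) (nat_lit 6) (nat_lit 7) (nat_lit 11) L61982 (by decide +kernel)
theorem L61984 : W_12 (nat_lit 2) (nat_lit 0x200000001f00080003800000000000000000000000000) (nat_lit 0x0) (nat_lit 0x7000000000000000000000000000000000000000) := D_12 (nat_lit 157) (nat_lit 156) (nat_lit 158) (nat_lit 1) (nat_lit 7) (nat_lit 8) (nat_lit 1) (nat_lit 8) (nat_lit 8) (by decide +kernel)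
theorem L61985 : W_12 (nat_lit 3) (nat_lit 0x200000001e00080003800000000000000000000000000) (nat_lit 0x0) (nat_lit 0x7000100040000000000000000000000000000000) := T_12 (nat_lit 140) (nat_lit 126) (nat_lit 2) (nat_lit 4) (nat_lit 8) L61984 (by decide +kernel)
theorem L61986 : W_12 (nat_lit 4) (nat_lit 0x200000001a00080003800000000000000000000000000) (nat_lit 0x0) (nat_lit 0x7000500140000000000000000000000000000000) := T_12 (nat_lit 142) (nat_lit 128) (nat_lit 2) (nat_lit 5) (nat_lit 8) L61985 (by decide +kernel)
theorem L61987 : W_12 (nat_lit 6) (nat_lit 0x200000001200080003800000000000000000000000000) (nat_lit 0x0) (nat_lit 0x4000000077000d00740000000180008000000000000000000) := Q_12 (nat_lit 143) (C_12 L61977 (C_12 L61980 (C_12 L61983 (C_12 L61986 N_12)))) (by decide +kernel)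
theorem L61988 : W_12 (nat_lit 7) (nat_lit 0x200000001200080001800000000000000000000000000) (nat_lit 0x0) (nat_lit 0x4000000077000d0074e0026003f800a000000000000000000) := Q_12 (nat_lit 109) (C_12 L61963 (C_12 L61962 (C_12 L61987 (C_12 L61961 N_12)))) (by decide +kernel)
theorem L61989 : W_12 (nat_lit 2) (nat_lit 0x4000200004001e000a0001800000000000000000000000000) (nat_lit 0x0) (nat_lit 0x80008000000000000000040000000000000000000000) := D_12 (nat_lit 159) (nat_lit 90) (nat_lit 175) (nat_lit 4) (nat_lit 6) (nat_lit 9) (nat_lit 5) (nat_lit 6) (nat_lit 6) (by decide +kernel)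
theorem L61990 : W_12 (nat_lit 3) (nat_lit 0x4000200004001e00080001800000000000000000000000000) (nat_lit 0x0) (nat_lit 0x800080000000200000000c0000000000000000000000) := T_12 (nat_lit 125) (nat_lit 91) (nat_lit 5) (nat_lit 6) (nat_lit 5) L61989 (by decide +kernel)
theorem L61991 : W_12 (nat_lit 4) (nat_lit 0x200004001e00080001800000000000000000000000000) (nat_lit 0x0) (nat_lit 0x40000800180000000200000000c0000000000000000000000) := T_12 (nat_lit 194) (nat_lit 160) (nat_lit 6) (nat_lit 7) (nat_lit 11) L61990 (by decide +kernel)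
theorem L61992 : W_12 (nat_lit 5) (nat_lit 0x200000001e00080001800000000000000000000000000) (nat_lit 0x0) (nat_lit 0x400008001e0000000200000000c0000000000000000000000) := T_12 (nat_lit 158) (nat_lit 157) (nat_lit 1) (nat_lit 8) (nat_lit 8) L61991 (by decide +kernel)
theorem L61993 : W_12 (nat_lit 6) (nat_lit 0x200000001600080001800000000000000000000000000) (nat_lit 0x0) (nat_lit 0x400008001e0008001200000000c0000000000000000000000) := T_12 (nat_lit 143) (nat_lit 128) (nat_lit 2) (nat_lit 5) (nat_lit 8) L61992 (by decide +kernel)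
theorem L61994 : W_12 (nat_lit 2) (nat_lit 0x200014001e00080001800000000000000000000000000) (nat_lit 0x0) (nat_lit 0x60000100000000000000000000000000000000000) := D_12 (nat_lit 161) (nat_lit 162) (nat_lit 140) (nat_lit 3) (nat_lit 5) (nat_lit 8) (nat_lit 3) (nat_lit 4) (nat_lit 8) (by decide +kernel)
theorem L61995 : W_12 (nat_lit 3) (nat_lit 0x200004001e00080001800000000000000000000000000) (nat_lit 0x0) (nat_lit 0x4000000070000100000000000000000000000000000000000) := T_12 (nat_lit 160) (nat_lit 194) (nat_lit 6) (nat_lit 7) (nat_lit 11) L61994 (by decide +kernel)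
theorem L61996 : W_12 (nat_lit 4) (nat_lit 0x200000001e00080001800000000000000000000000000) (nat_lit 0x0) (nat_lit 0x4000000076000100000000000000000000000000000000000) := T_12 (nat_lit 158) (nat_lit 157) (nat_lit 1) (nat_lit 8) (nat_lit 8) L61995 (by decide +kernel)
theorem L61997 : W_12 (nat_lit 5) (nat_lit 0x200000001600080001800000000000000000000000000) (nat_lit 0x0) (nat_lit 0x4000000076000900100000000000000000000000000000000) := T_12 (nat_lit 143) (nat_lit 128) (nat_lit 2) (nat_lit 5) (nat_lit 8) L61996 (by decide +kernel)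
theorem L61998 : W_12 (nat_lit 2) (nat_lit 0x200020001e00080001800000000000000000000000000) (nat_lit 0x0) (nat_lit 0x4000000010000100000000000000000000000000000000000) := D_12 (nat_lit 160) (nat_lit 140) (nat_lit 194) (nat_lit 3) (nat_lit 4) (nat_lit 8) (nat_lit 6) (nat_lit 7) (nat_lit 11) (by decide +kernel)
theorem L61999 : W_12 (nat_lit 3) (nat_lit 0x200000001e00080001800000000000000000000000000) (nat_lit 0x0) (nat_lit 0x4000000070000100000000000000000000000000000000000) := T_12 (nat_lit 161) (nat_lit 162) (nat_lit 3) (nat_lit 5) (nat_lit 8) L61998 (by decide +kernel)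
theorem L62000 : W_12 (nat_lit 4) (nat_lit 0x200000001600080001800000000000000000000000000) (nat_lit 0x0) (nat_lit 0x4000000070000900100000000000000000000000000000000) := T_12 (nat_lit 143) (nat_lit 128) (nat_lit 2) (nat_lit 5) (nat_lit 8) L61999 (by decide +kernel)
theorem L62001 : W_12 (nat_lit 2) (nat_lit 0x2000000016000a0001800000000000000000000000000) (nat_lit 0x0) (nat_lit 0x18000000000000000040000000000000000000000) := D_12 (nat_lit 159) (nat_lit 90) (nat_lit 160) (nat_lit 4) (nat_lit 6) (nat_lit 9) (nat_lit 7) (nat_lit 6) (nat_lit 6) (by decide +kernel)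
theorem L62002 : W_12 (nat_lit 2) (nat_lit 0x2000000016000a00018001c0000000000000000000000) (nat_lit 0x0) (nat_lit 0x600200000000000000000000000) := D_12 (nat_lit 106) (nat_lit 105) (nat_lit 93) (nat_lit 2) (nat_lit 3) (nat_lit 6) (nat_lit 1) (nat_lit 8) (nat_lit 5) (by decide +kernel)
theorem L62003 : W_12 (nat_lit 3) (nat_lit 0x2000000016000a00018000c0000000000000000000000) (nat_lit 0x0) (nat_lit 0x600300008000000000000000000) := T_12 (nat_lit 92) (nat_lit 75) (nat_lit 6) (nat_lit 6) (nat_lit 8) L62002 (by decide +kernel)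
theorem L62004 : W_12 (nat_lit 4) (nat_lit 0x2000000016000a0001800080000000000000000000000) (nat_lit 0x0) (nat_lit 0x60034000a000000000000000000) := T_12 (nat_lit 90) (nat_lit 73) (nat_lit 4) (nat_lit 6) (nat_lit 8) L62003 (by decide +kernel)
theorem L62005 : W_12 (nat_lit 5) (nat_lit 0x2000000016000a0001800000000000000000000000000) (nat_lit 0x0) (nat_lit 0x40000000000006003c000a000000000000000000) := T_12 (nat_lit 91) (nat_lit 158) (nat_lit 5) (nat_lit 6) (nat_lit 5) L62004 (by decide +kernel)
theorem L62006 : W_12 (nat_lit 2) (nat_lit 0x2000080016000a0001800080000000000000000000000) (nat_lit 0x0) (nat_lit 0x2000100008000000000000000000) := D_12 (nat_lit 92) (nat_lit 109) (nat_lit 75) (nat_lit 6) (nat_lit 6) (nat_lit 9) (nat_lit 6) (nat_lit 6) (nat_lit 8) (by decide +kernel)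
theorem L62007 : W_12 (nat_lit 3) (nat_lit 0x2000000016000a0001800080000000000000000000000) (nat_lit 0x0) (nat_lit 0x18000000000002000100008000000000000000000) := T_12 (nat_lit 159) (nat_lit 160) (nat_lit 7) (nat_lit 6) (nat_lit 6) L62006 (by decide +kernel)
theorem L62008 : W_12 (nat_lit 4) (nat_lit 0x2000000016000a0001800000000000000000000000000) (nat_lit 0x0) (nat_lit 0x1c000000000002000180008000000000000000000) := T_12 (nat_lit 91) (nat_lit 158) (nat_lit 5) (nat_lit 6) (nat_lit 5) L62007 (by decide +kernel)
theorem L62009 : W_12 (nat_lit 6) (nat_lit 0x200000001600080001800000000000000000000000000) (nat_lit 0x0) (nat_lit 0x1c0000000200026003c000a000000000000000000) := Q_12 (nat_lit 125) (C_12 L62001 (C_12 L62005 (C_12 L62008 N_12))) (by decide +kernel)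
theorem L62010 : W_12 (nat_lit 2) (nat_lit 0x200024001e000a0001800000000000000000000000000) (nat_lit 0x0) (nat_lit 0x80008000000000000000040000000000000000000000) := D_12 (nat_lit 159) (nat_lit 90) (nat_lit 175) (nat_lit 4) (nat_lit 6) (nat_lit 9) (nat_lit 5) (nat_lit 6) (nat_lit 6) (by decide +kernel)
theorem L62011 : W_12 (nat_lit 3) (nat_lit 0x200024001e00080001800000000000000000000000000) (nat_lit 0x0) (nat_lit 0x800080000000200000000c0000000000000000000000) := T_12 (nat_lit 125) (nat_lit 91) (nat_lit 5) (nat_lit 6) (nat_lit 5) L62010 (by decide +kernel)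
theorem L62012 : W_12 (nat_lit 4) (nat_lit 0x200004001e00080001800000000000000000000000000) (nat_lit 0x0) (nat_lit 0x800680000000200000000c0000000000000000000000) := T_12 (nat_lit 161) (nat_lit 162) (nat_lit 3) (nat_lit 5) (nat_lit 8) L62011 (by decide +kernel)
theorem L62013 : W_12 (nat_lit 5) (nat_lit 0x200000001e00080001800000000000000000000000000) (nat_lit 0x0) (nat_lit 0x8006e0000000200000000c0000000000000000000000) := T_12 (nat_lit 158) (nat_lit 157) (nat_lit 1) (nat_lit 8) (nat_lit 8) L62012 (by decide +kernel)
theorem L62014 : W_12 (nat_lit 6) (nat_lit 0x200000001600080001800000000000000000000000000) (nat_lit 0x0) (nat_lit 0x8006e0008001200000000c0000000000000000000000) := T_12 (nat_lit 143) (nat_lit 128) (nat_lit 2) (nat_lit 5) (nat_lit 8) L62013 (by decide +kernel)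
theorem L62015 : W_12 (nat_lit 7) (nat_lit 0x200000001200080001800000000000000000000000000) (nat_lit 0x0) (nat_lit 0x400008007e000d001200026003c000a000000000000000000) := Q_12 (nat_lit 142) (C_12 L61993 (C_12 L61997 (C_12 L62000 (C_12 L62009 (C_12 L62014 N_12))))) (by decide +kernel)
theorem L62016 : W_12 (nat_lit 2) (nat_lit 0x2000000012001c0001800000000000000000000000000) (nat_lit 0x0) (nat_lit 0x200002400000000000000000000000000) := D_12 (nat_lit 109) (nat_lit 106) (nat_lit 129) (nat_lit 3) (nat_lit 4) (nat_lit 6) (nat_lit 0) (nat_lit 10) (nat_lit 7) (by decide +kernel)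
theorem L62017 : W_12 (nat_lit 3) (nat_lit 0x2000000012000c0001800000000000000000000000000) (nat_lit 0x0) (nat_lit 0x320002400000000000000000000000000) := T_12 (nat_lit 128) (nat_lit 125) (nat_lit 0) (nat_lit 9) (nat_lit 7) L62016 (by decide +kernel)
theorem L62018 : W_12 (nat_lit 2) (nat_lit 0x2000100016000e0001a0008000a000000000000000000) (nat_lit 0x0) (nat_lit 0x4000500000000000000) := D_12 (nat_lit 74) (nat_lit 56) (nat_lit 58) (nat_lit 4) (nat_lit 6) (nat_lit 7) (nat_lit 6) (nat_lit 6) (nat_lit 7) (by decide +kernel)
theorem L62019 : W_12 (nat_lit 3) (nat_lit 0x2000100016000e0001a00080002000000000000000000) (nat_lit 0x0) (nat_lit 0x10000c000500000000000000) := T_12 (nat_lit 75) (nat_lit 92) (nat_lit 6) (nat_lit 6) (nat_lit 8) L62018 (by decide +kernel)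
theorem L62020 : W_12 (nat_lit 4) (nat_lit 0x2000100016000e0001a00080000000000000000000000) (nat_lit 0x0) (nat_lit 0x14000e000500000000000000) := T_12 (nat_lit 73) (nat_lit 90) (nat_lit 4) (nat_lit 6) (nat_lit 8) L62019 (by decide +kernel)
theorem L62021 : W_12 (nat_lit 5) (nat_lit 0x2000100016000e0001a00000000000000000000000000) (nat_lit 0x0) (nat_lit 0x40000000000000001c000e000500000000000000) := T_12 (nat_lit 91) (nat_lit 158) (nat_lit 5) (nat_lit 6) (nat_lit 5) L62020 (by decide +kernel)
theorem L62022 : W_12 (nat_lit 6) (nat_lit 0x2000100012000e0001a00000000000000000000000000) (nat_lit 0x0) (nat_lit 0xc0004000000000001c000e000500000000000000) := T_12 (nat_lit 142) (nat_lit 159) (nat_lit 7) (nat_lit 6) (nat_lit 6) L62021 (by decide +kernel)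
theorem L62023 : W_12 (nat_lit 7) (nat_lit 0x2000100012000e0001800000000000000000000000000) (nat_lit 0x0) (nat_lit 0xc0004000000006001c000e000500000000000000) := T_12 (nat_lit 105) (nat_lit 106) (nat_lit 3) (nat_lit 3) (nat_lit 6) L62022 (by decide +kernel)
theorem L62024 : W_12 (nat_lit 8) (nat_lit 0x2000000012000e0001800000000000000000000000000) (nat_lit 0x0) (nat_lit 0x1c000c000000006001c000e000500000000000000) := T_12 (nat_lit 160) (nat_lit 143) (nat_lit 4) (nat_lit 7) (nat_lit 10) L62023 (by decide +kernel)
theorem L62025 : W_12 (nat_lit 9) (nat_lit 0x2000000012000c0001800000000000000000000000000) (nat_lit 0x0) (nat_lit 0x1c000c001200006001c000e000500000000000000) := T_12 (nat_lit 125) (nat_lit 128) (nat_lit 0) (nat_lit 9) (nat_lit 7) L62024 (by decide +kernel)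
theorem L62026 : W_12 (nat_lit 5) (nat_lit 0x2000000012000c0001800000000000000000000000000) (nat_lit 0x0) (nat_lit 0x4000000030000800000002400180008000000000000000000) := T_12 (nat_lit 109) (nat_lit 106) (nat_lit 3) (nat_lit 4) (nat_lit 6) L61971 (by decide +kernel)
theorem L62027 : W_12 (nat_lit 2) (nat_lit 0x2000000012003c0001800000000000000000000000000) (nat_lit 0x0) (nat_lit 0xc00400000000000000000000000000000000) := D_12 (nat_lit 143) (nat_lit 142) (nat_lit 130) (nat_lit 2) (nat_lit 5) (nat_lit 8) (nat_lit 1) (nat_lit 11) (nat_lit 7) (by decide +kernel)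
theorem L62028 : W_12 (nat_lit 3) (nat_lit 0x2000000012001c0001800000000000000000000000000) (nat_lit 0x0) (nat_lit 0xc00600002000000000000000000000000000) := T_12 (nat_lit 129) (nat_lit 109) (nat_lit 0) (nat_lit 10) (nat_lit 7) L62027 (by decide +kernel)
theorem L62029 : W_12 (nat_lit 4) (nat_lit 0x2000000012000c0001800000000000000000000000000) (nat_lit 0x0) (nat_lit 0xc00720002000000000000000000000000000) := T_12 (nat_lit 128) (nat_lit 125) (nat_lit 0) (nat_lit 9) (nat_lit 7) L62028 (by decide +kernel)
theorem L62030 : W_12 (nat_lit 10) (nat_lit 0x200000001200080001800000000000000000000000000) (nat_lit 0x0) (nat_lit 0x400000003c000c007600026001c000e000500000000000000) := Q_12 (nat_lit 126) (C_12 L62017 (C_12 L62025 (C_12 L62026 (C_12 L62029 N_12)))) (by decide +kernel)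
theorem L62031 : W_12 (nat_lit 2) (nat_lit 0x200000001e000e0001a00080000000000000000000000) (nat_lit 0x0) (nat_lit 0x8000000000000000040002000000000000000000) := D_12 (nat_lit 90) (nat_lit 73) (nat_lit 159) (nat_lit 4) (nat_lit 6) (nat_lit 8) (nat_lit 4) (nat_lit 6) (nat_lit 9) (by decide +kernel)
theorem L62032 : W_12 (nat_lit 3) (nat_lit 0x200000001a000e0001a00080000000000000000000000) (nat_lit 0x0) (nat_lit 0x8000500000000000040002000000000000000000) := T_12 (nat_lit 142) (nat_lit 140) (nat_lit 2) (nat_lit 4) (nat_lit 8) L62031 (by decide +kernel)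
theorem L62033 : W_12 (nat_lit 4) (nat_lit 0x200000001a000e0001a00000000000000000000000000) (nat_lit 0x0) (nat_lit 0x80005000000000000c0006000000000000000000) := T_12 (nat_lit 91) (nat_lit 74) (nat_lit 7) (nat_lit 6) (nat_lit 4) L62032 (by decide +kernel)
theorem L62034 : W_12 (nat_lit 5) (nat_lit 0x200000001a000e0001800000000000000000000000000) (nat_lit 0x0) (nat_lit 0x80005000000006000c0006000000000000000000) := T_12 (nat_lit 105) (nat_lit 106) (nat_lit 3) (nat_lit 3) (nat_lit 6) L62033 (by decide +kernel)
theorem L62035 : W_12 (nat_lit 6) (nat_lit 0x2000000012000e0001800000000000000000000000000) (nat_lit 0x0) (nat_lit 0x18000d000000006000c0006000000000000000000) := T_12 (nat_lit 143) (nat_lit 160) (nat_lit 4) (nat_lit 7) (nat_lit 10) L62034 (by decide +kernel)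
theorem L62036 : W_12 (nat_lit 7) (nat_lit 0x2000000012000c0001800000000000000000000000000) (nat_lit 0x0) (nat_lit 0x18000d001200006000c0006000000000000000000) := T_12 (nat_lit 125) (nat_lit 128) (nat_lit 0) (nat_lit 9) (nat_lit 7) L62035 (by decide +kernel)
theorem L62037 : W_12 (nat_lit 8) (nat_lit 0x200000001200080001800000000000000000000000000) (nat_lit 0x0) (nat_lit 0x4000000038000d007600026001c000e000000000000000000) := Q_12 (nat_lit 126) (C_12 L62026 (C_12 L62036 (C_12 L62017 (C_12 L62029 N_12)))) (by decide +kernel)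
theorem L62038 : W_12 (nat_lit 2) (nat_lit 0x2000000016000c0001800000000000000000000000000) (nat_lit 0x0) (nat_lit 0x900100000000000000000000000000000000) := D_12 (nat_lit 143) (nat_lit 128) (nat_lit 140) (nat_lit 2) (nat_lit 5) (nat_lit 8) (nat_lit 2) (nat_lit 4) (nat_lit 8) (by decide +kernel)
theorem L62039 : W_12 (nat_lit 2) (nat_lit 0x2000000016000c0001800000000000000000000000000) (nat_lit 0x0) (nat_lit 0x800120000000000000000000000000000000) := D_12 (nat_lit 128) (nat_lit 143) (nat_lit 125) (nat_lit 2) (nat_lit 5) (nat_lit 8) (nat_lit 1) (nat_lit 9) (nat_lit 7) (by decide +kernel)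
theorem L62040 : W_12 (nat_lit 2) (nat_lit 0x2000000016800e0001800080000000000000000000000) (nat_lit 0x0) (nat_lit 0x8000000000000000040002000000000000000000) := D_12 (nat_lit 90) (nat_lit 73) (nat_lit 159) (nat_lit 4) (nat_lit 6) (nat_lit 8) (nat_lit 4) (nat_lit 6) (nat_lit 9) (by decide +kernel)
theorem L62041 : W_12 (nat_lit 3) (nat_lit 0x2000000016800e0001800000000000000000000000000) (nat_lit 0x0) (nat_lit 0xc0000000000000000c0002000000000000000000) := T_12 (nat_lit 91) (nat_lit 158) (nat_lit 5) (nat_lit 6) (nat_lit 5) L62040 (by decide +kernel)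
theorem L62042 : W_12 (nat_lit 4) (nat_lit 0x2000000016000e0001800000000000000000000000000) (nat_lit 0x0) (nat_lit 0xc0001800000000000c0002000000000000000000) := T_12 (nat_lit 139) (nat_lit 140) (nat_lit 2) (nat_lit 3) (nat_lit 8) L62041 (by decide +kernel)
theorem L62043 : W_12 (nat_lit 5) (nat_lit 0x2000000016000c0001800000000000000000000000000) (nat_lit 0x0) (nat_lit 0xc0001801200000000c0002000000000000000000) := T_12 (nat_lit 125) (nat_lit 128) (nat_lit 1) (nat_lit 9) (nat_lit 7) L62042 (by decide +kernel)
theorem L62044 : W_12 (nat_lit 2) (nat_lit 0x2200070017c00c2001c00018000000000000000000000) (nat_lit 0x0) (nat_lit 0x64000000000000000000000) := D_12 (nat_lit 89) (nat_lit 86) (nat_lit 90) (nat_lit 3) (nat_lit 1) (nat_lit 5) (nat_lit 3) (nat_lit 2) (nat_lit 5) (by decide +kernel)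
theorem L62045 : W_12 (nat_lit 3) (nat_lit 0x2200070017c00c2001c00008000000000000000000000) (nat_lit 0x0) (nat_lit 0x200074000000000000000000000) := T_12 (nat_lit 88) (nat_lit 105) (nat_lit 0) (nat_lit 6) (nat_lit 6) L62044 (by decide +kernel)
theorem L62046 : W_12 (nat_lit 4) (nat_lit 0x2200070017c00c2001800008000000000000000000000) (nat_lit 0x0) (nat_lit 0x8000600074000000000000000000000) := T_12 (nat_lit 106) (nat_lit 123) (nat_lit 5) (nat_lit 4) (nat_lit 6) L62045 (by decide +kernel)
theorem L62047 : W_12 (nat_lit 5) (nat_lit 0x2000070017c00c2001800008000000000000000000000) (nat_lit 0x0) (nat_lit 0x400020000000000008000600074000000000000000000000) := T_12 (nat_lit 173) (nat_lit 190) (nat_lit 4) (nat_lit 3) (nat_lit 11) L62046 (by decide +kernel)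
theorem L62048 : W_12 (nat_lit 6) (nat_lit 0x2000070017c00c2001800000000000000000000000000) (nat_lit 0x0) (nat_lit 0x40002000000000000800070007c000000000000000000000) := T_12 (nat_lit 87) (nat_lit 104) (nat_lit 7) (nat_lit 2) (nat_lit 5) L62047 (by decide +kernel)
theorem L62049 : W_12 (nat_lit 7) (nat_lit 0x2000050017c00c2001800000000000000000000000000) (nat_lit 0x0) (nat_lit 0x40002000200002000800070007c000000000000000000000) := T_12 (nat_lit 157) (nat_lit 137) (nat_lit 3) (nat_lit 1) (nat_lit 8) L62048 (by decide +kernel)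
theorem L62050 : W_12 (nat_lit 8) (nat_lit 0x2000010017c00c2001800000000000000000000000000) (nat_lit 0x0) (nat_lit 0x40002000e00002000800070007c000000000000000000000) := T_12 (nat_lit 158) (nat_lit 159) (nat_lit 3) (nat_lit 2) (nat_lit 8) L62049 (by decide +kernel)
theorem L62051 : W_12 (nat_lit 9) (nat_lit 0x2000010017800c2001800000000000000000000000000) (nat_lit 0x0) (nat_lit 0x40002000e00006000900070007c000000000000000000000) := T_12 (nat_lit 138) (nat_lit 120) (nat_lit 0) (nat_lit 5) (nat_lit 8) L62050 (by decide +kernel)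
theorem L62052 : W_12 (nat_lit 10) (nat_lit 0x2000010017800c0001800000000000000000000000000) (nat_lit 0x0) (nat_lit 0x40002000e00006000f00070007c000000000000000000000) := T_12 (nat_lit 121) (nat_lit 122) (nat_lit 0) (nat_lit 6) (nat_lit 8) L62051 (by decide +kernel)
theorem L62053 : W_12 (nat_lit 11) (nat_lit 0x2000000017800c0001800000000000000000000000000) (nat_lit 0x0) (nat_lit 0x40002000f80006000f00070007c000000000000000000000) := T_12 (nat_lit 156) (nat_lit 155) (nat_lit 1) (nat_lit 6) (nat_lit 8) L62052 (by decide +kernel)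
theorem L62054 : W_12 (nat_lit 12) (nat_lit 0x2000000017000c0001800000000000000000000000000) (nat_lit 0x0) (nat_lit 0x40002000f8000e002f00070007c000000000000000000000) := T_12 (nat_lit 139) (nat_lit 125) (nat_lit 2) (nat_lit 3) (nat_lit 8) L62053 (by decide +kernel)
theorem L62055 : W_12 (nat_lit 13) (nat_lit 0x2000000016000c0001800000000000000000000000000) (nat_lit 0x0) (nat_lit 0x40002000f8009e002f00070007c000000000000000000000) := T_12 (nat_lit 140) (nat_lit 143) (nat_lit 2) (nat_lit 4) (nat_lit 8) L62054 (by decide +kernel)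
theorem L62056 : W_12 (nat_lit 14) (nat_lit 0x2000000012000c0001800000000000000000000000000) (nat_lit 0x0) (nat_lit 0x40002000f800de012f0007000fc002000000000000000000) := Q_12 (nat_lit 142) (C_12 L62038 (C_12 L62039 (C_12 L62043 (C_12 L62055 N_12)))) (by decide +kernel)
theorem L62057 : W_12 (nat_lit 2) (nat_lit 0x200000001a002c0003800100000000000000000000000) (nat_lit 0x0) (nat_lit 0x8000500000000000000000000000000000000000) := D_12 (nat_lit 142) (nat_lit 140) (nat_lit 159) (nat_lit 2) (nat_lit 4) (nat_lit 8) (nat_lit 5) (nat_lit 7) (nat_lit 5) (by decide +kernel)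
theorem L62058 : W_12 (nat_lit 3) (nat_lit 0x2000000012002c0003800100000000000000000000000) (nat_lit 0x0) (nat_lit 0x28000d00000000000000000000000000000000000) := T_12 (nat_lit 143) (nat_lit 161) (nat_lit 7) (nat_lit 7) (nat_lit 5) L62057 (by decide +kernel)
theorem L62059 : W_12 (nat_lit 4) (nat_lit 0x2000000012002c0003800000000000000000000000000) (nat_lit 0x0) (nat_lit 0x28000d00000000000100008000000000000000000) := T_12 (nat_lit 92) (nat_lit 75) (nat_lit 7) (nat_lit 7) (nat_lit 4) L62058 (by decide +kernel)
theorem L62060 : W_12 (nat_lit 5) (nat_lit 0x2000000012000c0003800000000000000000000000000) (nat_lit 0x0) (nat_lit 0x28000d00300000000100008000000000000000000) := T_12 (nat_lit 129) (nat_lit 128) (nat_lit 0) (nat_lit 10) (nat_lit 7) L62059 (by decide +kernel)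
theorem L62061 : W_12 (nat_lit 6) (nat_lit 0x2000000012000c0001800000000000000000000000000) (nat_lit 0x0) (nat_lit 0x28000d00300002400100008000000000000000000) := T_12 (nat_lit 109) (nat_lit 106) (nat_lit 3) (nat_lit 4) (nat_lit 6) L62060 (by decide +kernel)
theorem L62062 : W_12 (nat_lit 2) (nat_lit 0x2000000012000c0001f00080000000000000000000000) (nat_lit 0x0) (nat_lit 0x7000000000000000000000000000000) := D_12 (nat_lit 121) (nat_lit 120) (nat_lit 122) (nat_lit 1) (nat_lit 5) (nat_lit 6) (nat_lit 1) (nat_lit 6) (nat_lit 6) (by decide +kernel)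
theorem L62063 : W_12 (nat_lit 3) (nat_lit 0x2000000012000c0001e00080000000000000000000000) (nat_lit 0x0) (nat_lit 0x7000100040000000000000000000000) := T_12 (nat_lit 104) (nat_lit 90) (nat_lit 2) (nat_lit 2) (nat_lit 6) L62062 (by decide +kernel)
theorem L62064 : W_12 (nat_lit 4) (nat_lit 0x2000000012000c0001e00000000000000000000000000) (nat_lit 0x0) (nat_lit 0x70001001c0000000000000000000000) := T_12 (nat_lit 91) (nat_lit 92) (nat_lit 2) (nat_lit 3) (nat_lit 6) L62063 (by decide +kernel)
theorem L62065 : W_12 (nat_lit 5) (nat_lit 0x2000000012000c0001c00000000000000000000000000) (nat_lit 0x0) (nat_lit 0x270003001c0000000000000000000000) := T_12 (nat_lit 105) (nat_lit 125) (nat_lit 3) (nat_lit 3) (nat_lit 6) L62064 (by decide +kernel)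
theorem L62066 : W_12 (nat_lit 6) (nat_lit 0x2000000012000c0001800000000000000000000000000) (nat_lit 0x0) (nat_lit 0x270027001c0000000000000000000000) := T_12 (nat_lit 106) (nat_lit 109) (nat_lit 3) (nat_lit 4) (nat_lit 6) L62065 (by decide +kernel)
theorem L62067 : W_12 (nat_lit 15) (nat_lit 0x200000001200080001800000000000000000000000000) (nat_lit 0x0) (nat_lit 0x40002002f800de076f0027001fc00a000000000000000000) := Q_12 (nat_lit 126) (C_12 L62017 (C_12 L62056 (C_12 L62061 (C_12 L62066 (C_12 L62029 N_12))))) (by decide +kernel)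
theorem L62068 : W_12 (nat_lit 2) (nat_lit 0x2000080016000a0001800000000000000000000000000) (nat_lit 0x0) (nat_lit 0x80004000000000000000080000000000000000000000) := D_12 (nat_lit 158) (nat_lit 175) (nat_lit 91) (nat_lit 5) (nat_lit 6) (nat_lit 6) (nat_lit 5) (nat_lit 6) (nat_lit 5) (by decide +kernel)
theorem L62069 : W_12 (nat_lit 3) (nat_lit 0x2000000016000a0001800000000000000000000000000) (nat_lit 0x0) (nat_lit 0x8001c000000000000000080000000000000000000000) := T_12 (nat_lit 159) (nat_lit 160) (nat_lit 7) (nat_lit 6) (nat_lit 6) L62068 (by decide +kernel)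
theorem L62070 : W_12 (nat_lit 6) (nat_lit 0x200000001600080001800000000000000000000000000) (nat_lit 0x0) (nat_lit 0x8001c0000000200006003c000a000000000000000000) := Q_12 (nat_lit 125) (C_12 L62005 (C_12 L62001 (C_12 L62069 N_12))) (by decide +kernel)
theorem L62071 : W_12 (nat_lit 7) (nat_lit 0x200000001200080001800000000000000000000000000) (nat_lit 0x0) (nat_lit 0x400008007e000d001200006003c000a000000000000000000) := Q_12 (nat_lit 142) (C_12 L62014 (C_12 L62000 (C_12 L61993 (C_12 L62070 N_12)))) (by decide +kernel)
theorem L62072 : W_12 (nat_lit 2) (nat_lit 0x2800140017000e0001c00000000000000000000000000) (nat_lit 0x0) (nat_lit 0x2000000008000000020000000000000000000000) := D_12 (nat_lit 123) (nat_lit 89) (nat_lit 157) (nat_lit 7) (nat_lit 4) (nat_lit 5) (nat_lit 7) (nat_lit 4) (nat_lit 6) (by decide +kernel)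
theorem L62073 : W_12 (nat_lit 3) (nat_lit 0x2000140017000e0001c00000000000000000000000000) (nat_lit 0x0) (nat_lit 0x1000080002000000008000000020000000000000000000000) := T_12 (nat_lit 175) (nat_lit 192) (nat_lit 6) (nat_lit 5) (nat_lit 11) L62072 (by decide +kernel)
theorem L62074 : W_12 (nat_lit 4) (nat_lit 0x2000140016000e0001c00000000000000000000000000) (nat_lit 0x0) (nat_lit 0x1000080002000180008000000020000000000000000000000) := T_12 (nat_lit 140) (nat_lit 139) (nat_lit 2) (nat_lit 3) (nat_lit 8) L62073 (by decide +kernel)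
theorem L62075 : W_12 (nat_lit 5) (nat_lit 0x2000100016000e0001c00000000000000000000000000) (nat_lit 0x0) (nat_lit 0x10000800060001800080000000a0000000000000000000000) := T_12 (nat_lit 158) (nat_lit 91) (nat_lit 5) (nat_lit 6) (nat_lit 5) L62074 (by decide +kernel)
theorem L62076 : W_12 (nat_lit 6) (nat_lit 0x2000100012000e0001c00000000000000000000000000) (nat_lit 0x0) (nat_lit 0x100008000e0005800080000000a0000000000000000000000) := T_12 (nat_lit 142) (nat_lit 159) (nat_lit 7) (nat_lit 6) (nat_lit 6) L62075 (by decide +kernel)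
theorem L62077 : W_12 (nat_lit 7) (nat_lit 0x2000100012000e0001800000000000000000000000000) (nat_lit 0x0) (nat_lit 0x100008000e0005800080006000a0000000000000000000000) := T_12 (nat_lit 106) (nat_lit 105) (nat_lit 3) (nat_lit 3) (nat_lit 6) L62076 (by decide +kernel)
theorem L62078 : W_12 (nat_lit 8) (nat_lit 0x2000000012000e0001800000000000000000000000000) (nat_lit 0x0) (nat_lit 0x100008001e000d800080006000a0000000000000000000000) := T_12 (nat_lit 160) (nat_lit 143) (nat_lit 4) (nat_lit 7) (nat_lit 10) L62077 (by decide +kernel)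
theorem L62079 : W_12 (nat_lit 9) (nat_lit 0x2000000012000c0001800000000000000000000000000) (nat_lit 0x0) (nat_lit 0x100008001e000d801280006000a0000000000000000000000) := T_12 (nat_lit 125) (nat_lit 128) (nat_lit 0) (nat_lit 9) (nat_lit 7) L62078 (by decide +kernel)
theorem L62080 : W_12 (nat_lit 10) (nat_lit 0x200000001200080001800000000000000000000000000) (nat_lit 0x0) (nat_lit 0x500008003e000d807680026001a0008000000000000000000) := Q_12 (nat_lit 126) (C_12 L62026 (C_12 L62079 (C_12 L62017 (C_12 L62029 N_12)))) (by decide +kernel)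
theorem L62081 : W_12 (nat_lit 3) (nat_lit 0x200010001a000c0001800000000000000000000000000) (nat_lit 0x0) (nat_lit 0x20000000000002000180008000000000000000000) := T_12 (nat_lit 109) (nat_lit 91) (nat_lit 4) (nat_lit 7) (nat_lit 9) L61981 (by decide +kernel)
theorem L62082 : W_12 (nat_lit 4) (nat_lit 0x200010001a00080001800000000000000000000000000) (nat_lit 0x0) (nat_lit 0x20000000060002000180008000000000000000000) := T_12 (nat_lit 126) (nat_lit 125) (nat_lit 4) (nat_lit 7) (nat_lit 10) L62081 (by decide +kernel)
theorem L62083 : W_12 (nat_lit 5) (nat_lit 0x200000001a00080001800000000000000000000000000) (nat_lit 0x0) (nat_lit 0x4000000030000000060002000180008000000000000000000) := T_12 (nat_lit 160) (nat_lit 194) (nat_lit 6) (nat_lit 7) (nat_lit 11) L62082 (by decide +kernel)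
theorem L62084 : W_12 (nat_lit 2) (nat_lit 0x4000200000001f00080001800000000000000000000000000) (nat_lit 0x0) (nat_lit 0x7000000000000000000000000000000000000000) := D_12 (nat_lit 157) (nat_lit 156) (nat_lit 158) (nat_lit 1) (nat_lit 7) (nat_lit 8) (nat_lit 1) (nat_lit 8) (nat_lit 8) (by decide +kernel)
theorem L62085 : W_12 (nat_lit 3) (nat_lit 0x4000200000001e00080001800000000000000000000000000) (nat_lit 0x0) (nat_lit 0x7000100040000000000000000000000000000000) := T_12 (nat_lit 140) (nat_lit 126) (nat_lit 2) (nat_lit 4) (nat_lit 8) L62084 (by decide +kernel)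
theorem L62086 : W_12 (nat_lit 4) (nat_lit 0x4000200000001a00080001800000000000000000000000000) (nat_lit 0x0) (nat_lit 0x7000500140000000000000000000000000000000) := T_12 (nat_lit 142) (nat_lit 128) (nat_lit 2) (nat_lit 5) (nat_lit 8) L62085 (by decide +kernel)
theorem L62087 : W_12 (nat_lit 5) (nat_lit 0x200000001a00080001800000000000000000000000000) (nat_lit 0x0) (nat_lit 0x4000000017000500140000000000000000000000000000000) := T_12 (nat_lit 194) (nat_lit 160) (nat_lit 6) (nat_lit 7) (nat_lit 11) L62086 (by decide +kernel)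
theorem L62088 : W_12 (nat_lit 6) (nat_lit 0x200000001a00080001800000000000000000000000000) (nat_lit 0x0) (nat_lit 0x8006e0004001200000000c0000000000000000000000) := T_12 (nat_lit 142) (nat_lit 128) (nat_lit 2) (nat_lit 5) (nat_lit 8) L62013 (by decide +kernel)
theorem L62089 : W_12 (nat_lit 7) (nat_lit 0x200000001200080001800000000000000000000000000) (nat_lit 0x0) (nat_lit 0x400008007f000d001600020001c0008000000000000000000) := Q_12 (nat_lit 143) (C_12 L62083 (C_12 L62087 (C_12 L62088 N_12))) (by decide +kernel)
theorem L62090 : W_12 (nat_lit 2) (nat_lit 0x200010001a000c0001800000000000000000000000000) (nat_lit 0x0) (nat_lit 0x2400080000000000000000000000) := D_12 (nat_lit 109) (nat_lit 91) (nat_lit 106) (nat_lit 4) (nat_lit 7) (nat_lit 9) (nat_lit 3) (nat_lit 4) (nat_lit 6) (by decide +kernel)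
theorem L62091 : W_12 (nat_lit 3) (nat_lit 0x200010001a00080001800000000000000000000000000) (nat_lit 0x0) (nat_lit 0x60002400080000000000000000000000) := T_12 (nat_lit 126) (nat_lit 125) (nat_lit 4) (nat_lit 7) (nat_lit 10) L62090 (by decide +kernel)
theorem L62092 : W_12 (nat_lit 4) (nat_lit 0x200000001a00080001800000000000000000000000000) (nat_lit 0x0) (nat_lit 0x4000000010000000060002400080000000000000000000000) := T_12 (nat_lit 160) (nat_lit 194) (nat_lit 6) (nat_lit 7) (nat_lit 11) L62091 (by decide +kernel)
theorem L62093 : W_12 (nat_lit 7) (nat_lit 0x200000001200080001800000000000000000000000000) (nat_lit 0x0) (nat_lit 0x400008007f000d001600024000c0000000000000000000000) := Q_12 (nat_lit 143) (C_12 L62092 (C_12 L62088 (C_12 L62087 N_12))) (by decide +kernel)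
theorem L62094 : W_12 (nat_lit 2) (nat_lit 0x200008001e000e0001a00000000000000000000000000) (nat_lit 0x0) (nat_lit 0x80006000000000000000000000000000000000000000) := D_12 (nat_lit 158) (nat_lit 157) (nat_lit 175) (nat_lit 1) (nat_lit 8) (nat_lit 8) (nat_lit 5) (nat_lit 6) (nat_lit 6) (by decide +kernel)
theorem L62095 : W_12 (nat_lit 3) (nat_lit 0x200000001e000e0001a00000000000000000000000000) (nat_lit 0x0) (nat_lit 0x8000e000000000000000040000000000000000000000) := T_12 (nat_lit 159) (nat_lit 90) (nat_lit 4) (nat_lit 6) (nat_lit 9) L62094 (by decide +kernel)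
theorem L62096 : W_12 (nat_lit 4) (nat_lit 0x200000001a000e0001a00000000000000000000000000) (nat_lit 0x0) (nat_lit 0x8000e000500000000000040000000000000000000000) := T_12 (nat_lit 142) (nat_lit 140) (nat_lit 2) (nat_lit 4) (nat_lit 8) L62095 (by decide +kernel)
theorem L62097 : W_12 (nat_lit 5) (nat_lit 0x200000001a000e0001800000000000000000000000000) (nat_lit 0x0) (nat_lit 0x8000e000500000000600040000000000000000000000) := T_12 (nat_lit 105) (nat_lit 106) (nat_lit 3) (nat_lit 3) (nat_lit 6) L62096 (by decide +kernel)
theorem L62098 : W_12 (nat_lit 6) (nat_lit 0x2000000012000e0001800000000000000000000000000) (nat_lit 0x0) (nat_lit 0x8001e000d00000000600040000000000000000000000) := T_12 (nat_lit 143) (nat_lit 160) (nat_lit 4) (nat_lit 7) (nat_lit 10) L62097 (by decide +kernel)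
theorem L62099 : W_12 (nat_lit 7) (nat_lit 0x2000000012000c0001800000000000000000000000000) (nat_lit 0x0) (nat_lit 0x8001e000d00120000600040000000000000000000000) := T_12 (nat_lit 125) (nat_lit 128) (nat_lit 0) (nat_lit 9) (nat_lit 7) L62098 (by decide +kernel)
theorem L62100 : W_12 (nat_lit 2) (nat_lit 0x2000000012000c2001e00008000000000000000000000) (nat_lit 0x0) (nat_lit 0x1000100004000000000000000000000) := D_12 (nat_lit 104) (nat_lit 120) (nat_lit 86) (nat_lit 1) (nat_lit 5) (nat_lit 6) (nat_lit 0) (nat_lit 5) (nat_lit 6) (by decide +kernel)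
theorem L62101 : W_12 (nat_lit 3) (nat_lit 0x2000000012000c2001e00000000000000000000000000) (nat_lit 0x0) (nat_lit 0x100010001c000000000000000000000) := T_12 (nat_lit 87) (nat_lit 88) (nat_lit 0) (nat_lit 6) (nat_lit 6) L62100 (by decide +kernel)
theorem L62102 : W_12 (nat_lit 4) (nat_lit 0x2000000012000c0001e00000000000000000000000000) (nat_lit 0x0) (nat_lit 0x700010001c000000000000000000000) := T_12 (nat_lit 121) (nat_lit 122) (nat_lit 1) (nat_lit 6) (nat_lit 6) L62101 (by decide +kernel)
theorem L62103 : W_12 (nat_lit 5) (nat_lit 0x2000000012000c0001c00000000000000000000000000) (nat_lit 0x0) (nat_lit 0x2700030001c000000000000000000000) := T_12 (nat_lit 105) (nat_lit 125) (nat_lit 3) (nat_lit 3) (nat_lit 6) L62102 (by decide +kernel)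
theorem L62104 : W_12 (nat_lit 6) (nat_lit 0x2000000012000c0001800000000000000000000000000) (nat_lit 0x0) (nat_lit 0x2700270001c000000000000000000000) := T_12 (nat_lit 106) (nat_lit 109) (nat_lit 3) (nat_lit 4) (nat_lit 6) L62103 (by decide +kernel)
theorem L62105 : W_12 (nat_lit 8) (nat_lit 0x200000001200080001800000000000000000000000000) (nat_lit 0x0) (nat_lit 0x8003e000d0076700270015c008000000000000000000) := Q_12 (nat_lit 126) (C_12 L62017 (C_12 L62099 (C_12 L62061 (C_12 L62104 (C_12 L62029 N_12))))) (by decide +kernel)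
theorem L62106 : W_12 (nat_lit 16) (nat_lit 0x200000001200080000800000000000000000000000000) (nat_lit 0x0) (nat_lit 0x54000a007f800de076f0037003fc00e000500000000000000) := Q_12 (nat_lit 108) (C_12 L61960 (C_12 L61973 (C_12 L61988 (C_12 L62015 (C_12 L62030 (C_12 L62037 (C_12 L62067 (C_12 L62071 (C_12 L62080 (C_12 L62089 (C_12 L62093 (C_12 L62105 N_12)))))))))))) (by decide +kernel)
theorem L62107 : W_12 (nat_lit 2) (nat_lit 0x200000001600090000800040000000000000000000000) (nat_lit 0x0) (nat_lit 0x800108000000000000000000000000000000) := D_12 (nat_lit 143) (nat_lit 128) (nat_lit 123) (nat_lit 2) (nat_lit 5) (nat_lit 8) (nat_lit 0) (nat_lit 8) (nat_lit 8) (by decide +kernel)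
theorem L62108 : W_12 (nat_lit 3) (nat_lit 0x200000001200090000800040000000000000000000000) (nat_lit 0x0) (nat_lit 0x8000c00108000000000000000000000000000000) := T_12 (nat_lit 142) (nat_lit 159) (nat_lit 7) (nat_lit 5) (nat_lit 5) L62107 (by decide +kernel)
theorem L62109 : W_12 (nat_lit 5) (nat_lit 0x200000001200090000800000000000000000000000000) (nat_lit 0x0) (nat_lit 0xc000c001080014000e0007000280000000000000) := Q_12 (nat_lit 90) (C_12 L39564 (C_12 L61763 (C_12 L62108 N_12))) (by decide +kernel)
theorem L62110 : W_12 (nat_lit 5) (nat_lit 0x200000001200090000800000000000000000000000000) (nat_lit 0x0) (nat_lit 0xa000d001080000000e0007000280000000000000) := Q_12 (nat_lit 90) (C_12 L31986 (C_12 L62108 (C_12 L61763 N_12))) (by decide +kernel)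
theorem L62111 : W_12 (nat_lit 2) (nat_lit 0x2000000017000900008000c0000000000000000000000) (nat_lit 0x0) (nat_lit 0x800140000000000000000000000000000000) := D_12 (nat_lit 143) (nat_lit 128) (nat_lit 126) (nat_lit 2) (nat_lit 5) (nat_lit 8) (nat_lit 2) (nat_lit 4) (nat_lit 8) (by decide +kernel)
theorem L62112 : W_12 (nat_lit 3) (nat_lit 0x2000000013000900008000c0000000000000000000000) (nat_lit 0x0) (nat_lit 0x8000c00140000000000000000000000000000000) := T_12 (nat_lit 142) (nat_lit 159) (nat_lit 7) (nat_lit 5) (nat_lit 5) L62111 (by decide +kernel)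
theorem L62113 : W_12 (nat_lit 4) (nat_lit 0x200000001300090000800040000000000000000000000) (nat_lit 0x0) (nat_lit 0x8000c00140000000080004000000000000000000) := T_12 (nat_lit 91) (nat_lit 74) (nat_lit 6) (nat_lit 5) (nat_lit 8) L62112 (by decide +kernel)
theorem L62114 : W_12 (nat_lit 5) (nat_lit 0x200000001200090000800040000000000000000000000) (nat_lit 0x0) (nat_lit 0xa000d00140000000080004000000000000000000) := T_12 (nat_lit 140) (nat_lit 157) (nat_lit 5) (nat_lit 5) (nat_lit 5) L62113 (by decide +kernel)
theorem L62115 : W_12 (nat_lit 2) (nat_lit 0x200004001700090000800060000000000000000000000) (nat_lit 0x0) (nat_lit 0x800140000000000000000000000000000000) := D_12 (nat_lit 143) (nat_lit 128) (nat_lit 126) (nat_lit 2) (nat_lit 5) (nat_lit 8) (nat_lit 2) (nat_lit 4) (nat_lit 8) (by decide +kernel)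
theorem L62116 : W_12 (nat_lit 3) (nat_lit 0x200004001300090000800060000000000000000000000) (nat_lit 0x0) (nat_lit 0x8000c00140000000000000000000000000000000) := T_12 (nat_lit 142) (nat_lit 159) (nat_lit 7) (nat_lit 5) (nat_lit 5) L62115 (by decide +kernel)
theorem L62117 : W_12 (nat_lit 4) (nat_lit 0x200000001300090000800060000000000000000000000) (nat_lit 0x0) (nat_lit 0xc000c00140000400000000000000000000000000) := T_12 (nat_lit 158) (nat_lit 106) (nat_lit 4) (nat_lit 5) (nat_lit 9) L62116 (by decide +kernel)
theorem L62118 : W_12 (nat_lit 5) (nat_lit 0x200000001200090000800060000000000000000000000) (nat_lit 0x0) (nat_lit 0xe000d00140000400000000000000000000000000) := T_12 (nat_lit 140) (nat_lit 157) (nat_lit 5) (nat_lit 5) (nat_lit 5) L62117 (by decide +kernel)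
theorem L62119 : W_12 (nat_lit 6) (nat_lit 0x200000001200090000800040000000000000000000000) (nat_lit 0x0) (nat_lit 0xe000d00140000400020001000000000000000000) := T_12 (nat_lit 89) (nat_lit 72) (nat_lit 4) (nat_lit 5) (nat_lit 8) L62118 (by decide +kernel)
theorem L62120 : W_12 (nat_lit 7) (nat_lit 0x200000001200090000800000000000000000000000000) (nat_lit 0x0) (nat_lit 0x4000e000d001400014000e0007000280000000000000) := Q_12 (nat_lit 90) (C_12 L60862 (C_12 L39564 (C_12 L61763 (C_12 L62114 (C_12 L62119 N_12))))) (by decide +kernel)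
theorem L62121 : W_12 (nat_lit 2) (nat_lit 0x4000200006001a00098001c00000000000000000000000000) (nat_lit 0x0) (nat_lit 0x6002000000000000000000000000000) := D_12 (nat_lit 122) (nat_lit 121) (nat_lit 109) (nat_lit 2) (nat_lit 2) (nat_lit 7) (nat_lit 1) (nat_lit 7) (nat_lit 6) (by decide +kernel)
theorem L62122 : W_12 (nat_lit 3) (nat_lit 0x4000200006001a00090001c00000000000000000000000000) (nat_lit 0x0) (nat_lit 0x8000000000000e002000000000000000000000000000) := T_12 (nat_lit 123) (nat_lit 175) (nat_lit 4) (nat_lit 5) (nat_lit 10) L62121 (by decide +kernel)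
theorem L62123 : W_12 (nat_lit 4) (nat_lit 0x4000200006001a00090001800000000000000000000000000) (nat_lit 0x0) (nat_lit 0x8000000000000e002400020000000000000000000000) := T_12 (nat_lit 106) (nat_lit 89) (nat_lit 4) (nat_lit 5) (nat_lit 9) L62122 (by decide +kernel)
theorem L62124 : W_12 (nat_lit 5) (nat_lit 0x4000200004001a00090001800000000000000000000000000) (nat_lit 0x0) (nat_lit 0xc000200000000e002400020000000000000000000000) := T_12 (nat_lit 157) (nat_lit 174) (nat_lit 5) (nat_lit 5) (nat_lit 6) L62123 (by decide +kernel)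
theorem L62125 : W_12 (nat_lit 6) (nat_lit 0x4000200004001a00090000800000000000000000000000000) (nat_lit 0x0) (nat_lit 0xc000200000000e0034000a0000000000000000000000) := T_12 (nat_lit 108) (nat_lit 91) (nat_lit 6) (nat_lit 5) (nat_lit 9) L62124 (by decide +kernel)
theorem L62126 : W_12 (nat_lit 7) (nat_lit 0x200004001a00090000800000000000000000000000000) (nat_lit 0x0) (nat_lit 0x40000c001200000000e0034000a0000000000000000000000) := T_12 (nat_lit 194) (nat_lit 160) (nat_lit 6) (nat_lit 7) (nat_lit 11) L62125 (by decide +kernel)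
theorem L62127 : W_12 (nat_lit 2) (nat_lit 0x4000280004001a00090000c00000000000000000000000000) (nat_lit 0x0) (nat_lit 0x800040002000000000000000000000000000000000000000) := D_12 (nat_lit 174) (nat_lit 157) (nat_lit 191) (nat_lit 5) (nat_lit 5) (nat_lit 6) (nat_lit 5) (nat_lit 5) (nat_lit 7) (by decide +kernel)
theorem L62128 : W_12 (nat_lit 3) (nat_lit 0x4000200004001a00090000c00000000000000000000000000) (nat_lit 0x0) (nat_lit 0x8000c0002000000008000000000000000000000000000000) := T_12 (nat_lit 175) (nat_lit 123) (nat_lit 4) (nat_lit 5) (nat_lit 10) L62127 (by decide +kernel)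
theorem L62129 : W_12 (nat_lit 4) (nat_lit 0x200004001a00090000c00000000000000000000000000) (nat_lit 0x0) (nat_lit 0x48000c0012000000008000000000000000000000000000000) := T_12 (nat_lit 194) (nat_lit 160) (nat_lit 6) (nat_lit 7) (nat_lit 11) L62128 (by decide +kernel)
theorem L62130 : W_12 (nat_lit 5) (nat_lit 0x200004001a00090000800000000000000000000000000) (nat_lit 0x0) (nat_lit 0x48000c0012000000008000400020000000000000000000000) := T_12 (nat_lit 106) (nat_lit 89) (nat_lit 4) (nat_lit 5) (nat_lit 9) L62129 (by decide +kernel)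
theorem L62131 : W_12 (nat_lit 2) (nat_lit 0x200006001a00090003c00000000000000000000000000) (nat_lit 0x0) (nat_lit 0x8000000000000c000000000000000000000000000000) := D_12 (nat_lit 123) (nat_lit 175) (nat_lit 122) (nat_lit 4) (nat_lit 5) (nat_lit 10) (nat_lit 1) (nat_lit 7) (nat_lit 6) (by decide +kernel)
theorem L62132 : W_12 (nat_lit 3) (nat_lit 0x200006001a00090001c00000000000000000000000000) (nat_lit 0x0) (nat_lit 0x8000000000004c002000000000000000000000000000) := T_12 (nat_lit 109) (nat_lit 126) (nat_lit 3) (nat_lit 4) (nat_lit 6) L62131 (by decide +kernel)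
theorem L62133 : W_12 (nat_lit 4) (nat_lit 0x200006001a00090001800000000000000000000000000) (nat_lit 0x0) (nat_lit 0x8000000000004c002400020000000000000000000000) := T_12 (nat_lit 106) (nat_lit 89) (nat_lit 4) (nat_lit 5) (nat_lit 9) L62132 (by decide +kernel)
theorem L62134 : W_12 (nat_lit 5) (nat_lit 0x200006001a00090000800000000000000000000000000) (nat_lit 0x0) (nat_lit 0x8000000000004c0034000a0000000000000000000000) := T_12 (nat_lit 108) (nat_lit 91) (nat_lit 6) (nat_lit 5) (nat_lit 9) L62133 (by decide +kernel)
theorem L62135 : W_12 (nat_lit 6) (nat_lit 0x200004001a00090000800000000000000000000000000) (nat_lit 0x0) (nat_lit 0xc000200000004c0034000a0000000000000000000000) := T_12 (nat_lit 157) (nat_lit 174) (nat_lit 5) (nat_lit 5) (nat_lit 6) L62134 (by decide +kernel)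
theorem L62136 : W_12 (nat_lit 2) (nat_lit 0x200014001a00090000c00000000000000000000000000) (nat_lit 0x0) (nat_lit 0x4000a000000000000000000000000000000000000000) := D_12 (nat_lit 157) (nat_lit 174) (nat_lit 159) (nat_lit 5) (nat_lit 5) (nat_lit 6) (nat_lit 2) (nat_lit 4) (nat_lit 9) (by decide +kernel)
theorem L62137 : W_12 (nat_lit 3) (nat_lit 0x200004001a00090000c00000000000000000000000000) (nat_lit 0x0) (nat_lit 0x400004001a000000000000000000000000000000000000000) := T_12 (nat_lit 160) (nat_lit 194) (nat_lit 6) (nat_lit 7) (nat_lit 11) L62136 (by decide +kernel)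
theorem L62138 : W_12 (nat_lit 4) (nat_lit 0x200004001a00090000800000000000000000000000000) (nat_lit 0x0) (nat_lit 0x400004001a000000000000400020000000000000000000000) := T_12 (nat_lit 106) (nat_lit 89) (nat_lit 4) (nat_lit 5) (nat_lit 9) L62137 (by decide +kernel)
theorem L62139 : W_12 (nat_lit 2) (nat_lit 0x200006001a00090000800000000000000000000000000) (nat_lit 0x0) (nat_lit 0x4000000018000000000000000000000000000000000000000) := D_12 (nat_lit 160) (nat_lit 159) (nat_lit 194) (nat_lit 2) (nat_lit 4) (nat_lit 9) (nat_lit 6) (nat_lit 7) (nat_lit 11) (by decide +kernel)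
theorem L62140 : W_12 (nat_lit 3) (nat_lit 0x200004001a00090000800000000000000000000000000) (nat_lit 0x0) (nat_lit 0x400004001a000000000000000000000000000000000000000) := T_12 (nat_lit 157) (nat_lit 174) (nat_lit 5) (nat_lit 5) (nat_lit 6) L62139 (by decide +kernel)
theorem L62141 : W_12 (nat_lit 4) (nat_lit 0x4000200004001a00090000c00000000000000000000000000) (nat_lit 0x0) (nat_lit 0x8000000000004c003000080000000000000000000000) := T_12 (nat_lit 108) (nat_lit 91) (nat_lit 6) (nat_lit 5) (nat_lit 9) L40189 (by decide +kernel)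
theorem L62142 : W_12 (nat_lit 5) (nat_lit 0x4000200004001a00090000800000000000000000000000000) (nat_lit 0x0) (nat_lit 0x8000000000004c0034000a0000000000000000000000) := T_12 (nat_lit 106) (nat_lit 89) (nat_lit 4) (nat_lit 5) (nat_lit 9) L62141 (by decide +kernel)
theorem L62143 : W_12 (nat_lit 6) (nat_lit 0x200004001a00090000800000000000000000000000000) (nat_lit 0x0) (nat_lit 0x400008001000000004c0034000a0000000000000000000000) := T_12 (nat_lit 194) (nat_lit 160) (nat_lit 6) (nat_lit 7) (nat_lit 11) L62142 (by decide +kernel)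
theorem L62144 : W_12 (nat_lit 8) (nat_lit 0x200000001a00090000800000000000000000000000000) (nat_lit 0x0) (nat_lit 0x48000c001e00000004e0034000a0000000000000000000000) := Q_12 (nat_lit 158) (C_12 L62126 (C_12 L62130 (C_12 L62135 (C_12 L62138 (C_12 L62140 (C_12 L62143 N_12)))))) (by decide +kernel)
theorem L62145 : W_12 (nat_lit 2) (nat_lit 0x200000001a00090000800000000000000000000000000) (nat_lit 0x0) (nat_lit 0x400108000000000000000000000000000000) := D_12 (nat_lit 142) (nat_lit 123) (nat_lit 128) (nat_lit 0) (nat_lit 8) (nat_lit 8) (nat_lit 2) (nat_lit 5) (nat_lit 8) (by decide +kernel)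
theorem L62146 : W_12 (nat_lit 2) (nat_lit 0x4000200000001f00090000800000000000000000000000000) (nat_lit 0x0) (nat_lit 0x7000000000000000000000000000000000000000) := D_12 (nat_lit 157) (nat_lit 156) (nat_lit 158) (nat_lit 1) (nat_lit 7) (nat_lit 8) (nat_lit 1) (nat_lit 8) (nat_lit 8) (by decide +kernel)
theorem L62147 : W_12 (nat_lit 3) (nat_lit 0x4000200000001e00090000800000000000000000000000000) (nat_lit 0x0) (nat_lit 0x7000100040000000000000000000000000000000) := T_12 (nat_lit 140) (nat_lit 126) (nat_lit 2) (nat_lit 4) (nat_lit 8) L62146 (by decide +kernel)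
theorem L62148 : W_12 (nat_lit 4) (nat_lit 0x4000200000001a00090000800000000000000000000000000) (nat_lit 0x0) (nat_lit 0x7000500140000000000000000000000000000000) := T_12 (nat_lit 142) (nat_lit 128) (nat_lit 2) (nat_lit 5) (nat_lit 8) L62147 (by decide +kernel)
theorem L62149 : W_12 (nat_lit 5) (nat_lit 0x200000001a00090000800000000000000000000000000) (nat_lit 0x0) (nat_lit 0x4000000017000500140000000000000000000000000000000) := T_12 (nat_lit 194) (nat_lit 160) (nat_lit 6) (nat_lit 7) (nat_lit 11) L62148 (by decide +kernel)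
theorem L62150 : W_12 (nat_lit 9) (nat_lit 0x200000001200090000800000000000000000000000000) (nat_lit 0x0) (nat_lit 0x48000c001f000d0014e0034000a0000000000000000000000) := Q_12 (nat_lit 143) (C_12 L62144 (C_12 L62145 (C_12 L62149 N_12))) (by decide +kernel)
theorem L62151 : W_12 (nat_lit 2) (nat_lit 0x200000001600090000800000000000000000000000000) (nat_lit 0x0) (nat_lit 0x800108000000000000000000000000000000) := D_12 (nat_lit 143) (nat_lit 123) (nat_lit 128) (nat_lit 0) (nat_lit 8) (nat_lit 8) (nat_lit 2) (nat_lit 5) (nat_lit 8) (by decide +kernel)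
theorem L62152 : W_12 (nat_lit 6) (nat_lit 0x2000000016000900008000c0000000000000000000000) (nat_lit 0x0) (nat_lit 0x600010000800100000000300018000c000000000) := T_12 (nat_lit 140) (nat_lit 157) (nat_lit 5) (nat_lit 5) (nat_lit 5) L56284 (by decide +kernel)
theorem L62153 : W_12 (nat_lit 7) (nat_lit 0x200000001600090000800040000000000000000000000) (nat_lit 0x0) (nat_lit 0x600010000800100008000700018000c000000000) := T_12 (nat_lit 91) (nat_lit 74) (nat_lit 6) (nat_lit 5) (nat_lit 8) L62152 (by decide +kernel)
theorem L62154 : W_12 (nat_lit 8) (nat_lit 0x200000001600090000800000000000000000000000000) (nat_lit 0x0) (nat_lit 0xe0001000080010000c000700018000c000000000) := T_12 (nat_lit 90) (nat_lit 159) (nat_lit 7) (nat_lit 5) (nat_lit 5) L62153 (by decide +kernel)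
theorem L62155 : W_12 (nat_lit 3) (nat_lit 0x2000000016000900008000c0000000000000000000000) (nat_lit 0x0) (nat_lit 0x2000900140000000000000000000000000000000) := T_12 (nat_lit 140) (nat_lit 157) (nat_lit 5) (nat_lit 5) (nat_lit 5) L62111 (by decide +kernel)
theorem L62156 : W_12 (nat_lit 4) (nat_lit 0x200000001600090000800040000000000000000000000) (nat_lit 0x0) (nat_lit 0x2000900140000000080004000000000000000000) := T_12 (nat_lit 91) (nat_lit 74) (nat_lit 6) (nat_lit 5) (nat_lit 8) L62155 (by decide +kernel)
theorem L62157 : W_12 (nat_lit 5) (nat_lit 0x200000001600090000800000000000000000000000000) (nat_lit 0x0) (nat_lit 0xa0009001400000000c0004000000000000000000) := T_12 (nat_lit 90) (nat_lit 159) (nat_lit 7) (nat_lit 5) (nat_lit 5) L62156 (by decide +kernel)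
theorem L62158 : W_12 (nat_lit 9) (nat_lit 0x200000001200090000800000000000000000000000000) (nat_lit 0x0) (nat_lit 0xe000d001480010000c000700018000c000000000) := Q_12 (nat_lit 142) (C_12 L62151 (C_12 L62154 (C_12 L62157 N_12))) (by decide +kernel)
theorem L62159 : W_12 (nat_lit 2) (nat_lit 0x200000001700090000800040002000000000000000000) (nat_lit 0x0) (nat_lit 0x20001000080000000000000) := D_12 (nat_lit 72) (nat_lit 55) (nat_lit 89) (nat_lit 4) (nat_lit 5) (nat_lit 7) (nat_lit 4) (nat_lit 5) (nat_lit 8) (by decide +kernel)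
theorem L62160 : W_12 (nat_lit 3) (nat_lit 0x200000001700090000800040000000000000000000000) (nat_lit 0x0) (nat_lit 0x8000000020003000080000000000000) := T_12 (nat_lit 73) (nat_lit 123) (nat_lit 5) (nat_lit 5) (nat_lit 4) L62159 (by decide +kernel)
theorem L62161 : W_12 (nat_lit 4) (nat_lit 0x200000001600090000800040000000000000000000000) (nat_lit 0x0) (nat_lit 0x2000100008000000020003000080000000000000) := T_12 (nat_lit 140) (nat_lit 157) (nat_lit 5) (nat_lit 5) (nat_lit 5) L62160 (by decide +kernel)
theorem L62162 : W_12 (nat_lit 5) (nat_lit 0x200000001600090000800000000000000000000000000) (nat_lit 0x0) (nat_lit 0xa000100008000000060003000080000000000000) := T_12 (nat_lit 90) (nat_lit 159) (nat_lit 7) (nat_lit 5) (nat_lit 5) L62161 (by decide +kernel)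
theorem L62163 : W_12 (nat_lit 2) (nat_lit 0x200000001700090000800040000000000000000000000) (nat_lit 0x0) (nat_lit 0x800140000000000000000000000000000000) := D_12 (nat_lit 143) (nat_lit 126) (nat_lit 128) (nat_lit 2) (nat_lit 4) (nat_lit 8) (nat_lit 2) (nat_lit 5) (nat_lit 8) (by decide +kernel)
theorem L62164 : W_12 (nat_lit 3) (nat_lit 0x200000001600090000800040000000000000000000000) (nat_lit 0x0) (nat_lit 0x2000900140000000000000000000000000000000) := T_12 (nat_lit 140) (nat_lit 157) (nat_lit 5) (nat_lit 5) (nat_lit 5) L62163 (by decide +kernel)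
theorem L62165 : W_12 (nat_lit 4) (nat_lit 0x200000001600090000800000000000000000000000000) (nat_lit 0x0) (nat_lit 0xa000900140000000040000000000000000000000) := T_12 (nat_lit 90) (nat_lit 159) (nat_lit 7) (nat_lit 5) (nat_lit 5) L62164 (by decide +kernel)
theorem L62166 : W_12 (nat_lit 6) (nat_lit 0x200000001200090000800000000000000000000000000) (nat_lit 0x0) (nat_lit 0xa000d00148000000060003000080000000000000) := Q_12 (nat_lit 142) (C_12 L62151 (C_12 L62162 (C_12 L62165 N_12))) (by decide +kernel)
theorem L62167 : W_12 (nat_lit 10) (nat_lit 0x200000001200080000800000000000000000000000000) (nat_lit 0x0) (nat_lit 0x48000c001f000d0015e0034000e000700038000c000000000) := Q_12 (nat_lit 124) (C_12 L61784 (C_12 L62109 (C_12 L62110 (C_12 L62120 (C_12 L62150 (C_12 L62158 (C_12 L62166 N_12))))))) (by decide +kernel)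
theorem L62168 : W_12 (nat_lit 2) (nat_lit 0x200000001e00090000800068016000000000000000000) (nat_lit 0x0) (nat_lit 0x6000000000000400000000000000000000000000) := D_12 (nat_lit 158) (nat_lit 157) (nat_lit 106) (nat_lit 1) (nat_lit 8) (nat_lit 8) (nat_lit 4) (nat_lit 5) (nat_lit 9) (by decide +kernel)
theorem L62169 : W_12 (nat_lit 3) (nat_lit 0x200000001600090000800068016000000000000000000) (nat_lit 0x0) (nat_lit 0x6000800100000400000000000000000000000000) := T_12 (nat_lit 143) (nat_lit 128) (nat_lit 2) (nat_lit 5) (nat_lit 8) L62168 (by decide +kernel)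
theorem L62170 : W_12 (nat_lit 4) (nat_lit 0x200000001600090000800068006000000000000000000) (nat_lit 0x0) (nat_lit 0x6000800100000400000018000000000000000000) := T_12 (nat_lit 76) (nat_lit 75) (nat_lit 1) (nat_lit 8) (nat_lit 4) L62169 (by decide +kernel)
theorem L62171 : W_12 (nat_lit 5) (nat_lit 0x200000001600090000800060006000000000000000000) (nat_lit 0x0) (nat_lit 0x6000800100000400018018000000000000000000) := T_12 (nat_lit 87) (nat_lit 88) (nat_lit 2) (nat_lit 2) (nat_lit 5) L62170 (by decide +kernel)
theorem L62172 : W_12 (nat_lit 6) (nat_lit 0x200000001600090000800060002000000000000000000) (nat_lit 0x0) (nat_lit 0x600080010000040001801c000200000000000000) := T_12 (nat_lit 74) (nat_lit 57) (nat_lit 6) (nat_lit 5) (nat_lit 7) L62171 (by decide +kernel)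
theorem L62173 : W_12 (nat_lit 7) (nat_lit 0x200000001600090000800060000000000000000000000) (nat_lit 0x0) (nat_lit 0x600080012000040001801e000200000000000000) := T_12 (nat_lit 73) (nat_lit 125) (nat_lit 7) (nat_lit 5) (nat_lit 4) L62172 (by decide +kernel)
theorem L62174 : W_12 (nat_lit 8) (nat_lit 0x200000001200090000800060000000000000000000000) (nat_lit 0x0) (nat_lit 0xe000c0012000040001801e000200000000000000) := T_12 (nat_lit 142) (nat_lit 159) (nat_lit 7) (nat_lit 5) (nat_lit 5) L62173 (by decide +kernel)
theorem L62175 : W_12 (nat_lit 9) (nat_lit 0x200000001200090000800040000000000000000000000) (nat_lit 0x0) (nat_lit 0xe000c0012000040003801f000200000000000000) := T_12 (nat_lit 89) (nat_lit 72) (nat_lit 4) (nat_lit 5) (nat_lit 8) L62174 (by decide +kernel)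
theorem L62176 : W_12 (nat_lit 2) (nat_lit 0x200000001e00090000800060002000000000000000000) (nat_lit 0x0) (nat_lit 0x6000000000000400000000000000000000000000) := D_12 (nat_lit 158) (nat_lit 157) (nat_lit 106) (nat_lit 1) (nat_lit 8) (nat_lit 8) (nat_lit 4) (nat_lit 5) (nat_lit 9) (by decide +kernel)
theorem L62177 : W_12 (nat_lit 3) (nat_lit 0x200000001600090000800060002000000000000000000) (nat_lit 0x0) (nat_lit 0x6000800100000400000000000000000000000000) := T_12 (nat_lit 143) (nat_lit 128) (nat_lit 2) (nat_lit 5) (nat_lit 8) L62176 (by decide +kernel)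
theorem L62178 : W_12 (nat_lit 4) (nat_lit 0x200000001600090000800060000000000000000000000) (nat_lit 0x0) (nat_lit 0x6000800120000400000002000000000000000000) := T_12 (nat_lit 73) (nat_lit 125) (nat_lit 7) (nat_lit 5) (nat_lit 4) L62177 (by decide +kernel)
theorem L62179 : W_12 (nat_lit 5) (nat_lit 0x200000001200090000800060000000000000000000000) (nat_lit 0x0) (nat_lit 0xe000c00120000400000002000000000000000000) := T_12 (nat_lit 142) (nat_lit 159) (nat_lit 7) (nat_lit 5) (nat_lit 5) L62178 (by decide +kernel)
theorem L62180 : W_12 (nat_lit 6) (nat_lit 0x200000001200090000800040000000000000000000000) (nat_lit 0x0) (nat_lit 0xe000c00120000400020003000000000000000000) := T_12 (nat_lit 89) (nat_lit 72) (nat_lit 4) (nat_lit 5) (nat_lit 8) L62179 (by decide +kernel)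
theorem L62181 : W_12 (nat_lit 10) (nat_lit 0x200000001200090000800000000000000000000000000) (nat_lit 0x0) (nat_lit 0x4000e000d001200004000f801f000200000000000000) := Q_12 (nat_lit 90) (C_12 L60862 (C_12 L31966 (C_12 L62175 (C_12 L62180 N_12)))) (by decide +kernel)
theorem L62182 : W_12 (nat_lit 2) (nat_lit 0x200006001a00090001c00000000000000000000000000) (nat_lit 0x0) (nat_lit 0x4000000018000000000000000000000000000000000000000) := D_12 (nat_lit 160) (nat_lit 194) (nat_lit 159) (nat_lit 6) (nat_lit 7) (nat_lit 11) (nat_lit 2) (nat_lit 4) (nat_lit 9) (by decide +kernel)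
theorem L62183 : W_12 (nat_lit 3) (nat_lit 0x200006001200090001c00000000000000000000000000) (nat_lit 0x0) (nat_lit 0x4000000018000c00000000000000000000000000000000000) := T_12 (nat_lit 143) (nat_lit 142) (nat_lit 1) (nat_lit 8) (nat_lit 8) L62182 (by decide +kernel)
theorem L62184 : W_12 (nat_lit 4) (nat_lit 0x200004001200090001c00000000000000000000000000) (nat_lit 0x0) (nat_lit 0x400004001a000c00000000000000000000000000000000000) := T_12 (nat_lit 157) (nat_lit 174) (nat_lit 5) (nat_lit 5) (nat_lit 6) L62183 (by decide +kernel)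
theorem L62185 : W_12 (nat_lit 5) (nat_lit 0x200004001200090000c00000000000000000000000000) (nat_lit 0x0) (nat_lit 0x400004001a000c00000001000080000000000000000000000) := T_12 (nat_lit 108) (nat_lit 91) (nat_lit 6) (nat_lit 5) (nat_lit 9) L62184 (by decide +kernel)
theorem L62186 : W_12 (nat_lit 6) (nat_lit 0x200004001200090000800000000000000000000000000) (nat_lit 0x0) (nat_lit 0x400004001a000c000000014000a0000000000000000000000) := T_12 (nat_lit 106) (nat_lit 89) (nat_lit 4) (nat_lit 5) (nat_lit 9) L62185 (by decide +kernel)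
theorem L62187 : W_12 (nat_lit 3) (nat_lit 0x200006001200090000800000000000000000000000000) (nat_lit 0x0) (nat_lit 0x4000000018000c00000000000000000000000000000000000) := T_12 (nat_lit 143) (nat_lit 142) (nat_lit 1) (nat_lit 8) (nat_lit 8) L62139 (by decide +kernel)
theorem L62188 : W_12 (nat_lit 4) (nat_lit 0x200004001200090000800000000000000000000000000) (nat_lit 0x0) (nat_lit 0x400004001a000c00000000000000000000000000000000000) := T_12 (nat_lit 157) (nat_lit 174) (nat_lit 5) (nat_lit 5) (nat_lit 6) L62187 (by decide +kernel)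
theorem L62189 : W_12 (nat_lit 2) (nat_lit 0x200004001200090001c00000000000000000000000000) (nat_lit 0x0) (nat_lit 0x80000000000028000000000000000000000000000000) := D_12 (nat_lit 175) (nat_lit 125) (nat_lit 123) (nat_lit 6) (nat_lit 5) (nat_lit 10) (nat_lit 4) (nat_lit 5) (nat_lit 10) (by decide +kernel)
theorem L62190 : W_12 (nat_lit 3) (nat_lit 0x200004001200090001800000000000000000000000000) (nat_lit 0x0) (nat_lit 0x80000000000028000400020000000000000000000000) := T_12 (nat_lit 106) (nat_lit 89) (nat_lit 4) (nat_lit 5) (nat_lit 9) L62189 (by decide +kernel)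
theorem L62191 : W_12 (nat_lit 4) (nat_lit 0x200004001200090000800000000000000000000000000) (nat_lit 0x0) (nat_lit 0x800000000000280014000a0000000000000000000000) := T_12 (nat_lit 108) (nat_lit 91) (nat_lit 6) (nat_lit 5) (nat_lit 9) L62190 (by decide +kernel)
theorem L62192 : W_12 (nat_lit 7) (nat_lit 0x200000001200090000800000000000000000000000000) (nat_lit 0x0) (nat_lit 0x48000c001e000c000280014000a0000000000000000000000) := Q_12 (nat_lit 158) (C_12 L61798 (C_12 L62186 (C_12 L62188 (C_12 L62191 N_12)))) (by decide +kernel)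
theorem L62193 : W_12 (nat_lit 9) (nat_lit 0x200000001200090000800000000000000000000000000) (nat_lit 0x0) (nat_lit 0xe000d001280010000c000700038000c000000000) := Q_12 (nat_lit 142) (C_12 L62154 (C_12 L62151 (C_12 L32909 N_12))) (by decide +kernel)
theorem L62194 : W_12 (nat_lit 6) (nat_lit 0x200000001200090000800000000000000000000000000) (nat_lit 0x0) (nat_lit 0xa000d00128000000060003000080000000000000) := Q_12 (nat_lit 142) (C_12 L62162 (C_12 L62151 (C_12 L61652 N_12))) (by decide +kernel)
theorem L62195 : W_12 (nat_lit 11) (nat_lit 0x200000001200080000800000000000000000000000000) (nat_lit 0x0) (nat_lit 0x48000c001e000d001380014000f801f00038000c000000000) := Q_12 (nat_lit 124) (C_12 L61784 (C_12 L62110 (C_12 L62109 (C_12 L62181 (C_12 L62192 (C_12 L62193 (C_12 L62194 N_12))))))) (by decide +kernel)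
theorem L62196 : W_12 (nat_lit 2) (nat_lit 0x200004001600090003c00000000000000000000000000) (nat_lit 0x0) (nat_lit 0x8000000000000c000000000000000000000000000000) := D_12 (nat_lit 123) (nat_lit 175) (nat_lit 122) (nat_lit 4) (nat_lit 5) (nat_lit 10) (nat_lit 1) (nat_lit 7) (nat_lit 6) (by decide +kernel)
theorem L62197 : W_12 (nat_lit 3) (nat_lit 0x200004001600090001c00000000000000000000000000) (nat_lit 0x0) (nat_lit 0x8000000000004c002000000000000000000000000000) := T_12 (nat_lit 109) (nat_lit 126) (nat_lit 3) (nat_lit 4) (nat_lit 6) L62196 (by decide +kernel)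
theorem L62198 : W_12 (nat_lit 4) (nat_lit 0x200004001600090000c00000000000000000000000000) (nat_lit 0x0) (nat_lit 0x8000000000004c003000080000000000000000000000) := T_12 (nat_lit 108) (nat_lit 91) (nat_lit 6) (nat_lit 5) (nat_lit 9) L62197 (by decide +kernel)
theorem L62199 : W_12 (nat_lit 5) (nat_lit 0x200004001600090000800000000000000000000000000) (nat_lit 0x0) (nat_lit 0x8000000000004c0034000a0000000000000000000000) := T_12 (nat_lit 106) (nat_lit 89) (nat_lit 4) (nat_lit 5) (nat_lit 9) L62198 (by decide +kernel)
theorem L62200 : W_12 (nat_lit 2) (nat_lit 0x200004001600090001c00000000000000000000000000) (nat_lit 0x0) (nat_lit 0x80000000000028000000000000000000000000000000) := D_12 (nat_lit 175) (nat_lit 125) (nat_lit 123) (nat_lit 6) (nat_lit 5) (nat_lit 10) (nat_lit 4) (nat_lit 5) (nat_lit 10) (by decide +kernel)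
theorem L62201 : W_12 (nat_lit 3) (nat_lit 0x200004001600090000c00000000000000000000000000) (nat_lit 0x0) (nat_lit 0x80000000000028001000080000000000000000000000) := T_12 (nat_lit 108) (nat_lit 91) (nat_lit 6) (nat_lit 5) (nat_lit 9) L62200 (by decide +kernel)
theorem L62202 : W_12 (nat_lit 4) (nat_lit 0x200004001600090000800000000000000000000000000) (nat_lit 0x0) (nat_lit 0x800000000000280014000a0000000000000000000000) := T_12 (nat_lit 106) (nat_lit 89) (nat_lit 4) (nat_lit 5) (nat_lit 9) L62201 (by decide +kernel)
theorem L62203 : W_12 (nat_lit 2) (nat_lit 0x200006801600090001c00000000000000000000000000) (nat_lit 0x0) (nat_lit 0x60002000000000000000000000000000) := D_12 (nat_lit 126) (nat_lit 109) (nat_lit 125) (nat_lit 3) (nat_lit 4) (nat_lit 6) (nat_lit 0) (nat_lit 8) (nat_lit 7) (by decide +kernel)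
theorem L62204 : W_12 (nat_lit 3) (nat_lit 0x200006801600090001800000000000000000000000000) (nat_lit 0x0) (nat_lit 0x60002400020000000000000000000000) := T_12 (nat_lit 106) (nat_lit 89) (nat_lit 4) (nat_lit 5) (nat_lit 9) L62203 (by decide +kernel)
theorem L62205 : W_12 (nat_lit 4) (nat_lit 0x200006801600090000800000000000000000000000000) (nat_lit 0x0) (nat_lit 0x600034000a0000000000000000000000) := T_12 (nat_lit 108) (nat_lit 91) (nat_lit 6) (nat_lit 5) (nat_lit 9) L62204 (by decide +kernel)
theorem L62206 : W_12 (nat_lit 5) (nat_lit 0x200006001600090000800000000000000000000000000) (nat_lit 0x0) (nat_lit 0x18000000600034000a0000000000000000000000) := T_12 (nat_lit 155) (nat_lit 156) (nat_lit 2) (nat_lit 2) (nat_lit 9) L62205 (by decide +kernel)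
theorem L62207 : W_12 (nat_lit 6) (nat_lit 0x200004001600090000800000000000000000000000000) (nat_lit 0x0) (nat_lit 0x400038000000600034000a0000000000000000000000) := T_12 (nat_lit 157) (nat_lit 174) (nat_lit 5) (nat_lit 5) (nat_lit 6) L62206 (by decide +kernel)
theorem L62208 : W_12 (nat_lit 2) (nat_lit 0x2000068016000900008000c0001000000000000000000) (nat_lit 0x0) (nat_lit 0x20000000000002000080000000000000) := D_12 (nat_lit 73) (nat_lit 125) (nat_lit 55) (nat_lit 7) (nat_lit 5) (nat_lit 4) (nat_lit 4) (nat_lit 5) (nat_lit 7) (by decide +kernel)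
theorem L62209 : W_12 (nat_lit 3) (nat_lit 0x2000068016000900008000c0000000000000000000000) (nat_lit 0x0) (nat_lit 0x20000000020003000080000000000000) := T_12 (nat_lit 72) (nat_lit 89) (nat_lit 4) (nat_lit 5) (nat_lit 8) L62208 (by decide +kernel)
theorem L62210 : W_12 (nat_lit 4) (nat_lit 0x200006801600090000800080000000000000000000000) (nat_lit 0x0) (nat_lit 0x20000000060007000080000000000000) := T_12 (nat_lit 90) (nat_lit 74) (nat_lit 6) (nat_lit 5) (nat_lit 8) L62209 (by decide +kernel)
theorem L62211 : W_12 (nat_lit 5) (nat_lit 0x200006801600090000800000000000000000000000000) (nat_lit 0x0) (nat_lit 0x200010000e0007000080000000000000) := T_12 (nat_lit 91) (nat_lit 108) (nat_lit 6) (nat_lit 5) (nat_lit 9) L62210 (by decide +kernel)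
theorem L62212 : W_12 (nat_lit 6) (nat_lit 0x200006001600090000800000000000000000000000000) (nat_lit 0x0) (nat_lit 0x18000000200010000e0007000080000000000000) := T_12 (nat_lit 155) (nat_lit 156) (nat_lit 2) (nat_lit 2) (nat_lit 9) L62211 (by decide +kernel)
theorem L62213 : W_12 (nat_lit 7) (nat_lit 0x200004001600090000800000000000000000000000000) (nat_lit 0x0) (nat_lit 0x400038000000200010000e0007000080000000000000) := T_12 (nat_lit 157) (nat_lit 174) (nat_lit 5) (nat_lit 5) (nat_lit 6) L62212 (by decide +kernel)
theorem L62214 : W_12 (nat_lit 2) (nat_lit 0x280004001600090001800000000000000000000000000) (nat_lit 0x0) (nat_lit 0x800040002000000000000000000000000000000000000000) := D_12 (nat_lit 174) (nat_lit 191) (nat_lit 157) (nat_lit 5) (nat_lit 5) (nat_lit 7) (nat_lit 5) (nat_lit 5) (nat_lit 6) (by decide +kernel)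
theorem L62215 : W_12 (nat_lit 3) (nat_lit 0x200004001600090001800000000000000000000000000) (nat_lit 0x0) (nat_lit 0x8000c0002000000020000000000000000000000000000000) := T_12 (nat_lit 175) (nat_lit 125) (nat_lit 6) (nat_lit 5) (nat_lit 10) L62214 (by decide +kernel)
theorem L62216 : W_12 (nat_lit 4) (nat_lit 0x200004001600090000800000000000000000000000000) (nat_lit 0x0) (nat_lit 0x8000c0002000000020001000080000000000000000000000) := T_12 (nat_lit 108) (nat_lit 91) (nat_lit 6) (nat_lit 5) (nat_lit 9) L62215 (by decide +kernel)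
theorem L62217 : W_12 (nat_lit 8) (nat_lit 0x200000001600090000800000000000000000000000000) (nat_lit 0x0) (nat_lit 0x8000c000780000006c0034000e0007000080000000000000) := Q_12 (nat_lit 158) (C_12 L62199 (C_12 L62202 (C_12 L32925 (C_12 L62207 (C_12 L62213 (C_12 L62216 N_12)))))) (by decide +kernel)
theorem L62218 : W_12 (nat_lit 7) (nat_lit 0x200000001600090000800000000000000000000000000) (nat_lit 0x0) (nat_lit 0x8000c000780000006c0034000a0000000000000000000000) := Q_12 (nat_lit 158) (C_12 L62199 (C_12 L62216 (C_12 L32925 (C_12 L62207 N_12)))) (by decide +kernel)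
theorem L62219 : W_12 (nat_lit 9) (nat_lit 0x200000001600080000800000000000000000000000000) (nat_lit 0x0) (nat_lit 0x8000c000f80000007c0034000e0007000280000000000000) := Q_12 (nat_lit 124) (C_12 L61652 (C_12 L61619 (C_12 L62217 (C_12 L62218 (C_12 L32909 N_12))))) (by decide +kernel)
theorem L62220 : W_12 (nat_lit 2) (nat_lit 0x4000200024001e00090000c00040000000000000000000000) (nat_lit 0x0) (nat_lit 0x1000080004000000000000000000) := D_12 (nat_lit 91) (nat_lit 74) (nat_lit 108) (nat_lit 6) (nat_lit 5) (nat_lit 8) (nat_lit 6) (nat_lit 5) (nat_lit 9) (by decide +kernel)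
theorem L62221 : W_12 (nat_lit 3) (nat_lit 0x4000200024001e00090000c00000000000000000000000000) (nat_lit 0x0) (nat_lit 0x80000000000010000c0004000000000000000000) := T_12 (nat_lit 90) (nat_lit 159) (nat_lit 7) (nat_lit 5) (nat_lit 5) L62220 (by decide +kernel)
theorem L62222 : W_12 (nat_lit 4) (nat_lit 0x4000200024001e00090000800000000000000000000000000) (nat_lit 0x0) (nat_lit 0x80000000000014000e0004000000000000000000) := T_12 (nat_lit 106) (nat_lit 89) (nat_lit 4) (nat_lit 5) (nat_lit 9) L62221 (by decide +kernel)
theorem L62223 : W_12 (nat_lit 5) (nat_lit 0x4000200024001e00080000800000000000000000000000000) (nat_lit 0x0) (nat_lit 0x80000000180014000e0004000000000000000000) := T_12 (nat_lit 124) (nat_lit 123) (nat_lit 0) (nat_lit 8) (nat_lit 8) L62222 (by decide +kernel)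
theorem L62224 : W_12 (nat_lit 6) (nat_lit 0x4000200004001e00080000800000000000000000000000000) (nat_lit 0x0) (nat_lit 0x680000000180014000e0004000000000000000000) := T_12 (nat_lit 161) (nat_lit 162) (nat_lit 3) (nat_lit 5) (nat_lit 8) L62223 (by decide +kernel)
theorem L62225 : W_12 (nat_lit 7) (nat_lit 0x200004001e00080000800000000000000000000000000) (nat_lit 0x0) (nat_lit 0x40000000780000000180014000e0004000000000000000000) := T_12 (nat_lit 194) (nat_lit 160) (nat_lit 6) (nat_lit 7) (nat_lit 11) L62224 (by decide +kernel)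
theorem L62226 : W_12 (nat_lit 8) (nat_lit 0x200000001e00080000800000000000000000000000000) (nat_lit 0x0) (nat_lit 0x400000007e0000000180014000e0004000000000000000000) := T_12 (nat_lit 158) (nat_lit 157) (nat_lit 1) (nat_lit 8) (nat_lit 8) L62225 (by decide +kernel)
theorem L62227 : W_12 (nat_lit 9) (nat_lit 0x200000001600080000800000000000000000000000000) (nat_lit 0x0) (nat_lit 0x400000007e0008001180014000e0004000000000000000000) := T_12 (nat_lit 143) (nat_lit 128) (nat_lit 2) (nat_lit 5) (nat_lit 8) L62226 (by decide +kernel)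
theorem L62228 : W_12 (nat_lit 2) (nat_lit 0x2000000016000a0000800000000000000000000000000) (nat_lit 0x0) (nat_lit 0x800140000000000000000000000000000000) := D_12 (nat_lit 128) (nat_lit 143) (nat_lit 126) (nat_lit 2) (nat_lit 5) (nat_lit 8) (nat_lit 1) (nat_lit 9) (nat_lit 7) (by decide +kernel)
theorem L62229 : W_12 (nat_lit 3) (nat_lit 0x4000200004001e000a0000800000000000000000000000000) (nat_lit 0x0) (nat_lit 0x800080000000000010000c0000000000000000000000) := T_12 (nat_lit 108) (nat_lit 91) (nat_lit 5) (nat_lit 6) (nat_lit 5) L61989 (by decide +kernel)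
theorem L62230 : W_12 (nat_lit 4) (nat_lit 0x200004001e000a0000800000000000000000000000000) (nat_lit 0x0) (nat_lit 0x40000800180000000000010000c0000000000000000000000) := T_12 (nat_lit 194) (nat_lit 160) (nat_lit 6) (nat_lit 7) (nat_lit 11) L62229 (by decide +kernel)
theorem L62231 : W_12 (nat_lit 5) (nat_lit 0x200000001e000a0000800000000000000000000000000) (nat_lit 0x0) (nat_lit 0x400008001e0000000000010000c0000000000000000000000) := T_12 (nat_lit 158) (nat_lit 157) (nat_lit 1) (nat_lit 8) (nat_lit 8) L62230 (by decide +kernel)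
theorem L62232 : W_12 (nat_lit 6) (nat_lit 0x2000000016000a0000800000000000000000000000000) (nat_lit 0x0) (nat_lit 0x400008001e0008001000010000c0000000000000000000000) := T_12 (nat_lit 143) (nat_lit 128) (nat_lit 2) (nat_lit 5) (nat_lit 8) L62231 (by decide +kernel)
theorem L62233 : W_12 (nat_lit 6) (nat_lit 0x2000000016000a0000800000000000000000000000000) (nat_lit 0x0) (nat_lit 0x8001c0000000000016003c000a000000000000000000) := Q_12 (nat_lit 108) (C_12 L62069 (C_12 L62001 (C_12 L62005 N_12))) (by decide +kernel)
theorem L62234 : W_12 (nat_lit 7) (nat_lit 0x200000001600080000800000000000000000000000000) (nat_lit 0x0) (nat_lit 0x400008001e0008001600016003c000a000000000000000000) := Q_12 (nat_lit 125) (C_12 L62228 (C_12 L62232 (C_12 L62233 N_12))) (by decide +kernel)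
theorem L62235 : W_12 (nat_lit 2) (nat_lit 0x4000200024001e000d0000c000c0000000000000000000000) (nat_lit 0x0) (nat_lit 0x2000300000000000000000000000) := D_12 (nat_lit 92) (nat_lit 109) (nat_lit 93) (nat_lit 7) (nat_lit 7) (nat_lit 5) (nat_lit 1) (nat_lit 8) (nat_lit 5) (by decide +kernel)
theorem L62236 : W_12 (nat_lit 3) (nat_lit 0x4000200024001e000d0000c00040000000000000000000000) (nat_lit 0x0) (nat_lit 0x2000380004000000000000000000) := T_12 (nat_lit 91) (nat_lit 74) (nat_lit 6) (nat_lit 5) (nat_lit 8) L62235 (by decide +kernel)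
theorem L62237 : W_12 (nat_lit 4) (nat_lit 0x4000200024001e000d0000c00000000000000000000000000) (nat_lit 0x0) (nat_lit 0x80000000000020003c0004000000000000000000) := T_12 (nat_lit 90) (nat_lit 159) (nat_lit 7) (nat_lit 5) (nat_lit 5) L62236 (by decide +kernel)
theorem L62238 : W_12 (nat_lit 5) (nat_lit 0x4000200024001e00090000c00000000000000000000000000) (nat_lit 0x0) (nat_lit 0x80000000600020003c0004000000000000000000) := T_12 (nat_lit 126) (nat_lit 125) (nat_lit 0) (nat_lit 8) (nat_lit 7) L62237 (by decide +kernel)
theorem L62239 : W_12 (nat_lit 6) (nat_lit 0x4000200024001e00090000800000000000000000000000000) (nat_lit 0x0) (nat_lit 0x80000000600024003e0004000000000000000000) := T_12 (nat_lit 106) (nat_lit 89) (nat_lit 4) (nat_lit 5) (nat_lit 9) L62238 (by decide +kernel)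
theorem L62240 : W_12 (nat_lit 7) (nat_lit 0x4000200024001e00080000800000000000000000000000000) (nat_lit 0x0) (nat_lit 0x80000000780024003e0004000000000000000000) := T_12 (nat_lit 124) (nat_lit 123) (nat_lit 0) (nat_lit 8) (nat_lit 8) L62239 (by decide +kernel)
theorem L62241 : W_12 (nat_lit 8) (nat_lit 0x4000200004001e00080000800000000000000000000000000) (nat_lit 0x0) (nat_lit 0x680000000780024003e0004000000000000000000) := T_12 (nat_lit 161) (nat_lit 162) (nat_lit 3) (nat_lit 5) (nat_lit 8) L62240 (by decide +kernel)
theorem L62242 : W_12 (nat_lit 9) (nat_lit 0x200004001e00080000800000000000000000000000000) (nat_lit 0x0) (nat_lit 0x40000000780000000780024003e0004000000000000000000) := T_12 (nat_lit 194) (nat_lit 160) (nat_lit 6) (nat_lit 7) (nat_lit 11) L62241 (by decide +kernel)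
theorem L62243 : W_12 (nat_lit 10) (nat_lit 0x200000001e00080000800000000000000000000000000) (nat_lit 0x0) (nat_lit 0x400000007e0000000780024003e0004000000000000000000) := T_12 (nat_lit 158) (nat_lit 157) (nat_lit 1) (nat_lit 8) (nat_lit 8) L62242 (by decide +kernel)
theorem L62244 : W_12 (nat_lit 11) (nat_lit 0x200000001600080000800000000000000000000000000) (nat_lit 0x0) (nat_lit 0x400000007e0008001780024003e0004000000000000000000) := T_12 (nat_lit 143) (nat_lit 128) (nat_lit 2) (nat_lit 5) (nat_lit 8) L62243 (by decide +kernel)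
theorem L62245 : W_12 (nat_lit 2) (nat_lit 0x4000200000001e00090000800040002000000000000000000) (nat_lit 0x0) (nat_lit 0x80004000200000000000000) := D_12 (nat_lit 74) (nat_lit 57) (nat_lit 91) (nat_lit 6) (nat_lit 5) (nat_lit 7) (nat_lit 6) (nat_lit 5) (nat_lit 8) (by decide +kernel)
theorem L62246 : W_12 (nat_lit 3) (nat_lit 0x4000200000001e00090000800040000000000000000000000) (nat_lit 0x0) (nat_lit 0x20000000080006000200000000000000) := T_12 (nat_lit 73) (nat_lit 125) (nat_lit 7) (nat_lit 5) (nat_lit 4) L62245 (by decide +kernel)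
theorem L62247 : W_12 (nat_lit 4) (nat_lit 0x4000200000001e00090000800000000000000000000000000) (nat_lit 0x0) (nat_lit 0x80000000200000000c0006000200000000000000) := T_12 (nat_lit 90) (nat_lit 159) (nat_lit 7) (nat_lit 5) (nat_lit 5) L62246 (by decide +kernel)
theorem L62248 : W_12 (nat_lit 5) (nat_lit 0x200000001e00090000800000000000000000000000000) (nat_lit 0x0) (nat_lit 0x40000000180000000200000000c0006000200000000000000) := T_12 (nat_lit 194) (nat_lit 160) (nat_lit 6) (nat_lit 7) (nat_lit 11) L62247 (by decide +kernel)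
theorem L62249 : W_12 (nat_lit 6) (nat_lit 0x200000001e00080000800000000000000000000000000) (nat_lit 0x0) (nat_lit 0x40000000180000000380000000c0006000200000000000000) := T_12 (nat_lit 124) (nat_lit 123) (nat_lit 0) (nat_lit 8) (nat_lit 8) L62248 (by decide +kernel)
theorem L62250 : W_12 (nat_lit 7) (nat_lit 0x200000001600080000800000000000000000000000000) (nat_lit 0x0) (nat_lit 0x40000000180008001380000000c0006000200000000000000) := T_12 (nat_lit 143) (nat_lit 128) (nat_lit 2) (nat_lit 5) (nat_lit 8) L62249 (by decide +kernel)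
theorem L62251 : W_12 (nat_lit 2) (nat_lit 0x4000200024001e000d0000c00000000000000000000000000) (nat_lit 0x0) (nat_lit 0x3000080000000000000000000000) := D_12 (nat_lit 108) (nat_lit 91) (nat_lit 109) (nat_lit 6) (nat_lit 5) (nat_lit 9) (nat_lit 3) (nat_lit 4) (nat_lit 6) (by decide +kernel)
theorem L62252 : W_12 (nat_lit 3) (nat_lit 0x4000200024001e00090000c00000000000000000000000000) (nat_lit 0x0) (nat_lit 0x60003000080000000000000000000000) := T_12 (nat_lit 126) (nat_lit 125) (nat_lit 0) (nat_lit 8) (nat_lit 7) L62251 (by decide +kernel)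
theorem L62253 : W_12 (nat_lit 4) (nat_lit 0x4000200024001e00090000800000000000000000000000000) (nat_lit 0x0) (nat_lit 0x600034000a0000000000000000000000) := T_12 (nat_lit 106) (nat_lit 89) (nat_lit 4) (nat_lit 5) (nat_lit 9) L62252 (by decide +kernel)
theorem L62254 : W_12 (nat_lit 5) (nat_lit 0x4000200024001e00080000800000000000000000000000000) (nat_lit 0x0) (nat_lit 0x780034000a0000000000000000000000) := T_12 (nat_lit 124) (nat_lit 123) (nat_lit 0) (nat_lit 8) (nat_lit 8) L62253 (by decide +kernel)
theorem L62255 : W_12 (nat_lit 6) (nat_lit 0x4000200004001e00080000800000000000000000000000000) (nat_lit 0x0) (nat_lit 0x600000000780034000a0000000000000000000000) := T_12 (nat_lit 161) (nat_lit 162) (nat_lit 3) (nat_lit 5) (nat_lit 8) L62254 (by decide +kernel)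
theorem L62256 : W_12 (nat_lit 7) (nat_lit 0x200004001e00080000800000000000000000000000000) (nat_lit 0x0) (nat_lit 0x40000000700000000780034000a0000000000000000000000) := T_12 (nat_lit 194) (nat_lit 160) (nat_lit 6) (nat_lit 7) (nat_lit 11) L62255 (by decide +kernel)
theorem L62257 : W_12 (nat_lit 8) (nat_lit 0x200000001e00080000800000000000000000000000000) (nat_lit 0x0) (nat_lit 0x40000000760000000780034000a0000000000000000000000) := T_12 (nat_lit 158) (nat_lit 157) (nat_lit 1) (nat_lit 8) (nat_lit 8) L62256 (by decide +kernel)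
theorem L62258 : W_12 (nat_lit 9) (nat_lit 0x200000001600080000800000000000000000000000000) (nat_lit 0x0) (nat_lit 0x40000000760008001780034000a0000000000000000000000) := T_12 (nat_lit 143) (nat_lit 128) (nat_lit 2) (nat_lit 5) (nat_lit 8) L62257 (by decide +kernel)
theorem L62259 : W_12 (nat_lit 2) (nat_lit 0x4000200024001e000d0000c00000000000000000000000000) (nat_lit 0x0) (nat_lit 0x3000100000000000000000000000) := D_12 (nat_lit 109) (nat_lit 108) (nat_lit 92) (nat_lit 3) (nat_lit 4) (nat_lit 6) (nat_lit 7) (nat_lit 7) (nat_lit 5) (by decide +kernel)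
theorem L62260 : W_12 (nat_lit 3) (nat_lit 0x4000200024001e00090000c00000000000000000000000000) (nat_lit 0x0) (nat_lit 0x60003000100000000000000000000000) := T_12 (nat_lit 126) (nat_lit 125) (nat_lit 0) (nat_lit 8) (nat_lit 7) L62259 (by decide +kernel)
theorem L62261 : W_12 (nat_lit 4) (nat_lit 0x4000200024001e00090000800000000000000000000000000) (nat_lit 0x0) (nat_lit 0x60003400120000000000000000000000) := T_12 (nat_lit 106) (nat_lit 89) (nat_lit 4) (nat_lit 5) (nat_lit 9) L62260 (by decide +kernel)
theorem L62262 : W_12 (nat_lit 5) (nat_lit 0x4000200024001e00080000800000000000000000000000000) (nat_lit 0x0) (nat_lit 0x78003400120000000000000000000000) := T_12 (nat_lit 124) (nat_lit 123) (nat_lit 0) (nat_lit 8) (nat_lit 8) L62261 (by decide +kernel)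
theorem L62263 : W_12 (nat_lit 6) (nat_lit 0x4000200004001e00080000800000000000000000000000000) (nat_lit 0x0) (nat_lit 0x60000000078003400120000000000000000000000) := T_12 (nat_lit 161) (nat_lit 162) (nat_lit 3) (nat_lit 5) (nat_lit 8) L62262 (by decide +kernel)
theorem L62264 : W_12 (nat_lit 7) (nat_lit 0x200004001e00080000800000000000000000000000000) (nat_lit 0x0) (nat_lit 0x4000000070000000078003400120000000000000000000000) := T_12 (nat_lit 194) (nat_lit 160) (nat_lit 6) (nat_lit 7) (nat_lit 11) L62263 (by decide +kernel)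
theorem L62265 : W_12 (nat_lit 8) (nat_lit 0x200000001e00080000800000000000000000000000000) (nat_lit 0x0) (nat_lit 0x4000000076000000078003400120000000000000000000000) := T_12 (nat_lit 158) (nat_lit 157) (nat_lit 1) (nat_lit 8) (nat_lit 8) L62264 (by decide +kernel)
theorem L62266 : W_12 (nat_lit 9) (nat_lit 0x200000001600080000800000000000000000000000000) (nat_lit 0x0) (nat_lit 0x4000000076000800178003400120000000000000000000000) := T_12 (nat_lit 143) (nat_lit 128) (nat_lit 2) (nat_lit 5) (nat_lit 8) L62265 (by decide +kernel)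
theorem L62267 : W_12 (nat_lit 12) (nat_lit 0x200000001200080000800000000000000000000000000) (nat_lit 0x0) (nat_lit 0x48000c007f800c0017c0036003e000f000280000000000000) := Q_12 (nat_lit 142) (C_12 L62219 (C_12 L62227 (C_12 L62234 (C_12 L62244 (C_12 L62250 (C_12 L62258 (C_12 L62266 N_12))))))) (by decide +kernel)
theorem L62268 : W_12 (nat_lit 5) (nat_lit 0x200000001200090000800000000000000000000000000) (nat_lit 0x0) (nat_lit 0x8000c00128000000060003000080000000000000) := Q_12 (nat_lit 142) (C_12 L61652 (C_12 L62151 N_12)) (by decide +kernel)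
theorem L62269 : W_12 (nat_lit 2) (nat_lit 0x600018002800040016000d0000c00000000000000000000000000) (nat_lit 0x0) (nat_lit 0x900100000000000000000000000000000000) := D_12 (nat_lit 143) (nat_lit 128) (nat_lit 140) (nat_lit 2) (nat_lit 5) (nat_lit 8) (nat_lit 2) (nat_lit 4) (nat_lit 8) (by decide +kernel)
theorem L62270 : W_12 (nat_lit 3) (nat_lit 0x600018002800040012000d0000c00000000000000000000000000) (nat_lit 0x0) (nat_lit 0x8000d00100000000000000000000000000000000) := T_12 (nat_lit 142) (nat_lit 159) (nat_lit 6) (nat_lit 5) (nat_lit 12) L62269 (by decide +kernel)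
theorem L62271 : W_12 (nat_lit 4) (nat_lit 0x400018002800040012000d0000c00000000000000000000000000) (nat_lit 0x0) (nat_lit 0x800020000000000008000d00100000000000000000000000000000000) := T_12 (nat_lit 209) (nat_lit 227) (nat_lit 7) (nat_lit 5) (nat_lit 9) L62270 (by decide +kernel)
theorem L62272 : W_12 (nat_lit 5) (nat_lit 0x18002800040012000d0000c00000000000000000000000000) (nat_lit 0x0) (nat_lit 0x800060002000000008000d00100000000000000000000000000000000) := T_12 (nat_lit 210) (nat_lit 193) (nat_lit 7) (nat_lit 5) (nat_lit 8) L62271 (by decide +kernel)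
theorem L62273 : W_12 (nat_lit 6) (nat_lit 0x8002800040012000d0000c00000000000000000000000000) (nat_lit 0x0) (nat_lit 0x800070003000000008000d00100000000000000000000000000000000) := T_12 (nat_lit 192) (nat_lit 208) (nat_lit 5) (nat_lit 5) (nat_lit 8) L62272 (by decide +kernel)
theorem L62274 : W_12 (nat_lit 7) (nat_lit 0x2800040012000d0000c00000000000000000000000000) (nat_lit 0x0) (nat_lit 0x800070003800040008000d00100000000000000000000000000000000) := T_12 (nat_lit 191) (nat_lit 174) (nat_lit 5) (nat_lit 5) (nat_lit 7) L62273 (by decide +kernel)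
theorem L62275 : W_12 (nat_lit 8) (nat_lit 0x2000040012000d0000c00000000000000000000000000) (nat_lit 0x0) (nat_lit 0x8000700038000c0008000d00108000000000000000000000000000000) := T_12 (nat_lit 175) (nat_lit 123) (nat_lit 4) (nat_lit 5) (nat_lit 10) L62274 (by decide +kernel)
theorem L62276 : W_12 (nat_lit 9) (nat_lit 0x200004001200090000c00000000000000000000000000) (nat_lit 0x0) (nat_lit 0x8000700038000c0008000d00168000000000000000000000000000000) := T_12 (nat_lit 126) (nat_lit 125) (nat_lit 0) (nat_lit 8) (nat_lit 7) L62275 (by decide +kernel)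
theorem L62277 : W_12 (nat_lit 10) (nat_lit 0x200004001200090000800000000000000000000000000) (nat_lit 0x0) (nat_lit 0x8000700038000c0008000d00168000400020000000000000000000000) := T_12 (nat_lit 106) (nat_lit 89) (nat_lit 4) (nat_lit 5) (nat_lit 9) L62276 (by decide +kernel)
theorem L62278 : W_12 (nat_lit 11) (nat_lit 0x2800040012000b0000c00000000000000000000000000) (nat_lit 0x0) (nat_lit 0x2000fc00f80000003a000d00000000300000000000000000000000000) := T_12 (nat_lit 104) (nat_lit 105) (nat_lit 3) (nat_lit 2) (nat_lit 6) L32842 (by decide +kernel)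
theorem L62279 : W_12 (nat_lit 12) (nat_lit 0x2000040012000b0000c00000000000000000000000000) (nat_lit 0x0) (nat_lit 0x2000fc00f80008003a000d00008000300000000000000000000000000) := T_12 (nat_lit 175) (nat_lit 123) (nat_lit 4) (nat_lit 5) (nat_lit 10) L62278 (by decide +kernel)
theorem L62280 : W_12 (nat_lit 13) (nat_lit 0x200004001200090000c00000000000000000000000000) (nat_lit 0x0) (nat_lit 0x2000fc00f80008003a000d00068000300000000000000000000000000) := T_12 (nat_lit 125) (nat_lit 126) (nat_lit 0) (nat_lit 8) (nat_lit 7) L62279 (by decide +kernel)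
theorem L62281 : W_12 (nat_lit 14) (nat_lit 0x200004001200090000800000000000000000000000000) (nat_lit 0x0) (nat_lit 0x2000fc00f80008003a000d00068000700020000000000000000000000) := T_12 (nat_lit 106) (nat_lit 89) (nat_lit 4) (nat_lit 5) (nat_lit 9) L62280 (by decide +kernel)
theorem L62282 : W_12 (nat_lit 15) (nat_lit 0x200000001200090000800000000000000000000000000) (nat_lit 0x0) (nat_lit 0xa000fc00f8000c003e000d00168000700020000000000000000000000) := Q_12 (nat_lit 158) (C_12 L61798 (C_12 L62188 (C_12 L62277 (C_12 L62281 N_12)))) (by decide +kernel)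
theorem L62283 : W_12 (nat_lit 5) (nat_lit 0x200000001200090000800000000000000000000000000) (nat_lit 0x0) (nat_lit 0xa000d001680000000c0006000200000000000000) := Q_12 (nat_lit 142) (C_12 L32909 (C_12 L62165 (C_12 L62151 N_12))) (by decide +kernel)
theorem L62284 : W_12 (nat_lit 16) (nat_lit 0x200000001200080000800000000000000000000000000) (nat_lit 0x0) (nat_lit 0xa000fc00f8000c003e000d001780007000f801f000280000000000000) := Q_12 (nat_lit 124) (C_12 L61784 (C_12 L62194 (C_12 L62268 (C_12 L62181 (C_12 L62282 (C_12 L62283 N_12)))))) (by decide +kernel)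
theorem L62285 : W_12 (nat_lit 2) (nat_lit 0x2000000016000e0000800000000000000000000000000) (nat_lit 0x0) (nat_lit 0x100010000400000000000000000000000000) := D_12 (nat_lit 124) (nat_lit 140) (nat_lit 106) (nat_lit 1) (nat_lit 8) (nat_lit 7) (nat_lit 0) (nat_lit 8) (nat_lit 7) (by decide +kernel)
theorem L62286 : W_12 (nat_lit 3) (nat_lit 0x2000000016000a0000800000000000000000000000000) (nat_lit 0x0) (nat_lit 0x100150000400000000000000000000000000) := T_12 (nat_lit 126) (nat_lit 128) (nat_lit 1) (nat_lit 9) (nat_lit 7) L62285 (by decide +kernel)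
theorem L62287 : W_12 (nat_lit 2) (nat_lit 0x2000000016000e0001800000000000000000000000000) (nat_lit 0x0) (nat_lit 0x2600000000000000000000000000) := D_12 (nat_lit 106) (nat_lit 105) (nat_lit 109) (nat_lit 3) (nat_lit 3) (nat_lit 6) (nat_lit 3) (nat_lit 4) (nat_lit 6) (by decide +kernel)
theorem L62288 : W_12 (nat_lit 3) (nat_lit 0x2000000016000a0001800000000000000000000000000) (nat_lit 0x0) (nat_lit 0x140002600000000000000000000000000) := T_12 (nat_lit 126) (nat_lit 128) (nat_lit 1) (nat_lit 9) (nat_lit 7) L62287 (by decide +kernel)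
theorem L62289 : W_12 (nat_lit 4) (nat_lit 0x2000000016000a0000800000000000000000000000000) (nat_lit 0x0) (nat_lit 0x18000000140003600040000000000000000000000) := Q_12 (nat_lit 108) (C_12 L62001 (C_12 L62288 N_12)) (by decide +kernel)
theorem L62290 : W_12 (nat_lit 2) (nat_lit 0x2000000016000a0000800040000000000000000000000) (nat_lit 0x0) (nat_lit 0x8000000010001000000000000000000000000000) := D_12 (nat_lit 159) (nat_lit 108) (nat_lit 124) (nat_lit 4) (nat_lit 6) (nat_lit 9) (nat_lit 7) (nat_lit 5) (nat_lit 5) (by decide +kernel)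
theorem L62291 : W_12 (nat_lit 2) (nat_lit 0x2000000016000a0001800040000000000000000000000) (nat_lit 0x0) (nat_lit 0x80002000100000000000000) := D_12 (nat_lit 73) (nat_lit 91) (nat_lit 56) (nat_lit 4) (nat_lit 6) (nat_lit 8) (nat_lit 7) (nat_lit 5) (nat_lit 3) (by decide +kernel)
theorem L62292 : W_12 (nat_lit 3) (nat_lit 0x2000000016000a0000800040000000000000000000000) (nat_lit 0x0) (nat_lit 0x8000000000001000080002000100000000000000) := T_12 (nat_lit 108) (nat_lit 159) (nat_lit 4) (nat_lit 6) (nat_lit 9) L62291 (by decide +kernel)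
theorem L62293 : W_12 (nat_lit 2) (nat_lit 0x2000000016000a0000800040000000000000000000000) (nat_lit 0x0) (nat_lit 0x8000000010000000000002000000000000000000) := D_12 (nat_lit 124) (nat_lit 159) (nat_lit 73) (nat_lit 7) (nat_lit 5) (nat_lit 5) (nat_lit 7) (nat_lit 5) (nat_lit 4) (by decide +kernel)
theorem L62294 : W_12 (nat_lit 2) (nat_lit 0x2000000016000a0000800040002000000000000000000) (nat_lit 0x0) (nat_lit 0x1000080000000100000000000000) := D_12 (nat_lit 108) (nat_lit 56) (nat_lit 91) (nat_lit 7) (nat_lit 5) (nat_lit 3) (nat_lit 4) (nat_lit 6) (nat_lit 8) (by decide +kernel)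
theorem L62295 : W_12 (nat_lit 3) (nat_lit 0x2000000016000a0000800040000000000000000000000) (nat_lit 0x0) (nat_lit 0x10001000080002000100000000000000) := T_12 (nat_lit 73) (nat_lit 124) (nat_lit 7) (nat_lit 5) (nat_lit 4) L62294 (by decide +kernel)
theorem L62296 : W_12 (nat_lit 4) (nat_lit 0x2000000016000a0000800000000000000000000000000) (nat_lit 0x0) (nat_lit 0x80000000100010000c0002000100000000000000) := Q_12 (nat_lit 90) (C_12 L62290 (C_12 L62292 (C_12 L62293 (C_12 L62295 N_12)))) (by decide +kernel)
theorem L62297 : W_12 (nat_lit 5) (nat_lit 0x200000001600080000800000000000000000000000000) (nat_lit 0x0) (nat_lit 0x180001001700036000c0002000100000000000000) := Q_12 (nat_lit 125) (C_12 L62286 (C_12 L62289 (C_12 L62296 N_12))) (by decide +kernel)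
theorem L62298 : W_12 (nat_lit 2) (nat_lit 0x200000001f00080000800000000000000000000000000) (nat_lit 0x0) (nat_lit 0x1c000000000000000000000000000000) := D_12 (nat_lit 123) (nat_lit 124) (nat_lit 122) (nat_lit 0) (nat_lit 8) (nat_lit 8) (nat_lit 0) (nat_lit 7) (nat_lit 8) (by decide +kernel)
theorem L62299 : W_12 (nat_lit 3) (nat_lit 0x200000001e00080000800000000000000000000000000) (nat_lit 0x0) (nat_lit 0x10005c000000000000000000000000000000) := T_12 (nat_lit 140) (nat_lit 126) (nat_lit 2) (nat_lit 4) (nat_lit 8) L62298 (by decide +kernel)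
theorem L62300 : W_12 (nat_lit 4) (nat_lit 0x200000001600080000800000000000000000000000000) (nat_lit 0x0) (nat_lit 0x90015c000000000000000000000000000000) := T_12 (nat_lit 143) (nat_lit 128) (nat_lit 2) (nat_lit 5) (nat_lit 8) L62299 (by decide +kernel)
theorem L62301 : W_12 (nat_lit 2) (nat_lit 0x200000001f00080000800000000000000000000000000) (nat_lit 0x0) (nat_lit 0x70000000000000000000000000000000000000000) := D_12 (nat_lit 161) (nat_lit 162) (nat_lit 160) (nat_lit 3) (nat_lit 5) (nat_lit 8) (nat_lit 3) (nat_lit 4) (nat_lit 8) (by decide +kernel)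
theorem L62302 : W_12 (nat_lit 3) (nat_lit 0x200000001e00080000800000000000000000000000000) (nat_lit 0x0) (nat_lit 0x70000100040000000000000000000000000000000) := T_12 (nat_lit 140) (nat_lit 126) (nat_lit 2) (nat_lit 4) (nat_lit 8) L62301 (by decide +kernel)
theorem L62303 : W_12 (nat_lit 4) (nat_lit 0x200000001600080000800000000000000000000000000) (nat_lit 0x0) (nat_lit 0x70000900140000000000000000000000000000000) := T_12 (nat_lit 143) (nat_lit 128) (nat_lit 2) (nat_lit 5) (nat_lit 8) L62302 (by decide +kernel)
theorem L62304 : W_12 (nat_lit 7) (nat_lit 0x200000001600080000800000000000000000000000000) (nat_lit 0x0) (nat_lit 0x400000007800090007c0000000c0006000200000000000000) := Q_12 (nat_lit 143) (C_12 L62302 (C_12 L62249 (C_12 L62299 N_12))) (by decide +kernel)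
theorem L62305 : W_12 (nat_lit 8) (nat_lit 0x200000001200080000800000000000000000000000000) (nat_lit 0x0) (nat_lit 0x4000000078000d0017c0036000c0006000300000000000000) := Q_12 (nat_lit 142) (C_12 L62297 (C_12 L62300 (C_12 L62303 (C_12 L62250 (C_12 L62304 N_12))))) (by decide +kernel)
theorem L62306 : W_12 (nat_lit 2) (nat_lit 0x2000000012000d0000800000000000000000000000000) (nat_lit 0x0) (nat_lit 0x100020000400000000000000000000000000) := D_12 (nat_lit 125) (nat_lit 106) (nat_lit 140) (nat_lit 0) (nat_lit 8) (nat_lit 7) (nat_lit 1) (nat_lit 8) (nat_lit 7) (by decide +kernel)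
theorem L62307 : W_12 (nat_lit 2) (nat_lit 0x2000000012000d00008000e0000000000000000000000) (nat_lit 0x0) (nat_lit 0x4000000000001400000000000000000000000000) := D_12 (nat_lit 158) (nat_lit 106) (nat_lit 108) (nat_lit 4) (nat_lit 5) (nat_lit 9) (nat_lit 6) (nat_lit 5) (nat_lit 9) (by decide +kernel)
theorem L62308 : W_12 (nat_lit 3) (nat_lit 0x2000000012000d0000800060000000000000000000000) (nat_lit 0x0) (nat_lit 0x4000000000001400080004000000000000000000) := T_12 (nat_lit 91) (nat_lit 74) (nat_lit 6) (nat_lit 5) (nat_lit 8) L62307 (by decide +kernel)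
theorem L62309 : W_12 (nat_lit 4) (nat_lit 0x2000000012000d0000800040000000000000000000000) (nat_lit 0x0) (nat_lit 0x40000000000014000a0005000000000000000000) := T_12 (nat_lit 89) (nat_lit 72) (nat_lit 4) (nat_lit 5) (nat_lit 8) L62308 (by decide +kernel)
theorem L62310 : W_12 (nat_lit 2) (nat_lit 0x2000040012000d00008000e0000000000000000000000) (nat_lit 0x0) (nat_lit 0x40002000100000000000000000000000000000000000) := D_12 (nat_lit 157) (nat_lit 140) (nat_lit 174) (nat_lit 5) (nat_lit 5) (nat_lit 5) (nat_lit 5) (nat_lit 5) (nat_lit 6) (by decide +kernel)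
theorem L62311 : W_12 (nat_lit 3) (nat_lit 0x2000000012000d00008000e0000000000000000000000) (nat_lit 0x0) (nat_lit 0x40006000100000000400000000000000000000000000) := T_12 (nat_lit 158) (nat_lit 106) (nat_lit 4) (nat_lit 5) (nat_lit 9) L62310 (by decide +kernel)
theorem L62312 : W_12 (nat_lit 4) (nat_lit 0x2000000012000d0000800060000000000000000000000) (nat_lit 0x0) (nat_lit 0x40006000100000000400080004000000000000000000) := T_12 (nat_lit 91) (nat_lit 74) (nat_lit 6) (nat_lit 5) (nat_lit 8) L62311 (by decide +kernel)
theorem L62313 : W_12 (nat_lit 5) (nat_lit 0x2000000012000d0000800040000000000000000000000) (nat_lit 0x0) (nat_lit 0x400060001000000004000a0005000000000000000000) := T_12 (nat_lit 89) (nat_lit 72) (nat_lit 4) (nat_lit 5) (nat_lit 8) L62312 (by decide +kernel)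
theorem L62314 : W_12 (nat_lit 4) (nat_lit 0x2000000012000d0000800040000000000000000000000) (nat_lit 0x0) (nat_lit 0x2000100008000000020003000080000000000000) := T_12 (nat_lit 140) (nat_lit 157) (nat_lit 5) (nat_lit 5) (nat_lit 5) L32345 (by decide +kernel)
theorem L62315 : W_12 (nat_lit 5) (nat_lit 0x2000000012000d00008000c0000000000000000000000) (nat_lit 0x0) (nat_lit 0x6000100000003700100000000000000000000000) := T_12 (nat_lit 140) (nat_lit 157) (nat_lit 5) (nat_lit 5) (nat_lit 5) L58595 (by decide +kernel)
theorem L62316 : W_12 (nat_lit 6) (nat_lit 0x2000000012000d0000800040000000000000000000000) (nat_lit 0x0) (nat_lit 0x6000100000003700180004000000000000000000) := T_12 (nat_lit 91) (nat_lit 74) (nat_lit 6) (nat_lit 5) (nat_lit 8) L62315 (by decide +kernel)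
theorem L62317 : W_12 (nat_lit 7) (nat_lit 0x2000000012000d0000800000000000000000000000000) (nat_lit 0x0) (nat_lit 0x400060001000080037001e0007000080000000000000) := Q_12 (nat_lit 90) (C_12 L62309 (C_12 L62313 (C_12 L62314 (C_12 L62316 N_12)))) (by decide +kernel)
theorem L62318 : W_12 (nat_lit 6) (nat_lit 0x2000000012000d0000800000000000000000000000000) (nat_lit 0x0) (nat_lit 0x800728039400000000000000000000000000) := T_12 (nat_lit 125) (nat_lit 106) (nat_lit 0) (nat_lit 8) (nat_lit 7) L61826 (by decide +kernel)
theorem L62319 : W_12 (nat_lit 6) (nat_lit 0x2000000012000d0000800000000000000000000000000) (nat_lit 0x0) (nat_lit 0x900728039000000000000000000000000000) := T_12 (nat_lit 125) (nat_lit 140) (nat_lit 1) (nat_lit 8) (nat_lit 7) L61826 (by decide +kernel)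
theorem L62320 : W_12 (nat_lit 8) (nat_lit 0x2000000012000c0000800000000000000000000000000) (nat_lit 0x0) (nat_lit 0x4000600090073803b7001e0007000080000000000000) := Q_12 (nat_lit 124) (C_12 L62306 (C_12 L62317 (C_12 L62318 (C_12 L62319 N_12)))) (by decide +kernel)
theorem L62321 : W_12 (nat_lit 2) (nat_lit 0x2000000012000e0000800000000000000000000000000) (nat_lit 0x0) (nat_lit 0x100010000400000000000000000000000000) := D_12 (nat_lit 124) (nat_lit 106) (nat_lit 140) (nat_lit 0) (nat_lit 8) (nat_lit 7) (nat_lit 1) (nat_lit 8) (nat_lit 7) (by decide +kernel)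
theorem L62322 : W_12 (nat_lit 2) (nat_lit 0x2000000012000e0000800000000000000000000000000) (nat_lit 0x0) (nat_lit 0x400100001000000000000000000000000000) := D_12 (nat_lit 128) (nat_lit 142) (nat_lit 108) (nat_lit 1) (nat_lit 9) (nat_lit 7) (nat_lit 0) (nat_lit 9) (nat_lit 7) (by decide +kernel)
theorem L62323 : W_12 (nat_lit 3) (nat_lit 0x2000000012000c0000800000000000000000000000000) (nat_lit 0x0) (nat_lit 0x500130001400000000000000000000000000) := Q_12 (nat_lit 125) (C_12 L62321 (C_12 L62322 N_12)) (by decide +kernel)
theorem L62324 : W_12 (nat_lit 2) (nat_lit 0x200000001a000c0000800000000000000000000000000) (nat_lit 0x0) (nat_lit 0x500100000000000000000000000000000000) := D_12 (nat_lit 142) (nat_lit 140) (nat_lit 128) (nat_lit 2) (nat_lit 4) (nat_lit 8) (nat_lit 2) (nat_lit 5) (nat_lit 8) (by decide +kernel)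
theorem L62325 : W_12 (nat_lit 2) (nat_lit 0x4000200024001e000d0000c00180000000000000000000000) (nat_lit 0x0) (nat_lit 0x240004000000000000000000) := D_12 (nat_lit 90) (nat_lit 93) (nat_lit 74) (nat_lit 1) (nat_lit 8) (nat_lit 5) (nat_lit 6) (nat_lit 5) (nat_lit 8) (by decide +kernel)
theorem L62326 : W_12 (nat_lit 3) (nat_lit 0x4000200024001e000d0000800180000000000000000000000) (nat_lit 0x0) (nat_lit 0x400260004000000000000000000) := T_12 (nat_lit 106) (nat_lit 89) (nat_lit 4) (nat_lit 5) (nat_lit 9) L62325 (by decide +kernel)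
theorem L62327 : W_12 (nat_lit 4) (nat_lit 0x4000200024001e000d0000800100000000000000000000000) (nat_lit 0x0) (nat_lit 0x14002e0004000000000000000000) := T_12 (nat_lit 91) (nat_lit 108) (nat_lit 6) (nat_lit 5) (nat_lit 9) L62326 (by decide +kernel)
theorem L62328 : W_12 (nat_lit 5) (nat_lit 0x4000200024001e000d0000800000000000000000000000000) (nat_lit 0x0) (nat_lit 0x34003e0004000000000000000000) := T_12 (nat_lit 92) (nat_lit 109) (nat_lit 7) (nat_lit 7) (nat_lit 5) L62327 (by decide +kernel)
theorem L62329 : W_12 (nat_lit 6) (nat_lit 0x4000200024001e000c0000800000000000000000000000000) (nat_lit 0x0) (nat_lit 0x180034003e0004000000000000000000) := T_12 (nat_lit 124) (nat_lit 123) (nat_lit 0) (nat_lit 8) (nat_lit 8) L62328 (by decide +kernel)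
theorem L62330 : W_12 (nat_lit 7) (nat_lit 0x4000200004001e000c0000800000000000000000000000000) (nat_lit 0x0) (nat_lit 0x600000000180034003e0004000000000000000000) := T_12 (nat_lit 161) (nat_lit 162) (nat_lit 3) (nat_lit 5) (nat_lit 8) L62329 (by decide +kernel)
theorem L62331 : W_12 (nat_lit 8) (nat_lit 0x4000200000001e000c0000800000000000000000000000000) (nat_lit 0x0) (nat_lit 0x660000000180034003e0004000000000000000000) := T_12 (nat_lit 158) (nat_lit 157) (nat_lit 1) (nat_lit 8) (nat_lit 8) L62330 (by decide +kernel)
theorem L62332 : W_12 (nat_lit 9) (nat_lit 0x4000200000001a000c0000800000000000000000000000000) (nat_lit 0x0) (nat_lit 0x660004001180034003e0004000000000000000000) := T_12 (nat_lit 142) (nat_lit 128) (nat_lit 2) (nat_lit 5) (nat_lit 8) L62331 (by decide +kernel)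
theorem L62333 : W_12 (nat_lit 10) (nat_lit 0x200000001a000c0000800000000000000000000000000) (nat_lit 0x0) (nat_lit 0x40000000760004001180034003e0004000000000000000000) := T_12 (nat_lit 194) (nat_lit 160) (nat_lit 6) (nat_lit 7) (nat_lit 11) L62332 (by decide +kernel)
theorem L62334 : W_12 (nat_lit 2) (nat_lit 0x200000001a000c0002800000000000000000000000000) (nat_lit 0x0) (nat_lit 0x20000000000000000100008000000000000000000) := D_12 (nat_lit 92) (nat_lit 75) (nat_lit 161) (nat_lit 7) (nat_lit 7) (nat_lit 4) (nat_lit 7) (nat_lit 7) (nat_lit 5) (by decide +kernel)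
theorem L62335 : W_12 (nat_lit 2) (nat_lit 0x4000200000001a000c0002c00180000000000000000000000) (nat_lit 0x0) (nat_lit 0x240010000000000000000000) := D_12 (nat_lit 93) (nat_lit 90) (nat_lit 76) (nat_lit 1) (nat_lit 8) (nat_lit 5) (nat_lit 6) (nat_lit 7) (nat_lit 8) (by decide +kernel)
theorem L62336 : W_12 (nat_lit 3) (nat_lit 0x4000200000001a000c0002c00100000000000000000000000) (nat_lit 0x0) (nat_lit 0x2c0014000000000000000000) := T_12 (nat_lit 91) (nat_lit 74) (nat_lit 4) (nat_lit 7) (nat_lit 8) L62335 (by decide +kernel)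
theorem L62337 : W_12 (nat_lit 4) (nat_lit 0x4000200000001a000c0002800100000000000000000000000) (nat_lit 0x0) (nat_lit 0x14002c0014000000000000000000) := T_12 (nat_lit 106) (nat_lit 108) (nat_lit 3) (nat_lit 4) (nat_lit 6) L62336 (by decide +kernel)
theorem L62338 : W_12 (nat_lit 5) (nat_lit 0x4000200000001a000c0002800000000000000000000000000) (nat_lit 0x0) (nat_lit 0x14003c001c000000000000000000) := T_12 (nat_lit 92) (nat_lit 75) (nat_lit 7) (nat_lit 7) (nat_lit 4) L62337 (by decide +kernel)
theorem L62339 : W_12 (nat_lit 6) (nat_lit 0x200000001a000c0002800000000000000000000000000) (nat_lit 0x0) (nat_lit 0x40000000100000000000014003c001c000000000000000000) := T_12 (nat_lit 194) (nat_lit 160) (nat_lit 6) (nat_lit 7) (nat_lit 11) L62338 (by decide +kernel)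
theorem L62340 : W_12 (nat_lit 2) (nat_lit 0x200000001a000c0003800000000000000000000000000) (nat_lit 0x0) (nat_lit 0x4000000010000000000000000080000000000000000000000) := D_12 (nat_lit 160) (nat_lit 194) (nat_lit 91) (nat_lit 6) (nat_lit 7) (nat_lit 11) (nat_lit 4) (nat_lit 7) (nat_lit 9) (by decide +kernel)
theorem L62341 : W_12 (nat_lit 3) (nat_lit 0x200000001a000c0002800000000000000000000000000) (nat_lit 0x0) (nat_lit 0x4000000010000000000001400080000000000000000000000) := T_12 (nat_lit 108) (nat_lit 106) (nat_lit 3) (nat_lit 4) (nat_lit 6) L62340 (by decide +kernel)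
theorem L62342 : W_12 (nat_lit 7) (nat_lit 0x200000001a000c0000800000000000000000000000000) (nat_lit 0x0) (nat_lit 0x40000000300000000000034003c001c000000000000000000) := Q_12 (nat_lit 109) (C_12 L62334 (C_12 L62339 (C_12 L62341 N_12))) (by decide +kernel)
theorem L62343 : W_12 (nat_lit 11) (nat_lit 0x2000000012000c0000800000000000000000000000000) (nat_lit 0x0) (nat_lit 0x4000000076000d001180034003e001c000000000000000000) := Q_12 (nat_lit 143) (C_12 L62324 (C_12 L62333 (C_12 L62342 N_12))) (by decide +kernel)
theorem L62344 : W_12 (nat_lit 8) (nat_lit 0x2000000012000c0000800000000000000000000000000) (nat_lit 0x0) (nat_lit 0x4000000030000d001000034003c001c000000000000000000) := Q_12 (nat_lit 143) (C_12 L62342 (C_12 L62324 N_12)) (by decide +kernel)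
theorem L62345 : W_12 (nat_lit 2) (nat_lit 0x2000000012001c0000800000000000000000000000000) (nat_lit 0x0) (nat_lit 0x400020001000000000000000000000000000) := D_12 (nat_lit 125) (nat_lit 108) (nat_lit 142) (nat_lit 0) (nat_lit 9) (nat_lit 7) (nat_lit 1) (nat_lit 9) (nat_lit 7) (by decide +kernel)
theorem L62346 : W_12 (nat_lit 2) (nat_lit 0x4000200000005a003c0012800000000000000000000000000) (nat_lit 0x0) (nat_lit 0x20000000000000000100008000000000000000000) := D_12 (nat_lit 92) (nat_lit 161) (nat_lit 75) (nat_lit 7) (nat_lit 7) (nat_lit 5) (nat_lit 7) (nat_lit 7) (nat_lit 4) (by decide +kernel)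
theorem L62347 : W_12 (nat_lit 3) (nat_lit 0x4000200000005a003c0010800000000000000000000000000) (nat_lit 0x0) (nat_lit 0x20000000000003000100008000000000000000000) := T_12 (nat_lit 109) (nat_lit 108) (nat_lit 0) (nat_lit 10) (nat_lit 7) L62346 (by decide +kernel)
theorem L62348 : W_12 (nat_lit 4) (nat_lit 0x4000200000005a003c0000800000000000000000000000000) (nat_lit 0x0) (nat_lit 0x20000000000033000100008000000000000000000) := T_12 (nat_lit 112) (nat_lit 113) (nat_lit 2) (nat_lit 7) (nat_lit 7) L62347 (by decide +kernel)
theorem L62349 : W_12 (nat_lit 5) (nat_lit 0x4000200000001a003c0000800000000000000000000000000) (nat_lit 0x0) (nat_lit 0x2000c000000033000100008000000000000000000) := T_12 (nat_lit 146) (nat_lit 147) (nat_lit 3) (nat_lit 7) (nat_lit 7) L62348 (by decide +kernel)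
theorem L62350 : W_12 (nat_lit 6) (nat_lit 0x200000001a003c0000800000000000000000000000000) (nat_lit 0x0) (nat_lit 0x400000003000c000000033000100008000000000000000000) := T_12 (nat_lit 194) (nat_lit 160) (nat_lit 6) (nat_lit 7) (nat_lit 11) L62349 (by decide +kernel)
theorem L62351 : W_12 (nat_lit 7) (nat_lit 0x200000001a001c0000800000000000000000000000000) (nat_lit 0x0) (nat_lit 0x400000003000c000600033000100008000000000000000000) := T_12 (nat_lit 129) (nat_lit 130) (nat_lit 1) (nat_lit 11) (nat_lit 7) L62350 (by decide +kernel)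
theorem L62352 : W_12 (nat_lit 8) (nat_lit 0x2000000012001c0000800000000000000000000000000) (nat_lit 0x0) (nat_lit 0x400000003000cc00600033000100008000000000000000000) := T_12 (nat_lit 143) (nat_lit 142) (nat_lit 2) (nat_lit 5) (nat_lit 8) L62351 (by decide +kernel)
theorem L62353 : W_12 (nat_lit 2) (nat_lit 0x2000000012001c0000800000000000000000000000000) (nat_lit 0x0) (nat_lit 0xc00020000000000000000000000000000000) := D_12 (nat_lit 142) (nat_lit 143) (nat_lit 125) (nat_lit 2) (nat_lit 5) (nat_lit 8) (nat_lit 1) (nat_lit 9) (nat_lit 7) (by decide +kernel)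
theorem L62354 : W_12 (nat_lit 5) (nat_lit 0x2000000012001e0000800000000000000000000000000) (nat_lit 0x0) (nat_lit 0x800618038400000000000000000000000000) := T_12 (nat_lit 124) (nat_lit 106) (nat_lit 0) (nat_lit 8) (nat_lit 7) L61825 (by decide +kernel)
theorem L62355 : W_12 (nat_lit 6) (nat_lit 0x2000000012001c0000800000000000000000000000000) (nat_lit 0x0) (nat_lit 0x800638039400000000000000000000000000) := T_12 (nat_lit 125) (nat_lit 108) (nat_lit 0) (nat_lit 9) (nat_lit 7) L62354 (by decide +kernel)
theorem L62356 : W_12 (nat_lit 9) (nat_lit 0x2000000012000c0000800000000000000000000000000) (nat_lit 0x0) (nat_lit 0x400000003000cc0073803b400100008000000000000000000) := Q_12 (nat_lit 128) (C_12 L62345 (C_12 L62352 (C_12 L62353 (C_12 L62355 N_12)))) (by decide +kernel)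
theorem L62357 : W_12 (nat_lit 2) (nat_lit 0x2000000016000c0000800000000000000000000000000) (nat_lit 0x0) (nat_lit 0x800120000000000000000000000000000000) := D_12 (nat_lit 128) (nat_lit 125) (nat_lit 143) (nat_lit 1) (nat_lit 9) (nat_lit 7) (nat_lit 2) (nat_lit 5) (nat_lit 8) (by decide +kernel)
theorem L62358 : W_12 (nat_lit 3) (nat_lit 0x2000000016000c0000800000000000000000000000000) (nat_lit 0x0) (nat_lit 0x100130000400000000000000000000000000) := T_12 (nat_lit 125) (nat_lit 128) (nat_lit 1) (nat_lit 9) (nat_lit 7) L62285 (by decide +kernel)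
theorem L62359 : W_12 (nat_lit 2) (nat_lit 0x2000000016000c0000800000000000000000000000000) (nat_lit 0x0) (nat_lit 0x900100000000000000000000000000000000) := D_12 (nat_lit 143) (nat_lit 128) (nat_lit 140) (nat_lit 2) (nat_lit 5) (nat_lit 8) (nat_lit 2) (nat_lit 4) (nat_lit 8) (by decide +kernel)
theorem L62360 : W_12 (nat_lit 2) (nat_lit 0x2000000017000c0000800000000000000000000000000) (nat_lit 0x0) (nat_lit 0x80030000000000000000000000000000000) := D_12 (nat_lit 125) (nat_lit 139) (nat_lit 124) (nat_lit 2) (nat_lit 3) (nat_lit 8) (nat_lit 1) (nat_lit 8) (nat_lit 7) (by decide +kernel)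
theorem L62361 : W_12 (nat_lit 3) (nat_lit 0x2000000016000c0000800000000000000000000000000) (nat_lit 0x0) (nat_lit 0x980030000000000000000000000000000000) := T_12 (nat_lit 140) (nat_lit 143) (nat_lit 2) (nat_lit 4) (nat_lit 8) L62360 (by decide +kernel)
theorem L62362 : W_12 (nat_lit 4) (nat_lit 0x2000000012000c0000800000000000000000000000000) (nat_lit 0x0) (nat_lit 0xd80130000400000000000000000000000000) := Q_12 (nat_lit 142) (C_12 L62357 (C_12 L62358 (C_12 L62359 (C_12 L62361 N_12)))) (by decide +kernel)
theorem L62363 : W_12 (nat_lit 2) (nat_lit 0x200000001b000e0000800000000000000000000000000) (nat_lit 0x0) (nat_lit 0x4000000010000000000001000000000000000000000000000) := D_12 (nat_lit 160) (nat_lit 108) (nat_lit 194) (nat_lit 4) (nat_lit 7) (nat_lit 10) (nat_lit 6) (nat_lit 7) (nat_lit 11) (by decide +kernel)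
theorem L62364 : W_12 (nat_lit 3) (nat_lit 0x200000001b000c0000800000000000000000000000000) (nat_lit 0x0) (nat_lit 0x4000000010000000030001000000000000000000000000000) := T_12 (nat_lit 125) (nat_lit 124) (nat_lit 1) (nat_lit 8) (nat_lit 7) L62363 (by decide +kernel)
theorem L62365 : W_12 (nat_lit 4) (nat_lit 0x200000001a000c0000800000000000000000000000000) (nat_lit 0x0) (nat_lit 0x4000000010000500030001000000000000000000000000000) := T_12 (nat_lit 140) (nat_lit 142) (nat_lit 2) (nat_lit 4) (nat_lit 8) L62364 (by decide +kernel)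
theorem L62366 : W_12 (nat_lit 2) (nat_lit 0x4000200000001b000d0000800040002000000000000000000) (nat_lit 0x0) (nat_lit 0x20001000080000000000000) := D_12 (nat_lit 72) (nat_lit 55) (nat_lit 89) (nat_lit 4) (nat_lit 5) (nat_lit 7) (nat_lit 4) (nat_lit 5) (nat_lit 8) (by decide +kernel)
theorem L62367 : W_12 (nat_lit 3) (nat_lit 0x4000200000001b000d0000800040000000000000000000000) (nat_lit 0x0) (nat_lit 0x8000000020003000080000000000000) := T_12 (nat_lit 73) (nat_lit 123) (nat_lit 5) (nat_lit 5) (nat_lit 4) L62366 (by decide +kernel)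
theorem L62368 : W_12 (nat_lit 4) (nat_lit 0x4000200000001b000d0000800000000000000000000000000) (nat_lit 0x0) (nat_lit 0x2000000008000000060003000080000000000000) := T_12 (nat_lit 90) (nat_lit 157) (nat_lit 5) (nat_lit 5) (nat_lit 5) L62367 (by decide +kernel)
theorem L62369 : W_12 (nat_lit 5) (nat_lit 0x4000200000001b000c0000800000000000000000000000000) (nat_lit 0x0) (nat_lit 0x2000000038000000060003000080000000000000) := T_12 (nat_lit 124) (nat_lit 125) (nat_lit 1) (nat_lit 8) (nat_lit 7) L62368 (by decide +kernel)
theorem L62370 : W_12 (nat_lit 6) (nat_lit 0x4000200000001a000c0000800000000000000000000000000) (nat_lit 0x0) (nat_lit 0x2000500038000000060003000080000000000000) := T_12 (nat_lit 140) (nat_lit 142) (nat_lit 2) (nat_lit 4) (nat_lit 8) L62369 (by decide +kernel)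
theorem L62371 : W_12 (nat_lit 7) (nat_lit 0x200000001a000c0000800000000000000000000000000) (nat_lit 0x0) (nat_lit 0x4000000012000500038000000060003000080000000000000) := T_12 (nat_lit 194) (nat_lit 160) (nat_lit 6) (nat_lit 7) (nat_lit 11) L62370 (by decide +kernel)
theorem L62372 : W_12 (nat_lit 2) (nat_lit 0x200000001b000d0000800040002000000000000000000) (nat_lit 0x0) (nat_lit 0x20001000080000000000000) := D_12 (nat_lit 72) (nat_lit 55) (nat_lit 89) (nat_lit 4) (nat_lit 5) (nat_lit 7) (nat_lit 4) (nat_lit 5) (nat_lit 8) (by decide +kernel)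
theorem L62373 : W_12 (nat_lit 3) (nat_lit 0x200000001b000d0000800040000000000000000000000) (nat_lit 0x0) (nat_lit 0x8000000020003000080000000000000) := T_12 (nat_lit 73) (nat_lit 123) (nat_lit 5) (nat_lit 5) (nat_lit 4) L62372 (by decide +kernel)
theorem L62374 : W_12 (nat_lit 4) (nat_lit 0x200000001b000d0000800000000000000000000000000) (nat_lit 0x0) (nat_lit 0x2000000008000000060003000080000000000000) := T_12 (nat_lit 90) (nat_lit 157) (nat_lit 5) (nat_lit 5) (nat_lit 5) L62373 (by decide +kernel)
theorem L62375 : W_12 (nat_lit 5) (nat_lit 0x200000001b000c0000800000000000000000000000000) (nat_lit 0x0) (nat_lit 0x2000000038000000060003000080000000000000) := T_12 (nat_lit 124) (nat_lit 125) (nat_lit 1) (nat_lit 8) (nat_lit 7) L62374 (by decide +kernel)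
theorem L62376 : W_12 (nat_lit 6) (nat_lit 0x200000001a000c0000800000000000000000000000000) (nat_lit 0x0) (nat_lit 0x2000500038000000060003000080000000000000) := T_12 (nat_lit 140) (nat_lit 142) (nat_lit 2) (nat_lit 4) (nat_lit 8) L62375 (by decide +kernel)
theorem L62377 : W_12 (nat_lit 8) (nat_lit 0x2000000012000c0000800000000000000000000000000) (nat_lit 0x0) (nat_lit 0x4000000032000d000380034003e001f000080000000000000) := Q_12 (nat_lit 143) (C_12 L62342 (C_12 L62365 (C_12 L62371 (C_12 L62376 N_12)))) (by decide +kernel)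
theorem L62378 : W_12 (nat_lit 5) (nat_lit 0x2000000012001e0000800000000000000000000000000) (nat_lit 0x0) (nat_lit 0x900618038000000000000000000000000000) := T_12 (nat_lit 124) (nat_lit 140) (nat_lit 1) (nat_lit 8) (nat_lit 7) L61825 (by decide +kernel)
theorem L62379 : W_12 (nat_lit 6) (nat_lit 0x2000000012001c0000800000000000000000000000000) (nat_lit 0x0) (nat_lit 0x900638039000000000000000000000000000) := T_12 (nat_lit 125) (nat_lit 108) (nat_lit 0) (nat_lit 9) (nat_lit 7) L62378 (by decide +kernel)
theorem L62380 : W_12 (nat_lit 9) (nat_lit 0x2000000012000c0000800000000000000000000000000) (nat_lit 0x0) (nat_lit 0x400000003000cd0073803b000100008000000000000000000) := Q_12 (nat_lit 128) (C_12 L62353 (C_12 L62345 (C_12 L62352 (C_12 L62379 N_12)))) (by decide +kernel)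
theorem L62381 : W_12 (nat_lit 12) (nat_lit 0x200000001200080000800000000000000000000000000) (nat_lit 0x0) (nat_lit 0x400004007600cd8077803b7003e001f000080000000000000) := Q_12 (nat_lit 126) (C_12 L62320 (C_12 L62323 (C_12 L62343 (C_12 L62344 (C_12 L62356 (C_12 L62362 (C_12 L62377 (C_12 L62380 N_12)))))))) (by decide +kernel)
theorem L62382 : W_12 (nat_lit 15) (nat_lit 0x200000001200080000800000000000000000000000000) (nat_lit 0x0) (nat_lit 0x48000f803fc00de007f003780ff803fc03b8001c000a00000) := Q_12 (nat_lit 124) (C_12 L61896 (C_12 L61911 (C_12 L62192 (C_12 L61784 (C_12 L61772 (C_12 L61797 (C_12 L61813 (C_12 L61906 (C_12 L61910 N_12))))))))) (by decide +kernel)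
theorem L62383 : W_12 (nat_lit 2) (nat_lit 0x200014001e00080000800000000000000000000000000) (nat_lit 0x0) (nat_lit 0x60000100000000000000000000000000000000000) := D_12 (nat_lit 161) (nat_lit 162) (nat_lit 140) (nat_lit 3) (nat_lit 5) (nat_lit 8) (nat_lit 3) (nat_lit 4) (nat_lit 8) (by decide +kernel)
theorem L62384 : W_12 (nat_lit 3) (nat_lit 0x200004001e00080000800000000000000000000000000) (nat_lit 0x0) (nat_lit 0x4000000070000100000000000000000000000000000000000) := T_12 (nat_lit 160) (nat_lit 194) (nat_lit 6) (nat_lit 7) (nat_lit 11) L62383 (by decide +kernel)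
theorem L62385 : W_12 (nat_lit 4) (nat_lit 0x200000001e00080000800000000000000000000000000) (nat_lit 0x0) (nat_lit 0x4000000076000100000000000000000000000000000000000) := T_12 (nat_lit 158) (nat_lit 157) (nat_lit 1) (nat_lit 8) (nat_lit 8) L62384 (by decide +kernel)
theorem L62386 : W_12 (nat_lit 5) (nat_lit 0x200000001600080000800000000000000000000000000) (nat_lit 0x0) (nat_lit 0x4000000076000900100000000000000000000000000000000) := T_12 (nat_lit 143) (nat_lit 128) (nat_lit 2) (nat_lit 5) (nat_lit 8) L62385 (by decide +kernel)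
theorem L62387 : W_12 (nat_lit 2) (nat_lit 0x200000001f00080000800000000000000000000000000) (nat_lit 0x0) (nat_lit 0x7000000000000000000000000000000000000000) := D_12 (nat_lit 157) (nat_lit 156) (nat_lit 158) (nat_lit 1) (nat_lit 7) (nat_lit 8) (nat_lit 1) (nat_lit 8) (nat_lit 8) (by decide +kernel)
theorem L62388 : W_12 (nat_lit 3) (nat_lit 0x200000001e00080000800000000000000000000000000) (nat_lit 0x0) (nat_lit 0x7000100040000000000000000000000000000000) := T_12 (nat_lit 140) (nat_lit 126) (nat_lit 2) (nat_lit 4) (nat_lit 8) L62387 (by decide +kernel)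
theorem L62389 : W_12 (nat_lit 4) (nat_lit 0x200000001600080000800000000000000000000000000) (nat_lit 0x0) (nat_lit 0x7000900140000000000000000000000000000000) := T_12 (nat_lit 143) (nat_lit 128) (nat_lit 2) (nat_lit 5) (nat_lit 8) L62388 (by decide +kernel)
theorem L62390 : W_12 (nat_lit 2) (nat_lit 0x28003c001e000b0000800000000000000000000000000) (nat_lit 0x0) (nat_lit 0x40000400020000000000000000000000) := D_12 (nat_lit 106) (nat_lit 89) (nat_lit 126) (nat_lit 4) (nat_lit 5) (nat_lit 9) (nat_lit 0) (nat_lit 8) (nat_lit 7) (by decide +kernel)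
theorem L62391 : W_12 (nat_lit 3) (nat_lit 0x28003c001e000a0000800000000000000000000000000) (nat_lit 0x0) (nat_lit 0x50000400060000000000000000000000) := T_12 (nat_lit 124) (nat_lit 90) (nat_lit 7) (nat_lit 5) (nat_lit 5) L62390 (by decide +kernel)
theorem L62392 : W_12 (nat_lit 4) (nat_lit 0x280034001e000a0000800000000000000000000000000) (nat_lit 0x0) (nat_lit 0x40008000000050000400060000000000000000000000) := T_12 (nat_lit 159) (nat_lit 174) (nat_lit 1) (nat_lit 8) (nat_lit 9) L62391 (by decide +kernel)
theorem L62393 : W_12 (nat_lit 5) (nat_lit 0x200034001e000a0000800000000000000000000000000) (nat_lit 0x0) (nat_lit 0x10000c0008000000050000400060000000000000000000000) := T_12 (nat_lit 175) (nat_lit 192) (nat_lit 6) (nat_lit 5) (nat_lit 11) L62392 (by decide +kernel)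
theorem L62394 : W_12 (nat_lit 6) (nat_lit 0x200030001e000a0000800000000000000000000000000) (nat_lit 0x0) (nat_lit 0x10000c000e000000050000400060000000000000000000000) := T_12 (nat_lit 158) (nat_lit 157) (nat_lit 1) (nat_lit 8) (nat_lit 8) L62393 (by decide +kernel)
theorem L62395 : W_12 (nat_lit 7) (nat_lit 0x200010001e000a0000800000000000000000000000000) (nat_lit 0x0) (nat_lit 0x10000c006e000000050000400060000000000000000000000) := T_12 (nat_lit 161) (nat_lit 162) (nat_lit 3) (nat_lit 5) (nat_lit 8) L62394 (by decide +kernel)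
theorem L62396 : W_12 (nat_lit 8) (nat_lit 0x200000001e000a0000800000000000000000000000000) (nat_lit 0x0) (nat_lit 0x50000c007e000000050000400060000000000000000000000) := T_12 (nat_lit 160) (nat_lit 194) (nat_lit 6) (nat_lit 7) (nat_lit 11) L62395 (by decide +kernel)
theorem L62397 : W_12 (nat_lit 2) (nat_lit 0x200010001e000a0000800000000000000000000000000) (nat_lit 0x0) (nat_lit 0x40001000080000000000000000000000) := D_12 (nat_lit 108) (nat_lit 126) (nat_lit 91) (nat_lit 4) (nat_lit 7) (nat_lit 10) (nat_lit 7) (nat_lit 6) (nat_lit 5) (by decide +kernel)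
theorem L62398 : W_12 (nat_lit 3) (nat_lit 0x200000001e000a0000800000000000000000000000000) (nat_lit 0x0) (nat_lit 0x4000000010000000040001000080000000000000000000000) := T_12 (nat_lit 160) (nat_lit 194) (nat_lit 6) (nat_lit 7) (nat_lit 11) L62397 (by decide +kernel)
theorem L62399 : W_12 (nat_lit 3) (nat_lit 0x200024001e000a0000800000000000000000000000000) (nat_lit 0x0) (nat_lit 0x800080000000000010000c0000000000000000000000) := T_12 (nat_lit 108) (nat_lit 91) (nat_lit 5) (nat_lit 6) (nat_lit 5) L62010 (by decide +kernel)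
theorem L62400 : W_12 (nat_lit 4) (nat_lit 0x200020001e000a0000800000000000000000000000000) (nat_lit 0x0) (nat_lit 0x8000e0000000000010000c0000000000000000000000) := T_12 (nat_lit 158) (nat_lit 157) (nat_lit 1) (nat_lit 8) (nat_lit 8) L62399 (by decide +kernel)
theorem L62401 : W_12 (nat_lit 5) (nat_lit 0x200000001e000a0000800000000000000000000000000) (nat_lit 0x0) (nat_lit 0x8006e0000000000010000c0000000000000000000000) := T_12 (nat_lit 161) (nat_lit 162) (nat_lit 3) (nat_lit 5) (nat_lit 8) L62400 (by decide +kernel)
theorem L62402 : W_12 (nat_lit 9) (nat_lit 0x200000001e00080000800000000000000000000000000) (nat_lit 0x0) (nat_lit 0x50000c007e0000000700014000e0000000000000000000000) := Q_12 (nat_lit 125) (C_12 L62231 (C_12 L62396 (C_12 L62398 (C_12 L62401 N_12)))) (by decide +kernel)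
theorem L62403 : W_12 (nat_lit 10) (nat_lit 0x200000001600080000800000000000000000000000000) (nat_lit 0x0) (nat_lit 0x50000c007f0009000700014000e0000000000000000000000) := Q_12 (nat_lit 143) (C_12 L62302 (C_12 L62388 (C_12 L62385 (C_12 L62402 N_12)))) (by decide +kernel)
theorem L62404 : W_12 (nat_lit 11) (nat_lit 0x200000001200080000800000000000000000000000000) (nat_lit 0x0) (nat_lit 0x50000c007f000d001700036003e000a000100000000000000) := Q_12 (nat_lit 142) (C_12 L62297 (C_12 L62303 (C_12 L62386 (C_12 L62234 (C_12 L62389 (C_12 L62403 N_12)))))) (by decide +kernel)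
theorem L62405 : W_12 (nat_lit 2) (nat_lit 0x2000000012007e0010800000000000000000000000000) (nat_lit 0x0) (nat_lit 0x1c000000000000000000000000000000000000) := D_12 (nat_lit 147) (nat_lit 146) (nat_lit 148) (nat_lit 3) (nat_lit 7) (nat_lit 7) (nat_lit 3) (nat_lit 8) (nat_lit 7) (by decide +kernel)
theorem L62406 : W_12 (nat_lit 3) (nat_lit 0x2000000012003e0010800000000000000000000000000) (nat_lit 0x0) (nat_lit 0x1c800400000000000000000000000000000000) := T_12 (nat_lit 130) (nat_lit 143) (nat_lit 1) (nat_lit 11) (nat_lit 7) L62405 (by decide +kernel)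
theorem L62407 : W_12 (nat_lit 4) (nat_lit 0x2000000012001e0010800000000000000000000000000) (nat_lit 0x0) (nat_lit 0x1c800600020000000000000000000000000000) := T_12 (nat_lit 129) (nat_lit 113) (nat_lit 2) (nat_lit 7) (nat_lit 7) L62406 (by decide +kernel)
theorem L62408 : W_12 (nat_lit 5) (nat_lit 0x2000000012001e0000800000000000000000000000000) (nat_lit 0x0) (nat_lit 0x1c800600038000000000000000000000000000) := T_12 (nat_lit 112) (nat_lit 111) (nat_lit 2) (nat_lit 6) (nat_lit 7) L62407 (by decide +kernel)
theorem L62409 : W_12 (nat_lit 6) (nat_lit 0x2000000012000e0000800000000000000000000000000) (nat_lit 0x0) (nat_lit 0x1c800700039000000000000000000000000000) := T_12 (nat_lit 128) (nat_lit 108) (nat_lit 0) (nat_lit 9) (nat_lit 7) L62408 (by decide +kernel)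
theorem L62410 : W_12 (nat_lit 7) (nat_lit 0x2000000012000c0000800000000000000000000000000) (nat_lit 0x0) (nat_lit 0x1c900730039400000000000000000000000000) := Q_12 (nat_lit 125) (C_12 L62321 (C_12 L62409 N_12)) (by decide +kernel)
theorem L62411 : W_12 (nat_lit 2) (nat_lit 0x4000200024001e000d0002800000000000000000000000000) (nat_lit 0x0) (nat_lit 0x1400080000000000000000000000) := D_12 (nat_lit 108) (nat_lit 91) (nat_lit 106) (nat_lit 6) (nat_lit 5) (nat_lit 9) (nat_lit 3) (nat_lit 4) (nat_lit 6) (by decide +kernel)
theorem L62412 : W_12 (nat_lit 3) (nat_lit 0x4000200024001e000d0000800000000000000000000000000) (nat_lit 0x0) (nat_lit 0x3400180000000000000000000000) := T_12 (nat_lit 109) (nat_lit 92) (nat_lit 7) (nat_lit 7) (nat_lit 5) L62411 (by decide +kernel)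
theorem L62413 : W_12 (nat_lit 4) (nat_lit 0x4000200024001e000c0000800000000000000000000000000) (nat_lit 0x0) (nat_lit 0x18003400180000000000000000000000) := T_12 (nat_lit 124) (nat_lit 123) (nat_lit 0) (nat_lit 8) (nat_lit 8) L62412 (by decide +kernel)
theorem L62414 : W_12 (nat_lit 5) (nat_lit 0x4000200004001e000c0000800000000000000000000000000) (nat_lit 0x0) (nat_lit 0x60000000018003400180000000000000000000000) := T_12 (nat_lit 161) (nat_lit 162) (nat_lit 3) (nat_lit 5) (nat_lit 8) L62413 (by decide +kernel)
theorem L62415 : W_12 (nat_lit 6) (nat_lit 0x4000200000001e000c0000800000000000000000000000000) (nat_lit 0x0) (nat_lit 0x66000000018003400180000000000000000000000) := T_12 (nat_lit 158) (nat_lit 157) (nat_lit 1) (nat_lit 8) (nat_lit 8) L62414 (by decide +kernel)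
theorem L62416 : W_12 (nat_lit 7) (nat_lit 0x4000200000001a000c0000800000000000000000000000000) (nat_lit 0x0) (nat_lit 0x66000400118003400180000000000000000000000) := T_12 (nat_lit 142) (nat_lit 128) (nat_lit 2) (nat_lit 5) (nat_lit 8) L62415 (by decide +kernel)
theorem L62417 : W_12 (nat_lit 8) (nat_lit 0x200000001a000c0000800000000000000000000000000) (nat_lit 0x0) (nat_lit 0x4000000076000400118003400180000000000000000000000) := T_12 (nat_lit 194) (nat_lit 160) (nat_lit 6) (nat_lit 7) (nat_lit 11) L62416 (by decide +kernel)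
theorem L62418 : W_12 (nat_lit 4) (nat_lit 0x200000001a000c0000800000000000000000000000000) (nat_lit 0x0) (nat_lit 0x4000000030000000000003400180008000000000000000000) := Q_12 (nat_lit 109) (C_12 L62341 (C_12 L62334 N_12)) (by decide +kernel)
theorem L62419 : W_12 (nat_lit 9) (nat_lit 0x2000000012000c0000800000000000000000000000000) (nat_lit 0x0) (nat_lit 0x4000000076000d00118003400180008000000000000000000) := Q_12 (nat_lit 143) (C_12 L62324 (C_12 L62417 (C_12 L62418 N_12))) (by decide +kernel)
theorem L62420 : W_12 (nat_lit 5) (nat_lit 0x2000000012000c0000800000000000000000000000000) (nat_lit 0x0) (nat_lit 0x4000000030000d00100003400180008000000000000000000) := Q_12 (nat_lit 143) (C_12 L62418 (C_12 L62324 N_12)) (by decide +kernel)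
theorem L62421 : W_12 (nat_lit 2) (nat_lit 0x4000200020001e000d0000c00000000000000000000000000) (nat_lit 0x0) (nat_lit 0x6000000000000000020000000000000000000000) := D_12 (nat_lit 158) (nat_lit 157) (nat_lit 89) (nat_lit 1) (nat_lit 8) (nat_lit 8) (nat_lit 4) (nat_lit 5) (nat_lit 9) (by decide +kernel)
theorem L62422 : W_12 (nat_lit 3) (nat_lit 0x4000200020001e000d0000800000000000000000000000000) (nat_lit 0x0) (nat_lit 0x6000000020000400020000000000000000000000) := T_12 (nat_lit 106) (nat_lit 125) (nat_lit 0) (nat_lit 8) (nat_lit 7) L62421 (by decide +kernel)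
theorem L62423 : W_12 (nat_lit 4) (nat_lit 0x4000200020001e000c0000800000000000000000000000000) (nat_lit 0x0) (nat_lit 0x6000000038000400020000000000000000000000) := T_12 (nat_lit 124) (nat_lit 123) (nat_lit 0) (nat_lit 8) (nat_lit 8) L62422 (by decide +kernel)
theorem L62424 : W_12 (nat_lit 5) (nat_lit 0x4000200000001e000c0000800000000000000000000000000) (nat_lit 0x0) (nat_lit 0x66000000038000400020000000000000000000000) := T_12 (nat_lit 161) (nat_lit 162) (nat_lit 3) (nat_lit 5) (nat_lit 8) L62423 (by decide +kernel)
theorem L62425 : W_12 (nat_lit 6) (nat_lit 0x200000001e000c0000800000000000000000000000000) (nat_lit 0x0) (nat_lit 0x4000000076000000038000400020000000000000000000000) := T_12 (nat_lit 194) (nat_lit 160) (nat_lit 6) (nat_lit 7) (nat_lit 11) L62424 (by decide +kernel)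
theorem L62426 : W_12 (nat_lit 7) (nat_lit 0x200000001a000c0000800000000000000000000000000) (nat_lit 0x0) (nat_lit 0x4000000076000500038000400020000000000000000000000) := T_12 (nat_lit 142) (nat_lit 140) (nat_lit 2) (nat_lit 4) (nat_lit 8) L62425 (by decide +kernel)
theorem L62427 : W_12 (nat_lit 2) (nat_lit 0x200024001e000d0000800000000000000000000000000) (nat_lit 0x0) (nat_lit 0x20000400020000000000000000000000) := D_12 (nat_lit 106) (nat_lit 125) (nat_lit 89) (nat_lit 0) (nat_lit 8) (nat_lit 7) (nat_lit 4) (nat_lit 5) (nat_lit 9) (by decide +kernel)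
theorem L62428 : W_12 (nat_lit 3) (nat_lit 0x200024001e000c0000800000000000000000000000000) (nat_lit 0x0) (nat_lit 0x38000400020000000000000000000000) := T_12 (nat_lit 124) (nat_lit 123) (nat_lit 0) (nat_lit 8) (nat_lit 8) L62427 (by decide +kernel)
theorem L62429 : W_12 (nat_lit 4) (nat_lit 0x200004001e000c0000800000000000000000000000000) (nat_lit 0x0) (nat_lit 0x60000000038000400020000000000000000000000) := T_12 (nat_lit 161) (nat_lit 162) (nat_lit 3) (nat_lit 5) (nat_lit 8) L62428 (by decide +kernel)
theorem L62430 : W_12 (nat_lit 5) (nat_lit 0x200000001e000c0000800000000000000000000000000) (nat_lit 0x0) (nat_lit 0x66000000038000400020000000000000000000000) := T_12 (nat_lit 158) (nat_lit 157) (nat_lit 1) (nat_lit 8) (nat_lit 8) L62429 (by decide +kernel)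
theorem L62431 : W_12 (nat_lit 6) (nat_lit 0x200000001a000c0000800000000000000000000000000) (nat_lit 0x0) (nat_lit 0x66000500038000400020000000000000000000000) := T_12 (nat_lit 142) (nat_lit 140) (nat_lit 2) (nat_lit 4) (nat_lit 8) L62430 (by decide +kernel)
theorem L62432 : W_12 (nat_lit 8) (nat_lit 0x2000000012000c0000800000000000000000000000000) (nat_lit 0x0) (nat_lit 0x4000000076000d000380034001a0008000000000000000000) := Q_12 (nat_lit 143) (C_12 L62418 (C_12 L62365 (C_12 L62426 (C_12 L62431 N_12)))) (by decide +kernel)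
theorem L62433 : W_12 (nat_lit 10) (nat_lit 0x200000001200080000800000000000000000000000000) (nat_lit 0x0) (nat_lit 0x400000007601cd8077803b4001a0008000000000000000000) := Q_12 (nat_lit 126) (C_12 L62410 (C_12 L62323 (C_12 L62419 (C_12 L62420 (C_12 L62356 (C_12 L62362 (C_12 L62432 (C_12 L62380 N_12)))))))) (by decide +kernel)
theorem L62434 : W_12 (nat_lit 2) (nat_lit 0x4000200000001b000900008000c0002000000000000000000) (nat_lit 0x0) (nat_lit 0x20001000080000000000000) := D_12 (nat_lit 72) (nat_lit 55) (nat_lit 89) (nat_lit 4) (nat_lit 5) (nat_lit 7) (nat_lit 4) (nat_lit 5) (nat_lit 8) (by decide +kernel)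
theorem L62435 : W_12 (nat_lit 3) (nat_lit 0x4000200000001b000900008000c0000000000000000000000) (nat_lit 0x0) (nat_lit 0x8000000020003000080000000000000) := T_12 (nat_lit 73) (nat_lit 123) (nat_lit 5) (nat_lit 5) (nat_lit 4) L62434 (by decide +kernel)
theorem L62436 : W_12 (nat_lit 4) (nat_lit 0x4000200000001a000900008000c0000000000000000000000) (nat_lit 0x0) (nat_lit 0x2000100008000000020003000080000000000000) := T_12 (nat_lit 140) (nat_lit 157) (nat_lit 5) (nat_lit 5) (nat_lit 5) L62435 (by decide +kernel)
theorem L62437 : W_12 (nat_lit 5) (nat_lit 0x4000200000001a00090000800040000000000000000000000) (nat_lit 0x0) (nat_lit 0x20001000080000000a0007000080000000000000) := T_12 (nat_lit 91) (nat_lit 74) (nat_lit 6) (nat_lit 5) (nat_lit 8) L62436 (by decide +kernel)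
theorem L62438 : W_12 (nat_lit 6) (nat_lit 0x200000001a00090000800040000000000000000000000) (nat_lit 0x0) (nat_lit 0x40000000120001000080000000a0007000080000000000000) := T_12 (nat_lit 194) (nat_lit 160) (nat_lit 6) (nat_lit 7) (nat_lit 11) L62437 (by decide +kernel)
theorem L62439 : W_12 (nat_lit 2) (nat_lit 0x200000001a00090000800040005000000000000000000) (nat_lit 0x0) (nat_lit 0x2000280000000000000) := D_12 (nat_lit 73) (nat_lit 55) (nat_lit 57) (nat_lit 4) (nat_lit 5) (nat_lit 7) (nat_lit 6) (nat_lit 5) (nat_lit 7) (by decide +kernel)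
theorem L62440 : W_12 (nat_lit 3) (nat_lit 0x200000001a00090000800040001000000000000000000) (nat_lit 0x0) (nat_lit 0x80006000280000000000000) := T_12 (nat_lit 74) (nat_lit 91) (nat_lit 6) (nat_lit 5) (nat_lit 8) L62439 (by decide +kernel)
theorem L62441 : W_12 (nat_lit 4) (nat_lit 0x200000001a00090000800040000000000000000000000) (nat_lit 0x0) (nat_lit 0xa0007000280000000000000) := T_12 (nat_lit 72) (nat_lit 89) (nat_lit 4) (nat_lit 5) (nat_lit 8) L62440 (by decide +kernel)
theorem L62442 : W_12 (nat_lit 2) (nat_lit 0x200010001b000d00028000e0000000000000000000000) (nat_lit 0x0) (nat_lit 0x20000000000000000100008000000000000000000) := D_12 (nat_lit 92) (nat_lit 161) (nat_lit 75) (nat_lit 7) (nat_lit 7) (nat_lit 5) (nat_lit 7) (nat_lit 7) (nat_lit 4) (by decide +kernel)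
theorem L62443 : W_12 (nat_lit 3) (nat_lit 0x200010001b000d00008000e0000000000000000000000) (nat_lit 0x0) (nat_lit 0x20000000000003000100008000000000000000000) := T_12 (nat_lit 109) (nat_lit 108) (nat_lit 4) (nat_lit 7) (nat_lit 9) L62442 (by decide +kernel)
theorem L62444 : W_12 (nat_lit 4) (nat_lit 0x200000001b000d00008000e0000000000000000000000) (nat_lit 0x0) (nat_lit 0x4000000030000000000003000100008000000000000000000) := T_12 (nat_lit 160) (nat_lit 194) (nat_lit 6) (nat_lit 7) (nat_lit 11) L62443 (by decide +kernel)
theorem L62445 : W_12 (nat_lit 5) (nat_lit 0x200000001b000d00008000c0000000000000000000000) (nat_lit 0x0) (nat_lit 0x4000000030000000000003000120009000000000000000000) := T_12 (nat_lit 89) (nat_lit 72) (nat_lit 4) (nat_lit 5) (nat_lit 8) L62444 (by decide +kernel)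
theorem L62446 : W_12 (nat_lit 6) (nat_lit 0x200000001b000900008000c0000000000000000000000) (nat_lit 0x0) (nat_lit 0x4000000030000000060003000120009000000000000000000) := T_12 (nat_lit 126) (nat_lit 125) (nat_lit 1) (nat_lit 8) (nat_lit 7) L62445 (by decide +kernel)
theorem L62447 : W_12 (nat_lit 7) (nat_lit 0x200000001a000900008000c0000000000000000000000) (nat_lit 0x0) (nat_lit 0x4000000032000100060003000120009000000000000000000) := T_12 (nat_lit 140) (nat_lit 157) (nat_lit 5) (nat_lit 5) (nat_lit 5) L62446 (by decide +kernel)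
theorem L62448 : W_12 (nat_lit 8) (nat_lit 0x200000001a00090000800040000000000000000000000) (nat_lit 0x0) (nat_lit 0x40000000320001000600030001a000d000000000000000000) := T_12 (nat_lit 91) (nat_lit 74) (nat_lit 6) (nat_lit 5) (nat_lit 8) L62447 (by decide +kernel)
theorem L62449 : W_12 (nat_lit 2) (nat_lit 0x4000200000001b00090000800040002000000000000000000) (nat_lit 0x0) (nat_lit 0x80004000200000000000000) := D_12 (nat_lit 74) (nat_lit 91) (nat_lit 57) (nat_lit 6) (nat_lit 5) (nat_lit 8) (nat_lit 6) (nat_lit 5) (nat_lit 7) (by decide +kernel)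
theorem L62450 : W_12 (nat_lit 3) (nat_lit 0x4000200000001b00090000800040000000000000000000000) (nat_lit 0x0) (nat_lit 0x8000000080006000200000000000000) := T_12 (nat_lit 73) (nat_lit 123) (nat_lit 5) (nat_lit 5) (nat_lit 4) L62449 (by decide +kernel)
theorem L62451 : W_12 (nat_lit 4) (nat_lit 0x4000200000001a00090000800040000000000000000000000) (nat_lit 0x0) (nat_lit 0x2000100008000000080006000200000000000000) := T_12 (nat_lit 140) (nat_lit 157) (nat_lit 5) (nat_lit 5) (nat_lit 5) L62450 (by decide +kernel)
theorem L62452 : W_12 (nat_lit 5) (nat_lit 0x200000001a00090000800040000000000000000000000) (nat_lit 0x0) (nat_lit 0x4000000012000100008000000080006000200000000000000) := T_12 (nat_lit 194) (nat_lit 160) (nat_lit 6) (nat_lit 7) (nat_lit 11) L62451 (by decide +kernel)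
theorem L62453 : W_12 (nat_lit 2) (nat_lit 0x4000200000001b000b0000800060002000200000000000000) (nat_lit 0x0) (nat_lit 0x1000000000000100010000000000) := D_12 (nat_lit 56) (nat_lit 108) (nat_lit 40) (nat_lit 7) (nat_lit 5) (nat_lit 3) (nat_lit 6) (nat_lit 5) (nat_lit 6) (by decide +kernel)
theorem L62454 : W_12 (nat_lit 3) (nat_lit 0x4000200000001b000b0000800060002000000000000000000) (nat_lit 0x0) (nat_lit 0x1000000004000300010000000000) := T_12 (nat_lit 57) (nat_lit 74) (nat_lit 6) (nat_lit 5) (nat_lit 7) L62453 (by decide +kernel)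
theorem L62455 : W_12 (nat_lit 4) (nat_lit 0x4000200000001b00090000800060002000000000000000000) (nat_lit 0x0) (nat_lit 0x60001000000004000300010000000000) := T_12 (nat_lit 125) (nat_lit 126) (nat_lit 1) (nat_lit 8) (nat_lit 7) L62454 (by decide +kernel)
theorem L62456 : W_12 (nat_lit 5) (nat_lit 0x4000200000001b00090000800060000000000000000000000) (nat_lit 0x0) (nat_lit 0x68001000000006000300010000000000) := T_12 (nat_lit 73) (nat_lit 123) (nat_lit 5) (nat_lit 5) (nat_lit 4) L62455 (by decide +kernel)
theorem L62457 : W_12 (nat_lit 6) (nat_lit 0x4000200000001a00090000800060000000000000000000000) (nat_lit 0x0) (nat_lit 0x2000100068001000000006000300010000000000) := T_12 (nat_lit 140) (nat_lit 157) (nat_lit 5) (nat_lit 5) (nat_lit 5) L62456 (by decide +kernel)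
theorem L62458 : W_12 (nat_lit 7) (nat_lit 0x200000001a00090000800060000000000000000000000) (nat_lit 0x0) (nat_lit 0x4000000012000100068001000000006000300010000000000) := T_12 (nat_lit 194) (nat_lit 160) (nat_lit 6) (nat_lit 7) (nat_lit 11) L62457 (by decide +kernel)
theorem L62459 : W_12 (nat_lit 8) (nat_lit 0x200000001a00090000800040000000000000000000000) (nat_lit 0x0) (nat_lit 0x4000000012000100068001000020007000300010000000000) := T_12 (nat_lit 89) (nat_lit 72) (nat_lit 4) (nat_lit 5) (nat_lit 8) L62458 (by decide +kernel)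
theorem L62460 : W_12 (nat_lit 2) (nat_lit 0x200000001b00090000800040002000000000000000000) (nat_lit 0x0) (nat_lit 0x20001000080000000000000) := D_12 (nat_lit 72) (nat_lit 55) (nat_lit 89) (nat_lit 4) (nat_lit 5) (nat_lit 7) (nat_lit 4) (nat_lit 5) (nat_lit 8) (by decide +kernel)
theorem L62461 : W_12 (nat_lit 3) (nat_lit 0x200000001b00090000800040000000000000000000000) (nat_lit 0x0) (nat_lit 0x8000000020003000080000000000000) := T_12 (nat_lit 73) (nat_lit 123) (nat_lit 5) (nat_lit 5) (nat_lit 4) L62460 (by decide +kernel)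
theorem L62462 : W_12 (nat_lit 4) (nat_lit 0x200000001a00090000800040000000000000000000000) (nat_lit 0x0) (nat_lit 0x2000100008000000020003000080000000000000) := T_12 (nat_lit 140) (nat_lit 157) (nat_lit 5) (nat_lit 5) (nat_lit 5) L62461 (by decide +kernel)
theorem L62463 : W_12 (nat_lit 9) (nat_lit 0x200000001a00090000800000000000000000000000000) (nat_lit 0x0) (nat_lit 0x40000000320001000680030001e000f000380010000000000) := Q_12 (nat_lit 90) (C_12 L62438 (C_12 L62441 (C_12 L62448 (C_12 L62452 (C_12 L62459 (C_12 L62462 N_12)))))) (by decide +kernel)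
theorem L62464 : W_12 (nat_lit 2) (nat_lit 0x4000200000001b000900018000e0000000000000000000000) (nat_lit 0x0) (nat_lit 0x2000018000000000000000000000) := D_12 (nat_lit 88) (nat_lit 109) (nat_lit 87) (nat_lit 3) (nat_lit 3) (nat_lit 5) (nat_lit 3) (nat_lit 2) (nat_lit 5) (by decide +kernel)
theorem L62465 : W_12 (nat_lit 3) (nat_lit 0x4000200000001b000900008000e0000000000000000000000) (nat_lit 0x0) (nat_lit 0x4000000000003000018000000000000000000000) := T_12 (nat_lit 108) (nat_lit 158) (nat_lit 6) (nat_lit 5) (nat_lit 9) L62464 (by decide +kernel)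
theorem L62466 : W_12 (nat_lit 4) (nat_lit 0x4000200000001b000900008000c0000000000000000000000) (nat_lit 0x0) (nat_lit 0x4000000000003000038001000000000000000000) := T_12 (nat_lit 89) (nat_lit 72) (nat_lit 4) (nat_lit 5) (nat_lit 8) L62465 (by decide +kernel)
theorem L62467 : W_12 (nat_lit 5) (nat_lit 0x4000200000001b00090000800040000000000000000000000) (nat_lit 0x0) (nat_lit 0x40000000000030000b8005000000000000000000) := T_12 (nat_lit 91) (nat_lit 74) (nat_lit 6) (nat_lit 5) (nat_lit 8) L62466 (by decide +kernel)
theorem L62468 : W_12 (nat_lit 6) (nat_lit 0x4000200000001a00090000800040000000000000000000000) (nat_lit 0x0) (nat_lit 0x60001000000030000b8005000000000000000000) := T_12 (nat_lit 140) (nat_lit 157) (nat_lit 5) (nat_lit 5) (nat_lit 5) L62467 (by decide +kernel)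
theorem L62469 : W_12 (nat_lit 7) (nat_lit 0x200000001a00090000800040000000000000000000000) (nat_lit 0x0) (nat_lit 0x40000000160001000000030000b8005000000000000000000) := T_12 (nat_lit 194) (nat_lit 160) (nat_lit 6) (nat_lit 7) (nat_lit 11) L62468 (by decide +kernel)
theorem L62470 : W_12 (nat_lit 8) (nat_lit 0x200000001a00090000800000000000000000000000000) (nat_lit 0x0) (nat_lit 0x40000000160001000080030000f8007000280000000000000) := Q_12 (nat_lit 90) (C_12 L62462 (C_12 L62441 (C_12 L62469 (C_12 L62452 N_12)))) (by decide +kernel)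
theorem L62471 : W_12 (nat_lit 2) (nat_lit 0x4000200006001a000b0001800000000000000000000000000) (nat_lit 0x0) (nat_lit 0x148000000000000000000000000000000) := D_12 (nat_lit 126) (nat_lit 123) (nat_lit 128) (nat_lit 3) (nat_lit 4) (nat_lit 7) (nat_lit 0) (nat_lit 9) (nat_lit 7) (by decide +kernel)
theorem L62472 : W_12 (nat_lit 3) (nat_lit 0x4000200006001a00090001800000000000000000000000000) (nat_lit 0x0) (nat_lit 0x80000000000168000000000000000000000000000000) := T_12 (nat_lit 125) (nat_lit 175) (nat_lit 6) (nat_lit 5) (nat_lit 10) L62471 (by decide +kernel)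
theorem L62473 : W_12 (nat_lit 4) (nat_lit 0x4000200004001a00090001800000000000000000000000000) (nat_lit 0x0) (nat_lit 0xc0002000000168000000000000000000000000000000) := T_12 (nat_lit 157) (nat_lit 174) (nat_lit 5) (nat_lit 5) (nat_lit 6) L62472 (by decide +kernel)
theorem L62474 : W_12 (nat_lit 5) (nat_lit 0x4000200004001a00090000800000000000000000000000000) (nat_lit 0x0) (nat_lit 0xc0002000000168001000080000000000000000000000) := T_12 (nat_lit 108) (nat_lit 91) (nat_lit 6) (nat_lit 5) (nat_lit 9) L62473 (by decide +kernel)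
theorem L62475 : W_12 (nat_lit 6) (nat_lit 0x200004001a00090000800000000000000000000000000) (nat_lit 0x0) (nat_lit 0x40000c0012000000168001000080000000000000000000000) := T_12 (nat_lit 194) (nat_lit 160) (nat_lit 6) (nat_lit 7) (nat_lit 11) L62474 (by decide +kernel)
theorem L62476 : W_12 (nat_lit 2) (nat_lit 0x200006001a000b0001800000000000000000000000000) (nat_lit 0x0) (nat_lit 0x148000000000000000000000000000000) := D_12 (nat_lit 126) (nat_lit 123) (nat_lit 128) (nat_lit 3) (nat_lit 4) (nat_lit 7) (nat_lit 0) (nat_lit 9) (nat_lit 7) (by decide +kernel)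
theorem L62477 : W_12 (nat_lit 3) (nat_lit 0x200006001a00090001800000000000000000000000000) (nat_lit 0x0) (nat_lit 0x80000000000168000000000000000000000000000000) := T_12 (nat_lit 125) (nat_lit 175) (nat_lit 6) (nat_lit 5) (nat_lit 10) L62476 (by decide +kernel)
theorem L62478 : W_12 (nat_lit 4) (nat_lit 0x200004001a00090001800000000000000000000000000) (nat_lit 0x0) (nat_lit 0xc0002000000168000000000000000000000000000000) := T_12 (nat_lit 157) (nat_lit 174) (nat_lit 5) (nat_lit 5) (nat_lit 6) L62477 (by decide +kernel)
theorem L62479 : W_12 (nat_lit 5) (nat_lit 0x200004001a00090000800000000000000000000000000) (nat_lit 0x0) (nat_lit 0xc0002000000168001000080000000000000000000000) := T_12 (nat_lit 108) (nat_lit 91) (nat_lit 6) (nat_lit 5) (nat_lit 9) L62478 (by decide +kernel)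
theorem L62480 : W_12 (nat_lit 2) (nat_lit 0x4000200004001a000b0001800000000000000000000000000) (nat_lit 0x0) (nat_lit 0x148000000000000000000000000000000) := D_12 (nat_lit 126) (nat_lit 123) (nat_lit 128) (nat_lit 3) (nat_lit 4) (nat_lit 7) (nat_lit 0) (nat_lit 9) (nat_lit 7) (by decide +kernel)
theorem L62481 : W_12 (nat_lit 3) (nat_lit 0x4000200004001a00090001800000000000000000000000000) (nat_lit 0x0) (nat_lit 0x80000000000168000000000000000000000000000000) := T_12 (nat_lit 125) (nat_lit 175) (nat_lit 6) (nat_lit 5) (nat_lit 10) L62480 (by decide +kernel)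
theorem L62482 : W_12 (nat_lit 4) (nat_lit 0x200004001a00090001800000000000000000000000000) (nat_lit 0x0) (nat_lit 0x4000080010000000168000000000000000000000000000000) := T_12 (nat_lit 194) (nat_lit 160) (nat_lit 6) (nat_lit 7) (nat_lit 11) L62481 (by decide +kernel)
theorem L62483 : W_12 (nat_lit 5) (nat_lit 0x200004001a00090000800000000000000000000000000) (nat_lit 0x0) (nat_lit 0x4000080010000000168001000080000000000000000000000) := T_12 (nat_lit 108) (nat_lit 91) (nat_lit 6) (nat_lit 5) (nat_lit 9) L62482 (by decide +kernel)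
theorem L62484 : W_12 (nat_lit 7) (nat_lit 0x200000001a00090000800000000000000000000000000) (nat_lit 0x0) (nat_lit 0x40000c001e000000168001000080000000000000000000000) := Q_12 (nat_lit 158) (C_12 L62140 (C_12 L62475 (C_12 L62479 (C_12 L62483 N_12)))) (by decide +kernel)
theorem L62485 : W_12 (nat_lit 2) (nat_lit 0x200012001a00090000800040000000000000000000000) (nat_lit 0x0) (nat_lit 0x4000c000000000000000000000000000000000000000) := D_12 (nat_lit 158) (nat_lit 159) (nat_lit 174) (nat_lit 2) (nat_lit 4) (nat_lit 9) (nat_lit 5) (nat_lit 5) (nat_lit 6) (by decide +kernel)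
theorem L62486 : W_12 (nat_lit 3) (nat_lit 0x200010001a00090000800040000000000000000000000) (nat_lit 0x0) (nat_lit 0x4000e000100000000000000000000000000000000000) := T_12 (nat_lit 157) (nat_lit 140) (nat_lit 5) (nat_lit 5) (nat_lit 5) L62485 (by decide +kernel)
theorem L62487 : W_12 (nat_lit 4) (nat_lit 0x200000001a00090000800040000000000000000000000) (nat_lit 0x0) (nat_lit 0x400004001e000100000000000000000000000000000000000) := T_12 (nat_lit 160) (nat_lit 194) (nat_lit 6) (nat_lit 7) (nat_lit 11) L62486 (by decide +kernel)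
theorem L62488 : W_12 (nat_lit 5) (nat_lit 0x200000001a00090000800000000000000000000000000) (nat_lit 0x0) (nat_lit 0x400004001e0001000080000000e0007000280000000000000) := Q_12 (nat_lit 90) (C_12 L62462 (C_12 L62441 (C_12 L62487 N_12))) (by decide +kernel)
theorem L62489 : W_12 (nat_lit 2) (nat_lit 0x200000001b000d00018000e0000000000000000000000) (nat_lit 0x0) (nat_lit 0x2000018000000000000000000000) := D_12 (nat_lit 88) (nat_lit 109) (nat_lit 87) (nat_lit 3) (nat_lit 3) (nat_lit 5) (nat_lit 3) (nat_lit 2) (nat_lit 5) (by decide +kernel)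
theorem L62490 : W_12 (nat_lit 3) (nat_lit 0x200000001b000d00008000e0000000000000000000000) (nat_lit 0x0) (nat_lit 0x4000000000003000018000000000000000000000) := T_12 (nat_lit 108) (nat_lit 158) (nat_lit 6) (nat_lit 5) (nat_lit 9) L62489 (by decide +kernel)
theorem L62491 : W_12 (nat_lit 4) (nat_lit 0x200000001b000d0000800060000000000000000000000) (nat_lit 0x0) (nat_lit 0x4000000000003000098004000000000000000000) := T_12 (nat_lit 91) (nat_lit 74) (nat_lit 6) (nat_lit 5) (nat_lit 8) L62490 (by decide +kernel)
theorem L62492 : W_12 (nat_lit 5) (nat_lit 0x200000001b00090000800060000000000000000000000) (nat_lit 0x0) (nat_lit 0x4000000060003000098004000000000000000000) := T_12 (nat_lit 126) (nat_lit 125) (nat_lit 1) (nat_lit 8) (nat_lit 7) L62491 (by decide +kernel)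
theorem L62493 : W_12 (nat_lit 6) (nat_lit 0x200000001a00090000800060000000000000000000000) (nat_lit 0x0) (nat_lit 0x6000100060003000098004000000000000000000) := T_12 (nat_lit 140) (nat_lit 157) (nat_lit 5) (nat_lit 5) (nat_lit 5) L62492 (by decide +kernel)
theorem L62494 : W_12 (nat_lit 7) (nat_lit 0x200000001a00090000800040000000000000000000000) (nat_lit 0x0) (nat_lit 0x60001000600030000b8005000000000000000000) := T_12 (nat_lit 89) (nat_lit 72) (nat_lit 4) (nat_lit 5) (nat_lit 8) L62493 (by decide +kernel)
theorem L62495 : W_12 (nat_lit 2) (nat_lit 0x200000001b000b00008000c0002000000000000000000) (nat_lit 0x0) (nat_lit 0x4000000000001000000000000100000000000000) := D_12 (nat_lit 108) (nat_lit 158) (nat_lit 56) (nat_lit 6) (nat_lit 5) (nat_lit 9) (nat_lit 7) (nat_lit 5) (nat_lit 3) (by decide +kernel)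
theorem L62496 : W_12 (nat_lit 3) (nat_lit 0x200000001b000900008000c0002000000000000000000) (nat_lit 0x0) (nat_lit 0x4000000060001000000000000100000000000000) := T_12 (nat_lit 125) (nat_lit 126) (nat_lit 1) (nat_lit 8) (nat_lit 7) L62495 (by decide +kernel)
theorem L62497 : W_12 (nat_lit 4) (nat_lit 0x200000001b000900008000c0000000000000000000000) (nat_lit 0x0) (nat_lit 0x4000000068001000000002000100000000000000) := T_12 (nat_lit 73) (nat_lit 123) (nat_lit 5) (nat_lit 5) (nat_lit 4) L62496 (by decide +kernel)
theorem L62498 : W_12 (nat_lit 5) (nat_lit 0x200000001a000900008000c0000000000000000000000) (nat_lit 0x0) (nat_lit 0x6000100068001000000002000100000000000000) := T_12 (nat_lit 140) (nat_lit 157) (nat_lit 5) (nat_lit 5) (nat_lit 5) L62497 (by decide +kernel)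
theorem L62499 : W_12 (nat_lit 6) (nat_lit 0x200000001a00090000800040000000000000000000000) (nat_lit 0x0) (nat_lit 0x6000100068001000080006000100000000000000) := T_12 (nat_lit 91) (nat_lit 74) (nat_lit 6) (nat_lit 5) (nat_lit 8) L62498 (by decide +kernel)
theorem L62500 : W_12 (nat_lit 8) (nat_lit 0x200000001a00090000800000000000000000000000000) (nat_lit 0x0) (nat_lit 0x60001000680030000f8007000380000000000000) := Q_12 (nat_lit 90) (C_12 L62462 (C_12 L62441 (C_12 L62494 (C_12 L62499 N_12)))) (by decide +kernel)
theorem L62501 : W_12 (nat_lit 8) (nat_lit 0x200000001a00090000800000000000000000000000000) (nat_lit 0x0) (nat_lit 0x400004001e0001000600030000f8007000280000000000000) := Q_12 (nat_lit 90) (C_12 L62487 (C_12 L62494 (C_12 L62441 N_12))) (by decide +kernel)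
theorem L62502 : W_12 (nat_lit 2) (nat_lit 0x4000200000001a000b8001800040007000000000000000000) (nat_lit 0x0) (nat_lit 0x6002000000000000000000000000000) := D_12 (nat_lit 122) (nat_lit 121) (nat_lit 109) (nat_lit 2) (nat_lit 2) (nat_lit 7) (nat_lit 2) (nat_lit 3) (nat_lit 7) (by decide +kernel)
theorem L62503 : W_12 (nat_lit 3) (nat_lit 0x4000200000001a000b8000800040007000000000000000000) (nat_lit 0x0) (nat_lit 0x6003000000000000100000000000000) := T_12 (nat_lit 108) (nat_lit 56) (nat_lit 7) (nat_lit 5) (nat_lit 3) L62502 (by decide +kernel)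
theorem L62504 : W_12 (nat_lit 4) (nat_lit 0x4000200000001a000b8000800040003000000000000000000) (nat_lit 0x0) (nat_lit 0x6003000000004000300000000000000) := T_12 (nat_lit 74) (nat_lit 57) (nat_lit 6) (nat_lit 5) (nat_lit 7) L62503 (by decide +kernel)
theorem L62505 : W_12 (nat_lit 5) (nat_lit 0x4000200000001a00098000800040003000000000000000000) (nat_lit 0x0) (nat_lit 0x66003000000004000300000000000000) := T_12 (nat_lit 125) (nat_lit 126) (nat_lit 3) (nat_lit 4) (nat_lit 7) L62504 (by decide +kernel)
theorem L62506 : W_12 (nat_lit 6) (nat_lit 0x4000200000001a00090000800040003000000000000000000) (nat_lit 0x0) (nat_lit 0x10006e003000000004000300000000000000) := T_12 (nat_lit 123) (nat_lit 140) (nat_lit 5) (nat_lit 5) (nat_lit 4) L62505 (by decide +kernel)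
theorem L62507 : W_12 (nat_lit 7) (nat_lit 0x4000200000001a00090000800040001000000000000000000) (nat_lit 0x0) (nat_lit 0x10006e003000000006000380000000000000) := T_12 (nat_lit 73) (nat_lit 55) (nat_lit 4) (nat_lit 5) (nat_lit 7) L62506 (by decide +kernel)
theorem L62508 : W_12 (nat_lit 8) (nat_lit 0x4000200000001a00090000800040000000000000000000000) (nat_lit 0x0) (nat_lit 0x10006e003000020007000380000000000000) := T_12 (nat_lit 72) (nat_lit 89) (nat_lit 4) (nat_lit 5) (nat_lit 8) L62507 (by decide +kernel)
theorem L62509 : W_12 (nat_lit 9) (nat_lit 0x200000001a00090000800040000000000000000000000) (nat_lit 0x0) (nat_lit 0x400000001000010006e003000020007000380000000000000) := T_12 (nat_lit 194) (nat_lit 160) (nat_lit 6) (nat_lit 7) (nat_lit 11) L62508 (by decide +kernel)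
theorem L62510 : W_12 (nat_lit 2) (nat_lit 0x4000200000001a000900018000e0000000000000000000000) (nat_lit 0x0) (nat_lit 0x2000018000000000000000000000) := D_12 (nat_lit 88) (nat_lit 109) (nat_lit 87) (nat_lit 3) (nat_lit 3) (nat_lit 5) (nat_lit 3) (nat_lit 2) (nat_lit 5) (by decide +kernel)
theorem L62511 : W_12 (nat_lit 3) (nat_lit 0x4000200000001a000900008000e0000000000000000000000) (nat_lit 0x0) (nat_lit 0x4000000000003000018000000000000000000000) := T_12 (nat_lit 108) (nat_lit 158) (nat_lit 6) (nat_lit 5) (nat_lit 9) L62510 (by decide +kernel)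
theorem L62512 : W_12 (nat_lit 4) (nat_lit 0x200000001a000900008000e0000000000000000000000) (nat_lit 0x0) (nat_lit 0x4000000014000000000003000018000000000000000000000) := T_12 (nat_lit 194) (nat_lit 160) (nat_lit 6) (nat_lit 7) (nat_lit 11) L62511 (by decide +kernel)
theorem L62513 : W_12 (nat_lit 5) (nat_lit 0x200000001a00090000800060000000000000000000000) (nat_lit 0x0) (nat_lit 0x4000000014000000000003000098004000000000000000000) := T_12 (nat_lit 91) (nat_lit 74) (nat_lit 6) (nat_lit 5) (nat_lit 8) L62512 (by decide +kernel)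
theorem L62514 : W_12 (nat_lit 6) (nat_lit 0x200000001a00090000800040000000000000000000000) (nat_lit 0x0) (nat_lit 0x40000000140000000000030000b8005000000000000000000) := T_12 (nat_lit 89) (nat_lit 72) (nat_lit 4) (nat_lit 5) (nat_lit 8) L62513 (by decide +kernel)
theorem L62515 : W_12 (nat_lit 2) (nat_lit 0x200010001a000900018000c0000000000000000000000) (nat_lit 0x0) (nat_lit 0x60002000000000000000000000000000) := D_12 (nat_lit 126) (nat_lit 125) (nat_lit 109) (nat_lit 4) (nat_lit 7) (nat_lit 10) (nat_lit 4) (nat_lit 7) (nat_lit 9) (by decide +kernel)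
theorem L62516 : W_12 (nat_lit 3) (nat_lit 0x200010001a000900008000c0000000000000000000000) (nat_lit 0x0) (nat_lit 0x4000000060003000000000000000000000000000) := T_12 (nat_lit 108) (nat_lit 158) (nat_lit 6) (nat_lit 5) (nat_lit 9) L62515 (by decide +kernel)
theorem L62517 : W_12 (nat_lit 4) (nat_lit 0x200000001a000900008000c0000000000000000000000) (nat_lit 0x0) (nat_lit 0x4000000014000000060003000000000000000000000000000) := T_12 (nat_lit 160) (nat_lit 194) (nat_lit 6) (nat_lit 7) (nat_lit 11) L62516 (by decide +kernel)
theorem L62518 : W_12 (nat_lit 5) (nat_lit 0x200000001a00090000800040000000000000000000000) (nat_lit 0x0) (nat_lit 0x4000000014000000060003000080004000000000000000000) := T_12 (nat_lit 91) (nat_lit 74) (nat_lit 6) (nat_lit 5) (nat_lit 8) L62517 (by decide +kernel)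
theorem L62519 : W_12 (nat_lit 2) (nat_lit 0x4000200000001a000b8001800040003000000000000000000) (nat_lit 0x0) (nat_lit 0x80004000000000000000080000000000000000000000) := D_12 (nat_lit 158) (nat_lit 175) (nat_lit 91) (nat_lit 6) (nat_lit 5) (nat_lit 10) (nat_lit 6) (nat_lit 5) (nat_lit 9) (by decide +kernel)
theorem L62520 : W_12 (nat_lit 3) (nat_lit 0x4000200000001a000b8000800040003000000000000000000) (nat_lit 0x0) (nat_lit 0x80004000000000001000080000000100000000000000) := T_12 (nat_lit 108) (nat_lit 56) (nat_lit 7) (nat_lit 5) (nat_lit 3) L62519 (by decide +kernel)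
theorem L62521 : W_12 (nat_lit 4) (nat_lit 0x4000200000001a00098000800040003000000000000000000) (nat_lit 0x0) (nat_lit 0x80004000000060001000080000000100000000000000) := T_12 (nat_lit 125) (nat_lit 126) (nat_lit 3) (nat_lit 4) (nat_lit 7) L62520 (by decide +kernel)
theorem L62522 : W_12 (nat_lit 5) (nat_lit 0x4000200000001a00090000800040003000000000000000000) (nat_lit 0x0) (nat_lit 0x80004000100068001000080000000100000000000000) := T_12 (nat_lit 123) (nat_lit 140) (nat_lit 5) (nat_lit 5) (nat_lit 4) L62521 (by decide +kernel)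
theorem L62523 : W_12 (nat_lit 6) (nat_lit 0x4000200000001a00090000800040001000000000000000000) (nat_lit 0x0) (nat_lit 0x80004000100068001000080002000180000000000000) := T_12 (nat_lit 73) (nat_lit 55) (nat_lit 4) (nat_lit 5) (nat_lit 7) L62522 (by decide +kernel)
theorem L62524 : W_12 (nat_lit 7) (nat_lit 0x200000001a00090000800040001000000000000000000) (nat_lit 0x0) (nat_lit 0x4000080014000100068001000080002000180000000000000) := T_12 (nat_lit 194) (nat_lit 160) (nat_lit 6) (nat_lit 7) (nat_lit 11) L62523 (by decide +kernel)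
theorem L62525 : W_12 (nat_lit 8) (nat_lit 0x200000001a00090000800040000000000000000000000) (nat_lit 0x0) (nat_lit 0x40000800140001000680010000a0003000180000000000000) := T_12 (nat_lit 72) (nat_lit 89) (nat_lit 4) (nat_lit 5) (nat_lit 8) L62524 (by decide +kernel)
theorem L62526 : W_12 (nat_lit 10) (nat_lit 0x200000001a00090000800000000000000000000000000) (nat_lit 0x0) (nat_lit 0x400008001400010006e0030000f8007000380000000000000) := Q_12 (nat_lit 90) (C_12 L62509 (C_12 L62441 (C_12 L62514 (C_12 L62518 (C_12 L62525 N_12))))) (by decide +kernel)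
theorem L62527 : W_12 (nat_lit 2) (nat_lit 0x4000240002001a00090000800000000000000000000000000) (nat_lit 0x0) (nat_lit 0x100008000000040000000000000000000000) := D_12 (nat_lit 140) (nat_lit 90) (nat_lit 123) (nat_lit 5) (nat_lit 5) (nat_lit 5) (nat_lit 6) (nat_lit 4) (nat_lit 10) (by decide +kernel)
theorem L62528 : W_12 (nat_lit 3) (nat_lit 0x4000200002001a00090000800000000000000000000000000) (nat_lit 0x0) (nat_lit 0x40004000100008000000040000000000000000000000) := T_12 (nat_lit 174) (nat_lit 158) (nat_lit 5) (nat_lit 5) (nat_lit 6) L62527 (by decide +kernel)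
theorem L62529 : W_12 (nat_lit 4) (nat_lit 0x200002001a00090000800000000000000000000000000) (nat_lit 0x0) (nat_lit 0x4000040014000100008000000040000000000000000000000) := T_12 (nat_lit 194) (nat_lit 160) (nat_lit 6) (nat_lit 7) (nat_lit 11) L62528 (by decide +kernel)
theorem L62530 : W_12 (nat_lit 2) (nat_lit 0x200012001a00090000800000000000000000000000000) (nat_lit 0x0) (nat_lit 0x4000c000000000000000000000000000000000000000) := D_12 (nat_lit 158) (nat_lit 174) (nat_lit 159) (nat_lit 5) (nat_lit 5) (nat_lit 6) (nat_lit 2) (nat_lit 4) (nat_lit 9) (by decide +kernel)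
theorem L62531 : W_12 (nat_lit 3) (nat_lit 0x200002001a00090000800000000000000000000000000) (nat_lit 0x0) (nat_lit 0x400004001c000000000000000000000000000000000000000) := T_12 (nat_lit 160) (nat_lit 194) (nat_lit 6) (nat_lit 7) (nat_lit 11) L62530 (by decide +kernel)
theorem L62532 : W_12 (nat_lit 2) (nat_lit 0x200002001b00090000800000000000000000000000000) (nat_lit 0x0) (nat_lit 0x800040000000000008000000000000000000000000000000) := D_12 (nat_lit 174) (nat_lit 123) (nat_lit 191) (nat_lit 6) (nat_lit 4) (nat_lit 10) (nat_lit 6) (nat_lit 4) (nat_lit 11) (by decide +kernel)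
theorem L62533 : W_12 (nat_lit 3) (nat_lit 0x200002001a00090000800000000000000000000000000) (nat_lit 0x0) (nat_lit 0x800040000000100008000000040000000000000000000000) := T_12 (nat_lit 140) (nat_lit 90) (nat_lit 5) (nat_lit 5) (nat_lit 5) L62532 (by decide +kernel)
theorem L62534 : W_12 (nat_lit 2) (nat_lit 0x280016001b400b0000800000000000000000000000000) (nat_lit 0x0) (nat_lit 0x20001000000000000000008000000000000000000000000000000) := D_12 (nat_lit 192) (nat_lit 209) (nat_lit 123) (nat_lit 4) (nat_lit 5) (nat_lit 12) (nat_lit 4) (nat_lit 5) (nat_lit 11) (by decide +kernel)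
theorem L62535 : W_12 (nat_lit 3) (nat_lit 0x200016001b400b0000800000000000000000000000000) (nat_lit 0x0) (nat_lit 0x20001000080000000000008001000000000000000000000000000) := T_12 (nat_lit 175) (nat_lit 108) (nat_lit 6) (nat_lit 5) (nat_lit 10) L62534 (by decide +kernel)
theorem L62536 : W_12 (nat_lit 4) (nat_lit 0x200016001b000b0000800000000000000000000000000) (nat_lit 0x0) (nat_lit 0x200010000800000000c0008001000000000000000000000000000) := T_12 (nat_lit 138) (nat_lit 139) (nat_lit 2) (nat_lit 2) (nat_lit 8) L62535 (by decide +kernel)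
theorem L62537 : W_12 (nat_lit 5) (nat_lit 0x200016001b00090000800000000000000000000000000) (nat_lit 0x0) (nat_lit 0x200010000800000000c0068001000000000000000000000000000) := T_12 (nat_lit 125) (nat_lit 126) (nat_lit 1) (nat_lit 8) (nat_lit 7) L62536 (by decide +kernel)
theorem L62538 : W_12 (nat_lit 6) (nat_lit 0x200012001b00090000800000000000000000000000000) (nat_lit 0x0) (nat_lit 0x2000100008000c0000c0068001000000000000000000000000000) := T_12 (nat_lit 158) (nat_lit 159) (nat_lit 2) (nat_lit 4) (nat_lit 9) L62537 (by decide +kernel)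
theorem L62539 : W_12 (nat_lit 7) (nat_lit 0x200012001a00090000800000000000000000000000000) (nat_lit 0x0) (nat_lit 0x2000100008000c0001c0068001000040000000000000000000000) := T_12 (nat_lit 140) (nat_lit 90) (nat_lit 5) (nat_lit 5) (nat_lit 5) L62538 (by decide +kernel)
theorem L62540 : W_12 (nat_lit 8) (nat_lit 0x200002001a00090000800000000000000000000000000) (nat_lit 0x0) (nat_lit 0x2000500008001c0001c0068001000040000000000000000000000) := T_12 (nat_lit 160) (nat_lit 194) (nat_lit 6) (nat_lit 7) (nat_lit 11) L62539 (by decide +kernel)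
theorem L62541 : W_12 (nat_lit 9) (nat_lit 0x200000001a00090000800000000000000000000000000) (nat_lit 0x0) (nat_lit 0x200058000c001e0001c0068001000040000000000000000000000) := Q_12 (nat_lit 157) (C_12 L62529 (C_12 L62531 (C_12 L62533 (C_12 L62540 N_12)))) (by decide +kernel)
theorem L62542 : W_12 (nat_lit 11) (nat_lit 0x200000001a00080000800000000000000000000000000) (nat_lit 0x0) (nat_lit 0x200058000c003e0001c017e0030001f800f000380010000000000) := Q_12 (nat_lit 124) (C_12 L62463 (C_12 L62470 (C_12 L62484 (C_12 L62488 (C_12 L62500 (C_12 L62501 (C_12 L62526 (C_12 L62541 N_12)))))))) (by decide +kernel)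
theorem L62543 : W_12 (nat_lit 2) (nat_lit 0x4000200000001f00080000800000000000000000000000000) (nat_lit 0x0) (nat_lit 0x7000000000000000000000000000000000000000) := D_12 (nat_lit 157) (nat_lit 156) (nat_lit 158) (nat_lit 1) (nat_lit 7) (nat_lit 8) (nat_lit 1) (nat_lit 8) (nat_lit 8) (by decide +kernel)
theorem L62544 : W_12 (nat_lit 3) (nat_lit 0x4000200000001e00080000800000000000000000000000000) (nat_lit 0x0) (nat_lit 0x7000100040000000000000000000000000000000) := T_12 (nat_lit 140) (nat_lit 126) (nat_lit 2) (nat_lit 4) (nat_lit 8) L62543 (by decide +kernel)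
theorem L62545 : W_12 (nat_lit 4) (nat_lit 0x4000200000001a00080000800000000000000000000000000) (nat_lit 0x0) (nat_lit 0x7000500140000000000000000000000000000000) := T_12 (nat_lit 142) (nat_lit 128) (nat_lit 2) (nat_lit 5) (nat_lit 8) L62544 (by decide +kernel)
theorem L62546 : W_12 (nat_lit 5) (nat_lit 0x200000001a00080000800000000000000000000000000) (nat_lit 0x0) (nat_lit 0x4000000017000500140000000000000000000000000000000) := T_12 (nat_lit 194) (nat_lit 160) (nat_lit 6) (nat_lit 7) (nat_lit 11) L62545 (by decide +kernel)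
theorem L62547 : W_12 (nat_lit 5) (nat_lit 0x200000001a00080000800000000000000000000000000) (nat_lit 0x0) (nat_lit 0x4000000076000500100000000000000000000000000000000) := T_12 (nat_lit 142) (nat_lit 128) (nat_lit 2) (nat_lit 5) (nat_lit 8) L62385 (by decide +kernel)
theorem L62548 : W_12 (nat_lit 7) (nat_lit 0x200000001a00080000800000000000000000000000000) (nat_lit 0x0) (nat_lit 0x40000000180004001380000000c0006000200000000000000) := T_12 (nat_lit 142) (nat_lit 128) (nat_lit 2) (nat_lit 5) (nat_lit 8) L62249 (by decide +kernel)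
theorem L62549 : W_12 (nat_lit 4) (nat_lit 0x200000001a00080000800000000000000000000000000) (nat_lit 0x0) (nat_lit 0x7000500140000000000000000000000000000000) := T_12 (nat_lit 142) (nat_lit 128) (nat_lit 2) (nat_lit 5) (nat_lit 8) L62388 (by decide +kernel)
theorem L62550 : W_12 (nat_lit 7) (nat_lit 0x200000001a00080000800000000000000000000000000) (nat_lit 0x0) (nat_lit 0x400000007f0005000780000000c0006000200000000000000) := Q_12 (nat_lit 142) (C_12 L62302 (C_12 L62388 (C_12 L62385 (C_12 L62249 N_12)))) (by decide +kernel)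
theorem L62551 : W_12 (nat_lit 12) (nat_lit 0x200000001200080000800000000000000000000000000) (nat_lit 0x0) (nat_lit 0x200058000c007f000dc017e0030001f800f000380010000000000) := Q_12 (nat_lit 143) (C_12 L62542 (C_12 L62546 (C_12 L62547 (C_12 L62548 (C_12 L62549 (C_12 L62550 N_12)))))) (by decide +kernel)
theorem L62552 : W_12 (nat_lit 4) (nat_lit 0x4000200000001a00090000c00000000000000000000000000) (nat_lit 0x0) (nat_lit 0x8000c0006000000008000000020000000000000000000000) := T_12 (nat_lit 158) (nat_lit 89) (nat_lit 4) (nat_lit 5) (nat_lit 9) L62128 (by decide +kernel)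
theorem L62553 : W_12 (nat_lit 5) (nat_lit 0x200000001a00090000c00000000000000000000000000) (nat_lit 0x0) (nat_lit 0x48000c0016000000008000000020000000000000000000000) := T_12 (nat_lit 194) (nat_lit 160) (nat_lit 6) (nat_lit 7) (nat_lit 11) L62552 (by decide +kernel)
theorem L62554 : W_12 (nat_lit 2) (nat_lit 0x4000200000001a000d0002c00000000000000000000000000) (nat_lit 0x0) (nat_lit 0x20000000000000000100008000000000000000000) := D_12 (nat_lit 92) (nat_lit 75) (nat_lit 161) (nat_lit 7) (nat_lit 7) (nat_lit 4) (nat_lit 7) (nat_lit 7) (nat_lit 5) (by decide +kernel)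
theorem L62555 : W_12 (nat_lit 3) (nat_lit 0x4000200000001a000d0000c00000000000000000000000000) (nat_lit 0x0) (nat_lit 0x20000000000003000100008000000000000000000) := T_12 (nat_lit 109) (nat_lit 108) (nat_lit 3) (nat_lit 4) (nat_lit 6) L62554 (by decide +kernel)
theorem L62556 : W_12 (nat_lit 4) (nat_lit 0x200000001a000d0000c00000000000000000000000000) (nat_lit 0x0) (nat_lit 0x4000000030000000000003000100008000000000000000000) := T_12 (nat_lit 194) (nat_lit 160) (nat_lit 6) (nat_lit 7) (nat_lit 11) L62555 (by decide +kernel)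
theorem L62557 : W_12 (nat_lit 5) (nat_lit 0x200000001a00090000c00000000000000000000000000) (nat_lit 0x0) (nat_lit 0x4000000030000000060003000100008000000000000000000) := T_12 (nat_lit 126) (nat_lit 125) (nat_lit 0) (nat_lit 8) (nat_lit 7) L62556 (by decide +kernel)
theorem L62558 : W_12 (nat_lit 2) (nat_lit 0x200007801b000dc001e80000000000000000000000000) (nat_lit 0x0) (nat_lit 0x18000000080000000000000000000000000000000000) := D_12 (nat_lit 172) (nat_lit 171) (nat_lit 139) (nat_lit 1) (nat_lit 5) (nat_lit 9) (nat_lit 5) (nat_lit 3) (nat_lit 6) (by decide +kernel)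
theorem L62559 : W_12 (nat_lit 3) (nat_lit 0x200007001b000dc001e80000000000000000000000000) (nat_lit 0x0) (nat_lit 0x18000c00080000000000000000000000000000000000) := T_12 (nat_lit 155) (nat_lit 154) (nat_lit 2) (nat_lit 1) (nat_lit 9) L62558 (by decide +kernel)
theorem L62560 : W_12 (nat_lit 4) (nat_lit 0x200006001b000dc001e80000000000000000000000000) (nat_lit 0x0) (nat_lit 0x38001c00080000000000000000000000000000000000) := T_12 (nat_lit 156) (nat_lit 173) (nat_lit 5) (nat_lit 4) (nat_lit 6) L62559 (by decide +kernel)
theorem L62561 : W_12 (nat_lit 5) (nat_lit 0x200006001b000d8001e80000000000000000000000000) (nat_lit 0x0) (nat_lit 0x38001c00080006000000000000000000000000000000) := T_12 (nat_lit 122) (nat_lit 121) (nat_lit 2) (nat_lit 2) (nat_lit 7) L62560 (by decide +kernel)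
theorem L62562 : W_12 (nat_lit 6) (nat_lit 0x200006001b000d8001e00000000000000000000000000) (nat_lit 0x0) (nat_lit 0x38001c00080006000180000000000000000000000000) := T_12 (nat_lit 103) (nat_lit 104) (nat_lit 3) (nat_lit 1) (nat_lit 6) L62561 (by decide +kernel)
theorem L62563 : W_12 (nat_lit 7) (nat_lit 0x200006001b000d8001c00000000000000000000000000) (nat_lit 0x0) (nat_lit 0x38001c00080006000380010000000000000000000000) := T_12 (nat_lit 105) (nat_lit 88) (nat_lit 4) (nat_lit 4) (nat_lit 9) L62562 (by decide +kernel)
theorem L62564 : W_12 (nat_lit 8) (nat_lit 0x200006001b000d0001c00000000000000000000000000) (nat_lit 0x0) (nat_lit 0xb8001c0008000e000380010000000000000000000000) := T_12 (nat_lit 123) (nat_lit 175) (nat_lit 7) (nat_lit 4) (nat_lit 6) L62563 (by decide +kernel)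
theorem L62565 : W_12 (nat_lit 9) (nat_lit 0x200006001a000d0001c00000000000000000000000000) (nat_lit 0x0) (nat_lit 0xb8001c0018000e000380050000000000000000000000) := T_12 (nat_lit 140) (nat_lit 90) (nat_lit 5) (nat_lit 5) (nat_lit 5) L62564 (by decide +kernel)
theorem L62566 : W_12 (nat_lit 10) (nat_lit 0x200004001a000d0001c00000000000000000000000000) (nat_lit 0x0) (nat_lit 0xf8003c0018000e000380050000000000000000000000) := T_12 (nat_lit 157) (nat_lit 174) (nat_lit 5) (nat_lit 5) (nat_lit 6) L62565 (by decide +kernel)
theorem L62567 : W_12 (nat_lit 11) (nat_lit 0x200004001a000d0000c00000000000000000000000000) (nat_lit 0x0) (nat_lit 0xf8003c0018000e003380050000000000000000000000) := T_12 (nat_lit 108) (nat_lit 109) (nat_lit 3) (nat_lit 4) (nat_lit 6) L62566 (by decide +kernel)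
theorem L62568 : W_12 (nat_lit 12) (nat_lit 0x200000001a000d0000c00000000000000000000000000) (nat_lit 0x0) (nat_lit 0xf8007c0018000e003380070000000000000000000000) := T_12 (nat_lit 158) (nat_lit 89) (nat_lit 4) (nat_lit 5) (nat_lit 9) L62567 (by decide +kernel)
theorem L62569 : W_12 (nat_lit 13) (nat_lit 0x200000001a00090000c00000000000000000000000000) (nat_lit 0x0) (nat_lit 0xf8007c0018006e003380070000000000000000000000) := T_12 (nat_lit 126) (nat_lit 125) (nat_lit 0) (nat_lit 8) (nat_lit 7) L62568 (by decide +kernel)
theorem L62570 : W_12 (nat_lit 14) (nat_lit 0x200000001a00090000800000000000000000000000000) (nat_lit 0x0) (nat_lit 0x48000f8037c0018006e003780170008000000000000000000) := Q_12 (nat_lit 106) (C_12 L62553 (C_12 L62557 (C_12 L62569 N_12))) (by decide +kernel)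
theorem L62571 : W_12 (nat_lit 15) (nat_lit 0x200000001200090000800000000000000000000000000) (nat_lit 0x0) (nat_lit 0x48000f8037c00d8016e003780170008000000000000000000) := Q_12 (nat_lit 143) (C_12 L62145 (C_12 L62149 (C_12 L62570 N_12))) (by decide +kernel)
theorem L62572 : W_12 (nat_lit 2) (nat_lit 0x200000001e00090000800068016000000000000000000) (nat_lit 0x0) (nat_lit 0x2000100040000000000000000000000000000000) := D_12 (nat_lit 140) (nat_lit 126) (nat_lit 157) (nat_lit 2) (nat_lit 4) (nat_lit 8) (nat_lit 5) (nat_lit 5) (nat_lit 5) (by decide +kernel)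
theorem L62573 : W_12 (nat_lit 3) (nat_lit 0x200000001600090000800068016000000000000000000) (nat_lit 0x0) (nat_lit 0x2000900140000000000000000000000000000000) := T_12 (nat_lit 143) (nat_lit 128) (nat_lit 2) (nat_lit 5) (nat_lit 8) L62572 (by decide +kernel)
theorem L62574 : W_12 (nat_lit 4) (nat_lit 0x200000001600090000800068006000000000000000000) (nat_lit 0x0) (nat_lit 0x2000900140000000000018000000000000000000) := T_12 (nat_lit 76) (nat_lit 75) (nat_lit 1) (nat_lit 8) (nat_lit 4) L62573 (by decide +kernel)
theorem L62575 : W_12 (nat_lit 5) (nat_lit 0x200000001600090000800060006000000000000000000) (nat_lit 0x0) (nat_lit 0x2000900140000000018018000000000000000000) := T_12 (nat_lit 87) (nat_lit 88) (nat_lit 2) (nat_lit 2) (nat_lit 5) L62574 (by decide +kernel)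
theorem L62576 : W_12 (nat_lit 6) (nat_lit 0x200000001600090000800060002000000000000000000) (nat_lit 0x0) (nat_lit 0x200090014000000001801c000200000000000000) := T_12 (nat_lit 74) (nat_lit 57) (nat_lit 6) (nat_lit 5) (nat_lit 7) L62575 (by decide +kernel)
theorem L62577 : W_12 (nat_lit 7) (nat_lit 0x200000001600090000800060000000000000000000000) (nat_lit 0x0) (nat_lit 0x200090016000000001801e000200000000000000) := T_12 (nat_lit 73) (nat_lit 125) (nat_lit 7) (nat_lit 5) (nat_lit 4) L62576 (by decide +kernel)
theorem L62578 : W_12 (nat_lit 8) (nat_lit 0x200000001200090000800060000000000000000000000) (nat_lit 0x0) (nat_lit 0xa000d0016000000001801e000200000000000000) := T_12 (nat_lit 142) (nat_lit 159) (nat_lit 7) (nat_lit 5) (nat_lit 5) L62577 (by decide +kernel)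
theorem L62579 : W_12 (nat_lit 9) (nat_lit 0x200000001200090000800040000000000000000000000) (nat_lit 0x0) (nat_lit 0xa000d0016000000003801f000200000000000000) := T_12 (nat_lit 89) (nat_lit 72) (nat_lit 4) (nat_lit 5) (nat_lit 8) L62578 (by decide +kernel)
theorem L62580 : W_12 (nat_lit 2) (nat_lit 0x200000001f00090000800068016000000000000000000) (nat_lit 0x0) (nat_lit 0x4000000030000000000000000000000000000000000000000) := D_12 (nat_lit 160) (nat_lit 194) (nat_lit 161) (nat_lit 6) (nat_lit 7) (nat_lit 11) (nat_lit 3) (nat_lit 4) (nat_lit 8) (by decide +kernel)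
theorem L62581 : W_12 (nat_lit 3) (nat_lit 0x200000001e00090000800068016000000000000000000) (nat_lit 0x0) (nat_lit 0x4000000030000100040000000000000000000000000000000) := T_12 (nat_lit 140) (nat_lit 126) (nat_lit 2) (nat_lit 4) (nat_lit 8) L62580 (by decide +kernel)
theorem L62582 : W_12 (nat_lit 4) (nat_lit 0x200000001600090000800068016000000000000000000) (nat_lit 0x0) (nat_lit 0x4000000030000900140000000000000000000000000000000) := T_12 (nat_lit 143) (nat_lit 128) (nat_lit 2) (nat_lit 5) (nat_lit 8) L62581 (by decide +kernel)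
theorem L62583 : W_12 (nat_lit 5) (nat_lit 0x200000001600090000800068006000000000000000000) (nat_lit 0x0) (nat_lit 0x4000000030000900140000000000018000000000000000000) := T_12 (nat_lit 76) (nat_lit 75) (nat_lit 1) (nat_lit 8) (nat_lit 4) L62582 (by decide +kernel)
theorem L62584 : W_12 (nat_lit 6) (nat_lit 0x200000001600090000800060006000000000000000000) (nat_lit 0x0) (nat_lit 0x4000000030000900140000000018018000000000000000000) := T_12 (nat_lit 87) (nat_lit 88) (nat_lit 2) (nat_lit 2) (nat_lit 5) L62583 (by decide +kernel)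
theorem L62585 : W_12 (nat_lit 7) (nat_lit 0x200000001600090000800060002000000000000000000) (nat_lit 0x0) (nat_lit 0x400000003000090014000000001801c000200000000000000) := T_12 (nat_lit 74) (nat_lit 57) (nat_lit 6) (nat_lit 5) (nat_lit 7) L62584 (by decide +kernel)
theorem L62586 : W_12 (nat_lit 8) (nat_lit 0x200000001600090000800060000000000000000000000) (nat_lit 0x0) (nat_lit 0x400000003000090016000000001801e000200000000000000) := T_12 (nat_lit 73) (nat_lit 125) (nat_lit 7) (nat_lit 5) (nat_lit 4) L62585 (by decide +kernel)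
theorem L62587 : W_12 (nat_lit 9) (nat_lit 0x200000001200090000800060000000000000000000000) (nat_lit 0x0) (nat_lit 0x4000000038000d0016000000001801e000200000000000000) := T_12 (nat_lit 142) (nat_lit 159) (nat_lit 7) (nat_lit 5) (nat_lit 5) L62586 (by decide +kernel)
theorem L62588 : W_12 (nat_lit 10) (nat_lit 0x200000001200090000800040000000000000000000000) (nat_lit 0x0) (nat_lit 0x4000000038000d0016000000003801f000200000000000000) := T_12 (nat_lit 89) (nat_lit 72) (nat_lit 4) (nat_lit 5) (nat_lit 8) L62587 (by decide +kernel)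
theorem L62589 : W_12 (nat_lit 2) (nat_lit 0x2000000013000d0000800040000000000000000000000) (nat_lit 0x0) (nat_lit 0x8000c00000000000000000000000000000000000) := D_12 (nat_lit 142) (nat_lit 143) (nat_lit 159) (nat_lit 2) (nat_lit 4) (nat_lit 8) (nat_lit 7) (nat_lit 5) (nat_lit 5) (by decide +kernel)
theorem L62590 : W_12 (nat_lit 3) (nat_lit 0x200000001300090000800040000000000000000000000) (nat_lit 0x0) (nat_lit 0x8000c00060000000000000000000000000000000) := T_12 (nat_lit 126) (nat_lit 125) (nat_lit 1) (nat_lit 8) (nat_lit 7) L62589 (by decide +kernel)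
theorem L62591 : W_12 (nat_lit 4) (nat_lit 0x200000001200090000800040000000000000000000000) (nat_lit 0x0) (nat_lit 0xa000d00060000000000000000000000000000000) := T_12 (nat_lit 140) (nat_lit 157) (nat_lit 5) (nat_lit 5) (nat_lit 5) L62590 (by decide +kernel)
theorem L62592 : W_12 (nat_lit 11) (nat_lit 0x200000001200090000800000000000000000000000000) (nat_lit 0x0) (nat_lit 0x400000003f000dc016600370007801f000200000000000000) := Q_12 (nat_lit 90) (C_12 L62579 (C_12 L61796 (C_12 L62119 (C_12 L62180 (C_12 L62588 (C_12 L62591 N_12)))))) (by decide +kernel)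
theorem L62593 : W_12 (nat_lit 4) (nat_lit 0x200000001600090000800000000000000000000000000) (nat_lit 0x0) (nat_lit 0xa000100028000000040002000000000000000000) := T_12 (nat_lit 90) (nat_lit 159) (nat_lit 7) (nat_lit 5) (nat_lit 5) L39858 (by decide +kernel)
theorem L62594 : W_12 (nat_lit 5) (nat_lit 0x200000001200090000800000000000000000000000000) (nat_lit 0x0) (nat_lit 0xa000d00168000000040002000000000000000000) := Q_12 (nat_lit 142) (C_12 L62165 (C_12 L62593 (C_12 L62151 N_12))) (by decide +kernel)
theorem L62595 : W_12 (nat_lit 16) (nat_lit 0x200000001200080000800000000000000000000000000) (nat_lit 0x0) (nat_lit 0xa000fc00f8000f803fc00de017e003780f7803f003b8001c000000000) := Q_12 (nat_lit 124) (C_12 L61896 (C_12 L61911 (C_12 L62282 (C_12 L62166 (C_12 L62268 (C_12 L62571 (C_12 L62592 (C_12 L62594 N_12)))))))) (by decide +kernel)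
theorem L62596 : W_12 (nat_lit 17) (nat_lit 0x200000001200080000000000000000000000000000000) (nat_lit 0x0) (nat_lit 0x50003a001fc00fc000f807fc1cde077f03bf80ffc03fc03f8001c000a00000) := Q_12 (nat_lit 107) (C_12 L61897 (C_12 L61912 (C_12 L62106 (C_12 L62167 (C_12 L62195 (C_12 L62267 (C_12 L62284 (C_12 L62305 (C_12 L62381 (C_12 L62382 (C_12 L62404 (C_12 L62433 (C_12 L62551 (C_12 L62595 N_12)))))))))))))) (by decide +kernel)
end Crest.Agent.Helper32.Snaky.R1_0
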