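import Crest.Agent.Helper32.Snaky.Gen.R1_0_p3
set_option autoImplicit false
set_option maxRecDepth 100000
set_option linter.all false
set_option Elab.async false
namespace Crest.Agent.Helper32.Snaky.R1_0
@[reducible] def W_13 (d M Bz Z : Nat) : Prop := Crest.Agent.Helper32.Snaky.Wins (nat_lit 17) d M Bz Z
theorem D_13 {d M Bz Z : Nat} (m t1 t2 o1 x1 y1 o2 x2 y2 : Nat) (h : Crest.Agent.Helper32.Snaky.chkDoubleC (nat_lit 17) d M Bz Z m t1 t2 o1 x1 y1 o2 x2 y2 = true) : W_13 d M Bz Z := Crest.Agent.Helper32.Snaky.doubleC m t1 t2 o1 x1 y1 o2 x2 y2 h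
theorem T_13 {d M Bz Z cd cM cBz cZ : Nat} (m t o x y : Nat) (child : W_13 cd cM cBz cZ) (h : Crest.Agent.Helper32.Snaky.chkThreatC (nat_lit 17) d M Bz Z cd cM cBz cZ m t o x y = true) : W_13 d M Bz Z := Crest.Agent.Helper32.Snaky.threatC m t o x y child h
theorem Q_13 {d M Bz Z : Nat} (m : Nat) {l : List Crest.Agent.Helper32.Snaky.Spec} (kids : Crest.Agent.Helper32.Snaky.AllWins (nat_lit 17) l) (h : Crest.Agent.Helper32.Snaky.chkQuiet d M Bz Z m l = true) : W_13 d M Bz Z := Crest.Agent.Helper32.Snaky.quiet m kids h
theorem C_13 {cd cM cBz cZ : Nat} {l : List Crest.Agent.Helper32.Snaky.Spec} (h : W_13 cd cM cBz cZ) (hl : Crest.Agent.Helper32.Snaky.AllWins (nat_lit 17) l) : Crest.Agent.Helper32.Snaky.AllWins (nat_lit 17) ((cd, cM, cBz, cZ) :: l) := Crest.Agent.Helper32.Snaky.AllWins.cons h hl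
theorem N_13 : Crest.Agent.Helper32.Snaky.AllWins (nat_lit 17) [] := Crest.Agent.Helper32.Snaky.AllWins.nil
theorem L40063 : W_13 (nat_lit 2) (nat_lit 0x300008001e000a0000000000000000000000000000000) (nat_lit 0x0) (nat_lit 0x2000000000000000040002000000000000000000000000000) := D_13 (nat_lit 126) (nat_lit 109) (nat_lit 193) (nat_lit 6) (nat_lit 6) (nat_lit 10) (nat_lit 6) (nat_lit 6) (nat_lit 11) (by decide +kernel)
theorem L40064 : W_13 (nat_lit 3) (nat_lit 0x300008001e00080000000000000000000000000000000) (nat_lit 0x0) (nat_lit 0x6000000000000000060002000000000000000000000000000) := T_13 (nat_lit 125) (nat_lit 194) (nat_lit 7) (nat_lit 6) (nat_lit 7) L40063 (by decide +kernel)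
theorem L40065 : W_13 (nat_lit 4) (nat_lit 0x300008001e00080000000000000000000000000000000) (nat_lit 0x0) (nat_lit 0x5000080006000000020001000000000000000000000000000) := T_13 (nat_lit 158) (nat_lit 157) (nat_lit 1) (nat_lit 8) (nat_lit 8) L39129 (by decide +kernel)
theorem L40066 : W_13 (nat_lit 5) (nat_lit 0x200008001e00080000000000000000000000000000000) (nat_lit 0x0) (nat_lit 0x40007000180006000000060003000000000000000000000000000) := Q_13 (nat_lit 176) (C_13 L40062 (C_13 L40064 (C_13 L40065 N_13))) (by decide +kernel)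
theorem L40073 : W_13 (nat_lit 6) (nat_lit 0x20002c001e00080000000000000000000000000000000) (nat_lit 0x0) (nat_lit 0x80000000000078001c000e0000000000000000000000) := T_13 (nat_lit 124) (nat_lit 123) (nat_lit 0) (nat_lit 8) (nat_lit 8) L40072 (by decide +kernel)
theorem L40074 : W_13 (nat_lit 7) (nat_lit 0x200028001e00080000000000000000000000000000000) (nat_lit 0x0) (nat_lit 0x80006000000078001c000e0000000000000000000000) := T_13 (nat_lit 158) (nat_lit 157) (nat_lit 1) (nat_lit 8) (nat_lit 8) L40073 (by decide +kernel)
theorem L40075 : W_13 (nat_lit 8) (nat_lit 0x200008001e00080000000000000000000000000000000) (nat_lit 0x0) (nat_lit 0x80066000000078001c000e0000000000000000000000) := T_13 (nat_lit 161) (nat_lit 162) (nat_lit 3) (nat_lit 5) (nat_lit 8) L40074 (by decide +kernel)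
theorem L40076 : W_13 (nat_lit 2) (nat_lit 0x380028001e000b0003000040000000000000000000000) (nat_lit 0x0) (nat_lit 0x80006000000000000000000) := D_13 (nat_lit 91) (nat_lit 74) (nat_lit 73) (nat_lit 5) (nat_lit 6) (nat_lit 4) (nat_lit 4) (nat_lit 6) (nat_lit 8) (by decide +kernel)
theorem L40077 : W_13 (nat_lit 3) (nat_lit 0x380028001e000b0002000040000000000000000000000) (nat_lit 0x0) (nat_lit 0x1000180006000000000000000000) := T_13 (nat_lit 108) (nat_lit 92) (nat_lit 6) (nat_lit 6) (nat_lit 9) L40076 (by decide +kernel)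
theorem L40078 : W_13 (nat_lit 4) (nat_lit 0x300028001e000b0002000040000000000000000000000) (nat_lit 0x0) (nat_lit 0x1000080000000000000001000180006000000000000000000) := T_13 (nat_lit 175) (nat_lit 192) (nat_lit 5) (nat_lit 6) (nat_lit 7) L40077 (by decide +kernel)
theorem L40079 : W_13 (nat_lit 5) (nat_lit 0x300028001e000b0000000040000000000000000000000) (nat_lit 0x0) (nat_lit 0x1000080000000000040003000180006000000000000000000) := T_13 (nat_lit 109) (nat_lit 126) (nat_lit 6) (nat_lit 6) (nat_lit 10) L40078 (by decide +kernel)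
theorem L40080 : W_13 (nat_lit 6) (nat_lit 0x300028001e00090000000040000000000000000000000) (nat_lit 0x0) (nat_lit 0x5000080000000000060003000180006000000000000000000) := T_13 (nat_lit 125) (nat_lit 194) (nat_lit 7) (nat_lit 6) (nat_lit 7) L40079 (by decide +kernel)
theorem L40081 : W_13 (nat_lit 7) (nat_lit 0x200028001e00090000000040000000000000000000000) (nat_lit 0x0) (nat_lit 0x7000180000000000060003000180006000000000000000000) := T_13 (nat_lit 176) (nat_lit 193) (nat_lit 4) (nat_lit 6) (nat_lit 11) L40080 (by decide +kernel)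
theorem L40082 : W_13 (nat_lit 8) (nat_lit 0x200028001e00090000000000000000000000000000000) (nat_lit 0x0) (nat_lit 0x70001800000000000600038001c0006000000000000000000) := T_13 (nat_lit 90) (nat_lit 107) (nat_lit 7) (nat_lit 5) (nat_lit 5) L40081 (by decide +kernel)
theorem L40083 : W_13 (nat_lit 9) (nat_lit 0x200008001e00090000000000000000000000000000000) (nat_lit 0x0) (nat_lit 0x70001800600000000600038001c0006000000000000000000) := T_13 (nat_lit 161) (nat_lit 162) (nat_lit 3) (nat_lit 5) (nat_lit 8) L40082 (by decide +kernel)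
theorem L40084 : W_13 (nat_lit 10) (nat_lit 0x200008001e00080000000000000000000000000000000) (nat_lit 0x0) (nat_lit 0x70001800600000000780038001c0006000000000000000000) := T_13 (nat_lit 124) (nat_lit 123) (nat_lit 0) (nat_lit 8) (nat_lit 8) L40083 (by decide +kernel)
theorem L40085 : W_13 (nat_lit 11) (nat_lit 0x200000001e00080000000000000000000000000000000) (nat_lit 0x0) (nat_lit 0x4000700018006e000000078003c001e0006000000000000000000) := Q_13 (nat_lit 159) (C_13 L40066 (C_13 L40068 (C_13 L40075 (C_13 L40084 N_13)))) (by decide +kernel)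
theorem L40086 : W_13 (nat_lit 12) (nat_lit 0x200000001a00080000000000000000000000000000000) (nat_lit 0x0) (nat_lit 0x4000700018006e000400178003c001e0006000000000000000000) := T_13 (nat_lit 142) (nat_lit 128) (nat_lit 2) (nat_lit 5) (nat_lit 8) L40085 (by decide +kernel)
theorem L40087 : W_13 (nat_lit 2) (nat_lit 0x200000001a000f0003800000000000000000000000000) (nat_lit 0x0) (nat_lit 0x4000000000000000080004000000000000000000) := D_13 (nat_lit 91) (nat_lit 74) (nat_lit 158) (nat_lit 7) (nat_lit 6) (nat_lit 4) (nat_lit 6) (nat_lit 5) (nat_lit 9) (by decide +kernel)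
theorem L40088 : W_13 (nat_lit 3) (nat_lit 0x200000001a000e0003800000000000000000000000000) (nat_lit 0x0) (nat_lit 0x4000000018000000080004000000000000000000) := T_13 (nat_lit 124) (nat_lit 123) (nat_lit 3) (nat_lit 4) (nat_lit 7) L40087 (by decide +kernel)
theorem L40089 : W_13 (nat_lit 4) (nat_lit 0x200000001a000c0003800000000000000000000000000) (nat_lit 0x0) (nat_lit 0x4000000138000000080004000000000000000000) := T_13 (nat_lit 125) (nat_lit 128) (nat_lit 0) (nat_lit 9) (nat_lit 7) L40088 (by decide +kernel)
theorem L40090 : W_13 (nat_lit 5) (nat_lit 0x200000001a000c0003000000000000000000000000000) (nat_lit 0x0) (nat_lit 0x4000000138000c00080004000000000000000000) := T_13 (nat_lit 107) (nat_lit 106) (nat_lit 3) (nat_lit 4) (nat_lit 6) L40089 (by decide +kernel)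
theorem L40091 : W_13 (nat_lit 2) (nat_lit 0x3000280004001a00090000000000000000000000000000000) (nat_lit 0x0) (nat_lit 0x10000800040000000000000000000000000000000000000000000) := D_13 (nat_lit 191) (nat_lit 174) (nat_lit 208) (nat_lit 5) (nat_lit 5) (nat_lit 7) (nat_lit 5) (nat_lit 5) (nat_lit 8) (by decide +kernel)
theorem L40092 : W_13 (nat_lit 3) (nat_lit 0x3000280004001a00080000000000000000000000000000000) (nat_lit 0x0) (nat_lit 0x10000800140000000000010000000000000000000000000000000) := T_13 (nat_lit 124) (nat_lit 176) (nat_lit 7) (nat_lit 5) (nat_lit 7) L40091 (by decide +kernel)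
theorem L40093 : W_13 (nat_lit 2) (nat_lit 0x8003c002e0004001a00080000000000000000000000000000000) (nat_lit 0x0) (nat_lit 0x2000100000000000000002000000000000000000000000000000000000000) := D_13 (nat_lit 224) (nat_lit 241) (nat_lit 157) (nat_lit 6) (nat_lit 3) (nat_lit 14) (nat_lit 6) (nat_lit 3) (nat_lit 13) (by decide +kernel)
theorem L40094 : W_13 (nat_lit 3) (nat_lit 0x8003c002a0004001a00080000000000000000000000000000000) (nat_lit 0x0) (nat_lit 0x2000100000004000040002000000000000000000000000000000000000000) := T_13 (nat_lit 174) (nat_lit 194) (nat_lit 0) (nat_lit 7) (nat_lit 11) L40093 (by decide +kernel)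
theorem L40095 : W_13 (nat_lit 4) (nat_lit 0x8003c00280004001a00080000000000000000000000000000000) (nat_lit 0x0) (nat_lit 0x2000100000004000070002000000000000000000000000000000000000000) := T_13 (nat_lit 173) (nat_lit 172) (nat_lit 0) (nat_lit 6) (nat_lit 11) L40094 (by decide +kernel)
theorem L40096 : W_13 (nat_lit 5) (nat_lit 0x3c00280004001a00080000000000000000000000000000000) (nat_lit 0x0) (nat_lit 0x200010000c004000070002000000000000000000000000000000000000000) := T_13 (nat_lit 207) (nat_lit 206) (nat_lit 1) (nat_lit 6) (nat_lit 11) L40095 (by decide +kernel)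
theorem L40097 : W_13 (nat_lit 6) (nat_lit 0x3800280004001a00080000000000000000000000000000000) (nat_lit 0x0) (nat_lit 0x200010000c004400170002000000000000000000000000000000000000000) := T_13 (nat_lit 190) (nat_lit 176) (nat_lit 2) (nat_lit 3) (nat_lit 11) L40096 (by decide +kernel)
theorem L40098 : W_13 (nat_lit 7) (nat_lit 0x3000280004001a00080000000000000000000000000000000) (nat_lit 0x0) (nat_lit 0x200010001c004c00170002000000000000000000000000000000000000000) := T_13 (nat_lit 191) (nat_lit 208) (nat_lit 5) (nat_lit 5) (nat_lit 8) L40097 (by decide +kernel)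
theorem L40099 : W_13 (nat_lit 8) (nat_lit 0x2000280004001a00080000000000000000000000000000000) (nat_lit 0x0) (nat_lit 0x200010005c005c00170002000000000000000000000000000000000000000) := T_13 (nat_lit 192) (nat_lit 210) (nat_lit 7) (nat_lit 5) (nat_lit 8) L40098 (by decide +kernel)
theorem L40100 : W_13 (nat_lit 2) (nat_lit 0x300010001a000e8002000000000000000000000000000) (nat_lit 0x0) (nat_lit 0x20000000000000000100008000000000000000000) := D_13 (nat_lit 92) (nat_lit 75) (nat_lit 161) (nat_lit 7) (nat_lit 7) (nat_lit 4) (nat_lit 7) (nat_lit 7) (nat_lit 5) (by decide +kernel)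
theorem L40101 : W_13 (nat_lit 3) (nat_lit 0x300010001a000e8000000000000000000000000000000) (nat_lit 0x0) (nat_lit 0x28000000000002000100008000000000000000000) := T_13 (nat_lit 109) (nat_lit 159) (nat_lit 5) (nat_lit 7) (nat_lit 6) L40100 (by decide +kernel)
theorem L40102 : W_13 (nat_lit 4) (nat_lit 0x200010001a000e8000000000000000000000000000000) (nat_lit 0x0) (nat_lit 0x2000100028000000000002000100008000000000000000000) := T_13 (nat_lit 176) (nat_lit 193) (nat_lit 5) (nat_lit 7) (nat_lit 7) L40101 (by decide +kernel)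
theorem L40103 : W_13 (nat_lit 5) (nat_lit 0x200010001a000e0000000000000000000000000000000) (nat_lit 0x0) (nat_lit 0x2000100028000000018002000100008000000000000000000) := T_13 (nat_lit 123) (nat_lit 124) (nat_lit 3) (nat_lit 4) (nat_lit 7) L40102 (by decide +kernel)
theorem L40104 : W_13 (nat_lit 6) (nat_lit 0x200010001a000c0000000000000000000000000000000) (nat_lit 0x0) (nat_lit 0x2000100028000000038003000100008000000000000000000) := T_13 (nat_lit 125) (nat_lit 108) (nat_lit 4) (nat_lit 7) (nat_lit 10) L40103 (by decide +kernel)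
theorem L40105 : W_13 (nat_lit 6) (nat_lit 0x300010001a000e0000000000000000000000000000000) (nat_lit 0x0) (nat_lit 0x8000c002e000000018000c00000000000000000000000000) := T_13 (nat_lit 124) (nat_lit 123) (nat_lit 3) (nat_lit 4) (nat_lit 7) L33703 (by decide +kernel)
theorem L40106 : W_13 (nat_lit 7) (nat_lit 0x300010001a000c0000000000000000000000000000000) (nat_lit 0x0) (nat_lit 0x8000c002e000000038001c00000000000000000000000000) := T_13 (nat_lit 125) (nat_lit 108) (nat_lit 4) (nat_lit 7) (nat_lit 10) L40105 (by decide +kernel)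
theorem L40107 : W_13 (nat_lit 8) (nat_lit 0x200010001a000c0000000000000000000000000000000) (nat_lit 0x0) (nat_lit 0x28001c002e000000038001c00000000000000000000000000) := T_13 (nat_lit 176) (nat_lit 193) (nat_lit 5) (nat_lit 7) (nat_lit 7) L40106 (by decide +kernel)
theorem L40108 : W_13 (nat_lit 2) (nat_lit 0x300018001a000f0000000000000000000000000000000) (nat_lit 0x0) (nat_lit 0x4000000000000c00000000000000000000000000) := D_13 (nat_lit 107) (nat_lit 106) (nat_lit 158) (nat_lit 0) (nat_lit 8) (nat_lit 7) (nat_lit 7) (nat_lit 5) (nat_lit 6) (by decide +kernel)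
theorem L40109 : W_13 (nat_lit 3) (nat_lit 0x300010001a000f0000000000000000000000000000000) (nat_lit 0x0) (nat_lit 0xc000000000002c00000000000000000000000000) := T_13 (nat_lit 159) (nat_lit 109) (nat_lit 5) (nat_lit 7) (nat_lit 6) L40108 (by decide +kernel)
theorem L40110 : W_13 (nat_lit 4) (nat_lit 0x200010001a000f0000000000000000000000000000000) (nat_lit 0x0) (nat_lit 0x200010000c000000000002c00000000000000000000000000) := T_13 (nat_lit 176) (nat_lit 193) (nat_lit 5) (nat_lit 7) (nat_lit 7) L40109 (by decide +kernel)
theorem L40111 : W_13 (nat_lit 5) (nat_lit 0x200010001a000e0000000000000000000000000000000) (nat_lit 0x0) (nat_lit 0x200010000c000000018002c00000000000000000000000000) := T_13 (nat_lit 124) (nat_lit 123) (nat_lit 3) (nat_lit 4) (nat_lit 7) L40110 (by decide +kernel)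
theorem L40112 : W_13 (nat_lit 6) (nat_lit 0x200010001a000c0000000000000000000000000000000) (nat_lit 0x0) (nat_lit 0x200010000c000000038003c00000000000000000000000000) := T_13 (nat_lit 125) (nat_lit 108) (nat_lit 4) (nat_lit 7) (nat_lit 10) L40111 (by decide +kernel)
theorem L40113 : W_13 (nat_lit 9) (nat_lit 0x200010001a00080000000000000000000000000000000) (nat_lit 0x0) (nat_lit 0x28001c002e000000078003c00180008000000000000000000) := Q_13 (nat_lit 126) (C_13 L40104 (C_13 L31884 (C_13 L40107 (C_13 L33709 (C_13 L40112 N_13))))) (by decide +kernel)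
theorem L40114 : W_13 (nat_lit 10) (nat_lit 0x200000001a00080000000000000000000000000000000) (nat_lit 0x0) (nat_lit 0x68001c003e000000078003c00180008000000000000000000) := T_13 (nat_lit 160) (nat_lit 194) (nat_lit 6) (nat_lit 7) (nat_lit 11) L40113 (by decide +kernel)
theorem L40115 : W_13 (nat_lit 2) (nat_lit 0x200004001a00080000000000000000000000000000000) (nat_lit 0x0) (nat_lit 0x2000400100000000000000000000000000000000) := D_13 (nat_lit 142) (nat_lit 157) (nat_lit 128) (nat_lit 1) (nat_lit 8) (nat_lit 8) (nat_lit 2) (nat_lit 5) (nat_lit 8) (by decide +kernel)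
theorem L40116 : W_13 (nat_lit 5) (nat_lit 0x28001c001a00080000000000000000000000000000000) (nat_lit 0x0) (nat_lit 0x39401e0000000000000000000000000000000000000000) := T_13 (nat_lit 161) (nat_lit 174) (nat_lit 1) (nat_lit 8) (nat_lit 9) L33391 (by decide +kernel)
theorem L40117 : W_13 (nat_lit 6) (nat_lit 0x280014001a00080000000000000000000000000000000) (nat_lit 0x0) (nat_lit 0x39401ea000000000000000000000000000000000000000) := T_13 (nat_lit 159) (nat_lit 157) (nat_lit 2) (nat_lit 4) (nat_lit 9) L40116 (by decide +kernel)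
theorem L40118 : W_13 (nat_lit 7) (nat_lit 0x280004001a00080000000000000000000000000000000) (nat_lit 0x0) (nat_lit 0x40039401fa000000000000000000000000000000000000000) := T_13 (nat_lit 160) (nat_lit 194) (nat_lit 6) (nat_lit 7) (nat_lit 11) L40117 (by decide +kernel)
theorem L40119 : W_13 (nat_lit 2) (nat_lit 0x2c0004001a00090000400000000000000000000000000) (nat_lit 0x0) (nat_lit 0x2000000000000800020000000000000000000000) := D_13 (nat_lit 107) (nat_lit 157) (nat_lit 89) (nat_lit 5) (nat_lit 5) (nat_lit 6) (nat_lit 4) (nat_lit 5) (nat_lit 9) (by decide +kernel)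
theorem L40120 : W_13 (nat_lit 3) (nat_lit 0x280004001a00090000400000000000000000000000000) (nat_lit 0x0) (nat_lit 0x800040002000000000000800020000000000000000000000) := T_13 (nat_lit 174) (nat_lit 191) (nat_lit 5) (nat_lit 5) (nat_lit 7) L40119 (by decide +kernel)
theorem L40121 : W_13 (nat_lit 4) (nat_lit 0x280004001a00090000000000000000000000000000000) (nat_lit 0x0) (nat_lit 0x800040002000000008000c00020000000000000000000000) := T_13 (nat_lit 106) (nat_lit 123) (nat_lit 4) (nat_lit 5) (nat_lit 10) L40120 (by decide +kernel)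
theorem L40122 : W_13 (nat_lit 2) (nat_lit 0x42003e0005001a00098000000000000000000000000000000) (nat_lit 0x0) (nat_lit 0x100010008000000000000000000000000000000000000000) := D_13 (nat_lit 172) (nat_lit 159) (nat_lit 188) (nat_lit 2) (nat_lit 2) (nat_lit 10) (nat_lit 1) (nat_lit 5) (nat_lit 10) (by decide +kernel)
theorem L40123 : W_13 (nat_lit 3) (nat_lit 0x40003e0005001a00098000000000000000000000000000000) (nat_lit 0x0) (nat_lit 0x700010008000000000000000000000000000000000000000) := T_13 (nat_lit 189) (nat_lit 190) (nat_lit 1) (nat_lit 6) (nat_lit 10) L40122 (by decide +kernel)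
theorem L40124 : W_13 (nat_lit 4) (nat_lit 0x40003c0005001a00098000000000000000000000000000000) (nat_lit 0x0) (nat_lit 0x700030008800000000000000000000000000000000000000) := T_13 (nat_lit 173) (nat_lit 155) (nat_lit 0) (nat_lit 6) (nat_lit 10) L40123 (by decide +kernel)
theorem L40125 : W_13 (nat_lit 5) (nat_lit 0x40003c0005001a00090000000000000000000000000000000) (nat_lit 0x0) (nat_lit 0x700030008800000008000400000000000000000000000000) := T_13 (nat_lit 123) (nat_lit 106) (nat_lit 4) (nat_lit 5) (nat_lit 10) L40124 (by decide +kernel)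
theorem L40126 : W_13 (nat_lit 6) (nat_lit 0x40003c0004001a00090000000000000000000000000000000) (nat_lit 0x0) (nat_lit 0x70003000b800000008000400000000000000000000000000) := T_13 (nat_lit 156) (nat_lit 157) (nat_lit 0) (nat_lit 7) (nat_lit 10) L40125 (by decide +kernel)
theorem L40127 : W_13 (nat_lit 7) (nat_lit 0x3c0004001a00090000000000000000000000000000000) (nat_lit 0x0) (nat_lit 0xc70003000b800000008000400000000000000000000000000) := T_13 (nat_lit 194) (nat_lit 195) (nat_lit 3) (nat_lit 4) (nat_lit 10) L40126 (by decide +kernel)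
theorem L40128 : W_13 (nat_lit 8) (nat_lit 0x2c0004001a00090000000000000000000000000000000) (nat_lit 0x0) (nat_lit 0xe70013000b800000008000400000000000000000000000000) := T_13 (nat_lit 176) (nat_lit 193) (nat_lit 7) (nat_lit 5) (nat_lit 7) L40127 (by decide +kernel)
theorem L40129 : W_13 (nat_lit 9) (nat_lit 0x280004001a00090000000000000000000000000000000) (nat_lit 0x0) (nat_lit 0xef0017000b800000008000400000000000000000000000000) := T_13 (nat_lit 174) (nat_lit 191) (nat_lit 5) (nat_lit 5) (nat_lit 7) L40128 (by decide +kernel)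
theorem L40130 : W_13 (nat_lit 2) (nat_lit 0x380004001a00090000400000000000000000000000000) (nat_lit 0x0) (nat_lit 0x8000000000000800020000000000000000000000) := D_13 (nat_lit 107) (nat_lit 159) (nat_lit 89) (nat_lit 7) (nat_lit 5) (nat_lit 6) (nat_lit 4) (nat_lit 5) (nat_lit 9) (by decide +kernel)
theorem L40131 : W_13 (nat_lit 3) (nat_lit 0x280004001a00090000400000000000000000000000000) (nat_lit 0x0) (nat_lit 0x2000100008000000000000800020000000000000000000000) := T_13 (nat_lit 176) (nat_lit 193) (nat_lit 7) (nat_lit 5) (nat_lit 7) L40130 (by decide +kernel)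
theorem L40132 : W_13 (nat_lit 4) (nat_lit 0x280004001a00090000000000000000000000000000000) (nat_lit 0x0) (nat_lit 0x2000100008000000008000c00020000000000000000000000) := T_13 (nat_lit 106) (nat_lit 123) (nat_lit 4) (nat_lit 5) (nat_lit 10) L40131 (by decide +kernel)
theorem L40133 : W_13 (nat_lit 2) (nat_lit 0x380004001a00090000800000000000000000000000000) (nat_lit 0x0) (nat_lit 0x800040002000000000000000000000000000000000000000) := D_13 (nat_lit 174) (nat_lit 191) (nat_lit 157) (nat_lit 5) (nat_lit 5) (nat_lit 7) (nat_lit 5) (nat_lit 5) (nat_lit 6) (by decide +kernel)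
theorem L40134 : W_13 (nat_lit 3) (nat_lit 0x380004001a00090000000000000000000000000000000) (nat_lit 0x0) (nat_lit 0x80004000a000000000000800000000000000000000000000) := T_13 (nat_lit 107) (nat_lit 159) (nat_lit 7) (nat_lit 5) (nat_lit 6) L40133 (by decide +kernel)
theorem L40135 : W_13 (nat_lit 4) (nat_lit 0x280004001a00090000000000000000000000000000000) (nat_lit 0x0) (nat_lit 0x280014000a000000000000800000000000000000000000000) := T_13 (nat_lit 176) (nat_lit 193) (nat_lit 7) (nat_lit 5) (nat_lit 7) L40134 (by decide +kernel)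
theorem L40136 : W_13 (nat_lit 10) (nat_lit 0x280004001a00080000000000000000000000000000000) (nat_lit 0x0) (nat_lit 0xef0017000b800000018000c00020000000000000000000000) := Q_13 (nat_lit 124) (C_13 L40121 (C_13 L40129 (C_13 L40132 (C_13 L40135 N_13)))) (by decide +kernel)
theorem L40137 : W_13 (nat_lit 2) (nat_lit 0x8002d001c001a00080000000000000000000000000000000) (nat_lit 0x0) (nat_lit 0x200010001000000000000000000000000000000000000000000000000) := D_13 (nat_lit 208) (nat_lit 192) (nat_lit 225) (nat_lit 5) (nat_lit 5) (nat_lit 8) (nat_lit 6) (nat_lit 4) (nat_lit 13) (by decide +kernel)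
theorem L40138 : W_13 (nat_lit 3) (nat_lit 0x2d001c001a00080000000000000000000000000000000) (nat_lit 0x0) (nat_lit 0x200010001800000000000000010000000000000000000000000000000) := T_13 (nat_lit 191) (nat_lit 124) (nat_lit 5) (nat_lit 5) (nat_lit 7) L40137 (by decide +kernel)
theorem L40139 : W_13 (nat_lit 4) (nat_lit 0x2c001c001a00080000000000000000000000000000000) (nat_lit 0x0) (nat_lit 0x200010001800030000000000010000000000000000000000000000000) := T_13 (nat_lit 172) (nat_lit 173) (nat_lit 2) (nat_lit 2) (nat_lit 10) L40138 (by decide +kernel)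
theorem L40140 : W_13 (nat_lit 5) (nat_lit 0x28001c001a00080000000000000000000000000000000) (nat_lit 0x0) (nat_lit 0x200010001800070020000000010000000000000000000000000000000) := T_13 (nat_lit 174) (nat_lit 161) (nat_lit 1) (nat_lit 8) (nat_lit 9) L40139 (by decide +kernel)
theorem L40141 : W_13 (nat_lit 6) (nat_lit 0x280014001a00080000000000000000000000000000000) (nat_lit 0x0) (nat_lit 0x20001000180007002a000000010000000000000000000000000000000) := T_13 (nat_lit 159) (nat_lit 157) (nat_lit 2) (nat_lit 4) (nat_lit 9) L40140 (by decide +kernel)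
theorem L40142 : W_13 (nat_lit 7) (nat_lit 0x280004001a00080000000000000000000000000000000) (nat_lit 0x0) (nat_lit 0x20001000580007003a000000010000000000000000000000000000000) := T_13 (nat_lit 160) (nat_lit 194) (nat_lit 6) (nat_lit 7) (nat_lit 11) L40141 (by decide +kernel)
theorem L40143 : W_13 (nat_lit 2) (nat_lit 0x7800280004001a00080000000000000000000000000000000) (nat_lit 0x0) (nat_lit 0x8000040000000000010000000000000000000000000000000) := D_13 (nat_lit 174) (nat_lit 124) (nat_lit 195) (nat_lit 5) (nat_lit 5) (nat_lit 7) (nat_lit 0) (nat_lit 8) (nat_lit 11) (by decide +kernel)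
theorem L40144 : W_13 (nat_lit 3) (nat_lit 0x7000280004001a00080000000000000000000000000000000) (nat_lit 0x0) (nat_lit 0x10008800040000000000010000000000000000000000000000000) := T_13 (nat_lit 191) (nat_lit 208) (nat_lit 5) (nat_lit 5) (nat_lit 8) L40143 (by decide +kernel)
theorem L40145 : W_13 (nat_lit 4) (nat_lit 0x6000280004001a00080000000000000000000000000000000) (nat_lit 0x0) (nat_lit 0x50009800040000000000010000000000000000000000000000000) := T_13 (nat_lit 192) (nat_lit 210) (nat_lit 7) (nat_lit 5) (nat_lit 8) L40144 (by decide +kernel)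
theorem L40146 : W_13 (nat_lit 5) (nat_lit 0x2000280004001a00080000000000000000000000000000000) (nat_lit 0x0) (nat_lit 0x5000d800040010000000010000000000000000000000000000000) := T_13 (nat_lit 194) (nat_lit 160) (nat_lit 6) (nat_lit 7) (nat_lit 11) L40145 (by decide +kernel)
theorem L40147 : W_13 (nat_lit 4) (nat_lit 0x2000280004001a00080000000000000000000000000000000) (nat_lit 0x0) (nat_lit 0x50001800140000000000010000000000000000000000000000000) := T_13 (nat_lit 192) (nat_lit 210) (nat_lit 7) (nat_lit 5) (nat_lit 8) L40092 (by decide +kernel)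
theorem L40152 : W_13 (nat_lit 6) (nat_lit 0x2000280004001a00090000000000000000000000000000000) (nat_lit 0x0) (nat_lit 0x20007000d800000010000000008000400000000000000000000000000) := T_13 (nat_lit 123) (nat_lit 106) (nat_lit 4) (nat_lit 5) (nat_lit 10) L40151 (by decide +kernel)
theorem L40153 : W_13 (nat_lit 7) (nat_lit 0x2000280004001a00080000000000000000000000000000000) (nat_lit 0x0) (nat_lit 0x20007000d800100010000000018000400000000000000000000000000) := T_13 (nat_lit 124) (nat_lit 176) (nat_lit 7) (nat_lit 5) (nat_lit 7) L40152 (by decide +kernel)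
theorem L40154 : W_13 (nat_lit 2) (nat_lit 0x30002c0004001a00090000000000000000000000000000000) (nat_lit 0x0) (nat_lit 0xc000000010000000000000000000000000000000000000000) := D_13 (nat_lit 194) (nat_lit 160) (nat_lit 195) (nat_lit 6) (nat_lit 7) (nat_lit 11) (nat_lit 0) (nat_lit 8) (nat_lit 11) (by decide +kernel)
theorem L40155 : W_13 (nat_lit 3) (nat_lit 0x3000280004001a00090000000000000000000000000000000) (nat_lit 0x0) (nat_lit 0xc800040010000000000000000000000000000000000000000) := T_13 (nat_lit 174) (nat_lit 191) (nat_lit 5) (nat_lit 5) (nat_lit 7) L40154 (by decide +kernel)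
theorem L40156 : W_13 (nat_lit 4) (nat_lit 0x3000280004001a00080000000000000000000000000000000) (nat_lit 0x0) (nat_lit 0xc800140010000000010000000000000000000000000000000) := T_13 (nat_lit 124) (nat_lit 176) (nat_lit 7) (nat_lit 5) (nat_lit 7) L40155 (by decide +kernel)
theorem L40157 : W_13 (nat_lit 5) (nat_lit 0x2000280004001a00080000000000000000000000000000000) (nat_lit 0x0) (nat_lit 0x4000d800140010000000010000000000000000000000000000000) := T_13 (nat_lit 192) (nat_lit 210) (nat_lit 7) (nat_lit 5) (nat_lit 8) L40156 (by decide +kernel)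
theorem L40158 : W_13 (nat_lit 2) (nat_lit 0x60002c0004001a00090000800000000000000000000000000) (nat_lit 0x0) (nat_lit 0x8000400020000000000000000000000) := D_13 (nat_lit 106) (nat_lit 89) (nat_lit 123) (nat_lit 4) (nat_lit 5) (nat_lit 9) (nat_lit 4) (nat_lit 5) (nat_lit 10) (by decide +kernel)
theorem L40159 : W_13 (nat_lit 3) (nat_lit 0x60002c0004001a00090000000000000000000000000000000) (nat_lit 0x0) (nat_lit 0x2000000008000c00020000000000000000000000) := T_13 (nat_lit 107) (nat_lit 157) (nat_lit 5) (nat_lit 5) (nat_lit 6) L40158 (by decide +kernel)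
theorem L40160 : W_13 (nat_lit 4) (nat_lit 0x6000280004001a00090000000000000000000000000000000) (nat_lit 0x0) (nat_lit 0x800040002000000008000c00020000000000000000000000) := T_13 (nat_lit 174) (nat_lit 191) (nat_lit 5) (nat_lit 5) (nat_lit 7) L40159 (by decide +kernel)
theorem L40161 : W_13 (nat_lit 5) (nat_lit 0x6000280004001a00080000000000000000000000000000000) (nat_lit 0x0) (nat_lit 0x800140002000000018000c00020000000000000000000000) := T_13 (nat_lit 124) (nat_lit 176) (nat_lit 7) (nat_lit 5) (nat_lit 7) L40160 (by decide +kernel)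
theorem L40162 : W_13 (nat_lit 6) (nat_lit 0x2000280004001a00080000000000000000000000000000000) (nat_lit 0x0) (nat_lit 0x4800140012000000018000c00020000000000000000000000) := T_13 (nat_lit 194) (nat_lit 160) (nat_lit 6) (nat_lit 7) (nat_lit 11) L40161 (by decide +kernel)
theorem L40163 : W_13 (nat_lit 2) (nat_lit 0x7000280004001a00090000c00000000000000000000000000) (nat_lit 0x0) (nat_lit 0x8000040002000000000000000000000000000000000000000) := D_13 (nat_lit 174) (nat_lit 195) (nat_lit 157) (nat_lit 0) (nat_lit 8) (nat_lit 11) (nat_lit 5) (nat_lit 5) (nat_lit 6) (by decide +kernel)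
theorem L40164 : W_13 (nat_lit 3) (nat_lit 0x3000280004001a00090000c00000000000000000000000000) (nat_lit 0x0) (nat_lit 0xc000040012000000000000000000000000000000000000000) := T_13 (nat_lit 194) (nat_lit 160) (nat_lit 6) (nat_lit 7) (nat_lit 11) L40163 (by decide +kernel)
theorem L40165 : W_13 (nat_lit 4) (nat_lit 0x3000280004001a00090000400000000000000000000000000) (nat_lit 0x0) (nat_lit 0xc000040012000000000000800020000000000000000000000) := T_13 (nat_lit 107) (nat_lit 89) (nat_lit 4) (nat_lit 5) (nat_lit 9) L40164 (by decide +kernel)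
theorem L40166 : W_13 (nat_lit 5) (nat_lit 0x2000280004001a00090000400000000000000000000000000) (nat_lit 0x0) (nat_lit 0x4000d000040012000000000000800020000000000000000000000) := T_13 (nat_lit 192) (nat_lit 210) (nat_lit 7) (nat_lit 5) (nat_lit 8) L40165 (by decide +kernel)
theorem L40167 : W_13 (nat_lit 6) (nat_lit 0x2000280004001a00090000000000000000000000000000000) (nat_lit 0x0) (nat_lit 0x4000d000040012000000008000c00020000000000000000000000) := T_13 (nat_lit 106) (nat_lit 123) (nat_lit 4) (nat_lit 5) (nat_lit 10) L40166 (by decide +kernel)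
theorem L40168 : W_13 (nat_lit 7) (nat_lit 0x2000280004001a00080000000000000000000000000000000) (nat_lit 0x0) (nat_lit 0x4000d000140012000000018000c00020000000000000000000000) := T_13 (nat_lit 124) (nat_lit 176) (nat_lit 7) (nat_lit 5) (nat_lit 7) L40167 (by decide +kernel)
theorem L40169 : W_13 (nat_lit 9) (nat_lit 0x280004001a00080000000000000000000000000000000) (nat_lit 0x0) (nat_lit 0x200030007c00fc00170012000000018000c00020000000000000000000000) := Q_13 (nat_lit 193) (C_13 L40146 (C_13 L40099 (C_13 L40147 (C_13 L40153 (C_13 L40157 (C_13 L40162 (C_13 L40168 N_13))))))) (by decide +kernel)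
theorem L40170 : W_13 (nat_lit 2) (nat_lit 0x3c0014001a00098000000000000000000000000000000) (nat_lit 0x0) (nat_lit 0x2000a000000000000000000000000000000000000000) := D_13 (nat_lit 159) (nat_lit 173) (nat_lit 157) (nat_lit 2) (nat_lit 3) (nat_lit 10) (nat_lit 2) (nat_lit 4) (nat_lit 9) (by decide +kernel)
theorem L40171 : W_13 (nat_lit 3) (nat_lit 0x3c0004001a00098000000000000000000000000000000) (nat_lit 0x0) (nat_lit 0x2003a000000000000000000000000000000000000000) := T_13 (nat_lit 160) (nat_lit 161) (nat_lit 2) (nat_lit 4) (nat_lit 10) L40170 (by decide +kernel)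
theorem L40172 : W_13 (nat_lit 4) (nat_lit 0x380004001a00098000000000000000000000000000000) (nat_lit 0x0) (nat_lit 0x80006003a000000000000000000000000000000000000000) := T_13 (nat_lit 174) (nat_lit 191) (nat_lit 5) (nat_lit 5) (nat_lit 7) L40171 (by decide +kernel)
theorem L40173 : W_13 (nat_lit 5) (nat_lit 0x280004001a00098000000000000000000000000000000) (nat_lit 0x0) (nat_lit 0x280016003a000000000000000000000000000000000000000) := T_13 (nat_lit 176) (nat_lit 193) (nat_lit 7) (nat_lit 5) (nat_lit 7) L40172 (by decide +kernel)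
theorem L40174 : W_13 (nat_lit 6) (nat_lit 0x280004001a00090000000000000000000000000000000) (nat_lit 0x0) (nat_lit 0x280016003a000000008000400000000000000000000000000) := T_13 (nat_lit 123) (nat_lit 106) (nat_lit 4) (nat_lit 5) (nat_lit 10) L40173 (by decide +kernel)
theorem L40175 : W_13 (nat_lit 7) (nat_lit 0x280004001a00080000000000000000000000000000000) (nat_lit 0x0) (nat_lit 0x280016003a000000018000c00020000000000000000000000) := Q_13 (nat_lit 124) (C_13 L40121 (C_13 L40135 (C_13 L40174 (C_13 L40132 N_13)))) (by decide +kernel)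
theorem L40176 : W_13 (nat_lit 2) (nat_lit 0x10007000280004001a00080000000000000000000000000000000) (nat_lit 0x0) (nat_lit 0x200020008000000000000000000000000000000000000000000000000) := D_13 (nat_lit 209) (nat_lit 195) (nat_lit 225) (nat_lit 1) (nat_lit 8) (nat_lit 11) (nat_lit 5) (nat_lit 5) (nat_lit 9) (by decide +kernel)
theorem L40177 : W_13 (nat_lit 3) (nat_lit 0x7000280004001a00080000000000000000000000000000000) (nat_lit 0x0) (nat_lit 0x200030008800000000000000000000000000000000000000000000000) := T_13 (nat_lit 208) (nat_lit 191) (nat_lit 5) (nat_lit 5) (nat_lit 8) L40176 (by decide +kernel)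
theorem L40178 : W_13 (nat_lit 4) (nat_lit 0x6000280004001a00080000000000000000000000000000000) (nat_lit 0x0) (nat_lit 0x200070009800000000000000000000000000000000000000000000000) := T_13 (nat_lit 192) (nat_lit 210) (nat_lit 7) (nat_lit 5) (nat_lit 8) L40177 (by decide +kernel)
theorem L40179 : W_13 (nat_lit 5) (nat_lit 0x2000280004001a00080000000000000000000000000000000) (nat_lit 0x0) (nat_lit 0x20007000d800000010000000000000000000000000000000000000000) := T_13 (nat_lit 194) (nat_lit 160) (nat_lit 6) (nat_lit 7) (nat_lit 11) L40178 (by decide +kernel)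
theorem L40180 : W_13 (nat_lit 2) (nat_lit 0x3800280004001a00080000000000000000000000000000000) (nat_lit 0x0) (nat_lit 0x400100000000000010000000000000000000000000000000) := D_13 (nat_lit 176) (nat_lit 190) (nat_lit 124) (nat_lit 2) (nat_lit 3) (nat_lit 11) (nat_lit 7) (nat_lit 5) (nat_lit 7) (by decide +kernel)
theorem L40181 : W_13 (nat_lit 3) (nat_lit 0x3000280004001a00080000000000000000000000000000000) (nat_lit 0x0) (nat_lit 0x10000c00100000000000010000000000000000000000000000000) := T_13 (nat_lit 191) (nat_lit 208) (nat_lit 5) (nat_lit 5) (nat_lit 8) L40180 (by decide +kernel)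
theorem L40182 : W_13 (nat_lit 4) (nat_lit 0x2000280004001a00080000000000000000000000000000000) (nat_lit 0x0) (nat_lit 0x50001c00100000000000010000000000000000000000000000000) := T_13 (nat_lit 192) (nat_lit 210) (nat_lit 7) (nat_lit 5) (nat_lit 8) L40181 (by decide +kernel)
theorem L40183 : W_13 (nat_lit 2) (nat_lit 0x2000380004001a00080000000000000000000000000000000) (nat_lit 0x0) (nat_lit 0x4000000010000000040000000000000000000000000000000) := D_13 (nat_lit 160) (nat_lit 194) (nat_lit 126) (nat_lit 6) (nat_lit 7) (nat_lit 11) (nat_lit 5) (nat_lit 7) (nat_lit 7) (by decide +kernel)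
theorem L40184 : W_13 (nat_lit 3) (nat_lit 0x2000280004001a00080000000000000000000000000000000) (nat_lit 0x0) (nat_lit 0x4000100010000000050000000000000000000000000000000) := T_13 (nat_lit 176) (nat_lit 124) (nat_lit 7) (nat_lit 5) (nat_lit 7) L40183 (by decide +kernel)
theorem L40185 : W_13 (nat_lit 6) (nat_lit 0x280004001a00080000000000000000000000000000000) (nat_lit 0x0) (nat_lit 0x20007000fc00100010000000050000000000000000000000000000000) := Q_13 (nat_lit 193) (C_13 L40179 (C_13 L40182 (C_13 L40184 N_13))) (by decide +kernel)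
theorem L40186 : W_13 (nat_lit 11) (nat_lit 0x200004001a00080000000000000000000000000000000) (nat_lit 0x0) (nat_lit 0x200030007c00ff039f01fb800000058000c00020000000000000000000000) := Q_13 (nat_lit 175) (C_13 L40118 (C_13 L40136 (C_13 L40142 (C_13 L40169 (C_13 L40175 (C_13 L40185 N_13)))))) (by decide +kernel)
theorem L40187 : W_13 (nat_lit 2) (nat_lit 0x200004001a00090000000000000000000000000000000) (nat_lit 0x0) (nat_lit 0x400108000000000000000000000000000000) := D_13 (nat_lit 142) (nat_lit 128) (nat_lit 123) (nat_lit 2) (nat_lit 5) (nat_lit 8) (nat_lit 0) (nat_lit 8) (nat_lit 8) (by decide +kernel)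
theorem L40190 : W_13 (nat_lit 4) (nat_lit 0x4000200004001a00090001800000000000000000000000000) (nat_lit 0x0) (nat_lit 0x8000000000004c002400020000000000000000000000) := T_13 (nat_lit 106) (nat_lit 89) (nat_lit 4) (nat_lit 5) (nat_lit 9) L40189 (by decide +kernel)
theorem L40191 : W_13 (nat_lit 5) (nat_lit 0x4000200004001a00090000800000000000000000000000000) (nat_lit 0x0) (nat_lit 0x8000000000004c0034000a0000000000000000000000) := T_13 (nat_lit 108) (nat_lit 91) (nat_lit 6) (nat_lit 5) (nat_lit 9) L40190 (by decide +kernel)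
theorem L40192 : W_13 (nat_lit 6) (nat_lit 0x200004001a00090000800000000000000000000000000) (nat_lit 0x0) (nat_lit 0x400008001000000004c0034000a0000000000000000000000) := T_13 (nat_lit 194) (nat_lit 160) (nat_lit 6) (nat_lit 7) (nat_lit 11) L40191 (by decide +kernel)
theorem L40193 : W_13 (nat_lit 2) (nat_lit 0x300014001a00090001c00000000000000000000000000) (nat_lit 0x0) (nat_lit 0x2000000000000000040002000000000000000000000000000) := D_13 (nat_lit 126) (nat_lit 109) (nat_lit 193) (nat_lit 3) (nat_lit 4) (nat_lit 6) (nat_lit 5) (nat_lit 7) (nat_lit 7) (by decide +kernel)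
theorem L40194 : W_13 (nat_lit 3) (nat_lit 0x300014001a00090000c00000000000000000000000000) (nat_lit 0x0) (nat_lit 0x2000000000000000040003000080000000000000000000000) := T_13 (nat_lit 108) (nat_lit 91) (nat_lit 6) (nat_lit 5) (nat_lit 9) L40193 (by decide +kernel)
theorem L40195 : W_13 (nat_lit 4) (nat_lit 0x300004001a00090000c00000000000000000000000000) (nat_lit 0x0) (nat_lit 0x6000000010000000040003000080000000000000000000000) := T_13 (nat_lit 160) (nat_lit 194) (nat_lit 6) (nat_lit 7) (nat_lit 11) L40194 (by decide +kernel)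
theorem L40196 : W_13 (nat_lit 5) (nat_lit 0x200004001a00090000c00000000000000000000000000) (nat_lit 0x0) (nat_lit 0x6000100018000000040003000080000000000000000000000) := T_13 (nat_lit 176) (nat_lit 159) (nat_lit 7) (nat_lit 5) (nat_lit 6) L40195 (by decide +kernel)
theorem L40197 : W_13 (nat_lit 6) (nat_lit 0x200004001a00090000800000000000000000000000000) (nat_lit 0x0) (nat_lit 0x60001000180000000400034000a0000000000000000000000) := T_13 (nat_lit 106) (nat_lit 89) (nat_lit 4) (nat_lit 5) (nat_lit 9) L40196 (by decide +kernel)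
theorem L40198 : W_13 (nat_lit 2) (nat_lit 0x20000c001a00090003c00000000000000000000000000) (nat_lit 0x0) (nat_lit 0x8000000000000c000000000000000000000000000000) := D_13 (nat_lit 123) (nat_lit 175) (nat_lit 122) (nat_lit 4) (nat_lit 5) (nat_lit 10) (nat_lit 1) (nat_lit 7) (nat_lit 6) (by decide +kernel)
theorem L40199 : W_13 (nat_lit 3) (nat_lit 0x20000c001a00090001c00000000000000000000000000) (nat_lit 0x0) (nat_lit 0x8000000000004c002000000000000000000000000000) := T_13 (nat_lit 109) (nat_lit 126) (nat_lit 3) (nat_lit 4) (nat_lit 6) L40198 (by decide +kernel)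
theorem L40200 : W_13 (nat_lit 4) (nat_lit 0x20000c001a00090001800000000000000000000000000) (nat_lit 0x0) (nat_lit 0x8000000000004c002400020000000000000000000000) := T_13 (nat_lit 106) (nat_lit 89) (nat_lit 4) (nat_lit 5) (nat_lit 9) L40199 (by decide +kernel)
theorem L40201 : W_13 (nat_lit 5) (nat_lit 0x200004001a00090001800000000000000000000000000) (nat_lit 0x0) (nat_lit 0x18000800000004c002400020000000000000000000000) := T_13 (nat_lit 159) (nat_lit 176) (nat_lit 7) (nat_lit 5) (nat_lit 6) L40200 (by decide +kernel)
theorem L40202 : W_13 (nat_lit 6) (nat_lit 0x200004001a00090000800000000000000000000000000) (nat_lit 0x0) (nat_lit 0x18000800000004c0034000a0000000000000000000000) := T_13 (nat_lit 108) (nat_lit 91) (nat_lit 6) (nat_lit 5) (nat_lit 9) L40201 (by decide +kernel)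
theorem L40203 : W_13 (nat_lit 2) (nat_lit 0x4000280004001a00090000c00000000000000000000000000) (nat_lit 0x0) (nat_lit 0x2000100008000000000000000000000000000000000000000) := D_13 (nat_lit 176) (nat_lit 159) (nat_lit 193) (nat_lit 7) (nat_lit 5) (nat_lit 6) (nat_lit 7) (nat_lit 5) (nat_lit 7) (by decide +kernel)
theorem L40204 : W_13 (nat_lit 3) (nat_lit 0x4000200004001a00090000c00000000000000000000000000) (nat_lit 0x0) (nat_lit 0x2000180008000000008000000000000000000000000000000) := T_13 (nat_lit 175) (nat_lit 123) (nat_lit 4) (nat_lit 5) (nat_lit 10) L40203 (by decide +kernel)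
theorem L40205 : W_13 (nat_lit 4) (nat_lit 0x200004001a00090000c00000000000000000000000000) (nat_lit 0x0) (nat_lit 0x6000180018000000008000000000000000000000000000000) := T_13 (nat_lit 194) (nat_lit 160) (nat_lit 6) (nat_lit 7) (nat_lit 11) L40204 (by decide +kernel)
theorem L40206 : W_13 (nat_lit 5) (nat_lit 0x200004001a00090000800000000000000000000000000) (nat_lit 0x0) (nat_lit 0x6000180018000000008000400020000000000000000000000) := T_13 (nat_lit 106) (nat_lit 89) (nat_lit 4) (nat_lit 5) (nat_lit 9) L40205 (by decide +kernel)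
theorem L40207 : W_13 (nat_lit 2) (nat_lit 0x4000380004001a00090001800000000000000000000000000) (nat_lit 0x0) (nat_lit 0x8800040000000000000000000000000000000000000000000) := D_13 (nat_lit 174) (nat_lit 191) (nat_lit 195) (nat_lit 5) (nat_lit 5) (nat_lit 7) (nat_lit 3) (nat_lit 4) (nat_lit 10) (by decide +kernel)
theorem L40208 : W_13 (nat_lit 3) (nat_lit 0x4000300004001a00090001800000000000000000000000000) (nat_lit 0x0) (nat_lit 0xa8000c0000000000000000000000000000000000000000000) := T_13 (nat_lit 175) (nat_lit 193) (nat_lit 7) (nat_lit 5) (nat_lit 7) L40207 (by decide +kernel)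
theorem L40209 : W_13 (nat_lit 4) (nat_lit 0x4000200004001a00090001800000000000000000000000000) (nat_lit 0x0) (nat_lit 0xa8001c0008000000000000000000000000000000000000000) := T_13 (nat_lit 176) (nat_lit 159) (nat_lit 7) (nat_lit 5) (nat_lit 6) L40208 (by decide +kernel)
theorem L40210 : W_13 (nat_lit 5) (nat_lit 0x200004001a00090001800000000000000000000000000) (nat_lit 0x0) (nat_lit 0xe8001c0018000000000000000000000000000000000000000) := T_13 (nat_lit 194) (nat_lit 160) (nat_lit 6) (nat_lit 7) (nat_lit 11) L40209 (by decide +kernel)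
theorem L40211 : W_13 (nat_lit 6) (nat_lit 0x200004001a00090000800000000000000000000000000) (nat_lit 0x0) (nat_lit 0xe8001c0018000000000001000080000000000000000000000) := T_13 (nat_lit 108) (nat_lit 91) (nat_lit 6) (nat_lit 5) (nat_lit 9) L40210 (by decide +kernel)
theorem L40212 : W_13 (nat_lit 7) (nat_lit 0x200004001a00090000000000000000000000000000000) (nat_lit 0x0) (nat_lit 0xe8001c001800000004c003c000a0000000000000000000000) := Q_13 (nat_lit 107) (C_13 L40192 (C_13 L40197 (C_13 L40202 (C_13 L40206 (C_13 L40211 N_13))))) (by decide +kernel)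
theorem L40213 : W_13 (nat_lit 2) (nat_lit 0x4000200004001e00090001800020000000000000000000000) (nat_lit 0x0) (nat_lit 0x8000000000000000040001000000000000000000) := D_13 (nat_lit 90) (nat_lit 72) (nat_lit 159) (nat_lit 4) (nat_lit 5) (nat_lit 8) (nat_lit 7) (nat_lit 5) (nat_lit 5) (by decide +kernel)
theorem L40214 : W_13 (nat_lit 3) (nat_lit 0x4000200004001a00090001800020000000000000000000000) (nat_lit 0x0) (nat_lit 0x8000400100000000040001000000000000000000) := T_13 (nat_lit 142) (nat_lit 128) (nat_lit 2) (nat_lit 5) (nat_lit 8) L40213 (by decide +kernel)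
theorem L40215 : W_13 (nat_lit 4) (nat_lit 0x4000200004001a00090001800000000000000000000000000) (nat_lit 0x0) (nat_lit 0x8000400100000400060001000000000000000000) := T_13 (nat_lit 89) (nat_lit 106) (nat_lit 4) (nat_lit 5) (nat_lit 9) L40214 (by decide +kernel)
theorem L40216 : W_13 (nat_lit 5) (nat_lit 0x4000200004001a00090000800000000000000000000000000) (nat_lit 0x0) (nat_lit 0x80004001000014000e0001000000000000000000) := T_13 (nat_lit 108) (nat_lit 91) (nat_lit 6) (nat_lit 5) (nat_lit 9) L40215 (by decide +kernel)
theorem L40217 : W_13 (nat_lit 6) (nat_lit 0x200004001a00090000800000000000000000000000000) (nat_lit 0x0) (nat_lit 0x40000000180004001000014000e0001000000000000000000) := T_13 (nat_lit 194) (nat_lit 160) (nat_lit 6) (nat_lit 7) (nat_lit 11) L40216 (by decide +kernel)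
theorem L40218 : W_13 (nat_lit 2) (nat_lit 0x20000c001a00090000800000000000000000000000000) (nat_lit 0x0) (nat_lit 0x400100000000040000000000000000000000) := D_13 (nat_lit 142) (nat_lit 90) (nat_lit 128) (nat_lit 7) (nat_lit 5) (nat_lit 5) (nat_lit 2) (nat_lit 5) (nat_lit 8) (by decide +kernel)
theorem L40219 : W_13 (nat_lit 3) (nat_lit 0x200004001a00090000800000000000000000000000000) (nat_lit 0x0) (nat_lit 0x100008000400100000000040000000000000000000000) := T_13 (nat_lit 159) (nat_lit 176) (nat_lit 7) (nat_lit 5) (nat_lit 6) L40218 (by decide +kernel)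
theorem L40220 : W_13 (nat_lit 2) (nat_lit 0x4000200024001e000900008000a0000000000000000000000) (nat_lit 0x0) (nat_lit 0x40005000000000000000000) := D_13 (nat_lit 90) (nat_lit 74) (nat_lit 72) (nat_lit 6) (nat_lit 5) (nat_lit 8) (nat_lit 4) (nat_lit 5) (nat_lit 8) (by decide +kernel)
theorem L40221 : W_13 (nat_lit 3) (nat_lit 0x4000200024001e00090000800080000000000000000000000) (nat_lit 0x0) (nat_lit 0x400060005000000000000000000) := T_13 (nat_lit 89) (nat_lit 106) (nat_lit 4) (nat_lit 5) (nat_lit 9) L40220 (by decide +kernel)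
theorem L40222 : W_13 (nat_lit 4) (nat_lit 0x4000200024001e00090000800000000000000000000000000) (nat_lit 0x0) (nat_lit 0x14000e0005000000000000000000) := T_13 (nat_lit 91) (nat_lit 108) (nat_lit 6) (nat_lit 5) (nat_lit 9) L40221 (by decide +kernel)
theorem L40223 : W_13 (nat_lit 5) (nat_lit 0x4000200004001e00090000800000000000000000000000000) (nat_lit 0x0) (nat_lit 0x600000000000014000e0005000000000000000000) := T_13 (nat_lit 161) (nat_lit 162) (nat_lit 3) (nat_lit 5) (nat_lit 8) L40222 (by decide +kernel)
theorem L40224 : W_13 (nat_lit 6) (nat_lit 0x200004001e00090000800000000000000000000000000) (nat_lit 0x0) (nat_lit 0x40000000700000000000014000e0005000000000000000000) := T_13 (nat_lit 194) (nat_lit 160) (nat_lit 6) (nat_lit 7) (nat_lit 11) L40223 (by decide +kernel)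
theorem L40225 : W_13 (nat_lit 7) (nat_lit 0x200004001a00090000800000000000000000000000000) (nat_lit 0x0) (nat_lit 0x40000000700004001000014000e0005000000000000000000) := T_13 (nat_lit 142) (nat_lit 128) (nat_lit 2) (nat_lit 5) (nat_lit 8) L40224 (by decide +kernel)
theorem L40226 : W_13 (nat_lit 8) (nat_lit 0x200004001a00090000000000000000000000000000000) (nat_lit 0x0) (nat_lit 0xe8001c0078000400100001c000e0005000000000000000000) := Q_13 (nat_lit 107) (C_13 L40217 (C_13 L40211 (C_13 L40219 (C_13 L40225 N_13)))) (by decide +kernel)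
theorem L40227 : W_13 (nat_lit 9) (nat_lit 0x200004001a00080000000000000000000000000000000) (nat_lit 0x0) (nat_lit 0xe8001c007800040015c003c000e0005000000000000000000) := Q_13 (nat_lit 124) (C_13 L40187 (C_13 L40212 (C_13 L40226 N_13))) (by decide +kernel)
theorem L40228 : W_13 (nat_lit 12) (nat_lit 0x200000001a00080000000000000000000000000000000) (nat_lit 0x0) (nat_lit 0x200030007c00ff039f01ff80040015c003c000e0005000000000000000000) := Q_13 (nat_lit 158) (C_13 L40115 (C_13 L40186 (C_13 L40227 N_13))) (by decide +kernel)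
theorem L40229 : W_13 (nat_lit 9) (nat_lit 0x200000001a00080000000000000000000000000000000) (nat_lit 0x0) (nat_lit 0x40000000b000c40076003b000580028000000000000000000) := Q_13 (nat_lit 126) (C_13 L31890 (C_13 L33712 (C_13 L31898 N_13))) (by decide +kernel)
theorem L40230 : W_13 (nat_lit 2) (nat_lit 0x4000300004001a000900008000a0000000000000000000000) (nat_lit 0x0) (nat_lit 0x40005000000000000000000) := D_13 (nat_lit 90) (nat_lit 74) (nat_lit 72) (nat_lit 6) (nat_lit 5) (nat_lit 8) (nat_lit 4) (nat_lit 5) (nat_lit 8) (by decide +kernel)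
theorem L40231 : W_13 (nat_lit 3) (nat_lit 0x4000300004001a00090000800080000000000000000000000) (nat_lit 0x0) (nat_lit 0x400060005000000000000000000) := T_13 (nat_lit 89) (nat_lit 106) (nat_lit 4) (nat_lit 5) (nat_lit 9) L40230 (by decide +kernel)
theorem L40232 : W_13 (nat_lit 4) (nat_lit 0x4000300004001a00090000800000000000000000000000000) (nat_lit 0x0) (nat_lit 0x14000e0005000000000000000000) := T_13 (nat_lit 91) (nat_lit 108) (nat_lit 6) (nat_lit 5) (nat_lit 9) L40231 (by decide +kernel)
theorem L40233 : W_13 (nat_lit 5) (nat_lit 0x4000300004001a00090000000000000000000000000000000) (nat_lit 0x0) (nat_lit 0x8000000000001c000e0005000000000000000000) := T_13 (nat_lit 107) (nat_lit 159) (nat_lit 7) (nat_lit 5) (nat_lit 6) L40232 (by decide +kernel)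
theorem L40234 : W_13 (nat_lit 6) (nat_lit 0x300004001a00090000000000000000000000000000000) (nat_lit 0x0) (nat_lit 0x4000000018000000000001c000e0005000000000000000000) := T_13 (nat_lit 194) (nat_lit 160) (nat_lit 6) (nat_lit 7) (nat_lit 11) L40233 (by decide +kernel)
theorem L40235 : W_13 (nat_lit 2) (nat_lit 0x300004001a00090001800000000000000000000000000) (nat_lit 0x0) (nat_lit 0x2000080000000000020000000000000000000000000000000) := D_13 (nat_lit 175) (nat_lit 193) (nat_lit 125) (nat_lit 7) (nat_lit 5) (nat_lit 7) (nat_lit 6) (nat_lit 5) (nat_lit 10) (by decide +kernel)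
theorem L40236 : W_13 (nat_lit 3) (nat_lit 0x300004001a00090000800000000000000000000000000) (nat_lit 0x0) (nat_lit 0x2000080000000000020001000080000000000000000000000) := T_13 (nat_lit 108) (nat_lit 91) (nat_lit 6) (nat_lit 5) (nat_lit 9) L40235 (by decide +kernel)
theorem L40237 : W_13 (nat_lit 4) (nat_lit 0x300004001a00090000000000000000000000000000000) (nat_lit 0x0) (nat_lit 0x2000080008000000020001800080000000000000000000000) := T_13 (nat_lit 107) (nat_lit 159) (nat_lit 7) (nat_lit 5) (nat_lit 6) L40236 (by decide +kernel)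
theorem L40238 : W_13 (nat_lit 2) (nat_lit 0x380004001a000b0000000000000000000000000000000) (nat_lit 0x0) (nat_lit 0x48000400000000000000000000000000) := D_13 (nat_lit 123) (nat_lit 126) (nat_lit 106) (nat_lit 3) (nat_lit 4) (nat_lit 7) (nat_lit 4) (nat_lit 5) (nat_lit 10) (by decide +kernel)
theorem L40239 : W_13 (nat_lit 3) (nat_lit 0x380004001a00090000000000000000000000000000000) (nat_lit 0x0) (nat_lit 0x68001400000000000000000000000000) := T_13 (nat_lit 125) (nat_lit 108) (nat_lit 6) (nat_lit 5) (nat_lit 10) L40238 (by decide +kernel)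
theorem L40240 : W_13 (nat_lit 4) (nat_lit 0x300004001a00090000000000000000000000000000000) (nat_lit 0x0) (nat_lit 0x2000080000000000068001400000000000000000000000000) := T_13 (nat_lit 175) (nat_lit 193) (nat_lit 7) (nat_lit 5) (nat_lit 7) L40239 (by decide +kernel)
theorem L40241 : W_13 (nat_lit 2) (nat_lit 0x4000300004001a00090000c00000000000000000000000000) (nat_lit 0x0) (nat_lit 0x2000080000000000008000000000000000000000000000000) := D_13 (nat_lit 175) (nat_lit 193) (nat_lit 123) (nat_lit 7) (nat_lit 5) (nat_lit 7) (nat_lit 4) (nat_lit 5) (nat_lit 10) (by decide +kernel)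
theorem L40242 : W_13 (nat_lit 3) (nat_lit 0x4000300004001a00090000800000000000000000000000000) (nat_lit 0x0) (nat_lit 0x2000080000000000008000400020000000000000000000000) := T_13 (nat_lit 106) (nat_lit 89) (nat_lit 4) (nat_lit 5) (nat_lit 9) L40241 (by decide +kernel)
theorem L40243 : W_13 (nat_lit 4) (nat_lit 0x4000300004001a00090000000000000000000000000000000) (nat_lit 0x0) (nat_lit 0x2000080008000000008000c00020000000000000000000000) := T_13 (nat_lit 107) (nat_lit 159) (nat_lit 7) (nat_lit 5) (nat_lit 6) L40242 (by decide +kernel)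
theorem L40244 : W_13 (nat_lit 5) (nat_lit 0x300004001a00090000000000000000000000000000000) (nat_lit 0x0) (nat_lit 0x6000080018000000008000c00020000000000000000000000) := T_13 (nat_lit 194) (nat_lit 160) (nat_lit 6) (nat_lit 7) (nat_lit 11) L40243 (by decide +kernel)
theorem L40245 : W_13 (nat_lit 7) (nat_lit 0x200004001a00090000000000000000000000000000000) (nat_lit 0x0) (nat_lit 0x6000180018000000068001c000e0005000000000000000000) := Q_13 (nat_lit 176) (C_13 L40234 (C_13 L40237 (C_13 L40240 (C_13 L40244 N_13)))) (by decide +kernel)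
theorem L40246 : W_13 (nat_lit 9) (nat_lit 0x200004001a00080000000000000000000000000000000) (nat_lit 0x0) (nat_lit 0xe8001c0078000400178001c000e0005000000000000000000) := Q_13 (nat_lit 124) (C_13 L40187 (C_13 L40226 (C_13 L40245 N_13))) (by decide +kernel)
theorem L40247 : W_13 (nat_lit 12) (nat_lit 0x200000001a00080000000000000000000000000000000) (nat_lit 0x0) (nat_lit 0x200030007c00ff039f01ff800400178001c000e0005000000000000000000) := Q_13 (nat_lit 158) (C_13 L40115 (C_13 L40186 (C_13 L40246 N_13))) (by decide +kernel)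
theorem L40248 : W_13 (nat_lit 2) (nat_lit 0x4000280004001a00090001400000000000000000000000000) (nat_lit 0x0) (nat_lit 0x8000a0000000000000000000000) := D_13 (nat_lit 107) (nat_lit 91) (nat_lit 89) (nat_lit 6) (nat_lit 5) (nat_lit 9) (nat_lit 4) (nat_lit 5) (nat_lit 9) (by decide +kernel)
theorem L40249 : W_13 (nat_lit 3) (nat_lit 0x4000280004001a00090001000000000000000000000000000) (nat_lit 0x0) (nat_lit 0x8000c000a0000000000000000000000) := T_13 (nat_lit 106) (nat_lit 123) (nat_lit 4) (nat_lit 5) (nat_lit 10) L40248 (by decide +kernel)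
theorem L40250 : W_13 (nat_lit 4) (nat_lit 0x4000280004001a00090000000000000000000000000000000) (nat_lit 0x0) (nat_lit 0x28001c000a0000000000000000000000) := T_13 (nat_lit 108) (nat_lit 125) (nat_lit 6) (nat_lit 5) (nat_lit 10) L40249 (by decide +kernel)
theorem L40251 : W_13 (nat_lit 5) (nat_lit 0x280004001a00090000000000000000000000000000000) (nat_lit 0x0) (nat_lit 0x4000000010000000028001c000a0000000000000000000000) := T_13 (nat_lit 194) (nat_lit 160) (nat_lit 6) (nat_lit 7) (nat_lit 11) L40250 (by decide +kernel)
theorem L40252 : W_13 (nat_lit 5) (nat_lit 0x4000280004001a000b8000000000000000000000000000000) (nat_lit 0x0) (nat_lit 0x20007000b800100000000000000000000000000000000000000000000) := T_13 (nat_lit 193) (nat_lit 176) (nat_lit 7) (nat_lit 5) (nat_lit 7) L32969 (by decide +kernel)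
theorem L40253 : W_13 (nat_lit 6) (nat_lit 0x280004001a000b8000000000000000000000000000000) (nat_lit 0x0) (nat_lit 0x20007000f800100010000000000000000000000000000000000000000) := T_13 (nat_lit 194) (nat_lit 160) (nat_lit 6) (nat_lit 7) (nat_lit 11) L40252 (by decide +kernel)
theorem L40254 : W_13 (nat_lit 7) (nat_lit 0x280004001a00098000000000000000000000000000000) (nat_lit 0x0) (nat_lit 0x20007000f800100010000000020001000000000000000000000000000) := T_13 (nat_lit 125) (nat_lit 108) (nat_lit 6) (nat_lit 5) (nat_lit 10) L40253 (by decide +kernel)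
theorem L40255 : W_13 (nat_lit 8) (nat_lit 0x280004001a00090000000000000000000000000000000) (nat_lit 0x0) (nat_lit 0x20007000f800100010000000028001400000000000000000000000000) := T_13 (nat_lit 123) (nat_lit 106) (nat_lit 4) (nat_lit 5) (nat_lit 10) L40254 (by decide +kernel)
theorem L40256 : W_13 (nat_lit 4) (nat_lit 0x280004001a00090000000000000000000000000000000) (nat_lit 0x0) (nat_lit 0x2000100008000000020001800080000000000000000000000) := T_13 (nat_lit 176) (nat_lit 193) (nat_lit 7) (nat_lit 5) (nat_lit 7) L14642 (by decide +kernel)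
theorem L40257 : W_13 (nat_lit 9) (nat_lit 0x280004001a00080000000000000000000000000000000) (nat_lit 0x0) (nat_lit 0x20007000f800100018000000038001c000a0000000000000000000000) := Q_13 (nat_lit 124) (C_13 L40251 (C_13 L40132 (C_13 L40255 (C_13 L40256 N_13)))) (by decide +kernel)
theorem L40258 : W_13 (nat_lit 11) (nat_lit 0x200004001a00080000000000000000000000000000000) (nat_lit 0x0) (nat_lit 0x200030007c00ff039f01fb800000038001c000a0000000000000000000000) := Q_13 (nat_lit 175) (C_13 L40142 (C_13 L40136 (C_13 L40175 (C_13 L40118 (C_13 L40169 (C_13 L40257 N_13)))))) (by decide +kernel)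
theorem L40259 : W_13 (nat_lit 9) (nat_lit 0x200004001a00090000000000000000000000000000000) (nat_lit 0x0) (nat_lit 0x20007000f800180018000000028001c000a0000000000000000000000) := Q_13 (nat_lit 175) (C_13 L40251 (C_13 L40256 (C_13 L40132 (C_13 L40255 N_13)))) (by decide +kernel)
theorem L40260 : W_13 (nat_lit 10) (nat_lit 0x200004001a00080000000000000000000000000000000) (nat_lit 0x0) (nat_lit 0x20007000f8001c0078000400138001c000e0005000000000000000000) := Q_13 (nat_lit 124) (C_13 L40187 (C_13 L40226 (C_13 L40259 N_13))) (by decide +kernel)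
theorem L40261 : W_13 (nat_lit 12) (nat_lit 0x200000001a00080000000000000000000000000000000) (nat_lit 0x0) (nat_lit 0x200030007c00ff039f01ff800400138001c000e0005000000000000000000) := Q_13 (nat_lit 158) (C_13 L40115 (C_13 L40258 (C_13 L40260 N_13))) (by decide +kernel)
theorem L40262 : W_13 (nat_lit 2) (nat_lit 0x200000001a000c0002000000000000000000000000000) (nat_lit 0x0) (nat_lit 0x20000000000000000100008000000000000000000) := D_13 (nat_lit 92) (nat_lit 75) (nat_lit 161) (nat_lit 7) (nat_lit 7) (nat_lit 4) (nat_lit 7) (nat_lit 7) (nat_lit 5) (by decide +kernel)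
theorem L40263 : W_13 (nat_lit 2) (nat_lit 0x200010001a002c0003000000000000000000000000000) (nat_lit 0x0) (nat_lit 0x2000100008000000000000000000000000000000000000000) := D_13 (nat_lit 176) (nat_lit 159) (nat_lit 193) (nat_lit 5) (nat_lit 7) (nat_lit 6) (nat_lit 5) (nat_lit 7) (nat_lit 7) (by decide +kernel)
theorem L40264 : W_13 (nat_lit 3) (nat_lit 0x200000001a002c0003000000000000000000000000000) (nat_lit 0x0) (nat_lit 0x2000100018000000000000000080000000000000000000000) := T_13 (nat_lit 160) (nat_lit 91) (nat_lit 4) (nat_lit 7) (nat_lit 9) L40263 (by decide +kernel)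
theorem L40265 : W_13 (nat_lit 4) (nat_lit 0x200000001a000c0003000000000000000000000000000) (nat_lit 0x0) (nat_lit 0x2000100018000000300000000080000000000000000000000) := T_13 (nat_lit 129) (nat_lit 128) (nat_lit 0) (nat_lit 10) (nat_lit 7) L40264 (by decide +kernel)
theorem L40266 : W_13 (nat_lit 2) (nat_lit 0x200000001a000c0003000000000000000000000000000) (nat_lit 0x0) (nat_lit 0x10000000020000000080000000000000000000000) := D_13 (nat_lit 160) (nat_lit 91) (nat_lit 125) (nat_lit 4) (nat_lit 7) (nat_lit 9) (nat_lit 4) (nat_lit 7) (nat_lit 10) (by decide +kernel)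
theorem L40267 : W_13 (nat_lit 2) (nat_lit 0x200010001a000c0003400000000000000000000000000) (nat_lit 0x0) (nat_lit 0x2000100008000000000000000000000000000000000000000) := D_13 (nat_lit 176) (nat_lit 159) (nat_lit 193) (nat_lit 5) (nat_lit 7) (nat_lit 6) (nat_lit 5) (nat_lit 7) (nat_lit 7) (by decide +kernel)
theorem L40268 : W_13 (nat_lit 3) (nat_lit 0x200000001a000c0003400000000000000000000000000) (nat_lit 0x0) (nat_lit 0x2000100018000000020000000000000000000000000000000) := T_13 (nat_lit 160) (nat_lit 125) (nat_lit 4) (nat_lit 7) (nat_lit 10) L40267 (by decide +kernel)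
theorem L40269 : W_13 (nat_lit 4) (nat_lit 0x200000001a000c0003000000000000000000000000000) (nat_lit 0x0) (nat_lit 0x2000100018000000020000c00000000000000000000000000) := T_13 (nat_lit 106) (nat_lit 107) (nat_lit 3) (nat_lit 4) (nat_lit 6) L40268 (by decide +kernel)
theorem L40270 : W_13 (nat_lit 6) (nat_lit 0x200000001a000c0002000000000000000000000000000) (nat_lit 0x0) (nat_lit 0x200010001c000000338001c00080004000000000000000000) := Q_13 (nat_lit 108) (C_13 L40090 (C_13 L40265 (C_13 L40266 (C_13 L40269 N_13)))) (by decide +kernel)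
theorem L40271 : W_13 (nat_lit 7) (nat_lit 0x200000001a000c0000000000000000000000000000000) (nat_lit 0x0) (nat_lit 0x200010003c000000338003c0018000c000000000000000000) := Q_13 (nat_lit 109) (C_13 L40262 (C_13 L40270 N_13)) (by decide +kernel)
theorem L40272 : W_13 (nat_lit 2) (nat_lit 0x200000001e000f0000800000000000000000000000000) (nat_lit 0x0) (nat_lit 0x100008000000000000000040000000000000000000000) := D_13 (nat_lit 159) (nat_lit 176) (nat_lit 90) (nat_lit 4) (nat_lit 6) (nat_lit 10) (nat_lit 7) (nat_lit 5) (nat_lit 5) (by decide +kernel)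
theorem L40273 : W_13 (nat_lit 3) (nat_lit 0x200000001e000f0000000000000000000000000000000) (nat_lit 0x0) (nat_lit 0x100008000000000000c00040000000000000000000000) := T_13 (nat_lit 107) (nat_lit 106) (nat_lit 0) (nat_lit 8) (nat_lit 7) L40272 (by decide +kernel)
theorem L40274 : W_13 (nat_lit 4) (nat_lit 0x200000001e000e0000000000000000000000000000000) (nat_lit 0x0) (nat_lit 0x100008000000018000c00040000000000000000000000) := T_13 (nat_lit 124) (nat_lit 123) (nat_lit 3) (nat_lit 4) (nat_lit 7) L40273 (by decide +kernel)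
theorem L40275 : W_13 (nat_lit 2) (nat_lit 0x200030001e000f0000800100000000000000000000000) (nat_lit 0x0) (nat_lit 0x8000000000000000040002000000000000000000) := D_13 (nat_lit 90) (nat_lit 73) (nat_lit 159) (nat_lit 7) (nat_lit 5) (nat_lit 4) (nat_lit 7) (nat_lit 5) (nat_lit 5) (by decide +kernel)
theorem L40276 : W_13 (nat_lit 3) (nat_lit 0x200030001e000f0000000100000000000000000000000) (nat_lit 0x0) (nat_lit 0x8000000000000c00040002000000000000000000) := T_13 (nat_lit 107) (nat_lit 106) (nat_lit 0) (nat_lit 8) (nat_lit 7) L40275 (by decide +kernel)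
theorem L40277 : W_13 (nat_lit 4) (nat_lit 0x200030001e000f0000000000000000000000000000000) (nat_lit 0x0) (nat_lit 0x8000000000002c00140002000000000000000000) := T_13 (nat_lit 92) (nat_lit 109) (nat_lit 7) (nat_lit 7) (nat_lit 5) L40276 (by decide +kernel)
theorem L40278 : W_13 (nat_lit 5) (nat_lit 0x200010001e000f0000000000000000000000000000000) (nat_lit 0x0) (nat_lit 0x68000000000002c00140002000000000000000000) := T_13 (nat_lit 161) (nat_lit 162) (nat_lit 3) (nat_lit 5) (nat_lit 8) L40277 (by decide +kernel)
theorem L40279 : W_13 (nat_lit 6) (nat_lit 0x200010001e000e0000000000000000000000000000000) (nat_lit 0x0) (nat_lit 0x68000000018002c00140002000000000000000000) := T_13 (nat_lit 124) (nat_lit 123) (nat_lit 3) (nat_lit 4) (nat_lit 7) L40278 (by decide +kernel)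
theorem L40280 : W_13 (nat_lit 7) (nat_lit 0x200000001e000e0000000000000000000000000000000) (nat_lit 0x0) (nat_lit 0x78000000018003c00140002000000000000000000) := T_13 (nat_lit 160) (nat_lit 108) (nat_lit 4) (nat_lit 7) (nat_lit 10) L40279 (by decide +kernel)
theorem L40281 : W_13 (nat_lit 2) (nat_lit 0x200004001e000e0000000000000000000000000000000) (nat_lit 0x0) (nat_lit 0x10000000000001000080000000000000000000000) := D_13 (nat_lit 108) (nat_lit 160) (nat_lit 91) (nat_lit 4) (nat_lit 7) (nat_lit 10) (nat_lit 5) (nat_lit 6) (nat_lit 5) (by decide +kernel)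
theorem L40282 : W_13 (nat_lit 3) (nat_lit 0x200000001e000e0000000000000000000000000000000) (nat_lit 0x0) (nat_lit 0x16000000000001000080000000000000000000000) := T_13 (nat_lit 158) (nat_lit 157) (nat_lit 1) (nat_lit 8) (nat_lit 8) L40281 (by decide +kernel)
theorem L40283 : W_13 (nat_lit 8) (nat_lit 0x200000001e000c0000000000000000000000000000000) (nat_lit 0x0) (nat_lit 0x10007e000000038003c001c0002000000000000000000) := Q_13 (nat_lit 125) (C_13 L40274 (C_13 L40280 (C_13 L40282 N_13))) (by decide +kernel)
theorem L40284 : W_13 (nat_lit 2) (nat_lit 0x200020002c001e000d0000800000000000000000000000000) (nat_lit 0x0) (nat_lit 0x20000400020000000000000000000000) := D_13 (nat_lit 106) (nat_lit 125) (nat_lit 89) (nat_lit 0) (nat_lit 8) (nat_lit 7) (nat_lit 4) (nat_lit 5) (nat_lit 9) (by decide +kernel)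
theorem L40285 : W_13 (nat_lit 3) (nat_lit 0x200020002c001e000d0000000000000000000000000000000) (nat_lit 0x0) (nat_lit 0x20000c00060000000000000000000000) := T_13 (nat_lit 107) (nat_lit 90) (nat_lit 7) (nat_lit 5) (nat_lit 5) L40284 (by decide +kernel)
theorem L40286 : W_13 (nat_lit 4) (nat_lit 0x200020002c001e000c0000000000000000000000000000000) (nat_lit 0x0) (nat_lit 0x38000c00060000000000000000000000) := T_13 (nat_lit 124) (nat_lit 123) (nat_lit 0) (nat_lit 8) (nat_lit 8) L40285 (by decide +kernel)
theorem L40287 : W_13 (nat_lit 5) (nat_lit 0x2000200028001e000c0000000000000000000000000000000) (nat_lit 0x0) (nat_lit 0x6000000038000c00060000000000000000000000) := T_13 (nat_lit 158) (nat_lit 157) (nat_lit 1) (nat_lit 8) (nat_lit 8) L40286 (by decide +kernel)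
theorem L40288 : W_13 (nat_lit 6) (nat_lit 0x200028001e000c0000000000000000000000000000000) (nat_lit 0x0) (nat_lit 0x2000100006000000038000c00060000000000000000000000) := T_13 (nat_lit 193) (nat_lit 176) (nat_lit 6) (nat_lit 6) (nat_lit 11) L40287 (by decide +kernel)
theorem L40289 : W_13 (nat_lit 7) (nat_lit 0x200008001e000c0000000000000000000000000000000) (nat_lit 0x0) (nat_lit 0x2000100066000000038000c00060000000000000000000000) := T_13 (nat_lit 161) (nat_lit 162) (nat_lit 3) (nat_lit 5) (nat_lit 8) L40288 (by decide +kernel)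
theorem L40290 : W_13 (nat_lit 2) (nat_lit 0x200008001e000d0000800100000000000000000000000) (nat_lit 0x0) (nat_lit 0x100006000000000000000000000000000000000000000) := D_13 (nat_lit 158) (nat_lit 157) (nat_lit 176) (nat_lit 1) (nat_lit 8) (nat_lit 8) (nat_lit 7) (nat_lit 5) (nat_lit 6) (by decide +kernel)
theorem L40291 : W_13 (nat_lit 3) (nat_lit 0x200008001e000d0000000100000000000000000000000) (nat_lit 0x0) (nat_lit 0x100006000000000000800040000000000000000000000) := T_13 (nat_lit 107) (nat_lit 90) (nat_lit 7) (nat_lit 5) (nat_lit 5) L40290 (by decide +kernel)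
theorem L40292 : W_13 (nat_lit 4) (nat_lit 0x200008001e000d0000000000000000000000000000000) (nat_lit 0x0) (nat_lit 0x100006000000000002800140000000000000000000000) := T_13 (nat_lit 92) (nat_lit 109) (nat_lit 5) (nat_lit 7) (nat_lit 5) L40291 (by decide +kernel)
theorem L40293 : W_13 (nat_lit 5) (nat_lit 0x200008001e000c0000000000000000000000000000000) (nat_lit 0x0) (nat_lit 0x100006000000018002800140000000000000000000000) := T_13 (nat_lit 124) (nat_lit 123) (nat_lit 0) (nat_lit 8) (nat_lit 8) L40292 (by decide +kernel)
theorem L40294 : W_13 (nat_lit 2) (nat_lit 0x30002c001e000c0000000000000000000000000000000) (nat_lit 0x0) (nat_lit 0x20002000100000000000000000000000) := D_13 (nat_lit 109) (nat_lit 92) (nat_lit 125) (nat_lit 7) (nat_lit 7) (nat_lit 5) (nat_lit 6) (nat_lit 6) (nat_lit 10) (by decide +kernel)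
theorem L40295 : W_13 (nat_lit 3) (nat_lit 0x20002c001e000c0000000000000000000000000000000) (nat_lit 0x0) (nat_lit 0x2000100000000000020002000100000000000000000000000) := T_13 (nat_lit 176) (nat_lit 193) (nat_lit 6) (nat_lit 6) (nat_lit 11) L40294 (by decide +kernel)
theorem L40296 : W_13 (nat_lit 4) (nat_lit 0x20000c001e000c0000000000000000000000000000000) (nat_lit 0x0) (nat_lit 0x2000100060000000020002000100000000000000000000000) := T_13 (nat_lit 161) (nat_lit 162) (nat_lit 3) (nat_lit 5) (nat_lit 8) L40295 (by decide +kernel)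
theorem L40297 : W_13 (nat_lit 5) (nat_lit 0x200008001e000c0000000000000000000000000000000) (nat_lit 0x0) (nat_lit 0x2000100066000000020002000100000000000000000000000) := T_13 (nat_lit 158) (nat_lit 157) (nat_lit 1) (nat_lit 8) (nat_lit 8) L40296 (by decide +kernel)
theorem L40298 : W_13 (nat_lit 2) (nat_lit 0x20002c001e000d0000800100000000000000000000000) (nat_lit 0x0) (nat_lit 0x20000400020000000000000000000000) := D_13 (nat_lit 106) (nat_lit 125) (nat_lit 89) (nat_lit 0) (nat_lit 8) (nat_lit 7) (nat_lit 4) (nat_lit 5) (nat_lit 9) (by decide +kernel)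
theorem L40299 : W_13 (nat_lit 3) (nat_lit 0x20002c001e000d0000000100000000000000000000000) (nat_lit 0x0) (nat_lit 0x20000c00060000000000000000000000) := T_13 (nat_lit 107) (nat_lit 90) (nat_lit 7) (nat_lit 5) (nat_lit 5) L40298 (by decide +kernel)
theorem L40300 : W_13 (nat_lit 4) (nat_lit 0x20002c001e000c0000000100000000000000000000000) (nat_lit 0x0) (nat_lit 0x38000c00060000000000000000000000) := T_13 (nat_lit 124) (nat_lit 123) (nat_lit 0) (nat_lit 8) (nat_lit 8) L40299 (by decide +kernel)
theorem L40301 : W_13 (nat_lit 5) (nat_lit 0x20002c001e000c0000000000000000000000000000000) (nat_lit 0x0) (nat_lit 0x38002c00160000000000000000000000) := T_13 (nat_lit 92) (nat_lit 109) (nat_lit 7) (nat_lit 7) (nat_lit 5) L40300 (by decide +kernel)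
theorem L40302 : W_13 (nat_lit 6) (nat_lit 0x200028001e000c0000000000000000000000000000000) (nat_lit 0x0) (nat_lit 0x6000000038002c00160000000000000000000000) := T_13 (nat_lit 158) (nat_lit 157) (nat_lit 1) (nat_lit 8) (nat_lit 8) L40301 (by decide +kernel)
theorem L40303 : W_13 (nat_lit 7) (nat_lit 0x200008001e000c0000000000000000000000000000000) (nat_lit 0x0) (nat_lit 0x66000000038002c00160000000000000000000000) := T_13 (nat_lit 161) (nat_lit 162) (nat_lit 3) (nat_lit 5) (nat_lit 8) L40302 (by decide +kernel)
theorem L40304 : W_13 (nat_lit 2) (nat_lit 0x2000200028001e000d0000c00000000000000000000000000) (nat_lit 0x0) (nat_lit 0x3000100000000000000000000000) := D_13 (nat_lit 109) (nat_lit 92) (nat_lit 108) (nat_lit 7) (nat_lit 7) (nat_lit 5) (nat_lit 3) (nat_lit 4) (nat_lit 6) (by decide +kernel)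
theorem L40305 : W_13 (nat_lit 3) (nat_lit 0x2000200028001e000d0000800000000000000000000000000) (nat_lit 0x0) (nat_lit 0x20003400100000000000000000000000) := T_13 (nat_lit 106) (nat_lit 125) (nat_lit 0) (nat_lit 8) (nat_lit 7) L40304 (by decide +kernel)
theorem L40306 : W_13 (nat_lit 4) (nat_lit 0x2000200008001e000d0000800000000000000000000000000) (nat_lit 0x0) (nat_lit 0x60000000020003400100000000000000000000000) := T_13 (nat_lit 161) (nat_lit 162) (nat_lit 3) (nat_lit 5) (nat_lit 8) L40305 (by decide +kernel)
theorem L40307 : W_13 (nat_lit 5) (nat_lit 0x2000200008001e000d0000000000000000000000000000000) (nat_lit 0x0) (nat_lit 0x60000000020003c00140000000000000000000000) := T_13 (nat_lit 107) (nat_lit 90) (nat_lit 7) (nat_lit 5) (nat_lit 5) L40306 (by decide +kernel)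
theorem L40308 : W_13 (nat_lit 6) (nat_lit 0x200008001e000d0000000000000000000000000000000) (nat_lit 0x0) (nat_lit 0x2000100060000000020003c00140000000000000000000000) := T_13 (nat_lit 193) (nat_lit 176) (nat_lit 6) (nat_lit 6) (nat_lit 11) L40307 (by decide +kernel)
theorem L40309 : W_13 (nat_lit 7) (nat_lit 0x200008001e000c0000000000000000000000000000000) (nat_lit 0x0) (nat_lit 0x2000100060000000038003c00140000000000000000000000) := T_13 (nat_lit 124) (nat_lit 123) (nat_lit 0) (nat_lit 8) (nat_lit 8) L40308 (by decide +kernel)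
theorem L40310 : W_13 (nat_lit 8) (nat_lit 0x200000001e000c0000000000000000000000000000000) (nat_lit 0x0) (nat_lit 0x200010006e000000038003c00160000000000000000000000) := Q_13 (nat_lit 159) (C_13 L40289 (C_13 L40293 (C_13 L40297 (C_13 L40303 (C_13 L40309 N_13))))) (by decide +kernel)
theorem L40311 : W_13 (nat_lit 2) (nat_lit 0x30000c001e000c0000000000000000000000000000000) (nat_lit 0x0) (nat_lit 0x18000800000000000000000000000000) := D_13 (nat_lit 124) (nat_lit 123) (nat_lit 107) (nat_lit 0) (nat_lit 8) (nat_lit 8) (nat_lit 7) (nat_lit 5) (nat_lit 6) (by decide +kernel)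
theorem L40312 : W_13 (nat_lit 3) (nat_lit 0x20000c001e000c0000000000000000000000000000000) (nat_lit 0x0) (nat_lit 0x2000100000000000018000800000000000000000000000000) := T_13 (nat_lit 176) (nat_lit 193) (nat_lit 6) (nat_lit 6) (nat_lit 11) L40311 (by decide +kernel)
theorem L40313 : W_13 (nat_lit 4) (nat_lit 0x200008001e000c0000000000000000000000000000000) (nat_lit 0x0) (nat_lit 0x2000100006000000018000800000000000000000000000000) := T_13 (nat_lit 158) (nat_lit 157) (nat_lit 1) (nat_lit 8) (nat_lit 8) L40312 (by decide +kernel)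
theorem L40314 : W_13 (nat_lit 2) (nat_lit 0x200008001e000c0002000000000000000000000000000) (nat_lit 0x0) (nat_lit 0x2000100010000000000000000000000000000000000000000) := D_13 (nat_lit 176) (nat_lit 193) (nat_lit 160) (nat_lit 6) (nat_lit 6) (nat_lit 11) (nat_lit 5) (nat_lit 7) (nat_lit 6) (by decide +kernel)
theorem L40315 : W_13 (nat_lit 3) (nat_lit 0x200008001e000c0000000000000000000000000000000) (nat_lit 0x0) (nat_lit 0x2000100010000000000002000100000000000000000000000) := T_13 (nat_lit 109) (nat_lit 92) (nat_lit 5) (nat_lit 7) (nat_lit 5) L40314 (by decide +kernel)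
theorem L40316 : W_13 (nat_lit 2) (nat_lit 0x20002c001e000d0002800000000000000000000000000) (nat_lit 0x0) (nat_lit 0x1400080000000000000000000000) := D_13 (nat_lit 108) (nat_lit 91) (nat_lit 106) (nat_lit 6) (nat_lit 5) (nat_lit 9) (nat_lit 3) (nat_lit 4) (nat_lit 6) (by decide +kernel)
theorem L40317 : W_13 (nat_lit 3) (nat_lit 0x20002c001e000d0002000000000000000000000000000) (nat_lit 0x0) (nat_lit 0x1c000c0000000000000000000000) := T_13 (nat_lit 107) (nat_lit 90) (nat_lit 7) (nat_lit 5) (nat_lit 5) L40316 (by decide +kernel)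
theorem L40318 : W_13 (nat_lit 4) (nat_lit 0x200028001e000d0002000000000000000000000000000) (nat_lit 0x0) (nat_lit 0x6000000000001c000c0000000000000000000000) := T_13 (nat_lit 158) (nat_lit 157) (nat_lit 1) (nat_lit 8) (nat_lit 8) L40317 (by decide +kernel)
theorem L40319 : W_13 (nat_lit 5) (nat_lit 0x200028001e000c0002000000000000000000000000000) (nat_lit 0x0) (nat_lit 0x6000000018001c000c0000000000000000000000) := T_13 (nat_lit 124) (nat_lit 123) (nat_lit 0) (nat_lit 8) (nat_lit 8) L40318 (by decide +kernel)
theorem L40320 : W_13 (nat_lit 6) (nat_lit 0x200028001e000c0000000000000000000000000000000) (nat_lit 0x0) (nat_lit 0x6000000018003c001c0000000000000000000000) := T_13 (nat_lit 109) (nat_lit 92) (nat_lit 7) (nat_lit 7) (nat_lit 5) L40319 (by decide +kernel)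
theorem L40321 : W_13 (nat_lit 7) (nat_lit 0x200008001e000c0000000000000000000000000000000) (nat_lit 0x0) (nat_lit 0x66000000018003c001c0000000000000000000000) := T_13 (nat_lit 161) (nat_lit 162) (nat_lit 3) (nat_lit 5) (nat_lit 8) L40320 (by decide +kernel)
theorem L40322 : W_13 (nat_lit 8) (nat_lit 0x200000001e000c0000000000000000000000000000000) (nat_lit 0x0) (nat_lit 0x200010007e000000018003c001c0000000000000000000000) := Q_13 (nat_lit 159) (C_13 L40313 (C_13 L40315 (C_13 L40321 N_13))) (by decide +kernel)
theorem L40323 : W_13 (nat_lit 2) (nat_lit 0x380030001e000e0000000000000000000000000000000) (nat_lit 0x0) (nat_lit 0x1000000006000000000000000000000000000000000000000) := D_13 (nat_lit 158) (nat_lit 157) (nat_lit 192) (nat_lit 1) (nat_lit 8) (nat_lit 8) (nat_lit 6) (nat_lit 5) (nat_lit 11) (by decide +kernel)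
theorem L40324 : W_13 (nat_lit 3) (nat_lit 0x380030001e000c0000000000000000000000000000000) (nat_lit 0x0) (nat_lit 0x1000000006000000020001000000000000000000000000000) := T_13 (nat_lit 125) (nat_lit 108) (nat_lit 4) (nat_lit 7) (nat_lit 10) L40323 (by decide +kernel)
theorem L40325 : W_13 (nat_lit 4) (nat_lit 0x300030001e000c0000000000000000000000000000000) (nat_lit 0x0) (nat_lit 0x10000c0006000000020001000000000000000000000000000) := T_13 (nat_lit 175) (nat_lit 174) (nat_lit 2) (nat_lit 4) (nat_lit 10) L40324 (by decide +kernel)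
theorem L40326 : W_13 (nat_lit 5) (nat_lit 0x200030001e000c0000000000000000000000000000000) (nat_lit 0x0) (nat_lit 0x30001c0006000000020001000000000000000000000000000) := T_13 (nat_lit 176) (nat_lit 193) (nat_lit 5) (nat_lit 7) (nat_lit 7) L40325 (by decide +kernel)
theorem L40327 : W_13 (nat_lit 6) (nat_lit 0x200010001e000c0000000000000000000000000000000) (nat_lit 0x0) (nat_lit 0x30001c0066000000020001000000000000000000000000000) := T_13 (nat_lit 161) (nat_lit 162) (nat_lit 3) (nat_lit 5) (nat_lit 8) L40326 (by decide +kernel)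
theorem L40332 : W_13 (nat_lit 2) (nat_lit 0x200014001e000c0003000000000000000000000000000) (nat_lit 0x0) (nat_lit 0x60000000000000000100000000000000000000000) := D_13 (nat_lit 161) (nat_lit 162) (nat_lit 92) (nat_lit 3) (nat_lit 5) (nat_lit 8) (nat_lit 7) (nat_lit 7) (nat_lit 5) (by decide +kernel)
theorem L40333 : W_13 (nat_lit 3) (nat_lit 0x200014001e000c0001000000000000000000000000000) (nat_lit 0x0) (nat_lit 0x60000000000002000180000000000000000000000) := T_13 (nat_lit 109) (nat_lit 91) (nat_lit 4) (nat_lit 7) (nat_lit 9) L40332 (by decide +kernel)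
theorem L40334 : W_13 (nat_lit 4) (nat_lit 0x200010001e000c0001000000000000000000000000000) (nat_lit 0x0) (nat_lit 0x66000000000002000180000000000000000000000) := T_13 (nat_lit 158) (nat_lit 157) (nat_lit 1) (nat_lit 8) (nat_lit 8) L40333 (by decide +kernel)
theorem L40335 : W_13 (nat_lit 5) (nat_lit 0x200010001e000c0000000000000000000000000000000) (nat_lit 0x0) (nat_lit 0x66000000020003000180000000000000000000000) := T_13 (nat_lit 108) (nat_lit 125) (nat_lit 4) (nat_lit 7) (nat_lit 10) L40334 (by decide +kernel)
theorem L40336 : W_13 (nat_lit 2) (nat_lit 0x300010001e000e0002000000000000000000000000000) (nat_lit 0x0) (nat_lit 0x20000000000000000100008000000000000000000) := D_13 (nat_lit 92) (nat_lit 161) (nat_lit 75) (nat_lit 7) (nat_lit 7) (nat_lit 5) (nat_lit 7) (nat_lit 7) (nat_lit 4) (by decide +kernel)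
theorem L40337 : W_13 (nat_lit 3) (nat_lit 0x300010001e000e0000000000000000000000000000000) (nat_lit 0x0) (nat_lit 0x28000000000002000100008000000000000000000) := T_13 (nat_lit 109) (nat_lit 159) (nat_lit 6) (nat_lit 6) (nat_lit 10) L40336 (by decide +kernel)
theorem L40338 : W_13 (nat_lit 4) (nat_lit 0x200010001e000e0000000000000000000000000000000) (nat_lit 0x0) (nat_lit 0x2000100028000000000002000100008000000000000000000) := T_13 (nat_lit 176) (nat_lit 193) (nat_lit 5) (nat_lit 7) (nat_lit 7) L40337 (by decide +kernel)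
theorem L40339 : W_13 (nat_lit 5) (nat_lit 0x200010001e000c0000000000000000000000000000000) (nat_lit 0x0) (nat_lit 0x2000100028000000020003000100008000000000000000000) := T_13 (nat_lit 125) (nat_lit 108) (nat_lit 4) (nat_lit 7) (nat_lit 10) L40338 (by decide +kernel)
theorem L40340 : W_13 (nat_lit 2) (nat_lit 0x300010001e000c0002000000000000000000000000000) (nat_lit 0x0) (nat_lit 0x20001000080000000000000000000000) := D_13 (nat_lit 108) (nat_lit 125) (nat_lit 91) (nat_lit 4) (nat_lit 7) (nat_lit 10) (nat_lit 4) (nat_lit 7) (nat_lit 9) (by decide +kernel)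
theorem L40341 : W_13 (nat_lit 3) (nat_lit 0x300010001e000c0000000000000000000000000000000) (nat_lit 0x0) (nat_lit 0x8000000020003000080000000000000000000000) := T_13 (nat_lit 109) (nat_lit 159) (nat_lit 5) (nat_lit 7) (nat_lit 6) L40340 (by decide +kernel)
theorem L40342 : W_13 (nat_lit 4) (nat_lit 0x200010001e000c0000000000000000000000000000000) (nat_lit 0x0) (nat_lit 0x2000100008000000020003000080000000000000000000000) := T_13 (nat_lit 176) (nat_lit 193) (nat_lit 5) (nat_lit 7) (nat_lit 7) L40341 (by decide +kernel)
theorem L40343 : W_13 (nat_lit 7) (nat_lit 0x200000001e000c0000000000000000000000000000000) (nat_lit 0x0) (nat_lit 0x30001c007e000000020003000180008000000000000000000) := Q_13 (nat_lit 160) (C_13 L40327 (C_13 L40331 (C_13 L40335 (C_13 L40339 (C_13 L40342 N_13))))) (by decide +kernel)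
theorem L40344 : W_13 (nat_lit 5) (nat_lit 0x200000001e000c0000000000000000000000000000000) (nat_lit 0x0) (nat_lit 0x10001e000000038001c000c0000000000000000000000) := Q_13 (nat_lit 125) (C_13 L40282 (C_13 L40274 N_13)) (by decide +kernel)
theorem L40345 : W_13 (nat_lit 2) (nat_lit 0x200024001e000e8001000100000000000000000000000) (nat_lit 0x0) (nat_lit 0x1000080008000000000000000000000000000000000000000) := D_13 (nat_lit 175) (nat_lit 192) (nat_lit 159) (nat_lit 6) (nat_lit 5) (nat_lit 11) (nat_lit 5) (nat_lit 6) (nat_lit 6) (by decide +kernel)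
theorem L40346 : W_13 (nat_lit 3) (nat_lit 0x200024001e000e8000000100000000000000000000000) (nat_lit 0x0) (nat_lit 0x1000080008000000000001000080000000000000000000000) := T_13 (nat_lit 108) (nat_lit 91) (nat_lit 5) (nat_lit 6) (nat_lit 5) L40345 (by decide +kernel)
theorem L40347 : W_13 (nat_lit 4) (nat_lit 0x200020001e000e8000000100000000000000000000000) (nat_lit 0x0) (nat_lit 0x100008000e000000000001000080000000000000000000000) := T_13 (nat_lit 158) (nat_lit 157) (nat_lit 1) (nat_lit 8) (nat_lit 8) L40346 (by decide +kernel)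
theorem L40348 : W_13 (nat_lit 5) (nat_lit 0x200020001e000e8000000000000000000000000000000) (nat_lit 0x0) (nat_lit 0x100008000e000000000003000180000000000000000000000) := T_13 (nat_lit 92) (nat_lit 109) (nat_lit 7) (nat_lit 7) (nat_lit 5) L40347 (by decide +kernel)
theorem L40349 : W_13 (nat_lit 6) (nat_lit 0x200020001e000e0000000000000000000000000000000) (nat_lit 0x0) (nat_lit 0x100008000e000000018003000180000000000000000000000) := T_13 (nat_lit 123) (nat_lit 124) (nat_lit 3) (nat_lit 4) (nat_lit 7) L40348 (by decide +kernel)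
theorem L40350 : W_13 (nat_lit 7) (nat_lit 0x200000001e000e0000000000000000000000000000000) (nat_lit 0x0) (nat_lit 0x100008006e000000018003000180000000000000000000000) := T_13 (nat_lit 161) (nat_lit 162) (nat_lit 3) (nat_lit 5) (nat_lit 8) L40349 (by decide +kernel)
theorem L40351 : W_13 (nat_lit 2) (nat_lit 0x1000200004001e000f0000800000000000000000000000000) (nat_lit 0x0) (nat_lit 0x8000000000000000040002000000000000000000) := D_13 (nat_lit 90) (nat_lit 159) (nat_lit 73) (nat_lit 7) (nat_lit 5) (nat_lit 5) (nat_lit 7) (nat_lit 5) (nat_lit 4) (by decide +kernel)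
theorem L40352 : W_13 (nat_lit 3) (nat_lit 0x1000200004001e000f0000000000000000000000000000000) (nat_lit 0x0) (nat_lit 0x8000000000000c00040002000000000000000000) := T_13 (nat_lit 107) (nat_lit 106) (nat_lit 0) (nat_lit 8) (nat_lit 7) L40351 (by decide +kernel)
theorem L40353 : W_13 (nat_lit 4) (nat_lit 0x200004001e000f0000000000000000000000000000000) (nat_lit 0x0) (nat_lit 0x1000080008000000000000c00040002000000000000000000) := T_13 (nat_lit 192) (nat_lit 175) (nat_lit 6) (nat_lit 5) (nat_lit 11) L40352 (by decide +kernel)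
theorem L40354 : W_13 (nat_lit 5) (nat_lit 0x200004001e000e0000000000000000000000000000000) (nat_lit 0x0) (nat_lit 0x1000080008000000018000c00040002000000000000000000) := T_13 (nat_lit 124) (nat_lit 123) (nat_lit 3) (nat_lit 4) (nat_lit 7) L40353 (by decide +kernel)
theorem L40355 : W_13 (nat_lit 6) (nat_lit 0x200000001e000e0000000000000000000000000000000) (nat_lit 0x0) (nat_lit 0x100008000e000000018000c00040002000000000000000000) := T_13 (nat_lit 158) (nat_lit 157) (nat_lit 1) (nat_lit 8) (nat_lit 8) L40354 (by decide +kernel)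
theorem L40356 : W_13 (nat_lit 8) (nat_lit 0x200000001e000c0000000000000000000000000000000) (nat_lit 0x0) (nat_lit 0x100008007e000000038003c001c0002000000000000000000) := Q_13 (nat_lit 125) (C_13 L40282 (C_13 L40350 (C_13 L40280 (C_13 L40355 N_13)))) (by decide +kernel)
theorem L40357 : W_13 (nat_lit 2) (nat_lit 0x200030001e000e0002000000000000000000000000000) (nat_lit 0x0) (nat_lit 0x2000100008000000000000000000000000000000000000000) := D_13 (nat_lit 176) (nat_lit 193) (nat_lit 159) (nat_lit 5) (nat_lit 7) (nat_lit 7) (nat_lit 6) (nat_lit 6) (nat_lit 10) (by decide +kernel)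
theorem L40358 : W_13 (nat_lit 3) (nat_lit 0x200030001e000e0000000000000000000000000000000) (nat_lit 0x0) (nat_lit 0x2000100008000000000002000100000000000000000000000) := T_13 (nat_lit 109) (nat_lit 92) (nat_lit 7) (nat_lit 7) (nat_lit 5) L40357 (by decide +kernel)
theorem L40359 : W_13 (nat_lit 4) (nat_lit 0x200020001e000e0000000000000000000000000000000) (nat_lit 0x0) (nat_lit 0x2000100018000000000003000100000000000000000000000) := T_13 (nat_lit 160) (nat_lit 108) (nat_lit 4) (nat_lit 7) (nat_lit 10) L40358 (by decide +kernel)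
theorem L40360 : W_13 (nat_lit 5) (nat_lit 0x200000001e000e0000000000000000000000000000000) (nat_lit 0x0) (nat_lit 0x2000100078000000000003000100000000000000000000000) := T_13 (nat_lit 161) (nat_lit 162) (nat_lit 3) (nat_lit 5) (nat_lit 8) L40359 (by decide +kernel)
theorem L40361 : W_13 (nat_lit 2) (nat_lit 0x200020001e000e0001000080000000000000000000000) (nat_lit 0x0) (nat_lit 0x2000100008000000000000000000) := D_13 (nat_lit 92) (nat_lit 109) (nat_lit 75) (nat_lit 7) (nat_lit 7) (nat_lit 5) (nat_lit 6) (nat_lit 6) (nat_lit 8) (by decide +kernel)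
theorem L40362 : W_13 (nat_lit 3) (nat_lit 0x200020001e000e0001000000000000000000000000000) (nat_lit 0x0) (nat_lit 0x200018000c000000000000000000) := T_13 (nat_lit 91) (nat_lit 74) (nat_lit 7) (nat_lit 6) (nat_lit 4) L40361 (by decide +kernel)
theorem L40363 : W_13 (nat_lit 4) (nat_lit 0x200000001e000e0001000000000000000000000000000) (nat_lit 0x0) (nat_lit 0x6000000000000200018000c000000000000000000) := T_13 (nat_lit 161) (nat_lit 162) (nat_lit 3) (nat_lit 5) (nat_lit 8) L40362 (by decide +kernel)
theorem L40364 : W_13 (nat_lit 5) (nat_lit 0x200000001e000e0000000000000000000000000000000) (nat_lit 0x0) (nat_lit 0x7000000000000300018000c000000000000000000) := T_13 (nat_lit 108) (nat_lit 160) (nat_lit 4) (nat_lit 7) (nat_lit 10) L40363 (by decide +kernel)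
theorem L40365 : W_13 (nat_lit 8) (nat_lit 0x200000001e000c0000000000000000000000000000000) (nat_lit 0x0) (nat_lit 0x2000100078000000038003c001c000e000000000000000000) := Q_13 (nat_lit 125) (C_13 L40274 (C_13 L40280 (C_13 L40360 (C_13 L40364 N_13)))) (by decide +kernel)
theorem L40366 : W_13 (nat_lit 2) (nat_lit 0x200024001e000f0000000000000000000000000000000) (nat_lit 0x0) (nat_lit 0x80000000000000001000080000000000000000000000) := D_13 (nat_lit 108) (nat_lit 91) (nat_lit 175) (nat_lit 5) (nat_lit 6) (nat_lit 5) (nat_lit 6) (nat_lit 5) (nat_lit 10) (by decide +kernel)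
theorem L40367 : W_13 (nat_lit 3) (nat_lit 0x200020001e000f0000000000000000000000000000000) (nat_lit 0x0) (nat_lit 0x80006000000000001000080000000000000000000000) := T_13 (nat_lit 158) (nat_lit 157) (nat_lit 1) (nat_lit 8) (nat_lit 8) L40366 (by decide +kernel)
theorem L40368 : W_13 (nat_lit 4) (nat_lit 0x200020001e000e0000000000000000000000000000000) (nat_lit 0x0) (nat_lit 0x80006000000018001000080000000000000000000000) := T_13 (nat_lit 124) (nat_lit 123) (nat_lit 3) (nat_lit 4) (nat_lit 7) L40367 (by decide +kernel)
theorem L40369 : W_13 (nat_lit 5) (nat_lit 0x200000001e000e0000000000000000000000000000000) (nat_lit 0x0) (nat_lit 0x80066000000018001000080000000000000000000000) := T_13 (nat_lit 161) (nat_lit 162) (nat_lit 3) (nat_lit 5) (nat_lit 8) L40368 (by decide +kernel)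
theorem L40370 : W_13 (nat_lit 2) (nat_lit 0x380024001e000f0000800000002000000000000000000) (nat_lit 0x0) (nat_lit 0x800040010000000000000000000000000000000000000000) := D_13 (nat_lit 174) (nat_lit 160) (nat_lit 191) (nat_lit 2) (nat_lit 4) (nat_lit 10) (nat_lit 5) (nat_lit 5) (nat_lit 7) (by decide +kernel)
theorem L40371 : W_13 (nat_lit 3) (nat_lit 0x280024001e000f0000800000002000000000000000000) (nat_lit 0x0) (nat_lit 0x2800140010000000000000000000000000000000000000000) := T_13 (nat_lit 176) (nat_lit 193) (nat_lit 7) (nat_lit 5) (nat_lit 7) L40370 (by decide +kernel)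
theorem L40372 : W_13 (nat_lit 4) (nat_lit 0x280004001e000f0000800000002000000000000000000) (nat_lit 0x0) (nat_lit 0x2800140070000000000000000000000000000000000000000) := T_13 (nat_lit 161) (nat_lit 162) (nat_lit 3) (nat_lit 5) (nat_lit 8) L40371 (by decide +kernel)
theorem L40373 : W_13 (nat_lit 5) (nat_lit 0x200004001e000f0000800000002000000000000000000) (nat_lit 0x0) (nat_lit 0x38001c0070000000000000000000000000000000000000000) := T_13 (nat_lit 175) (nat_lit 192) (nat_lit 6) (nat_lit 5) (nat_lit 11) L40372 (by decide +kernel)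
theorem L40374 : W_13 (nat_lit 6) (nat_lit 0x200004001e000f0000800000000000000000000000000) (nat_lit 0x0) (nat_lit 0x38001c0070000000000000000040002000000000000000000) := T_13 (nat_lit 73) (nat_lit 90) (nat_lit 7) (nat_lit 5) (nat_lit 4) L40373 (by decide +kernel)
theorem L40375 : W_13 (nat_lit 7) (nat_lit 0x200000001e000f0000800000000000000000000000000) (nat_lit 0x0) (nat_lit 0x38001c0076000000000000000040002000000000000000000) := T_13 (nat_lit 158) (nat_lit 157) (nat_lit 1) (nat_lit 8) (nat_lit 8) L40374 (by decide +kernel)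
theorem L40376 : W_13 (nat_lit 8) (nat_lit 0x200000001e000f0000000000000000000000000000000) (nat_lit 0x0) (nat_lit 0x38001c0076000000000000c00040002000000000000000000) := T_13 (nat_lit 107) (nat_lit 106) (nat_lit 0) (nat_lit 8) (nat_lit 7) L40375 (by decide +kernel)
theorem L40377 : W_13 (nat_lit 9) (nat_lit 0x200000001e000e0000000000000000000000000000000) (nat_lit 0x0) (nat_lit 0x38001c0076000000018000c00040002000000000000000000) := T_13 (nat_lit 124) (nat_lit 123) (nat_lit 3) (nat_lit 4) (nat_lit 7) L40376 (by decide +kernel)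
theorem L40378 : W_13 (nat_lit 10) (nat_lit 0x200000001e000c0000000000000000000000000000000) (nat_lit 0x0) (nat_lit 0x38001c0076000000038003c001c000e000000000000000000) := Q_13 (nat_lit 125) (C_13 L40282 (C_13 L40364 (C_13 L40369 (C_13 L40377 N_13)))) (by decide +kernel)
theorem L40379 : W_13 (nat_lit 8) (nat_lit 0x200000001e000c0000000000000000000000000000000) (nat_lit 0x0) (nat_lit 0x200010007e000000038002c00160000000000000000000000) := Q_13 (nat_lit 159) (C_13 L40313 (C_13 L40315 (C_13 L40303 N_13))) (by decide +kernel)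
theorem L40380 : W_13 (nat_lit 11) (nat_lit 0x200000001a000c0000000000000000000000000000000) (nat_lit 0x0) (nat_lit 0x38001c007e000400038003c001e000e000000000000000000) := Q_13 (nat_lit 142) (C_13 L40283 (C_13 L40310 (C_13 L40322 (C_13 L40343 (C_13 L40344 (C_13 L40356 (C_13 L40365 (C_13 L40378 (C_13 L40379 N_13))))))))) (by decide +kernel)
theorem L40381 : W_13 (nat_lit 6) (nat_lit 0x200000001a000c0000000000000000000000000000000) (nat_lit 0x0) (nat_lit 0x10001e000400138001c000c0000000000000000000000) := T_13 (nat_lit 142) (nat_lit 128) (nat_lit 2) (nat_lit 5) (nat_lit 8) L40344 (by decide +kernel)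
theorem L40382 : W_13 (nat_lit 9) (nat_lit 0x200000001a000c0000000000000000000000000000000) (nat_lit 0x0) (nat_lit 0x200010007e000400138002c00160000000000000000000000) := T_13 (nat_lit 142) (nat_lit 128) (nat_lit 2) (nat_lit 5) (nat_lit 8) L40379 (by decide +kernel)
theorem L40383 : W_13 (nat_lit 12) (nat_lit 0x200000001a00080000000000000000000000000000000) (nat_lit 0x0) (nat_lit 0x38001c007e000400778003c001e000e000000000000000000) := Q_13 (nat_lit 126) (C_13 L31890 (C_13 L40271 (C_13 L40380 (C_13 L40381 (C_13 L40382 N_13))))) (by decide +kernel)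
theorem L40384 : W_13 (nat_lit 4) (nat_lit 0x3c0004001a00090000000000000000000000000000000) (nat_lit 0x0) (nat_lit 0xc000000008000000008000c00020000000000000000000000) := T_13 (nat_lit 194) (nat_lit 195) (nat_lit 3) (nat_lit 4) (nat_lit 10) L33120 (by decide +kernel)
theorem L40385 : W_13 (nat_lit 5) (nat_lit 0x380004001a00090000000000000000000000000000000) (nat_lit 0x0) (nat_lit 0xc800040008000000008000c00020000000000000000000000) := T_13 (nat_lit 174) (nat_lit 191) (nat_lit 5) (nat_lit 5) (nat_lit 7) L40384 (by decide +kernel)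
theorem L40386 : W_13 (nat_lit 6) (nat_lit 0x300004001a00090000000000000000000000000000000) (nat_lit 0x0) (nat_lit 0xe8000c0008000000008000c00020000000000000000000000) := T_13 (nat_lit 175) (nat_lit 193) (nat_lit 7) (nat_lit 5) (nat_lit 7) L40385 (by decide +kernel)
theorem L40387 : W_13 (nat_lit 2) (nat_lit 0x300004001a000d0000c00000000000000000000000000) (nat_lit 0x0) (nat_lit 0x6000000010000000000000000000000000000000000000000) := D_13 (nat_lit 160) (nat_lit 194) (nat_lit 193) (nat_lit 6) (nat_lit 7) (nat_lit 11) (nat_lit 5) (nat_lit 7) (nat_lit 7) (by decide +kernel)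
theorem L40388 : W_13 (nat_lit 3) (nat_lit 0x300004001a00090000c00000000000000000000000000) (nat_lit 0x0) (nat_lit 0x6000000010000000060000000000000000000000000000000) := T_13 (nat_lit 126) (nat_lit 125) (nat_lit 0) (nat_lit 8) (nat_lit 7) L40387 (by decide +kernel)
theorem L40389 : W_13 (nat_lit 4) (nat_lit 0x300004001a00090000800000000000000000000000000) (nat_lit 0x0) (nat_lit 0x6000000010000000060000400020000000000000000000000) := T_13 (nat_lit 106) (nat_lit 89) (nat_lit 4) (nat_lit 5) (nat_lit 9) L40388 (by decide +kernel)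
theorem L40390 : W_13 (nat_lit 5) (nat_lit 0x300004001a00090000000000000000000000000000000) (nat_lit 0x0) (nat_lit 0x6000000018000000060000c00020000000000000000000000) := T_13 (nat_lit 107) (nat_lit 159) (nat_lit 7) (nat_lit 5) (nat_lit 6) L40389 (by decide +kernel)
theorem L40391 : W_13 (nat_lit 2) (nat_lit 0x4000380004001a00090000000000000000000000000000000) (nat_lit 0x0) (nat_lit 0x8800040000000000000000000000000000000000000000000) := D_13 (nat_lit 174) (nat_lit 191) (nat_lit 195) (nat_lit 5) (nat_lit 5) (nat_lit 7) (nat_lit 3) (nat_lit 4) (nat_lit 10) (by decide +kernel)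
theorem L40392 : W_13 (nat_lit 3) (nat_lit 0x4000300004001a00090000000000000000000000000000000) (nat_lit 0x0) (nat_lit 0xa8000c0000000000000000000000000000000000000000000) := T_13 (nat_lit 175) (nat_lit 193) (nat_lit 7) (nat_lit 5) (nat_lit 7) L40391 (by decide +kernel)
theorem L40393 : W_13 (nat_lit 4) (nat_lit 0x300004001a00090000000000000000000000000000000) (nat_lit 0x0) (nat_lit 0xe8000c0010000000000000000000000000000000000000000) := T_13 (nat_lit 194) (nat_lit 160) (nat_lit 6) (nat_lit 7) (nat_lit 11) L40392 (by decide +kernel)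
theorem L40394 : W_13 (nat_lit 8) (nat_lit 0x200004001a00090000000000000000000000000000000) (nat_lit 0x0) (nat_lit 0xe8001e0038000000068000c00020000000000000000000000) := Q_13 (nat_lit 176) (C_13 L40244 (C_13 L40386 (C_13 L40390 (C_13 L40393 (C_13 L33024 (C_13 L33007 N_13)))))) (by decide +kernel)
theorem L40395 : W_13 (nat_lit 2) (nat_lit 0x40003c0004001a000b0000c00000000000000000000000000) (nat_lit 0x0) (nat_lit 0x1000000000000400100000000000000000000000000000000) := D_13 (nat_lit 142) (nat_lit 128) (nat_lit 192) (nat_lit 2) (nat_lit 5) (nat_lit 8) (nat_lit 6) (nat_lit 5) (nat_lit 11) (by decide +kernel)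
theorem L40396 : W_13 (nat_lit 3) (nat_lit 0x40003c0004001a00090000c00000000000000000000000000) (nat_lit 0x0) (nat_lit 0x1000000000000400160000000000000000000000000000000) := T_13 (nat_lit 125) (nat_lit 126) (nat_lit 0) (nat_lit 8) (nat_lit 7) L40395 (by decide +kernel)
theorem L40397 : W_13 (nat_lit 4) (nat_lit 0x40003c0004001a00090000800000000000000000000000000) (nat_lit 0x0) (nat_lit 0x1000000000000400160000400020000000000000000000000) := T_13 (nat_lit 106) (nat_lit 89) (nat_lit 4) (nat_lit 5) (nat_lit 9) L40396 (by decide +kernel)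
theorem L40398 : W_13 (nat_lit 5) (nat_lit 0x40003c0004001a00090000000000000000000000000000000) (nat_lit 0x0) (nat_lit 0x1000000008000400160000c00020000000000000000000000) := T_13 (nat_lit 107) (nat_lit 159) (nat_lit 7) (nat_lit 5) (nat_lit 6) L40397 (by decide +kernel)
theorem L40399 : W_13 (nat_lit 6) (nat_lit 0x3c0004001a00090000000000000000000000000000000) (nat_lit 0x0) (nat_lit 0xd000000008000400160000c00020000000000000000000000) := T_13 (nat_lit 194) (nat_lit 195) (nat_lit 3) (nat_lit 4) (nat_lit 10) L40398 (by decide +kernel)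
theorem L40400 : W_13 (nat_lit 7) (nat_lit 0x380004001a00090000000000000000000000000000000) (nat_lit 0x0) (nat_lit 0xd800040008000400160000c00020000000000000000000000) := T_13 (nat_lit 174) (nat_lit 191) (nat_lit 5) (nat_lit 5) (nat_lit 7) L40399 (by decide +kernel)
theorem L40401 : W_13 (nat_lit 8) (nat_lit 0x300004001a00090000000000000000000000000000000) (nat_lit 0x0) (nat_lit 0xf8000c0008000400160000c00020000000000000000000000) := T_13 (nat_lit 175) (nat_lit 193) (nat_lit 7) (nat_lit 5) (nat_lit 7) L40400 (by decide +kernel)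
theorem L40404 : W_13 (nat_lit 4) (nat_lit 0x300004001a00090000000000000000000000000000000) (nat_lit 0x0) (nat_lit 0x4000000018000400120000800000000000000000000000000) := T_13 (nat_lit 142) (nat_lit 128) (nat_lit 2) (nat_lit 5) (nat_lit 8) L40403 (by decide +kernel)
theorem L40405 : W_13 (nat_lit 9) (nat_lit 0x200004001a00090000000000000000000000000000000) (nat_lit 0x0) (nat_lit 0xf8001e0038000400160000c00020000000000000000000000) := Q_13 (nat_lit 176) (C_13 L33024 (C_13 L40401 (C_13 L40390 (C_13 L40393 (C_13 L40404 N_13))))) (by decide +kernel)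
theorem L40406 : W_13 (nat_lit 10) (nat_lit 0x200004001a00080000000000000000000000000000000) (nat_lit 0x0) (nat_lit 0xf8001e0038000400178000c00020000000000000000000000) := Q_13 (nat_lit 124) (C_13 L40187 (C_13 L40394 (C_13 L40405 N_13))) (by decide +kernel)
theorem L40407 : W_13 (nat_lit 12) (nat_lit 0x200000001a00080000000000000000000000000000000) (nat_lit 0x0) (nat_lit 0x200030007c00ff039f01ff800400178000c00020000000000000000000000) := Q_13 (nat_lit 158) (C_13 L40115 (C_13 L40186 (C_13 L40406 N_13))) (by decide +kernel)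
theorem L40416 : W_13 (nat_lit 5) (nat_lit 0x200010001a000d0000000000000000000000000000000) (nat_lit 0x0) (nat_lit 0x200010000e000000028002800000000000000000000000000) := T_13 (nat_lit 123) (nat_lit 125) (nat_lit 3) (nat_lit 4) (nat_lit 7) L40415 (by decide +kernel)
theorem L40417 : W_13 (nat_lit 6) (nat_lit 0x200000001a000d0000000000000000000000000000000) (nat_lit 0x0) (nat_lit 0x600010001e000000028002800000000000000000000000000) := T_13 (nat_lit 160) (nat_lit 194) (nat_lit 6) (nat_lit 7) (nat_lit 11) L40416 (by decide +kernel)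
theorem L40418 : W_13 (nat_lit 8) (nat_lit 0x200000001a00090000000000000000000000000000000) (nat_lit 0x0) (nat_lit 0x600010001e00000076803bc0018000c000000000000000000) := Q_13 (nat_lit 126) (C_13 L31839 (C_13 L31848 (C_13 L40412 (C_13 L40417 N_13)))) (by decide +kernel)
theorem L40419 : W_13 (nat_lit 5) (nat_lit 0x200010001a00098000000000000000000000000000000) (nat_lit 0x0) (nat_lit 0x200010000e000000060002800000000000000000000000000) := T_13 (nat_lit 126) (nat_lit 125) (nat_lit 3) (nat_lit 4) (nat_lit 7) L40415 (by decide +kernel)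
theorem L40420 : W_13 (nat_lit 6) (nat_lit 0x200010001a00090000000000000000000000000000000) (nat_lit 0x0) (nat_lit 0x200010000e000400068002800000000000000000000000000) := T_13 (nat_lit 123) (nat_lit 142) (nat_lit 0) (nat_lit 8) (nat_lit 8) L40419 (by decide +kernel)
theorem L40421 : W_13 (nat_lit 7) (nat_lit 0x200000001a00090000000000000000000000000000000) (nat_lit 0x0) (nat_lit 0x600010001e000400068002800000000000000000000000000) := T_13 (nat_lit 160) (nat_lit 194) (nat_lit 6) (nat_lit 7) (nat_lit 11) L40420 (by decide +kernel)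
theorem L40427 : W_13 (nat_lit 7) (nat_lit 0x200004001a00090000000000000000000000000000000) (nat_lit 0x0) (nat_lit 0x400004001a000000060003c000a0000000000000000000000) := T_13 (nat_lit 160) (nat_lit 194) (nat_lit 6) (nat_lit 7) (nat_lit 11) L40426 (by decide +kernel)
theorem L40428 : W_13 (nat_lit 9) (nat_lit 0x200004001a00090000000000000000000000000000000) (nat_lit 0x0) (nat_lit 0xf8001c0018000400160001c000a0000000000000000000000) := Q_13 (nat_lit 176) (C_13 L40404 (C_13 L40393 (C_13 L40401 (C_13 L40237 N_13)))) (by decide +kernel)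
theorem L40429 : W_13 (nat_lit 10) (nat_lit 0x200000001a00090000000000000000000000000000000) (nat_lit 0x0) (nat_lit 0xf8001c001e000400160003c000a0000000000000000000000) := Q_13 (nat_lit 158) (C_13 L33020 (C_13 L40427 (C_13 L40428 N_13))) (by decide +kernel)
theorem L40430 : W_13 (nat_lit 11) (nat_lit 0x200000001a00080000000000000000000000000000000) (nat_lit 0x0) (nat_lit 0xf8001c001e00040077803bc001a000c000000000000000000) := Q_13 (nat_lit 124) (C_13 L32323 (C_13 L40418 (C_13 L40421 (C_13 L40429 N_13)))) (by decide +kernel)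
theorem L40431 : W_13 (nat_lit 13) (nat_lit 0x200000001200080000000000000000000000000000000) (nat_lit 0x0) (nat_lit 0x200030007c00ff039f01ff80cc0077c03bc005e002f000000000000000000) := Q_13 (nat_lit 143) (C_13 L40086 (C_13 L40114 (C_13 L40228 (C_13 L40229 (C_13 L40247 (C_13 L40261 (C_13 L40383 (C_13 L40407 (C_13 L40430 N_13))))))))) (by decide +kernel)
end Crest.Agent.Helper32.Snaky.R1_0
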