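import Crest.Agent.Helper32.Snaky.Gen.R1_0_p2
set_option autoImplicit false
set_option maxRecDepth 100000
set_option linter.all false
set_option Elab.async false
namespace Crest.Agent.Helper32.Snaky.R1_0
@[reducible] def W_15 (d M Bz Z : Nat) : Prop := Crest.Agent.Helper32.Snaky.Wins (nat_lit 17) d M Bz Z
theorem D_15 {d M Bz Z : Nat} (m t1 t2 o1 x1 y1 o2 x2 y2 : Nat) (h : Crest.Agent.Helper32.Snaky.chkDoubleC (nat_lit 17) d M Bz Z m t1 t2 o1 x1 y1 o2 x2 y2 = true) : W_15 d M Bz Z := Crest.Agent.Helper32.Snaky.doubleC m t1 t2 o1 x1 y1 o2 x2 y2 h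
theorem T_15 {d M Bz Z cd cM cBz cZ : Nat} (m t o x y : Nat) (child : W_15 cd cM cBz cZ) (h : Crest.Agent.Helper32.Snaky.chkThreatC (nat_lit 17) d M Bz Z cd cM cBz cZ m t o x y = true) : W_15 d M Bz Z := Crest.Agent.Helper32.Snaky.threatC m t o x y child h
theorem Q_15 {d M Bz Z : Nat} (m : Nat) {l : List Crest.Agent.Helper32.Snaky.Spec} (kids : Crest.Agent.Helper32.Snaky.AllWins (nat_lit 17) l) (h : Crest.Agent.Helper32.Snaky.chkQuiet d M Bz Z m l = true) : W_15 d M Bz Z := Crest.Agent.Helper32.Snaky.quiet m kids h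
theorem C_15 {cd cM cBz cZ : Nat} {l : List Crest.Agent.Helper32.Snaky.Spec} (h : W_15 cd cM cBz cZ) (hl : Crest.Agent.Helper32.Snaky.AllWins (nat_lit 17) l) : Crest.Agent.Helper32.Snaky.AllWins (nat_lit 17) ((cd, cM, cBz, cZ) :: l) := Crest.Agent.Helper32.Snaky.AllWins.cons h hl
theorem N_15 : Crest.Agent.Helper32.Snaky.AllWins (nat_lit 17) [] := Crest.Agent.Helper32.Snaky.AllWins.nil
theorem L18987 : W_15 (nat_lit 3) (nat_lit 0x2000f000280000001000080000000000000000000000000000000) (nat_lit 0x0) (nat_lit 0x10000800040010000000004000000000000000000000000000000000000000) := T_15 (nat_lit 210) (nat_lit 196) (nat_lit 1) (nat_lit 9) (nat_lit 11) L8983 (by decide +kernel)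
theorem L18988 : W_15 (nat_lit 4) (nat_lit 0x2000f000200000001000080000000000000000000000000000000) (nat_lit 0x0) (nat_lit 0x100008000400100000c0004000000000000000000000000000000000000000) := T_15 (nat_lit 175) (nat_lit 174) (nat_lit 0) (nat_lit 8) (nat_lit 11) L18987 (by decide +kernel)
theorem L18989 : W_15 (nat_lit 5) (nat_lit 0xf000200000001000080000000000000000000000000000000) (nat_lit 0x0) (nat_lit 0x100008000700100000c0004000000000000000000000000000000000000000) := T_15 (nat_lit 209) (nat_lit 208) (nat_lit 1) (nat_lit 8) (nat_lit 11) L18988 (by decide +kernel)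
theorem L23815 : W_15 (nat_lit 2) (nat_lit 0x600016000f000680000001000080000000000000000000000000000000) (nat_lit 0x0) (nat_lit 0x20001800000000000000000000000000000000000000000000000000000000) := D_15 (nat_lit 228) (nat_lit 227) (nat_lit 245) (nat_lit 0) (nat_lit 9) (nat_lit 13) (nat_lit 5) (nat_lit 8) (nat_lit 10) (by decide +kernel)
theorem L23816 : W_15 (nat_lit 3) (nat_lit 0x600012000f000680000001000080000000000000000000000000000000) (nat_lit 0x0) (nat_lit 0x200018000c0000000000000000000000000000000000000000000000000000) := T_15 (nat_lit 210) (nat_lit 211) (nat_lit 3) (nat_lit 5) (nat_lit 12) L23815 (by decide +kernel)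
theorem L23817 : W_15 (nat_lit 4) (nat_lit 0x200012000f000680000001000080000000000000000000000000000000) (nat_lit 0x0) (nat_lit 0xa00058000c0000000000000000000000000000000000000000000000000000) := T_15 (nat_lit 230) (nat_lit 247) (nat_lit 7) (nat_lit 8) (nat_lit 10) L23816 (by decide +kernel)
theorem L23818 : W_15 (nat_lit 5) (nat_lit 0x200010000f000680000001000080000000000000000000000000000000) (nat_lit 0x0) (nat_lit 0xa00058000f0000000000000000000000000000000000000000000000000000) := T_15 (nat_lit 209) (nat_lit 208) (nat_lit 1) (nat_lit 8) (nat_lit 11) L23817 (by decide +kernel)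
theorem L23819 : W_15 (nat_lit 6) (nat_lit 0x10000f000680000001000080000000000000000000000000000000) (nat_lit 0x0) (nat_lit 0xe00078000f0000000000000000000000000000000000000000000000000000) := T_15 (nat_lit 229) (nat_lit 246) (nat_lit 4) (nat_lit 8) (nat_lit 14) L23818 (by decide +kernel)
theorem L23820 : W_15 (nat_lit 7) (nat_lit 0x10000f000280000001000080000000000000000000000000000000) (nat_lit 0x0) (nat_lit 0xe00078000f0000000c00000000000000000000000000000000000000000000) := T_15 (nat_lit 178) (nat_lit 179) (nat_lit 2) (nat_lit 5) (nat_lit 11) L23819 (by decide +kernel)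
theorem L23821 : W_15 (nat_lit 8) (nat_lit 0xf000280000001000080000000000000000000000000000000) (nat_lit 0x0) (nat_lit 0xe00078003f0000000c00000000000000000000000000000000000000000000) := T_15 (nat_lit 212) (nat_lit 213) (nat_lit 3) (nat_lit 5) (nat_lit 11) L23820 (by decide +kernel)
theorem L23822 : W_15 (nat_lit 9) (nat_lit 0xf000200000001000080000000000000000000000000000000) (nat_lit 0x0) (nat_lit 0xe00078003f0000000cc0000000000000000000000000000000000000000000) := T_15 (nat_lit 175) (nat_lit 174) (nat_lit 0) (nat_lit 8) (nat_lit 11) L23821 (by decide +kernel)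
end Crest.Agent.Helper32.Snaky.R1_0
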