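import Crest.Agent.Helper32.Snaky.Gen.R1_0_p15
set_option autoImplicit false
set_option maxRecDepth 100000
set_option linter.all false
set_option Elab.async false
namespace Crest.Agent.Helper32.Snaky.R1_0
@[reducible] def W_16 (d M Bz Z : Nat) : Prop := Crest.Agent.Helper32.Snaky.Wins (nat_lit 17) d M Bz Z
theorem D_16 {d M Bz Z : Nat} (m t1 t2 o1 x1 y1 o2 x2 y2 : Nat) (h : Crest.Agent.Helper32.Snaky.chkDoubleC (nat_lit 17) d M Bz Z m t1 t2 o1 x1 y1 o2 x2 y2 = true) : W_16 d M Bz Z := Crest.Agent.Helper32.Snaky.doubleC m t1 t2 o1 x1 y1 o2 x2 y2 h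
theorem T_16 {d M Bz Z cd cM cBz cZ : Nat} (m t o x y : Nat) (child : W_16 cd cM cBz cZ) (h : Crest.Agent.Helper32.Snaky.chkThreatC (nat_lit 17) d M Bz Z cd cM cBz cZ m t o x y = true) : W_16 d M Bz Z := Crest.Agent.Helper32.Snaky.threatC m t o x y child h
theorem Q_16 {d M Bz Z : Nat} (m : Nat) {l : List Crest.Agent.Helper32.Snaky.Spec} (kids : Crest.Agent.Helper32.Snaky.AllWins (nat_lit 17) l) (h : Crest.Agent.Helper32.Snaky.chkQuiet d M Bz Z m l = true) : W_16 d M Bz Z := Crest.Agent.Helper32.Snaky.quiet m kids h
theorem C_16 {cd cM cBz cZ : Nat} {l : List Crest.Agent.Helper32.Snaky.Spec} (h : W_16 cd cM cBz cZ) (hl : Crest.Agent.Helper32.Snaky.AllWins (nat_lit 17) l) : Crest.Agent.Helper32.Snaky.AllWins (nat_lit 17) ((cd, cM, cBz, cZ) :: l) := Crest.Agent.Helper32.Snaky.AllWins.cons h hl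
theorem N_16 : Crest.Agent.Helper32.Snaky.AllWins (nat_lit 17) [] := Crest.Agent.Helper32.Snaky.AllWins.nil
theorem L25467 : W_16 (nat_lit 2) (nat_lit 0x140032000b0005000680000000000000000000000000000000) (nat_lit 0x0) (nat_lit 0x28000000000008000000000000000000000000000000000000) := D_16 (nat_lit 197) (nat_lit 147) (nat_lit 195) (nat_lit 6) (nat_lit 10) (nat_lit 11) (nat_lit 2) (nat_lit 7) (nat_lit 11) (by decide +kernel)
theorem L25468 : W_16 (nat_lit 3) (nat_lit 0x40032000b0005000680000000000000000000000000000000) (nat_lit 0x0) (nat_lit 0x38000800000008000000000000000000000000000000000000) := T_16 (nat_lit 196) (nat_lit 179) (nat_lit 5) (nat_lit 10) (nat_lit 7) L25467 (by decide +kernel)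
theorem L25469 : W_16 (nat_lit 4) (nat_lit 0x40032000b0005000280000000000000000000000000000000) (nat_lit 0x0) (nat_lit 0x38000800000008000400020000000000000000000000000000) := T_16 (nat_lit 130) (nat_lit 113) (nat_lit 6) (nat_lit 10) (nat_lit 10) L25468 (by decide +kernel)
theorem L25470 : W_16 (nat_lit 5) (nat_lit 0x4003200090005000280000000000000000000000000000000) (nat_lit 0x0) (nat_lit 0x38000800060008000400020000000000000000000000000000) := T_16 (nat_lit 161) (nat_lit 162) (nat_lit 3) (nat_lit 7) (nat_lit 9) L25469 (by decide +kernel)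
theorem L25471 : W_16 (nat_lit 6) (nat_lit 0x4001200090005000280000000000000000000000000000000) (nat_lit 0x0) (nat_lit 0x78002800060008000400020000000000000000000000000000) := T_16 (nat_lit 181) (nat_lit 198) (nat_lit 7) (nat_lit 10) (nat_lit 7) L25470 (by decide +kernel)
theorem L25472 : W_16 (nat_lit 7) (nat_lit 0x4001200080005000280000000000000000000000000000000) (nat_lit 0x0) (nat_lit 0x78002800070008800400020000000000000000000000000000) := T_16 (nat_lit 160) (nat_lit 143) (nat_lit 6) (nat_lit 7) (nat_lit 11) L25471 (by decide +kernel)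
theorem L25473 : W_16 (nat_lit 2) (nat_lit 0x40072001d002d000e80000000000000000000000000000000) (nat_lit 0x0) (nat_lit 0x40003000000000000000000000000000000000) := D_16 (nat_lit 132) (nat_lit 150) (nat_lit 133) (nat_lit 3) (nat_lit 10) (nat_lit 7) (nat_lit 1) (nat_lit 14) (nat_lit 7) (by decide +kernel)
theorem L25474 : W_16 (nat_lit 3) (nat_lit 0x40072001d002d000680000000000000000000000000000000) (nat_lit 0x0) (nat_lit 0x40003800040000000000000000000000000000) := T_16 (nat_lit 131) (nat_lit 114) (nat_lit 6) (nat_lit 11) (nat_lit 10) L25473 (by decide +kernel)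
theorem L25475 : W_16 (nat_lit 4) (nat_lit 0x40072000d002d000680000000000000000000000000000000) (nat_lit 0x0) (nat_lit 0x80000000100040003800040000000000000000000000000000) := T_16 (nat_lit 164) (nat_lit 199) (nat_lit 7) (nat_lit 11) (nat_lit 7) L25474 (by decide +kernel)
theorem L25476 : W_16 (nat_lit 5) (nat_lit 0x40032000d002d000680000000000000000000000000000000) (nat_lit 0x0) (nat_lit 0x8000c000100040003800040000000000000000000000000000) := T_16 (nat_lit 182) (nat_lit 183) (nat_lit 0) (nat_lit 13) (nat_lit 10) L25475 (by decide +kernel)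
theorem L25477 : W_16 (nat_lit 6) (nat_lit 0x40032000d000d000680000000000000000000000000000000) (nat_lit 0x0) (nat_lit 0x8000c000100070003800040000000000000000000000000000) := T_16 (nat_lit 149) (nat_lit 148) (nat_lit 1) (nat_lit 13) (nat_lit 8) L25476 (by decide +kernel)
theorem L25478 : W_16 (nat_lit 7) (nat_lit 0x400320009000d000680000000000000000000000000000000) (nat_lit 0x0) (nat_lit 0x8000c000160070003800040000000000000000000000000000) := T_16 (nat_lit 162) (nat_lit 161) (nat_lit 3) (nat_lit 7) (nat_lit 9) L25477 (by decide +kernel)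
theorem L25479 : W_16 (nat_lit 8) (nat_lit 0x400320008000d000680000000000000000000000000000000) (nat_lit 0x0) (nat_lit 0x8000c000170070803800040000000000000000000000000000) := T_16 (nat_lit 160) (nat_lit 143) (nat_lit 6) (nat_lit 7) (nat_lit 11) L25478 (by decide +kernel)
theorem L25480 : W_16 (nat_lit 9) (nat_lit 0x4003200080005000680000000000000000000000000000000) (nat_lit 0x0) (nat_lit 0xa000c000170078803800040000000000000000000000000000) := T_16 (nat_lit 147) (nat_lit 197) (nat_lit 6) (nat_lit 10) (nat_lit 11) L25479 (by decide +kernel)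
theorem L25481 : W_16 (nat_lit 10) (nat_lit 0x4001200080005000680000000000000000000000000000000) (nat_lit 0x0) (nat_lit 0xe000e000170078803800040000000000000000000000000000) := T_16 (nat_lit 181) (nat_lit 198) (nat_lit 7) (nat_lit 10) (nat_lit 7) L25480 (by decide +kernel)
theorem L25482 : W_16 (nat_lit 11) (nat_lit 0x4001200080005000280000000000000000000000000000000) (nat_lit 0x0) (nat_lit 0xe000e000170078803c00060000000000000000000000000000) := T_16 (nat_lit 130) (nat_lit 113) (nat_lit 6) (nat_lit 10) (nat_lit 10) L25481 (by decide +kernel)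
theorem L25483 : W_16 (nat_lit 2) (nat_lit 0x4000c00024001a00090005000680000000000000000000000000000000) (nat_lit 0x0) (nat_lit 0x80008000000000000000040000000000000000000000000000000000000000) := D_16 (nat_lit 231) (nat_lit 162) (nat_lit 247) (nat_lit 4) (nat_lit 10) (nat_lit 13) (nat_lit 5) (nat_lit 10) (nat_lit 10) (by decide +kernel)
theorem L25484 : W_16 (nat_lit 3) (nat_lit 0xc00024001a00090005000680000000000000000000000000000000) (nat_lit 0x0) (nat_lit 0x8000c000200000000000040000000000000000000000000000000000000000) := T_16 (nat_lit 230) (nat_lit 213) (nat_lit 5) (nat_lit 10) (nat_lit 9) L25483 (by decide +kernel)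
theorem L25485 : W_16 (nat_lit 4) (nat_lit 0x800024001a00090005000680000000000000000000000000000000) (nat_lit 0x0) (nat_lit 0x8001c000600000000000040000000000000000000000000000000000000000) := T_16 (nat_lit 214) (nat_lit 232) (nat_lit 7) (nat_lit 10) (nat_lit 9) L25484 (by decide +kernel)
theorem L25486 : W_16 (nat_lit 5) (nat_lit 0x24001a00090005000680000000000000000000000000000000) (nat_lit 0x0) (nat_lit 0x8001c000e00040000000040000000000000000000000000000000000000000) := T_16 (nat_lit 215) (nat_lit 198) (nat_lit 7) (nat_lit 10) (nat_lit 8) L25485 (by decide +kernel)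
theorem L25487 : W_16 (nat_lit 6) (nat_lit 0x4001a00090005000680000000000000000000000000000000) (nat_lit 0x0) (nat_lit 0x8001c000e00060000000040008000000000000000000000000000000000000) := T_16 (nat_lit 197) (nat_lit 147) (nat_lit 6) (nat_lit 10) (nat_lit 11) L25486 (by decide +kernel)
theorem L25488 : W_16 (nat_lit 7) (nat_lit 0x4001a00090005000280000000000000000000000000000000) (nat_lit 0x0) (nat_lit 0x8001c000e00060000000040008000400020000000000000000000000000000) := T_16 (nat_lit 130) (nat_lit 113) (nat_lit 6) (nat_lit 10) (nat_lit 10) L25487 (by decide +kernel)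
theorem L25489 : W_16 (nat_lit 8) (nat_lit 0x4001200090005000280000000000000000000000000000000) (nat_lit 0x0) (nat_lit 0x8001c000e00070000800040008000400020000000000000000000000000000) := T_16 (nat_lit 179) (nat_lit 196) (nat_lit 5) (nat_lit 10) (nat_lit 7) L25488 (by decide +kernel)
theorem L25490 : W_16 (nat_lit 9) (nat_lit 0x4001200080005000280000000000000000000000000000000) (nat_lit 0x0) (nat_lit 0x8001c000e00070000800050008800400020000000000000000000000000000) := T_16 (nat_lit 160) (nat_lit 143) (nat_lit 6) (nat_lit 7) (nat_lit 11) L25489 (by decide +kernel)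
theorem L25491 : W_16 (nat_lit 2) (nat_lit 0x24001200090005000680000000000000000000000000000000) (nat_lit 0x0) (nat_lit 0x200010000800000000000000000000000000000000000000000000) := D_16 (nat_lit 196) (nat_lit 213) (nat_lit 179) (nat_lit 5) (nat_lit 10) (nat_lit 8) (nat_lit 5) (nat_lit 10) (nat_lit 7) (by decide +kernel)
theorem L25492 : W_16 (nat_lit 3) (nat_lit 0x4001200090005000680000000000000000000000000000000) (nat_lit 0x0) (nat_lit 0x200030000800000008000000000000000000000000000000000000) := T_16 (nat_lit 197) (nat_lit 147) (nat_lit 6) (nat_lit 10) (nat_lit 11) L25491 (by decide +kernel)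
theorem L25493 : W_16 (nat_lit 4) (nat_lit 0x4001200080005000680000000000000000000000000000000) (nat_lit 0x0) (nat_lit 0x200030000800010008800000000000000000000000000000000000) := T_16 (nat_lit 160) (nat_lit 143) (nat_lit 6) (nat_lit 7) (nat_lit 11) L25492 (by decide +kernel)
theorem L25494 : W_16 (nat_lit 5) (nat_lit 0x4001200080005000280000000000000000000000000000000) (nat_lit 0x0) (nat_lit 0x200030000800010008800400020000000000000000000000000000) := T_16 (nat_lit 130) (nat_lit 113) (nat_lit 6) (nat_lit 10) (nat_lit 10) L25493 (by decide +kernel)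
theorem L25495 : W_16 (nat_lit 2) (nat_lit 0x34001200090005000280000000000000000000000000000000) (nat_lit 0x0) (nat_lit 0x48002000000000000000000000000000000000000000000000) := D_16 (nat_lit 181) (nat_lit 195) (nat_lit 198) (nat_lit 2) (nat_lit 7) (nat_lit 11) (nat_lit 7) (nat_lit 10) (nat_lit 7) (by decide +kernel)
theorem L25496 : W_16 (nat_lit 3) (nat_lit 0x14001200090005000280000000000000000000000000000000) (nat_lit 0x0) (nat_lit 0x200068002000000000000000000000000000000000000000000000) := T_16 (nat_lit 197) (nat_lit 213) (nat_lit 5) (nat_lit 10) (nat_lit 8) L25495 (by decide +kernel)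
theorem L25497 : W_16 (nat_lit 4) (nat_lit 0x14001200080005000280000000000000000000000000000000) (nat_lit 0x0) (nat_lit 0x200068002000010000800000000000000000000000000000000000) := T_16 (nat_lit 160) (nat_lit 143) (nat_lit 6) (nat_lit 7) (nat_lit 11) L25496 (by decide +kernel)
theorem L25498 : W_16 (nat_lit 5) (nat_lit 0x4001200080005000280000000000000000000000000000000) (nat_lit 0x0) (nat_lit 0x200078002800010000800000000000000000000000000000000000) := T_16 (nat_lit 196) (nat_lit 179) (nat_lit 5) (nat_lit 10) (nat_lit 7) L25497 (by decide +kernel)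
theorem L25499 : W_16 (nat_lit 2) (nat_lit 0x44001a00080005000680000000000000000000000000000000) (nat_lit 0x0) (nat_lit 0x800020000000000008000000000000000000000000000000000000) := D_16 (nat_lit 197) (nat_lit 147) (nat_lit 215) (nat_lit 6) (nat_lit 10) (nat_lit 11) (nat_lit 7) (nat_lit 10) (nat_lit 8) (by decide +kernel)
theorem L25500 : W_16 (nat_lit 3) (nat_lit 0x4001a00080005000680000000000000000000000000000000) (nat_lit 0x0) (nat_lit 0x800060002000000008000000000000000000000000000000000000) := T_16 (nat_lit 198) (nat_lit 181) (nat_lit 7) (nat_lit 10) (nat_lit 7) L25499 (by decide +kernel)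
theorem L25501 : W_16 (nat_lit 4) (nat_lit 0x4001a00080005000280000000000000000000000000000000) (nat_lit 0x0) (nat_lit 0x800060002000000008000400020000000000000000000000000000) := T_16 (nat_lit 130) (nat_lit 113) (nat_lit 6) (nat_lit 10) (nat_lit 10) L25500 (by decide +kernel)
theorem L25502 : W_16 (nat_lit 5) (nat_lit 0x4001200080005000280000000000000000000000000000000) (nat_lit 0x0) (nat_lit 0x800070002800000008000400020000000000000000000000000000) := T_16 (nat_lit 179) (nat_lit 196) (nat_lit 5) (nat_lit 10) (nat_lit 7) L25501 (by decide +kernel)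
theorem L25503 : W_16 (nat_lit 2) (nat_lit 0x84007a002d0005000680000000000000000000000000000000) (nat_lit 0x0) (nat_lit 0x100018000000000000000000000000000000000000) := D_16 (nat_lit 147) (nat_lit 148) (nat_lit 164) (nat_lit 4) (nat_lit 12) (nat_lit 11) (nat_lit 7) (nat_lit 11) (nat_lit 7) (by decide +kernel)
theorem L25504 : W_16 (nat_lit 3) (nat_lit 0x4007a002d0005000680000000000000000000000000000000) (nat_lit 0x0) (nat_lit 0x180000000100018000000000000000000000000000000000000) := T_16 (nat_lit 199) (nat_lit 200) (nat_lit 3) (nat_lit 9) (nat_lit 10) L25503 (by decide +kernel)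
theorem L25505 : W_16 (nat_lit 4) (nat_lit 0x4007a000d0005000680000000000000000000000000000000) (nat_lit 0x0) (nat_lit 0x180000000700018000000000000000000000000000000000000) := T_16 (nat_lit 165) (nat_lit 166) (nat_lit 2) (nat_lit 9) (nat_lit 10) L25504 (by decide +kernel)
theorem L25506 : W_16 (nat_lit 5) (nat_lit 0x4003a000d0005000680000000000000000000000000000000) (nat_lit 0x0) (nat_lit 0x18000c000700018000000000000000000000000000000000000) := T_16 (nat_lit 182) (nat_lit 183) (nat_lit 0) (nat_lit 13) (nat_lit 10) L25505 (by decide +kernel)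
theorem L25507 : W_16 (nat_lit 6) (nat_lit 0x4003a00090005000680000000000000000000000000000000) (nat_lit 0x0) (nat_lit 0x18000c000760018000000000000000000000000000000000000) := T_16 (nat_lit 162) (nat_lit 161) (nat_lit 3) (nat_lit 7) (nat_lit 9) L25506 (by decide +kernel)
theorem L25508 : W_16 (nat_lit 7) (nat_lit 0x4001a00090005000680000000000000000000000000000000) (nat_lit 0x0) (nat_lit 0x1c000e000760018000000000000000000000000000000000000) := T_16 (nat_lit 181) (nat_lit 198) (nat_lit 7) (nat_lit 10) (nat_lit 7) L25507 (by decide +kernel)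
theorem L25509 : W_16 (nat_lit 8) (nat_lit 0x4001200090005000680000000000000000000000000000000) (nat_lit 0x0) (nat_lit 0x1d000e800760018000000000000000000000000000000000000) := T_16 (nat_lit 179) (nat_lit 196) (nat_lit 5) (nat_lit 10) (nat_lit 7) L25508 (by decide +kernel)
theorem L25510 : W_16 (nat_lit 9) (nat_lit 0x4001200080005000680000000000000000000000000000000) (nat_lit 0x0) (nat_lit 0x1d000e800770018800000000000000000000000000000000000) := T_16 (nat_lit 160) (nat_lit 143) (nat_lit 6) (nat_lit 7) (nat_lit 11) L25509 (by decide +kernel)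
theorem L25511 : W_16 (nat_lit 10) (nat_lit 0x4001200080005000280000000000000000000000000000000) (nat_lit 0x0) (nat_lit 0x1d000e800770018800400020000000000000000000000000000) := T_16 (nat_lit 130) (nat_lit 113) (nat_lit 6) (nat_lit 10) (nat_lit 10) L25510 (by decide +kernel)
theorem L25512 : W_16 (nat_lit 12) (nat_lit 0x4001200080001000280000000000000000000000000000000) (nat_lit 0x0) (nat_lit 0x8001c000e001f800e80077007c803c00060000000000000000000000000000) := Q_16 (nat_lit 146) (C_16 L25472 (C_16 L25482 (C_16 L25490 (C_16 L25494 (C_16 L25498 (C_16 L25502 (C_16 L25511 N_16))))))) (by decide +kernel)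
theorem L25513 : W_16 (nat_lit 2) (nat_lit 0x4001a00080001000280000000000000000000000000000000) (nat_lit 0x0) (nat_lit 0x2000400100000000000000000000000000000000000000000) := D_16 (nat_lit 178) (nat_lit 193) (nat_lit 164) (nat_lit 1) (nat_lit 10) (nat_lit 10) (nat_lit 2) (nat_lit 7) (nat_lit 10) (by decide +kernel)
theorem L25514 : W_16 (nat_lit 8) (nat_lit 0x4001a00090001000280000000000000000000000000000000) (nat_lit 0x0) (nat_lit 0x8001c000e0007000000004000c000400020000000000000000000000000000) := T_16 (nat_lit 146) (nat_lit 196) (nat_lit 5) (nat_lit 10) (nat_lit 7) L25488 (by decide +kernel)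
theorem L25515 : W_16 (nat_lit 9) (nat_lit 0x4001a00080001000280000000000000000000000000000000) (nat_lit 0x0) (nat_lit 0x8001c000e0007000000005000c800400020000000000000000000000000000) := T_16 (nat_lit 160) (nat_lit 143) (nat_lit 6) (nat_lit 7) (nat_lit 11) L25514 (by decide +kernel)
theorem L25516 : W_16 (nat_lit 10) (nat_lit 0x4001200080001000280000000000000000000000000000000) (nat_lit 0x0) (nat_lit 0x8001c000e00072000c0015000c800400020000000000000000000000000000) := Q_16 (nat_lit 179) (C_16 L25513 (C_16 L25515 N_16)) (by decide +kernel)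
theorem L25517 : W_16 (nat_lit 2) (nat_lit 0x4001600080001000280000000000000000000000000000000) (nat_lit 0x0) (nat_lit 0x2000800100000000000000000000000000000000000000000) := D_16 (nat_lit 179) (nat_lit 164) (nat_lit 193) (nat_lit 2) (nat_lit 7) (nat_lit 10) (nat_lit 1) (nat_lit 10) (nat_lit 10) (by decide +kernel)
theorem L25518 : W_16 (nat_lit 3) (nat_lit 0x4001200080001000280000000000000000000000000000000) (nat_lit 0x0) (nat_lit 0x2000c00120000000000000000000000000000000000000000) := T_16 (nat_lit 178) (nat_lit 161) (nat_lit 5) (nat_lit 8) (nat_lit 7) L25517 (by decide +kernel)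
theorem L25519 : W_16 (nat_lit 2) (nat_lit 0x240032000b0005000680000000000000000000000000000000) (nat_lit 0x0) (nat_lit 0x200018000000000000000000000000000000000000000000000000) := D_16 (nat_lit 196) (nat_lit 213) (nat_lit 195) (nat_lit 5) (nat_lit 10) (nat_lit 8) (nat_lit 2) (nat_lit 7) (nat_lit 11) (by decide +kernel)
theorem L25520 : W_16 (nat_lit 3) (nat_lit 0x40032000b0005000680000000000000000000000000000000) (nat_lit 0x0) (nat_lit 0x200038000000000008000000000000000000000000000000000000) := T_16 (nat_lit 197) (nat_lit 147) (nat_lit 6) (nat_lit 10) (nat_lit 11) L25519 (by decide +kernel)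
theorem L25521 : W_16 (nat_lit 4) (nat_lit 0x40032000b0005000280000000000000000000000000000000) (nat_lit 0x0) (nat_lit 0x200038000000000008000400020000000000000000000000000000) := T_16 (nat_lit 130) (nat_lit 113) (nat_lit 6) (nat_lit 10) (nat_lit 10) L25520 (by decide +kernel)
theorem L25522 : W_16 (nat_lit 5) (nat_lit 0x40032000b0001000280000000000000000000000000000000) (nat_lit 0x0) (nat_lit 0x20007800000000000c000400020000000000000000000000000000) := T_16 (nat_lit 146) (nat_lit 198) (nat_lit 7) (nat_lit 10) (nat_lit 7) L25521 (by decide +kernel)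
theorem L25523 : W_16 (nat_lit 6) (nat_lit 0x40012000b0001000280000000000000000000000000000000) (nat_lit 0x0) (nat_lit 0x20007800200004000c000400020000000000000000000000000000) := T_16 (nat_lit 181) (nat_lit 162) (nat_lit 3) (nat_lit 7) (nat_lit 9) L25522 (by decide +kernel)
theorem L25524 : W_16 (nat_lit 7) (nat_lit 0x40012000a0001000280000000000000000000000000000000) (nat_lit 0x0) (nat_lit 0x20007800200005000c800400020000000000000000000000000000) := T_16 (nat_lit 160) (nat_lit 143) (nat_lit 6) (nat_lit 7) (nat_lit 11) L25523 (by decide +kernel)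
theorem L25525 : W_16 (nat_lit 8) (nat_lit 0x4001200080001000280000000000000000000000000000000) (nat_lit 0x0) (nat_lit 0x20007800240007000c800400020000000000000000000000000000) := T_16 (nat_lit 161) (nat_lit 178) (nat_lit 5) (nat_lit 8) (nat_lit 7) L25524 (by decide +kernel)
theorem L25526 : W_16 (nat_lit 13) (nat_lit 0x4000200080001000280000000000000000000000000000000) (nat_lit 0x0) (nat_lit 0x8001c000e001fa00fc0077007c803c00060000000000000000000000000000) := Q_16 (nat_lit 180) (C_16 L25512 (C_16 L25516 (C_16 L25518 (C_16 L25525 N_16)))) (by decide +kernel)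
theorem L25527 : W_16 (nat_lit 2) (nat_lit 0x4003200090005000280010000000000000000000000000000) (nat_lit 0x0) (nat_lit 0x800060000000000000000000000000000000000000000) := D_16 (nat_lit 162) (nat_lit 179) (nat_lit 161) (nat_lit 5) (nat_lit 10) (nat_lit 6) (nat_lit 3) (nat_lit 7) (nat_lit 9) (by decide +kernel)
theorem L25528 : W_16 (nat_lit 3) (nat_lit 0x4003200090005000280000000000000000000000000000000) (nat_lit 0x0) (nat_lit 0x800160000000000010000000000000000000000000000) := T_16 (nat_lit 112) (nat_lit 164) (nat_lit 7) (nat_lit 10) (nat_lit 6) L25527 (by decide +kernel)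
theorem L25529 : W_16 (nat_lit 4) (nat_lit 0x4001200090005000280000000000000000000000000000000) (nat_lit 0x0) (nat_lit 0x40002800160000000000010000000000000000000000000000) := T_16 (nat_lit 181) (nat_lit 198) (nat_lit 7) (nat_lit 10) (nat_lit 7) L25528 (by decide +kernel)
theorem L25530 : W_16 (nat_lit 5) (nat_lit 0x4001200080005000280000000000000000000000000000000) (nat_lit 0x0) (nat_lit 0x40002800170000800000010000000000000000000000000000) := T_16 (nat_lit 160) (nat_lit 143) (nat_lit 6) (nat_lit 7) (nat_lit 11) L25529 (by decide +kernel)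
theorem L25531 : W_16 (nat_lit 2) (nat_lit 0x4001a0009000d000280010001c00000000000000000000000) (nat_lit 0x0) (nat_lit 0x20000000000000000400000000000040000000000000000000) := D_16 (nat_lit 130) (nat_lit 78) (nat_lit 197) (nat_lit 7) (nat_lit 10) (nat_lit 4) (nat_lit 6) (nat_lit 10) (nat_lit 11) (by decide +kernel)
theorem L25532 : W_16 (nat_lit 3) (nat_lit 0x4001a00090005000280010001c00000000000000000000000) (nat_lit 0x0) (nat_lit 0x20000000100008000400000000000040000000000000000000) := T_16 (nat_lit 147) (nat_lit 164) (nat_lit 7) (nat_lit 10) (nat_lit 5) L25531 (by decide +kernel)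
theorem L25533 : W_16 (nat_lit 4) (nat_lit 0x4001a00090005000280010000c00000000000000000000000) (nat_lit 0x0) (nat_lit 0x200000001000080004000000010000c0000000000000000000) := T_16 (nat_lit 96) (nat_lit 79) (nat_lit 6) (nat_lit 10) (nat_lit 8) L25532 (by decide +kernel)
theorem L25534 : W_16 (nat_lit 5) (nat_lit 0x4001a00090005000280010000400000000000000000000000) (nat_lit 0x0) (nat_lit 0x200000001000080004000000018000e0000000000000000000) := T_16 (nat_lit 95) (nat_lit 77) (nat_lit 4) (nat_lit 10) (nat_lit 8) L25533 (by decide +kernel)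
theorem L25535 : W_16 (nat_lit 6) (nat_lit 0x4001a00080005000280010000400000000000000000000000) (nat_lit 0x0) (nat_lit 0x200000001100088004000000018000e0000000000000000000) := T_16 (nat_lit 160) (nat_lit 143) (nat_lit 6) (nat_lit 7) (nat_lit 11) L25534 (by decide +kernel)
theorem L25536 : W_16 (nat_lit 7) (nat_lit 0x4001a00080005000280010000000000000000000000000000) (nat_lit 0x0) (nat_lit 0x20000000110008800400008001c000e0000000000000000000) := T_16 (nat_lit 94) (nat_lit 111) (nat_lit 4) (nat_lit 10) (nat_lit 9) L25535 (by decide +kernel)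
theorem L25537 : W_16 (nat_lit 8) (nat_lit 0x4001a00080005000280000000000000000000000000000000) (nat_lit 0x0) (nat_lit 0x20000000150008800400018001c000e0000000000000000000) := T_16 (nat_lit 112) (nat_lit 162) (nat_lit 5) (nat_lit 10) (nat_lit 6) L25536 (by decide +kernel)
theorem L25538 : W_16 (nat_lit 9) (nat_lit 0x4001200080005000280000000000000000000000000000000) (nat_lit 0x0) (nat_lit 0x30000800150008800400018001c000e0000000000000000000) := T_16 (nat_lit 179) (nat_lit 196) (nat_lit 5) (nat_lit 10) (nat_lit 7) L25537 (by decide +kernel)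
theorem L25539 : W_16 (nat_lit 2) (nat_lit 0x4000640012000b000d000280000000000000000000000000000000) (nat_lit 0x0) (nat_lit 0x4000200010000000000000000000000000000000000000000000000000) := D_16 (nat_lit 213) (nat_lit 230) (nat_lit 196) (nat_lit 5) (nat_lit 10) (nat_lit 9) (nat_lit 5) (nat_lit 10) (nat_lit 8) (by decide +kernel)
theorem L25540 : W_16 (nat_lit 3) (nat_lit 0x640012000b000d000280000000000000000000000000000000) (nat_lit 0x0) (nat_lit 0x4000600010000000100000000000000000000000000000000000000000) := T_16 (nat_lit 214) (nat_lit 164) (nat_lit 6) (nat_lit 10) (nat_lit 12) L25539 (by decide +kernel)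
theorem L25541 : W_16 (nat_lit 4) (nat_lit 0x6400120009000d000280000000000000000000000000000000) (nat_lit 0x0) (nat_lit 0x4000600010000000160000000000000000000000000000000000000000) := T_16 (nat_lit 161) (nat_lit 162) (nat_lit 2) (nat_lit 7) (nat_lit 9) L25540 (by decide +kernel)
theorem L25542 : W_16 (nat_lit 5) (nat_lit 0x64001200090005000280000000000000000000000000000000) (nat_lit 0x0) (nat_lit 0x4000600010000000160008000400000000000000000000000000000000) := T_16 (nat_lit 147) (nat_lit 130) (nat_lit 6) (nat_lit 10) (nat_lit 11) L25541 (by decide +kernel)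
theorem L25543 : W_16 (nat_lit 6) (nat_lit 0x44001200090005000280000000000000000000000000000000) (nat_lit 0x0) (nat_lit 0x4000e00030000000160008000400000000000000000000000000000000) := T_16 (nat_lit 197) (nat_lit 215) (nat_lit 7) (nat_lit 10) (nat_lit 8) L25542 (by decide +kernel)
theorem L25544 : W_16 (nat_lit 7) (nat_lit 0x4001200090005000280000000000000000000000000000000) (nat_lit 0x0) (nat_lit 0x4000e00070002000160008000400000000000000000000000000000000) := T_16 (nat_lit 198) (nat_lit 181) (nat_lit 7) (nat_lit 10) (nat_lit 7) L25543 (by decide +kernel)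
theorem L25545 : W_16 (nat_lit 8) (nat_lit 0x4001200080005000280000000000000000000000000000000) (nat_lit 0x0) (nat_lit 0x4000e00070002000170008800400000000000000000000000000000000) := T_16 (nat_lit 160) (nat_lit 143) (nat_lit 6) (nat_lit 7) (nat_lit 11) L25544 (by decide +kernel)
theorem L25546 : W_16 (nat_lit 2) (nat_lit 0x4003200080005000280010000000000000000000000000000) (nat_lit 0x0) (nat_lit 0x10000800040000000000000000000000000000000000000000) := D_16 (nat_lit 179) (nat_lit 162) (nat_lit 196) (nat_lit 5) (nat_lit 10) (nat_lit 6) (nat_lit 5) (nat_lit 10) (nat_lit 7) (by decide +kernel)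
theorem L25547 : W_16 (nat_lit 3) (nat_lit 0x4003200080005000280000000000000000000000000000000) (nat_lit 0x0) (nat_lit 0x10000800140000000000010000000000000000000000000000) := T_16 (nat_lit 112) (nat_lit 164) (nat_lit 7) (nat_lit 10) (nat_lit 6) L25546 (by decide +kernel)
theorem L25548 : W_16 (nat_lit 4) (nat_lit 0x4001200080005000280000000000000000000000000000000) (nat_lit 0x0) (nat_lit 0x50002800140000000000010000000000000000000000000000) := T_16 (nat_lit 181) (nat_lit 198) (nat_lit 7) (nat_lit 10) (nat_lit 7) L25547 (by decide +kernel)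
theorem L25549 : W_16 (nat_lit 2) (nat_lit 0x4001a000d0005000280000000000000000000000000000000) (nat_lit 0x0) (nat_lit 0x2000020008000000000000000000000000000000000000) := D_16 (nat_lit 161) (nat_lit 181) (nat_lit 147) (nat_lit 3) (nat_lit 7) (nat_lit 9) (nat_lit 2) (nat_lit 7) (nat_lit 9) (by decide +kernel)
theorem L25550 : W_16 (nat_lit 3) (nat_lit 0x4001a000c0005000280000000000000000000000000000000) (nat_lit 0x0) (nat_lit 0x2000030008800000000000000000000000000000000000) := T_16 (nat_lit 160) (nat_lit 143) (nat_lit 6) (nat_lit 7) (nat_lit 11) L25549 (by decide +kernel)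
theorem L25551 : W_16 (nat_lit 4) (nat_lit 0x4001a00080005000280000000000000000000000000000000) (nat_lit 0x0) (nat_lit 0x2000070008800000010000000000000000000000000000) := T_16 (nat_lit 162) (nat_lit 112) (nat_lit 5) (nat_lit 10) (nat_lit 6) L25550 (by decide +kernel)
theorem L25552 : W_16 (nat_lit 5) (nat_lit 0x4001200080005000280000000000000000000000000000000) (nat_lit 0x0) (nat_lit 0x10002800070008800000010000000000000000000000000000) := T_16 (nat_lit 179) (nat_lit 196) (nat_lit 5) (nat_lit 10) (nat_lit 7) L25551 (by decide +kernel)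
theorem L25553 : W_16 (nat_lit 2) (nat_lit 0x14003200080005000280018000000000000000000000000000) (nat_lit 0x0) (nat_lit 0x200028000000000000000000000000000000000000000000000000) := D_16 (nat_lit 197) (nat_lit 195) (nat_lit 213) (nat_lit 2) (nat_lit 7) (nat_lit 11) (nat_lit 5) (nat_lit 10) (nat_lit 8) (by decide +kernel)
theorem L25554 : W_16 (nat_lit 3) (nat_lit 0x4003200080005000280018000000000000000000000000000) (nat_lit 0x0) (nat_lit 0x200038000800000000000000000000000000000000000000000000) := T_16 (nat_lit 196) (nat_lit 179) (nat_lit 5) (nat_lit 10) (nat_lit 7) L25553 (by decide +kernel)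
theorem L25555 : W_16 (nat_lit 4) (nat_lit 0x4003200080005000280010000000000000000000000000000) (nat_lit 0x0) (nat_lit 0x200038000800000000000000008000400000000000000000000000) := T_16 (nat_lit 111) (nat_lit 94) (nat_lit 4) (nat_lit 10) (nat_lit 9) L25554 (by decide +kernel)
theorem L25556 : W_16 (nat_lit 5) (nat_lit 0x4003200080005000280000000000000000000000000000000) (nat_lit 0x0) (nat_lit 0x200038000800100000000000018000400000000000000000000000) := T_16 (nat_lit 112) (nat_lit 164) (nat_lit 7) (nat_lit 10) (nat_lit 6) L25555 (by decide +kernel)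
theorem L25557 : W_16 (nat_lit 6) (nat_lit 0x4001200080005000280000000000000000000000000000000) (nat_lit 0x0) (nat_lit 0x200078002800100000000000018000400000000000000000000000) := T_16 (nat_lit 181) (nat_lit 198) (nat_lit 7) (nat_lit 10) (nat_lit 7) L25556 (by decide +kernel)
theorem L25558 : W_16 (nat_lit 10) (nat_lit 0x4001200080001000280000000000000000000000000000000) (nat_lit 0x0) (nat_lit 0x4000e0007800280017000c800400018001c000e0000000000000000000) := Q_16 (nat_lit 146) (C_16 L25530 (C_16 L25538 (C_16 L25545 (C_16 L25548 (C_16 L25552 (C_16 L25557 N_16)))))) (by decide +kernel)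
theorem L25559 : W_16 (nat_lit 2) (nat_lit 0x4001a00090005000280010000000000000000000000000000) (nat_lit 0x0) (nat_lit 0x40002000100000000000000000000000000000000000000000) := D_16 (nat_lit 181) (nat_lit 198) (nat_lit 164) (nat_lit 7) (nat_lit 10) (nat_lit 7) (nat_lit 7) (nat_lit 10) (nat_lit 6) (by decide +kernel)
theorem L25560 : W_16 (nat_lit 3) (nat_lit 0x4001a00090005000280000000000000000000000000000000) (nat_lit 0x0) (nat_lit 0x40002000140000000000010000000000000000000000000000) := T_16 (nat_lit 112) (nat_lit 162) (nat_lit 5) (nat_lit 10) (nat_lit 6) L25559 (by decide +kernel)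
theorem L25561 : W_16 (nat_lit 4) (nat_lit 0x4001a00090001000280000000000000000000000000000000) (nat_lit 0x0) (nat_lit 0x50002000140004000000010000000000000000000000000000) := T_16 (nat_lit 146) (nat_lit 196) (nat_lit 5) (nat_lit 10) (nat_lit 7) L25560 (by decide +kernel)
theorem L25562 : W_16 (nat_lit 5) (nat_lit 0x4001a00080001000280000000000000000000000000000000) (nat_lit 0x0) (nat_lit 0x50002000150004800000010000000000000000000000000000) := T_16 (nat_lit 160) (nat_lit 143) (nat_lit 6) (nat_lit 7) (nat_lit 11) L25561 (by decide +kernel)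
theorem L25563 : W_16 (nat_lit 2) (nat_lit 0x4001a00080001000280000000000000000000000000000000) (nat_lit 0x0) (nat_lit 0x2000400100000000000000000000000000000000000000000) := D_16 (nat_lit 178) (nat_lit 164) (nat_lit 193) (nat_lit 2) (nat_lit 7) (nat_lit 10) (nat_lit 1) (nat_lit 10) (nat_lit 10) (by decide +kernel)
theorem L25564 : W_16 (nat_lit 2) (nat_lit 0x4003a00080005000280018000000000000000000000000000) (nat_lit 0x0) (nat_lit 0xa000400000000000000000000000000000000000000000000) := D_16 (nat_lit 178) (nat_lit 195) (nat_lit 193) (nat_lit 1) (nat_lit 11) (nat_lit 10) (nat_lit 1) (nat_lit 10) (nat_lit 10) (by decide +kernel)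
theorem L25565 : W_16 (nat_lit 3) (nat_lit 0x4001a00080005000280018000000000000000000000000000) (nat_lit 0x0) (nat_lit 0x4a002400000000000000000000000000000000000000000000) := T_16 (nat_lit 181) (nat_lit 198) (nat_lit 7) (nat_lit 10) (nat_lit 7) L25564 (by decide +kernel)
theorem L25566 : W_16 (nat_lit 4) (nat_lit 0x4001a00080005000280010000000000000000000000000000) (nat_lit 0x0) (nat_lit 0x4a002400000000000000008000400000000000000000000000) := T_16 (nat_lit 111) (nat_lit 94) (nat_lit 4) (nat_lit 10) (nat_lit 9) L25565 (by decide +kernel)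
theorem L25567 : W_16 (nat_lit 5) (nat_lit 0x4001a00080005000280000000000000000000000000000000) (nat_lit 0x0) (nat_lit 0x4a002400040000000000018000400000000000000000000000) := T_16 (nat_lit 112) (nat_lit 162) (nat_lit 5) (nat_lit 10) (nat_lit 6) L25566 (by decide +kernel)
theorem L25568 : W_16 (nat_lit 6) (nat_lit 0x4001a00080001000280000000000000000000000000000000) (nat_lit 0x0) (nat_lit 0x5a002400040004000000018000400000000000000000000000) := T_16 (nat_lit 146) (nat_lit 196) (nat_lit 5) (nat_lit 10) (nat_lit 7) L25567 (by decide +kernel)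
theorem L25569 : W_16 (nat_lit 7) (nat_lit 0x4001200080001000280000000000000000000000000000000) (nat_lit 0x0) (nat_lit 0x5a002c00150004800000018000400000000000000000000000) := Q_16 (nat_lit 179) (C_16 L25562 (C_16 L25563 (C_16 L25568 N_16))) (by decide +kernel)
theorem L25570 : W_16 (nat_lit 2) (nat_lit 0x8000340012000b000d000280000000000000000000000000000000) (nat_lit 0x0) (nat_lit 0x400008000000100000000000000000000000000000000000000000) := D_16 (nat_lit 214) (nat_lit 164) (nat_lit 195) (nat_lit 6) (nat_lit 10) (nat_lit 12) (nat_lit 3) (nat_lit 7) (nat_lit 11) (by decide +kernel)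
theorem L25571 : W_16 (nat_lit 3) (nat_lit 0x340012000b000d000280000000000000000000000000000000) (nat_lit 0x0) (nat_lit 0xc00048000000100000000000000000000000000000000000000000) := T_16 (nat_lit 215) (nat_lit 198) (nat_lit 7) (nat_lit 10) (nat_lit 8) L25570 (by decide +kernel)
theorem L25572 : W_16 (nat_lit 4) (nat_lit 0x240012000b000d000280000000000000000000000000000000) (nat_lit 0x0) (nat_lit 0xe00058000000100000000000000000000000000000000000000000) := T_16 (nat_lit 196) (nat_lit 213) (nat_lit 5) (nat_lit 10) (nat_lit 8) L25571 (by decide +kernel)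
theorem L25573 : W_16 (nat_lit 5) (nat_lit 0x40012000b000d000280000000000000000000000000000000) (nat_lit 0x0) (nat_lit 0xe00078000000100000000400000000000000000000000000000000) := T_16 (nat_lit 197) (nat_lit 130) (nat_lit 6) (nat_lit 10) (nat_lit 11) L25572 (by decide +kernel)
theorem L25574 : W_16 (nat_lit 6) (nat_lit 0x40012000b0005000280000000000000000000000000000000) (nat_lit 0x0) (nat_lit 0xe00078000000140008000400000000000000000000000000000000) := T_16 (nat_lit 147) (nat_lit 162) (nat_lit 2) (nat_lit 7) (nat_lit 9) L25573 (by decide +kernel)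
theorem L25575 : W_16 (nat_lit 7) (nat_lit 0x40012000a0005000280000000000000000000000000000000) (nat_lit 0x0) (nat_lit 0xe00078000000150008800400000000000000000000000000000000) := T_16 (nat_lit 160) (nat_lit 143) (nat_lit 6) (nat_lit 7) (nat_lit 11) L25574 (by decide +kernel)
theorem L25576 : W_16 (nat_lit 8) (nat_lit 0x4001200080005000280000000000000000000000000000000) (nat_lit 0x0) (nat_lit 0xe00078000400170008800400000000000000000000000000000000) := T_16 (nat_lit 161) (nat_lit 178) (nat_lit 5) (nat_lit 8) (nat_lit 7) L25575 (by decide +kernel)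
theorem L25577 : W_16 (nat_lit 2) (nat_lit 0x40012000b0005000280000000000000000000000000000000) (nat_lit 0x0) (nat_lit 0x2000040008000000000000000000000000000000000000) := D_16 (nat_lit 162) (nat_lit 181) (nat_lit 147) (nat_lit 3) (nat_lit 7) (nat_lit 9) (nat_lit 2) (nat_lit 7) (nat_lit 9) (by decide +kernel)
theorem L25578 : W_16 (nat_lit 3) (nat_lit 0x4001200090005000280000000000000000000000000000000) (nat_lit 0x0) (nat_lit 0x2400060008000000000000000000000000000000000000) := T_16 (nat_lit 161) (nat_lit 178) (nat_lit 5) (nat_lit 8) (nat_lit 7) L25577 (by decide +kernel)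
theorem L25579 : W_16 (nat_lit 4) (nat_lit 0x4001200080005000280000000000000000000000000000000) (nat_lit 0x0) (nat_lit 0x2400070008800000000000000000000000000000000000) := T_16 (nat_lit 160) (nat_lit 143) (nat_lit 6) (nat_lit 7) (nat_lit 11) L25578 (by decide +kernel)
theorem L25580 : W_16 (nat_lit 2) (nat_lit 0x40032001a0005000280000000000000000000000000000000) (nat_lit 0x0) (nat_lit 0x4000050000000000000000000000000000000000000000) := D_16 (nat_lit 162) (nat_lit 160) (nat_lit 182) (nat_lit 3) (nat_lit 7) (nat_lit 9) (nat_lit 3) (nat_lit 8) (nat_lit 9) (by decide +kernel)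
theorem L25581 : W_16 (nat_lit 3) (nat_lit 0x40032000a0005000280000000000000000000000000000000) (nat_lit 0x0) (nat_lit 0x4000150000000000010000000000000000000000000000) := T_16 (nat_lit 164) (nat_lit 112) (nat_lit 7) (nat_lit 10) (nat_lit 6) L25580 (by decide +kernel)
theorem L25582 : W_16 (nat_lit 4) (nat_lit 0x40012000a0005000280000000000000000000000000000000) (nat_lit 0x0) (nat_lit 0x40006000150000000000010000000000000000000000000000) := T_16 (nat_lit 181) (nat_lit 198) (nat_lit 7) (nat_lit 10) (nat_lit 7) L25581 (by decide +kernel)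
theorem L25583 : W_16 (nat_lit 5) (nat_lit 0x4001200080005000280000000000000000000000000000000) (nat_lit 0x0) (nat_lit 0x40006400170000000000010000000000000000000000000000) := T_16 (nat_lit 161) (nat_lit 178) (nat_lit 5) (nat_lit 8) (nat_lit 7) L25582 (by decide +kernel)
theorem L25584 : W_16 (nat_lit 2) (nat_lit 0x40032001a0005000280000000000000000000000000000000) (nat_lit 0x0) (nat_lit 0x4000040000800000000000000000000000000000000000) := D_16 (nat_lit 162) (nat_lit 182) (nat_lit 143) (nat_lit 3) (nat_lit 8) (nat_lit 9) (nat_lit 0) (nat_lit 11) (nat_lit 9) (by decide +kernel)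
theorem L25585 : W_16 (nat_lit 3) (nat_lit 0x4003200180005000280000000000000000000000000000000) (nat_lit 0x0) (nat_lit 0x4400060000800000000000000000000000000000000000) := T_16 (nat_lit 161) (nat_lit 178) (nat_lit 5) (nat_lit 8) (nat_lit 7) L25584 (by decide +kernel)
theorem L25586 : W_16 (nat_lit 4) (nat_lit 0x4003200080005000280000000000000000000000000000000) (nat_lit 0x0) (nat_lit 0x4400160000800000010000000000000000000000000000) := T_16 (nat_lit 164) (nat_lit 112) (nat_lit 7) (nat_lit 10) (nat_lit 6) L25585 (by decide +kernel)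
theorem L25587 : W_16 (nat_lit 5) (nat_lit 0x4001200080005000280000000000000000000000000000000) (nat_lit 0x0) (nat_lit 0x40006400160000800000010000000000000000000000000000) := T_16 (nat_lit 181) (nat_lit 198) (nat_lit 7) (nat_lit 10) (nat_lit 7) L25586 (by decide +kernel)
theorem L25588 : W_16 (nat_lit 2) (nat_lit 0x20006400120009000d000280000000000000000000000000000000) (nat_lit 0x0) (nat_lit 0x4000400000000000100000000000000000000000000000000000000000) := D_16 (nat_lit 214) (nat_lit 164) (nat_lit 230) (nat_lit 6) (nat_lit 10) (nat_lit 12) (nat_lit 5) (nat_lit 10) (nat_lit 9) (by decide +kernel)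
theorem L25589 : W_16 (nat_lit 3) (nat_lit 0x6400120009000d000280000000000000000000000000000000) (nat_lit 0x0) (nat_lit 0x4000600010000000100000000000000000000000000000000000000000) := T_16 (nat_lit 213) (nat_lit 196) (nat_lit 5) (nat_lit 10) (nat_lit 8) L25588 (by decide +kernel)
theorem L25590 : W_16 (nat_lit 4) (nat_lit 0x64001200090005000280000000000000000000000000000000) (nat_lit 0x0) (nat_lit 0x4000600010000000100008000400000000000000000000000000000000) := T_16 (nat_lit 147) (nat_lit 130) (nat_lit 6) (nat_lit 10) (nat_lit 11) L25589 (by decide +kernel)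
theorem L25591 : W_16 (nat_lit 5) (nat_lit 0x44001200090005000280000000000000000000000000000000) (nat_lit 0x0) (nat_lit 0x4000e00030000000100008000400000000000000000000000000000000) := T_16 (nat_lit 197) (nat_lit 215) (nat_lit 7) (nat_lit 10) (nat_lit 8) L25590 (by decide +kernel)
theorem L25592 : W_16 (nat_lit 6) (nat_lit 0x4001200090005000280000000000000000000000000000000) (nat_lit 0x0) (nat_lit 0x4000e00070002000100008000400000000000000000000000000000000) := T_16 (nat_lit 198) (nat_lit 181) (nat_lit 7) (nat_lit 10) (nat_lit 7) L25591 (by decide +kernel)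
theorem L25593 : W_16 (nat_lit 7) (nat_lit 0x4001200080005000280000000000000000000000000000000) (nat_lit 0x0) (nat_lit 0x4000e00070002000110008800400000000000000000000000000000000) := T_16 (nat_lit 160) (nat_lit 143) (nat_lit 6) (nat_lit 7) (nat_lit 11) L25592 (by decide +kernel)
theorem L25594 : W_16 (nat_lit 9) (nat_lit 0x4001200080001000280000000000000000000000000000000) (nat_lit 0x0) (nat_lit 0x4000e0007800640017000c800400010000000000000000000000000000) := Q_16 (nat_lit 146) (C_16 L25545 (C_16 L25576 (C_16 L25579 (C_16 L25583 (C_16 L25587 (C_16 L25593 N_16)))))) (by decide +kernel)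
theorem L25595 : W_16 (nat_lit 2) (nat_lit 0x4001a000f0001000280000000000000000000000000000000) (nat_lit 0x0) (nat_lit 0xc000000010000000000000000000000000000) := D_16 (nat_lit 146) (nat_lit 147) (nat_lit 112) (nat_lit 2) (nat_lit 7) (nat_lit 9) (nat_lit 5) (nat_lit 10) (nat_lit 6) (by decide +kernel)
theorem L25596 : W_16 (nat_lit 3) (nat_lit 0x40012000f0001000280000000000000000000000000000000) (nat_lit 0x0) (nat_lit 0x80000800c000000010000000000000000000000000000) := T_16 (nat_lit 179) (nat_lit 159) (nat_lit 3) (nat_lit 6) (nat_lit 9) L25595 (by decide +kernel)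
theorem L25597 : W_16 (nat_lit 4) (nat_lit 0x40012000b0001000280000000000000000000000000000000) (nat_lit 0x0) (nat_lit 0x280004800c000000010000000000000000000000000000) := T_16 (nat_lit 162) (nat_lit 181) (nat_lit 3) (nat_lit 7) (nat_lit 9) L25596 (by decide +kernel)
theorem L25598 : W_16 (nat_lit 5) (nat_lit 0x40012000a0001000280000000000000000000000000000000) (nat_lit 0x0) (nat_lit 0x280005800c800000010000000000000000000000000000) := T_16 (nat_lit 160) (nat_lit 143) (nat_lit 6) (nat_lit 7) (nat_lit 11) L25597 (by decide +kernel)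
theorem L25599 : W_16 (nat_lit 6) (nat_lit 0x4001200080001000280000000000000000000000000000000) (nat_lit 0x0) (nat_lit 0x2c0007800c800000010000000000000000000000000000) := T_16 (nat_lit 161) (nat_lit 178) (nat_lit 5) (nat_lit 8) (nat_lit 7) L25598 (by decide +kernel)
theorem L25600 : W_16 (nat_lit 11) (nat_lit 0x4000200080001000280000000000000000000000000000000) (nat_lit 0x0) (nat_lit 0x4000e0007a007c0017800c800400018001c000e0000000000000000000) := Q_16 (nat_lit 180) (C_16 L25558 (C_16 L25569 (C_16 L25518 (C_16 L25594 (C_16 L25599 N_16))))) (by decide +kernel)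
theorem L25601 : W_16 (nat_lit 2) (nat_lit 0x4003200090005000280010000000000000000000000000000) (nat_lit 0x0) (nat_lit 0x10000800040000000000000000000000000000000000000000) := D_16 (nat_lit 179) (nat_lit 196) (nat_lit 162) (nat_lit 5) (nat_lit 10) (nat_lit 7) (nat_lit 5) (nat_lit 10) (nat_lit 6) (by decide +kernel)
theorem L25602 : W_16 (nat_lit 3) (nat_lit 0x4003200090005000280000000000000000000000000000000) (nat_lit 0x0) (nat_lit 0x10000800140000000000010000000000000000000000000000) := T_16 (nat_lit 112) (nat_lit 164) (nat_lit 7) (nat_lit 10) (nat_lit 6) L25601 (by decide +kernel)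
theorem L25603 : W_16 (nat_lit 4) (nat_lit 0x4001200090005000280000000000000000000000000000000) (nat_lit 0x0) (nat_lit 0x50002800140000000000010000000000000000000000000000) := T_16 (nat_lit 181) (nat_lit 198) (nat_lit 7) (nat_lit 10) (nat_lit 7) L25602 (by decide +kernel)
theorem L25604 : W_16 (nat_lit 5) (nat_lit 0x4001200080005000280000000000000000000000000000000) (nat_lit 0x0) (nat_lit 0x50002800150000800000010000000000000000000000000000) := T_16 (nat_lit 160) (nat_lit 143) (nat_lit 6) (nat_lit 7) (nat_lit 11) L25603 (by decide +kernel)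
theorem L25605 : W_16 (nat_lit 2) (nat_lit 0x4001a00080005000280010001400000000000000000000000) (nat_lit 0x0) (nat_lit 0x8000a0000000000000000000) := D_16 (nat_lit 95) (nat_lit 77) (nat_lit 79) (nat_lit 4) (nat_lit 10) (nat_lit 8) (nat_lit 6) (nat_lit 10) (nat_lit 8) (by decide +kernel)
theorem L25606 : W_16 (nat_lit 3) (nat_lit 0x4001a00080005000280010000400000000000000000000000) (nat_lit 0x0) (nat_lit 0x200018000a0000000000000000000) := T_16 (nat_lit 96) (nat_lit 113) (nat_lit 6) (nat_lit 10) (nat_lit 9) L25605 (by decide +kernel)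
theorem L25607 : W_16 (nat_lit 4) (nat_lit 0x4001a00080005000280010000000000000000000000000000) (nat_lit 0x0) (nat_lit 0x28001c000a0000000000000000000) := T_16 (nat_lit 94) (nat_lit 111) (nat_lit 4) (nat_lit 10) (nat_lit 9) L25606 (by decide +kernel)
theorem L25608 : W_16 (nat_lit 5) (nat_lit 0x4001a00080005000280000000000000000000000000000000) (nat_lit 0x0) (nat_lit 0x40000000000038001c000a0000000000000000000) := T_16 (nat_lit 112) (nat_lit 162) (nat_lit 5) (nat_lit 10) (nat_lit 6) L25607 (by decide +kernel)
theorem L25609 : W_16 (nat_lit 6) (nat_lit 0x4001200080005000280000000000000000000000000000000) (nat_lit 0x0) (nat_lit 0x10000800040000000000038001c000a0000000000000000000) := T_16 (nat_lit 179) (nat_lit 196) (nat_lit 5) (nat_lit 10) (nat_lit 7) L25608 (by decide +kernel)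
theorem L25610 : W_16 (nat_lit 2) (nat_lit 0x4003200090005000280010000000000000000000000000000) (nat_lit 0x0) (nat_lit 0x800060000000000000000000000000000000000000000) := D_16 (nat_lit 162) (nat_lit 161) (nat_lit 179) (nat_lit 3) (nat_lit 7) (nat_lit 9) (nat_lit 5) (nat_lit 10) (nat_lit 6) (by decide +kernel)
theorem L25611 : W_16 (nat_lit 3) (nat_lit 0x4003200090005000280000000000000000000000000000000) (nat_lit 0x0) (nat_lit 0x800160000000000010000000000000000000000000000) := T_16 (nat_lit 112) (nat_lit 164) (nat_lit 7) (nat_lit 10) (nat_lit 6) L25610 (by decide +kernel)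
theorem L25612 : W_16 (nat_lit 4) (nat_lit 0x4001200090005000280000000000000000000000000000000) (nat_lit 0x0) (nat_lit 0x40002800160000000000010000000000000000000000000000) := T_16 (nat_lit 181) (nat_lit 198) (nat_lit 7) (nat_lit 10) (nat_lit 7) L25611 (by decide +kernel)
theorem L25613 : W_16 (nat_lit 5) (nat_lit 0x4001200080005000280000000000000000000000000000000) (nat_lit 0x0) (nat_lit 0x40002800170000800000010000000000000000000000000000) := T_16 (nat_lit 160) (nat_lit 143) (nat_lit 6) (nat_lit 7) (nat_lit 11) L25612 (by decide +kernel)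
theorem L25614 : W_16 (nat_lit 2) (nat_lit 0x4003200080005000280010001400000000000000000000000) (nat_lit 0x0) (nat_lit 0x8000a0000000000000000000) := D_16 (nat_lit 95) (nat_lit 79) (nat_lit 77) (nat_lit 6) (nat_lit 10) (nat_lit 8) (nat_lit 4) (nat_lit 10) (nat_lit 8) (by decide +kernel)
theorem L25615 : W_16 (nat_lit 3) (nat_lit 0x4003200080005000280010001000000000000000000000000) (nat_lit 0x0) (nat_lit 0x8000c000a0000000000000000000) := T_16 (nat_lit 94) (nat_lit 111) (nat_lit 4) (nat_lit 10) (nat_lit 9) L25614 (by decide +kernel)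
theorem L25616 : W_16 (nat_lit 4) (nat_lit 0x4003200080005000280010000000000000000000000000000) (nat_lit 0x0) (nat_lit 0x28001c000a0000000000000000000) := T_16 (nat_lit 96) (nat_lit 113) (nat_lit 6) (nat_lit 10) (nat_lit 9) L25615 (by decide +kernel)
theorem L25617 : W_16 (nat_lit 5) (nat_lit 0x4003200080005000280000000000000000000000000000000) (nat_lit 0x0) (nat_lit 0x100000000000038001c000a0000000000000000000) := T_16 (nat_lit 112) (nat_lit 164) (nat_lit 7) (nat_lit 10) (nat_lit 6) L25616 (by decide +kernel)
theorem L25618 : W_16 (nat_lit 6) (nat_lit 0x4001200080005000280000000000000000000000000000000) (nat_lit 0x0) (nat_lit 0x40002000100000000000038001c000a0000000000000000000) := T_16 (nat_lit 181) (nat_lit 198) (nat_lit 7) (nat_lit 10) (nat_lit 7) L25617 (by decide +kernel)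
theorem L25619 : W_16 (nat_lit 2) (nat_lit 0x14003200090005000280000000000000000000000000000000) (nat_lit 0x0) (nat_lit 0x200028000000000000000000000000000000000000000000000000) := D_16 (nat_lit 197) (nat_lit 213) (nat_lit 195) (nat_lit 5) (nat_lit 10) (nat_lit 8) (nat_lit 2) (nat_lit 7) (nat_lit 11) (by decide +kernel)
theorem L25620 : W_16 (nat_lit 3) (nat_lit 0x14001200090005000280000000000000000000000000000000) (nat_lit 0x0) (nat_lit 0x200068002000000000000000000000000000000000000000000000) := T_16 (nat_lit 181) (nat_lit 198) (nat_lit 7) (nat_lit 10) (nat_lit 7) L25619 (by decide +kernel)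
theorem L25621 : W_16 (nat_lit 4) (nat_lit 0x4001200090005000280000000000000000000000000000000) (nat_lit 0x0) (nat_lit 0x200078002800000000000000000000000000000000000000000000) := T_16 (nat_lit 196) (nat_lit 179) (nat_lit 5) (nat_lit 10) (nat_lit 7) L25620 (by decide +kernel)
theorem L25622 : W_16 (nat_lit 5) (nat_lit 0x4001200080005000280000000000000000000000000000000) (nat_lit 0x0) (nat_lit 0x200078002800010000800000000000000000000000000000000000) := T_16 (nat_lit 160) (nat_lit 143) (nat_lit 6) (nat_lit 7) (nat_lit 11) L25621 (by decide +kernel)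
theorem L25623 : W_16 (nat_lit 7) (nat_lit 0x4001200080001000280000000000000000000000000000000) (nat_lit 0x0) (nat_lit 0x200078002800170004800000038001c000a0000000000000000000) := Q_16 (nat_lit 146) (C_16 L25604 (C_16 L25609 (C_16 L25613 (C_16 L25618 (C_16 L25622 N_16))))) (by decide +kernel)
theorem L25624 : W_16 (nat_lit 6) (nat_lit 0x4001a00080001000280000000000000000000000000000000) (nat_lit 0x0) (nat_lit 0x10000000040004000000038001c000a0000000000000000000) := T_16 (nat_lit 146) (nat_lit 196) (nat_lit 5) (nat_lit 10) (nat_lit 7) L25608 (by decide +kernel)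
theorem L25625 : W_16 (nat_lit 7) (nat_lit 0x4001200080001000280000000000000000000000000000000) (nat_lit 0x0) (nat_lit 0x52002c00150004800000038001c000a0000000000000000000) := Q_16 (nat_lit 179) (C_16 L25513 (C_16 L25562 (C_16 L25624 N_16))) (by decide +kernel)
theorem L25626 : W_16 (nat_lit 2) (nat_lit 0x40032000b0005000280010001400000000000000000000000) (nat_lit 0x0) (nat_lit 0x8000a0000000000000000000) := D_16 (nat_lit 95) (nat_lit 79) (nat_lit 77) (nat_lit 6) (nat_lit 10) (nat_lit 8) (nat_lit 4) (nat_lit 10) (nat_lit 8) (by decide +kernel)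
theorem L25627 : W_16 (nat_lit 3) (nat_lit 0x40032000b0005000280010001000000000000000000000000) (nat_lit 0x0) (nat_lit 0x8000c000a0000000000000000000) := T_16 (nat_lit 94) (nat_lit 111) (nat_lit 4) (nat_lit 10) (nat_lit 9) L25626 (by decide +kernel)
theorem L25628 : W_16 (nat_lit 4) (nat_lit 0x40032000b0005000280010000000000000000000000000000) (nat_lit 0x0) (nat_lit 0x28001c000a0000000000000000000) := T_16 (nat_lit 96) (nat_lit 113) (nat_lit 6) (nat_lit 10) (nat_lit 9) L25627 (by decide +kernel)
theorem L25629 : W_16 (nat_lit 5) (nat_lit 0x40032000b0005000280000000000000000000000000000000) (nat_lit 0x0) (nat_lit 0x100000000000038001c000a0000000000000000000) := T_16 (nat_lit 112) (nat_lit 164) (nat_lit 7) (nat_lit 10) (nat_lit 6) L25628 (by decide +kernel)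
theorem L25630 : W_16 (nat_lit 6) (nat_lit 0x40032000b0001000280000000000000000000000000000000) (nat_lit 0x0) (nat_lit 0x40000000100004000000038001c000a0000000000000000000) := T_16 (nat_lit 146) (nat_lit 198) (nat_lit 7) (nat_lit 10) (nat_lit 7) L25629 (by decide +kernel)
theorem L25631 : W_16 (nat_lit 7) (nat_lit 0x40012000b0001000280000000000000000000000000000000) (nat_lit 0x0) (nat_lit 0x40002000140004000000038001c000a0000000000000000000) := T_16 (nat_lit 181) (nat_lit 162) (nat_lit 3) (nat_lit 7) (nat_lit 9) L25630 (by decide +kernel)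
theorem L25632 : W_16 (nat_lit 8) (nat_lit 0x40012000a0001000280000000000000000000000000000000) (nat_lit 0x0) (nat_lit 0x40002000150004800000038001c000a0000000000000000000) := T_16 (nat_lit 160) (nat_lit 143) (nat_lit 6) (nat_lit 7) (nat_lit 11) L25631 (by decide +kernel)
theorem L25633 : W_16 (nat_lit 9) (nat_lit 0x4001200080001000280000000000000000000000000000000) (nat_lit 0x0) (nat_lit 0x40002400170004800000038001c000a0000000000000000000) := T_16 (nat_lit 161) (nat_lit 178) (nat_lit 5) (nat_lit 8) (nat_lit 7) L25632 (by decide +kernel)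
theorem L25634 : W_16 (nat_lit 5) (nat_lit 0x4001200090001000280000000000000000000000000000000) (nat_lit 0x0) (nat_lit 0x2c0006800c000000010000000000000000000000000000) := T_16 (nat_lit 161) (nat_lit 178) (nat_lit 5) (nat_lit 8) (nat_lit 7) L25597 (by decide +kernel)
theorem L25635 : W_16 (nat_lit 6) (nat_lit 0x4001200080001000280000000000000000000000000000000) (nat_lit 0x0) (nat_lit 0x2c0007800c800000010000000000000000000000000000) := T_16 (nat_lit 160) (nat_lit 143) (nat_lit 6) (nat_lit 7) (nat_lit 11) L25634 (by decide +kernel)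
theorem L25636 : W_16 (nat_lit 10) (nat_lit 0x4000200080001000280000000000000000000000000000000) (nat_lit 0x0) (nat_lit 0x20007a003c0017800c800000038001c000a0000000000000000000) := Q_16 (nat_lit 180) (C_16 L25623 (C_16 L25625 (C_16 L25518 (C_16 L25633 (C_16 L25635 N_16))))) (by decide +kernel)
theorem L25637 : W_16 (nat_lit 2) (nat_lit 0x4001a00080005000280010000000000000000000000000000) (nat_lit 0x0) (nat_lit 0x400020001000000000000000000000000) := D_16 (nat_lit 113) (nat_lit 130) (nat_lit 96) (nat_lit 6) (nat_lit 10) (nat_lit 10) (nat_lit 6) (nat_lit 10) (nat_lit 9) (by decide +kernel)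
theorem L25638 : W_16 (nat_lit 3) (nat_lit 0x4001a00080005000280000000000000000000000000000000) (nat_lit 0x0) (nat_lit 0x40000000400030001000000000000000000000000) := T_16 (nat_lit 112) (nat_lit 162) (nat_lit 5) (nat_lit 10) (nat_lit 6) L25637 (by decide +kernel)
theorem L25639 : W_16 (nat_lit 4) (nat_lit 0x4001200080005000280000000000000000000000000000000) (nat_lit 0x0) (nat_lit 0x10000800040000000400030001000000000000000000000000) := T_16 (nat_lit 179) (nat_lit 196) (nat_lit 5) (nat_lit 10) (nat_lit 7) L25638 (by decide +kernel)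
theorem L25640 : W_16 (nat_lit 2) (nat_lit 0x4003200080005000280010000000000000000000000000000) (nat_lit 0x0) (nat_lit 0x400020001000000000000000000000000) := D_16 (nat_lit 113) (nat_lit 96) (nat_lit 130) (nat_lit 6) (nat_lit 10) (nat_lit 9) (nat_lit 6) (nat_lit 10) (nat_lit 10) (by decide +kernel)
theorem L25641 : W_16 (nat_lit 3) (nat_lit 0x4003200080005000280000000000000000000000000000000) (nat_lit 0x0) (nat_lit 0x100000000400030001000000000000000000000000) := T_16 (nat_lit 112) (nat_lit 164) (nat_lit 7) (nat_lit 10) (nat_lit 6) L25640 (by decide +kernel)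
theorem L25642 : W_16 (nat_lit 4) (nat_lit 0x4001200080005000280000000000000000000000000000000) (nat_lit 0x0) (nat_lit 0x40002000100000000400030001000000000000000000000000) := T_16 (nat_lit 181) (nat_lit 198) (nat_lit 7) (nat_lit 10) (nat_lit 7) L25641 (by decide +kernel)
theorem L25643 : W_16 (nat_lit 2) (nat_lit 0x4001a00080005000280010000000000000000000000000000) (nat_lit 0x0) (nat_lit 0x40002000100000000000000000000000000000000000000000) := D_16 (nat_lit 181) (nat_lit 198) (nat_lit 164) (nat_lit 7) (nat_lit 10) (nat_lit 7) (nat_lit 7) (nat_lit 10) (nat_lit 6) (by decide +kernel)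
theorem L25644 : W_16 (nat_lit 3) (nat_lit 0x4001a00080005000280000000000000000000000000000000) (nat_lit 0x0) (nat_lit 0x40002000140000000000010000000000000000000000000000) := T_16 (nat_lit 112) (nat_lit 162) (nat_lit 5) (nat_lit 10) (nat_lit 6) L25643 (by decide +kernel)
theorem L25645 : W_16 (nat_lit 4) (nat_lit 0x4001200080005000280000000000000000000000000000000) (nat_lit 0x0) (nat_lit 0x50002800140000000000010000000000000000000000000000) := T_16 (nat_lit 179) (nat_lit 196) (nat_lit 5) (nat_lit 10) (nat_lit 7) L25644 (by decide +kernel)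
theorem L25646 : W_16 (nat_lit 2) (nat_lit 0x14003200080005000680000000000000000000000000000000) (nat_lit 0x0) (nat_lit 0x28000000000008000000000000000000000000000000000000) := D_16 (nat_lit 197) (nat_lit 147) (nat_lit 195) (nat_lit 6) (nat_lit 10) (nat_lit 11) (nat_lit 2) (nat_lit 7) (nat_lit 11) (by decide +kernel)
theorem L25647 : W_16 (nat_lit 3) (nat_lit 0x4003200080005000680000000000000000000000000000000) (nat_lit 0x0) (nat_lit 0x38000800000008000000000000000000000000000000000000) := T_16 (nat_lit 196) (nat_lit 179) (nat_lit 5) (nat_lit 10) (nat_lit 7) L25646 (by decide +kernel)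
theorem L25648 : W_16 (nat_lit 4) (nat_lit 0x4003200080005000280000000000000000000000000000000) (nat_lit 0x0) (nat_lit 0x38000800000008000400020000000000000000000000000000) := T_16 (nat_lit 130) (nat_lit 113) (nat_lit 6) (nat_lit 10) (nat_lit 10) L25647 (by decide +kernel)
theorem L25649 : W_16 (nat_lit 5) (nat_lit 0x4001200080005000280000000000000000000000000000000) (nat_lit 0x0) (nat_lit 0x78002800000008000400020000000000000000000000000000) := T_16 (nat_lit 181) (nat_lit 198) (nat_lit 7) (nat_lit 10) (nat_lit 7) L25648 (by decide +kernel)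
theorem L25650 : W_16 (nat_lit 6) (nat_lit 0x4001200080001000280000000000000000000000000000000) (nat_lit 0x0) (nat_lit 0x7800280014000c000400030001000000000000000000000000) := Q_16 (nat_lit 146) (C_16 L25639 (C_16 L25642 (C_16 L25645 (C_16 L25649 N_16)))) (by decide +kernel)
theorem L25651 : W_16 (nat_lit 2) (nat_lit 0x8000340012000a0005000680000000000000000000000000000000) (nat_lit 0x0) (nat_lit 0x10000400008000000000000000000000000000000000000000000000000) := D_16 (nat_lit 214) (nat_lit 195) (nat_lit 232) (nat_lit 3) (nat_lit 7) (nat_lit 11) (nat_lit 7) (nat_lit 10) (nat_lit 9) (by decide +kernel)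
theorem L25652 : W_16 (nat_lit 3) (nat_lit 0x340012000a0005000680000000000000000000000000000000) (nat_lit 0x0) (nat_lit 0x10000c00048000000000000000000000000000000000000000000000000) := T_16 (nat_lit 215) (nat_lit 198) (nat_lit 7) (nat_lit 10) (nat_lit 8) L25651 (by decide +kernel)
theorem L25653 : W_16 (nat_lit 4) (nat_lit 0x240012000a0005000680000000000000000000000000000000) (nat_lit 0x0) (nat_lit 0x10000e00058000000000000000000000000000000000000000000000000) := T_16 (nat_lit 196) (nat_lit 213) (nat_lit 5) (nat_lit 10) (nat_lit 8) L25652 (by decide +kernel)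
theorem L25654 : W_16 (nat_lit 5) (nat_lit 0x40012000a0005000680000000000000000000000000000000) (nat_lit 0x0) (nat_lit 0x10000e00078000000000008000000000000000000000000000000000000) := T_16 (nat_lit 197) (nat_lit 147) (nat_lit 6) (nat_lit 10) (nat_lit 11) L25653 (by decide +kernel)
theorem L25655 : W_16 (nat_lit 6) (nat_lit 0x40012000a0005000280000000000000000000000000000000) (nat_lit 0x0) (nat_lit 0x10000e00078000000000008000400020000000000000000000000000000) := T_16 (nat_lit 130) (nat_lit 113) (nat_lit 6) (nat_lit 10) (nat_lit 10) L25654 (by decide +kernel)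
theorem L25656 : W_16 (nat_lit 7) (nat_lit 0x4001200080005000280000000000000000000000000000000) (nat_lit 0x0) (nat_lit 0x10000e00078000400020008000400020000000000000000000000000000) := T_16 (nat_lit 161) (nat_lit 178) (nat_lit 5) (nat_lit 8) (nat_lit 7) L25655 (by decide +kernel)
theorem L25657 : W_16 (nat_lit 2) (nat_lit 0x340072000a0005000680000000000000000000000000000000) (nat_lit 0x0) (nat_lit 0x140000000000010000000000000000000000000000) := D_16 (nat_lit 164) (nat_lit 112) (nat_lit 162) (nat_lit 7) (nat_lit 10) (nat_lit 6) (nat_lit 3) (nat_lit 8) (nat_lit 9) (by decide +kernel)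
theorem L25658 : W_16 (nat_lit 3) (nat_lit 0x340032000a0005000680000000000000000000000000000000) (nat_lit 0x0) (nat_lit 0xc000140000000000010000000000000000000000000000) := T_16 (nat_lit 182) (nat_lit 183) (nat_lit 1) (nat_lit 13) (nat_lit 10) L25657 (by decide +kernel)
theorem L25659 : W_16 (nat_lit 4) (nat_lit 0x340012000a0005000680000000000000000000000000000000) (nat_lit 0x0) (nat_lit 0x800e000140000000000010000000000000000000000000000) := T_16 (nat_lit 181) (nat_lit 195) (nat_lit 2) (nat_lit 7) (nat_lit 11) L25658 (by decide +kernel)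
theorem L25660 : W_16 (nat_lit 5) (nat_lit 0x240012000a0005000680000000000000000000000000000000) (nat_lit 0x0) (nat_lit 0x20001800e000140000000000010000000000000000000000000000) := T_16 (nat_lit 196) (nat_lit 213) (nat_lit 5) (nat_lit 10) (nat_lit 8) L25659 (by decide +kernel)
theorem L25661 : W_16 (nat_lit 6) (nat_lit 0x40012000a0005000680000000000000000000000000000000) (nat_lit 0x0) (nat_lit 0x20003800e000140008000000010000000000000000000000000000) := T_16 (nat_lit 197) (nat_lit 147) (nat_lit 6) (nat_lit 10) (nat_lit 11) L25660 (by decide +kernel)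
theorem L25662 : W_16 (nat_lit 7) (nat_lit 0x40012000a0005000280000000000000000000000000000000) (nat_lit 0x0) (nat_lit 0x20003800e000140008000400030000000000000000000000000000) := T_16 (nat_lit 130) (nat_lit 113) (nat_lit 6) (nat_lit 10) (nat_lit 10) L25661 (by decide +kernel)
theorem L25663 : W_16 (nat_lit 8) (nat_lit 0x4001200080005000280000000000000000000000000000000) (nat_lit 0x0) (nat_lit 0x20003800e400160008000400030000000000000000000000000000) := T_16 (nat_lit 161) (nat_lit 178) (nat_lit 5) (nat_lit 8) (nat_lit 7) L25662 (by decide +kernel)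
theorem L25664 : W_16 (nat_lit 2) (nat_lit 0x40032001a0005000280000000000000000000000000000000) (nat_lit 0x0) (nat_lit 0x4000050000000000000000000000000000000000000000) := D_16 (nat_lit 162) (nat_lit 182) (nat_lit 160) (nat_lit 3) (nat_lit 8) (nat_lit 9) (nat_lit 3) (nat_lit 7) (nat_lit 9) (by decide +kernel)
theorem L25665 : W_16 (nat_lit 3) (nat_lit 0x4003200180005000280000000000000000000000000000000) (nat_lit 0x0) (nat_lit 0x4400070000000000000000000000000000000000000000) := T_16 (nat_lit 161) (nat_lit 178) (nat_lit 5) (nat_lit 8) (nat_lit 7) L25664 (by decide +kernel)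
theorem L25666 : W_16 (nat_lit 4) (nat_lit 0x4003200080005000280000000000000000000000000000000) (nat_lit 0x0) (nat_lit 0x4400170000000000010000000000000000000000000000) := T_16 (nat_lit 164) (nat_lit 112) (nat_lit 7) (nat_lit 10) (nat_lit 6) L25665 (by decide +kernel)
theorem L25667 : W_16 (nat_lit 5) (nat_lit 0x4001200080005000280000000000000000000000000000000) (nat_lit 0x0) (nat_lit 0x40006400170000000000010000000000000000000000000000) := T_16 (nat_lit 181) (nat_lit 198) (nat_lit 7) (nat_lit 10) (nat_lit 7) L25666 (by decide +kernel)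
theorem L25668 : W_16 (nat_lit 9) (nat_lit 0x4001200080001000280000000000000000000000000000000) (nat_lit 0x0) (nat_lit 0x10000e0007800e40017000c000400038001c000a0000000000000000000) := Q_16 (nat_lit 146) (C_16 L25642 (C_16 L25656 (C_16 L25618 (C_16 L25663 (C_16 L25667 N_16))))) (by decide +kernel)
theorem L25669 : W_16 (nat_lit 2) (nat_lit 0x4001e00090005000280000000000000000000000000000000) (nat_lit 0x0) (nat_lit 0x48002000000000000000000000000000000000000000000000) := D_16 (nat_lit 181) (nat_lit 195) (nat_lit 198) (nat_lit 1) (nat_lit 11) (nat_lit 10) (nat_lit 7) (nat_lit 10) (nat_lit 7) (by decide +kernel)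
theorem L25670 : W_16 (nat_lit 3) (nat_lit 0x4001e00090001000280000000000000000000000000000000) (nat_lit 0x0) (nat_lit 0x58002000000004000000000000000000000000000000000000) := T_16 (nat_lit 146) (nat_lit 196) (nat_lit 5) (nat_lit 10) (nat_lit 7) L25669 (by decide +kernel)
theorem L25671 : W_16 (nat_lit 4) (nat_lit 0x4001e00080001000280000000000000000000000000000000) (nat_lit 0x0) (nat_lit 0x58002000018004000000000000000000000000000000000000) := T_16 (nat_lit 160) (nat_lit 159) (nat_lit 0) (nat_lit 10) (nat_lit 10) L25670 (by decide +kernel)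
theorem L25672 : W_16 (nat_lit 5) (nat_lit 0x4001600080001000280000000000000000000000000000000) (nat_lit 0x0) (nat_lit 0x5a002800018004000000000000000000000000000000000000) := T_16 (nat_lit 179) (nat_lit 193) (nat_lit 1) (nat_lit 10) (nat_lit 10) L25671 (by decide +kernel)
theorem L25673 : W_16 (nat_lit 6) (nat_lit 0x4001200080001000280000000000000000000000000000000) (nat_lit 0x0) (nat_lit 0x5a002c00038004000000000000000000000000000000000000) := T_16 (nat_lit 178) (nat_lit 161) (nat_lit 5) (nat_lit 8) (nat_lit 7) L25672 (by decide +kernel)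
theorem L25674 : W_16 (nat_lit 10) (nat_lit 0x4000200080001000280000000000000000000000000000000) (nat_lit 0x0) (nat_lit 0x10000e0007a00fc0017800c000400038001c000a0000000000000000000) := Q_16 (nat_lit 180) (C_16 L25650 (C_16 L25668 (C_16 L25518 (C_16 L25673 N_16)))) (by decide +kernel)
theorem L25675 : W_16 (nat_lit 2) (nat_lit 0x400a200580001000280000000000000000000000000000000) (nat_lit 0x0) (nat_lit 0x14000200000000000000000000000000000000000000000) := D_16 (nat_lit 184) (nat_lit 182) (nat_lit 165) (nat_lit 0) (nat_lit 14) (nat_lit 10) (nat_lit 3) (nat_lit 10) (nat_lit 9) (by decide +kernel)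
theorem L25676 : W_16 (nat_lit 2) (nat_lit 0x30400a2005a0021001280000000000000000000000000000000) (nat_lit 0x0) (nat_lit 0x40002000100000000000000000000000000000) := D_16 (nat_lit 133) (nat_lit 116) (nat_lit 150) (nat_lit 6) (nat_lit 13) (nat_lit 10) (nat_lit 6) (nat_lit 13) (nat_lit 11) (by decide +kernel)
theorem L25677 : W_16 (nat_lit 3) (nat_lit 0x30400a2005a0021000280000000000000000000000000000000) (nat_lit 0x0) (nat_lit 0x10000000040003000100000000000000000000000000000) := T_16 (nat_lit 132) (nat_lit 184) (nat_lit 7) (nat_lit 13) (nat_lit 7) L25676 (by decide +kernel)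
theorem L25678 : W_16 (nat_lit 4) (nat_lit 0x10400a2005a0021000280000000000000000000000000000000) (nat_lit 0x0) (nat_lit 0x4000200010000000040003000100000000000000000000000000000) := T_16 (nat_lit 201) (nat_lit 218) (nat_lit 7) (nat_lit 13) (nat_lit 8) L25677 (by decide +kernel)
theorem L25679 : W_16 (nat_lit 5) (nat_lit 0x10400a200580021000280000000000000000000000000000000) (nat_lit 0x0) (nat_lit 0x4000200010400020040003000100000000000000000000000000000) := T_16 (nat_lit 161) (nat_lit 178) (nat_lit 5) (nat_lit 8) (nat_lit 7) L25678 (by decide +kernel)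
theorem L25680 : W_16 (nat_lit 2) (nat_lit 0x30400a200580061001280000000000000000000000000000000) (nat_lit 0x0) (nat_lit 0x10000800040000000000000000000000000000) := D_16 (nat_lit 131) (nat_lit 114) (nat_lit 148) (nat_lit 4) (nat_lit 13) (nat_lit 10) (nat_lit 4) (nat_lit 13) (nat_lit 11) (by decide +kernel)
theorem L25681 : W_16 (nat_lit 3) (nat_lit 0x30400a200580061000280000000000000000000000000000000) (nat_lit 0x0) (nat_lit 0x10000000010001800040000000000000000000000000000) := T_16 (nat_lit 132) (nat_lit 184) (nat_lit 7) (nat_lit 13) (nat_lit 7) L25680 (by decide +kernel)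
theorem L25682 : W_16 (nat_lit 4) (nat_lit 0x10400a200580061000280000000000000000000000000000000) (nat_lit 0x0) (nat_lit 0x4000200010000000010001800040000000000000000000000000000) := T_16 (nat_lit 201) (nat_lit 218) (nat_lit 7) (nat_lit 13) (nat_lit 8) L25681 (by decide +kernel)
theorem L25683 : W_16 (nat_lit 5) (nat_lit 0x10400a200580021000280000000000000000000000000000000) (nat_lit 0x0) (nat_lit 0x4000200010000000050003800040000000000000000000000000000) := T_16 (nat_lit 150) (nat_lit 133) (nat_lit 6) (nat_lit 13) (nat_lit 11) L25682 (by decide +kernel)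
theorem L25684 : W_16 (nat_lit 2) (nat_lit 0x200010400a2005a0061000280000000000000000000000000000000) (nat_lit 0x0) (nat_lit 0x20001000080000000000000000000000000000000000000000000000000) := D_16 (nat_lit 216) (nat_lit 233) (nat_lit 199) (nat_lit 5) (nat_lit 13) (nat_lit 9) (nat_lit 5) (nat_lit 13) (nat_lit 8) (by decide +kernel)
theorem L25685 : W_16 (nat_lit 3) (nat_lit 0x10400a2005a0061000280000000000000000000000000000000) (nat_lit 0x0) (nat_lit 0x20003000080000000800000000000000000000000000000000000000000) := T_16 (nat_lit 217) (nat_lit 167) (nat_lit 6) (nat_lit 13) (nat_lit 12) L25684 (by decide +kernel)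
theorem L25686 : W_16 (nat_lit 4) (nat_lit 0x10400a200580061000280000000000000000000000000000000) (nat_lit 0x0) (nat_lit 0x20003000080000400820000000000000000000000000000000000000000) := T_16 (nat_lit 161) (nat_lit 178) (nat_lit 5) (nat_lit 8) (nat_lit 7) L25685 (by decide +kernel)
theorem L25687 : W_16 (nat_lit 5) (nat_lit 0x10400a200580021000280000000000000000000000000000000) (nat_lit 0x0) (nat_lit 0x20003000080000400820040002000000000000000000000000000000000) := T_16 (nat_lit 150) (nat_lit 133) (nat_lit 6) (nat_lit 13) (nat_lit 11) L25686 (by decide +kernel)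
theorem L25688 : W_16 (nat_lit 2) (nat_lit 0x30400a2005a0021001280000000000000000000000000000000) (nat_lit 0x0) (nat_lit 0x10000800040000000000000000000000000000) := D_16 (nat_lit 131) (nat_lit 148) (nat_lit 114) (nat_lit 4) (nat_lit 13) (nat_lit 11) (nat_lit 4) (nat_lit 13) (nat_lit 10) (by decide +kernel)
theorem L25689 : W_16 (nat_lit 3) (nat_lit 0x30400a2005a0021000280000000000000000000000000000000) (nat_lit 0x0) (nat_lit 0x10000000010001800040000000000000000000000000000) := T_16 (nat_lit 132) (nat_lit 184) (nat_lit 7) (nat_lit 13) (nat_lit 7) L25688 (by decide +kernel)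
theorem L25690 : W_16 (nat_lit 4) (nat_lit 0x10400a2005a0021000280000000000000000000000000000000) (nat_lit 0x0) (nat_lit 0x4000200010000000010001800040000000000000000000000000000) := T_16 (nat_lit 201) (nat_lit 218) (nat_lit 7) (nat_lit 13) (nat_lit 8) L25689 (by decide +kernel)
theorem L25691 : W_16 (nat_lit 5) (nat_lit 0x10400a200580021000280000000000000000000000000000000) (nat_lit 0x0) (nat_lit 0x4000200010400020010001800040000000000000000000000000000) := T_16 (nat_lit 161) (nat_lit 178) (nat_lit 5) (nat_lit 8) (nat_lit 7) L25690 (by decide +kernel)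
theorem L25692 : W_16 (nat_lit 6) (nat_lit 0x400a200580021000280000000000000000000000000000000) (nat_lit 0x0) (nat_lit 0x20007000380010400820050003800140000000000000000000000000000) := Q_16 (nat_lit 200) (C_16 L25679 (C_16 L25683 (C_16 L25687 (C_16 L25691 N_16)))) (by decide +kernel)
theorem L25693 : W_16 (nat_lit 2) (nat_lit 0x401a200590021001280080000000000000000000000000000) (nat_lit 0x0) (nat_lit 0x2000100008000000000000000000000000) := D_16 (nat_lit 116) (nat_lit 99) (nat_lit 133) (nat_lit 6) (nat_lit 13) (nat_lit 9) (nat_lit 6) (nat_lit 13) (nat_lit 10) (by decide +kernel)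
theorem L25694 : W_16 (nat_lit 3) (nat_lit 0x401a200590021001280000000000000000000000000000000) (nat_lit 0x0) (nat_lit 0x800000002000180008000000000000000000000000) := T_16 (nat_lit 115) (nat_lit 167) (nat_lit 7) (nat_lit 13) (nat_lit 6) L25693 (by decide +kernel)
theorem L25695 : W_16 (nat_lit 4) (nat_lit 0x401a200590021000280000000000000000000000000000000) (nat_lit 0x0) (nat_lit 0x200000000800000003000180008000000000000000000000000) := T_16 (nat_lit 132) (nat_lit 201) (nat_lit 7) (nat_lit 13) (nat_lit 7) L25694 (by decide +kernel)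
theorem L25696 : W_16 (nat_lit 5) (nat_lit 0x401a200580021000280000000000000000000000000000000) (nat_lit 0x0) (nat_lit 0x200000000810000803000180008000000000000000000000000) := T_16 (nat_lit 160) (nat_lit 143) (nat_lit 6) (nat_lit 7) (nat_lit 11) L25695 (by decide +kernel)
theorem L25697 : W_16 (nat_lit 6) (nat_lit 0x400a200580021000280000000000000000000000000000000) (nat_lit 0x0) (nat_lit 0x200014000810000803000180008000000000000000000000000) := T_16 (nat_lit 184) (nat_lit 182) (nat_lit 0) (nat_lit 14) (nat_lit 10) L25696 (by decide +kernel)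
theorem L25698 : W_16 (nat_lit 2) (nat_lit 0x38400a200580061000280000000000000000000000000000000) (nat_lit 0x0) (nat_lit 0x400004000000000001000000000000000000000000000000000) := D_16 (nat_lit 182) (nat_lit 132) (nat_lit 202) (nat_lit 5) (nat_lit 13) (nat_lit 7) (nat_lit 0) (nat_lit 15) (nat_lit 11) (by decide +kernel)
theorem L25699 : W_16 (nat_lit 3) (nat_lit 0x30400a200580061000280000000000000000000000000000000) (nat_lit 0x0) (nat_lit 0x1000480004000000000001000000000000000000000000000000000) := T_16 (nat_lit 199) (nat_lit 216) (nat_lit 5) (nat_lit 13) (nat_lit 8) L25698 (by decide +kernel)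
theorem L25700 : W_16 (nat_lit 4) (nat_lit 0x30400a200580021000280000000000000000000000000000000) (nat_lit 0x0) (nat_lit 0x1000480004000000040003000000000000000000000000000000000) := T_16 (nat_lit 150) (nat_lit 133) (nat_lit 6) (nat_lit 13) (nat_lit 11) L25699 (by decide +kernel)
theorem L25701 : W_16 (nat_lit 5) (nat_lit 0x10400a200580021000280000000000000000000000000000000) (nat_lit 0x0) (nat_lit 0x5000680004000000040003000000000000000000000000000000000) := T_16 (nat_lit 201) (nat_lit 218) (nat_lit 7) (nat_lit 13) (nat_lit 8) L25700 (by decide +kernel)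
theorem L25702 : W_16 (nat_lit 2) (nat_lit 0x38400a2005a0021000280000000000000000000000000000000) (nat_lit 0x0) (nat_lit 0x400004000000000001000000000000000000000000000000000) := D_16 (nat_lit 182) (nat_lit 132) (nat_lit 202) (nat_lit 5) (nat_lit 13) (nat_lit 7) (nat_lit 0) (nat_lit 15) (nat_lit 11) (by decide +kernel)
theorem L25703 : W_16 (nat_lit 3) (nat_lit 0x30400a2005a0021000280000000000000000000000000000000) (nat_lit 0x0) (nat_lit 0x1000480004000000000001000000000000000000000000000000000) := T_16 (nat_lit 199) (nat_lit 216) (nat_lit 5) (nat_lit 13) (nat_lit 8) L25702 (by decide +kernel)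
theorem L25704 : W_16 (nat_lit 4) (nat_lit 0x10400a2005a0021000280000000000000000000000000000000) (nat_lit 0x0) (nat_lit 0x5000680004000000000001000000000000000000000000000000000) := T_16 (nat_lit 201) (nat_lit 218) (nat_lit 7) (nat_lit 13) (nat_lit 8) L25703 (by decide +kernel)
theorem L25705 : W_16 (nat_lit 5) (nat_lit 0x10400a200580021000280000000000000000000000000000000) (nat_lit 0x0) (nat_lit 0x5000680004400020000001000000000000000000000000000000000) := T_16 (nat_lit 161) (nat_lit 178) (nat_lit 5) (nat_lit 8) (nat_lit 7) L25704 (by decide +kernel)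
theorem L25706 : W_16 (nat_lit 2) (nat_lit 0x400010400a2005a0071000280000000000000000000000000000000) (nat_lit 0x0) (nat_lit 0x80002000000000000800000000000000000000000000000000000000000) := D_16 (nat_lit 217) (nat_lit 235) (nat_lit 167) (nat_lit 7) (nat_lit 13) (nat_lit 9) (nat_lit 6) (nat_lit 13) (nat_lit 12) (by decide +kernel)
theorem L25707 : W_16 (nat_lit 3) (nat_lit 0x400010400a2005a0031000280000000000000000000000000000000) (nat_lit 0x0) (nat_lit 0x80002000000000000800040002000000000000000000000000000000000) := T_16 (nat_lit 150) (nat_lit 133) (nat_lit 6) (nat_lit 13) (nat_lit 11) L25706 (by decide +kernel)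
theorem L25708 : W_16 (nat_lit 4) (nat_lit 0x10400a2005a0031000280000000000000000000000000000000) (nat_lit 0x0) (nat_lit 0x80006000200000000800040002000000000000000000000000000000000) := T_16 (nat_lit 218) (nat_lit 201) (nat_lit 7) (nat_lit 13) (nat_lit 8) L25707 (by decide +kernel)
theorem L25709 : W_16 (nat_lit 5) (nat_lit 0x10400a200580031000280000000000000000000000000000000) (nat_lit 0x0) (nat_lit 0x80006000200000400820040002000000000000000000000000000000000) := T_16 (nat_lit 161) (nat_lit 178) (nat_lit 5) (nat_lit 8) (nat_lit 7) L25708 (by decide +kernel)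
theorem L25710 : W_16 (nat_lit 6) (nat_lit 0x10400a200580021000280000000000000000000000000000000) (nat_lit 0x0) (nat_lit 0x80006000200000400820050002800000000000000000000000000000000) := T_16 (nat_lit 148) (nat_lit 131) (nat_lit 4) (nat_lit 13) (nat_lit 11) L25709 (by decide +kernel)
theorem L25711 : W_16 (nat_lit 7) (nat_lit 0x400a200580021000280000000000000000000000000000000) (nat_lit 0x0) (nat_lit 0xa0007000780004400820050003800000000000000000000000000000000) := Q_16 (nat_lit 200) (C_16 L25687 (C_16 L25701 (C_16 L25705 (C_16 L25710 N_16)))) (by decide +kernel)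
theorem L25712 : W_16 (nat_lit 2) (nat_lit 0x38400a200580061000280000000000000000000000000000000) (nat_lit 0x0) (nat_lit 0x400014000000000000000000000000000000000000000000000) := D_16 (nat_lit 182) (nat_lit 202) (nat_lit 184) (nat_lit 0) (nat_lit 15) (nat_lit 11) (nat_lit 0) (nat_lit 14) (nat_lit 10) (by decide +kernel)
theorem L25713 : W_16 (nat_lit 3) (nat_lit 0x30400a200580061000280000000000000000000000000000000) (nat_lit 0x0) (nat_lit 0x1000480014000000000000000000000000000000000000000000000) := T_16 (nat_lit 199) (nat_lit 216) (nat_lit 5) (nat_lit 13) (nat_lit 8) L25712 (by decide +kernel)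
theorem L25714 : W_16 (nat_lit 4) (nat_lit 0x30400a200580021000280000000000000000000000000000000) (nat_lit 0x0) (nat_lit 0x1000480014000000040002000000000000000000000000000000000) := T_16 (nat_lit 150) (nat_lit 133) (nat_lit 6) (nat_lit 13) (nat_lit 11) L25713 (by decide +kernel)
theorem L25715 : W_16 (nat_lit 5) (nat_lit 0x10400a200580021000280000000000000000000000000000000) (nat_lit 0x0) (nat_lit 0x5000680014000000040002000000000000000000000000000000000) := T_16 (nat_lit 201) (nat_lit 218) (nat_lit 7) (nat_lit 13) (nat_lit 8) L25714 (by decide +kernel)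
theorem L25716 : W_16 (nat_lit 2) (nat_lit 0x38400a2005a0021000280000000000000000000000000000000) (nat_lit 0x0) (nat_lit 0x400014000000000000000000000000000000000000000000000) := D_16 (nat_lit 182) (nat_lit 202) (nat_lit 184) (nat_lit 0) (nat_lit 15) (nat_lit 11) (nat_lit 0) (nat_lit 14) (nat_lit 10) (by decide +kernel)
theorem L25717 : W_16 (nat_lit 3) (nat_lit 0x30400a2005a0021000280000000000000000000000000000000) (nat_lit 0x0) (nat_lit 0x1000480014000000000000000000000000000000000000000000000) := T_16 (nat_lit 199) (nat_lit 216) (nat_lit 5) (nat_lit 13) (nat_lit 8) L25716 (by decide +kernel)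
theorem L25718 : W_16 (nat_lit 4) (nat_lit 0x10400a2005a0021000280000000000000000000000000000000) (nat_lit 0x0) (nat_lit 0x5000680014000000000000000000000000000000000000000000000) := T_16 (nat_lit 201) (nat_lit 218) (nat_lit 7) (nat_lit 13) (nat_lit 8) L25717 (by decide +kernel)
theorem L25719 : W_16 (nat_lit 5) (nat_lit 0x10400a200580021000280000000000000000000000000000000) (nat_lit 0x0) (nat_lit 0x5000680014400020000000000000000000000000000000000000000) := T_16 (nat_lit 161) (nat_lit 178) (nat_lit 5) (nat_lit 8) (nat_lit 7) L25718 (by decide +kernel)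
theorem L25720 : W_16 (nat_lit 7) (nat_lit 0x400a200580021000280000000000000000000000000000000) (nat_lit 0x0) (nat_lit 0xa0007000780014400820050002800000000000000000000000000000000) := Q_16 (nat_lit 200) (C_16 L25710 (C_16 L25715 (C_16 L25719 (C_16 L25687 N_16)))) (by decide +kernel)
theorem L25721 : W_16 (nat_lit 2) (nat_lit 0x401a2005b0021003a80000000000000000000000000000000) (nat_lit 0x0) (nat_lit 0x100000000000040000400000000000000000000000000000000) := D_16 (nat_lit 150) (nat_lit 130) (nat_lit 200) (nat_lit 3) (nat_lit 10) (nat_lit 7) (nat_lit 6) (nat_lit 13) (nat_lit 11) (by decide +kernel)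
theorem L25722 : W_16 (nat_lit 3) (nat_lit 0x401a2005b0021003280000000000000000000000000000000) (nat_lit 0x0) (nat_lit 0x100000000000040000c00040000000000000000000000000000) := T_16 (nat_lit 131) (nat_lit 114) (nat_lit 4) (nat_lit 13) (nat_lit 10) L25721 (by decide +kernel)
theorem L25723 : W_16 (nat_lit 4) (nat_lit 0x401a2005b0021001280000000000000000000000000000000) (nat_lit 0x0) (nat_lit 0x100000000000040002c00140000000000000000000000000000) := T_16 (nat_lit 133) (nat_lit 116) (nat_lit 6) (nat_lit 13) (nat_lit 10) L25722 (by decide +kernel)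
theorem L25724 : W_16 (nat_lit 5) (nat_lit 0x401a2005b0021000280000000000000000000000000000000) (nat_lit 0x0) (nat_lit 0x300000000000040003c00140000000000000000000000000000) := T_16 (nat_lit 132) (nat_lit 201) (nat_lit 7) (nat_lit 13) (nat_lit 7) L25723 (by decide +kernel)
theorem L25725 : W_16 (nat_lit 6) (nat_lit 0x401a2005a0021000280000000000000000000000000000000) (nat_lit 0x0) (nat_lit 0x300000000010040803c00140000000000000000000000000000) := T_16 (nat_lit 160) (nat_lit 143) (nat_lit 6) (nat_lit 7) (nat_lit 11) L25724 (by decide +kernel)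
theorem L25726 : W_16 (nat_lit 7) (nat_lit 0x400a2005a0021000280000000000000000000000000000000) (nat_lit 0x0) (nat_lit 0x300014000010040803c00140000000000000000000000000000) := T_16 (nat_lit 184) (nat_lit 182) (nat_lit 0) (nat_lit 14) (nat_lit 10) L25725 (by decide +kernel)
theorem L25727 : W_16 (nat_lit 8) (nat_lit 0x400a200580021000280000000000000000000000000000000) (nat_lit 0x0) (nat_lit 0x300014400030040803c00140000000000000000000000000000) := T_16 (nat_lit 161) (nat_lit 178) (nat_lit 5) (nat_lit 8) (nat_lit 7) L25726 (by decide +kernel)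
theorem L25728 : W_16 (nat_lit 2) (nat_lit 0x401a2005a0021001280080000000000000000000000000000) (nat_lit 0x0) (nat_lit 0x800040002000000000000000000000000) := D_16 (nat_lit 114) (nat_lit 131) (nat_lit 97) (nat_lit 4) (nat_lit 13) (nat_lit 10) (nat_lit 4) (nat_lit 13) (nat_lit 9) (by decide +kernel)
theorem L25729 : W_16 (nat_lit 3) (nat_lit 0x401a2005a0021001280000000000000000000000000000000) (nat_lit 0x0) (nat_lit 0x8000000008000c0002000000000000000000000000) := T_16 (nat_lit 115) (nat_lit 167) (nat_lit 7) (nat_lit 13) (nat_lit 6) L25728 (by decide +kernel)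
theorem L25730 : W_16 (nat_lit 4) (nat_lit 0x401a2005a0021000280000000000000000000000000000000) (nat_lit 0x0) (nat_lit 0x2000000008000000018000c0002000000000000000000000000) := T_16 (nat_lit 132) (nat_lit 201) (nat_lit 7) (nat_lit 13) (nat_lit 7) L25729 (by decide +kernel)
theorem L25731 : W_16 (nat_lit 5) (nat_lit 0x401a200580021000280000000000000000000000000000000) (nat_lit 0x0) (nat_lit 0x2000004008200000018000c0002000000000000000000000000) := T_16 (nat_lit 161) (nat_lit 178) (nat_lit 5) (nat_lit 8) (nat_lit 7) L25730 (by decide +kernel)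
theorem L25732 : W_16 (nat_lit 6) (nat_lit 0x400a200580021000280000000000000000000000000000000) (nat_lit 0x0) (nat_lit 0x2000144008200000018000c0002000000000000000000000000) := T_16 (nat_lit 184) (nat_lit 182) (nat_lit 0) (nat_lit 14) (nat_lit 10) L25731 (by decide +kernel)
theorem L25733 : W_16 (nat_lit 2) (nat_lit 0x400e2005b0021001e80000000000000000000000000000000) (nat_lit 0x0) (nat_lit 0x2000180000000000000000000000000000) := D_16 (nat_lit 116) (nat_lit 115) (nat_lit 133) (nat_lit 2) (nat_lit 10) (nat_lit 7) (nat_lit 6) (nat_lit 13) (nat_lit 10) (by decide +kernel)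
theorem L25734 : W_16 (nat_lit 3) (nat_lit 0x400e2005b0021001a80000000000000000000000000000000) (nat_lit 0x0) (nat_lit 0x40002400180000000000000000000000000000) := T_16 (nat_lit 130) (nat_lit 150) (nat_lit 3) (nat_lit 10) (nat_lit 7) L25733 (by decide +kernel)
theorem L25735 : W_16 (nat_lit 4) (nat_lit 0x400e2005b0021001280000000000000000000000000000000) (nat_lit 0x0) (nat_lit 0x40002c001c0000000000000000000000000000) := T_16 (nat_lit 131) (nat_lit 114) (nat_lit 4) (nat_lit 13) (nat_lit 10) L25734 (by decide +kernel)
theorem L25736 : W_16 (nat_lit 5) (nat_lit 0x400e2005b0021000280000000000000000000000000000000) (nat_lit 0x0) (nat_lit 0x80000000000040003c001c0000000000000000000000000000) := T_16 (nat_lit 132) (nat_lit 199) (nat_lit 5) (nat_lit 13) (nat_lit 7) L25735 (by decide +kernel)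
theorem L25737 : W_16 (nat_lit 6) (nat_lit 0x400a2005b0021000280000000000000000000000000000000) (nat_lit 0x0) (nat_lit 0x80014000000040003c001c0000000000000000000000000000) := T_16 (nat_lit 182) (nat_lit 184) (nat_lit 0) (nat_lit 14) (nat_lit 10) L25736 (by decide +kernel)
theorem L25738 : W_16 (nat_lit 7) (nat_lit 0x400a200590021000280000000000000000000000000000000) (nat_lit 0x0) (nat_lit 0x80014400020040003c001c0000000000000000000000000000) := T_16 (nat_lit 161) (nat_lit 178) (nat_lit 5) (nat_lit 8) (nat_lit 7) L25737 (by decide +kernel)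
theorem L25739 : W_16 (nat_lit 8) (nat_lit 0x400a200580021000280000000000000000000000000000000) (nat_lit 0x0) (nat_lit 0x80014400030040803c001c0000000000000000000000000000) := T_16 (nat_lit 160) (nat_lit 143) (nat_lit 6) (nat_lit 7) (nat_lit 11) L25738 (by decide +kernel)
theorem L25740 : W_16 (nat_lit 9) (nat_lit 0x400a200580001000280000000000000000000000000000000) (nat_lit 0x0) (nat_lit 0xa0007000780014400830070803c001c000a000000000000000000000000) := Q_16 (nat_lit 149) (C_16 L25692 (C_16 L25697 (C_16 L25711 (C_16 L25720 (C_16 L25727 (C_16 L25732 (C_16 L25739 N_16))))))) (by decide +kernel)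
theorem L25741 : W_16 (nat_lit 2) (nat_lit 0x400a200580021000280000000000000000000000000000000) (nat_lit 0x0) (nat_lit 0x10000200040000000000000000000000000000000000000) := D_16 (nat_lit 165) (nat_lit 184) (nat_lit 150) (nat_lit 3) (nat_lit 10) (nat_lit 9) (nat_lit 2) (nat_lit 10) (nat_lit 9) (by decide +kernel)
theorem L25742 : W_16 (nat_lit 2) (nat_lit 0x200038400a2005b0061000a80000000000000000000000000000000) (nat_lit 0x0) (nat_lit 0x1400040000000000000000000000000000) := D_16 (nat_lit 132) (nat_lit 114) (nat_lit 130) (nat_lit 4) (nat_lit 13) (nat_lit 10) (nat_lit 3) (nat_lit 10) (nat_lit 7) (by decide +kernel)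
theorem L25743 : W_16 (nat_lit 3) (nat_lit 0x200038400a2005b0061000280000000000000000000000000000000) (nat_lit 0x0) (nat_lit 0x10001c00040000000000000000000000000000) := T_16 (nat_lit 131) (nat_lit 148) (nat_lit 4) (nat_lit 13) (nat_lit 11) L25742 (by decide +kernel)
theorem L25744 : W_16 (nat_lit 4) (nat_lit 0x38400a2005b0061000280000000000000000000000000000000) (nat_lit 0x0) (nat_lit 0x2000000000000800010001c00040000000000000000000000000000) := T_16 (nat_lit 217) (nat_lit 167) (nat_lit 6) (nat_lit 13) (nat_lit 12) L25743 (by decide +kernel)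
theorem L25745 : W_16 (nat_lit 5) (nat_lit 0x18400a2005b0061000280000000000000000000000000000000) (nat_lit 0x0) (nat_lit 0x6000200000000800010001c00040000000000000000000000000000) := T_16 (nat_lit 201) (nat_lit 218) (nat_lit 7) (nat_lit 13) (nat_lit 8) L25744 (by decide +kernel)
theorem L25746 : W_16 (nat_lit 6) (nat_lit 0x10400a2005b0061000280000000000000000000000000000000) (nat_lit 0x0) (nat_lit 0x7000280000000800010001c00040000000000000000000000000000) := T_16 (nat_lit 199) (nat_lit 216) (nat_lit 5) (nat_lit 13) (nat_lit 8) L25745 (by decide +kernel)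
theorem L25747 : W_16 (nat_lit 7) (nat_lit 0x400a2005b0061000280000000000000000000000000000000) (nat_lit 0x0) (nat_lit 0x7000380000000800010003c00040000000000000000000000000000) := T_16 (nat_lit 200) (nat_lit 133) (nat_lit 6) (nat_lit 13) (nat_lit 11) L25746 (by decide +kernel)
theorem L25748 : W_16 (nat_lit 8) (nat_lit 0x400a200590061000280000000000000000000000000000000) (nat_lit 0x0) (nat_lit 0x7000380000400820010003c00040000000000000000000000000000) := T_16 (nat_lit 161) (nat_lit 178) (nat_lit 5) (nat_lit 8) (nat_lit 7) L25747 (by decide +kernel)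
theorem L25749 : W_16 (nat_lit 9) (nat_lit 0x400a200590021000280000000000000000000000000000000) (nat_lit 0x0) (nat_lit 0x7000380000400a20050003c00040000000000000000000000000000) := T_16 (nat_lit 150) (nat_lit 165) (nat_lit 2) (nat_lit 10) (nat_lit 9) L25748 (by decide +kernel)
theorem L25750 : W_16 (nat_lit 10) (nat_lit 0x400a200580021000280000000000000000000000000000000) (nat_lit 0x0) (nat_lit 0x7000380000400a30050803c00040000000000000000000000000000) := T_16 (nat_lit 160) (nat_lit 143) (nat_lit 6) (nat_lit 7) (nat_lit 11) L25749 (by decide +kernel)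
theorem L25751 : W_16 (nat_lit 6) (nat_lit 0x400a200580021000280000000000000000000000000000000) (nat_lit 0x0) (nat_lit 0x200010400a200000018000c0002000000000000000000000000) := T_16 (nat_lit 184) (nat_lit 165) (nat_lit 3) (nat_lit 10) (nat_lit 9) L25731 (by decide +kernel)
theorem L25752 : W_16 (nat_lit 11) (nat_lit 0x400a200580001000280000000000000000000000000000000) (nat_lit 0x0) (nat_lit 0x20007000380010400a30070803c001c0002000000000000000000000000) := Q_16 (nat_lit 149) (C_16 L25692 (C_16 L25741 (C_16 L25750 (C_16 L25751 N_16)))) (by decide +kernel)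
theorem L25753 : W_16 (nat_lit 2) (nat_lit 0x18400a200590061001280000000000000000000000000000000) (nat_lit 0x0) (nat_lit 0x10000800040000000000000000000000000000) := D_16 (nat_lit 131) (nat_lit 114) (nat_lit 148) (nat_lit 4) (nat_lit 13) (nat_lit 10) (nat_lit 4) (nat_lit 13) (nat_lit 11) (by decide +kernel)
theorem L25754 : W_16 (nat_lit 3) (nat_lit 0x18400a200590061000280000000000000000000000000000000) (nat_lit 0x0) (nat_lit 0x4000000010001800040000000000000000000000000000) := T_16 (nat_lit 132) (nat_lit 182) (nat_lit 5) (nat_lit 13) (nat_lit 7) L25753 (by decide +kernel)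
theorem L25755 : W_16 (nat_lit 4) (nat_lit 0x10400a200590061000280000000000000000000000000000000) (nat_lit 0x0) (nat_lit 0x1000080004000000010001800040000000000000000000000000000) := T_16 (nat_lit 199) (nat_lit 216) (nat_lit 5) (nat_lit 13) (nat_lit 8) L25754 (by decide +kernel)
theorem L25756 : W_16 (nat_lit 5) (nat_lit 0x400a200590061000280000000000000000000000000000000) (nat_lit 0x0) (nat_lit 0x1000180004000000010003800040000000000000000000000000000) := T_16 (nat_lit 200) (nat_lit 133) (nat_lit 6) (nat_lit 13) (nat_lit 11) L25755 (by decide +kernel)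
theorem L25757 : W_16 (nat_lit 6) (nat_lit 0x400a200590021000280000000000000000000000000000000) (nat_lit 0x0) (nat_lit 0x1000180004000200050003800040000000000000000000000000000) := T_16 (nat_lit 150) (nat_lit 165) (nat_lit 2) (nat_lit 10) (nat_lit 9) L25756 (by decide +kernel)
theorem L25758 : W_16 (nat_lit 7) (nat_lit 0x400a200580021000280000000000000000000000000000000) (nat_lit 0x0) (nat_lit 0x1000180004000210050803800040000000000000000000000000000) := T_16 (nat_lit 160) (nat_lit 143) (nat_lit 6) (nat_lit 7) (nat_lit 11) L25757 (by decide +kernel)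
theorem L25759 : W_16 (nat_lit 4) (nat_lit 0x400a2005a0061000280000000000000000000000000000000) (nat_lit 0x0) (nat_lit 0x20003000180000000800000002000000000000000000000000000000000) := T_16 (nat_lit 200) (nat_lit 133) (nat_lit 6) (nat_lit 13) (nat_lit 11) L25685 (by decide +kernel)
theorem L25760 : W_16 (nat_lit 5) (nat_lit 0x400a200580061000280000000000000000000000000000000) (nat_lit 0x0) (nat_lit 0x20003000180000400820000002000000000000000000000000000000000) := T_16 (nat_lit 161) (nat_lit 178) (nat_lit 5) (nat_lit 8) (nat_lit 7) L25759 (by decide +kernel)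
theorem L25761 : W_16 (nat_lit 6) (nat_lit 0x400a200580021000280000000000000000000000000000000) (nat_lit 0x0) (nat_lit 0x20003000180000400a20040002000000000000000000000000000000000) := T_16 (nat_lit 150) (nat_lit 165) (nat_lit 2) (nat_lit 10) (nat_lit 9) L25760 (by decide +kernel)
theorem L25762 : W_16 (nat_lit 2) (nat_lit 0x400e2005a0021003280080000000000000000000000000000) (nat_lit 0x0) (nat_lit 0x800040002000000000000000000000000) := D_16 (nat_lit 114) (nat_lit 97) (nat_lit 131) (nat_lit 4) (nat_lit 13) (nat_lit 9) (nat_lit 4) (nat_lit 13) (nat_lit 10) (by decide +kernel)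
theorem L25763 : W_16 (nat_lit 3) (nat_lit 0x400e2005a0021003280000000000000000000000000000000) (nat_lit 0x0) (nat_lit 0x2000000008000c0002000000000000000000000000) := T_16 (nat_lit 115) (nat_lit 165) (nat_lit 5) (nat_lit 13) (nat_lit 6) L25762 (by decide +kernel)
theorem L25764 : W_16 (nat_lit 4) (nat_lit 0x400a2005a0021003280000000000000000000000000000000) (nat_lit 0x0) (nat_lit 0x800040002000000008000c0002000000000000000000000000) := T_16 (nat_lit 182) (nat_lit 199) (nat_lit 5) (nat_lit 13) (nat_lit 7) L25763 (by decide +kernel)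
theorem L25765 : W_16 (nat_lit 5) (nat_lit 0x400a2005a0021001280000000000000000000000000000000) (nat_lit 0x0) (nat_lit 0x800040002000000028001c0002000000000000000000000000) := T_16 (nat_lit 133) (nat_lit 116) (nat_lit 6) (nat_lit 13) (nat_lit 10) L25764 (by decide +kernel)
theorem L25766 : W_16 (nat_lit 6) (nat_lit 0x400a200580021001280000000000000000000000000000000) (nat_lit 0x0) (nat_lit 0x800044002200000028001c0002000000000000000000000000) := T_16 (nat_lit 161) (nat_lit 178) (nat_lit 5) (nat_lit 8) (nat_lit 7) L25765 (by decide +kernel)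
theorem L25767 : W_16 (nat_lit 2) (nat_lit 0x10400a2005a0021001a80000000000000000000000000000000) (nat_lit 0x0) (nat_lit 0x1000080004000000000000000000000000000000000000000000000) := D_16 (nat_lit 199) (nat_lit 182) (nat_lit 216) (nat_lit 5) (nat_lit 13) (nat_lit 7) (nat_lit 5) (nat_lit 13) (nat_lit 8) (by decide +kernel)
theorem L25768 : W_16 (nat_lit 3) (nat_lit 0x400a2005a0021001a80000000000000000000000000000000) (nat_lit 0x0) (nat_lit 0x1000180004000000010000000000000000000000000000000000000) := T_16 (nat_lit 200) (nat_lit 148) (nat_lit 4) (nat_lit 13) (nat_lit 11) L25767 (by decide +kernel)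
theorem L25769 : W_16 (nat_lit 4) (nat_lit 0x400a200580021001a80000000000000000000000000000000) (nat_lit 0x0) (nat_lit 0x1000180004400020010000000000000000000000000000000000000) := T_16 (nat_lit 161) (nat_lit 178) (nat_lit 5) (nat_lit 8) (nat_lit 7) L25768 (by decide +kernel)
theorem L25770 : W_16 (nat_lit 5) (nat_lit 0x400a200580021001280000000000000000000000000000000) (nat_lit 0x0) (nat_lit 0x1000180004400020010000800040000000000000000000000000000) := T_16 (nat_lit 131) (nat_lit 114) (nat_lit 4) (nat_lit 13) (nat_lit 10) L25769 (by decide +kernel)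
theorem L25771 : W_16 (nat_lit 2) (nat_lit 0x500010400a2005b0021003a80000000000000000000000000000000) (nat_lit 0x0) (nat_lit 0xa0002000000000000000000000000000000000000000000000000000000) := D_16 (nat_lit 217) (nat_lit 235) (nat_lit 233) (nat_lit 7) (nat_lit 13) (nat_lit 9) (nat_lit 5) (nat_lit 13) (nat_lit 9) (by decide +kernel)
theorem L25772 : W_16 (nat_lit 3) (nat_lit 0x400010400a2005b0021003a80000000000000000000000000000000) (nat_lit 0x0) (nat_lit 0xa0003000080000000000000000000000000000000000000000000000000) := T_16 (nat_lit 216) (nat_lit 199) (nat_lit 5) (nat_lit 13) (nat_lit 8) L25771 (by decide +kernel)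
theorem L25773 : W_16 (nat_lit 4) (nat_lit 0x10400a2005b0021003a80000000000000000000000000000000) (nat_lit 0x0) (nat_lit 0xa0007000280000000000000000000000000000000000000000000000000) := T_16 (nat_lit 218) (nat_lit 201) (nat_lit 7) (nat_lit 13) (nat_lit 8) L25772 (by decide +kernel)
theorem L25774 : W_16 (nat_lit 5) (nat_lit 0x10400a2005a0021003a80000000000000000000000000000000) (nat_lit 0x0) (nat_lit 0xa0007000280000000010000800000000000000000000000000000000000) := T_16 (nat_lit 160) (nat_lit 143) (nat_lit 6) (nat_lit 7) (nat_lit 11) L25773 (by decide +kernel)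
theorem L25775 : W_16 (nat_lit 6) (nat_lit 0x400a2005a0021003a80000000000000000000000000000000) (nat_lit 0x0) (nat_lit 0xa0007000380000000010010800000000000000000000000000000000000) := T_16 (nat_lit 200) (nat_lit 148) (nat_lit 4) (nat_lit 13) (nat_lit 11) L25774 (by decide +kernel)
theorem L25776 : W_16 (nat_lit 7) (nat_lit 0x400a200580021003a80000000000000000000000000000000) (nat_lit 0x0) (nat_lit 0xa0007000380000400030010800000000000000000000000000000000000) := T_16 (nat_lit 161) (nat_lit 178) (nat_lit 5) (nat_lit 8) (nat_lit 7) L25775 (by decide +kernel)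
theorem L25777 : W_16 (nat_lit 8) (nat_lit 0x400a200580021003280000000000000000000000000000000) (nat_lit 0x0) (nat_lit 0xa0007000380000400030010800800040000000000000000000000000000) := T_16 (nat_lit 131) (nat_lit 114) (nat_lit 4) (nat_lit 13) (nat_lit 10) L25776 (by decide +kernel)
theorem L25778 : W_16 (nat_lit 9) (nat_lit 0x400a200580021001280000000000000000000000000000000) (nat_lit 0x0) (nat_lit 0xa0007000380000400030010802800140000000000000000000000000000) := T_16 (nat_lit 133) (nat_lit 116) (nat_lit 6) (nat_lit 13) (nat_lit 10) L25777 (by decide +kernel)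
theorem L25779 : W_16 (nat_lit 2) (nat_lit 0x400e200590021003280080000000000000000000000000000) (nat_lit 0x0) (nat_lit 0x800040002000000000000000000000000) := D_16 (nat_lit 114) (nat_lit 97) (nat_lit 131) (nat_lit 4) (nat_lit 13) (nat_lit 9) (nat_lit 4) (nat_lit 13) (nat_lit 10) (by decide +kernel)
theorem L25780 : W_16 (nat_lit 3) (nat_lit 0x400e200590021003280000000000000000000000000000000) (nat_lit 0x0) (nat_lit 0x2000000008000c0002000000000000000000000000) := T_16 (nat_lit 115) (nat_lit 165) (nat_lit 5) (nat_lit 13) (nat_lit 6) L25779 (by decide +kernel)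
theorem L25781 : W_16 (nat_lit 4) (nat_lit 0x400a200590021003280000000000000000000000000000000) (nat_lit 0x0) (nat_lit 0x800040002000000008000c0002000000000000000000000000) := T_16 (nat_lit 182) (nat_lit 199) (nat_lit 5) (nat_lit 13) (nat_lit 7) L25780 (by decide +kernel)
theorem L25782 : W_16 (nat_lit 5) (nat_lit 0x400a200590021001280000000000000000000000000000000) (nat_lit 0x0) (nat_lit 0x800040002000000028001c0002000000000000000000000000) := T_16 (nat_lit 133) (nat_lit 116) (nat_lit 6) (nat_lit 13) (nat_lit 10) L25781 (by decide +kernel)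
theorem L25783 : W_16 (nat_lit 6) (nat_lit 0x400a200580021001280000000000000000000000000000000) (nat_lit 0x0) (nat_lit 0x800040002100008028001c0002000000000000000000000000) := T_16 (nat_lit 160) (nat_lit 143) (nat_lit 6) (nat_lit 7) (nat_lit 11) L25782 (by decide +kernel)
theorem L25784 : W_16 (nat_lit 2) (nat_lit 0x400e2005b0021001280100000000000000000000000000000) (nat_lit 0x0) (nat_lit 0x200000000000080008000000000000000000000000) := D_16 (nat_lit 115) (nat_lit 165) (nat_lit 99) (nat_lit 5) (nat_lit 13) (nat_lit 6) (nat_lit 6) (nat_lit 13) (nat_lit 9) (by decide +kernel)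
theorem L25785 : W_16 (nat_lit 3) (nat_lit 0x400a2005b0021001280100000000000000000000000000000) (nat_lit 0x0) (nat_lit 0x80004000200000000000080008000000000000000000000000) := T_16 (nat_lit 182) (nat_lit 199) (nat_lit 5) (nat_lit 13) (nat_lit 7) L25784 (by decide +kernel)
theorem L25786 : W_16 (nat_lit 4) (nat_lit 0x400a2005b0021001280000000000000000000000000000000) (nat_lit 0x0) (nat_lit 0x80004000200000002000180008000000000000000000000000) := T_16 (nat_lit 116) (nat_lit 133) (nat_lit 6) (nat_lit 13) (nat_lit 10) L25785 (by decide +kernel)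
theorem L25787 : W_16 (nat_lit 5) (nat_lit 0x400a2005a0021001280000000000000000000000000000000) (nat_lit 0x0) (nat_lit 0x80004000210000802000180008000000000000000000000000) := T_16 (nat_lit 160) (nat_lit 143) (nat_lit 6) (nat_lit 7) (nat_lit 11) L25786 (by decide +kernel)
theorem L25788 : W_16 (nat_lit 6) (nat_lit 0x400a200580021001280000000000000000000000000000000) (nat_lit 0x0) (nat_lit 0x80004400230000802000180008000000000000000000000000) := T_16 (nat_lit 161) (nat_lit 178) (nat_lit 5) (nat_lit 8) (nat_lit 7) L25787 (by decide +kernel)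
theorem L25789 : W_16 (nat_lit 2) (nat_lit 0x30400a2005b0021001a80100000000000000000000000000000) (nat_lit 0x0) (nat_lit 0x400080008000000000000000000000000) := D_16 (nat_lit 115) (nat_lit 99) (nat_lit 130) (nat_lit 6) (nat_lit 13) (nat_lit 9) (nat_lit 2) (nat_lit 10) (nat_lit 7) (by decide +kernel)
theorem L25790 : W_16 (nat_lit 3) (nat_lit 0x30400a2005b0021001a80000000000000000000000000000000) (nat_lit 0x0) (nat_lit 0x2400180008000000000000000000000000) := T_16 (nat_lit 116) (nat_lit 133) (nat_lit 6) (nat_lit 13) (nat_lit 10) L25789 (by decide +kernel)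
theorem L25791 : W_16 (nat_lit 4) (nat_lit 0x10400a2005b0021001a80000000000000000000000000000000) (nat_lit 0x0) (nat_lit 0x4000200000000000000002400180008000000000000000000000000) := T_16 (nat_lit 201) (nat_lit 218) (nat_lit 7) (nat_lit 13) (nat_lit 8) L25790 (by decide +kernel)
theorem L25792 : W_16 (nat_lit 5) (nat_lit 0x10400a2005a0021001a80000000000000000000000000000000) (nat_lit 0x0) (nat_lit 0x4000200000000010000802400180008000000000000000000000000) := T_16 (nat_lit 160) (nat_lit 143) (nat_lit 6) (nat_lit 7) (nat_lit 11) L25791 (by decide +kernel)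
theorem L25793 : W_16 (nat_lit 6) (nat_lit 0x400a2005a0021001a80000000000000000000000000000000) (nat_lit 0x0) (nat_lit 0x4000300000000010010802400180008000000000000000000000000) := T_16 (nat_lit 200) (nat_lit 148) (nat_lit 4) (nat_lit 13) (nat_lit 11) L25792 (by decide +kernel)
theorem L25794 : W_16 (nat_lit 7) (nat_lit 0x400a200580021001a80000000000000000000000000000000) (nat_lit 0x0) (nat_lit 0x4000300000400030010802400180008000000000000000000000000) := T_16 (nat_lit 161) (nat_lit 178) (nat_lit 5) (nat_lit 8) (nat_lit 7) L25793 (by decide +kernel)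
theorem L25795 : W_16 (nat_lit 8) (nat_lit 0x400a200580021001280000000000000000000000000000000) (nat_lit 0x0) (nat_lit 0x4000300000400030010802c001c0008000000000000000000000000) := T_16 (nat_lit 131) (nat_lit 114) (nat_lit 4) (nat_lit 13) (nat_lit 10) L25794 (by decide +kernel)
theorem L25796 : W_16 (nat_lit 10) (nat_lit 0x400a200580021000280000000000000000000000000000000) (nat_lit 0x0) (nat_lit 0xa0007000380004400230010803c001c000a000000000000000000000000) := Q_16 (nat_lit 132) (C_16 L25766 (C_16 L25770 (C_16 L25778 (C_16 L25783 (C_16 L25788 (C_16 L25795 N_16)))))) (by decide +kernel)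
theorem L25797 : W_16 (nat_lit 2) (nat_lit 0x400010400a2005b0071000280000000000000000000000000000000) (nat_lit 0x0) (nat_lit 0x80002000000000000800000000000000000000000000000000000000000) := D_16 (nat_lit 217) (nat_lit 167) (nat_lit 235) (nat_lit 6) (nat_lit 13) (nat_lit 12) (nat_lit 7) (nat_lit 13) (nat_lit 9) (by decide +kernel)
theorem L25798 : W_16 (nat_lit 3) (nat_lit 0x10400a2005b0071000280000000000000000000000000000000) (nat_lit 0x0) (nat_lit 0x80006000200000000800000000000000000000000000000000000000000) := T_16 (nat_lit 218) (nat_lit 201) (nat_lit 7) (nat_lit 13) (nat_lit 8) L25797 (by decide +kernel)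
theorem L25799 : W_16 (nat_lit 4) (nat_lit 0x10400a2005b0061000280000000000000000000000000000000) (nat_lit 0x0) (nat_lit 0x80006000200000000800010000800000000000000000000000000000000) := T_16 (nat_lit 148) (nat_lit 131) (nat_lit 4) (nat_lit 13) (nat_lit 11) L25798 (by decide +kernel)
theorem L25800 : W_16 (nat_lit 5) (nat_lit 0x400a2005b0061000280000000000000000000000000000000) (nat_lit 0x0) (nat_lit 0x80006000300000000800010002800000000000000000000000000000000) := T_16 (nat_lit 200) (nat_lit 133) (nat_lit 6) (nat_lit 13) (nat_lit 11) L25799 (by decide +kernel)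
theorem L25801 : W_16 (nat_lit 6) (nat_lit 0x400a200590061000280000000000000000000000000000000) (nat_lit 0x0) (nat_lit 0x80006000300000400820010002800000000000000000000000000000000) := T_16 (nat_lit 161) (nat_lit 178) (nat_lit 5) (nat_lit 8) (nat_lit 7) L25800 (by decide +kernel)
theorem L25802 : W_16 (nat_lit 7) (nat_lit 0x400a200590021000280000000000000000000000000000000) (nat_lit 0x0) (nat_lit 0x80006000300000400a20050002800000000000000000000000000000000) := T_16 (nat_lit 150) (nat_lit 165) (nat_lit 2) (nat_lit 10) (nat_lit 9) L25801 (by decide +kernel)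
theorem L25803 : W_16 (nat_lit 8) (nat_lit 0x400a200580021000280000000000000000000000000000000) (nat_lit 0x0) (nat_lit 0x80006000300000400a30050802800000000000000000000000000000000) := T_16 (nat_lit 160) (nat_lit 143) (nat_lit 6) (nat_lit 7) (nat_lit 11) L25802 (by decide +kernel)
theorem L25804 : W_16 (nat_lit 2) (nat_lit 0x10400a200780021000280000000000000000000000000000000) (nat_lit 0x0) (nat_lit 0x2000000000000000010000800000000000000000000000000000000) := D_16 (nat_lit 148) (nat_lit 131) (nat_lit 217) (nat_lit 4) (nat_lit 13) (nat_lit 11) (nat_lit 4) (nat_lit 13) (nat_lit 12) (by decide +kernel)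
theorem L25805 : W_16 (nat_lit 3) (nat_lit 0x10400a200580021000280000000000000000000000000000000) (nat_lit 0x0) (nat_lit 0x2000000000000200050000800000000000000000000000000000000) := T_16 (nat_lit 165) (nat_lit 150) (nat_lit 2) (nat_lit 10) (nat_lit 9) L25804 (by decide +kernel)
theorem L25806 : W_16 (nat_lit 6) (nat_lit 0x400a200580021000280000000000000000000000000000000) (nat_lit 0x0) (nat_lit 0x7000780004400220050001800000000000000000000000000000000) := Q_16 (nat_lit 200) (C_16 L25705 (C_16 L25805 N_16)) (by decide +kernel)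
theorem L25807 : W_16 (nat_lit 2) (nat_lit 0x400e200580021003e80000000000000000000000000000000) (nat_lit 0x0) (nat_lit 0x38000000000000000000000000000) := D_16 (nat_lit 112) (nat_lit 113) (nat_lit 111) (nat_lit 0) (nat_lit 14) (nat_lit 7) (nat_lit 0) (nat_lit 13) (nat_lit 7) (by decide +kernel)
theorem L25808 : W_16 (nat_lit 3) (nat_lit 0x400e200580021003a80000000000000000000000000000000) (nat_lit 0x0) (nat_lit 0x40000400038000000000000000000000000000) := T_16 (nat_lit 130) (nat_lit 150) (nat_lit 3) (nat_lit 10) (nat_lit 7) L25807 (by decide +kernel)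
theorem L25809 : W_16 (nat_lit 4) (nat_lit 0x400e200580021003280000000000000000000000000000000) (nat_lit 0x0) (nat_lit 0x40000c00078000000000000000000000000000) := T_16 (nat_lit 131) (nat_lit 114) (nat_lit 4) (nat_lit 13) (nat_lit 10) L25808 (by decide +kernel)
theorem L25810 : W_16 (nat_lit 5) (nat_lit 0x400a200580021003280000000000000000000000000000000) (nat_lit 0x0) (nat_lit 0x80004000000040000c00078000000000000000000000000000) := T_16 (nat_lit 182) (nat_lit 199) (nat_lit 5) (nat_lit 13) (nat_lit 7) L25809 (by decide +kernel)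
theorem L25811 : W_16 (nat_lit 6) (nat_lit 0x400a200580021001280000000000000000000000000000000) (nat_lit 0x0) (nat_lit 0x80004000000040002c00178000000000000000000000000000) := T_16 (nat_lit 133) (nat_lit 116) (nat_lit 6) (nat_lit 13) (nat_lit 10) L25810 (by decide +kernel)
theorem L25812 : W_16 (nat_lit 2) (nat_lit 0x400a200590061003280000000000000000000000000000000) (nat_lit 0x0) (nat_lit 0xc00040000000000000000000000000000) := D_16 (nat_lit 131) (nat_lit 114) (nat_lit 130) (nat_lit 4) (nat_lit 13) (nat_lit 10) (nat_lit 3) (nat_lit 10) (nat_lit 7) (by decide +kernel)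
theorem L25813 : W_16 (nat_lit 3) (nat_lit 0x400a200590021003280000000000000000000000000000000) (nat_lit 0x0) (nat_lit 0x200040000c00040000000000000000000000000000) := T_16 (nat_lit 150) (nat_lit 165) (nat_lit 2) (nat_lit 10) (nat_lit 9) L25812 (by decide +kernel)
theorem L25814 : W_16 (nat_lit 4) (nat_lit 0x400a200590021001280000000000000000000000000000000) (nat_lit 0x0) (nat_lit 0x200040002c00140000000000000000000000000000) := T_16 (nat_lit 133) (nat_lit 116) (nat_lit 6) (nat_lit 13) (nat_lit 10) L25813 (by decide +kernel)
theorem L25815 : W_16 (nat_lit 5) (nat_lit 0x400a200580021001280000000000000000000000000000000) (nat_lit 0x0) (nat_lit 0x210040802c00140000000000000000000000000000) := T_16 (nat_lit 160) (nat_lit 143) (nat_lit 6) (nat_lit 7) (nat_lit 11) L25814 (by decide +kernel)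
theorem L25816 : W_16 (nat_lit 2) (nat_lit 0x400a200580021001a80000000000000000000000000000000) (nat_lit 0x0) (nat_lit 0x200040000400000000000000000000000000000000) := D_16 (nat_lit 150) (nat_lit 130) (nat_lit 165) (nat_lit 3) (nat_lit 10) (nat_lit 7) (nat_lit 2) (nat_lit 10) (nat_lit 9) (by decide +kernel)
theorem L25817 : W_16 (nat_lit 3) (nat_lit 0x400a200580021001280000000000000000000000000000000) (nat_lit 0x0) (nat_lit 0x200040000c00040000000000000000000000000000) := T_16 (nat_lit 131) (nat_lit 114) (nat_lit 4) (nat_lit 13) (nat_lit 10) L25816 (by decide +kernel)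
theorem L25818 : W_16 (nat_lit 7) (nat_lit 0x400a200580021000280000000000000000000000000000000) (nat_lit 0x0) (nat_lit 0x80004400230040803c001f8008000000000000000000000000) := Q_16 (nat_lit 132) (C_16 L25788 (C_16 L25811 (C_16 L25815 (C_16 L25817 N_16)))) (by decide +kernel)
theorem L25819 : W_16 (nat_lit 11) (nat_lit 0x400a200580001000280000000000000000000000000000000) (nat_lit 0x0) (nat_lit 0xa0007000780004400a30070803c001f800a000000000000000000000000) := Q_16 (nat_lit 149) (C_16 L25750 (C_16 L25711 (C_16 L25758 (C_16 L25761 (C_16 L25796 (C_16 L25803 (C_16 L25806 (C_16 L25818 N_16)))))))) (by decide +kernel)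
theorem L25820 : W_16 (nat_lit 12) (nat_lit 0x400a200180001000280000000000000000000000000000000) (nat_lit 0x0) (nat_lit 0xa0007000780014400e30070803c001f800a000000000000000000000000) := Q_16 (nat_lit 166) (C_16 L25675 (C_16 L25740 (C_16 L25752 (C_16 L25819 N_16)))) (by decide +kernel)
theorem L25821 : W_16 (nat_lit 2) (nat_lit 0xe0012400f600590001000280000000000000000000000000000000) (nat_lit 0x0) (nat_lit 0x10000c0000000000000000000000000000000000000000000000000) := D_16 (nat_lit 199) (nat_lit 216) (nat_lit 198) (nat_lit 2) (nat_lit 9) (nat_lit 12) (nat_lit 1) (nat_lit 13) (nat_lit 11) (by decide +kernel)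
theorem L25822 : W_16 (nat_lit 3) (nat_lit 0xc0012400f600590001000280000000000000000000000000000000) (nat_lit 0x0) (nat_lit 0x40012000c0000000000000000000000000000000000000000000000000) := T_16 (nat_lit 213) (nat_lit 230) (nat_lit 5) (nat_lit 10) (nat_lit 9) L25821 (by decide +kernel)
theorem L25823 : W_16 (nat_lit 4) (nat_lit 0x40012400f600590001000280000000000000000000000000000000) (nat_lit 0x0) (nat_lit 0x14001a000c0000000000000000000000000000000000000000000000000) := T_16 (nat_lit 215) (nat_lit 232) (nat_lit 7) (nat_lit 10) (nat_lit 9) L25822 (by decide +kernel)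
theorem L25824 : W_16 (nat_lit 5) (nat_lit 0x40002400f600590001000280000000000000000000000000000000) (nat_lit 0x0) (nat_lit 0x14001a003c0000000000000000000000000000000000000000000000000) := T_16 (nat_lit 200) (nat_lit 201) (nat_lit 3) (nat_lit 10) (nat_lit 10) L25823 (by decide +kernel)
theorem L25825 : W_16 (nat_lit 6) (nat_lit 0x2400f600590001000280000000000000000000000000000000) (nat_lit 0x0) (nat_lit 0x1c001e003c0000000000000000000000000000000000000000000000000) := T_16 (nat_lit 214) (nat_lit 231) (nat_lit 6) (nat_lit 10) (nat_lit 13) L25824 (by decide +kernel)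
theorem L25826 : W_16 (nat_lit 7) (nat_lit 0x2400f600190001000280000000000000000000000000000000) (nat_lit 0x0) (nat_lit 0x1c001e003c0000000c00000000000000000000000000000000000000000) := T_16 (nat_lit 166) (nat_lit 167) (nat_lit 2) (nat_lit 10) (nat_lit 10) L25825 (by decide +kernel)
theorem L25827 : W_16 (nat_lit 8) (nat_lit 0x400f600190001000280000000000000000000000000000000) (nat_lit 0x0) (nat_lit 0x1c001e003f0000000c00000000000000000000000000000000000000000) := T_16 (nat_lit 197) (nat_lit 196) (nat_lit 1) (nat_lit 13) (nat_lit 10) L25826 (by decide +kernel)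
theorem L25828 : W_16 (nat_lit 9) (nat_lit 0x400e600190001000280000000000000000000000000000000) (nat_lit 0x0) (nat_lit 0x1c001e003f0001800c00000000000000000000000000000000000000000) := T_16 (nat_lit 180) (nat_lit 179) (nat_lit 2) (nat_lit 7) (nat_lit 10) L25827 (by decide +kernel)
theorem L25829 : W_16 (nat_lit 10) (nat_lit 0x400e200190001000280000000000000000000000000000000) (nat_lit 0x0) (nat_lit 0x1c001e003f0001c00c20000000000000000000000000000000000000000) := T_16 (nat_lit 178) (nat_lit 161) (nat_lit 5) (nat_lit 8) (nat_lit 7) L25828 (by decide +kernel)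
theorem L25830 : W_16 (nat_lit 11) (nat_lit 0x400a200190001000280000000000000000000000000000000) (nat_lit 0x0) (nat_lit 0x1c001e003f0015c00c20000000000000000000000000000000000000000) := T_16 (nat_lit 182) (nat_lit 184) (nat_lit 0) (nat_lit 14) (nat_lit 10) L25829 (by decide +kernel)
theorem L25831 : W_16 (nat_lit 12) (nat_lit 0x400a200180001000280000000000000000000000000000000) (nat_lit 0x0) (nat_lit 0x1c001e003f0015c00c30000800000000000000000000000000000000000) := T_16 (nat_lit 160) (nat_lit 143) (nat_lit 6) (nat_lit 7) (nat_lit 11) L25830 (by decide +kernel)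
theorem L25832 : W_16 (nat_lit 2) (nat_lit 0x200018400a200590061000280000000000000000000000000000000) (nat_lit 0x0) (nat_lit 0x80004000200000000000000000000000000000000000000000000000000) := D_16 (nat_lit 218) (nat_lit 201) (nat_lit 235) (nat_lit 7) (nat_lit 13) (nat_lit 8) (nat_lit 7) (nat_lit 13) (nat_lit 9) (by decide +kernel)
theorem L25833 : W_16 (nat_lit 3) (nat_lit 0x18400a200590061000280000000000000000000000000000000) (nat_lit 0x0) (nat_lit 0x80006000200000000800000000000000000000000000000000000000000) := T_16 (nat_lit 217) (nat_lit 167) (nat_lit 6) (nat_lit 13) (nat_lit 12) L25832 (by decide +kernel)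
theorem L25834 : W_16 (nat_lit 4) (nat_lit 0x10400a200590061000280000000000000000000000000000000) (nat_lit 0x0) (nat_lit 0x80007000280000000800000000000000000000000000000000000000000) := T_16 (nat_lit 199) (nat_lit 216) (nat_lit 5) (nat_lit 13) (nat_lit 8) L25833 (by decide +kernel)
theorem L25835 : W_16 (nat_lit 5) (nat_lit 0x10400a200590021000280000000000000000000000000000000) (nat_lit 0x0) (nat_lit 0x80007000280000000800040002000000000000000000000000000000000) := T_16 (nat_lit 150) (nat_lit 133) (nat_lit 6) (nat_lit 13) (nat_lit 11) L25834 (by decide +kernel)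
theorem L25836 : W_16 (nat_lit 6) (nat_lit 0x10400a200580021000280000000000000000000000000000000) (nat_lit 0x0) (nat_lit 0x80007000280000000810040802000000000000000000000000000000000) := T_16 (nat_lit 160) (nat_lit 143) (nat_lit 6) (nat_lit 7) (nat_lit 11) L25835 (by decide +kernel)
theorem L25837 : W_16 (nat_lit 2) (nat_lit 0x30400a200580021001280000000000000000000000000000000) (nat_lit 0x0) (nat_lit 0x10000800040000000000000000000000000000) := D_16 (nat_lit 131) (nat_lit 148) (nat_lit 114) (nat_lit 4) (nat_lit 13) (nat_lit 11) (nat_lit 4) (nat_lit 13) (nat_lit 10) (by decide +kernel)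
theorem L25838 : W_16 (nat_lit 3) (nat_lit 0x30400a200580021000280000000000000000000000000000000) (nat_lit 0x0) (nat_lit 0x10000000010001800040000000000000000000000000000) := T_16 (nat_lit 132) (nat_lit 184) (nat_lit 7) (nat_lit 13) (nat_lit 7) L25837 (by decide +kernel)
theorem L25839 : W_16 (nat_lit 4) (nat_lit 0x10400a200580021000280000000000000000000000000000000) (nat_lit 0x0) (nat_lit 0x4000200010000000010001800040000000000000000000000000000) := T_16 (nat_lit 201) (nat_lit 218) (nat_lit 7) (nat_lit 13) (nat_lit 8) L25838 (by decide +kernel)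
theorem L25840 : W_16 (nat_lit 2) (nat_lit 0x200018400a200590061000a80000000000000000000000000000000) (nat_lit 0x0) (nat_lit 0x1400040000000000000000000000000000) := D_16 (nat_lit 132) (nat_lit 114) (nat_lit 130) (nat_lit 4) (nat_lit 13) (nat_lit 10) (nat_lit 3) (nat_lit 10) (nat_lit 7) (by decide +kernel)
theorem L25841 : W_16 (nat_lit 3) (nat_lit 0x200018400a200590061000280000000000000000000000000000000) (nat_lit 0x0) (nat_lit 0x10001c00040000000000000000000000000000) := T_16 (nat_lit 131) (nat_lit 148) (nat_lit 4) (nat_lit 13) (nat_lit 11) L25840 (by decide +kernel)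
theorem L25842 : W_16 (nat_lit 4) (nat_lit 0x18400a200590061000280000000000000000000000000000000) (nat_lit 0x0) (nat_lit 0x2000000000000800010001c00040000000000000000000000000000) := T_16 (nat_lit 217) (nat_lit 167) (nat_lit 6) (nat_lit 13) (nat_lit 12) L25841 (by decide +kernel)
theorem L25843 : W_16 (nat_lit 5) (nat_lit 0x10400a200590061000280000000000000000000000000000000) (nat_lit 0x0) (nat_lit 0x3000080000000800010001c00040000000000000000000000000000) := T_16 (nat_lit 199) (nat_lit 216) (nat_lit 5) (nat_lit 13) (nat_lit 8) L25842 (by decide +kernel)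
theorem L25844 : W_16 (nat_lit 6) (nat_lit 0x10400a200590021000280000000000000000000000000000000) (nat_lit 0x0) (nat_lit 0x3000080000000800050003c00040000000000000000000000000000) := T_16 (nat_lit 150) (nat_lit 133) (nat_lit 6) (nat_lit 13) (nat_lit 11) L25843 (by decide +kernel)
theorem L25845 : W_16 (nat_lit 7) (nat_lit 0x10400a200580021000280000000000000000000000000000000) (nat_lit 0x0) (nat_lit 0x3000080000000810050803c00040000000000000000000000000000) := T_16 (nat_lit 160) (nat_lit 143) (nat_lit 6) (nat_lit 7) (nat_lit 11) L25844 (by decide +kernel)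
theorem L25846 : W_16 (nat_lit 8) (nat_lit 0x400a200580021000280000000000000000000000000000000) (nat_lit 0x0) (nat_lit 0x80007000380010000810050803c00040000000000000000000000000000) := Q_16 (nat_lit 200) (C_16 L25683 (C_16 L25836 (C_16 L25839 (C_16 L25845 N_16)))) (by decide +kernel)
theorem L25847 : W_16 (nat_lit 4) (nat_lit 0x400a200590021001280000000000000000000000000000000) (nat_lit 0x0) (nat_lit 0x200010000800000002000180008000000000000000000000000) := T_16 (nat_lit 184) (nat_lit 201) (nat_lit 7) (nat_lit 13) (nat_lit 7) L25694 (by decide +kernel)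
theorem L25848 : W_16 (nat_lit 5) (nat_lit 0x400a200580021001280000000000000000000000000000000) (nat_lit 0x0) (nat_lit 0x200010000810000802000180008000000000000000000000000) := T_16 (nat_lit 160) (nat_lit 143) (nat_lit 6) (nat_lit 7) (nat_lit 11) L25847 (by decide +kernel)
theorem L25849 : W_16 (nat_lit 2) (nat_lit 0x401a200580021003280080000000000000000000000000000) (nat_lit 0x0) (nat_lit 0x800040002000000000000000000000000) := D_16 (nat_lit 114) (nat_lit 97) (nat_lit 131) (nat_lit 4) (nat_lit 13) (nat_lit 9) (nat_lit 4) (nat_lit 13) (nat_lit 10) (by decide +kernel)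
theorem L25850 : W_16 (nat_lit 3) (nat_lit 0x401a200580021003280000000000000000000000000000000) (nat_lit 0x0) (nat_lit 0x8000000008000c0002000000000000000000000000) := T_16 (nat_lit 115) (nat_lit 167) (nat_lit 7) (nat_lit 13) (nat_lit 6) L25849 (by decide +kernel)
theorem L25851 : W_16 (nat_lit 4) (nat_lit 0x400a200580021003280000000000000000000000000000000) (nat_lit 0x0) (nat_lit 0x2000100008000000008000c0002000000000000000000000000) := T_16 (nat_lit 184) (nat_lit 201) (nat_lit 7) (nat_lit 13) (nat_lit 7) L25850 (by decide +kernel)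
theorem L25852 : W_16 (nat_lit 5) (nat_lit 0x400a200580021001280000000000000000000000000000000) (nat_lit 0x0) (nat_lit 0x2000100008000000028001c0002000000000000000000000000) := T_16 (nat_lit 133) (nat_lit 116) (nat_lit 6) (nat_lit 13) (nat_lit 10) L25851 (by decide +kernel)
theorem L25853 : W_16 (nat_lit 2) (nat_lit 0x38400b200590021003280000000000000000000000000000000) (nat_lit 0x0) (nat_lit 0xc00020000000000000000000000000000000000000000) := D_16 (nat_lit 178) (nat_lit 161) (nat_lit 179) (nat_lit 5) (nat_lit 8) (nat_lit 7) (nat_lit 2) (nat_lit 7) (nat_lit 10) (by decide +kernel)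
theorem L25854 : W_16 (nat_lit 3) (nat_lit 0x38400a200590021003280000000000000000000000000000000) (nat_lit 0x0) (nat_lit 0x40001c00020000000000000000000000000000000000000000) := T_16 (nat_lit 180) (nat_lit 198) (nat_lit 0) (nat_lit 14) (nat_lit 11) L25853 (by decide +kernel)
theorem L25855 : W_16 (nat_lit 4) (nat_lit 0x18400a200590021003280000000000000000000000000000000) (nat_lit 0x0) (nat_lit 0x4000240001c00020000000000000000000000000000000000000000) := T_16 (nat_lit 201) (nat_lit 218) (nat_lit 7) (nat_lit 13) (nat_lit 8) L25854 (by decide +kernel)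
theorem L25856 : W_16 (nat_lit 5) (nat_lit 0x10400a200590021003280000000000000000000000000000000) (nat_lit 0x0) (nat_lit 0x50002c0001c00020000000000000000000000000000000000000000) := T_16 (nat_lit 199) (nat_lit 216) (nat_lit 5) (nat_lit 13) (nat_lit 8) L25855 (by decide +kernel)
theorem L25857 : W_16 (nat_lit 6) (nat_lit 0x400a200590021003280000000000000000000000000000000) (nat_lit 0x0) (nat_lit 0x50003c0001c00020040000000000000000000000000000000000000) := T_16 (nat_lit 200) (nat_lit 150) (nat_lit 6) (nat_lit 13) (nat_lit 11) L25856 (by decide +kernel)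
theorem L25858 : W_16 (nat_lit 7) (nat_lit 0x400a200580021003280000000000000000000000000000000) (nat_lit 0x0) (nat_lit 0x50003c0001c00030040800000000000000000000000000000000000) := T_16 (nat_lit 160) (nat_lit 143) (nat_lit 6) (nat_lit 7) (nat_lit 11) L25857 (by decide +kernel)
theorem L25859 : W_16 (nat_lit 8) (nat_lit 0x400a200580021001280000000000000000000000000000000) (nat_lit 0x0) (nat_lit 0x50003c0001c00030040802000100000000000000000000000000000) := T_16 (nat_lit 133) (nat_lit 116) (nat_lit 6) (nat_lit 13) (nat_lit 10) L25858 (by decide +kernel)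
theorem L25860 : W_16 (nat_lit 2) (nat_lit 0x401a2005b0021001280080000000000000000000000000000) (nat_lit 0x0) (nat_lit 0x800040002000000000000000000000000) := D_16 (nat_lit 114) (nat_lit 131) (nat_lit 97) (nat_lit 4) (nat_lit 13) (nat_lit 10) (nat_lit 4) (nat_lit 13) (nat_lit 9) (by decide +kernel)
theorem L25861 : W_16 (nat_lit 3) (nat_lit 0x401a2005b0021001280000000000000000000000000000000) (nat_lit 0x0) (nat_lit 0x8000000008000c0002000000000000000000000000) := T_16 (nat_lit 115) (nat_lit 167) (nat_lit 7) (nat_lit 13) (nat_lit 6) L25860 (by decide +kernel)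
theorem L25862 : W_16 (nat_lit 4) (nat_lit 0x400a2005b0021001280000000000000000000000000000000) (nat_lit 0x0) (nat_lit 0x2000100008000000008000c0002000000000000000000000000) := T_16 (nat_lit 184) (nat_lit 201) (nat_lit 7) (nat_lit 13) (nat_lit 7) L25861 (by decide +kernel)
theorem L25863 : W_16 (nat_lit 5) (nat_lit 0x400a2005a0021001280000000000000000000000000000000) (nat_lit 0x0) (nat_lit 0x2000100008100008008000c0002000000000000000000000000) := T_16 (nat_lit 160) (nat_lit 143) (nat_lit 6) (nat_lit 7) (nat_lit 11) L25862 (by decide +kernel)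
theorem L25864 : W_16 (nat_lit 6) (nat_lit 0x400a200580021001280000000000000000000000000000000) (nat_lit 0x0) (nat_lit 0x2000104008300008008000c0002000000000000000000000000) := T_16 (nat_lit 161) (nat_lit 178) (nat_lit 5) (nat_lit 8) (nat_lit 7) L25863 (by decide +kernel)
theorem L25865 : W_16 (nat_lit 2) (nat_lit 0x400a200580021001e80000000000000000000000000000000) (nat_lit 0x0) (nat_lit 0x2000180000000000000000000000000000) := D_16 (nat_lit 116) (nat_lit 115) (nat_lit 133) (nat_lit 2) (nat_lit 10) (nat_lit 7) (nat_lit 6) (nat_lit 13) (nat_lit 10) (by decide +kernel)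
theorem L25866 : W_16 (nat_lit 3) (nat_lit 0x400a200580021001a80000000000000000000000000000000) (nat_lit 0x0) (nat_lit 0x40002400180000000000000000000000000000) := T_16 (nat_lit 130) (nat_lit 150) (nat_lit 3) (nat_lit 10) (nat_lit 7) L25865 (by decide +kernel)
theorem L25867 : W_16 (nat_lit 4) (nat_lit 0x400a200580021001280000000000000000000000000000000) (nat_lit 0x0) (nat_lit 0x40002c001c0000000000000000000000000000) := T_16 (nat_lit 131) (nat_lit 114) (nat_lit 4) (nat_lit 13) (nat_lit 10) L25866 (by decide +kernel)
theorem L25868 : W_16 (nat_lit 9) (nat_lit 0x400a200580021000280000000000000000000000000000000) (nat_lit 0x0) (nat_lit 0x50003c0011c00830040803c001c000a000000000000000000000000) := Q_16 (nat_lit 132) (C_16 L25848 (C_16 L25852 (C_16 L25859 (C_16 L25864 (C_16 L25867 N_16))))) (by decide +kernel)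
theorem L25869 : W_16 (nat_lit 2) (nat_lit 0x38400a2005b0021001a80100000000000000000000000000000) (nat_lit 0x0) (nat_lit 0x400080008000000000000000000000000) := D_16 (nat_lit 115) (nat_lit 99) (nat_lit 130) (nat_lit 6) (nat_lit 13) (nat_lit 9) (nat_lit 2) (nat_lit 10) (nat_lit 7) (by decide +kernel)
theorem L25870 : W_16 (nat_lit 3) (nat_lit 0x38400a2005b0021001a80000000000000000000000000000000) (nat_lit 0x0) (nat_lit 0x2400180008000000000000000000000000) := T_16 (nat_lit 116) (nat_lit 133) (nat_lit 6) (nat_lit 13) (nat_lit 10) L25869 (by decide +kernel)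
theorem L25871 : W_16 (nat_lit 4) (nat_lit 0x38400a2005b0021000a80000000000000000000000000000000) (nat_lit 0x0) (nat_lit 0x34001c0008000000000000000000000000) := T_16 (nat_lit 132) (nat_lit 114) (nat_lit 4) (nat_lit 13) (nat_lit 10) L25870 (by decide +kernel)
theorem L25872 : W_16 (nat_lit 5) (nat_lit 0x18400a2005b0021000a80000000000000000000000000000000) (nat_lit 0x0) (nat_lit 0x40002000000000000000034001c0008000000000000000000000000) := T_16 (nat_lit 201) (nat_lit 218) (nat_lit 7) (nat_lit 13) (nat_lit 8) L25871 (by decide +kernel)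
theorem L25873 : W_16 (nat_lit 6) (nat_lit 0x18400a2005b0021000280000000000000000000000000000000) (nat_lit 0x0) (nat_lit 0x4000200000000000010003c001c0008000000000000000000000000) := T_16 (nat_lit 131) (nat_lit 148) (nat_lit 4) (nat_lit 13) (nat_lit 11) L25872 (by decide +kernel)
theorem L25874 : W_16 (nat_lit 7) (nat_lit 0x10400a2005b0021000280000000000000000000000000000000) (nat_lit 0x0) (nat_lit 0x5000280000000000010003c001c0008000000000000000000000000) := T_16 (nat_lit 199) (nat_lit 216) (nat_lit 5) (nat_lit 13) (nat_lit 8) L25873 (by decide +kernel)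
theorem L25875 : W_16 (nat_lit 8) (nat_lit 0x10400a2005a0021000280000000000000000000000000000000) (nat_lit 0x0) (nat_lit 0x5000280000000010010803c001c0008000000000000000000000000) := T_16 (nat_lit 160) (nat_lit 143) (nat_lit 6) (nat_lit 7) (nat_lit 11) L25874 (by decide +kernel)
theorem L25876 : W_16 (nat_lit 9) (nat_lit 0x10400a200580021000280000000000000000000000000000000) (nat_lit 0x0) (nat_lit 0x5000280000400030010803c001c0008000000000000000000000000) := T_16 (nat_lit 161) (nat_lit 178) (nat_lit 5) (nat_lit 8) (nat_lit 7) L25875 (by decide +kernel)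
theorem L25877 : W_16 (nat_lit 2) (nat_lit 0x300030400a2005b0021001a80000000000000000000000000000000) (nat_lit 0x0) (nat_lit 0x800040000400000000000000000000000000000000) := D_16 (nat_lit 150) (nat_lit 167) (nat_lit 130) (nat_lit 6) (nat_lit 13) (nat_lit 12) (nat_lit 3) (nat_lit 10) (nat_lit 7) (by decide +kernel)
theorem L25878 : W_16 (nat_lit 3) (nat_lit 0x300030400a2005b0021000a80000000000000000000000000000000) (nat_lit 0x0) (nat_lit 0x800040001400040000000000000000000000000000) := T_16 (nat_lit 132) (nat_lit 114) (nat_lit 4) (nat_lit 13) (nat_lit 10) L25877 (by decide +kernel)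
theorem L25879 : W_16 (nat_lit 4) (nat_lit 0x100030400a2005b0021000a80000000000000000000000000000000) (nat_lit 0x0) (nat_lit 0x20002000000000000800040001400040000000000000000000000000000) := T_16 (nat_lit 217) (nat_lit 233) (nat_lit 5) (nat_lit 13) (nat_lit 9) L25878 (by decide +kernel)
theorem L25880 : W_16 (nat_lit 5) (nat_lit 0x100030400a2005b0021000280000000000000000000000000000000) (nat_lit 0x0) (nat_lit 0x20002000000000000800050001c00040000000000000000000000000000) := T_16 (nat_lit 131) (nat_lit 148) (nat_lit 4) (nat_lit 13) (nat_lit 11) L25879 (by decide +kernel)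
theorem L25881 : W_16 (nat_lit 6) (nat_lit 0x30400a2005b0021000280000000000000000000000000000000) (nat_lit 0x0) (nat_lit 0x20003000080000000800050001c00040000000000000000000000000000) := T_16 (nat_lit 216) (nat_lit 199) (nat_lit 5) (nat_lit 13) (nat_lit 8) L25880 (by decide +kernel)
theorem L25882 : W_16 (nat_lit 7) (nat_lit 0x30400a2005a0021000280000000000000000000000000000000) (nat_lit 0x0) (nat_lit 0x20003000080000000810050801c00040000000000000000000000000000) := T_16 (nat_lit 160) (nat_lit 143) (nat_lit 6) (nat_lit 7) (nat_lit 11) L25881 (by decide +kernel)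
theorem L25883 : W_16 (nat_lit 8) (nat_lit 0x30400a200580021000280000000000000000000000000000000) (nat_lit 0x0) (nat_lit 0x20003000080000400830050801c00040000000000000000000000000000) := T_16 (nat_lit 161) (nat_lit 178) (nat_lit 5) (nat_lit 8) (nat_lit 7) L25882 (by decide +kernel)
theorem L25884 : W_16 (nat_lit 9) (nat_lit 0x10400a200580021000280000000000000000000000000000000) (nat_lit 0x0) (nat_lit 0x20007000280000400830050801c00040000000000000000000000000000) := T_16 (nat_lit 201) (nat_lit 218) (nat_lit 7) (nat_lit 13) (nat_lit 8) L25883 (by decide +kernel)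
theorem L25885 : W_16 (nat_lit 10) (nat_lit 0x400a200580021000280000000000000000000000000000000) (nat_lit 0x0) (nat_lit 0xa0007000380000400830050803c001c0008000000000000000000000000) := Q_16 (nat_lit 200) (C_16 L25836 (C_16 L25845 (C_16 L25710 (C_16 L25876 (C_16 L25884 N_16))))) (by decide +kernel)
theorem L25886 : W_16 (nat_lit 2) (nat_lit 0x400a200590021001a80100000000000000000000000000000) (nat_lit 0x0) (nat_lit 0x400080008000000000000000000000000) := D_16 (nat_lit 115) (nat_lit 130) (nat_lit 99) (nat_lit 2) (nat_lit 10) (nat_lit 7) (nat_lit 6) (nat_lit 13) (nat_lit 9) (by decide +kernel)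
theorem L25887 : W_16 (nat_lit 3) (nat_lit 0x400a200590021001280100000000000000000000000000000) (nat_lit 0x0) (nat_lit 0xc000c0008000000000000000000000000) := T_16 (nat_lit 131) (nat_lit 114) (nat_lit 4) (nat_lit 13) (nat_lit 10) L25886 (by decide +kernel)
theorem L25888 : W_16 (nat_lit 4) (nat_lit 0x400a200590021001280000000000000000000000000000000) (nat_lit 0x0) (nat_lit 0x2c001c0008000000000000000000000000) := T_16 (nat_lit 116) (nat_lit 133) (nat_lit 6) (nat_lit 13) (nat_lit 10) L25887 (by decide +kernel)
theorem L25889 : W_16 (nat_lit 5) (nat_lit 0x400a200580021001280000000000000000000000000000000) (nat_lit 0x0) (nat_lit 0x10000802c001c0008000000000000000000000000) := T_16 (nat_lit 160) (nat_lit 143) (nat_lit 6) (nat_lit 7) (nat_lit 11) L25888 (by decide +kernel)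
theorem L25890 : W_16 (nat_lit 10) (nat_lit 0x400a200580021000280000000000000000000000000000000) (nat_lit 0x0) (nat_lit 0xa0007000380010400830010803c001c000a000000000000000000000000) := Q_16 (nat_lit 132) (C_16 L25864 (C_16 L25852 (C_16 L25795 (C_16 L25848 (C_16 L25889 (C_16 L25778 N_16)))))) (by decide +kernel)
theorem L25891 : W_16 (nat_lit 4) (nat_lit 0x30400a200590021003280000000000000000000000000000000) (nat_lit 0x0) (nat_lit 0x10000c0001c00020000000000000000000000000000000000000000) := T_16 (nat_lit 199) (nat_lit 216) (nat_lit 5) (nat_lit 13) (nat_lit 8) L25854 (by decide +kernel)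
theorem L25892 : W_16 (nat_lit 5) (nat_lit 0x30400a200580021003280000000000000000000000000000000) (nat_lit 0x0) (nat_lit 0x10000c0001c00030000800000000000000000000000000000000000) := T_16 (nat_lit 160) (nat_lit 143) (nat_lit 6) (nat_lit 7) (nat_lit 11) L25891 (by decide +kernel)
theorem L25893 : W_16 (nat_lit 6) (nat_lit 0x30400a200580021001280000000000000000000000000000000) (nat_lit 0x0) (nat_lit 0x10000c0001c00030000802000100000000000000000000000000000) := T_16 (nat_lit 133) (nat_lit 116) (nat_lit 6) (nat_lit 13) (nat_lit 10) L25892 (by decide +kernel)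
theorem L25894 : W_16 (nat_lit 7) (nat_lit 0x30400a200580021000280000000000000000000000000000000) (nat_lit 0x0) (nat_lit 0x10000c0011c00030000803000100000000000000000000000000000) := T_16 (nat_lit 132) (nat_lit 184) (nat_lit 7) (nat_lit 13) (nat_lit 7) L25893 (by decide +kernel)
theorem L25895 : W_16 (nat_lit 8) (nat_lit 0x10400a200580021000280000000000000000000000000000000) (nat_lit 0x0) (nat_lit 0x50002c0011c00030000803000100000000000000000000000000000) := T_16 (nat_lit 201) (nat_lit 218) (nat_lit 7) (nat_lit 13) (nat_lit 8) L25894 (by decide +kernel)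
theorem L25896 : W_16 (nat_lit 2) (nat_lit 0x38401a2005b0021000280000000000000000000000000000000) (nat_lit 0x0) (nat_lit 0x40021000000000000000000000000000000000000000000000) := D_16 (nat_lit 198) (nat_lit 185) (nat_lit 180) (nat_lit 2) (nat_lit 11) (nat_lit 11) (nat_lit 0) (nat_lit 14) (nat_lit 11) (by decide +kernel)
theorem L25897 : W_16 (nat_lit 3) (nat_lit 0x30401a2005b0021000280000000000000000000000000000000) (nat_lit 0x0) (nat_lit 0x10000c0021000000000000000000000000000000000000000000000) := T_16 (nat_lit 199) (nat_lit 216) (nat_lit 5) (nat_lit 13) (nat_lit 8) L25896 (by decide +kernel)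
theorem L25898 : W_16 (nat_lit 4) (nat_lit 0x30401a2005a0021000280000000000000000000000000000000) (nat_lit 0x0) (nat_lit 0x10000c0021000010000800000000000000000000000000000000000) := T_16 (nat_lit 160) (nat_lit 143) (nat_lit 6) (nat_lit 7) (nat_lit 11) L25897 (by decide +kernel)
theorem L25899 : W_16 (nat_lit 5) (nat_lit 0x30400a2005a0021000280000000000000000000000000000000) (nat_lit 0x0) (nat_lit 0x10000c0031000010000801000000000000000000000000000000000) := T_16 (nat_lit 184) (nat_lit 132) (nat_lit 7) (nat_lit 13) (nat_lit 7) L25898 (by decide +kernel)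
theorem L25900 : W_16 (nat_lit 6) (nat_lit 0x10400a2005a0021000280000000000000000000000000000000) (nat_lit 0x0) (nat_lit 0x50002c0031000010000801000000000000000000000000000000000) := T_16 (nat_lit 201) (nat_lit 218) (nat_lit 7) (nat_lit 13) (nat_lit 8) L25899 (by decide +kernel)
theorem L25901 : W_16 (nat_lit 7) (nat_lit 0x10400a200580021000280000000000000000000000000000000) (nat_lit 0x0) (nat_lit 0x50002c0031400030000801000000000000000000000000000000000) := T_16 (nat_lit 161) (nat_lit 178) (nat_lit 5) (nat_lit 8) (nat_lit 7) L25900 (by decide +kernel)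
theorem L25902 : W_16 (nat_lit 9) (nat_lit 0x400a200580021000280000000000000000000000000000000) (nat_lit 0x0) (nat_lit 0xa00070003c0031c00830040803000100000000000000000000000000000) := Q_16 (nat_lit 200) (C_16 L25836 (C_16 L25687 (C_16 L25895 (C_16 L25679 (C_16 L25901 N_16))))) (by decide +kernel)
theorem L25903 : W_16 (nat_lit 2) (nat_lit 0x400a2005a0021001e80010000000000000000000000000000) (nat_lit 0x0) (nat_lit 0x2000120000000000000000000000000000) := D_16 (nat_lit 133) (nat_lit 116) (nat_lit 113) (nat_lit 6) (nat_lit 13) (nat_lit 10) (nat_lit 0) (nat_lit 14) (nat_lit 7) (by decide +kernel)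
theorem L25904 : W_16 (nat_lit 3) (nat_lit 0x400a2005a0021001e80000000000000000000000000000000) (nat_lit 0x0) (nat_lit 0x2000138000000000000000000000000000) := T_16 (nat_lit 112) (nat_lit 111) (nat_lit 0) (nat_lit 13) (nat_lit 7) L25903 (by decide +kernel)
theorem L25905 : W_16 (nat_lit 4) (nat_lit 0x400a2005a0021001a80000000000000000000000000000000) (nat_lit 0x0) (nat_lit 0x40002400138000000000000000000000000000) := T_16 (nat_lit 130) (nat_lit 150) (nat_lit 3) (nat_lit 10) (nat_lit 7) L25904 (by decide +kernel)
theorem L25906 : W_16 (nat_lit 5) (nat_lit 0x400a2005a0021001280000000000000000000000000000000) (nat_lit 0x0) (nat_lit 0x40002c00178000000000000000000000000000) := T_16 (nat_lit 131) (nat_lit 114) (nat_lit 4) (nat_lit 13) (nat_lit 10) L25905 (by decide +kernel)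
theorem L25907 : W_16 (nat_lit 6) (nat_lit 0x400a200580021001280000000000000000000000000000000) (nat_lit 0x0) (nat_lit 0x400020040002c00178000000000000000000000000000) := T_16 (nat_lit 161) (nat_lit 178) (nat_lit 5) (nat_lit 8) (nat_lit 7) L25906 (by decide +kernel)
theorem L25908 : W_16 (nat_lit 7) (nat_lit 0x400a200580021000280000000000000000000000000000000) (nat_lit 0x0) (nat_lit 0x200010400830040803c001f800a000000000000000000000000) := Q_16 (nat_lit 132) (C_16 L25864 (C_16 L25889 (C_16 L25867 (C_16 L25848 (C_16 L25907 N_16))))) (by decide +kernel)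
theorem L25909 : W_16 (nat_lit 2) (nat_lit 0x3c400a2005b0031000280000000000000000000000000000000) (nat_lit 0x0) (nat_lit 0x20030000000000000000000000000000000000000000000000) := D_16 (nat_lit 184) (nat_lit 197) (nat_lit 185) (nat_lit 2) (nat_lit 10) (nat_lit 11) (nat_lit 2) (nat_lit 11) (nat_lit 11) (by decide +kernel)
theorem L25910 : W_16 (nat_lit 3) (nat_lit 0x38400a2005b0031000280000000000000000000000000000000) (nat_lit 0x0) (nat_lit 0x60031000000000000000000000000000000000000000000000) := T_16 (nat_lit 198) (nat_lit 180) (nat_lit 0) (nat_lit 14) (nat_lit 11) L25909 (by decide +kernel)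
theorem L25911 : W_16 (nat_lit 4) (nat_lit 0x18400a2005b0031000280000000000000000000000000000000) (nat_lit 0x0) (nat_lit 0x4000260031000000000000000000000000000000000000000000000) := T_16 (nat_lit 201) (nat_lit 218) (nat_lit 7) (nat_lit 13) (nat_lit 8) L25910 (by decide +kernel)
theorem L25912 : W_16 (nat_lit 5) (nat_lit 0x18400a2005b0021000280000000000000000000000000000000) (nat_lit 0x0) (nat_lit 0x4000260031000000010000800000000000000000000000000000000) := T_16 (nat_lit 148) (nat_lit 131) (nat_lit 4) (nat_lit 13) (nat_lit 11) L25911 (by decide +kernel)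
theorem L25913 : W_16 (nat_lit 6) (nat_lit 0x10400a2005b0021000280000000000000000000000000000000) (nat_lit 0x0) (nat_lit 0x50002e0031000000010000800000000000000000000000000000000) := T_16 (nat_lit 199) (nat_lit 216) (nat_lit 5) (nat_lit 13) (nat_lit 8) L25912 (by decide +kernel)
theorem L25914 : W_16 (nat_lit 7) (nat_lit 0x10400a2005a0021000280000000000000000000000000000000) (nat_lit 0x0) (nat_lit 0x50002e0031000010010800800000000000000000000000000000000) := T_16 (nat_lit 160) (nat_lit 143) (nat_lit 6) (nat_lit 7) (nat_lit 11) L25913 (by decide +kernel)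
theorem L25915 : W_16 (nat_lit 8) (nat_lit 0x10400a200580021000280000000000000000000000000000000) (nat_lit 0x0) (nat_lit 0x50002e0031400030010800800000000000000000000000000000000) := T_16 (nat_lit 161) (nat_lit 178) (nat_lit 5) (nat_lit 8) (nat_lit 7) L25914 (by decide +kernel)
theorem L25916 : W_16 (nat_lit 9) (nat_lit 0x400a200580021000280000000000000000000000000000000) (nat_lit 0x0) (nat_lit 0xa00070003e0031400830050802800000000000000000000000000000000) := Q_16 (nat_lit 200) (C_16 L25836 (C_16 L25710 (C_16 L25915 (C_16 L25687 N_16)))) (by decide +kernel)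
theorem L25917 : W_16 (nat_lit 2) (nat_lit 0x18400a2005b0061000a80000000000000000000000000000000) (nat_lit 0x0) (nat_lit 0x1400040000000000000000000000000000) := D_16 (nat_lit 132) (nat_lit 114) (nat_lit 130) (nat_lit 4) (nat_lit 13) (nat_lit 10) (nat_lit 3) (nat_lit 10) (nat_lit 7) (by decide +kernel)
theorem L25918 : W_16 (nat_lit 3) (nat_lit 0x18400a2005b0061000280000000000000000000000000000000) (nat_lit 0x0) (nat_lit 0x10001c00040000000000000000000000000000) := T_16 (nat_lit 131) (nat_lit 148) (nat_lit 4) (nat_lit 13) (nat_lit 11) L25917 (by decide +kernel)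
theorem L25919 : W_16 (nat_lit 4) (nat_lit 0x18400a200590061000280000000000000000000000000000000) (nat_lit 0x0) (nat_lit 0x400020010001c00040000000000000000000000000000) := T_16 (nat_lit 161) (nat_lit 178) (nat_lit 5) (nat_lit 8) (nat_lit 7) L25918 (by decide +kernel)
theorem L25920 : W_16 (nat_lit 5) (nat_lit 0x10400a200590061000280000000000000000000000000000000) (nat_lit 0x0) (nat_lit 0x1000080000400020010001c00040000000000000000000000000000) := T_16 (nat_lit 199) (nat_lit 216) (nat_lit 5) (nat_lit 13) (nat_lit 8) L25919 (by decide +kernel)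
theorem L25921 : W_16 (nat_lit 6) (nat_lit 0x10400a200590021000280000000000000000000000000000000) (nat_lit 0x0) (nat_lit 0x1000080000400020050003c00040000000000000000000000000000) := T_16 (nat_lit 150) (nat_lit 133) (nat_lit 6) (nat_lit 13) (nat_lit 11) L25920 (by decide +kernel)
theorem L25922 : W_16 (nat_lit 7) (nat_lit 0x10400a200580021000280000000000000000000000000000000) (nat_lit 0x0) (nat_lit 0x1000080000400030050803c00040000000000000000000000000000) := T_16 (nat_lit 160) (nat_lit 143) (nat_lit 6) (nat_lit 7) (nat_lit 11) L25921 (by decide +kernel)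
theorem L25923 : W_16 (nat_lit 10) (nat_lit 0x400a200580021000280000000000000000000000000000000) (nat_lit 0x0) (nat_lit 0x50003e0031400030050803c001c0008000000000000000000000000) := Q_16 (nat_lit 200) (C_16 L25915 (C_16 L25876 (C_16 L25839 (C_16 L25901 (C_16 L25922 N_16))))) (by decide +kernel)
theorem L25924 : W_16 (nat_lit 2) (nat_lit 0x18400a200db0061001a80000000000000000000000000000000) (nat_lit 0x0) (nat_lit 0x10000000000000000080004000000000000000000000000) := D_16 (nat_lit 115) (nat_lit 98) (nat_lit 184) (nat_lit 7) (nat_lit 13) (nat_lit 5) (nat_lit 7) (nat_lit 13) (nat_lit 6) (by decide +kernel)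
theorem L25925 : W_16 (nat_lit 3) (nat_lit 0x18400a2005b0061001a80000000000000000000000000000000) (nat_lit 0x0) (nat_lit 0x2000000010000800000000000080004000000000000000000000000) := T_16 (nat_lit 167) (nat_lit 217) (nat_lit 6) (nat_lit 13) (nat_lit 12) L25924 (by decide +kernel)
theorem L25926 : W_16 (nat_lit 4) (nat_lit 0x18400a2005b0021001a80000000000000000000000000000000) (nat_lit 0x0) (nat_lit 0x2000000010000800040000400080004000000000000000000000000) := T_16 (nat_lit 150) (nat_lit 130) (nat_lit 3) (nat_lit 10) (nat_lit 7) L25925 (by decide +kernel)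
theorem L25927 : W_16 (nat_lit 5) (nat_lit 0x18400a2005b0021000a80000000000000000000000000000000) (nat_lit 0x0) (nat_lit 0x20000000100008000400014000c0004000000000000000000000000) := T_16 (nat_lit 132) (nat_lit 114) (nat_lit 4) (nat_lit 13) (nat_lit 10) L25926 (by decide +kernel)
theorem L25928 : W_16 (nat_lit 6) (nat_lit 0x18400a2005b0021000280000000000000000000000000000000) (nat_lit 0x0) (nat_lit 0x2000000010000800050001c000c0004000000000000000000000000) := T_16 (nat_lit 131) (nat_lit 148) (nat_lit 4) (nat_lit 13) (nat_lit 11) L25927 (by decide +kernel)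
theorem L25929 : W_16 (nat_lit 7) (nat_lit 0x18400a200590021000280000000000000000000000000000000) (nat_lit 0x0) (nat_lit 0x2000000010400820050001c000c0004000000000000000000000000) := T_16 (nat_lit 161) (nat_lit 178) (nat_lit 5) (nat_lit 8) (nat_lit 7) L25928 (by decide +kernel)
theorem L25930 : W_16 (nat_lit 8) (nat_lit 0x10400a200590021000280000000000000000000000000000000) (nat_lit 0x0) (nat_lit 0x3000080010400820050001c000c0004000000000000000000000000) := T_16 (nat_lit 199) (nat_lit 216) (nat_lit 5) (nat_lit 13) (nat_lit 8) L25929 (by decide +kernel)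
theorem L25931 : W_16 (nat_lit 9) (nat_lit 0x10400a200580021000280000000000000000000000000000000) (nat_lit 0x0) (nat_lit 0x3000080010400830050801c000c0004000000000000000000000000) := T_16 (nat_lit 160) (nat_lit 143) (nat_lit 6) (nat_lit 7) (nat_lit 11) L25930 (by decide +kernel)
theorem L25932 : W_16 (nat_lit 10) (nat_lit 0x400a200580021000280000000000000000000000000000000) (nat_lit 0x0) (nat_lit 0x200070003e0031400830050801c000c0004000000000000000000000000) := Q_16 (nat_lit 200) (C_16 L25915 (C_16 L25884 (C_16 L25839 (C_16 L25901 (C_16 L25931 N_16))))) (by decide +kernel)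
theorem L25933 : W_16 (nat_lit 2) (nat_lit 0x18400a2005b0021001a80100000000000000000000000000000) (nat_lit 0x0) (nat_lit 0x400080008000000000000000000000000) := D_16 (nat_lit 115) (nat_lit 99) (nat_lit 130) (nat_lit 6) (nat_lit 13) (nat_lit 9) (nat_lit 2) (nat_lit 10) (nat_lit 7) (by decide +kernel)
theorem L25934 : W_16 (nat_lit 3) (nat_lit 0x18400a2005b0021001a80000000000000000000000000000000) (nat_lit 0x0) (nat_lit 0x2400180008000000000000000000000000) := T_16 (nat_lit 116) (nat_lit 133) (nat_lit 6) (nat_lit 13) (nat_lit 10) L25933 (by decide +kernel)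
theorem L25935 : W_16 (nat_lit 4) (nat_lit 0x18400a2005b0021000a80000000000000000000000000000000) (nat_lit 0x0) (nat_lit 0x34001c0008000000000000000000000000) := T_16 (nat_lit 132) (nat_lit 114) (nat_lit 4) (nat_lit 13) (nat_lit 10) L25934 (by decide +kernel)
theorem L25936 : W_16 (nat_lit 5) (nat_lit 0x18400a200590021000a80000000000000000000000000000000) (nat_lit 0x0) (nat_lit 0x4000200000034001c0008000000000000000000000000) := T_16 (nat_lit 161) (nat_lit 178) (nat_lit 5) (nat_lit 8) (nat_lit 7) L25935 (by decide +kernel)
theorem L25937 : W_16 (nat_lit 6) (nat_lit 0x18400a200590021000280000000000000000000000000000000) (nat_lit 0x0) (nat_lit 0x400020010003c001c0008000000000000000000000000) := T_16 (nat_lit 131) (nat_lit 148) (nat_lit 4) (nat_lit 13) (nat_lit 11) L25936 (by decide +kernel)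
theorem L25938 : W_16 (nat_lit 7) (nat_lit 0x10400a200590021000280000000000000000000000000000000) (nat_lit 0x0) (nat_lit 0x1000080000400020010003c001c0008000000000000000000000000) := T_16 (nat_lit 199) (nat_lit 216) (nat_lit 5) (nat_lit 13) (nat_lit 8) L25937 (by decide +kernel)
theorem L25939 : W_16 (nat_lit 8) (nat_lit 0x10400a200580021000280000000000000000000000000000000) (nat_lit 0x0) (nat_lit 0x1000080000400030010803c001c0008000000000000000000000000) := T_16 (nat_lit 160) (nat_lit 143) (nat_lit 6) (nat_lit 7) (nat_lit 11) L25938 (by decide +kernel)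
theorem L25940 : W_16 (nat_lit 2) (nat_lit 0xa000200010400a2005b0071000280000000000000000000000000000000) (nat_lit 0x0) (nat_lit 0x1400040000000000000000000000000000000000000000000000000000000000) := D_16 (nat_lit 234) (nat_lit 250) (nat_lit 252) (nat_lit 5) (nat_lit 13) (nat_lit 10) (nat_lit 7) (nat_lit 13) (nat_lit 10) (by decide +kernel)
theorem L25941 : W_16 (nat_lit 3) (nat_lit 0x2000200010400a2005b0071000280000000000000000000000000000000) (nat_lit 0x0) (nat_lit 0x14000c0004000000000000000000000000000000000000000000000000000000) := T_16 (nat_lit 235) (nat_lit 218) (nat_lit 7) (nat_lit 13) (nat_lit 9) L25940 (by decide +kernel)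
theorem L25942 : W_16 (nat_lit 4) (nat_lit 0x200010400a2005b0071000280000000000000000000000000000000) (nat_lit 0x0) (nat_lit 0x14000e0005000000000000000000000000000000000000000000000000000000) := T_16 (nat_lit 233) (nat_lit 216) (nat_lit 5) (nat_lit 13) (nat_lit 9) L25941 (by decide +kernel)
theorem L25943 : W_16 (nat_lit 5) (nat_lit 0x10400a2005b0071000280000000000000000000000000000000) (nat_lit 0x0) (nat_lit 0x14000e0007000000000000800000000000000000000000000000000000000000) := T_16 (nat_lit 217) (nat_lit 167) (nat_lit 6) (nat_lit 13) (nat_lit 12) L25942 (by decide +kernel)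
theorem L25944 : W_16 (nat_lit 6) (nat_lit 0x10400a2005b0061000280000000000000000000000000000000) (nat_lit 0x0) (nat_lit 0x14000e0007000000000000800010000800000000000000000000000000000000) := T_16 (nat_lit 148) (nat_lit 131) (nat_lit 4) (nat_lit 13) (nat_lit 11) L25943 (by decide +kernel)
theorem L25945 : W_16 (nat_lit 7) (nat_lit 0x10400a2005b0021000280000000000000000000000000000000) (nat_lit 0x0) (nat_lit 0x14000e0007000000000000800050002800000000000000000000000000000000) := T_16 (nat_lit 150) (nat_lit 133) (nat_lit 6) (nat_lit 13) (nat_lit 11) L25944 (by decide +kernel)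
theorem L25946 : W_16 (nat_lit 8) (nat_lit 0x10400a2005a0021000280000000000000000000000000000000) (nat_lit 0x0) (nat_lit 0x14000e0007000000000000810050802800000000000000000000000000000000) := T_16 (nat_lit 160) (nat_lit 143) (nat_lit 6) (nat_lit 7) (nat_lit 11) L25945 (by decide +kernel)
theorem L25947 : W_16 (nat_lit 9) (nat_lit 0x10400a200580021000280000000000000000000000000000000) (nat_lit 0x0) (nat_lit 0x14000e0007000000000400830050802800000000000000000000000000000000) := T_16 (nat_lit 161) (nat_lit 178) (nat_lit 5) (nat_lit 8) (nat_lit 7) L25946 (by decide +kernel)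
theorem L25948 : W_16 (nat_lit 2) (nat_lit 0x600010400a2005b0061000a80000000000000000000000000000000) (nat_lit 0x0) (nat_lit 0x1400040000000000000000000000000000) := D_16 (nat_lit 132) (nat_lit 114) (nat_lit 130) (nat_lit 4) (nat_lit 13) (nat_lit 10) (nat_lit 3) (nat_lit 10) (nat_lit 7) (by decide +kernel)
theorem L25949 : W_16 (nat_lit 3) (nat_lit 0x600010400a2005b0061000280000000000000000000000000000000) (nat_lit 0x0) (nat_lit 0x10001c00040000000000000000000000000000) := T_16 (nat_lit 131) (nat_lit 148) (nat_lit 4) (nat_lit 13) (nat_lit 11) L25948 (by decide +kernel)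
theorem L25950 : W_16 (nat_lit 4) (nat_lit 0x200010400a2005b0061000280000000000000000000000000000000) (nat_lit 0x0) (nat_lit 0x80004000000000000000010001c00040000000000000000000000000000) := T_16 (nat_lit 218) (nat_lit 235) (nat_lit 7) (nat_lit 13) (nat_lit 9) L25949 (by decide +kernel)
theorem L25951 : W_16 (nat_lit 5) (nat_lit 0x200010400a2005a0061000280000000000000000000000000000000) (nat_lit 0x0) (nat_lit 0x80004000000000000010010801c00040000000000000000000000000000) := T_16 (nat_lit 160) (nat_lit 143) (nat_lit 6) (nat_lit 7) (nat_lit 11) L25950 (by decide +kernel)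
theorem L25952 : W_16 (nat_lit 6) (nat_lit 0x10400a2005a0061000280000000000000000000000000000000) (nat_lit 0x0) (nat_lit 0x80006000000000000810010801c00040000000000000000000000000000) := T_16 (nat_lit 217) (nat_lit 167) (nat_lit 6) (nat_lit 13) (nat_lit 12) L25951 (by decide +kernel)
theorem L25953 : W_16 (nat_lit 7) (nat_lit 0x10400a200580061000280000000000000000000000000000000) (nat_lit 0x0) (nat_lit 0x80006000000000400830010801c00040000000000000000000000000000) := T_16 (nat_lit 161) (nat_lit 178) (nat_lit 5) (nat_lit 8) (nat_lit 7) L25952 (by decide +kernel)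
theorem L25954 : W_16 (nat_lit 8) (nat_lit 0x10400a200580021000280000000000000000000000000000000) (nat_lit 0x0) (nat_lit 0x80006000000000400830050803c00040000000000000000000000000000) := T_16 (nat_lit 150) (nat_lit 133) (nat_lit 6) (nat_lit 13) (nat_lit 11) L25953 (by decide +kernel)
theorem L25955 : W_16 (nat_lit 10) (nat_lit 0x400a200580021000280000000000000000000000000000000) (nat_lit 0x0) (nat_lit 0x14000e0007000180010400830050803c001c000c000000000000000000000000) := Q_16 (nat_lit 200) (C_16 L25687 (C_16 L25931 (C_16 L25845 (C_16 L25939 (C_16 L25947 (C_16 L25954 N_16)))))) (by decide +kernel)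
theorem L25956 : W_16 (nat_lit 11) (nat_lit 0x400a200580001000280000000000000000000000000000000) (nat_lit 0x0) (nat_lit 0x14000e00070003e0031c00830070803c001f800e000000000000000000000000) := Q_16 (nat_lit 149) (C_16 L25692 (C_16 L25846 (C_16 L25868 (C_16 L25885 (C_16 L25890 (C_16 L25902 (C_16 L25908 (C_16 L25916 (C_16 L25923 (C_16 L25932 (C_16 L25955 N_16))))))))))) (by decide +kernel)
theorem L25957 : W_16 (nat_lit 2) (nat_lit 0x400a200780001000280000000000000000000000000000000) (nat_lit 0x0) (nat_lit 0x1800800000000000000000000000000000000000000000) := D_16 (nat_lit 180) (nat_lit 179) (nat_lit 167) (nat_lit 1) (nat_lit 13) (nat_lit 9) (nat_lit 1) (nat_lit 14) (nat_lit 9) (by decide +kernel)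
theorem L25958 : W_16 (nat_lit 3) (nat_lit 0x400a200580001000280000000000000000000000000000000) (nat_lit 0x0) (nat_lit 0x11800a00000000000000000000000000000000000000000) := T_16 (nat_lit 165) (nat_lit 184) (nat_lit 3) (nat_lit 10) (nat_lit 9) L25957 (by decide +kernel)
theorem L25959 : W_16 (nat_lit 2) (nat_lit 0x400a200f90001000280000000000000000000000000000000) (nat_lit 0x0) (nat_lit 0xe0000000000000000000000000000000000000) := D_16 (nat_lit 150) (nat_lit 149) (nat_lit 151) (nat_lit 2) (nat_lit 10) (nat_lit 9) (nat_lit 2) (nat_lit 11) (nat_lit 9) (by decide +kernel)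
theorem L25960 : W_16 (nat_lit 3) (nat_lit 0x400a200790001000280000000000000000000000000000000) (nat_lit 0x0) (nat_lit 0x10008000e0000000000000000000000000000000000000) := T_16 (nat_lit 167) (nat_lit 180) (nat_lit 1) (nat_lit 14) (nat_lit 9) L25959 (by decide +kernel)
theorem L25961 : W_16 (nat_lit 4) (nat_lit 0x400a200780001000280000000000000000000000000000000) (nat_lit 0x0) (nat_lit 0x10008100e0800000000000000000000000000000000000) := T_16 (nat_lit 160) (nat_lit 143) (nat_lit 6) (nat_lit 7) (nat_lit 11) L25960 (by decide +kernel)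
theorem L25962 : W_16 (nat_lit 3) (nat_lit 0x10400a200780001000280000000000000000000000000000000) (nat_lit 0x0) (nat_lit 0x2000000000000000070000800000000000000000000000000000000) := T_16 (nat_lit 149) (nat_lit 150) (nat_lit 2) (nat_lit 10) (nat_lit 9) L25804 (by decide +kernel)
theorem L25963 : W_16 (nat_lit 2) (nat_lit 0x500010400a200790021000280000000000000000000000000000000) (nat_lit 0x0) (nat_lit 0xa0002000000000000000000000000000000000000000000000000000000) := D_16 (nat_lit 217) (nat_lit 235) (nat_lit 233) (nat_lit 7) (nat_lit 13) (nat_lit 9) (nat_lit 5) (nat_lit 13) (nat_lit 9) (by decide +kernel)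
theorem L25964 : W_16 (nat_lit 3) (nat_lit 0x400010400a200790021000280000000000000000000000000000000) (nat_lit 0x0) (nat_lit 0xa0003000080000000000000000000000000000000000000000000000000) := T_16 (nat_lit 216) (nat_lit 199) (nat_lit 5) (nat_lit 13) (nat_lit 8) L25963 (by decide +kernel)
theorem L25965 : W_16 (nat_lit 4) (nat_lit 0x10400a200790021000280000000000000000000000000000000) (nat_lit 0x0) (nat_lit 0xa0007000280000000000000000000000000000000000000000000000000) := T_16 (nat_lit 218) (nat_lit 201) (nat_lit 7) (nat_lit 13) (nat_lit 8) L25964 (by decide +kernel)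
theorem L25966 : W_16 (nat_lit 5) (nat_lit 0x10400a200780021000280000000000000000000000000000000) (nat_lit 0x0) (nat_lit 0xa0007000280000000010000800000000000000000000000000000000000) := T_16 (nat_lit 160) (nat_lit 143) (nat_lit 6) (nat_lit 7) (nat_lit 11) L25965 (by decide +kernel)
theorem L25967 : W_16 (nat_lit 6) (nat_lit 0x10400a200780001000280000000000000000000000000000000) (nat_lit 0x0) (nat_lit 0xa0007000280000000010060800000000000000000000000000000000000) := T_16 (nat_lit 149) (nat_lit 150) (nat_lit 2) (nat_lit 10) (nat_lit 9) L25966 (by decide +kernel)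
theorem L25968 : W_16 (nat_lit 2) (nat_lit 0xc000200010400a200fb0001000280000000000000000000000000000000) (nat_lit 0x0) (nat_lit 0x400020001000000000000000000000000000000000000000000000000000000) := D_16 (nat_lit 233) (nat_lit 250) (nat_lit 216) (nat_lit 5) (nat_lit 13) (nat_lit 10) (nat_lit 5) (nat_lit 13) (nat_lit 9) (by decide +kernel)
theorem L25969 : W_16 (nat_lit 3) (nat_lit 0x8000200010400a200fb0001000280000000000000000000000000000000) (nat_lit 0x0) (nat_lit 0x1400060001000000000000000000000000000000000000000000000000000000) := T_16 (nat_lit 234) (nat_lit 252) (nat_lit 7) (nat_lit 13) (nat_lit 10) L25968 (by decide +kernel)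
theorem L25970 : W_16 (nat_lit 4) (nat_lit 0x8000200010400a2007b0001000280000000000000000000000000000000) (nat_lit 0x0) (nat_lit 0x1400060001000000000000800040000000000000000000000000000000000000) := T_16 (nat_lit 167) (nat_lit 150) (nat_lit 6) (nat_lit 13) (nat_lit 12) L25969 (by decide +kernel)
theorem L25971 : W_16 (nat_lit 5) (nat_lit 0x200010400a2007b0001000280000000000000000000000000000000) (nat_lit 0x0) (nat_lit 0x14000e0005000000000000800040000000000000000000000000000000000000) := T_16 (nat_lit 235) (nat_lit 218) (nat_lit 7) (nat_lit 13) (nat_lit 9) L25970 (by decide +kernel)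
theorem L25972 : W_16 (nat_lit 6) (nat_lit 0x200010400a200790001000280000000000000000000000000000000) (nat_lit 0x0) (nat_lit 0x14000e0005000000000400820040000000000000000000000000000000000000) := T_16 (nat_lit 161) (nat_lit 178) (nat_lit 5) (nat_lit 8) (nat_lit 7) L25971 (by decide +kernel)
theorem L25973 : W_16 (nat_lit 7) (nat_lit 0x10400a200790001000280000000000000000000000000000000) (nat_lit 0x0) (nat_lit 0x14000e0007000000000400820050000000000000000000000000000000000000) := T_16 (nat_lit 217) (nat_lit 148) (nat_lit 4) (nat_lit 13) (nat_lit 12) L25972 (by decide +kernel)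
theorem L25974 : W_16 (nat_lit 8) (nat_lit 0x10400a200780001000280000000000000000000000000000000) (nat_lit 0x0) (nat_lit 0x14000e0007000000000400830050800000000000000000000000000000000000) := T_16 (nat_lit 160) (nat_lit 143) (nat_lit 6) (nat_lit 7) (nat_lit 11) L25973 (by decide +kernel)
theorem L25975 : W_16 (nat_lit 2) (nat_lit 0x600010400a200790021000280000000000000000000000000000000) (nat_lit 0x0) (nat_lit 0x20001000080000000000000000000000000000000000000000000000000) := D_16 (nat_lit 216) (nat_lit 199) (nat_lit 233) (nat_lit 5) (nat_lit 13) (nat_lit 8) (nat_lit 5) (nat_lit 13) (nat_lit 9) (by decide +kernel)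
theorem L25976 : W_16 (nat_lit 3) (nat_lit 0x600010400a200790001000280000000000000000000000000000000) (nat_lit 0x0) (nat_lit 0x20001000280000000000020000000000000000000000000000000000000) := T_16 (nat_lit 149) (nat_lit 201) (nat_lit 7) (nat_lit 13) (nat_lit 8) L25975 (by decide +kernel)
theorem L25977 : W_16 (nat_lit 4) (nat_lit 0x200010400a200790001000280000000000000000000000000000000) (nat_lit 0x0) (nat_lit 0xa0005000280000000000020000000000000000000000000000000000000) := T_16 (nat_lit 218) (nat_lit 235) (nat_lit 7) (nat_lit 13) (nat_lit 9) L25976 (by decide +kernel)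
theorem L25978 : W_16 (nat_lit 5) (nat_lit 0x200010400a200780001000280000000000000000000000000000000) (nat_lit 0x0) (nat_lit 0xa0005000280000000010020800000000000000000000000000000000000) := T_16 (nat_lit 160) (nat_lit 143) (nat_lit 6) (nat_lit 7) (nat_lit 11) L25977 (by decide +kernel)
theorem L25979 : W_16 (nat_lit 6) (nat_lit 0x10400a200780001000280000000000000000000000000000000) (nat_lit 0x0) (nat_lit 0xa0007000280000000010030800000000000000000000000000000000000) := T_16 (nat_lit 217) (nat_lit 148) (nat_lit 4) (nat_lit 13) (nat_lit 12) L25978 (by decide +kernel)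
theorem L25980 : W_16 (nat_lit 2) (nat_lit 0x38400a200790021001a80100000000000000000000000000000) (nat_lit 0x0) (nat_lit 0x400080008000000000000000000000000) := D_16 (nat_lit 115) (nat_lit 99) (nat_lit 130) (nat_lit 6) (nat_lit 13) (nat_lit 9) (nat_lit 2) (nat_lit 10) (nat_lit 7) (by decide +kernel)
theorem L25981 : W_16 (nat_lit 3) (nat_lit 0x38400a200790021001a80000000000000000000000000000000) (nat_lit 0x0) (nat_lit 0x2400180008000000000000000000000000) := T_16 (nat_lit 116) (nat_lit 133) (nat_lit 6) (nat_lit 13) (nat_lit 10) L25980 (by decide +kernel)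
theorem L25982 : W_16 (nat_lit 4) (nat_lit 0x38400a200790021000a80000000000000000000000000000000) (nat_lit 0x0) (nat_lit 0x34001c0008000000000000000000000000) := T_16 (nat_lit 132) (nat_lit 114) (nat_lit 4) (nat_lit 13) (nat_lit 10) L25981 (by decide +kernel)
theorem L25983 : W_16 (nat_lit 5) (nat_lit 0x38400a200790021000280000000000000000000000000000000) (nat_lit 0x0) (nat_lit 0x10003c001c0008000000000000000000000000) := T_16 (nat_lit 131) (nat_lit 148) (nat_lit 4) (nat_lit 13) (nat_lit 11) L25982 (by decide +kernel)
theorem L25984 : W_16 (nat_lit 6) (nat_lit 0x30400a200790021000280000000000000000000000000000000) (nat_lit 0x0) (nat_lit 0x1000080000000000010003c001c0008000000000000000000000000) := T_16 (nat_lit 199) (nat_lit 216) (nat_lit 5) (nat_lit 13) (nat_lit 8) L25983 (by decide +kernel)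
theorem L25985 : W_16 (nat_lit 7) (nat_lit 0x10400a200790021000280000000000000000000000000000000) (nat_lit 0x0) (nat_lit 0x5000280000000000010003c001c0008000000000000000000000000) := T_16 (nat_lit 201) (nat_lit 218) (nat_lit 7) (nat_lit 13) (nat_lit 8) L25984 (by decide +kernel)
theorem L25986 : W_16 (nat_lit 8) (nat_lit 0x10400a200780021000280000000000000000000000000000000) (nat_lit 0x0) (nat_lit 0x5000280000000010010803c001c0008000000000000000000000000) := T_16 (nat_lit 160) (nat_lit 143) (nat_lit 6) (nat_lit 7) (nat_lit 11) L25985 (by decide +kernel)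
theorem L25987 : W_16 (nat_lit 9) (nat_lit 0x10400a200780001000280000000000000000000000000000000) (nat_lit 0x0) (nat_lit 0x5000280000000010070803c001c0008000000000000000000000000) := T_16 (nat_lit 149) (nat_lit 150) (nat_lit 2) (nat_lit 10) (nat_lit 9) L25986 (by decide +kernel)
theorem L25988 : W_16 (nat_lit 10) (nat_lit 0x400a200780001000280000000000000000000000000000000) (nat_lit 0x0) (nat_lit 0x14000e0007000380000400830070803c001c0008000000000000000000000000) := Q_16 (nat_lit 200) (C_16 L25962 (C_16 L25967 (C_16 L25974 (C_16 L25979 (C_16 L25987 N_16))))) (by decide +kernel)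
theorem L25989 : W_16 (nat_lit 2) (nat_lit 0xa000200010400b2007b0001000280000000000000000000000000000000) (nat_lit 0x0) (nat_lit 0x1400040000000000000000000000000000000000000000000000000000000000) := D_16 (nat_lit 234) (nat_lit 252) (nat_lit 250) (nat_lit 7) (nat_lit 13) (nat_lit 10) (nat_lit 5) (nat_lit 13) (nat_lit 10) (by decide +kernel)
theorem L25990 : W_16 (nat_lit 3) (nat_lit 0x8000200010400b2007b0001000280000000000000000000000000000000) (nat_lit 0x0) (nat_lit 0x1400060001000000000000000000000000000000000000000000000000000000) := T_16 (nat_lit 233) (nat_lit 216) (nat_lit 5) (nat_lit 13) (nat_lit 9) L25989 (by decide +kernel)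
theorem L25991 : W_16 (nat_lit 4) (nat_lit 0x200010400b2007b0001000280000000000000000000000000000000) (nat_lit 0x0) (nat_lit 0x14000e0005000000000000000000000000000000000000000000000000000000) := T_16 (nat_lit 235) (nat_lit 218) (nat_lit 7) (nat_lit 13) (nat_lit 9) L25990 (by decide +kernel)
theorem L25992 : W_16 (nat_lit 5) (nat_lit 0x200010400b200790001000280000000000000000000000000000000) (nat_lit 0x0) (nat_lit 0x14000e0005000000000400020000000000000000000000000000000000000000) := T_16 (nat_lit 161) (nat_lit 178) (nat_lit 5) (nat_lit 8) (nat_lit 7) L25991 (by decide +kernel)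
theorem L25993 : W_16 (nat_lit 6) (nat_lit 0x10400b200790001000280000000000000000000000000000000) (nat_lit 0x0) (nat_lit 0x14000e0007000000000400020010000000000000000000000000000000000000) := T_16 (nat_lit 217) (nat_lit 148) (nat_lit 4) (nat_lit 13) (nat_lit 12) L25992 (by decide +kernel)
theorem L25994 : W_16 (nat_lit 7) (nat_lit 0x10400a200790001000280000000000000000000000000000000) (nat_lit 0x0) (nat_lit 0x14000e0007000000001c00020010000000000000000000000000000000000000) := T_16 (nat_lit 180) (nat_lit 179) (nat_lit 1) (nat_lit 13) (nat_lit 9) L25993 (by decide +kernel)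
theorem L25995 : W_16 (nat_lit 8) (nat_lit 0x10400a200780001000280000000000000000000000000000000) (nat_lit 0x0) (nat_lit 0x14000e0007000000001c00030010800000000000000000000000000000000000) := T_16 (nat_lit 160) (nat_lit 143) (nat_lit 6) (nat_lit 7) (nat_lit 11) L25994 (by decide +kernel)
theorem L25996 : W_16 (nat_lit 10) (nat_lit 0x400a200780001000280000000000000000000000000000000) (nat_lit 0x0) (nat_lit 0x14000e0007000380001c00030070803c001c0008000000000000000000000000) := Q_16 (nat_lit 200) (C_16 L25979 (C_16 L25987 (C_16 L25962 (C_16 L25967 (C_16 L25995 N_16))))) (by decide +kernel)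
theorem L25997 : W_16 (nat_lit 11) (nat_lit 0x400a200580001000280000000000000000000000000000000) (nat_lit 0x0) (nat_lit 0x14000e0007000380001c00a300f0803c001c0008000000000000000000000000) := Q_16 (nat_lit 165) (C_16 L25961 (C_16 L25957 (C_16 L25988 (C_16 L25996 N_16)))) (by decide +kernel)
theorem L25998 : W_16 (nat_lit 11) (nat_lit 0x400a200580001000280000000000000000000000000000000) (nat_lit 0x0) (nat_lit 0x14000e0007000380011c00230070803c001c0008000000000000000000000000) := T_16 (nat_lit 165) (nat_lit 184) (nat_lit 3) (nat_lit 10) (nat_lit 9) L25996 (by decide +kernel)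
theorem L25999 : W_16 (nat_lit 12) (nat_lit 0x400a200180001000280000000000000000000000000000000) (nat_lit 0x0) (nat_lit 0x14000e00070003e0031c00e300f0803c001f800e000000000000000000000000) := Q_16 (nat_lit 166) (C_16 L25752 (C_16 L25956 (C_16 L25958 (C_16 L25997 (C_16 L25998 N_16))))) (by decide +kernel)
theorem L26000 : W_16 (nat_lit 2) (nat_lit 0x1a400f200590001000280000000000000000000000000000000) (nat_lit 0x0) (nat_lit 0x20001000000000000000020000000000000000000000000000000000000) := D_16 (nat_lit 216) (nat_lit 233) (nat_lit 149) (nat_lit 6) (nat_lit 12) (nat_lit 13) (nat_lit 5) (nat_lit 13) (nat_lit 8) (by decide +kernel)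
theorem L26001 : W_16 (nat_lit 3) (nat_lit 0x12400f200590001000280000000000000000000000000000000) (nat_lit 0x0) (nat_lit 0x20001000080000800000020000000000000000000000000000000000000) := T_16 (nat_lit 199) (nat_lit 179) (nat_lit 3) (nat_lit 9) (nat_lit 10) L26000 (by decide +kernel)
theorem L26002 : W_16 (nat_lit 4) (nat_lit 0x2400f200590001000280000000000000000000000000000000) (nat_lit 0x0) (nat_lit 0x20001000380000800000020000000000000000000000000000000000000) := T_16 (nat_lit 200) (nat_lit 201) (nat_lit 3) (nat_lit 10) (nat_lit 10) L26001 (by decide +kernel)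
theorem L26003 : W_16 (nat_lit 5) (nat_lit 0x400f200590001000280000000000000000000000000000000) (nat_lit 0x0) (nat_lit 0x200010003b0000800000020000000000000000000000000000000000000) := T_16 (nat_lit 197) (nat_lit 196) (nat_lit 1) (nat_lit 13) (nat_lit 10) L26002 (by decide +kernel)
theorem L26004 : W_16 (nat_lit 6) (nat_lit 0x400e200590001000280000000000000000000000000000000) (nat_lit 0x0) (nat_lit 0x200010003b0001800800020000000000000000000000000000000000000) := T_16 (nat_lit 180) (nat_lit 167) (nat_lit 2) (nat_lit 10) (nat_lit 10) L26003 (by decide +kernel)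
theorem L26005 : W_16 (nat_lit 7) (nat_lit 0x400e200580001000280000000000000000000000000000000) (nat_lit 0x0) (nat_lit 0x200010003b0001800810020800000000000000000000000000000000000) := T_16 (nat_lit 160) (nat_lit 143) (nat_lit 6) (nat_lit 7) (nat_lit 11) L26004 (by decide +kernel)
theorem L26006 : W_16 (nat_lit 8) (nat_lit 0x400a200580001000280000000000000000000000000000000) (nat_lit 0x0) (nat_lit 0x200010003b0015800810020800000000000000000000000000000000000) := T_16 (nat_lit 182) (nat_lit 184) (nat_lit 0) (nat_lit 14) (nat_lit 10) L26005 (by decide +kernel)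
theorem L26007 : W_16 (nat_lit 2) (nat_lit 0x80038400a200790031000280040000000000000000000000000000) (nat_lit 0x0) (nat_lit 0x400004000000000001000000000000000000000000000000000) := D_16 (nat_lit 182) (nat_lit 132) (nat_lit 202) (nat_lit 6) (nat_lit 12) (nat_lit 11) (nat_lit 0) (nat_lit 15) (nat_lit 11) (by decide +kernel)
theorem L26008 : W_16 (nat_lit 3) (nat_lit 0x80030400a200790031000280040000000000000000000000000000) (nat_lit 0x0) (nat_lit 0x1000480004000000000001000000000000000000000000000000000) := T_16 (nat_lit 199) (nat_lit 216) (nat_lit 5) (nat_lit 13) (nat_lit 8) L26007 (by decide +kernel)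
theorem L26009 : W_16 (nat_lit 4) (nat_lit 0x80010400a200790031000280040000000000000000000000000000) (nat_lit 0x0) (nat_lit 0x5000680004000000000001000000000000000000000000000000000) := T_16 (nat_lit 201) (nat_lit 218) (nat_lit 7) (nat_lit 13) (nat_lit 8) L26008 (by decide +kernel)
theorem L26010 : W_16 (nat_lit 5) (nat_lit 0x80010400a200790011000280040000000000000000000000000000) (nat_lit 0x0) (nat_lit 0x5000680004000000060001000000000000000000000000000000000) := T_16 (nat_lit 149) (nat_lit 150) (nat_lit 2) (nat_lit 10) (nat_lit 9) L26009 (by decide +kernel)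
theorem L26011 : W_16 (nat_lit 6) (nat_lit 0x80000400a200790011000280040000000000000000000000000000) (nat_lit 0x0) (nat_lit 0x7000780004000000060001000000000000000000000000000000000) := T_16 (nat_lit 200) (nat_lit 217) (nat_lit 4) (nat_lit 13) (nat_lit 12) L26010 (by decide +kernel)
theorem L26012 : W_16 (nat_lit 7) (nat_lit 0x400a200790011000280040000000000000000000000000000) (nat_lit 0x0) (nat_lit 0x78007c0004000000060001000000000000000000000000000000000) := T_16 (nat_lit 215) (nat_lit 198) (nat_lit 6) (nat_lit 11) (nat_lit 12) L26011 (by decide +kernel)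
theorem L26013 : W_16 (nat_lit 8) (nat_lit 0x400a200790011000280000000000000000000000000000000) (nat_lit 0x0) (nat_lit 0x78007c0004000000060001800040000000000000000000000000000) := T_16 (nat_lit 114) (nat_lit 131) (nat_lit 7) (nat_lit 12) (nat_lit 6) L26012 (by decide +kernel)
theorem L26014 : W_16 (nat_lit 9) (nat_lit 0x400a200780011000280000000000000000000000000000000) (nat_lit 0x0) (nat_lit 0x78007c0004000010060801800040000000000000000000000000000) := T_16 (nat_lit 160) (nat_lit 143) (nat_lit 6) (nat_lit 7) (nat_lit 11) L26013 (by decide +kernel)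
theorem L26015 : W_16 (nat_lit 2) (nat_lit 0x400a200780031000280000000000000000000000000000000) (nat_lit 0x0) (nat_lit 0x2000100000000000000000800000000000000000000000000000000) := D_16 (nat_lit 200) (nat_lit 131) (nat_lit 217) (nat_lit 4) (nat_lit 13) (nat_lit 11) (nat_lit 4) (nat_lit 13) (nat_lit 12) (by decide +kernel)
theorem L26016 : W_16 (nat_lit 3) (nat_lit 0x400a200780011000280000000000000000000000000000000) (nat_lit 0x0) (nat_lit 0x2000100000000000060000800000000000000000000000000000000) := T_16 (nat_lit 149) (nat_lit 150) (nat_lit 2) (nat_lit 10) (nat_lit 9) L26015 (by decide +kernel)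
theorem L26017 : W_16 (nat_lit 2) (nat_lit 0x400a200790011000a80000000000000000000000000000000) (nat_lit 0x0) (nat_lit 0x800040004000000000000000000000000000000000000000000000) := D_16 (nat_lit 198) (nat_lit 215) (nat_lit 182) (nat_lit 6) (nat_lit 11) (nat_lit 12) (nat_lit 5) (nat_lit 12) (nat_lit 7) (by decide +kernel)
theorem L26018 : W_16 (nat_lit 3) (nat_lit 0x400a200790011000280000000000000000000000000000000) (nat_lit 0x0) (nat_lit 0x800040004000000000000800040000000000000000000000000000) := T_16 (nat_lit 131) (nat_lit 114) (nat_lit 7) (nat_lit 12) (nat_lit 6) L26017 (by decide +kernel)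
theorem L26019 : W_16 (nat_lit 4) (nat_lit 0x400a200780011000280000000000000000000000000000000) (nat_lit 0x0) (nat_lit 0x800040004000010000800800040000000000000000000000000000) := T_16 (nat_lit 160) (nat_lit 143) (nat_lit 6) (nat_lit 7) (nat_lit 11) L26018 (by decide +kernel)
theorem L26020 : W_16 (nat_lit 2) (nat_lit 0x80018400a200790031001280080000000000000000000000000000) (nat_lit 0x0) (nat_lit 0x2000100008000000000000000000000000) := D_16 (nat_lit 116) (nat_lit 133) (nat_lit 99) (nat_lit 6) (nat_lit 13) (nat_lit 10) (nat_lit 6) (nat_lit 13) (nat_lit 9) (by decide +kernel)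
theorem L26021 : W_16 (nat_lit 3) (nat_lit 0x80018400a200790031001280000000000000000000000000000000) (nat_lit 0x0) (nat_lit 0x200018000c000000000000000000000000) := T_16 (nat_lit 115) (nat_lit 98) (nat_lit 5) (nat_lit 13) (nat_lit 5) L26020 (by decide +kernel)
theorem L26022 : W_16 (nat_lit 4) (nat_lit 0x80018400a200790031000280000000000000000000000000000000) (nat_lit 0x0) (nat_lit 0x400000000000300018000c000000000000000000000000) := T_16 (nat_lit 132) (nat_lit 182) (nat_lit 6) (nat_lit 12) (nat_lit 11) L26021 (by decide +kernel)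
theorem L26023 : W_16 (nat_lit 5) (nat_lit 0x80010400a200790031000280000000000000000000000000000000) (nat_lit 0x0) (nat_lit 0x100008000400000000000300018000c000000000000000000000000) := T_16 (nat_lit 199) (nat_lit 216) (nat_lit 5) (nat_lit 13) (nat_lit 8) L26022 (by decide +kernel)
theorem L26024 : W_16 (nat_lit 6) (nat_lit 0x80000400a200790031000280000000000000000000000000000000) (nat_lit 0x0) (nat_lit 0x300018000400000000000300018000c000000000000000000000000) := T_16 (nat_lit 200) (nat_lit 217) (nat_lit 4) (nat_lit 13) (nat_lit 12) L26023 (by decide +kernel)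
theorem L26025 : W_16 (nat_lit 7) (nat_lit 0x80000400a200790011000280000000000000000000000000000000) (nat_lit 0x0) (nat_lit 0x300018000400000006000300018000c000000000000000000000000) := T_16 (nat_lit 149) (nat_lit 150) (nat_lit 2) (nat_lit 10) (nat_lit 9) L26024 (by decide +kernel)
theorem L26026 : W_16 (nat_lit 8) (nat_lit 0x80000400a200780011000280000000000000000000000000000000) (nat_lit 0x0) (nat_lit 0x300018000400001006080300018000c000000000000000000000000) := T_16 (nat_lit 160) (nat_lit 143) (nat_lit 6) (nat_lit 7) (nat_lit 11) L26025 (by decide +kernel)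
theorem L26027 : W_16 (nat_lit 9) (nat_lit 0x400a200780011000280000000000000000000000000000000) (nat_lit 0x0) (nat_lit 0x38001c000400001006080300018000c000000000000000000000000) := T_16 (nat_lit 215) (nat_lit 198) (nat_lit 6) (nat_lit 11) (nat_lit 12) L26026 (by decide +kernel)
theorem L26028 : W_16 (nat_lit 10) (nat_lit 0x400a200780001000280000000000000000000000000000000) (nat_lit 0x0) (nat_lit 0x78007c00040000100708038001c000c000000000000000000000000) := Q_16 (nat_lit 148) (C_16 L26014 (C_16 L26016 (C_16 L26019 (C_16 L26027 N_16)))) (by decide +kernel)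
theorem L26029 : W_16 (nat_lit 11) (nat_lit 0x400a200580001000280000000000000000000000000000000) (nat_lit 0x0) (nat_lit 0x78007c0005800a100f08038001c000c000000000000000000000000) := Q_16 (nat_lit 165) (C_16 L25961 (C_16 L25957 (C_16 L26028 N_16))) (by decide +kernel)
theorem L26030 : W_16 (nat_lit 12) (nat_lit 0x400a200180001000280000000000000000000000000000000) (nat_lit 0x0) (nat_lit 0x200078007f0015800e100f08038001c000c000000000000000000000000) := Q_16 (nat_lit 166) (C_16 L25675 (C_16 L25958 (C_16 L26006 (C_16 L26029 N_16)))) (by decide +kernel)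
theorem L26031 : W_16 (nat_lit 2) (nat_lit 0x6001a400f600190001000280000000000000000000000000000000) (nat_lit 0x0) (nat_lit 0x10001800000000000000000000000000000000000000000000000000000) := D_16 (nat_lit 215) (nat_lit 232) (nat_lit 216) (nat_lit 7) (nat_lit 10) (nat_lit 9) (nat_lit 2) (nat_lit 9) (nat_lit 12) (by decide +kernel)
theorem L26032 : W_16 (nat_lit 3) (nat_lit 0x60012400f600190001000280000000000000000000000000000000) (nat_lit 0x0) (nat_lit 0x100018000c0000000000000000000000000000000000000000000000000) := T_16 (nat_lit 199) (nat_lit 198) (nat_lit 1) (nat_lit 13) (nat_lit 11) L26031 (by decide +kernel)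
theorem L26033 : W_16 (nat_lit 4) (nat_lit 0x40012400f600190001000280000000000000000000000000000000) (nat_lit 0x0) (nat_lit 0x14001a000c0000000000000000000000000000000000000000000000000) := T_16 (nat_lit 213) (nat_lit 230) (nat_lit 5) (nat_lit 10) (nat_lit 9) L26032 (by decide +kernel)
theorem L26034 : W_16 (nat_lit 5) (nat_lit 0x12400f600190001000280000000000000000000000000000000) (nat_lit 0x0) (nat_lit 0x1c001e000c0000000000000000000000000000000000000000000000000) := T_16 (nat_lit 214) (nat_lit 231) (nat_lit 6) (nat_lit 10) (nat_lit 13) L26033 (by decide +kernel)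
theorem L26035 : W_16 (nat_lit 6) (nat_lit 0x2400f600190001000280000000000000000000000000000000) (nat_lit 0x0) (nat_lit 0x1c001e003c0000000000000000000000000000000000000000000000000) := T_16 (nat_lit 200) (nat_lit 201) (nat_lit 3) (nat_lit 10) (nat_lit 10) L26034 (by decide +kernel)
theorem L26036 : W_16 (nat_lit 7) (nat_lit 0x400f600190001000280000000000000000000000000000000) (nat_lit 0x0) (nat_lit 0x1c001e003f0000000000000000000000000000000000000000000000000) := T_16 (nat_lit 197) (nat_lit 196) (nat_lit 1) (nat_lit 13) (nat_lit 10) L26035 (by decide +kernel)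
theorem L26037 : W_16 (nat_lit 8) (nat_lit 0x400e600190001000280000000000000000000000000000000) (nat_lit 0x0) (nat_lit 0x1c001e003f0001800000000000000000000000000000000000000000000) := T_16 (nat_lit 180) (nat_lit 179) (nat_lit 2) (nat_lit 7) (nat_lit 10) L26036 (by decide +kernel)
theorem L26038 : W_16 (nat_lit 9) (nat_lit 0x400a600190001000280000000000000000000000000000000) (nat_lit 0x0) (nat_lit 0x1c001e003f0015800000000000000000000000000000000000000000000) := T_16 (nat_lit 182) (nat_lit 184) (nat_lit 0) (nat_lit 14) (nat_lit 10) L26037 (by decide +kernel)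
theorem L26039 : W_16 (nat_lit 10) (nat_lit 0x400a200190001000280000000000000000000000000000000) (nat_lit 0x0) (nat_lit 0x1c001e003f0015c00020000000000000000000000000000000000000000) := T_16 (nat_lit 178) (nat_lit 161) (nat_lit 5) (nat_lit 8) (nat_lit 7) L26038 (by decide +kernel)
theorem L26040 : W_16 (nat_lit 11) (nat_lit 0x400a200180001000280000000000000000000000000000000) (nat_lit 0x0) (nat_lit 0x1c001e003f0015c00030000800000000000000000000000000000000000) := T_16 (nat_lit 160) (nat_lit 143) (nat_lit 6) (nat_lit 7) (nat_lit 11) L26039 (by decide +kernel)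
theorem L26041 : W_16 (nat_lit 2) (nat_lit 0xe0012400f600580001000280000000000000000000000000000000) (nat_lit 0x0) (nat_lit 0x10000c0000000000000000000000000000000000000000000000000) := D_16 (nat_lit 199) (nat_lit 216) (nat_lit 198) (nat_lit 2) (nat_lit 9) (nat_lit 12) (nat_lit 1) (nat_lit 13) (nat_lit 11) (by decide +kernel)
theorem L26042 : W_16 (nat_lit 3) (nat_lit 0xc0012400f600580001000280000000000000000000000000000000) (nat_lit 0x0) (nat_lit 0x40012000c0000000000000000000000000000000000000000000000000) := T_16 (nat_lit 213) (nat_lit 230) (nat_lit 5) (nat_lit 10) (nat_lit 9) L26041 (by decide +kernel)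
theorem L26043 : W_16 (nat_lit 4) (nat_lit 0x40012400f600580001000280000000000000000000000000000000) (nat_lit 0x0) (nat_lit 0x14001a000c0000000000000000000000000000000000000000000000000) := T_16 (nat_lit 215) (nat_lit 232) (nat_lit 7) (nat_lit 10) (nat_lit 9) L26042 (by decide +kernel)
theorem L26044 : W_16 (nat_lit 5) (nat_lit 0x40002400f600580001000280000000000000000000000000000000) (nat_lit 0x0) (nat_lit 0x14001a003c0000000000000000000000000000000000000000000000000) := T_16 (nat_lit 200) (nat_lit 201) (nat_lit 3) (nat_lit 10) (nat_lit 10) L26043 (by decide +kernel)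
theorem L26045 : W_16 (nat_lit 6) (nat_lit 0x2400f600580001000280000000000000000000000000000000) (nat_lit 0x0) (nat_lit 0x1c001e003c0000000000000000000000000000000000000000000000000) := T_16 (nat_lit 214) (nat_lit 231) (nat_lit 6) (nat_lit 10) (nat_lit 13) L26044 (by decide +kernel)
theorem L26046 : W_16 (nat_lit 7) (nat_lit 0x2400f600180001000280000000000000000000000000000000) (nat_lit 0x0) (nat_lit 0x1c001e003c0000000c00000000000000000000000000000000000000000) := T_16 (nat_lit 166) (nat_lit 167) (nat_lit 2) (nat_lit 10) (nat_lit 10) L26045 (by decide +kernel)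
theorem L26047 : W_16 (nat_lit 8) (nat_lit 0x400f600180001000280000000000000000000000000000000) (nat_lit 0x0) (nat_lit 0x1c001e003f0000000c00000000000000000000000000000000000000000) := T_16 (nat_lit 197) (nat_lit 196) (nat_lit 1) (nat_lit 13) (nat_lit 10) L26046 (by decide +kernel)
theorem L26048 : W_16 (nat_lit 9) (nat_lit 0x400e600180001000280000000000000000000000000000000) (nat_lit 0x0) (nat_lit 0x1c001e003f0001800c00000000000000000000000000000000000000000) := T_16 (nat_lit 180) (nat_lit 179) (nat_lit 2) (nat_lit 7) (nat_lit 10) L26047 (by decide +kernel)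
theorem L26049 : W_16 (nat_lit 10) (nat_lit 0x400e200180001000280000000000000000000000000000000) (nat_lit 0x0) (nat_lit 0x1c001e003f0001c00c20000000000000000000000000000000000000000) := T_16 (nat_lit 178) (nat_lit 161) (nat_lit 5) (nat_lit 8) (nat_lit 7) L26048 (by decide +kernel)
theorem L26050 : W_16 (nat_lit 11) (nat_lit 0x400a200180001000280000000000000000000000000000000) (nat_lit 0x0) (nat_lit 0x1c001e003f0015c00c20000000000000000000000000000000000000000) := T_16 (nat_lit 182) (nat_lit 184) (nat_lit 0) (nat_lit 14) (nat_lit 10) L26049 (by decide +kernel)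
theorem L26051 : W_16 (nat_lit 2) (nat_lit 0x400b200180001000280000000000000000000000000000000) (nat_lit 0x0) (nat_lit 0xc00020000000000000000000000000000000000000000) := D_16 (nat_lit 178) (nat_lit 161) (nat_lit 179) (nat_lit 5) (nat_lit 8) (nat_lit 7) (nat_lit 2) (nat_lit 7) (nat_lit 10) (by decide +kernel)
theorem L26052 : W_16 (nat_lit 2) (nat_lit 0x2400b200180001000280000000000000000000000000000000) (nat_lit 0x0) (nat_lit 0x18004000000000000000000000000000000000000000000000) := D_16 (nat_lit 196) (nat_lit 182) (nat_lit 195) (nat_lit 1) (nat_lit 13) (nat_lit 10) (nat_lit 2) (nat_lit 7) (nat_lit 11) (by decide +kernel)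
theorem L26053 : W_16 (nat_lit 2) (nat_lit 0x1f000a400b2001b0001000280000000000000000000000000000000) (nat_lit 0x0) (nat_lit 0x60000000000004000000000000000000000000000000000000000000000) := D_16 (nat_lit 233) (nat_lit 234) (nat_lit 182) (nat_lit 3) (nat_lit 9) (nat_lit 12) (nat_lit 4) (nat_lit 12) (nat_lit 13) (by decide +kernel)
theorem L26054 : W_16 (nat_lit 3) (nat_lit 0xf000a400b2001b0001000280000000000000000000000000000000) (nat_lit 0x0) (nat_lit 0x60001000100004000000000000000000000000000000000000000000000) := T_16 (nat_lit 216) (nat_lit 200) (nat_lit 2) (nat_lit 9) (nat_lit 12) L26053 (by decide +kernel)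
theorem L26055 : W_16 (nat_lit 4) (nat_lit 0xf0002400b2001b0001000280000000000000000000000000000000) (nat_lit 0x0) (nat_lit 0x600010001c0004000000000000000000000000000000000000000000000) := T_16 (nat_lit 199) (nat_lit 198) (nat_lit 2) (nat_lit 8) (nat_lit 12) L26054 (by decide +kernel)
theorem L26056 : W_16 (nat_lit 5) (nat_lit 0xe0002400b2001b0001000280000000000000000000000000000000) (nat_lit 0x0) (nat_lit 0x600011001c8004000000000000000000000000000000000000000000000) := T_16 (nat_lit 212) (nat_lit 195) (nat_lit 0) (nat_lit 11) (nat_lit 12) L26055 (by decide +kernel)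
theorem L26057 : W_16 (nat_lit 6) (nat_lit 0xc0002400b2001b0001000280000000000000000000000000000000) (nat_lit 0x0) (nat_lit 0x640013001c8004000000000000000000000000000000000000000000000) := T_16 (nat_lit 213) (nat_lit 230) (nat_lit 5) (nat_lit 10) (nat_lit 9) L26056 (by decide +kernel)
theorem L26058 : W_16 (nat_lit 7) (nat_lit 0x40002400b2001b0001000280000000000000000000000000000000) (nat_lit 0x0) (nat_lit 0x74001b001c8004000000000000000000000000000000000000000000000) := T_16 (nat_lit 215) (nat_lit 232) (nat_lit 7) (nat_lit 10) (nat_lit 9) L26057 (by decide +kernel)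
theorem L26059 : W_16 (nat_lit 8) (nat_lit 0x40002400b2001a0001000280000000000000000000000000000000) (nat_lit 0x0) (nat_lit 0x74001b001c8004000010000800000000000000000000000000000000000) := T_16 (nat_lit 160) (nat_lit 143) (nat_lit 6) (nat_lit 7) (nat_lit 11) L26058 (by decide +kernel)
theorem L26060 : W_16 (nat_lit 9) (nat_lit 0x2400b2001a0001000280000000000000000000000000000000) (nat_lit 0x0) (nat_lit 0x7c001f001c8004000010000800000000000000000000000000000000000) := T_16 (nat_lit 214) (nat_lit 231) (nat_lit 6) (nat_lit 10) (nat_lit 13) L26059 (by decide +kernel)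
theorem L26061 : W_16 (nat_lit 10) (nat_lit 0x2400b200180001000280000000000000000000000000000000) (nat_lit 0x0) (nat_lit 0x7c001f001c8004400030000800000000000000000000000000000000000) := T_16 (nat_lit 161) (nat_lit 178) (nat_lit 5) (nat_lit 8) (nat_lit 7) L26060 (by decide +kernel)
theorem L26062 : W_16 (nat_lit 2) (nat_lit 0x6001a400f2005b0001000280000000000000000000000000000000) (nat_lit 0x0) (nat_lit 0x10001800000000000000000000000000000000000000000000000000000) := D_16 (nat_lit 215) (nat_lit 232) (nat_lit 216) (nat_lit 7) (nat_lit 10) (nat_lit 9) (nat_lit 2) (nat_lit 9) (nat_lit 12) (by decide +kernel)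
theorem L26063 : W_16 (nat_lit 3) (nat_lit 0x60012400f2005b0001000280000000000000000000000000000000) (nat_lit 0x0) (nat_lit 0x100018000c0000000000000000000000000000000000000000000000000) := T_16 (nat_lit 199) (nat_lit 198) (nat_lit 1) (nat_lit 13) (nat_lit 11) L26062 (by decide +kernel)
theorem L26064 : W_16 (nat_lit 4) (nat_lit 0x40012400f2005b0001000280000000000000000000000000000000) (nat_lit 0x0) (nat_lit 0x14001a000c0000000000000000000000000000000000000000000000000) := T_16 (nat_lit 213) (nat_lit 230) (nat_lit 5) (nat_lit 10) (nat_lit 9) L26063 (by decide +kernel)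
theorem L26065 : W_16 (nat_lit 5) (nat_lit 0x12400f2005b0001000280000000000000000000000000000000) (nat_lit 0x0) (nat_lit 0x1c001e000c0000000000000000000000000000000000000000000000000) := T_16 (nat_lit 214) (nat_lit 231) (nat_lit 6) (nat_lit 10) (nat_lit 13) L26064 (by decide +kernel)
theorem L26066 : W_16 (nat_lit 6) (nat_lit 0x12400f2001b0001000280000000000000000000000000000000) (nat_lit 0x0) (nat_lit 0x1c001e000c0000000c00000000000000000000000000000000000000000) := T_16 (nat_lit 166) (nat_lit 167) (nat_lit 2) (nat_lit 10) (nat_lit 10) L26065 (by decide +kernel)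
theorem L26067 : W_16 (nat_lit 7) (nat_lit 0x2400f2001b0001000280000000000000000000000000000000) (nat_lit 0x0) (nat_lit 0x1c001e003c0000000c00000000000000000000000000000000000000000) := T_16 (nat_lit 200) (nat_lit 201) (nat_lit 3) (nat_lit 10) (nat_lit 10) L26066 (by decide +kernel)
theorem L26068 : W_16 (nat_lit 8) (nat_lit 0x2400f200190001000280000000000000000000000000000000) (nat_lit 0x0) (nat_lit 0x1c001e003c0000400c20000000000000000000000000000000000000000) := T_16 (nat_lit 161) (nat_lit 178) (nat_lit 5) (nat_lit 8) (nat_lit 7) L26067 (by decide +kernel)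
theorem L26069 : W_16 (nat_lit 9) (nat_lit 0x2400b200190001000280000000000000000000000000000000) (nat_lit 0x0) (nat_lit 0x1c001e003d0004400c20000000000000000000000000000000000000000) := T_16 (nat_lit 182) (nat_lit 196) (nat_lit 1) (nat_lit 13) (nat_lit 10) L26068 (by decide +kernel)
theorem L26070 : W_16 (nat_lit 10) (nat_lit 0x2400b200180001000280000000000000000000000000000000) (nat_lit 0x0) (nat_lit 0x1c001e003d0004400c30000800000000000000000000000000000000000) := T_16 (nat_lit 160) (nat_lit 143) (nat_lit 6) (nat_lit 7) (nat_lit 11) L26069 (by decide +kernel)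
theorem L26071 : W_16 (nat_lit 2) (nat_lit 0xc0002c00b200180001000280000000000000000000000000000000) (nat_lit 0x0) (nat_lit 0x4000300000000000000000000000000000000000000000000000000000) := D_16 (nat_lit 213) (nat_lit 212) (nat_lit 230) (nat_lit 0) (nat_lit 11) (nat_lit 12) (nat_lit 5) (nat_lit 10) (nat_lit 9) (by decide +kernel)
theorem L26072 : W_16 (nat_lit 3) (nat_lit 0x40002c00b200180001000280000000000000000000000000000000) (nat_lit 0x0) (nat_lit 0x14000b00000000000000000000000000000000000000000000000000000) := T_16 (nat_lit 215) (nat_lit 232) (nat_lit 7) (nat_lit 10) (nat_lit 9) L26071 (by decide +kernel)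
theorem L26073 : W_16 (nat_lit 4) (nat_lit 0x40002400b200180001000280000000000000000000000000000000) (nat_lit 0x0) (nat_lit 0x14000b00018000000000000000000000000000000000000000000000000) := T_16 (nat_lit 195) (nat_lit 196) (nat_lit 2) (nat_lit 7) (nat_lit 11) L26072 (by decide +kernel)
theorem L26074 : W_16 (nat_lit 5) (nat_lit 0x2400b200180001000280000000000000000000000000000000) (nat_lit 0x0) (nat_lit 0x1c000f00018000000000000000000000000000000000000000000000000) := T_16 (nat_lit 214) (nat_lit 231) (nat_lit 6) (nat_lit 10) (nat_lit 13) L26073 (by decide +kernel)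
theorem L26075 : W_16 (nat_lit 11) (nat_lit 0x400b200180001000280000000000000000000000000000000) (nat_lit 0x0) (nat_lit 0x7c001f003f8004400c30000800000000000000000000000000000000000) := Q_16 (nat_lit 197) (C_16 L26052 (C_16 L26061 (C_16 L26070 (C_16 L26074 N_16)))) (by decide +kernel)
theorem L26076 : W_16 (nat_lit 2) (nat_lit 0x6001a400f200590001000280000000000000000000000000000000) (nat_lit 0x0) (nat_lit 0x10001800000000000000000000000000000000000000000000000000000) := D_16 (nat_lit 215) (nat_lit 232) (nat_lit 216) (nat_lit 7) (nat_lit 10) (nat_lit 9) (nat_lit 2) (nat_lit 9) (nat_lit 12) (by decide +kernel)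
theorem L26077 : W_16 (nat_lit 3) (nat_lit 0x60012400f200590001000280000000000000000000000000000000) (nat_lit 0x0) (nat_lit 0x100018000c0000000000000000000000000000000000000000000000000) := T_16 (nat_lit 199) (nat_lit 198) (nat_lit 1) (nat_lit 13) (nat_lit 11) L26076 (by decide +kernel)
theorem L26078 : W_16 (nat_lit 4) (nat_lit 0x40012400f200590001000280000000000000000000000000000000) (nat_lit 0x0) (nat_lit 0x14001a000c0000000000000000000000000000000000000000000000000) := T_16 (nat_lit 213) (nat_lit 230) (nat_lit 5) (nat_lit 10) (nat_lit 9) L26077 (by decide +kernel)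
theorem L26079 : W_16 (nat_lit 5) (nat_lit 0x12400f200590001000280000000000000000000000000000000) (nat_lit 0x0) (nat_lit 0x1c001e000c0000000000000000000000000000000000000000000000000) := T_16 (nat_lit 214) (nat_lit 231) (nat_lit 6) (nat_lit 10) (nat_lit 13) L26078 (by decide +kernel)
theorem L26080 : W_16 (nat_lit 6) (nat_lit 0x10400f200590001000280000000000000000000000000000000) (nat_lit 0x0) (nat_lit 0x1c001e000f0000000000000000000000000000000000000000000000000) := T_16 (nat_lit 197) (nat_lit 196) (nat_lit 1) (nat_lit 13) (nat_lit 10) L26079 (by decide +kernel)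
theorem L26081 : W_16 (nat_lit 7) (nat_lit 0x10400f200190001000280000000000000000000000000000000) (nat_lit 0x0) (nat_lit 0x1c001e000f0000000c00000000000000000000000000000000000000000) := T_16 (nat_lit 166) (nat_lit 167) (nat_lit 2) (nat_lit 10) (nat_lit 10) L26080 (by decide +kernel)
theorem L26082 : W_16 (nat_lit 8) (nat_lit 0x400f200190001000280000000000000000000000000000000) (nat_lit 0x0) (nat_lit 0x1c001e003f0000000c00000000000000000000000000000000000000000) := T_16 (nat_lit 200) (nat_lit 201) (nat_lit 3) (nat_lit 10) (nat_lit 10) L26081 (by decide +kernel)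
theorem L26083 : W_16 (nat_lit 9) (nat_lit 0x400f200180001000280000000000000000000000000000000) (nat_lit 0x0) (nat_lit 0x1c001e003f0000000c10000800000000000000000000000000000000000) := T_16 (nat_lit 160) (nat_lit 143) (nat_lit 6) (nat_lit 7) (nat_lit 11) L26082 (by decide +kernel)
theorem L26084 : W_16 (nat_lit 2) (nat_lit 0x10400fa00190001000280000000000000000000000000000000) (nat_lit 0x0) (nat_lit 0xe00000000000000000000000000000000000000000) := D_16 (nat_lit 166) (nat_lit 165) (nat_lit 167) (nat_lit 2) (nat_lit 9) (nat_lit 10) (nat_lit 2) (nat_lit 10) (nat_lit 10) (by decide +kernel)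
theorem L26085 : W_16 (nat_lit 3) (nat_lit 0x10400f200190001000280000000000000000000000000000000) (nat_lit 0x0) (nat_lit 0x80000800e00000000000000000000000000000000000000000) := T_16 (nat_lit 179) (nat_lit 199) (nat_lit 3) (nat_lit 9) (nat_lit 10) L26084 (by decide +kernel)
theorem L26086 : W_16 (nat_lit 4) (nat_lit 0x400f200190001000280000000000000000000000000000000) (nat_lit 0x0) (nat_lit 0x380000800e00000000000000000000000000000000000000000) := T_16 (nat_lit 200) (nat_lit 201) (nat_lit 3) (nat_lit 10) (nat_lit 10) L26085 (by decide +kernel)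
theorem L26087 : W_16 (nat_lit 5) (nat_lit 0x400f200180001000280000000000000000000000000000000) (nat_lit 0x0) (nat_lit 0x380000800e10000800000000000000000000000000000000000) := T_16 (nat_lit 160) (nat_lit 143) (nat_lit 6) (nat_lit 7) (nat_lit 11) L26086 (by decide +kernel)
theorem L26088 : W_16 (nat_lit 2) (nat_lit 0x4001a400f200190001000280000000000000000000000000000000) (nat_lit 0x0) (nat_lit 0x4000200040000000000000000000000000000000000000000000000000) := D_16 (nat_lit 213) (nat_lit 230) (nat_lit 198) (nat_lit 5) (nat_lit 10) (nat_lit 9) (nat_lit 1) (nat_lit 13) (nat_lit 11) (by decide +kernel)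
theorem L26089 : W_16 (nat_lit 3) (nat_lit 0x40012400f200190001000280000000000000000000000000000000) (nat_lit 0x0) (nat_lit 0x40002000c0000800000000000000000000000000000000000000000000) := T_16 (nat_lit 199) (nat_lit 179) (nat_lit 3) (nat_lit 9) (nat_lit 10) L26088 (by decide +kernel)
theorem L26090 : W_16 (nat_lit 4) (nat_lit 0x40002400f200190001000280000000000000000000000000000000) (nat_lit 0x0) (nat_lit 0x40002003c0000800000000000000000000000000000000000000000000) := T_16 (nat_lit 200) (nat_lit 201) (nat_lit 3) (nat_lit 10) (nat_lit 10) L26089 (by decide +kernel)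
theorem L26091 : W_16 (nat_lit 5) (nat_lit 0x2400f200190001000280000000000000000000000000000000) (nat_lit 0x0) (nat_lit 0xc0006003c0000800000000000000000000000000000000000000000000) := T_16 (nat_lit 214) (nat_lit 231) (nat_lit 6) (nat_lit 10) (nat_lit 13) L26090 (by decide +kernel)
theorem L26092 : W_16 (nat_lit 6) (nat_lit 0x2400f200180001000280000000000000000000000000000000) (nat_lit 0x0) (nat_lit 0xc0006003c0000800010000800000000000000000000000000000000000) := T_16 (nat_lit 160) (nat_lit 143) (nat_lit 6) (nat_lit 7) (nat_lit 11) L26091 (by decide +kernel)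
theorem L26093 : W_16 (nat_lit 7) (nat_lit 0x400f200180001000280000000000000000000000000000000) (nat_lit 0x0) (nat_lit 0xc0006003f0000800010000800000000000000000000000000000000000) := T_16 (nat_lit 197) (nat_lit 196) (nat_lit 1) (nat_lit 13) (nat_lit 10) L26092 (by decide +kernel)
theorem L26094 : W_16 (nat_lit 2) (nat_lit 0x2400fa00580001000280000000000000000000000000000000) (nat_lit 0x0) (nat_lit 0x380000000000000000000000000000000000000000000000000) := D_16 (nat_lit 200) (nat_lit 201) (nat_lit 199) (nat_lit 3) (nat_lit 10) (nat_lit 10) (nat_lit 3) (nat_lit 9) (nat_lit 10) (by decide +kernel)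
theorem L26095 : W_16 (nat_lit 3) (nat_lit 0x2400f200580001000280000000000000000000000000000000) (nat_lit 0x0) (nat_lit 0x380000800200000000000000000000000000000000000000000) := T_16 (nat_lit 179) (nat_lit 165) (nat_lit 2) (nat_lit 9) (nat_lit 10) L26094 (by decide +kernel)
theorem L26096 : W_16 (nat_lit 4) (nat_lit 0x2400f200180001000280000000000000000000000000000000) (nat_lit 0x0) (nat_lit 0x380000800e00000000000000000000000000000000000000000) := T_16 (nat_lit 166) (nat_lit 167) (nat_lit 2) (nat_lit 10) (nat_lit 10) L26095 (by decide +kernel)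
theorem L26097 : W_16 (nat_lit 5) (nat_lit 0x400f200180001000280000000000000000000000000000000) (nat_lit 0x0) (nat_lit 0x3b0000800e00000000000000000000000000000000000000000) := T_16 (nat_lit 197) (nat_lit 196) (nat_lit 1) (nat_lit 13) (nat_lit 10) L26096 (by decide +kernel)
theorem L26098 : W_16 (nat_lit 2) (nat_lit 0x800000012400f200790001000280000000000000000000000000000000) (nat_lit 0x0) (nat_lit 0x40002000000000000000010000000000000000000000000000000000000) := D_16 (nat_lit 217) (nat_lit 148) (nat_lit 234) (nat_lit 4) (nat_lit 13) (nat_lit 12) (nat_lit 4) (nat_lit 13) (nat_lit 13) (by decide +kernel)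
theorem L26099 : W_16 (nat_lit 3) (nat_lit 0x800000002400f200790001000280000000000000000000000000000000) (nat_lit 0x0) (nat_lit 0x40002000300000000000010000000000000000000000000000000000000) := T_16 (nat_lit 200) (nat_lit 201) (nat_lit 3) (nat_lit 10) (nat_lit 10) L26098 (by decide +kernel)
theorem L26100 : W_16 (nat_lit 4) (nat_lit 0x800000002400f200590001000280000000000000000000000000000000) (nat_lit 0x0) (nat_lit 0x40002000300000800200010000000000000000000000000000000000000) := T_16 (nat_lit 165) (nat_lit 179) (nat_lit 2) (nat_lit 9) (nat_lit 10) L26099 (by decide +kernel)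
theorem L26101 : W_16 (nat_lit 5) (nat_lit 0x800000002400f200190001000280000000000000000000000000000000) (nat_lit 0x0) (nat_lit 0x40002000300000800e00010000000000000000000000000000000000000) := T_16 (nat_lit 166) (nat_lit 167) (nat_lit 2) (nat_lit 10) (nat_lit 10) L26100 (by decide +kernel)
theorem L26102 : W_16 (nat_lit 6) (nat_lit 0x2400f200190001000280000000000000000000000000000000) (nat_lit 0x0) (nat_lit 0x48002400300000800e00010000000000000000000000000000000000000) := T_16 (nat_lit 231) (nat_lit 214) (nat_lit 6) (nat_lit 10) (nat_lit 13) L26101 (by decide +kernel)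
theorem L26103 : W_16 (nat_lit 7) (nat_lit 0x2400f200180001000280000000000000000000000000000000) (nat_lit 0x0) (nat_lit 0x48002400300000800e10010800000000000000000000000000000000000) := T_16 (nat_lit 160) (nat_lit 143) (nat_lit 6) (nat_lit 7) (nat_lit 11) L26102 (by decide +kernel)
theorem L26104 : W_16 (nat_lit 8) (nat_lit 0x400f200180001000280000000000000000000000000000000) (nat_lit 0x0) (nat_lit 0x48002400330000800e10010800000000000000000000000000000000000) := T_16 (nat_lit 197) (nat_lit 196) (nat_lit 1) (nat_lit 13) (nat_lit 10) L26103 (by decide +kernel)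
theorem L26105 : W_16 (nat_lit 2) (nat_lit 0x800000002400f200790021000280000000000000000000000000000000) (nat_lit 0x0) (nat_lit 0x80000000000000001000080000000000000000000000000000) := D_16 (nat_lit 132) (nat_lit 115) (nat_lit 199) (nat_lit 5) (nat_lit 13) (nat_lit 6) (nat_lit 5) (nat_lit 13) (nat_lit 7) (by decide +kernel)
theorem L26106 : W_16 (nat_lit 3) (nat_lit 0x800000002400f200790001000280000000000000000000000000000000) (nat_lit 0x0) (nat_lit 0x80000000000060001000080000000000000000000000000000) := T_16 (nat_lit 149) (nat_lit 150) (nat_lit 2) (nat_lit 10) (nat_lit 9) L26105 (by decide +kernel)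
theorem L26107 : W_16 (nat_lit 4) (nat_lit 0x2400f200790001000280000000000000000000000000000000) (nat_lit 0x0) (nat_lit 0x8000400080000000000060001000080000000000000000000000000000) := T_16 (nat_lit 231) (nat_lit 214) (nat_lit 6) (nat_lit 10) (nat_lit 13) L26106 (by decide +kernel)
theorem L26108 : W_16 (nat_lit 5) (nat_lit 0x2400f200590001000280000000000000000000000000000000) (nat_lit 0x0) (nat_lit 0x8000400080000800200060001000080000000000000000000000000000) := T_16 (nat_lit 165) (nat_lit 179) (nat_lit 2) (nat_lit 9) (nat_lit 10) L26107 (by decide +kernel)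
theorem L26109 : W_16 (nat_lit 6) (nat_lit 0x2400f200190001000280000000000000000000000000000000) (nat_lit 0x0) (nat_lit 0x8000400080000800e00060001000080000000000000000000000000000) := T_16 (nat_lit 166) (nat_lit 167) (nat_lit 2) (nat_lit 10) (nat_lit 10) L26108 (by decide +kernel)
theorem L26110 : W_16 (nat_lit 7) (nat_lit 0x400f200190001000280000000000000000000000000000000) (nat_lit 0x0) (nat_lit 0x80004000b0000800e00060001000080000000000000000000000000000) := T_16 (nat_lit 197) (nat_lit 196) (nat_lit 1) (nat_lit 13) (nat_lit 10) L26109 (by decide +kernel)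
theorem L26111 : W_16 (nat_lit 8) (nat_lit 0x400f200180001000280000000000000000000000000000000) (nat_lit 0x0) (nat_lit 0x80004000b0000800e10060801000080000000000000000000000000000) := T_16 (nat_lit 160) (nat_lit 143) (nat_lit 6) (nat_lit 7) (nat_lit 11) L26110 (by decide +kernel)
theorem L26112 : W_16 (nat_lit 10) (nat_lit 0x400b200180001000280000000000000000000000000000000) (nat_lit 0x0) (nat_lit 0x5c003e003f0004800e10070801000080000000000000000000000000000) := Q_16 (nat_lit 182) (C_16 L26083 (C_16 L26087 (C_16 L26093 (C_16 L26097 (C_16 L26104 (C_16 L26111 N_16)))))) (by decide +kernel)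
theorem L26113 : W_16 (nat_lit 12) (nat_lit 0x400a200180001000280000000000000000000000000000000) (nat_lit 0x0) (nat_lit 0x7c003f003f8005c00e30070801000080000000000000000000000000000) := Q_16 (nat_lit 180) (C_16 L26051 (C_16 L26075 (C_16 L26112 N_16))) (by decide +kernel)
theorem L26114 : W_16 (nat_lit 2) (nat_lit 0x400b200580001000280000000000000000000000000000000) (nat_lit 0x0) (nat_lit 0x14000200000000000000000000000000000000000000000) := D_16 (nat_lit 184) (nat_lit 182) (nat_lit 165) (nat_lit 0) (nat_lit 14) (nat_lit 10) (nat_lit 3) (nat_lit 10) (nat_lit 9) (by decide +kernel)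
theorem L26115 : W_16 (nat_lit 2) (nat_lit 0x400b200580001000280000000000000000000000000000000) (nat_lit 0x0) (nat_lit 0x14000800000000000000000000000000000000000000000) := D_16 (nat_lit 182) (nat_lit 184) (nat_lit 167) (nat_lit 0) (nat_lit 14) (nat_lit 10) (nat_lit 2) (nat_lit 10) (nat_lit 10) (by decide +kernel)
theorem L26116 : W_16 (nat_lit 2) (nat_lit 0x400b200580001000280000000000000000000000000000000) (nat_lit 0x0) (nat_lit 0x10000a00000000000000000000000000000000000000000) := D_16 (nat_lit 165) (nat_lit 184) (nat_lit 167) (nat_lit 3) (nat_lit 10) (nat_lit 9) (nat_lit 1) (nat_lit 14) (nat_lit 9) (by decide +kernel)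
theorem L26117 : W_16 (nat_lit 2) (nat_lit 0x400b200580001000280000000000000000000000000000000) (nat_lit 0x0) (nat_lit 0x4000a00000000000000000000000000000000000000000) := D_16 (nat_lit 167) (nat_lit 182) (nat_lit 165) (nat_lit 2) (nat_lit 10) (nat_lit 10) (nat_lit 1) (nat_lit 14) (nat_lit 9) (by decide +kernel)
theorem L26118 : W_16 (nat_lit 3) (nat_lit 0x400b200180001000280000000000000000000000000000000) (nat_lit 0x0) (nat_lit 0x14000e00000000000000000000000000000000000000000) := Q_16 (nat_lit 166) (C_16 L26114 (C_16 L26115 (C_16 L26116 (C_16 L26117 N_16)))) (by decide +kernel)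
theorem L26119 : W_16 (nat_lit 4) (nat_lit 0x400a200180001000280000000000000000000000000000000) (nat_lit 0x0) (nat_lit 0x15c00e20000000000000000000000000000000000000000) := Q_16 (nat_lit 180) (C_16 L26051 (C_16 L26118 N_16)) (by decide +kernel)
theorem L26120 : W_16 (nat_lit 13) (nat_lit 0x4002200180001000280000000000000000000000000000000) (nat_lit 0x0) (nat_lit 0x14000fc007f007f803dc00e300f0803c001f800e000000000000000000000000) := Q_16 (nat_lit 183) (C_16 L25820 (C_16 L25831 (C_16 L25999 (C_16 L26030 (C_16 L26040 (C_16 L26050 (C_16 L26113 (C_16 L26119 N_16)))))))) (by decide +kernel)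
theorem L26121 : W_16 (nat_lit 2) (nat_lit 0x1e4016200390039000280000000000000000000000000000000) (nat_lit 0x0) (nat_lit 0x200021000000000000000000000000000000000000000000000) := D_16 (nat_lit 201) (nat_lit 185) (nat_lit 180) (nat_lit 2) (nat_lit 11) (nat_lit 11) (nat_lit 0) (nat_lit 14) (nat_lit 11) (by decide +kernel)
theorem L26122 : W_16 (nat_lit 3) (nat_lit 0xe4016200390039000280000000000000000000000000000000) (nat_lit 0x0) (nat_lit 0x2000300021000000000000000000000000000000000000000000000) := T_16 (nat_lit 200) (nat_lit 217) (nat_lit 7) (nat_lit 12) (nat_lit 8) L26121 (by decide +kernel)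
theorem L26123 : W_16 (nat_lit 4) (nat_lit 0xe4016200190039000280000000000000000000000000000000) (nat_lit 0x0) (nat_lit 0x2000300021000200000001000000000000000000000000000000000) := T_16 (nat_lit 165) (nat_lit 132) (nat_lit 6) (nat_lit 12) (nat_lit 11) L26122 (by decide +kernel)
theorem L26124 : W_16 (nat_lit 5) (nat_lit 0xc4016200190039000280000000000000000000000000000000) (nat_lit 0x0) (nat_lit 0x2400320021000200000001000000000000000000000000000000000) := T_16 (nat_lit 197) (nat_lit 214) (nat_lit 5) (nat_lit 11) (nat_lit 8) L26123 (by decide +kernel)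
theorem L26125 : W_16 (nat_lit 6) (nat_lit 0xc4016200190019000280000000000000000000000000000000) (nat_lit 0x0) (nat_lit 0x2400320021000200060001000000000000000000000000000000000) := T_16 (nat_lit 149) (nat_lit 150) (nat_lit 1) (nat_lit 14) (nat_lit 8) L26124 (by decide +kernel)
theorem L26126 : W_16 (nat_lit 7) (nat_lit 0xc4016200190009000280000000000000000000000000000000) (nat_lit 0x0) (nat_lit 0x2400320021000200070001800000000000000000000000000000000) := T_16 (nat_lit 148) (nat_lit 131) (nat_lit 6) (nat_lit 11) (nat_lit 11) L26125 (by decide +kernel)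
theorem L26127 : W_16 (nat_lit 8) (nat_lit 0x44016200190009000280000000000000000000000000000000) (nat_lit 0x0) (nat_lit 0x34003a0021000200070001800000000000000000000000000000000) := T_16 (nat_lit 199) (nat_lit 216) (nat_lit 7) (nat_lit 11) (nat_lit 8) L26126 (by decide +kernel)
theorem L26128 : W_16 (nat_lit 9) (nat_lit 0x44006200190009000280000000000000000000000000000000) (nat_lit 0x0) (nat_lit 0x34003a0039000200070001800000000000000000000000000000000) := T_16 (nat_lit 184) (nat_lit 183) (nat_lit 0) (nat_lit 14) (nat_lit 10) L26127 (by decide +kernel)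
theorem L26129 : W_16 (nat_lit 10) (nat_lit 0x44006200180009000280000000000000000000000000000000) (nat_lit 0x0) (nat_lit 0x34003a0039000210070801800000000000000000000000000000000) := T_16 (nat_lit 160) (nat_lit 143) (nat_lit 6) (nat_lit 7) (nat_lit 11) L26128 (by decide +kernel)
theorem L26130 : W_16 (nat_lit 2) (nat_lit 0x74006200180009000280000000000000000000000000000000) (nat_lit 0x0) (nat_lit 0x80018000000000000000000000000000000000000000000000) := D_16 (nat_lit 183) (nat_lit 184) (nat_lit 199) (nat_lit 1) (nat_lit 14) (nat_lit 10) (nat_lit 2) (nat_lit 9) (nat_lit 11) (by decide +kernel)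
theorem L26131 : W_16 (nat_lit 3) (nat_lit 0x64006200180009000280000000000000000000000000000000) (nat_lit 0x0) (nat_lit 0x98018000000000000000000000000000000000000000000000) := T_16 (nat_lit 196) (nat_lit 195) (nat_lit 2) (nat_lit 8) (nat_lit 11) L26130 (by decide +kernel)
theorem L26132 : W_16 (nat_lit 4) (nat_lit 0x44006200180009000280000000000000000000000000000000) (nat_lit 0x0) (nat_lit 0x4000b8018000000000000000000000000000000000000000000000) := T_16 (nat_lit 197) (nat_lit 214) (nat_lit 5) (nat_lit 11) (nat_lit 8) L26131 (by decide +kernel)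
theorem L26133 : W_16 (nat_lit 2) (nat_lit 0x1c4016200390039000280000000000000000000000000000000) (nat_lit 0x0) (nat_lit 0x200001800000000000000000000000000000000000000000000) := D_16 (nat_lit 180) (nat_lit 179) (nat_lit 201) (nat_lit 3) (nat_lit 9) (nat_lit 10) (nat_lit 0) (nat_lit 14) (nat_lit 11) (by decide +kernel)
theorem L26134 : W_16 (nat_lit 3) (nat_lit 0xc4016200390039000280000000000000000000000000000000) (nat_lit 0x0) (nat_lit 0x2000300001800000000000000000000000000000000000000000000) := T_16 (nat_lit 200) (nat_lit 217) (nat_lit 7) (nat_lit 12) (nat_lit 8) L26133 (by decide +kernel)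
theorem L26135 : W_16 (nat_lit 4) (nat_lit 0xc4016200190039000280000000000000000000000000000000) (nat_lit 0x0) (nat_lit 0x2000300001800200000001000000000000000000000000000000000) := T_16 (nat_lit 165) (nat_lit 132) (nat_lit 6) (nat_lit 12) (nat_lit 11) L26134 (by decide +kernel)
theorem L26136 : W_16 (nat_lit 5) (nat_lit 0xc4016200190019000280000000000000000000000000000000) (nat_lit 0x0) (nat_lit 0x2000300001800200060001000000000000000000000000000000000) := T_16 (nat_lit 149) (nat_lit 150) (nat_lit 1) (nat_lit 14) (nat_lit 8) L26135 (by decide +kernel)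
theorem L26137 : W_16 (nat_lit 6) (nat_lit 0xc4016200190009000280000000000000000000000000000000) (nat_lit 0x0) (nat_lit 0x2000300001800200070001800000000000000000000000000000000) := T_16 (nat_lit 148) (nat_lit 131) (nat_lit 6) (nat_lit 11) (nat_lit 11) L26136 (by decide +kernel)
theorem L26138 : W_16 (nat_lit 7) (nat_lit 0x44016200190009000280000000000000000000000000000000) (nat_lit 0x0) (nat_lit 0x3000380001800200070001800000000000000000000000000000000) := T_16 (nat_lit 199) (nat_lit 216) (nat_lit 7) (nat_lit 11) (nat_lit 8) L26137 (by decide +kernel)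
theorem L26139 : W_16 (nat_lit 8) (nat_lit 0x44006200190009000280000000000000000000000000000000) (nat_lit 0x0) (nat_lit 0x3000380019800200070001800000000000000000000000000000000) := T_16 (nat_lit 184) (nat_lit 183) (nat_lit 0) (nat_lit 14) (nat_lit 10) L26138 (by decide +kernel)
theorem L26140 : W_16 (nat_lit 9) (nat_lit 0x44006200180009000280000000000000000000000000000000) (nat_lit 0x0) (nat_lit 0x3000380019800210070801800000000000000000000000000000000) := T_16 (nat_lit 160) (nat_lit 143) (nat_lit 6) (nat_lit 7) (nat_lit 11) L26139 (by decide +kernel)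
theorem L26141 : W_16 (nat_lit 2) (nat_lit 0x1ec006200390039000280000000000000000000000000000000) (nat_lit 0x0) (nat_lit 0x200001800000000000000000000000000000000000000000000) := D_16 (nat_lit 180) (nat_lit 179) (nat_lit 201) (nat_lit 3) (nat_lit 9) (nat_lit 10) (nat_lit 0) (nat_lit 14) (nat_lit 11) (by decide +kernel)
theorem L26142 : W_16 (nat_lit 3) (nat_lit 0xec006200390039000280000000000000000000000000000000) (nat_lit 0x0) (nat_lit 0x2000300001800000000000000000000000000000000000000000000) := T_16 (nat_lit 200) (nat_lit 217) (nat_lit 7) (nat_lit 12) (nat_lit 8) L26141 (by decide +kernel)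
theorem L26143 : W_16 (nat_lit 4) (nat_lit 0xec006200190039000280000000000000000000000000000000) (nat_lit 0x0) (nat_lit 0x2000300001800200000001000000000000000000000000000000000) := T_16 (nat_lit 165) (nat_lit 132) (nat_lit 6) (nat_lit 12) (nat_lit 11) L26142 (by decide +kernel)
theorem L26144 : W_16 (nat_lit 5) (nat_lit 0x6c006200190039000280000000000000000000000000000000) (nat_lit 0x0) (nat_lit 0x3000380001800200000001000000000000000000000000000000000) := T_16 (nat_lit 199) (nat_lit 216) (nat_lit 7) (nat_lit 11) (nat_lit 8) L26143 (by decide +kernel)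
theorem L26145 : W_16 (nat_lit 6) (nat_lit 0x64006200190039000280000000000000000000000000000000) (nat_lit 0x0) (nat_lit 0x3000398001800200000001000000000000000000000000000000000) := T_16 (nat_lit 195) (nat_lit 196) (nat_lit 2) (nat_lit 8) (nat_lit 11) L26144 (by decide +kernel)
theorem L26146 : W_16 (nat_lit 7) (nat_lit 0x44006200190039000280000000000000000000000000000000) (nat_lit 0x0) (nat_lit 0x34003b8001800200000001000000000000000000000000000000000) := T_16 (nat_lit 197) (nat_lit 214) (nat_lit 5) (nat_lit 11) (nat_lit 8) L26145 (by decide +kernel)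
theorem L26147 : W_16 (nat_lit 8) (nat_lit 0x44006200180039000280000000000000000000000000000000) (nat_lit 0x0) (nat_lit 0x34003b8001800210000801000000000000000000000000000000000) := T_16 (nat_lit 160) (nat_lit 143) (nat_lit 6) (nat_lit 7) (nat_lit 11) L26146 (by decide +kernel)
theorem L26148 : W_16 (nat_lit 9) (nat_lit 0x44006200180019000280000000000000000000000000000000) (nat_lit 0x0) (nat_lit 0x34003b8001800210060801000000000000000000000000000000000) := T_16 (nat_lit 149) (nat_lit 150) (nat_lit 1) (nat_lit 14) (nat_lit 8) L26147 (by decide +kernel)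
theorem L26149 : W_16 (nat_lit 10) (nat_lit 0x44006200180009000280000000000000000000000000000000) (nat_lit 0x0) (nat_lit 0x34003b8001800210070801800000000000000000000000000000000) := T_16 (nat_lit 148) (nat_lit 131) (nat_lit 6) (nat_lit 11) (nat_lit 11) L26148 (by decide +kernel)
theorem L26150 : W_16 (nat_lit 2) (nat_lit 0x6400e200190059000280000000000000000000000000000000) (nat_lit 0x0) (nat_lit 0x18001000000000000000000000000000000000000000000000) := D_16 (nat_lit 196) (nat_lit 195) (nat_lit 180) (nat_lit 2) (nat_lit 8) (nat_lit 11) (nat_lit 1) (nat_lit 13) (nat_lit 10) (by decide +kernel)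
theorem L26151 : W_16 (nat_lit 3) (nat_lit 0x4400e200190059000280000000000000000000000000000000) (nat_lit 0x0) (nat_lit 0x400038001000000000000000000000000000000000000000000000) := T_16 (nat_lit 197) (nat_lit 214) (nat_lit 5) (nat_lit 11) (nat_lit 8) L26150 (by decide +kernel)
theorem L26152 : W_16 (nat_lit 4) (nat_lit 0x4400e200180059000280000000000000000000000000000000) (nat_lit 0x0) (nat_lit 0x400038001000010000800000000000000000000000000000000000) := T_16 (nat_lit 160) (nat_lit 143) (nat_lit 6) (nat_lit 7) (nat_lit 11) L26151 (by decide +kernel)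
theorem L26153 : W_16 (nat_lit 5) (nat_lit 0x4400e200180019000280000000000000000000000000000000) (nat_lit 0x0) (nat_lit 0x400038001000010060800000000000000000000000000000000000) := T_16 (nat_lit 150) (nat_lit 149) (nat_lit 1) (nat_lit 14) (nat_lit 8) L26152 (by decide +kernel)
theorem L26154 : W_16 (nat_lit 6) (nat_lit 0x4400e200180009000280000000000000000000000000000000) (nat_lit 0x0) (nat_lit 0x400038001000010070800800000000000000000000000000000000) := T_16 (nat_lit 148) (nat_lit 131) (nat_lit 6) (nat_lit 11) (nat_lit 11) L26153 (by decide +kernel)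
theorem L26155 : W_16 (nat_lit 7) (nat_lit 0x44006200180009000280000000000000000000000000000000) (nat_lit 0x0) (nat_lit 0x400038019000010070800800000000000000000000000000000000) := T_16 (nat_lit 183) (nat_lit 184) (nat_lit 0) (nat_lit 14) (nat_lit 10) L26154 (by decide +kernel)
theorem L26156 : W_16 (nat_lit 11) (nat_lit 0x44002200180009000280000000000000000000000000000000) (nat_lit 0x0) (nat_lit 0x34003b803d800210070801800000000000000000000000000000000) := Q_16 (nat_lit 182) (C_16 L26129 (C_16 L26132 (C_16 L26140 (C_16 L26149 (C_16 L26155 N_16))))) (by decide +kernel)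
theorem L26157 : W_16 (nat_lit 2) (nat_lit 0x2000100008000e4002200190059000280000000000000000000000000000000) (nat_lit 0x0) (nat_lit 0x2000100008000000000000000000000000000000000000000000000000000000000) := D_16 (nat_lit 248) (nat_lit 265) (nat_lit 231) (nat_lit 5) (nat_lit 11) (nat_lit 11) (nat_lit 5) (nat_lit 11) (nat_lit 10) (by decide +kernel)
theorem L26158 : W_16 (nat_lit 3) (nat_lit 0x100008000e4002200190059000280000000000000000000000000000000) (nat_lit 0x0) (nat_lit 0x2000300008000000000004000000000000000000000000000000000000000000000) := T_16 (nat_lit 249) (nat_lit 182) (nat_lit 6) (nat_lit 11) (nat_lit 14) L26157 (by decide +kernel)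
theorem L26159 : W_16 (nat_lit 4) (nat_lit 0x100008000e4002200180059000280000000000000000000000000000000) (nat_lit 0x0) (nat_lit 0x2000300008000000000004000010000800000000000000000000000000000000000) := T_16 (nat_lit 160) (nat_lit 143) (nat_lit 6) (nat_lit 7) (nat_lit 11) L26158 (by decide +kernel)
theorem L26160 : W_16 (nat_lit 5) (nat_lit 0x8000e4002200180059000280000000000000000000000000000000) (nat_lit 0x0) (nat_lit 0x2000300018000000000005000010000800000000000000000000000000000000000) := T_16 (nat_lit 232) (nat_lit 180) (nat_lit 4) (nat_lit 11) (nat_lit 13) L26159 (by decide +kernel)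
theorem L26161 : W_16 (nat_lit 6) (nat_lit 0xe4002200180059000280000000000000000000000000000000) (nat_lit 0x0) (nat_lit 0x2000300018000800000005000210000800000000000000000000000000000000000) := T_16 (nat_lit 215) (nat_lit 165) (nat_lit 6) (nat_lit 11) (nat_lit 12) L26160 (by decide +kernel)
theorem L26162 : W_16 (nat_lit 7) (nat_lit 0xe4002200180019000280000000000000000000000000000000) (nat_lit 0x0) (nat_lit 0x2000300018000800000005000210060800000000000000000000000000000000000) := T_16 (nat_lit 150) (nat_lit 149) (nat_lit 1) (nat_lit 14) (nat_lit 8) L26161 (by decide +kernel)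
theorem L26163 : W_16 (nat_lit 8) (nat_lit 0xe4002200180009000280000000000000000000000000000000) (nat_lit 0x0) (nat_lit 0x2000300018000800000005000210070800800000000000000000000000000000000) := T_16 (nat_lit 148) (nat_lit 131) (nat_lit 6) (nat_lit 11) (nat_lit 11) L26162 (by decide +kernel)
theorem L26164 : W_16 (nat_lit 9) (nat_lit 0x64002200180009000280000000000000000000000000000000) (nat_lit 0x0) (nat_lit 0x2000300018001800080005000210070800800000000000000000000000000000000) := T_16 (nat_lit 199) (nat_lit 216) (nat_lit 7) (nat_lit 11) (nat_lit 8) L26163 (by decide +kernel)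
theorem L26165 : W_16 (nat_lit 10) (nat_lit 0x44002200180009000280000000000000000000000000000000) (nat_lit 0x0) (nat_lit 0x2000300018001c000a0005000210070800800000000000000000000000000000000) := T_16 (nat_lit 197) (nat_lit 214) (nat_lit 5) (nat_lit 11) (nat_lit 8) L26164 (by decide +kernel)
theorem L26166 : W_16 (nat_lit 2) (nat_lit 0x400010000d000c4002200190009000280000000000000000000000000000000) (nat_lit 0x0) (nat_lit 0x8000200000000000000004000000000000000000000000000000000000000000000) := D_16 (nat_lit 249) (nat_lit 182) (nat_lit 267) (nat_lit 6) (nat_lit 11) (nat_lit 14) (nat_lit 7) (nat_lit 11) (nat_lit 11) (by decide +kernel)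
theorem L26167 : W_16 (nat_lit 3) (nat_lit 0x10000d000c4002200190009000280000000000000000000000000000000) (nat_lit 0x0) (nat_lit 0x8000600020000000000004000000000000000000000000000000000000000000000) := T_16 (nat_lit 250) (nat_lit 233) (nat_lit 7) (nat_lit 11) (nat_lit 10) L26166 (by decide +kernel)
theorem L26168 : W_16 (nat_lit 4) (nat_lit 0x10000c000c4002200190009000280000000000000000000000000000000) (nat_lit 0x0) (nat_lit 0x8000600020000300000004000000000000000000000000000000000000000000000) := T_16 (nat_lit 212) (nat_lit 213) (nat_lit 2) (nat_lit 8) (nat_lit 12) L26167 (by decide +kernel)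
theorem L26169 : W_16 (nat_lit 5) (nat_lit 0xc000c4002200190009000280000000000000000000000000000000) (nat_lit 0x0) (nat_lit 0x8000600030000300000005000000000000000000000000000000000000000000000) := T_16 (nat_lit 232) (nat_lit 180) (nat_lit 4) (nat_lit 11) (nat_lit 13) L26168 (by decide +kernel)
theorem L26170 : W_16 (nat_lit 6) (nat_lit 0x4000c4002200190009000280000000000000000000000000000000) (nat_lit 0x0) (nat_lit 0x8000600038000b00000005000000000000000000000000000000000000000000000) := T_16 (nat_lit 215) (nat_lit 231) (nat_lit 5) (nat_lit 11) (nat_lit 9) L26169 (by decide +kernel)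
theorem L26171 : W_16 (nat_lit 7) (nat_lit 0x400044002200190009000280000000000000000000000000000000) (nat_lit 0x0) (nat_lit 0x8000600038001b00080005000000000000000000000000000000000000000000000) := T_16 (nat_lit 199) (nat_lit 216) (nat_lit 7) (nat_lit 11) (nat_lit 8) L26170 (by decide +kernel)
theorem L26172 : W_16 (nat_lit 8) (nat_lit 0x44002200190009000280000000000000000000000000000000) (nat_lit 0x0) (nat_lit 0x8000600038001f000a0005000000000000000000000000000000000000000000000) := T_16 (nat_lit 214) (nat_lit 197) (nat_lit 5) (nat_lit 11) (nat_lit 8) L26171 (by decide +kernel)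
theorem L26173 : W_16 (nat_lit 9) (nat_lit 0x44002200180009000280000000000000000000000000000000) (nat_lit 0x0) (nat_lit 0x8000600038001f000a0005000010000800000000000000000000000000000000000) := T_16 (nat_lit 160) (nat_lit 143) (nat_lit 6) (nat_lit 7) (nat_lit 11) L26172 (by decide +kernel)
theorem L26174 : W_16 (nat_lit 2) (nat_lit 0x800044002200180059000280000000000000000000000000000000) (nat_lit 0x0) (nat_lit 0x8000400020000000000000000000000000000000000000000000000000) := D_16 (nat_lit 214) (nat_lit 231) (nat_lit 197) (nat_lit 5) (nat_lit 11) (nat_lit 9) (nat_lit 5) (nat_lit 11) (nat_lit 8) (by decide +kernel)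
theorem L26175 : W_16 (nat_lit 3) (nat_lit 0x44002200180059000280000000000000000000000000000000) (nat_lit 0x0) (nat_lit 0x8000c00020000000200000000000000000000000000000000000000000) := T_16 (nat_lit 215) (nat_lit 165) (nat_lit 6) (nat_lit 11) (nat_lit 12) L26174 (by decide +kernel)
theorem L26176 : W_16 (nat_lit 4) (nat_lit 0x44002200180019000280000000000000000000000000000000) (nat_lit 0x0) (nat_lit 0x8000c00020000000200060000000000000000000000000000000000000) := T_16 (nat_lit 150) (nat_lit 149) (nat_lit 1) (nat_lit 14) (nat_lit 8) L26175 (by decide +kernel)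
theorem L26177 : W_16 (nat_lit 5) (nat_lit 0x44002200180009000280000000000000000000000000000000) (nat_lit 0x0) (nat_lit 0x8000c00020000000200070000800000000000000000000000000000000) := T_16 (nat_lit 148) (nat_lit 131) (nat_lit 6) (nat_lit 11) (nat_lit 11) L26176 (by decide +kernel)
theorem L26178 : W_16 (nat_lit 2) (nat_lit 0x800044002200180059000280000000000000000000000000000000) (nat_lit 0x0) (nat_lit 0x20001000080000000000000000000000000000000000000000000000000) := D_16 (nat_lit 216) (nat_lit 199) (nat_lit 233) (nat_lit 7) (nat_lit 11) (nat_lit 8) (nat_lit 7) (nat_lit 11) (nat_lit 9) (by decide +kernel)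
theorem L26179 : W_16 (nat_lit 3) (nat_lit 0x44002200180059000280000000000000000000000000000000) (nat_lit 0x0) (nat_lit 0x20001800080000000200000000000000000000000000000000000000000) := T_16 (nat_lit 215) (nat_lit 165) (nat_lit 6) (nat_lit 11) (nat_lit 12) L26178 (by decide +kernel)
theorem L26180 : W_16 (nat_lit 4) (nat_lit 0x44002200180019000280000000000000000000000000000000) (nat_lit 0x0) (nat_lit 0x20001800080000000200060000000000000000000000000000000000000) := T_16 (nat_lit 150) (nat_lit 149) (nat_lit 1) (nat_lit 14) (nat_lit 8) L26179 (by decide +kernel)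
theorem L26181 : W_16 (nat_lit 5) (nat_lit 0x44002200180009000280000000000000000000000000000000) (nat_lit 0x0) (nat_lit 0x20001800080000000200070000800000000000000000000000000000000) := T_16 (nat_lit 148) (nat_lit 131) (nat_lit 6) (nat_lit 11) (nat_lit 11) L26180 (by decide +kernel)
theorem L26182 : W_16 (nat_lit 12) (nat_lit 0x4002200180009000280000000000000000000000000000000) (nat_lit 0x0) (nat_lit 0xa000700038003f003f803d800210070801800000000000000000000000000000000) := Q_16 (nat_lit 198) (C_16 L26156 (C_16 L26165 (C_16 L26173 (C_16 L26177 (C_16 L26181 N_16))))) (by decide +kernel)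
theorem L26183 : W_16 (nat_lit 2) (nat_lit 0x4002200190009000680000000000000000000000000000000) (nat_lit 0x0) (nat_lit 0x20001000000000000000020000000000000000000000000000) := D_16 (nat_lit 180) (nat_lit 113) (nat_lit 197) (nat_lit 5) (nat_lit 11) (nat_lit 6) (nat_lit 5) (nat_lit 11) (nat_lit 7) (by decide +kernel)
theorem L26184 : W_16 (nat_lit 3) (nat_lit 0x4002200190009000280000000000000000000000000000000) (nat_lit 0x0) (nat_lit 0x20001000000000000400030000000000000000000000000000) := T_16 (nat_lit 130) (nat_lit 112) (nat_lit 4) (nat_lit 11) (nat_lit 10) L26183 (by decide +kernel)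
theorem L26185 : W_16 (nat_lit 4) (nat_lit 0x4002200180009000280000000000000000000000000000000) (nat_lit 0x0) (nat_lit 0x20001000010000800400030000000000000000000000000000) := T_16 (nat_lit 160) (nat_lit 143) (nat_lit 6) (nat_lit 7) (nat_lit 11) L26184 (by decide +kernel)
theorem L26186 : W_16 (nat_lit 2) (nat_lit 0x4006200190009000680020000000000000000000000000000) (nat_lit 0x0) (nat_lit 0x800040002000000000000000000000000) := D_16 (nat_lit 114) (nat_lit 97) (nat_lit 131) (nat_lit 6) (nat_lit 11) (nat_lit 9) (nat_lit 6) (nat_lit 11) (nat_lit 10) (by decide +kernel)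
theorem L26187 : W_16 (nat_lit 3) (nat_lit 0x4006200190009000680000000000000000000000000000000) (nat_lit 0x0) (nat_lit 0x200000000800060002000000000000000000000000) := T_16 (nat_lit 113) (nat_lit 165) (nat_lit 7) (nat_lit 11) (nat_lit 6) L26186 (by decide +kernel)
theorem L26188 : W_16 (nat_lit 4) (nat_lit 0x4002200190009000680000000000000000000000000000000) (nat_lit 0x0) (nat_lit 0x80004000200000000800060002000000000000000000000000) := T_16 (nat_lit 182) (nat_lit 199) (nat_lit 7) (nat_lit 11) (nat_lit 7) L26187 (by decide +kernel)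
theorem L26189 : W_16 (nat_lit 5) (nat_lit 0x4002200180009000680000000000000000000000000000000) (nat_lit 0x0) (nat_lit 0x80004000210000800800060002000000000000000000000000) := T_16 (nat_lit 160) (nat_lit 143) (nat_lit 6) (nat_lit 7) (nat_lit 11) L26188 (by decide +kernel)
theorem L26190 : W_16 (nat_lit 6) (nat_lit 0x4002200180009000280000000000000000000000000000000) (nat_lit 0x0) (nat_lit 0x80004000210000800c00070002000000000000000000000000) := T_16 (nat_lit 130) (nat_lit 112) (nat_lit 4) (nat_lit 11) (nat_lit 10) L26189 (by decide +kernel)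
theorem L26191 : W_16 (nat_lit 2) (nat_lit 0x4002200180009000680000000000000000000000000000000) (nat_lit 0x0) (nat_lit 0x20001000000000000000020000000000000000000000000000) := D_16 (nat_lit 180) (nat_lit 113) (nat_lit 197) (nat_lit 5) (nat_lit 11) (nat_lit 6) (nat_lit 5) (nat_lit 11) (nat_lit 7) (by decide +kernel)
theorem L26192 : W_16 (nat_lit 3) (nat_lit 0x4002200180009000280000000000000000000000000000000) (nat_lit 0x0) (nat_lit 0x20001000000000000400030000000000000000000000000000) := T_16 (nat_lit 130) (nat_lit 112) (nat_lit 4) (nat_lit 11) (nat_lit 10) L26191 (by decide +kernel)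
theorem L26193 : W_16 (nat_lit 13) (nat_lit 0x4002200180001000280000000000000000000000000000000) (nat_lit 0x0) (nat_lit 0xa000700038003f003f803d800210078801c00070002000000000000000000000000) := Q_16 (nat_lit 147) (C_16 L26182 (C_16 L26185 (C_16 L26190 (C_16 L26192 N_16)))) (by decide +kernel)
theorem L26194 : W_16 (nat_lit 2) (nat_lit 0x4003200180001000280000000000000000000000000000000) (nat_lit 0x0) (nat_lit 0xc00020000000000000000000000000000000000000000) := D_16 (nat_lit 178) (nat_lit 161) (nat_lit 179) (nat_lit 5) (nat_lit 8) (nat_lit 7) (nat_lit 2) (nat_lit 7) (nat_lit 10) (by decide +kernel)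
theorem L26195 : W_16 (nat_lit 2) (nat_lit 0x4003200180009000280000000000000000000000000000000) (nat_lit 0x0) (nat_lit 0x400030000000000000000000000000000) := D_16 (nat_lit 130) (nat_lit 112) (nat_lit 113) (nat_lit 4) (nat_lit 11) (nat_lit 10) (nat_lit 5) (nat_lit 11) (nat_lit 6) (by decide +kernel)
theorem L26196 : W_16 (nat_lit 2) (nat_lit 0x2c4003200190019000280000000000000000000000000000000) (nat_lit 0x0) (nat_lit 0x10000800000000000200000000000000000000000000000000000000000) := D_16 (nat_lit 215) (nat_lit 232) (nat_lit 165) (nat_lit 4) (nat_lit 11) (nat_lit 13) (nat_lit 6) (nat_lit 11) (nat_lit 12) (by decide +kernel)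
theorem L26197 : W_16 (nat_lit 3) (nat_lit 0x2c4003200190009000280000000000000000000000000000000) (nat_lit 0x0) (nat_lit 0x10000800000000000200010000800000000000000000000000000000000) := T_16 (nat_lit 148) (nat_lit 131) (nat_lit 6) (nat_lit 11) (nat_lit 11) L26196 (by decide +kernel)
theorem L26198 : W_16 (nat_lit 4) (nat_lit 0xc4003200190009000280000000000000000000000000000000) (nat_lit 0x0) (nat_lit 0x10000800300000000200010000800000000000000000000000000000000) := T_16 (nat_lit 201) (nat_lit 200) (nat_lit 0) (nat_lit 14) (nat_lit 11) L26197 (by decide +kernel)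
theorem L26199 : W_16 (nat_lit 5) (nat_lit 0x44003200190009000280000000000000000000000000000000) (nat_lit 0x0) (nat_lit 0x10001800380000000200010000800000000000000000000000000000000) := T_16 (nat_lit 199) (nat_lit 216) (nat_lit 7) (nat_lit 11) (nat_lit 8) L26198 (by decide +kernel)
theorem L26200 : W_16 (nat_lit 6) (nat_lit 0x44003200180009000280000000000000000000000000000000) (nat_lit 0x0) (nat_lit 0x10001800380000000210010800800000000000000000000000000000000) := T_16 (nat_lit 160) (nat_lit 143) (nat_lit 6) (nat_lit 7) (nat_lit 11) L26199 (by decide +kernel)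
theorem L26201 : W_16 (nat_lit 2) (nat_lit 0x800064003200190059000280000000000000000000000000000000) (nat_lit 0x0) (nat_lit 0x20001000080000000000000000000000000000000000000000000000000) := D_16 (nat_lit 216) (nat_lit 199) (nat_lit 233) (nat_lit 7) (nat_lit 11) (nat_lit 8) (nat_lit 7) (nat_lit 11) (nat_lit 9) (by decide +kernel)
theorem L26202 : W_16 (nat_lit 3) (nat_lit 0x64003200190059000280000000000000000000000000000000) (nat_lit 0x0) (nat_lit 0x30001800080000000000000000000000000000000000000000000000000) := T_16 (nat_lit 215) (nat_lit 232) (nat_lit 4) (nat_lit 11) (nat_lit 13) L26201 (by decide +kernel)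
theorem L26203 : W_16 (nat_lit 4) (nat_lit 0x64003200190019000280000000000000000000000000000000) (nat_lit 0x0) (nat_lit 0x30001800080000000000060000000000000000000000000000000000000) := T_16 (nat_lit 150) (nat_lit 149) (nat_lit 1) (nat_lit 14) (nat_lit 8) L26202 (by decide +kernel)
theorem L26204 : W_16 (nat_lit 5) (nat_lit 0x64003200190009000280000000000000000000000000000000) (nat_lit 0x0) (nat_lit 0x30001800080000000000070000800000000000000000000000000000000) := T_16 (nat_lit 148) (nat_lit 131) (nat_lit 6) (nat_lit 11) (nat_lit 11) L26203 (by decide +kernel)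
theorem L26205 : W_16 (nat_lit 6) (nat_lit 0x64003200180009000280000000000000000000000000000000) (nat_lit 0x0) (nat_lit 0x30001800080000000010070800800000000000000000000000000000000) := T_16 (nat_lit 160) (nat_lit 143) (nat_lit 6) (nat_lit 7) (nat_lit 11) L26204 (by decide +kernel)
theorem L26206 : W_16 (nat_lit 7) (nat_lit 0x44003200180009000280000000000000000000000000000000) (nat_lit 0x0) (nat_lit 0x30001c000a0000000010070800800000000000000000000000000000000) := T_16 (nat_lit 197) (nat_lit 214) (nat_lit 6) (nat_lit 10) (nat_lit 12) L26205 (by decide +kernel)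
theorem L26207 : W_16 (nat_lit 2) (nat_lit 0x4002c4003200180009000280000000000000000000000000000000) (nat_lit 0x0) (nat_lit 0x18000800000000000000000000000000000000000000000000000000000) := D_16 (nat_lit 215) (nat_lit 231) (nat_lit 232) (nat_lit 5) (nat_lit 11) (nat_lit 9) (nat_lit 4) (nat_lit 11) (nat_lit 13) (by decide +kernel)
theorem L26208 : W_16 (nat_lit 3) (nat_lit 0x2c4003200180009000280000000000000000000000000000000) (nat_lit 0x0) (nat_lit 0x18000c00020000000000000000000000000000000000000000000000000) := T_16 (nat_lit 214) (nat_lit 197) (nat_lit 6) (nat_lit 10) (nat_lit 12) L26207 (by decide +kernel)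
theorem L26209 : W_16 (nat_lit 4) (nat_lit 0xc4003200180009000280000000000000000000000000000000) (nat_lit 0x0) (nat_lit 0x18000c00320000000000000000000000000000000000000000000000000) := T_16 (nat_lit 201) (nat_lit 200) (nat_lit 0) (nat_lit 14) (nat_lit 11) L26208 (by decide +kernel)
theorem L26210 : W_16 (nat_lit 5) (nat_lit 0x44003200180009000280000000000000000000000000000000) (nat_lit 0x0) (nat_lit 0x18001c003a0000000000000000000000000000000000000000000000000) := T_16 (nat_lit 199) (nat_lit 216) (nat_lit 7) (nat_lit 11) (nat_lit 8) L26209 (by decide +kernel)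
theorem L26211 : W_16 (nat_lit 2) (nat_lit 0x20001e400b200180059000280000000000000000000000000000000) (nat_lit 0x0) (nat_lit 0xe00000000000000000000000000000000000000000) := D_16 (nat_lit 166) (nat_lit 165) (nat_lit 167) (nat_lit 4) (nat_lit 13) (nat_lit 12) (nat_lit 6) (nat_lit 13) (nat_lit 12) (by decide +kernel)
theorem L26212 : W_16 (nat_lit 3) (nat_lit 0x20001e4003200180059000280000000000000000000000000000000) (nat_lit 0x0) (nat_lit 0x18000e00000000000000000000000000000000000000000) := T_16 (nat_lit 183) (nat_lit 184) (nat_lit 2) (nat_lit 10) (nat_lit 11) L26211 (by decide +kernel)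
theorem L26213 : W_16 (nat_lit 4) (nat_lit 0x1e4003200180059000280000000000000000000000000000000) (nat_lit 0x0) (nat_lit 0x6000000018000e00000000000000000000000000000000000000000) := T_16 (nat_lit 217) (nat_lit 218) (nat_lit 3) (nat_lit 10) (nat_lit 11) L26212 (by decide +kernel)
theorem L26214 : W_16 (nat_lit 5) (nat_lit 0x1e4003200180019000280000000000000000000000000000000) (nat_lit 0x0) (nat_lit 0x6000000018000e00060000000000000000000000000000000000000) := T_16 (nat_lit 150) (nat_lit 149) (nat_lit 1) (nat_lit 14) (nat_lit 8) L26213 (by decide +kernel)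
theorem L26215 : W_16 (nat_lit 6) (nat_lit 0x1e4003200180009000280000000000000000000000000000000) (nat_lit 0x0) (nat_lit 0x6000000018000e00070000800000000000000000000000000000000) := T_16 (nat_lit 148) (nat_lit 131) (nat_lit 6) (nat_lit 11) (nat_lit 11) L26214 (by decide +kernel)
theorem L26216 : W_16 (nat_lit 7) (nat_lit 0xe4003200180009000280000000000000000000000000000000) (nat_lit 0x0) (nat_lit 0x6000300018000e00070000800000000000000000000000000000000) := T_16 (nat_lit 200) (nat_lit 201) (nat_lit 0) (nat_lit 14) (nat_lit 11) L26215 (by decide +kernel)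
theorem L26217 : W_16 (nat_lit 8) (nat_lit 0x64003200180009000280000000000000000000000000000000) (nat_lit 0x0) (nat_lit 0x7000380018000e00070000800000000000000000000000000000000) := T_16 (nat_lit 199) (nat_lit 216) (nat_lit 7) (nat_lit 11) (nat_lit 8) L26216 (by decide +kernel)
theorem L26218 : W_16 (nat_lit 9) (nat_lit 0x44003200180009000280000000000000000000000000000000) (nat_lit 0x0) (nat_lit 0x74003a0018000e00070000800000000000000000000000000000000) := T_16 (nat_lit 197) (nat_lit 214) (nat_lit 6) (nat_lit 10) (nat_lit 12) L26217 (by decide +kernel)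
theorem L26219 : W_16 (nat_lit 2) (nat_lit 0x44003200180019000280000000000000000000000000000000) (nat_lit 0x0) (nat_lit 0x10000800000000000200000000000000000000000000000000000000000) := D_16 (nat_lit 215) (nat_lit 232) (nat_lit 165) (nat_lit 4) (nat_lit 11) (nat_lit 13) (nat_lit 6) (nat_lit 11) (nat_lit 12) (by decide +kernel)
theorem L26220 : W_16 (nat_lit 3) (nat_lit 0x44003200180009000280000000000000000000000000000000) (nat_lit 0x0) (nat_lit 0x10000800000000000200010000800000000000000000000000000000000) := T_16 (nat_lit 148) (nat_lit 131) (nat_lit 6) (nat_lit 11) (nat_lit 11) L26219 (by decide +kernel)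
theorem L26221 : W_16 (nat_lit 10) (nat_lit 0x4003200180009000280000000000000000000000000000000) (nat_lit 0x0) (nat_lit 0x38007c003e0018000e10070800800000000000000000000000000000000) := Q_16 (nat_lit 198) (C_16 L26200 (C_16 L26206 (C_16 L26210 (C_16 L26218 (C_16 L26220 N_16))))) (by decide +kernel)
theorem L26222 : W_16 (nat_lit 11) (nat_lit 0x4003200180001000280000000000000000000000000000000) (nat_lit 0x0) (nat_lit 0x38007c003e0018000e10078800c00030000000000000000000000000000) := Q_16 (nat_lit 147) (C_16 L26195 (C_16 L26221 N_16)) (by decide +kernel)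
theorem L26223 : W_16 (nat_lit 12) (nat_lit 0x4002200180001000280000000000000000000000000000000) (nat_lit 0x0) (nat_lit 0x38007c003e0019c00e30078800c00030000000000000000000000000000) := Q_16 (nat_lit 180) (C_16 L26194 (C_16 L26222 N_16)) (by decide +kernel)
theorem L26224 : W_16 (nat_lit 2) (nat_lit 0x3f400a600190019000280000000000000000000000000000000) (nat_lit 0x0) (nat_lit 0xe000000000000000000000000000000000000000000000000000000) := D_16 (nat_lit 218) (nat_lit 217) (nat_lit 219) (nat_lit 3) (nat_lit 10) (nat_lit 11) (nat_lit 3) (nat_lit 11) (nat_lit 11) (by decide +kernel)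
theorem L26225 : W_16 (nat_lit 3) (nat_lit 0x1f400a600190019000280000000000000000000000000000000) (nat_lit 0x0) (nat_lit 0xe000200001000000000000000000000000000000000000000000000) := T_16 (nat_lit 201) (nat_lit 180) (nat_lit 0) (nat_lit 14) (nat_lit 11) L26224 (by decide +kernel)
theorem L26226 : W_16 (nat_lit 4) (nat_lit 0xf400a600190019000280000000000000000000000000000000) (nat_lit 0x0) (nat_lit 0xe000300011000000000000000000000000000000000000000000000) := T_16 (nat_lit 200) (nat_lit 184) (nat_lit 2) (nat_lit 10) (nat_lit 11) L26225 (by decide +kernel)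
theorem L26227 : W_16 (nat_lit 5) (nat_lit 0xf4002600190019000280000000000000000000000000000000) (nat_lit 0x0) (nat_lit 0xe00030001d000000000000000000000000000000000000000000000) := T_16 (nat_lit 183) (nat_lit 182) (nat_lit 2) (nat_lit 9) (nat_lit 11) L26226 (by decide +kernel)
theorem L26228 : W_16 (nat_lit 6) (nat_lit 0xe4002600190019000280000000000000000000000000000000) (nat_lit 0x0) (nat_lit 0xe00031801d000000000000000000000000000000000000000000000) := T_16 (nat_lit 196) (nat_lit 195) (nat_lit 0) (nat_lit 11) (nat_lit 11) L26227 (by decide +kernel)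
theorem L26229 : W_16 (nat_lit 7) (nat_lit 0xc4002600190019000280000000000000000000000000000000) (nat_lit 0x0) (nat_lit 0xe40033801d000000000000000000000000000000000000000000000) := T_16 (nat_lit 197) (nat_lit 214) (nat_lit 5) (nat_lit 11) (nat_lit 8) L26228 (by decide +kernel)
theorem L26230 : W_16 (nat_lit 8) (nat_lit 0xc4002200190019000280000000000000000000000000000000) (nat_lit 0x0) (nat_lit 0xe40033801d400020000000000000000000000000000000000000000) := T_16 (nat_lit 178) (nat_lit 161) (nat_lit 5) (nat_lit 8) (nat_lit 7) L26229 (by decide +kernel)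
theorem L26231 : W_16 (nat_lit 9) (nat_lit 0xc4002200190009000280000000000000000000000000000000) (nat_lit 0x0) (nat_lit 0xe40033801d400020010000800000000000000000000000000000000) := T_16 (nat_lit 148) (nat_lit 131) (nat_lit 6) (nat_lit 11) (nat_lit 11) L26230 (by decide +kernel)
theorem L26232 : W_16 (nat_lit 10) (nat_lit 0x44002200190009000280000000000000000000000000000000) (nat_lit 0x0) (nat_lit 0xf4003b801d400020010000800000000000000000000000000000000) := T_16 (nat_lit 199) (nat_lit 216) (nat_lit 7) (nat_lit 11) (nat_lit 8) L26231 (by decide +kernel)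
theorem L26233 : W_16 (nat_lit 11) (nat_lit 0x44002200180009000280000000000000000000000000000000) (nat_lit 0x0) (nat_lit 0xf4003b801d400030010800800000000000000000000000000000000) := T_16 (nat_lit 160) (nat_lit 143) (nat_lit 6) (nat_lit 7) (nat_lit 11) L26232 (by decide +kernel)
theorem L26234 : W_16 (nat_lit 12) (nat_lit 0x4002200180009000280000000000000000000000000000000) (nat_lit 0x0) (nat_lit 0x800060003800ff003f801d400230070800800000000000000000000000000000000) := Q_16 (nat_lit 198) (C_16 L26181 (C_16 L26173 (C_16 L26233 (C_16 L26177 N_16)))) (by decide +kernel)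
theorem L26235 : W_16 (nat_lit 13) (nat_lit 0x4002200180001000280000000000000000000000000000000) (nat_lit 0x0) (nat_lit 0x800060003800ff003f801d400230078800c00070002000000000000000000000000) := Q_16 (nat_lit 147) (C_16 L26192 (C_16 L26190 (C_16 L26234 N_16))) (by decide +kernel)
theorem L26236 : W_16 (nat_lit 2) (nat_lit 0x1000044003200190009000280000000000000000000000000000000) (nat_lit 0x0) (nat_lit 0x30000800000000000000000000000000000000000000000000000000000) := D_16 (nat_lit 215) (nat_lit 232) (nat_lit 233) (nat_lit 4) (nat_lit 11) (nat_lit 13) (nat_lit 7) (nat_lit 11) (nat_lit 9) (by decide +kernel)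
theorem L26237 : W_16 (nat_lit 3) (nat_lit 0x44003200190009000280000000000000000000000000000000) (nat_lit 0x0) (nat_lit 0x30001800080000000000000000000000000000000000000000000000000) := T_16 (nat_lit 216) (nat_lit 199) (nat_lit 7) (nat_lit 11) (nat_lit 8) L26236 (by decide +kernel)
theorem L26238 : W_16 (nat_lit 4) (nat_lit 0x44003200180009000280000000000000000000000000000000) (nat_lit 0x0) (nat_lit 0x30001800080000000010000800000000000000000000000000000000000) := T_16 (nat_lit 160) (nat_lit 143) (nat_lit 6) (nat_lit 7) (nat_lit 11) L26237 (by decide +kernel)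
theorem L26239 : W_16 (nat_lit 2) (nat_lit 0xf400b2001b0059000280000000000000000000000000000000) (nat_lit 0x0) (nat_lit 0x300010000000000000000000000000000000000000000000000) := D_16 (nat_lit 200) (nat_lit 184) (nat_lit 201) (nat_lit 2) (nat_lit 10) (nat_lit 11) (nat_lit 0) (nat_lit 14) (nat_lit 11) (by decide +kernel)
theorem L26240 : W_16 (nat_lit 3) (nat_lit 0x7400b2001b0059000280000000000000000000000000000000) (nat_lit 0x0) (nat_lit 0x1000380010000000000000000000000000000000000000000000000) := T_16 (nat_lit 199) (nat_lit 216) (nat_lit 7) (nat_lit 11) (nat_lit 8) L26239 (by decide +kernel)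
theorem L26241 : W_16 (nat_lit 4) (nat_lit 0x7400b2001a0059000280000000000000000000000000000000) (nat_lit 0x0) (nat_lit 0x1000380010000010000800000000000000000000000000000000000) := T_16 (nat_lit 160) (nat_lit 143) (nat_lit 6) (nat_lit 7) (nat_lit 11) L26240 (by decide +kernel)
theorem L26242 : W_16 (nat_lit 5) (nat_lit 0x740032001a0059000280000000000000000000000000000000) (nat_lit 0x0) (nat_lit 0x100038001c000010000800000000000000000000000000000000000) := T_16 (nat_lit 183) (nat_lit 182) (nat_lit 1) (nat_lit 13) (nat_lit 10) L26241 (by decide +kernel)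
theorem L26243 : W_16 (nat_lit 6) (nat_lit 0x74003200180059000280000000000000000000000000000000) (nat_lit 0x0) (nat_lit 0x100038001c400030000800000000000000000000000000000000000) := T_16 (nat_lit 161) (nat_lit 178) (nat_lit 5) (nat_lit 8) (nat_lit 7) L26242 (by decide +kernel)
theorem L26244 : W_16 (nat_lit 7) (nat_lit 0x64003200180059000280000000000000000000000000000000) (nat_lit 0x0) (nat_lit 0x100039801c400030000800000000000000000000000000000000000) := T_16 (nat_lit 196) (nat_lit 195) (nat_lit 2) (nat_lit 7) (nat_lit 11) L26243 (by decide +kernel)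
theorem L26245 : W_16 (nat_lit 8) (nat_lit 0x44003200180059000280000000000000000000000000000000) (nat_lit 0x0) (nat_lit 0x14003b801c400030000800000000000000000000000000000000000) := T_16 (nat_lit 197) (nat_lit 214) (nat_lit 6) (nat_lit 10) (nat_lit 12) L26244 (by decide +kernel)
theorem L26246 : W_16 (nat_lit 9) (nat_lit 0x44003200180019000280000000000000000000000000000000) (nat_lit 0x0) (nat_lit 0x14003b801c400030060800000000000000000000000000000000000) := T_16 (nat_lit 150) (nat_lit 149) (nat_lit 1) (nat_lit 14) (nat_lit 8) L26245 (by decide +kernel)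
theorem L26247 : W_16 (nat_lit 10) (nat_lit 0x44003200180009000280000000000000000000000000000000) (nat_lit 0x0) (nat_lit 0x14003b801c400030070800800000000000000000000000000000000) := T_16 (nat_lit 148) (nat_lit 131) (nat_lit 6) (nat_lit 11) (nat_lit 11) L26246 (by decide +kernel)
theorem L26248 : W_16 (nat_lit 2) (nat_lit 0x800044003200180009000280000000000000000000000000000000) (nat_lit 0x0) (nat_lit 0x8000400020000000000000000000000000000000000000000000000000) := D_16 (nat_lit 214) (nat_lit 197) (nat_lit 231) (nat_lit 6) (nat_lit 10) (nat_lit 12) (nat_lit 5) (nat_lit 11) (nat_lit 9) (by decide +kernel)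
theorem L26249 : W_16 (nat_lit 3) (nat_lit 0x44003200180009000280000000000000000000000000000000) (nat_lit 0x0) (nat_lit 0x18000c00020000000000000000000000000000000000000000000000000) := T_16 (nat_lit 215) (nat_lit 232) (nat_lit 4) (nat_lit 11) (nat_lit 13) L26248 (by decide +kernel)
theorem L26250 : W_16 (nat_lit 11) (nat_lit 0x4003200180009000280000000000000000000000000000000) (nat_lit 0x0) (nat_lit 0x38001c003f801c400030070800800000000000000000000000000000000) := Q_16 (nat_lit 198) (C_16 L26210 (C_16 L26238 (C_16 L26247 (C_16 L26249 N_16)))) (by decide +kernel)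
theorem L26251 : W_16 (nat_lit 12) (nat_lit 0x4003200180001000280000000000000000000000000000000) (nat_lit 0x0) (nat_lit 0x38001c003f801c400030078800c00030000000000000000000000000000) := Q_16 (nat_lit 147) (C_16 L26195 (C_16 L26250 N_16)) (by decide +kernel)
theorem L26252 : W_16 (nat_lit 2) (nat_lit 0xec003200190009000280000000000000000000000000000000) (nat_lit 0x0) (nat_lit 0x300000800000000000000000000000000000000000000000000) := D_16 (nat_lit 200) (nat_lit 201) (nat_lit 179) (nat_lit 0) (nat_lit 14) (nat_lit 11) (nat_lit 0) (nat_lit 13) (nat_lit 11) (by decide +kernel)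
theorem L26253 : W_16 (nat_lit 3) (nat_lit 0x6c003200190009000280000000000000000000000000000000) (nat_lit 0x0) (nat_lit 0x1000380000800000000000000000000000000000000000000000000) := T_16 (nat_lit 199) (nat_lit 216) (nat_lit 7) (nat_lit 11) (nat_lit 8) L26252 (by decide +kernel)
theorem L26254 : W_16 (nat_lit 4) (nat_lit 0x64003200190009000280000000000000000000000000000000) (nat_lit 0x0) (nat_lit 0x1000398000800000000000000000000000000000000000000000000) := T_16 (nat_lit 195) (nat_lit 196) (nat_lit 2) (nat_lit 7) (nat_lit 11) L26253 (by decide +kernel)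
theorem L26255 : W_16 (nat_lit 5) (nat_lit 0x44003200190009000280000000000000000000000000000000) (nat_lit 0x0) (nat_lit 0x14003b8000800000000000000000000000000000000000000000000) := T_16 (nat_lit 197) (nat_lit 214) (nat_lit 6) (nat_lit 10) (nat_lit 12) L26254 (by decide +kernel)
theorem L26256 : W_16 (nat_lit 6) (nat_lit 0x44003200180009000280000000000000000000000000000000) (nat_lit 0x0) (nat_lit 0x14003b8000800010000800000000000000000000000000000000000) := T_16 (nat_lit 160) (nat_lit 143) (nat_lit 6) (nat_lit 7) (nat_lit 11) L26255 (by decide +kernel)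
theorem L26257 : W_16 (nat_lit 7) (nat_lit 0x4003200180009000280000000000000000000000000000000) (nat_lit 0x0) (nat_lit 0x38001c003f8000800010000800000000000000000000000000000000000) := Q_16 (nat_lit 198) (C_16 L26249 (C_16 L26238 (C_16 L26256 N_16))) (by decide +kernel)
theorem L26258 : W_16 (nat_lit 8) (nat_lit 0x4003200180001000280000000000000000000000000000000) (nat_lit 0x0) (nat_lit 0x38001c003f8000800010008800400030000000000000000000000000000) := Q_16 (nat_lit 147) (C_16 L26195 (C_16 L26257 N_16)) (by decide +kernel)
theorem L26259 : W_16 (nat_lit 13) (nat_lit 0x4002200180001000280000000000000000000000000000000) (nat_lit 0x0) (nat_lit 0x38001c003f801dc00030078800c00030000000000000000000000000000) := Q_16 (nat_lit 180) (C_16 L26194 (C_16 L26251 (C_16 L26258 N_16))) (by decide +kernel)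
theorem L26260 : W_16 (nat_lit 2) (nat_lit 0x840022001b0009000e80000000000000000000000000000000) (nat_lit 0x0) (nat_lit 0x1000040000000000010000000000000000000000000000000000000) := D_16 (nat_lit 198) (nat_lit 216) (nat_lit 148) (nat_lit 7) (nat_lit 11) (nat_lit 8) (nat_lit 6) (nat_lit 11) (nat_lit 11) (by decide +kernel)
theorem L26261 : W_16 (nat_lit 3) (nat_lit 0x840022001b0009000680000000000000000000000000000000) (nat_lit 0x0) (nat_lit 0x1000040000000000010000800040000000000000000000000000000) := T_16 (nat_lit 131) (nat_lit 114) (nat_lit 6) (nat_lit 11) (nat_lit 10) L26260 (by decide +kernel)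
theorem L26262 : W_16 (nat_lit 4) (nat_lit 0x40022001b0009000680000000000000000000000000000000) (nat_lit 0x0) (nat_lit 0x10000c0004000000010000800040000000000000000000000000000) := T_16 (nat_lit 199) (nat_lit 182) (nat_lit 7) (nat_lit 11) (nat_lit 7) L26261 (by decide +kernel)
theorem L26263 : W_16 (nat_lit 5) (nat_lit 0x4002200190009000680000000000000000000000000000000) (nat_lit 0x0) (nat_lit 0x10000c0004400020010000800040000000000000000000000000000) := T_16 (nat_lit 161) (nat_lit 178) (nat_lit 5) (nat_lit 8) (nat_lit 7) L26262 (by decide +kernel)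
theorem L26264 : W_16 (nat_lit 6) (nat_lit 0x4002200190009000280000000000000000000000000000000) (nat_lit 0x0) (nat_lit 0x10000c0004400020010000c00050000000000000000000000000000) := T_16 (nat_lit 130) (nat_lit 112) (nat_lit 4) (nat_lit 11) (nat_lit 10) L26263 (by decide +kernel)
theorem L26265 : W_16 (nat_lit 7) (nat_lit 0x4002200180009000280000000000000000000000000000000) (nat_lit 0x0) (nat_lit 0x10000c0004400030010800c00050000000000000000000000000000) := T_16 (nat_lit 160) (nat_lit 143) (nat_lit 6) (nat_lit 7) (nat_lit 11) L26264 (by decide +kernel)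
theorem L26266 : W_16 (nat_lit 2) (nat_lit 0x14000440022001b0009000e80000000000000000000000000000000) (nat_lit 0x0) (nat_lit 0x28000800000000000000000000000000000000000000000000000000000) := D_16 (nat_lit 215) (nat_lit 231) (nat_lit 233) (nat_lit 5) (nat_lit 11) (nat_lit 9) (nat_lit 7) (nat_lit 11) (nat_lit 9) (by decide +kernel)
theorem L26267 : W_16 (nat_lit 3) (nat_lit 0x4000440022001b0009000e80000000000000000000000000000000) (nat_lit 0x0) (nat_lit 0x28001800080000000000000000000000000000000000000000000000000) := T_16 (nat_lit 216) (nat_lit 199) (nat_lit 7) (nat_lit 11) (nat_lit 8) L26266 (by decide +kernel)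
theorem L26268 : W_16 (nat_lit 4) (nat_lit 0x440022001b0009000e80000000000000000000000000000000) (nat_lit 0x0) (nat_lit 0x28001c000a0000000000000000000000000000000000000000000000000) := T_16 (nat_lit 214) (nat_lit 197) (nat_lit 5) (nat_lit 11) (nat_lit 8) L26267 (by decide +kernel)
theorem L26269 : W_16 (nat_lit 5) (nat_lit 0x40022001b0009000e80000000000000000000000000000000) (nat_lit 0x0) (nat_lit 0x28001c000e0000000000010000000000000000000000000000000000000) := T_16 (nat_lit 198) (nat_lit 148) (nat_lit 6) (nat_lit 11) (nat_lit 11) L26268 (by decide +kernel)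
theorem L26270 : W_16 (nat_lit 6) (nat_lit 0x40022001b0009000680000000000000000000000000000000) (nat_lit 0x0) (nat_lit 0x28001c000e0000000000010000800040000000000000000000000000000) := T_16 (nat_lit 131) (nat_lit 114) (nat_lit 6) (nat_lit 11) (nat_lit 10) L26269 (by decide +kernel)
theorem L26271 : W_16 (nat_lit 7) (nat_lit 0x40022001b0009000280000000000000000000000000000000) (nat_lit 0x0) (nat_lit 0x28001c000e0000000000010000c00050000000000000000000000000000) := T_16 (nat_lit 130) (nat_lit 112) (nat_lit 4) (nat_lit 11) (nat_lit 10) L26270 (by decide +kernel)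
theorem L26272 : W_16 (nat_lit 8) (nat_lit 0x40022001a0009000280000000000000000000000000000000) (nat_lit 0x0) (nat_lit 0x28001c000e0000000010010800c00050000000000000000000000000000) := T_16 (nat_lit 160) (nat_lit 143) (nat_lit 6) (nat_lit 7) (nat_lit 11) L26271 (by decide +kernel)
theorem L26273 : W_16 (nat_lit 9) (nat_lit 0x4002200180009000280000000000000000000000000000000) (nat_lit 0x0) (nat_lit 0x28001c000e0000400030010800c00050000000000000000000000000000) := T_16 (nat_lit 161) (nat_lit 178) (nat_lit 5) (nat_lit 8) (nat_lit 7) L26272 (by decide +kernel)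
theorem L26274 : W_16 (nat_lit 2) (nat_lit 0x40062001a0009000680020000000000000000000000000000) (nat_lit 0x0) (nat_lit 0x800040002000000000000000000000000) := D_16 (nat_lit 114) (nat_lit 97) (nat_lit 131) (nat_lit 6) (nat_lit 11) (nat_lit 9) (nat_lit 6) (nat_lit 11) (nat_lit 10) (by decide +kernel)
theorem L26275 : W_16 (nat_lit 3) (nat_lit 0x40062001a0009000680000000000000000000000000000000) (nat_lit 0x0) (nat_lit 0x200000000800060002000000000000000000000000) := T_16 (nat_lit 113) (nat_lit 165) (nat_lit 7) (nat_lit 11) (nat_lit 6) L26274 (by decide +kernel)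
theorem L26276 : W_16 (nat_lit 4) (nat_lit 0x40022001a0009000680000000000000000000000000000000) (nat_lit 0x0) (nat_lit 0x80004000200000000800060002000000000000000000000000) := T_16 (nat_lit 182) (nat_lit 199) (nat_lit 7) (nat_lit 11) (nat_lit 7) L26275 (by decide +kernel)
theorem L26277 : W_16 (nat_lit 5) (nat_lit 0x4002200180009000680000000000000000000000000000000) (nat_lit 0x0) (nat_lit 0x80004400220000000800060002000000000000000000000000) := T_16 (nat_lit 161) (nat_lit 178) (nat_lit 5) (nat_lit 8) (nat_lit 7) L26276 (by decide +kernel)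
theorem L26278 : W_16 (nat_lit 6) (nat_lit 0x4002200180009000280000000000000000000000000000000) (nat_lit 0x0) (nat_lit 0x80004400220000000c00070002000000000000000000000000) := T_16 (nat_lit 130) (nat_lit 112) (nat_lit 4) (nat_lit 11) (nat_lit 10) L26277 (by decide +kernel)
theorem L26279 : W_16 (nat_lit 2) (nat_lit 0xe4002600190059000280000000000000000000000000000000) (nat_lit 0x0) (nat_lit 0x18000800000000000000000000000000000000000000000000) := D_16 (nat_lit 196) (nat_lit 179) (nat_lit 195) (nat_lit 0) (nat_lit 12) (nat_lit 11) (nat_lit 0) (nat_lit 11) (nat_lit 11) (by decide +kernel)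
theorem L26280 : W_16 (nat_lit 3) (nat_lit 0xe4002200190059000280000000000000000000000000000000) (nat_lit 0x0) (nat_lit 0x18000c00020000000000000000000000000000000000000000) := T_16 (nat_lit 178) (nat_lit 161) (nat_lit 5) (nat_lit 8) (nat_lit 7) L26279 (by decide +kernel)
theorem L26281 : W_16 (nat_lit 4) (nat_lit 0xc4002200190059000280000000000000000000000000000000) (nat_lit 0x0) (nat_lit 0x400038000c00020000000000000000000000000000000000000000) := T_16 (nat_lit 197) (nat_lit 214) (nat_lit 5) (nat_lit 11) (nat_lit 8) L26280 (by decide +kernel)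
theorem L26282 : W_16 (nat_lit 5) (nat_lit 0xc4002200190019000280000000000000000000000000000000) (nat_lit 0x0) (nat_lit 0x400038000c00020060000000000000000000000000000000000000) := T_16 (nat_lit 150) (nat_lit 149) (nat_lit 1) (nat_lit 14) (nat_lit 8) L26281 (by decide +kernel)
theorem L26283 : W_16 (nat_lit 6) (nat_lit 0xc4002200190009000280000000000000000000000000000000) (nat_lit 0x0) (nat_lit 0x400038000c00020070000800000000000000000000000000000000) := T_16 (nat_lit 148) (nat_lit 131) (nat_lit 6) (nat_lit 11) (nat_lit 11) L26282 (by decide +kernel)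
theorem L26284 : W_16 (nat_lit 7) (nat_lit 0x44002200190009000280000000000000000000000000000000) (nat_lit 0x0) (nat_lit 0x14000b8000c00020070000800000000000000000000000000000000) := T_16 (nat_lit 199) (nat_lit 216) (nat_lit 7) (nat_lit 11) (nat_lit 8) L26283 (by decide +kernel)
theorem L26285 : W_16 (nat_lit 8) (nat_lit 0x44002200180009000280000000000000000000000000000000) (nat_lit 0x0) (nat_lit 0x14000b8000c00030070800800000000000000000000000000000000) := T_16 (nat_lit 160) (nat_lit 143) (nat_lit 6) (nat_lit 7) (nat_lit 11) L26284 (by decide +kernel)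
theorem L26286 : W_16 (nat_lit 2) (nat_lit 0x18000440022001b0009000280000000000000000000000000000000) (nat_lit 0x0) (nat_lit 0x8000400020000000000000000000000000000000000000000000000000) := D_16 (nat_lit 214) (nat_lit 231) (nat_lit 197) (nat_lit 5) (nat_lit 11) (nat_lit 9) (nat_lit 5) (nat_lit 11) (nat_lit 8) (by decide +kernel)
theorem L26287 : W_16 (nat_lit 3) (nat_lit 0x10000440022001b0009000280000000000000000000000000000000) (nat_lit 0x0) (nat_lit 0x28000c00020000000000000000000000000000000000000000000000000) := T_16 (nat_lit 215) (nat_lit 233) (nat_lit 7) (nat_lit 11) (nat_lit 9) L26286 (by decide +kernel)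
theorem L26288 : W_16 (nat_lit 4) (nat_lit 0x10000440022001a0009000280000000000000000000000000000000) (nat_lit 0x0) (nat_lit 0x28000c00020000000010000800000000000000000000000000000000000) := T_16 (nat_lit 160) (nat_lit 143) (nat_lit 6) (nat_lit 7) (nat_lit 11) L26287 (by decide +kernel)
theorem L26289 : W_16 (nat_lit 5) (nat_lit 0x440022001a0009000280000000000000000000000000000000) (nat_lit 0x0) (nat_lit 0x28001c000a0000000010000800000000000000000000000000000000000) := T_16 (nat_lit 216) (nat_lit 199) (nat_lit 7) (nat_lit 11) (nat_lit 8) L26288 (by decide +kernel)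
theorem L26290 : W_16 (nat_lit 6) (nat_lit 0x44002200180009000280000000000000000000000000000000) (nat_lit 0x0) (nat_lit 0x28001c000a0000400030000800000000000000000000000000000000000) := T_16 (nat_lit 161) (nat_lit 178) (nat_lit 5) (nat_lit 8) (nat_lit 7) L26289 (by decide +kernel)
theorem L26291 : W_16 (nat_lit 9) (nat_lit 0x4002200180009000280000000000000000000000000000000) (nat_lit 0x0) (nat_lit 0x28001c000f8000c00230070800800000000000000000000000000000000) := Q_16 (nat_lit 198) (C_16 L26181 (C_16 L26285 (C_16 L26290 (C_16 L26177 N_16)))) (by decide +kernel)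
theorem L26292 : W_16 (nat_lit 2) (nat_lit 0xe4002600190009000680000000000000000000000000000000) (nat_lit 0x0) (nat_lit 0x18000800000000000000000000000000000000000000000000) := D_16 (nat_lit 196) (nat_lit 179) (nat_lit 195) (nat_lit 0) (nat_lit 12) (nat_lit 11) (nat_lit 0) (nat_lit 11) (nat_lit 11) (by decide +kernel)
theorem L26293 : W_16 (nat_lit 3) (nat_lit 0xc4002600190009000680000000000000000000000000000000) (nat_lit 0x0) (nat_lit 0x400038000800000000000000000000000000000000000000000000) := T_16 (nat_lit 197) (nat_lit 214) (nat_lit 5) (nat_lit 11) (nat_lit 8) L26292 (by decide +kernel)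
theorem L26294 : W_16 (nat_lit 4) (nat_lit 0x84002600190009000680000000000000000000000000000000) (nat_lit 0x0) (nat_lit 0x1400078000800000000000000000000000000000000000000000000) := T_16 (nat_lit 198) (nat_lit 216) (nat_lit 7) (nat_lit 11) (nat_lit 8) L26293 (by decide +kernel)
theorem L26295 : W_16 (nat_lit 5) (nat_lit 0x4002600190009000680000000000000000000000000000000) (nat_lit 0x0) (nat_lit 0x14000f8004800000000000000000000000000000000000000000000) := T_16 (nat_lit 199) (nat_lit 182) (nat_lit 7) (nat_lit 11) (nat_lit 7) L26294 (by decide +kernel)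
theorem L26296 : W_16 (nat_lit 6) (nat_lit 0x4002200190009000680000000000000000000000000000000) (nat_lit 0x0) (nat_lit 0x14000f8004c00020000000000000000000000000000000000000000) := T_16 (nat_lit 178) (nat_lit 161) (nat_lit 5) (nat_lit 8) (nat_lit 7) L26295 (by decide +kernel)
theorem L26297 : W_16 (nat_lit 7) (nat_lit 0x4002200190009000280000000000000000000000000000000) (nat_lit 0x0) (nat_lit 0x14000f8004c00020000000400010000000000000000000000000000) := T_16 (nat_lit 130) (nat_lit 112) (nat_lit 4) (nat_lit 11) (nat_lit 10) L26296 (by decide +kernel)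
theorem L26298 : W_16 (nat_lit 8) (nat_lit 0x4002200180009000280000000000000000000000000000000) (nat_lit 0x0) (nat_lit 0x14000f8004c00030000800400010000000000000000000000000000) := T_16 (nat_lit 160) (nat_lit 143) (nat_lit 6) (nat_lit 7) (nat_lit 11) L26297 (by decide +kernel)
theorem L26299 : W_16 (nat_lit 2) (nat_lit 0x401a2005b0029001a80080000000000000000000000000000) (nat_lit 0x0) (nat_lit 0x2000100008000000000000000000000000) := D_16 (nat_lit 116) (nat_lit 99) (nat_lit 133) (nat_lit 6) (nat_lit 13) (nat_lit 9) (nat_lit 6) (nat_lit 13) (nat_lit 10) (by decide +kernel)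
theorem L26300 : W_16 (nat_lit 3) (nat_lit 0x401a2005b0029001a80000000000000000000000000000000) (nat_lit 0x0) (nat_lit 0x800000002000180008000000000000000000000000) := T_16 (nat_lit 115) (nat_lit 167) (nat_lit 7) (nat_lit 13) (nat_lit 6) L26299 (by decide +kernel)
theorem L26301 : W_16 (nat_lit 4) (nat_lit 0x401a2005b0009001a80000000000000000000000000000000) (nat_lit 0x0) (nat_lit 0x200000000800020002000180008000000000000000000000000) := T_16 (nat_lit 149) (nat_lit 201) (nat_lit 7) (nat_lit 13) (nat_lit 7) L26300 (by decide +kernel)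
theorem L26302 : W_16 (nat_lit 5) (nat_lit 0x401a200590009001a80000000000000000000000000000000) (nat_lit 0x0) (nat_lit 0x200000400820020002000180008000000000000000000000000) := T_16 (nat_lit 161) (nat_lit 178) (nat_lit 5) (nat_lit 8) (nat_lit 7) L26301 (by decide +kernel)
theorem L26303 : W_16 (nat_lit 6) (nat_lit 0x401a200190009001a80000000000000000000000000000000) (nat_lit 0x0) (nat_lit 0x200000400e20020002000180008000000000000000000000000) := T_16 (nat_lit 166) (nat_lit 165) (nat_lit 3) (nat_lit 10) (nat_lit 9) L26302 (by decide +kernel)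
theorem L26304 : W_16 (nat_lit 7) (nat_lit 0x401a200180009001a80000000000000000000000000000000) (nat_lit 0x0) (nat_lit 0x200000400e30020802000180008000000000000000000000000) := T_16 (nat_lit 160) (nat_lit 143) (nat_lit 6) (nat_lit 7) (nat_lit 11) L26303 (by decide +kernel)
theorem L26305 : W_16 (nat_lit 8) (nat_lit 0x400a200180009001a80000000000000000000000000000000) (nat_lit 0x0) (nat_lit 0x200014400e30020802000180008000000000000000000000000) := T_16 (nat_lit 184) (nat_lit 182) (nat_lit 0) (nat_lit 14) (nat_lit 10) L26304 (by decide +kernel)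
theorem L26306 : W_16 (nat_lit 2) (nat_lit 0x401a200180029001e80080000000000000000000000000000) (nat_lit 0x0) (nat_lit 0x200000000c00000000000000000000000000000000000000000) := D_16 (nat_lit 166) (nat_lit 201) (nat_lit 167) (nat_lit 7) (nat_lit 13) (nat_lit 7) (nat_lit 7) (nat_lit 13) (nat_lit 6) (by decide +kernel)
theorem L26307 : W_16 (nat_lit 3) (nat_lit 0x401a200180029001e80000000000000000000000000000000) (nat_lit 0x0) (nat_lit 0x200000000c00000000000180000000000000000000000000000) := T_16 (nat_lit 115) (nat_lit 116) (nat_lit 2) (nat_lit 10) (nat_lit 7) L26306 (by decide +kernel)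
theorem L26308 : W_16 (nat_lit 4) (nat_lit 0x401a200180009001e80000000000000000000000000000000) (nat_lit 0x0) (nat_lit 0x200000000c00060000000180000000000000000000000000000) := T_16 (nat_lit 149) (nat_lit 150) (nat_lit 3) (nat_lit 10) (nat_lit 7) L26307 (by decide +kernel)
theorem L26309 : W_16 (nat_lit 5) (nat_lit 0x401a200180009001a80000000000000000000000000000000) (nat_lit 0x0) (nat_lit 0x200000000c00060000400190000000000000000000000000000) := T_16 (nat_lit 130) (nat_lit 112) (nat_lit 4) (nat_lit 11) (nat_lit 10) L26308 (by decide +kernel)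
theorem L26310 : W_16 (nat_lit 6) (nat_lit 0x400a200180009001a80000000000000000000000000000000) (nat_lit 0x0) (nat_lit 0x200014000c00060000400190000000000000000000000000000) := T_16 (nat_lit 184) (nat_lit 182) (nat_lit 0) (nat_lit 14) (nat_lit 10) L26309 (by decide +kernel)
theorem L26311 : W_16 (nat_lit 2) (nat_lit 0x400a200190029001e80100000000000000000000000000000) (nat_lit 0x0) (nat_lit 0x400000002000200000000000000000000000000000) := D_16 (nat_lit 133) (nat_lit 117) (nat_lit 166) (nat_lit 2) (nat_lit 11) (nat_lit 7) (nat_lit 6) (nat_lit 13) (nat_lit 10) (by decide +kernel)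
theorem L26312 : W_16 (nat_lit 3) (nat_lit 0x400a200190029001e80000000000000000000000000000000) (nat_lit 0x0) (nat_lit 0x400000002000380000000000000000000000000000) := T_16 (nat_lit 116) (nat_lit 115) (nat_lit 2) (nat_lit 10) (nat_lit 7) L26311 (by decide +kernel)
theorem L26313 : W_16 (nat_lit 4) (nat_lit 0x400a200190009001e80000000000000000000000000000000) (nat_lit 0x0) (nat_lit 0x400060002000380000000000000000000000000000) := T_16 (nat_lit 149) (nat_lit 150) (nat_lit 3) (nat_lit 10) (nat_lit 7) L26312 (by decide +kernel)
theorem L26314 : W_16 (nat_lit 5) (nat_lit 0x400a200190009001a80000000000000000000000000000000) (nat_lit 0x0) (nat_lit 0x400060002400390000000000000000000000000000) := T_16 (nat_lit 130) (nat_lit 112) (nat_lit 4) (nat_lit 11) (nat_lit 10) L26313 (by decide +kernel)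
theorem L26315 : W_16 (nat_lit 6) (nat_lit 0x400a200180009001a80000000000000000000000000000000) (nat_lit 0x0) (nat_lit 0x410060802400390000000000000000000000000000) := T_16 (nat_lit 160) (nat_lit 143) (nat_lit 6) (nat_lit 7) (nat_lit 11) L26314 (by decide +kernel)
theorem L26316 : W_16 (nat_lit 2) (nat_lit 0x401a2001b0049001e80080000000000000000000000000000) (nat_lit 0x0) (nat_lit 0x800080002000000000000000000000000000000000) := D_16 (nat_lit 133) (nat_lit 151) (nat_lit 167) (nat_lit 3) (nat_lit 11) (nat_lit 7) (nat_lit 4) (nat_lit 14) (nat_lit 10) (by decide +kernel)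
theorem L26317 : W_16 (nat_lit 3) (nat_lit 0x401a2001b0049001e80000000000000000000000000000000) (nat_lit 0x0) (nat_lit 0x800080002000180000000000000000000000000000) := T_16 (nat_lit 115) (nat_lit 116) (nat_lit 2) (nat_lit 10) (nat_lit 7) L26316 (by decide +kernel)
theorem L26318 : W_16 (nat_lit 4) (nat_lit 0x401a2001b0009001e80000000000000000000000000000000) (nat_lit 0x0) (nat_lit 0x8000e0002000180000000000000000000000000000) := T_16 (nat_lit 150) (nat_lit 149) (nat_lit 3) (nat_lit 10) (nat_lit 7) L26317 (by decide +kernel)
theorem L26319 : W_16 (nat_lit 5) (nat_lit 0x401a2001b0009001a80000000000000000000000000000000) (nat_lit 0x0) (nat_lit 0x8000e0002400190000000000000000000000000000) := T_16 (nat_lit 130) (nat_lit 112) (nat_lit 4) (nat_lit 11) (nat_lit 10) L26318 (by decide +kernel)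
theorem L26320 : W_16 (nat_lit 6) (nat_lit 0x401a2001a0009001a80000000000000000000000000000000) (nat_lit 0x0) (nat_lit 0x8100e0802400190000000000000000000000000000) := T_16 (nat_lit 160) (nat_lit 143) (nat_lit 6) (nat_lit 7) (nat_lit 11) L26319 (by decide +kernel)
theorem L26321 : W_16 (nat_lit 7) (nat_lit 0x400a2001a0009001a80000000000000000000000000000000) (nat_lit 0x0) (nat_lit 0x140008100e0802400190000000000000000000000000000) := T_16 (nat_lit 184) (nat_lit 182) (nat_lit 0) (nat_lit 14) (nat_lit 10) L26320 (by decide +kernel)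
theorem L26322 : W_16 (nat_lit 8) (nat_lit 0x400a200180009001a80000000000000000000000000000000) (nat_lit 0x0) (nat_lit 0x144008300e0802400190000000000000000000000000000) := T_16 (nat_lit 161) (nat_lit 178) (nat_lit 5) (nat_lit 8) (nat_lit 7) L26321 (by decide +kernel)
theorem L26323 : W_16 (nat_lit 2) (nat_lit 0x401a200190049003e80100000000000000000000000000000) (nat_lit 0x0) (nat_lit 0xe00000000000000000000000000000000000000000) := D_16 (nat_lit 166) (nat_lit 165) (nat_lit 167) (nat_lit 3) (nat_lit 10) (nat_lit 9) (nat_lit 5) (nat_lit 14) (nat_lit 6) (by decide +kernel)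
theorem L26324 : W_16 (nat_lit 3) (nat_lit 0x401a200190009003e80100000000000000000000000000000) (nat_lit 0x0) (nat_lit 0xe000c0000000000000000000000000000000000000) := T_16 (nat_lit 150) (nat_lit 151) (nat_lit 3) (nat_lit 11) (nat_lit 7) L26323 (by decide +kernel)
theorem L26325 : W_16 (nat_lit 4) (nat_lit 0x400a200190009003e80100000000000000000000000000000) (nat_lit 0x0) (nat_lit 0x14000e000c0000000000000000000000000000000000000) := T_16 (nat_lit 184) (nat_lit 182) (nat_lit 0) (nat_lit 14) (nat_lit 10) L26324 (by decide +kernel)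
theorem L26326 : W_16 (nat_lit 5) (nat_lit 0x400a200190009001e80100000000000000000000000000000) (nat_lit 0x0) (nat_lit 0x14000e000c0002000200000000000000000000000000000) := T_16 (nat_lit 133) (nat_lit 117) (nat_lit 2) (nat_lit 11) (nat_lit 7) L26325 (by decide +kernel)
theorem L26327 : W_16 (nat_lit 6) (nat_lit 0x400a200180009001e80100000000000000000000000000000) (nat_lit 0x0) (nat_lit 0x14000e100c0802000200000000000000000000000000000) := T_16 (nat_lit 160) (nat_lit 143) (nat_lit 6) (nat_lit 7) (nat_lit 11) L26326 (by decide +kernel)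
theorem L26328 : W_16 (nat_lit 7) (nat_lit 0x400a200180009001e80000000000000000000000000000000) (nat_lit 0x0) (nat_lit 0x14000e100c0802000380000000000000000000000000000) := T_16 (nat_lit 116) (nat_lit 115) (nat_lit 2) (nat_lit 10) (nat_lit 7) L26327 (by decide +kernel)
theorem L26329 : W_16 (nat_lit 8) (nat_lit 0x400a200180009001a80000000000000000000000000000000) (nat_lit 0x0) (nat_lit 0x14000e100c0802400390000000000000000000000000000) := T_16 (nat_lit 130) (nat_lit 112) (nat_lit 4) (nat_lit 11) (nat_lit 10) L26328 (by decide +kernel)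
theorem L26330 : W_16 (nat_lit 2) (nat_lit 0x401a200180029001e80000000000000000000000000000000) (nat_lit 0x0) (nat_lit 0x200000000600000000000000000000000000000000000000000) := D_16 (nat_lit 166) (nat_lit 165) (nat_lit 201) (nat_lit 3) (nat_lit 10) (nat_lit 9) (nat_lit 7) (nat_lit 13) (nat_lit 7) (by decide +kernel)
theorem L26331 : W_16 (nat_lit 3) (nat_lit 0x401a200180009001e80000000000000000000000000000000) (nat_lit 0x0) (nat_lit 0x200000000600060000000000000000000000000000000000000) := T_16 (nat_lit 149) (nat_lit 150) (nat_lit 3) (nat_lit 10) (nat_lit 7) L26330 (by decide +kernel)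
theorem L26332 : W_16 (nat_lit 4) (nat_lit 0x401a200180009001a80000000000000000000000000000000) (nat_lit 0x0) (nat_lit 0x200000000600060000400010000000000000000000000000000) := T_16 (nat_lit 130) (nat_lit 112) (nat_lit 4) (nat_lit 11) (nat_lit 10) L26331 (by decide +kernel)
theorem L26333 : W_16 (nat_lit 5) (nat_lit 0x400a200180009001a80000000000000000000000000000000) (nat_lit 0x0) (nat_lit 0x200014000600060000400010000000000000000000000000000) := T_16 (nat_lit 184) (nat_lit 182) (nat_lit 0) (nat_lit 14) (nat_lit 10) L26332 (by decide +kernel)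
theorem L26334 : W_16 (nat_lit 9) (nat_lit 0x400a200180009000a80000000000000000000000000000000) (nat_lit 0x0) (nat_lit 0x200014400e300e0803400390008000000000000000000000000) := Q_16 (nat_lit 132) (C_16 L26305 (C_16 L26310 (C_16 L26315 (C_16 L26322 (C_16 L26329 (C_16 L26333 N_16)))))) (by decide +kernel)
theorem L26335 : W_16 (nat_lit 2) (nat_lit 0x1c0004400e2003b0009000a80000000000000000000000000000000) (nat_lit 0x0) (nat_lit 0x400030000000000000000000000000000) := D_16 (nat_lit 130) (nat_lit 112) (nat_lit 113) (nat_lit 4) (nat_lit 11) (nat_lit 10) (nat_lit 7) (nat_lit 11) (nat_lit 6) (by decide +kernel)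
theorem L26336 : W_16 (nat_lit 3) (nat_lit 0x1c0004400e2001b0009000a80000000000000000000000000000000) (nat_lit 0x0) (nat_lit 0x10000000000000000200000000400030000000000000000000000000000) := T_16 (nat_lit 165) (nat_lit 232) (nat_lit 6) (nat_lit 11) (nat_lit 13) L26335 (by decide +kernel)
theorem L26337 : W_16 (nat_lit 4) (nat_lit 0xc0004400e2001b0009000a80000000000000000000000000000000) (nat_lit 0x0) (nat_lit 0x30001000000000000200000000400030000000000000000000000000000) := T_16 (nat_lit 216) (nat_lit 233) (nat_lit 7) (nat_lit 11) (nat_lit 9) L26336 (by decide +kernel)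
theorem L26338 : W_16 (nat_lit 5) (nat_lit 0xc0004400e2001a0009000a80000000000000000000000000000000) (nat_lit 0x0) (nat_lit 0x30001000000000000210000800400030000000000000000000000000000) := T_16 (nat_lit 160) (nat_lit 143) (nat_lit 6) (nat_lit 7) (nat_lit 11) L26337 (by decide +kernel)
theorem L26339 : W_16 (nat_lit 6) (nat_lit 0x40004400e2001a0009000a80000000000000000000000000000000) (nat_lit 0x0) (nat_lit 0x38001800000000000210000800400030000000000000000000000000000) := T_16 (nat_lit 215) (nat_lit 231) (nat_lit 5) (nat_lit 11) (nat_lit 9) L26338 (by decide +kernel)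
theorem L26340 : W_16 (nat_lit 7) (nat_lit 0x40004400e200180009000a80000000000000000000000000000000) (nat_lit 0x0) (nat_lit 0x38001800000000400230000800400030000000000000000000000000000) := T_16 (nat_lit 161) (nat_lit 178) (nat_lit 5) (nat_lit 8) (nat_lit 7) L26339 (by decide +kernel)
theorem L26341 : W_16 (nat_lit 8) (nat_lit 0x4400e200180009000a80000000000000000000000000000000) (nat_lit 0x0) (nat_lit 0x38001c00020000400230000800400030000000000000000000000000000) := T_16 (nat_lit 214) (nat_lit 197) (nat_lit 5) (nat_lit 11) (nat_lit 8) L26340 (by decide +kernel)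
theorem L26342 : W_16 (nat_lit 9) (nat_lit 0x400e200180009000a80000000000000000000000000000000) (nat_lit 0x0) (nat_lit 0x38001c00060000400230010800400030000000000000000000000000000) := T_16 (nat_lit 198) (nat_lit 148) (nat_lit 6) (nat_lit 11) (nat_lit 11) L26341 (by decide +kernel)
theorem L26343 : W_16 (nat_lit 10) (nat_lit 0x400a200180009000a80000000000000000000000000000000) (nat_lit 0x0) (nat_lit 0x38001c00060014400230010800400030000000000000000000000000000) := T_16 (nat_lit 182) (nat_lit 184) (nat_lit 0) (nat_lit 14) (nat_lit 10) L26342 (by decide +kernel)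
theorem L26344 : W_16 (nat_lit 2) (nat_lit 0x401a2005b0039001e80000000000000000000000000000000) (nat_lit 0x0) (nat_lit 0x800000000000180000000000000000000000000000) := D_16 (nat_lit 115) (nat_lit 167) (nat_lit 116) (nat_lit 7) (nat_lit 13) (nat_lit 6) (nat_lit 2) (nat_lit 10) (nat_lit 7) (by decide +kernel)
theorem L26345 : W_16 (nat_lit 3) (nat_lit 0x401a2005b0039000e80000000000000000000000000000000) (nat_lit 0x0) (nat_lit 0x200000000800000001000180000000000000000000000000000) := T_16 (nat_lit 132) (nat_lit 201) (nat_lit 7) (nat_lit 13) (nat_lit 7) L26344 (by decide +kernel)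
theorem L26346 : W_16 (nat_lit 4) (nat_lit 0x401a2001b0039000e80000000000000000000000000000000) (nat_lit 0x0) (nat_lit 0x300000000c00000001000180000000000000000000000000000) := T_16 (nat_lit 166) (nat_lit 200) (nat_lit 4) (nat_lit 13) (nat_lit 11) L26345 (by decide +kernel)
theorem L26347 : W_16 (nat_lit 5) (nat_lit 0x401a200190039000e80000000000000000000000000000000) (nat_lit 0x0) (nat_lit 0x300000400c20000001000180000000000000000000000000000) := T_16 (nat_lit 161) (nat_lit 178) (nat_lit 5) (nat_lit 8) (nat_lit 7) L26346 (by decide +kernel)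
theorem L26348 : W_16 (nat_lit 6) (nat_lit 0x401a200190019000e80000000000000000000000000000000) (nat_lit 0x0) (nat_lit 0x300000400c20060001000180000000000000000000000000000) := T_16 (nat_lit 149) (nat_lit 150) (nat_lit 1) (nat_lit 14) (nat_lit 8) L26347 (by decide +kernel)
theorem L26349 : W_16 (nat_lit 7) (nat_lit 0x401a200180019000e80000000000000000000000000000000) (nat_lit 0x0) (nat_lit 0x300000400c30060801000180000000000000000000000000000) := T_16 (nat_lit 160) (nat_lit 143) (nat_lit 6) (nat_lit 7) (nat_lit 11) L26348 (by decide +kernel)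
theorem L26350 : W_16 (nat_lit 8) (nat_lit 0x401a200180009000e80000000000000000000000000000000) (nat_lit 0x0) (nat_lit 0x340000400c30070801000180000000000000000000000000000) := T_16 (nat_lit 148) (nat_lit 198) (nat_lit 6) (nat_lit 11) (nat_lit 11) L26349 (by decide +kernel)
theorem L26351 : W_16 (nat_lit 9) (nat_lit 0x400a200180009000e80000000000000000000000000000000) (nat_lit 0x0) (nat_lit 0x340014400c30070801000180000000000000000000000000000) := T_16 (nat_lit 184) (nat_lit 182) (nat_lit 0) (nat_lit 14) (nat_lit 10) L26350 (by decide +kernel)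
theorem L26352 : W_16 (nat_lit 10) (nat_lit 0x400a200180009000a80000000000000000000000000000000) (nat_lit 0x0) (nat_lit 0x340014400c30070801400190000000000000000000000000000) := T_16 (nat_lit 130) (nat_lit 112) (nat_lit 4) (nat_lit 11) (nat_lit 10) L26351 (by decide +kernel)
theorem L26353 : W_16 (nat_lit 4) (nat_lit 0x400a2005b0039000e80000000000000000000000000000000) (nat_lit 0x0) (nat_lit 0x200010000a00000001000180000000000000000000000000000) := T_16 (nat_lit 184) (nat_lit 165) (nat_lit 3) (nat_lit 10) (nat_lit 9) L26345 (by decide +kernel)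
theorem L26354 : W_16 (nat_lit 5) (nat_lit 0x400a2001b0039000e80000000000000000000000000000000) (nat_lit 0x0) (nat_lit 0x300010000e00000001000180000000000000000000000000000) := T_16 (nat_lit 166) (nat_lit 200) (nat_lit 4) (nat_lit 13) (nat_lit 11) L26353 (by decide +kernel)
theorem L26355 : W_16 (nat_lit 6) (nat_lit 0x400a2001b0019000e80000000000000000000000000000000) (nat_lit 0x0) (nat_lit 0x300010000e00060001000180000000000000000000000000000) := T_16 (nat_lit 149) (nat_lit 150) (nat_lit 1) (nat_lit 14) (nat_lit 8) L26354 (by decide +kernel)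
theorem L26356 : W_16 (nat_lit 7) (nat_lit 0x400a200190019000e80000000000000000000000000000000) (nat_lit 0x0) (nat_lit 0x300010400e20060001000180000000000000000000000000000) := T_16 (nat_lit 161) (nat_lit 178) (nat_lit 5) (nat_lit 8) (nat_lit 7) L26355 (by decide +kernel)
theorem L26357 : W_16 (nat_lit 8) (nat_lit 0x400a200190009000e80000000000000000000000000000000) (nat_lit 0x0) (nat_lit 0x340010400e20070001000180000000000000000000000000000) := T_16 (nat_lit 148) (nat_lit 198) (nat_lit 6) (nat_lit 11) (nat_lit 11) L26356 (by decide +kernel)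
theorem L26358 : W_16 (nat_lit 9) (nat_lit 0x400a200190009000a80000000000000000000000000000000) (nat_lit 0x0) (nat_lit 0x340010400e20070001400190000000000000000000000000000) := T_16 (nat_lit 130) (nat_lit 112) (nat_lit 4) (nat_lit 11) (nat_lit 10) L26357 (by decide +kernel)
theorem L26359 : W_16 (nat_lit 10) (nat_lit 0x400a200180009000a80000000000000000000000000000000) (nat_lit 0x0) (nat_lit 0x340010400e30070801400190000000000000000000000000000) := T_16 (nat_lit 160) (nat_lit 143) (nat_lit 6) (nat_lit 7) (nat_lit 11) L26358 (by decide +kernel)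
theorem L26360 : W_16 (nat_lit 2) (nat_lit 0x401a200590019000a80000000000000000000000000000000) (nat_lit 0x0) (nat_lit 0x100000000000060000000000000000000000000000000000000) := D_16 (nat_lit 149) (nat_lit 200) (nat_lit 150) (nat_lit 4) (nat_lit 13) (nat_lit 11) (nat_lit 1) (nat_lit 14) (nat_lit 8) (by decide +kernel)
theorem L26361 : W_16 (nat_lit 3) (nat_lit 0x401a200590009000a80000000000000000000000000000000) (nat_lit 0x0) (nat_lit 0x140000000000070000000000000000000000000000000000000) := T_16 (nat_lit 148) (nat_lit 198) (nat_lit 6) (nat_lit 11) (nat_lit 11) L26360 (by decide +kernel)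
theorem L26362 : W_16 (nat_lit 4) (nat_lit 0x401a200190009000a80000000000000000000000000000000) (nat_lit 0x0) (nat_lit 0x140000000600070000000000000000000000000000000000000) := T_16 (nat_lit 166) (nat_lit 165) (nat_lit 3) (nat_lit 10) (nat_lit 9) L26361 (by decide +kernel)
theorem L26363 : W_16 (nat_lit 5) (nat_lit 0x401a200180009000a80000000000000000000000000000000) (nat_lit 0x0) (nat_lit 0x140000000610070800000000000000000000000000000000000) := T_16 (nat_lit 160) (nat_lit 143) (nat_lit 6) (nat_lit 7) (nat_lit 11) L26362 (by decide +kernel)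
theorem L26364 : W_16 (nat_lit 6) (nat_lit 0x400a200180009000a80000000000000000000000000000000) (nat_lit 0x0) (nat_lit 0x140014000610070800000000000000000000000000000000000) := T_16 (nat_lit 184) (nat_lit 182) (nat_lit 0) (nat_lit 14) (nat_lit 10) L26363 (by decide +kernel)
theorem L26365 : W_16 (nat_lit 2) (nat_lit 0x401a2005a0019000e80000000000000000000000000000000) (nat_lit 0x0) (nat_lit 0x100000000000060000000000000000000000000000000000000) := D_16 (nat_lit 149) (nat_lit 150) (nat_lit 200) (nat_lit 1) (nat_lit 14) (nat_lit 8) (nat_lit 4) (nat_lit 13) (nat_lit 11) (by decide +kernel)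
theorem L26366 : W_16 (nat_lit 3) (nat_lit 0x401a2001a0019000e80000000000000000000000000000000) (nat_lit 0x0) (nat_lit 0x100000000600060000000000000000000000000000000000000) := T_16 (nat_lit 166) (nat_lit 165) (nat_lit 3) (nat_lit 10) (nat_lit 9) L26365 (by decide +kernel)
theorem L26367 : W_16 (nat_lit 4) (nat_lit 0x401a2001a0009000e80000000000000000000000000000000) (nat_lit 0x0) (nat_lit 0x140000000600070000000000000000000000000000000000000) := T_16 (nat_lit 148) (nat_lit 198) (nat_lit 6) (nat_lit 11) (nat_lit 11) L26366 (by decide +kernel)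
theorem L26368 : W_16 (nat_lit 5) (nat_lit 0x400a2001a0009000e80000000000000000000000000000000) (nat_lit 0x0) (nat_lit 0x140014000600070000000000000000000000000000000000000) := T_16 (nat_lit 184) (nat_lit 182) (nat_lit 0) (nat_lit 14) (nat_lit 10) L26367 (by decide +kernel)
theorem L26369 : W_16 (nat_lit 6) (nat_lit 0x400a200180009000e80000000000000000000000000000000) (nat_lit 0x0) (nat_lit 0x140014400620070000000000000000000000000000000000000) := T_16 (nat_lit 161) (nat_lit 178) (nat_lit 5) (nat_lit 8) (nat_lit 7) L26368 (by decide +kernel)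
theorem L26370 : W_16 (nat_lit 7) (nat_lit 0x400a200180009000a80000000000000000000000000000000) (nat_lit 0x0) (nat_lit 0x140014400620070000400010000000000000000000000000000) := T_16 (nat_lit 130) (nat_lit 112) (nat_lit 4) (nat_lit 11) (nat_lit 10) L26369 (by decide +kernel)
theorem L26371 : W_16 (nat_lit 2) (nat_lit 0x400a2001b0039003a80000000000000000000000000000000) (nat_lit 0x0) (nat_lit 0x100000000400000000000100000000000000000000000000000) := D_16 (nat_lit 166) (nat_lit 200) (nat_lit 116) (nat_lit 4) (nat_lit 13) (nat_lit 11) (nat_lit 6) (nat_lit 13) (nat_lit 10) (by decide +kernel)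
theorem L26372 : W_16 (nat_lit 3) (nat_lit 0x400a2001b0039001a80000000000000000000000000000000) (nat_lit 0x0) (nat_lit 0x100000000400000006000100000000000000000000000000000) := T_16 (nat_lit 133) (nat_lit 134) (nat_lit 1) (nat_lit 15) (nat_lit 7) L26371 (by decide +kernel)
theorem L26373 : W_16 (nat_lit 4) (nat_lit 0x400a2001b0019001a80000000000000000000000000000000) (nat_lit 0x0) (nat_lit 0x100000000400060006000100000000000000000000000000000) := T_16 (nat_lit 149) (nat_lit 150) (nat_lit 1) (nat_lit 14) (nat_lit 8) L26372 (by decide +kernel)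
theorem L26374 : W_16 (nat_lit 5) (nat_lit 0x400a2001b0009001a80000000000000000000000000000000) (nat_lit 0x0) (nat_lit 0x140000000400070006000100000000000000000000000000000) := T_16 (nat_lit 148) (nat_lit 198) (nat_lit 6) (nat_lit 11) (nat_lit 11) L26373 (by decide +kernel)
theorem L26375 : W_16 (nat_lit 6) (nat_lit 0x400a200190009001a80000000000000000000000000000000) (nat_lit 0x0) (nat_lit 0x140000400420070006000100000000000000000000000000000) := T_16 (nat_lit 161) (nat_lit 178) (nat_lit 5) (nat_lit 8) (nat_lit 7) L26374 (by decide +kernel)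
theorem L26376 : W_16 (nat_lit 7) (nat_lit 0x400a200180009001a80000000000000000000000000000000) (nat_lit 0x0) (nat_lit 0x140000400430070806000100000000000000000000000000000) := T_16 (nat_lit 160) (nat_lit 143) (nat_lit 6) (nat_lit 7) (nat_lit 11) L26375 (by decide +kernel)
theorem L26377 : W_16 (nat_lit 2) (nat_lit 0x6400a2001b0049001e80100000000000000000000000000000) (nat_lit 0x0) (nat_lit 0x80002000200000000000000000000000000000) := D_16 (nat_lit 133) (nat_lit 151) (nat_lit 117) (nat_lit 3) (nat_lit 11) (nat_lit 7) (nat_lit 2) (nat_lit 11) (nat_lit 7) (by decide +kernel)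
theorem L26378 : W_16 (nat_lit 3) (nat_lit 0x6400a2001b0049001e80000000000000000000000000000000) (nat_lit 0x0) (nat_lit 0x80002000380000000000000000000000000000) := T_16 (nat_lit 116) (nat_lit 115) (nat_lit 2) (nat_lit 10) (nat_lit 7) L26377 (by decide +kernel)
theorem L26379 : W_16 (nat_lit 4) (nat_lit 0x6400a2001b0009001e80000000000000000000000000000000) (nat_lit 0x0) (nat_lit 0xe0002000380000000000000000000000000000) := T_16 (nat_lit 150) (nat_lit 149) (nat_lit 3) (nat_lit 10) (nat_lit 7) L26378 (by decide +kernel)
theorem L26380 : W_16 (nat_lit 5) (nat_lit 0x6400a2001b0009001a80000000000000000000000000000000) (nat_lit 0x0) (nat_lit 0xe0002400390000000000000000000000000000) := T_16 (nat_lit 130) (nat_lit 112) (nat_lit 4) (nat_lit 11) (nat_lit 10) L26379 (by decide +kernel)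
theorem L26381 : W_16 (nat_lit 6) (nat_lit 0x6400a2001a0009001a80000000000000000000000000000000) (nat_lit 0x0) (nat_lit 0x100e0802400390000000000000000000000000000) := T_16 (nat_lit 160) (nat_lit 143) (nat_lit 6) (nat_lit 7) (nat_lit 11) L26380 (by decide +kernel)
theorem L26382 : W_16 (nat_lit 7) (nat_lit 0x6400a200180009001a80000000000000000000000000000000) (nat_lit 0x0) (nat_lit 0x4000300e0802400390000000000000000000000000000) := T_16 (nat_lit 161) (nat_lit 178) (nat_lit 5) (nat_lit 8) (nat_lit 7) L26381 (by decide +kernel)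
theorem L26383 : W_16 (nat_lit 8) (nat_lit 0x4400a200180009001a80000000000000000000000000000000) (nat_lit 0x0) (nat_lit 0x4000200004000300e0802400390000000000000000000000000000) := T_16 (nat_lit 197) (nat_lit 214) (nat_lit 5) (nat_lit 11) (nat_lit 8) L26382 (by decide +kernel)
theorem L26384 : W_16 (nat_lit 9) (nat_lit 0x400a200180009001a80000000000000000000000000000000) (nat_lit 0x0) (nat_lit 0x4000600004000300f0802400390000000000000000000000000000) := T_16 (nat_lit 198) (nat_lit 148) (nat_lit 6) (nat_lit 11) (nat_lit 11) L26383 (by decide +kernel)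
theorem L26385 : W_16 (nat_lit 2) (nat_lit 0x400a2001a0039001e80080000000000000000000000000000) (nat_lit 0x0) (nat_lit 0x4000200000000000000004000000000000000000000000) := D_16 (nat_lit 165) (nat_lit 182) (nat_lit 98) (nat_lit 6) (nat_lit 12) (nat_lit 10) (nat_lit 5) (nat_lit 13) (nat_lit 5) (by decide +kernel)
theorem L26386 : W_16 (nat_lit 3) (nat_lit 0x400a2001a0029001e80080000000000000000000000000000) (nat_lit 0x0) (nat_lit 0x40004000200010000000000004000000000000000000000000) := T_16 (nat_lit 148) (nat_lit 198) (nat_lit 6) (nat_lit 11) (nat_lit 11) L26385 (by decide +kernel)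
theorem L26387 : W_16 (nat_lit 4) (nat_lit 0x400a200180029001e80080000000000000000000000000000) (nat_lit 0x0) (nat_lit 0x40004400220010000000000004000000000000000000000000) := T_16 (nat_lit 161) (nat_lit 178) (nat_lit 5) (nat_lit 8) (nat_lit 7) L26386 (by decide +kernel)
theorem L26388 : W_16 (nat_lit 5) (nat_lit 0x400a200180029001e80000000000000000000000000000000) (nat_lit 0x0) (nat_lit 0x40004400220010000000180004000000000000000000000000) := T_16 (nat_lit 115) (nat_lit 116) (nat_lit 2) (nat_lit 10) (nat_lit 7) L26387 (by decide +kernel)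
theorem L26389 : W_16 (nat_lit 6) (nat_lit 0x400a200180009001e80000000000000000000000000000000) (nat_lit 0x0) (nat_lit 0x40004400220070000000180004000000000000000000000000) := T_16 (nat_lit 149) (nat_lit 150) (nat_lit 3) (nat_lit 10) (nat_lit 7) L26388 (by decide +kernel)
theorem L26390 : W_16 (nat_lit 7) (nat_lit 0x400a200180009001a80000000000000000000000000000000) (nat_lit 0x0) (nat_lit 0x40004400220070000400190004000000000000000000000000) := T_16 (nat_lit 130) (nat_lit 112) (nat_lit 4) (nat_lit 11) (nat_lit 10) L26389 (by decide +kernel)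
theorem L26391 : W_16 (nat_lit 2) (nat_lit 0x400a200190019003e80000000000000000000000000000000) (nat_lit 0x0) (nat_lit 0x380000000000000000000000000000) := D_16 (nat_lit 116) (nat_lit 117) (nat_lit 115) (nat_lit 2) (nat_lit 11) (nat_lit 7) (nat_lit 2) (nat_lit 10) (nat_lit 7) (by decide +kernel)
theorem L26392 : W_16 (nat_lit 3) (nat_lit 0x400a200190019003a80000000000000000000000000000000) (nat_lit 0x0) (nat_lit 0x400390000000000000000000000000000) := T_16 (nat_lit 130) (nat_lit 112) (nat_lit 4) (nat_lit 11) (nat_lit 10) L26391 (by decide +kernel)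
theorem L26393 : W_16 (nat_lit 4) (nat_lit 0x400a200190019001a80000000000000000000000000000000) (nat_lit 0x0) (nat_lit 0x6400390000000000000000000000000000) := T_16 (nat_lit 133) (nat_lit 134) (nat_lit 1) (nat_lit 15) (nat_lit 7) L26392 (by decide +kernel)
theorem L26394 : W_16 (nat_lit 5) (nat_lit 0x400a200180019001a80000000000000000000000000000000) (nat_lit 0x0) (nat_lit 0x10000806400390000000000000000000000000000) := T_16 (nat_lit 160) (nat_lit 143) (nat_lit 6) (nat_lit 7) (nat_lit 11) L26393 (by decide +kernel)
theorem L26395 : W_16 (nat_lit 6) (nat_lit 0x400a200180009001a80000000000000000000000000000000) (nat_lit 0x0) (nat_lit 0x40000000010010806400390000000000000000000000000000) := T_16 (nat_lit 148) (nat_lit 198) (nat_lit 6) (nat_lit 11) (nat_lit 11) L26394 (by decide +kernel)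
theorem L26396 : W_16 (nat_lit 2) (nat_lit 0x400a2001a0059001e80000000000000000000000000000000) (nat_lit 0x0) (nat_lit 0x80006000000000000000000000000000000000) := D_16 (nat_lit 133) (nat_lit 134) (nat_lit 151) (nat_lit 1) (nat_lit 15) (nat_lit 7) (nat_lit 3) (nat_lit 11) (nat_lit 7) (by decide +kernel)
theorem L26397 : W_16 (nat_lit 3) (nat_lit 0x400a2001a0019001e80000000000000000000000000000000) (nat_lit 0x0) (nat_lit 0xe0006000000000000000000000000000000000) := T_16 (nat_lit 150) (nat_lit 149) (nat_lit 3) (nat_lit 10) (nat_lit 7) L26396 (by decide +kernel)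
theorem L26398 : W_16 (nat_lit 4) (nat_lit 0x400a2001a0019001a80000000000000000000000000000000) (nat_lit 0x0) (nat_lit 0xe0006400010000000000000000000000000000) := T_16 (nat_lit 130) (nat_lit 112) (nat_lit 4) (nat_lit 11) (nat_lit 10) L26397 (by decide +kernel)
theorem L26399 : W_16 (nat_lit 5) (nat_lit 0x400a2001a0009001a80000000000000000000000000000000) (nat_lit 0x0) (nat_lit 0x400000000000f0006400010000000000000000000000000000) := T_16 (nat_lit 148) (nat_lit 198) (nat_lit 6) (nat_lit 11) (nat_lit 11) L26398 (by decide +kernel)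
theorem L26400 : W_16 (nat_lit 6) (nat_lit 0x400a200180009001a80000000000000000000000000000000) (nat_lit 0x0) (nat_lit 0x400004000200f0006400010000000000000000000000000000) := T_16 (nat_lit 161) (nat_lit 178) (nat_lit 5) (nat_lit 8) (nat_lit 7) L26399 (by decide +kernel)
theorem L26401 : W_16 (nat_lit 10) (nat_lit 0x400a200180009000a80000000000000000000000000000000) (nat_lit 0x0) (nat_lit 0x4001600044006300f0807400390004000000000000000000000000) := Q_16 (nat_lit 132) (C_16 L26376 (C_16 L26315 (C_16 L26384 (C_16 L26390 (C_16 L26395 (C_16 L26400 N_16)))))) (by decide +kernel)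
theorem L26402 : W_16 (nat_lit 11) (nat_lit 0x4002200180009000a80000000000000000000000000000000) (nat_lit 0x0) (nat_lit 0x38001c0036001c400e300f08074003b000c000000000000000000000000) := Q_16 (nat_lit 183) (C_16 L26334 (C_16 L26343 (C_16 L26352 (C_16 L26359 (C_16 L26364 (C_16 L26370 (C_16 L26401 N_16))))))) (by decide +kernel)
theorem L26403 : W_16 (nat_lit 2) (nat_lit 0x4002200180009000a80000000000000000000000000000000) (nat_lit 0x0) (nat_lit 0x400050000000000000000000000000000) := D_16 (nat_lit 130) (nat_lit 112) (nat_lit 114) (nat_lit 4) (nat_lit 11) (nat_lit 10) (nat_lit 6) (nat_lit 11) (nat_lit 10) (by decide +kernel)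
theorem L26404 : W_16 (nat_lit 2) (nat_lit 0x40022001a0019000a80000000000000000000000000000000) (nat_lit 0x0) (nat_lit 0x200000000000040002000000000000000000000000) := D_16 (nat_lit 114) (nat_lit 165) (nat_lit 97) (nat_lit 5) (nat_lit 12) (nat_lit 6) (nat_lit 5) (nat_lit 12) (nat_lit 5) (by decide +kernel)
theorem L26405 : W_16 (nat_lit 3) (nat_lit 0x40022001a0009000a80000000000000000000000000000000) (nat_lit 0x0) (nat_lit 0x40000000200010000000040002000000000000000000000000) := T_16 (nat_lit 148) (nat_lit 198) (nat_lit 6) (nat_lit 11) (nat_lit 11) L26404 (by decide +kernel)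
theorem L26406 : W_16 (nat_lit 4) (nat_lit 0x4002200180009000a80000000000000000000000000000000) (nat_lit 0x0) (nat_lit 0x40000400220010000000040002000000000000000000000000) := T_16 (nat_lit 161) (nat_lit 178) (nat_lit 5) (nat_lit 8) (nat_lit 7) L26405 (by decide +kernel)
theorem L26407 : W_16 (nat_lit 12) (nat_lit 0x4002200180009000280000000000000000000000000000000) (nat_lit 0x0) (nat_lit 0x38001c0036001c400e300f0807c003f000e000000000000000000000000) := Q_16 (nat_lit 131) (C_16 L26402 (C_16 L26403 (C_16 L26406 N_16))) (by decide +kernel)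
theorem L26408 : W_16 (nat_lit 13) (nat_lit 0x4002200180001000280000000000000000000000000000000) (nat_lit 0x0) (nat_lit 0x38001c003f801cc00e300f8807c003f000e000000000000000000000000) := Q_16 (nat_lit 147) (C_16 L26190 (C_16 L26265 (C_16 L26273 (C_16 L26278 (C_16 L26291 (C_16 L26298 (C_16 L26407 N_16))))))) (by decide +kernel)
theorem L26409 : W_16 (nat_lit 2) (nat_lit 0x2c400f200180039000280000000000000000000000000000000) (nat_lit 0x0) (nat_lit 0xc00000001000000000000000000000000000000000) := D_16 (nat_lit 166) (nat_lit 167) (nat_lit 132) (nat_lit 2) (nat_lit 10) (nat_lit 10) (nat_lit 5) (nat_lit 13) (nat_lit 7) (by decide +kernel)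
theorem L26410 : W_16 (nat_lit 3) (nat_lit 0x2c400f200180019000280000000000000000000000000000000) (nat_lit 0x0) (nat_lit 0xc00060001000000000000000000000000000000000) := T_16 (nat_lit 149) (nat_lit 150) (nat_lit 1) (nat_lit 14) (nat_lit 8) L26409 (by decide +kernel)
theorem L26411 : W_16 (nat_lit 4) (nat_lit 0x2c400f200180009000280000000000000000000000000000000) (nat_lit 0x0) (nat_lit 0xc00070001800000000000000000000000000000000) := T_16 (nat_lit 148) (nat_lit 131) (nat_lit 6) (nat_lit 11) (nat_lit 11) L26410 (by decide +kernel)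
theorem L26412 : W_16 (nat_lit 5) (nat_lit 0x2c4007200180009000280000000000000000000000000000000) (nat_lit 0x0) (nat_lit 0x18000c00070001800000000000000000000000000000000) := T_16 (nat_lit 183) (nat_lit 184) (nat_lit 0) (nat_lit 14) (nat_lit 10) L26411 (by decide +kernel)
theorem L26413 : W_16 (nat_lit 6) (nat_lit 0xc4007200180009000280000000000000000000000000000000) (nat_lit 0x0) (nat_lit 0x300018000c00070001800000000000000000000000000000000) := T_16 (nat_lit 201) (nat_lit 200) (nat_lit 0) (nat_lit 14) (nat_lit 11) L26412 (by decide +kernel)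
theorem L26414 : W_16 (nat_lit 7) (nat_lit 0x44007200180009000280000000000000000000000000000000) (nat_lit 0x0) (nat_lit 0x1000380018000c00070001800000000000000000000000000000000) := T_16 (nat_lit 199) (nat_lit 216) (nat_lit 7) (nat_lit 11) (nat_lit 8) L26413 (by decide +kernel)
theorem L26415 : W_16 (nat_lit 2) (nat_lit 0x20001c400f2001a0059000280000000000000000000000000000000) (nat_lit 0x0) (nat_lit 0x4000030000000000000000000000000000000000000000000000000) := D_16 (nat_lit 197) (nat_lit 218) (nat_lit 196) (nat_lit 3) (nat_lit 10) (nat_lit 11) (nat_lit 2) (nat_lit 9) (nat_lit 11) (by decide +kernel)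
theorem L26416 : W_16 (nat_lit 3) (nat_lit 0x20001c40072001a0059000280000000000000000000000000000000) (nat_lit 0x0) (nat_lit 0x4000030018000000000000000000000000000000000000000000000) := T_16 (nat_lit 183) (nat_lit 184) (nat_lit 0) (nat_lit 14) (nat_lit 10) L26415 (by decide +kernel)
theorem L26417 : W_16 (nat_lit 4) (nat_lit 0x1c40072001a0059000280000000000000000000000000000000) (nat_lit 0x0) (nat_lit 0x6000030018000200000000000000000000000000000000000000000) := T_16 (nat_lit 217) (nat_lit 165) (nat_lit 7) (nat_lit 12) (nat_lit 8) L26416 (by decide +kernel)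
theorem L26418 : W_16 (nat_lit 5) (nat_lit 0x1c4007200180059000280000000000000000000000000000000) (nat_lit 0x0) (nat_lit 0x6000030018400220000000000000000000000000000000000000000) := T_16 (nat_lit 161) (nat_lit 178) (nat_lit 5) (nat_lit 8) (nat_lit 7) L26417 (by decide +kernel)
theorem L26419 : W_16 (nat_lit 6) (nat_lit 0xc4007200180059000280000000000000000000000000000000) (nat_lit 0x0) (nat_lit 0x6000330018400220000000000000000000000000000000000000000) := T_16 (nat_lit 200) (nat_lit 201) (nat_lit 0) (nat_lit 14) (nat_lit 11) L26418 (by decide +kernel)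
theorem L26420 : W_16 (nat_lit 7) (nat_lit 0x44007200180059000280000000000000000000000000000000) (nat_lit 0x0) (nat_lit 0x70003b0018400220000000000000000000000000000000000000000) := T_16 (nat_lit 199) (nat_lit 216) (nat_lit 7) (nat_lit 11) (nat_lit 8) L26419 (by decide +kernel)
theorem L26421 : W_16 (nat_lit 8) (nat_lit 0x44007200180019000280000000000000000000000000000000) (nat_lit 0x0) (nat_lit 0x70003b0018400220060000000000000000000000000000000000000) := T_16 (nat_lit 150) (nat_lit 149) (nat_lit 1) (nat_lit 14) (nat_lit 8) L26420 (by decide +kernel)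
theorem L26422 : W_16 (nat_lit 9) (nat_lit 0x44007200180009000280000000000000000000000000000000) (nat_lit 0x0) (nat_lit 0x70003b0018400220070000800000000000000000000000000000000) := T_16 (nat_lit 148) (nat_lit 131) (nat_lit 6) (nat_lit 11) (nat_lit 11) L26421 (by decide +kernel)
theorem L26423 : W_16 (nat_lit 2) (nat_lit 0xc4007200380039000280000000000000000000000000000000) (nat_lit 0x0) (nat_lit 0x2000300000000000000000000000000000000000000000000000000) := D_16 (nat_lit 200) (nat_lit 201) (nat_lit 217) (nat_lit 0) (nat_lit 14) (nat_lit 11) (nat_lit 7) (nat_lit 12) (nat_lit 8) (by decide +kernel)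
theorem L26424 : W_16 (nat_lit 3) (nat_lit 0xc4007200180039000280000000000000000000000000000000) (nat_lit 0x0) (nat_lit 0x2000300000000200000001000000000000000000000000000000000) := T_16 (nat_lit 165) (nat_lit 132) (nat_lit 6) (nat_lit 12) (nat_lit 11) L26423 (by decide +kernel)
theorem L26425 : W_16 (nat_lit 4) (nat_lit 0x44007200180039000280000000000000000000000000000000) (nat_lit 0x0) (nat_lit 0x3000380000000200000001000000000000000000000000000000000) := T_16 (nat_lit 199) (nat_lit 216) (nat_lit 7) (nat_lit 11) (nat_lit 8) L26424 (by decide +kernel)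
theorem L26426 : W_16 (nat_lit 5) (nat_lit 0x44007200180019000280000000000000000000000000000000) (nat_lit 0x0) (nat_lit 0x3000380000000200060001000000000000000000000000000000000) := T_16 (nat_lit 149) (nat_lit 150) (nat_lit 1) (nat_lit 14) (nat_lit 8) L26425 (by decide +kernel)
theorem L26427 : W_16 (nat_lit 6) (nat_lit 0x44007200180009000280000000000000000000000000000000) (nat_lit 0x0) (nat_lit 0x3000380000000200070001800000000000000000000000000000000) := T_16 (nat_lit 148) (nat_lit 131) (nat_lit 6) (nat_lit 11) (nat_lit 11) L26426 (by decide +kernel)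
theorem L26428 : W_16 (nat_lit 2) (nat_lit 0x1d400f2005a0029000280000000000000000000000000000000) (nat_lit 0x0) (nat_lit 0x200040002000000000000000000000000000000000) := D_16 (nat_lit 150) (nat_lit 133) (nat_lit 165) (nat_lit 6) (nat_lit 13) (nat_lit 11) (nat_lit 2) (nat_lit 10) (nat_lit 9) (by decide +kernel)
theorem L26429 : W_16 (nat_lit 3) (nat_lit 0xd400f2005a0029000280000000000000000000000000000000) (nat_lit 0x0) (nat_lit 0x300000000200040002000000000000000000000000000000000) := T_16 (nat_lit 200) (nat_lit 201) (nat_lit 3) (nat_lit 10) (nat_lit 10) L26428 (by decide +kernel)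
theorem L26430 : W_16 (nat_lit 4) (nat_lit 0xd400f2005a0009000280000000000000000000000000000000) (nat_lit 0x0) (nat_lit 0x300000000200060003000000000000000000000000000000000) := T_16 (nat_lit 149) (nat_lit 132) (nat_lit 5) (nat_lit 13) (nat_lit 7) L26429 (by decide +kernel)
theorem L26431 : W_16 (nat_lit 5) (nat_lit 0xd400f2001a0009000280000000000000000000000000000000) (nat_lit 0x0) (nat_lit 0x300000000e00060003000000000000000000000000000000000) := T_16 (nat_lit 166) (nat_lit 167) (nat_lit 2) (nat_lit 10) (nat_lit 10) L26430 (by decide +kernel)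
theorem L26432 : W_16 (nat_lit 6) (nat_lit 0xc400f2001a0009000280000000000000000000000000000000) (nat_lit 0x0) (nat_lit 0x330000000e00060003000000000000000000000000000000000) := T_16 (nat_lit 196) (nat_lit 197) (nat_lit 2) (nat_lit 9) (nat_lit 11) L26431 (by decide +kernel)
theorem L26433 : W_16 (nat_lit 7) (nat_lit 0x4400f2001a0009000280000000000000000000000000000000) (nat_lit 0x0) (nat_lit 0x10003b0000000e00060003000000000000000000000000000000000) := T_16 (nat_lit 199) (nat_lit 216) (nat_lit 7) (nat_lit 11) (nat_lit 8) L26432 (by decide +kernel)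
theorem L26434 : W_16 (nat_lit 8) (nat_lit 0x440072001a0009000280000000000000000000000000000000) (nat_lit 0x0) (nat_lit 0x10003b0018000e00060003000000000000000000000000000000000) := T_16 (nat_lit 183) (nat_lit 184) (nat_lit 0) (nat_lit 14) (nat_lit 10) L26433 (by decide +kernel)
theorem L26435 : W_16 (nat_lit 9) (nat_lit 0x44007200180009000280000000000000000000000000000000) (nat_lit 0x0) (nat_lit 0x10003b0018400e20060003000000000000000000000000000000000) := T_16 (nat_lit 161) (nat_lit 178) (nat_lit 5) (nat_lit 8) (nat_lit 7) L26434 (by decide +kernel)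
theorem L26436 : W_16 (nat_lit 2) (nat_lit 0x20001c400f2001b0019000280000000000000000000000000000000) (nat_lit 0x0) (nat_lit 0x4000030000000000000000000000000000000000000000000000000) := D_16 (nat_lit 197) (nat_lit 218) (nat_lit 196) (nat_lit 3) (nat_lit 10) (nat_lit 11) (nat_lit 2) (nat_lit 9) (nat_lit 11) (by decide +kernel)
theorem L26437 : W_16 (nat_lit 3) (nat_lit 0x20001c40072001b0019000280000000000000000000000000000000) (nat_lit 0x0) (nat_lit 0x4000030018000000000000000000000000000000000000000000000) := T_16 (nat_lit 183) (nat_lit 184) (nat_lit 0) (nat_lit 14) (nat_lit 10) L26436 (by decide +kernel)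
theorem L26438 : W_16 (nat_lit 4) (nat_lit 0x1c40072001b0019000280000000000000000000000000000000) (nat_lit 0x0) (nat_lit 0x6000030018000200000000000000000000000000000000000000000) := T_16 (nat_lit 217) (nat_lit 165) (nat_lit 7) (nat_lit 12) (nat_lit 8) L26437 (by decide +kernel)
theorem L26439 : W_16 (nat_lit 5) (nat_lit 0x1c40072001b0009000280000000000000000000000000000000) (nat_lit 0x0) (nat_lit 0x6000030018000200010000800000000000000000000000000000000) := T_16 (nat_lit 148) (nat_lit 131) (nat_lit 6) (nat_lit 11) (nat_lit 11) L26438 (by decide +kernel)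
theorem L26440 : W_16 (nat_lit 6) (nat_lit 0x1c4007200190009000280000000000000000000000000000000) (nat_lit 0x0) (nat_lit 0x6000030018400220010000800000000000000000000000000000000) := T_16 (nat_lit 161) (nat_lit 178) (nat_lit 5) (nat_lit 8) (nat_lit 7) L26439 (by decide +kernel)
theorem L26441 : W_16 (nat_lit 7) (nat_lit 0x1c4007200180009000280000000000000000000000000000000) (nat_lit 0x0) (nat_lit 0x6000030018400230010800800000000000000000000000000000000) := T_16 (nat_lit 160) (nat_lit 143) (nat_lit 6) (nat_lit 7) (nat_lit 11) L26440 (by decide +kernel)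
theorem L26442 : W_16 (nat_lit 8) (nat_lit 0xc4007200180009000280000000000000000000000000000000) (nat_lit 0x0) (nat_lit 0x6000330018400230010800800000000000000000000000000000000) := T_16 (nat_lit 200) (nat_lit 201) (nat_lit 0) (nat_lit 14) (nat_lit 11) L26441 (by decide +kernel)
theorem L26443 : W_16 (nat_lit 9) (nat_lit 0x44007200180009000280000000000000000000000000000000) (nat_lit 0x0) (nat_lit 0x70003b0018400230010800800000000000000000000000000000000) := T_16 (nat_lit 199) (nat_lit 216) (nat_lit 7) (nat_lit 11) (nat_lit 8) L26442 (by decide +kernel)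
theorem L26444 : W_16 (nat_lit 2) (nat_lit 0xa000200014400f200580019000280000000000000000000000000000000) (nat_lit 0x0) (nat_lit 0x1400040000000000000000000000000000000000000000000000000000000000) := D_16 (nat_lit 234) (nat_lit 252) (nat_lit 250) (nat_lit 7) (nat_lit 13) (nat_lit 10) (nat_lit 5) (nat_lit 13) (nat_lit 10) (by decide +kernel)
theorem L26445 : W_16 (nat_lit 3) (nat_lit 0x8000200014400f200580019000280000000000000000000000000000000) (nat_lit 0x0) (nat_lit 0x1400060001000000000000000000000000000000000000000000000000000000) := T_16 (nat_lit 233) (nat_lit 216) (nat_lit 5) (nat_lit 13) (nat_lit 9) L26444 (by decide +kernel)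
theorem L26446 : W_16 (nat_lit 4) (nat_lit 0x200014400f200580019000280000000000000000000000000000000) (nat_lit 0x0) (nat_lit 0x14000e0005000000000000000000000000000000000000000000000000000000) := T_16 (nat_lit 235) (nat_lit 218) (nat_lit 7) (nat_lit 13) (nat_lit 9) L26445 (by decide +kernel)
theorem L26447 : W_16 (nat_lit 5) (nat_lit 0x14400f200580019000280000000000000000000000000000000) (nat_lit 0x0) (nat_lit 0x14000e0007000000000000200000000000000000000000000000000000000000) := T_16 (nat_lit 217) (nat_lit 165) (nat_lit 4) (nat_lit 13) (nat_lit 12) L26446 (by decide +kernel)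
theorem L26448 : W_16 (nat_lit 6) (nat_lit 0x4400f200580019000280000000000000000000000000000000) (nat_lit 0x0) (nat_lit 0x14000e0007000300000000200000000000000000000000000000000000000000) := T_16 (nat_lit 200) (nat_lit 201) (nat_lit 3) (nat_lit 10) (nat_lit 10) L26447 (by decide +kernel)
theorem L26449 : W_16 (nat_lit 7) (nat_lit 0x4400f200180019000280000000000000000000000000000000) (nat_lit 0x0) (nat_lit 0x14000e0007000300000000e00000000000000000000000000000000000000000) := T_16 (nat_lit 166) (nat_lit 167) (nat_lit 2) (nat_lit 10) (nat_lit 10) L26448 (by decide +kernel)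
theorem L26450 : W_16 (nat_lit 8) (nat_lit 0x4400f200180009000280000000000000000000000000000000) (nat_lit 0x0) (nat_lit 0x14000e0007000300000000e00010000800000000000000000000000000000000) := T_16 (nat_lit 148) (nat_lit 131) (nat_lit 6) (nat_lit 11) (nat_lit 11) L26449 (by decide +kernel)
theorem L26451 : W_16 (nat_lit 9) (nat_lit 0x44007200180009000280000000000000000000000000000000) (nat_lit 0x0) (nat_lit 0x14000e0007000300018000e00010000800000000000000000000000000000000) := T_16 (nat_lit 183) (nat_lit 184) (nat_lit 0) (nat_lit 14) (nat_lit 10) L26450 (by decide +kernel)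
theorem L26452 : W_16 (nat_lit 2) (nat_lit 0x200016400f200580059000280000000000000000000000000000000) (nat_lit 0x0) (nat_lit 0x80004000080000000000000000000000000000000000000000000000000) := D_16 (nat_lit 218) (nat_lit 235) (nat_lit 199) (nat_lit 7) (nat_lit 13) (nat_lit 9) (nat_lit 3) (nat_lit 10) (nat_lit 11) (by decide +kernel)
theorem L26453 : W_16 (nat_lit 3) (nat_lit 0x200014400f200580059000280000000000000000000000000000000) (nat_lit 0x0) (nat_lit 0x800040000b0000000000000000000000000000000000000000000000000) := T_16 (nat_lit 197) (nat_lit 196) (nat_lit 1) (nat_lit 13) (nat_lit 10) L26452 (by decide +kernel)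
theorem L26454 : W_16 (nat_lit 4) (nat_lit 0x14400f200580059000280000000000000000000000000000000) (nat_lit 0x0) (nat_lit 0x800060000b0000000200000000000000000000000000000000000000000) := T_16 (nat_lit 217) (nat_lit 165) (nat_lit 4) (nat_lit 13) (nat_lit 12) L26453 (by decide +kernel)
theorem L26455 : W_16 (nat_lit 5) (nat_lit 0x4400f200580059000280000000000000000000000000000000) (nat_lit 0x0) (nat_lit 0x800060003b0000000200000000000000000000000000000000000000000) := T_16 (nat_lit 200) (nat_lit 201) (nat_lit 3) (nat_lit 10) (nat_lit 10) L26454 (by decide +kernel)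
theorem L26456 : W_16 (nat_lit 6) (nat_lit 0x4400f200180059000280000000000000000000000000000000) (nat_lit 0x0) (nat_lit 0x800060003b0000000e00000000000000000000000000000000000000000) := T_16 (nat_lit 166) (nat_lit 167) (nat_lit 2) (nat_lit 10) (nat_lit 10) L26455 (by decide +kernel)
theorem L26457 : W_16 (nat_lit 7) (nat_lit 0x4400f200180019000280000000000000000000000000000000) (nat_lit 0x0) (nat_lit 0x800060003b0000000e00060000000000000000000000000000000000000) := T_16 (nat_lit 150) (nat_lit 149) (nat_lit 1) (nat_lit 14) (nat_lit 8) L26456 (by decide +kernel)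
theorem L26458 : W_16 (nat_lit 8) (nat_lit 0x4400f200180009000280000000000000000000000000000000) (nat_lit 0x0) (nat_lit 0x800060003b0000000e00070000800000000000000000000000000000000) := T_16 (nat_lit 148) (nat_lit 131) (nat_lit 6) (nat_lit 11) (nat_lit 11) L26457 (by decide +kernel)
theorem L26459 : W_16 (nat_lit 9) (nat_lit 0x44007200180009000280000000000000000000000000000000) (nat_lit 0x0) (nat_lit 0x800060003b0018000e00070000800000000000000000000000000000000) := T_16 (nat_lit 183) (nat_lit 184) (nat_lit 0) (nat_lit 14) (nat_lit 10) L26458 (by decide +kernel)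
theorem L26460 : W_16 (nat_lit 2) (nat_lit 0xc4007200180039001280000000000000000000000000000000) (nat_lit 0x0) (nat_lit 0x18000400000000000000000000000000000000000000000) := D_16 (nat_lit 183) (nat_lit 184) (nat_lit 166) (nat_lit 0) (nat_lit 14) (nat_lit 10) (nat_lit 5) (nat_lit 13) (nat_lit 7) (by decide +kernel)
theorem L26461 : W_16 (nat_lit 3) (nat_lit 0xc4007200180039000280000000000000000000000000000000) (nat_lit 0x0) (nat_lit 0x18000600000001000000000000000000000000000000000) := T_16 (nat_lit 132) (nat_lit 165) (nat_lit 6) (nat_lit 12) (nat_lit 11) L26460 (by decide +kernel)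
theorem L26462 : W_16 (nat_lit 4) (nat_lit 0x44007200180039000280000000000000000000000000000000) (nat_lit 0x0) (nat_lit 0x1000080018000600000001000000000000000000000000000000000) := T_16 (nat_lit 199) (nat_lit 216) (nat_lit 7) (nat_lit 11) (nat_lit 8) L26461 (by decide +kernel)
theorem L26463 : W_16 (nat_lit 5) (nat_lit 0x44007200180019000280000000000000000000000000000000) (nat_lit 0x0) (nat_lit 0x1000080018000600060001000000000000000000000000000000000) := T_16 (nat_lit 149) (nat_lit 150) (nat_lit 1) (nat_lit 14) (nat_lit 8) L26462 (by decide +kernel)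
theorem L26464 : W_16 (nat_lit 6) (nat_lit 0x44007200180009000280000000000000000000000000000000) (nat_lit 0x0) (nat_lit 0x1000080018000600070001800000000000000000000000000000000) := T_16 (nat_lit 148) (nat_lit 131) (nat_lit 6) (nat_lit 11) (nat_lit 11) L26463 (by decide +kernel)
theorem L26465 : W_16 (nat_lit 10) (nat_lit 0x44003200180009000280000000000000000000000000000000) (nat_lit 0x0) (nat_lit 0x14000e00070003b001c400e30070803800000000000000000000000000000000) := Q_16 (nat_lit 182) (C_16 L26414 (C_16 L26422 (C_16 L26427 (C_16 L26435 (C_16 L26443 (C_16 L26451 (C_16 L26459 (C_16 L26464 N_16)))))))) (by decide +kernel)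
theorem L26466 : W_16 (nat_lit 11) (nat_lit 0x4003200180009000280000000000000000000000000000000) (nat_lit 0x0) (nat_lit 0x14000f00078003f001c400e30070803800000000000000000000000000000000) := Q_16 (nat_lit 198) (C_16 L26238 (C_16 L26220 (C_16 L26465 N_16))) (by decide +kernel)
theorem L26467 : W_16 (nat_lit 12) (nat_lit 0x4003200180001000280000000000000000000000000000000) (nat_lit 0x0) (nat_lit 0x14000f00078003f001c400e30078803c00030000000000000000000000000000) := Q_16 (nat_lit 147) (C_16 L26195 (C_16 L26466 N_16)) (by decide +kernel)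
theorem L26468 : W_16 (nat_lit 2) (nat_lit 0x1c4003200180009000280000000000000000000000000000000) (nat_lit 0x0) (nat_lit 0x20004800000000000000000000000000000000000000000000) := D_16 (nat_lit 179) (nat_lit 197) (nat_lit 182) (nat_lit 0) (nat_lit 13) (nat_lit 11) (nat_lit 3) (nat_lit 9) (nat_lit 10) (by decide +kernel)
theorem L26469 : W_16 (nat_lit 3) (nat_lit 0xc4003200180009000280000000000000000000000000000000) (nat_lit 0x0) (nat_lit 0x320004800000000000000000000000000000000000000000000) := T_16 (nat_lit 200) (nat_lit 201) (nat_lit 0) (nat_lit 14) (nat_lit 11) L26468 (by decide +kernel)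
theorem L26470 : W_16 (nat_lit 4) (nat_lit 0x44003200180009000280000000000000000000000000000000) (nat_lit 0x0) (nat_lit 0x10003a0004800000000000000000000000000000000000000000000) := T_16 (nat_lit 199) (nat_lit 216) (nat_lit 7) (nat_lit 11) (nat_lit 8) L26469 (by decide +kernel)
theorem L26471 : W_16 (nat_lit 5) (nat_lit 0x4003200180009000280000000000000000000000000000000) (nat_lit 0x0) (nat_lit 0x300018003e0004800210010800800000000000000000000000000000000) := Q_16 (nat_lit 198) (C_16 L26238 (C_16 L26220 (C_16 L26470 N_16))) (by decide +kernel)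
theorem L26472 : W_16 (nat_lit 6) (nat_lit 0x4003200180001000280000000000000000000000000000000) (nat_lit 0x0) (nat_lit 0x300018003e0004800210018800c00030000000000000000000000000000) := Q_16 (nat_lit 147) (C_16 L26195 (C_16 L26471 N_16)) (by decide +kernel)
theorem L26473 : W_16 (nat_lit 13) (nat_lit 0x4002200180001000280000000000000000000000000000000) (nat_lit 0x0) (nat_lit 0x14000f00078003f001dc00e30078803c00030000000000000000000000000000) := Q_16 (nat_lit 180) (C_16 L26194 (C_16 L26467 (C_16 L26472 N_16))) (by decide +kernel)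
theorem L26474 : W_16 (nat_lit 10) (nat_lit 0x4002200180001000280000000000000000000000000000000) (nat_lit 0x0) (nat_lit 0x28001c000f8005c00230078800c00070002000000000000000000000000) := Q_16 (nat_lit 147) (C_16 L26278 (C_16 L26298 (C_16 L26291 (C_16 L26192 N_16)))) (by decide +kernel)
theorem L26475 : W_16 (nat_lit 10) (nat_lit 0x4003200180009000280000000000000000000000000000000) (nat_lit 0x0) (nat_lit 0x18007c003e0018000e00070000800000000000000000000000000000000) := Q_16 (nat_lit 198) (C_16 L26249 (C_16 L26220 (C_16 L26218 N_16))) (by decide +kernel)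
theorem L26476 : W_16 (nat_lit 11) (nat_lit 0x4003200180001000280000000000000000000000000000000) (nat_lit 0x0) (nat_lit 0x18007c003e0018000e00078000c00030000000000000000000000000000) := Q_16 (nat_lit 147) (C_16 L26195 (C_16 L26475 N_16)) (by decide +kernel)
theorem L26477 : W_16 (nat_lit 12) (nat_lit 0x4002200180001000280000000000000000000000000000000) (nat_lit 0x0) (nat_lit 0x18007c003e0019c00e20078000c00030000000000000000000000000000) := Q_16 (nat_lit 180) (C_16 L26476 (C_16 L26194 N_16)) (by decide +kernel)
theorem L26478 : W_16 (nat_lit 2) (nat_lit 0xc4007200ba0039000280000000000000000000000000000000) (nat_lit 0x0) (nat_lit 0x2000300000000000000000000000000000000000000000000000000) := D_16 (nat_lit 200) (nat_lit 201) (nat_lit 217) (nat_lit 0) (nat_lit 14) (nat_lit 11) (nat_lit 7) (nat_lit 12) (nat_lit 8) (by decide +kernel)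
theorem L26479 : W_16 (nat_lit 3) (nat_lit 0xc4003200ba0039000280000000000000000000000000000000) (nat_lit 0x0) (nat_lit 0x2000300004000000000001000000000000000000000000000000000) := T_16 (nat_lit 182) (nat_lit 132) (nat_lit 6) (nat_lit 12) (nat_lit 11) L26478 (by decide +kernel)
theorem L26480 : W_16 (nat_lit 4) (nat_lit 0x44003200ba0039000280000000000000000000000000000000) (nat_lit 0x0) (nat_lit 0x3000380004000000000001000000000000000000000000000000000) := T_16 (nat_lit 199) (nat_lit 216) (nat_lit 7) (nat_lit 11) (nat_lit 8) L26479 (by decide +kernel)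
theorem L26481 : W_16 (nat_lit 5) (nat_lit 0x44003200ba0019000280000000000000000000000000000000) (nat_lit 0x0) (nat_lit 0x3000380004000000060001000000000000000000000000000000000) := T_16 (nat_lit 149) (nat_lit 150) (nat_lit 1) (nat_lit 14) (nat_lit 8) L26480 (by decide +kernel)
theorem L26482 : W_16 (nat_lit 6) (nat_lit 0x44003200ba0009000280000000000000000000000000000000) (nat_lit 0x0) (nat_lit 0x3000380004000000070001800000000000000000000000000000000) := T_16 (nat_lit 148) (nat_lit 131) (nat_lit 6) (nat_lit 11) (nat_lit 11) L26481 (by decide +kernel)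
theorem L26483 : W_16 (nat_lit 7) (nat_lit 0x440032003a0009000280000000000000000000000000000000) (nat_lit 0x0) (nat_lit 0x3000380004000c00070001800000000000000000000000000000000) := T_16 (nat_lit 167) (nat_lit 166) (nat_lit 1) (nat_lit 14) (nat_lit 9) L26482 (by decide +kernel)
theorem L26484 : W_16 (nat_lit 8) (nat_lit 0x44003200380009000280000000000000000000000000000000) (nat_lit 0x0) (nat_lit 0x3000380004400c20070001800000000000000000000000000000000) := T_16 (nat_lit 161) (nat_lit 178) (nat_lit 5) (nat_lit 8) (nat_lit 7) L26483 (by decide +kernel)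
theorem L26485 : W_16 (nat_lit 2) (nat_lit 0xc400b2007b0059000280000000000000000000000000000000) (nat_lit 0x0) (nat_lit 0x2000300000000000000000000000000000000000000000000000000) := D_16 (nat_lit 200) (nat_lit 201) (nat_lit 217) (nat_lit 0) (nat_lit 14) (nat_lit 11) (nat_lit 4) (nat_lit 13) (nat_lit 12) (by decide +kernel)
theorem L26486 : W_16 (nat_lit 3) (nat_lit 0x4400b2007b0059000280000000000000000000000000000000) (nat_lit 0x0) (nat_lit 0x3000380000000000000000000000000000000000000000000000000) := T_16 (nat_lit 199) (nat_lit 216) (nat_lit 7) (nat_lit 11) (nat_lit 8) L26485 (by decide +kernel)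
theorem L26487 : W_16 (nat_lit 4) (nat_lit 0x440032007b0059000280000000000000000000000000000000) (nat_lit 0x0) (nat_lit 0x3000380018000000000000000000000000000000000000000000000) := T_16 (nat_lit 183) (nat_lit 184) (nat_lit 3) (nat_lit 10) (nat_lit 9) L26486 (by decide +kernel)
theorem L26488 : W_16 (nat_lit 5) (nat_lit 0x440032007b0019000280000000000000000000000000000000) (nat_lit 0x0) (nat_lit 0x3000380018000000060000000000000000000000000000000000000) := T_16 (nat_lit 150) (nat_lit 149) (nat_lit 2) (nat_lit 10) (nat_lit 9) L26487 (by decide +kernel)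
theorem L26489 : W_16 (nat_lit 6) (nat_lit 0x440032007b0009000280000000000000000000000000000000) (nat_lit 0x0) (nat_lit 0x3000380018000000070000800000000000000000000000000000000) := T_16 (nat_lit 148) (nat_lit 131) (nat_lit 6) (nat_lit 11) (nat_lit 11) L26488 (by decide +kernel)
theorem L26490 : W_16 (nat_lit 7) (nat_lit 0x440032003b0009000280000000000000000000000000000000) (nat_lit 0x0) (nat_lit 0x3000380018000c00070000800000000000000000000000000000000) := T_16 (nat_lit 166) (nat_lit 167) (nat_lit 1) (nat_lit 14) (nat_lit 9) L26489 (by decide +kernel)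
theorem L26491 : W_16 (nat_lit 8) (nat_lit 0x44003200390009000280000000000000000000000000000000) (nat_lit 0x0) (nat_lit 0x3000380018400c20070000800000000000000000000000000000000) := T_16 (nat_lit 161) (nat_lit 178) (nat_lit 5) (nat_lit 8) (nat_lit 7) L26490 (by decide +kernel)
theorem L26492 : W_16 (nat_lit 9) (nat_lit 0x44003200380009000280000000000000000000000000000000) (nat_lit 0x0) (nat_lit 0x3000380018400c30070800800000000000000000000000000000000) := T_16 (nat_lit 160) (nat_lit 143) (nat_lit 6) (nat_lit 7) (nat_lit 11) L26491 (by decide +kernel)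
theorem L26493 : W_16 (nat_lit 2) (nat_lit 0x1c4003200790059000280000000000000000000000000000000) (nat_lit 0x0) (nat_lit 0x2000000018000000000000000000000000000000000000000000000) := D_16 (nat_lit 183) (nat_lit 184) (nat_lit 217) (nat_lit 3) (nat_lit 10) (nat_lit 9) (nat_lit 4) (nat_lit 13) (nat_lit 12) (by decide +kernel)
theorem L26494 : W_16 (nat_lit 3) (nat_lit 0xc4003200790059000280000000000000000000000000000000) (nat_lit 0x0) (nat_lit 0x2000300018000000000000000000000000000000000000000000000) := T_16 (nat_lit 200) (nat_lit 201) (nat_lit 0) (nat_lit 14) (nat_lit 11) L26493 (by decide +kernel)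
theorem L26495 : W_16 (nat_lit 4) (nat_lit 0x44003200790059000280000000000000000000000000000000) (nat_lit 0x0) (nat_lit 0x3000380018000000000000000000000000000000000000000000000) := T_16 (nat_lit 199) (nat_lit 216) (nat_lit 7) (nat_lit 11) (nat_lit 8) L26494 (by decide +kernel)
theorem L26496 : W_16 (nat_lit 5) (nat_lit 0x44003200390059000280000000000000000000000000000000) (nat_lit 0x0) (nat_lit 0x3000380018000c00000000000000000000000000000000000000000) := T_16 (nat_lit 166) (nat_lit 167) (nat_lit 1) (nat_lit 14) (nat_lit 9) L26495 (by decide +kernel)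
theorem L26497 : W_16 (nat_lit 6) (nat_lit 0x44003200380059000280000000000000000000000000000000) (nat_lit 0x0) (nat_lit 0x3000380018000c10000800000000000000000000000000000000000) := T_16 (nat_lit 160) (nat_lit 143) (nat_lit 6) (nat_lit 7) (nat_lit 11) L26496 (by decide +kernel)
theorem L26498 : W_16 (nat_lit 7) (nat_lit 0x44003200380019000280000000000000000000000000000000) (nat_lit 0x0) (nat_lit 0x3000380018000c10060800000000000000000000000000000000000) := T_16 (nat_lit 150) (nat_lit 149) (nat_lit 1) (nat_lit 14) (nat_lit 8) L26497 (by decide +kernel)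
theorem L26499 : W_16 (nat_lit 8) (nat_lit 0x44003200380009000280000000000000000000000000000000) (nat_lit 0x0) (nat_lit 0x3000380018000c10070800800000000000000000000000000000000) := T_16 (nat_lit 148) (nat_lit 131) (nat_lit 6) (nat_lit 11) (nat_lit 11) L26498 (by decide +kernel)
theorem L26500 : W_16 (nat_lit 2) (nat_lit 0xc40072003b0039000280000000000000000000000000000000) (nat_lit 0x0) (nat_lit 0x2000300000000000000000000000000000000000000000000000000) := D_16 (nat_lit 200) (nat_lit 201) (nat_lit 217) (nat_lit 0) (nat_lit 14) (nat_lit 11) (nat_lit 7) (nat_lit 12) (nat_lit 8) (by decide +kernel)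
theorem L26501 : W_16 (nat_lit 3) (nat_lit 0xc40032003b0039000280000000000000000000000000000000) (nat_lit 0x0) (nat_lit 0x2000300004000000000001000000000000000000000000000000000) := T_16 (nat_lit 182) (nat_lit 132) (nat_lit 6) (nat_lit 12) (nat_lit 11) L26500 (by decide +kernel)
theorem L26502 : W_16 (nat_lit 4) (nat_lit 0x440032003b0039000280000000000000000000000000000000) (nat_lit 0x0) (nat_lit 0x3000380004000000000001000000000000000000000000000000000) := T_16 (nat_lit 199) (nat_lit 216) (nat_lit 7) (nat_lit 11) (nat_lit 8) L26501 (by decide +kernel)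
theorem L26503 : W_16 (nat_lit 5) (nat_lit 0x440032003a0039000280000000000000000000000000000000) (nat_lit 0x0) (nat_lit 0x3000380004000010000801000000000000000000000000000000000) := T_16 (nat_lit 160) (nat_lit 143) (nat_lit 6) (nat_lit 7) (nat_lit 11) L26502 (by decide +kernel)
theorem L26504 : W_16 (nat_lit 6) (nat_lit 0x440032003a0019000280000000000000000000000000000000) (nat_lit 0x0) (nat_lit 0x3000380004000010060801000000000000000000000000000000000) := T_16 (nat_lit 149) (nat_lit 150) (nat_lit 1) (nat_lit 14) (nat_lit 8) L26503 (by decide +kernel)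
theorem L26505 : W_16 (nat_lit 7) (nat_lit 0x440032003a0009000280000000000000000000000000000000) (nat_lit 0x0) (nat_lit 0x3000380004000010070801800000000000000000000000000000000) := T_16 (nat_lit 148) (nat_lit 131) (nat_lit 6) (nat_lit 11) (nat_lit 11) L26504 (by decide +kernel)
theorem L26506 : W_16 (nat_lit 8) (nat_lit 0x44003200380009000280000000000000000000000000000000) (nat_lit 0x0) (nat_lit 0x3000380004400030070801800000000000000000000000000000000) := T_16 (nat_lit 161) (nat_lit 178) (nat_lit 5) (nat_lit 8) (nat_lit 7) L26505 (by decide +kernel)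
theorem L26507 : W_16 (nat_lit 2) (nat_lit 0xc400b200780029001280140000000000000000000000000000) (nat_lit 0x0) (nat_lit 0x8000a000000000000000000000000) := D_16 (nat_lit 115) (nat_lit 99) (nat_lit 97) (nat_lit 6) (nat_lit 13) (nat_lit 9) (nat_lit 4) (nat_lit 13) (nat_lit 9) (by decide +kernel)
theorem L26508 : W_16 (nat_lit 3) (nat_lit 0xc400b200780029001280100000000000000000000000000000) (nat_lit 0x0) (nat_lit 0x8000c000a000000000000000000000000) := T_16 (nat_lit 114) (nat_lit 131) (nat_lit 4) (nat_lit 13) (nat_lit 10) L26507 (by decide +kernel)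
theorem L26509 : W_16 (nat_lit 4) (nat_lit 0xc400b200780029001280000000000000000000000000000000) (nat_lit 0x0) (nat_lit 0x28001c000a000000000000000000000000) := T_16 (nat_lit 116) (nat_lit 133) (nat_lit 6) (nat_lit 13) (nat_lit 10) L26508 (by decide +kernel)
theorem L26510 : W_16 (nat_lit 5) (nat_lit 0xc400b200780029000280000000000000000000000000000000) (nat_lit 0x0) (nat_lit 0x40000000000038001c000a000000000000000000000000) := T_16 (nat_lit 132) (nat_lit 182) (nat_lit 5) (nat_lit 13) (nat_lit 7) L26509 (by decide +kernel)
theorem L26511 : W_16 (nat_lit 6) (nat_lit 0xc4003200780029000280000000000000000000000000000000) (nat_lit 0x0) (nat_lit 0x1c0000000000038001c000a000000000000000000000000) := T_16 (nat_lit 183) (nat_lit 184) (nat_lit 3) (nat_lit 10) (nat_lit 9) L26510 (by decide +kernel)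
theorem L26512 : W_16 (nat_lit 7) (nat_lit 0xc4003200780009000280000000000000000000000000000000) (nat_lit 0x0) (nat_lit 0x1c0000000600038001c000a000000000000000000000000) := T_16 (nat_lit 149) (nat_lit 150) (nat_lit 2) (nat_lit 10) (nat_lit 9) L26511 (by decide +kernel)
theorem L26513 : W_16 (nat_lit 8) (nat_lit 0xc4003200380009000280000000000000000000000000000000) (nat_lit 0x0) (nat_lit 0x1c000c000600038001c000a000000000000000000000000) := T_16 (nat_lit 166) (nat_lit 167) (nat_lit 1) (nat_lit 14) (nat_lit 9) L26512 (by decide +kernel)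
theorem L26514 : W_16 (nat_lit 9) (nat_lit 0x44003200380009000280000000000000000000000000000000) (nat_lit 0x0) (nat_lit 0x100008001c000c000600038001c000a000000000000000000000000) := T_16 (nat_lit 199) (nat_lit 216) (nat_lit 7) (nat_lit 11) (nat_lit 8) L26513 (by decide +kernel)
theorem L26515 : W_16 (nat_lit 2) (nat_lit 0x1c400b2007a0009000280000000000000000000000000000000) (nat_lit 0x0) (nat_lit 0x2000000000000000010000800000000000000000000000000000000) := D_16 (nat_lit 148) (nat_lit 131) (nat_lit 217) (nat_lit 6) (nat_lit 11) (nat_lit 11) (nat_lit 4) (nat_lit 13) (nat_lit 12) (by decide +kernel)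
theorem L26516 : W_16 (nat_lit 3) (nat_lit 0xc400b2007a0009000280000000000000000000000000000000) (nat_lit 0x0) (nat_lit 0x2000300000000000010000800000000000000000000000000000000) := T_16 (nat_lit 200) (nat_lit 201) (nat_lit 0) (nat_lit 14) (nat_lit 11) L26515 (by decide +kernel)
theorem L26517 : W_16 (nat_lit 4) (nat_lit 0x4400b2007a0009000280000000000000000000000000000000) (nat_lit 0x0) (nat_lit 0x3000380000000000010000800000000000000000000000000000000) := T_16 (nat_lit 199) (nat_lit 216) (nat_lit 7) (nat_lit 11) (nat_lit 8) L26516 (by decide +kernel)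
theorem L26518 : W_16 (nat_lit 5) (nat_lit 0x440032007a0009000280000000000000000000000000000000) (nat_lit 0x0) (nat_lit 0x3000380018000000010000800000000000000000000000000000000) := T_16 (nat_lit 183) (nat_lit 184) (nat_lit 3) (nat_lit 10) (nat_lit 9) L26517 (by decide +kernel)
theorem L26519 : W_16 (nat_lit 6) (nat_lit 0x44003200780009000280000000000000000000000000000000) (nat_lit 0x0) (nat_lit 0x3000380018400020010000800000000000000000000000000000000) := T_16 (nat_lit 161) (nat_lit 178) (nat_lit 5) (nat_lit 8) (nat_lit 7) L26518 (by decide +kernel)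
theorem L26520 : W_16 (nat_lit 7) (nat_lit 0x44003200380009000280000000000000000000000000000000) (nat_lit 0x0) (nat_lit 0x3000380018400c20010000800000000000000000000000000000000) := T_16 (nat_lit 166) (nat_lit 167) (nat_lit 1) (nat_lit 14) (nat_lit 9) L26519 (by decide +kernel)
theorem L26521 : W_16 (nat_lit 2) (nat_lit 0x20001c400b200790029000280000000000000000000000000000000) (nat_lit 0x0) (nat_lit 0x40000000000004000000000001000000000000000000000000000000000) := D_16 (nat_lit 182) (nat_lit 234) (nat_lit 132) (nat_lit 4) (nat_lit 13) (nat_lit 13) (nat_lit 5) (nat_lit 13) (nat_lit 7) (by decide +kernel)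
theorem L26522 : W_16 (nat_lit 3) (nat_lit 0x20001c400b200790009000280000000000000000000000000000000) (nat_lit 0x0) (nat_lit 0x40000000000004000000060001000000000000000000000000000000000) := T_16 (nat_lit 149) (nat_lit 150) (nat_lit 2) (nat_lit 10) (nat_lit 9) L26521 (by decide +kernel)
theorem L26523 : W_16 (nat_lit 4) (nat_lit 0x1c400b200790009000280000000000000000000000000000000) (nat_lit 0x0) (nat_lit 0x40002000000004000000070001000000000000000000000000000000000) := T_16 (nat_lit 217) (nat_lit 148) (nat_lit 4) (nat_lit 13) (nat_lit 12) L26522 (by decide +kernel)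
theorem L26524 : W_16 (nat_lit 5) (nat_lit 0x1c4003200790009000280000000000000000000000000000000) (nat_lit 0x0) (nat_lit 0x4000200000001c000000070001000000000000000000000000000000000) := T_16 (nat_lit 183) (nat_lit 184) (nat_lit 3) (nat_lit 10) (nat_lit 9) L26523 (by decide +kernel)
theorem L26525 : W_16 (nat_lit 6) (nat_lit 0xc4003200790009000280000000000000000000000000000000) (nat_lit 0x0) (nat_lit 0x4000200030001c000000070001000000000000000000000000000000000) := T_16 (nat_lit 200) (nat_lit 201) (nat_lit 0) (nat_lit 14) (nat_lit 11) L26524 (by decide +kernel)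
theorem L26526 : W_16 (nat_lit 7) (nat_lit 0x44003200790009000280000000000000000000000000000000) (nat_lit 0x0) (nat_lit 0x4000300038001c000000070001000000000000000000000000000000000) := T_16 (nat_lit 199) (nat_lit 216) (nat_lit 7) (nat_lit 11) (nat_lit 8) L26525 (by decide +kernel)
theorem L26527 : W_16 (nat_lit 8) (nat_lit 0x44003200390009000280000000000000000000000000000000) (nat_lit 0x0) (nat_lit 0x4000300038001c000c00070001000000000000000000000000000000000) := T_16 (nat_lit 166) (nat_lit 167) (nat_lit 1) (nat_lit 14) (nat_lit 9) L26526 (by decide +kernel)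
theorem L26528 : W_16 (nat_lit 9) (nat_lit 0x44003200380009000280000000000000000000000000000000) (nat_lit 0x0) (nat_lit 0x4000300038001c000c10070801000000000000000000000000000000000) := T_16 (nat_lit 160) (nat_lit 143) (nat_lit 6) (nat_lit 7) (nat_lit 11) L26527 (by decide +kernel)
theorem L26529 : W_16 (nat_lit 2) (nat_lit 0x14400b200790039000280000000000000000000000000000000) (nat_lit 0x0) (nat_lit 0x4000200004000000000000000000000000000000000000000000000) := D_16 (nat_lit 201) (nat_lit 182) (nat_lit 218) (nat_lit 3) (nat_lit 10) (nat_lit 10) (nat_lit 7) (nat_lit 13) (nat_lit 8) (by decide +kernel)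
theorem L26530 : W_16 (nat_lit 3) (nat_lit 0x4400b200790039000280000000000000000000000000000000) (nat_lit 0x0) (nat_lit 0x6000300004000000000000000000000000000000000000000000000) := T_16 (nat_lit 200) (nat_lit 217) (nat_lit 4) (nat_lit 13) (nat_lit 12) L26529 (by decide +kernel)
theorem L26531 : W_16 (nat_lit 4) (nat_lit 0x4400b200790029000280000000000000000000000000000000) (nat_lit 0x0) (nat_lit 0x6000300004000000010000800000000000000000000000000000000) := T_16 (nat_lit 148) (nat_lit 131) (nat_lit 6) (nat_lit 11) (nat_lit 11) L26530 (by decide +kernel)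
theorem L26532 : W_16 (nat_lit 5) (nat_lit 0x4400b200790009000280000000000000000000000000000000) (nat_lit 0x0) (nat_lit 0x6000300004000000070000800000000000000000000000000000000) := T_16 (nat_lit 149) (nat_lit 150) (nat_lit 2) (nat_lit 10) (nat_lit 9) L26531 (by decide +kernel)
theorem L26533 : W_16 (nat_lit 6) (nat_lit 0x44003200790009000280000000000000000000000000000000) (nat_lit 0x0) (nat_lit 0x600030001c000000070000800000000000000000000000000000000) := T_16 (nat_lit 183) (nat_lit 184) (nat_lit 3) (nat_lit 10) (nat_lit 9) L26532 (by decide +kernel)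
theorem L26534 : W_16 (nat_lit 7) (nat_lit 0x44003200780009000280000000000000000000000000000000) (nat_lit 0x0) (nat_lit 0x600030001c000010070800800000000000000000000000000000000) := T_16 (nat_lit 160) (nat_lit 143) (nat_lit 6) (nat_lit 7) (nat_lit 11) L26533 (by decide +kernel)
theorem L26535 : W_16 (nat_lit 8) (nat_lit 0x44003200380009000280000000000000000000000000000000) (nat_lit 0x0) (nat_lit 0x600030001c000c10070800800000000000000000000000000000000) := T_16 (nat_lit 166) (nat_lit 167) (nat_lit 1) (nat_lit 14) (nat_lit 9) L26534 (by decide +kernel)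
theorem L26536 : W_16 (nat_lit 10) (nat_lit 0x44003200180009000280000000000000000000000000000000) (nat_lit 0x0) (nat_lit 0x4000700038001c400e300708038001c000a000000000000000000000000) := Q_16 (nat_lit 165) (C_16 L26484 (C_16 L26492 (C_16 L26499 (C_16 L26506 (C_16 L26514 (C_16 L26520 (C_16 L26528 (C_16 L26535 N_16)))))))) (by decide +kernel)
theorem L26537 : W_16 (nat_lit 11) (nat_lit 0x4003200180009000280000000000000000000000000000000) (nat_lit 0x0) (nat_lit 0x700078003c001c400e300708038001c000a000000000000000000000000) := Q_16 (nat_lit 198) (C_16 L26536 (C_16 L26238 (C_16 L26220 N_16))) (by decide +kernel)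
theorem L26538 : W_16 (nat_lit 12) (nat_lit 0x4003200180001000280000000000000000000000000000000) (nat_lit 0x0) (nat_lit 0x700078003c001c400e30078803c001f000a000000000000000000000000) := Q_16 (nat_lit 147) (C_16 L26537 (C_16 L26195 N_16)) (by decide +kernel)
theorem L26539 : W_16 (nat_lit 2) (nat_lit 0x4003200380009000280000000000000000000000000000000) (nat_lit 0x0) (nat_lit 0x400030000000000000000000000000000) := D_16 (nat_lit 130) (nat_lit 112) (nat_lit 113) (nat_lit 4) (nat_lit 11) (nat_lit 10) (nat_lit 5) (nat_lit 11) (nat_lit 6) (by decide +kernel)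
theorem L26540 : W_16 (nat_lit 2) (nat_lit 0x44003200380009000280000000000000000000000000000000) (nat_lit 0x0) (nat_lit 0x10000800000000000000010000000000000000000000000000000000000) := D_16 (nat_lit 215) (nat_lit 232) (nat_lit 148) (nat_lit 4) (nat_lit 11) (nat_lit 13) (nat_lit 6) (nat_lit 11) (nat_lit 12) (by decide +kernel)
theorem L26541 : W_16 (nat_lit 2) (nat_lit 0x1000044003200390009000280000000000000000000000000000000) (nat_lit 0x0) (nat_lit 0x30000800000000000000000000000000000000000000000000000000000) := D_16 (nat_lit 215) (nat_lit 232) (nat_lit 233) (nat_lit 4) (nat_lit 11) (nat_lit 13) (nat_lit 7) (nat_lit 11) (nat_lit 9) (by decide +kernel)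
theorem L26542 : W_16 (nat_lit 3) (nat_lit 0x44003200390009000280000000000000000000000000000000) (nat_lit 0x0) (nat_lit 0x30001800080000000000000000000000000000000000000000000000000) := T_16 (nat_lit 216) (nat_lit 199) (nat_lit 7) (nat_lit 11) (nat_lit 8) L26541 (by decide +kernel)
theorem L26543 : W_16 (nat_lit 4) (nat_lit 0x44003200380009000280000000000000000000000000000000) (nat_lit 0x0) (nat_lit 0x30001800080000000010000800000000000000000000000000000000000) := T_16 (nat_lit 160) (nat_lit 143) (nat_lit 6) (nat_lit 7) (nat_lit 11) L26542 (by decide +kernel)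
theorem L26544 : W_16 (nat_lit 2) (nat_lit 0x1c4003200390059000280000000000000000000000000000000) (nat_lit 0x0) (nat_lit 0x2000000004800000000000000000000000000000000000000000000) := D_16 (nat_lit 182) (nat_lit 179) (nat_lit 217) (nat_lit 3) (nat_lit 9) (nat_lit 10) (nat_lit 7) (nat_lit 12) (nat_lit 8) (by decide +kernel)
theorem L26545 : W_16 (nat_lit 3) (nat_lit 0xc4003200390059000280000000000000000000000000000000) (nat_lit 0x0) (nat_lit 0x2000300004800000000000000000000000000000000000000000000) := T_16 (nat_lit 200) (nat_lit 201) (nat_lit 0) (nat_lit 14) (nat_lit 11) L26544 (by decide +kernel)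
theorem L26546 : W_16 (nat_lit 4) (nat_lit 0x44003200390059000280000000000000000000000000000000) (nat_lit 0x0) (nat_lit 0x3000380004800000000000000000000000000000000000000000000) := T_16 (nat_lit 199) (nat_lit 216) (nat_lit 7) (nat_lit 11) (nat_lit 8) L26545 (by decide +kernel)
theorem L26547 : W_16 (nat_lit 5) (nat_lit 0x44003200380059000280000000000000000000000000000000) (nat_lit 0x0) (nat_lit 0x3000380004800010000800000000000000000000000000000000000) := T_16 (nat_lit 160) (nat_lit 143) (nat_lit 6) (nat_lit 7) (nat_lit 11) L26546 (by decide +kernel)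
theorem L26548 : W_16 (nat_lit 6) (nat_lit 0x44003200380019000280000000000000000000000000000000) (nat_lit 0x0) (nat_lit 0x3000380004800010060800000000000000000000000000000000000) := T_16 (nat_lit 150) (nat_lit 149) (nat_lit 1) (nat_lit 14) (nat_lit 8) L26547 (by decide +kernel)
theorem L26549 : W_16 (nat_lit 7) (nat_lit 0x44003200380009000280000000000000000000000000000000) (nat_lit 0x0) (nat_lit 0x3000380004800010070800800000000000000000000000000000000) := T_16 (nat_lit 148) (nat_lit 131) (nat_lit 6) (nat_lit 11) (nat_lit 11) L26548 (by decide +kernel)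
theorem L26550 : W_16 (nat_lit 8) (nat_lit 0x4003200380009000280000000000000000000000000000000) (nat_lit 0x0) (nat_lit 0x300038003c0004800010070800800000000000000000000000000000000) := Q_16 (nat_lit 198) (C_16 L26540 (C_16 L26543 (C_16 L26549 N_16))) (by decide +kernel)
theorem L26551 : W_16 (nat_lit 9) (nat_lit 0x4003200380001000280000000000000000000000000000000) (nat_lit 0x0) (nat_lit 0x300038003c0004800010078800c00030000000000000000000000000000) := Q_16 (nat_lit 147) (C_16 L26539 (C_16 L26550 N_16)) (by decide +kernel)
theorem L26552 : W_16 (nat_lit 2) (nat_lit 0x200010400f200b90001000280000000000000000000000000000000) (nat_lit 0x0) (nat_lit 0x80000000000010000800000000000000000000000000000000) := D_16 (nat_lit 148) (nat_lit 131) (nat_lit 199) (nat_lit 7) (nat_lit 12) (nat_lit 7) (nat_lit 7) (nat_lit 12) (nat_lit 8) (by decide +kernel)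
theorem L26553 : W_16 (nat_lit 3) (nat_lit 0x10400f200b90001000280000000000000000000000000000000) (nat_lit 0x0) (nat_lit 0x40002000080000000000010000800000000000000000000000000000000) := T_16 (nat_lit 217) (nat_lit 234) (nat_lit 4) (nat_lit 13) (nat_lit 13) L26552 (by decide +kernel)
theorem L26554 : W_16 (nat_lit 4) (nat_lit 0x400f200b90001000280000000000000000000000000000000) (nat_lit 0x0) (nat_lit 0x40002000380000000000010000800000000000000000000000000000000) := T_16 (nat_lit 200) (nat_lit 201) (nat_lit 3) (nat_lit 10) (nat_lit 10) L26553 (by decide +kernel)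
theorem L26555 : W_16 (nat_lit 5) (nat_lit 0x400f200390001000280000000000000000000000000000000) (nat_lit 0x0) (nat_lit 0x40002000380000000c00010000800000000000000000000000000000000) := T_16 (nat_lit 167) (nat_lit 166) (nat_lit 2) (nat_lit 10) (nat_lit 10) L26554 (by decide +kernel)
theorem L26556 : W_16 (nat_lit 6) (nat_lit 0x4007200390001000280000000000000000000000000000000) (nat_lit 0x0) (nat_lit 0x40002000380018000c00010000800000000000000000000000000000000) := T_16 (nat_lit 183) (nat_lit 184) (nat_lit 0) (nat_lit 14) (nat_lit 10) L26555 (by decide +kernel)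
theorem L26557 : W_16 (nat_lit 7) (nat_lit 0x4007200380001000280000000000000000000000000000000) (nat_lit 0x0) (nat_lit 0x40002000380018000c10010800800000000000000000000000000000000) := T_16 (nat_lit 160) (nat_lit 143) (nat_lit 6) (nat_lit 7) (nat_lit 11) L26556 (by decide +kernel)
theorem L26558 : W_16 (nat_lit 2) (nat_lit 0x200010400f200390001000280000000000000000000000000000000) (nat_lit 0x0) (nat_lit 0x80000000000010000800000000000000000000000000000000) := D_16 (nat_lit 148) (nat_lit 131) (nat_lit 199) (nat_lit 7) (nat_lit 12) (nat_lit 7) (nat_lit 7) (nat_lit 12) (nat_lit 8) (by decide +kernel)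
theorem L26559 : W_16 (nat_lit 3) (nat_lit 0x10400f200390001000280000000000000000000000000000000) (nat_lit 0x0) (nat_lit 0x40002000080000000000010000800000000000000000000000000000000) := T_16 (nat_lit 217) (nat_lit 234) (nat_lit 4) (nat_lit 13) (nat_lit 13) L26558 (by decide +kernel)
theorem L26560 : W_16 (nat_lit 4) (nat_lit 0x400f200390001000280000000000000000000000000000000) (nat_lit 0x0) (nat_lit 0x40002000380000000000010000800000000000000000000000000000000) := T_16 (nat_lit 200) (nat_lit 201) (nat_lit 3) (nat_lit 10) (nat_lit 10) L26559 (by decide +kernel)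
theorem L26561 : W_16 (nat_lit 5) (nat_lit 0x400f200380001000280000000000000000000000000000000) (nat_lit 0x0) (nat_lit 0x40002000380000000010010800800000000000000000000000000000000) := T_16 (nat_lit 160) (nat_lit 143) (nat_lit 6) (nat_lit 7) (nat_lit 11) L26560 (by decide +kernel)
theorem L26562 : W_16 (nat_lit 6) (nat_lit 0x4007200380001000280000000000000000000000000000000) (nat_lit 0x0) (nat_lit 0x40002000380018000010010800800000000000000000000000000000000) := T_16 (nat_lit 183) (nat_lit 184) (nat_lit 0) (nat_lit 14) (nat_lit 10) L26561 (by decide +kernel)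
theorem L26563 : W_16 (nat_lit 2) (nat_lit 0x4007200790021001280000000000000000000000000000000) (nat_lit 0x0) (nat_lit 0x1000080000000000010000000000000000000000000000000000000) := D_16 (nat_lit 199) (nat_lit 216) (nat_lit 148) (nat_lit 6) (nat_lit 12) (nat_lit 12) (nat_lit 6) (nat_lit 12) (nat_lit 11) (by decide +kernel)
theorem L26564 : W_16 (nat_lit 3) (nat_lit 0x4007200790021000280000000000000000000000000000000) (nat_lit 0x0) (nat_lit 0x1000080000000000010001000080000000000000000000000000000) := T_16 (nat_lit 132) (nat_lit 115) (nat_lit 5) (nat_lit 13) (nat_lit 6) L26563 (by decide +kernel)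
theorem L26565 : W_16 (nat_lit 4) (nat_lit 0x4007200790001000280000000000000000000000000000000) (nat_lit 0x0) (nat_lit 0x1000080000000000070001000080000000000000000000000000000) := T_16 (nat_lit 149) (nat_lit 150) (nat_lit 2) (nat_lit 10) (nat_lit 9) L26564 (by decide +kernel)
theorem L26566 : W_16 (nat_lit 5) (nat_lit 0x4007200780001000280000000000000000000000000000000) (nat_lit 0x0) (nat_lit 0x1000080000000010070801000080000000000000000000000000000) := T_16 (nat_lit 160) (nat_lit 143) (nat_lit 6) (nat_lit 7) (nat_lit 11) L26565 (by decide +kernel)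
theorem L26567 : W_16 (nat_lit 6) (nat_lit 0x4007200380001000280000000000000000000000000000000) (nat_lit 0x0) (nat_lit 0x1000080000000c10070801000080000000000000000000000000000) := T_16 (nat_lit 166) (nat_lit 167) (nat_lit 1) (nat_lit 14) (nat_lit 9) L26566 (by decide +kernel)
theorem L26568 : W_16 (nat_lit 2) (nat_lit 0x200010400f200b80001000280000000000000000000000000000000) (nat_lit 0x0) (nat_lit 0x80000000000010000800000000000000000000000000000000) := D_16 (nat_lit 148) (nat_lit 131) (nat_lit 199) (nat_lit 7) (nat_lit 12) (nat_lit 7) (nat_lit 7) (nat_lit 12) (nat_lit 8) (by decide +kernel)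
theorem L26569 : W_16 (nat_lit 3) (nat_lit 0x10400f200b80001000280000000000000000000000000000000) (nat_lit 0x0) (nat_lit 0x40002000080000000000010000800000000000000000000000000000000) := T_16 (nat_lit 217) (nat_lit 234) (nat_lit 4) (nat_lit 13) (nat_lit 13) L26568 (by decide +kernel)
theorem L26570 : W_16 (nat_lit 4) (nat_lit 0x400f200b80001000280000000000000000000000000000000) (nat_lit 0x0) (nat_lit 0x40002000380000000000010000800000000000000000000000000000000) := T_16 (nat_lit 200) (nat_lit 201) (nat_lit 3) (nat_lit 10) (nat_lit 10) L26569 (by decide +kernel)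
theorem L26571 : W_16 (nat_lit 5) (nat_lit 0x4007200b80001000280000000000000000000000000000000) (nat_lit 0x0) (nat_lit 0x40002000380018000000010000800000000000000000000000000000000) := T_16 (nat_lit 183) (nat_lit 184) (nat_lit 0) (nat_lit 14) (nat_lit 10) L26570 (by decide +kernel)
theorem L26572 : W_16 (nat_lit 6) (nat_lit 0x4007200380001000280000000000000000000000000000000) (nat_lit 0x0) (nat_lit 0x40002000380018000c00010000800000000000000000000000000000000) := T_16 (nat_lit 167) (nat_lit 166) (nat_lit 1) (nat_lit 14) (nat_lit 9) L26571 (by decide +kernel)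
theorem L26573 : W_16 (nat_lit 2) (nat_lit 0x400f200790021000280000000000000000000000000000000) (nat_lit 0x0) (nat_lit 0x80000000000000001000080000000000000000000000000000) := D_16 (nat_lit 132) (nat_lit 115) (nat_lit 199) (nat_lit 5) (nat_lit 13) (nat_lit 6) (nat_lit 5) (nat_lit 13) (nat_lit 7) (by decide +kernel)
theorem L26574 : W_16 (nat_lit 3) (nat_lit 0x400f200790001000280000000000000000000000000000000) (nat_lit 0x0) (nat_lit 0x80000000000060001000080000000000000000000000000000) := T_16 (nat_lit 149) (nat_lit 150) (nat_lit 2) (nat_lit 10) (nat_lit 9) L26573 (by decide +kernel)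
theorem L26575 : W_16 (nat_lit 4) (nat_lit 0x400f200390001000280000000000000000000000000000000) (nat_lit 0x0) (nat_lit 0x80000000c00060001000080000000000000000000000000000) := T_16 (nat_lit 166) (nat_lit 167) (nat_lit 2) (nat_lit 10) (nat_lit 10) L26574 (by decide +kernel)
theorem L26576 : W_16 (nat_lit 5) (nat_lit 0x400f200380001000280000000000000000000000000000000) (nat_lit 0x0) (nat_lit 0x80000000c10060801000080000000000000000000000000000) := T_16 (nat_lit 160) (nat_lit 143) (nat_lit 6) (nat_lit 7) (nat_lit 11) L26575 (by decide +kernel)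
theorem L26577 : W_16 (nat_lit 6) (nat_lit 0x4007200380001000280000000000000000000000000000000) (nat_lit 0x0) (nat_lit 0x80018000c10060801000080000000000000000000000000000) := T_16 (nat_lit 183) (nat_lit 184) (nat_lit 0) (nat_lit 14) (nat_lit 10) L26576 (by decide +kernel)
theorem L26578 : W_16 (nat_lit 2) (nat_lit 0x10400f200790001000280000000000000000000000000000000) (nat_lit 0x0) (nat_lit 0x40002000000000000000010000000000000000000000000000000000000) := D_16 (nat_lit 217) (nat_lit 148) (nat_lit 234) (nat_lit 4) (nat_lit 13) (nat_lit 12) (nat_lit 4) (nat_lit 13) (nat_lit 13) (by decide +kernel)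
theorem L26579 : W_16 (nat_lit 3) (nat_lit 0x400f200790001000280000000000000000000000000000000) (nat_lit 0x0) (nat_lit 0x40002000300000000000010000000000000000000000000000000000000) := T_16 (nat_lit 200) (nat_lit 201) (nat_lit 3) (nat_lit 10) (nat_lit 10) L26578 (by decide +kernel)
theorem L26580 : W_16 (nat_lit 4) (nat_lit 0x400f200390001000280000000000000000000000000000000) (nat_lit 0x0) (nat_lit 0x40002000300000000c00010000000000000000000000000000000000000) := T_16 (nat_lit 166) (nat_lit 167) (nat_lit 2) (nat_lit 10) (nat_lit 10) L26579 (by decide +kernel)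
theorem L26581 : W_16 (nat_lit 5) (nat_lit 0x4007200390001000280000000000000000000000000000000) (nat_lit 0x0) (nat_lit 0x40002000300018000c00010000000000000000000000000000000000000) := T_16 (nat_lit 183) (nat_lit 184) (nat_lit 0) (nat_lit 14) (nat_lit 10) L26580 (by decide +kernel)
theorem L26582 : W_16 (nat_lit 6) (nat_lit 0x4007200380001000280000000000000000000000000000000) (nat_lit 0x0) (nat_lit 0x40002000300018000c10010800000000000000000000000000000000000) := T_16 (nat_lit 160) (nat_lit 143) (nat_lit 6) (nat_lit 7) (nat_lit 11) L26581 (by decide +kernel)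
theorem L26583 : W_16 (nat_lit 8) (nat_lit 0x4003200380001000280000000000000000000000000000000) (nat_lit 0x0) (nat_lit 0x4000300038001c000c10070801800080000000000000000000000000000) := Q_16 (nat_lit 182) (C_16 L26557 (C_16 L26562 (C_16 L26567 (C_16 L26572 (C_16 L26577 (C_16 L26582 N_16)))))) (by decide +kernel)
theorem L26584 : W_16 (nat_lit 2) (nat_lit 0x4003200380001000280000000000000000000000000000000) (nat_lit 0x0) (nat_lit 0x800c00000000000000000000000000000000000000000) := D_16 (nat_lit 166) (nat_lit 167) (nat_lit 179) (nat_lit 1) (nat_lit 14) (nat_lit 9) (nat_lit 1) (nat_lit 13) (nat_lit 9) (by decide +kernel)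
theorem L26585 : W_16 (nat_lit 10) (nat_lit 0x4003200180001000280000000000000000000000000000000) (nat_lit 0x0) (nat_lit 0x700038003c001c800e10078801c000b0000000000000000000000000000) := Q_16 (nat_lit 165) (C_16 L26551 (C_16 L26583 (C_16 L26584 N_16))) (by decide +kernel)
theorem L26586 : W_16 (nat_lit 13) (nat_lit 0x4002200180001000280000000000000000000000000000000) (nat_lit 0x0) (nat_lit 0x700078003c001dc00e30078803c001f000a000000000000000000000000) := Q_16 (nat_lit 180) (C_16 L26538 (C_16 L26194 (C_16 L26585 N_16))) (by decide +kernel)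
theorem L26587 : W_16 (nat_lit 2) (nat_lit 0xf400b200190009000280000000000000000000000000000000) (nat_lit 0x0) (nat_lit 0x300010000000000000000000000000000000000000000000000) := D_16 (nat_lit 200) (nat_lit 201) (nat_lit 184) (nat_lit 0) (nat_lit 14) (nat_lit 11) (nat_lit 2) (nat_lit 10) (nat_lit 11) (by decide +kernel)
theorem L26588 : W_16 (nat_lit 3) (nat_lit 0xf4003200190009000280000000000000000000000000000000) (nat_lit 0x0) (nat_lit 0x30001c000000000000000000000000000000000000000000000) := T_16 (nat_lit 183) (nat_lit 182) (nat_lit 2) (nat_lit 9) (nat_lit 11) L26587 (by decide +kernel)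
theorem L26589 : W_16 (nat_lit 4) (nat_lit 0x74003200190009000280000000000000000000000000000000) (nat_lit 0x0) (nat_lit 0x100038001c000000000000000000000000000000000000000000000) := T_16 (nat_lit 199) (nat_lit 216) (nat_lit 7) (nat_lit 11) (nat_lit 8) L26588 (by decide +kernel)
theorem L26590 : W_16 (nat_lit 5) (nat_lit 0x64003200190009000280000000000000000000000000000000) (nat_lit 0x0) (nat_lit 0x100039801c000000000000000000000000000000000000000000000) := T_16 (nat_lit 196) (nat_lit 195) (nat_lit 2) (nat_lit 7) (nat_lit 11) L26589 (by decide +kernel)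
theorem L26591 : W_16 (nat_lit 6) (nat_lit 0x44003200190009000280000000000000000000000000000000) (nat_lit 0x0) (nat_lit 0x14003b801c000000000000000000000000000000000000000000000) := T_16 (nat_lit 197) (nat_lit 214) (nat_lit 6) (nat_lit 10) (nat_lit 12) L26590 (by decide +kernel)
theorem L26592 : W_16 (nat_lit 7) (nat_lit 0x44003200180009000280000000000000000000000000000000) (nat_lit 0x0) (nat_lit 0x14003b801c000010000800000000000000000000000000000000000) := T_16 (nat_lit 160) (nat_lit 143) (nat_lit 6) (nat_lit 7) (nat_lit 11) L26591 (by decide +kernel)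
theorem L26593 : W_16 (nat_lit 8) (nat_lit 0x4003200180009000280000000000000000000000000000000) (nat_lit 0x0) (nat_lit 0x38001c003f801c000010000800000000000000000000000000000000000) := Q_16 (nat_lit 198) (C_16 L26249 (C_16 L26238 (C_16 L26592 N_16))) (by decide +kernel)
theorem L26594 : W_16 (nat_lit 9) (nat_lit 0x4003200180001000280000000000000000000000000000000) (nat_lit 0x0) (nat_lit 0x38001c003f801c000010008800400030000000000000000000000000000) := Q_16 (nat_lit 147) (C_16 L26195 (C_16 L26593 N_16)) (by decide +kernel)
theorem L26595 : W_16 (nat_lit 10) (nat_lit 0x4002200180001000280000000000000000000000000000000) (nat_lit 0x0) (nat_lit 0x38001c003f801dc00030008800400030000000000000000000000000000) := Q_16 (nat_lit 180) (C_16 L26594 (C_16 L26258 (C_16 L26194 N_16))) (by decide +kernel)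
theorem L26596 : W_16 (nat_lit 2) (nat_lit 0x180006c003200190011000280000000000000000000000000000000) (nat_lit 0x0) (nat_lit 0x80000000000008000800000000000000000000000000000000) := D_16 (nat_lit 147) (nat_lit 199) (nat_lit 131) (nat_lit 7) (nat_lit 11) (nat_lit 8) (nat_lit 6) (nat_lit 11) (nat_lit 11) (by decide +kernel)
theorem L26597 : W_16 (nat_lit 3) (nat_lit 0x80006c003200190011000280000000000000000000000000000000) (nat_lit 0x0) (nat_lit 0x20001000080000000000008000800000000000000000000000000000000) := T_16 (nat_lit 216) (nat_lit 233) (nat_lit 7) (nat_lit 11) (nat_lit 9) L26596 (by decide +kernel)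
theorem L26598 : W_16 (nat_lit 4) (nat_lit 0x80006c003200190001000280000000000000000000000000000000) (nat_lit 0x0) (nat_lit 0x20001000080000000200018000800000000000000000000000000000000) := T_16 (nat_lit 148) (nat_lit 165) (nat_lit 6) (nat_lit 11) (nat_lit 12) L26597 (by decide +kernel)
theorem L26599 : W_16 (nat_lit 5) (nat_lit 0x800064003200190001000280000000000000000000000000000000) (nat_lit 0x0) (nat_lit 0x20001000098000000200018000800000000000000000000000000000000) := T_16 (nat_lit 195) (nat_lit 196) (nat_lit 2) (nat_lit 7) (nat_lit 11) L26598 (by decide +kernel)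
theorem L26600 : W_16 (nat_lit 6) (nat_lit 0x64003200190001000280000000000000000000000000000000) (nat_lit 0x0) (nat_lit 0x30001800098000000200018000800000000000000000000000000000000) := T_16 (nat_lit 215) (nat_lit 232) (nat_lit 4) (nat_lit 11) (nat_lit 13) L26599 (by decide +kernel)
theorem L26601 : W_16 (nat_lit 7) (nat_lit 0x64003200180001000280000000000000000000000000000000) (nat_lit 0x0) (nat_lit 0x30001800098000000210018800800000000000000000000000000000000) := T_16 (nat_lit 160) (nat_lit 143) (nat_lit 6) (nat_lit 7) (nat_lit 11) L26600 (by decide +kernel)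
theorem L26602 : W_16 (nat_lit 2) (nat_lit 0x18000e40032007b0001000280000000000000000000000000000000) (nat_lit 0x0) (nat_lit 0x4000000060000000000000000000000000000000000000) := D_16 (nat_lit 149) (nat_lit 150) (nat_lit 182) (nat_lit 2) (nat_lit 10) (nat_lit 9) (nat_lit 6) (nat_lit 12) (nat_lit 12) (by decide +kernel)
theorem L26603 : W_16 (nat_lit 3) (nat_lit 0x18000640032007b0001000280000000000000000000000000000000) (nat_lit 0x0) (nat_lit 0x80004000000068000000000000000000000000000000000000) := T_16 (nat_lit 199) (nat_lit 147) (nat_lit 7) (nat_lit 11) (nat_lit 8) L26602 (by decide +kernel)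
theorem L26604 : W_16 (nat_lit 4) (nat_lit 0x8000640032007b0001000280000000000000000000000000000000) (nat_lit 0x0) (nat_lit 0x20001000080004000000068000000000000000000000000000000000000) := T_16 (nat_lit 216) (nat_lit 233) (nat_lit 7) (nat_lit 11) (nat_lit 9) L26603 (by decide +kernel)
theorem L26605 : W_16 (nat_lit 5) (nat_lit 0x8000640032003b0001000280000000000000000000000000000000) (nat_lit 0x0) (nat_lit 0x20001000080004000c00068000000000000000000000000000000000000) := T_16 (nat_lit 166) (nat_lit 167) (nat_lit 1) (nat_lit 14) (nat_lit 9) L26604 (by decide +kernel)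
theorem L26606 : W_16 (nat_lit 6) (nat_lit 0x8000640032001b0001000280000000000000000000000000000000) (nat_lit 0x0) (nat_lit 0x20001000080004000e00078000000000000000000000000000000000000) := T_16 (nat_lit 165) (nat_lit 148) (nat_lit 6) (nat_lit 11) (nat_lit 12) L26605 (by decide +kernel)
theorem L26607 : W_16 (nat_lit 7) (nat_lit 0x800064003200190001000280000000000000000000000000000000) (nat_lit 0x0) (nat_lit 0x20001000080004400e20078000000000000000000000000000000000000) := T_16 (nat_lit 161) (nat_lit 178) (nat_lit 5) (nat_lit 8) (nat_lit 7) L26606 (by decide +kernel)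
theorem L26608 : W_16 (nat_lit 8) (nat_lit 0x64003200190001000280000000000000000000000000000000) (nat_lit 0x0) (nat_lit 0x30001800080004400e20078000000000000000000000000000000000000) := T_16 (nat_lit 215) (nat_lit 232) (nat_lit 4) (nat_lit 11) (nat_lit 13) L26607 (by decide +kernel)
theorem L26609 : W_16 (nat_lit 9) (nat_lit 0x64003200180001000280000000000000000000000000000000) (nat_lit 0x0) (nat_lit 0x30001800080004400e30078800000000000000000000000000000000000) := T_16 (nat_lit 160) (nat_lit 143) (nat_lit 6) (nat_lit 7) (nat_lit 11) L26608 (by decide +kernel)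
theorem L26610 : W_16 (nat_lit 2) (nat_lit 0x180007400b2001b0001000280000000000000000000000000000000) (nat_lit 0x0) (nat_lit 0x2000080000000000008000000000000000000000000000000000000) := D_16 (nat_lit 199) (nat_lit 147) (nat_lit 217) (nat_lit 7) (nat_lit 11) (nat_lit 8) (nat_lit 3) (nat_lit 9) (nat_lit 11) (by decide +kernel)
theorem L26611 : W_16 (nat_lit 3) (nat_lit 0x80007400b2001b0001000280000000000000000000000000000000) (nat_lit 0x0) (nat_lit 0x20003000080000000000008000000000000000000000000000000000000) := T_16 (nat_lit 216) (nat_lit 233) (nat_lit 7) (nat_lit 11) (nat_lit 9) L26610 (by decide +kernel)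
theorem L26612 : W_16 (nat_lit 4) (nat_lit 0x7400b2001b0001000280000000000000000000000000000000) (nat_lit 0x0) (nat_lit 0x30003800080000000000008000000000000000000000000000000000000) := T_16 (nat_lit 215) (nat_lit 232) (nat_lit 4) (nat_lit 11) (nat_lit 13) L26611 (by decide +kernel)
theorem L26613 : W_16 (nat_lit 5) (nat_lit 0x740032001b0001000280000000000000000000000000000000) (nat_lit 0x0) (nat_lit 0x3000380008000c000000008000000000000000000000000000000000000) := T_16 (nat_lit 183) (nat_lit 182) (nat_lit 1) (nat_lit 13) (nat_lit 10) L26612 (by decide +kernel)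
theorem L26614 : W_16 (nat_lit 6) (nat_lit 0x740032001a0001000280000000000000000000000000000000) (nat_lit 0x0) (nat_lit 0x3000380008000c000010008800000000000000000000000000000000000) := T_16 (nat_lit 160) (nat_lit 143) (nat_lit 6) (nat_lit 7) (nat_lit 11) L26613 (by decide +kernel)
theorem L26615 : W_16 (nat_lit 7) (nat_lit 0x640032001a0001000280000000000000000000000000000000) (nat_lit 0x0) (nat_lit 0x3000380009800c000010008800000000000000000000000000000000000) := T_16 (nat_lit 196) (nat_lit 195) (nat_lit 2) (nat_lit 7) (nat_lit 11) L26614 (by decide +kernel)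
theorem L26616 : W_16 (nat_lit 8) (nat_lit 0x64003200180001000280000000000000000000000000000000) (nat_lit 0x0) (nat_lit 0x3000380009800c400030008800000000000000000000000000000000000) := T_16 (nat_lit 161) (nat_lit 178) (nat_lit 5) (nat_lit 8) (nat_lit 7) L26615 (by decide +kernel)
theorem L26617 : W_16 (nat_lit 2) (nat_lit 0x1800074003200ba0001000280000000000000000000000000000000) (nat_lit 0x0) (nat_lit 0x6000080000000000000000000000000000000000000000000000000) := D_16 (nat_lit 217) (nat_lit 218) (nat_lit 199) (nat_lit 0) (nat_lit 14) (nat_lit 12) (nat_lit 3) (nat_lit 9) (nat_lit 11) (by decide +kernel)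
theorem L26618 : W_16 (nat_lit 3) (nat_lit 0x1800064003200ba0001000280000000000000000000000000000000) (nat_lit 0x0) (nat_lit 0x6000098000000000000000000000000000000000000000000000000) := T_16 (nat_lit 196) (nat_lit 195) (nat_lit 3) (nat_lit 8) (nat_lit 11) L26617 (by decide +kernel)
theorem L26619 : W_16 (nat_lit 4) (nat_lit 0x800064003200ba0001000280000000000000000000000000000000) (nat_lit 0x0) (nat_lit 0x20007000098000000000000000000000000000000000000000000000000) := T_16 (nat_lit 216) (nat_lit 233) (nat_lit 7) (nat_lit 11) (nat_lit 9) L26618 (by decide +kernel)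
theorem L26620 : W_16 (nat_lit 5) (nat_lit 0x8000640032003a0001000280000000000000000000000000000000) (nat_lit 0x0) (nat_lit 0x20007000098000000c00000000000000000000000000000000000000000) := T_16 (nat_lit 167) (nat_lit 166) (nat_lit 1) (nat_lit 14) (nat_lit 9) L26619 (by decide +kernel)
theorem L26621 : W_16 (nat_lit 6) (nat_lit 0x8000640032001a0001000280000000000000000000000000000000) (nat_lit 0x0) (nat_lit 0x20007000098000000e00010000000000000000000000000000000000000) := T_16 (nat_lit 165) (nat_lit 148) (nat_lit 6) (nat_lit 11) (nat_lit 12) L26620 (by decide +kernel)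
theorem L26622 : W_16 (nat_lit 7) (nat_lit 0x800064003200180001000280000000000000000000000000000000) (nat_lit 0x0) (nat_lit 0x20007000098000400e20010000000000000000000000000000000000000) := T_16 (nat_lit 161) (nat_lit 178) (nat_lit 5) (nat_lit 8) (nat_lit 7) L26621 (by decide +kernel)
theorem L26623 : W_16 (nat_lit 8) (nat_lit 0x64003200180001000280000000000000000000000000000000) (nat_lit 0x0) (nat_lit 0x30007800098000400e20010000000000000000000000000000000000000) := T_16 (nat_lit 215) (nat_lit 232) (nat_lit 4) (nat_lit 11) (nat_lit 13) L26622 (by decide +kernel)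
theorem L26624 : W_16 (nat_lit 2) (nat_lit 0x2002f40072001b0001000280000000000000000000000000000000) (nat_lit 0x0) (nat_lit 0x20003000000000000000000000000000000000000000000000000000000) := D_16 (nat_lit 216) (nat_lit 233) (nat_lit 217) (nat_lit 4) (nat_lit 12) (nat_lit 13) (nat_lit 3) (nat_lit 9) (nat_lit 11) (by decide +kernel)
theorem L26625 : W_16 (nat_lit 3) (nat_lit 0x2002f40032001b0001000280000000000000000000000000000000) (nat_lit 0x0) (nat_lit 0x2000300000000c000000000000000000000000000000000000000000000) := T_16 (nat_lit 182) (nat_lit 183) (nat_lit 2) (nat_lit 9) (nat_lit 11) L26624 (by decide +kernel)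
theorem L26626 : W_16 (nat_lit 4) (nat_lit 0x2f40032001b0001000280000000000000000000000000000000) (nat_lit 0x0) (nat_lit 0x2000330000000c000000000000000000000000000000000000000000000) := T_16 (nat_lit 213) (nat_lit 212) (nat_lit 1) (nat_lit 12) (nat_lit 11) L26625 (by decide +kernel)
theorem L26627 : W_16 (nat_lit 5) (nat_lit 0x2e40032001b0001000280000000000000000000000000000000) (nat_lit 0x0) (nat_lit 0x2000330001800c000000000000000000000000000000000000000000000) := T_16 (nat_lit 196) (nat_lit 195) (nat_lit 2) (nat_lit 7) (nat_lit 11) L26626 (by decide +kernel)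
theorem L26628 : W_16 (nat_lit 6) (nat_lit 0x2e4003200190001000280000000000000000000000000000000) (nat_lit 0x0) (nat_lit 0x2000330001800c400020000000000000000000000000000000000000000) := T_16 (nat_lit 161) (nat_lit 178) (nat_lit 5) (nat_lit 8) (nat_lit 7) L26627 (by decide +kernel)
theorem L26629 : W_16 (nat_lit 7) (nat_lit 0xe4003200190001000280000000000000000000000000000000) (nat_lit 0x0) (nat_lit 0x2000330031800c400020000000000000000000000000000000000000000) := T_16 (nat_lit 201) (nat_lit 200) (nat_lit 0) (nat_lit 14) (nat_lit 11) L26628 (by decide +kernel)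
theorem L26630 : W_16 (nat_lit 8) (nat_lit 0xe4003200180001000280000000000000000000000000000000) (nat_lit 0x0) (nat_lit 0x2000330031800c400030000800000000000000000000000000000000000) := T_16 (nat_lit 160) (nat_lit 143) (nat_lit 6) (nat_lit 7) (nat_lit 11) L26629 (by decide +kernel)
theorem L26631 : W_16 (nat_lit 8) (nat_lit 0xe4003200180001000280000000000000000000000000000000) (nat_lit 0x0) (nat_lit 0x7000300018000e00078000800000000000000000000000000000000) := T_16 (nat_lit 147) (nat_lit 216) (nat_lit 7) (nat_lit 11) (nat_lit 8) L26216 (by decide +kernel)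
theorem L26632 : W_16 (nat_lit 2) (nat_lit 0x10000ec003200190001000280000000000000000000000000000000) (nat_lit 0x0) (nat_lit 0x400020000000000004000000000000000000000000000000000000000000000) := D_16 (nat_lit 233) (nat_lit 250) (nat_lit 182) (nat_lit 4) (nat_lit 12) (nat_lit 14) (nat_lit 4) (nat_lit 12) (nat_lit 13) (by decide +kernel)
theorem L26633 : W_16 (nat_lit 3) (nat_lit 0xec003200190001000280000000000000000000000000000000) (nat_lit 0x0) (nat_lit 0x400020001000000004000000008000000000000000000000000000000000000) := T_16 (nat_lit 216) (nat_lit 147) (nat_lit 7) (nat_lit 11) (nat_lit 8) L26632 (by decide +kernel)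
theorem L26634 : W_16 (nat_lit 4) (nat_lit 0xe4003200190001000280000000000000000000000000000000) (nat_lit 0x0) (nat_lit 0x400020001000018004000000008000000000000000000000000000000000000) := T_16 (nat_lit 195) (nat_lit 196) (nat_lit 2) (nat_lit 7) (nat_lit 11) L26633 (by decide +kernel)
theorem L26635 : W_16 (nat_lit 5) (nat_lit 0xe4003200180001000280000000000000000000000000000000) (nat_lit 0x0) (nat_lit 0x400020001000018004000010008800000000000000000000000000000000000) := T_16 (nat_lit 160) (nat_lit 143) (nat_lit 6) (nat_lit 7) (nat_lit 11) L26634 (by decide +kernel)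
theorem L26636 : W_16 (nat_lit 2) (nat_lit 0x20001e400b2001a0001000280000000000000000000000000000000) (nat_lit 0x0) (nat_lit 0x18004000000000000000000000000000000000000000000000) := D_16 (nat_lit 196) (nat_lit 182) (nat_lit 195) (nat_lit 2) (nat_lit 9) (nat_lit 11) (nat_lit 2) (nat_lit 7) (nat_lit 11) (by decide +kernel)
theorem L26637 : W_16 (nat_lit 3) (nat_lit 0x20001e40032001a0001000280000000000000000000000000000000) (nat_lit 0x0) (nat_lit 0x1801c000000000000000000000000000000000000000000000) := T_16 (nat_lit 183) (nat_lit 184) (nat_lit 2) (nat_lit 10) (nat_lit 11) L26636 (by decide +kernel)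
theorem L26638 : W_16 (nat_lit 4) (nat_lit 0x1e40032001a0001000280000000000000000000000000000000) (nat_lit 0x0) (nat_lit 0x600001801c000000000000000000000000000000000000000000000) := T_16 (nat_lit 217) (nat_lit 218) (nat_lit 3) (nat_lit 10) (nat_lit 11) L26637 (by decide +kernel)
theorem L26639 : W_16 (nat_lit 5) (nat_lit 0x1e4003200180001000280000000000000000000000000000000) (nat_lit 0x0) (nat_lit 0x600001801c400020000000000000000000000000000000000000000) := T_16 (nat_lit 161) (nat_lit 178) (nat_lit 5) (nat_lit 8) (nat_lit 7) L26638 (by decide +kernel)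
theorem L26640 : W_16 (nat_lit 6) (nat_lit 0xe4003200180001000280000000000000000000000000000000) (nat_lit 0x0) (nat_lit 0x600031801c400020000000000000000000000000000000000000000) := T_16 (nat_lit 200) (nat_lit 201) (nat_lit 0) (nat_lit 14) (nat_lit 11) L26639 (by decide +kernel)
theorem L26641 : W_16 (nat_lit 9) (nat_lit 0x64003200180001000280000000000000000000000000000000) (nat_lit 0x0) (nat_lit 0x40002000730039801c400e30078800800000000000000000000000000000000) := Q_16 (nat_lit 199) (C_16 L26630 (C_16 L26631 (C_16 L26635 (C_16 L26640 N_16)))) (by decide +kernel)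
theorem L26642 : W_16 (nat_lit 2) (nat_lit 0x18000740032007b0001000280000000000000000000000000000000) (nat_lit 0x0) (nat_lit 0x1c000000000000000000000000000000000000000000000) := D_16 (nat_lit 183) (nat_lit 184) (nat_lit 182) (nat_lit 3) (nat_lit 10) (nat_lit 9) (nat_lit 1) (nat_lit 13) (nat_lit 10) (by decide +kernel)
theorem L26643 : W_16 (nat_lit 3) (nat_lit 0x18000640032007b0001000280000000000000000000000000000000) (nat_lit 0x0) (nat_lit 0x1801c000000000000000000000000000000000000000000000) := T_16 (nat_lit 196) (nat_lit 195) (nat_lit 3) (nat_lit 8) (nat_lit 11) L26642 (by decide +kernel)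
theorem L26644 : W_16 (nat_lit 4) (nat_lit 0x8000640032007b0001000280000000000000000000000000000000) (nat_lit 0x0) (nat_lit 0x2000100001801c000000000000000000000000000000000000000000000) := T_16 (nat_lit 216) (nat_lit 233) (nat_lit 7) (nat_lit 11) (nat_lit 9) L26643 (by decide +kernel)
theorem L26645 : W_16 (nat_lit 5) (nat_lit 0x8000640032003b0001000280000000000000000000000000000000) (nat_lit 0x0) (nat_lit 0x2000100001801c000c00000000000000000000000000000000000000000) := T_16 (nat_lit 166) (nat_lit 167) (nat_lit 1) (nat_lit 14) (nat_lit 9) L26644 (by decide +kernel)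
theorem L26646 : W_16 (nat_lit 6) (nat_lit 0x8000640032001b0001000280000000000000000000000000000000) (nat_lit 0x0) (nat_lit 0x2000100001801c000e00010000000000000000000000000000000000000) := T_16 (nat_lit 165) (nat_lit 148) (nat_lit 6) (nat_lit 11) (nat_lit 12) L26645 (by decide +kernel)
theorem L26647 : W_16 (nat_lit 7) (nat_lit 0x800064003200190001000280000000000000000000000000000000) (nat_lit 0x0) (nat_lit 0x2000100001801c400e20010000000000000000000000000000000000000) := T_16 (nat_lit 161) (nat_lit 178) (nat_lit 5) (nat_lit 8) (nat_lit 7) L26646 (by decide +kernel)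
theorem L26648 : W_16 (nat_lit 8) (nat_lit 0x64003200190001000280000000000000000000000000000000) (nat_lit 0x0) (nat_lit 0x3000180001801c400e20010000000000000000000000000000000000000) := T_16 (nat_lit 215) (nat_lit 232) (nat_lit 4) (nat_lit 11) (nat_lit 13) L26647 (by decide +kernel)
theorem L26649 : W_16 (nat_lit 9) (nat_lit 0x64003200180001000280000000000000000000000000000000) (nat_lit 0x0) (nat_lit 0x3000180001801c400e30010800000000000000000000000000000000000) := T_16 (nat_lit 160) (nat_lit 143) (nat_lit 6) (nat_lit 7) (nat_lit 11) L26648 (by decide +kernel)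
theorem L26650 : W_16 (nat_lit 2) (nat_lit 0x8000740032007b0001000280000000000000000000000000000000) (nat_lit 0x0) (nat_lit 0x1c000000000000000000000000000000000000000000000) := D_16 (nat_lit 183) (nat_lit 182) (nat_lit 184) (nat_lit 1) (nat_lit 13) (nat_lit 10) (nat_lit 3) (nat_lit 10) (nat_lit 9) (by decide +kernel)
theorem L26651 : W_16 (nat_lit 3) (nat_lit 0x8000740032003b0001000280000000000000000000000000000000) (nat_lit 0x0) (nat_lit 0x1c000c00000000000000000000000000000000000000000) := T_16 (nat_lit 166) (nat_lit 167) (nat_lit 1) (nat_lit 14) (nat_lit 9) L26650 (by decide +kernel)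
theorem L26652 : W_16 (nat_lit 4) (nat_lit 0x8000740032001b0001000280000000000000000000000000000000) (nat_lit 0x0) (nat_lit 0x1c000e00010000000000000000000000000000000000000) := T_16 (nat_lit 165) (nat_lit 148) (nat_lit 6) (nat_lit 11) (nat_lit 12) L26651 (by decide +kernel)
theorem L26653 : W_16 (nat_lit 5) (nat_lit 0x8000640032001b0001000280000000000000000000000000000000) (nat_lit 0x0) (nat_lit 0x1801c000e00010000000000000000000000000000000000000) := T_16 (nat_lit 196) (nat_lit 195) (nat_lit 2) (nat_lit 7) (nat_lit 11) L26652 (by decide +kernel)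
theorem L26654 : W_16 (nat_lit 6) (nat_lit 0x640032001b0001000280000000000000000000000000000000) (nat_lit 0x0) (nat_lit 0x1000080001801c000e00010000000000000000000000000000000000000) := T_16 (nat_lit 215) (nat_lit 232) (nat_lit 4) (nat_lit 11) (nat_lit 13) L26653 (by decide +kernel)
theorem L26655 : W_16 (nat_lit 7) (nat_lit 0x640032001a0001000280000000000000000000000000000000) (nat_lit 0x0) (nat_lit 0x1000080001801c000e10010800000000000000000000000000000000000) := T_16 (nat_lit 160) (nat_lit 143) (nat_lit 6) (nat_lit 7) (nat_lit 11) L26654 (by decide +kernel)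
theorem L26656 : W_16 (nat_lit 8) (nat_lit 0x64003200180001000280000000000000000000000000000000) (nat_lit 0x0) (nat_lit 0x1000080001801c400e30010800000000000000000000000000000000000) := T_16 (nat_lit 161) (nat_lit 178) (nat_lit 5) (nat_lit 8) (nat_lit 7) L26655 (by decide +kernel)
theorem L26657 : W_16 (nat_lit 10) (nat_lit 0x24003200180001000280000000000000000000000000000000) (nat_lit 0x0) (nat_lit 0x400030007b003d801c400e30078800800000000000000000000000000000000) := Q_16 (nat_lit 198) (C_16 L26601 (C_16 L26609 (C_16 L26616 (C_16 L26623 (C_16 L26641 (C_16 L26649 (C_16 L26656 N_16))))))) (by decide +kernel)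
theorem L26658 : W_16 (nat_lit 2) (nat_lit 0x24003200180001000280000000000000000000000000000000) (nat_lit 0x0) (nat_lit 0x8000400000000000000008000000000000000000000000000000000000) := D_16 (nat_lit 214) (nat_lit 147) (nat_lit 231) (nat_lit 6) (nat_lit 10) (nat_lit 12) (nat_lit 6) (nat_lit 10) (nat_lit 13) (by decide +kernel)
theorem L26659 : W_16 (nat_lit 2) (nat_lit 0xc0002c003200190001000280000000000000000000000000000000) (nat_lit 0x0) (nat_lit 0x4000300000000000000000000000000000000000000000000000000000) := D_16 (nat_lit 213) (nat_lit 212) (nat_lit 230) (nat_lit 0) (nat_lit 11) (nat_lit 12) (nat_lit 5) (nat_lit 10) (nat_lit 9) (by decide +kernel)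
theorem L26660 : W_16 (nat_lit 3) (nat_lit 0x40002c003200190001000280000000000000000000000000000000) (nat_lit 0x0) (nat_lit 0x14000b00000000000000000000000000000000000000000000000000000) := T_16 (nat_lit 215) (nat_lit 232) (nat_lit 7) (nat_lit 10) (nat_lit 9) L26659 (by decide +kernel)
theorem L26661 : W_16 (nat_lit 4) (nat_lit 0x40002c003200180001000280000000000000000000000000000000) (nat_lit 0x0) (nat_lit 0x14000b00000000000010000800000000000000000000000000000000000) := T_16 (nat_lit 160) (nat_lit 143) (nat_lit 6) (nat_lit 7) (nat_lit 11) L26660 (by decide +kernel)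
theorem L26662 : W_16 (nat_lit 5) (nat_lit 0x2c003200180001000280000000000000000000000000000000) (nat_lit 0x0) (nat_lit 0x1c000f00000000000010000800000000000000000000000000000000000) := T_16 (nat_lit 214) (nat_lit 231) (nat_lit 6) (nat_lit 10) (nat_lit 13) L26661 (by decide +kernel)
theorem L26663 : W_16 (nat_lit 6) (nat_lit 0x24003200180001000280000000000000000000000000000000) (nat_lit 0x0) (nat_lit 0x1c000f00018000000010000800000000000000000000000000000000000) := T_16 (nat_lit 195) (nat_lit 196) (nat_lit 2) (nat_lit 7) (nat_lit 11) L26662 (by decide +kernel)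
theorem L26664 : W_16 (nat_lit 11) (nat_lit 0x4003200180001000280000000000000000000000000000000) (nat_lit 0x0) (nat_lit 0x40003c007f003f801c400e30078800800000000000000000000000000000000) := Q_16 (nat_lit 197) (C_16 L26657 (C_16 L26658 (C_16 L26663 N_16))) (by decide +kernel)
theorem L26665 : W_16 (nat_lit 2) (nat_lit 0x24007200180001000280000000000000000000000000000000) (nat_lit 0x0) (nat_lit 0x18008000000000000000000000000000000000000000000000) := D_16 (nat_lit 196) (nat_lit 195) (nat_lit 183) (nat_lit 2) (nat_lit 7) (nat_lit 11) (nat_lit 1) (nat_lit 13) (nat_lit 10) (by decide +kernel)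
theorem L26666 : W_16 (nat_lit 2) (nat_lit 0x12400fa00190001000280000000000000000000000000000000) (nat_lit 0x0) (nat_lit 0xe00000000000000000000000000000000000000000) := D_16 (nat_lit 166) (nat_lit 165) (nat_lit 167) (nat_lit 2) (nat_lit 9) (nat_lit 10) (nat_lit 2) (nat_lit 10) (nat_lit 10) (by decide +kernel)
theorem L26667 : W_16 (nat_lit 3) (nat_lit 0x12400f200190001000280000000000000000000000000000000) (nat_lit 0x0) (nat_lit 0x80000800e00000000000000000000000000000000000000000) := T_16 (nat_lit 179) (nat_lit 199) (nat_lit 3) (nat_lit 9) (nat_lit 10) L26666 (by decide +kernel)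
theorem L26668 : W_16 (nat_lit 4) (nat_lit 0x2400f200190001000280000000000000000000000000000000) (nat_lit 0x0) (nat_lit 0x380000800e00000000000000000000000000000000000000000) := T_16 (nat_lit 200) (nat_lit 201) (nat_lit 3) (nat_lit 10) (nat_lit 10) L26667 (by decide +kernel)
theorem L26669 : W_16 (nat_lit 5) (nat_lit 0x24007200190001000280000000000000000000000000000000) (nat_lit 0x0) (nat_lit 0x380018800e00000000000000000000000000000000000000000) := T_16 (nat_lit 183) (nat_lit 184) (nat_lit 0) (nat_lit 14) (nat_lit 10) L26668 (by decide +kernel)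
theorem L26670 : W_16 (nat_lit 6) (nat_lit 0x24007200180001000280000000000000000000000000000000) (nat_lit 0x0) (nat_lit 0x380018800e10000800000000000000000000000000000000000) := T_16 (nat_lit 160) (nat_lit 143) (nat_lit 6) (nat_lit 7) (nat_lit 11) L26669 (by decide +kernel)
theorem L26671 : W_16 (nat_lit 2) (nat_lit 0x200000001ac007200180001000280000000000000000000000000000000) (nat_lit 0x0) (nat_lit 0x640000000000000000000000000000000000000000000000000) := D_16 (nat_lit 201) (nat_lit 202) (nat_lit 198) (nat_lit 0) (nat_lit 15) (nat_lit 11) (nat_lit 0) (nat_lit 14) (nat_lit 11) (by decide +kernel)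
theorem L26672 : W_16 (nat_lit 3) (nat_lit 0x200000000ac007200180001000280000000000000000000000000000000) (nat_lit 0x0) (nat_lit 0x740000800000000000000000000000000000000000000000000) := T_16 (nat_lit 200) (nat_lit 179) (nat_lit 3) (nat_lit 9) (nat_lit 10) L26671 (by decide +kernel)
theorem L26673 : W_16 (nat_lit 4) (nat_lit 0xac007200180001000280000000000000000000000000000000) (nat_lit 0x0) (nat_lit 0x20001000740000800000000000000000000000000000000000000000000) := T_16 (nat_lit 233) (nat_lit 216) (nat_lit 4) (nat_lit 12) (nat_lit 13) L26672 (by decide +kernel)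
theorem L26674 : W_16 (nat_lit 5) (nat_lit 0xa4007200180001000280000000000000000000000000000000) (nat_lit 0x0) (nat_lit 0x20001000758000800000000000000000000000000000000000000000000) := T_16 (nat_lit 195) (nat_lit 196) (nat_lit 2) (nat_lit 7) (nat_lit 11) L26673 (by decide +kernel)
theorem L26675 : W_16 (nat_lit 2) (nat_lit 0x200000001a4007200190001000280000000000000000000000000000000) (nat_lit 0x0) (nat_lit 0x640000000000000000000000000000000000000000000000000) := D_16 (nat_lit 201) (nat_lit 202) (nat_lit 198) (nat_lit 0) (nat_lit 15) (nat_lit 11) (nat_lit 0) (nat_lit 14) (nat_lit 11) (by decide +kernel)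
theorem L26676 : W_16 (nat_lit 3) (nat_lit 0x200000000a4007200190001000280000000000000000000000000000000) (nat_lit 0x0) (nat_lit 0x740000800000000000000000000000000000000000000000000) := T_16 (nat_lit 200) (nat_lit 179) (nat_lit 3) (nat_lit 9) (nat_lit 10) L26675 (by decide +kernel)
theorem L26677 : W_16 (nat_lit 4) (nat_lit 0xa4007200190001000280000000000000000000000000000000) (nat_lit 0x0) (nat_lit 0x20001000740000800000000000000000000000000000000000000000000) := T_16 (nat_lit 233) (nat_lit 216) (nat_lit 4) (nat_lit 12) (nat_lit 13) L26676 (by decide +kernel)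
theorem L26678 : W_16 (nat_lit 5) (nat_lit 0xa4007200180001000280000000000000000000000000000000) (nat_lit 0x0) (nat_lit 0x20001000740000800010000800000000000000000000000000000000000) := T_16 (nat_lit 160) (nat_lit 143) (nat_lit 6) (nat_lit 7) (nat_lit 11) L26677 (by decide +kernel)
theorem L26679 : W_16 (nat_lit 2) (nat_lit 0x10000ac007200190001000280000000000000000000000000000000) (nat_lit 0x0) (nat_lit 0x40000000200008000000000000000000000000000000000000) := D_16 (nat_lit 147) (nat_lit 165) (nat_lit 198) (nat_lit 4) (nat_lit 12) (nat_lit 12) (nat_lit 7) (nat_lit 11) (nat_lit 8) (by decide +kernel)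
theorem L26680 : W_16 (nat_lit 3) (nat_lit 0xac007200190001000280000000000000000000000000000000) (nat_lit 0x0) (nat_lit 0x20001000040000000200008000000000000000000000000000000000000) := T_16 (nat_lit 216) (nat_lit 233) (nat_lit 4) (nat_lit 12) (nat_lit 13) L26679 (by decide +kernel)
theorem L26681 : W_16 (nat_lit 4) (nat_lit 0xac007200180001000280000000000000000000000000000000) (nat_lit 0x0) (nat_lit 0x20001000040000000210008800000000000000000000000000000000000) := T_16 (nat_lit 160) (nat_lit 143) (nat_lit 6) (nat_lit 7) (nat_lit 11) L26680 (by decide +kernel)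
theorem L26682 : W_16 (nat_lit 5) (nat_lit 0xa4007200180001000280000000000000000000000000000000) (nat_lit 0x0) (nat_lit 0x20001000058000000210008800000000000000000000000000000000000) := T_16 (nat_lit 195) (nat_lit 196) (nat_lit 2) (nat_lit 7) (nat_lit 11) L26681 (by decide +kernel)
theorem L26683 : W_16 (nat_lit 2) (nat_lit 0x10000a4007200390001000280000000000000000000000000000000) (nat_lit 0x0) (nat_lit 0x100000800400000000000000000000000000000000000000000) := D_16 (nat_lit 179) (nat_lit 166) (nat_lit 200) (nat_lit 2) (nat_lit 9) (nat_lit 10) (nat_lit 3) (nat_lit 9) (nat_lit 10) (by decide +kernel)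
theorem L26684 : W_16 (nat_lit 3) (nat_lit 0x10000a4007200190001000280000000000000000000000000000000) (nat_lit 0x0) (nat_lit 0x100000800600008000000000000000000000000000000000000) := T_16 (nat_lit 165) (nat_lit 147) (nat_lit 4) (nat_lit 12) (nat_lit 12) L26683 (by decide +kernel)
theorem L26685 : W_16 (nat_lit 4) (nat_lit 0x10000a4007200180001000280000000000000000000000000000000) (nat_lit 0x0) (nat_lit 0x100000800610008800000000000000000000000000000000000) := T_16 (nat_lit 160) (nat_lit 143) (nat_lit 6) (nat_lit 7) (nat_lit 11) L26684 (by decide +kernel)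
theorem L26686 : W_16 (nat_lit 5) (nat_lit 0xa4007200180001000280000000000000000000000000000000) (nat_lit 0x0) (nat_lit 0x20001000100000800610008800000000000000000000000000000000000) := T_16 (nat_lit 216) (nat_lit 233) (nat_lit 4) (nat_lit 12) (nat_lit 13) L26685 (by decide +kernel)
theorem L26687 : W_16 (nat_lit 2) (nat_lit 0x1ac007200190001000280000000000000000000000000000000) (nat_lit 0x0) (nat_lit 0x640000000000000000000000000000000000000000000000000) := D_16 (nat_lit 201) (nat_lit 202) (nat_lit 198) (nat_lit 0) (nat_lit 15) (nat_lit 11) (nat_lit 0) (nat_lit 14) (nat_lit 11) (by decide +kernel)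
theorem L26688 : W_16 (nat_lit 3) (nat_lit 0xac007200190001000280000000000000000000000000000000) (nat_lit 0x0) (nat_lit 0x740000800000000000000000000000000000000000000000000) := T_16 (nat_lit 200) (nat_lit 179) (nat_lit 3) (nat_lit 9) (nat_lit 10) L26687 (by decide +kernel)
theorem L26689 : W_16 (nat_lit 4) (nat_lit 0xa4007200190001000280000000000000000000000000000000) (nat_lit 0x0) (nat_lit 0x758000800000000000000000000000000000000000000000000) := T_16 (nat_lit 195) (nat_lit 196) (nat_lit 2) (nat_lit 7) (nat_lit 11) L26688 (by decide +kernel)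
theorem L26690 : W_16 (nat_lit 5) (nat_lit 0xa4007200180001000280000000000000000000000000000000) (nat_lit 0x0) (nat_lit 0x758000800010000800000000000000000000000000000000000) := T_16 (nat_lit 160) (nat_lit 143) (nat_lit 6) (nat_lit 7) (nat_lit 11) L26689 (by decide +kernel)
theorem L26691 : W_16 (nat_lit 6) (nat_lit 0x24007200180001000280000000000000000000000000000000) (nat_lit 0x0) (nat_lit 0x200010007d8000800610008800000000000000000000000000000000000) := Q_16 (nat_lit 199) (C_16 L26674 (C_16 L26678 (C_16 L26682 (C_16 L26686 (C_16 L26690 N_16))))) (by decide +kernel)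
theorem L26692 : W_16 (nat_lit 7) (nat_lit 0x24003200180001000280000000000000000000000000000000) (nat_lit 0x0) (nat_lit 0x200010007d801c800e10008800000000000000000000000000000000000) := Q_16 (nat_lit 182) (C_16 L26665 (C_16 L26670 (C_16 L26691 N_16))) (by decide +kernel)
theorem L26693 : W_16 (nat_lit 8) (nat_lit 0x4003200180001000280000000000000000000000000000000) (nat_lit 0x0) (nat_lit 0x3c001f007f801c800e10008800000000000000000000000000000000000) := Q_16 (nat_lit 197) (C_16 L26692 (C_16 L26663 (C_16 L26658 N_16))) (by decide +kernel)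
theorem L26694 : W_16 (nat_lit 12) (nat_lit 0x4002200180001000280000000000000000000000000000000) (nat_lit 0x0) (nat_lit 0x40003c007f007f801dc00e30078800800000000000000000000000000000000) := Q_16 (nat_lit 180) (C_16 L26664 (C_16 L26194 (C_16 L26693 N_16))) (by decide +kernel)
theorem L26695 : W_16 (nat_lit 2) (nat_lit 0x2400f600190001000280000000000000000000000000000000) (nat_lit 0x0) (nat_lit 0x8000400000000000000008000000000000000000000000000000000000) := D_16 (nat_lit 214) (nat_lit 231) (nat_lit 147) (nat_lit 6) (nat_lit 10) (nat_lit 13) (nat_lit 6) (nat_lit 10) (nat_lit 12) (by decide +kernel)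
theorem L26696 : W_16 (nat_lit 3) (nat_lit 0x400f600190001000280000000000000000000000000000000) (nat_lit 0x0) (nat_lit 0x8000400030000000000008000000000000000000000000000000000000) := T_16 (nat_lit 197) (nat_lit 196) (nat_lit 1) (nat_lit 13) (nat_lit 10) L26695 (by decide +kernel)
theorem L26697 : W_16 (nat_lit 4) (nat_lit 0x400e600190001000280000000000000000000000000000000) (nat_lit 0x0) (nat_lit 0x8000400030001800000008000000000000000000000000000000000000) := T_16 (nat_lit 180) (nat_lit 179) (nat_lit 2) (nat_lit 7) (nat_lit 10) L26696 (by decide +kernel)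
theorem L26698 : W_16 (nat_lit 5) (nat_lit 0x400e200190001000280000000000000000000000000000000) (nat_lit 0x0) (nat_lit 0x8000400030001c00020008000000000000000000000000000000000000) := T_16 (nat_lit 178) (nat_lit 161) (nat_lit 5) (nat_lit 8) (nat_lit 7) L26697 (by decide +kernel)
theorem L26699 : W_16 (nat_lit 6) (nat_lit 0x400a200190001000280000000000000000000000000000000) (nat_lit 0x0) (nat_lit 0x8000400030015c00020008000000000000000000000000000000000000) := T_16 (nat_lit 182) (nat_lit 184) (nat_lit 0) (nat_lit 14) (nat_lit 10) L26698 (by decide +kernel)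
theorem L26700 : W_16 (nat_lit 7) (nat_lit 0x400a200180001000280000000000000000000000000000000) (nat_lit 0x0) (nat_lit 0x8000400030015c00030008800000000000000000000000000000000000) := T_16 (nat_lit 160) (nat_lit 143) (nat_lit 6) (nat_lit 7) (nat_lit 11) L26699 (by decide +kernel)
theorem L26701 : W_16 (nat_lit 2) (nat_lit 0x400018400a2005a0069000680020000000000000000000000000000) (nat_lit 0x0) (nat_lit 0x80002000000000000800000000000000000000000000000000000000000) := D_16 (nat_lit 217) (nat_lit 167) (nat_lit 235) (nat_lit 6) (nat_lit 13) (nat_lit 12) (nat_lit 7) (nat_lit 13) (nat_lit 9) (by decide +kernel)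
theorem L26702 : W_16 (nat_lit 3) (nat_lit 0x18400a2005a0069000680020000000000000000000000000000) (nat_lit 0x0) (nat_lit 0x80006000200000000800000000000000000000000000000000000000000) := T_16 (nat_lit 218) (nat_lit 201) (nat_lit 7) (nat_lit 13) (nat_lit 8) L26701 (by decide +kernel)
theorem L26703 : W_16 (nat_lit 4) (nat_lit 0x10400a2005a0069000680020000000000000000000000000000) (nat_lit 0x0) (nat_lit 0x80007000280000000800000000000000000000000000000000000000000) := T_16 (nat_lit 199) (nat_lit 216) (nat_lit 5) (nat_lit 13) (nat_lit 8) L26702 (by decide +kernel)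
theorem L26704 : W_16 (nat_lit 5) (nat_lit 0x400a2005a0069000680020000000000000000000000000000) (nat_lit 0x0) (nat_lit 0x80007000380000000800000002000000000000000000000000000000000) := T_16 (nat_lit 200) (nat_lit 133) (nat_lit 6) (nat_lit 13) (nat_lit 11) L26703 (by decide +kernel)
theorem L26705 : W_16 (nat_lit 6) (nat_lit 0x400a2005a0069000680000000000000000000000000000000) (nat_lit 0x0) (nat_lit 0x80007000380001000800000002000020000000000000000000000000000) := T_16 (nat_lit 113) (nat_lit 180) (nat_lit 5) (nat_lit 11) (nat_lit 6) L26704 (by decide +kernel)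
theorem L26706 : W_16 (nat_lit 7) (nat_lit 0x400a2005a0029000680000000000000000000000000000000) (nat_lit 0x0) (nat_lit 0x80007000380001000800050002000020000000000000000000000000000) := T_16 (nat_lit 150) (nat_lit 148) (nat_lit 1) (nat_lit 14) (nat_lit 8) L26705 (by decide +kernel)
theorem L26707 : W_16 (nat_lit 8) (nat_lit 0x400a2005a0029000280000000000000000000000000000000) (nat_lit 0x0) (nat_lit 0x80007000380001000800050002400030000000000000000000000000000) := T_16 (nat_lit 130) (nat_lit 112) (nat_lit 4) (nat_lit 11) (nat_lit 10) L26706 (by decide +kernel)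
theorem L26708 : W_16 (nat_lit 9) (nat_lit 0x400a200580029000280000000000000000000000000000000) (nat_lit 0x0) (nat_lit 0x80007000380001400820050002400030000000000000000000000000000) := T_16 (nat_lit 161) (nat_lit 178) (nat_lit 5) (nat_lit 8) (nat_lit 7) L26707 (by decide +kernel)
theorem L26709 : W_16 (nat_lit 2) (nat_lit 0x400018400a200580069000280000000000000000000000000000000) (nat_lit 0x0) (nat_lit 0x80002000000000000800000000000000000000000000000000000000000) := D_16 (nat_lit 217) (nat_lit 167) (nat_lit 235) (nat_lit 6) (nat_lit 13) (nat_lit 12) (nat_lit 7) (nat_lit 13) (nat_lit 9) (by decide +kernel)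
theorem L26710 : W_16 (nat_lit 3) (nat_lit 0x18400a200580069000280000000000000000000000000000000) (nat_lit 0x0) (nat_lit 0x80006000200000000800000000000000000000000000000000000000000) := T_16 (nat_lit 218) (nat_lit 201) (nat_lit 7) (nat_lit 13) (nat_lit 8) L26709 (by decide +kernel)
theorem L26711 : W_16 (nat_lit 4) (nat_lit 0x10400a200580069000280000000000000000000000000000000) (nat_lit 0x0) (nat_lit 0x80007000280000000800000000000000000000000000000000000000000) := T_16 (nat_lit 199) (nat_lit 216) (nat_lit 5) (nat_lit 13) (nat_lit 8) L26710 (by decide +kernel)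
theorem L26712 : W_16 (nat_lit 5) (nat_lit 0x400a200580069000280000000000000000000000000000000) (nat_lit 0x0) (nat_lit 0x80007000380000000800000002000000000000000000000000000000000) := T_16 (nat_lit 200) (nat_lit 133) (nat_lit 6) (nat_lit 13) (nat_lit 11) L26711 (by decide +kernel)
theorem L26713 : W_16 (nat_lit 6) (nat_lit 0x400a200580029000280000000000000000000000000000000) (nat_lit 0x0) (nat_lit 0x80007000380000000800050002000000000000000000000000000000000) := T_16 (nat_lit 150) (nat_lit 148) (nat_lit 1) (nat_lit 14) (nat_lit 8) L26712 (by decide +kernel)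
theorem L26714 : W_16 (nat_lit 2) (nat_lit 0x400a2005a0029000680000000000000000000000000000000) (nat_lit 0x0) (nat_lit 0x20001000000000000000020000000000000000000000000000) := D_16 (nat_lit 180) (nat_lit 113) (nat_lit 197) (nat_lit 5) (nat_lit 11) (nat_lit 6) (nat_lit 5) (nat_lit 11) (nat_lit 7) (by decide +kernel)
theorem L26715 : W_16 (nat_lit 3) (nat_lit 0x400a2005a0029000280000000000000000000000000000000) (nat_lit 0x0) (nat_lit 0x20001000000000000400030000000000000000000000000000) := T_16 (nat_lit 130) (nat_lit 112) (nat_lit 4) (nat_lit 11) (nat_lit 10) L26714 (by decide +kernel)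
theorem L26716 : W_16 (nat_lit 4) (nat_lit 0x400a200580029000280000000000000000000000000000000) (nat_lit 0x0) (nat_lit 0x20001400020000000400030000000000000000000000000000) := T_16 (nat_lit 161) (nat_lit 178) (nat_lit 5) (nat_lit 8) (nat_lit 7) L26715 (by decide +kernel)
theorem L26717 : W_16 (nat_lit 10) (nat_lit 0x400a200580021000280000000000000000000000000000000) (nat_lit 0x0) (nat_lit 0x800070003a0001400820058002400030000000000000000000000000000) := Q_16 (nat_lit 147) (C_16 L26708 (C_16 L26713 (C_16 L26716 N_16))) (by decide +kernel)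
theorem L26718 : W_16 (nat_lit 2) (nat_lit 0x10400a2005b0021003280000000000000000000000000000000) (nat_lit 0x0) (nat_lit 0x4000200010000000000000000000000000000000000000000000000) := D_16 (nat_lit 201) (nat_lit 184) (nat_lit 218) (nat_lit 7) (nat_lit 13) (nat_lit 7) (nat_lit 7) (nat_lit 13) (nat_lit 8) (by decide +kernel)
theorem L26719 : W_16 (nat_lit 3) (nat_lit 0x400a2005b0021003280000000000000000000000000000000) (nat_lit 0x0) (nat_lit 0x4000300010000000040000000000000000000000000000000000000) := T_16 (nat_lit 200) (nat_lit 150) (nat_lit 6) (nat_lit 13) (nat_lit 11) L26718 (by decide +kernel)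
theorem L26720 : W_16 (nat_lit 4) (nat_lit 0x400a200590021003280000000000000000000000000000000) (nat_lit 0x0) (nat_lit 0x4000300010400020040000000000000000000000000000000000000) := T_16 (nat_lit 161) (nat_lit 178) (nat_lit 5) (nat_lit 8) (nat_lit 7) L26719 (by decide +kernel)
theorem L26721 : W_16 (nat_lit 5) (nat_lit 0x400a200590021001280000000000000000000000000000000) (nat_lit 0x0) (nat_lit 0x4000300010400020040002000100000000000000000000000000000) := T_16 (nat_lit 133) (nat_lit 116) (nat_lit 6) (nat_lit 13) (nat_lit 10) L26720 (by decide +kernel)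
theorem L26722 : W_16 (nat_lit 6) (nat_lit 0x400a200580021001280000000000000000000000000000000) (nat_lit 0x0) (nat_lit 0x4000300010400030040802000100000000000000000000000000000) := T_16 (nat_lit 160) (nat_lit 143) (nat_lit 6) (nat_lit 7) (nat_lit 11) L26721 (by decide +kernel)
theorem L26723 : W_16 (nat_lit 2) (nat_lit 0x400a200580021001e80000000000000000000000000000000) (nat_lit 0x0) (nat_lit 0x8000000018000000000000000000000000000) := D_16 (nat_lit 112) (nat_lit 111) (nat_lit 147) (nat_lit 0) (nat_lit 13) (nat_lit 7) (nat_lit 4) (nat_lit 11) (nat_lit 10) (by decide +kernel)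
theorem L26724 : W_16 (nat_lit 3) (nat_lit 0x400a200580021001a80000000000000000000000000000000) (nat_lit 0x0) (nat_lit 0x48000400018000000000000000000000000000) := T_16 (nat_lit 130) (nat_lit 150) (nat_lit 3) (nat_lit 10) (nat_lit 7) L26723 (by decide +kernel)
theorem L26725 : W_16 (nat_lit 4) (nat_lit 0x400a200580021001280000000000000000000000000000000) (nat_lit 0x0) (nat_lit 0x48000c00058000000000000000000000000000) := T_16 (nat_lit 131) (nat_lit 114) (nat_lit 4) (nat_lit 13) (nat_lit 10) L26724 (by decide +kernel)
theorem L26726 : W_16 (nat_lit 10) (nat_lit 0x400a200580021000280000000000000000000000000000000) (nat_lit 0x0) (nat_lit 0xa0007000380010400030058803c001f8008000000000000000000000000) := Q_16 (nat_lit 132) (C_16 L25907 (C_16 L25889 (C_16 L25778 (C_16 L26722 (C_16 L26725 N_16))))) (by decide +kernel)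
theorem L26727 : W_16 (nat_lit 2) (nat_lit 0x38400a2005b0021001e80000000000000000000000000000000) (nat_lit 0x0) (nat_lit 0x8000000018000000000000000000000000000) := D_16 (nat_lit 112) (nat_lit 111) (nat_lit 147) (nat_lit 0) (nat_lit 13) (nat_lit 7) (nat_lit 4) (nat_lit 11) (nat_lit 10) (by decide +kernel)
theorem L26728 : W_16 (nat_lit 3) (nat_lit 0x38400a2005b0021001a80000000000000000000000000000000) (nat_lit 0x0) (nat_lit 0x48000400018000000000000000000000000000) := T_16 (nat_lit 130) (nat_lit 150) (nat_lit 3) (nat_lit 10) (nat_lit 7) L26727 (by decide +kernel)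
theorem L26729 : W_16 (nat_lit 4) (nat_lit 0x38400a2005b0021001280000000000000000000000000000000) (nat_lit 0x0) (nat_lit 0x48000c00058000000000000000000000000000) := T_16 (nat_lit 131) (nat_lit 114) (nat_lit 4) (nat_lit 13) (nat_lit 10) L26728 (by decide +kernel)
theorem L26730 : W_16 (nat_lit 5) (nat_lit 0x38400a2005b0021000280000000000000000000000000000000) (nat_lit 0x0) (nat_lit 0x10000000048001c00058000000000000000000000000000) := T_16 (nat_lit 132) (nat_lit 184) (nat_lit 7) (nat_lit 13) (nat_lit 7) L26729 (by decide +kernel)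
theorem L26731 : W_16 (nat_lit 6) (nat_lit 0x18400a2005b0021000280000000000000000000000000000000) (nat_lit 0x0) (nat_lit 0x4000200010000000048001c00058000000000000000000000000000) := T_16 (nat_lit 201) (nat_lit 218) (nat_lit 7) (nat_lit 13) (nat_lit 8) L26730 (by decide +kernel)
theorem L26732 : W_16 (nat_lit 7) (nat_lit 0x18400a200590021000280000000000000000000000000000000) (nat_lit 0x0) (nat_lit 0x4000200010400020048001c00058000000000000000000000000000) := T_16 (nat_lit 161) (nat_lit 178) (nat_lit 5) (nat_lit 8) (nat_lit 7) L26731 (by decide +kernel)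
theorem L26733 : W_16 (nat_lit 8) (nat_lit 0x10400a200590021000280000000000000000000000000000000) (nat_lit 0x0) (nat_lit 0x5000280010400020048001c00058000000000000000000000000000) := T_16 (nat_lit 199) (nat_lit 216) (nat_lit 5) (nat_lit 13) (nat_lit 8) L26732 (by decide +kernel)
theorem L26734 : W_16 (nat_lit 9) (nat_lit 0x10400a200580021000280000000000000000000000000000000) (nat_lit 0x0) (nat_lit 0x5000280010400030048801c00058000000000000000000000000000) := T_16 (nat_lit 160) (nat_lit 143) (nat_lit 6) (nat_lit 7) (nat_lit 11) L26733 (by decide +kernel)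
theorem L26735 : W_16 (nat_lit 2) (nat_lit 0x340030400b600580021001280000000000000000000000000000000) (nat_lit 0x0) (nat_lit 0x8000000020000000000008000000000000000000000000000000000000) := D_16 (nat_lit 197) (nat_lit 147) (nat_lit 231) (nat_lit 6) (nat_lit 10) (nat_lit 12) (nat_lit 6) (nat_lit 10) (nat_lit 13) (by decide +kernel)
theorem L26736 : W_16 (nat_lit 3) (nat_lit 0x300030400b600580021001280000000000000000000000000000000) (nat_lit 0x0) (nat_lit 0x8000c00020000000000008000000000000000000000000000000000000) := T_16 (nat_lit 214) (nat_lit 215) (nat_lit 2) (nat_lit 10) (nat_lit 12) L26735 (by decide +kernel)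
theorem L26737 : W_16 (nat_lit 4) (nat_lit 0x100030400b600580021001280000000000000000000000000000000) (nat_lit 0x0) (nat_lit 0x28002c00020000000000008000000000000000000000000000000000000) := T_16 (nat_lit 217) (nat_lit 233) (nat_lit 5) (nat_lit 13) (nat_lit 9) L26736 (by decide +kernel)
theorem L26738 : W_16 (nat_lit 5) (nat_lit 0x100030400a600580021001280000000000000000000000000000000) (nat_lit 0x0) (nat_lit 0x28002c00020001800000008000000000000000000000000000000000000) := T_16 (nat_lit 180) (nat_lit 179) (nat_lit 2) (nat_lit 7) (nat_lit 10) L26737 (by decide +kernel)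
theorem L26739 : W_16 (nat_lit 6) (nat_lit 0x30400a600580021001280000000000000000000000000000000) (nat_lit 0x0) (nat_lit 0x28003c000a0001800000008000000000000000000000000000000000000) := T_16 (nat_lit 216) (nat_lit 199) (nat_lit 5) (nat_lit 13) (nat_lit 8) L26738 (by decide +kernel)
theorem L26740 : W_16 (nat_lit 7) (nat_lit 0x30400a200580021001280000000000000000000000000000000) (nat_lit 0x0) (nat_lit 0x28003c000a0001c00020008000000000000000000000000000000000000) := T_16 (nat_lit 178) (nat_lit 161) (nat_lit 5) (nat_lit 8) (nat_lit 7) L26739 (by decide +kernel)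
theorem L26741 : W_16 (nat_lit 8) (nat_lit 0x30400a200580021000280000000000000000000000000000000) (nat_lit 0x0) (nat_lit 0x28003c000a0011c00020008001000000000000000000000000000000000) := T_16 (nat_lit 132) (nat_lit 184) (nat_lit 7) (nat_lit 13) (nat_lit 7) L26740 (by decide +kernel)
theorem L26742 : W_16 (nat_lit 9) (nat_lit 0x10400a200580021000280000000000000000000000000000000) (nat_lit 0x0) (nat_lit 0x28007c002a0011c00020008001000000000000000000000000000000000) := T_16 (nat_lit 201) (nat_lit 218) (nat_lit 7) (nat_lit 13) (nat_lit 8) L26741 (by decide +kernel)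
theorem L26743 : W_16 (nat_lit 2) (nat_lit 0x200018400a200580071000280000000000000000000000000000000) (nat_lit 0x0) (nat_lit 0x80004000200000000000000000000000000000000000000000000000000) := D_16 (nat_lit 218) (nat_lit 201) (nat_lit 235) (nat_lit 7) (nat_lit 13) (nat_lit 8) (nat_lit 7) (nat_lit 13) (nat_lit 9) (by decide +kernel)
theorem L26744 : W_16 (nat_lit 3) (nat_lit 0x18400a200580071000280000000000000000000000000000000) (nat_lit 0x0) (nat_lit 0x80006000200000000800000000000000000000000000000000000000000) := T_16 (nat_lit 217) (nat_lit 167) (nat_lit 6) (nat_lit 13) (nat_lit 12) L26743 (by decide +kernel)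
theorem L26745 : W_16 (nat_lit 4) (nat_lit 0x18400a200580031000280000000000000000000000000000000) (nat_lit 0x0) (nat_lit 0x80006000200000000800048000000000000000000000000000000000000) := T_16 (nat_lit 150) (nat_lit 147) (nat_lit 1) (nat_lit 14) (nat_lit 8) L26744 (by decide +kernel)
theorem L26746 : W_16 (nat_lit 5) (nat_lit 0x18400a200580021000280000000000000000000000000000000) (nat_lit 0x0) (nat_lit 0x80006000200000000800058000800000000000000000000000000000000) := T_16 (nat_lit 148) (nat_lit 131) (nat_lit 4) (nat_lit 13) (nat_lit 11) L26745 (by decide +kernel)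
theorem L26747 : W_16 (nat_lit 6) (nat_lit 0x10400a200580021000280000000000000000000000000000000) (nat_lit 0x0) (nat_lit 0x80007000280000000800058000800000000000000000000000000000000) := T_16 (nat_lit 199) (nat_lit 216) (nat_lit 5) (nat_lit 13) (nat_lit 8) L26746 (by decide +kernel)
theorem L26748 : W_16 (nat_lit 10) (nat_lit 0x400a200580021000280000000000000000000000000000000) (nat_lit 0x0) (nat_lit 0xa8007c003a0011c00830058801c000d8004000000000000000000000000) := Q_16 (nat_lit 200) (C_16 L25931 (C_16 L25839 (C_16 L26734 (C_16 L25884 (C_16 L26742 (C_16 L26747 N_16)))))) (by decide +kernel)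
theorem L26749 : W_16 (nat_lit 11) (nat_lit 0x400a200580001000280000000000000000000000000000000) (nat_lit 0x0) (nat_lit 0x14000e8007c003a0011c00830078803c001f800e000000000000000000000000) := Q_16 (nat_lit 149) (C_16 L25955 (C_16 L25846 (C_16 L25692 (C_16 L25908 (C_16 L25885 (C_16 L25890 (C_16 L26717 (C_16 L26726 (C_16 L26748 N_16))))))))) (by decide +kernel)
theorem L26750 : W_16 (nat_lit 12) (nat_lit 0x400a200180001000280000000000000000000000000000000) (nat_lit 0x0) (nat_lit 0x14000e8007c003a0011c00e300f8803c001f800e000000000000000000000000) := Q_16 (nat_lit 166) (C_16 L25752 (C_16 L25998 (C_16 L26749 (C_16 L25958 (C_16 L25997 N_16))))) (by decide +kernel)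
theorem L26751 : W_16 (nat_lit 6) (nat_lit 0x400b200590001000280000000000000000000000000000000) (nat_lit 0x0) (nat_lit 0x200010003b0004800800020000000000000000000000000000000000000) := T_16 (nat_lit 182) (nat_lit 167) (nat_lit 2) (nat_lit 10) (nat_lit 10) L26003 (by decide +kernel)
theorem L26752 : W_16 (nat_lit 7) (nat_lit 0x400b200580001000280000000000000000000000000000000) (nat_lit 0x0) (nat_lit 0x200010003b0004800810020800000000000000000000000000000000000) := T_16 (nat_lit 160) (nat_lit 143) (nat_lit 6) (nat_lit 7) (nat_lit 11) L26751 (by decide +kernel)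
theorem L26753 : W_16 (nat_lit 2) (nat_lit 0x400b200580001000280000000000000000000000000000000) (nat_lit 0x0) (nat_lit 0x800a00000000000000000000000000000000000000000) := D_16 (nat_lit 165) (nat_lit 167) (nat_lit 179) (nat_lit 1) (nat_lit 14) (nat_lit 9) (nat_lit 1) (nat_lit 13) (nat_lit 9) (by decide +kernel)
theorem L26754 : W_16 (nat_lit 2) (nat_lit 0x2400b200580001000280000000000000000000000000000000) (nat_lit 0x0) (nat_lit 0x18004000000000000000000000000000000000000000000000) := D_16 (nat_lit 196) (nat_lit 182) (nat_lit 195) (nat_lit 1) (nat_lit 13) (nat_lit 10) (nat_lit 2) (nat_lit 7) (nat_lit 11) (by decide +kernel)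
theorem L26755 : W_16 (nat_lit 2) (nat_lit 0x2400b200580001000280000000000000000000000000000000) (nat_lit 0x0) (nat_lit 0x8000400000000000000008000000000000000000000000000000000000) := D_16 (nat_lit 214) (nat_lit 147) (nat_lit 231) (nat_lit 6) (nat_lit 10) (nat_lit 12) (nat_lit 6) (nat_lit 10) (nat_lit 13) (by decide +kernel)
theorem L26756 : W_16 (nat_lit 3) (nat_lit 0x400b200580001000280000000000000000000000000000000) (nat_lit 0x0) (nat_lit 0x8000400038004000000008000000000000000000000000000000000000) := Q_16 (nat_lit 197) (C_16 L26754 (C_16 L26755 N_16)) (by decide +kernel)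
theorem L26757 : W_16 (nat_lit 8) (nat_lit 0x400a200580001000280000000000000000000000000000000) (nat_lit 0x0) (nat_lit 0x280014003b8005800a10028800000000000000000000000000000000000) := Q_16 (nat_lit 180) (C_16 L26117 (C_16 L26752 (C_16 L26753 (C_16 L26756 N_16)))) (by decide +kernel)
theorem L26758 : W_16 (nat_lit 9) (nat_lit 0x400a200180001000280000000000000000000000000000000) (nat_lit 0x0) (nat_lit 0x280014003b8015800e10028800000000000000000000000000000000000) := Q_16 (nat_lit 166) (C_16 L25675 (C_16 L26006 (C_16 L25958 (C_16 L26757 N_16)))) (by decide +kernel)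
theorem L26759 : W_16 (nat_lit 2) (nat_lit 0x2400b200180001000280000000000000000000000000000000) (nat_lit 0x0) (nat_lit 0x8000400000000000000008000000000000000000000000000000000000) := D_16 (nat_lit 214) (nat_lit 231) (nat_lit 147) (nat_lit 6) (nat_lit 10) (nat_lit 13) (nat_lit 6) (nat_lit 10) (nat_lit 12) (by decide +kernel)
theorem L26760 : W_16 (nat_lit 6) (nat_lit 0x400b200180001000280000000000000000000000000000000) (nat_lit 0x0) (nat_lit 0x1c000f00038004000000008000000000000000000000000000000000000) := Q_16 (nat_lit 197) (C_16 L26074 (C_16 L26759 (C_16 L26052 N_16))) (by decide +kernel)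
theorem L26761 : W_16 (nat_lit 7) (nat_lit 0x400a200180001000280000000000000000000000000000000) (nat_lit 0x0) (nat_lit 0x1c000f00038005c00020008000000000000000000000000000000000000) := Q_16 (nat_lit 180) (C_16 L26760 (C_16 L26051 N_16)) (by decide +kernel)
theorem L26762 : W_16 (nat_lit 13) (nat_lit 0x4002200180001000280000000000000000000000000000000) (nat_lit 0x0) (nat_lit 0x14000fc007f007b801dc00e300f8803c001f800e000000000000000000000000) := Q_16 (nat_lit 183) (C_16 L25820 (C_16 L26119 (C_16 L26700 (C_16 L26750 (C_16 L26758 (C_16 L26761 N_16)))))) (by decide +kernel)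
theorem L26763 : W_16 (nat_lit 2) (nat_lit 0x20001ec00b200190019000280000000000000000000000000000000) (nat_lit 0x0) (nat_lit 0x4000600000000000000000000000000000000000000000) := D_16 (nat_lit 165) (nat_lit 166) (nat_lit 182) (nat_lit 4) (nat_lit 13) (nat_lit 12) (nat_lit 7) (nat_lit 12) (nat_lit 8) (by decide +kernel)
theorem L26764 : W_16 (nat_lit 3) (nat_lit 0x1ec00b200190019000280000000000000000000000000000000) (nat_lit 0x0) (nat_lit 0x6000000004000600000000000000000000000000000000000000000) := T_16 (nat_lit 217) (nat_lit 218) (nat_lit 3) (nat_lit 10) (nat_lit 11) L26763 (by decide +kernel)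
theorem L26765 : W_16 (nat_lit 4) (nat_lit 0x1ec003200190019000280000000000000000000000000000000) (nat_lit 0x0) (nat_lit 0x600000001c000600000000000000000000000000000000000000000) := T_16 (nat_lit 183) (nat_lit 184) (nat_lit 2) (nat_lit 10) (nat_lit 11) L26764 (by decide +kernel)
theorem L26766 : W_16 (nat_lit 5) (nat_lit 0xec003200190019000280000000000000000000000000000000) (nat_lit 0x0) (nat_lit 0x600030001c000600000000000000000000000000000000000000000) := T_16 (nat_lit 200) (nat_lit 201) (nat_lit 0) (nat_lit 14) (nat_lit 11) L26765 (by decide +kernel)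
theorem L26767 : W_16 (nat_lit 6) (nat_lit 0x6c003200190019000280000000000000000000000000000000) (nat_lit 0x0) (nat_lit 0x700038001c000600000000000000000000000000000000000000000) := T_16 (nat_lit 199) (nat_lit 216) (nat_lit 7) (nat_lit 11) (nat_lit 8) L26766 (by decide +kernel)
theorem L26768 : W_16 (nat_lit 7) (nat_lit 0x64003200190019000280000000000000000000000000000000) (nat_lit 0x0) (nat_lit 0x700039801c000600000000000000000000000000000000000000000) := T_16 (nat_lit 195) (nat_lit 196) (nat_lit 2) (nat_lit 7) (nat_lit 11) L26767 (by decide +kernel)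
theorem L26769 : W_16 (nat_lit 8) (nat_lit 0x44003200190019000280000000000000000000000000000000) (nat_lit 0x0) (nat_lit 0x74003b801c000600000000000000000000000000000000000000000) := T_16 (nat_lit 197) (nat_lit 214) (nat_lit 6) (nat_lit 10) (nat_lit 12) L26768 (by decide +kernel)
theorem L26770 : W_16 (nat_lit 9) (nat_lit 0x4003200190019000280000000000000000000000000000000) (nat_lit 0x0) (nat_lit 0x74003f801c000600000000800000000000000000000000000000000) := T_16 (nat_lit 198) (nat_lit 131) (nat_lit 6) (nat_lit 11) (nat_lit 11) L26769 (by decide +kernel)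
theorem L26771 : W_16 (nat_lit 10) (nat_lit 0x4003200180019000280000000000000000000000000000000) (nat_lit 0x0) (nat_lit 0x74003f801c000610000800800000000000000000000000000000000) := T_16 (nat_lit 160) (nat_lit 143) (nat_lit 6) (nat_lit 7) (nat_lit 11) L26770 (by decide +kernel)
theorem L26772 : W_16 (nat_lit 2) (nat_lit 0x4000040032001b0059000a80000000000000000000000000000000) (nat_lit 0x0) (nat_lit 0x200000000000040002000000000000000000000000) := D_16 (nat_lit 114) (nat_lit 165) (nat_lit 97) (nat_lit 5) (nat_lit 12) (nat_lit 6) (nat_lit 5) (nat_lit 12) (nat_lit 5) (by decide +kernel)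
theorem L26773 : W_16 (nat_lit 3) (nat_lit 0x4000040032001b0059000280000000000000000000000000000000) (nat_lit 0x0) (nat_lit 0x40000000200000000800040002000000000000000000000000) := T_16 (nat_lit 131) (nat_lit 198) (nat_lit 6) (nat_lit 11) (nat_lit 11) L26772 (by decide +kernel)
theorem L26774 : W_16 (nat_lit 4) (nat_lit 0x40032001b0059000280000000000000000000000000000000) (nat_lit 0x0) (nat_lit 0x400060000000200000000800040002000000000000000000000000) := T_16 (nat_lit 214) (nat_lit 197) (nat_lit 6) (nat_lit 10) (nat_lit 12) L26773 (by decide +kernel)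
theorem L26775 : W_16 (nat_lit 5) (nat_lit 0x40032001a0059000280000000000000000000000000000000) (nat_lit 0x0) (nat_lit 0x400060000000210000800800040002000000000000000000000000) := T_16 (nat_lit 160) (nat_lit 143) (nat_lit 6) (nat_lit 7) (nat_lit 11) L26774 (by decide +kernel)
theorem L26776 : W_16 (nat_lit 6) (nat_lit 0x40032001a0019000280000000000000000000000000000000) (nat_lit 0x0) (nat_lit 0x400060000000210060800800040002000000000000000000000000) := T_16 (nat_lit 150) (nat_lit 149) (nat_lit 1) (nat_lit 14) (nat_lit 8) L26775 (by decide +kernel)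
theorem L26777 : W_16 (nat_lit 7) (nat_lit 0x4003200180019000280000000000000000000000000000000) (nat_lit 0x0) (nat_lit 0x400060000400230060800800040002000000000000000000000000) := T_16 (nat_lit 161) (nat_lit 178) (nat_lit 5) (nat_lit 8) (nat_lit 7) L26776 (by decide +kernel)
theorem L26778 : W_16 (nat_lit 10) (nat_lit 0x4003200180019000280000000000000000000000000000000) (nat_lit 0x0) (nat_lit 0x14003f801c400030060800800000000000000000000000000000000) := T_16 (nat_lit 198) (nat_lit 131) (nat_lit 6) (nat_lit 11) (nat_lit 11) L26246 (by decide +kernel)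
theorem L26779 : W_16 (nat_lit 2) (nat_lit 0x4003200180019000a80000000000000000000000000000000) (nat_lit 0x0) (nat_lit 0x200000000000040002000000000000000000000000) := D_16 (nat_lit 114) (nat_lit 165) (nat_lit 97) (nat_lit 5) (nat_lit 12) (nat_lit 6) (nat_lit 5) (nat_lit 12) (nat_lit 5) (by decide +kernel)
theorem L26780 : W_16 (nat_lit 3) (nat_lit 0x4003200180019000280000000000000000000000000000000) (nat_lit 0x0) (nat_lit 0x40000000200000000800040002000000000000000000000000) := T_16 (nat_lit 131) (nat_lit 198) (nat_lit 6) (nat_lit 11) (nat_lit 11) L26779 (by decide +kernel)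
theorem L26781 : W_16 (nat_lit 2) (nat_lit 0x3400b2001b0039000a80040000000000000000000000000000) (nat_lit 0x0) (nat_lit 0x100000000400000001000000000000000000000000000000000) := D_16 (nat_lit 166) (nat_lit 200) (nat_lit 132) (nat_lit 4) (nat_lit 13) (nat_lit 11) (nat_lit 4) (nat_lit 13) (nat_lit 10) (by decide +kernel)
theorem L26782 : W_16 (nat_lit 3) (nat_lit 0x340032001b0039000a80040000000000000000000000000000) (nat_lit 0x0) (nat_lit 0x10000c000400000001000000000000000000000000000000000) := T_16 (nat_lit 183) (nat_lit 182) (nat_lit 1) (nat_lit 13) (nat_lit 10) L26781 (by decide +kernel)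
theorem L26783 : W_16 (nat_lit 4) (nat_lit 0x240032001b0039000a80040000000000000000000000000000) (nat_lit 0x0) (nat_lit 0x11800c000400000001000000000000000000000000000000000) := T_16 (nat_lit 196) (nat_lit 195) (nat_lit 2) (nat_lit 7) (nat_lit 11) L26782 (by decide +kernel)
theorem L26784 : W_16 (nat_lit 5) (nat_lit 0x40032001b0039000a80040000000000000000000000000000) (nat_lit 0x0) (nat_lit 0x40013800c000400000001000000000000000000000000000000000) := T_16 (nat_lit 197) (nat_lit 214) (nat_lit 6) (nat_lit 10) (nat_lit 12) L26783 (by decide +kernel)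
theorem L26785 : W_16 (nat_lit 6) (nat_lit 0x4003200190039000a80040000000000000000000000000000) (nat_lit 0x0) (nat_lit 0x40013800c400420000001000000000000000000000000000000000) := T_16 (nat_lit 161) (nat_lit 178) (nat_lit 5) (nat_lit 8) (nat_lit 7) L26784 (by decide +kernel)
theorem L26786 : W_16 (nat_lit 7) (nat_lit 0x4003200190019000a80040000000000000000000000000000) (nat_lit 0x0) (nat_lit 0x40013800c400420060001000000000000000000000000000000000) := T_16 (nat_lit 149) (nat_lit 150) (nat_lit 1) (nat_lit 14) (nat_lit 8) L26785 (by decide +kernel)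
theorem L26787 : W_16 (nat_lit 8) (nat_lit 0x4003200190019000a80000000000000000000000000000000) (nat_lit 0x0) (nat_lit 0x40013800c400420060001000040002000000000000000000000000) := T_16 (nat_lit 114) (nat_lit 97) (nat_lit 5) (nat_lit 12) (nat_lit 5) L26786 (by decide +kernel)
theorem L26788 : W_16 (nat_lit 9) (nat_lit 0x4003200180019000a80000000000000000000000000000000) (nat_lit 0x0) (nat_lit 0x40013800c400430060801000040002000000000000000000000000) := T_16 (nat_lit 160) (nat_lit 143) (nat_lit 6) (nat_lit 7) (nat_lit 11) L26787 (by decide +kernel)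
theorem L26789 : W_16 (nat_lit 2) (nat_lit 0x3400b2005a0039000a80000000000000000000000000000000) (nat_lit 0x0) (nat_lit 0x10000a00000000000000000000000000000000000000000) := D_16 (nat_lit 165) (nat_lit 184) (nat_lit 167) (nat_lit 3) (nat_lit 10) (nat_lit 9) (nat_lit 1) (nat_lit 14) (nat_lit 9) (by decide +kernel)
theorem L26790 : W_16 (nat_lit 3) (nat_lit 0x3400b2001a0039000a80000000000000000000000000000000) (nat_lit 0x0) (nat_lit 0x100010000e00000000000000000000000000000000000000000) := T_16 (nat_lit 166) (nat_lit 200) (nat_lit 4) (nat_lit 13) (nat_lit 11) L26789 (by decide +kernel)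
theorem L26791 : W_16 (nat_lit 4) (nat_lit 0x340032001a0039000a80000000000000000000000000000000) (nat_lit 0x0) (nat_lit 0x10001c000e00000000000000000000000000000000000000000) := T_16 (nat_lit 183) (nat_lit 182) (nat_lit 1) (nat_lit 13) (nat_lit 10) L26790 (by decide +kernel)
theorem L26792 : W_16 (nat_lit 5) (nat_lit 0x340032001a0019000a80000000000000000000000000000000) (nat_lit 0x0) (nat_lit 0x10001c000e00060000000000000000000000000000000000000) := T_16 (nat_lit 149) (nat_lit 150) (nat_lit 1) (nat_lit 14) (nat_lit 8) L26791 (by decide +kernel)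
theorem L26793 : W_16 (nat_lit 6) (nat_lit 0x240032001a0019000a80000000000000000000000000000000) (nat_lit 0x0) (nat_lit 0x11801c000e00060000000000000000000000000000000000000) := T_16 (nat_lit 196) (nat_lit 195) (nat_lit 2) (nat_lit 7) (nat_lit 11) L26792 (by decide +kernel)
theorem L26794 : W_16 (nat_lit 7) (nat_lit 0x24003200180019000a80000000000000000000000000000000) (nat_lit 0x0) (nat_lit 0x11801c400e20060000000000000000000000000000000000000) := T_16 (nat_lit 161) (nat_lit 178) (nat_lit 5) (nat_lit 8) (nat_lit 7) L26793 (by decide +kernel)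
theorem L26795 : W_16 (nat_lit 8) (nat_lit 0x4003200180019000a80000000000000000000000000000000) (nat_lit 0x0) (nat_lit 0x40013801c400e20060000000000000000000000000000000000000) := T_16 (nat_lit 197) (nat_lit 214) (nat_lit 6) (nat_lit 10) (nat_lit 12) L26794 (by decide +kernel)
theorem L26796 : W_16 (nat_lit 10) (nat_lit 0x4003200180019000280000000000000000000000000000000) (nat_lit 0x0) (nat_lit 0x40013801c400e30060801800040002000000000000000000000000) := Q_16 (nat_lit 131) (C_16 L26779 (C_16 L26788 (C_16 L26795 N_16))) (by decide +kernel)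
theorem L26797 : W_16 (nat_lit 2) (nat_lit 0x10000840032001b0019000280000000000000000000000000000000) (nat_lit 0x0) (nat_lit 0x20000000000004000200000000000000000000000000000000000000000) := D_16 (nat_lit 182) (nat_lit 233) (nat_lit 165) (nat_lit 4) (nat_lit 12) (nat_lit 13) (nat_lit 4) (nat_lit 12) (nat_lit 12) (by decide +kernel)
theorem L26798 : W_16 (nat_lit 3) (nat_lit 0x840032001b0019000280000000000000000000000000000000) (nat_lit 0x0) (nat_lit 0x20001000040004000200000000000000000000000000000000000000000) := T_16 (nat_lit 216) (nat_lit 198) (nat_lit 7) (nat_lit 11) (nat_lit 8) L26797 (by decide +kernel)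
theorem L26799 : W_16 (nat_lit 4) (nat_lit 0x84003200190019000280000000000000000000000000000000) (nat_lit 0x0) (nat_lit 0x20001000040004400220000000000000000000000000000000000000000) := T_16 (nat_lit 161) (nat_lit 178) (nat_lit 5) (nat_lit 8) (nat_lit 7) L26798 (by decide +kernel)
theorem L26800 : W_16 (nat_lit 5) (nat_lit 0x84003200180019000280000000000000000000000000000000) (nat_lit 0x0) (nat_lit 0x20001000040004400230000800000000000000000000000000000000000) := T_16 (nat_lit 160) (nat_lit 143) (nat_lit 6) (nat_lit 7) (nat_lit 11) L26799 (by decide +kernel)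
theorem L26801 : W_16 (nat_lit 2) (nat_lit 0x20001e400b200190059000280000000000000000000000000000000) (nat_lit 0x0) (nat_lit 0x18004000000000000000000000000000000000000000000000) := D_16 (nat_lit 196) (nat_lit 182) (nat_lit 195) (nat_lit 2) (nat_lit 9) (nat_lit 11) (nat_lit 2) (nat_lit 7) (nat_lit 11) (by decide +kernel)
theorem L26802 : W_16 (nat_lit 3) (nat_lit 0x20001e4003200190059000280000000000000000000000000000000) (nat_lit 0x0) (nat_lit 0x1801c000000000000000000000000000000000000000000000) := T_16 (nat_lit 183) (nat_lit 184) (nat_lit 2) (nat_lit 10) (nat_lit 11) L26801 (by decide +kernel)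
theorem L26803 : W_16 (nat_lit 4) (nat_lit 0x1e4003200190059000280000000000000000000000000000000) (nat_lit 0x0) (nat_lit 0x600001801c000000000000000000000000000000000000000000000) := T_16 (nat_lit 217) (nat_lit 218) (nat_lit 3) (nat_lit 10) (nat_lit 11) L26802 (by decide +kernel)
theorem L26804 : W_16 (nat_lit 5) (nat_lit 0x1e4003200180059000280000000000000000000000000000000) (nat_lit 0x0) (nat_lit 0x600001801c000010000800000000000000000000000000000000000) := T_16 (nat_lit 160) (nat_lit 143) (nat_lit 6) (nat_lit 7) (nat_lit 11) L26803 (by decide +kernel)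
theorem L26805 : W_16 (nat_lit 6) (nat_lit 0xe4003200180059000280000000000000000000000000000000) (nat_lit 0x0) (nat_lit 0x600031801c000010000800000000000000000000000000000000000) := T_16 (nat_lit 200) (nat_lit 201) (nat_lit 0) (nat_lit 14) (nat_lit 11) L26804 (by decide +kernel)
theorem L26806 : W_16 (nat_lit 7) (nat_lit 0xa4003200180059000280000000000000000000000000000000) (nat_lit 0x0) (nat_lit 0x700035801c000010000800000000000000000000000000000000000) := T_16 (nat_lit 198) (nat_lit 216) (nat_lit 7) (nat_lit 11) (nat_lit 8) L26805 (by decide +kernel)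
theorem L26807 : W_16 (nat_lit 8) (nat_lit 0x84003200180059000280000000000000000000000000000000) (nat_lit 0x0) (nat_lit 0x740037801c000010000800000000000000000000000000000000000) := T_16 (nat_lit 197) (nat_lit 214) (nat_lit 6) (nat_lit 10) (nat_lit 12) L26806 (by decide +kernel)
theorem L26808 : W_16 (nat_lit 9) (nat_lit 0x84003200180019000280000000000000000000000000000000) (nat_lit 0x0) (nat_lit 0x740037801c000010060800000000000000000000000000000000000) := T_16 (nat_lit 150) (nat_lit 149) (nat_lit 1) (nat_lit 14) (nat_lit 8) L26807 (by decide +kernel)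
theorem L26809 : W_16 (nat_lit 2) (nat_lit 0x20001e400b200190059000280000000000000000000000000000000) (nat_lit 0x0) (nat_lit 0xe00000000000000000000000000000000000000000) := D_16 (nat_lit 166) (nat_lit 165) (nat_lit 167) (nat_lit 4) (nat_lit 13) (nat_lit 12) (nat_lit 6) (nat_lit 13) (nat_lit 12) (by decide +kernel)
theorem L26810 : W_16 (nat_lit 3) (nat_lit 0x1e400b200190059000280000000000000000000000000000000) (nat_lit 0x0) (nat_lit 0x6000000000000e00000000000000000000000000000000000000000) := T_16 (nat_lit 217) (nat_lit 218) (nat_lit 3) (nat_lit 10) (nat_lit 11) L26809 (by decide +kernel)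
theorem L26811 : W_16 (nat_lit 4) (nat_lit 0x1e4003200190059000280000000000000000000000000000000) (nat_lit 0x0) (nat_lit 0x6000000018000e00000000000000000000000000000000000000000) := T_16 (nat_lit 183) (nat_lit 184) (nat_lit 2) (nat_lit 10) (nat_lit 11) L26810 (by decide +kernel)
theorem L26812 : W_16 (nat_lit 5) (nat_lit 0xe4003200190059000280000000000000000000000000000000) (nat_lit 0x0) (nat_lit 0x6000300018000e00000000000000000000000000000000000000000) := T_16 (nat_lit 200) (nat_lit 201) (nat_lit 0) (nat_lit 14) (nat_lit 11) L26811 (by decide +kernel)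
theorem L26813 : W_16 (nat_lit 6) (nat_lit 0xc4003200190059000280000000000000000000000000000000) (nat_lit 0x0) (nat_lit 0x6400320018000e00000000000000000000000000000000000000000) := T_16 (nat_lit 197) (nat_lit 214) (nat_lit 6) (nat_lit 10) (nat_lit 12) L26812 (by decide +kernel)
theorem L26814 : W_16 (nat_lit 7) (nat_lit 0x84003200190059000280000000000000000000000000000000) (nat_lit 0x0) (nat_lit 0x7400360018000e00000000000000000000000000000000000000000) := T_16 (nat_lit 198) (nat_lit 216) (nat_lit 7) (nat_lit 11) (nat_lit 8) L26813 (by decide +kernel)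
theorem L26815 : W_16 (nat_lit 8) (nat_lit 0x84003200190019000280000000000000000000000000000000) (nat_lit 0x0) (nat_lit 0x7400360018000e00060000000000000000000000000000000000000) := T_16 (nat_lit 150) (nat_lit 149) (nat_lit 1) (nat_lit 14) (nat_lit 8) L26814 (by decide +kernel)
theorem L26816 : W_16 (nat_lit 9) (nat_lit 0x84003200180019000280000000000000000000000000000000) (nat_lit 0x0) (nat_lit 0x7400360018000e10060800000000000000000000000000000000000) := T_16 (nat_lit 160) (nat_lit 143) (nat_lit 6) (nat_lit 7) (nat_lit 11) L26815 (by decide +kernel)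
theorem L26817 : W_16 (nat_lit 2) (nat_lit 0x1400084003200180059000280000000000000000000000000000000) (nat_lit 0x0) (nat_lit 0x20000000000004000200000000000000000000000000000000000000000) := D_16 (nat_lit 182) (nat_lit 233) (nat_lit 165) (nat_lit 4) (nat_lit 12) (nat_lit 13) (nat_lit 4) (nat_lit 12) (nat_lit 12) (by decide +kernel)
theorem L26818 : W_16 (nat_lit 3) (nat_lit 0x400084003200180059000280000000000000000000000000000000) (nat_lit 0x0) (nat_lit 0x20001000040004000200000000000000000000000000000000000000000) := T_16 (nat_lit 216) (nat_lit 198) (nat_lit 7) (nat_lit 11) (nat_lit 8) L26817 (by decide +kernel)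
theorem L26819 : W_16 (nat_lit 4) (nat_lit 0x400084003200180019000280000000000000000000000000000000) (nat_lit 0x0) (nat_lit 0x20001000040004000200060000000000000000000000000000000000000) := T_16 (nat_lit 150) (nat_lit 149) (nat_lit 1) (nat_lit 14) (nat_lit 8) L26818 (by decide +kernel)
theorem L26820 : W_16 (nat_lit 5) (nat_lit 0x84003200180019000280000000000000000000000000000000) (nat_lit 0x0) (nat_lit 0x20001400060004000200060000000000000000000000000000000000000) := T_16 (nat_lit 214) (nat_lit 197) (nat_lit 6) (nat_lit 10) (nat_lit 12) L26819 (by decide +kernel)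
theorem L26821 : W_16 (nat_lit 2) (nat_lit 0xb40072001b0059000280000000000000000000000000000000) (nat_lit 0x0) (nat_lit 0x20001000000000000200000000000000000000000000000000000000000) := D_16 (nat_lit 216) (nat_lit 233) (nat_lit 165) (nat_lit 4) (nat_lit 12) (nat_lit 13) (nat_lit 4) (nat_lit 12) (nat_lit 12) (by decide +kernel)
theorem L26822 : W_16 (nat_lit 3) (nat_lit 0xb40032001b0059000280000000000000000000000000000000) (nat_lit 0x0) (nat_lit 0x2000100000000c000200000000000000000000000000000000000000000) := T_16 (nat_lit 182) (nat_lit 183) (nat_lit 1) (nat_lit 13) (nat_lit 10) L26821 (by decide +kernel)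
theorem L26823 : W_16 (nat_lit 4) (nat_lit 0xb40032001a0059000280000000000000000000000000000000) (nat_lit 0x0) (nat_lit 0x2000100000000c000210000800000000000000000000000000000000000) := T_16 (nat_lit 160) (nat_lit 143) (nat_lit 6) (nat_lit 7) (nat_lit 11) L26822 (by decide +kernel)
theorem L26824 : W_16 (nat_lit 5) (nat_lit 0xa40032001a0059000280000000000000000000000000000000) (nat_lit 0x0) (nat_lit 0x2000100001800c000210000800000000000000000000000000000000000) := T_16 (nat_lit 196) (nat_lit 195) (nat_lit 2) (nat_lit 7) (nat_lit 11) L26823 (by decide +kernel)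
theorem L26825 : W_16 (nat_lit 6) (nat_lit 0xa40032001a0019000280000000000000000000000000000000) (nat_lit 0x0) (nat_lit 0x2000100001800c000210060800000000000000000000000000000000000) := T_16 (nat_lit 150) (nat_lit 149) (nat_lit 1) (nat_lit 14) (nat_lit 8) L26824 (by decide +kernel)
theorem L26826 : W_16 (nat_lit 7) (nat_lit 0x840032001a0019000280000000000000000000000000000000) (nat_lit 0x0) (nat_lit 0x2000140003800c000210060800000000000000000000000000000000000) := T_16 (nat_lit 197) (nat_lit 214) (nat_lit 6) (nat_lit 10) (nat_lit 12) L26825 (by decide +kernel)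
theorem L26827 : W_16 (nat_lit 8) (nat_lit 0x84003200180019000280000000000000000000000000000000) (nat_lit 0x0) (nat_lit 0x2000140003800c400230060800000000000000000000000000000000000) := T_16 (nat_lit 161) (nat_lit 178) (nat_lit 5) (nat_lit 8) (nat_lit 7) L26826 (by decide +kernel)
theorem L26828 : W_16 (nat_lit 2) (nat_lit 0x1b4007200390039000280000000000000000000000000000000) (nat_lit 0x0) (nat_lit 0x640000000000000000000000000000000000000000000000000) := D_16 (nat_lit 201) (nat_lit 202) (nat_lit 198) (nat_lit 0) (nat_lit 15) (nat_lit 11) (nat_lit 0) (nat_lit 14) (nat_lit 11) (by decide +kernel)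
theorem L26829 : W_16 (nat_lit 3) (nat_lit 0xb4007200390039000280000000000000000000000000000000) (nat_lit 0x0) (nat_lit 0x2000740000000000000000000000000000000000000000000000000) := T_16 (nat_lit 200) (nat_lit 217) (nat_lit 7) (nat_lit 12) (nat_lit 8) L26828 (by decide +kernel)
theorem L26830 : W_16 (nat_lit 4) (nat_lit 0xb4007200190039000280000000000000000000000000000000) (nat_lit 0x0) (nat_lit 0x2000740000000200000001000000000000000000000000000000000) := T_16 (nat_lit 165) (nat_lit 132) (nat_lit 6) (nat_lit 12) (nat_lit 11) L26829 (by decide +kernel)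
theorem L26831 : W_16 (nat_lit 5) (nat_lit 0xb4003200190039000280000000000000000000000000000000) (nat_lit 0x0) (nat_lit 0x200074000c000200000001000000000000000000000000000000000) := T_16 (nat_lit 182) (nat_lit 183) (nat_lit 1) (nat_lit 13) (nat_lit 10) L26830 (by decide +kernel)
theorem L26832 : W_16 (nat_lit 6) (nat_lit 0xa4003200190039000280000000000000000000000000000000) (nat_lit 0x0) (nat_lit 0x200075800c000200000001000000000000000000000000000000000) := T_16 (nat_lit 196) (nat_lit 195) (nat_lit 2) (nat_lit 7) (nat_lit 11) L26831 (by decide +kernel)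
theorem L26833 : W_16 (nat_lit 7) (nat_lit 0xa4003200190019000280000000000000000000000000000000) (nat_lit 0x0) (nat_lit 0x200075800c000200060001000000000000000000000000000000000) := T_16 (nat_lit 149) (nat_lit 150) (nat_lit 1) (nat_lit 14) (nat_lit 8) L26832 (by decide +kernel)
theorem L26834 : W_16 (nat_lit 8) (nat_lit 0x84003200190019000280000000000000000000000000000000) (nat_lit 0x0) (nat_lit 0x240077800c000200060001000000000000000000000000000000000) := T_16 (nat_lit 197) (nat_lit 214) (nat_lit 6) (nat_lit 10) (nat_lit 12) L26833 (by decide +kernel)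
theorem L26835 : W_16 (nat_lit 9) (nat_lit 0x84003200180019000280000000000000000000000000000000) (nat_lit 0x0) (nat_lit 0x240077800c000210060801000000000000000000000000000000000) := T_16 (nat_lit 160) (nat_lit 143) (nat_lit 6) (nat_lit 7) (nat_lit 11) L26834 (by decide +kernel)
theorem L26836 : W_16 (nat_lit 10) (nat_lit 0x4003200180019000280000000000000000000000000000000) (nat_lit 0x0) (nat_lit 0x200074007f801c400e30060801000000000000000000000000000000000) := Q_16 (nat_lit 199) (C_16 L26800 (C_16 L26808 (C_16 L26816 (C_16 L26820 (C_16 L26827 (C_16 L26835 N_16)))))) (by decide +kernel)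
theorem L26837 : W_16 (nat_lit 11) (nat_lit 0x4003200180009000280000000000000000000000000000000) (nat_lit 0x0) (nat_lit 0x200074007f801c400e30070801800040002000000000000000000000000) := Q_16 (nat_lit 148) (C_16 L26771 (C_16 L26777 (C_16 L26778 (C_16 L26780 (C_16 L26796 (C_16 L26836 N_16)))))) (by decide +kernel)
theorem L26838 : W_16 (nat_lit 12) (nat_lit 0x4003200180001000280000000000000000000000000000000) (nat_lit 0x0) (nat_lit 0x200074007f801c400e30078801c00070002000000000000000000000000) := Q_16 (nat_lit 147) (C_16 L26195 (C_16 L26837 N_16)) (by decide +kernel)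
theorem L26839 : W_16 (nat_lit 2) (nat_lit 0x2400b200790009000280000000000000000000000000000000) (nat_lit 0x0) (nat_lit 0x18004000000000000000000000000000000000000000000000) := D_16 (nat_lit 196) (nat_lit 182) (nat_lit 195) (nat_lit 1) (nat_lit 13) (nat_lit 10) (nat_lit 2) (nat_lit 7) (nat_lit 11) (by decide +kernel)
theorem L26840 : W_16 (nat_lit 3) (nat_lit 0x24003200790009000280000000000000000000000000000000) (nat_lit 0x0) (nat_lit 0x1801c000000000000000000000000000000000000000000000) := T_16 (nat_lit 183) (nat_lit 184) (nat_lit 3) (nat_lit 10) (nat_lit 9) L26839 (by decide +kernel)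
theorem L26841 : W_16 (nat_lit 4) (nat_lit 0x4003200790009000280000000000000000000000000000000) (nat_lit 0x0) (nat_lit 0x40003801c000000000000000000000000000000000000000000000) := T_16 (nat_lit 197) (nat_lit 214) (nat_lit 6) (nat_lit 10) (nat_lit 12) L26840 (by decide +kernel)
theorem L26842 : W_16 (nat_lit 5) (nat_lit 0x4003200390009000280000000000000000000000000000000) (nat_lit 0x0) (nat_lit 0x40003801c000c00000000000000000000000000000000000000000) := T_16 (nat_lit 166) (nat_lit 167) (nat_lit 1) (nat_lit 14) (nat_lit 9) L26841 (by decide +kernel)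
theorem L26843 : W_16 (nat_lit 6) (nat_lit 0x4003200380009000280000000000000000000000000000000) (nat_lit 0x0) (nat_lit 0x40003801c000c10000800000000000000000000000000000000000) := T_16 (nat_lit 160) (nat_lit 143) (nat_lit 6) (nat_lit 7) (nat_lit 11) L26842 (by decide +kernel)
theorem L26844 : W_16 (nat_lit 2) (nat_lit 0x4003200380009000280000000000000000000000000000000) (nat_lit 0x0) (nat_lit 0x800c00000000000000000000000000000000000000000) := D_16 (nat_lit 166) (nat_lit 167) (nat_lit 179) (nat_lit 1) (nat_lit 14) (nat_lit 9) (nat_lit 1) (nat_lit 13) (nat_lit 9) (by decide +kernel)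
theorem L26845 : W_16 (nat_lit 2) (nat_lit 0x1b4007200390009000280000000000000000000000000000000) (nat_lit 0x0) (nat_lit 0x640000000000000000000000000000000000000000000000000) := D_16 (nat_lit 201) (nat_lit 202) (nat_lit 198) (nat_lit 0) (nat_lit 15) (nat_lit 11) (nat_lit 0) (nat_lit 14) (nat_lit 11) (by decide +kernel)
theorem L26846 : W_16 (nat_lit 3) (nat_lit 0xb4007200390009000280000000000000000000000000000000) (nat_lit 0x0) (nat_lit 0x740000800000000000000000000000000000000000000000000) := T_16 (nat_lit 200) (nat_lit 179) (nat_lit 3) (nat_lit 9) (nat_lit 10) L26845 (by decide +kernel)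
theorem L26847 : W_16 (nat_lit 4) (nat_lit 0x34007200390009000280000000000000000000000000000000) (nat_lit 0x0) (nat_lit 0x10007c0000800000000000000000000000000000000000000000000) := T_16 (nat_lit 199) (nat_lit 216) (nat_lit 4) (nat_lit 12) (nat_lit 12) L26846 (by decide +kernel)
theorem L26848 : W_16 (nat_lit 5) (nat_lit 0x34003200390009000280000000000000000000000000000000) (nat_lit 0x0) (nat_lit 0x10007c000c800000000000000000000000000000000000000000000) := T_16 (nat_lit 182) (nat_lit 183) (nat_lit 1) (nat_lit 13) (nat_lit 10) L26847 (by decide +kernel)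
theorem L26849 : W_16 (nat_lit 6) (nat_lit 0x24003200390009000280000000000000000000000000000000) (nat_lit 0x0) (nat_lit 0x10007d800c800000000000000000000000000000000000000000000) := T_16 (nat_lit 196) (nat_lit 195) (nat_lit 2) (nat_lit 7) (nat_lit 11) L26848 (by decide +kernel)
theorem L26850 : W_16 (nat_lit 7) (nat_lit 0x24003200380009000280000000000000000000000000000000) (nat_lit 0x0) (nat_lit 0x10007d800c800010000800000000000000000000000000000000000) := T_16 (nat_lit 160) (nat_lit 143) (nat_lit 6) (nat_lit 7) (nat_lit 11) L26849 (by decide +kernel)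
theorem L26851 : W_16 (nat_lit 8) (nat_lit 0x4003200380009000280000000000000000000000000000000) (nat_lit 0x0) (nat_lit 0x14007f800c800010000800000000000000000000000000000000000) := T_16 (nat_lit 197) (nat_lit 214) (nat_lit 6) (nat_lit 10) (nat_lit 12) L26850 (by decide +kernel)
theorem L26852 : W_16 (nat_lit 9) (nat_lit 0x4003200180009000280000000000000000000000000000000) (nat_lit 0x0) (nat_lit 0x14007f801c800e10000800000000000000000000000000000000000) := Q_16 (nat_lit 165) (C_16 L26843 (C_16 L26844 (C_16 L26851 N_16))) (by decide +kernel)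
theorem L26853 : W_16 (nat_lit 10) (nat_lit 0x4003200180001000280000000000000000000000000000000) (nat_lit 0x0) (nat_lit 0x14007f801c800e10008800400030000000000000000000000000000) := Q_16 (nat_lit 147) (C_16 L26195 (C_16 L26852 N_16)) (by decide +kernel)
theorem L26854 : W_16 (nat_lit 13) (nat_lit 0x4002200180001000280000000000000000000000000000000) (nat_lit 0x0) (nat_lit 0x200074007f801dc00e30078801c00070002000000000000000000000000) := Q_16 (nat_lit 180) (C_16 L26838 (C_16 L26194 (C_16 L26853 N_16))) (by decide +kernel)
theorem L26855 : W_16 (nat_lit 2) (nat_lit 0x2400f2005b0001000280000000000000000000000000000000) (nat_lit 0x0) (nat_lit 0x8000400000000000000008000000000000000000000000000000000000) := D_16 (nat_lit 214) (nat_lit 231) (nat_lit 147) (nat_lit 6) (nat_lit 10) (nat_lit 13) (nat_lit 6) (nat_lit 10) (nat_lit 12) (by decide +kernel)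
theorem L26856 : W_16 (nat_lit 3) (nat_lit 0x400f2005b0001000280000000000000000000000000000000) (nat_lit 0x0) (nat_lit 0x8000400030000000000008000000000000000000000000000000000000) := T_16 (nat_lit 197) (nat_lit 196) (nat_lit 1) (nat_lit 13) (nat_lit 10) L26855 (by decide +kernel)
theorem L26857 : W_16 (nat_lit 4) (nat_lit 0x400e2005b0001000280000000000000000000000000000000) (nat_lit 0x0) (nat_lit 0x8000400030001000800008000000000000000000000000000000000000) := T_16 (nat_lit 180) (nat_lit 167) (nat_lit 2) (nat_lit 10) (nat_lit 10) L26856 (by decide +kernel)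
theorem L26858 : W_16 (nat_lit 5) (nat_lit 0x400e200590001000280000000000000000000000000000000) (nat_lit 0x0) (nat_lit 0x8000400030001400820008000000000000000000000000000000000000) := T_16 (nat_lit 161) (nat_lit 178) (nat_lit 5) (nat_lit 8) (nat_lit 7) L26857 (by decide +kernel)
theorem L26859 : W_16 (nat_lit 6) (nat_lit 0x400a200590001000280000000000000000000000000000000) (nat_lit 0x0) (nat_lit 0x8000400030015400820008000000000000000000000000000000000000) := T_16 (nat_lit 182) (nat_lit 184) (nat_lit 0) (nat_lit 14) (nat_lit 10) L26858 (by decide +kernel)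
theorem L26860 : W_16 (nat_lit 7) (nat_lit 0x400a200580001000280000000000000000000000000000000) (nat_lit 0x0) (nat_lit 0x8000400030015400830008800000000000000000000000000000000000) := T_16 (nat_lit 160) (nat_lit 143) (nat_lit 6) (nat_lit 7) (nat_lit 11) L26859 (by decide +kernel)
theorem L26861 : W_16 (nat_lit 5) (nat_lit 0x400a200580001000280000000000000000000000000000000) (nat_lit 0x0) (nat_lit 0x11000a100e0800000000000000000000000000000000000) := T_16 (nat_lit 165) (nat_lit 184) (nat_lit 3) (nat_lit 10) (nat_lit 9) L25961 (by decide +kernel)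
theorem L26862 : W_16 (nat_lit 2) (nat_lit 0x400a200590069000680000000000000000000000000000000) (nat_lit 0x0) (nat_lit 0x1800040000000000000000000000000000) := D_16 (nat_lit 131) (nat_lit 114) (nat_lit 132) (nat_lit 6) (nat_lit 11) (nat_lit 10) (nat_lit 3) (nat_lit 10) (nat_lit 7) (by decide +kernel)
theorem L26863 : W_16 (nat_lit 3) (nat_lit 0x400a200590029000680000000000000000000000000000000) (nat_lit 0x0) (nat_lit 0x50001800040000000000000000000000000000) := T_16 (nat_lit 150) (nat_lit 148) (nat_lit 1) (nat_lit 14) (nat_lit 8) L26862 (by decide +kernel)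
theorem L26864 : W_16 (nat_lit 4) (nat_lit 0x400a200590029000280000000000000000000000000000000) (nat_lit 0x0) (nat_lit 0x50001c00050000000000000000000000000000) := T_16 (nat_lit 130) (nat_lit 112) (nat_lit 4) (nat_lit 11) (nat_lit 10) L26863 (by decide +kernel)
theorem L26865 : W_16 (nat_lit 5) (nat_lit 0x400a200580029000280000000000000000000000000000000) (nat_lit 0x0) (nat_lit 0x10050801c00050000000000000000000000000000) := T_16 (nat_lit 160) (nat_lit 143) (nat_lit 6) (nat_lit 7) (nat_lit 11) L26864 (by decide +kernel)
theorem L26866 : W_16 (nat_lit 2) (nat_lit 0x400010400a2005b0069000280000000000000000000000000000000) (nat_lit 0x0) (nat_lit 0x80002000000000000800000000000000000000000000000000000000000) := D_16 (nat_lit 217) (nat_lit 167) (nat_lit 235) (nat_lit 6) (nat_lit 13) (nat_lit 12) (nat_lit 7) (nat_lit 13) (nat_lit 9) (by decide +kernel)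
theorem L26867 : W_16 (nat_lit 3) (nat_lit 0x10400a2005b0069000280000000000000000000000000000000) (nat_lit 0x0) (nat_lit 0x80006000200000000800000000000000000000000000000000000000000) := T_16 (nat_lit 218) (nat_lit 201) (nat_lit 7) (nat_lit 13) (nat_lit 8) L26866 (by decide +kernel)
theorem L26868 : W_16 (nat_lit 4) (nat_lit 0x10400a200590069000280000000000000000000000000000000) (nat_lit 0x0) (nat_lit 0x80006000200000400820000000000000000000000000000000000000000) := T_16 (nat_lit 161) (nat_lit 178) (nat_lit 5) (nat_lit 8) (nat_lit 7) L26867 (by decide +kernel)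
theorem L26869 : W_16 (nat_lit 5) (nat_lit 0x400a200590069000280000000000000000000000000000000) (nat_lit 0x0) (nat_lit 0x80006000300000400820000002000000000000000000000000000000000) := T_16 (nat_lit 200) (nat_lit 133) (nat_lit 6) (nat_lit 13) (nat_lit 11) L26868 (by decide +kernel)
theorem L26870 : W_16 (nat_lit 6) (nat_lit 0x400a200580069000280000000000000000000000000000000) (nat_lit 0x0) (nat_lit 0x80006000300000400830000802000000000000000000000000000000000) := T_16 (nat_lit 160) (nat_lit 143) (nat_lit 6) (nat_lit 7) (nat_lit 11) L26869 (by decide +kernel)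
theorem L26871 : W_16 (nat_lit 7) (nat_lit 0x400a200580029000280000000000000000000000000000000) (nat_lit 0x0) (nat_lit 0x80006000300000400830050802000000000000000000000000000000000) := T_16 (nat_lit 150) (nat_lit 148) (nat_lit 1) (nat_lit 14) (nat_lit 8) L26870 (by decide +kernel)
theorem L26872 : W_16 (nat_lit 8) (nat_lit 0x400a200580021000280000000000000000000000000000000) (nat_lit 0x0) (nat_lit 0x80006000320001400830058803c00070000000000000000000000000000) := Q_16 (nat_lit 147) (C_16 L26865 (C_16 L26716 (C_16 L26871 N_16))) (by decide +kernel)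
theorem L26873 : W_16 (nat_lit 2) (nat_lit 0x400a201f90021000280000000000000000000000000000000) (nat_lit 0x0) (nat_lit 0x2000018000000000000000000000000000000000000) := D_16 (nat_lit 148) (nat_lit 169) (nat_lit 147) (nat_lit 0) (nat_lit 16) (nat_lit 9) (nat_lit 0) (nat_lit 15) (nat_lit 9) (by decide +kernel)
theorem L26874 : W_16 (nat_lit 3) (nat_lit 0x400a200f90021000280000000000000000000000000000000) (nat_lit 0x0) (nat_lit 0x4003000018000000000000000000000000000000000000) := T_16 (nat_lit 168) (nat_lit 182) (nat_lit 1) (nat_lit 15) (nat_lit 9) L26873 (by decide +kernel)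
theorem L26875 : W_16 (nat_lit 4) (nat_lit 0x400a200790021000280000000000000000000000000000000) (nat_lit 0x0) (nat_lit 0x5003800018000000000000000000000000000000000000) := T_16 (nat_lit 167) (nat_lit 180) (nat_lit 1) (nat_lit 14) (nat_lit 9) L26874 (by decide +kernel)
theorem L26876 : W_16 (nat_lit 5) (nat_lit 0x400a200590021000280000000000000000000000000000000) (nat_lit 0x0) (nat_lit 0x5003a00058000000000000000000000000000000000000) := T_16 (nat_lit 165) (nat_lit 150) (nat_lit 2) (nat_lit 10) (nat_lit 9) L26875 (by decide +kernel)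
theorem L26877 : W_16 (nat_lit 6) (nat_lit 0x400a200580021000280000000000000000000000000000000) (nat_lit 0x0) (nat_lit 0x5003a10058800000000000000000000000000000000000) := T_16 (nat_lit 160) (nat_lit 143) (nat_lit 6) (nat_lit 7) (nat_lit 11) L26876 (by decide +kernel)
theorem L26878 : W_16 (nat_lit 2) (nat_lit 0x400a201fa0021000280000000000000000000000000000000) (nat_lit 0x0) (nat_lit 0x2000018000000000000000000000000000000000000) := D_16 (nat_lit 148) (nat_lit 169) (nat_lit 147) (nat_lit 0) (nat_lit 16) (nat_lit 9) (nat_lit 0) (nat_lit 15) (nat_lit 9) (by decide +kernel)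
theorem L26879 : W_16 (nat_lit 3) (nat_lit 0x400a200fa0021000280000000000000000000000000000000) (nat_lit 0x0) (nat_lit 0x4003000018000000000000000000000000000000000000) := T_16 (nat_lit 168) (nat_lit 182) (nat_lit 1) (nat_lit 15) (nat_lit 9) L26878 (by decide +kernel)
theorem L26880 : W_16 (nat_lit 4) (nat_lit 0x400a200f80021000280000000000000000000000000000000) (nat_lit 0x0) (nat_lit 0x4403020018000000000000000000000000000000000000) := T_16 (nat_lit 161) (nat_lit 178) (nat_lit 5) (nat_lit 8) (nat_lit 7) L26879 (by decide +kernel)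
theorem L26881 : W_16 (nat_lit 5) (nat_lit 0x400a200780021000280000000000000000000000000000000) (nat_lit 0x0) (nat_lit 0x5403820018000000000000000000000000000000000000) := T_16 (nat_lit 167) (nat_lit 180) (nat_lit 1) (nat_lit 14) (nat_lit 9) L26880 (by decide +kernel)
theorem L26882 : W_16 (nat_lit 6) (nat_lit 0x400a200580021000280000000000000000000000000000000) (nat_lit 0x0) (nat_lit 0x5403a20058000000000000000000000000000000000000) := T_16 (nat_lit 165) (nat_lit 150) (nat_lit 2) (nat_lit 10) (nat_lit 9) L26881 (by decide +kernel)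
theorem L26883 : W_16 (nat_lit 2) (nat_lit 0x200010400a2005b0061000280000000000000000000000000000000) (nat_lit 0x0) (nat_lit 0x80004000200000000000000000000000000000000000000000000000000) := D_16 (nat_lit 218) (nat_lit 201) (nat_lit 235) (nat_lit 7) (nat_lit 13) (nat_lit 8) (nat_lit 7) (nat_lit 13) (nat_lit 9) (by decide +kernel)
theorem L26884 : W_16 (nat_lit 3) (nat_lit 0x10400a2005b0061000280000000000000000000000000000000) (nat_lit 0x0) (nat_lit 0x80006000200000000800000000000000000000000000000000000000000) := T_16 (nat_lit 217) (nat_lit 167) (nat_lit 6) (nat_lit 13) (nat_lit 12) L26883 (by decide +kernel)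
theorem L26885 : W_16 (nat_lit 4) (nat_lit 0x400a2005b0061000280000000000000000000000000000000) (nat_lit 0x0) (nat_lit 0x80006000300000000800000002000000000000000000000000000000000) := T_16 (nat_lit 200) (nat_lit 133) (nat_lit 6) (nat_lit 13) (nat_lit 11) L26884 (by decide +kernel)
theorem L26886 : W_16 (nat_lit 5) (nat_lit 0x400a2005b0021000280000000000000000000000000000000) (nat_lit 0x0) (nat_lit 0x80006000300000000a00040002000000000000000000000000000000000) := T_16 (nat_lit 150) (nat_lit 165) (nat_lit 2) (nat_lit 10) (nat_lit 9) L26885 (by decide +kernel)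
theorem L26887 : W_16 (nat_lit 6) (nat_lit 0x400a2005a0021000280000000000000000000000000000000) (nat_lit 0x0) (nat_lit 0x80006000300000000a10040802000000000000000000000000000000000) := T_16 (nat_lit 160) (nat_lit 143) (nat_lit 6) (nat_lit 7) (nat_lit 11) L26886 (by decide +kernel)
theorem L26888 : W_16 (nat_lit 7) (nat_lit 0x400a200580021000280000000000000000000000000000000) (nat_lit 0x0) (nat_lit 0x80006000300000400a30040802000000000000000000000000000000000) := T_16 (nat_lit 161) (nat_lit 178) (nat_lit 5) (nat_lit 8) (nat_lit 7) L26887 (by decide +kernel)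
theorem L26889 : W_16 (nat_lit 2) (nat_lit 0x30400a200590021001a80100000000000000000000000000000) (nat_lit 0x0) (nat_lit 0x400080008000000000000000000000000) := D_16 (nat_lit 115) (nat_lit 99) (nat_lit 130) (nat_lit 6) (nat_lit 13) (nat_lit 9) (nat_lit 2) (nat_lit 10) (nat_lit 7) (by decide +kernel)
theorem L26890 : W_16 (nat_lit 3) (nat_lit 0x30400a200590021001a80000000000000000000000000000000) (nat_lit 0x0) (nat_lit 0x2400180008000000000000000000000000) := T_16 (nat_lit 116) (nat_lit 133) (nat_lit 6) (nat_lit 13) (nat_lit 10) L26889 (by decide +kernel)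
theorem L26891 : W_16 (nat_lit 4) (nat_lit 0x10400a200590021001a80000000000000000000000000000000) (nat_lit 0x0) (nat_lit 0x4000200000000000000002400180008000000000000000000000000) := T_16 (nat_lit 201) (nat_lit 218) (nat_lit 7) (nat_lit 13) (nat_lit 8) L26890 (by decide +kernel)
theorem L26892 : W_16 (nat_lit 5) (nat_lit 0x10400a200590021000a80000000000000000000000000000000) (nat_lit 0x0) (nat_lit 0x40002000000000000000034001c0008000000000000000000000000) := T_16 (nat_lit 132) (nat_lit 114) (nat_lit 4) (nat_lit 13) (nat_lit 10) L26891 (by decide +kernel)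
theorem L26893 : W_16 (nat_lit 6) (nat_lit 0x400a200590021000a80000000000000000000000000000000) (nat_lit 0x0) (nat_lit 0x40003000000000000100034001c0008000000000000000000000000) := T_16 (nat_lit 200) (nat_lit 148) (nat_lit 4) (nat_lit 13) (nat_lit 11) L26892 (by decide +kernel)
theorem L26894 : W_16 (nat_lit 7) (nat_lit 0x400a200580021000a80000000000000000000000000000000) (nat_lit 0x0) (nat_lit 0x40003000000000100108034001c0008000000000000000000000000) := T_16 (nat_lit 160) (nat_lit 143) (nat_lit 6) (nat_lit 7) (nat_lit 11) L26893 (by decide +kernel)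
theorem L26895 : W_16 (nat_lit 2) (nat_lit 0x30400b200da0021001a80100000000000000000000000000000) (nat_lit 0x0) (nat_lit 0x400080008000000000000000000000000) := D_16 (nat_lit 115) (nat_lit 99) (nat_lit 130) (nat_lit 6) (nat_lit 13) (nat_lit 9) (nat_lit 2) (nat_lit 10) (nat_lit 7) (by decide +kernel)
theorem L26896 : W_16 (nat_lit 3) (nat_lit 0x30400b200da0021001a80000000000000000000000000000000) (nat_lit 0x0) (nat_lit 0x2400180008000000000000000000000000) := T_16 (nat_lit 116) (nat_lit 133) (nat_lit 6) (nat_lit 13) (nat_lit 10) L26895 (by decide +kernel)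
theorem L26897 : W_16 (nat_lit 4) (nat_lit 0x30400b2005a0021001a80000000000000000000000000000000) (nat_lit 0x0) (nat_lit 0xa00000002400180008000000000000000000000000) := T_16 (nat_lit 167) (nat_lit 165) (nat_lit 1) (nat_lit 14) (nat_lit 9) L26896 (by decide +kernel)
theorem L26898 : W_16 (nat_lit 5) (nat_lit 0x30400a2005a0021001a80000000000000000000000000000000) (nat_lit 0x0) (nat_lit 0x5000a00000002400180008000000000000000000000000) := T_16 (nat_lit 180) (nat_lit 182) (nat_lit 3) (nat_lit 10) (nat_lit 10) L26897 (by decide +kernel)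
theorem L26899 : W_16 (nat_lit 6) (nat_lit 0x10400a2005a0021001a80000000000000000000000000000000) (nat_lit 0x0) (nat_lit 0x4000200005000a00000002400180008000000000000000000000000) := T_16 (nat_lit 201) (nat_lit 218) (nat_lit 7) (nat_lit 13) (nat_lit 8) L26898 (by decide +kernel)
theorem L26900 : W_16 (nat_lit 7) (nat_lit 0x10400a2005a0021000a80000000000000000000000000000000) (nat_lit 0x0) (nat_lit 0x4000200005000a000000034001c0008000000000000000000000000) := T_16 (nat_lit 132) (nat_lit 114) (nat_lit 4) (nat_lit 13) (nat_lit 10) L26899 (by decide +kernel)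
theorem L26901 : W_16 (nat_lit 8) (nat_lit 0x400a2005a0021000a80000000000000000000000000000000) (nat_lit 0x0) (nat_lit 0x4000300005000a000100034001c0008000000000000000000000000) := T_16 (nat_lit 200) (nat_lit 148) (nat_lit 4) (nat_lit 13) (nat_lit 11) L26900 (by decide +kernel)
theorem L26902 : W_16 (nat_lit 9) (nat_lit 0x400a200580021000a80000000000000000000000000000000) (nat_lit 0x0) (nat_lit 0x4000300005400a200100034001c0008000000000000000000000000) := T_16 (nat_lit 161) (nat_lit 178) (nat_lit 5) (nat_lit 8) (nat_lit 7) L26901 (by decide +kernel)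
theorem L26903 : W_16 (nat_lit 2) (nat_lit 0x400a2005a0021001a80100000000000000000000000000000) (nat_lit 0x0) (nat_lit 0x400080008000000000000000000000000) := D_16 (nat_lit 115) (nat_lit 99) (nat_lit 130) (nat_lit 6) (nat_lit 13) (nat_lit 9) (nat_lit 2) (nat_lit 10) (nat_lit 7) (by decide +kernel)
theorem L26904 : W_16 (nat_lit 3) (nat_lit 0x400a2005a0021001a80000000000000000000000000000000) (nat_lit 0x0) (nat_lit 0x2400180008000000000000000000000000) := T_16 (nat_lit 116) (nat_lit 133) (nat_lit 6) (nat_lit 13) (nat_lit 10) L26903 (by decide +kernel)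
theorem L26905 : W_16 (nat_lit 4) (nat_lit 0x400a200580021001a80000000000000000000000000000000) (nat_lit 0x0) (nat_lit 0x400020000002400180008000000000000000000000000) := T_16 (nat_lit 161) (nat_lit 178) (nat_lit 5) (nat_lit 8) (nat_lit 7) L26904 (by decide +kernel)
theorem L26906 : W_16 (nat_lit 5) (nat_lit 0x400a200580021000a80000000000000000000000000000000) (nat_lit 0x0) (nat_lit 0x4000200000034001c0008000000000000000000000000) := T_16 (nat_lit 132) (nat_lit 114) (nat_lit 4) (nat_lit 13) (nat_lit 10) L26905 (by decide +kernel)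
theorem L26907 : W_16 (nat_lit 2) (nat_lit 0x30400e2005b0021001a80080000000000000000000000000000) (nat_lit 0x0) (nat_lit 0x2000100008000000000000000000000000) := D_16 (nat_lit 116) (nat_lit 133) (nat_lit 99) (nat_lit 6) (nat_lit 13) (nat_lit 10) (nat_lit 6) (nat_lit 13) (nat_lit 9) (by decide +kernel)
theorem L26908 : W_16 (nat_lit 3) (nat_lit 0x30400e2005b0021001a80000000000000000000000000000000) (nat_lit 0x0) (nat_lit 0x200000002000180008000000000000000000000000) := T_16 (nat_lit 115) (nat_lit 165) (nat_lit 5) (nat_lit 13) (nat_lit 6) L26907 (by decide +kernel)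
theorem L26909 : W_16 (nat_lit 4) (nat_lit 0x30400e2005b0021000a80000000000000000000000000000000) (nat_lit 0x0) (nat_lit 0x2000000030001c0008000000000000000000000000) := T_16 (nat_lit 132) (nat_lit 114) (nat_lit 4) (nat_lit 13) (nat_lit 10) L26908 (by decide +kernel)
theorem L26910 : W_16 (nat_lit 5) (nat_lit 0x30400a2005b0021000a80000000000000000000000000000000) (nat_lit 0x0) (nat_lit 0x50002000000030001c0008000000000000000000000000) := T_16 (nat_lit 182) (nat_lit 180) (nat_lit 3) (nat_lit 10) (nat_lit 10) L26909 (by decide +kernel)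
theorem L26911 : W_16 (nat_lit 6) (nat_lit 0x10400a2005b0021000a80000000000000000000000000000000) (nat_lit 0x0) (nat_lit 0x40002000050002000000030001c0008000000000000000000000000) := T_16 (nat_lit 201) (nat_lit 218) (nat_lit 7) (nat_lit 13) (nat_lit 8) L26910 (by decide +kernel)
theorem L26912 : W_16 (nat_lit 7) (nat_lit 0x10400a200590021000a80000000000000000000000000000000) (nat_lit 0x0) (nat_lit 0x40002000054002200000030001c0008000000000000000000000000) := T_16 (nat_lit 161) (nat_lit 178) (nat_lit 5) (nat_lit 8) (nat_lit 7) L26911 (by decide +kernel)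
theorem L26913 : W_16 (nat_lit 8) (nat_lit 0x400a200590021000a80000000000000000000000000000000) (nat_lit 0x0) (nat_lit 0x40003000054002200100030001c0008000000000000000000000000) := T_16 (nat_lit 200) (nat_lit 148) (nat_lit 4) (nat_lit 13) (nat_lit 11) L26912 (by decide +kernel)
theorem L26914 : W_16 (nat_lit 9) (nat_lit 0x400a200580021000a80000000000000000000000000000000) (nat_lit 0x0) (nat_lit 0x40003000054002300108030001c0008000000000000000000000000) := T_16 (nat_lit 160) (nat_lit 143) (nat_lit 6) (nat_lit 7) (nat_lit 11) L26913 (by decide +kernel)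
theorem L26915 : W_16 (nat_lit 2) (nat_lit 0x400a2005b0031000a80000000000000000000000000000000) (nat_lit 0x0) (nat_lit 0x200000000000040002000000000000000000000000) := D_16 (nat_lit 114) (nat_lit 165) (nat_lit 97) (nat_lit 7) (nat_lit 12) (nat_lit 6) (nat_lit 7) (nat_lit 12) (nat_lit 5) (by decide +kernel)
theorem L26916 : W_16 (nat_lit 3) (nat_lit 0x400a2005b0021000a80000000000000000000000000000000) (nat_lit 0x0) (nat_lit 0x100000000200010000000040002000000000000000000000000) := T_16 (nat_lit 148) (nat_lit 200) (nat_lit 4) (nat_lit 13) (nat_lit 11) L26915 (by decide +kernel)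
theorem L26917 : W_16 (nat_lit 4) (nat_lit 0x400a200590021000a80000000000000000000000000000000) (nat_lit 0x0) (nat_lit 0x100000400220010000000040002000000000000000000000000) := T_16 (nat_lit 161) (nat_lit 178) (nat_lit 5) (nat_lit 8) (nat_lit 7) L26916 (by decide +kernel)
theorem L26918 : W_16 (nat_lit 5) (nat_lit 0x400a200580021000a80000000000000000000000000000000) (nat_lit 0x0) (nat_lit 0x100000400230010800000040002000000000000000000000000) := T_16 (nat_lit 160) (nat_lit 143) (nat_lit 6) (nat_lit 7) (nat_lit 11) L26917 (by decide +kernel)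
theorem L26919 : W_16 (nat_lit 2) (nat_lit 0x4400a2005a0031000a80000000000000000000000000000000) (nat_lit 0x0) (nat_lit 0x800000004000200000000000000000000000000000000000000000) := D_16 (nat_lit 165) (nat_lit 182) (nat_lit 215) (nat_lit 5) (nat_lit 12) (nat_lit 7) (nat_lit 6) (nat_lit 11) (nat_lit 12) (by decide +kernel)
theorem L26920 : W_16 (nat_lit 3) (nat_lit 0x400a2005a0031000a80000000000000000000000000000000) (nat_lit 0x0) (nat_lit 0x800040004000200008000000000000000000000000000000000000) := T_16 (nat_lit 198) (nat_lit 147) (nat_lit 6) (nat_lit 11) (nat_lit 11) L26919 (by decide +kernel)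
theorem L26921 : W_16 (nat_lit 4) (nat_lit 0x400a200580031000a80000000000000000000000000000000) (nat_lit 0x0) (nat_lit 0x800040004400220008000000000000000000000000000000000000) := T_16 (nat_lit 161) (nat_lit 178) (nat_lit 5) (nat_lit 8) (nat_lit 7) L26920 (by decide +kernel)
theorem L26922 : W_16 (nat_lit 5) (nat_lit 0x400a200580021000a80000000000000000000000000000000) (nat_lit 0x0) (nat_lit 0x800140004400220018000000000000000000000000000000000000) := T_16 (nat_lit 148) (nat_lit 200) (nat_lit 4) (nat_lit 13) (nat_lit 11) L26921 (by decide +kernel)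
theorem L26923 : W_16 (nat_lit 10) (nat_lit 0x400a200580021000280000000000000000000000000000000) (nat_lit 0x0) (nat_lit 0x4800340005400a30018803c001c000a000000000000000000000000) := Q_16 (nat_lit 131) (C_16 L26894 (C_16 L26902 (C_16 L26906 (C_16 L26914 (C_16 L26918 (C_16 L26922 N_16)))))) (by decide +kernel)
theorem L26924 : W_16 (nat_lit 2) (nat_lit 0x10400a2005b0061000280000000000000000000000000000000) (nat_lit 0x0) (nat_lit 0x18000800000000000000000000000000000000) := D_16 (nat_lit 148) (nat_lit 131) (nat_lit 147) (nat_lit 4) (nat_lit 13) (nat_lit 11) (nat_lit 1) (nat_lit 14) (nat_lit 8) (by decide +kernel)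
theorem L26925 : W_16 (nat_lit 3) (nat_lit 0x400a2005b0061000280000000000000000000000000000000) (nat_lit 0x0) (nat_lit 0x100000000000018002800000000000000000000000000000000) := T_16 (nat_lit 200) (nat_lit 133) (nat_lit 6) (nat_lit 13) (nat_lit 11) L26924 (by decide +kernel)
theorem L26926 : W_16 (nat_lit 4) (nat_lit 0x400a2005a0061000280000000000000000000000000000000) (nat_lit 0x0) (nat_lit 0x100000000010018802800000000000000000000000000000000) := T_16 (nat_lit 160) (nat_lit 143) (nat_lit 6) (nat_lit 7) (nat_lit 11) L26925 (by decide +kernel)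
theorem L26927 : W_16 (nat_lit 5) (nat_lit 0x400a2005a0021000280000000000000000000000000000000) (nat_lit 0x0) (nat_lit 0x100000000210058802800000000000000000000000000000000) := T_16 (nat_lit 150) (nat_lit 165) (nat_lit 2) (nat_lit 10) (nat_lit 9) L26926 (by decide +kernel)
theorem L26928 : W_16 (nat_lit 6) (nat_lit 0x400a200580021000280000000000000000000000000000000) (nat_lit 0x0) (nat_lit 0x100000400230058802800000000000000000000000000000000) := T_16 (nat_lit 161) (nat_lit 178) (nat_lit 5) (nat_lit 8) (nat_lit 7) L26927 (by decide +kernel)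
theorem L26929 : W_16 (nat_lit 11) (nat_lit 0x400a200580001000280000000000000000000000000000000) (nat_lit 0x0) (nat_lit 0x80006800360005403a30078803c001f000a000000000000000000000000) := Q_16 (nat_lit 149) (C_16 L25803 (C_16 L26872 (C_16 L26877 (C_16 L26882 (C_16 L26888 (C_16 L26923 (C_16 L26928 N_16))))))) (by decide +kernel)
theorem L26930 : W_16 (nat_lit 12) (nat_lit 0x400a200180001000280000000000000000000000000000000) (nat_lit 0x0) (nat_lit 0x88006c00370015403e300f8803c001f000a000000000000000000000000) := Q_16 (nat_lit 166) (C_16 L25675 (C_16 L26860 (C_16 L26861 (C_16 L26929 N_16)))) (by decide +kernel)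
theorem L26931 : W_16 (nat_lit 2) (nat_lit 0x10400a200590061000280000000000000000000000000000000) (nat_lit 0x0) (nat_lit 0x18000800000000000000000000000000000000) := D_16 (nat_lit 148) (nat_lit 147) (nat_lit 131) (nat_lit 1) (nat_lit 14) (nat_lit 8) (nat_lit 4) (nat_lit 13) (nat_lit 11) (by decide +kernel)
theorem L26932 : W_16 (nat_lit 3) (nat_lit 0x10400a200590021000280000000000000000000000000000000) (nat_lit 0x0) (nat_lit 0x58002800000000000000000000000000000000) := T_16 (nat_lit 150) (nat_lit 133) (nat_lit 6) (nat_lit 13) (nat_lit 11) L26931 (by decide +kernel)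
theorem L26933 : W_16 (nat_lit 4) (nat_lit 0x10400a200580021000280000000000000000000000000000000) (nat_lit 0x0) (nat_lit 0x10058802800000000000000000000000000000000) := T_16 (nat_lit 160) (nat_lit 143) (nat_lit 6) (nat_lit 7) (nat_lit 11) L26932 (by decide +kernel)
theorem L26934 : W_16 (nat_lit 2) (nat_lit 0x200010400a2005a0061000280000000000000000000000000000000) (nat_lit 0x0) (nat_lit 0x80004000200000000000000000000000000000000000000000000000000) := D_16 (nat_lit 218) (nat_lit 201) (nat_lit 235) (nat_lit 7) (nat_lit 13) (nat_lit 8) (nat_lit 7) (nat_lit 13) (nat_lit 9) (by decide +kernel)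
theorem L26935 : W_16 (nat_lit 3) (nat_lit 0x10400a2005a0061000280000000000000000000000000000000) (nat_lit 0x0) (nat_lit 0x80006000200000000800000000000000000000000000000000000000000) := T_16 (nat_lit 217) (nat_lit 167) (nat_lit 6) (nat_lit 13) (nat_lit 12) L26934 (by decide +kernel)
theorem L26936 : W_16 (nat_lit 4) (nat_lit 0x10400a200580061000280000000000000000000000000000000) (nat_lit 0x0) (nat_lit 0x80006000200000400820000000000000000000000000000000000000000) := T_16 (nat_lit 161) (nat_lit 178) (nat_lit 5) (nat_lit 8) (nat_lit 7) L26935 (by decide +kernel)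
theorem L26937 : W_16 (nat_lit 5) (nat_lit 0x10400a200580021000280000000000000000000000000000000) (nat_lit 0x0) (nat_lit 0x80006000200000400820040002000000000000000000000000000000000) := T_16 (nat_lit 150) (nat_lit 133) (nat_lit 6) (nat_lit 13) (nat_lit 11) L26936 (by decide +kernel)
theorem L26938 : W_16 (nat_lit 6) (nat_lit 0x10400a2005a0021000a80000000000000000000000000000000) (nat_lit 0x0) (nat_lit 0x40002000000000100008034001c0008000000000000000000000000) := T_16 (nat_lit 132) (nat_lit 114) (nat_lit 4) (nat_lit 13) (nat_lit 10) L25792 (by decide +kernel)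
theorem L26939 : W_16 (nat_lit 7) (nat_lit 0x10400a200580021000a80000000000000000000000000000000) (nat_lit 0x0) (nat_lit 0x40002000004000300008034001c0008000000000000000000000000) := T_16 (nat_lit 161) (nat_lit 178) (nat_lit 5) (nat_lit 8) (nat_lit 7) L26938 (by decide +kernel)
theorem L26940 : W_16 (nat_lit 8) (nat_lit 0x10400a200580021000280000000000000000000000000000000) (nat_lit 0x0) (nat_lit 0x4000200000400030010803c001c0008000000000000000000000000) := T_16 (nat_lit 131) (nat_lit 148) (nat_lit 4) (nat_lit 13) (nat_lit 11) L26939 (by decide +kernel)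
theorem L26941 : W_16 (nat_lit 2) (nat_lit 0x200010400a200590071000280000000000000000000000000000000) (nat_lit 0x0) (nat_lit 0x80004000200000000000000000000000000000000000000000000000000) := D_16 (nat_lit 218) (nat_lit 201) (nat_lit 235) (nat_lit 7) (nat_lit 13) (nat_lit 8) (nat_lit 7) (nat_lit 13) (nat_lit 9) (by decide +kernel)
theorem L26942 : W_16 (nat_lit 3) (nat_lit 0x10400a200590071000280000000000000000000000000000000) (nat_lit 0x0) (nat_lit 0x80006000200000000800000000000000000000000000000000000000000) := T_16 (nat_lit 217) (nat_lit 167) (nat_lit 6) (nat_lit 13) (nat_lit 12) L26941 (by decide +kernel)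
theorem L26943 : W_16 (nat_lit 4) (nat_lit 0x10400a200590031000280000000000000000000000000000000) (nat_lit 0x0) (nat_lit 0x80006000200000000800048000000000000000000000000000000000000) := T_16 (nat_lit 150) (nat_lit 147) (nat_lit 1) (nat_lit 14) (nat_lit 8) L26942 (by decide +kernel)
theorem L26944 : W_16 (nat_lit 5) (nat_lit 0x10400a200590021000280000000000000000000000000000000) (nat_lit 0x0) (nat_lit 0x80006000200000000800058000800000000000000000000000000000000) := T_16 (nat_lit 148) (nat_lit 131) (nat_lit 4) (nat_lit 13) (nat_lit 11) L26943 (by decide +kernel)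
theorem L26945 : W_16 (nat_lit 6) (nat_lit 0x10400a200580021000280000000000000000000000000000000) (nat_lit 0x0) (nat_lit 0x80006000200000000810058800800000000000000000000000000000000) := T_16 (nat_lit 160) (nat_lit 143) (nat_lit 6) (nat_lit 7) (nat_lit 11) L26944 (by decide +kernel)
theorem L26946 : W_16 (nat_lit 9) (nat_lit 0x400a200580021000280000000000000000000000000000000) (nat_lit 0x0) (nat_lit 0x80006000300000400830058803c001c0008000000000000000000000000) := Q_16 (nat_lit 200) (C_16 L25954 (C_16 L26933 (C_16 L25710 (C_16 L26937 (C_16 L26940 (C_16 L26945 N_16)))))) (by decide +kernel)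
theorem L26947 : W_16 (nat_lit 2) (nat_lit 0x4000600010401a2005b0031000280000000000000000000000000000000) (nat_lit 0x0) (nat_lit 0x400020001000000000000000000000000000000000000000000000000000000) := D_16 (nat_lit 233) (nat_lit 250) (nat_lit 216) (nat_lit 5) (nat_lit 13) (nat_lit 10) (nat_lit 5) (nat_lit 13) (nat_lit 9) (by decide +kernel)
theorem L26948 : W_16 (nat_lit 3) (nat_lit 0x600010401a2005b0031000280000000000000000000000000000000) (nat_lit 0x0) (nat_lit 0x400060001000000000000800000000000000000000000000000000000000000) := T_16 (nat_lit 234) (nat_lit 167) (nat_lit 6) (nat_lit 13) (nat_lit 13) L26947 (by decide +kernel)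
theorem L26949 : W_16 (nat_lit 4) (nat_lit 0x400010401a2005b0031000280000000000000000000000000000000) (nat_lit 0x0) (nat_lit 0x4000e0003000000000000800000000000000000000000000000000000000000) := T_16 (nat_lit 217) (nat_lit 235) (nat_lit 7) (nat_lit 13) (nat_lit 9) L26948 (by decide +kernel)
theorem L26950 : W_16 (nat_lit 5) (nat_lit 0x400010401a2005a0031000280000000000000000000000000000000) (nat_lit 0x0) (nat_lit 0x4000e0003000000000000810000800000000000000000000000000000000000) := T_16 (nat_lit 160) (nat_lit 143) (nat_lit 6) (nat_lit 7) (nat_lit 11) L26949 (by decide +kernel)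
theorem L26951 : W_16 (nat_lit 6) (nat_lit 0x10401a2005a0031000280000000000000000000000000000000) (nat_lit 0x0) (nat_lit 0x4000e0007000200000000810000800000000000000000000000000000000000) := T_16 (nat_lit 218) (nat_lit 201) (nat_lit 7) (nat_lit 13) (nat_lit 8) L26950 (by decide +kernel)
theorem L26952 : W_16 (nat_lit 7) (nat_lit 0x10401a2005a0021000280000000000000000000000000000000) (nat_lit 0x0) (nat_lit 0x4000e0007000200000000810010800800000000000000000000000000000000) := T_16 (nat_lit 148) (nat_lit 131) (nat_lit 4) (nat_lit 13) (nat_lit 11) L26951 (by decide +kernel)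
theorem L26953 : W_16 (nat_lit 8) (nat_lit 0x10400a2005a0021000280000000000000000000000000000000) (nat_lit 0x0) (nat_lit 0x4000e0007000200014000810010800800000000000000000000000000000000) := T_16 (nat_lit 184) (nat_lit 182) (nat_lit 0) (nat_lit 14) (nat_lit 10) L26952 (by decide +kernel)
theorem L26954 : W_16 (nat_lit 9) (nat_lit 0x10400a200580021000280000000000000000000000000000000) (nat_lit 0x0) (nat_lit 0x4000e0007000200014400830010800800000000000000000000000000000000) := T_16 (nat_lit 161) (nat_lit 178) (nat_lit 5) (nat_lit 8) (nat_lit 7) L26953 (by decide +kernel)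
theorem L26955 : W_16 (nat_lit 10) (nat_lit 0x400a200580021000280000000000000000000000000000000) (nat_lit 0x0) (nat_lit 0x4000e0007000300014400830058802800000000000000000000000000000000) := Q_16 (nat_lit 200) (C_16 L26945 (C_16 L26937 (C_16 L26954 (C_16 L26933 N_16)))) (by decide +kernel)
theorem L26956 : W_16 (nat_lit 8) (nat_lit 0x400a200580061000280000000000000000000000000000000) (nat_lit 0x0) (nat_lit 0x80006000100000400830010803c00040000000000000000000000000000) := T_16 (nat_lit 200) (nat_lit 133) (nat_lit 6) (nat_lit 13) (nat_lit 11) L25953 (by decide +kernel)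
theorem L26957 : W_16 (nat_lit 2) (nat_lit 0x10400a200580061000280000000000000000000000000000000) (nat_lit 0x0) (nat_lit 0x18000800000000000000000000000000000000) := D_16 (nat_lit 148) (nat_lit 131) (nat_lit 147) (nat_lit 4) (nat_lit 13) (nat_lit 11) (nat_lit 1) (nat_lit 14) (nat_lit 8) (by decide +kernel)
theorem L26958 : W_16 (nat_lit 3) (nat_lit 0x400a200580061000280000000000000000000000000000000) (nat_lit 0x0) (nat_lit 0x100000000000018002800000000000000000000000000000000) := T_16 (nat_lit 200) (nat_lit 133) (nat_lit 6) (nat_lit 13) (nat_lit 11) L26957 (by decide +kernel)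
theorem L26959 : W_16 (nat_lit 2) (nat_lit 0xa000200010400a2005a0061000280000000000000000000000000000000) (nat_lit 0x0) (nat_lit 0x1400040000000000000000000000000000000000000000000000000000000000) := D_16 (nat_lit 234) (nat_lit 250) (nat_lit 252) (nat_lit 5) (nat_lit 13) (nat_lit 10) (nat_lit 7) (nat_lit 13) (nat_lit 10) (by decide +kernel)
theorem L26960 : W_16 (nat_lit 3) (nat_lit 0x2000200010400a2005a0061000280000000000000000000000000000000) (nat_lit 0x0) (nat_lit 0x14000c0004000000000000000000000000000000000000000000000000000000) := T_16 (nat_lit 235) (nat_lit 218) (nat_lit 7) (nat_lit 13) (nat_lit 9) L26959 (by decide +kernel)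
theorem L26961 : W_16 (nat_lit 4) (nat_lit 0x200010400a2005a0061000280000000000000000000000000000000) (nat_lit 0x0) (nat_lit 0x14000e0005000000000000000000000000000000000000000000000000000000) := T_16 (nat_lit 233) (nat_lit 216) (nat_lit 5) (nat_lit 13) (nat_lit 9) L26960 (by decide +kernel)
theorem L26962 : W_16 (nat_lit 5) (nat_lit 0x10400a2005a0061000280000000000000000000000000000000) (nat_lit 0x0) (nat_lit 0x14000e0007000000000000800000000000000000000000000000000000000000) := T_16 (nat_lit 217) (nat_lit 167) (nat_lit 6) (nat_lit 13) (nat_lit 12) L26961 (by decide +kernel)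
theorem L26963 : W_16 (nat_lit 6) (nat_lit 0x10400a200580061000280000000000000000000000000000000) (nat_lit 0x0) (nat_lit 0x14000e0007000000000400820000000000000000000000000000000000000000) := T_16 (nat_lit 161) (nat_lit 178) (nat_lit 5) (nat_lit 8) (nat_lit 7) L26962 (by decide +kernel)
theorem L26964 : W_16 (nat_lit 7) (nat_lit 0x400a200580061000280000000000000000000000000000000) (nat_lit 0x0) (nat_lit 0x14000e0007000100000400820000002000000000000000000000000000000000) := T_16 (nat_lit 200) (nat_lit 133) (nat_lit 6) (nat_lit 13) (nat_lit 11) L26963 (by decide +kernel)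
theorem L26965 : W_16 (nat_lit 2) (nat_lit 0x401a2005b0071000a80000000000000000000000000000000) (nat_lit 0x0) (nat_lit 0x1400040000000000000000000000000000) := D_16 (nat_lit 132) (nat_lit 114) (nat_lit 130) (nat_lit 4) (nat_lit 13) (nat_lit 10) (nat_lit 3) (nat_lit 10) (nat_lit 7) (by decide +kernel)
theorem L26966 : W_16 (nat_lit 3) (nat_lit 0x401a2005b0071000280000000000000000000000000000000) (nat_lit 0x0) (nat_lit 0x100000000000000001c00040000000000000000000000000000) := T_16 (nat_lit 131) (nat_lit 200) (nat_lit 4) (nat_lit 13) (nat_lit 11) L26965 (by decide +kernel)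
theorem L26967 : W_16 (nat_lit 4) (nat_lit 0x401a2005b0061000280000000000000000000000000000000) (nat_lit 0x0) (nat_lit 0x100000000000018001c00040000000000000000000000000000) := T_16 (nat_lit 148) (nat_lit 147) (nat_lit 1) (nat_lit 14) (nat_lit 8) L26966 (by decide +kernel)
theorem L26968 : W_16 (nat_lit 5) (nat_lit 0x400a2005b0061000280000000000000000000000000000000) (nat_lit 0x0) (nat_lit 0x100014000000018001c00040000000000000000000000000000) := T_16 (nat_lit 184) (nat_lit 182) (nat_lit 0) (nat_lit 14) (nat_lit 10) L26967 (by decide +kernel)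
theorem L26969 : W_16 (nat_lit 6) (nat_lit 0x400a200590061000280000000000000000000000000000000) (nat_lit 0x0) (nat_lit 0x100014400020018001c00040000000000000000000000000000) := T_16 (nat_lit 161) (nat_lit 178) (nat_lit 5) (nat_lit 8) (nat_lit 7) L26968 (by decide +kernel)
theorem L26970 : W_16 (nat_lit 7) (nat_lit 0x400a200580061000280000000000000000000000000000000) (nat_lit 0x0) (nat_lit 0x100014400030018801c00040000000000000000000000000000) := T_16 (nat_lit 160) (nat_lit 143) (nat_lit 6) (nat_lit 7) (nat_lit 11) L26969 (by decide +kernel)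
theorem L26971 : W_16 (nat_lit 2) (nat_lit 0x401a200580069000680000000000000000000000000000000) (nat_lit 0x0) (nat_lit 0x1800040000000000000000000000000000) := D_16 (nat_lit 131) (nat_lit 132) (nat_lit 114) (nat_lit 3) (nat_lit 10) (nat_lit 7) (nat_lit 6) (nat_lit 11) (nat_lit 10) (by decide +kernel)
theorem L26972 : W_16 (nat_lit 3) (nat_lit 0x401a200580069000280000000000000000000000000000000) (nat_lit 0x0) (nat_lit 0x1c00050000000000000000000000000000) := T_16 (nat_lit 130) (nat_lit 112) (nat_lit 4) (nat_lit 11) (nat_lit 10) L26971 (by decide +kernel)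
theorem L26973 : W_16 (nat_lit 4) (nat_lit 0x400a200580069000280000000000000000000000000000000) (nat_lit 0x0) (nat_lit 0x14000000000001c00050000000000000000000000000000) := T_16 (nat_lit 184) (nat_lit 182) (nat_lit 0) (nat_lit 14) (nat_lit 10) L26972 (by decide +kernel)
theorem L26974 : W_16 (nat_lit 5) (nat_lit 0x400a200580061000280000000000000000000000000000000) (nat_lit 0x0) (nat_lit 0x14000000018001c00050000000000000000000000000000) := T_16 (nat_lit 147) (nat_lit 148) (nat_lit 1) (nat_lit 14) (nat_lit 8) L26973 (by decide +kernel)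
theorem L26975 : W_16 (nat_lit 9) (nat_lit 0x400a200580021000280000000000000000000000000000000) (nat_lit 0x0) (nat_lit 0x14000e0007000100014400830058803c00050000000000000000000000000000) := Q_16 (nat_lit 150) (C_16 L26956 (C_16 L26958 (C_16 L26964 (C_16 L26970 (C_16 L26974 N_16))))) (by decide +kernel)
theorem L26976 : W_16 (nat_lit 11) (nat_lit 0x400a200580001000280000000000000000000000000000000) (nat_lit 0x0) (nat_lit 0x14000e0007000300014400830078803c001f800a000000000000000000000000) := Q_16 (nat_lit 149) (C_16 L25908 (C_16 L25697 (C_16 L25732 (C_16 L26946 (C_16 L26955 (C_16 L25727 (C_16 L26975 N_16))))))) (by decide +kernel)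
theorem L26977 : W_16 (nat_lit 10) (nat_lit 0x400a200580001000280000000000000000000000000000000) (nat_lit 0x0) (nat_lit 0x80006000300010400a30078803c001c000a000000000000000000000000) := Q_16 (nat_lit 149) (C_16 L26946 (C_16 L26888 (C_16 L25741 (C_16 L25751 N_16)))) (by decide +kernel)
theorem L26978 : W_16 (nat_lit 4) (nat_lit 0x400a200580021000280000000000000000000000000000000) (nat_lit 0x0) (nat_lit 0x100000000200058002800000000000000000000000000000000) := T_16 (nat_lit 150) (nat_lit 165) (nat_lit 2) (nat_lit 10) (nat_lit 9) L26958 (by decide +kernel)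
theorem L26979 : W_16 (nat_lit 8) (nat_lit 0x400a200580021000280000000000000000000000000000000) (nat_lit 0x0) (nat_lit 0x4800340004400230018803c001c000a000000000000000000000000) := Q_16 (nat_lit 131) (C_16 L26918 (C_16 L26922 (C_16 L26906 (C_16 L26894 N_16)))) (by decide +kernel)
theorem L26980 : W_16 (nat_lit 6) (nat_lit 0x400a2005b0071000280000000000000000000000000000000) (nat_lit 0x0) (nat_lit 0x14000e0007000100000000800000000800000000000000000000000000000000) := T_16 (nat_lit 200) (nat_lit 131) (nat_lit 4) (nat_lit 13) (nat_lit 11) L25943 (by decide +kernel)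
theorem L26981 : W_16 (nat_lit 7) (nat_lit 0x400a2005b0061000280000000000000000000000000000000) (nat_lit 0x0) (nat_lit 0x14000e0007000100000000800018000800000000000000000000000000000000) := T_16 (nat_lit 148) (nat_lit 147) (nat_lit 1) (nat_lit 14) (nat_lit 8) L26980 (by decide +kernel)
theorem L26982 : W_16 (nat_lit 8) (nat_lit 0x400a200590061000280000000000000000000000000000000) (nat_lit 0x0) (nat_lit 0x14000e0007000100000400820018000800000000000000000000000000000000) := T_16 (nat_lit 161) (nat_lit 178) (nat_lit 5) (nat_lit 8) (nat_lit 7) L26981 (by decide +kernel)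
theorem L26983 : W_16 (nat_lit 9) (nat_lit 0x400a200590021000280000000000000000000000000000000) (nat_lit 0x0) (nat_lit 0x14000e0007000100000400a20058000800000000000000000000000000000000) := T_16 (nat_lit 150) (nat_lit 165) (nat_lit 2) (nat_lit 10) (nat_lit 9) L26982 (by decide +kernel)
theorem L26984 : W_16 (nat_lit 10) (nat_lit 0x400a200580021000280000000000000000000000000000000) (nat_lit 0x0) (nat_lit 0x14000e0007000100000400a30058800800000000000000000000000000000000) := T_16 (nat_lit 160) (nat_lit 143) (nat_lit 6) (nat_lit 7) (nat_lit 11) L26983 (by decide +kernel)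
theorem L26985 : W_16 (nat_lit 2) (nat_lit 0x400a2005b0069000680000000000000000000000000000000) (nat_lit 0x0) (nat_lit 0x1800040000000000000000000000000000) := D_16 (nat_lit 131) (nat_lit 132) (nat_lit 114) (nat_lit 3) (nat_lit 10) (nat_lit 7) (nat_lit 6) (nat_lit 11) (nat_lit 10) (by decide +kernel)
theorem L26986 : W_16 (nat_lit 3) (nat_lit 0x400a2005b0069000280000000000000000000000000000000) (nat_lit 0x0) (nat_lit 0x1c00050000000000000000000000000000) := T_16 (nat_lit 130) (nat_lit 112) (nat_lit 4) (nat_lit 11) (nat_lit 10) L26985 (by decide +kernel)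
theorem L26987 : W_16 (nat_lit 4) (nat_lit 0x400a2005b0061000280000000000000000000000000000000) (nat_lit 0x0) (nat_lit 0x18001c00050000000000000000000000000000) := T_16 (nat_lit 147) (nat_lit 148) (nat_lit 1) (nat_lit 14) (nat_lit 8) L26986 (by decide +kernel)
theorem L26988 : W_16 (nat_lit 5) (nat_lit 0x400a2005b0021000280000000000000000000000000000000) (nat_lit 0x0) (nat_lit 0x200058001c00050000000000000000000000000000) := T_16 (nat_lit 150) (nat_lit 165) (nat_lit 2) (nat_lit 10) (nat_lit 9) L26987 (by decide +kernel)
theorem L26989 : W_16 (nat_lit 6) (nat_lit 0x400a2005a0021000280000000000000000000000000000000) (nat_lit 0x0) (nat_lit 0x210058801c00050000000000000000000000000000) := T_16 (nat_lit 160) (nat_lit 143) (nat_lit 6) (nat_lit 7) (nat_lit 11) L26988 (by decide +kernel)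
theorem L26990 : W_16 (nat_lit 7) (nat_lit 0x400a200580021000280000000000000000000000000000000) (nat_lit 0x0) (nat_lit 0x400230058801c00050000000000000000000000000000) := T_16 (nat_lit 161) (nat_lit 178) (nat_lit 5) (nat_lit 8) (nat_lit 7) L26989 (by decide +kernel)
theorem L26991 : W_16 (nat_lit 11) (nat_lit 0x400a200580001000280000000000000000000000000000000) (nat_lit 0x0) (nat_lit 0x14000e0007800340004400a30078803c001d000a000000000000000000000000) := Q_16 (nat_lit 149) (C_16 L26946 (C_16 L26888 (C_16 L26978 (C_16 L26979 (C_16 L26984 (C_16 L26990 N_16)))))) (by decide +kernel)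
theorem L26992 : W_16 (nat_lit 12) (nat_lit 0x400a200180001000280000000000000000000000000000000) (nat_lit 0x0) (nat_lit 0x14000e0007800340014400e30078803c001f800a000000000000000000000000) := Q_16 (nat_lit 166) (C_16 L25675 (C_16 L26976 (C_16 L26977 (C_16 L26991 N_16)))) (by decide +kernel)
theorem L26993 : W_16 (nat_lit 6) (nat_lit 0x400a200580021000280000000000000000000000000000000) (nat_lit 0x0) (nat_lit 0x200010000810048803c001d800a000000000000000000000000) := Q_16 (nat_lit 132) (C_16 L26725 (C_16 L25889 (C_16 L25852 (C_16 L25848 N_16)))) (by decide +kernel)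
theorem L26994 : W_16 (nat_lit 2) (nat_lit 0x401a2005a00610032800d0000000000000000000000000000) (nat_lit 0x0) (nat_lit 0x18000400000000000000000000000000000000) := D_16 (nat_lit 147) (nat_lit 130) (nat_lit 148) (nat_lit 4) (nat_lit 11) (nat_lit 10) (nat_lit 1) (nat_lit 14) (nat_lit 8) (by decide +kernel)
theorem L26995 : W_16 (nat_lit 3) (nat_lit 0x401a2005a00210032800d0000000000000000000000000000) (nat_lit 0x0) (nat_lit 0x100000000000058000400000000000000000000000000000000) := T_16 (nat_lit 150) (nat_lit 200) (nat_lit 6) (nat_lit 13) (nat_lit 11) L26994 (by decide +kernel)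
theorem L26996 : W_16 (nat_lit 4) (nat_lit 0x401a2005a00210032800c0000000000000000000000000000) (nat_lit 0x0) (nat_lit 0x100000000000058000400030000000000000000000000000000) := T_16 (nat_lit 112) (nat_lit 113) (nat_lit 3) (nat_lit 10) (nat_lit 6) L26995 (by decide +kernel)
theorem L26997 : W_16 (nat_lit 5) (nat_lit 0x401a2005a0021003280080000000000000000000000000000) (nat_lit 0x0) (nat_lit 0x100000000000058000400070002000000000000000000000000) := T_16 (nat_lit 114) (nat_lit 97) (nat_lit 4) (nat_lit 13) (nat_lit 9) L26996 (by decide +kernel)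
theorem L26998 : W_16 (nat_lit 6) (nat_lit 0x401a2005a0021003280000000000000000000000000000000) (nat_lit 0x0) (nat_lit 0x1000000008000580004000f0002000000000000000000000000) := T_16 (nat_lit 115) (nat_lit 167) (nat_lit 7) (nat_lit 13) (nat_lit 6) L26997 (by decide +kernel)
theorem L26999 : W_16 (nat_lit 7) (nat_lit 0x400a2005a0021003280000000000000000000000000000000) (nat_lit 0x0) (nat_lit 0x3000100008000580004000f0002000000000000000000000000) := T_16 (nat_lit 184) (nat_lit 201) (nat_lit 7) (nat_lit 13) (nat_lit 7) L26998 (by decide +kernel)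
theorem L27000 : W_16 (nat_lit 8) (nat_lit 0x400a2005a0021001280000000000000000000000000000000) (nat_lit 0x0) (nat_lit 0x3000100008000580024001f0002000000000000000000000000) := T_16 (nat_lit 133) (nat_lit 116) (nat_lit 6) (nat_lit 13) (nat_lit 10) L26999 (by decide +kernel)
theorem L27001 : W_16 (nat_lit 9) (nat_lit 0x400a200580021001280000000000000000000000000000000) (nat_lit 0x0) (nat_lit 0x3000104008200580024001f0002000000000000000000000000) := T_16 (nat_lit 161) (nat_lit 178) (nat_lit 5) (nat_lit 8) (nat_lit 7) L27000 (by decide +kernel)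
theorem L27002 : W_16 (nat_lit 2) (nat_lit 0x10400a2005a0021003280000000000000000000000000000000) (nat_lit 0x0) (nat_lit 0x4000200010000000000000000000000000000000000000000000000) := D_16 (nat_lit 201) (nat_lit 184) (nat_lit 218) (nat_lit 7) (nat_lit 13) (nat_lit 7) (nat_lit 7) (nat_lit 13) (nat_lit 8) (by decide +kernel)
theorem L27003 : W_16 (nat_lit 3) (nat_lit 0x400a2005a0021003280000000000000000000000000000000) (nat_lit 0x0) (nat_lit 0x4000300010000000040000000000000000000000000000000000000) := T_16 (nat_lit 200) (nat_lit 150) (nat_lit 6) (nat_lit 13) (nat_lit 11) L27002 (by decide +kernel)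
theorem L27004 : W_16 (nat_lit 4) (nat_lit 0x400a200580021003280000000000000000000000000000000) (nat_lit 0x0) (nat_lit 0x4000300010400020040000000000000000000000000000000000000) := T_16 (nat_lit 161) (nat_lit 178) (nat_lit 5) (nat_lit 8) (nat_lit 7) L27003 (by decide +kernel)
theorem L27005 : W_16 (nat_lit 5) (nat_lit 0x400a200580021001280000000000000000000000000000000) (nat_lit 0x0) (nat_lit 0x4000300010400020040002000100000000000000000000000000000) := T_16 (nat_lit 133) (nat_lit 116) (nat_lit 6) (nat_lit 13) (nat_lit 10) L27004 (by decide +kernel)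
theorem L27006 : W_16 (nat_lit 10) (nat_lit 0x400a200580021000280000000000000000000000000000000) (nat_lit 0x0) (nat_lit 0x4000300010400820058003c001f8002000000000000000000000000) := Q_16 (nat_lit 132) (C_16 L26725 (C_16 L25907 (C_16 L25852 (C_16 L27001 (C_16 L27005 N_16))))) (by decide +kernel)
theorem L27007 : W_16 (nat_lit 2) (nat_lit 0x400a2005a0021003a80000000000000000000000000000000) (nat_lit 0x0) (nat_lit 0x100000000000050000000000000000000000000000000000000) := D_16 (nat_lit 200) (nat_lit 150) (nat_lit 148) (nat_lit 6) (nat_lit 13) (nat_lit 11) (nat_lit 4) (nat_lit 13) (nat_lit 11) (by decide +kernel)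
theorem L27008 : W_16 (nat_lit 3) (nat_lit 0x400a2005a0021003280000000000000000000000000000000) (nat_lit 0x0) (nat_lit 0x100000000000050000800040000000000000000000000000000) := T_16 (nat_lit 131) (nat_lit 114) (nat_lit 4) (nat_lit 13) (nat_lit 10) L27007 (by decide +kernel)
theorem L27009 : W_16 (nat_lit 4) (nat_lit 0x400a2005a0021001280000000000000000000000000000000) (nat_lit 0x0) (nat_lit 0x100000000000050002800140000000000000000000000000000) := T_16 (nat_lit 133) (nat_lit 116) (nat_lit 6) (nat_lit 13) (nat_lit 10) L27008 (by decide +kernel)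
theorem L27010 : W_16 (nat_lit 5) (nat_lit 0x400a200580021001280000000000000000000000000000000) (nat_lit 0x0) (nat_lit 0x100000400020050002800140000000000000000000000000000) := T_16 (nat_lit 161) (nat_lit 178) (nat_lit 5) (nat_lit 8) (nat_lit 7) L27009 (by decide +kernel)
theorem L27011 : W_16 (nat_lit 7) (nat_lit 0x400a200580021000280000000000000000000000000000000) (nat_lit 0x0) (nat_lit 0x40003000104008300508038001c0002000000000000000000000000) := Q_16 (nat_lit 132) (C_16 L27005 (C_16 L25852 (C_16 L27010 (C_16 L25864 N_16)))) (by decide +kernel)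
theorem L27012 : W_16 (nat_lit 2) (nat_lit 0x10400a2005b0021003a80000000000000000000000000000000) (nat_lit 0x0) (nat_lit 0x4000200010000000000000000000000000000000000000000000000) := D_16 (nat_lit 201) (nat_lit 184) (nat_lit 218) (nat_lit 7) (nat_lit 13) (nat_lit 7) (nat_lit 7) (nat_lit 13) (nat_lit 8) (by decide +kernel)
theorem L27013 : W_16 (nat_lit 3) (nat_lit 0x400a2005b0021003a80000000000000000000000000000000) (nat_lit 0x0) (nat_lit 0x4000300010000000010000000000000000000000000000000000000) := T_16 (nat_lit 200) (nat_lit 148) (nat_lit 4) (nat_lit 13) (nat_lit 11) L27012 (by decide +kernel)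
theorem L27014 : W_16 (nat_lit 4) (nat_lit 0x400a2005a0021003a80000000000000000000000000000000) (nat_lit 0x0) (nat_lit 0x4000300010000010010800000000000000000000000000000000000) := T_16 (nat_lit 160) (nat_lit 143) (nat_lit 6) (nat_lit 7) (nat_lit 11) L27013 (by decide +kernel)
theorem L27015 : W_16 (nat_lit 5) (nat_lit 0x400a2005a0021003280000000000000000000000000000000) (nat_lit 0x0) (nat_lit 0x4000300010000010010800800040000000000000000000000000000) := T_16 (nat_lit 131) (nat_lit 114) (nat_lit 4) (nat_lit 13) (nat_lit 10) L27014 (by decide +kernel)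
theorem L27016 : W_16 (nat_lit 6) (nat_lit 0x400a2005a0021001280000000000000000000000000000000) (nat_lit 0x0) (nat_lit 0x4000300010000010010802800140000000000000000000000000000) := T_16 (nat_lit 133) (nat_lit 116) (nat_lit 6) (nat_lit 13) (nat_lit 10) L27015 (by decide +kernel)
theorem L27017 : W_16 (nat_lit 7) (nat_lit 0x400a200580021001280000000000000000000000000000000) (nat_lit 0x0) (nat_lit 0x4000300010400030010802800140000000000000000000000000000) := T_16 (nat_lit 161) (nat_lit 178) (nat_lit 5) (nat_lit 8) (nat_lit 7) L27016 (by decide +kernel)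
theorem L27018 : W_16 (nat_lit 8) (nat_lit 0x400a200580021000280000000000000000000000000000000) (nat_lit 0x0) (nat_lit 0x4000300010400830010803c001c000a000000000000000000000000) := Q_16 (nat_lit 132) (C_16 L25889 (C_16 L25852 (C_16 L25848 (C_16 L25864 (C_16 L27017 N_16))))) (by decide +kernel)
theorem L27019 : W_16 (nat_lit 2) (nat_lit 0x10400a200590069000680000000000000000000000000000000) (nat_lit 0x0) (nat_lit 0x20001000000000000000020000000000000000000000000000) := D_16 (nat_lit 180) (nat_lit 113) (nat_lit 197) (nat_lit 5) (nat_lit 11) (nat_lit 6) (nat_lit 5) (nat_lit 11) (nat_lit 7) (by decide +kernel)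
theorem L27020 : W_16 (nat_lit 3) (nat_lit 0x10400a200590069000280000000000000000000000000000000) (nat_lit 0x0) (nat_lit 0x20001000000000000400030000000000000000000000000000) := T_16 (nat_lit 130) (nat_lit 112) (nat_lit 4) (nat_lit 11) (nat_lit 10) L27019 (by decide +kernel)
theorem L27021 : W_16 (nat_lit 4) (nat_lit 0x400a200590069000280000000000000000000000000000000) (nat_lit 0x0) (nat_lit 0x120001000000000002400030000000000000000000000000000) := T_16 (nat_lit 200) (nat_lit 133) (nat_lit 6) (nat_lit 13) (nat_lit 11) L27020 (by decide +kernel)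
theorem L27022 : W_16 (nat_lit 5) (nat_lit 0x400a200590029000280000000000000000000000000000000) (nat_lit 0x0) (nat_lit 0x120001000000050002400030000000000000000000000000000) := T_16 (nat_lit 150) (nat_lit 148) (nat_lit 1) (nat_lit 14) (nat_lit 8) L27021 (by decide +kernel)
theorem L27023 : W_16 (nat_lit 6) (nat_lit 0x400a200580029000280000000000000000000000000000000) (nat_lit 0x0) (nat_lit 0x120001000010050802400030000000000000000000000000000) := T_16 (nat_lit 160) (nat_lit 143) (nat_lit 6) (nat_lit 7) (nat_lit 11) L27022 (by decide +kernel)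
theorem L27024 : W_16 (nat_lit 8) (nat_lit 0x400a200580021000280000000000000000000000000000000) (nat_lit 0x0) (nat_lit 0x80006000320001400830058802400030000000000000000000000000000) := Q_16 (nat_lit 147) (C_16 L26871 (C_16 L27023 (C_16 L26716 N_16))) (by decide +kernel)
theorem L27025 : W_16 (nat_lit 8) (nat_lit 0x400a200580021000280000000000000000000000000000000) (nat_lit 0x0) (nat_lit 0x4000300010400030058803c00158000000000000000000000000000) := Q_16 (nat_lit 132) (C_16 L27017 (C_16 L26725 (C_16 L27005 N_16))) (by decide +kernel)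
theorem L27026 : W_16 (nat_lit 2) (nat_lit 0x400a2005a0039000280000000000000000000000000000000) (nat_lit 0x0) (nat_lit 0x140000000000000000800000000000000000000000000000000) := D_16 (nat_lit 131) (nat_lit 200) (nat_lit 198) (nat_lit 4) (nat_lit 13) (nat_lit 11) (nat_lit 6) (nat_lit 11) (nat_lit 11) (by decide +kernel)
theorem L27027 : W_16 (nat_lit 3) (nat_lit 0x400a2005a0029000280000000000000000000000000000000) (nat_lit 0x0) (nat_lit 0x140000000000050000800000000000000000000000000000000) := T_16 (nat_lit 148) (nat_lit 150) (nat_lit 1) (nat_lit 14) (nat_lit 8) L27026 (by decide +kernel)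
theorem L27028 : W_16 (nat_lit 4) (nat_lit 0x400a200580029000280000000000000000000000000000000) (nat_lit 0x0) (nat_lit 0x140000400020050000800000000000000000000000000000000) := T_16 (nat_lit 161) (nat_lit 178) (nat_lit 5) (nat_lit 8) (nat_lit 7) L27027 (by decide +kernel)
theorem L27029 : W_16 (nat_lit 6) (nat_lit 0x400a200580021000280000000000000000000000000000000) (nat_lit 0x0) (nat_lit 0x160001400030058801c00070000000000000000000000000000) := Q_16 (nat_lit 147) (C_16 L26865 (C_16 L26716 (C_16 L27028 N_16))) (by decide +kernel)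
theorem L27030 : W_16 (nat_lit 11) (nat_lit 0x400a200580001000280000000000000000000000000000000) (nat_lit 0x0) (nat_lit 0x80006000360011400830078803c001f800a000000000000000000000000) := Q_16 (nat_lit 149) (C_16 L26946 (C_16 L25908 (C_16 L26993 (C_16 L27006 (C_16 L27011 (C_16 L27018 (C_16 L27024 (C_16 L27025 (C_16 L27029 N_16))))))))) (by decide +kernel)
theorem L27031 : W_16 (nat_lit 2) (nat_lit 0x4400a200790011000280000000000000000000000000000000) (nat_lit 0x0) (nat_lit 0x8000800040000000000000000000000000000) := D_16 (nat_lit 131) (nat_lit 114) (nat_lit 147) (nat_lit 7) (nat_lit 12) (nat_lit 6) (nat_lit 6) (nat_lit 11) (nat_lit 11) (by decide +kernel)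
theorem L27032 : W_16 (nat_lit 3) (nat_lit 0x400a200790011000280000000000000000000000000000000) (nat_lit 0x0) (nat_lit 0x800040000000000008000800040000000000000000000000000000) := T_16 (nat_lit 198) (nat_lit 215) (nat_lit 6) (nat_lit 11) (nat_lit 12) L27031 (by decide +kernel)
theorem L27033 : W_16 (nat_lit 4) (nat_lit 0x400a200780011000280000000000000000000000000000000) (nat_lit 0x0) (nat_lit 0x800040000000010008800800040000000000000000000000000000) := T_16 (nat_lit 160) (nat_lit 143) (nat_lit 6) (nat_lit 7) (nat_lit 11) L27032 (by decide +kernel)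
theorem L27034 : W_16 (nat_lit 2) (nat_lit 0x400a200fa0059000680120000000000000000000000000000) (nat_lit 0x0) (nat_lit 0xc0002000000000000000000000000) := D_16 (nat_lit 114) (nat_lit 97) (nat_lit 115) (nat_lit 6) (nat_lit 11) (nat_lit 9) (nat_lit 1) (nat_lit 14) (nat_lit 6) (by decide +kernel)
theorem L27035 : W_16 (nat_lit 3) (nat_lit 0x400a200fa0059000680100000000000000000000000000000) (nat_lit 0x0) (nat_lit 0xe0003000000000000000000000000) := T_16 (nat_lit 113) (nat_lit 96) (nat_lit 7) (nat_lit 11) (nat_lit 5) L27034 (by decide +kernel)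
theorem L27036 : W_16 (nat_lit 4) (nat_lit 0x400a200fa0059000280100000000000000000000000000000) (nat_lit 0x0) (nat_lit 0x4000f0003000000000000000000000000) := T_16 (nat_lit 130) (nat_lit 112) (nat_lit 4) (nat_lit 11) (nat_lit 10) L27035 (by decide +kernel)
theorem L27037 : W_16 (nat_lit 5) (nat_lit 0x400a200fa0059000280000000000000000000000000000000) (nat_lit 0x0) (nat_lit 0x24001f0003000000000000000000000000) := T_16 (nat_lit 116) (nat_lit 133) (nat_lit 5) (nat_lit 14) (nat_lit 6) L27036 (by decide +kernel)
theorem L27038 : W_16 (nat_lit 6) (nat_lit 0x400a200fa0051000280000000000000000000000000000000) (nat_lit 0x0) (nat_lit 0x10000080024001f0003000000000000000000000000) := T_16 (nat_lit 147) (nat_lit 168) (nat_lit 0) (nat_lit 15) (nat_lit 9) L27037 (by decide +kernel)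
theorem L27039 : W_16 (nat_lit 7) (nat_lit 0x400a2007a0051000280000000000000000000000000000000) (nat_lit 0x0) (nat_lit 0x18000880024001f0003000000000000000000000000) := T_16 (nat_lit 167) (nat_lit 151) (nat_lit 2) (nat_lit 11) (nat_lit 9) L27038 (by decide +kernel)
theorem L27040 : W_16 (nat_lit 8) (nat_lit 0x400a2007a0011000280000000000000000000000000000000) (nat_lit 0x0) (nat_lit 0x18000e80024001f0003000000000000000000000000) := T_16 (nat_lit 150) (nat_lit 149) (nat_lit 2) (nat_lit 10) (nat_lit 9) L27039 (by decide +kernel)
theorem L27041 : W_16 (nat_lit 9) (nat_lit 0x400a200780011000280000000000000000000000000000000) (nat_lit 0x0) (nat_lit 0x4018200e80024001f0003000000000000000000000000) := T_16 (nat_lit 161) (nat_lit 178) (nat_lit 5) (nat_lit 8) (nat_lit 7) L27040 (by decide +kernel)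
theorem L27042 : W_16 (nat_lit 10) (nat_lit 0x400a200780001000280000000000000000000000000000000) (nat_lit 0x0) (nat_lit 0x28001400004018300f8802c001f0003000000000000000000000000) := Q_16 (nat_lit 148) (C_16 L26016 (C_16 L27033 (C_16 L27041 N_16))) (by decide +kernel)
theorem L27043 : W_16 (nat_lit 2) (nat_lit 0x400a2007a0001000a80040000000000000000000000000000) (nat_lit 0x0) (nat_lit 0x60001000000000000000000000000000000000) := D_16 (nat_lit 149) (nat_lit 150) (nat_lit 132) (nat_lit 2) (nat_lit 10) (nat_lit 9) (nat_lit 4) (nat_lit 13) (nat_lit 10) (by decide +kernel)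
theorem L27044 : W_16 (nat_lit 3) (nat_lit 0x400a2007a0001000a80000000000000000000000000000000) (nat_lit 0x0) (nat_lit 0x70001000040000000000000000000000000000) := T_16 (nat_lit 114) (nat_lit 148) (nat_lit 7) (nat_lit 12) (nat_lit 6) L27043 (by decide +kernel)
theorem L27045 : W_16 (nat_lit 4) (nat_lit 0x400a200780001000a80000000000000000000000000000000) (nat_lit 0x0) (nat_lit 0x400020070001000040000000000000000000000000000) := T_16 (nat_lit 161) (nat_lit 178) (nat_lit 5) (nat_lit 8) (nat_lit 7) L27044 (by decide +kernel)
theorem L27046 : W_16 (nat_lit 2) (nat_lit 0x400a200780001000a80040000000000000000000000000000) (nat_lit 0x0) (nat_lit 0x60001000000000000000000000000000000000) := D_16 (nat_lit 149) (nat_lit 132) (nat_lit 150) (nat_lit 4) (nat_lit 13) (nat_lit 10) (nat_lit 2) (nat_lit 10) (nat_lit 9) (by decide +kernel)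
theorem L27047 : W_16 (nat_lit 3) (nat_lit 0x400a200780001000a80000000000000000000000000000000) (nat_lit 0x0) (nat_lit 0x70001000040000000000000000000000000000) := T_16 (nat_lit 114) (nat_lit 148) (nat_lit 7) (nat_lit 12) (nat_lit 6) L27046 (by decide +kernel)
theorem L27048 : W_16 (nat_lit 2) (nat_lit 0x400b2007b0021001a80100000000000000000000000000000) (nat_lit 0x0) (nat_lit 0x400080008000000000000000000000000) := D_16 (nat_lit 115) (nat_lit 99) (nat_lit 130) (nat_lit 6) (nat_lit 13) (nat_lit 9) (nat_lit 2) (nat_lit 10) (nat_lit 7) (by decide +kernel)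
theorem L27049 : W_16 (nat_lit 3) (nat_lit 0x400b2007b0021001a80000000000000000000000000000000) (nat_lit 0x0) (nat_lit 0x2400180008000000000000000000000000) := T_16 (nat_lit 116) (nat_lit 133) (nat_lit 6) (nat_lit 13) (nat_lit 10) L27048 (by decide +kernel)
theorem L27050 : W_16 (nat_lit 4) (nat_lit 0x400b2007b0021000a80000000000000000000000000000000) (nat_lit 0x0) (nat_lit 0x34001c0008000000000000000000000000) := T_16 (nat_lit 132) (nat_lit 114) (nat_lit 4) (nat_lit 13) (nat_lit 10) L27049 (by decide +kernel)
theorem L27051 : W_16 (nat_lit 5) (nat_lit 0x400b2007b0001000a80000000000000000000000000000000) (nat_lit 0x0) (nat_lit 0x600034001c0008000000000000000000000000) := T_16 (nat_lit 149) (nat_lit 150) (nat_lit 2) (nat_lit 10) (nat_lit 9) L27050 (by decide +kernel)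
theorem L27052 : W_16 (nat_lit 6) (nat_lit 0x400b2007a0001000a80000000000000000000000000000000) (nat_lit 0x0) (nat_lit 0x100608034001c0008000000000000000000000000) := T_16 (nat_lit 160) (nat_lit 143) (nat_lit 6) (nat_lit 7) (nat_lit 11) L27051 (by decide +kernel)
theorem L27053 : W_16 (nat_lit 7) (nat_lit 0x400a2007a0001000a80000000000000000000000000000000) (nat_lit 0x0) (nat_lit 0x18000100608034001c0008000000000000000000000000) := T_16 (nat_lit 180) (nat_lit 179) (nat_lit 1) (nat_lit 13) (nat_lit 9) L27052 (by decide +kernel)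
theorem L27054 : W_16 (nat_lit 8) (nat_lit 0x400a200780001000a80000000000000000000000000000000) (nat_lit 0x0) (nat_lit 0x1c000300608034001c0008000000000000000000000000) := T_16 (nat_lit 161) (nat_lit 178) (nat_lit 5) (nat_lit 8) (nat_lit 7) L27053 (by decide +kernel)
theorem L27055 : W_16 (nat_lit 2) (nat_lit 0x400a200780011000a80000000000000000000000000000000) (nat_lit 0x0) (nat_lit 0x800040000000000008000000000000000000000000000000000000) := D_16 (nat_lit 198) (nat_lit 215) (nat_lit 147) (nat_lit 6) (nat_lit 11) (nat_lit 12) (nat_lit 6) (nat_lit 11) (nat_lit 11) (by decide +kernel)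
theorem L27056 : W_16 (nat_lit 3) (nat_lit 0x400a200780001000a80000000000000000000000000000000) (nat_lit 0x0) (nat_lit 0x800040000000000018000000040000000000000000000000000000) := T_16 (nat_lit 148) (nat_lit 114) (nat_lit 7) (nat_lit 12) (nat_lit 6) L27055 (by decide +kernel)
theorem L27057 : W_16 (nat_lit 2) (nat_lit 0x400b2007b0031000a80000000000000000000000000000000) (nat_lit 0x0) (nat_lit 0x800040000000000008000000000000000000000000000000000000) := D_16 (nat_lit 198) (nat_lit 215) (nat_lit 147) (nat_lit 6) (nat_lit 11) (nat_lit 12) (nat_lit 6) (nat_lit 11) (nat_lit 11) (by decide +kernel)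
theorem L27058 : W_16 (nat_lit 3) (nat_lit 0x400b2007b0021000a80000000000000000000000000000000) (nat_lit 0x0) (nat_lit 0x800140000000000018000000000000000000000000000000000000) := T_16 (nat_lit 148) (nat_lit 200) (nat_lit 4) (nat_lit 13) (nat_lit 11) L27057 (by decide +kernel)
theorem L27059 : W_16 (nat_lit 4) (nat_lit 0x400b2007b0001000a80000000000000000000000000000000) (nat_lit 0x0) (nat_lit 0x800140000000000078000000000000000000000000000000000000) := T_16 (nat_lit 149) (nat_lit 150) (nat_lit 2) (nat_lit 10) (nat_lit 9) L27058 (by decide +kernel)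
theorem L27060 : W_16 (nat_lit 5) (nat_lit 0x400a2007b0001000a80000000000000000000000000000000) (nat_lit 0x0) (nat_lit 0x800140001800000078000000000000000000000000000000000000) := T_16 (nat_lit 180) (nat_lit 179) (nat_lit 1) (nat_lit 13) (nat_lit 9) L27059 (by decide +kernel)
theorem L27061 : W_16 (nat_lit 6) (nat_lit 0x400a200790001000a80000000000000000000000000000000) (nat_lit 0x0) (nat_lit 0x800140001c00020078000000000000000000000000000000000000) := T_16 (nat_lit 161) (nat_lit 178) (nat_lit 5) (nat_lit 8) (nat_lit 7) L27060 (by decide +kernel)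
theorem L27062 : W_16 (nat_lit 7) (nat_lit 0x400a200780001000a80000000000000000000000000000000) (nat_lit 0x0) (nat_lit 0x800140001c00030078800000000000000000000000000000000000) := T_16 (nat_lit 160) (nat_lit 143) (nat_lit 6) (nat_lit 7) (nat_lit 11) L27061 (by decide +kernel)
theorem L27063 : W_16 (nat_lit 9) (nat_lit 0x400a200780001000280000000000000000000000000000000) (nat_lit 0x0) (nat_lit 0x800140001c00030078803c001c0008000000000000000000000000) := Q_16 (nat_lit 131) (C_16 L27045 (C_16 L27047 (C_16 L27054 (C_16 L27056 (C_16 L27062 N_16))))) (by decide +kernel)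
theorem L27064 : W_16 (nat_lit 11) (nat_lit 0x400a200580001000280000000000000000000000000000000) (nat_lit 0x0) (nat_lit 0x2800140001c01a300f8803c001f000b000000000000000000000000) := Q_16 (nat_lit 165) (C_16 L25961 (C_16 L25957 (C_16 L27042 (C_16 L27063 N_16)))) (by decide +kernel)
theorem L27065 : W_16 (nat_lit 10) (nat_lit 0x400a200580001000280000000000000000000000000000000) (nat_lit 0x0) (nat_lit 0x800140011c00230078803c001c0008000000000000000000000000) := T_16 (nat_lit 165) (nat_lit 184) (nat_lit 3) (nat_lit 10) (nat_lit 9) L27063 (by decide +kernel)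
theorem L27066 : W_16 (nat_lit 12) (nat_lit 0x400a200180001000280000000000000000000000000000000) (nat_lit 0x0) (nat_lit 0x80006800360011c01e300f8803c001f800b000000000000000000000000) := Q_16 (nat_lit 166) (C_16 L26977 (C_16 L27030 (C_16 L26861 (C_16 L25958 (C_16 L27064 (C_16 L27065 N_16)))))) (by decide +kernel)
theorem L27067 : W_16 (nat_lit 2) (nat_lit 0x400a200380001000280000000000000000000000000000000) (nat_lit 0x0) (nat_lit 0x14000400000000000000000000000000000000000000000) := D_16 (nat_lit 184) (nat_lit 182) (nat_lit 166) (nat_lit 0) (nat_lit 14) (nat_lit 10) (nat_lit 3) (nat_lit 10) (nat_lit 9) (by decide +kernel)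
theorem L27068 : W_16 (nat_lit 4) (nat_lit 0x400a200390001000280000000000000000000000000000000) (nat_lit 0x0) (nat_lit 0x11000c000e0000000000000000000000000000000000000) := T_16 (nat_lit 166) (nat_lit 184) (nat_lit 3) (nat_lit 10) (nat_lit 9) L25960 (by decide +kernel)
theorem L27069 : W_16 (nat_lit 5) (nat_lit 0x400a200380001000280000000000000000000000000000000) (nat_lit 0x0) (nat_lit 0x11000c100e0800000000000000000000000000000000000) := T_16 (nat_lit 160) (nat_lit 143) (nat_lit 6) (nat_lit 7) (nat_lit 11) L27068 (by decide +kernel)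
theorem L27070 : W_16 (nat_lit 2) (nat_lit 0x4401a200380011000280000000000000000000000000000000) (nat_lit 0x0) (nat_lit 0x8000800040000000000000000000000000000) := D_16 (nat_lit 131) (nat_lit 114) (nat_lit 147) (nat_lit 5) (nat_lit 12) (nat_lit 6) (nat_lit 6) (nat_lit 11) (nat_lit 11) (by decide +kernel)
theorem L27071 : W_16 (nat_lit 3) (nat_lit 0x401a200380011000280000000000000000000000000000000) (nat_lit 0x0) (nat_lit 0x800040000000000008000800040000000000000000000000000000) := T_16 (nat_lit 198) (nat_lit 215) (nat_lit 6) (nat_lit 11) (nat_lit 12) L27070 (by decide +kernel)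
theorem L27072 : W_16 (nat_lit 4) (nat_lit 0x400a200380011000280000000000000000000000000000000) (nat_lit 0x0) (nat_lit 0x800040014000000008000800040000000000000000000000000000) := T_16 (nat_lit 184) (nat_lit 182) (nat_lit 0) (nat_lit 14) (nat_lit 10) L27071 (by decide +kernel)
theorem L27073 : W_16 (nat_lit 2) (nat_lit 0x400a200380011000a80000000000000000000000000000000) (nat_lit 0x0) (nat_lit 0x40014000000000000000000000000000000000000000000000) := D_16 (nat_lit 182) (nat_lit 184) (nat_lit 198) (nat_lit 0) (nat_lit 14) (nat_lit 10) (nat_lit 5) (nat_lit 12) (nat_lit 7) (by decide +kernel)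
theorem L27074 : W_16 (nat_lit 3) (nat_lit 0x400a200380011000280000000000000000000000000000000) (nat_lit 0x0) (nat_lit 0x40014000000000000800040000000000000000000000000000) := T_16 (nat_lit 131) (nat_lit 114) (nat_lit 5) (nat_lit 12) (nat_lit 6) L27073 (by decide +kernel)
theorem L27075 : W_16 (nat_lit 2) (nat_lit 0x4400a200390011000280000000000000000000000000000000) (nat_lit 0x0) (nat_lit 0x8000800040000000000000000000000000000) := D_16 (nat_lit 131) (nat_lit 114) (nat_lit 147) (nat_lit 5) (nat_lit 12) (nat_lit 6) (nat_lit 6) (nat_lit 11) (nat_lit 11) (by decide +kernel)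
theorem L27076 : W_16 (nat_lit 3) (nat_lit 0x400a200390011000280000000000000000000000000000000) (nat_lit 0x0) (nat_lit 0x800040000000000008000800040000000000000000000000000000) := T_16 (nat_lit 198) (nat_lit 215) (nat_lit 6) (nat_lit 11) (nat_lit 12) L27075 (by decide +kernel)
theorem L27077 : W_16 (nat_lit 4) (nat_lit 0x400a200380011000280000000000000000000000000000000) (nat_lit 0x0) (nat_lit 0x800040000000010008800800040000000000000000000000000000) := T_16 (nat_lit 160) (nat_lit 143) (nat_lit 6) (nat_lit 7) (nat_lit 11) L27076 (by decide +kernel)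
theorem L27078 : W_16 (nat_lit 2) (nat_lit 0x400a200380011000a80000000000000000000000000000000) (nat_lit 0x0) (nat_lit 0x100014000000000000000000000000000000000000000000000) := D_16 (nat_lit 182) (nat_lit 184) (nat_lit 200) (nat_lit 0) (nat_lit 14) (nat_lit 10) (nat_lit 7) (nat_lit 12) (nat_lit 7) (by decide +kernel)
theorem L27079 : W_16 (nat_lit 3) (nat_lit 0x400a200380011000280000000000000000000000000000000) (nat_lit 0x0) (nat_lit 0x100014000000000000800040000000000000000000000000000) := T_16 (nat_lit 131) (nat_lit 114) (nat_lit 5) (nat_lit 12) (nat_lit 6) L27078 (by decide +kernel)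
theorem L27080 : W_16 (nat_lit 2) (nat_lit 0x80000400a200390059000680000000000000000000000000000000) (nat_lit 0x0) (nat_lit 0x1000000000000000020001000000000000000000000000) := D_16 (nat_lit 113) (nat_lit 180) (nat_lit 96) (nat_lit 5) (nat_lit 11) (nat_lit 6) (nat_lit 7) (nat_lit 11) (nat_lit 5) (by decide +kernel)
theorem L27081 : W_16 (nat_lit 3) (nat_lit 0x80000400a200390059000280000000000000000000000000000000) (nat_lit 0x0) (nat_lit 0x1000000000000400030001000000000000000000000000) := T_16 (nat_lit 130) (nat_lit 112) (nat_lit 4) (nat_lit 11) (nat_lit 10) L27080 (by decide +kernel)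
theorem L27082 : W_16 (nat_lit 4) (nat_lit 0x400a200390059000280000000000000000000000000000000) (nat_lit 0x0) (nat_lit 0x800040001000000000000400030001000000000000000000000000) := T_16 (nat_lit 215) (nat_lit 198) (nat_lit 6) (nat_lit 11) (nat_lit 12) L27081 (by decide +kernel)
theorem L27083 : W_16 (nat_lit 5) (nat_lit 0x400a200390019000280000000000000000000000000000000) (nat_lit 0x0) (nat_lit 0x800040001000000060000400030001000000000000000000000000) := T_16 (nat_lit 150) (nat_lit 149) (nat_lit 1) (nat_lit 14) (nat_lit 8) L27082 (by decide +kernel)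
theorem L27084 : W_16 (nat_lit 6) (nat_lit 0x400a200380019000280000000000000000000000000000000) (nat_lit 0x0) (nat_lit 0x800040001000010060800400030001000000000000000000000000) := T_16 (nat_lit 160) (nat_lit 143) (nat_lit 6) (nat_lit 7) (nat_lit 11) L27083 (by decide +kernel)
theorem L27085 : W_16 (nat_lit 2) (nat_lit 0x400a200380019000680000000000000000000000000000000) (nat_lit 0x0) (nat_lit 0x14000000000000000020000000000000000000000000000) := D_16 (nat_lit 182) (nat_lit 184) (nat_lit 113) (nat_lit 0) (nat_lit 14) (nat_lit 10) (nat_lit 7) (nat_lit 11) (nat_lit 6) (by decide +kernel)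
theorem L27086 : W_16 (nat_lit 3) (nat_lit 0x400a200380019000280000000000000000000000000000000) (nat_lit 0x0) (nat_lit 0x14000000000000400030000000000000000000000000000) := T_16 (nat_lit 130) (nat_lit 112) (nat_lit 4) (nat_lit 11) (nat_lit 10) L27085 (by decide +kernel)
theorem L27087 : W_16 (nat_lit 2) (nat_lit 0x6400e200390059000280000000000000000000000000000000) (nat_lit 0x0) (nat_lit 0x18001000000000000000000000000000000000000000000000) := D_16 (nat_lit 196) (nat_lit 195) (nat_lit 180) (nat_lit 2) (nat_lit 8) (nat_lit 11) (nat_lit 1) (nat_lit 13) (nat_lit 10) (by decide +kernel)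
theorem L27088 : W_16 (nat_lit 3) (nat_lit 0x4400e200390059000280000000000000000000000000000000) (nat_lit 0x0) (nat_lit 0x400038001000000000000000000000000000000000000000000000) := T_16 (nat_lit 197) (nat_lit 214) (nat_lit 5) (nat_lit 11) (nat_lit 8) L27087 (by decide +kernel)
theorem L27089 : W_16 (nat_lit 4) (nat_lit 0x400e200390059000280000000000000000000000000000000) (nat_lit 0x0) (nat_lit 0xc00078001000000000000000000000000000000000000000000000) := T_16 (nat_lit 198) (nat_lit 215) (nat_lit 6) (nat_lit 11) (nat_lit 12) L27088 (by decide +kernel)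
theorem L27090 : W_16 (nat_lit 5) (nat_lit 0x400e200390019000280000000000000000000000000000000) (nat_lit 0x0) (nat_lit 0xc00078001000000060000000000000000000000000000000000000) := T_16 (nat_lit 150) (nat_lit 149) (nat_lit 1) (nat_lit 14) (nat_lit 8) L27089 (by decide +kernel)
theorem L27091 : W_16 (nat_lit 6) (nat_lit 0x400e200380019000280000000000000000000000000000000) (nat_lit 0x0) (nat_lit 0xc00078001000010060800000000000000000000000000000000000) := T_16 (nat_lit 160) (nat_lit 143) (nat_lit 6) (nat_lit 7) (nat_lit 11) L27090 (by decide +kernel)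
theorem L27092 : W_16 (nat_lit 7) (nat_lit 0x400a200380019000280000000000000000000000000000000) (nat_lit 0x0) (nat_lit 0xc00078015000010060800000000000000000000000000000000000) := T_16 (nat_lit 182) (nat_lit 184) (nat_lit 0) (nat_lit 14) (nat_lit 10) L27091 (by decide +kernel)
theorem L27093 : W_16 (nat_lit 8) (nat_lit 0x400a200380011000280000000000000000000000000000000) (nat_lit 0x0) (nat_lit 0xc00078015000010068800400030001000000000000000000000000) := Q_16 (nat_lit 147) (C_16 L27084 (C_16 L27086 (C_16 L27092 N_16))) (by decide +kernel)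
theorem L27094 : W_16 (nat_lit 9) (nat_lit 0x400a200380001000280000000000000000000000000000000) (nat_lit 0x0) (nat_lit 0xc00178015000010078800c00070001000000000000000000000000) := Q_16 (nat_lit 148) (C_16 L27072 (C_16 L27074 (C_16 L27077 (C_16 L27079 (C_16 L27093 N_16))))) (by decide +kernel)
theorem L27095 : W_16 (nat_lit 2) (nat_lit 0x400a201f90049000680140000000000000000000000000000) (nat_lit 0x0) (nat_lit 0xa0002000000000000000000000000) := D_16 (nat_lit 113) (nat_lit 97) (nat_lit 115) (nat_lit 6) (nat_lit 11) (nat_lit 9) (nat_lit 1) (nat_lit 14) (nat_lit 6) (by decide +kernel)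
theorem L27096 : W_16 (nat_lit 3) (nat_lit 0x400a201f90049000680100000000000000000000000000000) (nat_lit 0x0) (nat_lit 0x8000e0002000000000000000000000000) := T_16 (nat_lit 114) (nat_lit 131) (nat_lit 6) (nat_lit 11) (nat_lit 10) L27095 (by decide +kernel)
theorem L27097 : W_16 (nat_lit 4) (nat_lit 0x400a201f90049000280100000000000000000000000000000) (nat_lit 0x0) (nat_lit 0xc000f0002000000000000000000000000) := T_16 (nat_lit 130) (nat_lit 112) (nat_lit 4) (nat_lit 11) (nat_lit 10) L27096 (by decide +kernel)
theorem L27098 : W_16 (nat_lit 5) (nat_lit 0x400a201f90049000280000000000000000000000000000000) (nat_lit 0x0) (nat_lit 0x2c001f0002000000000000000000000000) := T_16 (nat_lit 116) (nat_lit 133) (nat_lit 5) (nat_lit 14) (nat_lit 6) L27097 (by decide +kernel)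
theorem L27099 : W_16 (nat_lit 6) (nat_lit 0x400a201f90041000280000000000000000000000000000000) (nat_lit 0x0) (nat_lit 0x18002c001f0002000000000000000000000000) := T_16 (nat_lit 147) (nat_lit 148) (nat_lit 0) (nat_lit 15) (nat_lit 9) L27098 (by decide +kernel)
theorem L27100 : W_16 (nat_lit 7) (nat_lit 0x400a200f90041000280000000000000000000000000000000) (nat_lit 0x0) (nat_lit 0x4001000018002c001f0002000000000000000000000000) := T_16 (nat_lit 168) (nat_lit 182) (nat_lit 1) (nat_lit 15) (nat_lit 9) L27099 (by decide +kernel)
theorem L27101 : W_16 (nat_lit 8) (nat_lit 0x400a200790041000280000000000000000000000000000000) (nat_lit 0x0) (nat_lit 0x4001800098002c001f0002000000000000000000000000) := T_16 (nat_lit 167) (nat_lit 151) (nat_lit 2) (nat_lit 11) (nat_lit 9) L27100 (by decide +kernel)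
theorem L27102 : W_16 (nat_lit 9) (nat_lit 0x400a200790001000280000000000000000000000000000000) (nat_lit 0x0) (nat_lit 0x40018000f8002c001f0002000000000000000000000000) := T_16 (nat_lit 150) (nat_lit 149) (nat_lit 2) (nat_lit 10) (nat_lit 9) L27101 (by decide +kernel)
theorem L27103 : W_16 (nat_lit 10) (nat_lit 0x400a200780001000280000000000000000000000000000000) (nat_lit 0x0) (nat_lit 0x40018100f8802c001f0002000000000000000000000000) := T_16 (nat_lit 160) (nat_lit 143) (nat_lit 6) (nat_lit 7) (nat_lit 11) L27102 (by decide +kernel)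
theorem L27104 : W_16 (nat_lit 2) (nat_lit 0x10400b200790031000280000000000000000000000000000000) (nat_lit 0x0) (nat_lit 0x4000200004000000000000000000000000000000000000000000000) := D_16 (nat_lit 201) (nat_lit 218) (nat_lit 182) (nat_lit 7) (nat_lit 13) (nat_lit 8) (nat_lit 3) (nat_lit 10) (nat_lit 10) (by decide +kernel)
theorem L27105 : W_16 (nat_lit 3) (nat_lit 0x10400a200790031000280000000000000000000000000000000) (nat_lit 0x0) (nat_lit 0x4000200005800000000000000000000000000000000000000000000) := T_16 (nat_lit 180) (nat_lit 179) (nat_lit 1) (nat_lit 13) (nat_lit 9) L27104 (by decide +kernel)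
theorem L27106 : W_16 (nat_lit 4) (nat_lit 0x400a200790031000280000000000000000000000000000000) (nat_lit 0x0) (nat_lit 0x6000300005800000000000000000000000000000000000000000000) := T_16 (nat_lit 200) (nat_lit 217) (nat_lit 4) (nat_lit 13) (nat_lit 12) L27105 (by decide +kernel)
theorem L27107 : W_16 (nat_lit 5) (nat_lit 0x400a200780031000280000000000000000000000000000000) (nat_lit 0x0) (nat_lit 0x6000300005800010000800000000000000000000000000000000000) := T_16 (nat_lit 160) (nat_lit 143) (nat_lit 6) (nat_lit 7) (nat_lit 11) L27106 (by decide +kernel)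
theorem L27108 : W_16 (nat_lit 6) (nat_lit 0x400a200780011000280000000000000000000000000000000) (nat_lit 0x0) (nat_lit 0x6000300005800010060800000000000000000000000000000000000) := T_16 (nat_lit 149) (nat_lit 150) (nat_lit 2) (nat_lit 10) (nat_lit 9) L27107 (by decide +kernel)
theorem L27109 : W_16 (nat_lit 7) (nat_lit 0x400a200780001000280000000000000000000000000000000) (nat_lit 0x0) (nat_lit 0x6800340005800010078800800040000000000000000000000000000) := Q_16 (nat_lit 148) (C_16 L27033 (C_16 L26019 (C_16 L26016 (C_16 L27108 N_16)))) (by decide +kernel)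
theorem L27110 : W_16 (nat_lit 11) (nat_lit 0x400a200380001000280000000000000000000000000000000) (nat_lit 0x0) (nat_lit 0x6800340005801c100f8802c001f0002000000000000000000000000) := Q_16 (nat_lit 166) (C_16 L25961 (C_16 L25957 (C_16 L27103 (C_16 L27109 N_16)))) (by decide +kernel)
theorem L27111 : W_16 (nat_lit 12) (nat_lit 0x400a200180001000280000000000000000000000000000000) (nat_lit 0x0) (nat_lit 0x6c00378015801e100f8802c001f0003000000000000000000000000) := Q_16 (nat_lit 165) (C_16 L27067 (C_16 L27069 (C_16 L27094 (C_16 L27110 N_16)))) (by decide +kernel)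
theorem L27112 : W_16 (nat_lit 13) (nat_lit 0x4002200180001000280000000000000000000000000000000) (nat_lit 0x0) (nat_lit 0x14000fc007f0037801dc03e300f8803c001f800b000000000000000000000000) := Q_16 (nat_lit 183) (C_16 L26930 (C_16 L26119 (C_16 L26761 (C_16 L26992 (C_16 L27066 (C_16 L27111 N_16)))))) (by decide +kernel)
theorem L27113 : W_16 (nat_lit 2) (nat_lit 0x5000100008000440022001b0059000280000000000000000000000000000000) (nat_lit 0x0) (nat_lit 0xa000200000000000000000000000000000000000000000000000000000000000000) := D_16 (nat_lit 249) (nat_lit 267) (nat_lit 265) (nat_lit 7) (nat_lit 11) (nat_lit 11) (nat_lit 5) (nat_lit 11) (nat_lit 11) (by decide +kernel)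
theorem L27114 : W_16 (nat_lit 3) (nat_lit 0x4000100008000440022001b0059000280000000000000000000000000000000) (nat_lit 0x0) (nat_lit 0xa000300008000000000000000000000000000000000000000000000000000000000) := T_16 (nat_lit 248) (nat_lit 231) (nat_lit 5) (nat_lit 11) (nat_lit 10) L27113 (by decide +kernel)
theorem L27115 : W_16 (nat_lit 4) (nat_lit 0x100008000440022001b0059000280000000000000000000000000000000) (nat_lit 0x0) (nat_lit 0xa000700028000000000000000000000000000000000000000000000000000000000) := T_16 (nat_lit 250) (nat_lit 233) (nat_lit 7) (nat_lit 11) (nat_lit 10) L27114 (by decide +kernel)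
theorem L27116 : W_16 (nat_lit 5) (nat_lit 0x10000800044002200190059000280000000000000000000000000000000) (nat_lit 0x0) (nat_lit 0xa000700028000000000000400020000000000000000000000000000000000000000) := T_16 (nat_lit 161) (nat_lit 178) (nat_lit 5) (nat_lit 8) (nat_lit 7) L27115 (by decide +kernel)
theorem L27117 : W_16 (nat_lit 6) (nat_lit 0x800044002200190059000280000000000000000000000000000000) (nat_lit 0x0) (nat_lit 0xa000700038000000000001400020000000000000000000000000000000000000000) := T_16 (nat_lit 232) (nat_lit 180) (nat_lit 4) (nat_lit 11) (nat_lit 13) L27116 (by decide +kernel)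
theorem L27118 : W_16 (nat_lit 7) (nat_lit 0x44002200190059000280000000000000000000000000000000) (nat_lit 0x0) (nat_lit 0xa000700038000800000001400220000000000000000000000000000000000000000) := T_16 (nat_lit 215) (nat_lit 165) (nat_lit 6) (nat_lit 11) (nat_lit 12) L27117 (by decide +kernel)
theorem L27119 : W_16 (nat_lit 8) (nat_lit 0x44002200190019000280000000000000000000000000000000) (nat_lit 0x0) (nat_lit 0xa000700038000800000001400220060000000000000000000000000000000000000) := T_16 (nat_lit 150) (nat_lit 149) (nat_lit 1) (nat_lit 14) (nat_lit 8) L27118 (by decide +kernel)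
theorem L27120 : W_16 (nat_lit 9) (nat_lit 0x44002200190009000280000000000000000000000000000000) (nat_lit 0x0) (nat_lit 0xa000700038000800000001400220070000800000000000000000000000000000000) := T_16 (nat_lit 148) (nat_lit 131) (nat_lit 6) (nat_lit 11) (nat_lit 11) L27119 (by decide +kernel)
theorem L27121 : W_16 (nat_lit 10) (nat_lit 0x44002200180009000280000000000000000000000000000000) (nat_lit 0x0) (nat_lit 0xa000700038000800000001400230070800800000000000000000000000000000000) := T_16 (nat_lit 160) (nat_lit 143) (nat_lit 6) (nat_lit 7) (nat_lit 11) L27120 (by decide +kernel)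
theorem L27122 : W_16 (nat_lit 2) (nat_lit 0x64002e00180009000280000000000000000000000000000000) (nat_lit 0x0) (nat_lit 0x98000000000000000000000000000000000000000000000000) := D_16 (nat_lit 196) (nat_lit 195) (nat_lit 199) (nat_lit 0) (nat_lit 11) (nat_lit 11) (nat_lit 0) (nat_lit 12) (nat_lit 11) (by decide +kernel)
theorem L27123 : W_16 (nat_lit 3) (nat_lit 0x64002600180009000280000000000000000000000000000000) (nat_lit 0x0) (nat_lit 0x98001800000000000000000000000000000000000000000000) := T_16 (nat_lit 179) (nat_lit 180) (nat_lit 3) (nat_lit 7) (nat_lit 10) L27122 (by decide +kernel)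
theorem L27124 : W_16 (nat_lit 4) (nat_lit 0x44002600180009000280000000000000000000000000000000) (nat_lit 0x0) (nat_lit 0x4000b8001800000000000000000000000000000000000000000000) := T_16 (nat_lit 197) (nat_lit 214) (nat_lit 5) (nat_lit 11) (nat_lit 8) L27123 (by decide +kernel)
theorem L27125 : W_16 (nat_lit 5) (nat_lit 0x44002200180009000280000000000000000000000000000000) (nat_lit 0x0) (nat_lit 0x4000b8001c00020000000000000000000000000000000000000000) := T_16 (nat_lit 178) (nat_lit 161) (nat_lit 5) (nat_lit 8) (nat_lit 7) L27124 (by decide +kernel)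
theorem L27126 : W_16 (nat_lit 11) (nat_lit 0x4002200180009000280000000000000000000000000000000) (nat_lit 0x0) (nat_lit 0xa000700038000c000f8001c00230070800800000000000000000000000000000000) := Q_16 (nat_lit 198) (C_16 L26177 (C_16 L27121 (C_16 L27125 N_16))) (by decide +kernel)
theorem L27127 : W_16 (nat_lit 12) (nat_lit 0x4002200180001000280000000000000000000000000000000) (nat_lit 0x0) (nat_lit 0xa000700038000c000f8005c00230078800c00070002000000000000000000000000) := Q_16 (nat_lit 147) (C_16 L26278 (C_16 L26192 (C_16 L27126 N_16))) (by decide +kernel)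
theorem L27128 : W_16 (nat_lit 14) (nat_lit 0x4000200180001000280000000000000000000000000000000) (nat_lit 0x0) (nat_lit 0xa0017000fc00ff007f803fc03e300f8807c003f800f000000000000000000000000) := Q_16 (nat_lit 181) (C_16 L26120 (C_16 L26193 (C_16 L26223 (C_16 L26235 (C_16 L26259 (C_16 L26408 (C_16 L26473 (C_16 L26474 (C_16 L26477 (C_16 L26586 (C_16 L26595 (C_16 L26694 (C_16 L26762 (C_16 L26854 (C_16 L27112 (C_16 L27127 N_16)))))))))))))))) (by decide +kernel)
theorem L27129 : W_16 (nat_lit 2) (nat_lit 0x10000040062007d0009000680000000000000000000000000000000) (nat_lit 0x0) (nat_lit 0x1001800000000000000000000000000000000000000000) := D_16 (nat_lit 167) (nat_lit 168) (nat_lit 180) (nat_lit 1) (nat_lit 15) (nat_lit 9) (nat_lit 1) (nat_lit 14) (nat_lit 9) (by decide +kernel)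
theorem L27130 : W_16 (nat_lit 3) (nat_lit 0x10000040042007d0009000680000000000000000000000000000000) (nat_lit 0x0) (nat_lit 0x3001800000000000010000000000000000000000000000) := T_16 (nat_lit 181) (nat_lit 112) (nat_lit 4) (nat_lit 11) (nat_lit 10) L27129 (by decide +kernel)
theorem L27131 : W_16 (nat_lit 4) (nat_lit 0x10000040042007d0009000280000000000000000000000000000000) (nat_lit 0x0) (nat_lit 0x3001800000000400030000000000000000000000000000) := T_16 (nat_lit 130) (nat_lit 113) (nat_lit 7) (nat_lit 11) (nat_lit 6) L27130 (by decide +kernel)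
theorem L27132 : W_16 (nat_lit 5) (nat_lit 0x40042007d0009000280000000000000000000000000000000) (nat_lit 0x0) (nat_lit 0x1000080003001800000000400030000000000000000000000000000) := T_16 (nat_lit 216) (nat_lit 199) (nat_lit 4) (nat_lit 12) (nat_lit 12) L27131 (by decide +kernel)
theorem L27133 : W_16 (nat_lit 6) (nat_lit 0x40002007d0009000280000000000000000000000000000000) (nat_lit 0x0) (nat_lit 0x100008000f001800000000400030000000000000000000000000000) := T_16 (nat_lit 182) (nat_lit 183) (nat_lit 3) (nat_lit 9) (nat_lit 9) L27132 (by decide +kernel)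
theorem L27134 : W_16 (nat_lit 7) (nat_lit 0x40002007c0009000280000000000000000000000000000000) (nat_lit 0x0) (nat_lit 0x100008000f001810000800400030000000000000000000000000000) := T_16 (nat_lit 160) (nat_lit 143) (nat_lit 6) (nat_lit 7) (nat_lit 11) L27133 (by decide +kernel)
theorem L27135 : W_16 (nat_lit 2) (nat_lit 0x40042007d0009000680000000000000000000000000000000) (nat_lit 0x0) (nat_lit 0x1000080000000000010000000000000000000000000000000000000) := D_16 (nat_lit 199) (nat_lit 216) (nat_lit 148) (nat_lit 4) (nat_lit 12) (nat_lit 12) (nat_lit 4) (nat_lit 12) (nat_lit 11) (by decide +kernel)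
theorem L27136 : W_16 (nat_lit 3) (nat_lit 0x40042007d0009000280000000000000000000000000000000) (nat_lit 0x0) (nat_lit 0x1000080000000000010000400020000000000000000000000000000) := T_16 (nat_lit 130) (nat_lit 113) (nat_lit 7) (nat_lit 11) (nat_lit 6) L27135 (by decide +kernel)
theorem L27137 : W_16 (nat_lit 4) (nat_lit 0x40042007c0009000280000000000000000000000000000000) (nat_lit 0x0) (nat_lit 0x1000080000000010010800400020000000000000000000000000000) := T_16 (nat_lit 160) (nat_lit 143) (nat_lit 6) (nat_lit 7) (nat_lit 11) L27136 (by decide +kernel)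
theorem L27138 : W_16 (nat_lit 5) (nat_lit 0x40002007c0009000280000000000000000000000000000000) (nat_lit 0x0) (nat_lit 0x100008000c000010010800400020000000000000000000000000000) := T_16 (nat_lit 182) (nat_lit 183) (nat_lit 3) (nat_lit 9) (nat_lit 9) L27137 (by decide +kernel)
theorem L27139 : W_16 (nat_lit 2) (nat_lit 0x400004001201fd0009000280020000000000000000000000000000) (nat_lit 0x0) (nat_lit 0x1c0000000000000000000000000000000000000) := D_16 (nat_lit 151) (nat_lit 150) (nat_lit 152) (nat_lit 2) (nat_lit 11) (nat_lit 9) (nat_lit 2) (nat_lit 12) (nat_lit 9) (by decide +kernel)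
theorem L27140 : W_16 (nat_lit 3) (nat_lit 0x400004001200fd0009000280020000000000000000000000000000) (nat_lit 0x0) (nat_lit 0x10001d0000000000000000000000000000000000000) := T_16 (nat_lit 168) (nat_lit 148) (nat_lit 0) (nat_lit 15) (nat_lit 9) L27139 (by decide +kernel)
theorem L27141 : W_16 (nat_lit 4) (nat_lit 0x4000040012007d0009000280020000000000000000000000000000) (nat_lit 0x0) (nat_lit 0x20018001d0000000000000000000000000000000000000) := T_16 (nat_lit 167) (nat_lit 181) (nat_lit 1) (nat_lit 14) (nat_lit 9) L27140 (by decide +kernel)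
theorem L27142 : W_16 (nat_lit 5) (nat_lit 0x4000040012007d0009000280000000000000000000000000000000) (nat_lit 0x0) (nat_lit 0x20018001d0000400020000000000000000000000000000) := T_16 (nat_lit 113) (nat_lit 130) (nat_lit 5) (nat_lit 11) (nat_lit 6) L27141 (by decide +kernel)
theorem L27143 : W_16 (nat_lit 6) (nat_lit 0x40012007d0009000280000000000000000000000000000000) (nat_lit 0x0) (nat_lit 0x4000200020018001d0000400020000000000000000000000000000) := T_16 (nat_lit 214) (nat_lit 197) (nat_lit 6) (nat_lit 10) (nat_lit 12) L27142 (by decide +kernel)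
theorem L27144 : W_16 (nat_lit 7) (nat_lit 0x40012007c0009000280000000000000000000000000000000) (nat_lit 0x0) (nat_lit 0x4000200020018101d0800400020000000000000000000000000000) := T_16 (nat_lit 160) (nat_lit 143) (nat_lit 6) (nat_lit 7) (nat_lit 11) L27143 (by decide +kernel)
theorem L27145 : W_16 (nat_lit 8) (nat_lit 0x40002007c0009000280000000000000000000000000000000) (nat_lit 0x0) (nat_lit 0x4000200038018101d0800400020000000000000000000000000000) := T_16 (nat_lit 180) (nat_lit 179) (nat_lit 1) (nat_lit 13) (nat_lit 9) L27144 (by decide +kernel)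
theorem L27146 : W_16 (nat_lit 2) (nat_lit 0x1400004005201fc0009000280020000000000000000000000000000) (nat_lit 0x0) (nat_lit 0x1c0000000000000000000000000000000000000) := D_16 (nat_lit 151) (nat_lit 150) (nat_lit 152) (nat_lit 2) (nat_lit 11) (nat_lit 9) (nat_lit 2) (nat_lit 12) (nat_lit 9) (by decide +kernel)
theorem L27147 : W_16 (nat_lit 3) (nat_lit 0x1400004005200fc0009000280020000000000000000000000000000) (nat_lit 0x0) (nat_lit 0x10001d0000000000000000000000000000000000000) := T_16 (nat_lit 168) (nat_lit 148) (nat_lit 0) (nat_lit 15) (nat_lit 9) L27146 (by decide +kernel)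
theorem L27148 : W_16 (nat_lit 4) (nat_lit 0x14000040052007c0009000280020000000000000000000000000000) (nat_lit 0x0) (nat_lit 0x20018001d0000000000000000000000000000000000000) := T_16 (nat_lit 167) (nat_lit 181) (nat_lit 1) (nat_lit 14) (nat_lit 9) L27147 (by decide +kernel)
theorem L27149 : W_16 (nat_lit 5) (nat_lit 0x4000040052007c0009000280020000000000000000000000000000) (nat_lit 0x0) (nat_lit 0x10000800020018001d0000000000000000000000000000000000000) := T_16 (nat_lit 216) (nat_lit 199) (nat_lit 4) (nat_lit 12) (nat_lit 12) L27148 (by decide +kernel)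
theorem L27150 : W_16 (nat_lit 6) (nat_lit 0x40052007c0009000280020000000000000000000000000000) (nat_lit 0x0) (nat_lit 0x14000a00020018001d0000000000000000000000000000000000000) := T_16 (nat_lit 214) (nat_lit 197) (nat_lit 6) (nat_lit 10) (nat_lit 12) L27149 (by decide +kernel)
theorem L27151 : W_16 (nat_lit 7) (nat_lit 0x40052007c0009000280000000000000000000000000000000) (nat_lit 0x0) (nat_lit 0x14000a00020018001d0000400020000000000000000000000000000) := T_16 (nat_lit 113) (nat_lit 130) (nat_lit 7) (nat_lit 11) (nat_lit 6) L27150 (by decide +kernel)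
theorem L27152 : W_16 (nat_lit 8) (nat_lit 0x40012007c0009000280000000000000000000000000000000) (nat_lit 0x0) (nat_lit 0x14000a000e0018001d0000400020000000000000000000000000000) := T_16 (nat_lit 182) (nat_lit 183) (nat_lit 3) (nat_lit 9) (nat_lit 9) L27151 (by decide +kernel)
theorem L27153 : W_16 (nat_lit 9) (nat_lit 0x40002007c0009000280000000000000000000000000000000) (nat_lit 0x0) (nat_lit 0x14000a000f8018001d0000400020000000000000000000000000000) := T_16 (nat_lit 180) (nat_lit 179) (nat_lit 1) (nat_lit 13) (nat_lit 9) L27152 (by decide +kernel)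
theorem L27154 : W_16 (nat_lit 2) (nat_lit 0x400004001201fd0009000280000000000000000000000000000000) (nat_lit 0x0) (nat_lit 0x1c0000000000000000000000000000000000000) := D_16 (nat_lit 151) (nat_lit 150) (nat_lit 152) (nat_lit 2) (nat_lit 11) (nat_lit 9) (nat_lit 2) (nat_lit 12) (nat_lit 9) (by decide +kernel)
theorem L27155 : W_16 (nat_lit 3) (nat_lit 0x400004001200fd0009000280000000000000000000000000000000) (nat_lit 0x0) (nat_lit 0x10001d0000000000000000000000000000000000000) := T_16 (nat_lit 168) (nat_lit 148) (nat_lit 0) (nat_lit 15) (nat_lit 9) L27154 (by decide +kernel)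
theorem L27156 : W_16 (nat_lit 4) (nat_lit 0x4000040012007d0009000280000000000000000000000000000000) (nat_lit 0x0) (nat_lit 0x20018001d0000000000000000000000000000000000000) := T_16 (nat_lit 167) (nat_lit 181) (nat_lit 1) (nat_lit 14) (nat_lit 9) L27155 (by decide +kernel)
theorem L27157 : W_16 (nat_lit 5) (nat_lit 0x40012007d0009000280000000000000000000000000000000) (nat_lit 0x0) (nat_lit 0x4000200020018001d0000000000000000000000000000000000000) := T_16 (nat_lit 214) (nat_lit 197) (nat_lit 6) (nat_lit 10) (nat_lit 12) L27156 (by decide +kernel)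
theorem L27158 : W_16 (nat_lit 6) (nat_lit 0x40012007c0009000280000000000000000000000000000000) (nat_lit 0x0) (nat_lit 0x4000200020018101d0800000000000000000000000000000000000) := T_16 (nat_lit 160) (nat_lit 143) (nat_lit 6) (nat_lit 7) (nat_lit 11) L27157 (by decide +kernel)
theorem L27159 : W_16 (nat_lit 7) (nat_lit 0x40002007c0009000280000000000000000000000000000000) (nat_lit 0x0) (nat_lit 0x4000200038018101d0800000000000000000000000000000000000) := T_16 (nat_lit 180) (nat_lit 179) (nat_lit 1) (nat_lit 13) (nat_lit 9) L27158 (by decide +kernel)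
theorem L27160 : W_16 (nat_lit 10) (nat_lit 0x40002007c0001000280000000000000000000000000000000) (nat_lit 0x0) (nat_lit 0x14000a000f8018101d8800400030000000000000000000000000000) := Q_16 (nat_lit 147) (C_16 L27134 (C_16 L27138 (C_16 L27145 (C_16 L27153 (C_16 L27159 N_16))))) (by decide +kernel)
theorem L27161 : W_16 (nat_lit 2) (nat_lit 0x40002007c0001000280000000000000000000000000000000) (nat_lit 0x0) (nat_lit 0x1c000000000000000000000000000000000000000000000) := D_16 (nat_lit 183) (nat_lit 184) (nat_lit 182) (nat_lit 3) (nat_lit 10) (nat_lit 9) (nat_lit 3) (nat_lit 9) (nat_lit 9) (by decide +kernel)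
theorem L27162 : W_16 (nat_lit 2) (nat_lit 0x4010200fd0001000280000000000000000000000000000000) (nat_lit 0x0) (nat_lit 0x3800000000000000000000000000000000000000000000) := D_16 (nat_lit 180) (nat_lit 179) (nat_lit 181) (nat_lit 1) (nat_lit 13) (nat_lit 9) (nat_lit 1) (nat_lit 14) (nat_lit 9) (by decide +kernel)
theorem L27163 : W_16 (nat_lit 3) (nat_lit 0x40102007d0001000280000000000000000000000000000000) (nat_lit 0x0) (nat_lit 0x23800800000000000000000000000000000000000000000) := T_16 (nat_lit 167) (nat_lit 185) (nat_lit 3) (nat_lit 11) (nat_lit 9) L27162 (by decide +kernel)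
theorem L27164 : W_16 (nat_lit 4) (nat_lit 0x40102007c0001000280000000000000000000000000000000) (nat_lit 0x0) (nat_lit 0x23800810000800000000000000000000000000000000000) := T_16 (nat_lit 160) (nat_lit 143) (nat_lit 6) (nat_lit 7) (nat_lit 11) L27163 (by decide +kernel)
theorem L27165 : W_16 (nat_lit 5) (nat_lit 0x40002007c0001000280000000000000000000000000000000) (nat_lit 0x0) (nat_lit 0x3b800810000800000000000000000000000000000000000) := T_16 (nat_lit 184) (nat_lit 183) (nat_lit 3) (nat_lit 10) (nat_lit 9) L27164 (by decide +kernel)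
theorem L27166 : W_16 (nat_lit 2) (nat_lit 0x4021200fd0081000280000000000000000000000000000000) (nat_lit 0x0) (nat_lit 0x40001000100000000000000000000000000000000000000) := D_16 (nat_lit 168) (nat_lit 152) (nat_lit 186) (nat_lit 2) (nat_lit 12) (nat_lit 9) (nat_lit 3) (nat_lit 12) (nat_lit 9) (by decide +kernel)
theorem L27167 : W_16 (nat_lit 3) (nat_lit 0x4001200fd0081000280000000000000000000000000000000) (nat_lit 0x0) (nat_lit 0x70001000100000000000000000000000000000000000000) := T_16 (nat_lit 185) (nat_lit 184) (nat_lit 3) (nat_lit 11) (nat_lit 9) L27166 (by decide +kernel)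
theorem L27168 : W_16 (nat_lit 4) (nat_lit 0x4001200fd0001000280000000000000000000000000000000) (nat_lit 0x0) (nat_lit 0x700010001c0000000000000000000000000000000000000) := T_16 (nat_lit 151) (nat_lit 150) (nat_lit 2) (nat_lit 11) (nat_lit 9) L27167 (by decide +kernel)
theorem L27169 : W_16 (nat_lit 5) (nat_lit 0x40012007d0001000280000000000000000000000000000000) (nat_lit 0x0) (nat_lit 0x720018001c0000000000000000000000000000000000000) := T_16 (nat_lit 167) (nat_lit 181) (nat_lit 1) (nat_lit 14) (nat_lit 9) L27168 (by decide +kernel)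
theorem L27170 : W_16 (nat_lit 6) (nat_lit 0x40012007c0001000280000000000000000000000000000000) (nat_lit 0x0) (nat_lit 0x720018101c0800000000000000000000000000000000000) := T_16 (nat_lit 160) (nat_lit 143) (nat_lit 6) (nat_lit 7) (nat_lit 11) L27169 (by decide +kernel)
theorem L27171 : W_16 (nat_lit 7) (nat_lit 0x40002007c0001000280000000000000000000000000000000) (nat_lit 0x0) (nat_lit 0x738018101c0800000000000000000000000000000000000) := T_16 (nat_lit 180) (nat_lit 179) (nat_lit 1) (nat_lit 13) (nat_lit 9) L27170 (by decide +kernel)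
theorem L27172 : W_16 (nat_lit 11) (nat_lit 0x40002003c0001000280000000000000000000000000000000) (nat_lit 0x0) (nat_lit 0x14000a007f801c101d8800400030000000000000000000000000000) := Q_16 (nat_lit 166) (C_16 L27160 (C_16 L27161 (C_16 L27165 (C_16 L27171 N_16)))) (by decide +kernel)
theorem L27173 : W_16 (nat_lit 2) (nat_lit 0x40082003c0021000280000000000000000000000000000000) (nat_lit 0x0) (nat_lit 0x10000400040000000000000000000000000000000000000) := D_16 (nat_lit 166) (nat_lit 184) (nat_lit 150) (nat_lit 3) (nat_lit 10) (nat_lit 9) (nat_lit 2) (nat_lit 10) (nat_lit 9) (by decide +kernel)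
theorem L27174 : W_16 (nat_lit 3) (nat_lit 0x40082003c0001000280000000000000000000000000000000) (nat_lit 0x0) (nat_lit 0x10000400070000000000000000000000000000000000000) := T_16 (nat_lit 149) (nat_lit 148) (nat_lit 2) (nat_lit 9) (nat_lit 9) L27173 (by decide +kernel)
theorem L27175 : W_16 (nat_lit 4) (nat_lit 0x40002003c0001000280000000000000000000000000000000) (nat_lit 0x0) (nat_lit 0x1c000400070000000000000000000000000000000000000) := T_16 (nat_lit 183) (nat_lit 182) (nat_lit 3) (nat_lit 9) (nat_lit 9) L27174 (by decide +kernel)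
theorem L27176 : W_16 (nat_lit 2) (nat_lit 0x40002007c0001000280000000000000000000000000000000) (nat_lit 0x0) (nat_lit 0x70000000000000000000000000000000000000) := D_16 (nat_lit 149) (nat_lit 148) (nat_lit 150) (nat_lit 2) (nat_lit 9) (nat_lit 9) (nat_lit 2) (nat_lit 10) (nat_lit 9) (by decide +kernel)
theorem L27177 : W_16 (nat_lit 2) (nat_lit 0x4001201fc0011000280000000000000000000000000000000) (nat_lit 0x0) (nat_lit 0x70000000000000000000000000000000000000000000000) := D_16 (nat_lit 185) (nat_lit 184) (nat_lit 186) (nat_lit 3) (nat_lit 11) (nat_lit 9) (nat_lit 3) (nat_lit 12) (nat_lit 9) (by decide +kernel)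
theorem L27178 : W_16 (nat_lit 3) (nat_lit 0x4001200fc0011000280000000000000000000000000000000) (nat_lit 0x0) (nat_lit 0x70001000008000000000000000000000000000000000000) := T_16 (nat_lit 168) (nat_lit 147) (nat_lit 0) (nat_lit 15) (nat_lit 9) L27177 (by decide +kernel)
theorem L27179 : W_16 (nat_lit 4) (nat_lit 0x40012007c0011000280000000000000000000000000000000) (nat_lit 0x0) (nat_lit 0x72001800008000000000000000000000000000000000000) := T_16 (nat_lit 167) (nat_lit 181) (nat_lit 1) (nat_lit 14) (nat_lit 9) L27178 (by decide +kernel)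
theorem L27180 : W_16 (nat_lit 5) (nat_lit 0x40012007c0001000280000000000000000000000000000000) (nat_lit 0x0) (nat_lit 0x72001800038000000000000000000000000000000000000) := T_16 (nat_lit 148) (nat_lit 149) (nat_lit 2) (nat_lit 9) (nat_lit 9) L27179 (by decide +kernel)
theorem L27181 : W_16 (nat_lit 6) (nat_lit 0x40002007c0001000280000000000000000000000000000000) (nat_lit 0x0) (nat_lit 0x73801800038000000000000000000000000000000000000) := T_16 (nat_lit 180) (nat_lit 179) (nat_lit 1) (nat_lit 13) (nat_lit 9) L27180 (by decide +kernel)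
theorem L27182 : W_16 (nat_lit 8) (nat_lit 0x40002003c0001000280000000000000000000000000000000) (nat_lit 0x0) (nat_lit 0x73801c101f8800000000000000000000000000000000000) := Q_16 (nat_lit 166) (C_16 L27176 (C_16 L27171 (C_16 L27181 N_16))) (by decide +kernel)
theorem L27183 : W_16 (nat_lit 2) (nat_lit 0x40042003c0019000280000000000000000000000000000000) (nat_lit 0x0) (nat_lit 0x1000080000000000000000400000000000000000000000000000000) := D_16 (nat_lit 199) (nat_lit 130) (nat_lit 216) (nat_lit 4) (nat_lit 12) (nat_lit 11) (nat_lit 4) (nat_lit 12) (nat_lit 12) (by decide +kernel)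
theorem L27184 : W_16 (nat_lit 3) (nat_lit 0x40002003c0019000280000000000000000000000000000000) (nat_lit 0x0) (nat_lit 0x100008000c000000000000400000000000000000000000000000000) := T_16 (nat_lit 182) (nat_lit 183) (nat_lit 3) (nat_lit 9) (nat_lit 9) L27183 (by decide +kernel)
theorem L27185 : W_16 (nat_lit 4) (nat_lit 0x40002003c0009000280000000000000000000000000000000) (nat_lit 0x0) (nat_lit 0x100008000c000000030000400000000000000000000000000000000) := T_16 (nat_lit 148) (nat_lit 149) (nat_lit 2) (nat_lit 9) (nat_lit 9) L27184 (by decide +kernel)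
theorem L27186 : W_16 (nat_lit 2) (nat_lit 0x40002003d0009000680020000000000000000000000000000) (nat_lit 0x0) (nat_lit 0x2000000000000000010000800000000000000000000000) := D_16 (nat_lit 112) (nat_lit 95) (nat_lit 181) (nat_lit 4) (nat_lit 11) (nat_lit 9) (nat_lit 4) (nat_lit 11) (nat_lit 10) (by decide +kernel)
theorem L27187 : W_16 (nat_lit 3) (nat_lit 0x40002003d0009000680000000000000000000000000000000) (nat_lit 0x0) (nat_lit 0x3000000000000000030000800000000000000000000000) := T_16 (nat_lit 113) (nat_lit 180) (nat_lit 5) (nat_lit 11) (nat_lit 6) L27186 (by decide +kernel)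
theorem L27188 : W_16 (nat_lit 4) (nat_lit 0x40002003c0009000680000000000000000000000000000000) (nat_lit 0x0) (nat_lit 0x3000010000800000030000800000000000000000000000) := T_16 (nat_lit 160) (nat_lit 143) (nat_lit 6) (nat_lit 7) (nat_lit 11) L27187 (by decide +kernel)
theorem L27189 : W_16 (nat_lit 2) (nat_lit 0x40022003d0019000680000000000000000000000000000000) (nat_lit 0x0) (nat_lit 0x800040000000000000000800000000000000000000000000000000) := D_16 (nat_lit 198) (nat_lit 215) (nat_lit 131) (nat_lit 6) (nat_lit 11) (nat_lit 12) (nat_lit 6) (nat_lit 11) (nat_lit 11) (by decide +kernel)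
theorem L27190 : W_16 (nat_lit 3) (nat_lit 0x40022003d0009000680000000000000000000000000000000) (nat_lit 0x0) (nat_lit 0x800040000000000030000800000000000000000000000000000000) := T_16 (nat_lit 148) (nat_lit 149) (nat_lit 2) (nat_lit 9) (nat_lit 9) L27189 (by decide +kernel)
theorem L27191 : W_16 (nat_lit 4) (nat_lit 0x40002003d0009000680000000000000000000000000000000) (nat_lit 0x0) (nat_lit 0x800040002000000030000800010000000000000000000000000000) := T_16 (nat_lit 181) (nat_lit 112) (nat_lit 4) (nat_lit 11) (nat_lit 10) L27190 (by decide +kernel)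
theorem L27192 : W_16 (nat_lit 5) (nat_lit 0x40002003c0009000680000000000000000000000000000000) (nat_lit 0x0) (nat_lit 0x800040002000010030800800010000000000000000000000000000) := T_16 (nat_lit 160) (nat_lit 143) (nat_lit 6) (nat_lit 7) (nat_lit 11) L27191 (by decide +kernel)
theorem L27193 : W_16 (nat_lit 2) (nat_lit 0x40002003c0019000680000000000000000000000000000000) (nat_lit 0x0) (nat_lit 0x1000000000000000020001000000000000000000000000) := D_16 (nat_lit 113) (nat_lit 96) (nat_lit 180) (nat_lit 7) (nat_lit 11) (nat_lit 5) (nat_lit 5) (nat_lit 11) (nat_lit 6) (by decide +kernel)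
theorem L27194 : W_16 (nat_lit 3) (nat_lit 0x40002003c0009000680000000000000000000000000000000) (nat_lit 0x0) (nat_lit 0x1000000030000000020001000000000000000000000000) := T_16 (nat_lit 148) (nat_lit 149) (nat_lit 2) (nat_lit 9) (nat_lit 9) L27193 (by decide +kernel)
theorem L27195 : W_16 (nat_lit 6) (nat_lit 0x40002003c0009000280000000000000000000000000000000) (nat_lit 0x0) (nat_lit 0x800040003000010030800c00030001800000000000000000000000) := Q_16 (nat_lit 130) (C_16 L27188 (C_16 L27192 (C_16 L27194 N_16))) (by decide +kernel)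
theorem L27196 : W_16 (nat_lit 2) (nat_lit 0x40042003d0009000680000000000000000000000000000000) (nat_lit 0x0) (nat_lit 0x1000080002000000000000000000000000000000000000000000000) := D_16 (nat_lit 199) (nat_lit 216) (nat_lit 181) (nat_lit 4) (nat_lit 12) (nat_lit 12) (nat_lit 7) (nat_lit 11) (nat_lit 7) (by decide +kernel)
theorem L27197 : W_16 (nat_lit 3) (nat_lit 0x40042003d0009000280000000000000000000000000000000) (nat_lit 0x0) (nat_lit 0x1000080002000000000000400020000000000000000000000000000) := T_16 (nat_lit 130) (nat_lit 113) (nat_lit 7) (nat_lit 11) (nat_lit 6) L27196 (by decide +kernel)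
theorem L27198 : W_16 (nat_lit 4) (nat_lit 0x40042003c0009000280000000000000000000000000000000) (nat_lit 0x0) (nat_lit 0x1000080002000010000800400020000000000000000000000000000) := T_16 (nat_lit 160) (nat_lit 143) (nat_lit 6) (nat_lit 7) (nat_lit 11) L27197 (by decide +kernel)
theorem L27199 : W_16 (nat_lit 5) (nat_lit 0x40002003c0009000280000000000000000000000000000000) (nat_lit 0x0) (nat_lit 0x100008000e000010000800400020000000000000000000000000000) := T_16 (nat_lit 182) (nat_lit 183) (nat_lit 3) (nat_lit 9) (nat_lit 9) L27198 (by decide +kernel)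
theorem L27200 : W_16 (nat_lit 2) (nat_lit 0x1c40042003d0019000a80040000000000000000000000000000) (nat_lit 0x0) (nat_lit 0x1000080004000000000000000000000000) := D_16 (nat_lit 115) (nat_lit 132) (nat_lit 98) (nat_lit 6) (nat_lit 12) (nat_lit 10) (nat_lit 6) (nat_lit 12) (nat_lit 9) (by decide +kernel)
theorem L27201 : W_16 (nat_lit 3) (nat_lit 0x1c40042003d0019000a80000000000000000000000000000000) (nat_lit 0x0) (nat_lit 0x10000c0006000000000000000000000000) := T_16 (nat_lit 114) (nat_lit 97) (nat_lit 5) (nat_lit 12) (nat_lit 5) L27200 (by decide +kernel)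
theorem L27202 : W_16 (nat_lit 4) (nat_lit 0x1c40042003d0019000280000000000000000000000000000000) (nat_lit 0x0) (nat_lit 0x20000000000018000c0006000000000000000000000000) := T_16 (nat_lit 131) (nat_lit 181) (nat_lit 6) (nat_lit 11) (nat_lit 11) L27201 (by decide +kernel)
theorem L27203 : W_16 (nat_lit 5) (nat_lit 0x1840042003d0019000280000000000000000000000000000000) (nat_lit 0x0) (nat_lit 0x8000400020000000000018000c0006000000000000000000000000) := T_16 (nat_lit 198) (nat_lit 215) (nat_lit 5) (nat_lit 12) (nat_lit 8) L27202 (by decide +kernel)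
theorem L27204 : W_16 (nat_lit 6) (nat_lit 0x840042003d0019000280000000000000000000000000000000) (nat_lit 0x0) (nat_lit 0x28001400020000000000018000c0006000000000000000000000000) := T_16 (nat_lit 200) (nat_lit 217) (nat_lit 7) (nat_lit 12) (nat_lit 8) L27203 (by decide +kernel)
theorem L27205 : W_16 (nat_lit 7) (nat_lit 0x840042003c0019000280000000000000000000000000000000) (nat_lit 0x0) (nat_lit 0x28001400020000100008018000c0006000000000000000000000000) := T_16 (nat_lit 160) (nat_lit 143) (nat_lit 6) (nat_lit 7) (nat_lit 11) L27204 (by decide +kernel)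
theorem L27206 : W_16 (nat_lit 8) (nat_lit 0x40042003c0019000280000000000000000000000000000000) (nat_lit 0x0) (nat_lit 0x38001c00020000100008018000c0006000000000000000000000000) := T_16 (nat_lit 199) (nat_lit 216) (nat_lit 4) (nat_lit 12) (nat_lit 12) L27205 (by decide +kernel)
theorem L27207 : W_16 (nat_lit 9) (nat_lit 0x40042003c0009000280000000000000000000000000000000) (nat_lit 0x0) (nat_lit 0x38001c00020000100308018000c0006000000000000000000000000) := T_16 (nat_lit 148) (nat_lit 149) (nat_lit 2) (nat_lit 9) (nat_lit 9) L27206 (by decide +kernel)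
theorem L27208 : W_16 (nat_lit 10) (nat_lit 0x40002003c0009000280000000000000000000000000000000) (nat_lit 0x0) (nat_lit 0x38001c000e0000100308018000c0006000000000000000000000000) := T_16 (nat_lit 182) (nat_lit 183) (nat_lit 3) (nat_lit 9) (nat_lit 9) L27207 (by decide +kernel)
theorem L27209 : W_16 (nat_lit 11) (nat_lit 0x40002003c0001000280000000000000000000000000000000) (nat_lit 0x0) (nat_lit 0x38001c000f000010038801c000f0007800000000000000000000000) := Q_16 (nat_lit 147) (C_16 L27185 (C_16 L27195 (C_16 L27199 (C_16 L27208 N_16)))) (by decide +kernel)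
theorem L27210 : W_16 (nat_lit 2) (nat_lit 0x40092007d0041000280000000000000000000000000000000) (nat_lit 0x0) (nat_lit 0x2000800080000000000000000000000000000000000000) := D_16 (nat_lit 167) (nat_lit 151) (nat_lit 181) (nat_lit 2) (nat_lit 11) (nat_lit 9) (nat_lit 1) (nat_lit 14) (nat_lit 9) (by decide +kernel)
theorem L27211 : W_16 (nat_lit 3) (nat_lit 0x40082007d0041000280000000000000000000000000000000) (nat_lit 0x0) (nat_lit 0x3800800080000000000000000000000000000000000000) := T_16 (nat_lit 180) (nat_lit 179) (nat_lit 1) (nat_lit 13) (nat_lit 9) L27210 (by decide +kernel)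
theorem L27212 : W_16 (nat_lit 4) (nat_lit 0x40082007d0001000280000000000000000000000000000000) (nat_lit 0x0) (nat_lit 0x38008000e0000000000000000000000000000000000000) := T_16 (nat_lit 150) (nat_lit 149) (nat_lit 2) (nat_lit 10) (nat_lit 9) L27211 (by decide +kernel)
theorem L27213 : W_16 (nat_lit 5) (nat_lit 0x40082003d0001000280000000000000000000000000000000) (nat_lit 0x0) (nat_lit 0x13800c000e0000000000000000000000000000000000000) := T_16 (nat_lit 166) (nat_lit 184) (nat_lit 3) (nat_lit 10) (nat_lit 9) L27212 (by decide +kernel)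
theorem L27214 : W_16 (nat_lit 6) (nat_lit 0x40082003c0001000280000000000000000000000000000000) (nat_lit 0x0) (nat_lit 0x13800c100e0800000000000000000000000000000000000) := T_16 (nat_lit 160) (nat_lit 143) (nat_lit 6) (nat_lit 7) (nat_lit 11) L27213 (by decide +kernel)
theorem L27215 : W_16 (nat_lit 7) (nat_lit 0x40002003c0001000280000000000000000000000000000000) (nat_lit 0x0) (nat_lit 0x1f800c100e0800000000000000000000000000000000000) := T_16 (nat_lit 183) (nat_lit 182) (nat_lit 3) (nat_lit 9) (nat_lit 9) L27214 (by decide +kernel)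
theorem L27216 : W_16 (nat_lit 12) (nat_lit 0x40002001c0001000280000000000000000000000000000000) (nat_lit 0x0) (nat_lit 0x3c001e007f801e101f8801c000f0007800000000000000000000000) := Q_16 (nat_lit 165) (C_16 L27172 (C_16 L27175 (C_16 L27182 (C_16 L27209 (C_16 L27215 N_16))))) (by decide +kernel)
theorem L27217 : W_16 (nat_lit 2) (nat_lit 0x40002001c0001000280000000000000000000000000000000) (nat_lit 0x0) (nat_lit 0x30000800000000000000000000000000000000000) := D_16 (nat_lit 143) (nat_lit 160) (nat_lit 161) (nat_lit 6) (nat_lit 7) (nat_lit 11) (nat_lit 0) (nat_lit 11) (nat_lit 9) (by decide +kernel)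
theorem L27218 : W_16 (nat_lit 2) (nat_lit 0x40032003e0011000280000000000000000000000000000000) (nat_lit 0x0) (nat_lit 0x800c00000000000000000000000000000000000000000) := D_16 (nat_lit 166) (nat_lit 167) (nat_lit 179) (nat_lit 1) (nat_lit 14) (nat_lit 9) (nat_lit 1) (nat_lit 13) (nat_lit 9) (by decide +kernel)
theorem L27219 : W_16 (nat_lit 3) (nat_lit 0x40022003e0011000280000000000000000000000000000000) (nat_lit 0x0) (nat_lit 0x1800c10000000000000000000000000000000000000000) := T_16 (nat_lit 180) (nat_lit 160) (nat_lit 3) (nat_lit 7) (nat_lit 9) L27218 (by decide +kernel)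
theorem L27220 : W_16 (nat_lit 4) (nat_lit 0x40002003e0011000280000000000000000000000000000000) (nat_lit 0x0) (nat_lit 0x7800c10000000000000000000000000000000000000000) := T_16 (nat_lit 181) (nat_lit 182) (nat_lit 3) (nat_lit 8) (nat_lit 9) L27219 (by decide +kernel)
theorem L27221 : W_16 (nat_lit 5) (nat_lit 0x40002003c0011000280000000000000000000000000000000) (nat_lit 0x0) (nat_lit 0x7800c30008000000000000000000000000000000000000) := T_16 (nat_lit 161) (nat_lit 147) (nat_lit 2) (nat_lit 8) (nat_lit 9) L27220 (by decide +kernel)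
theorem L27222 : W_16 (nat_lit 6) (nat_lit 0x40002003c0001000280000000000000000000000000000000) (nat_lit 0x0) (nat_lit 0x7800c30038000000000000000000000000000000000000) := T_16 (nat_lit 148) (nat_lit 149) (nat_lit 2) (nat_lit 9) (nat_lit 9) L27221 (by decide +kernel)
theorem L27223 : W_16 (nat_lit 2) (nat_lit 0x40112007c0021000280000000000000000000000000000000) (nat_lit 0x0) (nat_lit 0x22000800000000000000000000000000000000000000000) := D_16 (nat_lit 167) (nat_lit 181) (nat_lit 185) (nat_lit 1) (nat_lit 14) (nat_lit 9) (nat_lit 3) (nat_lit 11) (nat_lit 9) (by decide +kernel)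
theorem L27224 : W_16 (nat_lit 3) (nat_lit 0x40012007c0021000280000000000000000000000000000000) (nat_lit 0x0) (nat_lit 0x3a000800000000000000000000000000000000000000000) := T_16 (nat_lit 184) (nat_lit 183) (nat_lit 3) (nat_lit 10) (nat_lit 9) L27223 (by decide +kernel)
theorem L27225 : W_16 (nat_lit 4) (nat_lit 0x40002007c0021000280000000000000000000000000000000) (nat_lit 0x0) (nat_lit 0x3b800800000000000000000000000000000000000000000) := T_16 (nat_lit 180) (nat_lit 179) (nat_lit 1) (nat_lit 13) (nat_lit 9) L27224 (by decide +kernel)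
theorem L27226 : W_16 (nat_lit 5) (nat_lit 0x40002003c0021000280000000000000000000000000000000) (nat_lit 0x0) (nat_lit 0x3b800c00040000000000000000000000000000000000000) := T_16 (nat_lit 166) (nat_lit 150) (nat_lit 2) (nat_lit 10) (nat_lit 9) L27225 (by decide +kernel)
theorem L27227 : W_16 (nat_lit 6) (nat_lit 0x40002003c0001000280000000000000000000000000000000) (nat_lit 0x0) (nat_lit 0x3b800c00070000000000000000000000000000000000000) := T_16 (nat_lit 149) (nat_lit 148) (nat_lit 2) (nat_lit 9) (nat_lit 9) L27226 (by decide +kernel)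
theorem L27228 : W_16 (nat_lit 2) (nat_lit 0x40002003e0011000280000000000000000000000000000000) (nat_lit 0x0) (nat_lit 0xe000000000000000000000000000000000000000000000) := D_16 (nat_lit 182) (nat_lit 183) (nat_lit 181) (nat_lit 3) (nat_lit 9) (nat_lit 9) (nat_lit 3) (nat_lit 8) (nat_lit 9) (by decide +kernel)
theorem L27229 : W_16 (nat_lit 3) (nat_lit 0x40002003c0011000280000000000000000000000000000000) (nat_lit 0x0) (nat_lit 0xe000020008000000000000000000000000000000000000) := T_16 (nat_lit 161) (nat_lit 147) (nat_lit 2) (nat_lit 8) (nat_lit 9) L27228 (by decide +kernel)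
theorem L27230 : W_16 (nat_lit 4) (nat_lit 0x40002003c0001000280000000000000000000000000000000) (nat_lit 0x0) (nat_lit 0xe000020038000000000000000000000000000000000000) := T_16 (nat_lit 148) (nat_lit 149) (nat_lit 2) (nat_lit 9) (nat_lit 9) L27229 (by decide +kernel)
theorem L27231 : W_16 (nat_lit 2) (nat_lit 0x40092007c0041000280000000000000000000000000000000) (nat_lit 0x0) (nat_lit 0x2000800080000000000000000000000000000000000000) := D_16 (nat_lit 167) (nat_lit 151) (nat_lit 181) (nat_lit 2) (nat_lit 11) (nat_lit 9) (nat_lit 1) (nat_lit 14) (nat_lit 9) (by decide +kernel)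
theorem L27232 : W_16 (nat_lit 3) (nat_lit 0x40082007c0041000280000000000000000000000000000000) (nat_lit 0x0) (nat_lit 0x3800800080000000000000000000000000000000000000) := T_16 (nat_lit 180) (nat_lit 179) (nat_lit 1) (nat_lit 13) (nat_lit 9) L27231 (by decide +kernel)
theorem L27233 : W_16 (nat_lit 4) (nat_lit 0x40082007c0001000280000000000000000000000000000000) (nat_lit 0x0) (nat_lit 0x38008000e0000000000000000000000000000000000000) := T_16 (nat_lit 150) (nat_lit 149) (nat_lit 2) (nat_lit 10) (nat_lit 9) L27232 (by decide +kernel)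
theorem L27234 : W_16 (nat_lit 5) (nat_lit 0x40082003c0001000280000000000000000000000000000000) (nat_lit 0x0) (nat_lit 0x13800c000e0000000000000000000000000000000000000) := T_16 (nat_lit 166) (nat_lit 184) (nat_lit 3) (nat_lit 10) (nat_lit 9) L27233 (by decide +kernel)
theorem L27235 : W_16 (nat_lit 6) (nat_lit 0x40002003c0001000280000000000000000000000000000000) (nat_lit 0x0) (nat_lit 0x1f800c000e0000000000000000000000000000000000000) := T_16 (nat_lit 183) (nat_lit 182) (nat_lit 3) (nat_lit 9) (nat_lit 9) L27234 (by decide +kernel)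
theorem L27236 : W_16 (nat_lit 2) (nat_lit 0x400b2007e0009000280000000000000000000000000000000) (nat_lit 0x0) (nat_lit 0x400030000000000000000000000000000) := D_16 (nat_lit 130) (nat_lit 112) (nat_lit 113) (nat_lit 4) (nat_lit 11) (nat_lit 10) (nat_lit 5) (nat_lit 11) (nat_lit 6) (by decide +kernel)
theorem L27237 : W_16 (nat_lit 3) (nat_lit 0x400b2007e0001000280000000000000000000000000000000) (nat_lit 0x0) (nat_lit 0x18000400030000000000000000000000000000) := T_16 (nat_lit 147) (nat_lit 148) (nat_lit 2) (nat_lit 8) (nat_lit 9) L27236 (by decide +kernel)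
theorem L27238 : W_16 (nat_lit 4) (nat_lit 0x400b2007c0001000280000000000000000000000000000000) (nat_lit 0x0) (nat_lit 0x30018000400030000000000000000000000000000) := T_16 (nat_lit 161) (nat_lit 160) (nat_lit 3) (nat_lit 7) (nat_lit 9) L27237 (by decide +kernel)
theorem L27239 : W_16 (nat_lit 5) (nat_lit 0x40092007c0001000280000000000000000000000000000000) (nat_lit 0x0) (nat_lit 0x2000830018000400030000000000000000000000000000) := T_16 (nat_lit 181) (nat_lit 167) (nat_lit 1) (nat_lit 14) (nat_lit 9) L27238 (by decide +kernel)
theorem L27240 : W_16 (nat_lit 6) (nat_lit 0x40082007c0001000280000000000000000000000000000000) (nat_lit 0x0) (nat_lit 0x3800830018000400030000000000000000000000000000) := T_16 (nat_lit 180) (nat_lit 179) (nat_lit 1) (nat_lit 13) (nat_lit 9) L27239 (by decide +kernel)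
theorem L27241 : W_16 (nat_lit 7) (nat_lit 0x40082003c0001000280000000000000000000000000000000) (nat_lit 0x0) (nat_lit 0x13800c30018000400030000000000000000000000000000) := T_16 (nat_lit 166) (nat_lit 184) (nat_lit 3) (nat_lit 10) (nat_lit 9) L27240 (by decide +kernel)
theorem L27242 : W_16 (nat_lit 8) (nat_lit 0x40002003c0001000280000000000000000000000000000000) (nat_lit 0x0) (nat_lit 0x1f800c30018000400030000000000000000000000000000) := T_16 (nat_lit 183) (nat_lit 182) (nat_lit 3) (nat_lit 9) (nat_lit 9) L27241 (by decide +kernel)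
theorem L27243 : W_16 (nat_lit 9) (nat_lit 0x40002001c0001000280000000000000000000000000000000) (nat_lit 0x0) (nat_lit 0x3f800e300f8000400030000000000000000000000000000) := Q_16 (nat_lit 165) (C_16 L27175 (C_16 L27222 (C_16 L27227 (C_16 L27230 (C_16 L27235 (C_16 L27242 N_16)))))) (by decide +kernel)
theorem L27244 : W_16 (nat_lit 2) (nat_lit 0x40022001e0009000680000000000000000000000000000000) (nat_lit 0x0) (nat_lit 0x20001000000000000000020000000000000000000000000000) := D_16 (nat_lit 180) (nat_lit 113) (nat_lit 197) (nat_lit 5) (nat_lit 11) (nat_lit 6) (nat_lit 5) (nat_lit 11) (nat_lit 7) (by decide +kernel)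
theorem L27245 : W_16 (nat_lit 3) (nat_lit 0x40022001e0009000280000000000000000000000000000000) (nat_lit 0x0) (nat_lit 0x20001000000000000400030000000000000000000000000000) := T_16 (nat_lit 130) (nat_lit 112) (nat_lit 4) (nat_lit 11) (nat_lit 10) L27244 (by decide +kernel)
theorem L27246 : W_16 (nat_lit 4) (nat_lit 0x40002001e0009000280000000000000000000000000000000) (nat_lit 0x0) (nat_lit 0x20007000000000000400030000000000000000000000000000) := T_16 (nat_lit 181) (nat_lit 182) (nat_lit 3) (nat_lit 8) (nat_lit 9) L27245 (by decide +kernel)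
theorem L27247 : W_16 (nat_lit 5) (nat_lit 0x40002001e0001000280000000000000000000000000000000) (nat_lit 0x0) (nat_lit 0x20007000000018000400030000000000000000000000000000) := T_16 (nat_lit 147) (nat_lit 148) (nat_lit 2) (nat_lit 8) (nat_lit 9) L27246 (by decide +kernel)
theorem L27248 : W_16 (nat_lit 6) (nat_lit 0x40002001c0001000280000000000000000000000000000000) (nat_lit 0x0) (nat_lit 0x20007000020018800400030000000000000000000000000000) := T_16 (nat_lit 161) (nat_lit 143) (nat_lit 0) (nat_lit 11) (nat_lit 9) L27247 (by decide +kernel)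
theorem L27249 : W_16 (nat_lit 13) (nat_lit 0x4000200180001000280000000000000000000000000000000) (nat_lit 0x0) (nat_lit 0x3c001e007f801e701f8801c000f0007800000000000000000000000) := Q_16 (nat_lit 162) (C_16 L27216 (C_16 L27217 (C_16 L27243 (C_16 L27248 N_16)))) (by decide +kernel)
theorem L27250 : W_16 (nat_lit 2) (nat_lit 0x4000200180001800280000000000000000000000000000000) (nat_lit 0x0) (nat_lit 0x400060000000000000000000000000000000000000000) := D_16 (nat_lit 161) (nat_lit 178) (nat_lit 162) (nat_lit 5) (nat_lit 8) (nat_lit 7) (nat_lit 0) (nat_lit 11) (nat_lit 9) (by decide +kernel)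
theorem L27251 : W_16 (nat_lit 3) (nat_lit 0x4000200180001000280000000000000000000000000000000) (nat_lit 0x0) (nat_lit 0x400070000800000000000000000000000000000000000) := T_16 (nat_lit 143) (nat_lit 160) (nat_lit 6) (nat_lit 7) (nat_lit 11) L27250 (by decide +kernel)
theorem L27252 : W_16 (nat_lit 2) (nat_lit 0x4001200180001000280000000000000000000000000000000) (nat_lit 0x0) (nat_lit 0xc00020000000000000000000000000000000000000000) := D_16 (nat_lit 178) (nat_lit 161) (nat_lit 179) (nat_lit 5) (nat_lit 8) (nat_lit 7) (nat_lit 2) (nat_lit 7) (nat_lit 10) (by decide +kernel)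
theorem L27253 : W_16 (nat_lit 2) (nat_lit 0xec0072001a0059000280000000000000000000000000000000) (nat_lit 0x0) (nat_lit 0x300000800000000000000000000000000000000000000000000) := D_16 (nat_lit 200) (nat_lit 179) (nat_lit 201) (nat_lit 3) (nat_lit 9) (nat_lit 10) (nat_lit 0) (nat_lit 14) (nat_lit 11) (by decide +kernel)
theorem L27254 : W_16 (nat_lit 3) (nat_lit 0x6c0072001a0059000280000000000000000000000000000000) (nat_lit 0x0) (nat_lit 0x1000380000800000000000000000000000000000000000000000000) := T_16 (nat_lit 199) (nat_lit 216) (nat_lit 7) (nat_lit 11) (nat_lit 8) L27253 (by decide +kernel)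
theorem L27255 : W_16 (nat_lit 4) (nat_lit 0x640072001a0059000280000000000000000000000000000000) (nat_lit 0x0) (nat_lit 0x1000398000800000000000000000000000000000000000000000000) := T_16 (nat_lit 195) (nat_lit 196) (nat_lit 2) (nat_lit 7) (nat_lit 11) L27254 (by decide +kernel)
theorem L27256 : W_16 (nat_lit 5) (nat_lit 0x440072001a0059000280000000000000000000000000000000) (nat_lit 0x0) (nat_lit 0x14003b8000800000000000000000000000000000000000000000000) := T_16 (nat_lit 197) (nat_lit 214) (nat_lit 6) (nat_lit 10) (nat_lit 12) L27255 (by decide +kernel)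
theorem L27257 : W_16 (nat_lit 6) (nat_lit 0x440072001a0019000280000000000000000000000000000000) (nat_lit 0x0) (nat_lit 0x14003b8000800000060000000000000000000000000000000000000) := T_16 (nat_lit 150) (nat_lit 149) (nat_lit 1) (nat_lit 14) (nat_lit 8) L27256 (by decide +kernel)
theorem L27258 : W_16 (nat_lit 7) (nat_lit 0x44007200180019000280000000000000000000000000000000) (nat_lit 0x0) (nat_lit 0x14003b8000800060060000000000000000000000000000000000000) := T_16 (nat_lit 161) (nat_lit 162) (nat_lit 3) (nat_lit 8) (nat_lit 9) L27257 (by decide +kernel)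
theorem L27259 : W_16 (nat_lit 8) (nat_lit 0x44007200180009000280000000000000000000000000000000) (nat_lit 0x0) (nat_lit 0x14003b8000800060070000800000000000000000000000000000000) := T_16 (nat_lit 148) (nat_lit 131) (nat_lit 6) (nat_lit 11) (nat_lit 11) L27258 (by decide +kernel)
theorem L27260 : W_16 (nat_lit 2) (nat_lit 0x100000000ec0072001a0009000280000000000000000000000000000000) (nat_lit 0x0) (nat_lit 0x300000800000000000000000000000000000000000000000000) := D_16 (nat_lit 200) (nat_lit 179) (nat_lit 201) (nat_lit 3) (nat_lit 9) (nat_lit 10) (nat_lit 0) (nat_lit 14) (nat_lit 11) (by decide +kernel)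
theorem L27261 : W_16 (nat_lit 3) (nat_lit 0x1000000006c0072001a0009000280000000000000000000000000000000) (nat_lit 0x0) (nat_lit 0x1000380000800000000000000000000000000000000000000000000) := T_16 (nat_lit 199) (nat_lit 216) (nat_lit 7) (nat_lit 11) (nat_lit 8) L27260 (by decide +kernel)
theorem L27262 : W_16 (nat_lit 4) (nat_lit 0x100000000640072001a0009000280000000000000000000000000000000) (nat_lit 0x0) (nat_lit 0x1000398000800000000000000000000000000000000000000000000) := T_16 (nat_lit 195) (nat_lit 196) (nat_lit 2) (nat_lit 7) (nat_lit 11) L27261 (by decide +kernel)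
theorem L27263 : W_16 (nat_lit 5) (nat_lit 0x100000000440072001a0009000280000000000000000000000000000000) (nat_lit 0x0) (nat_lit 0x14003b8000800000000000000000000000000000000000000000000) := T_16 (nat_lit 197) (nat_lit 214) (nat_lit 6) (nat_lit 10) (nat_lit 12) L27262 (by decide +kernel)
theorem L27264 : W_16 (nat_lit 6) (nat_lit 0x10000000044007200180009000280000000000000000000000000000000) (nat_lit 0x0) (nat_lit 0x14003b8000800060000000000000000000000000000000000000000) := T_16 (nat_lit 161) (nat_lit 162) (nat_lit 3) (nat_lit 8) (nat_lit 9) L27263 (by decide +kernel)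
theorem L27265 : W_16 (nat_lit 7) (nat_lit 0x44007200180009000280000000000000000000000000000000) (nat_lit 0x0) (nat_lit 0x10001c003b8000800060000000000000000000000000000000000000000) := T_16 (nat_lit 232) (nat_lit 215) (nat_lit 4) (nat_lit 11) (nat_lit 13) L27264 (by decide +kernel)
theorem L27266 : W_16 (nat_lit 2) (nat_lit 0x44007200180019000280000000000000000000000000000000) (nat_lit 0x0) (nat_lit 0x10000800000000000200000000000000000000000000000000000000000) := D_16 (nat_lit 215) (nat_lit 165) (nat_lit 232) (nat_lit 6) (nat_lit 11) (nat_lit 12) (nat_lit 4) (nat_lit 11) (nat_lit 13) (by decide +kernel)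
theorem L27267 : W_16 (nat_lit 3) (nat_lit 0x44007200180009000280000000000000000000000000000000) (nat_lit 0x0) (nat_lit 0x10000800000000000200010000800000000000000000000000000000000) := T_16 (nat_lit 148) (nat_lit 131) (nat_lit 6) (nat_lit 11) (nat_lit 11) L27266 (by decide +kernel)
theorem L27268 : W_16 (nat_lit 9) (nat_lit 0x4007200180009000280000000000000000000000000000000) (nat_lit 0x0) (nat_lit 0x10003c003f8000800260070001800000000000000000000000000000000) := Q_16 (nat_lit 198) (C_16 L26427 (C_16 L27259 (C_16 L27265 (C_16 L27267 N_16)))) (by decide +kernel)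
theorem L27269 : W_16 (nat_lit 2) (nat_lit 0x4007200180009000280000000000000000000000000000000) (nat_lit 0x0) (nat_lit 0x8000060000000000000000000000000000000000000000) := D_16 (nat_lit 162) (nat_lit 161) (nat_lit 183) (nat_lit 3) (nat_lit 8) (nat_lit 9) (nat_lit 0) (nat_lit 13) (nat_lit 10) (by decide +kernel)
theorem L27270 : W_16 (nat_lit 2) (nat_lit 0x400f200180009000280000000000000000000000000000000) (nat_lit 0x0) (nat_lit 0x400030000000000000000000000000000000000000000000000000) := D_16 (nat_lit 197) (nat_lit 214) (nat_lit 196) (nat_lit 6) (nat_lit 10) (nat_lit 12) (nat_lit 1) (nat_lit 13) (nat_lit 10) (by decide +kernel)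
theorem L27271 : W_16 (nat_lit 3) (nat_lit 0x4007200180009000280000000000000000000000000000000) (nat_lit 0x0) (nat_lit 0x400030018000000000000000000000000000000000000000000000) := T_16 (nat_lit 183) (nat_lit 184) (nat_lit 0) (nat_lit 14) (nat_lit 10) L27270 (by decide +kernel)
theorem L27272 : W_16 (nat_lit 10) (nat_lit 0x4003200180009000280000000000000000000000000000000) (nat_lit 0x0) (nat_lit 0x10003c003f801c800260070001800000000000000000000000000000000) := Q_16 (nat_lit 182) (C_16 L27268 (C_16 L27269 (C_16 L27271 N_16))) (by decide +kernel)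
theorem L27273 : W_16 (nat_lit 2) (nat_lit 0x4007200380009000280000000000000000000000000000000) (nat_lit 0x0) (nat_lit 0x800c00000000000000000000000000000000000000000) := D_16 (nat_lit 166) (nat_lit 179) (nat_lit 167) (nat_lit 2) (nat_lit 9) (nat_lit 10) (nat_lit 1) (nat_lit 14) (nat_lit 9) (by decide +kernel)
theorem L27274 : W_16 (nat_lit 2) (nat_lit 0x840072007a0029000280000000000000000000000000000000) (nat_lit 0x0) (nat_lit 0x10001000080000000000000000000000000000) := D_16 (nat_lit 132) (nat_lit 148) (nat_lit 115) (nat_lit 6) (nat_lit 12) (nat_lit 11) (nat_lit 5) (nat_lit 13) (nat_lit 6) (by decide +kernel)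
theorem L27275 : W_16 (nat_lit 3) (nat_lit 0x840072007a0009000280000000000000000000000000000000) (nat_lit 0x0) (nat_lit 0x70001000080000000000000000000000000000) := T_16 (nat_lit 149) (nat_lit 150) (nat_lit 2) (nat_lit 10) (nat_lit 9) L27274 (by decide +kernel)
theorem L27276 : W_16 (nat_lit 4) (nat_lit 0x40072007a0009000280000000000000000000000000000000) (nat_lit 0x0) (nat_lit 0x1000080000000000070001000080000000000000000000000000000) := T_16 (nat_lit 199) (nat_lit 216) (nat_lit 4) (nat_lit 12) (nat_lit 12) L27275 (by decide +kernel)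
theorem L27277 : W_16 (nat_lit 5) (nat_lit 0x40072003a0009000280000000000000000000000000000000) (nat_lit 0x0) (nat_lit 0x1000080000000c00070001000080000000000000000000000000000) := T_16 (nat_lit 166) (nat_lit 167) (nat_lit 1) (nat_lit 14) (nat_lit 9) L27276 (by decide +kernel)
theorem L27278 : W_16 (nat_lit 6) (nat_lit 0x4007200380009000280000000000000000000000000000000) (nat_lit 0x0) (nat_lit 0x1000080000000c60070001000080000000000000000000000000000) := T_16 (nat_lit 161) (nat_lit 162) (nat_lit 3) (nat_lit 8) (nat_lit 9) L27277 (by decide +kernel)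
theorem L27279 : W_16 (nat_lit 2) (nat_lit 0x1840072003a0009000280000000000000000000000000000000) (nat_lit 0x0) (nat_lit 0x640000000000000000000000000000000000000000000000000) := D_16 (nat_lit 201) (nat_lit 202) (nat_lit 198) (nat_lit 0) (nat_lit 15) (nat_lit 11) (nat_lit 0) (nat_lit 14) (nat_lit 11) (by decide +kernel)
theorem L27280 : W_16 (nat_lit 3) (nat_lit 0x840072003a0009000280000000000000000000000000000000) (nat_lit 0x0) (nat_lit 0x740000800000000000000000000000000000000000000000000) := T_16 (nat_lit 200) (nat_lit 179) (nat_lit 3) (nat_lit 9) (nat_lit 10) L27279 (by decide +kernel)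
theorem L27281 : W_16 (nat_lit 4) (nat_lit 0x40072003a0009000280000000000000000000000000000000) (nat_lit 0x0) (nat_lit 0x10007c0000800000000000000000000000000000000000000000000) := T_16 (nat_lit 199) (nat_lit 216) (nat_lit 4) (nat_lit 12) (nat_lit 12) L27280 (by decide +kernel)
theorem L27282 : W_16 (nat_lit 5) (nat_lit 0x4007200380009000280000000000000000000000000000000) (nat_lit 0x0) (nat_lit 0x10007c0000800060000000000000000000000000000000000000000) := T_16 (nat_lit 161) (nat_lit 162) (nat_lit 3) (nat_lit 8) (nat_lit 9) L27281 (by decide +kernel)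
theorem L27283 : W_16 (nat_lit 7) (nat_lit 0x4007200180009000280000000000000000000000000000000) (nat_lit 0x0) (nat_lit 0x10007c0000800e60070001000080000000000000000000000000000) := Q_16 (nat_lit 165) (C_16 L27273 (C_16 L27278 (C_16 L27282 N_16))) (by decide +kernel)
theorem L27284 : W_16 (nat_lit 2) (nat_lit 0x12400fa00180009000280000000000000000000000000000000) (nat_lit 0x0) (nat_lit 0xe00000000000000000000000000000000000000000) := D_16 (nat_lit 166) (nat_lit 165) (nat_lit 167) (nat_lit 2) (nat_lit 9) (nat_lit 10) (nat_lit 2) (nat_lit 10) (nat_lit 10) (by decide +kernel)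
theorem L27285 : W_16 (nat_lit 3) (nat_lit 0x12400f200180009000280000000000000000000000000000000) (nat_lit 0x0) (nat_lit 0x80000800e00000000000000000000000000000000000000000) := T_16 (nat_lit 179) (nat_lit 199) (nat_lit 3) (nat_lit 9) (nat_lit 10) L27284 (by decide +kernel)
theorem L27286 : W_16 (nat_lit 4) (nat_lit 0x2400f200180009000280000000000000000000000000000000) (nat_lit 0x0) (nat_lit 0x380000800e00000000000000000000000000000000000000000) := T_16 (nat_lit 200) (nat_lit 201) (nat_lit 3) (nat_lit 10) (nat_lit 10) L27285 (by decide +kernel)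
theorem L27287 : W_16 (nat_lit 5) (nat_lit 0x400f200180009000280000000000000000000000000000000) (nat_lit 0x0) (nat_lit 0x3b0000800e00000000000000000000000000000000000000000) := T_16 (nat_lit 197) (nat_lit 196) (nat_lit 1) (nat_lit 13) (nat_lit 10) L27286 (by decide +kernel)
theorem L27288 : W_16 (nat_lit 6) (nat_lit 0x4007200180009000280000000000000000000000000000000) (nat_lit 0x0) (nat_lit 0x3b0018800e00000000000000000000000000000000000000000) := T_16 (nat_lit 183) (nat_lit 184) (nat_lit 0) (nat_lit 14) (nat_lit 10) L27287 (by decide +kernel)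
theorem L27289 : W_16 (nat_lit 8) (nat_lit 0x4003200180009000280000000000000000000000000000000) (nat_lit 0x0) (nat_lit 0x10007f001c800e60070001000080000000000000000000000000000) := Q_16 (nat_lit 182) (C_16 L27283 (C_16 L27269 (C_16 L27288 N_16))) (by decide +kernel)
theorem L27290 : W_16 (nat_lit 2) (nat_lit 0x10000440032001a0059000280000000000000000000000000000000) (nat_lit 0x0) (nat_lit 0x30000800000000000000000000000000000000000000000000000000000) := D_16 (nat_lit 215) (nat_lit 232) (nat_lit 233) (nat_lit 4) (nat_lit 11) (nat_lit 13) (nat_lit 7) (nat_lit 11) (nat_lit 9) (by decide +kernel)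
theorem L27291 : W_16 (nat_lit 3) (nat_lit 0x440032001a0059000280000000000000000000000000000000) (nat_lit 0x0) (nat_lit 0x30001800080000000000000000000000000000000000000000000000000) := T_16 (nat_lit 216) (nat_lit 199) (nat_lit 7) (nat_lit 11) (nat_lit 8) L27290 (by decide +kernel)
theorem L27292 : W_16 (nat_lit 4) (nat_lit 0x440032001a0019000280000000000000000000000000000000) (nat_lit 0x0) (nat_lit 0x30001800080000000000060000000000000000000000000000000000000) := T_16 (nat_lit 150) (nat_lit 149) (nat_lit 1) (nat_lit 14) (nat_lit 8) L27291 (by decide +kernel)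
theorem L27293 : W_16 (nat_lit 5) (nat_lit 0x44003200180019000280000000000000000000000000000000) (nat_lit 0x0) (nat_lit 0x30001800080000000060060000000000000000000000000000000000000) := T_16 (nat_lit 161) (nat_lit 162) (nat_lit 2) (nat_lit 8) (nat_lit 9) L27292 (by decide +kernel)
theorem L27294 : W_16 (nat_lit 6) (nat_lit 0x44003200180009000280000000000000000000000000000000) (nat_lit 0x0) (nat_lit 0x30001800080000000060070000800000000000000000000000000000000) := T_16 (nat_lit 148) (nat_lit 131) (nat_lit 6) (nat_lit 11) (nat_lit 11) L27293 (by decide +kernel)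
theorem L27295 : W_16 (nat_lit 7) (nat_lit 0x4003200180009000280000000000000000000000000000000) (nat_lit 0x0) (nat_lit 0x38001c003e0004800060070000800000000000000000000000000000000) := Q_16 (nat_lit 198) (C_16 L26249 (C_16 L26470 (C_16 L27294 N_16))) (by decide +kernel)
theorem L27296 : W_16 (nat_lit 2) (nat_lit 0x400fa00580009000280000000000000000000000000000000) (nat_lit 0x0) (nat_lit 0x380000000000000000000000000000000000000000000000000) := D_16 (nat_lit 200) (nat_lit 201) (nat_lit 199) (nat_lit 3) (nat_lit 10) (nat_lit 10) (nat_lit 3) (nat_lit 9) (nat_lit 10) (by decide +kernel)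
theorem L27297 : W_16 (nat_lit 3) (nat_lit 0x400f200580009000280000000000000000000000000000000) (nat_lit 0x0) (nat_lit 0x380000800200000000000000000000000000000000000000000) := T_16 (nat_lit 179) (nat_lit 165) (nat_lit 2) (nat_lit 9) (nat_lit 10) L27296 (by decide +kernel)
theorem L27298 : W_16 (nat_lit 4) (nat_lit 0x400f200180009000280000000000000000000000000000000) (nat_lit 0x0) (nat_lit 0x380000800e00000000000000000000000000000000000000000) := T_16 (nat_lit 166) (nat_lit 167) (nat_lit 2) (nat_lit 10) (nat_lit 10) L27297 (by decide +kernel)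
theorem L27299 : W_16 (nat_lit 5) (nat_lit 0x4007200180009000280000000000000000000000000000000) (nat_lit 0x0) (nat_lit 0x380018800e00000000000000000000000000000000000000000) := T_16 (nat_lit 183) (nat_lit 184) (nat_lit 0) (nat_lit 14) (nat_lit 10) L27298 (by decide +kernel)
theorem L27300 : W_16 (nat_lit 8) (nat_lit 0x4003200180009000280000000000000000000000000000000) (nat_lit 0x0) (nat_lit 0x10007c001c800e60070001000080000000000000000000000000000) := Q_16 (nat_lit 182) (C_16 L27283 (C_16 L27269 (C_16 L27299 N_16))) (by decide +kernel)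
theorem L27301 : W_16 (nat_lit 2) (nat_lit 0x84007a00180009000280000000000000000000000000000000) (nat_lit 0x0) (nat_lit 0x1000000000000600000000000000000000000000000000000000000) := D_16 (nat_lit 165) (nat_lit 166) (nat_lit 216) (nat_lit 2) (nat_lit 9) (nat_lit 10) (nat_lit 4) (nat_lit 12) (nat_lit 12) (by decide +kernel)
theorem L27302 : W_16 (nat_lit 3) (nat_lit 0x4007a00180009000280000000000000000000000000000000) (nat_lit 0x0) (nat_lit 0x1000180000000600000000000000000000000000000000000000000) := T_16 (nat_lit 199) (nat_lit 200) (nat_lit 3) (nat_lit 9) (nat_lit 10) L27301 (by decide +kernel)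
theorem L27303 : W_16 (nat_lit 2) (nat_lit 0x84007a00180009000280000000000000000000000000000000) (nat_lit 0x0) (nat_lit 0x20001000040000000000000000000000000000000000000000000000000) := D_16 (nat_lit 216) (nat_lit 233) (nat_lit 198) (nat_lit 4) (nat_lit 12) (nat_lit 13) (nat_lit 7) (nat_lit 11) (nat_lit 8) (by decide +kernel)
theorem L27304 : W_16 (nat_lit 3) (nat_lit 0x4007a00180009000280000000000000000000000000000000) (nat_lit 0x0) (nat_lit 0x200010001c0000000000000000000000000000000000000000000000000) := T_16 (nat_lit 199) (nat_lit 200) (nat_lit 3) (nat_lit 9) (nat_lit 10) L27303 (by decide +kernel)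
theorem L27305 : W_16 (nat_lit 2) (nat_lit 0x600014007a00580009000280000000000000000000000000000000) (nat_lit 0x0) (nat_lit 0x8000000000000000060000000000000000000000000000000000000000) := D_16 (nat_lit 162) (nat_lit 231) (nat_lit 161) (nat_lit 7) (nat_lit 9) (nat_lit 9) (nat_lit 3) (nat_lit 8) (nat_lit 9) (by decide +kernel)
theorem L27306 : W_16 (nat_lit 3) (nat_lit 0x200014007a00580009000280000000000000000000000000000000) (nat_lit 0x0) (nat_lit 0x8000400020000000060000000000000000000000000000000000000000) := T_16 (nat_lit 214) (nat_lit 197) (nat_lit 6) (nat_lit 10) (nat_lit 12) L27305 (by decide +kernel)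
theorem L27307 : W_16 (nat_lit 4) (nat_lit 0x14007a00580009000280000000000000000000000000000000) (nat_lit 0x0) (nat_lit 0xc000600020000000060000000000000000000000000000000000000000) := T_16 (nat_lit 213) (nat_lit 230) (nat_lit 6) (nat_lit 9) (nat_lit 13) L27306 (by decide +kernel)
theorem L27308 : W_16 (nat_lit 5) (nat_lit 0x14007a00180009000280000000000000000000000000000000) (nat_lit 0x0) (nat_lit 0xc000600020000000660000000000000000000000000000000000000000) := T_16 (nat_lit 166) (nat_lit 165) (nat_lit 2) (nat_lit 9) (nat_lit 10) L27307 (by decide +kernel)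
theorem L27309 : W_16 (nat_lit 6) (nat_lit 0x4007a00180009000280000000000000000000000000000000) (nat_lit 0x0) (nat_lit 0xc000600038000000660000000000000000000000000000000000000000) := T_16 (nat_lit 196) (nat_lit 195) (nat_lit 1) (nat_lit 12) (nat_lit 10) L27308 (by decide +kernel)
theorem L27310 : W_16 (nat_lit 7) (nat_lit 0x4007200180009000280000000000000000000000000000000) (nat_lit 0x0) (nat_lit 0x2c0016001f8000800660000000000000000000000000000000000000000) := Q_16 (nat_lit 179) (C_16 L27302 (C_16 L27304 (C_16 L27309 N_16))) (by decide +kernel)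
theorem L27311 : W_16 (nat_lit 8) (nat_lit 0x4003200180009000280000000000000000000000000000000) (nat_lit 0x0) (nat_lit 0x2c0016003f801c800e60000000000000000000000000000000000000000) := Q_16 (nat_lit 182) (C_16 L27310 (C_16 L27271 (C_16 L27299 N_16))) (by decide +kernel)
theorem L27312 : W_16 (nat_lit 2) (nat_lit 0x400094007a003c0009000280000000000000000000000000000000) (nat_lit 0x0) (nat_lit 0xc000200000000000000000000000000000000000000000000000000000) := D_16 (nat_lit 213) (nat_lit 230) (nat_lit 231) (nat_lit 6) (nat_lit 9) (nat_lit 13) (nat_lit 7) (nat_lit 9) (nat_lit 9) (by decide +kernel)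
theorem L27313 : W_16 (nat_lit 3) (nat_lit 0x400094007a00380009000280000000000000000000000000000000) (nat_lit 0x0) (nat_lit 0xc000200000000000060000000000000000000000000000000000000000) := T_16 (nat_lit 162) (nat_lit 161) (nat_lit 3) (nat_lit 8) (nat_lit 9) L27312 (by decide +kernel)
theorem L27314 : W_16 (nat_lit 4) (nat_lit 0x400084007a00380009000280000000000000000000000000000000) (nat_lit 0x0) (nat_lit 0xc000200018000000060000000000000000000000000000000000000000) := T_16 (nat_lit 196) (nat_lit 195) (nat_lit 1) (nat_lit 12) (nat_lit 10) L27313 (by decide +kernel)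
theorem L27315 : W_16 (nat_lit 5) (nat_lit 0x400084007200380009000280000000000000000000000000000000) (nat_lit 0x0) (nat_lit 0xc000200118000800060000000000000000000000000000000000000000) := T_16 (nat_lit 179) (nat_lit 200) (nat_lit 3) (nat_lit 9) (nat_lit 10) L27314 (by decide +kernel)
theorem L27316 : W_16 (nat_lit 6) (nat_lit 0x84007200380009000280000000000000000000000000000000) (nat_lit 0x0) (nat_lit 0xc000600138000800060000000000000000000000000000000000000000) := T_16 (nat_lit 214) (nat_lit 197) (nat_lit 6) (nat_lit 10) (nat_lit 12) L27315 (by decide +kernel)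
theorem L27317 : W_16 (nat_lit 7) (nat_lit 0x4007200380009000280000000000000000000000000000000) (nat_lit 0x0) (nat_lit 0xc0016001b8000800060000000000000000000000000000000000000000) := T_16 (nat_lit 199) (nat_lit 216) (nat_lit 4) (nat_lit 12) (nat_lit 12) L27316 (by decide +kernel)
theorem L27318 : W_16 (nat_lit 8) (nat_lit 0x4007200180009000280000000000000000000000000000000) (nat_lit 0x0) (nat_lit 0xc0016001b8000800e60070001000080000000000000000000000000000) := Q_16 (nat_lit 165) (C_16 L27278 (C_16 L27317 (C_16 L27273 N_16))) (by decide +kernel)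
theorem L27319 : W_16 (nat_lit 9) (nat_lit 0x4003200180009000280000000000000000000000000000000) (nat_lit 0x0) (nat_lit 0xc0016003b801c800e60070001000080000000000000000000000000000) := Q_16 (nat_lit 182) (C_16 L27318 (C_16 L27271 (C_16 L27299 N_16))) (by decide +kernel)
theorem L27320 : W_16 (nat_lit 2) (nat_lit 0x400004007200bc0019000280000000000000000000000000000000) (nat_lit 0x0) (nat_lit 0x800040000000000000000800000000000000000000000000000000) := D_16 (nat_lit 198) (nat_lit 215) (nat_lit 131) (nat_lit 6) (nat_lit 11) (nat_lit 12) (nat_lit 6) (nat_lit 11) (nat_lit 11) (by decide +kernel)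
theorem L27321 : W_16 (nat_lit 3) (nat_lit 0x400004007200bc0009000280000000000000000000000000000000) (nat_lit 0x0) (nat_lit 0x800040000000000030000800000000000000000000000000000000) := T_16 (nat_lit 148) (nat_lit 149) (nat_lit 2) (nat_lit 9) (nat_lit 9) L27320 (by decide +kernel)
theorem L27322 : W_16 (nat_lit 4) (nat_lit 0x400004007200b80009000280000000000000000000000000000000) (nat_lit 0x0) (nat_lit 0x800040000000060030000800000000000000000000000000000000) := T_16 (nat_lit 162) (nat_lit 161) (nat_lit 3) (nat_lit 8) (nat_lit 9) L27321 (by decide +kernel)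
theorem L27323 : W_16 (nat_lit 5) (nat_lit 0x4007200b80009000280000000000000000000000000000000) (nat_lit 0x0) (nat_lit 0xc00060000000060030000800000000000000000000000000000000) := T_16 (nat_lit 214) (nat_lit 197) (nat_lit 6) (nat_lit 10) (nat_lit 12) L27322 (by decide +kernel)
theorem L27324 : W_16 (nat_lit 6) (nat_lit 0x4007200380009000280000000000000000000000000000000) (nat_lit 0x0) (nat_lit 0xc00060000000c60030000800000000000000000000000000000000) := T_16 (nat_lit 167) (nat_lit 166) (nat_lit 1) (nat_lit 14) (nat_lit 9) L27323 (by decide +kernel)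
theorem L27325 : W_16 (nat_lit 2) (nat_lit 0x4000040072003c0019000280000000000000000000000000000000) (nat_lit 0x0) (nat_lit 0x800040000000000000000800000000000000000000000000000000) := D_16 (nat_lit 198) (nat_lit 215) (nat_lit 131) (nat_lit 6) (nat_lit 11) (nat_lit 12) (nat_lit 6) (nat_lit 11) (nat_lit 11) (by decide +kernel)
theorem L27326 : W_16 (nat_lit 3) (nat_lit 0x4000040072003c0009000280000000000000000000000000000000) (nat_lit 0x0) (nat_lit 0x800040000000000030000800000000000000000000000000000000) := T_16 (nat_lit 148) (nat_lit 149) (nat_lit 2) (nat_lit 9) (nat_lit 9) L27325 (by decide +kernel)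
theorem L27327 : W_16 (nat_lit 4) (nat_lit 0x40072003c0009000280000000000000000000000000000000) (nat_lit 0x0) (nat_lit 0xc00060000000000030000800000000000000000000000000000000) := T_16 (nat_lit 214) (nat_lit 197) (nat_lit 6) (nat_lit 10) (nat_lit 12) L27326 (by decide +kernel)
theorem L27328 : W_16 (nat_lit 5) (nat_lit 0x4007200380009000280000000000000000000000000000000) (nat_lit 0x0) (nat_lit 0xc00060000000060030000800000000000000000000000000000000) := T_16 (nat_lit 162) (nat_lit 161) (nat_lit 3) (nat_lit 8) (nat_lit 9) L27327 (by decide +kernel)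
theorem L27329 : W_16 (nat_lit 7) (nat_lit 0x4007200180009000280000000000000000000000000000000) (nat_lit 0x0) (nat_lit 0xc00060000800e60030000800000000000000000000000000000000) := Q_16 (nat_lit 165) (C_16 L27273 (C_16 L27324 (C_16 L27328 N_16))) (by decide +kernel)
theorem L27330 : W_16 (nat_lit 8) (nat_lit 0x4003200180009000280000000000000000000000000000000) (nat_lit 0x0) (nat_lit 0xc0007001c800e60030000800000000000000000000000000000000) := Q_16 (nat_lit 182) (C_16 L27329 (C_16 L27271 (C_16 L27269 N_16))) (by decide +kernel)
theorem L27331 : W_16 (nat_lit 11) (nat_lit 0x4001200180009000280000000000000000000000000000000) (nat_lit 0x0) (nat_lit 0x3c007e007f801e800e60070001800080000000000000000000000000000) := Q_16 (nat_lit 181) (C_16 L27272 (C_16 L26475 (C_16 L27289 (C_16 L27295 (C_16 L27300 (C_16 L27311 (C_16 L27319 (C_16 L27330 N_16)))))))) (by decide +kernel)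
theorem L27332 : W_16 (nat_lit 2) (nat_lit 0x400004007200180009000e80000000000000000000000000000000) (nat_lit 0x0) (nat_lit 0x8000060000000000000000000000000000000000000000) := D_16 (nat_lit 162) (nat_lit 161) (nat_lit 183) (nat_lit 3) (nat_lit 8) (nat_lit 9) (nat_lit 0) (nat_lit 13) (nat_lit 10) (by decide +kernel)
theorem L27333 : W_16 (nat_lit 3) (nat_lit 0x400004003200180009000e80000000000000000000000000000000) (nat_lit 0x0) (nat_lit 0x8000c000060000000000000000000000000000000000000000) := T_16 (nat_lit 182) (nat_lit 199) (nat_lit 7) (nat_lit 11) (nat_lit 7) L27332 (by decide +kernel)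
theorem L27334 : W_16 (nat_lit 4) (nat_lit 0x400004003200180009000680000000000000000000000000000000) (nat_lit 0x0) (nat_lit 0x8000c000060000000800040000000000000000000000000000) := T_16 (nat_lit 131) (nat_lit 114) (nat_lit 6) (nat_lit 11) (nat_lit 10) L27333 (by decide +kernel)
theorem L27335 : W_16 (nat_lit 5) (nat_lit 0x400004001200180009000680000000000000000000000000000000) (nat_lit 0x0) (nat_lit 0x8000e000060000000800050000000000000000000000000000) := T_16 (nat_lit 181) (nat_lit 112) (nat_lit 4) (nat_lit 11) (nat_lit 10) L27334 (by decide +kernel)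
theorem L27336 : W_16 (nat_lit 6) (nat_lit 0x400004001200180009000280000000000000000000000000000000) (nat_lit 0x0) (nat_lit 0x8000e000060000000c00070000000000000000000000000000) := T_16 (nat_lit 130) (nat_lit 113) (nat_lit 5) (nat_lit 11) (nat_lit 6) L27335 (by decide +kernel)
theorem L27337 : W_16 (nat_lit 7) (nat_lit 0x4001200180009000280000000000000000000000000000000) (nat_lit 0x0) (nat_lit 0x4000a000e000060000000c00070000000000000000000000000000) := T_16 (nat_lit 214) (nat_lit 197) (nat_lit 6) (nat_lit 10) (nat_lit 12) L27336 (by decide +kernel)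
theorem L27338 : W_16 (nat_lit 2) (nat_lit 0x4001200180009000680000000000000000000000000000000) (nat_lit 0x0) (nat_lit 0x400020002000000000000000000000000000000000000000000000) := D_16 (nat_lit 197) (nat_lit 214) (nat_lit 181) (nat_lit 6) (nat_lit 10) (nat_lit 12) (nat_lit 5) (nat_lit 11) (nat_lit 7) (by decide +kernel)
theorem L27339 : W_16 (nat_lit 3) (nat_lit 0x4001200180009000280000000000000000000000000000000) (nat_lit 0x0) (nat_lit 0x400020002000000000000400020000000000000000000000000000) := T_16 (nat_lit 130) (nat_lit 113) (nat_lit 5) (nat_lit 11) (nat_lit 6) L27338 (by decide +kernel)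
theorem L27340 : W_16 (nat_lit 2) (nat_lit 0x4000040012003c0019000680000000000000000000000000000000) (nat_lit 0x0) (nat_lit 0x8000c000000000000000000000000000000000000000000000) := D_16 (nat_lit 182) (nat_lit 183) (nat_lit 199) (nat_lit 3) (nat_lit 9) (nat_lit 9) (nat_lit 4) (nat_lit 12) (nat_lit 11) (by decide +kernel)
theorem L27341 : W_16 (nat_lit 3) (nat_lit 0x4000040012003c0019000280000000000000000000000000000000) (nat_lit 0x0) (nat_lit 0x8000c000000000000400020000000000000000000000000000) := T_16 (nat_lit 130) (nat_lit 113) (nat_lit 5) (nat_lit 11) (nat_lit 6) L27340 (by decide +kernel)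
theorem L27342 : W_16 (nat_lit 4) (nat_lit 0x400004001200380019000280000000000000000000000000000000) (nat_lit 0x0) (nat_lit 0x8000c000060000000400020000000000000000000000000000) := T_16 (nat_lit 162) (nat_lit 161) (nat_lit 2) (nat_lit 8) (nat_lit 9) L27341 (by decide +kernel)
theorem L27343 : W_16 (nat_lit 5) (nat_lit 0x4001200380019000280000000000000000000000000000000) (nat_lit 0x0) (nat_lit 0x4000a000c000060000000400020000000000000000000000000000) := T_16 (nat_lit 214) (nat_lit 197) (nat_lit 6) (nat_lit 10) (nat_lit 12) L27342 (by decide +kernel)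
theorem L27344 : W_16 (nat_lit 2) (nat_lit 0x4001200380019000280000000000000000000000000000000) (nat_lit 0x0) (nat_lit 0x60020000000000000000000000000000000000000) := D_16 (nat_lit 162) (nat_lit 161) (nat_lit 149) (nat_lit 2) (nat_lit 8) (nat_lit 9) (nat_lit 2) (nat_lit 9) (nat_lit 9) (by decide +kernel)
theorem L27345 : W_16 (nat_lit 2) (nat_lit 0x400004009200780039000280000000000000000000000000000000) (nat_lit 0x0) (nat_lit 0x100000000000000000800040000000000000000000000000000) := D_16 (nat_lit 131) (nat_lit 114) (nat_lit 200) (nat_lit 7) (nat_lit 12) (nat_lit 6) (nat_lit 4) (nat_lit 13) (nat_lit 11) (by decide +kernel)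
theorem L27346 : W_16 (nat_lit 3) (nat_lit 0x400004009200780019000280000000000000000000000000000000) (nat_lit 0x0) (nat_lit 0x100000000000060000800040000000000000000000000000000) := T_16 (nat_lit 149) (nat_lit 150) (nat_lit 2) (nat_lit 10) (nat_lit 9) L27345 (by decide +kernel)
theorem L27347 : W_16 (nat_lit 4) (nat_lit 0x400004001200780019000280000000000000000000000000000000) (nat_lit 0x0) (nat_lit 0x100018000000060000800040000000000000000000000000000) := T_16 (nat_lit 183) (nat_lit 184) (nat_lit 3) (nat_lit 10) (nat_lit 9) L27346 (by decide +kernel)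
theorem L27348 : W_16 (nat_lit 5) (nat_lit 0x4001200780019000280000000000000000000000000000000) (nat_lit 0x0) (nat_lit 0x400120018000000060000800040000000000000000000000000000) := T_16 (nat_lit 214) (nat_lit 197) (nat_lit 6) (nat_lit 10) (nat_lit 12) L27347 (by decide +kernel)
theorem L27349 : W_16 (nat_lit 2) (nat_lit 0x4001200780059000280000000000000000000000000000000) (nat_lit 0x0) (nat_lit 0x1800080000000000000000000000000000000000000) := D_16 (nat_lit 167) (nat_lit 151) (nat_lit 168) (nat_lit 2) (nat_lit 11) (nat_lit 9) (nat_lit 0) (nat_lit 15) (nat_lit 9) (by decide +kernel)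
theorem L27350 : W_16 (nat_lit 3) (nat_lit 0x4001200780019000280000000000000000000000000000000) (nat_lit 0x0) (nat_lit 0x18000e0000000000000000000000000000000000000) := T_16 (nat_lit 150) (nat_lit 149) (nat_lit 2) (nat_lit 10) (nat_lit 9) L27349 (by decide +kernel)
theorem L27351 : W_16 (nat_lit 2) (nat_lit 0x400104009201780019000280020000000000000000000000000000) (nat_lit 0x0) (nat_lit 0x4000000000000800040000000000000000000000000000) := D_16 (nat_lit 131) (nat_lit 114) (nat_lit 182) (nat_lit 7) (nat_lit 12) (nat_lit 6) (nat_lit 7) (nat_lit 12) (nat_lit 7) (by decide +kernel)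
theorem L27352 : W_16 (nat_lit 3) (nat_lit 0x400004009201780019000280020000000000000000000000000000) (nat_lit 0x0) (nat_lit 0x2000100004000000000000800040000000000000000000000000000) := T_16 (nat_lit 200) (nat_lit 217) (nat_lit 4) (nat_lit 13) (nat_lit 12) L27351 (by decide +kernel)
theorem L27353 : W_16 (nat_lit 4) (nat_lit 0x400004001201780019000280020000000000000000000000000000) (nat_lit 0x0) (nat_lit 0x200010001c000000000000800040000000000000000000000000000) := T_16 (nat_lit 183) (nat_lit 184) (nat_lit 3) (nat_lit 10) (nat_lit 9) L27352 (by decide +kernel)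
theorem L27354 : W_16 (nat_lit 5) (nat_lit 0x400004001201780019000280000000000000000000000000000000) (nat_lit 0x0) (nat_lit 0x200010001c000000000000c00060000000000000000000000000000) := T_16 (nat_lit 113) (nat_lit 130) (nat_lit 5) (nat_lit 11) (nat_lit 6) L27353 (by decide +kernel)
theorem L27355 : W_16 (nat_lit 6) (nat_lit 0x400004001200780019000280000000000000000000000000000000) (nat_lit 0x0) (nat_lit 0x200010001c001800000000c00060000000000000000000000000000) := T_16 (nat_lit 168) (nat_lit 167) (nat_lit 0) (nat_lit 15) (nat_lit 9) L27354 (by decide +kernel)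
theorem L27356 : W_16 (nat_lit 7) (nat_lit 0x4001200780019000280000000000000000000000000000000) (nat_lit 0x0) (nat_lit 0x240012001c001800000000c00060000000000000000000000000000) := T_16 (nat_lit 214) (nat_lit 197) (nat_lit 6) (nat_lit 10) (nat_lit 12) L27355 (by decide +kernel)
theorem L27357 : W_16 (nat_lit 8) (nat_lit 0x4001200380019000280000000000000000000000000000000) (nat_lit 0x0) (nat_lit 0x240012001c001c000e0000c00060000000000000000000000000000) := Q_16 (nat_lit 166) (C_16 L27348 (C_16 L27350 (C_16 L27356 N_16))) (by decide +kernel)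
theorem L27358 : W_16 (nat_lit 9) (nat_lit 0x4001200380009000280000000000000000000000000000000) (nat_lit 0x0) (nat_lit 0x24001a001c001c600f0000c00060000000000000000000000000000) := Q_16 (nat_lit 148) (C_16 L27343 (C_16 L27344 (C_16 L27357 N_16))) (by decide +kernel)
theorem L27359 : W_16 (nat_lit 2) (nat_lit 0x40092007c0009000280020000000000000000000000000000) (nat_lit 0x0) (nat_lit 0x20030000000000000000000000000000000000000) := D_16 (nat_lit 148) (nat_lit 149) (nat_lit 161) (nat_lit 2) (nat_lit 9) (nat_lit 9) (nat_lit 2) (nat_lit 8) (nat_lit 9) (by decide +kernel)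
theorem L27360 : W_16 (nat_lit 3) (nat_lit 0x4009200780009000280020000000000000000000000000000) (nat_lit 0x0) (nat_lit 0x4000060030000000000000000000000000000000000000) := T_16 (nat_lit 162) (nat_lit 182) (nat_lit 3) (nat_lit 9) (nat_lit 9) L27359 (by decide +kernel)
theorem L27361 : W_16 (nat_lit 4) (nat_lit 0x4001200780009000280020000000000000000000000000000) (nat_lit 0x0) (nat_lit 0x1c000060030000000000000000000000000000000000000) := T_16 (nat_lit 183) (nat_lit 184) (nat_lit 3) (nat_lit 10) (nat_lit 9) L27360 (by decide +kernel)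
theorem L27362 : W_16 (nat_lit 5) (nat_lit 0x4001200780009000280000000000000000000000000000000) (nat_lit 0x0) (nat_lit 0x1c000060030000400020000000000000000000000000000) := T_16 (nat_lit 113) (nat_lit 130) (nat_lit 5) (nat_lit 11) (nat_lit 6) L27361 (by decide +kernel)
theorem L27363 : W_16 (nat_lit 6) (nat_lit 0x4001200380009000280000000000000000000000000000000) (nat_lit 0x0) (nat_lit 0x1c800460030000400020000000000000000000000000000) := T_16 (nat_lit 166) (nat_lit 179) (nat_lit 1) (nat_lit 13) (nat_lit 9) L27362 (by decide +kernel)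
theorem L27364 : W_16 (nat_lit 3) (nat_lit 0x400004009200780029000280000000000000000000000000000000) (nat_lit 0x0) (nat_lit 0x100000000040010000800040000000000000000000000000000) := T_16 (nat_lit 148) (nat_lit 162) (nat_lit 2) (nat_lit 9) (nat_lit 9) L27345 (by decide +kernel)
theorem L27365 : W_16 (nat_lit 4) (nat_lit 0x400004009200780009000280000000000000000000000000000000) (nat_lit 0x0) (nat_lit 0x100000000040070000800040000000000000000000000000000) := T_16 (nat_lit 149) (nat_lit 150) (nat_lit 2) (nat_lit 10) (nat_lit 9) L27364 (by decide +kernel)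
theorem L27366 : W_16 (nat_lit 5) (nat_lit 0x400004001200780009000280000000000000000000000000000000) (nat_lit 0x0) (nat_lit 0x100018000040070000800040000000000000000000000000000) := T_16 (nat_lit 183) (nat_lit 184) (nat_lit 3) (nat_lit 10) (nat_lit 9) L27365 (by decide +kernel)
theorem L27367 : W_16 (nat_lit 6) (nat_lit 0x4001200780009000280000000000000000000000000000000) (nat_lit 0x0) (nat_lit 0x400120018000040070000800040000000000000000000000000000) := T_16 (nat_lit 214) (nat_lit 197) (nat_lit 6) (nat_lit 10) (nat_lit 12) L27366 (by decide +kernel)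
theorem L27368 : W_16 (nat_lit 7) (nat_lit 0x4001200380009000280000000000000000000000000000000) (nat_lit 0x0) (nat_lit 0x400120018800440070000800040000000000000000000000000000) := T_16 (nat_lit 166) (nat_lit 179) (nat_lit 1) (nat_lit 13) (nat_lit 9) L27367 (by decide +kernel)
theorem L27369 : W_16 (nat_lit 2) (nat_lit 0x4001200380019000a80020000000000000000000000000000) (nat_lit 0x0) (nat_lit 0x40003000000000000000000000000) := D_16 (nat_lit 114) (nat_lit 96) (nat_lit 97) (nat_lit 4) (nat_lit 12) (nat_lit 9) (nat_lit 5) (nat_lit 12) (nat_lit 5) (by decide +kernel)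
theorem L27370 : W_16 (nat_lit 3) (nat_lit 0x4001200380019000a80000000000000000000000000000000) (nat_lit 0x0) (nat_lit 0x400060003000000000000000000000000) := T_16 (nat_lit 113) (nat_lit 130) (nat_lit 5) (nat_lit 11) (nat_lit 6) L27369 (by decide +kernel)
theorem L27371 : W_16 (nat_lit 2) (nat_lit 0x84005200380059000a800e0000000000000000000000000000) (nat_lit 0x0) (nat_lit 0x2000100008000000000000000000000000000000000000000000000) := D_16 (nat_lit 200) (nat_lit 183) (nat_lit 217) (nat_lit 7) (nat_lit 12) (nat_lit 7) (nat_lit 7) (nat_lit 12) (nat_lit 8) (by decide +kernel)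
theorem L27372 : W_16 (nat_lit 3) (nat_lit 0x4005200380059000a800e0000000000000000000000000000) (nat_lit 0x0) (nat_lit 0x3000180008000000000000000000000000000000000000000000000) := T_16 (nat_lit 199) (nat_lit 216) (nat_lit 4) (nat_lit 12) (nat_lit 12) L27371 (by decide +kernel)
theorem L27373 : W_16 (nat_lit 4) (nat_lit 0x4001200380059000a800e0000000000000000000000000000) (nat_lit 0x0) (nat_lit 0x300018000c000000000001000000000000000000000000000000000) := T_16 (nat_lit 182) (nat_lit 132) (nat_lit 6) (nat_lit 12) (nat_lit 10) L27372 (by decide +kernel)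
theorem L27374 : W_16 (nat_lit 5) (nat_lit 0x4001200380059000a800c0000000000000000000000000000) (nat_lit 0x0) (nat_lit 0x300018000c000000000001000020001000000000000000000000000) := T_16 (nat_lit 113) (nat_lit 96) (nat_lit 4) (nat_lit 12) (nat_lit 9) L27373 (by decide +kernel)
theorem L27375 : W_16 (nat_lit 6) (nat_lit 0x4001200380059000a80040000000000000000000000000000) (nat_lit 0x0) (nat_lit 0x300018000c0000000000010000a0005000000000000000000000000) := T_16 (nat_lit 115) (nat_lit 98) (nat_lit 6) (nat_lit 12) (nat_lit 9) L27374 (by decide +kernel)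
theorem L27376 : W_16 (nat_lit 7) (nat_lit 0x4001200380019000a80040000000000000000000000000000) (nat_lit 0x0) (nat_lit 0x300018000c0000000600010000a0005000000000000000000000000) := T_16 (nat_lit 150) (nat_lit 149) (nat_lit 1) (nat_lit 14) (nat_lit 8) L27375 (by decide +kernel)
theorem L27377 : W_16 (nat_lit 8) (nat_lit 0x4001200380019000a80000000000000000000000000000000) (nat_lit 0x0) (nat_lit 0x300018000c0000000600010000e0007000000000000000000000000) := T_16 (nat_lit 114) (nat_lit 97) (nat_lit 5) (nat_lit 12) (nat_lit 5) L27376 (by decide +kernel)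
theorem L27378 : W_16 (nat_lit 2) (nat_lit 0x400004005200380059000a800c0000000000000000000000000000) (nat_lit 0x0) (nat_lit 0x1000080000000000000000400000000000000000000000000000000) := D_16 (nat_lit 199) (nat_lit 216) (nat_lit 130) (nat_lit 4) (nat_lit 12) (nat_lit 12) (nat_lit 4) (nat_lit 12) (nat_lit 11) (by decide +kernel)
theorem L27379 : W_16 (nat_lit 3) (nat_lit 0x400004001200380059000a800c0000000000000000000000000000) (nat_lit 0x0) (nat_lit 0x1000080004000000000001400000000000000000000000000000000) := T_16 (nat_lit 182) (nat_lit 132) (nat_lit 6) (nat_lit 12) (nat_lit 10) L27378 (by decide +kernel)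
theorem L27380 : W_16 (nat_lit 4) (nat_lit 0x4001200380059000a800c0000000000000000000000000000) (nat_lit 0x0) (nat_lit 0x14000a0004000000000001400000000000000000000000000000000) := T_16 (nat_lit 214) (nat_lit 197) (nat_lit 6) (nat_lit 10) (nat_lit 12) L27379 (by decide +kernel)
theorem L27381 : W_16 (nat_lit 5) (nat_lit 0x4001200380059000a80040000000000000000000000000000) (nat_lit 0x0) (nat_lit 0x14000a0004000000000001400080004000000000000000000000000) := T_16 (nat_lit 115) (nat_lit 98) (nat_lit 6) (nat_lit 12) (nat_lit 9) L27380 (by decide +kernel)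
theorem L27382 : W_16 (nat_lit 6) (nat_lit 0x4001200380019000a80040000000000000000000000000000) (nat_lit 0x0) (nat_lit 0x14000a0004000000060001400080004000000000000000000000000) := T_16 (nat_lit 150) (nat_lit 149) (nat_lit 1) (nat_lit 14) (nat_lit 8) L27381 (by decide +kernel)
theorem L27383 : W_16 (nat_lit 7) (nat_lit 0x4001200380019000a80000000000000000000000000000000) (nat_lit 0x0) (nat_lit 0x14000a00040000000600014000c0006000000000000000000000000) := T_16 (nat_lit 114) (nat_lit 97) (nat_lit 5) (nat_lit 12) (nat_lit 5) L27382 (by decide +kernel)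
theorem L27384 : W_16 (nat_lit 2) (nat_lit 0x400004005200380059001e80000000000000000000000000000000) (nat_lit 0x0) (nat_lit 0x80006000000000000000000000000000000000) := D_16 (nat_lit 133) (nat_lit 151) (nat_lit 134) (nat_lit 3) (nat_lit 11) (nat_lit 7) (nat_lit 1) (nat_lit 15) (nat_lit 7) (by decide +kernel)
theorem L27385 : W_16 (nat_lit 3) (nat_lit 0x400004005200380059000e80000000000000000000000000000000) (nat_lit 0x0) (nat_lit 0x80007000080000000000000000000000000000) := T_16 (nat_lit 132) (nat_lit 115) (nat_lit 6) (nat_lit 12) (nat_lit 10) L27384 (by decide +kernel)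
theorem L27386 : W_16 (nat_lit 4) (nat_lit 0x4005200380059000e80000000000000000000000000000000) (nat_lit 0x0) (nat_lit 0x400020000000000080007000080000000000000000000000000000) := T_16 (nat_lit 214) (nat_lit 197) (nat_lit 6) (nat_lit 10) (nat_lit 12) L27385 (by decide +kernel)
theorem L27387 : W_16 (nat_lit 5) (nat_lit 0x4001200380059000e80000000000000000000000000000000) (nat_lit 0x0) (nat_lit 0x4000a0004000000080007000080000000000000000000000000000) := T_16 (nat_lit 182) (nat_lit 199) (nat_lit 4) (nat_lit 12) (nat_lit 11) L27386 (by decide +kernel)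
theorem L27388 : W_16 (nat_lit 6) (nat_lit 0x4001200380019000e80000000000000000000000000000000) (nat_lit 0x0) (nat_lit 0x4000a00040000000e0007000080000000000000000000000000000) := T_16 (nat_lit 150) (nat_lit 149) (nat_lit 1) (nat_lit 14) (nat_lit 8) L27387 (by decide +kernel)
theorem L27389 : W_16 (nat_lit 7) (nat_lit 0x4001200380019000a80000000000000000000000000000000) (nat_lit 0x0) (nat_lit 0x4000a00040000000e00074000a0000000000000000000000000000) := T_16 (nat_lit 130) (nat_lit 113) (nat_lit 5) (nat_lit 11) (nat_lit 6) L27388 (by decide +kernel)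
theorem L27390 : W_16 (nat_lit 9) (nat_lit 0x4001200380019000280000000000000000000000000000000) (nat_lit 0x0) (nat_lit 0x34001a000c0000000e0007c000e0007000000000000000000000000) := Q_16 (nat_lit 131) (C_16 L27370 (C_16 L27377 (C_16 L27383 (C_16 L27389 N_16)))) (by decide +kernel)
theorem L27391 : W_16 (nat_lit 10) (nat_lit 0x4001200380009000280000000000000000000000000000000) (nat_lit 0x0) (nat_lit 0x34001a000c0000600f0007c000e0007000000000000000000000000) := Q_16 (nat_lit 148) (C_16 L27390 (C_16 L27343 (C_16 L27344 N_16))) (by decide +kernel)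
theorem L27392 : W_16 (nat_lit 2) (nat_lit 0x400004001201f80049000280020000000000000000000000000000) (nat_lit 0x0) (nat_lit 0x70000000000000000000000000000000000000000000000) := D_16 (nat_lit 185) (nat_lit 184) (nat_lit 186) (nat_lit 3) (nat_lit 11) (nat_lit 9) (nat_lit 3) (nat_lit 12) (nat_lit 9) (by decide +kernel)
theorem L27393 : W_16 (nat_lit 3) (nat_lit 0x400004001200f80049000280020000000000000000000000000000) (nat_lit 0x0) (nat_lit 0x70001000010000000000000000000000000000000000000) := T_16 (nat_lit 168) (nat_lit 148) (nat_lit 0) (nat_lit 15) (nat_lit 9) L27392 (by decide +kernel)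
theorem L27394 : W_16 (nat_lit 4) (nat_lit 0x400004001200780049000280020000000000000000000000000000) (nat_lit 0x0) (nat_lit 0x70001800090000000000000000000000000000000000000) := T_16 (nat_lit 167) (nat_lit 151) (nat_lit 2) (nat_lit 11) (nat_lit 9) L27393 (by decide +kernel)
theorem L27395 : W_16 (nat_lit 5) (nat_lit 0x400004001200780009000280020000000000000000000000000000) (nat_lit 0x0) (nat_lit 0x700018000f0000000000000000000000000000000000000) := T_16 (nat_lit 150) (nat_lit 149) (nat_lit 2) (nat_lit 10) (nat_lit 9) L27394 (by decide +kernel)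
theorem L27396 : W_16 (nat_lit 6) (nat_lit 0x400004001200780009000280000000000000000000000000000000) (nat_lit 0x0) (nat_lit 0x700018000f0000400020000000000000000000000000000) := T_16 (nat_lit 113) (nat_lit 130) (nat_lit 5) (nat_lit 11) (nat_lit 6) L27395 (by decide +kernel)
theorem L27397 : W_16 (nat_lit 7) (nat_lit 0x400004001200380009000280000000000000000000000000000000) (nat_lit 0x0) (nat_lit 0x70801c000f0000400020000000000000000000000000000) := T_16 (nat_lit 166) (nat_lit 179) (nat_lit 1) (nat_lit 13) (nat_lit 9) L27396 (by decide +kernel)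
theorem L27398 : W_16 (nat_lit 8) (nat_lit 0x4001200380009000280000000000000000000000000000000) (nat_lit 0x0) (nat_lit 0x400020070801c000f0000400020000000000000000000000000000) := T_16 (nat_lit 214) (nat_lit 197) (nat_lit 6) (nat_lit 10) (nat_lit 12) L27397 (by decide +kernel)
theorem L27399 : W_16 (nat_lit 2) (nat_lit 0x40000400d200780029000280000000000000000000000000000000) (nat_lit 0x0) (nat_lit 0x1000080000000000000001000000000000000000000000000000000) := D_16 (nat_lit 199) (nat_lit 216) (nat_lit 132) (nat_lit 6) (nat_lit 12) (nat_lit 12) (nat_lit 5) (nat_lit 13) (nat_lit 7) (by decide +kernel)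
theorem L27400 : W_16 (nat_lit 3) (nat_lit 0x40000400d200780009000280000000000000000000000000000000) (nat_lit 0x0) (nat_lit 0x1000080000000000060001000000000000000000000000000000000) := T_16 (nat_lit 149) (nat_lit 150) (nat_lit 2) (nat_lit 10) (nat_lit 9) L27399 (by decide +kernel)
theorem L27401 : W_16 (nat_lit 4) (nat_lit 0x400004009200780009000280000000000000000000000000000000) (nat_lit 0x0) (nat_lit 0x1000080004000040060001000000000000000000000000000000000) := T_16 (nat_lit 182) (nat_lit 162) (nat_lit 3) (nat_lit 9) (nat_lit 9) L27400 (by decide +kernel)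
theorem L27402 : W_16 (nat_lit 5) (nat_lit 0x400004001200780009000280000000000000000000000000000000) (nat_lit 0x0) (nat_lit 0x100008001c000040060001000000000000000000000000000000000) := T_16 (nat_lit 183) (nat_lit 184) (nat_lit 3) (nat_lit 10) (nat_lit 9) L27401 (by decide +kernel)
theorem L27403 : W_16 (nat_lit 6) (nat_lit 0x4001200780009000280000000000000000000000000000000) (nat_lit 0x0) (nat_lit 0x14000a001c000040060001000000000000000000000000000000000) := T_16 (nat_lit 214) (nat_lit 197) (nat_lit 6) (nat_lit 10) (nat_lit 12) L27402 (by decide +kernel)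
theorem L27404 : W_16 (nat_lit 7) (nat_lit 0x4001200380009000280000000000000000000000000000000) (nat_lit 0x0) (nat_lit 0x14000a001c800440060001000000000000000000000000000000000) := T_16 (nat_lit 166) (nat_lit 179) (nat_lit 1) (nat_lit 13) (nat_lit 9) L27403 (by decide +kernel)
theorem L27405 : W_16 (nat_lit 2) (nat_lit 0x40000400d200780009000680000000000000000000000000000000) (nat_lit 0x0) (nat_lit 0x1000080000000000010000000000000000000000000000000000000) := D_16 (nat_lit 199) (nat_lit 216) (nat_lit 148) (nat_lit 4) (nat_lit 12) (nat_lit 12) (nat_lit 4) (nat_lit 12) (nat_lit 11) (by decide +kernel)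
theorem L27406 : W_16 (nat_lit 3) (nat_lit 0x40000400d200780009000280000000000000000000000000000000) (nat_lit 0x0) (nat_lit 0x1000080000000000010000400020000000000000000000000000000) := T_16 (nat_lit 130) (nat_lit 113) (nat_lit 7) (nat_lit 11) (nat_lit 6) L27405 (by decide +kernel)
theorem L27407 : W_16 (nat_lit 4) (nat_lit 0x400004009200780009000280000000000000000000000000000000) (nat_lit 0x0) (nat_lit 0x1000080004000040010000400020000000000000000000000000000) := T_16 (nat_lit 182) (nat_lit 162) (nat_lit 3) (nat_lit 9) (nat_lit 9) L27406 (by decide +kernel)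
theorem L27408 : W_16 (nat_lit 5) (nat_lit 0x400004001200780009000280000000000000000000000000000000) (nat_lit 0x0) (nat_lit 0x100008001c000040010000400020000000000000000000000000000) := T_16 (nat_lit 183) (nat_lit 184) (nat_lit 3) (nat_lit 10) (nat_lit 9) L27407 (by decide +kernel)
theorem L27409 : W_16 (nat_lit 6) (nat_lit 0x4001200780009000280000000000000000000000000000000) (nat_lit 0x0) (nat_lit 0x14000a001c000040010000400020000000000000000000000000000) := T_16 (nat_lit 214) (nat_lit 197) (nat_lit 6) (nat_lit 10) (nat_lit 12) L27408 (by decide +kernel)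
theorem L27410 : W_16 (nat_lit 7) (nat_lit 0x4001200380009000280000000000000000000000000000000) (nat_lit 0x0) (nat_lit 0x14000a001c800440010000400020000000000000000000000000000) := T_16 (nat_lit 166) (nat_lit 179) (nat_lit 1) (nat_lit 13) (nat_lit 9) L27409 (by decide +kernel)
theorem L27411 : W_16 (nat_lit 11) (nat_lit 0x4001200180009000280000000000000000000000000000000) (nat_lit 0x0) (nat_lit 0x34001a007c801e600f0007c000e0007000000000000000000000000) := Q_16 (nat_lit 165) (C_16 L27358 (C_16 L27363 (C_16 L27368 (C_16 L27391 (C_16 L27398 (C_16 L27404 (C_16 L27410 N_16))))))) (by decide +kernel)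
theorem L27412 : W_16 (nat_lit 2) (nat_lit 0x4001200180009000680000000000000000000000000000000) (nat_lit 0x0) (nat_lit 0x20002000000000000000010000000000000000000000000000) := D_16 (nat_lit 181) (nat_lit 112) (nat_lit 197) (nat_lit 4) (nat_lit 11) (nat_lit 10) (nat_lit 5) (nat_lit 11) (nat_lit 7) (by decide +kernel)
theorem L27413 : W_16 (nat_lit 3) (nat_lit 0x4001200180009000280000000000000000000000000000000) (nat_lit 0x0) (nat_lit 0x20002000000000000400030000000000000000000000000000) := T_16 (nat_lit 130) (nat_lit 113) (nat_lit 5) (nat_lit 11) (nat_lit 6) L27412 (by decide +kernel)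
theorem L27414 : W_16 (nat_lit 2) (nat_lit 0x4007200180009000e80000000000000000000000000000000) (nat_lit 0x0) (nat_lit 0x8000060000000000000000000000000000000000000000) := D_16 (nat_lit 162) (nat_lit 161) (nat_lit 183) (nat_lit 3) (nat_lit 8) (nat_lit 9) (nat_lit 0) (nat_lit 13) (nat_lit 10) (by decide +kernel)
theorem L27415 : W_16 (nat_lit 3) (nat_lit 0x4003200180009000e80000000000000000000000000000000) (nat_lit 0x0) (nat_lit 0x8000c000060000000000000000000000000000000000000000) := T_16 (nat_lit 182) (nat_lit 199) (nat_lit 7) (nat_lit 11) (nat_lit 7) L27414 (by decide +kernel)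
theorem L27416 : W_16 (nat_lit 4) (nat_lit 0x4003200180009000680000000000000000000000000000000) (nat_lit 0x0) (nat_lit 0x8000c000060000000800040000000000000000000000000000) := T_16 (nat_lit 131) (nat_lit 114) (nat_lit 6) (nat_lit 11) (nat_lit 10) L27415 (by decide +kernel)
theorem L27417 : W_16 (nat_lit 5) (nat_lit 0x4001200180009000680000000000000000000000000000000) (nat_lit 0x0) (nat_lit 0x8000e000060000000800050000000000000000000000000000) := T_16 (nat_lit 181) (nat_lit 112) (nat_lit 4) (nat_lit 11) (nat_lit 10) L27416 (by decide +kernel)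
theorem L27418 : W_16 (nat_lit 6) (nat_lit 0x4001200180009000280000000000000000000000000000000) (nat_lit 0x0) (nat_lit 0x8000e000060000000c00070000000000000000000000000000) := T_16 (nat_lit 130) (nat_lit 113) (nat_lit 5) (nat_lit 11) (nat_lit 6) L27417 (by decide +kernel)
theorem L27419 : W_16 (nat_lit 12) (nat_lit 0x4001200180001000280000000000000000000000000000000) (nat_lit 0x0) (nat_lit 0x3c007e007f807e801e600f8007c000f0007000000000000000000000000) := Q_16 (nat_lit 147) (C_16 L27331 (C_16 L27337 (C_16 L27339 (C_16 L27411 (C_16 L27413 (C_16 L27418 N_16)))))) (by decide +kernel)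
theorem L27420 : W_16 (nat_lit 2) (nat_lit 0x40032001a0001000280000000000000000000000000000000) (nat_lit 0x0) (nat_lit 0x4000050000000000000000000000000000000000000000) := D_16 (nat_lit 162) (nat_lit 182) (nat_lit 160) (nat_lit 3) (nat_lit 8) (nat_lit 9) (nat_lit 3) (nat_lit 7) (nat_lit 9) (by decide +kernel)
theorem L27421 : W_16 (nat_lit 3) (nat_lit 0x4003200180001000280000000000000000000000000000000) (nat_lit 0x0) (nat_lit 0x4400070000000000000000000000000000000000000000) := T_16 (nat_lit 161) (nat_lit 178) (nat_lit 5) (nat_lit 8) (nat_lit 7) L27420 (by decide +kernel)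
theorem L27422 : W_16 (nat_lit 12) (nat_lit 0x4001200180001000280000000000000000000000000000000) (nat_lit 0x0) (nat_lit 0x18007c003e001e400e70078000c00030000000000000000000000000000) := Q_16 (nat_lit 181) (C_16 L27421 (C_16 L26476 N_16)) (by decide +kernel)
theorem L27423 : W_16 (nat_lit 5) (nat_lit 0x4003200180009000280000000000000000000000000000000) (nat_lit 0x0) (nat_lit 0x18001c003e0004800200010000800000000000000000000000000000000) := Q_16 (nat_lit 198) (C_16 L26249 (C_16 L26470 (C_16 L26220 N_16))) (by decide +kernel)
theorem L27424 : W_16 (nat_lit 6) (nat_lit 0x4003200180001000280000000000000000000000000000000) (nat_lit 0x0) (nat_lit 0x18001c003e0004800200018000c00030000000000000000000000000000) := Q_16 (nat_lit 147) (C_16 L26195 (C_16 L27423 N_16)) (by decide +kernel)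
theorem L27425 : W_16 (nat_lit 2) (nat_lit 0x2000f4007a00180001000680000000000000000000000000000000) (nat_lit 0x0) (nat_lit 0x20003000000000000000000000000000000000000000000000000000000) := D_16 (nat_lit 216) (nat_lit 233) (nat_lit 217) (nat_lit 4) (nat_lit 12) (nat_lit 13) (nat_lit 3) (nat_lit 9) (nat_lit 11) (by decide +kernel)
theorem L27426 : W_16 (nat_lit 3) (nat_lit 0x2000b4007a00180001000680000000000000000000000000000000) (nat_lit 0x0) (nat_lit 0x20003100040000000000000000000000000000000000000000000000000) := T_16 (nat_lit 198) (nat_lit 212) (nat_lit 1) (nat_lit 12) (nat_lit 11) L27425 (by decide +kernel)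
theorem L27427 : W_16 (nat_lit 4) (nat_lit 0x200034007a00180001000680000000000000000000000000000000) (nat_lit 0x0) (nat_lit 0x200031001c0000000000000000000000000000000000000000000000000) := T_16 (nat_lit 199) (nat_lit 200) (nat_lit 3) (nat_lit 9) (nat_lit 10) L27426 (by decide +kernel)
theorem L27428 : W_16 (nat_lit 5) (nat_lit 0x34007a00180001000680000000000000000000000000000000) (nat_lit 0x0) (nat_lit 0x240033001c0000000000000000000000000000000000000000000000000) := T_16 (nat_lit 213) (nat_lit 230) (nat_lit 6) (nat_lit 9) (nat_lit 13) L27427 (by decide +kernel)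
theorem L27429 : W_16 (nat_lit 6) (nat_lit 0x34003a00180001000680000000000000000000000000000000) (nat_lit 0x0) (nat_lit 0x240033001c000c000000000000000000000000000000000000000000000) := T_16 (nat_lit 182) (nat_lit 183) (nat_lit 1) (nat_lit 13) (nat_lit 10) L27428 (by decide +kernel)
theorem L27430 : W_16 (nat_lit 7) (nat_lit 0x24003a00180001000680000000000000000000000000000000) (nat_lit 0x0) (nat_lit 0x240033001d800c000000000000000000000000000000000000000000000) := T_16 (nat_lit 196) (nat_lit 195) (nat_lit 2) (nat_lit 7) (nat_lit 11) L27429 (by decide +kernel)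
theorem L27431 : W_16 (nat_lit 8) (nat_lit 0x24003a00180001000280000000000000000000000000000000) (nat_lit 0x0) (nat_lit 0x240033001d800c000000008000400000000000000000000000000000000) := T_16 (nat_lit 130) (nat_lit 147) (nat_lit 5) (nat_lit 11) (nat_lit 7) L27430 (by decide +kernel)
theorem L27432 : W_16 (nat_lit 9) (nat_lit 0x24003200180001000280000000000000000000000000000000) (nat_lit 0x0) (nat_lit 0x240033001d800cc00000008000400000000000000000000000000000000) := T_16 (nat_lit 179) (nat_lit 178) (nat_lit 2) (nat_lit 7) (nat_lit 10) L27431 (by decide +kernel)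
theorem L27433 : W_16 (nat_lit 2) (nat_lit 0x60002c003a00180001000280000000000000000000000000000000) (nat_lit 0x0) (nat_lit 0x10000900000000000000000000000000000000000000000000000000000) := D_16 (nat_lit 215) (nat_lit 212) (nat_lit 232) (nat_lit 0) (nat_lit 11) (nat_lit 12) (nat_lit 7) (nat_lit 10) (nat_lit 9) (by decide +kernel)
theorem L27434 : W_16 (nat_lit 3) (nat_lit 0x40002c003a00180001000280000000000000000000000000000000) (nat_lit 0x0) (nat_lit 0x14000b00000000000000000000000000000000000000000000000000000) := T_16 (nat_lit 213) (nat_lit 230) (nat_lit 5) (nat_lit 10) (nat_lit 9) L27433 (by decide +kernel)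
theorem L27435 : W_16 (nat_lit 4) (nat_lit 0x2c003a00180001000280000000000000000000000000000000) (nat_lit 0x0) (nat_lit 0x1c000f00000000000000000000000000000000000000000000000000000) := T_16 (nat_lit 214) (nat_lit 231) (nat_lit 6) (nat_lit 10) (nat_lit 13) L27434 (by decide +kernel)
theorem L27436 : W_16 (nat_lit 5) (nat_lit 0x2c003200180001000280000000000000000000000000000000) (nat_lit 0x0) (nat_lit 0x1c000f00000000c00000000000000000000000000000000000000000000) := T_16 (nat_lit 179) (nat_lit 178) (nat_lit 2) (nat_lit 7) (nat_lit 10) L27435 (by decide +kernel)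
theorem L27437 : W_16 (nat_lit 6) (nat_lit 0x24003200180001000280000000000000000000000000000000) (nat_lit 0x0) (nat_lit 0x1c000f00018000c00000000000000000000000000000000000000000000) := T_16 (nat_lit 195) (nat_lit 196) (nat_lit 2) (nat_lit 7) (nat_lit 11) L27436 (by decide +kernel)
theorem L27438 : W_16 (nat_lit 10) (nat_lit 0x4003200180001000280000000000000000000000000000000) (nat_lit 0x0) (nat_lit 0x3c003f001f800cc00000008000400000000000000000000000000000000) := Q_16 (nat_lit 197) (C_16 L26658 (C_16 L27432 (C_16 L27437 N_16))) (by decide +kernel)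
theorem L27439 : W_16 (nat_lit 2) (nat_lit 0x40032007c0021000280000000000000000000000000000000) (nat_lit 0x0) (nat_lit 0x1c000000000000000000000000000000000000000000000) := D_16 (nat_lit 183) (nat_lit 182) (nat_lit 184) (nat_lit 3) (nat_lit 9) (nat_lit 9) (nat_lit 3) (nat_lit 10) (nat_lit 9) (by decide +kernel)
theorem L27440 : W_16 (nat_lit 3) (nat_lit 0x4003200780021000280000000000000000000000000000000) (nat_lit 0x0) (nat_lit 0x1c000040010000000000000000000000000000000000000) := T_16 (nat_lit 162) (nat_lit 148) (nat_lit 2) (nat_lit 9) (nat_lit 9) L27439 (by decide +kernel)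
theorem L27441 : W_16 (nat_lit 4) (nat_lit 0x4003200780001000280000000000000000000000000000000) (nat_lit 0x0) (nat_lit 0x1c000040070000000000000000000000000000000000000) := T_16 (nat_lit 149) (nat_lit 150) (nat_lit 2) (nat_lit 10) (nat_lit 9) L27440 (by decide +kernel)
theorem L27442 : W_16 (nat_lit 5) (nat_lit 0x4003200380001000280000000000000000000000000000000) (nat_lit 0x0) (nat_lit 0x1c000c40070000000000000000000000000000000000000) := T_16 (nat_lit 166) (nat_lit 167) (nat_lit 1) (nat_lit 14) (nat_lit 9) L27441 (by decide +kernel)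
theorem L27443 : W_16 (nat_lit 2) (nat_lit 0x4007200380001000280000000000000000000000000000000) (nat_lit 0x0) (nat_lit 0x18000040000000000000000000000000000000000000000) := D_16 (nat_lit 183) (nat_lit 162) (nat_lit 184) (nat_lit 3) (nat_lit 9) (nat_lit 9) (nat_lit 0) (nat_lit 14) (nat_lit 10) (by decide +kernel)
theorem L27444 : W_16 (nat_lit 2) (nat_lit 0x4001800094007a00380011000280000000000000000000000000000000) (nat_lit 0x0) (nat_lit 0x40020001000000000000000000000000000000000) := D_16 (nat_lit 149) (nat_lit 132) (nat_lit 162) (nat_lit 6) (nat_lit 12) (nat_lit 11) (nat_lit 2) (nat_lit 9) (nat_lit 9) (by decide +kernel)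
theorem L27445 : W_16 (nat_lit 3) (nat_lit 0x4001800094007a00380001000280000000000000000000000000000000) (nat_lit 0x0) (nat_lit 0x40000000040030001000000000000000000000000000000000) := T_16 (nat_lit 148) (nat_lit 198) (nat_lit 6) (nat_lit 11) (nat_lit 12) L27444 (by decide +kernel)
theorem L27446 : W_16 (nat_lit 4) (nat_lit 0x4001000094007a00380001000280000000000000000000000000000000) (nat_lit 0x0) (nat_lit 0x10000800040000000040030001000000000000000000000000000000000) := T_16 (nat_lit 215) (nat_lit 232) (nat_lit 5) (nat_lit 12) (nat_lit 9) L27445 (by decide +kernel)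
theorem L27447 : W_16 (nat_lit 5) (nat_lit 0x4000000094007a00380001000280000000000000000000000000000000) (nat_lit 0x0) (nat_lit 0x30001800040000000040030001000000000000000000000000000000000) := T_16 (nat_lit 216) (nat_lit 233) (nat_lit 4) (nat_lit 12) (nat_lit 13) L27446 (by decide +kernel)
theorem L27448 : W_16 (nat_lit 6) (nat_lit 0x94007a00380001000280000000000000000000000000000000) (nat_lit 0x0) (nat_lit 0x34001a00040000000040030001000000000000000000000000000000000) := T_16 (nat_lit 230) (nat_lit 213) (nat_lit 6) (nat_lit 9) (nat_lit 13) L27447 (by decide +kernel)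
theorem L27449 : W_16 (nat_lit 7) (nat_lit 0x14007a00380001000280000000000000000000000000000000) (nat_lit 0x0) (nat_lit 0x34001a001c0000000040030001000000000000000000000000000000000) := T_16 (nat_lit 199) (nat_lit 200) (nat_lit 3) (nat_lit 9) (nat_lit 10) L27448 (by decide +kernel)
theorem L27450 : W_16 (nat_lit 8) (nat_lit 0x4007a00380001000280000000000000000000000000000000) (nat_lit 0x0) (nat_lit 0x34001a001d8000000040030001000000000000000000000000000000000) := T_16 (nat_lit 196) (nat_lit 195) (nat_lit 1) (nat_lit 12) (nat_lit 10) L27449 (by decide +kernel)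
theorem L27451 : W_16 (nat_lit 9) (nat_lit 0x4007200380001000280000000000000000000000000000000) (nat_lit 0x0) (nat_lit 0x34001a001d8000c00040030001000000000000000000000000000000000) := T_16 (nat_lit 179) (nat_lit 178) (nat_lit 2) (nat_lit 7) (nat_lit 10) L27450 (by decide +kernel)
theorem L27452 : W_16 (nat_lit 2) (nat_lit 0xe0012400f600380001000a80000000000000000000000000000000) (nat_lit 0x0) (nat_lit 0x10000c0000000000000000000000000000000000000000000000000) := D_16 (nat_lit 199) (nat_lit 216) (nat_lit 198) (nat_lit 2) (nat_lit 9) (nat_lit 12) (nat_lit 1) (nat_lit 13) (nat_lit 11) (by decide +kernel)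
theorem L27453 : W_16 (nat_lit 3) (nat_lit 0x60012400f600380001000a80000000000000000000000000000000) (nat_lit 0x0) (nat_lit 0x100018000c0000000000000000000000000000000000000000000000000) := T_16 (nat_lit 215) (nat_lit 232) (nat_lit 7) (nat_lit 10) (nat_lit 9) L27452 (by decide +kernel)
theorem L27454 : W_16 (nat_lit 4) (nat_lit 0x40012400f600380001000a80000000000000000000000000000000) (nat_lit 0x0) (nat_lit 0x14001a000c0000000000000000000000000000000000000000000000000) := T_16 (nat_lit 213) (nat_lit 230) (nat_lit 5) (nat_lit 10) (nat_lit 9) L27453 (by decide +kernel)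
theorem L27455 : W_16 (nat_lit 5) (nat_lit 0x12400f600380001000a80000000000000000000000000000000) (nat_lit 0x0) (nat_lit 0x1c001e000c0000000000000000000000000000000000000000000000000) := T_16 (nat_lit 214) (nat_lit 231) (nat_lit 6) (nat_lit 10) (nat_lit 13) L27454 (by decide +kernel)
theorem L27456 : W_16 (nat_lit 6) (nat_lit 0x12400f600380001000280000000000000000000000000000000) (nat_lit 0x0) (nat_lit 0x1c001e000c0000000000010000800000000000000000000000000000000) := T_16 (nat_lit 131) (nat_lit 148) (nat_lit 7) (nat_lit 12) (nat_lit 7) L27455 (by decide +kernel)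
theorem L27457 : W_16 (nat_lit 7) (nat_lit 0x10400f600380001000280000000000000000000000000000000) (nat_lit 0x0) (nat_lit 0x1c001e000f0000000000010000800000000000000000000000000000000) := T_16 (nat_lit 197) (nat_lit 196) (nat_lit 1) (nat_lit 13) (nat_lit 10) L27456 (by decide +kernel)
theorem L27458 : W_16 (nat_lit 8) (nat_lit 0x400f600380001000280000000000000000000000000000000) (nat_lit 0x0) (nat_lit 0x1c001e003f0000000000010000800000000000000000000000000000000) := T_16 (nat_lit 200) (nat_lit 201) (nat_lit 3) (nat_lit 10) (nat_lit 10) L27457 (by decide +kernel)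
theorem L27459 : W_16 (nat_lit 9) (nat_lit 0x4007600380001000280000000000000000000000000000000) (nat_lit 0x0) (nat_lit 0x1c001e003f0018000000010000800000000000000000000000000000000) := T_16 (nat_lit 183) (nat_lit 184) (nat_lit 0) (nat_lit 14) (nat_lit 10) L27458 (by decide +kernel)
theorem L27460 : W_16 (nat_lit 10) (nat_lit 0x4007200380001000280000000000000000000000000000000) (nat_lit 0x0) (nat_lit 0x1c001e003f0018c00000010000800000000000000000000000000000000) := T_16 (nat_lit 178) (nat_lit 179) (nat_lit 2) (nat_lit 7) (nat_lit 10) L27459 (by decide +kernel)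
theorem L27461 : W_16 (nat_lit 11) (nat_lit 0x4003200380001000280000000000000000000000000000000) (nat_lit 0x0) (nat_lit 0x3c001e003f801cc00040030001800000000000000000000000000000000) := Q_16 (nat_lit 182) (C_16 L27443 (C_16 L27451 (C_16 L27460 N_16))) (by decide +kernel)
theorem L27462 : W_16 (nat_lit 12) (nat_lit 0x4003200180001000280000000000000000000000000000000) (nat_lit 0x0) (nat_lit 0x3c001e003f801cc00e40070001800000000000000000000000000000000) := Q_16 (nat_lit 165) (C_16 L27442 (C_16 L26584 (C_16 L27461 N_16))) (by decide +kernel)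
theorem L27463 : W_16 (nat_lit 2) (nat_lit 0x12400f600380011000280000000000000000000000000000000) (nat_lit 0x0) (nat_lit 0x40002000080000000000000000000000000000000000000000000000000) := D_16 (nat_lit 217) (nat_lit 234) (nat_lit 199) (nat_lit 4) (nat_lit 13) (nat_lit 13) (nat_lit 7) (nat_lit 12) (nat_lit 8) (by decide +kernel)
theorem L27464 : W_16 (nat_lit 3) (nat_lit 0x12400f600380001000280000000000000000000000000000000) (nat_lit 0x0) (nat_lit 0x40002000080000000000010000800000000000000000000000000000000) := T_16 (nat_lit 148) (nat_lit 131) (nat_lit 7) (nat_lit 12) (nat_lit 7) L27463 (by decide +kernel)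
theorem L27465 : W_16 (nat_lit 4) (nat_lit 0x10400f600380001000280000000000000000000000000000000) (nat_lit 0x0) (nat_lit 0x400020000b0000000000010000800000000000000000000000000000000) := T_16 (nat_lit 197) (nat_lit 196) (nat_lit 1) (nat_lit 13) (nat_lit 10) L27464 (by decide +kernel)
theorem L27466 : W_16 (nat_lit 5) (nat_lit 0x400f600380001000280000000000000000000000000000000) (nat_lit 0x0) (nat_lit 0x400020003b0000000000010000800000000000000000000000000000000) := T_16 (nat_lit 200) (nat_lit 201) (nat_lit 3) (nat_lit 10) (nat_lit 10) L27465 (by decide +kernel)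
theorem L27467 : W_16 (nat_lit 6) (nat_lit 0x4007600380001000280000000000000000000000000000000) (nat_lit 0x0) (nat_lit 0x400020003b0018000000010000800000000000000000000000000000000) := T_16 (nat_lit 183) (nat_lit 184) (nat_lit 0) (nat_lit 14) (nat_lit 10) L27466 (by decide +kernel)
theorem L27468 : W_16 (nat_lit 7) (nat_lit 0x4007200380001000280000000000000000000000000000000) (nat_lit 0x0) (nat_lit 0x400020003b0018c00000010000800000000000000000000000000000000) := T_16 (nat_lit 178) (nat_lit 179) (nat_lit 2) (nat_lit 7) (nat_lit 10) L27467 (by decide +kernel)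
theorem L27469 : W_16 (nat_lit 10) (nat_lit 0x4003200380001000280000000000000000000000000000000) (nat_lit 0x0) (nat_lit 0x74003a003f801cc00040030001800000000000000000000000000000000) := Q_16 (nat_lit 182) (C_16 L27443 (C_16 L27451 (C_16 L27468 N_16))) (by decide +kernel)
theorem L27470 : W_16 (nat_lit 11) (nat_lit 0x4003200180001000280000000000000000000000000000000) (nat_lit 0x0) (nat_lit 0x74003a003f801cc00e40070001800000000000000000000000000000000) := Q_16 (nat_lit 165) (C_16 L27442 (C_16 L26584 (C_16 L27469 N_16))) (by decide +kernel)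
theorem L27471 : W_16 (nat_lit 2) (nat_lit 0x200010400f600380001000280000000000000000000000000000000) (nat_lit 0x0) (nat_lit 0x80000000000010000800000000000000000000000000000000) := D_16 (nat_lit 148) (nat_lit 131) (nat_lit 199) (nat_lit 7) (nat_lit 12) (nat_lit 7) (nat_lit 7) (nat_lit 12) (nat_lit 8) (by decide +kernel)
theorem L27472 : W_16 (nat_lit 3) (nat_lit 0x10400f600380001000280000000000000000000000000000000) (nat_lit 0x0) (nat_lit 0x40002000080000000000010000800000000000000000000000000000000) := T_16 (nat_lit 217) (nat_lit 234) (nat_lit 4) (nat_lit 13) (nat_lit 13) L27471 (by decide +kernel)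
theorem L27473 : W_16 (nat_lit 4) (nat_lit 0x400f600380001000280000000000000000000000000000000) (nat_lit 0x0) (nat_lit 0x40002000380000000000010000800000000000000000000000000000000) := T_16 (nat_lit 200) (nat_lit 201) (nat_lit 3) (nat_lit 10) (nat_lit 10) L27472 (by decide +kernel)
theorem L27474 : W_16 (nat_lit 5) (nat_lit 0x4007600380001000280000000000000000000000000000000) (nat_lit 0x0) (nat_lit 0x40002000380018000000010000800000000000000000000000000000000) := T_16 (nat_lit 183) (nat_lit 184) (nat_lit 0) (nat_lit 14) (nat_lit 10) L27473 (by decide +kernel)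
theorem L27475 : W_16 (nat_lit 6) (nat_lit 0x4007200380001000280000000000000000000000000000000) (nat_lit 0x0) (nat_lit 0x40002000380018c00000010000800000000000000000000000000000000) := T_16 (nat_lit 178) (nat_lit 179) (nat_lit 2) (nat_lit 7) (nat_lit 10) L27474 (by decide +kernel)
theorem L27476 : W_16 (nat_lit 10) (nat_lit 0x4003200380001000280000000000000000000000000000000) (nat_lit 0x0) (nat_lit 0x74003a003d801cc00040030001800000000000000000000000000000000) := Q_16 (nat_lit 182) (C_16 L27443 (C_16 L27451 (C_16 L27475 N_16))) (by decide +kernel)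
theorem L27477 : W_16 (nat_lit 11) (nat_lit 0x4003200180001000280000000000000000000000000000000) (nat_lit 0x0) (nat_lit 0x74003a003d801cc00e40070001800000000000000000000000000000000) := Q_16 (nat_lit 165) (C_16 L27442 (C_16 L26584 (C_16 L27476 N_16))) (by decide +kernel)
theorem L27478 : W_16 (nat_lit 2) (nat_lit 0x94007a00380001000280000000000000000000000000000000) (nat_lit 0x0) (nat_lit 0x20001000000000000000008000000000000000000000000000000000000) := D_16 (nat_lit 216) (nat_lit 147) (nat_lit 233) (nat_lit 4) (nat_lit 12) (nat_lit 12) (nat_lit 4) (nat_lit 12) (nat_lit 13) (by decide +kernel)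
theorem L27479 : W_16 (nat_lit 3) (nat_lit 0x14007a00380001000280000000000000000000000000000000) (nat_lit 0x0) (nat_lit 0x20001000180000000000008000000000000000000000000000000000000) := T_16 (nat_lit 199) (nat_lit 200) (nat_lit 3) (nat_lit 9) (nat_lit 10) L27478 (by decide +kernel)
theorem L27480 : W_16 (nat_lit 4) (nat_lit 0x4007a00380001000280000000000000000000000000000000) (nat_lit 0x0) (nat_lit 0x20001000198000000000008000000000000000000000000000000000000) := T_16 (nat_lit 196) (nat_lit 195) (nat_lit 1) (nat_lit 12) (nat_lit 10) L27479 (by decide +kernel)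
theorem L27481 : W_16 (nat_lit 5) (nat_lit 0x4007200380001000280000000000000000000000000000000) (nat_lit 0x0) (nat_lit 0x20001000198000c00000008000000000000000000000000000000000000) := T_16 (nat_lit 179) (nat_lit 178) (nat_lit 2) (nat_lit 7) (nat_lit 10) L27480 (by decide +kernel)
theorem L27482 : W_16 (nat_lit 7) (nat_lit 0x4003200380001000280000000000000000000000000000000) (nat_lit 0x0) (nat_lit 0x6000300039801cc00040018000800000000000000000000000000000000) := Q_16 (nat_lit 182) (C_16 L27443 (C_16 L27475 (C_16 L27481 N_16))) (by decide +kernel)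
theorem L27483 : W_16 (nat_lit 8) (nat_lit 0x4003200180001000280000000000000000000000000000000) (nat_lit 0x0) (nat_lit 0x6000300039801cc00e40078000800000000000000000000000000000000) := Q_16 (nat_lit 165) (C_16 L27442 (C_16 L26584 (C_16 L27482 N_16))) (by decide +kernel)
theorem L27484 : W_16 (nat_lit 2) (nat_lit 0x64003200380001000280000000000000000000000000000000) (nat_lit 0x0) (nat_lit 0x10000800000000000000010000000000000000000000000000000000000) := D_16 (nat_lit 215) (nat_lit 232) (nat_lit 148) (nat_lit 4) (nat_lit 11) (nat_lit 13) (nat_lit 6) (nat_lit 11) (nat_lit 12) (by decide +kernel)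
theorem L27485 : W_16 (nat_lit 2) (nat_lit 0x800024003200380031000e80000000000000000000000000000000) (nat_lit 0x0) (nat_lit 0xc0001000000000000000000000000000000000) := D_16 (nat_lit 150) (nat_lit 151) (nat_lit 132) (nat_lit 1) (nat_lit 15) (nat_lit 8) (nat_lit 3) (nat_lit 10) (nat_lit 7) (by decide +kernel)
theorem L27486 : W_16 (nat_lit 3) (nat_lit 0x800024003200380011000e80000000000000000000000000000000) (nat_lit 0x0) (nat_lit 0x400e0001000000000000000000000000000000000) := T_16 (nat_lit 149) (nat_lit 162) (nat_lit 2) (nat_lit 9) (nat_lit 9) L27485 (by decide +kernel)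
theorem L27487 : W_16 (nat_lit 4) (nat_lit 0x800024003200380011000680000000000000000000000000000000) (nat_lit 0x0) (nat_lit 0x400e0001800040000000000000000000000000000) := T_16 (nat_lit 131) (nat_lit 114) (nat_lit 5) (nat_lit 12) (nat_lit 6) L27486 (by decide +kernel)
theorem L27488 : W_16 (nat_lit 5) (nat_lit 0x24003200380011000680000000000000000000000000000000) (nat_lit 0x0) (nat_lit 0x8000400000000400e0001800040000000000000000000000000000) := T_16 (nat_lit 215) (nat_lit 198) (nat_lit 6) (nat_lit 11) (nat_lit 12) L27487 (by decide +kernel)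
theorem L27489 : W_16 (nat_lit 6) (nat_lit 0x24003200380011000280000000000000000000000000000000) (nat_lit 0x0) (nat_lit 0x8000400000000400e8001c00040000000000000000000000000000) := T_16 (nat_lit 130) (nat_lit 147) (nat_lit 5) (nat_lit 11) (nat_lit 7) L27488 (by decide +kernel)
theorem L27490 : W_16 (nat_lit 2) (nat_lit 0x2c003a00380011000a80000000000000000000000000000000) (nat_lit 0x0) (nat_lit 0x800040004000000000000000000000000000000000000000000000) := D_16 (nat_lit 198) (nat_lit 215) (nat_lit 182) (nat_lit 6) (nat_lit 11) (nat_lit 12) (nat_lit 5) (nat_lit 12) (nat_lit 7) (by decide +kernel)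
theorem L27491 : W_16 (nat_lit 3) (nat_lit 0x2c003a00380011000280000000000000000000000000000000) (nat_lit 0x0) (nat_lit 0x800040004000000000000800040000000000000000000000000000) := T_16 (nat_lit 131) (nat_lit 114) (nat_lit 5) (nat_lit 12) (nat_lit 6) L27490 (by decide +kernel)
theorem L27492 : W_16 (nat_lit 4) (nat_lit 0x2c003200380011000280000000000000000000000000000000) (nat_lit 0x0) (nat_lit 0x800040004c00000000000800040000000000000000000000000000) := T_16 (nat_lit 179) (nat_lit 178) (nat_lit 2) (nat_lit 7) (nat_lit 10) L27491 (by decide +kernel)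
theorem L27493 : W_16 (nat_lit 5) (nat_lit 0x24003200380011000280000000000000000000000000000000) (nat_lit 0x0) (nat_lit 0x800058004c00000000000800040000000000000000000000000000) := T_16 (nat_lit 195) (nat_lit 196) (nat_lit 2) (nat_lit 7) (nat_lit 11) L27492 (by decide +kernel)
theorem L27494 : W_16 (nat_lit 2) (nat_lit 0x2c003a003c0011000e80000000000000000000000000000000) (nat_lit 0x0) (nat_lit 0xc000000000000000020000000000000000000000000000) := D_16 (nat_lit 182) (nat_lit 183) (nat_lit 113) (nat_lit 3) (nat_lit 9) (nat_lit 9) (nat_lit 4) (nat_lit 12) (nat_lit 10) (by decide +kernel)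
theorem L27495 : W_16 (nat_lit 3) (nat_lit 0x2c003a00380011000e80000000000000000000000000000000) (nat_lit 0x0) (nat_lit 0xc000040020000000020000000000000000000000000000) := T_16 (nat_lit 162) (nat_lit 149) (nat_lit 2) (nat_lit 9) (nat_lit 9) L27494 (by decide +kernel)
theorem L27496 : W_16 (nat_lit 4) (nat_lit 0x2c003a00380011000680000000000000000000000000000000) (nat_lit 0x0) (nat_lit 0xc000040020000800060000000000000000000000000000) := T_16 (nat_lit 131) (nat_lit 114) (nat_lit 5) (nat_lit 12) (nat_lit 6) L27495 (by decide +kernel)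
theorem L27497 : W_16 (nat_lit 5) (nat_lit 0x2c003200380011000680000000000000000000000000000000) (nat_lit 0x0) (nat_lit 0xcc00040020000800060000000000000000000000000000) := T_16 (nat_lit 179) (nat_lit 178) (nat_lit 2) (nat_lit 7) (nat_lit 10) L27496 (by decide +kernel)
theorem L27498 : W_16 (nat_lit 6) (nat_lit 0x24003200380011000680000000000000000000000000000000) (nat_lit 0x0) (nat_lit 0x1800cc00040020000800060000000000000000000000000000) := T_16 (nat_lit 195) (nat_lit 196) (nat_lit 2) (nat_lit 7) (nat_lit 11) L27497 (by decide +kernel)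
theorem L27499 : W_16 (nat_lit 7) (nat_lit 0x24003200380011000280000000000000000000000000000000) (nat_lit 0x0) (nat_lit 0x1800cc00040028000c00060000000000000000000000000000) := T_16 (nat_lit 130) (nat_lit 147) (nat_lit 5) (nat_lit 11) (nat_lit 7) L27498 (by decide +kernel)
theorem L27500 : W_16 (nat_lit 2) (nat_lit 0x24003200380031000280000000000000000000000000000000) (nat_lit 0x0) (nat_lit 0xc8000000000000000000000000000000000000) := D_16 (nat_lit 150) (nat_lit 151) (nat_lit 147) (nat_lit 1) (nat_lit 15) (nat_lit 8) (nat_lit 1) (nat_lit 14) (nat_lit 8) (by decide +kernel)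
theorem L27501 : W_16 (nat_lit 3) (nat_lit 0x24003200380011000280000000000000000000000000000000) (nat_lit 0x0) (nat_lit 0x400e8000000000000000000000000000000000000) := T_16 (nat_lit 149) (nat_lit 162) (nat_lit 2) (nat_lit 9) (nat_lit 9) L27500 (by decide +kernel)
theorem L27502 : W_16 (nat_lit 8) (nat_lit 0x24003200380001000280000000000000000000000000000000) (nat_lit 0x0) (nat_lit 0x80005800cc000400f8001c00060000000000000000000000000000) := Q_16 (nat_lit 148) (C_16 L27489 (C_16 L27493 (C_16 L27499 (C_16 L27501 N_16)))) (by decide +kernel)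
theorem L27503 : W_16 (nat_lit 2) (nat_lit 0x2c00b2007c0001000680000000000000000000000000000000) (nat_lit 0x0) (nat_lit 0x70000000000000000000000000000000000000) := D_16 (nat_lit 149) (nat_lit 148) (nat_lit 150) (nat_lit 2) (nat_lit 9) (nat_lit 9) (nat_lit 2) (nat_lit 10) (nat_lit 9) (by decide +kernel)
theorem L27504 : W_16 (nat_lit 3) (nat_lit 0x2c00b200780001000680000000000000000000000000000000) (nat_lit 0x0) (nat_lit 0x4000040070000000000000000000000000000000000000) := T_16 (nat_lit 162) (nat_lit 182) (nat_lit 3) (nat_lit 9) (nat_lit 9) L27503 (by decide +kernel)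
theorem L27505 : W_16 (nat_lit 4) (nat_lit 0x2c003200780001000680000000000000000000000000000000) (nat_lit 0x0) (nat_lit 0x1c000040070000000000000000000000000000000000000) := T_16 (nat_lit 183) (nat_lit 184) (nat_lit 3) (nat_lit 10) (nat_lit 9) L27504 (by decide +kernel)
theorem L27506 : W_16 (nat_lit 5) (nat_lit 0x24003200780001000680000000000000000000000000000000) (nat_lit 0x0) (nat_lit 0x1801c000040070000000000000000000000000000000000000) := T_16 (nat_lit 195) (nat_lit 196) (nat_lit 2) (nat_lit 7) (nat_lit 11) L27505 (by decide +kernel)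
theorem L27507 : W_16 (nat_lit 6) (nat_lit 0x24003200380001000680000000000000000000000000000000) (nat_lit 0x0) (nat_lit 0x1801c000c40070000000000000000000000000000000000000) := T_16 (nat_lit 166) (nat_lit 167) (nat_lit 1) (nat_lit 14) (nat_lit 9) L27506 (by decide +kernel)
theorem L27508 : W_16 (nat_lit 7) (nat_lit 0x24003200380001000280000000000000000000000000000000) (nat_lit 0x0) (nat_lit 0x1801c000c40078000400000000000000000000000000000000) := T_16 (nat_lit 130) (nat_lit 147) (nat_lit 5) (nat_lit 11) (nat_lit 7) L27507 (by decide +kernel)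
theorem L27509 : W_16 (nat_lit 2) (nat_lit 0x24003200380001000280000000000000000000000000000000) (nat_lit 0x0) (nat_lit 0x800c00000000000000000000000000000000000000000) := D_16 (nat_lit 166) (nat_lit 167) (nat_lit 179) (nat_lit 1) (nat_lit 14) (nat_lit 9) (nat_lit 1) (nat_lit 13) (nat_lit 9) (by decide +kernel)
theorem L27510 : W_16 (nat_lit 9) (nat_lit 0x24003200180001000280000000000000000000000000000000) (nat_lit 0x0) (nat_lit 0x80005801cc00e400f8001c00060000000000000000000000000000) := Q_16 (nat_lit 165) (C_16 L27502 (C_16 L27508 (C_16 L27509 N_16))) (by decide +kernel)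
theorem L27511 : W_16 (nat_lit 10) (nat_lit 0x4003200180001000280000000000000000000000000000000) (nat_lit 0x0) (nat_lit 0x1c000f0007801cc00e400f8001c00060000000000000000000000000000) := Q_16 (nat_lit 197) (C_16 L26658 (C_16 L27510 (C_16 L27437 N_16))) (by decide +kernel)
theorem L27512 : W_16 (nat_lit 13) (nat_lit 0x4001200180001000280000000000000000000000000000000) (nat_lit 0x0) (nat_lit 0x7c007f003f801ec00e400f8001c00070000000000000000000000000000) := Q_16 (nat_lit 181) (C_16 L26476 (C_16 L27424 (C_16 L27438 (C_16 L27462 (C_16 L27470 (C_16 L27477 (C_16 L27483 (C_16 L27511 N_16)))))))) (by decide +kernel)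
theorem L27513 : W_16 (nat_lit 14) (nat_lit 0x4000200180001000280000000000000000000000000000000) (nat_lit 0x0) (nat_lit 0x7c007f007f807fc01e700f8007c000f0007000000000000000000000000) := Q_16 (nat_lit 180) (C_16 L27252 (C_16 L27419 (C_16 L27422 (C_16 L27512 N_16)))) (by decide +kernel)
theorem L27514 : W_16 (nat_lit 2) (nat_lit 0x40002007d0021000280000000000000000000000000000000) (nat_lit 0x0) (nat_lit 0x1c000000000000000000000000000000000000000000000) := D_16 (nat_lit 183) (nat_lit 184) (nat_lit 182) (nat_lit 3) (nat_lit 10) (nat_lit 9) (nat_lit 3) (nat_lit 9) (nat_lit 9) (by decide +kernel)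
theorem L27515 : W_16 (nat_lit 3) (nat_lit 0x4000200790021000280000000000000000000000000000000) (nat_lit 0x0) (nat_lit 0x1c000040010000000000000000000000000000000000000) := T_16 (nat_lit 162) (nat_lit 148) (nat_lit 2) (nat_lit 9) (nat_lit 9) L27514 (by decide +kernel)
theorem L27516 : W_16 (nat_lit 4) (nat_lit 0x4000200790001000280000000000000000000000000000000) (nat_lit 0x0) (nat_lit 0x1c000040070000000000000000000000000000000000000) := T_16 (nat_lit 149) (nat_lit 150) (nat_lit 2) (nat_lit 10) (nat_lit 9) L27515 (by decide +kernel)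
theorem L27517 : W_16 (nat_lit 5) (nat_lit 0x4000200780001000280000000000000000000000000000000) (nat_lit 0x0) (nat_lit 0x1c000050070800000000000000000000000000000000000) := T_16 (nat_lit 160) (nat_lit 143) (nat_lit 6) (nat_lit 7) (nat_lit 11) L27516 (by decide +kernel)
theorem L27518 : W_16 (nat_lit 2) (nat_lit 0x4000a007d0001000280000000000000000000000000000000) (nat_lit 0x0) (nat_lit 0x70000000000000000000000000000000000000) := D_16 (nat_lit 149) (nat_lit 150) (nat_lit 148) (nat_lit 2) (nat_lit 10) (nat_lit 9) (nat_lit 2) (nat_lit 9) (nat_lit 9) (by decide +kernel)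
theorem L27519 : W_16 (nat_lit 3) (nat_lit 0x4000a00790001000280000000000000000000000000000000) (nat_lit 0x0) (nat_lit 0x400040070000000000000000000000000000000000000) := T_16 (nat_lit 162) (nat_lit 178) (nat_lit 1) (nat_lit 12) (nat_lit 9) L27518 (by decide +kernel)
theorem L27520 : W_16 (nat_lit 4) (nat_lit 0x4000a00780001000280000000000000000000000000000000) (nat_lit 0x0) (nat_lit 0x400050070800000000000000000000000000000000000) := T_16 (nat_lit 160) (nat_lit 143) (nat_lit 6) (nat_lit 7) (nat_lit 11) L27519 (by decide +kernel)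
theorem L27521 : W_16 (nat_lit 5) (nat_lit 0x4000200780001000280000000000000000000000000000000) (nat_lit 0x0) (nat_lit 0x1c00050070800000000000000000000000000000000000) := T_16 (nat_lit 179) (nat_lit 180) (nat_lit 1) (nat_lit 13) (nat_lit 9) L27520 (by decide +kernel)
theorem L27522 : W_16 (nat_lit 2) (nat_lit 0x40002007c0021000280000000000000000000000000000000) (nat_lit 0x0) (nat_lit 0x1c00000000000000000000000000000000000000000000) := D_16 (nat_lit 179) (nat_lit 178) (nat_lit 180) (nat_lit 1) (nat_lit 12) (nat_lit 9) (nat_lit 1) (nat_lit 13) (nat_lit 9) (by decide +kernel)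
theorem L27523 : W_16 (nat_lit 3) (nat_lit 0x4000200780021000280000000000000000000000000000000) (nat_lit 0x0) (nat_lit 0x1c00040010000000000000000000000000000000000000) := T_16 (nat_lit 162) (nat_lit 148) (nat_lit 2) (nat_lit 9) (nat_lit 9) L27522 (by decide +kernel)
theorem L27524 : W_16 (nat_lit 4) (nat_lit 0x4000200780001000280000000000000000000000000000000) (nat_lit 0x0) (nat_lit 0x1c00040070000000000000000000000000000000000000) := T_16 (nat_lit 149) (nat_lit 150) (nat_lit 2) (nat_lit 10) (nat_lit 9) L27523 (by decide +kernel)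
theorem L27525 : W_16 (nat_lit 2) (nat_lit 0x40082007c0001000280000000000000000000000000000000) (nat_lit 0x0) (nat_lit 0x1c00000000000000000000000000000000000000000000) := D_16 (nat_lit 179) (nat_lit 178) (nat_lit 180) (nat_lit 1) (nat_lit 12) (nat_lit 9) (nat_lit 1) (nat_lit 13) (nat_lit 9) (by decide +kernel)
theorem L27526 : W_16 (nat_lit 3) (nat_lit 0x4008200780001000280000000000000000000000000000000) (nat_lit 0x0) (nat_lit 0x5c00040000000000000000000000000000000000000000) := T_16 (nat_lit 162) (nat_lit 182) (nat_lit 3) (nat_lit 9) (nat_lit 9) L27525 (by decide +kernel)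
theorem L27527 : W_16 (nat_lit 4) (nat_lit 0x4000200780001000280000000000000000000000000000000) (nat_lit 0x0) (nat_lit 0x1dc00040000000000000000000000000000000000000000) := T_16 (nat_lit 183) (nat_lit 184) (nat_lit 3) (nat_lit 10) (nat_lit 9) L27526 (by decide +kernel)
theorem L27528 : W_16 (nat_lit 2) (nat_lit 0x4010200790041000280000000000000000000000000000000) (nat_lit 0x0) (nat_lit 0x20000800080000000000000000000000000000000000000) := D_16 (nat_lit 167) (nat_lit 185) (nat_lit 151) (nat_lit 3) (nat_lit 11) (nat_lit 9) (nat_lit 2) (nat_lit 11) (nat_lit 9) (by decide +kernel)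
theorem L27529 : W_16 (nat_lit 3) (nat_lit 0x4010200790001000280000000000000000000000000000000) (nat_lit 0x0) (nat_lit 0x200008000e0000000000000000000000000000000000000) := T_16 (nat_lit 150) (nat_lit 149) (nat_lit 2) (nat_lit 10) (nat_lit 9) L27528 (by decide +kernel)
theorem L27530 : W_16 (nat_lit 4) (nat_lit 0x4000200790001000280000000000000000000000000000000) (nat_lit 0x0) (nat_lit 0x380008000e0000000000000000000000000000000000000) := T_16 (nat_lit 184) (nat_lit 183) (nat_lit 3) (nat_lit 10) (nat_lit 9) L27529 (by decide +kernel)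
theorem L27531 : W_16 (nat_lit 5) (nat_lit 0x4000200780001000280000000000000000000000000000000) (nat_lit 0x0) (nat_lit 0x380008100e0800000000000000000000000000000000000) := T_16 (nat_lit 160) (nat_lit 143) (nat_lit 6) (nat_lit 7) (nat_lit 11) L27530 (by decide +kernel)
theorem L27532 : W_16 (nat_lit 6) (nat_lit 0x4000200380001000280000000000000000000000000000000) (nat_lit 0x0) (nat_lit 0x3dc00c500f0800000000000000000000000000000000000) := Q_16 (nat_lit 166) (C_16 L27517 (C_16 L27521 (C_16 L27524 (C_16 L27527 (C_16 L27531 N_16))))) (by decide +kernel)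
theorem L27533 : W_16 (nat_lit 2) (nat_lit 0x400c200390001000280000000000000000000000000000000) (nat_lit 0x0) (nat_lit 0x32000000000000000000000000000000000000000000000) := D_16 (nat_lit 184) (nat_lit 185) (nat_lit 181) (nat_lit 0) (nat_lit 15) (nat_lit 10) (nat_lit 0) (nat_lit 14) (nat_lit 10) (by decide +kernel)
theorem L27534 : W_16 (nat_lit 3) (nat_lit 0x4004200390001000280000000000000000000000000000000) (nat_lit 0x0) (nat_lit 0x3a000040000000000000000000000000000000000000000) := T_16 (nat_lit 183) (nat_lit 162) (nat_lit 3) (nat_lit 9) (nat_lit 9) L27533 (by decide +kernel)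
theorem L27535 : W_16 (nat_lit 4) (nat_lit 0x4004200380001000280000000000000000000000000000000) (nat_lit 0x0) (nat_lit 0x3a000050000800000000000000000000000000000000000) := T_16 (nat_lit 160) (nat_lit 143) (nat_lit 6) (nat_lit 7) (nat_lit 11) L27534 (by decide +kernel)
theorem L27536 : W_16 (nat_lit 2) (nat_lit 0x4004200390031000280000000000000000000000000000000) (nat_lit 0x0) (nat_lit 0xc8000000000000000000000000000000000000) := D_16 (nat_lit 150) (nat_lit 151) (nat_lit 147) (nat_lit 1) (nat_lit 15) (nat_lit 8) (nat_lit 1) (nat_lit 14) (nat_lit 8) (by decide +kernel)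
theorem L27537 : W_16 (nat_lit 3) (nat_lit 0x4004200390011000280000000000000000000000000000000) (nat_lit 0x0) (nat_lit 0x400e8000000000000000000000000000000000000) := T_16 (nat_lit 149) (nat_lit 162) (nat_lit 2) (nat_lit 9) (nat_lit 9) L27536 (by decide +kernel)
theorem L27538 : W_16 (nat_lit 4) (nat_lit 0x4004200380011000280000000000000000000000000000000) (nat_lit 0x0) (nat_lit 0x500e8800000000000000000000000000000000000) := T_16 (nat_lit 160) (nat_lit 143) (nat_lit 6) (nat_lit 7) (nat_lit 11) L27537 (by decide +kernel)
theorem L27539 : W_16 (nat_lit 2) (nat_lit 0x4004200380031000280000000000000000000000000000000) (nat_lit 0x0) (nat_lit 0x4000c0000000000000000000000000000000000000) := D_16 (nat_lit 150) (nat_lit 151) (nat_lit 166) (nat_lit 1) (nat_lit 15) (nat_lit 8) (nat_lit 2) (nat_lit 10) (nat_lit 9) (by decide +kernel)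
theorem L27540 : W_16 (nat_lit 3) (nat_lit 0x4004200380011000280000000000000000000000000000000) (nat_lit 0x0) (nat_lit 0x4400e0000000000000000000000000000000000000) := T_16 (nat_lit 149) (nat_lit 162) (nat_lit 2) (nat_lit 9) (nat_lit 9) L27539 (by decide +kernel)
theorem L27541 : W_16 (nat_lit 2) (nat_lit 0x4006200380011000280000000000000000000000000000000) (nat_lit 0x0) (nat_lit 0x40000000000000000800040000000000000000000000000000) := D_16 (nat_lit 131) (nat_lit 114) (nat_lit 198) (nat_lit 5) (nat_lit 12) (nat_lit 6) (nat_lit 5) (nat_lit 12) (nat_lit 7) (by decide +kernel)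
theorem L27542 : W_16 (nat_lit 2) (nat_lit 0x4006200390011000e80000000000000000000000000000000) (nat_lit 0x0) (nat_lit 0x80000000000008000000010000000000000000000000000000) := D_16 (nat_lit 147) (nat_lit 112) (nat_lit 199) (nat_lit 4) (nat_lit 11) (nat_lit 10) (nat_lit 7) (nat_lit 11) (nat_lit 7) (by decide +kernel)
theorem L27543 : W_16 (nat_lit 3) (nat_lit 0x4006200390011000a80000000000000000000000000000000) (nat_lit 0x0) (nat_lit 0x80000000000008000400030000000000000000000000000000) := T_16 (nat_lit 130) (nat_lit 113) (nat_lit 4) (nat_lit 12) (nat_lit 10) L27542 (by decide +kernel)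
theorem L27544 : W_16 (nat_lit 4) (nat_lit 0x4006200390011000280000000000000000000000000000000) (nat_lit 0x0) (nat_lit 0x80000000000008000c00070000000000000000000000000000) := T_16 (nat_lit 131) (nat_lit 114) (nat_lit 5) (nat_lit 12) (nat_lit 6) L27543 (by decide +kernel)
theorem L27545 : W_16 (nat_lit 5) (nat_lit 0x4006200380011000280000000000000000000000000000000) (nat_lit 0x0) (nat_lit 0x80000000010008800c00070000000000000000000000000000) := T_16 (nat_lit 160) (nat_lit 143) (nat_lit 6) (nat_lit 7) (nat_lit 11) L27544 (by decide +kernel)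
theorem L27546 : W_16 (nat_lit 2) (nat_lit 0x84006200380011000280000000000000000000000000000000) (nat_lit 0x0) (nat_lit 0x1000000000000000008000400000000000000000000000000000000) := D_16 (nat_lit 147) (nat_lit 130) (nat_lit 216) (nat_lit 7) (nat_lit 11) (nat_lit 7) (nat_lit 4) (nat_lit 12) (nat_lit 12) (by decide +kernel)
theorem L27547 : W_16 (nat_lit 2) (nat_lit 0x800084006200380011000280000000000000000000000000000000) (nat_lit 0x0) (nat_lit 0x30001000000000000000000000000000000000000000000000000000000) := D_16 (nat_lit 216) (nat_lit 232) (nat_lit 233) (nat_lit 5) (nat_lit 12) (nat_lit 9) (nat_lit 4) (nat_lit 12) (nat_lit 13) (by decide +kernel)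
theorem L27548 : W_16 (nat_lit 3) (nat_lit 0x84006200380011000280000000000000000000000000000000) (nat_lit 0x0) (nat_lit 0x30001800040000000000000000000000000000000000000000000000000) := T_16 (nat_lit 215) (nat_lit 198) (nat_lit 6) (nat_lit 11) (nat_lit 12) L27547 (by decide +kernel)
theorem L27549 : W_16 (nat_lit 2) (nat_lit 0x1ec006200380019000280000000000000000000000000000000) (nat_lit 0x0) (nat_lit 0x200001800000000000000000000000000000000000000000000) := D_16 (nat_lit 180) (nat_lit 179) (nat_lit 201) (nat_lit 3) (nat_lit 9) (nat_lit 10) (nat_lit 0) (nat_lit 14) (nat_lit 11) (by decide +kernel)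
theorem L27550 : W_16 (nat_lit 3) (nat_lit 0xec006200380019000280000000000000000000000000000000) (nat_lit 0x0) (nat_lit 0x2000300001800000000000000000000000000000000000000000000) := T_16 (nat_lit 200) (nat_lit 217) (nat_lit 7) (nat_lit 12) (nat_lit 8) L27549 (by decide +kernel)
theorem L27551 : W_16 (nat_lit 4) (nat_lit 0xe4006200380019000280000000000000000000000000000000) (nat_lit 0x0) (nat_lit 0x2000318001800000000000000000000000000000000000000000000) := T_16 (nat_lit 195) (nat_lit 196) (nat_lit 2) (nat_lit 8) (nat_lit 11) L27550 (by decide +kernel)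
theorem L27552 : W_16 (nat_lit 5) (nat_lit 0xc4006200380019000280000000000000000000000000000000) (nat_lit 0x0) (nat_lit 0x2400338001800000000000000000000000000000000000000000000) := T_16 (nat_lit 197) (nat_lit 214) (nat_lit 5) (nat_lit 11) (nat_lit 8) L27551 (by decide +kernel)
theorem L27553 : W_16 (nat_lit 6) (nat_lit 0xc4006200380011000280000000000000000000000000000000) (nat_lit 0x0) (nat_lit 0x2400338001800000008000400000000000000000000000000000000) := T_16 (nat_lit 147) (nat_lit 130) (nat_lit 7) (nat_lit 11) (nat_lit 7) L27552 (by decide +kernel)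
theorem L27554 : W_16 (nat_lit 7) (nat_lit 0x84006200380011000280000000000000000000000000000000) (nat_lit 0x0) (nat_lit 0x2c00378001800000008000400000000000000000000000000000000) := T_16 (nat_lit 198) (nat_lit 215) (nat_lit 6) (nat_lit 11) (nat_lit 12) L27553 (by decide +kernel)
theorem L27555 : W_16 (nat_lit 8) (nat_lit 0x4006200380011000280000000000000000000000000000000) (nat_lit 0x0) (nat_lit 0x30003c003f8001800000008000400000000000000000000000000000000) := Q_16 (nat_lit 199) (C_16 L27546 (C_16 L27548 (C_16 L27554 N_16))) (by decide +kernel)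
theorem L27556 : W_16 (nat_lit 9) (nat_lit 0x4004200380011000280000000000000000000000000000000) (nat_lit 0x0) (nat_lit 0x30003c003f8003800010008800c00070000000000000000000000000000) := Q_16 (nat_lit 181) (C_16 L27541 (C_16 L27545 (C_16 L27555 N_16))) (by decide +kernel)
theorem L27557 : W_16 (nat_lit 10) (nat_lit 0x4004200380001000280000000000000000000000000000000) (nat_lit 0x0) (nat_lit 0x30003c003f80038004500f8800c00070000000000000000000000000000) := Q_16 (nat_lit 148) (C_16 L27538 (C_16 L27540 (C_16 L27556 N_16))) (by decide +kernel)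
theorem L27558 : W_16 (nat_lit 2) (nat_lit 0x400c200390001000280000000000000000000000000000000) (nat_lit 0x0) (nat_lit 0x30000400000000000000000000000000000000000000000) := D_16 (nat_lit 184) (nat_lit 185) (nat_lit 166) (nat_lit 0) (nat_lit 15) (nat_lit 10) (nat_lit 3) (nat_lit 10) (nat_lit 9) (by decide +kernel)
theorem L27559 : W_16 (nat_lit 3) (nat_lit 0x4004200390001000280000000000000000000000000000000) (nat_lit 0x0) (nat_lit 0x38000440000000000000000000000000000000000000000) := T_16 (nat_lit 183) (nat_lit 162) (nat_lit 3) (nat_lit 9) (nat_lit 9) L27558 (by decide +kernel)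
theorem L27560 : W_16 (nat_lit 4) (nat_lit 0x4004200380001000280000000000000000000000000000000) (nat_lit 0x0) (nat_lit 0x38000450000800000000000000000000000000000000000) := T_16 (nat_lit 160) (nat_lit 143) (nat_lit 6) (nat_lit 7) (nat_lit 11) L27559 (by decide +kernel)
theorem L27561 : W_16 (nat_lit 2) (nat_lit 0x400c200380001000280000000000000000000000000000000) (nat_lit 0x0) (nat_lit 0x32000000000000000000000000000000000000000000000) := D_16 (nat_lit 184) (nat_lit 185) (nat_lit 181) (nat_lit 0) (nat_lit 15) (nat_lit 10) (nat_lit 0) (nat_lit 14) (nat_lit 10) (by decide +kernel)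
theorem L27562 : W_16 (nat_lit 3) (nat_lit 0x4004200380001000280000000000000000000000000000000) (nat_lit 0x0) (nat_lit 0x3a000040000000000000000000000000000000000000000) := T_16 (nat_lit 183) (nat_lit 162) (nat_lit 3) (nat_lit 9) (nat_lit 9) L27561 (by decide +kernel)
theorem L27563 : W_16 (nat_lit 2) (nat_lit 0x20001000084004200390001000280000000000000000000000000000000) (nat_lit 0x0) (nat_lit 0x800040002000000000000000000000000000000000000000000000000000000) := D_16 (nat_lit 234) (nat_lit 217) (nat_lit 251) (nat_lit 7) (nat_lit 12) (nat_lit 9) (nat_lit 7) (nat_lit 12) (nat_lit 10) (by decide +kernel)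
theorem L27564 : W_16 (nat_lit 3) (nat_lit 0x1000084004200390001000280000000000000000000000000000000) (nat_lit 0x0) (nat_lit 0x800060002000000002000000000000000000000000000000000000000000000) := T_16 (nat_lit 233) (nat_lit 181) (nat_lit 4) (nat_lit 12) (nat_lit 13) L27563 (by decide +kernel)
theorem L27565 : W_16 (nat_lit 4) (nat_lit 0x84004200390001000280000000000000000000000000000000) (nat_lit 0x0) (nat_lit 0x800060003000000002000000008000000000000000000000000000000000000) := T_16 (nat_lit 216) (nat_lit 147) (nat_lit 4) (nat_lit 12) (nat_lit 12) L27564 (by decide +kernel)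
theorem L27566 : W_16 (nat_lit 5) (nat_lit 0x84004200380001000280000000000000000000000000000000) (nat_lit 0x0) (nat_lit 0x800060003000000002000010008800000000000000000000000000000000000) := T_16 (nat_lit 160) (nat_lit 143) (nat_lit 6) (nat_lit 7) (nat_lit 11) L27565 (by decide +kernel)
theorem L27567 : W_16 (nat_lit 2) (nat_lit 0x184004200390011000a80000000000000000000000000000000) (nat_lit 0x0) (nat_lit 0x20001000080000000000000000000000000000) := D_16 (nat_lit 132) (nat_lit 115) (nat_lit 149) (nat_lit 6) (nat_lit 12) (nat_lit 10) (nat_lit 6) (nat_lit 12) (nat_lit 11) (by decide +kernel)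
theorem L27568 : W_16 (nat_lit 3) (nat_lit 0x184004200390011000280000000000000000000000000000000) (nat_lit 0x0) (nat_lit 0x8000000020001800080000000000000000000000000000) := T_16 (nat_lit 131) (nat_lit 183) (nat_lit 7) (nat_lit 12) (nat_lit 7) L27567 (by decide +kernel)
theorem L27569 : W_16 (nat_lit 4) (nat_lit 0x84004200390011000280000000000000000000000000000000) (nat_lit 0x0) (nat_lit 0x2000100008000000020001800080000000000000000000000000000) := T_16 (nat_lit 200) (nat_lit 217) (nat_lit 7) (nat_lit 12) (nat_lit 8) L27568 (by decide +kernel)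
theorem L27570 : W_16 (nat_lit 5) (nat_lit 0x84004200380011000280000000000000000000000000000000) (nat_lit 0x0) (nat_lit 0x2000100008000010020801800080000000000000000000000000000) := T_16 (nat_lit 160) (nat_lit 143) (nat_lit 6) (nat_lit 7) (nat_lit 11) L27569 (by decide +kernel)
theorem L27571 : W_16 (nat_lit 2) (nat_lit 0x184004200390011000a80000000000000000000000000000000) (nat_lit 0x0) (nat_lit 0x800040002000000000000000000000000000000000000000000000) := D_16 (nat_lit 198) (nat_lit 215) (nat_lit 181) (nat_lit 5) (nat_lit 12) (nat_lit 8) (nat_lit 5) (nat_lit 12) (nat_lit 7) (by decide +kernel)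
theorem L27572 : W_16 (nat_lit 3) (nat_lit 0x184004200390011000280000000000000000000000000000000) (nat_lit 0x0) (nat_lit 0x80004000a000000000000800000000000000000000000000000000) := T_16 (nat_lit 131) (nat_lit 183) (nat_lit 7) (nat_lit 12) (nat_lit 7) L27571 (by decide +kernel)
theorem L27573 : W_16 (nat_lit 4) (nat_lit 0x84004200390011000280000000000000000000000000000000) (nat_lit 0x0) (nat_lit 0x280014000a000000000000800000000000000000000000000000000) := T_16 (nat_lit 200) (nat_lit 217) (nat_lit 7) (nat_lit 12) (nat_lit 8) L27572 (by decide +kernel)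
theorem L27574 : W_16 (nat_lit 5) (nat_lit 0x84004200380011000280000000000000000000000000000000) (nat_lit 0x0) (nat_lit 0x280014000a000010000800800000000000000000000000000000000) := T_16 (nat_lit 160) (nat_lit 143) (nat_lit 6) (nat_lit 7) (nat_lit 11) L27573 (by decide +kernel)
theorem L27575 : W_16 (nat_lit 2) (nat_lit 0xc4004200380011000a80000000000000000000000000000000) (nat_lit 0x0) (nat_lit 0x20001000080000000000000000000000000000) := D_16 (nat_lit 132) (nat_lit 115) (nat_lit 149) (nat_lit 6) (nat_lit 12) (nat_lit 10) (nat_lit 6) (nat_lit 12) (nat_lit 11) (by decide +kernel)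
theorem L27576 : W_16 (nat_lit 3) (nat_lit 0xc4004200380011000280000000000000000000000000000000) (nat_lit 0x0) (nat_lit 0x2000000020001800080000000000000000000000000000) := T_16 (nat_lit 131) (nat_lit 181) (nat_lit 5) (nat_lit 12) (nat_lit 7) L27575 (by decide +kernel)
theorem L27577 : W_16 (nat_lit 4) (nat_lit 0x84004200380011000280000000000000000000000000000000) (nat_lit 0x0) (nat_lit 0x800040002000000020001800080000000000000000000000000000) := T_16 (nat_lit 198) (nat_lit 215) (nat_lit 5) (nat_lit 12) (nat_lit 8) L27576 (by decide +kernel)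
theorem L27578 : W_16 (nat_lit 2) (nat_lit 0xc4004200380031000280000000000000000000000000000000) (nat_lit 0x0) (nat_lit 0x1000000000000400040000000000000000000000000000000000000) := D_16 (nat_lit 166) (nat_lit 150) (nat_lit 216) (nat_lit 2) (nat_lit 10) (nat_lit 9) (nat_lit 6) (nat_lit 12) (nat_lit 12) (by decide +kernel)
theorem L27579 : W_16 (nat_lit 3) (nat_lit 0xc4004200380011000280000000000000000000000000000000) (nat_lit 0x0) (nat_lit 0x1000000000000400060001000000000000000000000000000000000) := T_16 (nat_lit 149) (nat_lit 132) (nat_lit 6) (nat_lit 12) (nat_lit 11) L27578 (by decide +kernel)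
theorem L27580 : W_16 (nat_lit 4) (nat_lit 0x84004200380011000280000000000000000000000000000000) (nat_lit 0x0) (nat_lit 0x1800040000000400060001000000000000000000000000000000000) := T_16 (nat_lit 198) (nat_lit 215) (nat_lit 5) (nat_lit 12) (nat_lit 8) L27579 (by decide +kernel)
theorem L27581 : W_16 (nat_lit 6) (nat_lit 0x84004200380001000280000000000000000000000000000000) (nat_lit 0x0) (nat_lit 0x380014000a000410070801800080000000000000000000000000000) := Q_16 (nat_lit 148) (C_16 L27570 (C_16 L27574 (C_16 L27577 (C_16 L27580 N_16)))) (by decide +kernel)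
theorem L27582 : W_16 (nat_lit 2) (nat_lit 0x1800084004200390011000280000000000000000000000000000000) (nat_lit 0x0) (nat_lit 0x40002000100000000000000000000000000000000000000000000000000) := D_16 (nat_lit 217) (nat_lit 234) (nat_lit 200) (nat_lit 7) (nat_lit 12) (nat_lit 9) (nat_lit 7) (nat_lit 12) (nat_lit 8) (by decide +kernel)
theorem L27583 : W_16 (nat_lit 3) (nat_lit 0x1800084004200390001000280000000000000000000000000000000) (nat_lit 0x0) (nat_lit 0x40002000140000000000010000000000000000000000000000000000000) := T_16 (nat_lit 148) (nat_lit 198) (nat_lit 5) (nat_lit 12) (nat_lit 8) L27582 (by decide +kernel)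
theorem L27584 : W_16 (nat_lit 4) (nat_lit 0x1000084004200390001000280000000000000000000000000000000) (nat_lit 0x0) (nat_lit 0x50002800140000000000010000000000000000000000000000000000000) := T_16 (nat_lit 215) (nat_lit 232) (nat_lit 5) (nat_lit 12) (nat_lit 9) L27583 (by decide +kernel)
theorem L27585 : W_16 (nat_lit 5) (nat_lit 0x84004200390001000280000000000000000000000000000000) (nat_lit 0x0) (nat_lit 0x50003800140000000000018000000000000000000000000000000000000) := T_16 (nat_lit 216) (nat_lit 147) (nat_lit 4) (nat_lit 12) (nat_lit 12) L27584 (by decide +kernel)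
theorem L27586 : W_16 (nat_lit 6) (nat_lit 0x84004200380001000280000000000000000000000000000000) (nat_lit 0x0) (nat_lit 0x50003800140000000010018800000000000000000000000000000000000) := T_16 (nat_lit 160) (nat_lit 143) (nat_lit 6) (nat_lit 7) (nat_lit 11) L27585 (by decide +kernel)
theorem L27587 : W_16 (nat_lit 2) (nat_lit 0x20001000084004200380001000280000000000000000000000000000000) (nat_lit 0x0) (nat_lit 0x800040002000000000000000000000000000000000000000000000000000000) := D_16 (nat_lit 234) (nat_lit 217) (nat_lit 251) (nat_lit 7) (nat_lit 12) (nat_lit 9) (nat_lit 7) (nat_lit 12) (nat_lit 10) (by decide +kernel)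
theorem L27588 : W_16 (nat_lit 3) (nat_lit 0x1000084004200380001000280000000000000000000000000000000) (nat_lit 0x0) (nat_lit 0x800060002000000002000000000000000000000000000000000000000000000) := T_16 (nat_lit 233) (nat_lit 181) (nat_lit 4) (nat_lit 12) (nat_lit 13) L27587 (by decide +kernel)
theorem L27589 : W_16 (nat_lit 4) (nat_lit 0x84004200380001000280000000000000000000000000000000) (nat_lit 0x0) (nat_lit 0x800060003000000002000000008000000000000000000000000000000000000) := T_16 (nat_lit 216) (nat_lit 147) (nat_lit 4) (nat_lit 12) (nat_lit 12) L27588 (by decide +kernel)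
theorem L27590 : W_16 (nat_lit 2) (nat_lit 0x84004200390031000280000000000000000000000000000000) (nat_lit 0x0) (nat_lit 0x400048000000000000000000000000000000000000) := D_16 (nat_lit 150) (nat_lit 166) (nat_lit 147) (nat_lit 2) (nat_lit 10) (nat_lit 9) (nat_lit 1) (nat_lit 14) (nat_lit 8) (by decide +kernel)
theorem L27591 : W_16 (nat_lit 3) (nat_lit 0x84004200390011000280000000000000000000000000000000) (nat_lit 0x0) (nat_lit 0x400068001000000000000000000000000000000000) := T_16 (nat_lit 149) (nat_lit 132) (nat_lit 6) (nat_lit 12) (nat_lit 11) L27590 (by decide +kernel)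
theorem L27592 : W_16 (nat_lit 4) (nat_lit 0x84004200380011000280000000000000000000000000000000) (nat_lit 0x0) (nat_lit 0x410068801000000000000000000000000000000000) := T_16 (nat_lit 160) (nat_lit 143) (nat_lit 6) (nat_lit 7) (nat_lit 11) L27591 (by decide +kernel)
theorem L27593 : W_16 (nat_lit 6) (nat_lit 0x84004200380001000280000000000000000000000000000000) (nat_lit 0x0) (nat_lit 0x280014000a000410078801800080000000000000000000000000000) := Q_16 (nat_lit 148) (C_16 L27577 (C_16 L27574 (C_16 L27570 (C_16 L27592 N_16)))) (by decide +kernel)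
theorem L27594 : W_16 (nat_lit 2) (nat_lit 0x20001000084004200390001000280000000000000000000000000000000) (nat_lit 0x0) (nat_lit 0x8000400020000000000000000000000000000000000000) := D_16 (nat_lit 166) (nat_lit 149) (nat_lit 183) (nat_lit 6) (nat_lit 12) (nat_lit 12) (nat_lit 6) (nat_lit 12) (nat_lit 13) (by decide +kernel)
theorem L27595 : W_16 (nat_lit 3) (nat_lit 0x1000084004200390001000280000000000000000000000000000000) (nat_lit 0x0) (nat_lit 0x2000000000000a000400020000000000000000000000000000000000000) := T_16 (nat_lit 233) (nat_lit 181) (nat_lit 4) (nat_lit 12) (nat_lit 13) L27594 (by decide +kernel)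
theorem L27596 : W_16 (nat_lit 4) (nat_lit 0x84004200390001000280000000000000000000000000000000) (nat_lit 0x0) (nat_lit 0x2000100000000a000400028000000000000000000000000000000000000) := T_16 (nat_lit 216) (nat_lit 147) (nat_lit 4) (nat_lit 12) (nat_lit 12) L27595 (by decide +kernel)
theorem L27597 : W_16 (nat_lit 5) (nat_lit 0x84004200380001000280000000000000000000000000000000) (nat_lit 0x0) (nat_lit 0x2000100000000a000410028800000000000000000000000000000000000) := T_16 (nat_lit 160) (nat_lit 143) (nat_lit 6) (nat_lit 7) (nat_lit 11) L27596 (by decide +kernel)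
theorem L27598 : W_16 (nat_lit 7) (nat_lit 0x4004200380001000280000000000000000000000000000000) (nat_lit 0x0) (nat_lit 0x8000700038001c000a000410078801800080000000000000000000000000000) := Q_16 (nat_lit 199) (C_16 L27566 (C_16 L27581 (C_16 L27586 (C_16 L27589 (C_16 L27593 (C_16 L27597 N_16)))))) (by decide +kernel)
theorem L27599 : W_16 (nat_lit 11) (nat_lit 0x4000200380001000280000000000000000000000000000000) (nat_lit 0x0) (nat_lit 0x800070003c003f803f8004500f8801c000f0000000000000000000000000000) := Q_16 (nat_lit 182) (C_16 L27535 (C_16 L27557 (C_16 L27560 (C_16 L27562 (C_16 L27598 N_16))))) (by decide +kernel)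
theorem L27600 : W_16 (nat_lit 2) (nat_lit 0x4022200f90041000280000000000000000000000000000000) (nat_lit 0x0) (nat_lit 0x44001000000000000000000000000000000000000000000) := D_16 (nat_lit 168) (nat_lit 182) (nat_lit 186) (nat_lit 1) (nat_lit 15) (nat_lit 9) (nat_lit 3) (nat_lit 12) (nat_lit 9) (by decide +kernel)
theorem L27601 : W_16 (nat_lit 3) (nat_lit 0x4002200f90041000280000000000000000000000000000000) (nat_lit 0x0) (nat_lit 0x74001000000000000000000000000000000000000000000) := T_16 (nat_lit 185) (nat_lit 184) (nat_lit 3) (nat_lit 11) (nat_lit 9) L27600 (by decide +kernel)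
theorem L27602 : W_16 (nat_lit 4) (nat_lit 0x4000200f90041000280000000000000000000000000000000) (nat_lit 0x0) (nat_lit 0x77001000000000000000000000000000000000000000000) := T_16 (nat_lit 181) (nat_lit 180) (nat_lit 1) (nat_lit 14) (nat_lit 9) L27601 (by decide +kernel)
theorem L27603 : W_16 (nat_lit 5) (nat_lit 0x4000200790041000280000000000000000000000000000000) (nat_lit 0x0) (nat_lit 0x77001800080000000000000000000000000000000000000) := T_16 (nat_lit 167) (nat_lit 151) (nat_lit 2) (nat_lit 11) (nat_lit 9) L27602 (by decide +kernel)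
theorem L27604 : W_16 (nat_lit 6) (nat_lit 0x4000200790001000280000000000000000000000000000000) (nat_lit 0x0) (nat_lit 0x770018000e0000000000000000000000000000000000000) := T_16 (nat_lit 150) (nat_lit 149) (nat_lit 2) (nat_lit 10) (nat_lit 9) L27603 (by decide +kernel)
theorem L27605 : W_16 (nat_lit 7) (nat_lit 0x4000200780001000280000000000000000000000000000000) (nat_lit 0x0) (nat_lit 0x770018100e0800000000000000000000000000000000000) := T_16 (nat_lit 160) (nat_lit 143) (nat_lit 6) (nat_lit 7) (nat_lit 11) L27604 (by decide +kernel)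
theorem L27606 : W_16 (nat_lit 2) (nat_lit 0x40002007c0021000280000000000000000000000000000000) (nat_lit 0x0) (nat_lit 0x1c000000000000000000000000000000000000000000000) := D_16 (nat_lit 183) (nat_lit 184) (nat_lit 182) (nat_lit 3) (nat_lit 10) (nat_lit 9) (nat_lit 3) (nat_lit 9) (nat_lit 9) (by decide +kernel)
theorem L27607 : W_16 (nat_lit 3) (nat_lit 0x4000200780021000280000000000000000000000000000000) (nat_lit 0x0) (nat_lit 0x1c000040010000000000000000000000000000000000000) := T_16 (nat_lit 162) (nat_lit 148) (nat_lit 2) (nat_lit 9) (nat_lit 9) L27606 (by decide +kernel)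
theorem L27608 : W_16 (nat_lit 4) (nat_lit 0x4000200780001000280000000000000000000000000000000) (nat_lit 0x0) (nat_lit 0x1c000040070000000000000000000000000000000000000) := T_16 (nat_lit 149) (nat_lit 150) (nat_lit 2) (nat_lit 10) (nat_lit 9) L27607 (by decide +kernel)
theorem L27609 : W_16 (nat_lit 2) (nat_lit 0x4012200f90081000280000000000000000000000000000000) (nat_lit 0x0) (nat_lit 0x4001000100000000000000000000000000000000000000) := D_16 (nat_lit 168) (nat_lit 152) (nat_lit 182) (nat_lit 2) (nat_lit 12) (nat_lit 9) (nat_lit 1) (nat_lit 15) (nat_lit 9) (by decide +kernel)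
theorem L27610 : W_16 (nat_lit 3) (nat_lit 0x4010200f90081000280000000000000000000000000000000) (nat_lit 0x0) (nat_lit 0x7001000100000000000000000000000000000000000000) := T_16 (nat_lit 181) (nat_lit 180) (nat_lit 1) (nat_lit 14) (nat_lit 9) L27609 (by decide +kernel)
theorem L27611 : W_16 (nat_lit 4) (nat_lit 0x4010200f90001000280000000000000000000000000000000) (nat_lit 0x0) (nat_lit 0x70010001c0000000000000000000000000000000000000) := T_16 (nat_lit 151) (nat_lit 150) (nat_lit 2) (nat_lit 11) (nat_lit 9) L27610 (by decide +kernel)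
theorem L27612 : W_16 (nat_lit 5) (nat_lit 0x4010200790001000280000000000000000000000000000000) (nat_lit 0x0) (nat_lit 0x270018001c0000000000000000000000000000000000000) := T_16 (nat_lit 167) (nat_lit 185) (nat_lit 3) (nat_lit 11) (nat_lit 9) L27611 (by decide +kernel)
theorem L27613 : W_16 (nat_lit 6) (nat_lit 0x4010200780001000280000000000000000000000000000000) (nat_lit 0x0) (nat_lit 0x270018101c0800000000000000000000000000000000000) := T_16 (nat_lit 160) (nat_lit 143) (nat_lit 6) (nat_lit 7) (nat_lit 11) L27612 (by decide +kernel)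
theorem L27614 : W_16 (nat_lit 7) (nat_lit 0x4000200780001000280000000000000000000000000000000) (nat_lit 0x0) (nat_lit 0x3f0018101c0800000000000000000000000000000000000) := T_16 (nat_lit 184) (nat_lit 183) (nat_lit 3) (nat_lit 10) (nat_lit 9) L27613 (by decide +kernel)
theorem L27615 : W_16 (nat_lit 2) (nat_lit 0x4022201f90049000680140000000000000000000000000000) (nat_lit 0x0) (nat_lit 0xa0002000000000000000000000000) := D_16 (nat_lit 113) (nat_lit 97) (nat_lit 115) (nat_lit 6) (nat_lit 11) (nat_lit 9) (nat_lit 1) (nat_lit 14) (nat_lit 6) (by decide +kernel)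
theorem L27616 : W_16 (nat_lit 3) (nat_lit 0x4022201f90049000680100000000000000000000000000000) (nat_lit 0x0) (nat_lit 0x8000e0002000000000000000000000000) := T_16 (nat_lit 114) (nat_lit 131) (nat_lit 6) (nat_lit 11) (nat_lit 10) L27615 (by decide +kernel)
theorem L27617 : W_16 (nat_lit 4) (nat_lit 0x4022201f90049000680000000000000000000000000000000) (nat_lit 0x0) (nat_lit 0x28001e0002000000000000000000000000) := T_16 (nat_lit 116) (nat_lit 133) (nat_lit 7) (nat_lit 14) (nat_lit 6) L27616 (by decide +kernel)
theorem L27618 : W_16 (nat_lit 5) (nat_lit 0x4022201f90049000280000000000000000000000000000000) (nat_lit 0x0) (nat_lit 0x2c001f0002000000000000000000000000) := T_16 (nat_lit 130) (nat_lit 112) (nat_lit 4) (nat_lit 11) (nat_lit 10) L27617 (by decide +kernel)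
theorem L27619 : W_16 (nat_lit 6) (nat_lit 0x4002201f90049000280000000000000000000000000000000) (nat_lit 0x0) (nat_lit 0x60000000000002c001f0002000000000000000000000000) := T_16 (nat_lit 185) (nat_lit 186) (nat_lit 3) (nat_lit 12) (nat_lit 9) L27618 (by decide +kernel)
theorem L27620 : W_16 (nat_lit 7) (nat_lit 0x4002201f90041000280000000000000000000000000000000) (nat_lit 0x0) (nat_lit 0x60000000018002c001f0002000000000000000000000000) := T_16 (nat_lit 147) (nat_lit 148) (nat_lit 0) (nat_lit 15) (nat_lit 9) L27619 (by decide +kernel)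
theorem L27621 : W_16 (nat_lit 8) (nat_lit 0x4002200f90041000280000000000000000000000000000000) (nat_lit 0x0) (nat_lit 0x64001000018002c001f0002000000000000000000000000) := T_16 (nat_lit 168) (nat_lit 182) (nat_lit 1) (nat_lit 15) (nat_lit 9) L27620 (by decide +kernel)
theorem L27622 : W_16 (nat_lit 9) (nat_lit 0x4000200f90041000280000000000000000000000000000000) (nat_lit 0x0) (nat_lit 0x67001000018002c001f0002000000000000000000000000) := T_16 (nat_lit 181) (nat_lit 180) (nat_lit 1) (nat_lit 14) (nat_lit 9) L27621 (by decide +kernel)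
theorem L27623 : W_16 (nat_lit 10) (nat_lit 0x4000200790041000280000000000000000000000000000000) (nat_lit 0x0) (nat_lit 0x67001800098002c001f0002000000000000000000000000) := T_16 (nat_lit 167) (nat_lit 151) (nat_lit 2) (nat_lit 11) (nat_lit 9) L27622 (by decide +kernel)
theorem L27624 : W_16 (nat_lit 11) (nat_lit 0x4000200780041000280000000000000000000000000000000) (nat_lit 0x0) (nat_lit 0x67001810098802c001f0002000000000000000000000000) := T_16 (nat_lit 160) (nat_lit 143) (nat_lit 6) (nat_lit 7) (nat_lit 11) L27623 (by decide +kernel)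
theorem L27625 : W_16 (nat_lit 12) (nat_lit 0x4000200780001000280000000000000000000000000000000) (nat_lit 0x0) (nat_lit 0x670018100f8802c001f0002000000000000000000000000) := T_16 (nat_lit 150) (nat_lit 149) (nat_lit 2) (nat_lit 10) (nat_lit 9) L27624 (by decide +kernel)
theorem L27626 : W_16 (nat_lit 2) (nat_lit 0x4012201f90011000280000000000000000000000000000000) (nat_lit 0x0) (nat_lit 0x2040020000000000000000000000000000000000000) := D_16 (nat_lit 149) (nat_lit 169) (nat_lit 162) (nat_lit 0) (nat_lit 16) (nat_lit 9) (nat_lit 2) (nat_lit 9) (nat_lit 9) (by decide +kernel)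
theorem L27627 : W_16 (nat_lit 3) (nat_lit 0x4012201f90001000280000000000000000000000000000000) (nat_lit 0x0) (nat_lit 0x2040038000000000000000000000000000000000000) := T_16 (nat_lit 148) (nat_lit 147) (nat_lit 0) (nat_lit 15) (nat_lit 9) L27626 (by decide +kernel)
theorem L27628 : W_16 (nat_lit 4) (nat_lit 0x4012200f90001000280000000000000000000000000000000) (nat_lit 0x0) (nat_lit 0x4003040038000000000000000000000000000000000000) := T_16 (nat_lit 168) (nat_lit 182) (nat_lit 1) (nat_lit 15) (nat_lit 9) L27627 (by decide +kernel)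
theorem L27629 : W_16 (nat_lit 5) (nat_lit 0x4010200f90001000280000000000000000000000000000000) (nat_lit 0x0) (nat_lit 0x7003040038000000000000000000000000000000000000) := T_16 (nat_lit 181) (nat_lit 180) (nat_lit 1) (nat_lit 14) (nat_lit 9) L27628 (by decide +kernel)
theorem L27630 : W_16 (nat_lit 6) (nat_lit 0x4010200790001000280000000000000000000000000000000) (nat_lit 0x0) (nat_lit 0x27003840038000000000000000000000000000000000000) := T_16 (nat_lit 167) (nat_lit 185) (nat_lit 3) (nat_lit 11) (nat_lit 9) L27629 (by decide +kernel)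
theorem L27631 : W_16 (nat_lit 7) (nat_lit 0x4010200780001000280000000000000000000000000000000) (nat_lit 0x0) (nat_lit 0x27003850038800000000000000000000000000000000000) := T_16 (nat_lit 160) (nat_lit 143) (nat_lit 6) (nat_lit 7) (nat_lit 11) L27630 (by decide +kernel)
theorem L27632 : W_16 (nat_lit 8) (nat_lit 0x4000200780001000280000000000000000000000000000000) (nat_lit 0x0) (nat_lit 0x3f003850038800000000000000000000000000000000000) := T_16 (nat_lit 184) (nat_lit 183) (nat_lit 3) (nat_lit 10) (nat_lit 9) L27631 (by decide +kernel)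
theorem L27633 : W_16 (nat_lit 13) (nat_lit 0x4000200380001000280000000000000000000000000000000) (nat_lit 0x0) (nat_lit 0x7f003c501f8802c001f0002000000000000000000000000) := Q_16 (nat_lit 166) (C_16 L27605 (C_16 L27531 (C_16 L27608 (C_16 L27614 (C_16 L27625 (C_16 L27632 N_16)))))) (by decide +kernel)
theorem L27634 : W_16 (nat_lit 4) (nat_lit 0x4022201f90049000280100000000000000000000000000000) (nat_lit 0x0) (nat_lit 0xc000f0002000000000000000000000000) := T_16 (nat_lit 130) (nat_lit 112) (nat_lit 4) (nat_lit 11) (nat_lit 10) L27616 (by decide +kernel)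
theorem L27635 : W_16 (nat_lit 5) (nat_lit 0x4022201f90041000280100000000000000000000000000000) (nat_lit 0x0) (nat_lit 0x18000c000f0002000000000000000000000000) := T_16 (nat_lit 147) (nat_lit 148) (nat_lit 0) (nat_lit 15) (nat_lit 9) L27634 (by decide +kernel)
theorem L27636 : W_16 (nat_lit 6) (nat_lit 0x4022201f90041000280000000000000000000000000000000) (nat_lit 0x0) (nat_lit 0x18002c001f0002000000000000000000000000) := T_16 (nat_lit 116) (nat_lit 133) (nat_lit 7) (nat_lit 14) (nat_lit 6) L27635 (by decide +kernel)
theorem L27637 : W_16 (nat_lit 7) (nat_lit 0x4020201f90041000280000000000000000000000000000000) (nat_lit 0x0) (nat_lit 0x6000000018002c001f0002000000000000000000000000) := T_16 (nat_lit 181) (nat_lit 182) (nat_lit 1) (nat_lit 15) (nat_lit 9) L27636 (by decide +kernel)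
theorem L27638 : W_16 (nat_lit 8) (nat_lit 0x4020200f90041000280000000000000000000000000000000) (nat_lit 0x0) (nat_lit 0x46001000018002c001f0002000000000000000000000000) := T_16 (nat_lit 168) (nat_lit 186) (nat_lit 3) (nat_lit 12) (nat_lit 9) L27637 (by decide +kernel)
theorem L27639 : W_16 (nat_lit 9) (nat_lit 0x4000200f90041000280000000000000000000000000000000) (nat_lit 0x0) (nat_lit 0x76001000018002c001f0002000000000000000000000000) := T_16 (nat_lit 185) (nat_lit 184) (nat_lit 3) (nat_lit 11) (nat_lit 9) L27638 (by decide +kernel)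
theorem L27640 : W_16 (nat_lit 10) (nat_lit 0x4000200790041000280000000000000000000000000000000) (nat_lit 0x0) (nat_lit 0x76001800098002c001f0002000000000000000000000000) := T_16 (nat_lit 167) (nat_lit 151) (nat_lit 2) (nat_lit 11) (nat_lit 9) L27639 (by decide +kernel)
theorem L27641 : W_16 (nat_lit 11) (nat_lit 0x4000200790001000280000000000000000000000000000000) (nat_lit 0x0) (nat_lit 0x760018000f8002c001f0002000000000000000000000000) := T_16 (nat_lit 150) (nat_lit 149) (nat_lit 2) (nat_lit 10) (nat_lit 9) L27640 (by decide +kernel)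
theorem L27642 : W_16 (nat_lit 12) (nat_lit 0x4000200780001000280000000000000000000000000000000) (nat_lit 0x0) (nat_lit 0x760018100f8802c001f0002000000000000000000000000) := T_16 (nat_lit 160) (nat_lit 143) (nat_lit 6) (nat_lit 7) (nat_lit 11) L27641 (by decide +kernel)
theorem L27643 : W_16 (nat_lit 2) (nat_lit 0x4000200f80001000280000000000000000000000000000000) (nat_lit 0x0) (nat_lit 0x38000000000000000000000000000000000000000000000) := D_16 (nat_lit 184) (nat_lit 183) (nat_lit 185) (nat_lit 3) (nat_lit 10) (nat_lit 9) (nat_lit 3) (nat_lit 11) (nat_lit 9) (by decide +kernel)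
theorem L27644 : W_16 (nat_lit 2) (nat_lit 0x8000004022201f80049000680140000000000000000000000000000) (nat_lit 0x0) (nat_lit 0xa0002000000000000000000000000) := D_16 (nat_lit 113) (nat_lit 97) (nat_lit 115) (nat_lit 6) (nat_lit 11) (nat_lit 9) (nat_lit 1) (nat_lit 14) (nat_lit 6) (by decide +kernel)
theorem L27645 : W_16 (nat_lit 3) (nat_lit 0x8000004022201f80049000680100000000000000000000000000000) (nat_lit 0x0) (nat_lit 0x8000e0002000000000000000000000000) := T_16 (nat_lit 114) (nat_lit 131) (nat_lit 6) (nat_lit 11) (nat_lit 10) L27644 (by decide +kernel)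
theorem L27646 : W_16 (nat_lit 4) (nat_lit 0x8000004022201f80049000280100000000000000000000000000000) (nat_lit 0x0) (nat_lit 0xc000f0002000000000000000000000000) := T_16 (nat_lit 130) (nat_lit 112) (nat_lit 4) (nat_lit 11) (nat_lit 10) L27645 (by decide +kernel)
theorem L27647 : W_16 (nat_lit 5) (nat_lit 0x8000004022201f80041000280100000000000000000000000000000) (nat_lit 0x0) (nat_lit 0x18000c000f0002000000000000000000000000) := T_16 (nat_lit 147) (nat_lit 148) (nat_lit 0) (nat_lit 15) (nat_lit 9) L27646 (by decide +kernel)
theorem L27648 : W_16 (nat_lit 6) (nat_lit 0x4022201f80041000280100000000000000000000000000000) (nat_lit 0x0) (nat_lit 0x8000400000000000018000c000f0002000000000000000000000000) := T_16 (nat_lit 219) (nat_lit 202) (nat_lit 4) (nat_lit 15) (nat_lit 12) L27647 (by decide +kernel)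
theorem L27649 : W_16 (nat_lit 7) (nat_lit 0x4022201f80041000280000000000000000000000000000000) (nat_lit 0x0) (nat_lit 0x8000400000000000018002c001f0002000000000000000000000000) := T_16 (nat_lit 116) (nat_lit 133) (nat_lit 7) (nat_lit 14) (nat_lit 6) L27648 (by decide +kernel)
theorem L27650 : W_16 (nat_lit 8) (nat_lit 0x4020201f80041000280000000000000000000000000000000) (nat_lit 0x0) (nat_lit 0x8000400006000000018002c001f0002000000000000000000000000) := T_16 (nat_lit 181) (nat_lit 182) (nat_lit 1) (nat_lit 15) (nat_lit 9) L27649 (by decide +kernel)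
theorem L27651 : W_16 (nat_lit 9) (nat_lit 0x4020200f80041000280000000000000000000000000000000) (nat_lit 0x0) (nat_lit 0x8000400046001000018002c001f0002000000000000000000000000) := T_16 (nat_lit 168) (nat_lit 186) (nat_lit 3) (nat_lit 12) (nat_lit 9) L27650 (by decide +kernel)
theorem L27652 : W_16 (nat_lit 10) (nat_lit 0x4020200f80001000280000000000000000000000000000000) (nat_lit 0x0) (nat_lit 0x80004000460010000d8002c001f0002000000000000000000000000) := T_16 (nat_lit 150) (nat_lit 151) (nat_lit 2) (nat_lit 11) (nat_lit 9) L27651 (by decide +kernel)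
theorem L27653 : W_16 (nat_lit 11) (nat_lit 0x4000200f80001000280000000000000000000000000000000) (nat_lit 0x0) (nat_lit 0x80004000760010000d8002c001f0002000000000000000000000000) := T_16 (nat_lit 185) (nat_lit 184) (nat_lit 3) (nat_lit 11) (nat_lit 9) L27652 (by decide +kernel)
theorem L27654 : W_16 (nat_lit 2) (nat_lit 0x4004201f90081000280000000000000000000000000000000) (nat_lit 0x0) (nat_lit 0x8002040000000000000000000000000000000000000000) := D_16 (nat_lit 183) (nat_lit 169) (nat_lit 162) (nat_lit 1) (nat_lit 16) (nat_lit 9) (nat_lit 3) (nat_lit 9) (nat_lit 9) (by decide +kernel)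
theorem L27655 : W_16 (nat_lit 3) (nat_lit 0x4000201f90081000280000000000000000000000000000000) (nat_lit 0x0) (nat_lit 0xe002040000000000000000000000000000000000000000) := T_16 (nat_lit 182) (nat_lit 181) (nat_lit 1) (nat_lit 15) (nat_lit 9) L27654 (by decide +kernel)
theorem L27656 : W_16 (nat_lit 4) (nat_lit 0x4000200f90081000280000000000000000000000000000000) (nat_lit 0x0) (nat_lit 0xe003040100000000000000000000000000000000000000) := T_16 (nat_lit 168) (nat_lit 152) (nat_lit 2) (nat_lit 12) (nat_lit 9) L27655 (by decide +kernel)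
theorem L27657 : W_16 (nat_lit 5) (nat_lit 0x4000200f90001000280000000000000000000000000000000) (nat_lit 0x0) (nat_lit 0xe0030401c0000000000000000000000000000000000000) := T_16 (nat_lit 151) (nat_lit 150) (nat_lit 2) (nat_lit 11) (nat_lit 9) L27656 (by decide +kernel)
theorem L27658 : W_16 (nat_lit 6) (nat_lit 0x4000200f80001000280000000000000000000000000000000) (nat_lit 0x0) (nat_lit 0xe0030501c0800000000000000000000000000000000000) := T_16 (nat_lit 160) (nat_lit 143) (nat_lit 6) (nat_lit 7) (nat_lit 11) L27657 (by decide +kernel)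
theorem L27659 : W_16 (nat_lit 12) (nat_lit 0x4000200780001000280000000000000000000000000000000) (nat_lit 0x0) (nat_lit 0x800040007e0038501d8802c001f0002000000000000000000000000) := Q_16 (nat_lit 167) (C_16 L27643 (C_16 L27653 (C_16 L27658 N_16))) (by decide +kernel)
theorem L27660 : W_16 (nat_lit 2) (nat_lit 0x4004200780011000a80000000000000000000000000000000) (nat_lit 0x0) (nat_lit 0x100008000040000000000000000000000000000000000000000) := D_16 (nat_lit 183) (nat_lit 162) (nat_lit 200) (nat_lit 3) (nat_lit 9) (nat_lit 9) (nat_lit 7) (nat_lit 12) (nat_lit 7) (by decide +kernel)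
theorem L27661 : W_16 (nat_lit 2) (nat_lit 0x4006201790011000e80000000000000000000000000000000) (nat_lit 0x0) (nat_lit 0x80000000000008000000010000000000000000000000000000) := D_16 (nat_lit 147) (nat_lit 112) (nat_lit 199) (nat_lit 4) (nat_lit 11) (nat_lit 10) (nat_lit 7) (nat_lit 11) (nat_lit 7) (by decide +kernel)
theorem L27662 : W_16 (nat_lit 3) (nat_lit 0x4006201790011000a80000000000000000000000000000000) (nat_lit 0x0) (nat_lit 0x80000000000008000400030000000000000000000000000000) := T_16 (nat_lit 130) (nat_lit 113) (nat_lit 4) (nat_lit 12) (nat_lit 10) L27661 (by decide +kernel)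
theorem L27663 : W_16 (nat_lit 4) (nat_lit 0x4006200790011000a80000000000000000000000000000000) (nat_lit 0x0) (nat_lit 0x80000001800008000400030000000000000000000000000000) := T_16 (nat_lit 168) (nat_lit 167) (nat_lit 1) (nat_lit 15) (nat_lit 9) L27662 (by decide +kernel)
theorem L27664 : W_16 (nat_lit 5) (nat_lit 0x4004200790011000a80000000000000000000000000000000) (nat_lit 0x0) (nat_lit 0xc0002001800008000400030000000000000000000000000000) := T_16 (nat_lit 181) (nat_lit 198) (nat_lit 5) (nat_lit 12) (nat_lit 7) L27663 (by decide +kernel)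
theorem L27665 : W_16 (nat_lit 6) (nat_lit 0x4004200780011000a80000000000000000000000000000000) (nat_lit 0x0) (nat_lit 0xc0002001810008800400030000000000000000000000000000) := T_16 (nat_lit 160) (nat_lit 143) (nat_lit 6) (nat_lit 7) (nat_lit 11) L27664 (by decide +kernel)
theorem L27666 : W_16 (nat_lit 7) (nat_lit 0x4000200780011000a80000000000000000000000000000000) (nat_lit 0x0) (nat_lit 0x1c000e001850008800400030000000000000000000000000000) := Q_16 (nat_lit 182) (C_16 L27660 (C_16 L27665 N_16)) (by decide +kernel)
theorem L27667 : W_16 (nat_lit 2) (nat_lit 0x4000200780011000a80000000000000000000000000000000) (nat_lit 0x0) (nat_lit 0xa000000000000000040000000000000000000000000000) := D_16 (nat_lit 114) (nat_lit 181) (nat_lit 183) (nat_lit 5) (nat_lit 12) (nat_lit 6) (nat_lit 7) (nat_lit 12) (nat_lit 6) (by decide +kernel)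
theorem L27668 : W_16 (nat_lit 2) (nat_lit 0x4000200790011000a800c0002000000000000000000000000) (nat_lit 0x0) (nat_lit 0x20001000080000000000000000000) := D_16 (nat_lit 96) (nat_lit 79) (nat_lit 113) (nat_lit 4) (nat_lit 12) (nat_lit 8) (nat_lit 4) (nat_lit 12) (nat_lit 9) (by decide +kernel)
theorem L27669 : W_16 (nat_lit 3) (nat_lit 0x4000200790011000a800c0000000000000000000000000000) (nat_lit 0x0) (nat_lit 0x8000000020003000080000000000000000000) := T_16 (nat_lit 97) (nat_lit 147) (nat_lit 5) (nat_lit 12) (nat_lit 5) L27668 (by decide +kernel)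
theorem L27670 : W_16 (nat_lit 4) (nat_lit 0x4000200790011000a80040000000000000000000000000000) (nat_lit 0x0) (nat_lit 0x80000000a0007000080000000000000000000) := T_16 (nat_lit 115) (nat_lit 98) (nat_lit 6) (nat_lit 12) (nat_lit 9) L27669 (by decide +kernel)
theorem L27671 : W_16 (nat_lit 5) (nat_lit 0x4000200790011000a80000000000000000000000000000000) (nat_lit 0x0) (nat_lit 0x80000000080000000e0007000080000000000000000000) := T_16 (nat_lit 114) (nat_lit 183) (nat_lit 7) (nat_lit 12) (nat_lit 6) L27670 (by decide +kernel)
theorem L27672 : W_16 (nat_lit 6) (nat_lit 0x4000200780011000a80000000000000000000000000000000) (nat_lit 0x0) (nat_lit 0x80000100088000000e0007000080000000000000000000) := T_16 (nat_lit 160) (nat_lit 143) (nat_lit 6) (nat_lit 7) (nat_lit 11) L27671 (by decide +kernel)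
theorem L27673 : W_16 (nat_lit 2) (nat_lit 0x4000200780011000a80040002000000000000000000000000) (nat_lit 0x0) (nat_lit 0x20001000080000000000000000000) := D_16 (nat_lit 96) (nat_lit 79) (nat_lit 113) (nat_lit 4) (nat_lit 12) (nat_lit 8) (nat_lit 4) (nat_lit 12) (nat_lit 9) (by decide +kernel)
theorem L27674 : W_16 (nat_lit 3) (nat_lit 0x4000200780011000a80040000000000000000000000000000) (nat_lit 0x0) (nat_lit 0x8000000020003000080000000000000000000) := T_16 (nat_lit 97) (nat_lit 147) (nat_lit 5) (nat_lit 12) (nat_lit 5) L27673 (by decide +kernel)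
theorem L27675 : W_16 (nat_lit 4) (nat_lit 0x4000200780011000a80000000000000000000000000000000) (nat_lit 0x0) (nat_lit 0x2000000008000000060003000080000000000000000000) := T_16 (nat_lit 114) (nat_lit 181) (nat_lit 5) (nat_lit 12) (nat_lit 6) L27674 (by decide +kernel)
theorem L27676 : W_16 (nat_lit 8) (nat_lit 0x4000200780011000280000000000000000000000000000000) (nat_lit 0x0) (nat_lit 0x1c000e001850008800c000f0007000080000000000000000000) := Q_16 (nat_lit 131) (C_16 L27666 (C_16 L27667 (C_16 L27672 (C_16 L27675 N_16)))) (by decide +kernel)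
theorem L27677 : W_16 (nat_lit 2) (nat_lit 0x4000200780011000280000000000000000000000000000000) (nat_lit 0x0) (nat_lit 0x40060000000000000000000000000000000000000) := D_16 (nat_lit 149) (nat_lit 162) (nat_lit 150) (nat_lit 2) (nat_lit 9) (nat_lit 9) (nat_lit 2) (nat_lit 10) (nat_lit 9) (by decide +kernel)
theorem L27678 : W_16 (nat_lit 2) (nat_lit 0x402c201f90051000280000000000000000000000000000000) (nat_lit 0x0) (nat_lit 0x2000100000000000000000800000000000000000000000000000000) := D_16 (nat_lit 200) (nat_lit 217) (nat_lit 131) (nat_lit 6) (nat_lit 13) (nat_lit 12) (nat_lit 7) (nat_lit 12) (nat_lit 7) (by decide +kernel)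
theorem L27679 : W_16 (nat_lit 3) (nat_lit 0x4024201f90051000280000000000000000000000000000000) (nat_lit 0x0) (nat_lit 0x2000100008002000000000800000000000000000000000000000000) := T_16 (nat_lit 183) (nat_lit 169) (nat_lit 1) (nat_lit 16) (nat_lit 9) L27678 (by decide +kernel)
theorem L27680 : W_16 (nat_lit 4) (nat_lit 0x4004201f90051000280000000000000000000000000000000) (nat_lit 0x0) (nat_lit 0x2000100068002000000000800000000000000000000000000000000) := T_16 (nat_lit 185) (nat_lit 186) (nat_lit 3) (nat_lit 12) (nat_lit 9) L27679 (by decide +kernel)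
theorem L27681 : W_16 (nat_lit 5) (nat_lit 0x4000201f90051000280000000000000000000000000000000) (nat_lit 0x0) (nat_lit 0x200010006e002000000000800000000000000000000000000000000) := T_16 (nat_lit 182) (nat_lit 181) (nat_lit 1) (nat_lit 15) (nat_lit 9) L27680 (by decide +kernel)
theorem L27682 : W_16 (nat_lit 6) (nat_lit 0x4000200f90051000280000000000000000000000000000000) (nat_lit 0x0) (nat_lit 0x200010006e003000008000800000000000000000000000000000000) := T_16 (nat_lit 168) (nat_lit 147) (nat_lit 0) (nat_lit 15) (nat_lit 9) L27681 (by decide +kernel)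
theorem L27683 : W_16 (nat_lit 7) (nat_lit 0x4000200790051000280000000000000000000000000000000) (nat_lit 0x0) (nat_lit 0x200010006e003800088000800000000000000000000000000000000) := T_16 (nat_lit 167) (nat_lit 151) (nat_lit 2) (nat_lit 11) (nat_lit 9) L27682 (by decide +kernel)
theorem L27684 : W_16 (nat_lit 8) (nat_lit 0x4000200790011000280000000000000000000000000000000) (nat_lit 0x0) (nat_lit 0x200010006e0038000e8000800000000000000000000000000000000) := T_16 (nat_lit 150) (nat_lit 149) (nat_lit 2) (nat_lit 10) (nat_lit 9) L27683 (by decide +kernel)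
theorem L27685 : W_16 (nat_lit 9) (nat_lit 0x4000200780011000280000000000000000000000000000000) (nat_lit 0x0) (nat_lit 0x200010006e0038100e8800800000000000000000000000000000000) := T_16 (nat_lit 160) (nat_lit 143) (nat_lit 6) (nat_lit 7) (nat_lit 11) L27684 (by decide +kernel)
theorem L27686 : W_16 (nat_lit 10) (nat_lit 0x4000200780001000280000000000000000000000000000000) (nat_lit 0x0) (nat_lit 0x20001c006e0038500f8800c000f0007000080000000000000000000) := Q_16 (nat_lit 148) (C_16 L27676 (C_16 L27677 (C_16 L27685 N_16))) (by decide +kernel)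
theorem L27687 : W_16 (nat_lit 2) (nat_lit 0x4004200780001000280000000000000000000000000000000) (nat_lit 0x0) (nat_lit 0x18000040000000000000000000000000000000000000000) := D_16 (nat_lit 183) (nat_lit 184) (nat_lit 162) (nat_lit 3) (nat_lit 10) (nat_lit 9) (nat_lit 3) (nat_lit 9) (nat_lit 9) (by decide +kernel)
theorem L27688 : W_16 (nat_lit 2) (nat_lit 0x84004200780011000280000000000000000000000000000000) (nat_lit 0x0) (nat_lit 0x40020001000000000000000000000000000000000) := D_16 (nat_lit 149) (nat_lit 162) (nat_lit 132) (nat_lit 2) (nat_lit 9) (nat_lit 9) (nat_lit 6) (nat_lit 12) (nat_lit 11) (by decide +kernel)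
theorem L27689 : W_16 (nat_lit 2) (nat_lit 0xc4004200790011000a80000000000000000000000000000000) (nat_lit 0x0) (nat_lit 0x8000400020000000000000000000000000000) := D_16 (nat_lit 130) (nat_lit 147) (nat_lit 113) (nat_lit 4) (nat_lit 12) (nat_lit 11) (nat_lit 4) (nat_lit 12) (nat_lit 10) (by decide +kernel)
theorem L27690 : W_16 (nat_lit 3) (nat_lit 0xc4004200790011000280000000000000000000000000000000) (nat_lit 0x0) (nat_lit 0x2000000008000c00020000000000000000000000000000) := T_16 (nat_lit 131) (nat_lit 181) (nat_lit 5) (nat_lit 12) (nat_lit 7) L27689 (by decide +kernel)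
theorem L27691 : W_16 (nat_lit 4) (nat_lit 0x84004200790011000280000000000000000000000000000000) (nat_lit 0x0) (nat_lit 0x800040002000000008000c00020000000000000000000000000000) := T_16 (nat_lit 198) (nat_lit 215) (nat_lit 5) (nat_lit 12) (nat_lit 8) L27690 (by decide +kernel)
theorem L27692 : W_16 (nat_lit 5) (nat_lit 0x84004200780011000280000000000000000000000000000000) (nat_lit 0x0) (nat_lit 0x800040002000010008800c00020000000000000000000000000000) := T_16 (nat_lit 160) (nat_lit 143) (nat_lit 6) (nat_lit 7) (nat_lit 11) L27691 (by decide +kernel)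
theorem L27693 : W_16 (nat_lit 6) (nat_lit 0x84004200780001000280000000000000000000000000000000) (nat_lit 0x0) (nat_lit 0x800040002000050038801c00020000000000000000000000000000) := Q_16 (nat_lit 148) (C_16 L27688 (C_16 L27692 N_16)) (by decide +kernel)
theorem L27694 : W_16 (nat_lit 2) (nat_lit 0x20001000084004200790001000280000000000000000000000000000000) (nat_lit 0x0) (nat_lit 0x800040002000000000000000000000000000000000000000000000000000000) := D_16 (nat_lit 234) (nat_lit 217) (nat_lit 251) (nat_lit 7) (nat_lit 12) (nat_lit 9) (nat_lit 7) (nat_lit 12) (nat_lit 10) (by decide +kernel)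
theorem L27695 : W_16 (nat_lit 3) (nat_lit 0x1000084004200790001000280000000000000000000000000000000) (nat_lit 0x0) (nat_lit 0x800060002000000002000000000000000000000000000000000000000000000) := T_16 (nat_lit 233) (nat_lit 181) (nat_lit 4) (nat_lit 12) (nat_lit 13) L27694 (by decide +kernel)
theorem L27696 : W_16 (nat_lit 4) (nat_lit 0x84004200790001000280000000000000000000000000000000) (nat_lit 0x0) (nat_lit 0x800060003000000002000000008000000000000000000000000000000000000) := T_16 (nat_lit 216) (nat_lit 147) (nat_lit 4) (nat_lit 12) (nat_lit 12) L27695 (by decide +kernel)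
theorem L27697 : W_16 (nat_lit 5) (nat_lit 0x84004200780001000280000000000000000000000000000000) (nat_lit 0x0) (nat_lit 0x800060003000000002000010008800000000000000000000000000000000000) := T_16 (nat_lit 160) (nat_lit 143) (nat_lit 6) (nat_lit 7) (nat_lit 11) L27696 (by decide +kernel)
theorem L27698 : W_16 (nat_lit 2) (nat_lit 0x1800084004200780011000280000000000000000000000000000000) (nat_lit 0x0) (nat_lit 0x40002000100000000000000000000000000000000000000000000000000) := D_16 (nat_lit 217) (nat_lit 234) (nat_lit 200) (nat_lit 7) (nat_lit 12) (nat_lit 9) (nat_lit 7) (nat_lit 12) (nat_lit 8) (by decide +kernel)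
theorem L27699 : W_16 (nat_lit 3) (nat_lit 0x1800084004200780001000280000000000000000000000000000000) (nat_lit 0x0) (nat_lit 0x40002000140000000000010000000000000000000000000000000000000) := T_16 (nat_lit 148) (nat_lit 198) (nat_lit 5) (nat_lit 12) (nat_lit 8) L27698 (by decide +kernel)
theorem L27700 : W_16 (nat_lit 4) (nat_lit 0x1000084004200780001000280000000000000000000000000000000) (nat_lit 0x0) (nat_lit 0x50002800140000000000010000000000000000000000000000000000000) := T_16 (nat_lit 215) (nat_lit 232) (nat_lit 5) (nat_lit 12) (nat_lit 9) L27699 (by decide +kernel)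
theorem L27701 : W_16 (nat_lit 5) (nat_lit 0x84004200780001000280000000000000000000000000000000) (nat_lit 0x0) (nat_lit 0x50003800140000000000030000000000000000000000000000000000000) := T_16 (nat_lit 216) (nat_lit 149) (nat_lit 6) (nat_lit 12) (nat_lit 12) L27700 (by decide +kernel)
theorem L27702 : W_16 (nat_lit 7) (nat_lit 0x4004200780001000280000000000000000000000000000000) (nat_lit 0x0) (nat_lit 0x8000700038001c0002000050038801c00020000000000000000000000000000) := Q_16 (nat_lit 199) (C_16 L27693 (C_16 L27697 (C_16 L27701 N_16))) (by decide +kernel)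
theorem L27703 : W_16 (nat_lit 2) (nat_lit 0x4014201f900b1000280000000000000000000000000000000) (nat_lit 0x0) (nat_lit 0x80000000000000001000080000000000000000000000000000) := D_16 (nat_lit 132) (nat_lit 115) (nat_lit 199) (nat_lit 7) (nat_lit 13) (nat_lit 6) (nat_lit 6) (nat_lit 12) (nat_lit 11) (by decide +kernel)
theorem L27704 : W_16 (nat_lit 3) (nat_lit 0x4014201f90091000280000000000000000000000000000000) (nat_lit 0x0) (nat_lit 0x80000002000020001000080000000000000000000000000000) := T_16 (nat_lit 149) (nat_lit 169) (nat_lit 0) (nat_lit 16) (nat_lit 9) L27703 (by decide +kernel)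
theorem L27705 : W_16 (nat_lit 4) (nat_lit 0x4014201f90011000280000000000000000000000000000000) (nat_lit 0x0) (nat_lit 0x800000020001a0001000080000000000000000000000000000) := T_16 (nat_lit 151) (nat_lit 152) (nat_lit 2) (nat_lit 12) (nat_lit 9) L27704 (by decide +kernel)
theorem L27706 : W_16 (nat_lit 5) (nat_lit 0x4014201f90001000280000000000000000000000000000000) (nat_lit 0x0) (nat_lit 0x800000020001b8001000080000000000000000000000000000) := T_16 (nat_lit 148) (nat_lit 147) (nat_lit 0) (nat_lit 15) (nat_lit 9) L27705 (by decide +kernel)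
theorem L27707 : W_16 (nat_lit 6) (nat_lit 0x4014200f90001000280000000000000000000000000000000) (nat_lit 0x0) (nat_lit 0x800020030001b8001000080000000000000000000000000000) := T_16 (nat_lit 168) (nat_lit 181) (nat_lit 1) (nat_lit 15) (nat_lit 9) L27706 (by decide +kernel)
theorem L27708 : W_16 (nat_lit 7) (nat_lit 0x4014200790001000280000000000000000000000000000000) (nat_lit 0x0) (nat_lit 0x800220038001b8001000080000000000000000000000000000) := T_16 (nat_lit 167) (nat_lit 185) (nat_lit 3) (nat_lit 11) (nat_lit 9) L27707 (by decide +kernel)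
theorem L27709 : W_16 (nat_lit 8) (nat_lit 0x4004200790001000280000000000000000000000000000000) (nat_lit 0x0) (nat_lit 0x8003a0038001b8001000080000000000000000000000000000) := T_16 (nat_lit 184) (nat_lit 183) (nat_lit 3) (nat_lit 10) (nat_lit 9) L27708 (by decide +kernel)
theorem L27710 : W_16 (nat_lit 9) (nat_lit 0x4004200780001000280000000000000000000000000000000) (nat_lit 0x0) (nat_lit 0x8003a0038101b8801000080000000000000000000000000000) := T_16 (nat_lit 160) (nat_lit 143) (nat_lit 6) (nat_lit 7) (nat_lit 11) L27709 (by decide +kernel)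
theorem L27711 : W_16 (nat_lit 10) (nat_lit 0x4000200780001000280000000000000000000000000000000) (nat_lit 0x0) (nat_lit 0x8000700038001c003e0038501b8801c000a0000000000000000000000000000) := Q_16 (nat_lit 182) (C_16 L27687 (C_16 L27702 (C_16 L27710 N_16))) (by decide +kernel)
theorem L27712 : W_16 (nat_lit 13) (nat_lit 0x4000200380001000280000000000000000000000000000000) (nat_lit 0x0) (nat_lit 0x80007000b8005c007e003c501f8803c001f0007000080000000000000000000) := Q_16 (nat_lit 166) (C_16 L27608 (C_16 L27642 (C_16 L27531 (C_16 L27659 (C_16 L27686 (C_16 L27711 N_16)))))) (by decide +kernel)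
theorem L27713 : W_16 (nat_lit 2) (nat_lit 0x4011200790001000280000000000000000000000000000000) (nat_lit 0x0) (nat_lit 0x22000800000000000000000000000000000000000000000) := D_16 (nat_lit 167) (nat_lit 185) (nat_lit 181) (nat_lit 3) (nat_lit 11) (nat_lit 9) (nat_lit 1) (nat_lit 14) (nat_lit 9) (by decide +kernel)
theorem L27714 : W_16 (nat_lit 3) (nat_lit 0x4010200790001000280000000000000000000000000000000) (nat_lit 0x0) (nat_lit 0x23800800000000000000000000000000000000000000000) := T_16 (nat_lit 180) (nat_lit 179) (nat_lit 1) (nat_lit 13) (nat_lit 9) L27713 (by decide +kernel)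
theorem L27715 : W_16 (nat_lit 4) (nat_lit 0x4000200790001000280000000000000000000000000000000) (nat_lit 0x0) (nat_lit 0x3b800800000000000000000000000000000000000000000) := T_16 (nat_lit 184) (nat_lit 183) (nat_lit 3) (nat_lit 10) (nat_lit 9) L27714 (by decide +kernel)
theorem L27716 : W_16 (nat_lit 5) (nat_lit 0x4000200780001000280000000000000000000000000000000) (nat_lit 0x0) (nat_lit 0x3b800810000800000000000000000000000000000000000) := T_16 (nat_lit 160) (nat_lit 143) (nat_lit 6) (nat_lit 7) (nat_lit 11) L27715 (by decide +kernel)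
theorem L27717 : W_16 (nat_lit 6) (nat_lit 0x4000200380001000280000000000000000000000000000000) (nat_lit 0x0) (nat_lit 0x3bc00c500f0800000000000000000000000000000000000) := Q_16 (nat_lit 166) (C_16 L27531 (C_16 L27524 (C_16 L27716 N_16))) (by decide +kernel)
theorem L27718 : W_16 (nat_lit 2) (nat_lit 0x1c40062003900b1000280000000000000000000000000000000) (nat_lit 0x0) (nat_lit 0x200001800000000000000000000000000000000000000000000) := D_16 (nat_lit 180) (nat_lit 179) (nat_lit 201) (nat_lit 3) (nat_lit 9) (nat_lit 10) (nat_lit 0) (nat_lit 14) (nat_lit 11) (by decide +kernel)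
theorem L27719 : W_16 (nat_lit 3) (nat_lit 0xc40062003900b1000280000000000000000000000000000000) (nat_lit 0x0) (nat_lit 0x2000300001800000000000000000000000000000000000000000000) := T_16 (nat_lit 200) (nat_lit 217) (nat_lit 7) (nat_lit 12) (nat_lit 8) L27718 (by decide +kernel)
theorem L27720 : W_16 (nat_lit 4) (nat_lit 0xc40042003900b1000280000000000000000000000000000000) (nat_lit 0x0) (nat_lit 0x2000300003800000000000800000000000000000000000000000000) := T_16 (nat_lit 181) (nat_lit 131) (nat_lit 5) (nat_lit 12) (nat_lit 7) L27719 (by decide +kernel)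
theorem L27721 : W_16 (nat_lit 5) (nat_lit 0x840042003900b1000280000000000000000000000000000000) (nat_lit 0x0) (nat_lit 0x2800340003800000000000800000000000000000000000000000000) := T_16 (nat_lit 198) (nat_lit 215) (nat_lit 5) (nat_lit 12) (nat_lit 8) L27720 (by decide +kernel)
theorem L27722 : W_16 (nat_lit 6) (nat_lit 0x40042003900b1000280000000000000000000000000000000) (nat_lit 0x0) (nat_lit 0x28003c0003800000000001800000000000000000000000000000000) := T_16 (nat_lit 199) (nat_lit 132) (nat_lit 6) (nat_lit 12) (nat_lit 11) L27721 (by decide +kernel)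
theorem L27723 : W_16 (nat_lit 7) (nat_lit 0x4004200390031000280000000000000000000000000000000) (nat_lit 0x0) (nat_lit 0x28003c00038000000c0001800000000000000000000000000000000) := T_16 (nat_lit 151) (nat_lit 150) (nat_lit 1) (nat_lit 15) (nat_lit 8) L27722 (by decide +kernel)
theorem L27724 : W_16 (nat_lit 8) (nat_lit 0x4004200390011000280000000000000000000000000000000) (nat_lit 0x0) (nat_lit 0x28003c00038000400e0001800000000000000000000000000000000) := T_16 (nat_lit 149) (nat_lit 162) (nat_lit 2) (nat_lit 9) (nat_lit 9) L27723 (by decide +kernel)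
theorem L27725 : W_16 (nat_lit 9) (nat_lit 0x4004200380011000280000000000000000000000000000000) (nat_lit 0x0) (nat_lit 0x28003c00038000500e0801800000000000000000000000000000000) := T_16 (nat_lit 160) (nat_lit 143) (nat_lit 6) (nat_lit 7) (nat_lit 11) L27724 (by decide +kernel)
theorem L27726 : W_16 (nat_lit 2) (nat_lit 0x4004200380031000280000000000000000000000000000000) (nat_lit 0x0) (nat_lit 0xc8000000000000000000000000000000000000) := D_16 (nat_lit 150) (nat_lit 151) (nat_lit 147) (nat_lit 1) (nat_lit 15) (nat_lit 8) (nat_lit 1) (nat_lit 14) (nat_lit 8) (by decide +kernel)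
theorem L27727 : W_16 (nat_lit 3) (nat_lit 0x4004200380011000280000000000000000000000000000000) (nat_lit 0x0) (nat_lit 0x400e8000000000000000000000000000000000000) := T_16 (nat_lit 149) (nat_lit 162) (nat_lit 2) (nat_lit 9) (nat_lit 9) L27726 (by decide +kernel)
theorem L27728 : W_16 (nat_lit 10) (nat_lit 0x4004200380001000280000000000000000000000000000000) (nat_lit 0x0) (nat_lit 0x30003c003f80038000500f8801c00070000000000000000000000000000) := Q_16 (nat_lit 148) (C_16 L27538 (C_16 L27556 (C_16 L27725 (C_16 L27727 N_16)))) (by decide +kernel)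
theorem L27729 : W_16 (nat_lit 2) (nat_lit 0x4004200380011000280000000000000000000000000000000) (nat_lit 0x0) (nat_lit 0x8000040020000000000000000000000000000000000000) := D_16 (nat_lit 162) (nat_lit 183) (nat_lit 149) (nat_lit 3) (nat_lit 9) (nat_lit 9) (nat_lit 2) (nat_lit 9) (nat_lit 9) (by decide +kernel)
theorem L27730 : W_16 (nat_lit 2) (nat_lit 0x402c200390011000e800c0000000000000000000000000000) (nat_lit 0x0) (nat_lit 0x80000000000008000000000002000000000000000000000000) := D_16 (nat_lit 147) (nat_lit 97) (nat_lit 199) (nat_lit 5) (nat_lit 12) (nat_lit 5) (nat_lit 4) (nat_lit 12) (nat_lit 11) (by decide +kernel)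
theorem L27731 : W_16 (nat_lit 3) (nat_lit 0x402c200390011000e80080000000000000000000000000000) (nat_lit 0x0) (nat_lit 0x80000000000008000000040006000000000000000000000000) := T_16 (nat_lit 114) (nat_lit 98) (nat_lit 6) (nat_lit 12) (nat_lit 9) L27730 (by decide +kernel)
theorem L27732 : W_16 (nat_lit 4) (nat_lit 0x402c200390011000a80080000000000000000000000000000) (nat_lit 0x0) (nat_lit 0x80000000000008000400060006000000000000000000000000) := T_16 (nat_lit 130) (nat_lit 113) (nat_lit 4) (nat_lit 12) (nat_lit 10) L27731 (by decide +kernel)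
theorem L27733 : W_16 (nat_lit 5) (nat_lit 0x402c200390011000a80000000000000000000000000000000) (nat_lit 0x0) (nat_lit 0x800000000000080014000e0006000000000000000000000000) := T_16 (nat_lit 115) (nat_lit 132) (nat_lit 6) (nat_lit 12) (nat_lit 10) L27732 (by decide +kernel)
theorem L27734 : W_16 (nat_lit 6) (nat_lit 0x402c200390011000280000000000000000000000000000000) (nat_lit 0x0) (nat_lit 0x180000000000008001c000e0006000000000000000000000000) := T_16 (nat_lit 131) (nat_lit 200) (nat_lit 7) (nat_lit 12) (nat_lit 7) L27733 (by decide +kernel)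
theorem L27735 : W_16 (nat_lit 7) (nat_lit 0x400c200390011000280000000000000000000000000000000) (nat_lit 0x0) (nat_lit 0x180030000000008001c000e0006000000000000000000000000) := T_16 (nat_lit 185) (nat_lit 184) (nat_lit 0) (nat_lit 15) (nat_lit 10) L27734 (by decide +kernel)
theorem L27736 : W_16 (nat_lit 8) (nat_lit 0x4004200390011000280000000000000000000000000000000) (nat_lit 0x0) (nat_lit 0x180038000040008001c000e0006000000000000000000000000) := T_16 (nat_lit 183) (nat_lit 162) (nat_lit 3) (nat_lit 9) (nat_lit 9) L27735 (by decide +kernel)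
theorem L27737 : W_16 (nat_lit 9) (nat_lit 0x4004200380011000280000000000000000000000000000000) (nat_lit 0x0) (nat_lit 0x180038000050008801c000e0006000000000000000000000000) := T_16 (nat_lit 160) (nat_lit 143) (nat_lit 6) (nat_lit 7) (nat_lit 11) L27736 (by decide +kernel)
theorem L27738 : W_16 (nat_lit 2) (nat_lit 0x84004200380011000280000000000000000000000000000000) (nat_lit 0x0) (nat_lit 0x1000000000000000008000400000000000000000000000000000000) := D_16 (nat_lit 147) (nat_lit 130) (nat_lit 216) (nat_lit 4) (nat_lit 12) (nat_lit 11) (nat_lit 4) (nat_lit 12) (nat_lit 12) (by decide +kernel)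
theorem L27739 : W_16 (nat_lit 6) (nat_lit 0x4004200380011000280000000000000000000000000000000) (nat_lit 0x0) (nat_lit 0x3000180008000010028801c00080000000000000000000000000000) := Q_16 (nat_lit 199) (C_16 L27570 (C_16 L27738 N_16)) (by decide +kernel)
theorem L27740 : W_16 (nat_lit 10) (nat_lit 0x4004200380001000280000000000000000000000000000000) (nat_lit 0x0) (nat_lit 0x30001800380000500f8801c000e0006000000000000000000000000) := Q_16 (nat_lit 148) (C_16 L27727 (C_16 L27729 (C_16 L27737 (C_16 L27739 N_16)))) (by decide +kernel)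
theorem L27741 : W_16 (nat_lit 2) (nat_lit 0x4000200018001840042003900b1000280000000000000000000000000000000) (nat_lit 0x0) (nat_lit 0x10000800040000000000000000000000000000000000000000000000000000000000) := D_16 (nat_lit 251) (nat_lit 234) (nat_lit 268) (nat_lit 7) (nat_lit 12) (nat_lit 10) (nat_lit 7) (nat_lit 12) (nat_lit 11) (by decide +kernel)
theorem L27742 : W_16 (nat_lit 3) (nat_lit 0x200018001840042003900b1000280000000000000000000000000000000) (nat_lit 0x0) (nat_lit 0x10000c00040000000000008000000000000000000000000000000000000000000000) := T_16 (nat_lit 250) (nat_lit 183) (nat_lit 6) (nat_lit 12) (nat_lit 14) L27741 (by decide +kernel)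
theorem L27743 : W_16 (nat_lit 4) (nat_lit 0x18001840042003900b1000280000000000000000000000000000000) (nat_lit 0x0) (nat_lit 0x10000c0006000000000000a000000000000000000000000000000000000000000000) := T_16 (nat_lit 233) (nat_lit 181) (nat_lit 4) (nat_lit 12) (nat_lit 13) L27742 (by decide +kernel)
theorem L27744 : W_16 (nat_lit 5) (nat_lit 0x8001840042003900b1000280000000000000000000000000000000) (nat_lit 0x0) (nat_lit 0x10000c0007000100000000a000000000000000000000000000000000000000000000) := T_16 (nat_lit 216) (nat_lit 232) (nat_lit 5) (nat_lit 12) (nat_lit 9) L27743 (by decide +kernel)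
theorem L27745 : W_16 (nat_lit 6) (nat_lit 0x1840042003900b1000280000000000000000000000000000000) (nat_lit 0x0) (nat_lit 0x10000c0007000180004000a000000000000000000000000000000000000000000000) := T_16 (nat_lit 215) (nat_lit 198) (nat_lit 5) (nat_lit 12) (nat_lit 8) L27744 (by decide +kernel)
theorem L27746 : W_16 (nat_lit 7) (nat_lit 0x840042003900b1000280000000000000000000000000000000) (nat_lit 0x0) (nat_lit 0x10000c0007000380014000a000000000000000000000000000000000000000000000) := T_16 (nat_lit 200) (nat_lit 217) (nat_lit 7) (nat_lit 12) (nat_lit 8) L27745 (by decide +kernel)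
theorem L27747 : W_16 (nat_lit 8) (nat_lit 0x84004200390031000280000000000000000000000000000000) (nat_lit 0x0) (nat_lit 0x10000c0007000380014000a0000000c0000000000000000000000000000000000000) := T_16 (nat_lit 151) (nat_lit 150) (nat_lit 1) (nat_lit 15) (nat_lit 8) L27746 (by decide +kernel)
theorem L27748 : W_16 (nat_lit 9) (nat_lit 0x84004200390011000280000000000000000000000000000000) (nat_lit 0x0) (nat_lit 0x10000c0007000380014000a0000000e0001000000000000000000000000000000000) := T_16 (nat_lit 149) (nat_lit 132) (nat_lit 6) (nat_lit 12) (nat_lit 11) L27747 (by decide +kernel)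
theorem L27749 : W_16 (nat_lit 10) (nat_lit 0x84004200380011000280000000000000000000000000000000) (nat_lit 0x0) (nat_lit 0x10000c0007000380014000a0000100e0801000000000000000000000000000000000) := T_16 (nat_lit 160) (nat_lit 143) (nat_lit 6) (nat_lit 7) (nat_lit 11) L27748 (by decide +kernel)
theorem L27750 : W_16 (nat_lit 11) (nat_lit 0x84004200380001000280000000000000000000000000000000) (nat_lit 0x0) (nat_lit 0x10000c0007000380014000a0000100f0801800080000000000000000000000000000) := Q_16 (nat_lit 148) (C_16 L27577 (C_16 L27574 (C_16 L27570 (C_16 L27749 N_16)))) (by decide +kernel)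
theorem L27751 : W_16 (nat_lit 2) (nat_lit 0x84004200390031000280000000000000000000000000000000) (nat_lit 0x0) (nat_lit 0xc8000000000000000000000000000000000000) := D_16 (nat_lit 150) (nat_lit 151) (nat_lit 147) (nat_lit 1) (nat_lit 15) (nat_lit 8) (nat_lit 1) (nat_lit 14) (nat_lit 8) (by decide +kernel)
theorem L27752 : W_16 (nat_lit 3) (nat_lit 0x84004200390011000280000000000000000000000000000000) (nat_lit 0x0) (nat_lit 0xe8001000000000000000000000000000000000) := T_16 (nat_lit 149) (nat_lit 132) (nat_lit 6) (nat_lit 12) (nat_lit 11) L27751 (by decide +kernel)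
theorem L27753 : W_16 (nat_lit 4) (nat_lit 0x84004200380011000280000000000000000000000000000000) (nat_lit 0x0) (nat_lit 0x100e8801000000000000000000000000000000000) := T_16 (nat_lit 160) (nat_lit 143) (nat_lit 6) (nat_lit 7) (nat_lit 11) L27752 (by decide +kernel)
theorem L27754 : W_16 (nat_lit 6) (nat_lit 0x84004200380001000280000000000000000000000000000000) (nat_lit 0x0) (nat_lit 0x280014000a0000100f8801800080000000000000000000000000000) := Q_16 (nat_lit 148) (C_16 L27577 (C_16 L27574 (C_16 L27570 (C_16 L27753 N_16)))) (by decide +kernel)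
theorem L27755 : W_16 (nat_lit 2) (nat_lit 0x20001000084004200390001000280000000000000000000000000000000) (nat_lit 0x0) (nat_lit 0x200010000800000000000000000000000000000000000000000000000000000) := D_16 (nat_lit 232) (nat_lit 215) (nat_lit 249) (nat_lit 5) (nat_lit 12) (nat_lit 9) (nat_lit 5) (nat_lit 12) (nat_lit 10) (by decide +kernel)
theorem L27756 : W_16 (nat_lit 3) (nat_lit 0x1000084004200390001000280000000000000000000000000000000) (nat_lit 0x0) (nat_lit 0x200030000800000002000000000000000000000000000000000000000000000) := T_16 (nat_lit 233) (nat_lit 181) (nat_lit 4) (nat_lit 12) (nat_lit 13) L27755 (by decide +kernel)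
theorem L27757 : W_16 (nat_lit 4) (nat_lit 0x84004200390001000280000000000000000000000000000000) (nat_lit 0x0) (nat_lit 0x200030001800000002000000008000000000000000000000000000000000000) := T_16 (nat_lit 216) (nat_lit 147) (nat_lit 4) (nat_lit 12) (nat_lit 12) L27756 (by decide +kernel)
theorem L27758 : W_16 (nat_lit 5) (nat_lit 0x84004200380001000280000000000000000000000000000000) (nat_lit 0x0) (nat_lit 0x200030001800000002000010008800000000000000000000000000000000000) := T_16 (nat_lit 160) (nat_lit 143) (nat_lit 6) (nat_lit 7) (nat_lit 11) L27757 (by decide +kernel)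
theorem L27759 : W_16 (nat_lit 12) (nat_lit 0x4004200380001000280000000000000000000000000000000) (nat_lit 0x0) (nat_lit 0x10000e000700038001c000a0000100f8801800080000000000000000000000000000) := Q_16 (nat_lit 199) (C_16 L27589 (C_16 L27750 (C_16 L27586 (C_16 L27754 (C_16 L27758 N_16))))) (by decide +kernel)
theorem L27760 : W_16 (nat_lit 13) (nat_lit 0x4000200380001000280000000000000000000000000000000) (nat_lit 0x0) (nat_lit 0x10000e00070003c003f803f8000500f8801c000f0006000000000000000000000000) := Q_16 (nat_lit 182) (C_16 L27562 (C_16 L27728 (C_16 L27740 (C_16 L27759 N_16)))) (by decide +kernel)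
theorem L27761 : W_16 (nat_lit 2) (nat_lit 0x1e4003200380019000280000000000000000000000000000000) (nat_lit 0x0) (nat_lit 0x6000000004000000000000000000000000000000000000000000000) := D_16 (nat_lit 217) (nat_lit 218) (nat_lit 182) (nat_lit 3) (nat_lit 10) (nat_lit 11) (nat_lit 7) (nat_lit 12) (nat_lit 8) (by decide +kernel)
theorem L27762 : W_16 (nat_lit 3) (nat_lit 0x1c4003200380019000280000000000000000000000000000000) (nat_lit 0x0) (nat_lit 0x6400020004000000000000000000000000000000000000000000000) := T_16 (nat_lit 197) (nat_lit 214) (nat_lit 6) (nat_lit 10) (nat_lit 12) L27761 (by decide +kernel)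
theorem L27763 : W_16 (nat_lit 4) (nat_lit 0xc4003200380019000280000000000000000000000000000000) (nat_lit 0x0) (nat_lit 0x6400320004000000000000000000000000000000000000000000000) := T_16 (nat_lit 200) (nat_lit 201) (nat_lit 0) (nat_lit 14) (nat_lit 11) L27762 (by decide +kernel)
theorem L27764 : W_16 (nat_lit 5) (nat_lit 0x44003200380019000280000000000000000000000000000000) (nat_lit 0x0) (nat_lit 0x74003a0004000000000000000000000000000000000000000000000) := T_16 (nat_lit 199) (nat_lit 216) (nat_lit 7) (nat_lit 11) (nat_lit 8) L27763 (by decide +kernel)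
theorem L27765 : W_16 (nat_lit 6) (nat_lit 0x44003200380009000280000000000000000000000000000000) (nat_lit 0x0) (nat_lit 0x74003a0004000000010000800000000000000000000000000000000) := T_16 (nat_lit 148) (nat_lit 131) (nat_lit 6) (nat_lit 11) (nat_lit 11) L27764 (by decide +kernel)
theorem L27766 : W_16 (nat_lit 7) (nat_lit 0x4003200380009000280000000000000000000000000000000) (nat_lit 0x0) (nat_lit 0x30007c003e0004000010010800800000000000000000000000000000000) := Q_16 (nat_lit 198) (C_16 L26543 (C_16 L26540 (C_16 L27765 N_16))) (by decide +kernel)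
theorem L27767 : W_16 (nat_lit 8) (nat_lit 0x4003200380001000280000000000000000000000000000000) (nat_lit 0x0) (nat_lit 0x30007c003e0004000010018800c00030000000000000000000000000000) := Q_16 (nat_lit 147) (C_16 L27766 (C_16 L26539 N_16)) (by decide +kernel)
theorem L27768 : W_16 (nat_lit 2) (nat_lit 0x80006c003200b80009000280000000000000000000000000000000) (nat_lit 0x0) (nat_lit 0x20001000080000000000000000000000000000000000000000000000000) := D_16 (nat_lit 216) (nat_lit 199) (nat_lit 233) (nat_lit 7) (nat_lit 11) (nat_lit 8) (nat_lit 7) (nat_lit 11) (nat_lit 9) (by decide +kernel)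
theorem L27769 : W_16 (nat_lit 3) (nat_lit 0x6c003200b80009000280000000000000000000000000000000) (nat_lit 0x0) (nat_lit 0x30001800080000000000000000000000000000000000000000000000000) := T_16 (nat_lit 215) (nat_lit 232) (nat_lit 4) (nat_lit 11) (nat_lit 13) L27768 (by decide +kernel)
theorem L27770 : W_16 (nat_lit 4) (nat_lit 0x64003200b80009000280000000000000000000000000000000) (nat_lit 0x0) (nat_lit 0x30001800098000000000000000000000000000000000000000000000000) := T_16 (nat_lit 195) (nat_lit 196) (nat_lit 2) (nat_lit 7) (nat_lit 11) L27769 (by decide +kernel)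
theorem L27771 : W_16 (nat_lit 5) (nat_lit 0x44003200b80009000280000000000000000000000000000000) (nat_lit 0x0) (nat_lit 0x30001c000b8000000000000000000000000000000000000000000000000) := T_16 (nat_lit 197) (nat_lit 214) (nat_lit 6) (nat_lit 10) (nat_lit 12) L27770 (by decide +kernel)
theorem L27772 : W_16 (nat_lit 6) (nat_lit 0x44003200380009000280000000000000000000000000000000) (nat_lit 0x0) (nat_lit 0x30001c000b8000000c00000000000000000000000000000000000000000) := T_16 (nat_lit 167) (nat_lit 166) (nat_lit 1) (nat_lit 14) (nat_lit 9) L27771 (by decide +kernel)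
theorem L27773 : W_16 (nat_lit 2) (nat_lit 0xc003200380009000280000000000000000000000000000000) (nat_lit 0x0) (nat_lit 0x400030000000000000000000000000000000000000000000000000) := D_16 (nat_lit 197) (nat_lit 214) (nat_lit 196) (nat_lit 6) (nat_lit 10) (nat_lit 12) (nat_lit 2) (nat_lit 7) (nat_lit 11) (by decide +kernel)
theorem L27774 : W_16 (nat_lit 2) (nat_lit 0x24003200380001000280000000000000000000000000000000) (nat_lit 0x0) (nat_lit 0x8000400000000000000008000000000000000000000000000000000000) := D_16 (nat_lit 214) (nat_lit 231) (nat_lit 147) (nat_lit 6) (nat_lit 10) (nat_lit 13) (nat_lit 6) (nat_lit 10) (nat_lit 12) (by decide +kernel)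
theorem L27775 : W_16 (nat_lit 2) (nat_lit 0x1800074003200390001000680000000000000000000000000000000) (nat_lit 0x0) (nat_lit 0x6000080000000000000000000000000000000000000000000000000) := D_16 (nat_lit 217) (nat_lit 199) (nat_lit 218) (nat_lit 3) (nat_lit 9) (nat_lit 11) (nat_lit 0) (nat_lit 14) (nat_lit 12) (by decide +kernel)
theorem L27776 : W_16 (nat_lit 3) (nat_lit 0x800074003200390001000680000000000000000000000000000000) (nat_lit 0x0) (nat_lit 0x20007000080000000000000000000000000000000000000000000000000) := T_16 (nat_lit 216) (nat_lit 233) (nat_lit 7) (nat_lit 11) (nat_lit 9) L27775 (by decide +kernel)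
theorem L27777 : W_16 (nat_lit 4) (nat_lit 0x800074003200380001000680000000000000000000000000000000) (nat_lit 0x0) (nat_lit 0x20007000080000000010000800000000000000000000000000000000000) := T_16 (nat_lit 160) (nat_lit 143) (nat_lit 6) (nat_lit 7) (nat_lit 11) L27776 (by decide +kernel)
theorem L27778 : W_16 (nat_lit 5) (nat_lit 0x74003200380001000680000000000000000000000000000000) (nat_lit 0x0) (nat_lit 0x30007800080000000010000800000000000000000000000000000000000) := T_16 (nat_lit 215) (nat_lit 232) (nat_lit 4) (nat_lit 11) (nat_lit 13) L27777 (by decide +kernel)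
theorem L27779 : W_16 (nat_lit 6) (nat_lit 0x64003200380001000680000000000000000000000000000000) (nat_lit 0x0) (nat_lit 0x30007800098000000010000800000000000000000000000000000000000) := T_16 (nat_lit 196) (nat_lit 195) (nat_lit 2) (nat_lit 7) (nat_lit 11) L27778 (by decide +kernel)
theorem L27780 : W_16 (nat_lit 7) (nat_lit 0x64003200380001000280000000000000000000000000000000) (nat_lit 0x0) (nat_lit 0x30007800098000000010008800400000000000000000000000000000000) := T_16 (nat_lit 130) (nat_lit 147) (nat_lit 5) (nat_lit 11) (nat_lit 7) L27779 (by decide +kernel)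
theorem L27781 : W_16 (nat_lit 2) (nat_lit 0xc00044003200390009000280000000000000000000000000000000) (nat_lit 0x0) (nat_lit 0x20001000080000000000000000000000000000000000000000000000000) := D_16 (nat_lit 216) (nat_lit 199) (nat_lit 233) (nat_lit 7) (nat_lit 11) (nat_lit 8) (nat_lit 7) (nat_lit 11) (nat_lit 9) (by decide +kernel)
theorem L27782 : W_16 (nat_lit 3) (nat_lit 0xc00044003200390001000280000000000000000000000000000000) (nat_lit 0x0) (nat_lit 0x200010000a0000000000008000000000000000000000000000000000000) := T_16 (nat_lit 147) (nat_lit 197) (nat_lit 6) (nat_lit 10) (nat_lit 12) L27781 (by decide +kernel)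
theorem L27783 : W_16 (nat_lit 4) (nat_lit 0x800044003200390001000280000000000000000000000000000000) (nat_lit 0x0) (nat_lit 0x280014000a0000000000008000000000000000000000000000000000000) := T_16 (nat_lit 214) (nat_lit 231) (nat_lit 5) (nat_lit 11) (nat_lit 9) L27782 (by decide +kernel)
theorem L27784 : W_16 (nat_lit 5) (nat_lit 0x44003200390001000280000000000000000000000000000000) (nat_lit 0x0) (nat_lit 0x38001c000a0000000000008000000000000000000000000000000000000) := T_16 (nat_lit 215) (nat_lit 232) (nat_lit 4) (nat_lit 11) (nat_lit 13) L27783 (by decide +kernel)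
theorem L27785 : W_16 (nat_lit 6) (nat_lit 0x44003200380001000280000000000000000000000000000000) (nat_lit 0x0) (nat_lit 0x38001c000a0000000010008800000000000000000000000000000000000) := T_16 (nat_lit 160) (nat_lit 143) (nat_lit 6) (nat_lit 7) (nat_lit 11) L27784 (by decide +kernel)
theorem L27786 : W_16 (nat_lit 2) (nat_lit 0x64003200380001000280000000000000000000000000000000) (nat_lit 0x0) (nat_lit 0x8000400000000000000008000000000000000000000000000000000000) := D_16 (nat_lit 214) (nat_lit 231) (nat_lit 147) (nat_lit 6) (nat_lit 10) (nat_lit 13) (nat_lit 6) (nat_lit 10) (nat_lit 12) (by decide +kernel)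
theorem L27787 : W_16 (nat_lit 2) (nat_lit 0x600074003200390001000280000000000000000000000000000000) (nat_lit 0x0) (nat_lit 0x100180000000000000000000000000000000000000000000000000) := D_16 (nat_lit 199) (nat_lit 200) (nat_lit 212) (nat_lit 1) (nat_lit 13) (nat_lit 11) (nat_lit 1) (nat_lit 12) (nat_lit 11) (by decide +kernel)
theorem L27788 : W_16 (nat_lit 3) (nat_lit 0x400074003200390001000280000000000000000000000000000000) (nat_lit 0x0) (nat_lit 0x4000300180000000000000000000000000000000000000000000000000) := T_16 (nat_lit 213) (nat_lit 230) (nat_lit 5) (nat_lit 10) (nat_lit 9) L27787 (by decide +kernel)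
theorem L27789 : W_16 (nat_lit 4) (nat_lit 0x400064003200390001000280000000000000000000000000000000) (nat_lit 0x0) (nat_lit 0x4000300198000000000000000000000000000000000000000000000000) := T_16 (nat_lit 196) (nat_lit 195) (nat_lit 2) (nat_lit 7) (nat_lit 11) L27788 (by decide +kernel)
theorem L27790 : W_16 (nat_lit 5) (nat_lit 0x64003200390001000280000000000000000000000000000000) (nat_lit 0x0) (nat_lit 0xc000700198000000000000000000000000000000000000000000000000) := T_16 (nat_lit 214) (nat_lit 231) (nat_lit 6) (nat_lit 10) (nat_lit 13) L27789 (by decide +kernel)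
theorem L27791 : W_16 (nat_lit 6) (nat_lit 0x64003200380001000280000000000000000000000000000000) (nat_lit 0x0) (nat_lit 0xc000700198000000010000800000000000000000000000000000000000) := T_16 (nat_lit 160) (nat_lit 143) (nat_lit 6) (nat_lit 7) (nat_lit 11) L27790 (by decide +kernel)
theorem L27792 : W_16 (nat_lit 2) (nat_lit 0x4001200380011000e80020000000000000000000000000000) (nat_lit 0x0) (nat_lit 0x40001000080000000000000000000) := D_16 (nat_lit 96) (nat_lit 114) (nat_lit 79) (nat_lit 4) (nat_lit 12) (nat_lit 9) (nat_lit 7) (nat_lit 11) (nat_lit 4) (by decide +kernel)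
theorem L27793 : W_16 (nat_lit 2) (nat_lit 0x4003200380011000a80000000000000000000000000000000) (nat_lit 0x0) (nat_lit 0x800040004000000000000000000000000000000000000000000000) := D_16 (nat_lit 198) (nat_lit 182) (nat_lit 215) (nat_lit 5) (nat_lit 12) (nat_lit 7) (nat_lit 6) (nat_lit 11) (nat_lit 12) (by decide +kernel)
theorem L27794 : W_16 (nat_lit 3) (nat_lit 0x4001200380011000e80000000000000000000000000000000) (nat_lit 0x0) (nat_lit 0x4000000000000000060001000080000000000000000000) := T_16 (nat_lit 113) (nat_lit 182) (nat_lit 4) (nat_lit 12) (nat_lit 10) L27792 (by decide +kernel)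
theorem L27795 : W_16 (nat_lit 2) (nat_lit 0x400004005200780009000680000000000000000000000000000000) (nat_lit 0x0) (nat_lit 0x1000080000000000010000000000000000000000000000000000000) := D_16 (nat_lit 199) (nat_lit 216) (nat_lit 148) (nat_lit 4) (nat_lit 12) (nat_lit 12) (nat_lit 4) (nat_lit 12) (nat_lit 11) (by decide +kernel)
theorem L27796 : W_16 (nat_lit 3) (nat_lit 0x400004005200780009000280000000000000000000000000000000) (nat_lit 0x0) (nat_lit 0x1000080000000000010000400020000000000000000000000000000) := T_16 (nat_lit 130) (nat_lit 113) (nat_lit 7) (nat_lit 11) (nat_lit 6) L27795 (by decide +kernel)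
theorem L27797 : W_16 (nat_lit 4) (nat_lit 0x4005200780009000280000000000000000000000000000000) (nat_lit 0x0) (nat_lit 0x14000a0000000000010000400020000000000000000000000000000) := T_16 (nat_lit 214) (nat_lit 197) (nat_lit 6) (nat_lit 10) (nat_lit 12) L27796 (by decide +kernel)
theorem L27798 : W_16 (nat_lit 2) (nat_lit 0x84005200790021000280000000000000000000000000000000) (nat_lit 0x0) (nat_lit 0x10001000080000000000000000000000000000) := D_16 (nat_lit 132) (nat_lit 115) (nat_lit 148) (nat_lit 5) (nat_lit 13) (nat_lit 6) (nat_lit 6) (nat_lit 12) (nat_lit 11) (by decide +kernel)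
theorem L27799 : W_16 (nat_lit 3) (nat_lit 0x4005200790021000280000000000000000000000000000000) (nat_lit 0x0) (nat_lit 0x1000080000000000010001000080000000000000000000000000000) := T_16 (nat_lit 199) (nat_lit 216) (nat_lit 6) (nat_lit 12) (nat_lit 12) L27798 (by decide +kernel)
theorem L27800 : W_16 (nat_lit 2) (nat_lit 0x4001200380031000680000000000000000000000000000000) (nat_lit 0x0) (nat_lit 0x4000c0000000000000000000000000000000000000) := D_16 (nat_lit 150) (nat_lit 151) (nat_lit 166) (nat_lit 1) (nat_lit 15) (nat_lit 8) (nat_lit 2) (nat_lit 10) (nat_lit 9) (by decide +kernel)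
theorem L27801 : W_16 (nat_lit 3) (nat_lit 0x4001200380011000680000000000000000000000000000000) (nat_lit 0x0) (nat_lit 0x4400e0000000000000000000000000000000000000) := T_16 (nat_lit 149) (nat_lit 162) (nat_lit 2) (nat_lit 9) (nat_lit 9) L27800 (by decide +kernel)
theorem L27802 : W_16 (nat_lit 2) (nat_lit 0x4001200390001001e80110000000000000000000000000000) (nat_lit 0x0) (nat_lit 0x2000220000000000000000000000000000) := D_16 (nat_lit 133) (nat_lit 117) (nat_lit 113) (nat_lit 2) (nat_lit 11) (nat_lit 7) (nat_lit 0) (nat_lit 14) (nat_lit 7) (by decide +kernel)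
theorem L27803 : W_16 (nat_lit 3) (nat_lit 0x4001200390001001e80100000000000000000000000000000) (nat_lit 0x0) (nat_lit 0x2000238000000000000000000000000000) := T_16 (nat_lit 112) (nat_lit 111) (nat_lit 0) (nat_lit 13) (nat_lit 7) L27802 (by decide +kernel)
theorem L27804 : W_16 (nat_lit 4) (nat_lit 0x4001200390001001e80000000000000000000000000000000) (nat_lit 0x0) (nat_lit 0x20003b8000000000000000000000000000) := T_16 (nat_lit 116) (nat_lit 115) (nat_lit 2) (nat_lit 10) (nat_lit 7) L27803 (by decide +kernel)
theorem L27805 : W_16 (nat_lit 5) (nat_lit 0x4001200380001001e80000000000000000000000000000000) (nat_lit 0x0) (nat_lit 0x100008020003b8000000000000000000000000000) := T_16 (nat_lit 160) (nat_lit 143) (nat_lit 6) (nat_lit 7) (nat_lit 11) L27804 (by decide +kernel)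
theorem L27806 : W_16 (nat_lit 2) (nat_lit 0x4001200380011001e80090000000000000000000000000000) (nat_lit 0x0) (nat_lit 0x2000000000000000040004000000000000000000000000) := D_16 (nat_lit 114) (nat_lit 98) (nat_lit 181) (nat_lit 6) (nat_lit 12) (nat_lit 9) (nat_lit 5) (nat_lit 12) (nat_lit 6) (by decide +kernel)
theorem L27807 : W_16 (nat_lit 3) (nat_lit 0x4001200380001001e80090000000000000000000000000000) (nat_lit 0x0) (nat_lit 0x6000000010000000040004000000000000000000000000) := T_16 (nat_lit 148) (nat_lit 182) (nat_lit 6) (nat_lit 12) (nat_lit 10) L27806 (by decide +kernel)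
theorem L27808 : W_16 (nat_lit 4) (nat_lit 0x4001200380001001e80080000000000000000000000000000) (nat_lit 0x0) (nat_lit 0x6000000010000000058004000000000000000000000000) := T_16 (nat_lit 112) (nat_lit 111) (nat_lit 0) (nat_lit 13) (nat_lit 7) L27807 (by decide +kernel)
theorem L27809 : W_16 (nat_lit 5) (nat_lit 0x4001200380001001e80000000000000000000000000000000) (nat_lit 0x0) (nat_lit 0x60000000100000001d8004000000000000000000000000) := T_16 (nat_lit 115) (nat_lit 116) (nat_lit 2) (nat_lit 10) (nat_lit 7) L27808 (by decide +kernel)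
theorem L27810 : W_16 (nat_lit 2) (nat_lit 0x4001200390011001e80080000000000000000000000000000) (nat_lit 0x0) (nat_lit 0x2000000000000000040004000000000000000000000000) := D_16 (nat_lit 114) (nat_lit 98) (nat_lit 181) (nat_lit 6) (nat_lit 12) (nat_lit 9) (nat_lit 5) (nat_lit 12) (nat_lit 6) (by decide +kernel)
theorem L27811 : W_16 (nat_lit 3) (nat_lit 0x4001200390001001e80080000000000000000000000000000) (nat_lit 0x0) (nat_lit 0x6000000010000000040004000000000000000000000000) := T_16 (nat_lit 148) (nat_lit 182) (nat_lit 6) (nat_lit 12) (nat_lit 10) L27810 (by decide +kernel)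
theorem L27812 : W_16 (nat_lit 4) (nat_lit 0x4001200390001001e80000000000000000000000000000000) (nat_lit 0x0) (nat_lit 0x60000000100000001c0004000000000000000000000000) := T_16 (nat_lit 115) (nat_lit 116) (nat_lit 2) (nat_lit 10) (nat_lit 7) L27811 (by decide +kernel)
theorem L27813 : W_16 (nat_lit 5) (nat_lit 0x4001200380001001e80000000000000000000000000000000) (nat_lit 0x0) (nat_lit 0x60000100108000001c0004000000000000000000000000) := T_16 (nat_lit 160) (nat_lit 143) (nat_lit 6) (nat_lit 7) (nat_lit 11) L27812 (by decide +kernel)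
theorem L27814 : W_16 (nat_lit 2) (nat_lit 0x4001200390011001e80030000000000000000000000000000) (nat_lit 0x0) (nat_lit 0x2000000000000000040001000000000000000000000000) := D_16 (nat_lit 114) (nat_lit 96) (nat_lit 181) (nat_lit 4) (nat_lit 12) (nat_lit 9) (nat_lit 5) (nat_lit 12) (nat_lit 6) (by decide +kernel)
theorem L27815 : W_16 (nat_lit 3) (nat_lit 0x4001200390001001e80030000000000000000000000000000) (nat_lit 0x0) (nat_lit 0x6000000010000000040001000000000000000000000000) := T_16 (nat_lit 148) (nat_lit 182) (nat_lit 4) (nat_lit 12) (nat_lit 10) L27814 (by decide +kernel)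
theorem L27816 : W_16 (nat_lit 4) (nat_lit 0x4001200390001001e80010000000000000000000000000000) (nat_lit 0x0) (nat_lit 0x6000000010002000060001000000000000000000000000) := T_16 (nat_lit 113) (nat_lit 133) (nat_lit 0) (nat_lit 14) (nat_lit 7) L27815 (by decide +kernel)
theorem L27817 : W_16 (nat_lit 5) (nat_lit 0x4001200380001001e80010000000000000000000000000000) (nat_lit 0x0) (nat_lit 0x6000010010802000060001000000000000000000000000) := T_16 (nat_lit 160) (nat_lit 143) (nat_lit 6) (nat_lit 7) (nat_lit 11) L27816 (by decide +kernel)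
theorem L27818 : W_16 (nat_lit 6) (nat_lit 0x4001200380001001e80000000000000000000000000000000) (nat_lit 0x0) (nat_lit 0x6000010010802000078001000000000000000000000000) := T_16 (nat_lit 112) (nat_lit 111) (nat_lit 0) (nat_lit 13) (nat_lit 7) L27817 (by decide +kernel)
theorem L27819 : W_16 (nat_lit 7) (nat_lit 0x4001200380001000e80000000000000000000000000000000) (nat_lit 0x0) (nat_lit 0x60000100108030003f8005000000000000000000000000) := Q_16 (nat_lit 132) (C_16 L27805 (C_16 L27809 (C_16 L27813 (C_16 L27818 N_16)))) (by decide +kernel)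
theorem L27820 : W_16 (nat_lit 2) (nat_lit 0x4001200780021001e80090000000000000000000000000000) (nat_lit 0x0) (nat_lit 0x12000800000000000000000000000000000000000000000) := D_16 (nat_lit 167) (nat_lit 181) (nat_lit 184) (nat_lit 1) (nat_lit 14) (nat_lit 9) (nat_lit 7) (nat_lit 13) (nat_lit 6) (by decide +kernel)
theorem L27821 : W_16 (nat_lit 3) (nat_lit 0x4001200380021001e80090000000000000000000000000000) (nat_lit 0x0) (nat_lit 0x16000c00000000000000000000000000000000000000000) := T_16 (nat_lit 166) (nat_lit 182) (nat_lit 5) (nat_lit 13) (nat_lit 6) L27820 (by decide +kernel)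
theorem L27822 : W_16 (nat_lit 4) (nat_lit 0x4001200380021001e80080000000000000000000000000000) (nat_lit 0x0) (nat_lit 0x16000c00000000000018000000000000000000000000000) := T_16 (nat_lit 112) (nat_lit 111) (nat_lit 0) (nat_lit 13) (nat_lit 7) L27821 (by decide +kernel)
theorem L27823 : W_16 (nat_lit 5) (nat_lit 0x4001200380021001e80000000000000000000000000000000) (nat_lit 0x0) (nat_lit 0x16000c00000000000198000000000000000000000000000) := T_16 (nat_lit 115) (nat_lit 116) (nat_lit 2) (nat_lit 10) (nat_lit 7) L27822 (by decide +kernel)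
theorem L27824 : W_16 (nat_lit 6) (nat_lit 0x4001200380001001e80000000000000000000000000000000) (nat_lit 0x0) (nat_lit 0x16000c00060000000198000000000000000000000000000) := T_16 (nat_lit 149) (nat_lit 150) (nat_lit 3) (nat_lit 10) (nat_lit 7) L27823 (by decide +kernel)
theorem L27825 : W_16 (nat_lit 2) (nat_lit 0x4001200780021001e80080000000000000000000000000000) (nat_lit 0x0) (nat_lit 0x12000800000000000000000000000000000000000000000) := D_16 (nat_lit 167) (nat_lit 181) (nat_lit 184) (nat_lit 1) (nat_lit 14) (nat_lit 9) (nat_lit 7) (nat_lit 13) (nat_lit 6) (by decide +kernel)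
theorem L27826 : W_16 (nat_lit 3) (nat_lit 0x4001200380021001e80080000000000000000000000000000) (nat_lit 0x0) (nat_lit 0x16000c00000000000000000000000000000000000000000) := T_16 (nat_lit 166) (nat_lit 182) (nat_lit 5) (nat_lit 13) (nat_lit 6) L27825 (by decide +kernel)
theorem L27827 : W_16 (nat_lit 4) (nat_lit 0x4001200380001001e80080000000000000000000000000000) (nat_lit 0x0) (nat_lit 0x16000c00060000000000000000000000000000000000000) := T_16 (nat_lit 149) (nat_lit 150) (nat_lit 3) (nat_lit 10) (nat_lit 7) L27826 (by decide +kernel)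
theorem L27828 : W_16 (nat_lit 5) (nat_lit 0x4001200380001001e80000000000000000000000000000000) (nat_lit 0x0) (nat_lit 0x16000c00060000000180000000000000000000000000000) := T_16 (nat_lit 115) (nat_lit 116) (nat_lit 2) (nat_lit 10) (nat_lit 7) L27827 (by decide +kernel)
theorem L27829 : W_16 (nat_lit 2) (nat_lit 0x4001200380041001e80010000000000000000000000000000) (nat_lit 0x0) (nat_lit 0x80002000020000000000000000000000000000) := D_16 (nat_lit 133) (nat_lit 151) (nat_lit 113) (nat_lit 3) (nat_lit 11) (nat_lit 7) (nat_lit 0) (nat_lit 14) (nat_lit 7) (by decide +kernel)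
theorem L27830 : W_16 (nat_lit 3) (nat_lit 0x4001200380041001e80000000000000000000000000000000) (nat_lit 0x0) (nat_lit 0x80002000038000000000000000000000000000) := T_16 (nat_lit 112) (nat_lit 111) (nat_lit 0) (nat_lit 13) (nat_lit 7) L27829 (by decide +kernel)
theorem L27831 : W_16 (nat_lit 4) (nat_lit 0x4001200380001001e80000000000000000000000000000000) (nat_lit 0x0) (nat_lit 0xe0002000038000000000000000000000000000) := T_16 (nat_lit 150) (nat_lit 149) (nat_lit 3) (nat_lit 10) (nat_lit 7) L27830 (by decide +kernel)
theorem L27832 : W_16 (nat_lit 7) (nat_lit 0x4001200380001000e80000000000000000000000000000000) (nat_lit 0x0) (nat_lit 0x16000c100e08030003b8000000000000000000000000000) := Q_16 (nat_lit 132) (C_16 L27805 (C_16 L27824 (C_16 L27828 (C_16 L27831 N_16)))) (by decide +kernel)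
theorem L27833 : W_16 (nat_lit 2) (nat_lit 0x4001200390031001e80000000000000000000000000000000) (nat_lit 0x0) (nat_lit 0x180004000000000000000000000000) := D_16 (nat_lit 115) (nat_lit 116) (nat_lit 98) (nat_lit 2) (nat_lit 10) (nat_lit 7) (nat_lit 5) (nat_lit 13) (nat_lit 5) (by decide +kernel)
theorem L27834 : W_16 (nat_lit 3) (nat_lit 0x4001200390021001e80000000000000000000000000000000) (nat_lit 0x0) (nat_lit 0x40010000000180004000000000000000000000000) := T_16 (nat_lit 148) (nat_lit 162) (nat_lit 2) (nat_lit 9) (nat_lit 9) L27833 (by decide +kernel)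
theorem L27835 : W_16 (nat_lit 4) (nat_lit 0x4001200390001001e80000000000000000000000000000000) (nat_lit 0x0) (nat_lit 0x40070000000180004000000000000000000000000) := T_16 (nat_lit 149) (nat_lit 150) (nat_lit 3) (nat_lit 10) (nat_lit 7) L27834 (by decide +kernel)
theorem L27836 : W_16 (nat_lit 5) (nat_lit 0x4001200380001001e80000000000000000000000000000000) (nat_lit 0x0) (nat_lit 0x50070800000180004000000000000000000000000) := T_16 (nat_lit 160) (nat_lit 143) (nat_lit 6) (nat_lit 7) (nat_lit 11) L27835 (by decide +kernel)
theorem L27837 : W_16 (nat_lit 6) (nat_lit 0x4001200380001000e80000000000000000000000000000000) (nat_lit 0x0) (nat_lit 0x500f08030003b8004000000000000000000000000) := Q_16 (nat_lit 132) (C_16 L27831 (C_16 L27805 (C_16 L27836 N_16))) (by decide +kernel)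
theorem L27838 : W_16 (nat_lit 2) (nat_lit 0x4001200380031000e80000000000000000000000000000000) (nat_lit 0x0) (nat_lit 0x4000c0000000000000000000000000000000000000) := D_16 (nat_lit 150) (nat_lit 151) (nat_lit 166) (nat_lit 1) (nat_lit 15) (nat_lit 8) (nat_lit 2) (nat_lit 10) (nat_lit 9) (by decide +kernel)
theorem L27839 : W_16 (nat_lit 3) (nat_lit 0x4001200380011000e80000000000000000000000000000000) (nat_lit 0x0) (nat_lit 0x4400e0000000000000000000000000000000000000) := T_16 (nat_lit 149) (nat_lit 162) (nat_lit 2) (nat_lit 9) (nat_lit 9) L27838 (by decide +kernel)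
theorem L27840 : W_16 (nat_lit 4) (nat_lit 0x4001200380001000e80000000000000000000000000000000) (nat_lit 0x0) (nat_lit 0x40004400f0000000060001000080000000000000000000) := Q_16 (nat_lit 148) (C_16 L27839 (C_16 L27794 N_16)) (by decide +kernel)
theorem L27841 : W_16 (nat_lit 2) (nat_lit 0x4001200390031001e80000000000000000000000000000000) (nat_lit 0x0) (nat_lit 0x4000000000000000080004000000000000000000000000) := D_16 (nat_lit 115) (nat_lit 98) (nat_lit 182) (nat_lit 5) (nat_lit 13) (nat_lit 5) (nat_lit 6) (nat_lit 12) (nat_lit 10) (by decide +kernel)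
theorem L27842 : W_16 (nat_lit 3) (nat_lit 0x4001200390021001e80000000000000000000000000000000) (nat_lit 0x0) (nat_lit 0x4000040010000000080004000000000000000000000000) := T_16 (nat_lit 148) (nat_lit 162) (nat_lit 2) (nat_lit 9) (nat_lit 9) L27841 (by decide +kernel)
theorem L27843 : W_16 (nat_lit 4) (nat_lit 0x4001200390001001e80000000000000000000000000000000) (nat_lit 0x0) (nat_lit 0x4000040070000000080004000000000000000000000000) := T_16 (nat_lit 149) (nat_lit 150) (nat_lit 3) (nat_lit 10) (nat_lit 7) L27842 (by decide +kernel)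
theorem L27844 : W_16 (nat_lit 5) (nat_lit 0x4001200380001001e80000000000000000000000000000000) (nat_lit 0x0) (nat_lit 0x4000050070800000080004000000000000000000000000) := T_16 (nat_lit 160) (nat_lit 143) (nat_lit 6) (nat_lit 7) (nat_lit 11) L27843 (by decide +kernel)
theorem L27845 : W_16 (nat_lit 2) (nat_lit 0x4001200390031001e80050000000000000000000000000000) (nat_lit 0x0) (nat_lit 0x400000000000000002000100000000000000000000) := D_16 (nat_lit 97) (nat_lit 80) (nat_lit 166) (nat_lit 7) (nat_lit 12) (nat_lit 4) (nat_lit 7) (nat_lit 12) (nat_lit 5) (by decide +kernel)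
theorem L27846 : W_16 (nat_lit 3) (nat_lit 0x4001200390031001e80010000000000000000000000000000) (nat_lit 0x0) (nat_lit 0x2000400000000000040002000100000000000000000000) := T_16 (nat_lit 114) (nat_lit 181) (nat_lit 5) (nat_lit 12) (nat_lit 6) L27845 (by decide +kernel)
theorem L27847 : W_16 (nat_lit 4) (nat_lit 0x4001200390021001e80010000000000000000000000000000) (nat_lit 0x0) (nat_lit 0x2000440010000000040002000100000000000000000000) := T_16 (nat_lit 148) (nat_lit 162) (nat_lit 2) (nat_lit 9) (nat_lit 9) L27846 (by decide +kernel)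
theorem L27848 : W_16 (nat_lit 5) (nat_lit 0x4001200390001001e80010000000000000000000000000000) (nat_lit 0x0) (nat_lit 0x2000440070000000040002000100000000000000000000) := T_16 (nat_lit 149) (nat_lit 150) (nat_lit 3) (nat_lit 10) (nat_lit 7) L27847 (by decide +kernel)
theorem L27849 : W_16 (nat_lit 6) (nat_lit 0x4001200380001001e80010000000000000000000000000000) (nat_lit 0x0) (nat_lit 0x2000450070800000040002000100000000000000000000) := T_16 (nat_lit 160) (nat_lit 143) (nat_lit 6) (nat_lit 7) (nat_lit 11) L27848 (by decide +kernel)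
theorem L27850 : W_16 (nat_lit 7) (nat_lit 0x4001200380001001e80000000000000000000000000000000) (nat_lit 0x0) (nat_lit 0x2000450070800000058002000100000000000000000000) := T_16 (nat_lit 112) (nat_lit 111) (nat_lit 0) (nat_lit 13) (nat_lit 7) L27849 (by decide +kernel)
theorem L27851 : W_16 (nat_lit 8) (nat_lit 0x4001200380001000e80000000000000000000000000000000) (nat_lit 0x0) (nat_lit 0x16000c500708010001d8006000100000000000000000000) := Q_16 (nat_lit 132) (C_16 L27836 (C_16 L27828 (C_16 L27813 (C_16 L27844 (C_16 L27850 N_16))))) (by decide +kernel)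
theorem L27852 : W_16 (nat_lit 9) (nat_lit 0x4001200380001000680000000000000000000000000000000) (nat_lit 0x0) (nat_lit 0x16000c500f08038003f8007000180000000000000000000) := Q_16 (nat_lit 131) (C_16 L27819 (C_16 L27832 (C_16 L27837 (C_16 L27840 (C_16 L27851 N_16))))) (by decide +kernel)
theorem L27853 : W_16 (nat_lit 2) (nat_lit 0x4001200390009000680000000000000000000000000000000) (nat_lit 0x0) (nat_lit 0x20002000000000000000010000000000000000000000000000) := D_16 (nat_lit 181) (nat_lit 112) (nat_lit 197) (nat_lit 4) (nat_lit 11) (nat_lit 10) (nat_lit 5) (nat_lit 11) (nat_lit 7) (by decide +kernel)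
theorem L27854 : W_16 (nat_lit 3) (nat_lit 0x4001200390001000680000000000000000000000000000000) (nat_lit 0x0) (nat_lit 0x20002000000008000000030000000000000000000000000000) := T_16 (nat_lit 147) (nat_lit 113) (nat_lit 5) (nat_lit 11) (nat_lit 6) L27853 (by decide +kernel)
theorem L27855 : W_16 (nat_lit 4) (nat_lit 0x4001200380001000680000000000000000000000000000000) (nat_lit 0x0) (nat_lit 0x20002000010008800000030000000000000000000000000000) := T_16 (nat_lit 160) (nat_lit 143) (nat_lit 6) (nat_lit 7) (nat_lit 11) L27854 (by decide +kernel)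
theorem L27856 : W_16 (nat_lit 3) (nat_lit 0x4001200380011000680020000000000000000000000000000) (nat_lit 0x0) (nat_lit 0x4000000000000800040001000080000000000000000000) := T_16 (nat_lit 131) (nat_lit 182) (nat_lit 4) (nat_lit 12) (nat_lit 10) L27792 (by decide +kernel)
theorem L27857 : W_16 (nat_lit 4) (nat_lit 0x4001200380011000680000000000000000000000000000000) (nat_lit 0x0) (nat_lit 0x4000000008000800060001000080000000000000000000) := T_16 (nat_lit 113) (nat_lit 147) (nat_lit 5) (nat_lit 11) (nat_lit 6) L27856 (by decide +kernel)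
theorem L27858 : W_16 (nat_lit 5) (nat_lit 0x4001200380001000680000000000000000000000000000000) (nat_lit 0x0) (nat_lit 0x40004400f8000800060001000080000000000000000000) := Q_16 (nat_lit 148) (C_16 L27857 (C_16 L27801 N_16)) (by decide +kernel)
theorem L27859 : W_16 (nat_lit 2) (nat_lit 0x4003200380001000680000000000000000000000000000000) (nat_lit 0x0) (nat_lit 0x20000000000008000000010000000000000000000000000000) := D_16 (nat_lit 147) (nat_lit 112) (nat_lit 197) (nat_lit 4) (nat_lit 11) (nat_lit 10) (nat_lit 5) (nat_lit 11) (nat_lit 7) (by decide +kernel)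
theorem L27860 : W_16 (nat_lit 2) (nat_lit 0x4003200790031000e80000000000000000000000000000000) (nat_lit 0x0) (nat_lit 0x800040004000000000000000000000000000000000000000000000) := D_16 (nat_lit 198) (nat_lit 215) (nat_lit 182) (nat_lit 6) (nat_lit 11) (nat_lit 12) (nat_lit 5) (nat_lit 12) (nat_lit 7) (by decide +kernel)
theorem L27861 : W_16 (nat_lit 3) (nat_lit 0x4003200790031000680000000000000000000000000000000) (nat_lit 0x0) (nat_lit 0x800040004000000000000800040000000000000000000000000000) := T_16 (nat_lit 131) (nat_lit 114) (nat_lit 5) (nat_lit 12) (nat_lit 6) L27860 (by decide +kernel)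
theorem L27862 : W_16 (nat_lit 4) (nat_lit 0x4003200790021000680000000000000000000000000000000) (nat_lit 0x0) (nat_lit 0x800040004000040010000800040000000000000000000000000000) := T_16 (nat_lit 148) (nat_lit 162) (nat_lit 2) (nat_lit 9) (nat_lit 9) L27861 (by decide +kernel)
theorem L27863 : W_16 (nat_lit 5) (nat_lit 0x4003200790001000680000000000000000000000000000000) (nat_lit 0x0) (nat_lit 0x800040004000040070000800040000000000000000000000000000) := T_16 (nat_lit 149) (nat_lit 150) (nat_lit 2) (nat_lit 10) (nat_lit 9) L27862 (by decide +kernel)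
theorem L27864 : W_16 (nat_lit 6) (nat_lit 0x4003200390001000680000000000000000000000000000000) (nat_lit 0x0) (nat_lit 0x800040004000c40070000800040000000000000000000000000000) := T_16 (nat_lit 166) (nat_lit 167) (nat_lit 1) (nat_lit 14) (nat_lit 9) L27863 (by decide +kernel)
theorem L27865 : W_16 (nat_lit 7) (nat_lit 0x4003200380001000680000000000000000000000000000000) (nat_lit 0x0) (nat_lit 0x800040004000c50070800800040000000000000000000000000000) := T_16 (nat_lit 160) (nat_lit 143) (nat_lit 6) (nat_lit 7) (nat_lit 11) L27864 (by decide +kernel)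
theorem L27866 : W_16 (nat_lit 8) (nat_lit 0x4001200380001000680000000000000000000000000000000) (nat_lit 0x0) (nat_lit 0x800060006000c50078800800050000000000000000000000000000) := Q_16 (nat_lit 181) (C_16 L27859 (C_16 L27865 N_16)) (by decide +kernel)
theorem L27867 : W_16 (nat_lit 10) (nat_lit 0x4001200380001000280000000000000000000000000000000) (nat_lit 0x0) (nat_lit 0x800060016000c500f8803c003f8007000180000000000000000000) := Q_16 (nat_lit 130) (C_16 L27852 (C_16 L27855 (C_16 L27858 (C_16 L27866 N_16)))) (by decide +kernel)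
theorem L27868 : W_16 (nat_lit 2) (nat_lit 0x4001200380001000280000000000000000000000000000000) (nat_lit 0x0) (nat_lit 0xc00400000000000000000000000000000000000000000) := D_16 (nat_lit 179) (nat_lit 166) (nat_lit 178) (nat_lit 1) (nat_lit 13) (nat_lit 9) (nat_lit 2) (nat_lit 7) (nat_lit 10) (by decide +kernel)
theorem L27869 : W_16 (nat_lit 3) (nat_lit 0x4001200390009000280000000000000000000000000000000) (nat_lit 0x0) (nat_lit 0x20002000000000000400030000000000000000000000000000) := T_16 (nat_lit 130) (nat_lit 113) (nat_lit 5) (nat_lit 11) (nat_lit 6) L27853 (by decide +kernel)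
theorem L27870 : W_16 (nat_lit 4) (nat_lit 0x4001200380009000280000000000000000000000000000000) (nat_lit 0x0) (nat_lit 0x20002000010000800400030000000000000000000000000000) := T_16 (nat_lit 160) (nat_lit 143) (nat_lit 6) (nat_lit 7) (nat_lit 11) L27869 (by decide +kernel)
theorem L27871 : W_16 (nat_lit 2) (nat_lit 0x1c003200390011000280000000000000000000000000000000) (nat_lit 0x0) (nat_lit 0x2000c00000000000000000000000000000000000000000000) := D_16 (nat_lit 179) (nat_lit 193) (nat_lit 178) (nat_lit 2) (nat_lit 6) (nat_lit 11) (nat_lit 2) (nat_lit 7) (nat_lit 10) (by decide +kernel)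
theorem L27872 : W_16 (nat_lit 3) (nat_lit 0xc003200390011000280000000000000000000000000000000) (nat_lit 0x0) (nat_lit 0x32000c00000000000000000000000000000000000000000000) := T_16 (nat_lit 196) (nat_lit 197) (nat_lit 2) (nat_lit 7) (nat_lit 11) L27871 (by decide +kernel)
theorem L27873 : W_16 (nat_lit 4) (nat_lit 0xc003200380011000280000000000000000000000000000000) (nat_lit 0x0) (nat_lit 0x32000c00010000800000000000000000000000000000000000) := T_16 (nat_lit 160) (nat_lit 143) (nat_lit 6) (nat_lit 7) (nat_lit 11) L27872 (by decide +kernel)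
theorem L27874 : W_16 (nat_lit 2) (nat_lit 0xd0000c0036003d0011000280000000000000000000000000000000) (nat_lit 0x0) (nat_lit 0x18000000020000000000000000000000000000000000000000000000000) := D_16 (nat_lit 197) (nat_lit 231) (nat_lit 232) (nat_lit 6) (nat_lit 10) (nat_lit 13) (nat_lit 7) (nat_lit 10) (nat_lit 9) (by decide +kernel)
theorem L27875 : W_16 (nat_lit 3) (nat_lit 0x90000c0036003d0011000280000000000000000000000000000000) (nat_lit 0x0) (nat_lit 0x18000600020000000000000000000000000000000000000000000000000) := T_16 (nat_lit 214) (nat_lit 213) (nat_lit 0) (nat_lit 11) (nat_lit 12) L27874 (by decide +kernel)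
theorem L27876 : W_16 (nat_lit 4) (nat_lit 0x10000c0036003d0011000280000000000000000000000000000000) (nat_lit 0x0) (nat_lit 0x18000e00060000000000000000000000000000000000000000000000000) := T_16 (nat_lit 215) (nat_lit 198) (nat_lit 6) (nat_lit 11) (nat_lit 12) L27875 (by decide +kernel)
theorem L27877 : W_16 (nat_lit 5) (nat_lit 0xc0036003d0011000280000000000000000000000000000000) (nat_lit 0x0) (nat_lit 0x1a000f00060000000000000000000000000000000000000000000000000) := T_16 (nat_lit 212) (nat_lit 229) (nat_lit 4) (nat_lit 8) (nat_lit 13) L27876 (by decide +kernel)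
theorem L27878 : W_16 (nat_lit 6) (nat_lit 0xc0036003c0011000280000000000000000000000000000000) (nat_lit 0x0) (nat_lit 0x1a000f00060000000010000800000000000000000000000000000000000) := T_16 (nat_lit 160) (nat_lit 143) (nat_lit 6) (nat_lit 7) (nat_lit 11) L27877 (by decide +kernel)
theorem L27879 : W_16 (nat_lit 7) (nat_lit 0xc003600380011000280000000000000000000000000000000) (nat_lit 0x0) (nat_lit 0x1a000f00060000000050020800000000000000000000000000000000000) := T_16 (nat_lit 162) (nat_lit 149) (nat_lit 2) (nat_lit 9) (nat_lit 9) L27878 (by decide +kernel)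
theorem L27880 : W_16 (nat_lit 8) (nat_lit 0xc003200380011000280000000000000000000000000000000) (nat_lit 0x0) (nat_lit 0x1a000f00060000c00050020800000000000000000000000000000000000) := T_16 (nat_lit 178) (nat_lit 179) (nat_lit 2) (nat_lit 7) (nat_lit 10) L27879 (by decide +kernel)
theorem L27881 : W_16 (nat_lit 2) (nat_lit 0x80002c003200380011000280000000000000000000000000000000) (nat_lit 0x0) (nat_lit 0x18000400000000000000000000000000000000000000000000000000000) := D_16 (nat_lit 214) (nat_lit 232) (nat_lit 231) (nat_lit 7) (nat_lit 10) (nat_lit 9) (nat_lit 6) (nat_lit 10) (nat_lit 13) (by decide +kernel)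
theorem L27882 : W_16 (nat_lit 3) (nat_lit 0x80000c003200380011000280000000000000000000000000000000) (nat_lit 0x0) (nat_lit 0x18000400030000000000000000000000000000000000000000000000000) := T_16 (nat_lit 197) (nat_lit 196) (nat_lit 2) (nat_lit 7) (nat_lit 11) L27881 (by decide +kernel)
theorem L27883 : W_16 (nat_lit 4) (nat_lit 0xc003200380011000280000000000000000000000000000000) (nat_lit 0x0) (nat_lit 0x18000c00070000000000000000000000000000000000000000000000000) := T_16 (nat_lit 215) (nat_lit 198) (nat_lit 6) (nat_lit 11) (nat_lit 12) L27882 (by decide +kernel)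
theorem L27884 : W_16 (nat_lit 2) (nat_lit 0xc003a003c0011000280000000000000000000000000000000) (nat_lit 0x0) (nat_lit 0x12004000000000000000000000000000000000000000000000) := D_16 (nat_lit 196) (nat_lit 182) (nat_lit 193) (nat_lit 1) (nat_lit 12) (nat_lit 10) (nat_lit 2) (nat_lit 6) (nat_lit 11) (by decide +kernel)
theorem L27885 : W_16 (nat_lit 3) (nat_lit 0xc0032003c0011000280000000000000000000000000000000) (nat_lit 0x0) (nat_lit 0x12004c00000000000000000000000000000000000000000000) := T_16 (nat_lit 179) (nat_lit 178) (nat_lit 2) (nat_lit 7) (nat_lit 10) L27884 (by decide +kernel)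
theorem L27886 : W_16 (nat_lit 4) (nat_lit 0xc003200380011000280000000000000000000000000000000) (nat_lit 0x0) (nat_lit 0x12004c00040020000000000000000000000000000000000000) := T_16 (nat_lit 162) (nat_lit 149) (nat_lit 2) (nat_lit 9) (nat_lit 9) L27885 (by decide +kernel)
theorem L27887 : W_16 (nat_lit 9) (nat_lit 0x4003200380011000280000000000000000000000000000000) (nat_lit 0x0) (nat_lit 0x1a000f0007a004c00050020800000000000000000000000000000000000) := Q_16 (nat_lit 195) (C_16 L27873 (C_16 L27880 (C_16 L27883 (C_16 L27886 N_16)))) (by decide +kernel)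
theorem L27888 : W_16 (nat_lit 2) (nat_lit 0x40076003800b1000a80000000000000000000000000000000) (nat_lit 0x0) (nat_lit 0x80000000000000001000080000000000000000000000000000) := D_16 (nat_lit 132) (nat_lit 115) (nat_lit 199) (nat_lit 6) (nat_lit 12) (nat_lit 10) (nat_lit 6) (nat_lit 12) (nat_lit 11) (by decide +kernel)
theorem L27889 : W_16 (nat_lit 3) (nat_lit 0x40036003800b1000a80000000000000000000000000000000) (nat_lit 0x0) (nat_lit 0xc0004000000000001000080000000000000000000000000000) := T_16 (nat_lit 182) (nat_lit 198) (nat_lit 5) (nat_lit 12) (nat_lit 7) L27888 (by decide +kernel)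
theorem L27890 : W_16 (nat_lit 4) (nat_lit 0x4003600380031000a80000000000000000000000000000000) (nat_lit 0x0) (nat_lit 0xc00040000000c0001000080000000000000000000000000000) := T_16 (nat_lit 151) (nat_lit 150) (nat_lit 1) (nat_lit 15) (nat_lit 8) L27889 (by decide +kernel)
theorem L27891 : W_16 (nat_lit 5) (nat_lit 0x4003600380031000280000000000000000000000000000000) (nat_lit 0x0) (nat_lit 0xc00040000000c00018000c0000000000000000000000000000) := T_16 (nat_lit 131) (nat_lit 114) (nat_lit 5) (nat_lit 12) (nat_lit 6) L27890 (by decide +kernel)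
theorem L27892 : W_16 (nat_lit 6) (nat_lit 0x4003200380031000280000000000000000000000000000000) (nat_lit 0x0) (nat_lit 0xc0004c000000c00018000c0000000000000000000000000000) := T_16 (nat_lit 178) (nat_lit 179) (nat_lit 2) (nat_lit 7) (nat_lit 10) L27891 (by decide +kernel)
theorem L27893 : W_16 (nat_lit 7) (nat_lit 0x4003200380011000280000000000000000000000000000000) (nat_lit 0x0) (nat_lit 0xc0004c000400e00018000c0000000000000000000000000000) := T_16 (nat_lit 149) (nat_lit 162) (nat_lit 2) (nat_lit 9) (nat_lit 9) L27892 (by decide +kernel)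
theorem L27894 : W_16 (nat_lit 3) (nat_lit 0x4003200380011000280000000000000000000000000000000) (nat_lit 0x0) (nat_lit 0x800040004000000000000800040000000000000000000000000000) := T_16 (nat_lit 131) (nat_lit 114) (nat_lit 5) (nat_lit 12) (nat_lit 6) L27793 (by decide +kernel)
theorem L27895 : W_16 (nat_lit 2) (nat_lit 0xa0001c003a00390011000280000000000000000000000000000000) (nat_lit 0x0) (nat_lit 0x1500000000000000000000000000000000000000000000000000000) := D_16 (nat_lit 214) (nat_lit 216) (nat_lit 212) (nat_lit 0) (nat_lit 12) (nat_lit 12) (nat_lit 0) (nat_lit 11) (nat_lit 12) (by decide +kernel)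
theorem L27896 : W_16 (nat_lit 3) (nat_lit 0x80001c003a00390011000280000000000000000000000000000000) (nat_lit 0x0) (nat_lit 0x4001700000000000000000000000000000000000000000000000000000) := T_16 (nat_lit 213) (nat_lit 230) (nat_lit 6) (nat_lit 9) (nat_lit 13) L27895 (by decide +kernel)
theorem L27897 : W_16 (nat_lit 4) (nat_lit 0x80001c003a00380011000280000000000000000000000000000000) (nat_lit 0x0) (nat_lit 0x4001700000000000010000800000000000000000000000000000000000) := T_16 (nat_lit 160) (nat_lit 143) (nat_lit 6) (nat_lit 7) (nat_lit 11) L27896 (by decide +kernel)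
theorem L27898 : W_16 (nat_lit 5) (nat_lit 0x80000c003a00380011000280000000000000000000000000000000) (nat_lit 0x0) (nat_lit 0x4001700012000000010000800000000000000000000000000000000000) := T_16 (nat_lit 196) (nat_lit 193) (nat_lit 2) (nat_lit 6) (nat_lit 11) L27897 (by decide +kernel)
theorem L27899 : W_16 (nat_lit 6) (nat_lit 0x80000c003200380011000280000000000000000000000000000000) (nat_lit 0x0) (nat_lit 0x4001700012000c00010000800000000000000000000000000000000000) := T_16 (nat_lit 179) (nat_lit 178) (nat_lit 2) (nat_lit 7) (nat_lit 10) L27898 (by decide +kernel)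
theorem L27900 : W_16 (nat_lit 7) (nat_lit 0xc003200380011000280000000000000000000000000000000) (nat_lit 0x0) (nat_lit 0x4001f00052000c00010000800000000000000000000000000000000000) := T_16 (nat_lit 215) (nat_lit 198) (nat_lit 6) (nat_lit 11) (nat_lit 12) L27899 (by decide +kernel)
theorem L27901 : W_16 (nat_lit 9) (nat_lit 0x4003200380011000280000000000000000000000000000000) (nat_lit 0x0) (nat_lit 0x1e001f0007a000c00050020800000000000000000000000000000000000) := Q_16 (nat_lit 195) (C_16 L27883 (C_16 L27880 (C_16 L27873 (C_16 L27900 N_16)))) (by decide +kernel)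
theorem L27902 : W_16 (nat_lit 2) (nat_lit 0x4003600390071001a80000000000000000000000000000000) (nat_lit 0x0) (nat_lit 0x4000000000000000080004000000000000000000000000) := D_16 (nat_lit 115) (nat_lit 98) (nat_lit 182) (nat_lit 5) (nat_lit 13) (nat_lit 5) (nat_lit 6) (nat_lit 12) (nat_lit 10) (by decide +kernel)
theorem L27903 : W_16 (nat_lit 3) (nat_lit 0x4003600390071000a80000000000000000000000000000000) (nat_lit 0x0) (nat_lit 0x4000000000001400080004000000000000000000000000) := T_16 (nat_lit 132) (nat_lit 130) (nat_lit 3) (nat_lit 10) (nat_lit 7) L27902 (by decide +kernel)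
theorem L27904 : W_16 (nat_lit 4) (nat_lit 0x4003600390071000280000000000000000000000000000000) (nat_lit 0x0) (nat_lit 0x4000000000001c000c0004000000000000000000000000) := T_16 (nat_lit 131) (nat_lit 114) (nat_lit 5) (nat_lit 12) (nat_lit 6) L27903 (by decide +kernel)
theorem L27905 : W_16 (nat_lit 5) (nat_lit 0x4003600390031000280000000000000000000000000000000) (nat_lit 0x0) (nat_lit 0x40000000c0001c000c0004000000000000000000000000) := T_16 (nat_lit 150) (nat_lit 151) (nat_lit 1) (nat_lit 15) (nat_lit 8) L27904 (by decide +kernel)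
theorem L27906 : W_16 (nat_lit 6) (nat_lit 0x4003600380031000280000000000000000000000000000000) (nat_lit 0x0) (nat_lit 0x40000100c0801c000c0004000000000000000000000000) := T_16 (nat_lit 160) (nat_lit 143) (nat_lit 6) (nat_lit 7) (nat_lit 11) L27905 (by decide +kernel)
theorem L27907 : W_16 (nat_lit 7) (nat_lit 0x4003200380031000280000000000000000000000000000000) (nat_lit 0x0) (nat_lit 0x4c000100c0801c000c0004000000000000000000000000) := T_16 (nat_lit 178) (nat_lit 179) (nat_lit 2) (nat_lit 7) (nat_lit 10) L27906 (by decide +kernel)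
theorem L27908 : W_16 (nat_lit 8) (nat_lit 0x4003200380011000280000000000000000000000000000000) (nat_lit 0x0) (nat_lit 0x4c000500e0801c000c0004000000000000000000000000) := T_16 (nat_lit 149) (nat_lit 162) (nat_lit 2) (nat_lit 9) (nat_lit 9) L27907 (by decide +kernel)
theorem L27909 : W_16 (nat_lit 10) (nat_lit 0x4003200380001000280000000000000000000000000000000) (nat_lit 0x0) (nat_lit 0x1e001f000fa004c000500f0801c000c0004000000000000000000000000) := Q_16 (nat_lit 148) (C_16 L27887 (C_16 L27893 (C_16 L27894 (C_16 L27901 (C_16 L27908 N_16))))) (by decide +kernel)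
theorem L27910 : W_16 (nat_lit 2) (nat_lit 0xc00074003600390001000280000000000000000000000000000000) (nat_lit 0x0) (nat_lit 0x20003000000000000000000000000000000000000000000000000000000) := D_16 (nat_lit 216) (nat_lit 233) (nat_lit 217) (nat_lit 7) (nat_lit 11) (nat_lit 9) (nat_lit 0) (nat_lit 13) (nat_lit 12) (by decide +kernel)
theorem L27911 : W_16 (nat_lit 3) (nat_lit 0xc00064003600390001000280000000000000000000000000000000) (nat_lit 0x0) (nat_lit 0x20003000018000000000000000000000000000000000000000000000000) := T_16 (nat_lit 196) (nat_lit 195) (nat_lit 3) (nat_lit 7) (nat_lit 11) L27910 (by decide +kernel)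
theorem L27912 : W_16 (nat_lit 4) (nat_lit 0xc00024003600390001000280000000000000000000000000000000) (nat_lit 0x0) (nat_lit 0x20003000058000000000010000000000000000000000000000000000000) := T_16 (nat_lit 198) (nat_lit 148) (nat_lit 6) (nat_lit 11) (nat_lit 12) L27911 (by decide +kernel)
theorem L27913 : W_16 (nat_lit 5) (nat_lit 0x400024003600390001000280000000000000000000000000000000) (nat_lit 0x0) (nat_lit 0x30003800058000000000010000000000000000000000000000000000000) := T_16 (nat_lit 215) (nat_lit 232) (nat_lit 7) (nat_lit 10) (nat_lit 9) L27912 (by decide +kernel)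
theorem L27914 : W_16 (nat_lit 6) (nat_lit 0x400024003600380001000280000000000000000000000000000000) (nat_lit 0x0) (nat_lit 0x30003800058000000010010800000000000000000000000000000000000) := T_16 (nat_lit 160) (nat_lit 143) (nat_lit 6) (nat_lit 7) (nat_lit 11) L27913 (by decide +kernel)
theorem L27915 : W_16 (nat_lit 7) (nat_lit 0x24003600380001000280000000000000000000000000000000) (nat_lit 0x0) (nat_lit 0x38003c00058000000010010800000000000000000000000000000000000) := T_16 (nat_lit 214) (nat_lit 231) (nat_lit 6) (nat_lit 10) (nat_lit 13) L27914 (by decide +kernel)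
theorem L27916 : W_16 (nat_lit 8) (nat_lit 0x24003200380001000280000000000000000000000000000000) (nat_lit 0x0) (nat_lit 0x38003c00058000c00010010800000000000000000000000000000000000) := T_16 (nat_lit 178) (nat_lit 179) (nat_lit 2) (nat_lit 7) (nat_lit 10) L27915 (by decide +kernel)
theorem L27917 : W_16 (nat_lit 2) (nat_lit 0x74003600390019000280000000000000000000000000000000) (nat_lit 0x0) (nat_lit 0x40060000000000000000000000000000000000000) := D_16 (nat_lit 149) (nat_lit 162) (nat_lit 150) (nat_lit 2) (nat_lit 9) (nat_lit 9) (nat_lit 1) (nat_lit 14) (nat_lit 8) (by decide +kernel)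
theorem L27918 : W_16 (nat_lit 3) (nat_lit 0x74003600390009000280000000000000000000000000000000) (nat_lit 0x0) (nat_lit 0x40070000800000000000000000000000000000000) := T_16 (nat_lit 148) (nat_lit 131) (nat_lit 6) (nat_lit 11) (nat_lit 11) L27917 (by decide +kernel)
theorem L27919 : W_16 (nat_lit 4) (nat_lit 0x74003600390001000280000000000000000000000000000000) (nat_lit 0x0) (nat_lit 0x40078000c00000000000000000000000000000000) := T_16 (nat_lit 147) (nat_lit 130) (nat_lit 5) (nat_lit 11) (nat_lit 7) L27918 (by decide +kernel)
theorem L27920 : W_16 (nat_lit 5) (nat_lit 0x64003600390001000280000000000000000000000000000000) (nat_lit 0x0) (nat_lit 0x18000000040078000c00000000000000000000000000000000) := T_16 (nat_lit 196) (nat_lit 195) (nat_lit 2) (nat_lit 7) (nat_lit 11) L27919 (by decide +kernel)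
theorem L27921 : W_16 (nat_lit 6) (nat_lit 0x64003200390001000280000000000000000000000000000000) (nat_lit 0x0) (nat_lit 0x18000c00040078000c00000000000000000000000000000000) := T_16 (nat_lit 178) (nat_lit 179) (nat_lit 3) (nat_lit 7) (nat_lit 10) L27920 (by decide +kernel)
theorem L27922 : W_16 (nat_lit 7) (nat_lit 0x64003200380001000280000000000000000000000000000000) (nat_lit 0x0) (nat_lit 0x18000c00050078800c00000000000000000000000000000000) := T_16 (nat_lit 160) (nat_lit 143) (nat_lit 6) (nat_lit 7) (nat_lit 11) L27921 (by decide +kernel)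
theorem L27923 : W_16 (nat_lit 8) (nat_lit 0x24003200380001000280000000000000000000000000000000) (nat_lit 0x0) (nat_lit 0x300078000d8000c00050078800c00000000000000000000000000000000) := Q_16 (nat_lit 198) (C_16 L27484 (C_16 L27780 (C_16 L27922 N_16))) (by decide +kernel)
theorem L27924 : W_16 (nat_lit 9) (nat_lit 0x4003200380001000280000000000000000000000000000000) (nat_lit 0x0) (nat_lit 0x38007c000f8000c00050078800c00000000000000000000000000000000) := Q_16 (nat_lit 197) (C_16 L27774 (C_16 L27916 (C_16 L27923 N_16))) (by decide +kernel)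
theorem L27925 : W_16 (nat_lit 2) (nat_lit 0x80006c003600380009000280000000000000000000000000000000) (nat_lit 0x0) (nat_lit 0x20001000080000000000000000000000000000000000000000000000000) := D_16 (nat_lit 216) (nat_lit 199) (nat_lit 233) (nat_lit 7) (nat_lit 11) (nat_lit 8) (nat_lit 7) (nat_lit 11) (nat_lit 9) (by decide +kernel)
theorem L27926 : W_16 (nat_lit 3) (nat_lit 0x6c003600380009000280000000000000000000000000000000) (nat_lit 0x0) (nat_lit 0x30001800080000000000000000000000000000000000000000000000000) := T_16 (nat_lit 215) (nat_lit 232) (nat_lit 4) (nat_lit 11) (nat_lit 13) L27925 (by decide +kernel)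
theorem L27927 : W_16 (nat_lit 4) (nat_lit 0x64003600380009000280000000000000000000000000000000) (nat_lit 0x0) (nat_lit 0x30001800098000000000000000000000000000000000000000000000000) := T_16 (nat_lit 195) (nat_lit 196) (nat_lit 2) (nat_lit 7) (nat_lit 11) L27926 (by decide +kernel)
theorem L27928 : W_16 (nat_lit 5) (nat_lit 0x44003600380009000280000000000000000000000000000000) (nat_lit 0x0) (nat_lit 0x30001c000b8000000000000000000000000000000000000000000000000) := T_16 (nat_lit 197) (nat_lit 214) (nat_lit 6) (nat_lit 10) (nat_lit 12) L27927 (by decide +kernel)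
theorem L27929 : W_16 (nat_lit 6) (nat_lit 0x44003200380009000280000000000000000000000000000000) (nat_lit 0x0) (nat_lit 0x30001c000b8000c00000000000000000000000000000000000000000000) := T_16 (nat_lit 178) (nat_lit 179) (nat_lit 2) (nat_lit 7) (nat_lit 10) L27928 (by decide +kernel)
theorem L27930 : W_16 (nat_lit 7) (nat_lit 0x4003200380009000280000000000000000000000000000000) (nat_lit 0x0) (nat_lit 0x30007c003f8004c00000010000800000000000000000000000000000000) := Q_16 (nat_lit 198) (C_16 L26540 (C_16 L27765 (C_16 L27929 N_16))) (by decide +kernel)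
theorem L27931 : W_16 (nat_lit 8) (nat_lit 0x4003200380001000280000000000000000000000000000000) (nat_lit 0x0) (nat_lit 0x30007c003f8004c00000018000c00030000000000000000000000000000) := Q_16 (nat_lit 147) (C_16 L26539 (C_16 L27930 N_16)) (by decide +kernel)
theorem L27932 : W_16 (nat_lit 2) (nat_lit 0xc0002c003600390001000280000000000000000000000000000000) (nat_lit 0x0) (nat_lit 0x2000300000000000000000000000000000000000000000000000000000) := D_16 (nat_lit 212) (nat_lit 229) (nat_lit 213) (nat_lit 4) (nat_lit 8) (nat_lit 13) (nat_lit 0) (nat_lit 11) (nat_lit 12) (by decide +kernel)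
theorem L27933 : W_16 (nat_lit 3) (nat_lit 0xc00024003600390001000280000000000000000000000000000000) (nat_lit 0x0) (nat_lit 0x2000300018000000000000000000000000000000000000000000000000) := T_16 (nat_lit 195) (nat_lit 196) (nat_lit 3) (nat_lit 7) (nat_lit 11) L27932 (by decide +kernel)
theorem L27934 : W_16 (nat_lit 4) (nat_lit 0x400024003600390001000280000000000000000000000000000000) (nat_lit 0x0) (nat_lit 0x12000b00018000000000000000000000000000000000000000000000000) := T_16 (nat_lit 215) (nat_lit 232) (nat_lit 7) (nat_lit 10) (nat_lit 9) L27933 (by decide +kernel)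
theorem L27935 : W_16 (nat_lit 5) (nat_lit 0x400024003600380001000280000000000000000000000000000000) (nat_lit 0x0) (nat_lit 0x12000b00018000000010000800000000000000000000000000000000000) := T_16 (nat_lit 160) (nat_lit 143) (nat_lit 6) (nat_lit 7) (nat_lit 11) L27934 (by decide +kernel)
theorem L27936 : W_16 (nat_lit 6) (nat_lit 0x24003600380001000280000000000000000000000000000000) (nat_lit 0x0) (nat_lit 0x1a000f00018000000010000800000000000000000000000000000000000) := T_16 (nat_lit 214) (nat_lit 231) (nat_lit 6) (nat_lit 10) (nat_lit 13) L27935 (by decide +kernel)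
theorem L27937 : W_16 (nat_lit 7) (nat_lit 0x24003200380001000280000000000000000000000000000000) (nat_lit 0x0) (nat_lit 0x1a000f00018000c00010000800000000000000000000000000000000000) := T_16 (nat_lit 178) (nat_lit 179) (nat_lit 2) (nat_lit 7) (nat_lit 10) L27936 (by decide +kernel)
theorem L27938 : W_16 (nat_lit 2) (nat_lit 0xf4003a00380001000680000000000000000000000000000000) (nat_lit 0x0) (nat_lit 0x4000300000000000000000000000000000000000000000000000000000) := D_16 (nat_lit 213) (nat_lit 230) (nat_lit 212) (nat_lit 6) (nat_lit 9) (nat_lit 13) (nat_lit 1) (nat_lit 12) (nat_lit 11) (by decide +kernel)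
theorem L27939 : W_16 (nat_lit 3) (nat_lit 0xb4003a00380001000680000000000000000000000000000000) (nat_lit 0x0) (nat_lit 0x4000300140000000000000000000000000000000000000000000000000) := T_16 (nat_lit 198) (nat_lit 200) (nat_lit 0) (nat_lit 13) (nat_lit 11) L27938 (by decide +kernel)
theorem L27940 : W_16 (nat_lit 4) (nat_lit 0xa4003a00380001000680000000000000000000000000000000) (nat_lit 0x0) (nat_lit 0x4000300158000000000000000000000000000000000000000000000000) := T_16 (nat_lit 196) (nat_lit 195) (nat_lit 2) (nat_lit 7) (nat_lit 11) L27939 (by decide +kernel)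
theorem L27941 : W_16 (nat_lit 5) (nat_lit 0xa4003200380001000680000000000000000000000000000000) (nat_lit 0x0) (nat_lit 0x4000300158000c00000000000000000000000000000000000000000000) := T_16 (nat_lit 179) (nat_lit 178) (nat_lit 2) (nat_lit 7) (nat_lit 10) L27940 (by decide +kernel)
theorem L27942 : W_16 (nat_lit 6) (nat_lit 0xa4003200380001000280000000000000000000000000000000) (nat_lit 0x0) (nat_lit 0x4000300158000c00000008000400000000000000000000000000000000) := T_16 (nat_lit 130) (nat_lit 147) (nat_lit 5) (nat_lit 11) (nat_lit 7) L27941 (by decide +kernel)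
theorem L27943 : W_16 (nat_lit 2) (nat_lit 0xa4003a00380001000680000000000000000000000000000000) (nat_lit 0x0) (nat_lit 0x140004000000000000000000000000000000000000000000000) := D_16 (nat_lit 200) (nat_lit 182) (nat_lit 198) (nat_lit 3) (nat_lit 9) (nat_lit 10) (nat_lit 0) (nat_lit 13) (nat_lit 11) (by decide +kernel)
theorem L27944 : W_16 (nat_lit 3) (nat_lit 0xa4003200380001000680000000000000000000000000000000) (nat_lit 0x0) (nat_lit 0x140004c00000000000000000000000000000000000000000000) := T_16 (nat_lit 179) (nat_lit 178) (nat_lit 2) (nat_lit 7) (nat_lit 10) L27943 (by decide +kernel)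
theorem L27945 : W_16 (nat_lit 4) (nat_lit 0xa4003200380001000280000000000000000000000000000000) (nat_lit 0x0) (nat_lit 0x140004c00000008000400000000000000000000000000000000) := T_16 (nat_lit 130) (nat_lit 147) (nat_lit 5) (nat_lit 11) (nat_lit 7) L27944 (by decide +kernel)
theorem L27946 : W_16 (nat_lit 2) (nat_lit 0xac003200390009000280000000000000000000000000000000) (nat_lit 0x0) (nat_lit 0x1000040004000000000000000000000000000000000000000000000) := D_16 (nat_lit 216) (nat_lit 182) (nat_lit 198) (nat_lit 4) (nat_lit 12) (nat_lit 12) (nat_lit 7) (nat_lit 11) (nat_lit 8) (by decide +kernel)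
theorem L27947 : W_16 (nat_lit 3) (nat_lit 0xac003200390001000280000000000000000000000000000000) (nat_lit 0x0) (nat_lit 0x1000040004000000008000400000000000000000000000000000000) := T_16 (nat_lit 147) (nat_lit 130) (nat_lit 5) (nat_lit 11) (nat_lit 7) L27946 (by decide +kernel)
theorem L27948 : W_16 (nat_lit 4) (nat_lit 0xa4003200390001000280000000000000000000000000000000) (nat_lit 0x0) (nat_lit 0x1000058004000000008000400000000000000000000000000000000) := T_16 (nat_lit 195) (nat_lit 196) (nat_lit 2) (nat_lit 7) (nat_lit 11) L27947 (by decide +kernel)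
theorem L27949 : W_16 (nat_lit 5) (nat_lit 0xa4003200380001000280000000000000000000000000000000) (nat_lit 0x0) (nat_lit 0x1000058004000010008800400000000000000000000000000000000) := T_16 (nat_lit 160) (nat_lit 143) (nat_lit 6) (nat_lit 7) (nat_lit 11) L27948 (by decide +kernel)
theorem L27950 : W_16 (nat_lit 2) (nat_lit 0xa4003a00380001000280000000000000000000000000000000) (nat_lit 0x0) (nat_lit 0x140004000000000000000000000000000000000000000000000) := D_16 (nat_lit 200) (nat_lit 182) (nat_lit 198) (nat_lit 3) (nat_lit 9) (nat_lit 10) (nat_lit 0) (nat_lit 13) (nat_lit 11) (by decide +kernel)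
theorem L27951 : W_16 (nat_lit 3) (nat_lit 0xa4003200380001000280000000000000000000000000000000) (nat_lit 0x0) (nat_lit 0x140004c00000000000000000000000000000000000000000000) := T_16 (nat_lit 179) (nat_lit 178) (nat_lit 2) (nat_lit 7) (nat_lit 10) L27950 (by decide +kernel)
theorem L27952 : W_16 (nat_lit 2) (nat_lit 0xa4003a00390009000280000000000000000000000000000000) (nat_lit 0x0) (nat_lit 0x1000100004000000000000000000000000000000000000000000000) := D_16 (nat_lit 182) (nat_lit 216) (nat_lit 200) (nat_lit 4) (nat_lit 12) (nat_lit 12) (nat_lit 3) (nat_lit 9) (nat_lit 10) (by decide +kernel)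
theorem L27953 : W_16 (nat_lit 3) (nat_lit 0xa4003200390009000280000000000000000000000000000000) (nat_lit 0x0) (nat_lit 0x1000100004c00000000000000000000000000000000000000000000) := T_16 (nat_lit 179) (nat_lit 178) (nat_lit 2) (nat_lit 7) (nat_lit 10) L27952 (by decide +kernel)
theorem L27954 : W_16 (nat_lit 4) (nat_lit 0xa4003200390001000280000000000000000000000000000000) (nat_lit 0x0) (nat_lit 0x1000100004c00000008000400000000000000000000000000000000) := T_16 (nat_lit 147) (nat_lit 130) (nat_lit 5) (nat_lit 11) (nat_lit 7) L27953 (by decide +kernel)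
theorem L27955 : W_16 (nat_lit 5) (nat_lit 0xa4003200380001000280000000000000000000000000000000) (nat_lit 0x0) (nat_lit 0x1000100004c00010008800400000000000000000000000000000000) := T_16 (nat_lit 160) (nat_lit 143) (nat_lit 6) (nat_lit 7) (nat_lit 11) L27954 (by decide +kernel)
theorem L27956 : W_16 (nat_lit 7) (nat_lit 0x24003200380001000280000000000000000000000000000000) (nat_lit 0x0) (nat_lit 0x40013001d8004c00010008800400000000000000000000000000000000) := Q_16 (nat_lit 199) (C_16 L27942 (C_16 L27945 (C_16 L27949 (C_16 L27951 (C_16 L27955 N_16))))) (by decide +kernel)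
theorem L27957 : W_16 (nat_lit 8) (nat_lit 0x4003200380001000280000000000000000000000000000000) (nat_lit 0x0) (nat_lit 0x1e001f001f8004c00010008800400000000000000000000000000000000) := Q_16 (nat_lit 197) (C_16 L27774 (C_16 L27937 (C_16 L27956 N_16))) (by decide +kernel)
theorem L27958 : W_16 (nat_lit 2) (nat_lit 0xec003a00390019000280000000000000000000000000000000) (nat_lit 0x0) (nat_lit 0x40060000000000000000000000000000000000000) := D_16 (nat_lit 149) (nat_lit 162) (nat_lit 150) (nat_lit 2) (nat_lit 9) (nat_lit 9) (nat_lit 1) (nat_lit 14) (nat_lit 8) (by decide +kernel)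
theorem L27959 : W_16 (nat_lit 3) (nat_lit 0xec003a00390009000280000000000000000000000000000000) (nat_lit 0x0) (nat_lit 0x40070000800000000000000000000000000000000) := T_16 (nat_lit 148) (nat_lit 131) (nat_lit 6) (nat_lit 11) (nat_lit 11) L27958 (by decide +kernel)
theorem L27960 : W_16 (nat_lit 4) (nat_lit 0xec003a00390001000280000000000000000000000000000000) (nat_lit 0x0) (nat_lit 0x1000000000000040078000800000000000000000000000000000000) := T_16 (nat_lit 147) (nat_lit 216) (nat_lit 7) (nat_lit 11) (nat_lit 8) L27959 (by decide +kernel)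
theorem L27961 : W_16 (nat_lit 5) (nat_lit 0x6c003a00390001000280000000000000000000000000000000) (nat_lit 0x0) (nat_lit 0x1000180000000040078000800000000000000000000000000000000) := T_16 (nat_lit 199) (nat_lit 200) (nat_lit 0) (nat_lit 13) (nat_lit 11) L27960 (by decide +kernel)
theorem L27962 : W_16 (nat_lit 6) (nat_lit 0x6c003a00380001000280000000000000000000000000000000) (nat_lit 0x0) (nat_lit 0x1000180000000050078800800000000000000000000000000000000) := T_16 (nat_lit 160) (nat_lit 143) (nat_lit 6) (nat_lit 7) (nat_lit 11) L27961 (by decide +kernel)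
theorem L27963 : W_16 (nat_lit 7) (nat_lit 0x64003a00380001000280000000000000000000000000000000) (nat_lit 0x0) (nat_lit 0x1000198000000050078800800000000000000000000000000000000) := T_16 (nat_lit 195) (nat_lit 196) (nat_lit 2) (nat_lit 7) (nat_lit 11) L27962 (by decide +kernel)
theorem L27964 : W_16 (nat_lit 8) (nat_lit 0x64003200380001000280000000000000000000000000000000) (nat_lit 0x0) (nat_lit 0x1000198000c00050078800800000000000000000000000000000000) := T_16 (nat_lit 179) (nat_lit 178) (nat_lit 3) (nat_lit 7) (nat_lit 10) L27963 (by decide +kernel)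
theorem L27965 : W_16 (nat_lit 9) (nat_lit 0x44003200380001000280000000000000000000000000000000) (nat_lit 0x0) (nat_lit 0xc0017001b8000c00050078800800000000000000000000000000000000) := Q_16 (nat_lit 197) (C_16 L27786 (C_16 L27791 (C_16 L27964 N_16))) (by decide +kernel)
theorem L27966 : W_16 (nat_lit 2) (nat_lit 0x44003200380001000280000000000000000000000000000000) (nat_lit 0x0) (nat_lit 0x10000800000000000000010000000000000000000000000000000000000) := D_16 (nat_lit 215) (nat_lit 232) (nat_lit 148) (nat_lit 4) (nat_lit 11) (nat_lit 13) (nat_lit 6) (nat_lit 11) (nat_lit 12) (by decide +kernel)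
theorem L27967 : W_16 (nat_lit 10) (nat_lit 0x4003200380001000280000000000000000000000000000000) (nat_lit 0x0) (nat_lit 0x3c001f001f8000c00050078800800000000000000000000000000000000) := Q_16 (nat_lit 198) (C_16 L27965 (C_16 L27785 (C_16 L27966 N_16))) (by decide +kernel)
theorem L27968 : W_16 (nat_lit 2) (nat_lit 0x4003200380019000280000000000000000000000000000000) (nat_lit 0x0) (nat_lit 0x40060000000000000000000000000000000000000) := D_16 (nat_lit 149) (nat_lit 150) (nat_lit 162) (nat_lit 1) (nat_lit 14) (nat_lit 8) (nat_lit 2) (nat_lit 9) (nat_lit 9) (by decide +kernel)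
theorem L27969 : W_16 (nat_lit 2) (nat_lit 0x94007a00390011000280040000000000000000000000000000) (nat_lit 0x0) (nat_lit 0x1000000000000000008000400000000000000000000000000000000) := D_16 (nat_lit 147) (nat_lit 130) (nat_lit 216) (nat_lit 7) (nat_lit 11) (nat_lit 7) (nat_lit 4) (nat_lit 12) (nat_lit 12) (by decide +kernel)
theorem L27970 : W_16 (nat_lit 3) (nat_lit 0x14007a00390011000280040000000000000000000000000000) (nat_lit 0x0) (nat_lit 0x1000180000000000008000400000000000000000000000000000000) := T_16 (nat_lit 199) (nat_lit 200) (nat_lit 3) (nat_lit 9) (nat_lit 10) L27969 (by decide +kernel)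
theorem L27971 : W_16 (nat_lit 4) (nat_lit 0x4007a00390011000280040000000000000000000000000000) (nat_lit 0x0) (nat_lit 0x1000198000000000008000400000000000000000000000000000000) := T_16 (nat_lit 196) (nat_lit 195) (nat_lit 1) (nat_lit 12) (nat_lit 10) L27970 (by decide +kernel)
theorem L27972 : W_16 (nat_lit 5) (nat_lit 0x4007200390011000280040000000000000000000000000000) (nat_lit 0x0) (nat_lit 0x1000198000c00000008000400000000000000000000000000000000) := T_16 (nat_lit 179) (nat_lit 178) (nat_lit 2) (nat_lit 7) (nat_lit 10) L27971 (by decide +kernel)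
theorem L27973 : W_16 (nat_lit 6) (nat_lit 0x4007200390011000280000000000000000000000000000000) (nat_lit 0x0) (nat_lit 0x1000198000c00000008000c00040000000000000000000000000000) := T_16 (nat_lit 114) (nat_lit 131) (nat_lit 5) (nat_lit 12) (nat_lit 6) L27972 (by decide +kernel)
theorem L27974 : W_16 (nat_lit 7) (nat_lit 0x4007200380011000280000000000000000000000000000000) (nat_lit 0x0) (nat_lit 0x1000198000c00010008800c00040000000000000000000000000000) := T_16 (nat_lit 160) (nat_lit 143) (nat_lit 6) (nat_lit 7) (nat_lit 11) L27973 (by decide +kernel)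
theorem L27975 : W_16 (nat_lit 2) (nat_lit 0x4007600390011000e80000000000000000000000000000000) (nat_lit 0x0) (nat_lit 0x80000000000008000000010000000000000000000000000000) := D_16 (nat_lit 147) (nat_lit 112) (nat_lit 199) (nat_lit 4) (nat_lit 11) (nat_lit 10) (nat_lit 7) (nat_lit 11) (nat_lit 7) (by decide +kernel)
theorem L27976 : W_16 (nat_lit 3) (nat_lit 0x4007600390011000a80000000000000000000000000000000) (nat_lit 0x0) (nat_lit 0x80000000000008000400030000000000000000000000000000) := T_16 (nat_lit 130) (nat_lit 113) (nat_lit 4) (nat_lit 12) (nat_lit 10) L27975 (by decide +kernel)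
theorem L27977 : W_16 (nat_lit 4) (nat_lit 0x4007600390011000280000000000000000000000000000000) (nat_lit 0x0) (nat_lit 0x80000000000008000c00070000000000000000000000000000) := T_16 (nat_lit 131) (nat_lit 114) (nat_lit 5) (nat_lit 12) (nat_lit 6) L27976 (by decide +kernel)
theorem L27978 : W_16 (nat_lit 5) (nat_lit 0x4007600380011000280000000000000000000000000000000) (nat_lit 0x0) (nat_lit 0x80000000010008800c00070000000000000000000000000000) := T_16 (nat_lit 160) (nat_lit 143) (nat_lit 6) (nat_lit 7) (nat_lit 11) L27977 (by decide +kernel)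
theorem L27979 : W_16 (nat_lit 6) (nat_lit 0x4007200380011000280000000000000000000000000000000) (nat_lit 0x0) (nat_lit 0x80000c00010008800c00070000000000000000000000000000) := T_16 (nat_lit 178) (nat_lit 179) (nat_lit 2) (nat_lit 7) (nat_lit 10) L27978 (by decide +kernel)
theorem L27980 : W_16 (nat_lit 2) (nat_lit 0x4007200390011001e80000000000000000000000000000000) (nat_lit 0x0) (nat_lit 0x80000000000008000000010000000000000000000000000000) := D_16 (nat_lit 147) (nat_lit 112) (nat_lit 199) (nat_lit 4) (nat_lit 11) (nat_lit 10) (nat_lit 7) (nat_lit 11) (nat_lit 7) (by decide +kernel)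
theorem L27981 : W_16 (nat_lit 3) (nat_lit 0x4007200390011001a80000000000000000000000000000000) (nat_lit 0x0) (nat_lit 0x80000000000008000400030000000000000000000000000000) := T_16 (nat_lit 130) (nat_lit 113) (nat_lit 4) (nat_lit 12) (nat_lit 10) L27980 (by decide +kernel)
theorem L27982 : W_16 (nat_lit 4) (nat_lit 0x4007200390011000a80000000000000000000000000000000) (nat_lit 0x0) (nat_lit 0x800000000000080014000b0000000000000000000000000000) := T_16 (nat_lit 132) (nat_lit 115) (nat_lit 6) (nat_lit 12) (nat_lit 10) L27981 (by decide +kernel)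
theorem L27983 : W_16 (nat_lit 5) (nat_lit 0x4007200380011000a80000000000000000000000000000000) (nat_lit 0x0) (nat_lit 0x800000000100088014000b0000000000000000000000000000) := T_16 (nat_lit 160) (nat_lit 143) (nat_lit 6) (nat_lit 7) (nat_lit 11) L27982 (by decide +kernel)
theorem L27984 : W_16 (nat_lit 6) (nat_lit 0x4007200380011000280000000000000000000000000000000) (nat_lit 0x0) (nat_lit 0x80000000010008801c000f0000000000000000000000000000) := T_16 (nat_lit 131) (nat_lit 114) (nat_lit 5) (nat_lit 12) (nat_lit 6) L27983 (by decide +kernel)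
theorem L27985 : W_16 (nat_lit 2) (nat_lit 0x4003800094007a00380011000280000000000000000000000000000000) (nat_lit 0x0) (nat_lit 0x8000400020000000000000000000000000000000000000000000000000) := D_16 (nat_lit 214) (nat_lit 231) (nat_lit 197) (nat_lit 1) (nat_lit 13) (nat_lit 12) (nat_lit 0) (nat_lit 13) (nat_lit 12) (by decide +kernel)
theorem L27986 : W_16 (nat_lit 3) (nat_lit 0x4001800094007a00380011000280000000000000000000000000000000) (nat_lit 0x0) (nat_lit 0x48002400020000000000000000000000000000000000000000000000000) := T_16 (nat_lit 217) (nat_lit 234) (nat_lit 7) (nat_lit 12) (nat_lit 9) L27985 (by decide +kernel)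
theorem L27987 : W_16 (nat_lit 4) (nat_lit 0x4001000094007a00380011000280000000000000000000000000000000) (nat_lit 0x0) (nat_lit 0x58002c00020000000000000000000000000000000000000000000000000) := T_16 (nat_lit 215) (nat_lit 232) (nat_lit 5) (nat_lit 12) (nat_lit 9) L27986 (by decide +kernel)
theorem L27988 : W_16 (nat_lit 5) (nat_lit 0x4000000094007a00380011000280000000000000000000000000000000) (nat_lit 0x0) (nat_lit 0x78003c00020000000000000000000000000000000000000000000000000) := T_16 (nat_lit 216) (nat_lit 233) (nat_lit 4) (nat_lit 12) (nat_lit 13) L27987 (by decide +kernel)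
theorem L27989 : W_16 (nat_lit 6) (nat_lit 0x94007a00380011000280000000000000000000000000000000) (nat_lit 0x0) (nat_lit 0x7c003e00020000000000000000000000000000000000000000000000000) := T_16 (nat_lit 230) (nat_lit 213) (nat_lit 6) (nat_lit 9) (nat_lit 13) L27988 (by decide +kernel)
theorem L27990 : W_16 (nat_lit 7) (nat_lit 0x14007a00380011000280000000000000000000000000000000) (nat_lit 0x0) (nat_lit 0x7c003e001a0000000000000000000000000000000000000000000000000) := T_16 (nat_lit 199) (nat_lit 200) (nat_lit 3) (nat_lit 9) (nat_lit 10) L27989 (by decide +kernel)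
theorem L27991 : W_16 (nat_lit 8) (nat_lit 0x4007a00380011000280000000000000000000000000000000) (nat_lit 0x0) (nat_lit 0x7c003e001b8000000000000000000000000000000000000000000000000) := T_16 (nat_lit 196) (nat_lit 195) (nat_lit 1) (nat_lit 12) (nat_lit 10) L27990 (by decide +kernel)
theorem L27992 : W_16 (nat_lit 9) (nat_lit 0x4007200380011000280000000000000000000000000000000) (nat_lit 0x0) (nat_lit 0x7c003e001b8000c00000000000000000000000000000000000000000000) := T_16 (nat_lit 179) (nat_lit 178) (nat_lit 2) (nat_lit 7) (nat_lit 10) L27991 (by decide +kernel)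
theorem L27993 : W_16 (nat_lit 2) (nat_lit 0x4007600390011000e80000000000000000000000000000000) (nat_lit 0x0) (nat_lit 0x20000000000008000000010000000000000000000000000000) := D_16 (nat_lit 147) (nat_lit 112) (nat_lit 197) (nat_lit 4) (nat_lit 11) (nat_lit 10) (nat_lit 5) (nat_lit 11) (nat_lit 7) (by decide +kernel)
theorem L27994 : W_16 (nat_lit 3) (nat_lit 0x4007600390011000a80000000000000000000000000000000) (nat_lit 0x0) (nat_lit 0x20000000000008000400030000000000000000000000000000) := T_16 (nat_lit 130) (nat_lit 113) (nat_lit 4) (nat_lit 12) (nat_lit 10) L27993 (by decide +kernel)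
theorem L27995 : W_16 (nat_lit 4) (nat_lit 0x4007600390011000280000000000000000000000000000000) (nat_lit 0x0) (nat_lit 0x20000000000008000c00070000000000000000000000000000) := T_16 (nat_lit 131) (nat_lit 114) (nat_lit 5) (nat_lit 12) (nat_lit 6) L27994 (by decide +kernel)
theorem L27996 : W_16 (nat_lit 5) (nat_lit 0x4007200390011000280000000000000000000000000000000) (nat_lit 0x0) (nat_lit 0x20000c00000008000c00070000000000000000000000000000) := T_16 (nat_lit 178) (nat_lit 179) (nat_lit 2) (nat_lit 7) (nat_lit 10) L27995 (by decide +kernel)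
theorem L27997 : W_16 (nat_lit 6) (nat_lit 0x4007200380011000280000000000000000000000000000000) (nat_lit 0x0) (nat_lit 0x20000c00010008800c00070000000000000000000000000000) := T_16 (nat_lit 160) (nat_lit 143) (nat_lit 6) (nat_lit 7) (nat_lit 11) L27996 (by decide +kernel)
theorem L27998 : W_16 (nat_lit 10) (nat_lit 0x4003200380011000280000000000000000000000000000000) (nat_lit 0x0) (nat_lit 0x7c003e001b8004c00010008801c000f0000000000000000000000000000) := Q_16 (nat_lit 182) (C_16 L27974 (C_16 L27979 (C_16 L27984 (C_16 L27992 (C_16 L27997 N_16))))) (by decide +kernel)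
theorem L27999 : W_16 (nat_lit 2) (nat_lit 0x4003200390031000280040000000000000000000000000000) (nat_lit 0x0) (nat_lit 0xc8000000000000000000000000000000000000) := D_16 (nat_lit 150) (nat_lit 151) (nat_lit 147) (nat_lit 1) (nat_lit 15) (nat_lit 8) (nat_lit 1) (nat_lit 14) (nat_lit 8) (by decide +kernel)
theorem L28000 : W_16 (nat_lit 3) (nat_lit 0x4003200390011000280040000000000000000000000000000) (nat_lit 0x0) (nat_lit 0x400e8000000000000000000000000000000000000) := T_16 (nat_lit 149) (nat_lit 162) (nat_lit 2) (nat_lit 9) (nat_lit 9) L27999 (by decide +kernel)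
theorem L28001 : W_16 (nat_lit 4) (nat_lit 0x4003200380011000280040000000000000000000000000000) (nat_lit 0x0) (nat_lit 0x500e8800000000000000000000000000000000000) := T_16 (nat_lit 160) (nat_lit 143) (nat_lit 6) (nat_lit 7) (nat_lit 11) L28000 (by decide +kernel)
theorem L28002 : W_16 (nat_lit 5) (nat_lit 0x4003200380011000280000000000000000000000000000000) (nat_lit 0x0) (nat_lit 0x500e8800800040000000000000000000000000000) := T_16 (nat_lit 114) (nat_lit 131) (nat_lit 5) (nat_lit 12) (nat_lit 6) L28001 (by decide +kernel)
theorem L28003 : W_16 (nat_lit 2) (nat_lit 0x4003200380031000280000000000000000000000000000000) (nat_lit 0x0) (nat_lit 0xc8000000000000000000000000000000000000) := D_16 (nat_lit 150) (nat_lit 151) (nat_lit 147) (nat_lit 1) (nat_lit 15) (nat_lit 8) (nat_lit 1) (nat_lit 14) (nat_lit 8) (by decide +kernel)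
theorem L28004 : W_16 (nat_lit 3) (nat_lit 0x4003200380011000280000000000000000000000000000000) (nat_lit 0x0) (nat_lit 0x400e8000000000000000000000000000000000000) := T_16 (nat_lit 149) (nat_lit 162) (nat_lit 2) (nat_lit 9) (nat_lit 9) L28003 (by decide +kernel)
theorem L28005 : W_16 (nat_lit 11) (nat_lit 0x4003200380001000280000000000000000000000000000000) (nat_lit 0x0) (nat_lit 0x7c003e001b8004c000500f8801c000f0004000000000000000000000000) := Q_16 (nat_lit 148) (C_16 L27998 (C_16 L27908 (C_16 L28002 (C_16 L28004 N_16)))) (by decide +kernel)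
theorem L28006 : W_16 (nat_lit 2) (nat_lit 0x4003200380019000280000000000000000000000000000000) (nat_lit 0x0) (nat_lit 0x40000000000000000800040000000000000000000000000000) := D_16 (nat_lit 131) (nat_lit 198) (nat_lit 114) (nat_lit 6) (nat_lit 11) (nat_lit 11) (nat_lit 5) (nat_lit 12) (nat_lit 6) (by decide +kernel)
theorem L28007 : W_16 (nat_lit 3) (nat_lit 0x4003200380009000280000000000000000000000000000000) (nat_lit 0x0) (nat_lit 0x40000000040070000800040000000000000000000000000000) := Q_16 (nat_lit 148) (C_16 L27968 (C_16 L28006 N_16)) (by decide +kernel)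
theorem L28008 : W_16 (nat_lit 4) (nat_lit 0x4003200380001000280000000000000000000000000000000) (nat_lit 0x0) (nat_lit 0x40000000040078000c00070000000000000000000000000000) := Q_16 (nat_lit 147) (C_16 L26539 (C_16 L28007 N_16)) (by decide +kernel)
theorem L28009 : W_16 (nat_lit 12) (nat_lit 0x4001200380001000280000000000000000000000000000000) (nat_lit 0x0) (nat_lit 0x7e007f003fa006c000500f8801c000f0004000000000000000000000000) := Q_16 (nat_lit 181) (C_16 L26551 (C_16 L27767 (C_16 L27909 (C_16 L27924 (C_16 L27931 (C_16 L27957 (C_16 L27967 (C_16 L28005 (C_16 L28008 N_16))))))))) (by decide +kernel)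
theorem L28010 : W_16 (nat_lit 13) (nat_lit 0x4000200380001000280000000000000000000000000000000) (nat_lit 0x0) (nat_lit 0x7e007f003fa017c00c500f8803c003f8007000180000000000000000000) := Q_16 (nat_lit 180) (C_16 L27867 (C_16 L27868 (C_16 L28009 N_16))) (by decide +kernel)
theorem L28011 : W_16 (nat_lit 2) (nat_lit 0x4009200f80001000280000000000000000000000000000000) (nat_lit 0x0) (nat_lit 0xe0000000000000000000000000000000000000) := D_16 (nat_lit 150) (nat_lit 149) (nat_lit 151) (nat_lit 2) (nat_lit 10) (nat_lit 9) (nat_lit 2) (nat_lit 11) (nat_lit 9) (by decide +kernel)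
theorem L28012 : W_16 (nat_lit 3) (nat_lit 0x4009200780001000280000000000000000000000000000000) (nat_lit 0x0) (nat_lit 0x20008000e0000000000000000000000000000000000000) := T_16 (nat_lit 167) (nat_lit 181) (nat_lit 1) (nat_lit 14) (nat_lit 9) L28011 (by decide +kernel)
theorem L28013 : W_16 (nat_lit 4) (nat_lit 0x4001200780001000280000000000000000000000000000000) (nat_lit 0x0) (nat_lit 0x1a0008000e0000000000000000000000000000000000000) := T_16 (nat_lit 183) (nat_lit 184) (nat_lit 3) (nat_lit 10) (nat_lit 9) L28012 (by decide +kernel)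
theorem L28014 : W_16 (nat_lit 5) (nat_lit 0x4000200780001000280000000000000000000000000000000) (nat_lit 0x0) (nat_lit 0x1b8008000e0000000000000000000000000000000000000) := T_16 (nat_lit 180) (nat_lit 179) (nat_lit 1) (nat_lit 13) (nat_lit 9) L28013 (by decide +kernel)
theorem L28015 : W_16 (nat_lit 6) (nat_lit 0x4000200380001000280000000000000000000000000000000) (nat_lit 0x0) (nat_lit 0x1fc00c400f0000000000000000000000000000000000000) := Q_16 (nat_lit 166) (C_16 L27608 (C_16 L27524 (C_16 L27527 (C_16 L28014 N_16)))) (by decide +kernel)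
theorem L28016 : W_16 (nat_lit 2) (nat_lit 0x4001200790041000280000000000000000000000000000000) (nat_lit 0x0) (nat_lit 0x2000800080000000000000000000000000000000000000) := D_16 (nat_lit 167) (nat_lit 151) (nat_lit 181) (nat_lit 2) (nat_lit 11) (nat_lit 9) (nat_lit 1) (nat_lit 14) (nat_lit 9) (by decide +kernel)
theorem L28017 : W_16 (nat_lit 3) (nat_lit 0x4000200790041000280000000000000000000000000000000) (nat_lit 0x0) (nat_lit 0x3800800080000000000000000000000000000000000000) := T_16 (nat_lit 180) (nat_lit 179) (nat_lit 1) (nat_lit 13) (nat_lit 9) L28016 (by decide +kernel)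
theorem L28018 : W_16 (nat_lit 4) (nat_lit 0x4000200790001000280000000000000000000000000000000) (nat_lit 0x0) (nat_lit 0x38008000e0000000000000000000000000000000000000) := T_16 (nat_lit 150) (nat_lit 149) (nat_lit 2) (nat_lit 10) (nat_lit 9) L28017 (by decide +kernel)
theorem L28019 : W_16 (nat_lit 5) (nat_lit 0x4000200780001000280000000000000000000000000000000) (nat_lit 0x0) (nat_lit 0x38008100e0800000000000000000000000000000000000) := T_16 (nat_lit 160) (nat_lit 143) (nat_lit 6) (nat_lit 7) (nat_lit 11) L28018 (by decide +kernel)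
theorem L28020 : W_16 (nat_lit 8) (nat_lit 0x4000200380001000280000000000000000000000000000000) (nat_lit 0x0) (nat_lit 0x7fc01c501e0800000000000000000000000000000000000) := Q_16 (nat_lit 166) (C_16 L27614 (C_16 L27605 (C_16 L28014 (C_16 L27531 (C_16 L28019 (C_16 L27716 (C_16 L27527 N_16))))))) (by decide +kernel)
theorem L28021 : W_16 (nat_lit 2) (nat_lit 0x40018000d4007a00390001000280000000000000000000000000000000) (nat_lit 0x0) (nat_lit 0x40002000020000000000000000000000000000000000000000000000000) := D_16 (nat_lit 217) (nat_lit 234) (nat_lit 197) (nat_lit 7) (nat_lit 12) (nat_lit 9) (nat_lit 3) (nat_lit 9) (nat_lit 11) (by decide +kernel)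
theorem L28022 : W_16 (nat_lit 3) (nat_lit 0x4001800094007a00390001000280000000000000000000000000000000) (nat_lit 0x0) (nat_lit 0x40002000060000000000010000000000000000000000000000000000000) := T_16 (nat_lit 198) (nat_lit 148) (nat_lit 6) (nat_lit 11) (nat_lit 12) L28021 (by decide +kernel)
theorem L28023 : W_16 (nat_lit 4) (nat_lit 0x4001000094007a00390001000280000000000000000000000000000000) (nat_lit 0x0) (nat_lit 0x50002800060000000000010000000000000000000000000000000000000) := T_16 (nat_lit 215) (nat_lit 232) (nat_lit 5) (nat_lit 12) (nat_lit 9) L28022 (by decide +kernel)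
theorem L28024 : W_16 (nat_lit 5) (nat_lit 0x4000000094007a00390001000280000000000000000000000000000000) (nat_lit 0x0) (nat_lit 0x70003800060000000000010000000000000000000000000000000000000) := T_16 (nat_lit 216) (nat_lit 233) (nat_lit 4) (nat_lit 12) (nat_lit 13) L28023 (by decide +kernel)
theorem L28025 : W_16 (nat_lit 6) (nat_lit 0x94007a00390001000280000000000000000000000000000000) (nat_lit 0x0) (nat_lit 0x74003a00060000000000010000000000000000000000000000000000000) := T_16 (nat_lit 230) (nat_lit 213) (nat_lit 6) (nat_lit 9) (nat_lit 13) L28024 (by decide +kernel)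
theorem L28026 : W_16 (nat_lit 7) (nat_lit 0x14007a00390001000280000000000000000000000000000000) (nat_lit 0x0) (nat_lit 0x74003a001e0000000000010000000000000000000000000000000000000) := T_16 (nat_lit 199) (nat_lit 200) (nat_lit 3) (nat_lit 9) (nat_lit 10) L28025 (by decide +kernel)
theorem L28027 : W_16 (nat_lit 8) (nat_lit 0x4007a00390001000280000000000000000000000000000000) (nat_lit 0x0) (nat_lit 0x74003a001f8000000000010000000000000000000000000000000000000) := T_16 (nat_lit 196) (nat_lit 195) (nat_lit 1) (nat_lit 12) (nat_lit 10) L28026 (by decide +kernel)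
theorem L28028 : W_16 (nat_lit 9) (nat_lit 0x4007200390001000280000000000000000000000000000000) (nat_lit 0x0) (nat_lit 0x74003a001f8000c00000010000000000000000000000000000000000000) := T_16 (nat_lit 179) (nat_lit 178) (nat_lit 2) (nat_lit 7) (nat_lit 10) L28027 (by decide +kernel)
theorem L28029 : W_16 (nat_lit 10) (nat_lit 0x4007200380001000280000000000000000000000000000000) (nat_lit 0x0) (nat_lit 0x74003a001f8000c00010010800000000000000000000000000000000000) := T_16 (nat_lit 160) (nat_lit 143) (nat_lit 6) (nat_lit 7) (nat_lit 11) L28028 (by decide +kernel)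
theorem L28030 : W_16 (nat_lit 11) (nat_lit 0x4003200380001000280000000000000000000000000000000) (nat_lit 0x0) (nat_lit 0x74003a003f801cc00050010800800000000000000000000000000000000) := Q_16 (nat_lit 182) (C_16 L27475 (C_16 L27443 (C_16 L28029 N_16))) (by decide +kernel)
theorem L28031 : W_16 (nat_lit 2) (nat_lit 0xe4003a00390001000280000000000000000000000000000000) (nat_lit 0x0) (nat_lit 0x1000000000000000008000400000000000000000000000000000000) := D_16 (nat_lit 147) (nat_lit 130) (nat_lit 216) (nat_lit 5) (nat_lit 11) (nat_lit 7) (nat_lit 7) (nat_lit 11) (nat_lit 8) (by decide +kernel)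
theorem L28032 : W_16 (nat_lit 3) (nat_lit 0x64003a00390001000280000000000000000000000000000000) (nat_lit 0x0) (nat_lit 0x1000180000000000008000400000000000000000000000000000000) := T_16 (nat_lit 199) (nat_lit 200) (nat_lit 0) (nat_lit 13) (nat_lit 11) L28031 (by decide +kernel)
theorem L28033 : W_16 (nat_lit 4) (nat_lit 0x64003200390001000280000000000000000000000000000000) (nat_lit 0x0) (nat_lit 0x1000180000c00000008000400000000000000000000000000000000) := T_16 (nat_lit 179) (nat_lit 178) (nat_lit 3) (nat_lit 7) (nat_lit 10) L28032 (by decide +kernel)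
theorem L28034 : W_16 (nat_lit 5) (nat_lit 0x64003200380001000280000000000000000000000000000000) (nat_lit 0x0) (nat_lit 0x1000180000c00010008800400000000000000000000000000000000) := T_16 (nat_lit 160) (nat_lit 143) (nat_lit 6) (nat_lit 7) (nat_lit 11) L28033 (by decide +kernel)
theorem L28035 : W_16 (nat_lit 8) (nat_lit 0x24003200380001000280000000000000000000000000000000) (nat_lit 0x0) (nat_lit 0x300078001d8000c00010018800400000000000000000000000000000000) := Q_16 (nat_lit 198) (C_16 L27484 (C_16 L27780 (C_16 L28034 N_16))) (by decide +kernel)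
theorem L28036 : W_16 (nat_lit 9) (nat_lit 0x4003200380001000280000000000000000000000000000000) (nat_lit 0x0) (nat_lit 0x3a007f001f8000c00010018800400000000000000000000000000000000) := Q_16 (nat_lit 197) (C_16 L27774 (C_16 L27937 (C_16 L28035 N_16))) (by decide +kernel)
theorem L28037 : W_16 (nat_lit 2) (nat_lit 0xd0000c003600390009000280000000000000000000000000000000) (nat_lit 0x0) (nat_lit 0x18000000040000000000000000000000000000000000000000000000000) := D_16 (nat_lit 198) (nat_lit 232) (nat_lit 231) (nat_lit 4) (nat_lit 11) (nat_lit 13) (nat_lit 5) (nat_lit 11) (nat_lit 9) (by decide +kernel)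
theorem L28038 : W_16 (nat_lit 3) (nat_lit 0x50000c003600390009000280000000000000000000000000000000) (nat_lit 0x0) (nat_lit 0x18000a00040000000000000000000000000000000000000000000000000) := T_16 (nat_lit 215) (nat_lit 213) (nat_lit 0) (nat_lit 11) (nat_lit 12) L28037 (by decide +kernel)
theorem L28039 : W_16 (nat_lit 4) (nat_lit 0x40000c003600390009000280000000000000000000000000000000) (nat_lit 0x0) (nat_lit 0x1a000b00040000000000000000000000000000000000000000000000000) := T_16 (nat_lit 212) (nat_lit 229) (nat_lit 4) (nat_lit 8) (nat_lit 13) L28038 (by decide +kernel)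
theorem L28040 : W_16 (nat_lit 5) (nat_lit 0xc003600390009000280000000000000000000000000000000) (nat_lit 0x0) (nat_lit 0x1a000f00060000000000000000000000000000000000000000000000000) := T_16 (nat_lit 214) (nat_lit 197) (nat_lit 6) (nat_lit 10) (nat_lit 12) L28039 (by decide +kernel)
theorem L28041 : W_16 (nat_lit 6) (nat_lit 0xc003200390009000280000000000000000000000000000000) (nat_lit 0x0) (nat_lit 0x1a000f00060000c00000000000000000000000000000000000000000000) := T_16 (nat_lit 178) (nat_lit 179) (nat_lit 2) (nat_lit 7) (nat_lit 10) L28040 (by decide +kernel)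
theorem L28042 : W_16 (nat_lit 7) (nat_lit 0xc003200380009000280000000000000000000000000000000) (nat_lit 0x0) (nat_lit 0x1a000f00060000c00010000800000000000000000000000000000000000) := T_16 (nat_lit 160) (nat_lit 143) (nat_lit 6) (nat_lit 7) (nat_lit 11) L28041 (by decide +kernel)
theorem L28043 : W_16 (nat_lit 2) (nat_lit 0xc003a00380009000280000000000000000000000000000000) (nat_lit 0x0) (nat_lit 0x32000000000000000000000000000000000000000000000000) := D_16 (nat_lit 196) (nat_lit 197) (nat_lit 193) (nat_lit 2) (nat_lit 7) (nat_lit 11) (nat_lit 2) (nat_lit 6) (nat_lit 11) (by decide +kernel)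
theorem L28044 : W_16 (nat_lit 3) (nat_lit 0xc003200380009000280000000000000000000000000000000) (nat_lit 0x0) (nat_lit 0x32000c00000000000000000000000000000000000000000000) := T_16 (nat_lit 179) (nat_lit 178) (nat_lit 2) (nat_lit 7) (nat_lit 10) L28043 (by decide +kernel)
theorem L28045 : W_16 (nat_lit 2) (nat_lit 0xc003a00390009000280000000000000000000000000000000) (nat_lit 0x0) (nat_lit 0x12004000000000000000000000000000000000000000000000) := D_16 (nat_lit 196) (nat_lit 193) (nat_lit 182) (nat_lit 2) (nat_lit 6) (nat_lit 11) (nat_lit 1) (nat_lit 12) (nat_lit 10) (by decide +kernel)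
theorem L28046 : W_16 (nat_lit 3) (nat_lit 0xc003200390009000280000000000000000000000000000000) (nat_lit 0x0) (nat_lit 0x12004c00000000000000000000000000000000000000000000) := T_16 (nat_lit 179) (nat_lit 178) (nat_lit 2) (nat_lit 7) (nat_lit 10) L28045 (by decide +kernel)
theorem L28047 : W_16 (nat_lit 4) (nat_lit 0xc003200380009000280000000000000000000000000000000) (nat_lit 0x0) (nat_lit 0x12004c00010000800000000000000000000000000000000000) := T_16 (nat_lit 160) (nat_lit 143) (nat_lit 6) (nat_lit 7) (nat_lit 11) L28046 (by decide +kernel)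
theorem L28048 : W_16 (nat_lit 8) (nat_lit 0x4003200380009000280000000000000000000000000000000) (nat_lit 0x0) (nat_lit 0x1a000f0007a004c00010000800000000000000000000000000000000000) := Q_16 (nat_lit 195) (C_16 L27773 (C_16 L28042 (C_16 L28044 (C_16 L28047 N_16)))) (by decide +kernel)
theorem L28049 : W_16 (nat_lit 9) (nat_lit 0x4003200380001000280000000000000000000000000000000) (nat_lit 0x0) (nat_lit 0x1a000f0007a004c00010008800400030000000000000000000000000000) := Q_16 (nat_lit 147) (C_16 L28048 (C_16 L26539 N_16)) (by decide +kernel)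
theorem L28050 : W_16 (nat_lit 12) (nat_lit 0x4001200380001000280000000000000000000000000000000) (nat_lit 0x0) (nat_lit 0x7e007f003fa01ec00050018800c00030000000000000000000000000000) := Q_16 (nat_lit 181) (C_16 L27957 (C_16 L27482 (C_16 L27767 (C_16 L28030 (C_16 L28036 (C_16 L28049 N_16)))))) (by decide +kernel)
theorem L28051 : W_16 (nat_lit 4) (nat_lit 0x400b200790001000280000000000000000000000000000000) (nat_lit 0x0) (nat_lit 0x40002000300004000040010000000000000000000000000000000000000) := T_16 (nat_lit 182) (nat_lit 162) (nat_lit 3) (nat_lit 9) (nat_lit 9) L26579 (by decide +kernel)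
theorem L28052 : W_16 (nat_lit 5) (nat_lit 0x4003200790001000280000000000000000000000000000000) (nat_lit 0x0) (nat_lit 0x4000200030001c000040010000000000000000000000000000000000000) := T_16 (nat_lit 183) (nat_lit 184) (nat_lit 3) (nat_lit 10) (nat_lit 9) L28051 (by decide +kernel)
theorem L28053 : W_16 (nat_lit 6) (nat_lit 0x4003200390001000280000000000000000000000000000000) (nat_lit 0x0) (nat_lit 0x4000200030001c000c40010000000000000000000000000000000000000) := T_16 (nat_lit 166) (nat_lit 167) (nat_lit 1) (nat_lit 14) (nat_lit 9) L28052 (by decide +kernel)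
theorem L28054 : W_16 (nat_lit 7) (nat_lit 0x4003200380001000280000000000000000000000000000000) (nat_lit 0x0) (nat_lit 0x4000200030001c000c50010800000000000000000000000000000000000) := T_16 (nat_lit 160) (nat_lit 143) (nat_lit 6) (nat_lit 7) (nat_lit 11) L28053 (by decide +kernel)
theorem L28055 : W_16 (nat_lit 2) (nat_lit 0x1c400b200790009000280000000000000000000000000000000) (nat_lit 0x0) (nat_lit 0x2000000000000000010000800000000000000000000000000000000) := D_16 (nat_lit 148) (nat_lit 131) (nat_lit 217) (nat_lit 6) (nat_lit 11) (nat_lit 11) (nat_lit 4) (nat_lit 13) (nat_lit 12) (by decide +kernel)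
theorem L28056 : W_16 (nat_lit 3) (nat_lit 0xc400b200790009000280000000000000000000000000000000) (nat_lit 0x0) (nat_lit 0x2000300000000000010000800000000000000000000000000000000) := T_16 (nat_lit 200) (nat_lit 201) (nat_lit 0) (nat_lit 14) (nat_lit 11) L28055 (by decide +kernel)
theorem L28057 : W_16 (nat_lit 4) (nat_lit 0x4400b200790009000280000000000000000000000000000000) (nat_lit 0x0) (nat_lit 0x3000380000000000010000800000000000000000000000000000000) := T_16 (nat_lit 199) (nat_lit 216) (nat_lit 7) (nat_lit 11) (nat_lit 8) L28056 (by decide +kernel)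
theorem L28058 : W_16 (nat_lit 5) (nat_lit 0x44003200790009000280000000000000000000000000000000) (nat_lit 0x0) (nat_lit 0x3000380018000000010000800000000000000000000000000000000) := T_16 (nat_lit 183) (nat_lit 184) (nat_lit 3) (nat_lit 10) (nat_lit 9) L28057 (by decide +kernel)
theorem L28059 : W_16 (nat_lit 6) (nat_lit 0x44003200780009000280000000000000000000000000000000) (nat_lit 0x0) (nat_lit 0x3000380018000010010800800000000000000000000000000000000) := T_16 (nat_lit 160) (nat_lit 143) (nat_lit 6) (nat_lit 7) (nat_lit 11) L28058 (by decide +kernel)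
theorem L28060 : W_16 (nat_lit 7) (nat_lit 0x44003200380009000280000000000000000000000000000000) (nat_lit 0x0) (nat_lit 0x3000380018000c10010800800000000000000000000000000000000) := T_16 (nat_lit 166) (nat_lit 167) (nat_lit 1) (nat_lit 14) (nat_lit 9) L28059 (by decide +kernel)
theorem L28061 : W_16 (nat_lit 8) (nat_lit 0x4003200380009000280000000000000000000000000000000) (nat_lit 0x0) (nat_lit 0x30003c003f8018000c10010800800000000000000000000000000000000) := Q_16 (nat_lit 198) (C_16 L27772 (C_16 L26543 (C_16 L28060 (C_16 L26540 N_16)))) (by decide +kernel)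
theorem L28062 : W_16 (nat_lit 9) (nat_lit 0x4003200380001000280000000000000000000000000000000) (nat_lit 0x0) (nat_lit 0x30003c003f8018000c10018800c00030000000000000000000000000000) := Q_16 (nat_lit 147) (C_16 L26539 (C_16 L28061 N_16)) (by decide +kernel)
theorem L28063 : W_16 (nat_lit 2) (nat_lit 0x2400f200780001000280000000000000000000000000000000) (nat_lit 0x0) (nat_lit 0x8000400000000000000008000000000000000000000000000000000000) := D_16 (nat_lit 214) (nat_lit 231) (nat_lit 147) (nat_lit 6) (nat_lit 10) (nat_lit 13) (nat_lit 6) (nat_lit 10) (nat_lit 12) (by decide +kernel)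
theorem L28064 : W_16 (nat_lit 3) (nat_lit 0x400f200780001000280000000000000000000000000000000) (nat_lit 0x0) (nat_lit 0x8000400030000000000008000000000000000000000000000000000000) := T_16 (nat_lit 197) (nat_lit 196) (nat_lit 1) (nat_lit 13) (nat_lit 10) L28063 (by decide +kernel)
theorem L28065 : W_16 (nat_lit 4) (nat_lit 0x400b200780001000280000000000000000000000000000000) (nat_lit 0x0) (nat_lit 0x8000400030004000040008000000000000000000000000000000000000) := T_16 (nat_lit 182) (nat_lit 162) (nat_lit 3) (nat_lit 9) (nat_lit 9) L28064 (by decide +kernel)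
theorem L28066 : W_16 (nat_lit 5) (nat_lit 0x4003200780001000280000000000000000000000000000000) (nat_lit 0x0) (nat_lit 0x800040003001c000040008000000000000000000000000000000000000) := T_16 (nat_lit 183) (nat_lit 184) (nat_lit 3) (nat_lit 10) (nat_lit 9) L28065 (by decide +kernel)
theorem L28067 : W_16 (nat_lit 6) (nat_lit 0x4003200380001000280000000000000000000000000000000) (nat_lit 0x0) (nat_lit 0x800040003001c000c40008000000000000000000000000000000000000) := T_16 (nat_lit 166) (nat_lit 167) (nat_lit 1) (nat_lit 14) (nat_lit 9) L28066 (by decide +kernel)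
theorem L28068 : W_16 (nat_lit 10) (nat_lit 0x4001200380001000280000000000000000000000000000000) (nat_lit 0x0) (nat_lit 0x78007c003f801e000c50018800c00030000000000000000000000000000) := Q_16 (nat_lit 181) (C_16 L27767 (C_16 L28054 (C_16 L28062 (C_16 L28067 N_16)))) (by decide +kernel)
theorem L28069 : W_16 (nat_lit 13) (nat_lit 0x4000200380001000280000000000000000000000000000000) (nat_lit 0x0) (nat_lit 0x7e007f003fa01fc00c50018800c00030000000000000000000000000000) := Q_16 (nat_lit 180) (C_16 L28050 (C_16 L28068 (C_16 L27868 N_16))) (by decide +kernel)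
theorem L28070 : W_16 (nat_lit 2) (nat_lit 0x400c200790021000280000000000000000000000000000000) (nat_lit 0x0) (nat_lit 0x80000000000000001000080000000000000000000000000000) := D_16 (nat_lit 132) (nat_lit 199) (nat_lit 115) (nat_lit 5) (nat_lit 13) (nat_lit 7) (nat_lit 5) (nat_lit 13) (nat_lit 6) (by decide +kernel)
theorem L28071 : W_16 (nat_lit 3) (nat_lit 0x4004200790021000280000000000000000000000000000000) (nat_lit 0x0) (nat_lit 0x80018000000000001000080000000000000000000000000000) := T_16 (nat_lit 183) (nat_lit 184) (nat_lit 3) (nat_lit 10) (nat_lit 9) L28070 (by decide +kernel)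
theorem L28072 : W_16 (nat_lit 4) (nat_lit 0x4004200790001000280000000000000000000000000000000) (nat_lit 0x0) (nat_lit 0x80018000000060001000080000000000000000000000000000) := T_16 (nat_lit 149) (nat_lit 150) (nat_lit 2) (nat_lit 10) (nat_lit 9) L28071 (by decide +kernel)
theorem L28073 : W_16 (nat_lit 5) (nat_lit 0x4004200780001000280000000000000000000000000000000) (nat_lit 0x0) (nat_lit 0x80018000010060801000080000000000000000000000000000) := T_16 (nat_lit 160) (nat_lit 143) (nat_lit 6) (nat_lit 7) (nat_lit 11) L28072 (by decide +kernel)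
theorem L28074 : W_16 (nat_lit 4) (nat_lit 0x4004200790021000280000000000000000000000000000000) (nat_lit 0x0) (nat_lit 0x1000080001800000010001000080000000000000000000000000000) := T_16 (nat_lit 180) (nat_lit 179) (nat_lit 1) (nat_lit 13) (nat_lit 9) L27799 (by decide +kernel)
theorem L28075 : W_16 (nat_lit 5) (nat_lit 0x4004200790001000280000000000000000000000000000000) (nat_lit 0x0) (nat_lit 0x1000080001800000070001000080000000000000000000000000000) := T_16 (nat_lit 149) (nat_lit 150) (nat_lit 2) (nat_lit 10) (nat_lit 9) L28074 (by decide +kernel)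
theorem L28076 : W_16 (nat_lit 6) (nat_lit 0x4004200780001000280000000000000000000000000000000) (nat_lit 0x0) (nat_lit 0x1000080001800010070801000080000000000000000000000000000) := T_16 (nat_lit 160) (nat_lit 143) (nat_lit 6) (nat_lit 7) (nat_lit 11) L28075 (by decide +kernel)
theorem L28077 : W_16 (nat_lit 2) (nat_lit 0x400d200780021000280000000000000000000000000000000) (nat_lit 0x0) (nat_lit 0x80000000000000001000080000000000000000000000000000) := D_16 (nat_lit 132) (nat_lit 115) (nat_lit 199) (nat_lit 5) (nat_lit 13) (nat_lit 6) (nat_lit 5) (nat_lit 13) (nat_lit 7) (by decide +kernel)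
theorem L28078 : W_16 (nat_lit 3) (nat_lit 0x400d200780001000280000000000000000000000000000000) (nat_lit 0x0) (nat_lit 0x80000000000060001000080000000000000000000000000000) := T_16 (nat_lit 149) (nat_lit 150) (nat_lit 2) (nat_lit 10) (nat_lit 9) L28077 (by decide +kernel)
theorem L28079 : W_16 (nat_lit 4) (nat_lit 0x4005200780001000280000000000000000000000000000000) (nat_lit 0x0) (nat_lit 0x80018000000060001000080000000000000000000000000000) := T_16 (nat_lit 183) (nat_lit 184) (nat_lit 3) (nat_lit 10) (nat_lit 9) L28078 (by decide +kernel)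
theorem L28080 : W_16 (nat_lit 5) (nat_lit 0x4004200780001000280000000000000000000000000000000) (nat_lit 0x0) (nat_lit 0x80019800000060001000080000000000000000000000000000) := T_16 (nat_lit 180) (nat_lit 179) (nat_lit 1) (nat_lit 13) (nat_lit 9) L28079 (by decide +kernel)
theorem L28081 : W_16 (nat_lit 2) (nat_lit 0x4004200790009000680000000000000000000000000000000) (nat_lit 0x0) (nat_lit 0x1000080002000000000000000000000000000000000000000000000) := D_16 (nat_lit 199) (nat_lit 216) (nat_lit 181) (nat_lit 4) (nat_lit 12) (nat_lit 12) (nat_lit 7) (nat_lit 11) (nat_lit 7) (by decide +kernel)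
theorem L28082 : W_16 (nat_lit 3) (nat_lit 0x4004200790009000280000000000000000000000000000000) (nat_lit 0x0) (nat_lit 0x1000080002000000000000400020000000000000000000000000000) := T_16 (nat_lit 130) (nat_lit 113) (nat_lit 7) (nat_lit 11) (nat_lit 6) L28081 (by decide +kernel)
theorem L28083 : W_16 (nat_lit 4) (nat_lit 0x4004200780009000280000000000000000000000000000000) (nat_lit 0x0) (nat_lit 0x1000080002000010000800400020000000000000000000000000000) := T_16 (nat_lit 160) (nat_lit 143) (nat_lit 6) (nat_lit 7) (nat_lit 11) L28082 (by decide +kernel)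
theorem L28084 : W_16 (nat_lit 2) (nat_lit 0xe400d200790019000280020000000000000000000000000000) (nat_lit 0x0) (nat_lit 0x2000100000000000000000800000000000000000000000000000000) := D_16 (nat_lit 200) (nat_lit 217) (nat_lit 131) (nat_lit 7) (nat_lit 12) (nat_lit 8) (nat_lit 7) (nat_lit 12) (nat_lit 7) (by decide +kernel)
theorem L28085 : W_16 (nat_lit 3) (nat_lit 0xe400d200790009000280020000000000000000000000000000) (nat_lit 0x0) (nat_lit 0x2800100000000000010000800000000000000000000000000000000) := T_16 (nat_lit 148) (nat_lit 215) (nat_lit 5) (nat_lit 12) (nat_lit 8) L28084 (by decide +kernel)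
theorem L28086 : W_16 (nat_lit 4) (nat_lit 0xa400d200790009000280020000000000000000000000000000) (nat_lit 0x0) (nat_lit 0x2800150000000000010000800000000000000000000000000000000) := T_16 (nat_lit 198) (nat_lit 196) (nat_lit 2) (nat_lit 9) (nat_lit 11) L28085 (by decide +kernel)
theorem L28087 : W_16 (nat_lit 5) (nat_lit 0x8400d200790009000280020000000000000000000000000000) (nat_lit 0x0) (nat_lit 0x2c00170000000000010000800000000000000000000000000000000) := T_16 (nat_lit 197) (nat_lit 214) (nat_lit 6) (nat_lit 10) (nat_lit 12) L28086 (by decide +kernel)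
theorem L28088 : W_16 (nat_lit 6) (nat_lit 0x400d200790009000280020000000000000000000000000000) (nat_lit 0x0) (nat_lit 0x3c001f0000000000010000800000000000000000000000000000000) := T_16 (nat_lit 199) (nat_lit 216) (nat_lit 4) (nat_lit 12) (nat_lit 12) L28087 (by decide +kernel)
theorem L28089 : W_16 (nat_lit 7) (nat_lit 0x400c200790009000280020000000000000000000000000000) (nat_lit 0x0) (nat_lit 0x3c001f0001800000010000800000000000000000000000000000000) := T_16 (nat_lit 180) (nat_lit 179) (nat_lit 1) (nat_lit 13) (nat_lit 9) L28088 (by decide +kernel)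
theorem L28090 : W_16 (nat_lit 8) (nat_lit 0x400c200790009000280000000000000000000000000000000) (nat_lit 0x0) (nat_lit 0x3c001f0001800000010000c00020000000000000000000000000000) := T_16 (nat_lit 113) (nat_lit 130) (nat_lit 7) (nat_lit 11) (nat_lit 6) L28089 (by decide +kernel)
theorem L28091 : W_16 (nat_lit 9) (nat_lit 0x400c200780009000280000000000000000000000000000000) (nat_lit 0x0) (nat_lit 0x3c001f0001800010010800c00020000000000000000000000000000) := T_16 (nat_lit 160) (nat_lit 143) (nat_lit 6) (nat_lit 7) (nat_lit 11) L28090 (by decide +kernel)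
theorem L28092 : W_16 (nat_lit 10) (nat_lit 0x4004200780009000280000000000000000000000000000000) (nat_lit 0x0) (nat_lit 0x3c001f0019800010010800c00020000000000000000000000000000) := T_16 (nat_lit 183) (nat_lit 184) (nat_lit 3) (nat_lit 10) (nat_lit 9) L28091 (by decide +kernel)
theorem L28093 : W_16 (nat_lit 5) (nat_lit 0x4004200780009000280000000000000000000000000000000) (nat_lit 0x0) (nat_lit 0x14000a0001800000010000400020000000000000000000000000000) := T_16 (nat_lit 180) (nat_lit 179) (nat_lit 1) (nat_lit 13) (nat_lit 9) L27797 (by decide +kernel)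
theorem L28094 : W_16 (nat_lit 2) (nat_lit 0x100012400f200790009000280000000000000000000000000000000) (nat_lit 0x0) (nat_lit 0x40002000000000000000010000000000000000000000000000000000000) := D_16 (nat_lit 217) (nat_lit 148) (nat_lit 234) (nat_lit 4) (nat_lit 13) (nat_lit 12) (nat_lit 4) (nat_lit 13) (nat_lit 13) (by decide +kernel)
theorem L28095 : W_16 (nat_lit 3) (nat_lit 0x100002400f200790009000280000000000000000000000000000000) (nat_lit 0x0) (nat_lit 0x40002000300000000000010000000000000000000000000000000000000) := T_16 (nat_lit 200) (nat_lit 201) (nat_lit 3) (nat_lit 10) (nat_lit 10) L28094 (by decide +kernel)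
theorem L28096 : W_16 (nat_lit 4) (nat_lit 0x100002400d200790009000280000000000000000000000000000000) (nat_lit 0x0) (nat_lit 0x40002000310002000000010000000000000000000000000000000000000) := T_16 (nat_lit 181) (nat_lit 196) (nat_lit 1) (nat_lit 13) (nat_lit 10) L28095 (by decide +kernel)
theorem L28097 : W_16 (nat_lit 5) (nat_lit 0x2400d200790009000280000000000000000000000000000000) (nat_lit 0x0) (nat_lit 0x40003000390002000000010000000000000000000000000000000000000) := T_16 (nat_lit 216) (nat_lit 199) (nat_lit 4) (nat_lit 12) (nat_lit 12) L28096 (by decide +kernel)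
theorem L28098 : W_16 (nat_lit 6) (nat_lit 0x400d200790009000280000000000000000000000000000000) (nat_lit 0x0) (nat_lit 0x400034003b0002000000010000000000000000000000000000000000000) := T_16 (nat_lit 197) (nat_lit 214) (nat_lit 6) (nat_lit 10) (nat_lit 12) L28097 (by decide +kernel)
theorem L28099 : W_16 (nat_lit 7) (nat_lit 0x400d200780009000280000000000000000000000000000000) (nat_lit 0x0) (nat_lit 0x400034003b0002000010010800000000000000000000000000000000000) := T_16 (nat_lit 160) (nat_lit 143) (nat_lit 6) (nat_lit 7) (nat_lit 11) L28098 (by decide +kernel)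
theorem L28100 : W_16 (nat_lit 8) (nat_lit 0x400c200780009000280000000000000000000000000000000) (nat_lit 0x0) (nat_lit 0x400034003b0003800010010800000000000000000000000000000000000) := T_16 (nat_lit 180) (nat_lit 179) (nat_lit 1) (nat_lit 13) (nat_lit 9) L28099 (by decide +kernel)
theorem L28101 : W_16 (nat_lit 9) (nat_lit 0x4004200780009000280000000000000000000000000000000) (nat_lit 0x0) (nat_lit 0x400034003b001b800010010800000000000000000000000000000000000) := T_16 (nat_lit 183) (nat_lit 184) (nat_lit 3) (nat_lit 10) (nat_lit 9) L28100 (by decide +kernel)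
theorem L28102 : W_16 (nat_lit 2) (nat_lit 0x12400f200790009000280020000000000000000000000000000) (nat_lit 0x0) (nat_lit 0x40002000000000000000010000000000000000000000000000000000000) := D_16 (nat_lit 217) (nat_lit 148) (nat_lit 234) (nat_lit 4) (nat_lit 13) (nat_lit 12) (nat_lit 4) (nat_lit 13) (nat_lit 13) (by decide +kernel)
theorem L28103 : W_16 (nat_lit 3) (nat_lit 0x2400f200790009000280020000000000000000000000000000) (nat_lit 0x0) (nat_lit 0x40002000300000000000010000000000000000000000000000000000000) := T_16 (nat_lit 200) (nat_lit 201) (nat_lit 3) (nat_lit 10) (nat_lit 10) L28102 (by decide +kernel)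
theorem L28104 : W_16 (nat_lit 4) (nat_lit 0x2400d200790009000280020000000000000000000000000000) (nat_lit 0x0) (nat_lit 0x40002000310002000000010000000000000000000000000000000000000) := T_16 (nat_lit 181) (nat_lit 196) (nat_lit 1) (nat_lit 13) (nat_lit 10) L28103 (by decide +kernel)
theorem L28105 : W_16 (nat_lit 5) (nat_lit 0x400d200790009000280020000000000000000000000000000) (nat_lit 0x0) (nat_lit 0x40002400330002000000010000000000000000000000000000000000000) := T_16 (nat_lit 197) (nat_lit 214) (nat_lit 6) (nat_lit 10) (nat_lit 12) L28104 (by decide +kernel)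
theorem L28106 : W_16 (nat_lit 6) (nat_lit 0x400c200790009000280020000000000000000000000000000) (nat_lit 0x0) (nat_lit 0x40002400330003800000010000000000000000000000000000000000000) := T_16 (nat_lit 180) (nat_lit 179) (nat_lit 1) (nat_lit 13) (nat_lit 9) L28105 (by decide +kernel)
theorem L28107 : W_16 (nat_lit 7) (nat_lit 0x400c200780009000280020000000000000000000000000000) (nat_lit 0x0) (nat_lit 0x40002400330003800010010800000000000000000000000000000000000) := T_16 (nat_lit 160) (nat_lit 143) (nat_lit 6) (nat_lit 7) (nat_lit 11) L28106 (by decide +kernel)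
theorem L28108 : W_16 (nat_lit 8) (nat_lit 0x4004200780009000280020000000000000000000000000000) (nat_lit 0x0) (nat_lit 0x4000240033001b800010010800000000000000000000000000000000000) := T_16 (nat_lit 183) (nat_lit 184) (nat_lit 3) (nat_lit 10) (nat_lit 9) L28107 (by decide +kernel)
theorem L28109 : W_16 (nat_lit 9) (nat_lit 0x4004200780009000280000000000000000000000000000000) (nat_lit 0x0) (nat_lit 0x4000240033001b800010010800400020000000000000000000000000000) := T_16 (nat_lit 113) (nat_lit 130) (nat_lit 7) (nat_lit 11) (nat_lit 6) L28108 (by decide +kernel)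
theorem L28110 : W_16 (nat_lit 11) (nat_lit 0x4004200780001000280000000000000000000000000000000) (nat_lit 0x0) (nat_lit 0x40003c003f001b800010018800c00020000000000000000000000000000) := Q_16 (nat_lit 147) (C_16 L28083 (C_16 L28092 (C_16 L28093 (C_16 L28101 (C_16 L28109 N_16))))) (by decide +kernel)
theorem L28111 : W_16 (nat_lit 2) (nat_lit 0x10400d200790021003a80000000000000000000000000000000) (nat_lit 0x0) (nat_lit 0x4000200002000000000000000000000000000000000000000000000) := D_16 (nat_lit 201) (nat_lit 181) (nat_lit 218) (nat_lit 3) (nat_lit 10) (nat_lit 10) (nat_lit 7) (nat_lit 13) (nat_lit 8) (by decide +kernel)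
theorem L28112 : W_16 (nat_lit 3) (nat_lit 0x400d200790021003a80000000000000000000000000000000) (nat_lit 0x0) (nat_lit 0x4000300002000000010000000000000000000000000000000000000) := T_16 (nat_lit 200) (nat_lit 148) (nat_lit 7) (nat_lit 12) (nat_lit 7) L28111 (by decide +kernel)
theorem L28113 : W_16 (nat_lit 4) (nat_lit 0x400d200790021003280000000000000000000000000000000) (nat_lit 0x0) (nat_lit 0x4000300002000000010000800040000000000000000000000000000) := T_16 (nat_lit 131) (nat_lit 114) (nat_lit 4) (nat_lit 13) (nat_lit 10) L28112 (by decide +kernel)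
theorem L28114 : W_16 (nat_lit 5) (nat_lit 0x400d200790021001280000000000000000000000000000000) (nat_lit 0x0) (nat_lit 0x4000300002000000010002800140000000000000000000000000000) := T_16 (nat_lit 133) (nat_lit 116) (nat_lit 6) (nat_lit 13) (nat_lit 10) L28113 (by decide +kernel)
theorem L28115 : W_16 (nat_lit 6) (nat_lit 0x400d200780021001280000000000000000000000000000000) (nat_lit 0x0) (nat_lit 0x4000300002000010010802800140000000000000000000000000000) := T_16 (nat_lit 160) (nat_lit 143) (nat_lit 6) (nat_lit 7) (nat_lit 11) L28114 (by decide +kernel)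
theorem L28116 : W_16 (nat_lit 7) (nat_lit 0x400d200780021000280000000000000000000000000000000) (nat_lit 0x0) (nat_lit 0x40003000020000100108038001c0000000000000000000000000000) := T_16 (nat_lit 132) (nat_lit 115) (nat_lit 5) (nat_lit 13) (nat_lit 6) L28115 (by decide +kernel)
theorem L28117 : W_16 (nat_lit 8) (nat_lit 0x4005200780021000280000000000000000000000000000000) (nat_lit 0x0) (nat_lit 0x400030001a0000100108038001c0000000000000000000000000000) := T_16 (nat_lit 183) (nat_lit 184) (nat_lit 3) (nat_lit 10) (nat_lit 9) L28116 (by decide +kernel)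
theorem L28118 : W_16 (nat_lit 9) (nat_lit 0x4005200780001000280000000000000000000000000000000) (nat_lit 0x0) (nat_lit 0x400030001a0000100708038001c0000000000000000000000000000) := T_16 (nat_lit 149) (nat_lit 150) (nat_lit 2) (nat_lit 10) (nat_lit 9) L28117 (by decide +kernel)
theorem L28119 : W_16 (nat_lit 10) (nat_lit 0x4004200780001000280000000000000000000000000000000) (nat_lit 0x0) (nat_lit 0x400030001b8000100708038001c0000000000000000000000000000) := T_16 (nat_lit 180) (nat_lit 179) (nat_lit 1) (nat_lit 13) (nat_lit 9) L28118 (by decide +kernel)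
theorem L28120 : W_16 (nat_lit 12) (nat_lit 0x4000200780001000280000000000000000000000000000000) (nat_lit 0x0) (nat_lit 0x40007c003f001f800010078803c001e0000000000000000000000000000) := Q_16 (nat_lit 182) (C_16 L28073 (C_16 L28076 (C_16 L28080 (C_16 L28110 (C_16 L28119 N_16))))) (by decide +kernel)
theorem L28121 : W_16 (nat_lit 13) (nat_lit 0x4000200380001000280000000000000000000000000000000) (nat_lit 0x0) (nat_lit 0x40007c003f007f801c100f8803c001f0002000000000000000000000000) := Q_16 (nat_lit 166) (C_16 L27642 (C_16 L28019 (C_16 L27531 (C_16 L28014 (C_16 L27716 (C_16 L28120 N_16)))))) (by decide +kernel)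
theorem L28122 : W_16 (nat_lit 2) (nat_lit 0x4001200380019000280000000000000000000000000000000) (nat_lit 0x0) (nat_lit 0x40060000000000000000000000000000000000000) := D_16 (nat_lit 149) (nat_lit 162) (nat_lit 150) (nat_lit 2) (nat_lit 9) (nat_lit 9) (nat_lit 1) (nat_lit 14) (nat_lit 8) (by decide +kernel)
theorem L28123 : W_16 (nat_lit 2) (nat_lit 0x40000400d200390019000e80000000000000000000000000000000) (nat_lit 0x0) (nat_lit 0x400000000000040002000000000000000000000000) := D_16 (nat_lit 114) (nat_lit 166) (nat_lit 97) (nat_lit 7) (nat_lit 12) (nat_lit 6) (nat_lit 5) (nat_lit 12) (nat_lit 5) (by decide +kernel)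
theorem L28124 : W_16 (nat_lit 3) (nat_lit 0x40000400d200390019000680000000000000000000000000000000) (nat_lit 0x0) (nat_lit 0x100000000400000000800040002000000000000000000000000) := T_16 (nat_lit 131) (nat_lit 200) (nat_lit 7) (nat_lit 12) (nat_lit 7) L28123 (by decide +kernel)
theorem L28125 : W_16 (nat_lit 4) (nat_lit 0x400004005200390019000680000000000000000000000000000000) (nat_lit 0x0) (nat_lit 0x100008000440000000800040002000000000000000000000000) := T_16 (nat_lit 183) (nat_lit 162) (nat_lit 3) (nat_lit 9) (nat_lit 9) L28124 (by decide +kernel)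
theorem L28126 : W_16 (nat_lit 5) (nat_lit 0x400004005200380019000680000000000000000000000000000000) (nat_lit 0x0) (nat_lit 0x100008000450000800800040002000000000000000000000000) := T_16 (nat_lit 160) (nat_lit 143) (nat_lit 6) (nat_lit 7) (nat_lit 11) L28125 (by decide +kernel)
theorem L28127 : W_16 (nat_lit 6) (nat_lit 0x400004001200380019000680000000000000000000000000000000) (nat_lit 0x0) (nat_lit 0x18000c000450000800800040002000000000000000000000000) := T_16 (nat_lit 182) (nat_lit 199) (nat_lit 4) (nat_lit 12) (nat_lit 11) L28126 (by decide +kernel)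
theorem L28128 : W_16 (nat_lit 7) (nat_lit 0x4001200380019000680000000000000000000000000000000) (nat_lit 0x0) (nat_lit 0x4001a000c000450000800800040002000000000000000000000000) := T_16 (nat_lit 214) (nat_lit 197) (nat_lit 6) (nat_lit 10) (nat_lit 12) L28127 (by decide +kernel)
theorem L28129 : W_16 (nat_lit 8) (nat_lit 0x4001200380019000280000000000000000000000000000000) (nat_lit 0x0) (nat_lit 0x4001a000c000450000800c00060002000000000000000000000000) := T_16 (nat_lit 130) (nat_lit 113) (nat_lit 5) (nat_lit 11) (nat_lit 6) L28128 (by decide +kernel)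
theorem L28130 : W_16 (nat_lit 10) (nat_lit 0x4001200380009000280000000000000000000000000000000) (nat_lit 0x0) (nat_lit 0x34001a000c0004500f0807c000e0007000000000000000000000000) := Q_16 (nat_lit 148) (C_16 L28122 (C_16 L28129 (C_16 L27390 N_16))) (by decide +kernel)
theorem L28131 : W_16 (nat_lit 2) (nat_lit 0x4001200380009000680000000000000000000000000000000) (nat_lit 0x0) (nat_lit 0x400020002000000000000000000000000000000000000000000000) := D_16 (nat_lit 197) (nat_lit 214) (nat_lit 181) (nat_lit 6) (nat_lit 10) (nat_lit 12) (nat_lit 5) (nat_lit 11) (nat_lit 7) (by decide +kernel)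
theorem L28132 : W_16 (nat_lit 3) (nat_lit 0x4001200380009000280000000000000000000000000000000) (nat_lit 0x0) (nat_lit 0x400020002000000000000400020000000000000000000000000000) := T_16 (nat_lit 130) (nat_lit 113) (nat_lit 5) (nat_lit 11) (nat_lit 6) L28131 (by decide +kernel)
theorem L28133 : W_16 (nat_lit 2) (nat_lit 0x4007200bd0019000680000000000000000000000000000000) (nat_lit 0x0) (nat_lit 0x800040000000000000000800000000000000000000000000000000) := D_16 (nat_lit 198) (nat_lit 131) (nat_lit 215) (nat_lit 6) (nat_lit 11) (nat_lit 11) (nat_lit 6) (nat_lit 11) (nat_lit 12) (by decide +kernel)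
theorem L28134 : W_16 (nat_lit 3) (nat_lit 0x4007200bd0009000680000000000000000000000000000000) (nat_lit 0x0) (nat_lit 0x800040000000000030000800000000000000000000000000000000) := T_16 (nat_lit 148) (nat_lit 149) (nat_lit 2) (nat_lit 9) (nat_lit 9) L28133 (by decide +kernel)
theorem L28135 : W_16 (nat_lit 4) (nat_lit 0x4007200b90009000680000000000000000000000000000000) (nat_lit 0x0) (nat_lit 0x800040008000040030000800000000000000000000000000000000) := T_16 (nat_lit 162) (nat_lit 183) (nat_lit 3) (nat_lit 9) (nat_lit 9) L28134 (by decide +kernel)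
theorem L28136 : W_16 (nat_lit 5) (nat_lit 0x4003200b90009000680000000000000000000000000000000) (nat_lit 0x0) (nat_lit 0x8000c000c000040030000800000000000000000000000000000000) := T_16 (nat_lit 182) (nat_lit 199) (nat_lit 7) (nat_lit 11) (nat_lit 7) L28135 (by decide +kernel)
theorem L28137 : W_16 (nat_lit 6) (nat_lit 0x4003200390009000680000000000000000000000000000000) (nat_lit 0x0) (nat_lit 0x8000c000c000c40030000800000000000000000000000000000000) := T_16 (nat_lit 167) (nat_lit 166) (nat_lit 1) (nat_lit 14) (nat_lit 9) L28136 (by decide +kernel)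
theorem L28138 : W_16 (nat_lit 7) (nat_lit 0x4001200390009000680000000000000000000000000000000) (nat_lit 0x0) (nat_lit 0x8000c000e000c40030000800010000000000000000000000000000) := T_16 (nat_lit 181) (nat_lit 112) (nat_lit 4) (nat_lit 11) (nat_lit 10) L28137 (by decide +kernel)
theorem L28139 : W_16 (nat_lit 8) (nat_lit 0x4001200390009000280000000000000000000000000000000) (nat_lit 0x0) (nat_lit 0x8000c000e000c40030000c00030000000000000000000000000000) := T_16 (nat_lit 130) (nat_lit 113) (nat_lit 5) (nat_lit 11) (nat_lit 6) L28138 (by decide +kernel)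
theorem L28140 : W_16 (nat_lit 9) (nat_lit 0x4001200380009000280000000000000000000000000000000) (nat_lit 0x0) (nat_lit 0x8000c000e000c50030800c00030000000000000000000000000000) := T_16 (nat_lit 160) (nat_lit 143) (nat_lit 6) (nat_lit 7) (nat_lit 11) L28139 (by decide +kernel)
theorem L28141 : W_16 (nat_lit 2) (nat_lit 0x140010400d200390019000280000000000000000000000000000000) (nat_lit 0x0) (nat_lit 0x40002000000000000400000000000000000000000000000000000000000) := D_16 (nat_lit 217) (nat_lit 234) (nat_lit 166) (nat_lit 4) (nat_lit 13) (nat_lit 13) (nat_lit 4) (nat_lit 13) (nat_lit 12) (by decide +kernel)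
theorem L28142 : W_16 (nat_lit 3) (nat_lit 0x140000400d200390019000280000000000000000000000000000000) (nat_lit 0x0) (nat_lit 0x40002000100000000400000000800000000000000000000000000000000) := T_16 (nat_lit 200) (nat_lit 131) (nat_lit 7) (nat_lit 12) (nat_lit 7) L28141 (by decide +kernel)
theorem L28143 : W_16 (nat_lit 4) (nat_lit 0x100000400d200390019000280000000000000000000000000000000) (nat_lit 0x0) (nat_lit 0x40002400120000000400000000800000000000000000000000000000000) := T_16 (nat_lit 214) (nat_lit 197) (nat_lit 6) (nat_lit 10) (nat_lit 12) L28142 (by decide +kernel)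
theorem L28144 : W_16 (nat_lit 5) (nat_lit 0x1000004005200390019000280000000000000000000000000000000) (nat_lit 0x0) (nat_lit 0x40002400120008000440000000800000000000000000000000000000000) := T_16 (nat_lit 183) (nat_lit 162) (nat_lit 3) (nat_lit 9) (nat_lit 9) L28143 (by decide +kernel)
theorem L28145 : W_16 (nat_lit 6) (nat_lit 0x4005200390019000280000000000000000000000000000000) (nat_lit 0x0) (nat_lit 0x400034001a0008000440000000800000000000000000000000000000000) := T_16 (nat_lit 216) (nat_lit 199) (nat_lit 4) (nat_lit 12) (nat_lit 12) L28144 (by decide +kernel)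
theorem L28146 : W_16 (nat_lit 7) (nat_lit 0x4005200380019000280000000000000000000000000000000) (nat_lit 0x0) (nat_lit 0x400034001a0008000450000800800000000000000000000000000000000) := T_16 (nat_lit 160) (nat_lit 143) (nat_lit 6) (nat_lit 7) (nat_lit 11) L28145 (by decide +kernel)
theorem L28147 : W_16 (nat_lit 2) (nat_lit 0x4001c40052003d0019000280000000000000000000000000000000) (nat_lit 0x0) (nat_lit 0x200002000000000000800000000000000000000000000000000) := D_16 (nat_lit 181) (nat_lit 131) (nat_lit 201) (nat_lit 6) (nat_lit 11) (nat_lit 11) (nat_lit 0) (nat_lit 14) (nat_lit 11) (by decide +kernel)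
theorem L28148 : W_16 (nat_lit 3) (nat_lit 0x4001840052003d0019000280000000000000000000000000000000) (nat_lit 0x0) (nat_lit 0x800240002000000000000800000000000000000000000000000000) := T_16 (nat_lit 198) (nat_lit 215) (nat_lit 5) (nat_lit 12) (nat_lit 8) L28147 (by decide +kernel)
theorem L28149 : W_16 (nat_lit 4) (nat_lit 0x4000840052003d0019000280000000000000000000000000000000) (nat_lit 0x0) (nat_lit 0x2800340002000000000000800000000000000000000000000000000) := T_16 (nat_lit 200) (nat_lit 217) (nat_lit 7) (nat_lit 12) (nat_lit 8) L28148 (by decide +kernel)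
theorem L28150 : W_16 (nat_lit 5) (nat_lit 0x840052003d0019000280000000000000000000000000000000) (nat_lit 0x0) (nat_lit 0x2c00360002000000000000800000000000000000000000000000000) := T_16 (nat_lit 214) (nat_lit 197) (nat_lit 6) (nat_lit 10) (nat_lit 12) L28149 (by decide +kernel)
theorem L28151 : W_16 (nat_lit 6) (nat_lit 0x40052003d0019000280000000000000000000000000000000) (nat_lit 0x0) (nat_lit 0x3c003e0002000000000000800000000000000000000000000000000) := T_16 (nat_lit 199) (nat_lit 216) (nat_lit 4) (nat_lit 12) (nat_lit 12) L28150 (by decide +kernel)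
theorem L28152 : W_16 (nat_lit 7) (nat_lit 0x40052003c0019000280000000000000000000000000000000) (nat_lit 0x0) (nat_lit 0x3c003e0002000010000800800000000000000000000000000000000) := T_16 (nat_lit 160) (nat_lit 143) (nat_lit 6) (nat_lit 7) (nat_lit 11) L28151 (by decide +kernel)
theorem L28153 : W_16 (nat_lit 8) (nat_lit 0x4005200380019000280000000000000000000000000000000) (nat_lit 0x0) (nat_lit 0x3c003e000a000050000800800000000000000000000000000000000) := T_16 (nat_lit 162) (nat_lit 183) (nat_lit 3) (nat_lit 9) (nat_lit 9) L28152 (by decide +kernel)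
theorem L28154 : W_16 (nat_lit 2) (nat_lit 0x100000400d200390019000a80000000000000000000000000000000) (nat_lit 0x0) (nat_lit 0x400000000000040002000000000000000000000000) := D_16 (nat_lit 114) (nat_lit 166) (nat_lit 97) (nat_lit 7) (nat_lit 12) (nat_lit 6) (nat_lit 5) (nat_lit 12) (nat_lit 5) (by decide +kernel)
theorem L28155 : W_16 (nat_lit 3) (nat_lit 0x100000400d200390019000280000000000000000000000000000000) (nat_lit 0x0) (nat_lit 0x100000000400000000800040002000000000000000000000000) := T_16 (nat_lit 131) (nat_lit 200) (nat_lit 7) (nat_lit 12) (nat_lit 7) L28154 (by decide +kernel)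
theorem L28156 : W_16 (nat_lit 4) (nat_lit 0x1000004005200390019000280000000000000000000000000000000) (nat_lit 0x0) (nat_lit 0x100008000440000000800040002000000000000000000000000) := T_16 (nat_lit 183) (nat_lit 162) (nat_lit 3) (nat_lit 9) (nat_lit 9) L28155 (by decide +kernel)
theorem L28157 : W_16 (nat_lit 5) (nat_lit 0x1000004005200380019000280000000000000000000000000000000) (nat_lit 0x0) (nat_lit 0x100008000450000800800040002000000000000000000000000) := T_16 (nat_lit 160) (nat_lit 143) (nat_lit 6) (nat_lit 7) (nat_lit 11) L28156 (by decide +kernel)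
theorem L28158 : W_16 (nat_lit 6) (nat_lit 0x4005200380019000280000000000000000000000000000000) (nat_lit 0x0) (nat_lit 0x1000180008000450000800800040002000000000000000000000000) := T_16 (nat_lit 216) (nat_lit 199) (nat_lit 4) (nat_lit 12) (nat_lit 12) L28157 (by decide +kernel)
theorem L28159 : W_16 (nat_lit 2) (nat_lit 0x4001c4005200390019000280000000000000000000000000000000) (nat_lit 0x0) (nat_lit 0x200002000000000000800000000000000000000000000000000) := D_16 (nat_lit 181) (nat_lit 131) (nat_lit 201) (nat_lit 6) (nat_lit 11) (nat_lit 11) (nat_lit 0) (nat_lit 14) (nat_lit 11) (by decide +kernel)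
theorem L28160 : W_16 (nat_lit 3) (nat_lit 0x400184005200390019000280000000000000000000000000000000) (nat_lit 0x0) (nat_lit 0x800240002000000000000800000000000000000000000000000000) := T_16 (nat_lit 198) (nat_lit 215) (nat_lit 5) (nat_lit 12) (nat_lit 8) L28159 (by decide +kernel)
theorem L28161 : W_16 (nat_lit 4) (nat_lit 0x400084005200390019000280000000000000000000000000000000) (nat_lit 0x0) (nat_lit 0x2800340002000000000000800000000000000000000000000000000) := T_16 (nat_lit 200) (nat_lit 217) (nat_lit 7) (nat_lit 12) (nat_lit 8) L28160 (by decide +kernel)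
theorem L28162 : W_16 (nat_lit 5) (nat_lit 0x400084005200380019000280000000000000000000000000000000) (nat_lit 0x0) (nat_lit 0x2800340002000010000800800000000000000000000000000000000) := T_16 (nat_lit 160) (nat_lit 143) (nat_lit 6) (nat_lit 7) (nat_lit 11) L28161 (by decide +kernel)
theorem L28163 : W_16 (nat_lit 6) (nat_lit 0x400004005200380019000280000000000000000000000000000000) (nat_lit 0x0) (nat_lit 0x38003c0002000010000800800000000000000000000000000000000) := T_16 (nat_lit 199) (nat_lit 216) (nat_lit 4) (nat_lit 12) (nat_lit 12) L28162 (by decide +kernel)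
theorem L28164 : W_16 (nat_lit 7) (nat_lit 0x4005200380019000280000000000000000000000000000000) (nat_lit 0x0) (nat_lit 0x3c003e0002000010000800800000000000000000000000000000000) := T_16 (nat_lit 214) (nat_lit 197) (nat_lit 6) (nat_lit 10) (nat_lit 12) L28163 (by decide +kernel)
theorem L28165 : W_16 (nat_lit 2) (nat_lit 0x140000400d200380019000a80000000000000000000000000000000) (nat_lit 0x0) (nat_lit 0x400000000000040002000000000000000000000000) := D_16 (nat_lit 114) (nat_lit 166) (nat_lit 97) (nat_lit 7) (nat_lit 12) (nat_lit 6) (nat_lit 5) (nat_lit 12) (nat_lit 5) (by decide +kernel)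
theorem L28166 : W_16 (nat_lit 3) (nat_lit 0x140000400d200380019000280000000000000000000000000000000) (nat_lit 0x0) (nat_lit 0x100000000400000000800040002000000000000000000000000) := T_16 (nat_lit 131) (nat_lit 200) (nat_lit 7) (nat_lit 12) (nat_lit 7) L28165 (by decide +kernel)
theorem L28167 : W_16 (nat_lit 4) (nat_lit 0x1400004005200380019000280000000000000000000000000000000) (nat_lit 0x0) (nat_lit 0x100008000440000000800040002000000000000000000000000) := T_16 (nat_lit 183) (nat_lit 162) (nat_lit 3) (nat_lit 9) (nat_lit 9) L28166 (by decide +kernel)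
theorem L28168 : W_16 (nat_lit 5) (nat_lit 0x1000004005200380019000280000000000000000000000000000000) (nat_lit 0x0) (nat_lit 0x400120008000440000000800040002000000000000000000000000) := T_16 (nat_lit 214) (nat_lit 197) (nat_lit 6) (nat_lit 10) (nat_lit 12) L28167 (by decide +kernel)
theorem L28169 : W_16 (nat_lit 6) (nat_lit 0x4005200380019000280000000000000000000000000000000) (nat_lit 0x0) (nat_lit 0x14001a0008000440000000800040002000000000000000000000000) := T_16 (nat_lit 216) (nat_lit 199) (nat_lit 4) (nat_lit 12) (nat_lit 12) L28168 (by decide +kernel)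
theorem L28170 : W_16 (nat_lit 2) (nat_lit 0x100002400f200790019000280000000000000000000000000000000) (nat_lit 0x0) (nat_lit 0x2000300000000000000000000000000000000000000000000000000) := D_16 (nat_lit 200) (nat_lit 201) (nat_lit 217) (nat_lit 3) (nat_lit 10) (nat_lit 10) (nat_lit 4) (nat_lit 13) (nat_lit 12) (by decide +kernel)
theorem L28171 : W_16 (nat_lit 3) (nat_lit 0x100002400f200390019000280000000000000000000000000000000) (nat_lit 0x0) (nat_lit 0x2000300000000c00000000000000000000000000000000000000000) := T_16 (nat_lit 166) (nat_lit 167) (nat_lit 2) (nat_lit 10) (nat_lit 10) L28170 (by decide +kernel)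
theorem L28172 : W_16 (nat_lit 4) (nat_lit 0x100002400d200390019000280000000000000000000000000000000) (nat_lit 0x0) (nat_lit 0x2000310002000c00000000000000000000000000000000000000000) := T_16 (nat_lit 181) (nat_lit 196) (nat_lit 1) (nat_lit 13) (nat_lit 10) L28171 (by decide +kernel)
theorem L28173 : W_16 (nat_lit 5) (nat_lit 0x100000400d200390019000280000000000000000000000000000000) (nat_lit 0x0) (nat_lit 0x2400330002000c00000000000000000000000000000000000000000) := T_16 (nat_lit 197) (nat_lit 214) (nat_lit 6) (nat_lit 10) (nat_lit 12) L28172 (by decide +kernel)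
theorem L28174 : W_16 (nat_lit 6) (nat_lit 0x100000400d200380019000280000000000000000000000000000000) (nat_lit 0x0) (nat_lit 0x2400330002000c10000800000000000000000000000000000000000) := T_16 (nat_lit 160) (nat_lit 143) (nat_lit 6) (nat_lit 7) (nat_lit 11) L28173 (by decide +kernel)
theorem L28175 : W_16 (nat_lit 7) (nat_lit 0x400d200380019000280000000000000000000000000000000) (nat_lit 0x0) (nat_lit 0x34003b0002000c10000800000000000000000000000000000000000) := T_16 (nat_lit 216) (nat_lit 199) (nat_lit 4) (nat_lit 12) (nat_lit 12) L28174 (by decide +kernel)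
theorem L28176 : W_16 (nat_lit 8) (nat_lit 0x4005200380019000280000000000000000000000000000000) (nat_lit 0x0) (nat_lit 0x34003b000a000c50000800000000000000000000000000000000000) := T_16 (nat_lit 183) (nat_lit 162) (nat_lit 3) (nat_lit 9) (nat_lit 9) L28175 (by decide +kernel)
theorem L28177 : W_16 (nat_lit 2) (nat_lit 0x40000400d200390019000a80000000000000000000000000000000) (nat_lit 0x0) (nat_lit 0x400000000000040002000000000000000000000000) := D_16 (nat_lit 114) (nat_lit 166) (nat_lit 97) (nat_lit 7) (nat_lit 12) (nat_lit 6) (nat_lit 5) (nat_lit 12) (nat_lit 5) (by decide +kernel)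
theorem L28178 : W_16 (nat_lit 3) (nat_lit 0x40000400d200390019000280000000000000000000000000000000) (nat_lit 0x0) (nat_lit 0x100000000400000000800040002000000000000000000000000) := T_16 (nat_lit 131) (nat_lit 200) (nat_lit 7) (nat_lit 12) (nat_lit 7) L28177 (by decide +kernel)
theorem L28179 : W_16 (nat_lit 4) (nat_lit 0x40000400d200380019000280000000000000000000000000000000) (nat_lit 0x0) (nat_lit 0x100000000410000800800040002000000000000000000000000) := T_16 (nat_lit 160) (nat_lit 143) (nat_lit 6) (nat_lit 7) (nat_lit 11) L28178 (by decide +kernel)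
theorem L28180 : W_16 (nat_lit 5) (nat_lit 0x400004005200380019000280000000000000000000000000000000) (nat_lit 0x0) (nat_lit 0x100008000450000800800040002000000000000000000000000) := T_16 (nat_lit 183) (nat_lit 162) (nat_lit 3) (nat_lit 9) (nat_lit 9) L28179 (by decide +kernel)
theorem L28181 : W_16 (nat_lit 6) (nat_lit 0x4005200380019000280000000000000000000000000000000) (nat_lit 0x0) (nat_lit 0x400120008000450000800800040002000000000000000000000000) := T_16 (nat_lit 214) (nat_lit 197) (nat_lit 6) (nat_lit 10) (nat_lit 12) L28180 (by decide +kernel)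
theorem L28182 : W_16 (nat_lit 2) (nat_lit 0x4000c40052003c0019000a80040000000000000000000000000000) (nat_lit 0x0) (nat_lit 0x1000080004000000000000000000000000) := D_16 (nat_lit 115) (nat_lit 132) (nat_lit 98) (nat_lit 6) (nat_lit 12) (nat_lit 10) (nat_lit 6) (nat_lit 12) (nat_lit 9) (by decide +kernel)
theorem L28183 : W_16 (nat_lit 3) (nat_lit 0x4000c40052003c0019000a80000000000000000000000000000000) (nat_lit 0x0) (nat_lit 0x10000c0006000000000000000000000000) := T_16 (nat_lit 114) (nat_lit 97) (nat_lit 5) (nat_lit 12) (nat_lit 5) L28182 (by decide +kernel)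
theorem L28184 : W_16 (nat_lit 4) (nat_lit 0x4000c40052003c0019000280000000000000000000000000000000) (nat_lit 0x0) (nat_lit 0x20000000000018000c0006000000000000000000000000) := T_16 (nat_lit 131) (nat_lit 181) (nat_lit 6) (nat_lit 11) (nat_lit 11) L28183 (by decide +kernel)
theorem L28185 : W_16 (nat_lit 5) (nat_lit 0x4000840052003c0019000280000000000000000000000000000000) (nat_lit 0x0) (nat_lit 0x8000400020000000000018000c0006000000000000000000000000) := T_16 (nat_lit 198) (nat_lit 215) (nat_lit 5) (nat_lit 12) (nat_lit 8) L28184 (by decide +kernel)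
theorem L28186 : W_16 (nat_lit 6) (nat_lit 0x840052003c0019000280000000000000000000000000000000) (nat_lit 0x0) (nat_lit 0xc000600020000000000018000c0006000000000000000000000000) := T_16 (nat_lit 214) (nat_lit 197) (nat_lit 6) (nat_lit 10) (nat_lit 12) L28185 (by decide +kernel)
theorem L28187 : W_16 (nat_lit 7) (nat_lit 0x40052003c0019000280000000000000000000000000000000) (nat_lit 0x0) (nat_lit 0x1c000e00020000000000018000c0006000000000000000000000000) := T_16 (nat_lit 199) (nat_lit 216) (nat_lit 4) (nat_lit 12) (nat_lit 12) L28186 (by decide +kernel)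
theorem L28188 : W_16 (nat_lit 8) (nat_lit 0x4005200380019000280000000000000000000000000000000) (nat_lit 0x0) (nat_lit 0x1c000e000a0000400000018000c0006000000000000000000000000) := T_16 (nat_lit 162) (nat_lit 183) (nat_lit 3) (nat_lit 9) (nat_lit 9) L28187 (by decide +kernel)
theorem L28189 : W_16 (nat_lit 9) (nat_lit 0x4001200380019000280000000000000000000000000000000) (nat_lit 0x0) (nat_lit 0x40003c003f000e000c500008018000c0006000000000000000000000000) := Q_16 (nat_lit 182) (C_16 L28146 (C_16 L28153 (C_16 L28158 (C_16 L28164 (C_16 L28169 (C_16 L28176 (C_16 L28181 (C_16 L28188 N_16)))))))) (by decide +kernel)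
theorem L28190 : W_16 (nat_lit 2) (nat_lit 0x4003200380019000280000000000000000000000000000000) (nat_lit 0x0) (nat_lit 0x800040000000000000000800000000000000000000000000000000) := D_16 (nat_lit 198) (nat_lit 215) (nat_lit 131) (nat_lit 6) (nat_lit 11) (nat_lit 12) (nat_lit 6) (nat_lit 11) (nat_lit 11) (by decide +kernel)
theorem L28191 : W_16 (nat_lit 2) (nat_lit 0x34007200b90039000280040000000000000000000000000000) (nat_lit 0x0) (nat_lit 0x1000080000000000000001000000000000000000000000000000000) := D_16 (nat_lit 199) (nat_lit 216) (nat_lit 132) (nat_lit 4) (nat_lit 12) (nat_lit 12) (nat_lit 6) (nat_lit 12) (nat_lit 11) (by decide +kernel)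
theorem L28192 : W_16 (nat_lit 3) (nat_lit 0x34003200b90039000280040000000000000000000000000000) (nat_lit 0x0) (nat_lit 0x100008000c000000000001000000000000000000000000000000000) := T_16 (nat_lit 182) (nat_lit 183) (nat_lit 1) (nat_lit 13) (nat_lit 10) L28191 (by decide +kernel)
theorem L28193 : W_16 (nat_lit 4) (nat_lit 0x24003200b90039000280040000000000000000000000000000) (nat_lit 0x0) (nat_lit 0x100009800c000000000001000000000000000000000000000000000) := T_16 (nat_lit 196) (nat_lit 195) (nat_lit 2) (nat_lit 7) (nat_lit 11) L28192 (by decide +kernel)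
theorem L28194 : W_16 (nat_lit 5) (nat_lit 0x4003200b90039000280040000000000000000000000000000) (nat_lit 0x0) (nat_lit 0x14000b800c000000000001000000000000000000000000000000000) := T_16 (nat_lit 197) (nat_lit 214) (nat_lit 6) (nat_lit 10) (nat_lit 12) L28193 (by decide +kernel)
theorem L28195 : W_16 (nat_lit 6) (nat_lit 0x4003200b90019000280040000000000000000000000000000) (nat_lit 0x0) (nat_lit 0x14000b800c000000060001000000000000000000000000000000000) := T_16 (nat_lit 149) (nat_lit 150) (nat_lit 1) (nat_lit 14) (nat_lit 8) L28194 (by decide +kernel)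
theorem L28196 : W_16 (nat_lit 7) (nat_lit 0x4003200390019000280040000000000000000000000000000) (nat_lit 0x0) (nat_lit 0x14000b800c000c00060001000000000000000000000000000000000) := T_16 (nat_lit 167) (nat_lit 166) (nat_lit 1) (nat_lit 14) (nat_lit 9) L28195 (by decide +kernel)
theorem L28197 : W_16 (nat_lit 8) (nat_lit 0x4003200390019000280000000000000000000000000000000) (nat_lit 0x0) (nat_lit 0x14000b800c000c00060001800040000000000000000000000000000) := T_16 (nat_lit 114) (nat_lit 131) (nat_lit 5) (nat_lit 12) (nat_lit 6) L28196 (by decide +kernel)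
theorem L28198 : W_16 (nat_lit 9) (nat_lit 0x4003200380019000280000000000000000000000000000000) (nat_lit 0x0) (nat_lit 0x14000b800c000c10060801800040000000000000000000000000000) := T_16 (nat_lit 160) (nat_lit 143) (nat_lit 6) (nat_lit 7) (nat_lit 11) L28197 (by decide +kernel)
theorem L28199 : W_16 (nat_lit 2) (nat_lit 0x4001c4003200b90039000280000000000000000000000000000000) (nat_lit 0x0) (nat_lit 0x2000000004000000000001000000000000000000000000000000000) := D_16 (nat_lit 182) (nat_lit 217) (nat_lit 132) (nat_lit 7) (nat_lit 12) (nat_lit 8) (nat_lit 6) (nat_lit 12) (nat_lit 11) (by decide +kernel)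
theorem L28200 : W_16 (nat_lit 3) (nat_lit 0x4001c4003200b90019000280000000000000000000000000000000) (nat_lit 0x0) (nat_lit 0x2000000004000000060001000000000000000000000000000000000) := T_16 (nat_lit 149) (nat_lit 150) (nat_lit 1) (nat_lit 14) (nat_lit 8) L28199 (by decide +kernel)
theorem L28201 : W_16 (nat_lit 4) (nat_lit 0x4000c4003200b90019000280000000000000000000000000000000) (nat_lit 0x0) (nat_lit 0x2000300004000000060001000000000000000000000000000000000) := T_16 (nat_lit 200) (nat_lit 201) (nat_lit 0) (nat_lit 14) (nat_lit 11) L28200 (by decide +kernel)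
theorem L28202 : W_16 (nat_lit 5) (nat_lit 0x400044003200b90019000280000000000000000000000000000000) (nat_lit 0x0) (nat_lit 0x3000380004000000060001000000000000000000000000000000000) := T_16 (nat_lit 199) (nat_lit 216) (nat_lit 7) (nat_lit 11) (nat_lit 8) L28201 (by decide +kernel)
theorem L28203 : W_16 (nat_lit 6) (nat_lit 0x400044003200390019000280000000000000000000000000000000) (nat_lit 0x0) (nat_lit 0x3000380004000c00060001000000000000000000000000000000000) := T_16 (nat_lit 167) (nat_lit 166) (nat_lit 1) (nat_lit 14) (nat_lit 9) L28202 (by decide +kernel)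
theorem L28204 : W_16 (nat_lit 7) (nat_lit 0x400004003200390019000280000000000000000000000000000000) (nat_lit 0x0) (nat_lit 0x38003c0004000c00060001000000000000000000000000000000000) := T_16 (nat_lit 198) (nat_lit 215) (nat_lit 6) (nat_lit 11) (nat_lit 12) L28203 (by decide +kernel)
theorem L28205 : W_16 (nat_lit 8) (nat_lit 0x400004003200380019000280000000000000000000000000000000) (nat_lit 0x0) (nat_lit 0x38003c0004000c10060801000000000000000000000000000000000) := T_16 (nat_lit 160) (nat_lit 143) (nat_lit 6) (nat_lit 7) (nat_lit 11) L28204 (by decide +kernel)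
theorem L28206 : W_16 (nat_lit 9) (nat_lit 0x4003200380019000280000000000000000000000000000000) (nat_lit 0x0) (nat_lit 0x3c003e0004000c10060801000000000000000000000000000000000) := T_16 (nat_lit 214) (nat_lit 197) (nat_lit 6) (nat_lit 10) (nat_lit 12) L28205 (by decide +kernel)
theorem L28207 : W_16 (nat_lit 10) (nat_lit 0x4001200380019000280000000000000000000000000000000) (nat_lit 0x0) (nat_lit 0x3c003f800e000c10060801800040000000000000000000000000000) := Q_16 (nat_lit 181) (C_16 L28190 (C_16 L28198 (C_16 L28206 N_16))) (by decide +kernel)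
theorem L28208 : W_16 (nat_lit 11) (nat_lit 0x4001200380009000280000000000000000000000000000000) (nat_lit 0x0) (nat_lit 0x40003c003f800e000c500708018000c0006000000000000000000000000) := Q_16 (nat_lit 148) (C_16 L28122 (C_16 L28189 (C_16 L28207 N_16))) (by decide +kernel)
theorem L28209 : W_16 (nat_lit 12) (nat_lit 0x4001200380001000280000000000000000000000000000000) (nat_lit 0x0) (nat_lit 0x40003c003f800e000c500f8807c000f0007000000000000000000000000) := Q_16 (nat_lit 147) (C_16 L28130 (C_16 L27870 (C_16 L28132 (C_16 L28140 (C_16 L28208 N_16))))) (by decide +kernel)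
theorem L28210 : W_16 (nat_lit 13) (nat_lit 0x4000200380001000280000000000000000000000000000000) (nat_lit 0x0) (nat_lit 0x7e007f003fa00fc00c500f8807c000f0007000000000000000000000000) := Q_16 (nat_lit 180) (C_16 L28009 (C_16 L28209 (C_16 L27868 N_16))) (by decide +kernel)
theorem L28211 : W_16 (nat_lit 14) (nat_lit 0x4000200180001000280000000000000000000000000000000) (nat_lit 0x0) (nat_lit 0x10000e0007e00ff007fa07fc03e501f8807c003f8007000180000000000000000000) := Q_16 (nat_lit 165) (C_16 L27532 (C_16 L27599 (C_16 L27633 (C_16 L27712 (C_16 L27717 (C_16 L27760 (C_16 L28010 (C_16 L28015 (C_16 L28020 (C_16 L28069 (C_16 L28121 (C_16 L28210 N_16)))))))))))) (by decide +kernel)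
theorem L28212 : W_16 (nat_lit 6) (nat_lit 0x40002001a0001000280000000000000000000000000000000) (nat_lit 0x0) (nat_lit 0x20007000040018800400030000000000000000000000000000) := T_16 (nat_lit 162) (nat_lit 143) (nat_lit 0) (nat_lit 11) (nat_lit 9) L27247 (by decide +kernel)
theorem L28213 : W_16 (nat_lit 7) (nat_lit 0x4000200180001000280000000000000000000000000000000) (nat_lit 0x0) (nat_lit 0x20007400060018800400030000000000000000000000000000) := T_16 (nat_lit 161) (nat_lit 178) (nat_lit 5) (nat_lit 8) (nat_lit 7) L28212 (by decide +kernel)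
theorem L28214 : W_16 (nat_lit 15) (nat_lit 0x4000200080001000280000000000000000000000000000000) (nat_lit 0x0) (nat_lit 0x1a001f000fe00ff007fa07fc03f701f8807c003f800f800180000000000000000000) := Q_16 (nat_lit 164) (C_16 L27128 (C_16 L27249 (C_16 L27251 (C_16 L27513 (C_16 L28211 (C_16 L28213 N_16)))))) (by decide +kernel)
theorem L28215 : W_16 (nat_lit 2) (nat_lit 0x4003200090005000280010000000000000000000000000000) (nat_lit 0x0) (nat_lit 0x400020001000000000000000000000000) := D_16 (nat_lit 113) (nat_lit 96) (nat_lit 130) (nat_lit 6) (nat_lit 10) (nat_lit 9) (nat_lit 6) (nat_lit 10) (nat_lit 10) (by decide +kernel)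
theorem L28216 : W_16 (nat_lit 3) (nat_lit 0x4003200090005000280000000000000000000000000000000) (nat_lit 0x0) (nat_lit 0x100000000400030001000000000000000000000000) := T_16 (nat_lit 112) (nat_lit 164) (nat_lit 7) (nat_lit 10) (nat_lit 6) L28215 (by decide +kernel)
theorem L28217 : W_16 (nat_lit 4) (nat_lit 0x4001200090005000280000000000000000000000000000000) (nat_lit 0x0) (nat_lit 0x40002000100000000400030001000000000000000000000000) := T_16 (nat_lit 181) (nat_lit 198) (nat_lit 7) (nat_lit 10) (nat_lit 7) L28216 (by decide +kernel)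
theorem L28218 : W_16 (nat_lit 5) (nat_lit 0x4001200080005000280000000000000000000000000000000) (nat_lit 0x0) (nat_lit 0x40002000110000800400030001000000000000000000000000) := T_16 (nat_lit 160) (nat_lit 143) (nat_lit 6) (nat_lit 7) (nat_lit 11) L28217 (by decide +kernel)
theorem L28219 : W_16 (nat_lit 2) (nat_lit 0x800034001200090005000680000000000000000000000000000000) (nat_lit 0x0) (nat_lit 0x10000400008000000000000000000000000000000000000000000000000) := D_16 (nat_lit 214) (nat_lit 195) (nat_lit 232) (nat_lit 3) (nat_lit 7) (nat_lit 11) (nat_lit 7) (nat_lit 10) (nat_lit 9) (by decide +kernel)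
theorem L28220 : W_16 (nat_lit 3) (nat_lit 0x34001200090005000680000000000000000000000000000000) (nat_lit 0x0) (nat_lit 0x10000c00048000000000000000000000000000000000000000000000000) := T_16 (nat_lit 215) (nat_lit 198) (nat_lit 7) (nat_lit 10) (nat_lit 8) L28219 (by decide +kernel)
theorem L28221 : W_16 (nat_lit 4) (nat_lit 0x14001200090005000680000000000000000000000000000000) (nat_lit 0x0) (nat_lit 0x10000e00068000000000000000000000000000000000000000000000000) := T_16 (nat_lit 197) (nat_lit 213) (nat_lit 5) (nat_lit 10) (nat_lit 8) L28220 (by decide +kernel)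
theorem L28222 : W_16 (nat_lit 5) (nat_lit 0x4001200090005000680000000000000000000000000000000) (nat_lit 0x0) (nat_lit 0x10000e00078000800000000000000000000000000000000000000000000) := T_16 (nat_lit 196) (nat_lit 179) (nat_lit 5) (nat_lit 10) (nat_lit 7) L28221 (by decide +kernel)
theorem L28223 : W_16 (nat_lit 6) (nat_lit 0x4001200080005000680000000000000000000000000000000) (nat_lit 0x0) (nat_lit 0x10000e00078000800010000800000000000000000000000000000000000) := T_16 (nat_lit 160) (nat_lit 143) (nat_lit 6) (nat_lit 7) (nat_lit 11) L28222 (by decide +kernel)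
theorem L28224 : W_16 (nat_lit 7) (nat_lit 0x4001200080005000280000000000000000000000000000000) (nat_lit 0x0) (nat_lit 0x10000e00078000800010000800400020000000000000000000000000000) := T_16 (nat_lit 130) (nat_lit 113) (nat_lit 6) (nat_lit 10) (nat_lit 10) L28223 (by decide +kernel)
theorem L28225 : W_16 (nat_lit 8) (nat_lit 0x4001200080001000280000000000000000000000000000000) (nat_lit 0x0) (nat_lit 0x10000e00078002800150004800400030001000000000000000000000000) := Q_16 (nat_lit 146) (C_16 L28218 (C_16 L28224 (C_16 L25639 (C_16 L25548 N_16)))) (by decide +kernel)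
theorem L28226 : W_16 (nat_lit 2) (nat_lit 0x40032000b0005000280010000000000000000000000000000) (nat_lit 0x0) (nat_lit 0x400020001000000000000000000000000) := D_16 (nat_lit 113) (nat_lit 96) (nat_lit 130) (nat_lit 6) (nat_lit 10) (nat_lit 9) (nat_lit 6) (nat_lit 10) (nat_lit 10) (by decide +kernel)
theorem L28227 : W_16 (nat_lit 3) (nat_lit 0x40032000b0005000280000000000000000000000000000000) (nat_lit 0x0) (nat_lit 0x100000000400030001000000000000000000000000) := T_16 (nat_lit 112) (nat_lit 164) (nat_lit 7) (nat_lit 10) (nat_lit 6) L28226 (by decide +kernel)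
theorem L28228 : W_16 (nat_lit 4) (nat_lit 0x40032000b0001000280000000000000000000000000000000) (nat_lit 0x0) (nat_lit 0x40000000100004000400030001000000000000000000000000) := T_16 (nat_lit 146) (nat_lit 198) (nat_lit 7) (nat_lit 10) (nat_lit 7) L28227 (by decide +kernel)
theorem L28229 : W_16 (nat_lit 5) (nat_lit 0x40012000b0001000280000000000000000000000000000000) (nat_lit 0x0) (nat_lit 0x40002000140004000400030001000000000000000000000000) := T_16 (nat_lit 181) (nat_lit 162) (nat_lit 3) (nat_lit 7) (nat_lit 9) L28228 (by decide +kernel)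
theorem L28230 : W_16 (nat_lit 6) (nat_lit 0x4001200090001000280000000000000000000000000000000) (nat_lit 0x0) (nat_lit 0x40002400160004000400030001000000000000000000000000) := T_16 (nat_lit 161) (nat_lit 178) (nat_lit 5) (nat_lit 8) (nat_lit 7) L28229 (by decide +kernel)
theorem L28231 : W_16 (nat_lit 7) (nat_lit 0x4001200080001000280000000000000000000000000000000) (nat_lit 0x0) (nat_lit 0x40002400170004800400030001000000000000000000000000) := T_16 (nat_lit 160) (nat_lit 143) (nat_lit 6) (nat_lit 7) (nat_lit 11) L28230 (by decide +kernel)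
theorem L28232 : W_16 (nat_lit 2) (nat_lit 0x4001a000f0001000280000000000000000000000000000000) (nat_lit 0x0) (nat_lit 0x200010000000000004000000000000000000000000000000000000) := D_16 (nat_lit 196) (nat_lit 213) (nat_lit 146) (nat_lit 4) (nat_lit 9) (nat_lit 12) (nat_lit 5) (nat_lit 10) (nat_lit 7) (by decide +kernel)
theorem L28233 : W_16 (nat_lit 3) (nat_lit 0x40012000f0001000280000000000000000000000000000000) (nat_lit 0x0) (nat_lit 0x200010000800008004000000000000000000000000000000000000) := T_16 (nat_lit 179) (nat_lit 159) (nat_lit 3) (nat_lit 6) (nat_lit 9) L28232 (by decide +kernel)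
theorem L28234 : W_16 (nat_lit 4) (nat_lit 0x40012000b0001000280000000000000000000000000000000) (nat_lit 0x0) (nat_lit 0x200010002800048004000000000000000000000000000000000000) := T_16 (nat_lit 162) (nat_lit 181) (nat_lit 3) (nat_lit 7) (nat_lit 9) L28233 (by decide +kernel)
theorem L28235 : W_16 (nat_lit 5) (nat_lit 0x40012000a0001000280000000000000000000000000000000) (nat_lit 0x0) (nat_lit 0x200010002800058004800000000000000000000000000000000000) := T_16 (nat_lit 160) (nat_lit 143) (nat_lit 6) (nat_lit 7) (nat_lit 11) L28234 (by decide +kernel)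
theorem L28236 : W_16 (nat_lit 6) (nat_lit 0x4001200080001000280000000000000000000000000000000) (nat_lit 0x0) (nat_lit 0x200010002c00078004800000000000000000000000000000000000) := T_16 (nat_lit 161) (nat_lit 178) (nat_lit 5) (nat_lit 8) (nat_lit 7) L28235 (by decide +kernel)
theorem L28237 : W_16 (nat_lit 9) (nat_lit 0x4000200080001000280000000000000000000000000000000) (nat_lit 0x0) (nat_lit 0x10000e0007a003c00178004800400030001000000000000000000000000) := Q_16 (nat_lit 180) (C_16 L28225 (C_16 L28231 (C_16 L25518 (C_16 L28236 N_16)))) (by decide +kernel)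
theorem L28238 : W_16 (nat_lit 2) (nat_lit 0x4000200180005000280018000800000000000000000000000) (nat_lit 0x0) (nat_lit 0x20001000080000000000000000000) := D_16 (nat_lit 96) (nat_lit 79) (nat_lit 113) (nat_lit 6) (nat_lit 10) (nat_lit 8) (nat_lit 6) (nat_lit 10) (nat_lit 9) (by decide +kernel)
theorem L28239 : W_16 (nat_lit 3) (nat_lit 0x4000200180005000280018000000000000000000000000000) (nat_lit 0x0) (nat_lit 0x8000000020001800080000000000000000000) := T_16 (nat_lit 95) (nat_lit 147) (nat_lit 7) (nat_lit 10) (nat_lit 5) L28238 (by decide +kernel)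
theorem L28240 : W_16 (nat_lit 4) (nat_lit 0x4000200080005000280018000000000000000000000000000) (nat_lit 0x0) (nat_lit 0x2000100008000000020001800080000000000000000000) := T_16 (nat_lit 164) (nat_lit 181) (nat_lit 7) (nat_lit 10) (nat_lit 6) L28239 (by decide +kernel)
theorem L28241 : W_16 (nat_lit 5) (nat_lit 0x4000200080005000280010000000000000000000000000000) (nat_lit 0x0) (nat_lit 0x2000100008000000028001c00080000000000000000000) := T_16 (nat_lit 111) (nat_lit 94) (nat_lit 4) (nat_lit 10) (nat_lit 9) L28240 (by decide +kernel)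
theorem L28242 : W_16 (nat_lit 2) (nat_lit 0x4001200080005000280038000000000000000000000000000) (nat_lit 0x0) (nat_lit 0x10000800040000000000000000000000000000000000000000) := D_16 (nat_lit 179) (nat_lit 196) (nat_lit 162) (nat_lit 5) (nat_lit 10) (nat_lit 7) (nat_lit 5) (nat_lit 10) (nat_lit 6) (by decide +kernel)
theorem L28243 : W_16 (nat_lit 3) (nat_lit 0x4000200080005000280038000000000000000000000000000) (nat_lit 0x0) (nat_lit 0x10001800040000000400000000000000000000000000000000) := T_16 (nat_lit 180) (nat_lit 130) (nat_lit 6) (nat_lit 10) (nat_lit 10) L28242 (by decide +kernel)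
theorem L28244 : W_16 (nat_lit 4) (nat_lit 0x4000200080005000280030000000000000000000000000000) (nat_lit 0x0) (nat_lit 0x10001800040000000400008000400000000000000000000000) := T_16 (nat_lit 111) (nat_lit 94) (nat_lit 4) (nat_lit 10) (nat_lit 9) L28243 (by decide +kernel)
theorem L28245 : W_16 (nat_lit 5) (nat_lit 0x4000200080005000280010000000000000000000000000000) (nat_lit 0x0) (nat_lit 0x10001800040000000400028001400000000000000000000000) := T_16 (nat_lit 113) (nat_lit 96) (nat_lit 6) (nat_lit 10) (nat_lit 9) L28244 (by decide +kernel)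
theorem L28246 : W_16 (nat_lit 2) (nat_lit 0x4000200180005000280010000800000000000000000000000) (nat_lit 0x0) (nat_lit 0x8000400020000000000000000000) := D_16 (nat_lit 94) (nat_lit 111) (nat_lit 77) (nat_lit 4) (nat_lit 10) (nat_lit 9) (nat_lit 4) (nat_lit 10) (nat_lit 8) (by decide +kernel)
theorem L28247 : W_16 (nat_lit 3) (nat_lit 0x4000200180005000280010000000000000000000000000000) (nat_lit 0x0) (nat_lit 0x8000000008000c00020000000000000000000) := T_16 (nat_lit 95) (nat_lit 147) (nat_lit 7) (nat_lit 10) (nat_lit 5) L28246 (by decide +kernel)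
theorem L28248 : W_16 (nat_lit 4) (nat_lit 0x4000200080005000280010000000000000000000000000000) (nat_lit 0x0) (nat_lit 0x2000100008000000008000c00020000000000000000000) := T_16 (nat_lit 164) (nat_lit 181) (nat_lit 7) (nat_lit 10) (nat_lit 6) L28247 (by decide +kernel)
theorem L28249 : W_16 (nat_lit 2) (nat_lit 0x4001200180005000280030000800000000000000000000000) (nat_lit 0x0) (nat_lit 0x10000800040000000000000000000000000000000000000000) := D_16 (nat_lit 179) (nat_lit 196) (nat_lit 162) (nat_lit 5) (nat_lit 10) (nat_lit 7) (nat_lit 5) (nat_lit 10) (nat_lit 6) (by decide +kernel)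
theorem L28250 : W_16 (nat_lit 3) (nat_lit 0x4000200180005000280030000800000000000000000000000) (nat_lit 0x0) (nat_lit 0x10001800040000000400000000000000000000000000000000) := T_16 (nat_lit 180) (nat_lit 130) (nat_lit 6) (nat_lit 10) (nat_lit 10) L28249 (by decide +kernel)
theorem L28251 : W_16 (nat_lit 4) (nat_lit 0x4000200180005000280030000000000000000000000000000) (nat_lit 0x0) (nat_lit 0x10001800040008000400000000800000000000000000000000) := T_16 (nat_lit 95) (nat_lit 147) (nat_lit 7) (nat_lit 10) (nat_lit 5) L28250 (by decide +kernel)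
theorem L28252 : W_16 (nat_lit 5) (nat_lit 0x4000200080005000280030000000000000000000000000000) (nat_lit 0x0) (nat_lit 0x10003800140008000400000000800000000000000000000000) := T_16 (nat_lit 164) (nat_lit 181) (nat_lit 7) (nat_lit 10) (nat_lit 6) L28251 (by decide +kernel)
theorem L28253 : W_16 (nat_lit 6) (nat_lit 0x4000200080005000280010000000000000000000000000000) (nat_lit 0x0) (nat_lit 0x10003800140008000400020001800000000000000000000000) := T_16 (nat_lit 113) (nat_lit 96) (nat_lit 6) (nat_lit 10) (nat_lit 9) L28252 (by decide +kernel)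
theorem L28254 : W_16 (nat_lit 7) (nat_lit 0x4000200080005000280000000000000000000000000000000) (nat_lit 0x0) (nat_lit 0x10003800140008000400038001c000a0000000000000000000) := Q_16 (nat_lit 112) (C_16 L28241 (C_16 L28245 (C_16 L28248 (C_16 L28253 N_16)))) (by decide +kernel)
theorem L28255 : W_16 (nat_lit 2) (nat_lit 0x124007a004a0005000680000000000000000000000000000000) (nat_lit 0x0) (nat_lit 0x200008000800000000000000000000000000000000000000000) := D_16 (nat_lit 183) (nat_lit 167) (nat_lit 201) (nat_lit 2) (nat_lit 10) (nat_lit 10) (nat_lit 3) (nat_lit 10) (nat_lit 10) (by decide +kernel)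
theorem L28256 : W_16 (nat_lit 3) (nat_lit 0x24007a004a0005000680000000000000000000000000000000) (nat_lit 0x0) (nat_lit 0x380008000800000000000000000000000000000000000000000) := T_16 (nat_lit 200) (nat_lit 199) (nat_lit 3) (nat_lit 9) (nat_lit 10) L28255 (by decide +kernel)
theorem L28257 : W_16 (nat_lit 4) (nat_lit 0x24007a000a0005000680000000000000000000000000000000) (nat_lit 0x0) (nat_lit 0x380008000e00000000000000000000000000000000000000000) := T_16 (nat_lit 166) (nat_lit 165) (nat_lit 2) (nat_lit 9) (nat_lit 10) L28256 (by decide +kernel)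
theorem L28258 : W_16 (nat_lit 5) (nat_lit 0x4007a000a0005000680000000000000000000000000000000) (nat_lit 0x0) (nat_lit 0x3a0008000e00008000000000000000000000000000000000000) := T_16 (nat_lit 197) (nat_lit 147) (nat_lit 6) (nat_lit 10) (nat_lit 11) L28257 (by decide +kernel)
theorem L28259 : W_16 (nat_lit 6) (nat_lit 0x4003a000a0005000680000000000000000000000000000000) (nat_lit 0x0) (nat_lit 0x3a000c000e40008000000000000000000000000000000000000) := T_16 (nat_lit 182) (nat_lit 162) (nat_lit 0) (nat_lit 12) (nat_lit 10) L28258 (by decide +kernel)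
theorem L28260 : W_16 (nat_lit 7) (nat_lit 0x40032000a0005000680000000000000000000000000000000) (nat_lit 0x0) (nat_lit 0x3b000c800e40008000000000000000000000000000000000000) := T_16 (nat_lit 179) (nat_lit 196) (nat_lit 5) (nat_lit 10) (nat_lit 7) L28259 (by decide +kernel)
theorem L28261 : W_16 (nat_lit 8) (nat_lit 0x40032000a0005000280000000000000000000000000000000) (nat_lit 0x0) (nat_lit 0x3b000c800e40008000400020000000000000000000000000000) := T_16 (nat_lit 130) (nat_lit 113) (nat_lit 6) (nat_lit 10) (nat_lit 10) L28260 (by decide +kernel)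
theorem L28262 : W_16 (nat_lit 9) (nat_lit 0x40012000a0005000280000000000000000000000000000000) (nat_lit 0x0) (nat_lit 0x3f000e800e40008000400020000000000000000000000000000) := T_16 (nat_lit 181) (nat_lit 198) (nat_lit 7) (nat_lit 10) (nat_lit 7) L28261 (by decide +kernel)
theorem L28263 : W_16 (nat_lit 10) (nat_lit 0x4001200080005000280000000000000000000000000000000) (nat_lit 0x0) (nat_lit 0x3f000ec00e60008000400020000000000000000000000000000) := T_16 (nat_lit 161) (nat_lit 178) (nat_lit 5) (nat_lit 8) (nat_lit 7) L28262 (by decide +kernel)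
theorem L28264 : W_16 (nat_lit 2) (nat_lit 0x24003200080005000680000000000000000000000000000000) (nat_lit 0x0) (nat_lit 0x200010000800000000000000000000000000000000000000000000) := D_16 (nat_lit 196) (nat_lit 213) (nat_lit 179) (nat_lit 5) (nat_lit 10) (nat_lit 8) (nat_lit 5) (nat_lit 10) (nat_lit 7) (by decide +kernel)
theorem L28265 : W_16 (nat_lit 3) (nat_lit 0x4003200080005000680000000000000000000000000000000) (nat_lit 0x0) (nat_lit 0x200030000800000008000000000000000000000000000000000000) := T_16 (nat_lit 197) (nat_lit 147) (nat_lit 6) (nat_lit 10) (nat_lit 11) L28264 (by decide +kernel)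
theorem L28266 : W_16 (nat_lit 4) (nat_lit 0x4001200080005000680000000000000000000000000000000) (nat_lit 0x0) (nat_lit 0x200070002800000008000000000000000000000000000000000000) := T_16 (nat_lit 181) (nat_lit 198) (nat_lit 7) (nat_lit 10) (nat_lit 7) L28265 (by decide +kernel)
theorem L28267 : W_16 (nat_lit 5) (nat_lit 0x4001200080005000280000000000000000000000000000000) (nat_lit 0x0) (nat_lit 0x200070002800000008000400020000000000000000000000000000) := T_16 (nat_lit 130) (nat_lit 113) (nat_lit 6) (nat_lit 10) (nat_lit 10) L28266 (by decide +kernel)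
theorem L28268 : W_16 (nat_lit 2) (nat_lit 0x240032000a0005000680000000000000000000000000000000) (nat_lit 0x0) (nat_lit 0x200018000000000000000000000000000000000000000000000000) := D_16 (nat_lit 196) (nat_lit 213) (nat_lit 195) (nat_lit 5) (nat_lit 10) (nat_lit 8) (nat_lit 2) (nat_lit 7) (nat_lit 11) (by decide +kernel)
theorem L28269 : W_16 (nat_lit 3) (nat_lit 0x40032000a0005000680000000000000000000000000000000) (nat_lit 0x0) (nat_lit 0x200038000000000008000000000000000000000000000000000000) := T_16 (nat_lit 197) (nat_lit 147) (nat_lit 6) (nat_lit 10) (nat_lit 11) L28268 (by decide +kernel)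
theorem L28270 : W_16 (nat_lit 4) (nat_lit 0x40032000a0005000280000000000000000000000000000000) (nat_lit 0x0) (nat_lit 0x200038000000000008000400020000000000000000000000000000) := T_16 (nat_lit 130) (nat_lit 113) (nat_lit 6) (nat_lit 10) (nat_lit 10) L28269 (by decide +kernel)
theorem L28271 : W_16 (nat_lit 5) (nat_lit 0x40012000a0005000280000000000000000000000000000000) (nat_lit 0x0) (nat_lit 0x200078002000000008000400020000000000000000000000000000) := T_16 (nat_lit 181) (nat_lit 198) (nat_lit 7) (nat_lit 10) (nat_lit 7) L28270 (by decide +kernel)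
theorem L28272 : W_16 (nat_lit 6) (nat_lit 0x4001200080005000280000000000000000000000000000000) (nat_lit 0x0) (nat_lit 0x200078002400020008000400020000000000000000000000000000) := T_16 (nat_lit 161) (nat_lit 178) (nat_lit 5) (nat_lit 8) (nat_lit 7) L28271 (by decide +kernel)
theorem L28273 : W_16 (nat_lit 2) (nat_lit 0x240012000a0005000680000000000000000000000000000000) (nat_lit 0x0) (nat_lit 0x800040002000000000000000000000000000000000000000000000) := D_16 (nat_lit 198) (nat_lit 181) (nat_lit 215) (nat_lit 7) (nat_lit 10) (nat_lit 7) (nat_lit 7) (nat_lit 10) (nat_lit 8) (by decide +kernel)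
theorem L28274 : W_16 (nat_lit 3) (nat_lit 0x40012000a0005000680000000000000000000000000000000) (nat_lit 0x0) (nat_lit 0x800060002000000008000000000000000000000000000000000000) := T_16 (nat_lit 197) (nat_lit 147) (nat_lit 6) (nat_lit 10) (nat_lit 11) L28273 (by decide +kernel)
theorem L28275 : W_16 (nat_lit 4) (nat_lit 0x4001200080005000680000000000000000000000000000000) (nat_lit 0x0) (nat_lit 0x800060002400020008000000000000000000000000000000000000) := T_16 (nat_lit 161) (nat_lit 178) (nat_lit 5) (nat_lit 8) (nat_lit 7) L28274 (by decide +kernel)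
theorem L28276 : W_16 (nat_lit 5) (nat_lit 0x4001200080005000280000000000000000000000000000000) (nat_lit 0x0) (nat_lit 0x800060002400020008000400020000000000000000000000000000) := T_16 (nat_lit 130) (nat_lit 113) (nat_lit 6) (nat_lit 10) (nat_lit 10) L28275 (by decide +kernel)
theorem L28277 : W_16 (nat_lit 2) (nat_lit 0x4001a00080005000280000000000000000000000000000000) (nat_lit 0x0) (nat_lit 0x400120000000000000000000000000000000000000000) := D_16 (nat_lit 178) (nat_lit 164) (nat_lit 161) (nat_lit 2) (nat_lit 7) (nat_lit 10) (nat_lit 5) (nat_lit 8) (nat_lit 7) (by decide +kernel)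
theorem L28278 : W_16 (nat_lit 3) (nat_lit 0x4001200080005000280000000000000000000000000000000) (nat_lit 0x0) (nat_lit 0x10000c00120000000000000000000000000000000000000000) := T_16 (nat_lit 179) (nat_lit 196) (nat_lit 5) (nat_lit 10) (nat_lit 7) L28277 (by decide +kernel)
theorem L28279 : W_16 (nat_lit 11) (nat_lit 0x4000200080005000280000000000000000000000000000000) (nat_lit 0x0) (nat_lit 0xa003f800fc00f60008000400020000000000000000000000000000) := Q_16 (nat_lit 180) (C_16 L28263 (C_16 L28267 (C_16 L28272 (C_16 L28276 (C_16 L28278 N_16))))) (by decide +kernel)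
theorem L28280 : W_16 (nat_lit 2) (nat_lit 0x40002000e0005000280010001800000000000000000000000) (nat_lit 0x0) (nat_lit 0x8000400020000000000000000000) := D_16 (nat_lit 94) (nat_lit 77) (nat_lit 111) (nat_lit 4) (nat_lit 10) (nat_lit 8) (nat_lit 4) (nat_lit 10) (nat_lit 9) (by decide +kernel)
theorem L28281 : W_16 (nat_lit 3) (nat_lit 0x40002000e0005000280010001000000000000000000000000) (nat_lit 0x0) (nat_lit 0x8000c000a0000000000000000000) := T_16 (nat_lit 95) (nat_lit 79) (nat_lit 6) (nat_lit 10) (nat_lit 8) L28280 (by decide +kernel)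
theorem L28282 : W_16 (nat_lit 4) (nat_lit 0x40002000a0005000280010001000000000000000000000000) (nat_lit 0x0) (nat_lit 0x800040000000000008000c000a0000000000000000000) := T_16 (nat_lit 162) (nat_lit 179) (nat_lit 5) (nat_lit 10) (nat_lit 6) L28281 (by decide +kernel)
theorem L28283 : W_16 (nat_lit 5) (nat_lit 0x40002000a0005000280010000000000000000000000000000) (nat_lit 0x0) (nat_lit 0x800040000000000028001c000a0000000000000000000) := T_16 (nat_lit 96) (nat_lit 113) (nat_lit 6) (nat_lit 10) (nat_lit 9) L28282 (by decide +kernel)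
theorem L28284 : W_16 (nat_lit 6) (nat_lit 0x4000200080005000280010000000000000000000000000000) (nat_lit 0x0) (nat_lit 0xc00060000000000028001c000a0000000000000000000) := T_16 (nat_lit 161) (nat_lit 178) (nat_lit 5) (nat_lit 8) (nat_lit 7) L28283 (by decide +kernel)
theorem L28285 : W_16 (nat_lit 2) (nat_lit 0x4000200180005000280010000800000000000000000000000) (nat_lit 0x0) (nat_lit 0x20001000080000000000000000000) := D_16 (nat_lit 96) (nat_lit 79) (nat_lit 113) (nat_lit 6) (nat_lit 10) (nat_lit 8) (nat_lit 6) (nat_lit 10) (nat_lit 9) (by decide +kernel)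
theorem L28286 : W_16 (nat_lit 3) (nat_lit 0x4000200180005000280010000000000000000000000000000) (nat_lit 0x0) (nat_lit 0x8000000020001800080000000000000000000) := T_16 (nat_lit 95) (nat_lit 147) (nat_lit 7) (nat_lit 10) (nat_lit 5) L28285 (by decide +kernel)
theorem L28287 : W_16 (nat_lit 4) (nat_lit 0x4000200080005000280010000000000000000000000000000) (nat_lit 0x0) (nat_lit 0x2000100008000000020001800080000000000000000000) := T_16 (nat_lit 164) (nat_lit 181) (nat_lit 7) (nat_lit 10) (nat_lit 6) L28286 (by decide +kernel)
theorem L28288 : W_16 (nat_lit 2) (nat_lit 0x40002001a0005000280018000000000000000000000000000) (nat_lit 0x0) (nat_lit 0x800040000800000000000000000000000000000000000) := D_16 (nat_lit 162) (nat_lit 143) (nat_lit 179) (nat_lit 0) (nat_lit 11) (nat_lit 9) (nat_lit 5) (nat_lit 10) (nat_lit 6) (by decide +kernel)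
theorem L28289 : W_16 (nat_lit 3) (nat_lit 0x40002000a0005000280018000000000000000000000000000) (nat_lit 0x0) (nat_lit 0x2800140000800000000000000000000000000000000000) := T_16 (nat_lit 164) (nat_lit 181) (nat_lit 7) (nat_lit 10) (nat_lit 6) L28288 (by decide +kernel)
theorem L28290 : W_16 (nat_lit 4) (nat_lit 0x40002000a0005000280010000000000000000000000000000) (nat_lit 0x0) (nat_lit 0x2800140000800000008000400000000000000000000000) := T_16 (nat_lit 111) (nat_lit 94) (nat_lit 4) (nat_lit 10) (nat_lit 9) L28289 (by decide +kernel)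
theorem L28291 : W_16 (nat_lit 5) (nat_lit 0x4000200080005000280010000000000000000000000000000) (nat_lit 0x0) (nat_lit 0x2c00160000800000008000400000000000000000000000) := T_16 (nat_lit 161) (nat_lit 178) (nat_lit 5) (nat_lit 8) (nat_lit 7) L28290 (by decide +kernel)
theorem L28292 : W_16 (nat_lit 7) (nat_lit 0x4000200080005000280000000000000000000000000000000) (nat_lit 0x0) (nat_lit 0x2c00160008800000038001c000a0000000000000000000) := Q_16 (nat_lit 112) (C_16 L28248 (C_16 L28284 (C_16 L28287 (C_16 L28291 N_16)))) (by decide +kernel)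
theorem L28293 : W_16 (nat_lit 2) (nat_lit 0x40002000a0005000680030000c00000000000000000000000) (nat_lit 0x0) (nat_lit 0x8000000000000000040002000000000000000) := D_16 (nat_lit 78) (nat_lit 61) (nat_lit 147) (nat_lit 7) (nat_lit 10) (nat_lit 3) (nat_lit 7) (nat_lit 10) (nat_lit 4) (by decide +kernel)
theorem L28294 : W_16 (nat_lit 3) (nat_lit 0x40002000a0005000680030000400000000000000000000000) (nat_lit 0x0) (nat_lit 0x8000000000000800060002000000000000000) := T_16 (nat_lit 95) (nat_lit 77) (nat_lit 4) (nat_lit 10) (nat_lit 8) L28293 (by decide +kernel)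
theorem L28295 : W_16 (nat_lit 4) (nat_lit 0x40002000a0005000280030000400000000000000000000000) (nat_lit 0x0) (nat_lit 0x1000000008000400000000800060002000000000000000) := T_16 (nat_lit 130) (nat_lit 180) (nat_lit 6) (nat_lit 10) (nat_lit 10) L28294 (by decide +kernel)
theorem L28296 : W_16 (nat_lit 5) (nat_lit 0x40002000a0005000280030000000000000000000000000000) (nat_lit 0x0) (nat_lit 0x1000000008000400008000c00060002000000000000000) := T_16 (nat_lit 94) (nat_lit 111) (nat_lit 4) (nat_lit 10) (nat_lit 9) L28295 (by decide +kernel)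
theorem L28297 : W_16 (nat_lit 6) (nat_lit 0x40002000a0005000280010000000000000000000000000000) (nat_lit 0x0) (nat_lit 0x1000000008000400028001c00060002000000000000000) := T_16 (nat_lit 113) (nat_lit 96) (nat_lit 6) (nat_lit 10) (nat_lit 9) L28296 (by decide +kernel)
theorem L28298 : W_16 (nat_lit 7) (nat_lit 0x4000200080005000280010000000000000000000000000000) (nat_lit 0x0) (nat_lit 0x1400020008000400028001c00060002000000000000000) := T_16 (nat_lit 161) (nat_lit 178) (nat_lit 5) (nat_lit 8) (nat_lit 7) L28297 (by decide +kernel)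
theorem L28299 : W_16 (nat_lit 2) (nat_lit 0x4000200be000d0006800f8000000000000000000000000000) (nat_lit 0x0) (nat_lit 0x3800000000000000000000000000000000) := D_16 (nat_lit 132) (nat_lit 131) (nat_lit 133) (nat_lit 3) (nat_lit 9) (nat_lit 6) (nat_lit 3) (nat_lit 10) (nat_lit 6) (by decide +kernel)
theorem L28300 : W_16 (nat_lit 3) (nat_lit 0x4000200be000d0006800f0000000000000000000000000000) (nat_lit 0x0) (nat_lit 0x3800008000400000000000000000000000) := T_16 (nat_lit 111) (nat_lit 94) (nat_lit 4) (nat_lit 10) (nat_lit 9) L28299 (by decide +kernel)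
theorem L28301 : W_16 (nat_lit 4) (nat_lit 0x4000200be000d000680070000000000000000000000000000) (nat_lit 0x0) (nat_lit 0x3800188000400000000000000000000000) := T_16 (nat_lit 115) (nat_lit 116) (nat_lit 1) (nat_lit 14) (nat_lit 6) L28300 (by decide +kernel)
theorem L28302 : W_16 (nat_lit 5) (nat_lit 0x4000200be000d000680030000000000000000000000000000) (nat_lit 0x0) (nat_lit 0x38001c8002400000000000000000000000) := T_16 (nat_lit 114) (nat_lit 97) (nat_lit 6) (nat_lit 11) (nat_lit 9) L28301 (by decide +kernel)
theorem L28303 : W_16 (nat_lit 6) (nat_lit 0x40002003e000d000680030000000000000000000000000000) (nat_lit 0x0) (nat_lit 0xc000000038001c8002400000000000000000000000) := T_16 (nat_lit 167) (nat_lit 166) (nat_lit 0) (nat_lit 14) (nat_lit 9) L28302 (by decide +kernel)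
theorem L28304 : W_16 (nat_lit 7) (nat_lit 0x40002001e000d000680030000000000000000000000000000) (nat_lit 0x0) (nat_lit 0x4000e000000038001c8002400000000000000000000000) := T_16 (nat_lit 165) (nat_lit 182) (nat_lit 7) (nat_lit 11) (nat_lit 6) L28303 (by decide +kernel)
theorem L28305 : W_16 (nat_lit 8) (nat_lit 0x40002001e0005000680030000000000000000000000000000) (nat_lit 0x0) (nat_lit 0x4000e000180038001c8002400000000000000000000000) := T_16 (nat_lit 147) (nat_lit 148) (nat_lit 2) (nat_lit 8) (nat_lit 9) L28304 (by decide +kernel)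
theorem L28306 : W_16 (nat_lit 9) (nat_lit 0x40002001e0005000280030000000000000000000000000000) (nat_lit 0x0) (nat_lit 0x5000e00018003c001c8002400000000000000000000000) := T_16 (nat_lit 130) (nat_lit 180) (nat_lit 6) (nat_lit 10) (nat_lit 10) L28305 (by decide +kernel)
theorem L28307 : W_16 (nat_lit 10) (nat_lit 0x40002001a0005000280030000000000000000000000000000) (nat_lit 0x0) (nat_lit 0x5000e40018803c001c8002400000000000000000000000) := T_16 (nat_lit 162) (nat_lit 143) (nat_lit 0) (nat_lit 11) (nat_lit 9) L28306 (by decide +kernel)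
theorem L28308 : W_16 (nat_lit 11) (nat_lit 0x4000200180005000280030000000000000000000000000000) (nat_lit 0x0) (nat_lit 0x5400e60018803c001c8002400000000000000000000000) := T_16 (nat_lit 161) (nat_lit 178) (nat_lit 5) (nat_lit 8) (nat_lit 7) L28307 (by decide +kernel)
theorem L28309 : W_16 (nat_lit 12) (nat_lit 0x4000200180005000280010000000000000000000000000000) (nat_lit 0x0) (nat_lit 0x5400e60018803c001e8003400000000000000000000000) := T_16 (nat_lit 113) (nat_lit 96) (nat_lit 6) (nat_lit 10) (nat_lit 9) L28308 (by decide +kernel)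
theorem L28310 : W_16 (nat_lit 13) (nat_lit 0x4000200080005000280010000000000000000000000000000) (nat_lit 0x0) (nat_lit 0x7400f60018803c001e8003400000000000000000000000) := T_16 (nat_lit 164) (nat_lit 181) (nat_lit 7) (nat_lit 10) (nat_lit 6) L28309 (by decide +kernel)
theorem L28311 : W_16 (nat_lit 2) (nat_lit 0x40032000a0005000280018000000000000000000000000000) (nat_lit 0x0) (nat_lit 0x400020001000000000000000000000000) := D_16 (nat_lit 113) (nat_lit 130) (nat_lit 96) (nat_lit 6) (nat_lit 10) (nat_lit 10) (nat_lit 6) (nat_lit 10) (nat_lit 9) (by decide +kernel)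
theorem L28312 : W_16 (nat_lit 3) (nat_lit 0x40022000a0005000280018000000000000000000000000000) (nat_lit 0x0) (nat_lit 0x40001000000000000400020001000000000000000000000000) := T_16 (nat_lit 180) (nat_lit 198) (nat_lit 7) (nat_lit 10) (nat_lit 7) L28311 (by decide +kernel)
theorem L28313 : W_16 (nat_lit 4) (nat_lit 0x4002200080005000280018000000000000000000000000000) (nat_lit 0x0) (nat_lit 0x40001400020000000400020001000000000000000000000000) := T_16 (nat_lit 161) (nat_lit 178) (nat_lit 5) (nat_lit 8) (nat_lit 7) L28312 (by decide +kernel)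
theorem L28314 : W_16 (nat_lit 5) (nat_lit 0x4000200080005000280018000000000000000000000000000) (nat_lit 0x0) (nat_lit 0x40003400120000000400020001000000000000000000000000) := T_16 (nat_lit 181) (nat_lit 164) (nat_lit 7) (nat_lit 10) (nat_lit 6) L28313 (by decide +kernel)
theorem L28315 : W_16 (nat_lit 6) (nat_lit 0x4000200080005000280010000000000000000000000000000) (nat_lit 0x0) (nat_lit 0x40003400120000000400028001400000000000000000000000) := T_16 (nat_lit 111) (nat_lit 94) (nat_lit 4) (nat_lit 10) (nat_lit 9) L28314 (by decide +kernel)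
theorem L28316 : W_16 (nat_lit 14) (nat_lit 0x4000200080005000280000000000000000000000000000000) (nat_lit 0x0) (nat_lit 0x40007400f60018803c001f8003c000e0002000000000000000) := Q_16 (nat_lit 112) (C_16 L28287 (C_16 L28298 (C_16 L28248 (C_16 L28310 (C_16 L28315 N_16))))) (by decide +kernel)
theorem L28317 : W_16 (nat_lit 2) (nat_lit 0x4001a000a000d000680010000400000000000000000000000) (nat_lit 0x0) (nat_lit 0x800060000000000000000000) := D_16 (nat_lit 95) (nat_lit 77) (nat_lit 78) (nat_lit 4) (nat_lit 10) (nat_lit 8) (nat_lit 7) (nat_lit 10) (nat_lit 4) (by decide +kernel)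
theorem L28318 : W_16 (nat_lit 3) (nat_lit 0x4001a000a0005000680010000400000000000000000000000) (nat_lit 0x0) (nat_lit 0x20000000000008000000000000800060000000000000000000) := T_16 (nat_lit 147) (nat_lit 197) (nat_lit 6) (nat_lit 10) (nat_lit 11) L28317 (by decide +kernel)
theorem L28319 : W_16 (nat_lit 4) (nat_lit 0x4001a000a0005000680010000000000000000000000000000) (nat_lit 0x0) (nat_lit 0x20000000000008000000008000c00060000000000000000000) := T_16 (nat_lit 94) (nat_lit 111) (nat_lit 4) (nat_lit 10) (nat_lit 9) L28318 (by decide +kernel)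
theorem L28320 : W_16 (nat_lit 5) (nat_lit 0x4001a000a0005000680000000000000000000000000000000) (nat_lit 0x0) (nat_lit 0x20000000040008000000018000c00060000000000000000000) := T_16 (nat_lit 112) (nat_lit 162) (nat_lit 5) (nat_lit 10) (nat_lit 6) L28319 (by decide +kernel)
theorem L28321 : W_16 (nat_lit 6) (nat_lit 0x40012000a0005000680000000000000000000000000000000) (nat_lit 0x0) (nat_lit 0x30000800040008000000018000c00060000000000000000000) := T_16 (nat_lit 179) (nat_lit 196) (nat_lit 5) (nat_lit 10) (nat_lit 7) L28320 (by decide +kernel)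
theorem L28322 : W_16 (nat_lit 7) (nat_lit 0x40012000a0005000280000000000000000000000000000000) (nat_lit 0x0) (nat_lit 0x30000800040008000400038000c00060000000000000000000) := T_16 (nat_lit 130) (nat_lit 113) (nat_lit 6) (nat_lit 10) (nat_lit 10) L28321 (by decide +kernel)
theorem L28323 : W_16 (nat_lit 8) (nat_lit 0x4001200080005000280000000000000000000000000000000) (nat_lit 0x0) (nat_lit 0x30000c00060008000400038000c00060000000000000000000) := T_16 (nat_lit 161) (nat_lit 178) (nat_lit 5) (nat_lit 8) (nat_lit 7) L28322 (by decide +kernel)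
theorem L28324 : W_16 (nat_lit 2) (nat_lit 0x4003a000a0005000280000000000000000000000000000000) (nat_lit 0x0) (nat_lit 0x4000040000000000010000000000000000000000000000) := D_16 (nat_lit 162) (nat_lit 112) (nat_lit 182) (nat_lit 5) (nat_lit 10) (nat_lit 6) (nat_lit 0) (nat_lit 12) (nat_lit 10) (by decide +kernel)
theorem L28325 : W_16 (nat_lit 3) (nat_lit 0x40032000a0005000280000000000000000000000000000000) (nat_lit 0x0) (nat_lit 0x10004800040000000000010000000000000000000000000000) := T_16 (nat_lit 179) (nat_lit 196) (nat_lit 5) (nat_lit 10) (nat_lit 7) L28324 (by decide +kernel)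
theorem L28326 : W_16 (nat_lit 4) (nat_lit 0x4003200080005000280000000000000000000000000000000) (nat_lit 0x0) (nat_lit 0x10004c00060000000000010000000000000000000000000000) := T_16 (nat_lit 161) (nat_lit 178) (nat_lit 5) (nat_lit 8) (nat_lit 7) L28325 (by decide +kernel)
theorem L28327 : W_16 (nat_lit 5) (nat_lit 0x4001200080005000280000000000000000000000000000000) (nat_lit 0x0) (nat_lit 0x50006c00060000000000010000000000000000000000000000) := T_16 (nat_lit 181) (nat_lit 198) (nat_lit 7) (nat_lit 10) (nat_lit 7) L28326 (by decide +kernel)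
theorem L28328 : W_16 (nat_lit 9) (nat_lit 0x4000200080005000280000000000000000000000000000000) (nat_lit 0x0) (nat_lit 0xa00070007c00060008000400038000c00060000000000000000000) := Q_16 (nat_lit 180) (C_16 L28276 (C_16 L28267 (C_16 L28323 (C_16 L28327 N_16)))) (by decide +kernel)
theorem L28329 : W_16 (nat_lit 2) (nat_lit 0x40002001e0005000280010000000000000000000000000000) (nat_lit 0x0) (nat_lit 0x18000000000000800000000000000000000000) := D_16 (nat_lit 147) (nat_lit 148) (nat_lit 95) (nat_lit 2) (nat_lit 8) (nat_lit 9) (nat_lit 7) (nat_lit 10) (nat_lit 5) (by decide +kernel)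
theorem L28330 : W_16 (nat_lit 3) (nat_lit 0x40002000e0005000280010000000000000000000000000000) (nat_lit 0x0) (nat_lit 0x100018800000000000800000000000000000000000) := T_16 (nat_lit 164) (nat_lit 143) (nat_lit 0) (nat_lit 11) (nat_lit 9) L28329 (by decide +kernel)
theorem L28331 : W_16 (nat_lit 4) (nat_lit 0x40002000a0005000280010000000000000000000000000000) (nat_lit 0x0) (nat_lit 0x800140018800000000000800000000000000000000000) := T_16 (nat_lit 162) (nat_lit 179) (nat_lit 5) (nat_lit 10) (nat_lit 6) L28330 (by decide +kernel)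
theorem L28332 : W_16 (nat_lit 5) (nat_lit 0x4000200080005000280010000000000000000000000000000) (nat_lit 0x0) (nat_lit 0xc00160018800000000000800000000000000000000000) := T_16 (nat_lit 161) (nat_lit 178) (nat_lit 5) (nat_lit 8) (nat_lit 7) L28331 (by decide +kernel)
theorem L28333 : W_16 (nat_lit 8) (nat_lit 0x4000200080005000280000000000000000000000000000000) (nat_lit 0x0) (nat_lit 0x10001c00160018800400038001c00060002000000000000000) := Q_16 (nat_lit 112) (C_16 L28298 (C_16 L28245 (C_16 L28332 N_16))) (by decide +kernel)
theorem L28334 : W_16 (nat_lit 3) (nat_lit 0x40032000a0005000280000000000000000000000000000000) (nat_lit 0x0) (nat_lit 0x4000140000800000010000000000000000000000000000) := T_16 (nat_lit 164) (nat_lit 112) (nat_lit 7) (nat_lit 10) (nat_lit 6) L25584 (by decide +kernel)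
theorem L28335 : W_16 (nat_lit 4) (nat_lit 0x40012000a0005000280000000000000000000000000000000) (nat_lit 0x0) (nat_lit 0x40006000140000800000010000000000000000000000000000) := T_16 (nat_lit 181) (nat_lit 198) (nat_lit 7) (nat_lit 10) (nat_lit 7) L28334 (by decide +kernel)
theorem L28336 : W_16 (nat_lit 5) (nat_lit 0x4001200080005000280000000000000000000000000000000) (nat_lit 0x0) (nat_lit 0x40006400160000800000010000000000000000000000000000) := T_16 (nat_lit 161) (nat_lit 178) (nat_lit 5) (nat_lit 8) (nat_lit 7) L28335 (by decide +kernel)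
theorem L28337 : W_16 (nat_lit 6) (nat_lit 0x4000200080005000280000000000000000000000000000000) (nat_lit 0x0) (nat_lit 0x50007c00160000800000010000000000000000000000000000) := Q_16 (nat_lit 180) (C_16 L28327 (C_16 L25548 (C_16 L28336 (C_16 L28278 N_16)))) (by decide +kernel)
theorem L28338 : W_16 (nat_lit 8) (nat_lit 0x4000200080005000280000000000000000000000000000000) (nat_lit 0x0) (nat_lit 0x40003400120008000400038001c000e0002000000000000000) := Q_16 (nat_lit 112) (C_16 L28315 (C_16 L28287 (C_16 L28248 (C_16 L28298 N_16)))) (by decide +kernel)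
theorem L28339 : W_16 (nat_lit 15) (nat_lit 0x4000200080001000280000000000000000000000000000000) (nat_lit 0x0) (nat_lit 0xa003f800fc00f6001c803c001f8003c000e0002000000000000000) := Q_16 (nat_lit 146) (C_16 L28254 (C_16 L28279 (C_16 L28292 (C_16 L28316 (C_16 L28328 (C_16 L28333 (C_16 L28337 (C_16 L28338 N_16)))))))) (by decide +kernel)
theorem L28340 : W_16 (nat_lit 2) (nat_lit 0x40002000d00050002800f8004000000000000000000000000) (nat_lit 0x0) (nat_lit 0x3800000000000000000000000000000000) := D_16 (nat_lit 132) (nat_lit 131) (nat_lit 133) (nat_lit 3) (nat_lit 9) (nat_lit 6) (nat_lit 3) (nat_lit 10) (nat_lit 6) (by decide +kernel)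
theorem L28341 : W_16 (nat_lit 3) (nat_lit 0x40002000d0005000280078004000000000000000000000000) (nat_lit 0x0) (nat_lit 0x3800080008000000000000000000000000) := T_16 (nat_lit 115) (nat_lit 99) (nat_lit 2) (nat_lit 10) (nat_lit 6) L28340 (by decide +kernel)
theorem L28342 : W_16 (nat_lit 4) (nat_lit 0x4000200090005000280078004000000000000000000000000) (nat_lit 0x0) (nat_lit 0x800040000003800080008000000000000000000000000) := T_16 (nat_lit 162) (nat_lit 179) (nat_lit 5) (nat_lit 10) (nat_lit 6) L28341 (by decide +kernel)
theorem L28343 : W_16 (nat_lit 5) (nat_lit 0x4000200090005000280078000000000000000000000000000) (nat_lit 0x0) (nat_lit 0x80004000000380008000e000000000000000000000000) := T_16 (nat_lit 98) (nat_lit 97) (nat_lit 2) (nat_lit 9) (nat_lit 6) L28342 (by decide +kernel)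
theorem L28344 : W_16 (nat_lit 6) (nat_lit 0x4000200080005000280078000000000000000000000000000) (nat_lit 0x0) (nat_lit 0x80005000080380008000e000000000000000000000000) := T_16 (nat_lit 160) (nat_lit 143) (nat_lit 6) (nat_lit 7) (nat_lit 11) L28343 (by decide +kernel)
theorem L28345 : W_16 (nat_lit 2) (nat_lit 0x400020019000d000280078002000000000000000000000000) (nat_lit 0x0) (nat_lit 0x10001800000000000000000000000000000000) := D_16 (nat_lit 131) (nat_lit 148) (nat_lit 132) (nat_lit 5) (nat_lit 12) (nat_lit 5) (nat_lit 3) (nat_lit 9) (nat_lit 6) (by decide +kernel)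
theorem L28346 : W_16 (nat_lit 3) (nat_lit 0x4000200190005000280078002000000000000000000000000) (nat_lit 0x0) (nat_lit 0x18001c00000000000000000000000000000000) := T_16 (nat_lit 147) (nat_lit 130) (nat_lit 6) (nat_lit 11) (nat_lit 9) L28345 (by decide +kernel)
theorem L28347 : W_16 (nat_lit 4) (nat_lit 0x4000200090005000280078002000000000000000000000000) (nat_lit 0x0) (nat_lit 0x2000100018001c00000000000000000000000000000000) := T_16 (nat_lit 164) (nat_lit 181) (nat_lit 7) (nat_lit 10) (nat_lit 6) L28346 (by decide +kernel)
theorem L28348 : W_16 (nat_lit 5) (nat_lit 0x4000200080005000280078002000000000000000000000000) (nat_lit 0x0) (nat_lit 0x2000110018801c00000000000000000000000000000000) := T_16 (nat_lit 160) (nat_lit 143) (nat_lit 6) (nat_lit 7) (nat_lit 11) L28347 (by decide +kernel)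
theorem L28349 : W_16 (nat_lit 6) (nat_lit 0x4000200080005000280078000000000000000000000000000) (nat_lit 0x0) (nat_lit 0x2000110018801c00000006000000000000000000000000) := T_16 (nat_lit 97) (nat_lit 98) (nat_lit 2) (nat_lit 9) (nat_lit 6) L28348 (by decide +kernel)
theorem L28350 : W_16 (nat_lit 2) (nat_lit 0x40002001c0005000a80078002000000000000000000000000) (nat_lit 0x0) (nat_lit 0x18000400000000000000000000000000000000) := D_16 (nat_lit 147) (nat_lit 130) (nat_lit 148) (nat_lit 6) (nat_lit 11) (nat_lit 9) (nat_lit 5) (nat_lit 12) (nat_lit 5) (by decide +kernel)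
theorem L28351 : W_16 (nat_lit 3) (nat_lit 0x40002000c0005000a80078002000000000000000000000000) (nat_lit 0x0) (nat_lit 0x2000100018000400000000000000000000000000000000) := T_16 (nat_lit 164) (nat_lit 181) (nat_lit 7) (nat_lit 10) (nat_lit 6) L28350 (by decide +kernel)
theorem L28352 : W_16 (nat_lit 4) (nat_lit 0x4000200080005000a80078002000000000000000000000000) (nat_lit 0x0) (nat_lit 0x2800140018000400000000000000000000000000000000) := T_16 (nat_lit 162) (nat_lit 179) (nat_lit 5) (nat_lit 10) (nat_lit 6) L28351 (by decide +kernel)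
theorem L28353 : W_16 (nat_lit 5) (nat_lit 0x4000200080005000a80078000000000000000000000000000) (nat_lit 0x0) (nat_lit 0x2800140018000400000006000000000000000000000000) := T_16 (nat_lit 97) (nat_lit 98) (nat_lit 2) (nat_lit 9) (nat_lit 6) L28352 (by decide +kernel)
theorem L28354 : W_16 (nat_lit 6) (nat_lit 0x4000200080005000280078000000000000000000000000000) (nat_lit 0x0) (nat_lit 0x2800140018001c00000006000000000000000000000000) := T_16 (nat_lit 131) (nat_lit 132) (nat_lit 3) (nat_lit 9) (nat_lit 6) L28353 (by decide +kernel)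
theorem L28355 : W_16 (nat_lit 2) (nat_lit 0x40002001d00050002801f8004000000000000000000000000) (nat_lit 0x0) (nat_lit 0x7000000000000000000000000000000000) := D_16 (nat_lit 133) (nat_lit 132) (nat_lit 134) (nat_lit 3) (nat_lit 10) (nat_lit 6) (nat_lit 3) (nat_lit 11) (nat_lit 6) (by decide +kernel)
theorem L28356 : W_16 (nat_lit 3) (nat_lit 0x40002001d00050002800f8004000000000000000000000000) (nat_lit 0x0) (nat_lit 0x7400100000000000000000000000000000) := T_16 (nat_lit 116) (nat_lit 130) (nat_lit 1) (nat_lit 14) (nat_lit 6) L28355 (by decide +kernel)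
theorem L28357 : W_16 (nat_lit 4) (nat_lit 0x40002001d0005000280078004000000000000000000000000) (nat_lit 0x0) (nat_lit 0x7400180008000000000000000000000000) := T_16 (nat_lit 115) (nat_lit 99) (nat_lit 2) (nat_lit 10) (nat_lit 6) L28356 (by decide +kernel)
theorem L28358 : W_16 (nat_lit 5) (nat_lit 0x4000200190005000280078004000000000000000000000000) (nat_lit 0x0) (nat_lit 0x800040000007400180008000000000000000000000000) := T_16 (nat_lit 162) (nat_lit 179) (nat_lit 5) (nat_lit 10) (nat_lit 6) L28357 (by decide +kernel)
theorem L28359 : W_16 (nat_lit 6) (nat_lit 0x4000200190005000280078000000000000000000000000000) (nat_lit 0x0) (nat_lit 0x80004000000740018000e000000000000000000000000) := T_16 (nat_lit 98) (nat_lit 97) (nat_lit 2) (nat_lit 9) (nat_lit 6) L28358 (by decide +kernel)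
theorem L28360 : W_16 (nat_lit 7) (nat_lit 0x4000200180005000280078000000000000000000000000000) (nat_lit 0x0) (nat_lit 0x80005000080740018000e000000000000000000000000) := T_16 (nat_lit 160) (nat_lit 143) (nat_lit 6) (nat_lit 7) (nat_lit 11) L28359 (by decide +kernel)
theorem L28361 : W_16 (nat_lit 8) (nat_lit 0x4000200080005000280078000000000000000000000000000) (nat_lit 0x0) (nat_lit 0x280015000080740018000e000000000000000000000000) := T_16 (nat_lit 164) (nat_lit 181) (nat_lit 7) (nat_lit 10) (nat_lit 6) L28360 (by decide +kernel)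
theorem L28362 : W_16 (nat_lit 2) (nat_lit 0x400020018001d000280078002000000000000000000000000) (nat_lit 0x0) (nat_lit 0x800040020000000000000000000000000000000000000) := D_16 (nat_lit 162) (nat_lit 179) (nat_lit 149) (nat_lit 5) (nat_lit 10) (nat_lit 6) (nat_lit 1) (nat_lit 13) (nat_lit 8) (by decide +kernel)
theorem L28363 : W_16 (nat_lit 3) (nat_lit 0x400020018000d000280078002000000000000000000000000) (nat_lit 0x0) (nat_lit 0x800040030000800000000000000000000000000000000) := T_16 (nat_lit 148) (nat_lit 131) (nat_lit 5) (nat_lit 12) (nat_lit 5) L28362 (by decide +kernel)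
theorem L28364 : W_16 (nat_lit 4) (nat_lit 0x4000200180005000280078002000000000000000000000000) (nat_lit 0x0) (nat_lit 0x800040038000c00000000000000000000000000000000) := T_16 (nat_lit 147) (nat_lit 130) (nat_lit 6) (nat_lit 11) (nat_lit 9) L28363 (by decide +kernel)
theorem L28365 : W_16 (nat_lit 5) (nat_lit 0x4000200080005000280078002000000000000000000000000) (nat_lit 0x0) (nat_lit 0x2800140038000c00000000000000000000000000000000) := T_16 (nat_lit 164) (nat_lit 181) (nat_lit 7) (nat_lit 10) (nat_lit 6) L28364 (by decide +kernel)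
theorem L28366 : W_16 (nat_lit 6) (nat_lit 0x4000200080005000280078000000000000000000000000000) (nat_lit 0x0) (nat_lit 0x2800140038000c00000006000000000000000000000000) := T_16 (nat_lit 97) (nat_lit 98) (nat_lit 2) (nat_lit 9) (nat_lit 6) L28365 (by decide +kernel)
theorem L28367 : W_16 (nat_lit 2) (nat_lit 0x40002001d00250012801f8008000000000000000000000000) (nat_lit 0x0) (nat_lit 0x200018000000000000000000000000000000000000) := D_16 (nat_lit 148) (nat_lit 165) (nat_lit 147) (nat_lit 2) (nat_lit 9) (nat_lit 9) (nat_lit 1) (nat_lit 13) (nat_lit 8) (by decide +kernel)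
theorem L28368 : W_16 (nat_lit 3) (nat_lit 0x40002001d00050012801f8008000000000000000000000000) (nat_lit 0x0) (nat_lit 0x600038000000000000000000000000000000000000) := T_16 (nat_lit 149) (nat_lit 166) (nat_lit 6) (nat_lit 13) (nat_lit 9) L28367 (by decide +kernel)
theorem L28369 : W_16 (nat_lit 4) (nat_lit 0x40002001d00050012801f8000000000000000000000000000) (nat_lit 0x0) (nat_lit 0x600038000000000018000000000000000000000000) := T_16 (nat_lit 99) (nat_lit 100) (nat_lit 2) (nat_lit 11) (nat_lit 6) L28368 (by decide +kernel)
theorem L28370 : W_16 (nat_lit 5) (nat_lit 0x40002001900050012801f8000000000000000000000000000) (nat_lit 0x0) (nat_lit 0x800640038000000000018000000000000000000000000) := T_16 (nat_lit 162) (nat_lit 179) (nat_lit 5) (nat_lit 10) (nat_lit 6) L28369 (by decide +kernel)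
theorem L28371 : W_16 (nat_lit 6) (nat_lit 0x40002001900050012800f8000000000000000000000000000) (nat_lit 0x0) (nat_lit 0x800640038000400100018000000000000000000000000) := T_16 (nat_lit 116) (nat_lit 130) (nat_lit 1) (nat_lit 14) (nat_lit 6) L28370 (by decide +kernel)
theorem L28372 : W_16 (nat_lit 7) (nat_lit 0x4000200190005001280078000000000000000000000000000) (nat_lit 0x0) (nat_lit 0x800640038002400180018000000000000000000000000) := T_16 (nat_lit 115) (nat_lit 133) (nat_lit 3) (nat_lit 10) (nat_lit 6) L28371 (by decide +kernel)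
theorem L28373 : W_16 (nat_lit 8) (nat_lit 0x4000200090005001280078000000000000000000000000000) (nat_lit 0x0) (nat_lit 0x2800740038002400180018000000000000000000000000) := T_16 (nat_lit 164) (nat_lit 181) (nat_lit 7) (nat_lit 10) (nat_lit 6) L28372 (by decide +kernel)
theorem L28374 : W_16 (nat_lit 9) (nat_lit 0x4000200090005000280078000000000000000000000000000) (nat_lit 0x0) (nat_lit 0x2800740038003c00180018000000000000000000000000) := T_16 (nat_lit 132) (nat_lit 131) (nat_lit 3) (nat_lit 9) (nat_lit 6) L28373 (by decide +kernel)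
theorem L28375 : W_16 (nat_lit 10) (nat_lit 0x4000200080005000280078000000000000000000000000000) (nat_lit 0x0) (nat_lit 0x2800750038803c00180018000000000000000000000000) := T_16 (nat_lit 160) (nat_lit 143) (nat_lit 6) (nat_lit 7) (nat_lit 11) L28374 (by decide +kernel)
theorem L28376 : W_16 (nat_lit 11) (nat_lit 0x4000200080005000280038000000000000000000000000000) (nat_lit 0x0) (nat_lit 0x2800750038807c001c001e000000000000000000000000) := Q_16 (nat_lit 114) (C_16 L28344 (C_16 L28349 (C_16 L28354 (C_16 L28361 (C_16 L28366 (C_16 L28375 N_16)))))) (by decide +kernel)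
theorem L28377 : W_16 (nat_lit 12) (nat_lit 0x4000200080005000280018000000000000000000000000000) (nat_lit 0x0) (nat_lit 0x2800750038807c001e001f000000000000000000000000) := T_16 (nat_lit 113) (nat_lit 96) (nat_lit 6) (nat_lit 10) (nat_lit 9) L28376 (by decide +kernel)
theorem L28378 : W_16 (nat_lit 13) (nat_lit 0x4000200080005000280010000000000000000000000000000) (nat_lit 0x0) (nat_lit 0x2800750038807c001e801f400000000000000000000000) := T_16 (nat_lit 111) (nat_lit 94) (nat_lit 4) (nat_lit 10) (nat_lit 9) L28377 (by decide +kernel)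
theorem L28379 : W_16 (nat_lit 2) (nat_lit 0x4000200180005000280018001000000000000000000000000) (nat_lit 0x0) (nat_lit 0x8000000000000800080000000000000000000) := D_16 (nat_lit 95) (nat_lit 147) (nat_lit 79) (nat_lit 7) (nat_lit 10) (nat_lit 5) (nat_lit 6) (nat_lit 10) (nat_lit 8) (by decide +kernel)
theorem L28380 : W_16 (nat_lit 3) (nat_lit 0x4000200080005000280018001000000000000000000000000) (nat_lit 0x0) (nat_lit 0x2000100008000000000000800080000000000000000000) := T_16 (nat_lit 164) (nat_lit 181) (nat_lit 7) (nat_lit 10) (nat_lit 6) L28379 (by decide +kernel)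
theorem L28381 : W_16 (nat_lit 4) (nat_lit 0x4000200080005000280018000000000000000000000000000) (nat_lit 0x0) (nat_lit 0x2000100008000000020001800080000000000000000000) := T_16 (nat_lit 96) (nat_lit 113) (nat_lit 6) (nat_lit 10) (nat_lit 9) L28380 (by decide +kernel)
theorem L28382 : W_16 (nat_lit 5) (nat_lit 0x4000200080005000280010000000000000000000000000000) (nat_lit 0x0) (nat_lit 0x2000100008000000028001c00080000000000000000000) := T_16 (nat_lit 111) (nat_lit 94) (nat_lit 4) (nat_lit 10) (nat_lit 9) L28381 (by decide +kernel)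
theorem L28383 : W_16 (nat_lit 2) (nat_lit 0x4000200080005000280010001400000000000000000000000) (nat_lit 0x0) (nat_lit 0x8000a0000000000000000000) := D_16 (nat_lit 95) (nat_lit 77) (nat_lit 79) (nat_lit 4) (nat_lit 10) (nat_lit 8) (nat_lit 6) (nat_lit 10) (nat_lit 8) (by decide +kernel)
theorem L28384 : W_16 (nat_lit 3) (nat_lit 0x4000200080005000280010000400000000000000000000000) (nat_lit 0x0) (nat_lit 0x200018000a0000000000000000000) := T_16 (nat_lit 96) (nat_lit 113) (nat_lit 6) (nat_lit 10) (nat_lit 9) L28383 (by decide +kernel)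
theorem L28385 : W_16 (nat_lit 4) (nat_lit 0x4000200080005000280010000000000000000000000000000) (nat_lit 0x0) (nat_lit 0x28001c000a0000000000000000000) := T_16 (nat_lit 94) (nat_lit 111) (nat_lit 4) (nat_lit 10) (nat_lit 9) L28384 (by decide +kernel)
theorem L28386 : W_16 (nat_lit 2) (nat_lit 0x40002001d0005000280030000800060002000000000000000) (nat_lit 0x0) (nat_lit 0x80004000200000000000) := D_16 (nat_lit 62) (nat_lit 45) (nat_lit 79) (nat_lit 6) (nat_lit 10) (nat_lit 6) (nat_lit 6) (nat_lit 10) (nat_lit 7) (by decide +kernel)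
theorem L28387 : W_16 (nat_lit 3) (nat_lit 0x40002001d0005000280030000800060000000000000000000) (nat_lit 0x0) (nat_lit 0x400000000000080006000200000000000) := T_16 (nat_lit 61) (nat_lit 130) (nat_lit 7) (nat_lit 10) (nat_lit 3) L28386 (by decide +kernel)
theorem L28388 : W_16 (nat_lit 4) (nat_lit 0x40002001c0005000280030000800060000000000000000000) (nat_lit 0x0) (nat_lit 0x10000800400000000000080006000200000000000) := T_16 (nat_lit 160) (nat_lit 143) (nat_lit 6) (nat_lit 7) (nat_lit 11) L28387 (by decide +kernel)
theorem L28389 : W_16 (nat_lit 5) (nat_lit 0x40002001c0005000280030000800020000000000000000000) (nat_lit 0x0) (nat_lit 0x100008004000000000000c0007000200000000000) := T_16 (nat_lit 78) (nat_lit 60) (nat_lit 4) (nat_lit 10) (nat_lit 7) L28388 (by decide +kernel)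
theorem L28390 : W_16 (nat_lit 6) (nat_lit 0x4000200180005000280030000800020000000000000000000) (nat_lit 0x0) (nat_lit 0x8000500008004000000000000c0007000200000000000) := T_16 (nat_lit 162) (nat_lit 179) (nat_lit 5) (nat_lit 10) (nat_lit 6) L28389 (by decide +kernel)
theorem L28391 : W_16 (nat_lit 7) (nat_lit 0x4000200180005000280030000800000000000000000000000) (nat_lit 0x0) (nat_lit 0x8000500008004000000004000e0007000200000000000) := T_16 (nat_lit 77) (nat_lit 94) (nat_lit 4) (nat_lit 10) (nat_lit 8) L28390 (by decide +kernel)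
theorem L28392 : W_16 (nat_lit 8) (nat_lit 0x4000200180005000280030000000000000000000000000000) (nat_lit 0x0) (nat_lit 0x800050008800400000000c000e0007000200000000000) := T_16 (nat_lit 95) (nat_lit 147) (nat_lit 7) (nat_lit 10) (nat_lit 5) L28391 (by decide +kernel)
theorem L28393 : W_16 (nat_lit 9) (nat_lit 0x4000200080005000280030000000000000000000000000000) (nat_lit 0x0) (nat_lit 0x2800150008800400000000c000e0007000200000000000) := T_16 (nat_lit 164) (nat_lit 181) (nat_lit 7) (nat_lit 10) (nat_lit 6) L28392 (by decide +kernel)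
theorem L28394 : W_16 (nat_lit 10) (nat_lit 0x4000200080005000280010000000000000000000000000000) (nat_lit 0x0) (nat_lit 0x2800150008800400020001c000e0007000200000000000) := T_16 (nat_lit 113) (nat_lit 96) (nat_lit 6) (nat_lit 10) (nat_lit 9) L28393 (by decide +kernel)
theorem L28395 : W_16 (nat_lit 2) (nat_lit 0x40002001c0005000280010001000000000000000000000000) (nat_lit 0x0) (nat_lit 0x8000000000000800080000000000000000000) := D_16 (nat_lit 95) (nat_lit 147) (nat_lit 79) (nat_lit 7) (nat_lit 10) (nat_lit 5) (nat_lit 6) (nat_lit 10) (nat_lit 8) (by decide +kernel)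
theorem L28396 : W_16 (nat_lit 3) (nat_lit 0x40002000c0005000280010001000000000000000000000000) (nat_lit 0x0) (nat_lit 0x2000100008000000000000800080000000000000000000) := T_16 (nat_lit 164) (nat_lit 181) (nat_lit 7) (nat_lit 10) (nat_lit 6) L28395 (by decide +kernel)
theorem L28397 : W_16 (nat_lit 4) (nat_lit 0x40002000c0005000280010000000000000000000000000000) (nat_lit 0x0) (nat_lit 0x2000100008000000020001800080000000000000000000) := T_16 (nat_lit 96) (nat_lit 113) (nat_lit 6) (nat_lit 10) (nat_lit 9) L28396 (by decide +kernel)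
theorem L28398 : W_16 (nat_lit 5) (nat_lit 0x4000200080005000280010000000000000000000000000000) (nat_lit 0x0) (nat_lit 0x2800140008000000020001800080000000000000000000) := T_16 (nat_lit 162) (nat_lit 179) (nat_lit 5) (nat_lit 10) (nat_lit 6) L28397 (by decide +kernel)
theorem L28399 : W_16 (nat_lit 14) (nat_lit 0x4000200080005000280000000000000000000000000000000) (nat_lit 0x0) (nat_lit 0x2800750038807c001f801fc000e0007000200000000000) := Q_16 (nat_lit 112) (C_16 L28378 (C_16 L28382 (C_16 L28248 (C_16 L28385 (C_16 L28394 (C_16 L28398 N_16)))))) (by decide +kernel)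
theorem L28400 : W_16 (nat_lit 2) (nat_lit 0x4000200190005000280010000800000000000000000000000) (nat_lit 0x0) (nat_lit 0x20001000080000000000000000000) := D_16 (nat_lit 96) (nat_lit 79) (nat_lit 113) (nat_lit 6) (nat_lit 10) (nat_lit 8) (nat_lit 6) (nat_lit 10) (nat_lit 9) (by decide +kernel)
theorem L28401 : W_16 (nat_lit 3) (nat_lit 0x4000200190005000280010000000000000000000000000000) (nat_lit 0x0) (nat_lit 0x8000000020001800080000000000000000000) := T_16 (nat_lit 95) (nat_lit 147) (nat_lit 7) (nat_lit 10) (nat_lit 5) L28400 (by decide +kernel)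
theorem L28402 : W_16 (nat_lit 4) (nat_lit 0x4000200090005000280010000000000000000000000000000) (nat_lit 0x0) (nat_lit 0x2000100008000000020001800080000000000000000000) := T_16 (nat_lit 164) (nat_lit 181) (nat_lit 7) (nat_lit 10) (nat_lit 6) L28401 (by decide +kernel)
theorem L28403 : W_16 (nat_lit 5) (nat_lit 0x4000200080005000280010000000000000000000000000000) (nat_lit 0x0) (nat_lit 0x2000110008800000020001800080000000000000000000) := T_16 (nat_lit 160) (nat_lit 143) (nat_lit 6) (nat_lit 7) (nat_lit 11) L28402 (by decide +kernel)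
theorem L28404 : W_16 (nat_lit 2) (nat_lit 0x4001200080005000280038000000000000000000000000000) (nat_lit 0x0) (nat_lit 0x40002000100000000000000000000000000000000000000000) := D_16 (nat_lit 181) (nat_lit 164) (nat_lit 198) (nat_lit 7) (nat_lit 10) (nat_lit 6) (nat_lit 7) (nat_lit 10) (nat_lit 7) (by decide +kernel)
theorem L28405 : W_16 (nat_lit 3) (nat_lit 0x4000200080005000280038000000000000000000000000000) (nat_lit 0x0) (nat_lit 0x40003000100000000400000000000000000000000000000000) := T_16 (nat_lit 180) (nat_lit 130) (nat_lit 6) (nat_lit 10) (nat_lit 10) L28404 (by decide +kernel)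
theorem L28406 : W_16 (nat_lit 4) (nat_lit 0x4000200080005000280030000000000000000000000000000) (nat_lit 0x0) (nat_lit 0x40003000100000000400008000400000000000000000000000) := T_16 (nat_lit 111) (nat_lit 94) (nat_lit 4) (nat_lit 10) (nat_lit 9) L28405 (by decide +kernel)
theorem L28407 : W_16 (nat_lit 5) (nat_lit 0x4000200080005000280010000000000000000000000000000) (nat_lit 0x0) (nat_lit 0x40003000100000000400028001400000000000000000000000) := T_16 (nat_lit 113) (nat_lit 96) (nat_lit 6) (nat_lit 10) (nat_lit 9) L28406 (by decide +kernel)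
theorem L28408 : W_16 (nat_lit 6) (nat_lit 0x4000200080005000280000000000000000000000000000000) (nat_lit 0x0) (nat_lit 0x40003000110008800400038001c000a0000000000000000000) := Q_16 (nat_lit 112) (C_16 L28385 (C_16 L28248 (C_16 L28403 (C_16 L28407 N_16)))) (by decide +kernel)
theorem L28409 : W_16 (nat_lit 2) (nat_lit 0x4001a00090005000280018000000000000000000000000000) (nat_lit 0x0) (nat_lit 0x2000400008000000000000000000000000000000000000000) := D_16 (nat_lit 178) (nat_lit 193) (nat_lit 159) (nat_lit 1) (nat_lit 10) (nat_lit 10) (nat_lit 0) (nat_lit 10) (nat_lit 10) (by decide +kernel)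
theorem L28410 : W_16 (nat_lit 3) (nat_lit 0x4000a00090005000280018000000000000000000000000000) (nat_lit 0x0) (nat_lit 0x12001400008000000000000000000000000000000000000000) := T_16 (nat_lit 180) (nat_lit 196) (nat_lit 5) (nat_lit 10) (nat_lit 7) L28409 (by decide +kernel)
theorem L28411 : W_16 (nat_lit 4) (nat_lit 0x4000a00090005000280010000000000000000000000000000) (nat_lit 0x0) (nat_lit 0x12001400008000000000008000400000000000000000000000) := T_16 (nat_lit 111) (nat_lit 94) (nat_lit 4) (nat_lit 10) (nat_lit 9) L28410 (by decide +kernel)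
theorem L28412 : W_16 (nat_lit 5) (nat_lit 0x4000200090005000280010000000000000000000000000000) (nat_lit 0x0) (nat_lit 0x12001c00048000000000008000400000000000000000000000) := T_16 (nat_lit 179) (nat_lit 162) (nat_lit 5) (nat_lit 10) (nat_lit 6) L28411 (by decide +kernel)
theorem L28413 : W_16 (nat_lit 6) (nat_lit 0x4000200080005000280010000000000000000000000000000) (nat_lit 0x0) (nat_lit 0x12001c00058000800000008000400000000000000000000000) := T_16 (nat_lit 160) (nat_lit 143) (nat_lit 6) (nat_lit 7) (nat_lit 11) L28412 (by decide +kernel)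
theorem L28414 : W_16 (nat_lit 2) (nat_lit 0x40002001d00050002800100008000a0000000000000000000) (nat_lit 0x0) (nat_lit 0x40005000000000000000) := D_16 (nat_lit 78) (nat_lit 62) (nat_lit 60) (nat_lit 6) (nat_lit 10) (nat_lit 7) (nat_lit 4) (nat_lit 10) (nat_lit 7) (by decide +kernel)
theorem L28415 : W_16 (nat_lit 3) (nat_lit 0x40002001d0005000280010000800080000000000000000000) (nat_lit 0x0) (nat_lit 0x400060005000000000000000) := T_16 (nat_lit 77) (nat_lit 94) (nat_lit 4) (nat_lit 10) (nat_lit 8) L28414 (by decide +kernel)
theorem L28416 : W_16 (nat_lit 4) (nat_lit 0x40002001d0005000280010000800000000000000000000000) (nat_lit 0x0) (nat_lit 0x14000e0005000000000000000) := T_16 (nat_lit 79) (nat_lit 96) (nat_lit 6) (nat_lit 10) (nat_lit 8) L28415 (by decide +kernel)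
theorem L28417 : W_16 (nat_lit 5) (nat_lit 0x40002001d0005000280010000000000000000000000000000) (nat_lit 0x0) (nat_lit 0x8000000000001c000e0005000000000000000) := T_16 (nat_lit 95) (nat_lit 147) (nat_lit 7) (nat_lit 10) (nat_lit 5) L28416 (by decide +kernel)
theorem L28418 : W_16 (nat_lit 6) (nat_lit 0x40002000d0005000280010000000000000000000000000000) (nat_lit 0x0) (nat_lit 0x2000100008000000000001c000e0005000000000000000) := T_16 (nat_lit 164) (nat_lit 181) (nat_lit 7) (nat_lit 10) (nat_lit 6) L28417 (by decide +kernel)
theorem L28419 : W_16 (nat_lit 7) (nat_lit 0x40002000c0005000280010000000000000000000000000000) (nat_lit 0x0) (nat_lit 0x2000110008800000000001c000e0005000000000000000) := T_16 (nat_lit 160) (nat_lit 143) (nat_lit 6) (nat_lit 7) (nat_lit 11) L28418 (by decide +kernel)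
theorem L28420 : W_16 (nat_lit 8) (nat_lit 0x4000200080005000280010000000000000000000000000000) (nat_lit 0x0) (nat_lit 0x2800150008800000000001c000e0005000000000000000) := T_16 (nat_lit 162) (nat_lit 179) (nat_lit 5) (nat_lit 10) (nat_lit 6) L28419 (by decide +kernel)
theorem L28421 : W_16 (nat_lit 2) (nat_lit 0x4000a00180005000280010001800000000000000000000000) (nat_lit 0x0) (nat_lit 0x10001400000000000000000000000000000000000000000000) := D_16 (nat_lit 180) (nat_lit 178) (nat_lit 196) (nat_lit 2) (nat_lit 7) (nat_lit 10) (nat_lit 5) (nat_lit 10) (nat_lit 7) (by decide +kernel)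
theorem L28422 : W_16 (nat_lit 3) (nat_lit 0x4000200180005000280010001800000000000000000000000) (nat_lit 0x0) (nat_lit 0x10001c00040000000000000000000000000000000000000000) := T_16 (nat_lit 179) (nat_lit 162) (nat_lit 5) (nat_lit 10) (nat_lit 6) L28421 (by decide +kernel)
theorem L28423 : W_16 (nat_lit 4) (nat_lit 0x4000200180005000280010000800000000000000000000000) (nat_lit 0x0) (nat_lit 0x10001c00040000000000000001000080000000000000000000) := T_16 (nat_lit 96) (nat_lit 79) (nat_lit 6) (nat_lit 10) (nat_lit 8) L28422 (by decide +kernel)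
theorem L28424 : W_16 (nat_lit 5) (nat_lit 0x4000200180005000280010000000000000000000000000000) (nat_lit 0x0) (nat_lit 0x10001c00040008000000000001800080000000000000000000) := T_16 (nat_lit 95) (nat_lit 147) (nat_lit 7) (nat_lit 10) (nat_lit 5) L28423 (by decide +kernel)
theorem L28425 : W_16 (nat_lit 6) (nat_lit 0x4000200080005000280010000000000000000000000000000) (nat_lit 0x0) (nat_lit 0x10003c00140008000000000001800080000000000000000000) := T_16 (nat_lit 164) (nat_lit 181) (nat_lit 7) (nat_lit 10) (nat_lit 6) L28424 (by decide +kernel)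
theorem L28426 : W_16 (nat_lit 9) (nat_lit 0x4000200080005000280000000000000000000000000000000) (nat_lit 0x0) (nat_lit 0x12003c00158008800000018001c000e0005000000000000000) := Q_16 (nat_lit 112) (C_16 L28248 (C_16 L28413 (C_16 L28420 (C_16 L28425 N_16)))) (by decide +kernel)
theorem L28427 : W_16 (nat_lit 2) (nat_lit 0x4003a00090005000680000000000000000000000000000000) (nat_lit 0x0) (nat_lit 0x2000400008000000000000000000000000000000000000000) := D_16 (nat_lit 178) (nat_lit 159) (nat_lit 193) (nat_lit 0) (nat_lit 10) (nat_lit 10) (nat_lit 1) (nat_lit 10) (nat_lit 10) (by decide +kernel)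
theorem L28428 : W_16 (nat_lit 3) (nat_lit 0x4003200090005000680000000000000000000000000000000) (nat_lit 0x0) (nat_lit 0x12000c00008000000000000000000000000000000000000000) := T_16 (nat_lit 179) (nat_lit 196) (nat_lit 5) (nat_lit 10) (nat_lit 7) L28427 (by decide +kernel)
theorem L28429 : W_16 (nat_lit 4) (nat_lit 0x4003200090005000280000000000000000000000000000000) (nat_lit 0x0) (nat_lit 0x12000c00008000000400020000000000000000000000000000) := T_16 (nat_lit 130) (nat_lit 113) (nat_lit 6) (nat_lit 10) (nat_lit 10) L28428 (by decide +kernel)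
theorem L28430 : W_16 (nat_lit 5) (nat_lit 0x4001200090005000280000000000000000000000000000000) (nat_lit 0x0) (nat_lit 0x52002c00008000000400020000000000000000000000000000) := T_16 (nat_lit 181) (nat_lit 198) (nat_lit 7) (nat_lit 10) (nat_lit 7) L28429 (by decide +kernel)
theorem L28431 : W_16 (nat_lit 6) (nat_lit 0x4001200080005000280000000000000000000000000000000) (nat_lit 0x0) (nat_lit 0x52002c00018000800400020000000000000000000000000000) := T_16 (nat_lit 160) (nat_lit 143) (nat_lit 6) (nat_lit 7) (nat_lit 11) L28430 (by decide +kernel)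
theorem L28432 : W_16 (nat_lit 2) (nat_lit 0x24003200080005000680000000000000000000000000000000) (nat_lit 0x0) (nat_lit 0x200018000000000000000000000000000000000000000000000000) := D_16 (nat_lit 196) (nat_lit 213) (nat_lit 195) (nat_lit 5) (nat_lit 10) (nat_lit 8) (nat_lit 2) (nat_lit 7) (nat_lit 11) (by decide +kernel)
theorem L28433 : W_16 (nat_lit 3) (nat_lit 0x4003200080005000680000000000000000000000000000000) (nat_lit 0x0) (nat_lit 0x200038000000000008000000000000000000000000000000000000) := T_16 (nat_lit 197) (nat_lit 147) (nat_lit 6) (nat_lit 10) (nat_lit 11) L28432 (by decide +kernel)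
theorem L28434 : W_16 (nat_lit 4) (nat_lit 0x4001200080005000680000000000000000000000000000000) (nat_lit 0x0) (nat_lit 0x200078002000000008000000000000000000000000000000000000) := T_16 (nat_lit 181) (nat_lit 198) (nat_lit 7) (nat_lit 10) (nat_lit 7) L28433 (by decide +kernel)
theorem L28435 : W_16 (nat_lit 5) (nat_lit 0x4001200080005000280000000000000000000000000000000) (nat_lit 0x0) (nat_lit 0x200078002000000008000400020000000000000000000000000000) := T_16 (nat_lit 130) (nat_lit 113) (nat_lit 6) (nat_lit 10) (nat_lit 10) L28434 (by decide +kernel)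
theorem L28436 : W_16 (nat_lit 2) (nat_lit 0x4003a00090005000280000000000000000000000000000000) (nat_lit 0x0) (nat_lit 0x2000400008000000000000000000000000000000000000000) := D_16 (nat_lit 178) (nat_lit 159) (nat_lit 193) (nat_lit 0) (nat_lit 10) (nat_lit 10) (nat_lit 1) (nat_lit 10) (nat_lit 10) (by decide +kernel)
theorem L28437 : W_16 (nat_lit 3) (nat_lit 0x4003200090005000280000000000000000000000000000000) (nat_lit 0x0) (nat_lit 0x12000c00008000000000000000000000000000000000000000) := T_16 (nat_lit 179) (nat_lit 196) (nat_lit 5) (nat_lit 10) (nat_lit 7) L28436 (by decide +kernel)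
theorem L28438 : W_16 (nat_lit 4) (nat_lit 0x4001200090005000280000000000000000000000000000000) (nat_lit 0x0) (nat_lit 0x52002c00008000000000000000000000000000000000000000) := T_16 (nat_lit 181) (nat_lit 198) (nat_lit 7) (nat_lit 10) (nat_lit 7) L28437 (by decide +kernel)
theorem L28439 : W_16 (nat_lit 5) (nat_lit 0x4001200080005000280000000000000000000000000000000) (nat_lit 0x0) (nat_lit 0x52002c00018000800000000000000000000000000000000000) := T_16 (nat_lit 160) (nat_lit 143) (nat_lit 6) (nat_lit 7) (nat_lit 11) L28438 (by decide +kernel)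
theorem L28440 : W_16 (nat_lit 2) (nat_lit 0x24001200090005000680000000000000000000000000000000) (nat_lit 0x0) (nat_lit 0x800040002000000000000000000000000000000000000000000000) := D_16 (nat_lit 198) (nat_lit 181) (nat_lit 215) (nat_lit 7) (nat_lit 10) (nat_lit 7) (nat_lit 7) (nat_lit 10) (nat_lit 8) (by decide +kernel)
theorem L28441 : W_16 (nat_lit 3) (nat_lit 0x4001200090005000680000000000000000000000000000000) (nat_lit 0x0) (nat_lit 0x800060002000000008000000000000000000000000000000000000) := T_16 (nat_lit 197) (nat_lit 147) (nat_lit 6) (nat_lit 10) (nat_lit 11) L28440 (by decide +kernel)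
theorem L28442 : W_16 (nat_lit 4) (nat_lit 0x4001200080005000680000000000000000000000000000000) (nat_lit 0x0) (nat_lit 0x800060002000010008800000000000000000000000000000000000) := T_16 (nat_lit 160) (nat_lit 143) (nat_lit 6) (nat_lit 7) (nat_lit 11) L28441 (by decide +kernel)
theorem L28443 : W_16 (nat_lit 5) (nat_lit 0x4001200080005000280000000000000000000000000000000) (nat_lit 0x0) (nat_lit 0x800060002000010008800400020000000000000000000000000000) := T_16 (nat_lit 130) (nat_lit 113) (nat_lit 6) (nat_lit 10) (nat_lit 10) L28442 (by decide +kernel)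
theorem L28444 : W_16 (nat_lit 7) (nat_lit 0x4000200080005000280000000000000000000000000000000) (nat_lit 0x0) (nat_lit 0xa0007a003c00058008800400030001000000000000000000000000) := Q_16 (nat_lit 180) (C_16 L28431 (C_16 L28435 (C_16 L28439 (C_16 L28443 (C_16 L25639 N_16))))) (by decide +kernel)
theorem L28445 : W_16 (nat_lit 2) (nat_lit 0x40012000d0005000280030000000000000000000000000000) (nat_lit 0x0) (nat_lit 0x40002000100000000000000000000000000000000000000000) := D_16 (nat_lit 181) (nat_lit 164) (nat_lit 198) (nat_lit 7) (nat_lit 10) (nat_lit 6) (nat_lit 7) (nat_lit 10) (nat_lit 7) (by decide +kernel)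
theorem L28446 : W_16 (nat_lit 3) (nat_lit 0x40002000d0005000280030000000000000000000000000000) (nat_lit 0x0) (nat_lit 0x40003000100000000400000000000000000000000000000000) := T_16 (nat_lit 180) (nat_lit 130) (nat_lit 6) (nat_lit 10) (nat_lit 10) L28445 (by decide +kernel)
theorem L28447 : W_16 (nat_lit 4) (nat_lit 0x4000200090005000280030000000000000000000000000000) (nat_lit 0x0) (nat_lit 0x40003800140000000400000000000000000000000000000000) := T_16 (nat_lit 162) (nat_lit 179) (nat_lit 5) (nat_lit 10) (nat_lit 6) L28446 (by decide +kernel)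
theorem L28448 : W_16 (nat_lit 5) (nat_lit 0x4000200090005000280010000000000000000000000000000) (nat_lit 0x0) (nat_lit 0x40003800140000000400020001000000000000000000000000) := T_16 (nat_lit 113) (nat_lit 96) (nat_lit 6) (nat_lit 10) (nat_lit 9) L28447 (by decide +kernel)
theorem L28449 : W_16 (nat_lit 6) (nat_lit 0x4000200080005000280010000000000000000000000000000) (nat_lit 0x0) (nat_lit 0x40003800150000800400020001000000000000000000000000) := T_16 (nat_lit 160) (nat_lit 143) (nat_lit 6) (nat_lit 7) (nat_lit 11) L28448 (by decide +kernel)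
theorem L28450 : W_16 (nat_lit 7) (nat_lit 0x4000200080005000280000000000000000000000000000000) (nat_lit 0x0) (nat_lit 0x52003c00158000800400038001c000a0000000000000000000) := Q_16 (nat_lit 112) (C_16 L28385 (C_16 L28413 (C_16 L28449 N_16))) (by decide +kernel)
theorem L28451 : W_16 (nat_lit 7) (nat_lit 0x4000200080005000280000000000000000000000000000000) (nat_lit 0x0) (nat_lit 0x50003c00140008000400038001c000a0000000000000000000) := Q_16 (nat_lit 112) (C_16 L28398 (C_16 L28425 (C_16 L28407 (C_16 L28385 (C_16 L28248 N_16))))) (by decide +kernel)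
theorem L28452 : W_16 (nat_lit 2) (nat_lit 0x40002000d0005000280010001800060000000000000000000) (nat_lit 0x0) (nat_lit 0x100008000400000000000000000000000000000000) := D_16 (nat_lit 147) (nat_lit 164) (nat_lit 130) (nat_lit 7) (nat_lit 10) (nat_lit 5) (nat_lit 7) (nat_lit 10) (nat_lit 4) (by decide +kernel)
theorem L28453 : W_16 (nat_lit 3) (nat_lit 0x40002000d0005000280010001800020000000000000000000) (nat_lit 0x0) (nat_lit 0x100008000400000000000040001000000000000000) := T_16 (nat_lit 78) (nat_lit 60) (nat_lit 4) (nat_lit 10) (nat_lit 7) L28452 (by decide +kernel)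
theorem L28454 : W_16 (nat_lit 4) (nat_lit 0x40002000d0005000280010001800000000000000000000000) (nat_lit 0x0) (nat_lit 0x100008000400000000400060001000000000000000) := T_16 (nat_lit 77) (nat_lit 94) (nat_lit 4) (nat_lit 10) (nat_lit 8) L28453 (by decide +kernel)
theorem L28455 : W_16 (nat_lit 5) (nat_lit 0x40002000d0005000280010001000000000000000000000000) (nat_lit 0x0) (nat_lit 0x100008000400000000c000e0001000000000000000) := T_16 (nat_lit 95) (nat_lit 79) (nat_lit 6) (nat_lit 10) (nat_lit 8) L28454 (by decide +kernel)
theorem L28456 : W_16 (nat_lit 6) (nat_lit 0x40002000d0005000280010000000000000000000000000000) (nat_lit 0x0) (nat_lit 0x100008000400020001c000e0001000000000000000) := T_16 (nat_lit 96) (nat_lit 113) (nat_lit 6) (nat_lit 10) (nat_lit 9) L28455 (by decide +kernel)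
theorem L28457 : W_16 (nat_lit 7) (nat_lit 0x4000200090005000280010000000000000000000000000000) (nat_lit 0x0) (nat_lit 0x800140008000400020001c000e0001000000000000000) := T_16 (nat_lit 162) (nat_lit 179) (nat_lit 5) (nat_lit 10) (nat_lit 6) L28456 (by decide +kernel)
theorem L28458 : W_16 (nat_lit 8) (nat_lit 0x4000200080005000280010000000000000000000000000000) (nat_lit 0x0) (nat_lit 0x800150008800400020001c000e0001000000000000000) := T_16 (nat_lit 160) (nat_lit 143) (nat_lit 6) (nat_lit 7) (nat_lit 11) L28457 (by decide +kernel)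
theorem L28459 : W_16 (nat_lit 2) (nat_lit 0x4001200090005000280030000000000000000000000000000) (nat_lit 0x0) (nat_lit 0x10000800040000000000000000000000000000000000000000) := D_16 (nat_lit 179) (nat_lit 196) (nat_lit 162) (nat_lit 5) (nat_lit 10) (nat_lit 7) (nat_lit 5) (nat_lit 10) (nat_lit 6) (by decide +kernel)
theorem L28460 : W_16 (nat_lit 3) (nat_lit 0x4000200090005000280030000000000000000000000000000) (nat_lit 0x0) (nat_lit 0x10001800040000000400000000000000000000000000000000) := T_16 (nat_lit 180) (nat_lit 130) (nat_lit 6) (nat_lit 10) (nat_lit 10) L28459 (by decide +kernel)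
theorem L28461 : W_16 (nat_lit 4) (nat_lit 0x4000200080005000280030000000000000000000000000000) (nat_lit 0x0) (nat_lit 0x10001800050000800400000000000000000000000000000000) := T_16 (nat_lit 160) (nat_lit 143) (nat_lit 6) (nat_lit 7) (nat_lit 11) L28460 (by decide +kernel)
theorem L28462 : W_16 (nat_lit 5) (nat_lit 0x4000200080005000280010000000000000000000000000000) (nat_lit 0x0) (nat_lit 0x10001800050000800400020001000000000000000000000000) := T_16 (nat_lit 113) (nat_lit 96) (nat_lit 6) (nat_lit 10) (nat_lit 9) L28461 (by decide +kernel)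
theorem L28463 : W_16 (nat_lit 9) (nat_lit 0x4000200080005000280000000000000000000000000000000) (nat_lit 0x0) (nat_lit 0x12001c00158008800400038001c000e0001000000000000000) := Q_16 (nat_lit 112) (C_16 L28385 (C_16 L28413 (C_16 L28458 (C_16 L28462 N_16)))) (by decide +kernel)
theorem L28464 : W_16 (nat_lit 6) (nat_lit 0x4000200080005000280000000000000000000000000000000) (nat_lit 0x0) (nat_lit 0xa0007a003c00018008800400020000000000000000000000000000) := Q_16 (nat_lit 180) (C_16 L28443 (C_16 L28439 (C_16 L28435 (C_16 L25494 N_16)))) (by decide +kernel)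
theorem L28465 : W_16 (nat_lit 15) (nat_lit 0x4000200080001000280000000000000000000000000000000) (nat_lit 0x0) (nat_lit 0xa0007a003c0075803c807c001f801fc000e0007000200000000000) := Q_16 (nat_lit 146) (C_16 L28399 (C_16 L28408 (C_16 L28426 (C_16 L28444 (C_16 L28450 (C_16 L28451 (C_16 L28463 (C_16 L28464 N_16)))))))) (by decide +kernel)
theorem L28466 : W_16 (nat_lit 2) (nat_lit 0x14003200090005000280038000000000000000000000000000) (nat_lit 0x0) (nat_lit 0x200028000000000000000000000000000000000000000000000000) := D_16 (nat_lit 197) (nat_lit 195) (nat_lit 213) (nat_lit 2) (nat_lit 7) (nat_lit 11) (nat_lit 5) (nat_lit 10) (nat_lit 8) (by decide +kernel)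
theorem L28467 : W_16 (nat_lit 3) (nat_lit 0x4003200090005000280038000000000000000000000000000) (nat_lit 0x0) (nat_lit 0x200038000800000000000000000000000000000000000000000000) := T_16 (nat_lit 196) (nat_lit 179) (nat_lit 5) (nat_lit 10) (nat_lit 7) L28466 (by decide +kernel)
theorem L28468 : W_16 (nat_lit 4) (nat_lit 0x4003200080005000280038000000000000000000000000000) (nat_lit 0x0) (nat_lit 0x200038000800010000800000000000000000000000000000000000) := T_16 (nat_lit 160) (nat_lit 143) (nat_lit 6) (nat_lit 7) (nat_lit 11) L28467 (by decide +kernel)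
theorem L28469 : W_16 (nat_lit 5) (nat_lit 0x4003200080005000280030000000000000000000000000000) (nat_lit 0x0) (nat_lit 0x200038000800010000800000008000400000000000000000000000) := T_16 (nat_lit 111) (nat_lit 94) (nat_lit 4) (nat_lit 10) (nat_lit 9) L28468 (by decide +kernel)
theorem L28470 : W_16 (nat_lit 6) (nat_lit 0x4003200080005000280010000000000000000000000000000) (nat_lit 0x0) (nat_lit 0x200038000800010000800000028001400000000000000000000000) := T_16 (nat_lit 113) (nat_lit 96) (nat_lit 6) (nat_lit 10) (nat_lit 9) L28469 (by decide +kernel)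
theorem L28471 : W_16 (nat_lit 7) (nat_lit 0x4003200080005000280000000000000000000000000000000) (nat_lit 0x0) (nat_lit 0x200038000800110000800000038001400000000000000000000000) := T_16 (nat_lit 112) (nat_lit 164) (nat_lit 7) (nat_lit 10) (nat_lit 6) L28470 (by decide +kernel)
theorem L28472 : W_16 (nat_lit 8) (nat_lit 0x4001200080005000280000000000000000000000000000000) (nat_lit 0x0) (nat_lit 0x200078002800110000800000038001400000000000000000000000) := T_16 (nat_lit 181) (nat_lit 198) (nat_lit 7) (nat_lit 10) (nat_lit 7) L28471 (by decide +kernel)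
theorem L28473 : W_16 (nat_lit 2) (nat_lit 0x14003200080005000280000000000000000000000000000000) (nat_lit 0x0) (nat_lit 0x200028000000000000000000000000000000000000000000000000) := D_16 (nat_lit 197) (nat_lit 213) (nat_lit 195) (nat_lit 5) (nat_lit 10) (nat_lit 8) (nat_lit 2) (nat_lit 7) (nat_lit 11) (by decide +kernel)
theorem L28474 : W_16 (nat_lit 3) (nat_lit 0x14001200080005000280000000000000000000000000000000) (nat_lit 0x0) (nat_lit 0x200068002000000000000000000000000000000000000000000000) := T_16 (nat_lit 181) (nat_lit 198) (nat_lit 7) (nat_lit 10) (nat_lit 7) L28473 (by decide +kernel)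
theorem L28475 : W_16 (nat_lit 4) (nat_lit 0x4001200080005000280000000000000000000000000000000) (nat_lit 0x0) (nat_lit 0x200078002800000000000000000000000000000000000000000000) := T_16 (nat_lit 196) (nat_lit 179) (nat_lit 5) (nat_lit 10) (nat_lit 7) L28474 (by decide +kernel)
theorem L28476 : W_16 (nat_lit 9) (nat_lit 0x4001200080001000280000000000000000000000000000000) (nat_lit 0x0) (nat_lit 0x20007800280011000c800400038001400000000000000000000000) := Q_16 (nat_lit 146) (C_16 L28218 (C_16 L25494 (C_16 L28472 (C_16 L28475 N_16)))) (by decide +kernel)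
theorem L28477 : W_16 (nat_lit 2) (nat_lit 0x8000340012000b0005000680000000000000000000000000000000) (nat_lit 0x0) (nat_lit 0x10000400008000000000000000000000000000000000000000000000000) := D_16 (nat_lit 214) (nat_lit 195) (nat_lit 232) (nat_lit 3) (nat_lit 7) (nat_lit 11) (nat_lit 7) (nat_lit 10) (nat_lit 9) (by decide +kernel)
theorem L28478 : W_16 (nat_lit 3) (nat_lit 0x340012000b0005000680000000000000000000000000000000) (nat_lit 0x0) (nat_lit 0x10000c00048000000000000000000000000000000000000000000000000) := T_16 (nat_lit 215) (nat_lit 198) (nat_lit 7) (nat_lit 10) (nat_lit 8) L28477 (by decide +kernel)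
theorem L28479 : W_16 (nat_lit 4) (nat_lit 0x240012000b0005000680000000000000000000000000000000) (nat_lit 0x0) (nat_lit 0x10000e00058000000000000000000000000000000000000000000000000) := T_16 (nat_lit 196) (nat_lit 213) (nat_lit 5) (nat_lit 10) (nat_lit 8) L28478 (by decide +kernel)
theorem L28480 : W_16 (nat_lit 5) (nat_lit 0x40012000b0005000680000000000000000000000000000000) (nat_lit 0x0) (nat_lit 0x10000e00078000000000008000000000000000000000000000000000000) := T_16 (nat_lit 197) (nat_lit 147) (nat_lit 6) (nat_lit 10) (nat_lit 11) L28479 (by decide +kernel)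
theorem L28481 : W_16 (nat_lit 6) (nat_lit 0x40012000a0005000680000000000000000000000000000000) (nat_lit 0x0) (nat_lit 0x10000e00078000000010008800000000000000000000000000000000000) := T_16 (nat_lit 160) (nat_lit 143) (nat_lit 6) (nat_lit 7) (nat_lit 11) L28480 (by decide +kernel)
theorem L28482 : W_16 (nat_lit 7) (nat_lit 0x40012000a0005000280000000000000000000000000000000) (nat_lit 0x0) (nat_lit 0x10000e00078000000010008800400020000000000000000000000000000) := T_16 (nat_lit 130) (nat_lit 113) (nat_lit 6) (nat_lit 10) (nat_lit 10) L28481 (by decide +kernel)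
theorem L28483 : W_16 (nat_lit 8) (nat_lit 0x4001200080005000280000000000000000000000000000000) (nat_lit 0x0) (nat_lit 0x10000e00078000400030008800400020000000000000000000000000000) := T_16 (nat_lit 161) (nat_lit 178) (nat_lit 5) (nat_lit 8) (nat_lit 7) L28482 (by decide +kernel)
theorem L28484 : W_16 (nat_lit 2) (nat_lit 0x40012001b0005000280030000400000000000000000000000) (nat_lit 0x0) (nat_lit 0x8000000000000800020000000000000000000) := D_16 (nat_lit 95) (nat_lit 147) (nat_lit 77) (nat_lit 7) (nat_lit 10) (nat_lit 5) (nat_lit 4) (nat_lit 10) (nat_lit 8) (by decide +kernel)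
theorem L28485 : W_16 (nat_lit 3) (nat_lit 0x40012000b0005000280030000400000000000000000000000) (nat_lit 0x0) (nat_lit 0x2000100008000000000000800020000000000000000000) := T_16 (nat_lit 164) (nat_lit 181) (nat_lit 7) (nat_lit 10) (nat_lit 6) L28484 (by decide +kernel)
theorem L28486 : W_16 (nat_lit 4) (nat_lit 0x40012000b0005000280030000000000000000000000000000) (nat_lit 0x0) (nat_lit 0x2000100008000000008000c00020000000000000000000) := T_16 (nat_lit 94) (nat_lit 111) (nat_lit 4) (nat_lit 10) (nat_lit 9) L28485 (by decide +kernel)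
theorem L28487 : W_16 (nat_lit 5) (nat_lit 0x40012000b0005000280020000000000000000000000000000) (nat_lit 0x0) (nat_lit 0x2000100008000000018001c00020000000000000000000) := T_16 (nat_lit 112) (nat_lit 96) (nat_lit 6) (nat_lit 10) (nat_lit 9) L28486 (by decide +kernel)
theorem L28488 : W_16 (nat_lit 6) (nat_lit 0x40012000a0005000280020000000000000000000000000000) (nat_lit 0x0) (nat_lit 0x2000110008800000018001c00020000000000000000000) := T_16 (nat_lit 160) (nat_lit 143) (nat_lit 6) (nat_lit 7) (nat_lit 11) L28487 (by decide +kernel)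
theorem L28489 : W_16 (nat_lit 7) (nat_lit 0x40012000a0005000280000000000000000000000000000000) (nat_lit 0x0) (nat_lit 0x2000110008800400038001c00020000000000000000000) := T_16 (nat_lit 113) (nat_lit 130) (nat_lit 6) (nat_lit 10) (nat_lit 10) L28488 (by decide +kernel)
theorem L28490 : W_16 (nat_lit 8) (nat_lit 0x4001200080005000280000000000000000000000000000000) (nat_lit 0x0) (nat_lit 0x2400130008800400038001c00020000000000000000000) := T_16 (nat_lit 161) (nat_lit 178) (nat_lit 5) (nat_lit 8) (nat_lit 7) L28489 (by decide +kernel)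
theorem L28491 : W_16 (nat_lit 2) (nat_lit 0x2000640012000b000d000280000000000000000000000000000000) (nat_lit 0x0) (nat_lit 0x4000400000000000100000000000000000000000000000000000000000) := D_16 (nat_lit 214) (nat_lit 164) (nat_lit 230) (nat_lit 6) (nat_lit 10) (nat_lit 12) (nat_lit 5) (nat_lit 10) (nat_lit 9) (by decide +kernel)
theorem L28492 : W_16 (nat_lit 3) (nat_lit 0x640012000b000d000280000000000000000000000000000000) (nat_lit 0x0) (nat_lit 0x4000600010000000100000000000000000000000000000000000000000) := T_16 (nat_lit 213) (nat_lit 196) (nat_lit 5) (nat_lit 10) (nat_lit 8) L28491 (by decide +kernel)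
theorem L28493 : W_16 (nat_lit 4) (nat_lit 0x640012000b0005000280000000000000000000000000000000) (nat_lit 0x0) (nat_lit 0x4000600010000000100008000400000000000000000000000000000000) := T_16 (nat_lit 147) (nat_lit 130) (nat_lit 6) (nat_lit 10) (nat_lit 11) L28492 (by decide +kernel)
theorem L28494 : W_16 (nat_lit 5) (nat_lit 0x440012000b0005000280000000000000000000000000000000) (nat_lit 0x0) (nat_lit 0x4000e00030000000100008000400000000000000000000000000000000) := T_16 (nat_lit 197) (nat_lit 215) (nat_lit 7) (nat_lit 10) (nat_lit 8) L28493 (by decide +kernel)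
theorem L28495 : W_16 (nat_lit 6) (nat_lit 0x40012000b0005000280000000000000000000000000000000) (nat_lit 0x0) (nat_lit 0x4000e00070002000100008000400000000000000000000000000000000) := T_16 (nat_lit 198) (nat_lit 181) (nat_lit 7) (nat_lit 10) (nat_lit 7) L28494 (by decide +kernel)
theorem L28496 : W_16 (nat_lit 7) (nat_lit 0x4001200090005000280000000000000000000000000000000) (nat_lit 0x0) (nat_lit 0x4000e00070002400120008000400000000000000000000000000000000) := T_16 (nat_lit 161) (nat_lit 178) (nat_lit 5) (nat_lit 8) (nat_lit 7) L28495 (by decide +kernel)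
theorem L28497 : W_16 (nat_lit 8) (nat_lit 0x4001200080005000280000000000000000000000000000000) (nat_lit 0x0) (nat_lit 0x4000e00070002400130008800400000000000000000000000000000000) := T_16 (nat_lit 160) (nat_lit 143) (nat_lit 6) (nat_lit 7) (nat_lit 11) L28496 (by decide +kernel)
theorem L28498 : W_16 (nat_lit 9) (nat_lit 0x4001200080001000280000000000000000000000000000000) (nat_lit 0x0) (nat_lit 0x14000e0007800240013000c800400038001c000a0000000000000000000) := Q_16 (nat_lit 146) (C_16 L28218 (C_16 L28483 (C_16 L25618 (C_16 L28490 (C_16 L28497 N_16))))) (by decide +kernel)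
theorem L28499 : W_16 (nat_lit 2) (nat_lit 0x4001600090001000280000000000000000000000000000000) (nat_lit 0x0) (nat_lit 0x2000800008000000000000000000000000000000000000000) := D_16 (nat_lit 179) (nat_lit 193) (nat_lit 159) (nat_lit 1) (nat_lit 10) (nat_lit 10) (nat_lit 0) (nat_lit 10) (nat_lit 10) (by decide +kernel)
theorem L28500 : W_16 (nat_lit 3) (nat_lit 0x4001200090001000280000000000000000000000000000000) (nat_lit 0x0) (nat_lit 0x2000c00028000000000000000000000000000000000000000) := T_16 (nat_lit 178) (nat_lit 161) (nat_lit 5) (nat_lit 8) (nat_lit 7) L28499 (by decide +kernel)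
theorem L28501 : W_16 (nat_lit 4) (nat_lit 0x4001200080001000280000000000000000000000000000000) (nat_lit 0x0) (nat_lit 0x2000c00038000800000000000000000000000000000000000) := T_16 (nat_lit 160) (nat_lit 143) (nat_lit 6) (nat_lit 7) (nat_lit 11) L28500 (by decide +kernel)
theorem L28502 : W_16 (nat_lit 10) (nat_lit 0x4000200080001000280000000000000000000000000000000) (nat_lit 0x0) (nat_lit 0x14000e0007a003c0013800c800400038001c000a0000000000000000000) := Q_16 (nat_lit 180) (C_16 L28476 (C_16 L25518 (C_16 L28498 (C_16 L28501 N_16)))) (by decide +kernel)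
theorem L28503 : W_16 (nat_lit 2) (nat_lit 0x40032000d002d000680010000400000000000000000000000) (nat_lit 0x0) (nat_lit 0x800060000000000000000000) := D_16 (nat_lit 95) (nat_lit 78) (nat_lit 77) (nat_lit 7) (nat_lit 10) (nat_lit 4) (nat_lit 4) (nat_lit 10) (nat_lit 8) (by decide +kernel)
theorem L28504 : W_16 (nat_lit 3) (nat_lit 0x40032000d002d000680010000000000000000000000000000) (nat_lit 0x0) (nat_lit 0x8000c00060000000000000000000) := T_16 (nat_lit 94) (nat_lit 111) (nat_lit 4) (nat_lit 10) (nat_lit 9) L28503 (by decide +kernel)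
theorem L28505 : W_16 (nat_lit 4) (nat_lit 0x40032000d002d000680000000000000000000000000000000) (nat_lit 0x0) (nat_lit 0x800000000000000018000c00060000000000000000000) := T_16 (nat_lit 112) (nat_lit 179) (nat_lit 5) (nat_lit 10) (nat_lit 6) L28504 (by decide +kernel)
theorem L28506 : W_16 (nat_lit 5) (nat_lit 0x40032000d000d000680000000000000000000000000000000) (nat_lit 0x0) (nat_lit 0x800000030000000018000c00060000000000000000000) := T_16 (nat_lit 149) (nat_lit 148) (nat_lit 1) (nat_lit 13) (nat_lit 8) L28505 (by decide +kernel)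
theorem L28507 : W_16 (nat_lit 6) (nat_lit 0x400320009000d000680000000000000000000000000000000) (nat_lit 0x0) (nat_lit 0x800060030000000018000c00060000000000000000000) := T_16 (nat_lit 162) (nat_lit 161) (nat_lit 3) (nat_lit 7) (nat_lit 9) L28506 (by decide +kernel)
theorem L28508 : W_16 (nat_lit 7) (nat_lit 0x400320008000d000680000000000000000000000000000000) (nat_lit 0x0) (nat_lit 0x800070030800000018000c00060000000000000000000) := T_16 (nat_lit 160) (nat_lit 143) (nat_lit 6) (nat_lit 7) (nat_lit 11) L28507 (by decide +kernel)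
theorem L28509 : W_16 (nat_lit 8) (nat_lit 0x4003200080005000680000000000000000000000000000000) (nat_lit 0x0) (nat_lit 0x20000800070038800000018000c00060000000000000000000) := T_16 (nat_lit 147) (nat_lit 197) (nat_lit 6) (nat_lit 10) (nat_lit 11) L28508 (by decide +kernel)
theorem L28510 : W_16 (nat_lit 9) (nat_lit 0x4001200080005000680000000000000000000000000000000) (nat_lit 0x0) (nat_lit 0x60002800070038800000018000c00060000000000000000000) := T_16 (nat_lit 181) (nat_lit 198) (nat_lit 7) (nat_lit 10) (nat_lit 7) L28509 (by decide +kernel)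
theorem L28511 : W_16 (nat_lit 10) (nat_lit 0x4001200080005000280000000000000000000000000000000) (nat_lit 0x0) (nat_lit 0x60002800070038800400038000c00060000000000000000000) := T_16 (nat_lit 130) (nat_lit 113) (nat_lit 6) (nat_lit 10) (nat_lit 10) L28510 (by decide +kernel)
theorem L28512 : W_16 (nat_lit 5) (nat_lit 0x4003200090005000280000000000000000000000000000000) (nat_lit 0x0) (nat_lit 0x200038000000060008000400020000000000000000000000000000) := T_16 (nat_lit 161) (nat_lit 162) (nat_lit 3) (nat_lit 7) (nat_lit 9) L25521 (by decide +kernel)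
theorem L28513 : W_16 (nat_lit 6) (nat_lit 0x4001200090005000280000000000000000000000000000000) (nat_lit 0x0) (nat_lit 0x200078002000060008000400020000000000000000000000000000) := T_16 (nat_lit 181) (nat_lit 198) (nat_lit 7) (nat_lit 10) (nat_lit 7) L28512 (by decide +kernel)
theorem L28514 : W_16 (nat_lit 7) (nat_lit 0x4001200080005000280000000000000000000000000000000) (nat_lit 0x0) (nat_lit 0x200078002000070008800400020000000000000000000000000000) := T_16 (nat_lit 160) (nat_lit 143) (nat_lit 6) (nat_lit 7) (nat_lit 11) L28513 (by decide +kernel)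
theorem L28515 : W_16 (nat_lit 2) (nat_lit 0x4001a000d0005000280000000000000000000000000000000) (nat_lit 0x0) (nat_lit 0x40002000020000000000000000000000000000000000000000) := D_16 (nat_lit 181) (nat_lit 198) (nat_lit 161) (nat_lit 7) (nat_lit 10) (nat_lit 7) (nat_lit 3) (nat_lit 7) (nat_lit 9) (by decide +kernel)
theorem L28516 : W_16 (nat_lit 3) (nat_lit 0x4001a00090005000280000000000000000000000000000000) (nat_lit 0x0) (nat_lit 0x40002000060000000000010000000000000000000000000000) := T_16 (nat_lit 162) (nat_lit 112) (nat_lit 5) (nat_lit 10) (nat_lit 6) L28515 (by decide +kernel)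
theorem L28517 : W_16 (nat_lit 4) (nat_lit 0x4001200090005000280000000000000000000000000000000) (nat_lit 0x0) (nat_lit 0x50002800060000000000010000000000000000000000000000) := T_16 (nat_lit 179) (nat_lit 196) (nat_lit 5) (nat_lit 10) (nat_lit 7) L28516 (by decide +kernel)
theorem L28518 : W_16 (nat_lit 5) (nat_lit 0x4001200080005000280000000000000000000000000000000) (nat_lit 0x0) (nat_lit 0x50002800070000800000010000000000000000000000000000) := T_16 (nat_lit 160) (nat_lit 143) (nat_lit 6) (nat_lit 7) (nat_lit 11) L28517 (by decide +kernel)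
theorem L28519 : W_16 (nat_lit 2) (nat_lit 0x24003200090005000680000000000000000000000000000000) (nat_lit 0x0) (nat_lit 0x200010000800000000000000000000000000000000000000000000) := D_16 (nat_lit 196) (nat_lit 213) (nat_lit 179) (nat_lit 5) (nat_lit 10) (nat_lit 8) (nat_lit 5) (nat_lit 10) (nat_lit 7) (by decide +kernel)
theorem L28520 : W_16 (nat_lit 3) (nat_lit 0x4003200090005000680000000000000000000000000000000) (nat_lit 0x0) (nat_lit 0x200030000800000008000000000000000000000000000000000000) := T_16 (nat_lit 197) (nat_lit 147) (nat_lit 6) (nat_lit 10) (nat_lit 11) L28519 (by decide +kernel)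
theorem L28521 : W_16 (nat_lit 4) (nat_lit 0x4003200080005000680000000000000000000000000000000) (nat_lit 0x0) (nat_lit 0x200030000800010008800000000000000000000000000000000000) := T_16 (nat_lit 160) (nat_lit 143) (nat_lit 6) (nat_lit 7) (nat_lit 11) L28520 (by decide +kernel)
theorem L28522 : W_16 (nat_lit 5) (nat_lit 0x4003200080005000280000000000000000000000000000000) (nat_lit 0x0) (nat_lit 0x200030000800010008800400020000000000000000000000000000) := T_16 (nat_lit 130) (nat_lit 113) (nat_lit 6) (nat_lit 10) (nat_lit 10) L28521 (by decide +kernel)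
theorem L28523 : W_16 (nat_lit 6) (nat_lit 0x4001200080005000280000000000000000000000000000000) (nat_lit 0x0) (nat_lit 0x200070002800010008800400020000000000000000000000000000) := T_16 (nat_lit 181) (nat_lit 198) (nat_lit 7) (nat_lit 10) (nat_lit 7) L28522 (by decide +kernel)
theorem L28524 : W_16 (nat_lit 11) (nat_lit 0x4000200080005000280000000000000000000000000000000) (nat_lit 0x0) (nat_lit 0x200078003800070038800400038001c000e0000000000000000000) := Q_16 (nat_lit 180) (C_16 L25472 (C_16 L28511 (C_16 L28514 (C_16 L25609 (C_16 L28518 (C_16 L28523 N_16)))))) (by decide +kernel)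
theorem L28525 : W_16 (nat_lit 4) (nat_lit 0x40012000a0005000680000000000000000000000000000000) (nat_lit 0x0) (nat_lit 0x200078002000000008000000000000000000000000000000000000) := T_16 (nat_lit 181) (nat_lit 198) (nat_lit 7) (nat_lit 10) (nat_lit 7) L28269 (by decide +kernel)
theorem L28526 : W_16 (nat_lit 5) (nat_lit 0x40012000a0005000280000000000000000000000000000000) (nat_lit 0x0) (nat_lit 0x200078002000000008000400020000000000000000000000000000) := T_16 (nat_lit 130) (nat_lit 113) (nat_lit 6) (nat_lit 10) (nat_lit 10) L28525 (by decide +kernel)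
theorem L28527 : W_16 (nat_lit 6) (nat_lit 0x4001200080005000280000000000000000000000000000000) (nat_lit 0x0) (nat_lit 0x200078002400020008000400020000000000000000000000000000) := T_16 (nat_lit 161) (nat_lit 178) (nat_lit 5) (nat_lit 8) (nat_lit 7) L28526 (by decide +kernel)
theorem L28528 : W_16 (nat_lit 7) (nat_lit 0x4000200080005000280000000000000000000000000000000) (nat_lit 0x0) (nat_lit 0xa00078007c00060008000400038001c000a0000000000000000000) := Q_16 (nat_lit 180) (C_16 L25609 (C_16 L28527 (C_16 L28276 (C_16 L28327 N_16)))) (by decide +kernel)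
theorem L28529 : W_16 (nat_lit 2) (nat_lit 0x24003200090005000680000000000000000000000000000000) (nat_lit 0x0) (nat_lit 0x200018000000000000000000000000000000000000000000000000) := D_16 (nat_lit 196) (nat_lit 213) (nat_lit 195) (nat_lit 5) (nat_lit 10) (nat_lit 8) (nat_lit 2) (nat_lit 7) (nat_lit 11) (by decide +kernel)
theorem L28530 : W_16 (nat_lit 3) (nat_lit 0x4003200090005000680000000000000000000000000000000) (nat_lit 0x0) (nat_lit 0x200038000000000008000000000000000000000000000000000000) := T_16 (nat_lit 197) (nat_lit 147) (nat_lit 6) (nat_lit 10) (nat_lit 11) L28529 (by decide +kernel)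
theorem L28531 : W_16 (nat_lit 4) (nat_lit 0x4001200090005000680000000000000000000000000000000) (nat_lit 0x0) (nat_lit 0x200078002000000008000000000000000000000000000000000000) := T_16 (nat_lit 181) (nat_lit 198) (nat_lit 7) (nat_lit 10) (nat_lit 7) L28530 (by decide +kernel)
theorem L28532 : W_16 (nat_lit 5) (nat_lit 0x4001200090005000280000000000000000000000000000000) (nat_lit 0x0) (nat_lit 0x200078002000000008000400020000000000000000000000000000) := T_16 (nat_lit 130) (nat_lit 113) (nat_lit 6) (nat_lit 10) (nat_lit 10) L28531 (by decide +kernel)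
theorem L28533 : W_16 (nat_lit 6) (nat_lit 0x4001200080005000280000000000000000000000000000000) (nat_lit 0x0) (nat_lit 0x200078002000010008800400020000000000000000000000000000) := T_16 (nat_lit 160) (nat_lit 143) (nat_lit 6) (nat_lit 7) (nat_lit 11) L28532 (by decide +kernel)
theorem L28534 : W_16 (nat_lit 2) (nat_lit 0x4001e00080005000280018000000000000000000000000000) (nat_lit 0x0) (nat_lit 0x18000800000000000000000000000000000000000) := D_16 (nat_lit 160) (nat_lit 159) (nat_lit 143) (nat_lit 0) (nat_lit 10) (nat_lit 10) (nat_lit 6) (nat_lit 7) (nat_lit 11) (by decide +kernel)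
theorem L28535 : W_16 (nat_lit 3) (nat_lit 0x4001a00080005000280018000000000000000000000000000) (nat_lit 0x0) (nat_lit 0x2000400018000800000000000000000000000000000000000) := T_16 (nat_lit 178) (nat_lit 193) (nat_lit 1) (nat_lit 10) (nat_lit 10) L28534 (by decide +kernel)
theorem L28536 : W_16 (nat_lit 4) (nat_lit 0x4001a00080005000280010000000000000000000000000000) (nat_lit 0x0) (nat_lit 0x2000400018000800000008000400000000000000000000000) := T_16 (nat_lit 111) (nat_lit 94) (nat_lit 4) (nat_lit 10) (nat_lit 9) L28535 (by decide +kernel)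
theorem L28537 : W_16 (nat_lit 5) (nat_lit 0x4001a00080005000280000000000000000000000000000000) (nat_lit 0x0) (nat_lit 0x2000400058000800000018000400000000000000000000000) := T_16 (nat_lit 112) (nat_lit 162) (nat_lit 5) (nat_lit 10) (nat_lit 6) L28536 (by decide +kernel)
theorem L28538 : W_16 (nat_lit 6) (nat_lit 0x4001200080005000280000000000000000000000000000000) (nat_lit 0x0) (nat_lit 0x12000c00058000800000018000400000000000000000000000) := T_16 (nat_lit 179) (nat_lit 196) (nat_lit 5) (nat_lit 10) (nat_lit 7) L28537 (by decide +kernel)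
theorem L28539 : W_16 (nat_lit 7) (nat_lit 0x4000200080005000280000000000000000000000000000000) (nat_lit 0x0) (nat_lit 0xa0007a003c00058008800400038001c000a0000000000000000000) := Q_16 (nat_lit 180) (C_16 L28523 (C_16 L28533 (C_16 L28443 (C_16 L25609 (C_16 L28538 N_16))))) (by decide +kernel)
theorem L28540 : W_16 (nat_lit 2) (nat_lit 0x40002000f0005000280010001400000000000000000000000) (nat_lit 0x0) (nat_lit 0x8000a0000000000000000000) := D_16 (nat_lit 95) (nat_lit 77) (nat_lit 79) (nat_lit 4) (nat_lit 10) (nat_lit 8) (nat_lit 6) (nat_lit 10) (nat_lit 8) (by decide +kernel)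
theorem L28541 : W_16 (nat_lit 3) (nat_lit 0x40002000f0005000280010000400000000000000000000000) (nat_lit 0x0) (nat_lit 0x200018000a0000000000000000000) := T_16 (nat_lit 96) (nat_lit 113) (nat_lit 6) (nat_lit 10) (nat_lit 9) L28540 (by decide +kernel)
theorem L28542 : W_16 (nat_lit 4) (nat_lit 0x40002000f0005000280010000000000000000000000000000) (nat_lit 0x0) (nat_lit 0x28001c000a0000000000000000000) := T_16 (nat_lit 94) (nat_lit 111) (nat_lit 4) (nat_lit 10) (nat_lit 9) L28541 (by decide +kernel)
theorem L28543 : W_16 (nat_lit 5) (nat_lit 0x40002000f0005000280000000000000000000000000000000) (nat_lit 0x0) (nat_lit 0x800000000000000038001c000a0000000000000000000) := T_16 (nat_lit 112) (nat_lit 179) (nat_lit 5) (nat_lit 10) (nat_lit 6) L28542 (by decide +kernel)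
theorem L28544 : W_16 (nat_lit 6) (nat_lit 0x40002000b0005000280000000000000000000000000000000) (nat_lit 0x0) (nat_lit 0x800040008000000038001c000a0000000000000000000) := T_16 (nat_lit 162) (nat_lit 147) (nat_lit 2) (nat_lit 7) (nat_lit 9) L28543 (by decide +kernel)
theorem L28545 : W_16 (nat_lit 7) (nat_lit 0x4000200090005000280000000000000000000000000000000) (nat_lit 0x0) (nat_lit 0xc00060008000000038001c000a0000000000000000000) := T_16 (nat_lit 161) (nat_lit 178) (nat_lit 5) (nat_lit 8) (nat_lit 7) L28544 (by decide +kernel)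
theorem L28546 : W_16 (nat_lit 8) (nat_lit 0x4000200080005000280000000000000000000000000000000) (nat_lit 0x0) (nat_lit 0xc00070008800000038001c000a0000000000000000000) := T_16 (nat_lit 160) (nat_lit 143) (nat_lit 6) (nat_lit 7) (nat_lit 11) L28545 (by decide +kernel)
theorem L28547 : W_16 (nat_lit 2) (nat_lit 0x40012000f0005000280000000000000000000000000000000) (nat_lit 0x0) (nat_lit 0x10000800008000000000000000000000000000000000000000) := D_16 (nat_lit 179) (nat_lit 159) (nat_lit 196) (nat_lit 3) (nat_lit 6) (nat_lit 9) (nat_lit 5) (nat_lit 10) (nat_lit 7) (by decide +kernel)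
theorem L28548 : W_16 (nat_lit 3) (nat_lit 0x40002000f0005000280000000000000000000000000000000) (nat_lit 0x0) (nat_lit 0x10003800008000000000000000000000000000000000000000) := T_16 (nat_lit 180) (nat_lit 181) (nat_lit 3) (nat_lit 7) (nat_lit 9) L28547 (by decide +kernel)
theorem L28549 : W_16 (nat_lit 4) (nat_lit 0x40002000b0005000280000000000000000000000000000000) (nat_lit 0x0) (nat_lit 0x10003800048008000000000000000000000000000000000000) := T_16 (nat_lit 162) (nat_lit 147) (nat_lit 2) (nat_lit 7) (nat_lit 9) L28548 (by decide +kernel)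
theorem L28550 : W_16 (nat_lit 5) (nat_lit 0x40002000a0005000280000000000000000000000000000000) (nat_lit 0x0) (nat_lit 0x10003800058008800000000000000000000000000000000000) := T_16 (nat_lit 160) (nat_lit 143) (nat_lit 6) (nat_lit 7) (nat_lit 11) L28549 (by decide +kernel)
theorem L28551 : W_16 (nat_lit 6) (nat_lit 0x4000200080005000280000000000000000000000000000000) (nat_lit 0x0) (nat_lit 0x10003c00078008800000000000000000000000000000000000) := T_16 (nat_lit 161) (nat_lit 178) (nat_lit 5) (nat_lit 8) (nat_lit 7) L28550 (by decide +kernel)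
theorem L28552 : W_16 (nat_lit 2) (nat_lit 0x4003200090005000280000000000000000000000000000000) (nat_lit 0x0) (nat_lit 0x400060000000000000000000000000000000000000000) := D_16 (nat_lit 161) (nat_lit 162) (nat_lit 178) (nat_lit 3) (nat_lit 7) (nat_lit 9) (nat_lit 5) (nat_lit 8) (nat_lit 7) (by decide +kernel)
theorem L28553 : W_16 (nat_lit 3) (nat_lit 0x4001200090005000280000000000000000000000000000000) (nat_lit 0x0) (nat_lit 0x40002400060000000000000000000000000000000000000000) := T_16 (nat_lit 181) (nat_lit 198) (nat_lit 7) (nat_lit 10) (nat_lit 7) L28552 (by decide +kernel)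
theorem L28554 : W_16 (nat_lit 4) (nat_lit 0x4001200080005000280000000000000000000000000000000) (nat_lit 0x0) (nat_lit 0x40002400070000800000000000000000000000000000000000) := T_16 (nat_lit 160) (nat_lit 143) (nat_lit 6) (nat_lit 7) (nat_lit 11) L28553 (by decide +kernel)
theorem L28555 : W_16 (nat_lit 3) (nat_lit 0x40012000a0005000280000000000000000000000000000000) (nat_lit 0x0) (nat_lit 0x2000050008800000000000000000000000000000000000) := T_16 (nat_lit 160) (nat_lit 143) (nat_lit 6) (nat_lit 7) (nat_lit 11) L25577 (by decide +kernel)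
theorem L28556 : W_16 (nat_lit 4) (nat_lit 0x4001200080005000280000000000000000000000000000000) (nat_lit 0x0) (nat_lit 0x2400070008800000000000000000000000000000000000) := T_16 (nat_lit 161) (nat_lit 178) (nat_lit 5) (nat_lit 8) (nat_lit 7) L28555 (by decide +kernel)
theorem L28557 : W_16 (nat_lit 6) (nat_lit 0x4001200080005000680000000000000000000000000000000) (nat_lit 0x0) (nat_lit 0x10000e00078000400020008000000000000000000000000000000000000) := T_16 (nat_lit 161) (nat_lit 178) (nat_lit 5) (nat_lit 8) (nat_lit 7) L25654 (by decide +kernel)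
theorem L28558 : W_16 (nat_lit 7) (nat_lit 0x4001200080005000280000000000000000000000000000000) (nat_lit 0x0) (nat_lit 0x10000e00078000400020008000400020000000000000000000000000000) := T_16 (nat_lit 130) (nat_lit 113) (nat_lit 6) (nat_lit 10) (nat_lit 10) L28557 (by decide +kernel)
theorem L28559 : W_16 (nat_lit 8) (nat_lit 0x4000200080005000280000000000000000000000000000000) (nat_lit 0x0) (nat_lit 0x10000e00078003400070008800400020000000000000000000000000000) := Q_16 (nat_lit 180) (C_16 L28443 (C_16 L28554 (C_16 L28556 (C_16 L28276 (C_16 L28558 N_16))))) (by decide +kernel)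
theorem L28560 : W_16 (nat_lit 2) (nat_lit 0x4001a00090005000680000000000000000000000000000000) (nat_lit 0x0) (nat_lit 0x2000400020000000000000000000000000000000000000000) := D_16 (nat_lit 178) (nat_lit 193) (nat_lit 161) (nat_lit 1) (nat_lit 10) (nat_lit 10) (nat_lit 5) (nat_lit 8) (nat_lit 7) (by decide +kernel)
theorem L28561 : W_16 (nat_lit 3) (nat_lit 0x4001200090005000680000000000000000000000000000000) (nat_lit 0x0) (nat_lit 0x12000c00020000000000000000000000000000000000000000) := T_16 (nat_lit 179) (nat_lit 196) (nat_lit 5) (nat_lit 10) (nat_lit 7) L28560 (by decide +kernel)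
theorem L28562 : W_16 (nat_lit 4) (nat_lit 0x4001200090005000280000000000000000000000000000000) (nat_lit 0x0) (nat_lit 0x12000c00020000000400020000000000000000000000000000) := T_16 (nat_lit 130) (nat_lit 113) (nat_lit 6) (nat_lit 10) (nat_lit 10) L28561 (by decide +kernel)
theorem L28563 : W_16 (nat_lit 5) (nat_lit 0x4001200080005000280000000000000000000000000000000) (nat_lit 0x0) (nat_lit 0x12000c00030000800400020000000000000000000000000000) := T_16 (nat_lit 160) (nat_lit 143) (nat_lit 6) (nat_lit 7) (nat_lit 11) L28562 (by decide +kernel)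
theorem L28564 : W_16 (nat_lit 2) (nat_lit 0x4003a00090005000280000000000000000000000000000000) (nat_lit 0x0) (nat_lit 0x8000400020000000000000000000000000000000000000000) := D_16 (nat_lit 178) (nat_lit 195) (nat_lit 161) (nat_lit 1) (nat_lit 11) (nat_lit 10) (nat_lit 0) (nat_lit 11) (nat_lit 10) (by decide +kernel)
theorem L28565 : W_16 (nat_lit 3) (nat_lit 0x4003200090005000280000000000000000000000000000000) (nat_lit 0x0) (nat_lit 0x18000c00020000000000000000000000000000000000000000) := T_16 (nat_lit 179) (nat_lit 196) (nat_lit 5) (nat_lit 10) (nat_lit 7) L28564 (by decide +kernel)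
theorem L28566 : W_16 (nat_lit 4) (nat_lit 0x4003200080005000280000000000000000000000000000000) (nat_lit 0x0) (nat_lit 0x18000c00030000800000000000000000000000000000000000) := T_16 (nat_lit 160) (nat_lit 143) (nat_lit 6) (nat_lit 7) (nat_lit 11) L28565 (by decide +kernel)
theorem L28567 : W_16 (nat_lit 5) (nat_lit 0x4001200080005000280000000000000000000000000000000) (nat_lit 0x0) (nat_lit 0x58002c00030000800000000000000000000000000000000000) := T_16 (nat_lit 181) (nat_lit 198) (nat_lit 7) (nat_lit 10) (nat_lit 7) L28566 (by decide +kernel)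
theorem L28568 : W_16 (nat_lit 8) (nat_lit 0x4000200080005000280000000000000000000000000000000) (nat_lit 0x0) (nat_lit 0x10000e0007a003c00030008800400020000000000000000000000000000) := Q_16 (nat_lit 180) (C_16 L28558 (C_16 L28443 (C_16 L28563 (C_16 L28567 N_16)))) (by decide +kernel)
theorem L28569 : W_16 (nat_lit 7) (nat_lit 0x4000200080005000280000000000000000000000000000000) (nat_lit 0x0) (nat_lit 0x5a007c00078000800400038000400000000000000000000000) := Q_16 (nat_lit 180) (C_16 L28567 (C_16 L28518 (C_16 L28554 (C_16 L28563 (C_16 L28327 (C_16 L28538 N_16)))))) (by decide +kernel)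
theorem L28570 : W_16 (nat_lit 12) (nat_lit 0x4000200080001000280000000000000000000000000000000) (nat_lit 0x0) (nat_lit 0x10000e0007a007c0007803c800400038001c000e0000000000000000000) := Q_16 (nat_lit 146) (C_16 L28524 (C_16 L28528 (C_16 L28539 (C_16 L28546 (C_16 L28551 (C_16 L28559 (C_16 L28568 (C_16 L28569 N_16)))))))) (by decide +kernel)
theorem L28571 : W_16 (nat_lit 2) (nat_lit 0x4000200180005000280030000800000000000000000000000) (nat_lit 0x0) (nat_lit 0x8000400020000000000000000000) := D_16 (nat_lit 94) (nat_lit 77) (nat_lit 111) (nat_lit 4) (nat_lit 10) (nat_lit 8) (nat_lit 4) (nat_lit 10) (nat_lit 9) (by decide +kernel)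
theorem L28572 : W_16 (nat_lit 3) (nat_lit 0x4000200180005000280030000000000000000000000000000) (nat_lit 0x0) (nat_lit 0x8000000008000c00020000000000000000000) := T_16 (nat_lit 95) (nat_lit 147) (nat_lit 7) (nat_lit 10) (nat_lit 5) L28571 (by decide +kernel)
theorem L28573 : W_16 (nat_lit 4) (nat_lit 0x4000200080005000280030000000000000000000000000000) (nat_lit 0x0) (nat_lit 0x2000100008000000008000c00020000000000000000000) := T_16 (nat_lit 164) (nat_lit 181) (nat_lit 7) (nat_lit 10) (nat_lit 6) L28572 (by decide +kernel)
theorem L28574 : W_16 (nat_lit 5) (nat_lit 0x4000200080005000280010000000000000000000000000000) (nat_lit 0x0) (nat_lit 0x2000100008000000028001c00020000000000000000000) := T_16 (nat_lit 113) (nat_lit 96) (nat_lit 6) (nat_lit 10) (nat_lit 9) L28573 (by decide +kernel)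
theorem L28575 : W_16 (nat_lit 2) (nat_lit 0x40002000f0005000280010000000000000000000000000000) (nat_lit 0x0) (nat_lit 0x3000100000000000000000000000000000000000000000) := D_16 (nat_lit 181) (nat_lit 164) (nat_lit 180) (nat_lit 7) (nat_lit 10) (nat_lit 6) (nat_lit 3) (nat_lit 7) (nat_lit 9) (by decide +kernel)
theorem L28576 : W_16 (nat_lit 3) (nat_lit 0x40002000d0005000280010000000000000000000000000000) (nat_lit 0x0) (nat_lit 0x3000120008000000000000000000000000000000000000) := T_16 (nat_lit 161) (nat_lit 147) (nat_lit 2) (nat_lit 7) (nat_lit 9) L28575 (by decide +kernel)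
theorem L28577 : W_16 (nat_lit 4) (nat_lit 0x40002000c0005000280010000000000000000000000000000) (nat_lit 0x0) (nat_lit 0x3000130008800000000000000000000000000000000000) := T_16 (nat_lit 160) (nat_lit 143) (nat_lit 6) (nat_lit 7) (nat_lit 11) L28576 (by decide +kernel)
theorem L28578 : W_16 (nat_lit 5) (nat_lit 0x4000200080005000280010000000000000000000000000000) (nat_lit 0x0) (nat_lit 0x3800170008800000000000000000000000000000000000) := T_16 (nat_lit 162) (nat_lit 179) (nat_lit 5) (nat_lit 10) (nat_lit 6) L28577 (by decide +kernel)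
theorem L28579 : W_16 (nat_lit 6) (nat_lit 0x4000200080005000280000000000000000000000000000000) (nat_lit 0x0) (nat_lit 0x10003800170008800400038001c000a0000000000000000000) := Q_16 (nat_lit 112) (C_16 L28403 (C_16 L28574 (C_16 L28462 (C_16 L28578 N_16)))) (by decide +kernel)
theorem L28580 : W_16 (nat_lit 2) (nat_lit 0x4000a00080005000280038000000000000000000000000000) (nat_lit 0x0) (nat_lit 0x10001000000000000400000000000000000000000000000000) := D_16 (nat_lit 180) (nat_lit 130) (nat_lit 196) (nat_lit 6) (nat_lit 10) (nat_lit 10) (nat_lit 5) (nat_lit 10) (nat_lit 7) (by decide +kernel)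
theorem L28581 : W_16 (nat_lit 3) (nat_lit 0x4000200080005000280038000000000000000000000000000) (nat_lit 0x0) (nat_lit 0x10001800040000000400000000000000000000000000000000) := T_16 (nat_lit 179) (nat_lit 162) (nat_lit 5) (nat_lit 10) (nat_lit 6) L28580 (by decide +kernel)
theorem L28582 : W_16 (nat_lit 4) (nat_lit 0x4000200080005000280018000000000000000000000000000) (nat_lit 0x0) (nat_lit 0x10001800040000000400020001000000000000000000000000) := T_16 (nat_lit 113) (nat_lit 96) (nat_lit 6) (nat_lit 10) (nat_lit 9) L28581 (by decide +kernel)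
theorem L28583 : W_16 (nat_lit 5) (nat_lit 0x4000200080005000280010000000000000000000000000000) (nat_lit 0x0) (nat_lit 0x10001800040000000400028001400000000000000000000000) := T_16 (nat_lit 111) (nat_lit 94) (nat_lit 4) (nat_lit 10) (nat_lit 9) L28582 (by decide +kernel)
theorem L28584 : W_16 (nat_lit 7) (nat_lit 0x4000200080005000280000000000000000000000000000000) (nat_lit 0x0) (nat_lit 0x10003800140008000400038001c00020000000000000000000) := Q_16 (nat_lit 112) (C_16 L28574 (C_16 L28583 (C_16 L28248 (C_16 L28253 N_16)))) (by decide +kernel)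
theorem L28585 : W_16 (nat_lit 2) (nat_lit 0x140032000b0005000680000000000000000000000000000000) (nat_lit 0x0) (nat_lit 0x28000000000008000000000000000000000000000000000000) := D_16 (nat_lit 197) (nat_lit 195) (nat_lit 147) (nat_lit 2) (nat_lit 7) (nat_lit 11) (nat_lit 6) (nat_lit 10) (nat_lit 11) (by decide +kernel)
theorem L28586 : W_16 (nat_lit 3) (nat_lit 0x40032000b0005000680000000000000000000000000000000) (nat_lit 0x0) (nat_lit 0x38000800000008000000000000000000000000000000000000) := T_16 (nat_lit 196) (nat_lit 179) (nat_lit 5) (nat_lit 10) (nat_lit 7) L28585 (by decide +kernel)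
theorem L28587 : W_16 (nat_lit 4) (nat_lit 0x40032000b0005000280000000000000000000000000000000) (nat_lit 0x0) (nat_lit 0x38000800000008000400020000000000000000000000000000) := T_16 (nat_lit 130) (nat_lit 113) (nat_lit 6) (nat_lit 10) (nat_lit 10) L28586 (by decide +kernel)
theorem L28588 : W_16 (nat_lit 5) (nat_lit 0x4003200090005000280000000000000000000000000000000) (nat_lit 0x0) (nat_lit 0x38000800060008000400020000000000000000000000000000) := T_16 (nat_lit 161) (nat_lit 162) (nat_lit 3) (nat_lit 7) (nat_lit 9) L28587 (by decide +kernel)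
theorem L28589 : W_16 (nat_lit 6) (nat_lit 0x4001200090005000280000000000000000000000000000000) (nat_lit 0x0) (nat_lit 0x78002800060008000400020000000000000000000000000000) := T_16 (nat_lit 181) (nat_lit 198) (nat_lit 7) (nat_lit 10) (nat_lit 7) L28588 (by decide +kernel)
theorem L28590 : W_16 (nat_lit 7) (nat_lit 0x4001200080005000280000000000000000000000000000000) (nat_lit 0x0) (nat_lit 0x78002800070008800400020000000000000000000000000000) := T_16 (nat_lit 160) (nat_lit 143) (nat_lit 6) (nat_lit 7) (nat_lit 11) L28589 (by decide +kernel)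
theorem L28591 : W_16 (nat_lit 2) (nat_lit 0x44001a00080005000680000000000000000000000000000000) (nat_lit 0x0) (nat_lit 0x800020000000000008000000000000000000000000000000000000) := D_16 (nat_lit 197) (nat_lit 215) (nat_lit 147) (nat_lit 7) (nat_lit 10) (nat_lit 8) (nat_lit 6) (nat_lit 10) (nat_lit 11) (by decide +kernel)
theorem L28592 : W_16 (nat_lit 3) (nat_lit 0x44001a00080005000280000000000000000000000000000000) (nat_lit 0x0) (nat_lit 0x800020000000000008000400020000000000000000000000000000) := T_16 (nat_lit 130) (nat_lit 113) (nat_lit 6) (nat_lit 10) (nat_lit 10) L28591 (by decide +kernel)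
theorem L28593 : W_16 (nat_lit 4) (nat_lit 0x4001a00080005000280000000000000000000000000000000) (nat_lit 0x0) (nat_lit 0x800060002000000008000400020000000000000000000000000000) := T_16 (nat_lit 198) (nat_lit 181) (nat_lit 7) (nat_lit 10) (nat_lit 7) L28592 (by decide +kernel)
theorem L28594 : W_16 (nat_lit 5) (nat_lit 0x4001200080005000280000000000000000000000000000000) (nat_lit 0x0) (nat_lit 0x800070002800000008000400020000000000000000000000000000) := T_16 (nat_lit 179) (nat_lit 196) (nat_lit 5) (nat_lit 10) (nat_lit 7) L28593 (by decide +kernel)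
theorem L28595 : W_16 (nat_lit 2) (nat_lit 0x14003200080005000280000000000000000000000000000000) (nat_lit 0x0) (nat_lit 0x200028000000000000000000000000000000000000000000000000) := D_16 (nat_lit 197) (nat_lit 195) (nat_lit 213) (nat_lit 2) (nat_lit 7) (nat_lit 11) (nat_lit 5) (nat_lit 10) (nat_lit 8) (by decide +kernel)
theorem L28596 : W_16 (nat_lit 3) (nat_lit 0x4003200080005000280000000000000000000000000000000) (nat_lit 0x0) (nat_lit 0x200038000800000000000000000000000000000000000000000000) := T_16 (nat_lit 196) (nat_lit 179) (nat_lit 5) (nat_lit 10) (nat_lit 7) L28595 (by decide +kernel)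
theorem L28597 : W_16 (nat_lit 4) (nat_lit 0x4001200080005000280000000000000000000000000000000) (nat_lit 0x0) (nat_lit 0x200078002800000000000000000000000000000000000000000000) := T_16 (nat_lit 181) (nat_lit 198) (nat_lit 7) (nat_lit 10) (nat_lit 7) L28596 (by decide +kernel)
theorem L28598 : W_16 (nat_lit 5) (nat_lit 0x40072000d000d000680000000000000000000000000000000) (nat_lit 0x0) (nat_lit 0x80000000100070003800040000000000000000000000000000) := T_16 (nat_lit 149) (nat_lit 148) (nat_lit 1) (nat_lit 13) (nat_lit 8) L25475 (by decide +kernel)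
theorem L28599 : W_16 (nat_lit 6) (nat_lit 0x40032000d000d000680000000000000000000000000000000) (nat_lit 0x0) (nat_lit 0x8000c000100070003800040000000000000000000000000000) := T_16 (nat_lit 182) (nat_lit 183) (nat_lit 0) (nat_lit 13) (nat_lit 10) L28598 (by decide +kernel)
theorem L28600 : W_16 (nat_lit 7) (nat_lit 0x400320009000d000680000000000000000000000000000000) (nat_lit 0x0) (nat_lit 0x8000c000160070003800040000000000000000000000000000) := T_16 (nat_lit 162) (nat_lit 161) (nat_lit 3) (nat_lit 7) (nat_lit 9) L28599 (by decide +kernel)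
theorem L28601 : W_16 (nat_lit 8) (nat_lit 0x400320008000d000680000000000000000000000000000000) (nat_lit 0x0) (nat_lit 0x8000c000170070803800040000000000000000000000000000) := T_16 (nat_lit 160) (nat_lit 143) (nat_lit 6) (nat_lit 7) (nat_lit 11) L28600 (by decide +kernel)
theorem L28602 : W_16 (nat_lit 9) (nat_lit 0x4003200080005000680000000000000000000000000000000) (nat_lit 0x0) (nat_lit 0xa000c000170078803800040000000000000000000000000000) := T_16 (nat_lit 147) (nat_lit 197) (nat_lit 6) (nat_lit 10) (nat_lit 11) L28601 (by decide +kernel)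
theorem L28603 : W_16 (nat_lit 10) (nat_lit 0x4001200080005000680000000000000000000000000000000) (nat_lit 0x0) (nat_lit 0xe000e000170078803800040000000000000000000000000000) := T_16 (nat_lit 181) (nat_lit 198) (nat_lit 7) (nat_lit 10) (nat_lit 7) L28602 (by decide +kernel)
theorem L28604 : W_16 (nat_lit 11) (nat_lit 0x4001200080005000280000000000000000000000000000000) (nat_lit 0x0) (nat_lit 0xe000e000170078803c00060000000000000000000000000000) := T_16 (nat_lit 130) (nat_lit 113) (nat_lit 6) (nat_lit 10) (nat_lit 10) L28603 (by decide +kernel)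
theorem L28605 : W_16 (nat_lit 3) (nat_lit 0x84007a000d0005000680000000000000000000000000000000) (nat_lit 0x0) (nat_lit 0x700018000000000000000000000000000000000000) := T_16 (nat_lit 165) (nat_lit 166) (nat_lit 2) (nat_lit 9) (nat_lit 10) L25503 (by decide +kernel)
theorem L28606 : W_16 (nat_lit 4) (nat_lit 0x4007a000d0005000680000000000000000000000000000000) (nat_lit 0x0) (nat_lit 0x180000000700018000000000000000000000000000000000000) := T_16 (nat_lit 199) (nat_lit 200) (nat_lit 3) (nat_lit 9) (nat_lit 10) L28605 (by decide +kernel)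
theorem L28607 : W_16 (nat_lit 5) (nat_lit 0x4007a000d0005000280000000000000000000000000000000) (nat_lit 0x0) (nat_lit 0x180000000700018000400020000000000000000000000000000) := T_16 (nat_lit 130) (nat_lit 113) (nat_lit 6) (nat_lit 10) (nat_lit 10) L28606 (by decide +kernel)
theorem L28608 : W_16 (nat_lit 6) (nat_lit 0x4003a000d0005000280000000000000000000000000000000) (nat_lit 0x0) (nat_lit 0x18000c000700018000400020000000000000000000000000000) := T_16 (nat_lit 182) (nat_lit 183) (nat_lit 0) (nat_lit 13) (nat_lit 10) L28607 (by decide +kernel)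
theorem L28609 : W_16 (nat_lit 7) (nat_lit 0x4003a00090005000280000000000000000000000000000000) (nat_lit 0x0) (nat_lit 0x18000c000760018000400020000000000000000000000000000) := T_16 (nat_lit 162) (nat_lit 161) (nat_lit 3) (nat_lit 7) (nat_lit 9) L28608 (by decide +kernel)
theorem L28610 : W_16 (nat_lit 8) (nat_lit 0x4003a00080005000280000000000000000000000000000000) (nat_lit 0x0) (nat_lit 0x18000c000770018800400020000000000000000000000000000) := T_16 (nat_lit 160) (nat_lit 143) (nat_lit 6) (nat_lit 7) (nat_lit 11) L28609 (by decide +kernel)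
theorem L28611 : W_16 (nat_lit 9) (nat_lit 0x4001a00080005000280000000000000000000000000000000) (nat_lit 0x0) (nat_lit 0x1c000e000770018800400020000000000000000000000000000) := T_16 (nat_lit 181) (nat_lit 198) (nat_lit 7) (nat_lit 10) (nat_lit 7) L28610 (by decide +kernel)
theorem L28612 : W_16 (nat_lit 10) (nat_lit 0x4001200080005000280000000000000000000000000000000) (nat_lit 0x0) (nat_lit 0x1d000e800770018800400020000000000000000000000000000) := T_16 (nat_lit 179) (nat_lit 196) (nat_lit 5) (nat_lit 10) (nat_lit 7) L28611 (by decide +kernel)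
theorem L28613 : W_16 (nat_lit 12) (nat_lit 0x4000200080005000280000000000000000000000000000000) (nat_lit 0x0) (nat_lit 0x8001c000e001f800f800770078803c00060000000000000000000000000000) := Q_16 (nat_lit 180) (C_16 L28590 (C_16 L28594 (C_16 L28597 (C_16 L28604 (C_16 L25490 (C_16 L25494 (C_16 L28612 N_16))))))) (by decide +kernel)
theorem L28614 : W_16 (nat_lit 2) (nat_lit 0x4000200090005000280010001800000000000000000000000) (nat_lit 0x0) (nat_lit 0x8000400020000000000000000000) := D_16 (nat_lit 94) (nat_lit 77) (nat_lit 111) (nat_lit 4) (nat_lit 10) (nat_lit 8) (nat_lit 4) (nat_lit 10) (nat_lit 9) (by decide +kernel)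
theorem L28615 : W_16 (nat_lit 3) (nat_lit 0x4000200090005000280010001000000000000000000000000) (nat_lit 0x0) (nat_lit 0x8000c000a0000000000000000000) := T_16 (nat_lit 95) (nat_lit 79) (nat_lit 6) (nat_lit 10) (nat_lit 8) L28614 (by decide +kernel)
theorem L28616 : W_16 (nat_lit 4) (nat_lit 0x4000200090005000280010000000000000000000000000000) (nat_lit 0x0) (nat_lit 0x28001c000a0000000000000000000) := T_16 (nat_lit 96) (nat_lit 113) (nat_lit 6) (nat_lit 10) (nat_lit 9) L28615 (by decide +kernel)
theorem L28617 : W_16 (nat_lit 5) (nat_lit 0x4000200080005000280010000000000000000000000000000) (nat_lit 0x0) (nat_lit 0x10000800000028001c000a0000000000000000000) := T_16 (nat_lit 160) (nat_lit 143) (nat_lit 6) (nat_lit 7) (nat_lit 11) L28616 (by decide +kernel)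
theorem L28618 : W_16 (nat_lit 2) (nat_lit 0x40002000c0005800280018000000000000000000000000000) (nat_lit 0x0) (nat_lit 0x2000120000000000000000000000000000000000000000) := D_16 (nat_lit 164) (nat_lit 181) (nat_lit 161) (nat_lit 7) (nat_lit 10) (nat_lit 6) (nat_lit 0) (nat_lit 11) (nat_lit 9) (by decide +kernel)
theorem L28619 : W_16 (nat_lit 3) (nat_lit 0x40002000c0005000280018000000000000000000000000000) (nat_lit 0x0) (nat_lit 0x2000130000800000000000000000000000000000000000) := T_16 (nat_lit 143) (nat_lit 160) (nat_lit 6) (nat_lit 7) (nat_lit 11) L28618 (by decide +kernel)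
theorem L28620 : W_16 (nat_lit 4) (nat_lit 0x40002000c0005000280010000000000000000000000000000) (nat_lit 0x0) (nat_lit 0x2000130000800000008000400000000000000000000000) := T_16 (nat_lit 111) (nat_lit 94) (nat_lit 4) (nat_lit 10) (nat_lit 9) L28619 (by decide +kernel)
theorem L28621 : W_16 (nat_lit 5) (nat_lit 0x4000200080005000280010000000000000000000000000000) (nat_lit 0x0) (nat_lit 0x2800170000800000008000400000000000000000000000) := T_16 (nat_lit 162) (nat_lit 179) (nat_lit 5) (nat_lit 10) (nat_lit 6) L28620 (by decide +kernel)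
theorem L28622 : W_16 (nat_lit 6) (nat_lit 0x4000200080005000280000000000000000000000000000000) (nat_lit 0x0) (nat_lit 0x2800170008800000038001c000a0000000000000000000) := Q_16 (nat_lit 112) (C_16 L28248 (C_16 L28617 (C_16 L28403 (C_16 L28621 N_16)))) (by decide +kernel)
theorem L28623 : W_16 (nat_lit 2) (nat_lit 0x40002000d000d000280018000800040000000000000000000) (nat_lit 0x0) (nat_lit 0x1000080004000000000000000) := D_16 (nat_lit 79) (nat_lit 62) (nat_lit 96) (nat_lit 6) (nat_lit 10) (nat_lit 7) (nat_lit 6) (nat_lit 10) (nat_lit 8) (by decide +kernel)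
theorem L28624 : W_16 (nat_lit 3) (nat_lit 0x40002000d000d000280018000800000000000000000000000) (nat_lit 0x0) (nat_lit 0x4000000010000c0004000000000000000) := T_16 (nat_lit 78) (nat_lit 130) (nat_lit 7) (nat_lit 10) (nat_lit 4) L28623 (by decide +kernel)
theorem L28625 : W_16 (nat_lit 4) (nat_lit 0x40002000d000d000280018000000000000000000000000000) (nat_lit 0x0) (nat_lit 0x1000000004000000018000c0004000000000000000) := T_16 (nat_lit 95) (nat_lit 164) (nat_lit 7) (nat_lit 10) (nat_lit 5) L28624 (by decide +kernel)
theorem L28626 : W_16 (nat_lit 5) (nat_lit 0x40002000d000d000280010000000000000000000000000000) (nat_lit 0x0) (nat_lit 0x100000000400008001c000c0004000000000000000) := T_16 (nat_lit 111) (nat_lit 94) (nat_lit 4) (nat_lit 10) (nat_lit 9) L28625 (by decide +kernel)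
theorem L28627 : W_16 (nat_lit 6) (nat_lit 0x40002000d0005000280010000000000000000000000000000) (nat_lit 0x0) (nat_lit 0x120008000400008001c000c0004000000000000000) := T_16 (nat_lit 147) (nat_lit 161) (nat_lit 2) (nat_lit 7) (nat_lit 9) L28626 (by decide +kernel)
theorem L28628 : W_16 (nat_lit 7) (nat_lit 0x4000200090005000280010000000000000000000000000000) (nat_lit 0x0) (nat_lit 0x800160008000400008001c000c0004000000000000000) := T_16 (nat_lit 162) (nat_lit 179) (nat_lit 5) (nat_lit 10) (nat_lit 6) L28627 (by decide +kernel)
theorem L28629 : W_16 (nat_lit 8) (nat_lit 0x4000200080005000280010000000000000000000000000000) (nat_lit 0x0) (nat_lit 0x800170008800400008001c000c0004000000000000000) := T_16 (nat_lit 160) (nat_lit 143) (nat_lit 6) (nat_lit 7) (nat_lit 11) L28628 (by decide +kernel)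
theorem L28630 : W_16 (nat_lit 2) (nat_lit 0x40002000d002d000280018000800040006000000000000000) (nat_lit 0x0) (nat_lit 0x20001000080000000000) := D_16 (nat_lit 60) (nat_lit 43) (nat_lit 77) (nat_lit 4) (nat_lit 10) (nat_lit 6) (nat_lit 4) (nat_lit 10) (nat_lit 7) (by decide +kernel)
theorem L28631 : W_16 (nat_lit 3) (nat_lit 0x40002000d002d000280018000800040004000000000000000) (nat_lit 0x0) (nat_lit 0x20003000280000000000) := T_16 (nat_lit 61) (nat_lit 45) (nat_lit 6) (nat_lit 10) (nat_lit 6) L28630 (by decide +kernel)
theorem L28632 : W_16 (nat_lit 4) (nat_lit 0x40002000d002d000280018000800040000000000000000000) (nat_lit 0x0) (nat_lit 0xa0007000280000000000) := T_16 (nat_lit 62) (nat_lit 79) (nat_lit 6) (nat_lit 10) (nat_lit 7) L28631 (by decide +kernel)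
theorem L28633 : W_16 (nat_lit 5) (nat_lit 0x40002000d002d000280018000800000000000000000000000) (nat_lit 0x0) (nat_lit 0x4000000000000e0007000280000000000) := T_16 (nat_lit 78) (nat_lit 130) (nat_lit 7) (nat_lit 10) (nat_lit 4) L28632 (by decide +kernel)
theorem L28634 : W_16 (nat_lit 6) (nat_lit 0x40002000d002d000280018000000000000000000000000000) (nat_lit 0x0) (nat_lit 0x1000000004000000008000e0007000280000000000) := T_16 (nat_lit 95) (nat_lit 164) (nat_lit 7) (nat_lit 10) (nat_lit 5) L28633 (by decide +kernel)
theorem L28635 : W_16 (nat_lit 7) (nat_lit 0x40002000d000d000280018000000000000000000000000000) (nat_lit 0x0) (nat_lit 0x1000300004000000008000e0007000280000000000) := T_16 (nat_lit 149) (nat_lit 148) (nat_lit 1) (nat_lit 13) (nat_lit 8) L28634 (by decide +kernel)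
theorem L28636 : W_16 (nat_lit 8) (nat_lit 0x40002000d0005000280018000000000000000000000000000) (nat_lit 0x0) (nat_lit 0x1200380004000000008000e0007000280000000000) := T_16 (nat_lit 147) (nat_lit 161) (nat_lit 2) (nat_lit 7) (nat_lit 9) L28635 (by decide +kernel)
theorem L28637 : W_16 (nat_lit 9) (nat_lit 0x4000200090005000280018000000000000000000000000000) (nat_lit 0x0) (nat_lit 0x8001600380004000000008000e0007000280000000000) := T_16 (nat_lit 162) (nat_lit 179) (nat_lit 5) (nat_lit 10) (nat_lit 6) L28636 (by decide +kernel)
theorem L28638 : W_16 (nat_lit 10) (nat_lit 0x4000200080005000280018000000000000000000000000000) (nat_lit 0x0) (nat_lit 0x8001700388004000000008000e0007000280000000000) := T_16 (nat_lit 160) (nat_lit 143) (nat_lit 6) (nat_lit 7) (nat_lit 11) L28637 (by decide +kernel)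
theorem L28639 : W_16 (nat_lit 11) (nat_lit 0x4000200080005000280010000000000000000000000000000) (nat_lit 0x0) (nat_lit 0x800170038800400008000c000e0007000280000000000) := T_16 (nat_lit 111) (nat_lit 94) (nat_lit 4) (nat_lit 10) (nat_lit 9) L28638 (by decide +kernel)
theorem L28640 : W_16 (nat_lit 12) (nat_lit 0x4000200080005000280000000000000000000000000000000) (nat_lit 0x0) (nat_lit 0x10001800170038800400038001c000e0007000280000000000) := Q_16 (nat_lit 112) (C_16 L28617 (C_16 L28583 (C_16 L28629 (C_16 L28639 (C_16 L28462 N_16))))) (by decide +kernel)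
theorem L28641 : W_16 (nat_lit 4) (nat_lit 0x4003200090005000680000000000000000000000000000000) (nat_lit 0x0) (nat_lit 0x200038000000060008000000000000000000000000000000000000) := T_16 (nat_lit 161) (nat_lit 162) (nat_lit 3) (nat_lit 7) (nat_lit 9) L25520 (by decide +kernel)
theorem L28642 : W_16 (nat_lit 5) (nat_lit 0x4003200080005000680000000000000000000000000000000) (nat_lit 0x0) (nat_lit 0x200038000000070008800000000000000000000000000000000000) := T_16 (nat_lit 160) (nat_lit 143) (nat_lit 6) (nat_lit 7) (nat_lit 11) L28641 (by decide +kernel)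
theorem L28643 : W_16 (nat_lit 6) (nat_lit 0x4003200080005000280000000000000000000000000000000) (nat_lit 0x0) (nat_lit 0x200038000000070008800400020000000000000000000000000000) := T_16 (nat_lit 130) (nat_lit 113) (nat_lit 6) (nat_lit 10) (nat_lit 10) L28642 (by decide +kernel)
theorem L28644 : W_16 (nat_lit 7) (nat_lit 0x4001200080005000280000000000000000000000000000000) (nat_lit 0x0) (nat_lit 0x200078002000070008800400020000000000000000000000000000) := T_16 (nat_lit 181) (nat_lit 198) (nat_lit 7) (nat_lit 10) (nat_lit 7) L28643 (by decide +kernel)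
theorem L28645 : W_16 (nat_lit 2) (nat_lit 0x400b2000d000d000680010000400000000000000000000000) (nat_lit 0x0) (nat_lit 0x800060000000000000000000) := D_16 (nat_lit 95) (nat_lit 78) (nat_lit 77) (nat_lit 7) (nat_lit 10) (nat_lit 4) (nat_lit 4) (nat_lit 10) (nat_lit 8) (by decide +kernel)
theorem L28646 : W_16 (nat_lit 3) (nat_lit 0x400b2000d000d000680010000000000000000000000000000) (nat_lit 0x0) (nat_lit 0x8000c00060000000000000000000) := T_16 (nat_lit 94) (nat_lit 111) (nat_lit 4) (nat_lit 10) (nat_lit 9) L28645 (by decide +kernel)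
theorem L28647 : W_16 (nat_lit 4) (nat_lit 0x400b2000d000d000680000000000000000000000000000000) (nat_lit 0x0) (nat_lit 0x800000000000000018000c00060000000000000000000) := T_16 (nat_lit 112) (nat_lit 179) (nat_lit 5) (nat_lit 10) (nat_lit 6) L28646 (by decide +kernel)
theorem L28648 : W_16 (nat_lit 5) (nat_lit 0x40032000d000d000680000000000000000000000000000000) (nat_lit 0x0) (nat_lit 0xc800000000000000018000c00060000000000000000000) := T_16 (nat_lit 183) (nat_lit 182) (nat_lit 0) (nat_lit 13) (nat_lit 10) L28647 (by decide +kernel)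
theorem L28649 : W_16 (nat_lit 6) (nat_lit 0x400320009000d000680000000000000000000000000000000) (nat_lit 0x0) (nat_lit 0xc800060000000000018000c00060000000000000000000) := T_16 (nat_lit 162) (nat_lit 161) (nat_lit 3) (nat_lit 7) (nat_lit 9) L28648 (by decide +kernel)
theorem L28650 : W_16 (nat_lit 7) (nat_lit 0x400320008000d000680000000000000000000000000000000) (nat_lit 0x0) (nat_lit 0xc800070000800000018000c00060000000000000000000) := T_16 (nat_lit 160) (nat_lit 143) (nat_lit 6) (nat_lit 7) (nat_lit 11) L28649 (by decide +kernel)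
theorem L28651 : W_16 (nat_lit 8) (nat_lit 0x4003200080005000680000000000000000000000000000000) (nat_lit 0x0) (nat_lit 0x2000c800070008800000018000c00060000000000000000000) := T_16 (nat_lit 147) (nat_lit 197) (nat_lit 6) (nat_lit 10) (nat_lit 11) L28650 (by decide +kernel)
theorem L28652 : W_16 (nat_lit 9) (nat_lit 0x4001200080005000680000000000000000000000000000000) (nat_lit 0x0) (nat_lit 0x6000e800070008800000018000c00060000000000000000000) := T_16 (nat_lit 181) (nat_lit 198) (nat_lit 7) (nat_lit 10) (nat_lit 7) L28651 (by decide +kernel)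
theorem L28653 : W_16 (nat_lit 10) (nat_lit 0x4001200080005000280000000000000000000000000000000) (nat_lit 0x0) (nat_lit 0x6000e800070008800400038000c00060000000000000000000) := T_16 (nat_lit 130) (nat_lit 113) (nat_lit 6) (nat_lit 10) (nat_lit 10) L28652 (by decide +kernel)
theorem L28654 : W_16 (nat_lit 2) (nat_lit 0x4001a00090005000280010000000000000000000000000000) (nat_lit 0x0) (nat_lit 0x400020001000000000000000000000000) := D_16 (nat_lit 113) (nat_lit 130) (nat_lit 96) (nat_lit 6) (nat_lit 10) (nat_lit 10) (nat_lit 6) (nat_lit 10) (nat_lit 9) (by decide +kernel)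
theorem L28655 : W_16 (nat_lit 3) (nat_lit 0x4001a00090005000280000000000000000000000000000000) (nat_lit 0x0) (nat_lit 0x40000000400030001000000000000000000000000) := T_16 (nat_lit 112) (nat_lit 162) (nat_lit 5) (nat_lit 10) (nat_lit 6) L28654 (by decide +kernel)
theorem L28656 : W_16 (nat_lit 4) (nat_lit 0x4001200090005000280000000000000000000000000000000) (nat_lit 0x0) (nat_lit 0x10000800040000000400030001000000000000000000000000) := T_16 (nat_lit 179) (nat_lit 196) (nat_lit 5) (nat_lit 10) (nat_lit 7) L28655 (by decide +kernel)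
theorem L28657 : W_16 (nat_lit 5) (nat_lit 0x4001200080005000280000000000000000000000000000000) (nat_lit 0x0) (nat_lit 0x10000800050000800400030001000000000000000000000000) := T_16 (nat_lit 160) (nat_lit 143) (nat_lit 6) (nat_lit 7) (nat_lit 11) L28656 (by decide +kernel)
theorem L28658 : W_16 (nat_lit 11) (nat_lit 0x4000200080005000280000000000000000000000000000000) (nat_lit 0x0) (nat_lit 0x20007800f800070008800400038001c00060000000000000000000) := Q_16 (nat_lit 180) (C_16 L25494 (C_16 L28597 (C_16 L28644 (C_16 L28653 (C_16 L28657 N_16))))) (by decide +kernel)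
theorem L28659 : W_16 (nat_lit 2) (nat_lit 0x40002000d002d000280010000c00080000000000000000000) (nat_lit 0x0) (nat_lit 0x400000000000040004000000000000000) := D_16 (nat_lit 78) (nat_lit 62) (nat_lit 130) (nat_lit 6) (nat_lit 10) (nat_lit 7) (nat_lit 7) (nat_lit 10) (nat_lit 4) (by decide +kernel)
theorem L28660 : W_16 (nat_lit 3) (nat_lit 0x40002000d002d000280010000c00000000000000000000000) (nat_lit 0x0) (nat_lit 0x4000000010000c0004000000000000000) := T_16 (nat_lit 79) (nat_lit 96) (nat_lit 6) (nat_lit 10) (nat_lit 8) L28659 (by decide +kernel)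
theorem L28661 : W_16 (nat_lit 4) (nat_lit 0x40002000d002d000280010000400000000000000000000000) (nat_lit 0x0) (nat_lit 0x4000000018000e0004000000000000000) := T_16 (nat_lit 95) (nat_lit 77) (nat_lit 4) (nat_lit 10) (nat_lit 8) L28660 (by decide +kernel)
theorem L28662 : W_16 (nat_lit 5) (nat_lit 0x40002000d002d000280010000000000000000000000000000) (nat_lit 0x0) (nat_lit 0x400008001c000e0004000000000000000) := T_16 (nat_lit 94) (nat_lit 111) (nat_lit 4) (nat_lit 10) (nat_lit 9) L28661 (by decide +kernel)
theorem L28663 : W_16 (nat_lit 6) (nat_lit 0x40002000d000d000280010000000000000000000000000000) (nat_lit 0x0) (nat_lit 0x30000400008001c000e0004000000000000000) := T_16 (nat_lit 149) (nat_lit 148) (nat_lit 1) (nat_lit 13) (nat_lit 8) L28662 (by decide +kernel)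
theorem L28664 : W_16 (nat_lit 7) (nat_lit 0x40002000d0005000280010000000000000000000000000000) (nat_lit 0x0) (nat_lit 0x20038000400008001c000e0004000000000000000) := T_16 (nat_lit 147) (nat_lit 161) (nat_lit 2) (nat_lit 7) (nat_lit 9) L28663 (by decide +kernel)
theorem L28665 : W_16 (nat_lit 8) (nat_lit 0x4000200090005000280010000000000000000000000000000) (nat_lit 0x0) (nat_lit 0x800060038000400008001c000e0004000000000000000) := T_16 (nat_lit 162) (nat_lit 179) (nat_lit 5) (nat_lit 10) (nat_lit 6) L28664 (by decide +kernel)
theorem L28666 : W_16 (nat_lit 9) (nat_lit 0x4000200080005000280010000000000000000000000000000) (nat_lit 0x0) (nat_lit 0x800070038800400008001c000e0004000000000000000) := T_16 (nat_lit 160) (nat_lit 143) (nat_lit 6) (nat_lit 7) (nat_lit 11) L28665 (by decide +kernel)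
theorem L28667 : W_16 (nat_lit 12) (nat_lit 0x4000200080005000280000000000000000000000000000000) (nat_lit 0x0) (nat_lit 0x3800170038800400018001c000e0007000280000000000) := Q_16 (nat_lit 112) (C_16 L28639 (C_16 L28248 (C_16 L28666 (C_16 L28621 (C_16 L28578 N_16))))) (by decide +kernel)
theorem L28668 : W_16 (nat_lit 2) (nat_lit 0x400034001200190005000280038000000000000000000000000000) (nat_lit 0x0) (nat_lit 0x800048000000000000000000000000000000000000000000000000) := D_16 (nat_lit 215) (nat_lit 195) (nat_lit 198) (nat_lit 3) (nat_lit 7) (nat_lit 11) (nat_lit 7) (nat_lit 10) (nat_lit 8) (by decide +kernel)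
theorem L28669 : W_16 (nat_lit 3) (nat_lit 0x34001200190005000280038000000000000000000000000000) (nat_lit 0x0) (nat_lit 0xc00048000000000008000000000000000000000000000000000000) := T_16 (nat_lit 214) (nat_lit 147) (nat_lit 6) (nat_lit 10) (nat_lit 12) L28668 (by decide +kernel)
theorem L28670 : W_16 (nat_lit 4) (nat_lit 0x14001200190005000280038000000000000000000000000000) (nat_lit 0x0) (nat_lit 0xe00068000000000008000000000000000000000000000000000000) := T_16 (nat_lit 197) (nat_lit 213) (nat_lit 5) (nat_lit 10) (nat_lit 8) L28669 (by decide +kernel)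
theorem L28671 : W_16 (nat_lit 5) (nat_lit 0x4001200190005000280038000000000000000000000000000) (nat_lit 0x0) (nat_lit 0xe00078000800000008000000000000000000000000000000000000) := T_16 (nat_lit 196) (nat_lit 179) (nat_lit 5) (nat_lit 10) (nat_lit 7) L28670 (by decide +kernel)
theorem L28672 : W_16 (nat_lit 6) (nat_lit 0x4000200190005000280038000000000000000000000000000) (nat_lit 0x0) (nat_lit 0xe00078001800000008000400000000000000000000000000000000) := T_16 (nat_lit 180) (nat_lit 130) (nat_lit 6) (nat_lit 10) (nat_lit 10) L28671 (by decide +kernel)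
theorem L28673 : W_16 (nat_lit 7) (nat_lit 0x4000200180005000280038000000000000000000000000000) (nat_lit 0x0) (nat_lit 0xe00078001800010008800400000000000000000000000000000000) := T_16 (nat_lit 160) (nat_lit 143) (nat_lit 6) (nat_lit 7) (nat_lit 11) L28672 (by decide +kernel)
theorem L28674 : W_16 (nat_lit 8) (nat_lit 0x4000200180005000280018000000000000000000000000000) (nat_lit 0x0) (nat_lit 0xe00078001800010008800400020001000000000000000000000000) := T_16 (nat_lit 113) (nat_lit 96) (nat_lit 6) (nat_lit 10) (nat_lit 9) L28673 (by decide +kernel)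
theorem L28675 : W_16 (nat_lit 9) (nat_lit 0x4000200180005000280010000000000000000000000000000) (nat_lit 0x0) (nat_lit 0xe00078001800010008800400028001400000000000000000000000) := T_16 (nat_lit 111) (nat_lit 94) (nat_lit 4) (nat_lit 10) (nat_lit 9) L28674 (by decide +kernel)
theorem L28676 : W_16 (nat_lit 10) (nat_lit 0x4000200080005000280010000000000000000000000000000) (nat_lit 0x0) (nat_lit 0xe00078003800110008800400028001400000000000000000000000) := T_16 (nat_lit 164) (nat_lit 181) (nat_lit 7) (nat_lit 10) (nat_lit 6) L28675 (by decide +kernel)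
theorem L28677 : W_16 (nat_lit 11) (nat_lit 0x4000200080005000280000000000000000000000000000000) (nat_lit 0x0) (nat_lit 0xe00078003800110008800400038001c000a0000000000000000000) := Q_16 (nat_lit 112) (C_16 L28617 (C_16 L28248 (C_16 L28403 (C_16 L28676 N_16)))) (by decide +kernel)
theorem L28678 : W_16 (nat_lit 2) (nat_lit 0x4003200080005000280018000000000000000000000000000) (nat_lit 0x0) (nat_lit 0x400020001000000000000000000000000) := D_16 (nat_lit 113) (nat_lit 130) (nat_lit 96) (nat_lit 6) (nat_lit 10) (nat_lit 10) (nat_lit 6) (nat_lit 10) (nat_lit 9) (by decide +kernel)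
theorem L28679 : W_16 (nat_lit 3) (nat_lit 0x4002200080005000280018000000000000000000000000000) (nat_lit 0x0) (nat_lit 0x40001000000000000400020001000000000000000000000000) := T_16 (nat_lit 180) (nat_lit 198) (nat_lit 7) (nat_lit 10) (nat_lit 7) L28678 (by decide +kernel)
theorem L28680 : W_16 (nat_lit 4) (nat_lit 0x4002200080005000280010000000000000000000000000000) (nat_lit 0x0) (nat_lit 0x40001000000000000400028001400000000000000000000000) := T_16 (nat_lit 111) (nat_lit 94) (nat_lit 4) (nat_lit 10) (nat_lit 9) L28679 (by decide +kernel)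
theorem L28681 : W_16 (nat_lit 5) (nat_lit 0x4000200080005000280010000000000000000000000000000) (nat_lit 0x0) (nat_lit 0x40003000100000000400028001400000000000000000000000) := T_16 (nat_lit 181) (nat_lit 164) (nat_lit 7) (nat_lit 10) (nat_lit 6) L28680 (by decide +kernel)
theorem L28682 : W_16 (nat_lit 6) (nat_lit 0x4000200080005000280000000000000000000000000000000) (nat_lit 0x0) (nat_lit 0x40003000110008800400038001c000a0000000000000000000) := Q_16 (nat_lit 112) (C_16 L28617 (C_16 L28248 (C_16 L28403 (C_16 L28681 N_16)))) (by decide +kernel)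
theorem L28683 : W_16 (nat_lit 6) (nat_lit 0x4000200080005000280000000000000000000000000000000) (nat_lit 0x0) (nat_lit 0x50003800170000800400038001c000a0000000000000000000) := Q_16 (nat_lit 112) (C_16 L28681 (C_16 L28621 (C_16 L28617 (C_16 L28462 N_16)))) (by decide +kernel)
theorem L28684 : W_16 (nat_lit 13) (nat_lit 0x4000200080001000280000000000000000000000000000000) (nat_lit 0x0) (nat_lit 0x8001c000e001f800f80077007c803c00078001c000e0007000280000000000) := Q_16 (nat_lit 146) (C_16 L28579 (C_16 L28584 (C_16 L28613 (C_16 L28622 (C_16 L28640 (C_16 L28658 (C_16 L28667 (C_16 L28677 (C_16 L28682 (C_16 L28683 N_16)))))))))) (by decide +kernel)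
theorem L28685 : W_16 (nat_lit 2) (nat_lit 0x40002000e0005000280000000000000000000000000000000) (nat_lit 0x0) (nat_lit 0x10008800000000000000000000000000000000000) := D_16 (nat_lit 160) (nat_lit 143) (nat_lit 147) (nat_lit 6) (nat_lit 7) (nat_lit 11) (nat_lit 2) (nat_lit 7) (nat_lit 9) (by decide +kernel)
theorem L28686 : W_16 (nat_lit 2) (nat_lit 0x40002000e000d000280000000000000000000000000000000) (nat_lit 0x0) (nat_lit 0x100030000000000000000000000000000000000000) := D_16 (nat_lit 148) (nat_lit 149) (nat_lit 164) (nat_lit 1) (nat_lit 13) (nat_lit 8) (nat_lit 2) (nat_lit 8) (nat_lit 9) (by decide +kernel)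
theorem L28687 : W_16 (nat_lit 3) (nat_lit 0x40002000e0005000280000000000000000000000000000000) (nat_lit 0x0) (nat_lit 0x110038000000000000000000000000000000000000) := T_16 (nat_lit 147) (nat_lit 160) (nat_lit 2) (nat_lit 7) (nat_lit 9) L28686 (by decide +kernel)
theorem L28688 : W_16 (nat_lit 2) (nat_lit 0x40002000e0005000280000000000000000000000000000000) (nat_lit 0x0) (nat_lit 0x110000800000000000000000000000000000000000) := D_16 (nat_lit 143) (nat_lit 160) (nat_lit 164) (nat_lit 6) (nat_lit 7) (nat_lit 11) (nat_lit 0) (nat_lit 11) (nat_lit 9) (by decide +kernel)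
theorem L28689 : W_16 (nat_lit 2) (nat_lit 0x4000200be000d0016800f0000000000000000000000000000) (nat_lit 0x0) (nat_lit 0x800008000400000000000000000000000) := D_16 (nat_lit 111) (nat_lit 131) (nat_lit 94) (nat_lit 3) (nat_lit 9) (nat_lit 6) (nat_lit 4) (nat_lit 10) (nat_lit 9) (by decide +kernel)
theorem L28690 : W_16 (nat_lit 3) (nat_lit 0x4000200be000d0006800f0000000000000000000000000000) (nat_lit 0x0) (nat_lit 0x3800008000400000000000000000000000) := T_16 (nat_lit 132) (nat_lit 133) (nat_lit 3) (nat_lit 10) (nat_lit 6) L28689 (by decide +kernel)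
theorem L28691 : W_16 (nat_lit 4) (nat_lit 0x40002003e000d0006800f0000000000000000000000000000) (nat_lit 0x0) (nat_lit 0xc00000003800008000400000000000000000000000) := T_16 (nat_lit 167) (nat_lit 166) (nat_lit 0) (nat_lit 14) (nat_lit 9) L28690 (by decide +kernel)
theorem L28692 : W_16 (nat_lit 5) (nat_lit 0x40002001e000d0006800f0000000000000000000000000000) (nat_lit 0x0) (nat_lit 0x4000e00000003800008000400000000000000000000000) := T_16 (nat_lit 165) (nat_lit 182) (nat_lit 7) (nat_lit 11) (nat_lit 6) L28691 (by decide +kernel)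
theorem L28693 : W_16 (nat_lit 6) (nat_lit 0x40002001e000d000680070000000000000000000000000000) (nat_lit 0x0) (nat_lit 0x4000e00000003800188000400000000000000000000000) := T_16 (nat_lit 115) (nat_lit 116) (nat_lit 1) (nat_lit 14) (nat_lit 6) L28692 (by decide +kernel)
theorem L28694 : W_16 (nat_lit 7) (nat_lit 0x40002001e000d000680030000000000000000000000000000) (nat_lit 0x0) (nat_lit 0x4000e000000038001c8002400000000000000000000000) := T_16 (nat_lit 114) (nat_lit 97) (nat_lit 6) (nat_lit 11) (nat_lit 9) L28693 (by decide +kernel)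
theorem L28695 : W_16 (nat_lit 8) (nat_lit 0x40002001e000d000280030000000000000000000000000000) (nat_lit 0x0) (nat_lit 0x5000e00000003c001c8002400000000000000000000000) := T_16 (nat_lit 130) (nat_lit 180) (nat_lit 6) (nat_lit 10) (nat_lit 10) L28694 (by decide +kernel)
theorem L28696 : W_16 (nat_lit 9) (nat_lit 0x40002001e000d000280010000000000000000000000000000) (nat_lit 0x0) (nat_lit 0x5000e00000003c001e8003400000000000000000000000) := T_16 (nat_lit 113) (nat_lit 96) (nat_lit 6) (nat_lit 10) (nat_lit 9) L28695 (by decide +kernel)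
theorem L28697 : W_16 (nat_lit 10) (nat_lit 0x40002001e000d000280000000000000000000000000000000) (nat_lit 0x0) (nat_lit 0x5000e00000003c001f8003c00000000000000000000000) := T_16 (nat_lit 112) (nat_lit 95) (nat_lit 7) (nat_lit 10) (nat_lit 5) L28696 (by decide +kernel)
theorem L28698 : W_16 (nat_lit 11) (nat_lit 0x40002001e0005000280000000000000000000000000000000) (nat_lit 0x0) (nat_lit 0x5000e00018003c001f8003c00000000000000000000000) := T_16 (nat_lit 147) (nat_lit 148) (nat_lit 2) (nat_lit 8) (nat_lit 9) L28697 (by decide +kernel)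
theorem L28699 : W_16 (nat_lit 12) (nat_lit 0x40002000e0005000280000000000000000000000000000000) (nat_lit 0x0) (nat_lit 0x5000f00018803c001f8003c00000000000000000000000) := T_16 (nat_lit 164) (nat_lit 143) (nat_lit 0) (nat_lit 11) (nat_lit 9) L28698 (by decide +kernel)
theorem L28700 : W_16 (nat_lit 13) (nat_lit 0x40002000a0005000280000000000000000000000000000000) (nat_lit 0x0) (nat_lit 0x5000f50038803c001f8003c00000000000000000000000) := Q_16 (nat_lit 162) (C_16 L28685 (C_16 L28687 (C_16 L28688 (C_16 L28699 N_16)))) (by decide +kernel)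
theorem L28701 : W_16 (nat_lit 14) (nat_lit 0x4000200080005000280000000000000000000000000000000) (nat_lit 0x0) (nat_lit 0x5400f70038803c001f8003c00000000000000000000000) := T_16 (nat_lit 161) (nat_lit 178) (nat_lit 5) (nat_lit 8) (nat_lit 7) L28700 (by decide +kernel)
theorem L28702 : W_16 (nat_lit 2) (nat_lit 0x40002001a0005000280010000800000000000000000000000) (nat_lit 0x0) (nat_lit 0x8000400020000000000000000000) := D_16 (nat_lit 94) (nat_lit 111) (nat_lit 77) (nat_lit 4) (nat_lit 10) (nat_lit 9) (nat_lit 4) (nat_lit 10) (nat_lit 8) (by decide +kernel)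
theorem L28703 : W_16 (nat_lit 3) (nat_lit 0x40002001a0005000280010000000000000000000000000000) (nat_lit 0x0) (nat_lit 0x8000000008000c00020000000000000000000) := T_16 (nat_lit 95) (nat_lit 147) (nat_lit 7) (nat_lit 10) (nat_lit 5) L28702 (by decide +kernel)
theorem L28704 : W_16 (nat_lit 4) (nat_lit 0x40002000a0005000280010000000000000000000000000000) (nat_lit 0x0) (nat_lit 0x2000100008000000008000c00020000000000000000000) := T_16 (nat_lit 164) (nat_lit 181) (nat_lit 7) (nat_lit 10) (nat_lit 6) L28703 (by decide +kernel)
theorem L28705 : W_16 (nat_lit 5) (nat_lit 0x4000200080005000280010000000000000000000000000000) (nat_lit 0x0) (nat_lit 0x2400120008000000008000c00020000000000000000000) := T_16 (nat_lit 161) (nat_lit 178) (nat_lit 5) (nat_lit 8) (nat_lit 7) L28704 (by decide +kernel)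
theorem L28706 : W_16 (nat_lit 2) (nat_lit 0x40012000a0005000280038000000000000000000000000000) (nat_lit 0x0) (nat_lit 0x40002000100000000000000000000000000000000000000000) := D_16 (nat_lit 181) (nat_lit 164) (nat_lit 198) (nat_lit 7) (nat_lit 10) (nat_lit 6) (nat_lit 7) (nat_lit 10) (nat_lit 7) (by decide +kernel)
theorem L28707 : W_16 (nat_lit 3) (nat_lit 0x40002000a0005000280038000000000000000000000000000) (nat_lit 0x0) (nat_lit 0x40003000100000000400000000000000000000000000000000) := T_16 (nat_lit 180) (nat_lit 130) (nat_lit 6) (nat_lit 10) (nat_lit 10) L28706 (by decide +kernel)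
theorem L28708 : W_16 (nat_lit 4) (nat_lit 0x4000200080005000280038000000000000000000000000000) (nat_lit 0x0) (nat_lit 0x40003400120000000400000000000000000000000000000000) := T_16 (nat_lit 161) (nat_lit 178) (nat_lit 5) (nat_lit 8) (nat_lit 7) L28707 (by decide +kernel)
theorem L28709 : W_16 (nat_lit 5) (nat_lit 0x4000200080005000280018000000000000000000000000000) (nat_lit 0x0) (nat_lit 0x40003400120000000400020001000000000000000000000000) := T_16 (nat_lit 113) (nat_lit 96) (nat_lit 6) (nat_lit 10) (nat_lit 9) L28708 (by decide +kernel)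
theorem L28710 : W_16 (nat_lit 6) (nat_lit 0x4000200080005000280010000000000000000000000000000) (nat_lit 0x0) (nat_lit 0x40003400120000000400028001400000000000000000000000) := T_16 (nat_lit 111) (nat_lit 94) (nat_lit 4) (nat_lit 10) (nat_lit 9) L28709 (by decide +kernel)
theorem L28711 : W_16 (nat_lit 2) (nat_lit 0x40002000a0005000280010000c00000000000000000000000) (nat_lit 0x0) (nat_lit 0x20001000080000000000000000000) := D_16 (nat_lit 96) (nat_lit 113) (nat_lit 79) (nat_lit 6) (nat_lit 10) (nat_lit 9) (nat_lit 6) (nat_lit 10) (nat_lit 8) (by decide +kernel)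
theorem L28712 : W_16 (nat_lit 3) (nat_lit 0x40002000a0005000280010000400000000000000000000000) (nat_lit 0x0) (nat_lit 0x200018000a0000000000000000000) := T_16 (nat_lit 95) (nat_lit 77) (nat_lit 4) (nat_lit 10) (nat_lit 8) L28711 (by decide +kernel)
theorem L28713 : W_16 (nat_lit 4) (nat_lit 0x4000200080005000280010000400000000000000000000000) (nat_lit 0x0) (nat_lit 0x4000200000000000200018000a0000000000000000000) := T_16 (nat_lit 161) (nat_lit 178) (nat_lit 5) (nat_lit 8) (nat_lit 7) L28712 (by decide +kernel)
theorem L28714 : W_16 (nat_lit 5) (nat_lit 0x4000200080005000280010000000000000000000000000000) (nat_lit 0x0) (nat_lit 0x400020000000000028001c000a0000000000000000000) := T_16 (nat_lit 94) (nat_lit 111) (nat_lit 4) (nat_lit 10) (nat_lit 9) L28713 (by decide +kernel)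
theorem L28715 : W_16 (nat_lit 7) (nat_lit 0x4000200080005000280000000000000000000000000000000) (nat_lit 0x0) (nat_lit 0x40003400120008000400038001c000a0000000000000000000) := Q_16 (nat_lit 112) (C_16 L28287 (C_16 L28705 (C_16 L28710 (C_16 L28714 N_16)))) (by decide +kernel)
theorem L28716 : W_16 (nat_lit 2) (nat_lit 0x4000200190005000280010000800000000000000000000000) (nat_lit 0x0) (nat_lit 0x8000400020000000000000000000) := D_16 (nat_lit 94) (nat_lit 111) (nat_lit 77) (nat_lit 4) (nat_lit 10) (nat_lit 9) (nat_lit 4) (nat_lit 10) (nat_lit 8) (by decide +kernel)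
theorem L28717 : W_16 (nat_lit 3) (nat_lit 0x4000200190005000280010000000000000000000000000000) (nat_lit 0x0) (nat_lit 0x8000000008000c00020000000000000000000) := T_16 (nat_lit 95) (nat_lit 147) (nat_lit 7) (nat_lit 10) (nat_lit 5) L28716 (by decide +kernel)
theorem L28718 : W_16 (nat_lit 4) (nat_lit 0x4000200090005000280010000000000000000000000000000) (nat_lit 0x0) (nat_lit 0x2000100008000000008000c00020000000000000000000) := T_16 (nat_lit 164) (nat_lit 181) (nat_lit 7) (nat_lit 10) (nat_lit 6) L28717 (by decide +kernel)
theorem L28719 : W_16 (nat_lit 5) (nat_lit 0x4000200080005000280010000000000000000000000000000) (nat_lit 0x0) (nat_lit 0x2000110008800000008000c00020000000000000000000) := T_16 (nat_lit 160) (nat_lit 143) (nat_lit 6) (nat_lit 7) (nat_lit 11) L28718 (by decide +kernel)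
theorem L28720 : W_16 (nat_lit 2) (nat_lit 0x4001200090005000280038000000000000000000000000000) (nat_lit 0x0) (nat_lit 0x40002000100000000000000000000000000000000000000000) := D_16 (nat_lit 181) (nat_lit 164) (nat_lit 198) (nat_lit 7) (nat_lit 10) (nat_lit 6) (nat_lit 7) (nat_lit 10) (nat_lit 7) (by decide +kernel)
theorem L28721 : W_16 (nat_lit 3) (nat_lit 0x4000200090005000280038000000000000000000000000000) (nat_lit 0x0) (nat_lit 0x40003000100000000400000000000000000000000000000000) := T_16 (nat_lit 180) (nat_lit 130) (nat_lit 6) (nat_lit 10) (nat_lit 10) L28720 (by decide +kernel)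
theorem L28722 : W_16 (nat_lit 4) (nat_lit 0x4000200080005000280038000000000000000000000000000) (nat_lit 0x0) (nat_lit 0x40003000110000800400000000000000000000000000000000) := T_16 (nat_lit 160) (nat_lit 143) (nat_lit 6) (nat_lit 7) (nat_lit 11) L28721 (by decide +kernel)
theorem L28723 : W_16 (nat_lit 5) (nat_lit 0x4000200080005000280018000000000000000000000000000) (nat_lit 0x0) (nat_lit 0x40003000110000800400020001000000000000000000000000) := T_16 (nat_lit 113) (nat_lit 96) (nat_lit 6) (nat_lit 10) (nat_lit 9) L28722 (by decide +kernel)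
theorem L28724 : W_16 (nat_lit 6) (nat_lit 0x4000200080005000280010000000000000000000000000000) (nat_lit 0x0) (nat_lit 0x40003000110000800400028001400000000000000000000000) := T_16 (nat_lit 111) (nat_lit 94) (nat_lit 4) (nat_lit 10) (nat_lit 9) L28723 (by decide +kernel)
theorem L28725 : W_16 (nat_lit 2) (nat_lit 0x4000200090005000280010000c00000000000000000000000) (nat_lit 0x0) (nat_lit 0x20001000080000000000000000000) := D_16 (nat_lit 96) (nat_lit 113) (nat_lit 79) (nat_lit 6) (nat_lit 10) (nat_lit 9) (nat_lit 6) (nat_lit 10) (nat_lit 8) (by decide +kernel)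
theorem L28726 : W_16 (nat_lit 3) (nat_lit 0x4000200090005000280010000400000000000000000000000) (nat_lit 0x0) (nat_lit 0x200018000a0000000000000000000) := T_16 (nat_lit 95) (nat_lit 77) (nat_lit 4) (nat_lit 10) (nat_lit 8) L28725 (by decide +kernel)
theorem L28727 : W_16 (nat_lit 4) (nat_lit 0x4000200080005000280010000400000000000000000000000) (nat_lit 0x0) (nat_lit 0x100008000000200018000a0000000000000000000) := T_16 (nat_lit 160) (nat_lit 143) (nat_lit 6) (nat_lit 7) (nat_lit 11) L28726 (by decide +kernel)
theorem L28728 : W_16 (nat_lit 5) (nat_lit 0x4000200080005000280010000000000000000000000000000) (nat_lit 0x0) (nat_lit 0x10000800000028001c000a0000000000000000000) := T_16 (nat_lit 94) (nat_lit 111) (nat_lit 4) (nat_lit 10) (nat_lit 9) L28727 (by decide +kernel)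
theorem L28729 : W_16 (nat_lit 7) (nat_lit 0x4000200080005000280000000000000000000000000000000) (nat_lit 0x0) (nat_lit 0x40003000110008800400038001c000a0000000000000000000) := Q_16 (nat_lit 112) (C_16 L28287 (C_16 L28719 (C_16 L28724 (C_16 L28728 N_16)))) (by decide +kernel)
theorem L28730 : W_16 (nat_lit 2) (nat_lit 0x40022000f0005000280000000000000000000000000000000) (nat_lit 0x0) (nat_lit 0x4000100000000000010000000000000000000000000000) := D_16 (nat_lit 164) (nat_lit 182) (nat_lit 112) (nat_lit 3) (nat_lit 8) (nat_lit 9) (nat_lit 7) (nat_lit 10) (nat_lit 6) (by decide +kernel)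
theorem L28731 : W_16 (nat_lit 3) (nat_lit 0x40002000f0005000280000000000000000000000000000000) (nat_lit 0x0) (nat_lit 0x7000100000000000010000000000000000000000000000) := T_16 (nat_lit 181) (nat_lit 180) (nat_lit 3) (nat_lit 7) (nat_lit 9) L28730 (by decide +kernel)
theorem L28732 : W_16 (nat_lit 4) (nat_lit 0x40002000b0005000280000000000000000000000000000000) (nat_lit 0x0) (nat_lit 0x7000140008000000010000000000000000000000000000) := T_16 (nat_lit 162) (nat_lit 147) (nat_lit 2) (nat_lit 7) (nat_lit 9) L28731 (by decide +kernel)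
theorem L28733 : W_16 (nat_lit 5) (nat_lit 0x4000200090005000280000000000000000000000000000000) (nat_lit 0x0) (nat_lit 0x7400160008000000010000000000000000000000000000) := T_16 (nat_lit 161) (nat_lit 178) (nat_lit 5) (nat_lit 8) (nat_lit 7) L28732 (by decide +kernel)
theorem L28734 : W_16 (nat_lit 6) (nat_lit 0x4000200080005000280000000000000000000000000000000) (nat_lit 0x0) (nat_lit 0x7400170008800000010000000000000000000000000000) := T_16 (nat_lit 160) (nat_lit 143) (nat_lit 6) (nat_lit 7) (nat_lit 11) L28733 (by decide +kernel)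
theorem L28735 : W_16 (nat_lit 4) (nat_lit 0x4003200080005000680000000000000000000000000000000) (nat_lit 0x0) (nat_lit 0x200038000000010008800000000000000000000000000000000000) := T_16 (nat_lit 160) (nat_lit 143) (nat_lit 6) (nat_lit 7) (nat_lit 11) L28530 (by decide +kernel)
theorem L28736 : W_16 (nat_lit 5) (nat_lit 0x4003200080005000280000000000000000000000000000000) (nat_lit 0x0) (nat_lit 0x200038000000010008800400020000000000000000000000000000) := T_16 (nat_lit 130) (nat_lit 113) (nat_lit 6) (nat_lit 10) (nat_lit 10) L28735 (by decide +kernel)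
theorem L28737 : W_16 (nat_lit 6) (nat_lit 0x4001200080005000280000000000000000000000000000000) (nat_lit 0x0) (nat_lit 0x200078002000010008800400020000000000000000000000000000) := T_16 (nat_lit 181) (nat_lit 198) (nat_lit 7) (nat_lit 10) (nat_lit 7) L28736 (by decide +kernel)
theorem L28738 : W_16 (nat_lit 2) (nat_lit 0x40032000a0005000280000000000000000000000000000000) (nat_lit 0x0) (nat_lit 0x50000800000000000000000000000000000000000) := D_16 (nat_lit 160) (nat_lit 162) (nat_lit 143) (nat_lit 3) (nat_lit 7) (nat_lit 9) (nat_lit 6) (nat_lit 7) (nat_lit 11) (by decide +kernel)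
theorem L28739 : W_16 (nat_lit 3) (nat_lit 0x40012000a0005000280000000000000000000000000000000) (nat_lit 0x0) (nat_lit 0x40002000050000800000000000000000000000000000000000) := T_16 (nat_lit 181) (nat_lit 198) (nat_lit 7) (nat_lit 10) (nat_lit 7) L28738 (by decide +kernel)
theorem L28740 : W_16 (nat_lit 4) (nat_lit 0x4001200080005000280000000000000000000000000000000) (nat_lit 0x0) (nat_lit 0x40002400070000800000000000000000000000000000000000) := T_16 (nat_lit 161) (nat_lit 178) (nat_lit 5) (nat_lit 8) (nat_lit 7) L28739 (by decide +kernel)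
theorem L28741 : W_16 (nat_lit 8) (nat_lit 0x4000200080005000280000000000000000000000000000000) (nat_lit 0x0) (nat_lit 0x10000e00078003400070008800400020000000000000000000000000000) := Q_16 (nat_lit 180) (C_16 L28737 (C_16 L28740 (C_16 L28276 (C_16 L28558 (C_16 L25579 N_16))))) (by decide +kernel)
theorem L28742 : W_16 (nat_lit 2) (nat_lit 0x40002001a0005800280010000800000000000000000000000) (nat_lit 0x0) (nat_lit 0x20001000080000000000000000000) := D_16 (nat_lit 96) (nat_lit 79) (nat_lit 113) (nat_lit 6) (nat_lit 10) (nat_lit 8) (nat_lit 6) (nat_lit 10) (nat_lit 9) (by decide +kernel)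
theorem L28743 : W_16 (nat_lit 3) (nat_lit 0x40002001a0005800280010000000000000000000000000000) (nat_lit 0x0) (nat_lit 0x8000000020001800080000000000000000000) := T_16 (nat_lit 95) (nat_lit 147) (nat_lit 7) (nat_lit 10) (nat_lit 5) L28742 (by decide +kernel)
theorem L28744 : W_16 (nat_lit 4) (nat_lit 0x40002001a0005800280000000000000000000000000000000) (nat_lit 0x0) (nat_lit 0x2000000008000000030001800080000000000000000000) := T_16 (nat_lit 112) (nat_lit 181) (nat_lit 7) (nat_lit 10) (nat_lit 6) L28743 (by decide +kernel)
theorem L28745 : W_16 (nat_lit 5) (nat_lit 0x40002000a0005800280000000000000000000000000000000) (nat_lit 0x0) (nat_lit 0x2000140008000000030001800080000000000000000000) := T_16 (nat_lit 164) (nat_lit 162) (nat_lit 0) (nat_lit 11) (nat_lit 9) L28744 (by decide +kernel)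
theorem L28746 : W_16 (nat_lit 6) (nat_lit 0x4000200080005800280000000000000000000000000000000) (nat_lit 0x0) (nat_lit 0x2400160008000000030001800080000000000000000000) := T_16 (nat_lit 161) (nat_lit 178) (nat_lit 5) (nat_lit 8) (nat_lit 7) L28745 (by decide +kernel)
theorem L28747 : W_16 (nat_lit 7) (nat_lit 0x4000200080005000280000000000000000000000000000000) (nat_lit 0x0) (nat_lit 0x2400170008800000030001800080000000000000000000) := T_16 (nat_lit 143) (nat_lit 160) (nat_lit 6) (nat_lit 7) (nat_lit 11) L28746 (by decide +kernel)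
theorem L28748 : W_16 (nat_lit 2) (nat_lit 0x40002001a0005800280010001400000000000000000000000) (nat_lit 0x0) (nat_lit 0x8000a0000000000000000000) := D_16 (nat_lit 95) (nat_lit 79) (nat_lit 77) (nat_lit 6) (nat_lit 10) (nat_lit 8) (nat_lit 4) (nat_lit 10) (nat_lit 8) (by decide +kernel)
theorem L28749 : W_16 (nat_lit 3) (nat_lit 0x40002001a0005800280010001000000000000000000000000) (nat_lit 0x0) (nat_lit 0x8000c000a0000000000000000000) := T_16 (nat_lit 94) (nat_lit 111) (nat_lit 4) (nat_lit 10) (nat_lit 9) L28748 (by decide +kernel)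
theorem L28750 : W_16 (nat_lit 4) (nat_lit 0x40002001a0005800280010000000000000000000000000000) (nat_lit 0x0) (nat_lit 0x28001c000a0000000000000000000) := T_16 (nat_lit 96) (nat_lit 113) (nat_lit 6) (nat_lit 10) (nat_lit 9) L28749 (by decide +kernel)
theorem L28751 : W_16 (nat_lit 5) (nat_lit 0x40002001a0005800280000000000000000000000000000000) (nat_lit 0x0) (nat_lit 0x2000000000000000038001c000a0000000000000000000) := T_16 (nat_lit 112) (nat_lit 181) (nat_lit 7) (nat_lit 10) (nat_lit 6) L28750 (by decide +kernel)
theorem L28752 : W_16 (nat_lit 6) (nat_lit 0x40002000a0005800280000000000000000000000000000000) (nat_lit 0x0) (nat_lit 0x2000140000000000038001c000a0000000000000000000) := T_16 (nat_lit 164) (nat_lit 162) (nat_lit 0) (nat_lit 11) (nat_lit 9) L28751 (by decide +kernel)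
theorem L28753 : W_16 (nat_lit 7) (nat_lit 0x40002000a0005000280000000000000000000000000000000) (nat_lit 0x0) (nat_lit 0x2000150000800000038001c000a0000000000000000000) := T_16 (nat_lit 143) (nat_lit 160) (nat_lit 6) (nat_lit 7) (nat_lit 11) L28752 (by decide +kernel)
theorem L28754 : W_16 (nat_lit 8) (nat_lit 0x4000200080005000280000000000000000000000000000000) (nat_lit 0x0) (nat_lit 0x2400170000800000038001c000a0000000000000000000) := T_16 (nat_lit 161) (nat_lit 178) (nat_lit 5) (nat_lit 8) (nat_lit 7) L28753 (by decide +kernel)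
theorem L28755 : W_16 (nat_lit 15) (nat_lit 0x4000200080001000280000000000000000000000000000000) (nat_lit 0x0) (nat_lit 0x10000e00078007400f7003c803c001f8003c000a0000000000000000000) := Q_16 (nat_lit 146) (C_16 L28701 (C_16 L28715 (C_16 L28729 (C_16 L28734 (C_16 L28741 (C_16 L28747 (C_16 L28754 N_16))))))) (by decide +kernel)
theorem L28756 : W_16 (nat_lit 2) (nat_lit 0x40002001f0005000280010000c00000000000000000000000) (nat_lit 0x0) (nat_lit 0x20001000080000000000000000000) := D_16 (nat_lit 96) (nat_lit 113) (nat_lit 79) (nat_lit 6) (nat_lit 10) (nat_lit 9) (nat_lit 6) (nat_lit 10) (nat_lit 8) (by decide +kernel)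
theorem L28757 : W_16 (nat_lit 3) (nat_lit 0x40002001f0005000280010000400000000000000000000000) (nat_lit 0x0) (nat_lit 0x200018000a0000000000000000000) := T_16 (nat_lit 95) (nat_lit 77) (nat_lit 4) (nat_lit 10) (nat_lit 8) L28756 (by decide +kernel)
theorem L28758 : W_16 (nat_lit 4) (nat_lit 0x40002000f0005000280010000400000000000000000000000) (nat_lit 0x0) (nat_lit 0x20001000000000000200018000a0000000000000000000) := T_16 (nat_lit 164) (nat_lit 181) (nat_lit 7) (nat_lit 10) (nat_lit 6) L28757 (by decide +kernel)
theorem L28759 : W_16 (nat_lit 5) (nat_lit 0x40002000f0005000280010000000000000000000000000000) (nat_lit 0x0) (nat_lit 0x2000100000000000028001c000a0000000000000000000) := T_16 (nat_lit 94) (nat_lit 111) (nat_lit 4) (nat_lit 10) (nat_lit 9) L28758 (by decide +kernel)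
theorem L28760 : W_16 (nat_lit 6) (nat_lit 0x40002000f0005000280000000000000000000000000000000) (nat_lit 0x0) (nat_lit 0x2800100000000000038001c000a0000000000000000000) := T_16 (nat_lit 112) (nat_lit 179) (nat_lit 5) (nat_lit 10) (nat_lit 6) L28759 (by decide +kernel)
theorem L28761 : W_16 (nat_lit 7) (nat_lit 0x40002000e0005000280000000000000000000000000000000) (nat_lit 0x0) (nat_lit 0x2800110008000000038001c000a0000000000000000000) := T_16 (nat_lit 160) (nat_lit 147) (nat_lit 2) (nat_lit 7) (nat_lit 9) L28760 (by decide +kernel)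
theorem L28762 : W_16 (nat_lit 2) (nat_lit 0x40002000e000d000280038000000000000000000000000000) (nat_lit 0x0) (nat_lit 0x100030000000000000000000000000000000000000) := D_16 (nat_lit 148) (nat_lit 149) (nat_lit 164) (nat_lit 1) (nat_lit 13) (nat_lit 8) (nat_lit 2) (nat_lit 8) (nat_lit 9) (by decide +kernel)
theorem L28763 : W_16 (nat_lit 3) (nat_lit 0x40002000e0005000280038000000000000000000000000000) (nat_lit 0x0) (nat_lit 0x110038000000000000000000000000000000000000) := T_16 (nat_lit 147) (nat_lit 160) (nat_lit 2) (nat_lit 7) (nat_lit 9) L28762 (by decide +kernel)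
theorem L28764 : W_16 (nat_lit 4) (nat_lit 0x40002000e0005000280018000000000000000000000000000) (nat_lit 0x0) (nat_lit 0x110038000000020001000000000000000000000000) := T_16 (nat_lit 113) (nat_lit 96) (nat_lit 6) (nat_lit 10) (nat_lit 9) L28763 (by decide +kernel)
theorem L28765 : W_16 (nat_lit 5) (nat_lit 0x40002000e0005000280010000000000000000000000000000) (nat_lit 0x0) (nat_lit 0x110038000000028001400000000000000000000000) := T_16 (nat_lit 111) (nat_lit 94) (nat_lit 4) (nat_lit 10) (nat_lit 9) L28764 (by decide +kernel)
theorem L28766 : W_16 (nat_lit 6) (nat_lit 0x40002000e0005000280000000000000000000000000000000) (nat_lit 0x0) (nat_lit 0x800110038000000038001400000000000000000000000) := T_16 (nat_lit 112) (nat_lit 179) (nat_lit 5) (nat_lit 10) (nat_lit 6) L28765 (by decide +kernel)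
theorem L28767 : W_16 (nat_lit 2) (nat_lit 0x40002001e0005000280010000c00000000000000000000000) (nat_lit 0x0) (nat_lit 0x20001000080000000000000000000) := D_16 (nat_lit 96) (nat_lit 113) (nat_lit 79) (nat_lit 6) (nat_lit 10) (nat_lit 9) (nat_lit 6) (nat_lit 10) (nat_lit 8) (by decide +kernel)
theorem L28768 : W_16 (nat_lit 3) (nat_lit 0x40002001e0005000280010000400000000000000000000000) (nat_lit 0x0) (nat_lit 0x200018000a0000000000000000000) := T_16 (nat_lit 95) (nat_lit 77) (nat_lit 4) (nat_lit 10) (nat_lit 8) L28767 (by decide +kernel)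
theorem L28769 : W_16 (nat_lit 4) (nat_lit 0x40002000e0005000280010000400000000000000000000000) (nat_lit 0x0) (nat_lit 0x20001000000000000200018000a0000000000000000000) := T_16 (nat_lit 164) (nat_lit 181) (nat_lit 7) (nat_lit 10) (nat_lit 6) L28768 (by decide +kernel)
theorem L28770 : W_16 (nat_lit 5) (nat_lit 0x40002000e0005000280010000000000000000000000000000) (nat_lit 0x0) (nat_lit 0x2000100000000000028001c000a0000000000000000000) := T_16 (nat_lit 94) (nat_lit 111) (nat_lit 4) (nat_lit 10) (nat_lit 9) L28769 (by decide +kernel)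
theorem L28771 : W_16 (nat_lit 6) (nat_lit 0x40002000e0005000280000000000000000000000000000000) (nat_lit 0x0) (nat_lit 0x2800100000000000038001c000a0000000000000000000) := T_16 (nat_lit 112) (nat_lit 179) (nat_lit 5) (nat_lit 10) (nat_lit 6) L28770 (by decide +kernel)
theorem L28772 : W_16 (nat_lit 2) (nat_lit 0x40002000e0005000280010001400000000000000000000000) (nat_lit 0x0) (nat_lit 0x8000a0000000000000000000) := D_16 (nat_lit 95) (nat_lit 77) (nat_lit 79) (nat_lit 4) (nat_lit 10) (nat_lit 8) (nat_lit 6) (nat_lit 10) (nat_lit 8) (by decide +kernel)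
theorem L28773 : W_16 (nat_lit 3) (nat_lit 0x40002000e0005000280010000400000000000000000000000) (nat_lit 0x0) (nat_lit 0x200018000a0000000000000000000) := T_16 (nat_lit 96) (nat_lit 113) (nat_lit 6) (nat_lit 10) (nat_lit 9) L28772 (by decide +kernel)
theorem L28774 : W_16 (nat_lit 4) (nat_lit 0x40002000e0005000280010000000000000000000000000000) (nat_lit 0x0) (nat_lit 0x28001c000a0000000000000000000) := T_16 (nat_lit 94) (nat_lit 111) (nat_lit 4) (nat_lit 10) (nat_lit 9) L28773 (by decide +kernel)
theorem L28775 : W_16 (nat_lit 5) (nat_lit 0x40002000e0005000280000000000000000000000000000000) (nat_lit 0x0) (nat_lit 0x800000000000000038001c000a0000000000000000000) := T_16 (nat_lit 112) (nat_lit 179) (nat_lit 5) (nat_lit 10) (nat_lit 6) L28774 (by decide +kernel)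
theorem L28776 : W_16 (nat_lit 8) (nat_lit 0x40002000e0001000280000000000000000000000000000000) (nat_lit 0x0) (nat_lit 0x280011003c000000038001c000a0000000000000000000) := Q_16 (nat_lit 146) (C_16 L28761 (C_16 L28766 (C_16 L28687 (C_16 L28771 (C_16 L28775 N_16))))) (by decide +kernel)
theorem L28777 : W_16 (nat_lit 2) (nat_lit 0x40002000e0001000280000000000000000000000000000000) (nat_lit 0x0) (nat_lit 0x110000800000000000000000000000000000000000) := D_16 (nat_lit 143) (nat_lit 164) (nat_lit 160) (nat_lit 0) (nat_lit 11) (nat_lit 9) (nat_lit 6) (nat_lit 7) (nat_lit 11) (by decide +kernel)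
theorem L28778 : W_16 (nat_lit 2) (nat_lit 0x40022001e0009000280000000000000000000000000000000) (nat_lit 0x0) (nat_lit 0x4000400010000000000000000000000000000) := D_16 (nat_lit 112) (nat_lit 130) (nat_lit 146) (nat_lit 4) (nat_lit 11) (nat_lit 10) (nat_lit 7) (nat_lit 10) (nat_lit 6) (by decide +kernel)
theorem L28779 : W_16 (nat_lit 3) (nat_lit 0x40002001e0009000280000000000000000000000000000000) (nat_lit 0x0) (nat_lit 0x6000000004000400010000000000000000000000000000) := T_16 (nat_lit 181) (nat_lit 182) (nat_lit 3) (nat_lit 8) (nat_lit 9) L28778 (by decide +kernel)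
theorem L28780 : W_16 (nat_lit 4) (nat_lit 0x40002001e0001000280000000000000000000000000000000) (nat_lit 0x0) (nat_lit 0x600000001c000400010000000000000000000000000000) := T_16 (nat_lit 147) (nat_lit 148) (nat_lit 2) (nat_lit 8) (nat_lit 9) L28779 (by decide +kernel)
theorem L28781 : W_16 (nat_lit 5) (nat_lit 0x40002000e0001000280000000000000000000000000000000) (nat_lit 0x0) (nat_lit 0x600010001c800400010000000000000000000000000000) := T_16 (nat_lit 164) (nat_lit 143) (nat_lit 0) (nat_lit 11) (nat_lit 9) L28780 (by decide +kernel)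
theorem L28782 : W_16 (nat_lit 6) (nat_lit 0x40002000f0001000280000000000000000000000000000000) (nat_lit 0x0) (nat_lit 0x80000000c000000038001c000a0000000000000000000) := T_16 (nat_lit 146) (nat_lit 147) (nat_lit 2) (nat_lit 7) (nat_lit 9) L28543 (by decide +kernel)
theorem L28783 : W_16 (nat_lit 7) (nat_lit 0x40002000e0001000280000000000000000000000000000000) (nat_lit 0x0) (nat_lit 0x80001000c800000038001c000a0000000000000000000) := T_16 (nat_lit 160) (nat_lit 143) (nat_lit 6) (nat_lit 7) (nat_lit 11) L28782 (by decide +kernel)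
theorem L28784 : W_16 (nat_lit 9) (nat_lit 0x40002000a0001000280000000000000000000000000000000) (nat_lit 0x0) (nat_lit 0x680015003c800400038001c000a0000000000000000000) := Q_16 (nat_lit 162) (C_16 L28776 (C_16 L28777 (C_16 L28781 (C_16 L28783 N_16)))) (by decide +kernel)
theorem L28785 : W_16 (nat_lit 10) (nat_lit 0x4000200080001000280000000000000000000000000000000) (nat_lit 0x0) (nat_lit 0x6c0017003c800400038001c000a0000000000000000000) := T_16 (nat_lit 161) (nat_lit 178) (nat_lit 5) (nat_lit 8) (nat_lit 7) L28784 (by decide +kernel)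
theorem L28786 : W_16 (nat_lit 2) (nat_lit 0x40002000f0005000280010000c00000000000000000000000) (nat_lit 0x0) (nat_lit 0x20001000080000000000000000000) := D_16 (nat_lit 96) (nat_lit 113) (nat_lit 79) (nat_lit 6) (nat_lit 10) (nat_lit 9) (nat_lit 6) (nat_lit 10) (nat_lit 8) (by decide +kernel)
theorem L28787 : W_16 (nat_lit 3) (nat_lit 0x40002000f0005000280010000400000000000000000000000) (nat_lit 0x0) (nat_lit 0x200018000a0000000000000000000) := T_16 (nat_lit 95) (nat_lit 77) (nat_lit 4) (nat_lit 10) (nat_lit 8) L28786 (by decide +kernel)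
theorem L28788 : W_16 (nat_lit 2) (nat_lit 0x40002000e0005000280000000000000000000000000000000) (nat_lit 0x0) (nat_lit 0x110000800000000000000000000000000000000000) := D_16 (nat_lit 143) (nat_lit 164) (nat_lit 160) (nat_lit 0) (nat_lit 11) (nat_lit 9) (nat_lit 6) (nat_lit 7) (nat_lit 11) (by decide +kernel)
theorem L28789 : W_16 (nat_lit 13) (nat_lit 0x40002000a0005000280000000000000000000000000000000) (nat_lit 0x0) (nat_lit 0x5000f50038803c001f8003c00000000000000000000000) := Q_16 (nat_lit 162) (C_16 L28685 (C_16 L28687 (C_16 L28699 (C_16 L28788 N_16)))) (by decide +kernel)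
theorem L28790 : W_16 (nat_lit 14) (nat_lit 0x4000200080005000280000000000000000000000000000000) (nat_lit 0x0) (nat_lit 0x5400f70038803c001f8003c00000000000000000000000) := T_16 (nat_lit 161) (nat_lit 178) (nat_lit 5) (nat_lit 8) (nat_lit 7) L28789 (by decide +kernel)
theorem L28791 : W_16 (nat_lit 4) (nat_lit 0x40002000f0005000280010000000000000000000000000000) (nat_lit 0x0) (nat_lit 0x28001c000a0000000000000000000) := T_16 (nat_lit 94) (nat_lit 111) (nat_lit 4) (nat_lit 10) (nat_lit 9) L28787 (by decide +kernel)
theorem L28792 : W_16 (nat_lit 5) (nat_lit 0x40002000f0005000280000000000000000000000000000000) (nat_lit 0x0) (nat_lit 0x800000000000000038001c000a0000000000000000000) := T_16 (nat_lit 112) (nat_lit 179) (nat_lit 5) (nat_lit 10) (nat_lit 6) L28791 (by decide +kernel)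
theorem L28793 : W_16 (nat_lit 6) (nat_lit 0x40002000b0005000280000000000000000000000000000000) (nat_lit 0x0) (nat_lit 0x800040008000000038001c000a0000000000000000000) := T_16 (nat_lit 162) (nat_lit 147) (nat_lit 2) (nat_lit 7) (nat_lit 9) L28792 (by decide +kernel)
theorem L28794 : W_16 (nat_lit 7) (nat_lit 0x4000200090005000280000000000000000000000000000000) (nat_lit 0x0) (nat_lit 0xc00060008000000038001c000a0000000000000000000) := T_16 (nat_lit 161) (nat_lit 178) (nat_lit 5) (nat_lit 8) (nat_lit 7) L28793 (by decide +kernel)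
theorem L28795 : W_16 (nat_lit 8) (nat_lit 0x4000200080005000280000000000000000000000000000000) (nat_lit 0x0) (nat_lit 0xc00070008800000038001c000a0000000000000000000) := T_16 (nat_lit 160) (nat_lit 143) (nat_lit 6) (nat_lit 7) (nat_lit 11) L28794 (by decide +kernel)
theorem L28796 : W_16 (nat_lit 2) (nat_lit 0x40002000d000d000280038000800040005000000000000000) (nat_lit 0x0) (nat_lit 0x2000280000000000) := D_16 (nat_lit 61) (nat_lit 45) (nat_lit 43) (nat_lit 6) (nat_lit 10) (nat_lit 6) (nat_lit 4) (nat_lit 10) (nat_lit 6) (by decide +kernel)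
theorem L28797 : W_16 (nat_lit 3) (nat_lit 0x40002000d000d000280038000800040004000000000000000) (nat_lit 0x0) (nat_lit 0x20003000280000000000) := T_16 (nat_lit 60) (nat_lit 77) (nat_lit 4) (nat_lit 10) (nat_lit 7) L28796 (by decide +kernel)
theorem L28798 : W_16 (nat_lit 4) (nat_lit 0x40002000d000d000280038000800040000000000000000000) (nat_lit 0x0) (nat_lit 0xa0007000280000000000) := T_16 (nat_lit 62) (nat_lit 79) (nat_lit 6) (nat_lit 10) (nat_lit 7) L28797 (by decide +kernel)
theorem L28799 : W_16 (nat_lit 5) (nat_lit 0x40002000d000d000280038000800000000000000000000000) (nat_lit 0x0) (nat_lit 0x4000000000000e0007000280000000000) := T_16 (nat_lit 78) (nat_lit 130) (nat_lit 7) (nat_lit 10) (nat_lit 4) L28798 (by decide +kernel)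
theorem L28800 : W_16 (nat_lit 6) (nat_lit 0x40002000d000d000280038000000000000000000000000000) (nat_lit 0x0) (nat_lit 0x1000000004000000008000e0007000280000000000) := T_16 (nat_lit 95) (nat_lit 164) (nat_lit 7) (nat_lit 10) (nat_lit 5) L28799 (by decide +kernel)
theorem L28801 : W_16 (nat_lit 7) (nat_lit 0x40002000d000d000280030000000000000000000000000000) (nat_lit 0x0) (nat_lit 0x100000000400008000c000e0007000280000000000) := T_16 (nat_lit 111) (nat_lit 94) (nat_lit 4) (nat_lit 10) (nat_lit 9) L28800 (by decide +kernel)
theorem L28802 : W_16 (nat_lit 8) (nat_lit 0x40002000d0005000280030000000000000000000000000000) (nat_lit 0x0) (nat_lit 0x120008000400008000c000e0007000280000000000) := T_16 (nat_lit 147) (nat_lit 161) (nat_lit 2) (nat_lit 7) (nat_lit 9) L28801 (by decide +kernel)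
theorem L28803 : W_16 (nat_lit 9) (nat_lit 0x4000200090005000280030000000000000000000000000000) (nat_lit 0x0) (nat_lit 0x800160008000400008000c000e0007000280000000000) := T_16 (nat_lit 162) (nat_lit 179) (nat_lit 5) (nat_lit 10) (nat_lit 6) L28802 (by decide +kernel)
theorem L28804 : W_16 (nat_lit 10) (nat_lit 0x4000200090005000280010000000000000000000000000000) (nat_lit 0x0) (nat_lit 0x800160008000400028001c000e0007000280000000000) := T_16 (nat_lit 113) (nat_lit 96) (nat_lit 6) (nat_lit 10) (nat_lit 9) L28803 (by decide +kernel)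
theorem L28805 : W_16 (nat_lit 11) (nat_lit 0x4000200080005000280010000000000000000000000000000) (nat_lit 0x0) (nat_lit 0x800170008800400028001c000e0007000280000000000) := T_16 (nat_lit 160) (nat_lit 143) (nat_lit 6) (nat_lit 7) (nat_lit 11) L28804 (by decide +kernel)
theorem L28806 : W_16 (nat_lit 2) (nat_lit 0x800034001200090005000280038000000000000000000000000000) (nat_lit 0x0) (nat_lit 0x10000400008000000000000000000000000000000000000000000000000) := D_16 (nat_lit 214) (nat_lit 195) (nat_lit 232) (nat_lit 3) (nat_lit 7) (nat_lit 11) (nat_lit 7) (nat_lit 10) (nat_lit 9) (by decide +kernel)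
theorem L28807 : W_16 (nat_lit 3) (nat_lit 0x34001200090005000280038000000000000000000000000000) (nat_lit 0x0) (nat_lit 0x10000c00048000000000000000000000000000000000000000000000000) := T_16 (nat_lit 215) (nat_lit 198) (nat_lit 7) (nat_lit 10) (nat_lit 8) L28806 (by decide +kernel)
theorem L28808 : W_16 (nat_lit 4) (nat_lit 0x14001200090005000280038000000000000000000000000000) (nat_lit 0x0) (nat_lit 0x10000e00068000000000000000000000000000000000000000000000000) := T_16 (nat_lit 197) (nat_lit 213) (nat_lit 5) (nat_lit 10) (nat_lit 8) L28807 (by decide +kernel)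
theorem L28809 : W_16 (nat_lit 5) (nat_lit 0x14001200080005000280038000000000000000000000000000) (nat_lit 0x0) (nat_lit 0x10000e00068000000010000800000000000000000000000000000000000) := T_16 (nat_lit 160) (nat_lit 143) (nat_lit 6) (nat_lit 7) (nat_lit 11) L28808 (by decide +kernel)
theorem L28810 : W_16 (nat_lit 6) (nat_lit 0x4001200080005000280038000000000000000000000000000) (nat_lit 0x0) (nat_lit 0x10000e00078000800010000800000000000000000000000000000000000) := T_16 (nat_lit 196) (nat_lit 179) (nat_lit 5) (nat_lit 10) (nat_lit 7) L28809 (by decide +kernel)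
theorem L28811 : W_16 (nat_lit 7) (nat_lit 0x4000200080005000280038000000000000000000000000000) (nat_lit 0x0) (nat_lit 0x10000e00078001800010000800400000000000000000000000000000000) := T_16 (nat_lit 180) (nat_lit 130) (nat_lit 6) (nat_lit 10) (nat_lit 10) L28810 (by decide +kernel)
theorem L28812 : W_16 (nat_lit 8) (nat_lit 0x4000200080005000280030000000000000000000000000000) (nat_lit 0x0) (nat_lit 0x10000e00078001800010000800400008000400000000000000000000000) := T_16 (nat_lit 111) (nat_lit 94) (nat_lit 4) (nat_lit 10) (nat_lit 9) L28811 (by decide +kernel)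
theorem L28813 : W_16 (nat_lit 9) (nat_lit 0x4000200080005000280010000000000000000000000000000) (nat_lit 0x0) (nat_lit 0x10000e00078001800010000800400028001400000000000000000000000) := T_16 (nat_lit 113) (nat_lit 96) (nat_lit 6) (nat_lit 10) (nat_lit 9) L28812 (by decide +kernel)
theorem L28814 : W_16 (nat_lit 2) (nat_lit 0x40002000d002d000280018000800040000000000000000000) (nat_lit 0x0) (nat_lit 0x1000080004000000000000000) := D_16 (nat_lit 79) (nat_lit 62) (nat_lit 96) (nat_lit 6) (nat_lit 10) (nat_lit 7) (nat_lit 6) (nat_lit 10) (nat_lit 8) (by decide +kernel)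
theorem L28815 : W_16 (nat_lit 3) (nat_lit 0x40002000d002d000280018000800000000000000000000000) (nat_lit 0x0) (nat_lit 0x4000000010000c0004000000000000000) := T_16 (nat_lit 78) (nat_lit 130) (nat_lit 7) (nat_lit 10) (nat_lit 4) L28814 (by decide +kernel)
theorem L28816 : W_16 (nat_lit 4) (nat_lit 0x40002000d002d000280018000000000000000000000000000) (nat_lit 0x0) (nat_lit 0x1000000004000000018000c0004000000000000000) := T_16 (nat_lit 95) (nat_lit 164) (nat_lit 7) (nat_lit 10) (nat_lit 5) L28815 (by decide +kernel)
theorem L28817 : W_16 (nat_lit 5) (nat_lit 0x40002000d000d000280018000000000000000000000000000) (nat_lit 0x0) (nat_lit 0x1000300004000000018000c0004000000000000000) := T_16 (nat_lit 149) (nat_lit 148) (nat_lit 1) (nat_lit 13) (nat_lit 8) L28816 (by decide +kernel)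
theorem L28818 : W_16 (nat_lit 6) (nat_lit 0x40002000d0005000280018000000000000000000000000000) (nat_lit 0x0) (nat_lit 0x1200380004000000018000c0004000000000000000) := T_16 (nat_lit 147) (nat_lit 161) (nat_lit 2) (nat_lit 7) (nat_lit 9) L28817 (by decide +kernel)
theorem L28819 : W_16 (nat_lit 7) (nat_lit 0x4000200090005000280018000000000000000000000000000) (nat_lit 0x0) (nat_lit 0x8001600380004000000018000c0004000000000000000) := T_16 (nat_lit 162) (nat_lit 179) (nat_lit 5) (nat_lit 10) (nat_lit 6) L28818 (by decide +kernel)
theorem L28820 : W_16 (nat_lit 8) (nat_lit 0x4000200090005000280010000000000000000000000000000) (nat_lit 0x0) (nat_lit 0x800160038000400008001c000c0004000000000000000) := T_16 (nat_lit 111) (nat_lit 94) (nat_lit 4) (nat_lit 10) (nat_lit 9) L28819 (by decide +kernel)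
theorem L28821 : W_16 (nat_lit 9) (nat_lit 0x4000200080005000280010000000000000000000000000000) (nat_lit 0x0) (nat_lit 0x800170038800400008001c000c0004000000000000000) := T_16 (nat_lit 160) (nat_lit 143) (nat_lit 6) (nat_lit 7) (nat_lit 11) L28820 (by decide +kernel)
theorem L28822 : W_16 (nat_lit 2) (nat_lit 0x40002000d000d000280018000800040005000000000000000) (nat_lit 0x0) (nat_lit 0x2000280000000000) := D_16 (nat_lit 61) (nat_lit 45) (nat_lit 43) (nat_lit 6) (nat_lit 10) (nat_lit 6) (nat_lit 4) (nat_lit 10) (nat_lit 6) (by decide +kernel)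
theorem L28823 : W_16 (nat_lit 3) (nat_lit 0x40002000d000d000280018000800040004000000000000000) (nat_lit 0x0) (nat_lit 0x20003000280000000000) := T_16 (nat_lit 60) (nat_lit 77) (nat_lit 4) (nat_lit 10) (nat_lit 7) L28822 (by decide +kernel)
theorem L28824 : W_16 (nat_lit 4) (nat_lit 0x40002000d000d000280018000800040000000000000000000) (nat_lit 0x0) (nat_lit 0xa0007000280000000000) := T_16 (nat_lit 62) (nat_lit 79) (nat_lit 6) (nat_lit 10) (nat_lit 7) L28823 (by decide +kernel)
theorem L28825 : W_16 (nat_lit 5) (nat_lit 0x40002000d000d000280018000800000000000000000000000) (nat_lit 0x0) (nat_lit 0x4000000000000e0007000280000000000) := T_16 (nat_lit 78) (nat_lit 130) (nat_lit 7) (nat_lit 10) (nat_lit 4) L28824 (by decide +kernel)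
theorem L28826 : W_16 (nat_lit 6) (nat_lit 0x40002000d000d000280018000000000000000000000000000) (nat_lit 0x0) (nat_lit 0x1000000004000000008000e0007000280000000000) := T_16 (nat_lit 95) (nat_lit 164) (nat_lit 7) (nat_lit 10) (nat_lit 5) L28825 (by decide +kernel)
theorem L28827 : W_16 (nat_lit 7) (nat_lit 0x40002000d000d000280010000000000000000000000000000) (nat_lit 0x0) (nat_lit 0x100000000400008000c000e0007000280000000000) := T_16 (nat_lit 111) (nat_lit 94) (nat_lit 4) (nat_lit 10) (nat_lit 9) L28826 (by decide +kernel)
theorem L28828 : W_16 (nat_lit 8) (nat_lit 0x40002000d0005000280010000000000000000000000000000) (nat_lit 0x0) (nat_lit 0x120008000400008000c000e0007000280000000000) := T_16 (nat_lit 147) (nat_lit 161) (nat_lit 2) (nat_lit 7) (nat_lit 9) L28827 (by decide +kernel)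
theorem L28829 : W_16 (nat_lit 9) (nat_lit 0x40002000c0005000280010000000000000000000000000000) (nat_lit 0x0) (nat_lit 0x130008800400008000c000e0007000280000000000) := T_16 (nat_lit 160) (nat_lit 143) (nat_lit 6) (nat_lit 7) (nat_lit 11) L28828 (by decide +kernel)
theorem L28830 : W_16 (nat_lit 10) (nat_lit 0x4000200080005000280010000000000000000000000000000) (nat_lit 0x0) (nat_lit 0x800170008800400008000c000e0007000280000000000) := T_16 (nat_lit 162) (nat_lit 179) (nat_lit 5) (nat_lit 10) (nat_lit 6) L28829 (by decide +kernel)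
theorem L28831 : W_16 (nat_lit 2) (nat_lit 0x400020008000d000280030000d00000000000000000000000) (nat_lit 0x0) (nat_lit 0x1000000000000400000000000040000000000000000000) := D_16 (nat_lit 130) (nat_lit 78) (nat_lit 180) (nat_lit 7) (nat_lit 10) (nat_lit 4) (nat_lit 6) (nat_lit 10) (nat_lit 10) (by decide +kernel)
theorem L28832 : W_16 (nat_lit 3) (nat_lit 0x4000200080005000280030000d00000000000000000000000) (nat_lit 0x0) (nat_lit 0x1000100008000400000000000040000000000000000000) := T_16 (nat_lit 147) (nat_lit 164) (nat_lit 7) (nat_lit 10) (nat_lit 5) L28831 (by decide +kernel)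
theorem L28833 : W_16 (nat_lit 4) (nat_lit 0x4000200080005000280030000c00000000000000000000000) (nat_lit 0x0) (nat_lit 0x1000100008000400000000300040000000000000000000) := T_16 (nat_lit 92) (nat_lit 93) (nat_lit 3) (nat_lit 7) (nat_lit 5) L28832 (by decide +kernel)
theorem L28834 : W_16 (nat_lit 5) (nat_lit 0x4000200080005000280030000400000000000000000000000) (nat_lit 0x0) (nat_lit 0x1000100008000400000000b00060000000000000000000) := T_16 (nat_lit 95) (nat_lit 77) (nat_lit 4) (nat_lit 10) (nat_lit 8) L28833 (by decide +kernel)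
theorem L28835 : W_16 (nat_lit 6) (nat_lit 0x4000200080005000280010000400000000000000000000000) (nat_lit 0x0) (nat_lit 0x1000100008000400020001b00060000000000000000000) := T_16 (nat_lit 113) (nat_lit 96) (nat_lit 6) (nat_lit 10) (nat_lit 9) L28834 (by decide +kernel)
theorem L28836 : W_16 (nat_lit 7) (nat_lit 0x4000200080005000280010000000000000000000000000000) (nat_lit 0x0) (nat_lit 0x1000100008000400028001f00060000000000000000000) := T_16 (nat_lit 94) (nat_lit 111) (nat_lit 4) (nat_lit 10) (nat_lit 9) L28835 (by decide +kernel)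
theorem L28837 : W_16 (nat_lit 2) (nat_lit 0x40002000d000d000280030000400000000000000000000000) (nat_lit 0x0) (nat_lit 0x100000000000000000800020000000000000000000) := D_16 (nat_lit 95) (nat_lit 77) (nat_lit 164) (nat_lit 4) (nat_lit 10) (nat_lit 8) (nat_lit 7) (nat_lit 10) (nat_lit 5) (by decide +kernel)
theorem L28838 : W_16 (nat_lit 3) (nat_lit 0x40002000d0005000280030000400000000000000000000000) (nat_lit 0x0) (nat_lit 0x120008000000000000800020000000000000000000) := T_16 (nat_lit 147) (nat_lit 161) (nat_lit 2) (nat_lit 7) (nat_lit 9) L28837 (by decide +kernel)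
theorem L28839 : W_16 (nat_lit 4) (nat_lit 0x40002000c0005000280030000400000000000000000000000) (nat_lit 0x0) (nat_lit 0x130008800000000000800020000000000000000000) := T_16 (nat_lit 160) (nat_lit 143) (nat_lit 6) (nat_lit 7) (nat_lit 11) L28838 (by decide +kernel)
theorem L28840 : W_16 (nat_lit 5) (nat_lit 0x40002000c0005000280030000000000000000000000000000) (nat_lit 0x0) (nat_lit 0x130008800000008000c00020000000000000000000) := T_16 (nat_lit 94) (nat_lit 111) (nat_lit 4) (nat_lit 10) (nat_lit 9) L28839 (by decide +kernel)
theorem L28841 : W_16 (nat_lit 6) (nat_lit 0x4000200080005000280030000000000000000000000000000) (nat_lit 0x0) (nat_lit 0x800170008800000008000c00020000000000000000000) := T_16 (nat_lit 162) (nat_lit 179) (nat_lit 5) (nat_lit 10) (nat_lit 6) L28840 (by decide +kernel)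
theorem L28842 : W_16 (nat_lit 7) (nat_lit 0x4000200080005000280010000000000000000000000000000) (nat_lit 0x0) (nat_lit 0x800170008800000028001c00020000000000000000000) := T_16 (nat_lit 113) (nat_lit 96) (nat_lit 6) (nat_lit 10) (nat_lit 9) L28841 (by decide +kernel)
theorem L28843 : W_16 (nat_lit 2) (nat_lit 0x40002000d000d000680030000000000000000000000000000) (nat_lit 0x0) (nat_lit 0x100000000000000000800040000000000000000000) := D_16 (nat_lit 95) (nat_lit 164) (nat_lit 78) (nat_lit 7) (nat_lit 10) (nat_lit 5) (nat_lit 7) (nat_lit 10) (nat_lit 4) (by decide +kernel)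
theorem L28844 : W_16 (nat_lit 3) (nat_lit 0x40002000d000d000280030000000000000000000000000000) (nat_lit 0x0) (nat_lit 0x1000100000000400000000800040000000000000000000) := T_16 (nat_lit 130) (nat_lit 180) (nat_lit 6) (nat_lit 10) (nat_lit 10) L28843 (by decide +kernel)
theorem L28845 : W_16 (nat_lit 4) (nat_lit 0x40002000d000d000280010000000000000000000000000000) (nat_lit 0x0) (nat_lit 0x1000100000000400020001800040000000000000000000) := T_16 (nat_lit 113) (nat_lit 96) (nat_lit 6) (nat_lit 10) (nat_lit 9) L28844 (by decide +kernel)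
theorem L28846 : W_16 (nat_lit 5) (nat_lit 0x40002000d0005000280010000000000000000000000000000) (nat_lit 0x0) (nat_lit 0x1000120008000400020001800040000000000000000000) := T_16 (nat_lit 147) (nat_lit 161) (nat_lit 2) (nat_lit 7) (nat_lit 9) L28845 (by decide +kernel)
theorem L28847 : W_16 (nat_lit 6) (nat_lit 0x4000200090005000280010000000000000000000000000000) (nat_lit 0x0) (nat_lit 0x1800160008000400020001800040000000000000000000) := T_16 (nat_lit 162) (nat_lit 179) (nat_lit 5) (nat_lit 10) (nat_lit 6) L28846 (by decide +kernel)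
theorem L28848 : W_16 (nat_lit 7) (nat_lit 0x4000200080005000280010000000000000000000000000000) (nat_lit 0x0) (nat_lit 0x1800170008800400020001800040000000000000000000) := T_16 (nat_lit 160) (nat_lit 143) (nat_lit 6) (nat_lit 7) (nat_lit 11) L28847 (by decide +kernel)
theorem L28849 : W_16 (nat_lit 12) (nat_lit 0x4000200080005000280000000000000000000000000000000) (nat_lit 0x0) (nat_lit 0x10000e00078001800170038800400038001f000e0007000280000000000) := Q_16 (nat_lit 112) (C_16 L28805 (C_16 L28583 (C_16 L28813 (C_16 L28821 (C_16 L28830 (C_16 L28836 (C_16 L28842 (C_16 L28848 N_16)))))))) (by decide +kernel)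
theorem L28850 : W_16 (nat_lit 2) (nat_lit 0x40002000e000d000280030000000000000000000000000000) (nat_lit 0x0) (nat_lit 0x100030000000000000000000000000000000000000) := D_16 (nat_lit 148) (nat_lit 149) (nat_lit 164) (nat_lit 1) (nat_lit 13) (nat_lit 8) (nat_lit 2) (nat_lit 8) (nat_lit 9) (by decide +kernel)
theorem L28851 : W_16 (nat_lit 3) (nat_lit 0x40002000e0005000280030000000000000000000000000000) (nat_lit 0x0) (nat_lit 0x110038000000000000000000000000000000000000) := T_16 (nat_lit 147) (nat_lit 160) (nat_lit 2) (nat_lit 7) (nat_lit 9) L28850 (by decide +kernel)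
theorem L28852 : W_16 (nat_lit 4) (nat_lit 0x40002000a0005000280030000000000000000000000000000) (nat_lit 0x0) (nat_lit 0x800150038000000000000000000000000000000000000) := T_16 (nat_lit 162) (nat_lit 179) (nat_lit 5) (nat_lit 10) (nat_lit 6) L28851 (by decide +kernel)
theorem L28853 : W_16 (nat_lit 5) (nat_lit 0x4000200080005000280030000000000000000000000000000) (nat_lit 0x0) (nat_lit 0xc00170038000000000000000000000000000000000000) := T_16 (nat_lit 161) (nat_lit 178) (nat_lit 5) (nat_lit 8) (nat_lit 7) L28852 (by decide +kernel)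
theorem L28854 : W_16 (nat_lit 6) (nat_lit 0x4000200080005000280010000000000000000000000000000) (nat_lit 0x0) (nat_lit 0xc00170038000000020001000000000000000000000000) := T_16 (nat_lit 113) (nat_lit 96) (nat_lit 6) (nat_lit 10) (nat_lit 9) L28853 (by decide +kernel)
theorem L28855 : W_16 (nat_lit 2) (nat_lit 0x40002000e000d000280018000000000000000000000000000) (nat_lit 0x0) (nat_lit 0x100030000000000000000000000000000000000000) := D_16 (nat_lit 148) (nat_lit 149) (nat_lit 164) (nat_lit 1) (nat_lit 13) (nat_lit 8) (nat_lit 2) (nat_lit 8) (nat_lit 9) (by decide +kernel)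
theorem L28856 : W_16 (nat_lit 3) (nat_lit 0x40002000e0005000280018000000000000000000000000000) (nat_lit 0x0) (nat_lit 0x110038000000000000000000000000000000000000) := T_16 (nat_lit 147) (nat_lit 160) (nat_lit 2) (nat_lit 7) (nat_lit 9) L28855 (by decide +kernel)
theorem L28857 : W_16 (nat_lit 4) (nat_lit 0x40002000a0005000280018000000000000000000000000000) (nat_lit 0x0) (nat_lit 0x800150038000000000000000000000000000000000000) := T_16 (nat_lit 162) (nat_lit 179) (nat_lit 5) (nat_lit 10) (nat_lit 6) L28856 (by decide +kernel)
theorem L28858 : W_16 (nat_lit 5) (nat_lit 0x4000200080005000280018000000000000000000000000000) (nat_lit 0x0) (nat_lit 0xc00170038000000000000000000000000000000000000) := T_16 (nat_lit 161) (nat_lit 178) (nat_lit 5) (nat_lit 8) (nat_lit 7) L28857 (by decide +kernel)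
theorem L28859 : W_16 (nat_lit 6) (nat_lit 0x4000200080005000280010000000000000000000000000000) (nat_lit 0x0) (nat_lit 0xc00170038000000008000400000000000000000000000) := T_16 (nat_lit 111) (nat_lit 94) (nat_lit 4) (nat_lit 10) (nat_lit 9) L28858 (by decide +kernel)
theorem L28860 : W_16 (nat_lit 8) (nat_lit 0x4000200080005000280000000000000000000000000000000) (nat_lit 0x0) (nat_lit 0x10001c00170038000400038001f00060000000000000000000) := Q_16 (nat_lit 112) (C_16 L28836 (C_16 L28854 (C_16 L28859 (C_16 L28583 N_16)))) (by decide +kernel)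
theorem L28861 : W_16 (nat_lit 2) (nat_lit 0x14001200080005000680000000000000000000000000000000) (nat_lit 0x0) (nat_lit 0x200020000000000008000000000000000000000000000000000000) := D_16 (nat_lit 197) (nat_lit 147) (nat_lit 213) (nat_lit 6) (nat_lit 10) (nat_lit 11) (nat_lit 5) (nat_lit 10) (nat_lit 8) (by decide +kernel)
theorem L28862 : W_16 (nat_lit 3) (nat_lit 0x4001200080005000680000000000000000000000000000000) (nat_lit 0x0) (nat_lit 0x200030000800000008000000000000000000000000000000000000) := T_16 (nat_lit 196) (nat_lit 179) (nat_lit 5) (nat_lit 10) (nat_lit 7) L28861 (by decide +kernel)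
theorem L28863 : W_16 (nat_lit 4) (nat_lit 0x4001200080005000280000000000000000000000000000000) (nat_lit 0x0) (nat_lit 0x200030000800000008000400020000000000000000000000000000) := T_16 (nat_lit 130) (nat_lit 113) (nat_lit 6) (nat_lit 10) (nat_lit 10) L28862 (by decide +kernel)
theorem L28864 : W_16 (nat_lit 4) (nat_lit 0x340012000b0005000280000000000000000000000000000000) (nat_lit 0x0) (nat_lit 0xc00048000000100008000400000000000000000000000000000000) := T_16 (nat_lit 147) (nat_lit 130) (nat_lit 6) (nat_lit 10) (nat_lit 11) L25571 (by decide +kernel)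
theorem L28865 : W_16 (nat_lit 5) (nat_lit 0x140012000b0005000280000000000000000000000000000000) (nat_lit 0x0) (nat_lit 0xe00068000000100008000400000000000000000000000000000000) := T_16 (nat_lit 197) (nat_lit 213) (nat_lit 5) (nat_lit 10) (nat_lit 8) L28864 (by decide +kernel)
theorem L28866 : W_16 (nat_lit 6) (nat_lit 0x140012000a0005000280000000000000000000000000000000) (nat_lit 0x0) (nat_lit 0xe00068000000110008800400000000000000000000000000000000) := T_16 (nat_lit 160) (nat_lit 143) (nat_lit 6) (nat_lit 7) (nat_lit 11) L28865 (by decide +kernel)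
theorem L28867 : W_16 (nat_lit 7) (nat_lit 0x40012000a0005000280000000000000000000000000000000) (nat_lit 0x0) (nat_lit 0xe00078000800110008800400000000000000000000000000000000) := T_16 (nat_lit 196) (nat_lit 179) (nat_lit 5) (nat_lit 10) (nat_lit 7) L28866 (by decide +kernel)
theorem L28868 : W_16 (nat_lit 8) (nat_lit 0x4001200080005000280000000000000000000000000000000) (nat_lit 0x0) (nat_lit 0xe00078000c00130008800400000000000000000000000000000000) := T_16 (nat_lit 161) (nat_lit 178) (nat_lit 5) (nat_lit 8) (nat_lit 7) L28867 (by decide +kernel)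
theorem L28869 : W_16 (nat_lit 2) (nat_lit 0x8000340012000b0005000280000000000000000000000000000000) (nat_lit 0x0) (nat_lit 0x10000400008000000000000000000000000000000000000000000000000) := D_16 (nat_lit 214) (nat_lit 195) (nat_lit 232) (nat_lit 3) (nat_lit 7) (nat_lit 11) (nat_lit 7) (nat_lit 10) (nat_lit 9) (by decide +kernel)
theorem L28870 : W_16 (nat_lit 3) (nat_lit 0x340012000b0005000280000000000000000000000000000000) (nat_lit 0x0) (nat_lit 0x10000c00048000000000000000000000000000000000000000000000000) := T_16 (nat_lit 215) (nat_lit 198) (nat_lit 7) (nat_lit 10) (nat_lit 8) L28869 (by decide +kernel)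
theorem L28871 : W_16 (nat_lit 4) (nat_lit 0x140012000b0005000280000000000000000000000000000000) (nat_lit 0x0) (nat_lit 0x10000e00068000000000000000000000000000000000000000000000000) := T_16 (nat_lit 197) (nat_lit 213) (nat_lit 5) (nat_lit 10) (nat_lit 8) L28870 (by decide +kernel)
theorem L28872 : W_16 (nat_lit 5) (nat_lit 0x40012000b0005000280000000000000000000000000000000) (nat_lit 0x0) (nat_lit 0x10000e00078000800000000000000000000000000000000000000000000) := T_16 (nat_lit 196) (nat_lit 179) (nat_lit 5) (nat_lit 10) (nat_lit 7) L28871 (by decide +kernel)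
theorem L28873 : W_16 (nat_lit 6) (nat_lit 0x4001200090005000280000000000000000000000000000000) (nat_lit 0x0) (nat_lit 0x10000e00078000c00020000000000000000000000000000000000000000) := T_16 (nat_lit 161) (nat_lit 178) (nat_lit 5) (nat_lit 8) (nat_lit 7) L28872 (by decide +kernel)
theorem L28874 : W_16 (nat_lit 7) (nat_lit 0x4001200080005000280000000000000000000000000000000) (nat_lit 0x0) (nat_lit 0x10000e00078000c00030000800000000000000000000000000000000000) := T_16 (nat_lit 160) (nat_lit 143) (nat_lit 6) (nat_lit 7) (nat_lit 11) L28873 (by decide +kernel)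
theorem L28875 : W_16 (nat_lit 2) (nat_lit 0x24001600090005000680000000000000000000000000000000) (nat_lit 0x0) (nat_lit 0x800040000800000000000000000000000000000000000000000000) := D_16 (nat_lit 198) (nat_lit 215) (nat_lit 179) (nat_lit 7) (nat_lit 10) (nat_lit 8) (nat_lit 3) (nat_lit 7) (nat_lit 10) (by decide +kernel)
theorem L28876 : W_16 (nat_lit 3) (nat_lit 0x24001200090005000680000000000000000000000000000000) (nat_lit 0x0) (nat_lit 0x800040000c00020000000000000000000000000000000000000000) := T_16 (nat_lit 178) (nat_lit 161) (nat_lit 5) (nat_lit 8) (nat_lit 7) L28875 (by decide +kernel)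
theorem L28877 : W_16 (nat_lit 4) (nat_lit 0x4001200090005000680000000000000000000000000000000) (nat_lit 0x0) (nat_lit 0x800060000c00020008000000000000000000000000000000000000) := T_16 (nat_lit 197) (nat_lit 147) (nat_lit 6) (nat_lit 10) (nat_lit 11) L28876 (by decide +kernel)
theorem L28878 : W_16 (nat_lit 5) (nat_lit 0x4001200080005000680000000000000000000000000000000) (nat_lit 0x0) (nat_lit 0x800060000c00030008800000000000000000000000000000000000) := T_16 (nat_lit 160) (nat_lit 143) (nat_lit 6) (nat_lit 7) (nat_lit 11) L28877 (by decide +kernel)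
theorem L28879 : W_16 (nat_lit 6) (nat_lit 0x4001200080005000280000000000000000000000000000000) (nat_lit 0x0) (nat_lit 0x800060000c00030008800400020000000000000000000000000000) := T_16 (nat_lit 130) (nat_lit 113) (nat_lit 6) (nat_lit 10) (nat_lit 10) L28878 (by decide +kernel)
theorem L28880 : W_16 (nat_lit 9) (nat_lit 0x4000200080005000280000000000000000000000000000000) (nat_lit 0x0) (nat_lit 0x10000e00078001c00130008800400020000000000000000000000000000) := Q_16 (nat_lit 180) (C_16 L28863 (C_16 L28868 (C_16 L28558 (C_16 L28874 (C_16 L28278 (C_16 L28879 N_16)))))) (by decide +kernel)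
theorem L28881 : W_16 (nat_lit 2) (nat_lit 0x4000a000f0005000280000000000000000000000000000000) (nat_lit 0x0) (nat_lit 0x200010001000000000000000000000000000000000000000000000) := D_16 (nat_lit 196) (nat_lit 213) (nat_lit 180) (nat_lit 6) (nat_lit 9) (nat_lit 12) (nat_lit 5) (nat_lit 10) (nat_lit 7) (by decide +kernel)
theorem L28882 : W_16 (nat_lit 3) (nat_lit 0x40002000f0005000280000000000000000000000000000000) (nat_lit 0x0) (nat_lit 0x200010001800000000000000010000000000000000000000000000) := T_16 (nat_lit 179) (nat_lit 112) (nat_lit 5) (nat_lit 10) (nat_lit 6) L28881 (by decide +kernel)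
theorem L28883 : W_16 (nat_lit 4) (nat_lit 0x40002000b0005000280000000000000000000000000000000) (nat_lit 0x0) (nat_lit 0x200010001800040008000000010000000000000000000000000000) := T_16 (nat_lit 162) (nat_lit 147) (nat_lit 2) (nat_lit 7) (nat_lit 9) L28882 (by decide +kernel)
theorem L28884 : W_16 (nat_lit 5) (nat_lit 0x4000200090005000280000000000000000000000000000000) (nat_lit 0x0) (nat_lit 0x200010001c00060008000000010000000000000000000000000000) := T_16 (nat_lit 161) (nat_lit 178) (nat_lit 5) (nat_lit 8) (nat_lit 7) L28883 (by decide +kernel)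
theorem L28885 : W_16 (nat_lit 6) (nat_lit 0x4000200080005000280000000000000000000000000000000) (nat_lit 0x0) (nat_lit 0x200010001c00070008800000010000000000000000000000000000) := T_16 (nat_lit 160) (nat_lit 143) (nat_lit 6) (nat_lit 7) (nat_lit 11) L28884 (by decide +kernel)
theorem L28886 : W_16 (nat_lit 2) (nat_lit 0x40002000d0005000280010001800000000000000000000000) (nat_lit 0x0) (nat_lit 0x8000400020000000000000000000) := D_16 (nat_lit 94) (nat_lit 77) (nat_lit 111) (nat_lit 4) (nat_lit 10) (nat_lit 8) (nat_lit 4) (nat_lit 10) (nat_lit 9) (by decide +kernel)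
theorem L28887 : W_16 (nat_lit 3) (nat_lit 0x40002000d0005000280010001000000000000000000000000) (nat_lit 0x0) (nat_lit 0x8000c000a0000000000000000000) := T_16 (nat_lit 95) (nat_lit 79) (nat_lit 6) (nat_lit 10) (nat_lit 8) L28886 (by decide +kernel)
theorem L28888 : W_16 (nat_lit 4) (nat_lit 0x4000200090005000280010001000000000000000000000000) (nat_lit 0x0) (nat_lit 0x800040000000000008000c000a0000000000000000000) := T_16 (nat_lit 162) (nat_lit 179) (nat_lit 5) (nat_lit 10) (nat_lit 6) L28887 (by decide +kernel)
theorem L28889 : W_16 (nat_lit 5) (nat_lit 0x4000200090005000280010000000000000000000000000000) (nat_lit 0x0) (nat_lit 0x800040000000000028001c000a0000000000000000000) := T_16 (nat_lit 96) (nat_lit 113) (nat_lit 6) (nat_lit 10) (nat_lit 9) L28888 (by decide +kernel)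
theorem L28890 : W_16 (nat_lit 6) (nat_lit 0x4000200080005000280010000000000000000000000000000) (nat_lit 0x0) (nat_lit 0x800050000800000028001c000a0000000000000000000) := T_16 (nat_lit 160) (nat_lit 143) (nat_lit 6) (nat_lit 7) (nat_lit 11) L28889 (by decide +kernel)
theorem L28891 : W_16 (nat_lit 2) (nat_lit 0x40002000d000d000280010000c00080000000000000000000) (nat_lit 0x0) (nat_lit 0x400000000000040004000000000000000) := D_16 (nat_lit 78) (nat_lit 130) (nat_lit 62) (nat_lit 7) (nat_lit 10) (nat_lit 4) (nat_lit 6) (nat_lit 10) (nat_lit 7) (by decide +kernel)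
theorem L28892 : W_16 (nat_lit 3) (nat_lit 0x40002000d0005000280010000c00080000000000000000000) (nat_lit 0x0) (nat_lit 0x100008000400000000000040004000000000000000) := T_16 (nat_lit 147) (nat_lit 164) (nat_lit 7) (nat_lit 10) (nat_lit 5) L28891 (by decide +kernel)
theorem L28893 : W_16 (nat_lit 4) (nat_lit 0x40002000d0005000280010000c00000000000000000000000) (nat_lit 0x0) (nat_lit 0x1000080004000000010000c0004000000000000000) := T_16 (nat_lit 79) (nat_lit 96) (nat_lit 6) (nat_lit 10) (nat_lit 8) L28892 (by decide +kernel)
theorem L28894 : W_16 (nat_lit 5) (nat_lit 0x40002000d0005000280010000400000000000000000000000) (nat_lit 0x0) (nat_lit 0x1000080004000000018000e0004000000000000000) := T_16 (nat_lit 95) (nat_lit 77) (nat_lit 4) (nat_lit 10) (nat_lit 8) L28893 (by decide +kernel)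
theorem L28895 : W_16 (nat_lit 6) (nat_lit 0x40002000d0005000280010000000000000000000000000000) (nat_lit 0x0) (nat_lit 0x100008000400008001c000e0004000000000000000) := T_16 (nat_lit 94) (nat_lit 111) (nat_lit 4) (nat_lit 10) (nat_lit 9) L28894 (by decide +kernel)
theorem L28896 : W_16 (nat_lit 7) (nat_lit 0x40002000c0005000280010000000000000000000000000000) (nat_lit 0x0) (nat_lit 0x110008800400008001c000e0004000000000000000) := T_16 (nat_lit 160) (nat_lit 143) (nat_lit 6) (nat_lit 7) (nat_lit 11) L28895 (by decide +kernel)
theorem L28897 : W_16 (nat_lit 8) (nat_lit 0x4000200080005000280010000000000000000000000000000) (nat_lit 0x0) (nat_lit 0x800150008800400008001c000e0004000000000000000) := T_16 (nat_lit 162) (nat_lit 179) (nat_lit 5) (nat_lit 10) (nat_lit 6) L28896 (by decide +kernel)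
theorem L28898 : W_16 (nat_lit 2) (nat_lit 0x4001a00090005000280018000000000000000000000000000) (nat_lit 0x0) (nat_lit 0x400108000000000000000000000000000000000000000) := D_16 (nat_lit 178) (nat_lit 164) (nat_lit 159) (nat_lit 2) (nat_lit 7) (nat_lit 10) (nat_lit 0) (nat_lit 10) (nat_lit 10) (by decide +kernel)
theorem L28899 : W_16 (nat_lit 3) (nat_lit 0x4000a00090005000280018000000000000000000000000000) (nat_lit 0x0) (nat_lit 0x10001400108000000000000000000000000000000000000000) := T_16 (nat_lit 180) (nat_lit 196) (nat_lit 5) (nat_lit 10) (nat_lit 7) L28898 (by decide +kernel)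
theorem L28900 : W_16 (nat_lit 4) (nat_lit 0x4000a00080005000280018000000000000000000000000000) (nat_lit 0x0) (nat_lit 0x10001400118000800000000000000000000000000000000000) := T_16 (nat_lit 160) (nat_lit 143) (nat_lit 6) (nat_lit 7) (nat_lit 11) L28899 (by decide +kernel)
theorem L28901 : W_16 (nat_lit 5) (nat_lit 0x4000200080005000280018000000000000000000000000000) (nat_lit 0x0) (nat_lit 0x10001c00158000800000000000000000000000000000000000) := T_16 (nat_lit 179) (nat_lit 162) (nat_lit 5) (nat_lit 10) (nat_lit 6) L28900 (by decide +kernel)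
theorem L28902 : W_16 (nat_lit 6) (nat_lit 0x4000200080005000280010000000000000000000000000000) (nat_lit 0x0) (nat_lit 0x10001c00158000800000008000400000000000000000000000) := T_16 (nat_lit 111) (nat_lit 94) (nat_lit 4) (nat_lit 10) (nat_lit 9) L28901 (by decide +kernel)
theorem L28903 : W_16 (nat_lit 2) (nat_lit 0x4000a00080005000280030000000000000000000000000000) (nat_lit 0x0) (nat_lit 0x10001000000000000400000000000000000000000000000000) := D_16 (nat_lit 180) (nat_lit 196) (nat_lit 130) (nat_lit 5) (nat_lit 10) (nat_lit 7) (nat_lit 6) (nat_lit 10) (nat_lit 10) (by decide +kernel)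
theorem L28904 : W_16 (nat_lit 3) (nat_lit 0x4000a00080005000280010000000000000000000000000000) (nat_lit 0x0) (nat_lit 0x10001000000000000400020001000000000000000000000000) := T_16 (nat_lit 113) (nat_lit 96) (nat_lit 6) (nat_lit 10) (nat_lit 9) L28903 (by decide +kernel)
theorem L28905 : W_16 (nat_lit 4) (nat_lit 0x4000200080005000280010000000000000000000000000000) (nat_lit 0x0) (nat_lit 0x10001800040000000400020001000000000000000000000000) := T_16 (nat_lit 179) (nat_lit 162) (nat_lit 5) (nat_lit 10) (nat_lit 6) L28904 (by decide +kernel)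
theorem L28906 : W_16 (nat_lit 9) (nat_lit 0x4000200080005000280000000000000000000000000000000) (nat_lit 0x0) (nat_lit 0x10001c00158008800400038001f000e0004000000000000000) := Q_16 (nat_lit 112) (C_16 L28836 (C_16 L28890 (C_16 L28897 (C_16 L28902 (C_16 L28905 N_16))))) (by decide +kernel)
theorem L28907 : W_16 (nat_lit 2) (nat_lit 0x40002001e0005000280030000000000000000000000000000) (nat_lit 0x0) (nat_lit 0x18000000000000800000000000000000000000) := D_16 (nat_lit 147) (nat_lit 148) (nat_lit 95) (nat_lit 2) (nat_lit 8) (nat_lit 9) (nat_lit 7) (nat_lit 10) (nat_lit 5) (by decide +kernel)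
theorem L28908 : W_16 (nat_lit 3) (nat_lit 0x40002000e0005000280030000000000000000000000000000) (nat_lit 0x0) (nat_lit 0x100018800000000000800000000000000000000000) := T_16 (nat_lit 164) (nat_lit 143) (nat_lit 0) (nat_lit 11) (nat_lit 9) L28907 (by decide +kernel)
theorem L28909 : W_16 (nat_lit 4) (nat_lit 0x40002000a0005000280030000000000000000000000000000) (nat_lit 0x0) (nat_lit 0x800140018800000000000800000000000000000000000) := T_16 (nat_lit 162) (nat_lit 179) (nat_lit 5) (nat_lit 10) (nat_lit 6) L28908 (by decide +kernel)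
theorem L28910 : W_16 (nat_lit 5) (nat_lit 0x4000200080005000280030000000000000000000000000000) (nat_lit 0x0) (nat_lit 0xc00160018800000000000800000000000000000000000) := T_16 (nat_lit 161) (nat_lit 178) (nat_lit 5) (nat_lit 8) (nat_lit 7) L28909 (by decide +kernel)
theorem L28911 : W_16 (nat_lit 6) (nat_lit 0x4000200080005000280010000000000000000000000000000) (nat_lit 0x0) (nat_lit 0xc00160018800000020001800000000000000000000000) := T_16 (nat_lit 113) (nat_lit 96) (nat_lit 6) (nat_lit 10) (nat_lit 9) L28910 (by decide +kernel)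
theorem L28912 : W_16 (nat_lit 2) (nat_lit 0x40002001e0005000280018000000000000000000000000000) (nat_lit 0x0) (nat_lit 0x18000000000000800000000000000000000000) := D_16 (nat_lit 147) (nat_lit 148) (nat_lit 95) (nat_lit 2) (nat_lit 8) (nat_lit 9) (nat_lit 7) (nat_lit 10) (nat_lit 5) (by decide +kernel)
theorem L28913 : W_16 (nat_lit 3) (nat_lit 0x40002000e0005000280018000000000000000000000000000) (nat_lit 0x0) (nat_lit 0x100018800000000000800000000000000000000000) := T_16 (nat_lit 164) (nat_lit 143) (nat_lit 0) (nat_lit 11) (nat_lit 9) L28912 (by decide +kernel)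
theorem L28914 : W_16 (nat_lit 4) (nat_lit 0x40002000a0005000280018000000000000000000000000000) (nat_lit 0x0) (nat_lit 0x800140018800000000000800000000000000000000000) := T_16 (nat_lit 162) (nat_lit 179) (nat_lit 5) (nat_lit 10) (nat_lit 6) L28913 (by decide +kernel)
theorem L28915 : W_16 (nat_lit 5) (nat_lit 0x4000200080005000280018000000000000000000000000000) (nat_lit 0x0) (nat_lit 0xc00160018800000000000800000000000000000000000) := T_16 (nat_lit 161) (nat_lit 178) (nat_lit 5) (nat_lit 8) (nat_lit 7) L28914 (by decide +kernel)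
theorem L28916 : W_16 (nat_lit 6) (nat_lit 0x4000200080005000280010000000000000000000000000000) (nat_lit 0x0) (nat_lit 0xc00160018800000008000c00000000000000000000000) := T_16 (nat_lit 111) (nat_lit 94) (nat_lit 4) (nat_lit 10) (nat_lit 9) L28915 (by decide +kernel)
theorem L28917 : W_16 (nat_lit 8) (nat_lit 0x4000200080005000280000000000000000000000000000000) (nat_lit 0x0) (nat_lit 0x10001c00160018800400038001f00060000000000000000000) := Q_16 (nat_lit 112) (C_16 L28905 (C_16 L28911 (C_16 L28836 (C_16 L28916 N_16)))) (by decide +kernel)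
theorem L28918 : W_16 (nat_lit 2) (nat_lit 0x40002000e0005a00280010001400000000000000000000000) (nat_lit 0x0) (nat_lit 0x8000a0000000000000000000) := D_16 (nat_lit 95) (nat_lit 77) (nat_lit 79) (nat_lit 4) (nat_lit 10) (nat_lit 8) (nat_lit 6) (nat_lit 10) (nat_lit 8) (by decide +kernel)
theorem L28919 : W_16 (nat_lit 3) (nat_lit 0x40002000e0005a00280010000400000000000000000000000) (nat_lit 0x0) (nat_lit 0x200018000a0000000000000000000) := T_16 (nat_lit 96) (nat_lit 113) (nat_lit 6) (nat_lit 10) (nat_lit 9) L28918 (by decide +kernel)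
theorem L28920 : W_16 (nat_lit 4) (nat_lit 0x40002000e0005a00280010000000000000000000000000000) (nat_lit 0x0) (nat_lit 0x28001c000a0000000000000000000) := T_16 (nat_lit 94) (nat_lit 111) (nat_lit 4) (nat_lit 10) (nat_lit 9) L28919 (by decide +kernel)
theorem L28921 : W_16 (nat_lit 5) (nat_lit 0x40002000e0005a00280000000000000000000000000000000) (nat_lit 0x0) (nat_lit 0x800000000000000038001c000a0000000000000000000) := T_16 (nat_lit 112) (nat_lit 179) (nat_lit 5) (nat_lit 10) (nat_lit 6) L28920 (by decide +kernel)
theorem L28922 : W_16 (nat_lit 6) (nat_lit 0x40002000e0005800280000000000000000000000000000000) (nat_lit 0x0) (nat_lit 0x800000000600000038001c000a0000000000000000000) := T_16 (nat_lit 141) (nat_lit 142) (nat_lit 3) (nat_lit 5) (nat_lit 8) L28921 (by decide +kernel)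
theorem L28923 : W_16 (nat_lit 7) (nat_lit 0x40002000a0005800280000000000000000000000000000000) (nat_lit 0x0) (nat_lit 0x800140000600000038001c000a0000000000000000000) := T_16 (nat_lit 162) (nat_lit 164) (nat_lit 0) (nat_lit 11) (nat_lit 9) L28922 (by decide +kernel)
theorem L28924 : W_16 (nat_lit 8) (nat_lit 0x40002000a0005000280000000000000000000000000000000) (nat_lit 0x0) (nat_lit 0x800150000e00000038001c000a0000000000000000000) := T_16 (nat_lit 143) (nat_lit 160) (nat_lit 6) (nat_lit 7) (nat_lit 11) L28923 (by decide +kernel)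
theorem L28925 : W_16 (nat_lit 9) (nat_lit 0x4000200080005000280000000000000000000000000000000) (nat_lit 0x0) (nat_lit 0xc00170000e00000038001c000a0000000000000000000) := T_16 (nat_lit 161) (nat_lit 178) (nat_lit 5) (nat_lit 8) (nat_lit 7) L28924 (by decide +kernel)
theorem L28926 : W_16 (nat_lit 15) (nat_lit 0x4000200080001000280000000000000000000000000000000) (nat_lit 0x0) (nat_lit 0x10000e00078005c00f7803ce03c001f8003f000e0007000280000000000) := Q_16 (nat_lit 146) (C_16 L28790 (C_16 L28795 (C_16 L28849 (C_16 L28860 (C_16 L28880 (C_16 L28885 (C_16 L28906 (C_16 L28917 (C_16 L28925 N_16))))))))) (by decide +kernel)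
theorem L28927 : W_16 (nat_lit 16) (nat_lit 0x4000200000001000280000000000000000000000000000000) (nat_lit 0x80000000100000002000100004000000000000000000000000000) (nat_lit 0x1a001f800fe00ff807fe07ff03ff81ffe07f803fc01ff001e0007000280000000000) := Q_16 (nat_lit 163) (C_16 L25526 (C_16 L25600 (C_16 L25636 (C_16 L25674 (C_16 L28214 (C_16 L28237 (C_16 L28339 (C_16 L28465 (C_16 L28502 (C_16 L28570 (C_16 L28684 (C_16 L28755 (C_16 L28785 (C_16 L28926 N_16)))))))))))))) (by decide +kernel)
theorem L28928 : W_16 (nat_lit 2) (nat_lit 0x40002000200018003e0010800100000000000000000000000) (nat_lit 0x0) (nat_lit 0x18000400000000000000000000000000) := D_16 (nat_lit 124) (nat_lit 123) (nat_lit 106) (nat_lit 3) (nat_lit 4) (nat_lit 7) (nat_lit 0) (nat_lit 8) (nat_lit 7) (by decide +kernel)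
theorem L28929 : W_16 (nat_lit 3) (nat_lit 0x40002000200018003e0010000100000000000000000000000) (nat_lit 0x0) (nat_lit 0x18001c00000000000000000000000000) := T_16 (nat_lit 107) (nat_lit 108) (nat_lit 0) (nat_lit 9) (nat_lit 7) L28928 (by decide +kernel)
theorem L28930 : W_16 (nat_lit 4) (nat_lit 0x40002000200018003c0010000100000000000000000000000) (nat_lit 0x0) (nat_lit 0x38009c00000000000000000000000000) := T_16 (nat_lit 125) (nat_lit 111) (nat_lit 2) (nat_lit 6) (nat_lit 7) L28929 (by decide +kernel)
theorem L28931 : W_16 (nat_lit 5) (nat_lit 0x40002000200018003c0000000100000000000000000000000) (nat_lit 0x0) (nat_lit 0x38039c00000000000000000000000000) := T_16 (nat_lit 112) (nat_lit 113) (nat_lit 2) (nat_lit 7) (nat_lit 7) L28930 (by decide +kernel)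
theorem L28932 : W_16 (nat_lit 6) (nat_lit 0x40002000200018002c0000000100000000000000000000000) (nat_lit 0x0) (nat_lit 0x400138039c00000000000000000000000000) := T_16 (nat_lit 128) (nat_lit 142) (nat_lit 1) (nat_lit 10) (nat_lit 7) L28931 (by decide +kernel)
theorem L28933 : W_16 (nat_lit 7) (nat_lit 0x40002000200018002c0000000000000000000000000000000) (nat_lit 0x0) (nat_lit 0x40013803bc00100000000000000000000000) := T_16 (nat_lit 92) (nat_lit 109) (nat_lit 7) (nat_lit 7) (nat_lit 5) L28932 (by decide +kernel)
theorem L28934 : W_16 (nat_lit 8) (nat_lit 0x40002000000018002c0000000000000000000000000000000) (nat_lit 0x0) (nat_lit 0x40002000040013803bc00100000000000000000000000) := T_16 (nat_lit 161) (nat_lit 178) (nat_lit 5) (nat_lit 8) (nat_lit 7) L28933 (by decide +kernel)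
theorem L28935 : W_16 (nat_lit 2) (nat_lit 0x40002000000018003c0002000000000000000000000000000) (nat_lit 0x0) (nat_lit 0x400020000000000000000100000000000000000000000) := D_16 (nat_lit 161) (nat_lit 178) (nat_lit 92) (nat_lit 5) (nat_lit 8) (nat_lit 7) (nat_lit 7) (nat_lit 7) (nat_lit 5) (by decide +kernel)
theorem L28936 : W_16 (nat_lit 3) (nat_lit 0x40002000000018003c0000000000000000000000000000000) (nat_lit 0x0) (nat_lit 0x400020000000000003000100000000000000000000000) := T_16 (nat_lit 109) (nat_lit 108) (nat_lit 0) (nat_lit 10) (nat_lit 7) L28935 (by decide +kernel)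
theorem L28937 : W_16 (nat_lit 4) (nat_lit 0x40002000000018002c0000000000000000000000000000000) (nat_lit 0x0) (nat_lit 0x400020000400100003000100000000000000000000000) := T_16 (nat_lit 128) (nat_lit 142) (nat_lit 1) (nat_lit 10) (nat_lit 7) L28936 (by decide +kernel)
theorem L28938 : W_16 (nat_lit 2) (nat_lit 0x4000200000001a002d0000000000000000000000000000000) (nat_lit 0x0) (nat_lit 0x100028000000000000000000000000000000) := D_16 (nat_lit 125) (nat_lit 140) (nat_lit 123) (nat_lit 1) (nat_lit 8) (nat_lit 7) (nat_lit 3) (nat_lit 4) (nat_lit 7) (by decide +kernel)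
theorem L28939 : W_16 (nat_lit 2) (nat_lit 0x4000200020001b002d00008000c0002000000000000000000) (nat_lit 0x0) (nat_lit 0x20001000080000000000000) := D_16 (nat_lit 72) (nat_lit 55) (nat_lit 89) (nat_lit 4) (nat_lit 5) (nat_lit 7) (nat_lit 4) (nat_lit 5) (nat_lit 8) (by decide +kernel)
theorem L28940 : W_16 (nat_lit 3) (nat_lit 0x4000200020001b002d00008000c0000000000000000000000) (nat_lit 0x0) (nat_lit 0x8000000020003000080000000000000) := T_16 (nat_lit 73) (nat_lit 123) (nat_lit 5) (nat_lit 5) (nat_lit 4) L28939 (by decide +kernel)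
theorem L28941 : W_16 (nat_lit 4) (nat_lit 0x4000200020001a002d00008000c0000000000000000000000) (nat_lit 0x0) (nat_lit 0x2000100008000000020003000080000000000000) := T_16 (nat_lit 140) (nat_lit 157) (nat_lit 5) (nat_lit 5) (nat_lit 5) L28940 (by decide +kernel)
theorem L28942 : W_16 (nat_lit 5) (nat_lit 0x4000200020001a002d0000800040000000000000000000000) (nat_lit 0x0) (nat_lit 0x20001000080000000a0007000080000000000000) := T_16 (nat_lit 91) (nat_lit 74) (nat_lit 6) (nat_lit 5) (nat_lit 8) L28941 (by decide +kernel)
theorem L28943 : W_16 (nat_lit 6) (nat_lit 0x4000200000001a002d0000800040000000000000000000000) (nat_lit 0x0) (nat_lit 0x4000220001000080000000a0007000080000000000000) := T_16 (nat_lit 161) (nat_lit 178) (nat_lit 5) (nat_lit 8) (nat_lit 7) L28942 (by decide +kernel)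
theorem L28944 : W_16 (nat_lit 2) (nat_lit 0x4000200000001b002d00008000c0002000000000000000000) (nat_lit 0x0) (nat_lit 0x20001000080000000000000) := D_16 (nat_lit 72) (nat_lit 55) (nat_lit 89) (nat_lit 4) (nat_lit 5) (nat_lit 7) (nat_lit 4) (nat_lit 5) (nat_lit 8) (by decide +kernel)
theorem L28945 : W_16 (nat_lit 3) (nat_lit 0x4000200000001b002d00008000c0000000000000000000000) (nat_lit 0x0) (nat_lit 0x8000000020003000080000000000000) := T_16 (nat_lit 73) (nat_lit 123) (nat_lit 5) (nat_lit 5) (nat_lit 4) L28944 (by decide +kernel)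
theorem L28946 : W_16 (nat_lit 4) (nat_lit 0x4000200000001a002d00008000c0000000000000000000000) (nat_lit 0x0) (nat_lit 0x2000100008000000020003000080000000000000) := T_16 (nat_lit 140) (nat_lit 157) (nat_lit 5) (nat_lit 5) (nat_lit 5) L28945 (by decide +kernel)
theorem L28947 : W_16 (nat_lit 5) (nat_lit 0x4000200000001a002d0000800040000000000000000000000) (nat_lit 0x0) (nat_lit 0x20001000080000000a0007000080000000000000) := T_16 (nat_lit 91) (nat_lit 74) (nat_lit 6) (nat_lit 5) (nat_lit 8) L28946 (by decide +kernel)
theorem L28948 : W_16 (nat_lit 2) (nat_lit 0x4000200024001a002d00008000c0000000000000000000000) (nat_lit 0x0) (nat_lit 0x400020001000000000000000000) := D_16 (nat_lit 89) (nat_lit 72) (nat_lit 106) (nat_lit 4) (nat_lit 5) (nat_lit 8) (nat_lit 4) (nat_lit 5) (nat_lit 9) (by decide +kernel)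
theorem L28949 : W_16 (nat_lit 3) (nat_lit 0x4000200020001a002d00008000c0000000000000000000000) (nat_lit 0x0) (nat_lit 0x4000000000001400020001000000000000000000) := T_16 (nat_lit 158) (nat_lit 108) (nat_lit 6) (nat_lit 5) (nat_lit 9) L28948 (by decide +kernel)
theorem L28950 : W_16 (nat_lit 4) (nat_lit 0x4000200000001a002d00008000c0000000000000000000000) (nat_lit 0x0) (nat_lit 0x400024000000000001400020001000000000000000000) := T_16 (nat_lit 161) (nat_lit 178) (nat_lit 5) (nat_lit 8) (nat_lit 7) L28949 (by decide +kernel)
theorem L28951 : W_16 (nat_lit 5) (nat_lit 0x4000200000001a002d0000800040000000000000000000000) (nat_lit 0x0) (nat_lit 0x4000240000000000014000a0005000000000000000000) := T_16 (nat_lit 91) (nat_lit 74) (nat_lit 6) (nat_lit 5) (nat_lit 8) L28950 (by decide +kernel)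
theorem L28952 : W_16 (nat_lit 2) (nat_lit 0x4000200024001a002d0000800060000000000000000000000) (nat_lit 0x0) (nat_lit 0x40002000100000000000000000000000000000000000) := D_16 (nat_lit 157) (nat_lit 140) (nat_lit 174) (nat_lit 5) (nat_lit 5) (nat_lit 5) (nat_lit 5) (nat_lit 5) (nat_lit 6) (by decide +kernel)
theorem L28953 : W_16 (nat_lit 3) (nat_lit 0x4000200020001a002d0000800060000000000000000000000) (nat_lit 0x0) (nat_lit 0x40006000100000000400000000000000000000000000) := T_16 (nat_lit 158) (nat_lit 106) (nat_lit 4) (nat_lit 5) (nat_lit 9) L28952 (by decide +kernel)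
theorem L28954 : W_16 (nat_lit 4) (nat_lit 0x4000200000001a002d0000800060000000000000000000000) (nat_lit 0x0) (nat_lit 0x440026000100000000400000000000000000000000000) := T_16 (nat_lit 161) (nat_lit 178) (nat_lit 5) (nat_lit 8) (nat_lit 7) L28953 (by decide +kernel)
theorem L28955 : W_16 (nat_lit 5) (nat_lit 0x4000200000001a002d0000800040000000000000000000000) (nat_lit 0x0) (nat_lit 0x440026000100000000400020001000000000000000000) := T_16 (nat_lit 89) (nat_lit 72) (nat_lit 4) (nat_lit 5) (nat_lit 8) L28954 (by decide +kernel)
theorem L28956 : W_16 (nat_lit 2) (nat_lit 0x4000200000001b002d0000800040002000000000000000000) (nat_lit 0x0) (nat_lit 0x80004000200000000000000) := D_16 (nat_lit 74) (nat_lit 91) (nat_lit 57) (nat_lit 6) (nat_lit 5) (nat_lit 8) (nat_lit 6) (nat_lit 5) (nat_lit 7) (by decide +kernel)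
theorem L28957 : W_16 (nat_lit 3) (nat_lit 0x4000200000001b002d0000800040000000000000000000000) (nat_lit 0x0) (nat_lit 0x8000000080006000200000000000000) := T_16 (nat_lit 73) (nat_lit 123) (nat_lit 5) (nat_lit 5) (nat_lit 4) L28956 (by decide +kernel)
theorem L28958 : W_16 (nat_lit 4) (nat_lit 0x4000200000001a002d0000800040000000000000000000000) (nat_lit 0x0) (nat_lit 0x2000100008000000080006000200000000000000) := T_16 (nat_lit 140) (nat_lit 157) (nat_lit 5) (nat_lit 5) (nat_lit 5) L28957 (by decide +kernel)
theorem L28959 : W_16 (nat_lit 7) (nat_lit 0x4000200000001a002d0000800000000000000000000000000) (nat_lit 0x0) (nat_lit 0x4400260001000080014000e0007000280000000000000) := Q_16 (nat_lit 90) (C_16 L28943 (C_16 L28947 (C_16 L28951 (C_16 L28955 (C_16 L28958 N_16))))) (by decide +kernel)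
theorem L28960 : W_16 (nat_lit 2) (nat_lit 0x4000200000001a002d00008000e0000000000000000000000) (nat_lit 0x0) (nat_lit 0x4000000000001400000000000000000000000000) := D_16 (nat_lit 158) (nat_lit 106) (nat_lit 108) (nat_lit 4) (nat_lit 5) (nat_lit 9) (nat_lit 6) (nat_lit 5) (nat_lit 9) (by decide +kernel)
theorem L28961 : W_16 (nat_lit 3) (nat_lit 0x4000200000001a002d0000800060000000000000000000000) (nat_lit 0x0) (nat_lit 0x4000000000001400080004000000000000000000) := T_16 (nat_lit 91) (nat_lit 74) (nat_lit 6) (nat_lit 5) (nat_lit 8) L28960 (by decide +kernel)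
theorem L28962 : W_16 (nat_lit 4) (nat_lit 0x4000200000001a002d0000800040000000000000000000000) (nat_lit 0x0) (nat_lit 0x40000000000014000a0005000000000000000000) := T_16 (nat_lit 89) (nat_lit 72) (nat_lit 4) (nat_lit 5) (nat_lit 8) L28961 (by decide +kernel)
theorem L28963 : W_16 (nat_lit 2) (nat_lit 0x4000200000001b002d0002c00068016000000000000000000) (nat_lit 0x0) (nat_lit 0x20000000000000000300000000000000000000000) := D_16 (nat_lit 92) (nat_lit 93) (nat_lit 161) (nat_lit 6) (nat_lit 7) (nat_lit 8) (nat_lit 7) (nat_lit 7) (nat_lit 5) (by decide +kernel)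
theorem L28964 : W_16 (nat_lit 3) (nat_lit 0x4000200000001b002d0000c00068016000000000000000000) (nat_lit 0x0) (nat_lit 0x20000000000003000300000000000000000000000) := T_16 (nat_lit 109) (nat_lit 108) (nat_lit 3) (nat_lit 4) (nat_lit 6) L28963 (by decide +kernel)
theorem L28965 : W_16 (nat_lit 4) (nat_lit 0x4000200000001b002d0000c00068006000000000000000000) (nat_lit 0x0) (nat_lit 0x20000000000003000300018000000000000000000) := T_16 (nat_lit 76) (nat_lit 75) (nat_lit 1) (nat_lit 8) (nat_lit 4) L28964 (by decide +kernel)
theorem L28966 : W_16 (nat_lit 5) (nat_lit 0x4000200000001b002d0000c00060006000000000000000000) (nat_lit 0x0) (nat_lit 0x20000000000003000318018000000000000000000) := T_16 (nat_lit 87) (nat_lit 88) (nat_lit 2) (nat_lit 2) (nat_lit 5) L28965 (by decide +kernel)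
theorem L28967 : W_16 (nat_lit 6) (nat_lit 0x4000200000001b002d0000c00060002000000000000000000) (nat_lit 0x0) (nat_lit 0x2000000000000300031801c000200000000000000) := T_16 (nat_lit 74) (nat_lit 57) (nat_lit 6) (nat_lit 5) (nat_lit 7) L28966 (by decide +kernel)
theorem L28968 : W_16 (nat_lit 7) (nat_lit 0x4000200000001b002d0000800060002000000000000000000) (nat_lit 0x0) (nat_lit 0x2400000000000340031801c000200000000000000) := T_16 (nat_lit 106) (nat_lit 158) (nat_lit 4) (nat_lit 5) (nat_lit 9) L28967 (by decide +kernel)
theorem L28969 : W_16 (nat_lit 8) (nat_lit 0x4000200000001b002d0000800060000000000000000000000) (nat_lit 0x0) (nat_lit 0x2400000000800340031801e000200000000000000) := T_16 (nat_lit 73) (nat_lit 123) (nat_lit 5) (nat_lit 5) (nat_lit 4) L28968 (by decide +kernel)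
theorem L28970 : W_16 (nat_lit 9) (nat_lit 0x4000200000001a002d0000800060000000000000000000000) (nat_lit 0x0) (nat_lit 0x2600010000800340031801e000200000000000000) := T_16 (nat_lit 140) (nat_lit 157) (nat_lit 5) (nat_lit 5) (nat_lit 5) L28969 (by decide +kernel)
theorem L28971 : W_16 (nat_lit 10) (nat_lit 0x4000200000001a002d0000800040000000000000000000000) (nat_lit 0x0) (nat_lit 0x2600010000800340033801f000200000000000000) := T_16 (nat_lit 89) (nat_lit 72) (nat_lit 4) (nat_lit 5) (nat_lit 8) L28970 (by decide +kernel)
theorem L28972 : W_16 (nat_lit 2) (nat_lit 0x4000200000001b002d0002c00060002000000000000000000) (nat_lit 0x0) (nat_lit 0x20000000000000000100008000000000000000000) := D_16 (nat_lit 92) (nat_lit 161) (nat_lit 75) (nat_lit 7) (nat_lit 7) (nat_lit 5) (nat_lit 7) (nat_lit 7) (nat_lit 4) (by decide +kernel)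
theorem L28973 : W_16 (nat_lit 3) (nat_lit 0x4000200000001b002d0000c00060002000000000000000000) (nat_lit 0x0) (nat_lit 0x20000000000003000100008000000000000000000) := T_16 (nat_lit 109) (nat_lit 108) (nat_lit 3) (nat_lit 4) (nat_lit 6) L28972 (by decide +kernel)
theorem L28974 : W_16 (nat_lit 4) (nat_lit 0x4000200000001b002d0000800060002000000000000000000) (nat_lit 0x0) (nat_lit 0x24000000000003400100008000000000000000000) := T_16 (nat_lit 106) (nat_lit 158) (nat_lit 4) (nat_lit 5) (nat_lit 9) L28973 (by decide +kernel)
theorem L28975 : W_16 (nat_lit 5) (nat_lit 0x4000200000001b002d0000800060000000000000000000000) (nat_lit 0x0) (nat_lit 0x2400000000800340010000a000000000000000000) := T_16 (nat_lit 73) (nat_lit 123) (nat_lit 5) (nat_lit 5) (nat_lit 4) L28974 (by decide +kernel)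
theorem L28976 : W_16 (nat_lit 6) (nat_lit 0x4000200000001a002d0000800060000000000000000000000) (nat_lit 0x0) (nat_lit 0x2600010000800340010000a000000000000000000) := T_16 (nat_lit 140) (nat_lit 157) (nat_lit 5) (nat_lit 5) (nat_lit 5) L28975 (by decide +kernel)
theorem L28977 : W_16 (nat_lit 7) (nat_lit 0x4000200000001a002d0000800040000000000000000000000) (nat_lit 0x0) (nat_lit 0x2600010000800340012000b000000000000000000) := T_16 (nat_lit 89) (nat_lit 72) (nat_lit 4) (nat_lit 5) (nat_lit 8) L28976 (by decide +kernel)
theorem L28978 : W_16 (nat_lit 11) (nat_lit 0x4000200000001a002d0000800000000000000000000000000) (nat_lit 0x0) (nat_lit 0x260001000080034003f801f000200000000000000) := Q_16 (nat_lit 90) (C_16 L28958 (C_16 L28962 (C_16 L28971 (C_16 L28977 N_16)))) (by decide +kernel)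
theorem L28979 : W_16 (nat_lit 2) (nat_lit 0x4000200020001a002d00008003c0000000000000000000000) (nat_lit 0x0) (nat_lit 0x20003000000000000000000) := D_16 (nat_lit 72) (nat_lit 73) (nat_lit 89) (nat_lit 0) (nat_lit 8) (nat_lit 5) (nat_lit 4) (nat_lit 5) (nat_lit 8) (by decide +kernel)
theorem L28980 : W_16 (nat_lit 3) (nat_lit 0x4000200020001a002d00008001c0000000000000000000000) (nat_lit 0x0) (nat_lit 0x400220003000000000000000000) := T_16 (nat_lit 93) (nat_lit 106) (nat_lit 1) (nat_lit 8) (nat_lit 5) L28979 (by decide +kernel)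
theorem L28981 : W_16 (nat_lit 4) (nat_lit 0x4000200020001a002d0000800140000000000000000000000) (nat_lit 0x0) (nat_lit 0x4002a0007000000000000000000) := T_16 (nat_lit 91) (nat_lit 74) (nat_lit 6) (nat_lit 5) (nat_lit 8) L28980 (by decide +kernel)
theorem L28982 : W_16 (nat_lit 5) (nat_lit 0x4000200020001a002d0000800040000000000000000000000) (nat_lit 0x0) (nat_lit 0x24003a0007000000000000000000) := T_16 (nat_lit 92) (nat_lit 109) (nat_lit 7) (nat_lit 7) (nat_lit 5) L28981 (by decide +kernel)
theorem L28983 : W_16 (nat_lit 6) (nat_lit 0x4000200000001a002d0000800040000000000000000000000) (nat_lit 0x0) (nat_lit 0x4000200000000000024003a0007000000000000000000) := T_16 (nat_lit 161) (nat_lit 178) (nat_lit 5) (nat_lit 8) (nat_lit 7) L28982 (by decide +kernel)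
theorem L28984 : W_16 (nat_lit 7) (nat_lit 0x4000200000001a002d0000800000000000000000000000000) (nat_lit 0x0) (nat_lit 0x4400260001000080024003e0007000200000000000000) := Q_16 (nat_lit 90) (C_16 L28958 (C_16 L28983 (C_16 L28955 N_16))) (by decide +kernel)
theorem L28985 : W_16 (nat_lit 2) (nat_lit 0x4000280024001a002d0002c00000000000000000000000000) (nat_lit 0x0) (nat_lit 0x800040002000000000000000000000000000000000000000) := D_16 (nat_lit 174) (nat_lit 157) (nat_lit 191) (nat_lit 5) (nat_lit 5) (nat_lit 6) (nat_lit 5) (nat_lit 5) (nat_lit 7) (by decide +kernel)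
theorem L28986 : W_16 (nat_lit 3) (nat_lit 0x4000200024001a002d0002c00000000000000000000000000) (nat_lit 0x0) (nat_lit 0x8000c0002000000008000000000000000000000000000000) := T_16 (nat_lit 175) (nat_lit 123) (nat_lit 4) (nat_lit 5) (nat_lit 10) L28985 (by decide +kernel)
theorem L28987 : W_16 (nat_lit 4) (nat_lit 0x4000200020001a002d0002c00000000000000000000000000) (nat_lit 0x0) (nat_lit 0x8000c0006000000008000000020000000000000000000000) := T_16 (nat_lit 158) (nat_lit 89) (nat_lit 4) (nat_lit 5) (nat_lit 9) L28986 (by decide +kernel)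
theorem L28988 : W_16 (nat_lit 5) (nat_lit 0x4000200020001a002d0002800000000000000000000000000) (nat_lit 0x0) (nat_lit 0x8000c0006000000008001400020000000000000000000000) := T_16 (nat_lit 106) (nat_lit 108) (nat_lit 3) (nat_lit 4) (nat_lit 6) L28987 (by decide +kernel)
theorem L28989 : W_16 (nat_lit 6) (nat_lit 0x4000200020001a002d0000800000000000000000000000000) (nat_lit 0x0) (nat_lit 0x8000c0006000000008003400120000000000000000000000) := T_16 (nat_lit 109) (nat_lit 92) (nat_lit 7) (nat_lit 7) (nat_lit 5) L28988 (by decide +kernel)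
theorem L28990 : W_16 (nat_lit 7) (nat_lit 0x4000200000001a002d0000800000000000000000000000000) (nat_lit 0x0) (nat_lit 0x8004c0026000000008003400120000000000000000000000) := T_16 (nat_lit 161) (nat_lit 178) (nat_lit 5) (nat_lit 8) (nat_lit 7) L28989 (by decide +kernel)
theorem L28991 : W_16 (nat_lit 2) (nat_lit 0x4000200020001a002d00018001e0010000000000000000000) (nat_lit 0x0) (nat_lit 0x600020000000000000000000) := D_16 (nat_lit 93) (nat_lit 77) (nat_lit 94) (nat_lit 2) (nat_lit 5) (nat_lit 5) (nat_lit 1) (nat_lit 9) (nat_lit 5) (by decide +kernel)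
theorem L28992 : W_16 (nat_lit 3) (nat_lit 0x4000200020001a002d00008001e0010000000000000000000) (nat_lit 0x0) (nat_lit 0x4000000000001000600020000000000000000000) := T_16 (nat_lit 108) (nat_lit 158) (nat_lit 6) (nat_lit 5) (nat_lit 9) L28991 (by decide +kernel)
theorem L28993 : W_16 (nat_lit 4) (nat_lit 0x4000200020001a002d00008001e0000000000000000000000) (nat_lit 0x0) (nat_lit 0x4000000000001000600038000000000000000000) := T_16 (nat_lit 76) (nat_lit 75) (nat_lit 2) (nat_lit 4) (nat_lit 5) L28992 (by decide +kernel)
theorem L28994 : W_16 (nat_lit 5) (nat_lit 0x4000200020001a002d00008001c0000000000000000000000) (nat_lit 0x0) (nat_lit 0x4000000000001000620039000000000000000000) := T_16 (nat_lit 89) (nat_lit 72) (nat_lit 4) (nat_lit 5) (nat_lit 8) L28993 (by decide +kernel)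
theorem L28995 : W_16 (nat_lit 6) (nat_lit 0x4000200020001a002d0000800140000000000000000000000) (nat_lit 0x0) (nat_lit 0x40000000000010006a003d000000000000000000) := T_16 (nat_lit 91) (nat_lit 74) (nat_lit 6) (nat_lit 5) (nat_lit 8) L28994 (by decide +kernel)
theorem L28996 : W_16 (nat_lit 7) (nat_lit 0x4000200020001a002d0000800040000000000000000000000) (nat_lit 0x0) (nat_lit 0x40000000000030007a003d000000000000000000) := T_16 (nat_lit 92) (nat_lit 109) (nat_lit 7) (nat_lit 7) (nat_lit 5) L28995 (by decide +kernel)
theorem L28997 : W_16 (nat_lit 8) (nat_lit 0x4000200000001a002d0000800040000000000000000000000) (nat_lit 0x0) (nat_lit 0x4000240000000000030007a003d000000000000000000) := T_16 (nat_lit 161) (nat_lit 178) (nat_lit 5) (nat_lit 8) (nat_lit 7) L28996 (by decide +kernel)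
theorem L28998 : W_16 (nat_lit 2) (nat_lit 0x4000200000001b002d0000800040002000000000000000000) (nat_lit 0x0) (nat_lit 0x20001000080000000000000) := D_16 (nat_lit 72) (nat_lit 55) (nat_lit 89) (nat_lit 4) (nat_lit 5) (nat_lit 7) (nat_lit 4) (nat_lit 5) (nat_lit 8) (by decide +kernel)
theorem L28999 : W_16 (nat_lit 3) (nat_lit 0x4000200000001b002d0000800040000000000000000000000) (nat_lit 0x0) (nat_lit 0x8000000020003000080000000000000) := T_16 (nat_lit 73) (nat_lit 123) (nat_lit 5) (nat_lit 5) (nat_lit 4) L28998 (by decide +kernel)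
theorem L29000 : W_16 (nat_lit 4) (nat_lit 0x4000200000001a002d0000800040000000000000000000000) (nat_lit 0x0) (nat_lit 0x2000100008000000020003000080000000000000) := T_16 (nat_lit 140) (nat_lit 157) (nat_lit 5) (nat_lit 5) (nat_lit 5) L28999 (by decide +kernel)
theorem L29001 : W_16 (nat_lit 9) (nat_lit 0x4000200000001a002d0000800000000000000000000000000) (nat_lit 0x0) (nat_lit 0x4000260001000080030007e003f000280000000000000) := Q_16 (nat_lit 90) (C_16 L28958 (C_16 L28997 (C_16 L29000 N_16))) (by decide +kernel)
theorem L29002 : W_16 (nat_lit 2) (nat_lit 0x4000200020001b002d00008003e0000000000000000000000) (nat_lit 0x0) (nat_lit 0x38000000000000000000) := D_16 (nat_lit 76) (nat_lit 75) (nat_lit 77) (nat_lit 2) (nat_lit 4) (nat_lit 5) (nat_lit 2) (nat_lit 5) (nat_lit 5) (by decide +kernel)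
theorem L29003 : W_16 (nat_lit 3) (nat_lit 0x4000200020001b002d00008003c0000000000000000000000) (nat_lit 0x0) (nat_lit 0x20039000000000000000000) := T_16 (nat_lit 89) (nat_lit 72) (nat_lit 4) (nat_lit 5) (nat_lit 8) L29002 (by decide +kernel)
theorem L29004 : W_16 (nat_lit 4) (nat_lit 0x4000200020001b002d00008001c0000000000000000000000) (nat_lit 0x0) (nat_lit 0x400220039000000000000000000) := T_16 (nat_lit 93) (nat_lit 106) (nat_lit 1) (nat_lit 8) (nat_lit 5) L29003 (by decide +kernel)
theorem L29005 : W_16 (nat_lit 5) (nat_lit 0x4000200020001b002d0000800140000000000000000000000) (nat_lit 0x0) (nat_lit 0x4002a003d000000000000000000) := T_16 (nat_lit 91) (nat_lit 74) (nat_lit 6) (nat_lit 5) (nat_lit 8) L29004 (by decide +kernel)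
theorem L29006 : W_16 (nat_lit 6) (nat_lit 0x4000200020001a002d0000800140000000000000000000000) (nat_lit 0x0) (nat_lit 0x20001000000004002a003d000000000000000000) := T_16 (nat_lit 140) (nat_lit 157) (nat_lit 5) (nat_lit 5) (nat_lit 5) L29005 (by decide +kernel)
theorem L29007 : W_16 (nat_lit 7) (nat_lit 0x4000200020001a002d0000800040000000000000000000000) (nat_lit 0x0) (nat_lit 0x20001000000024003a003d000000000000000000) := T_16 (nat_lit 92) (nat_lit 109) (nat_lit 7) (nat_lit 7) (nat_lit 5) L29006 (by decide +kernel)
theorem L29008 : W_16 (nat_lit 8) (nat_lit 0x4000200000001a002d0000800040000000000000000000000) (nat_lit 0x0) (nat_lit 0x4000220001000000024003a003d000000000000000000) := T_16 (nat_lit 161) (nat_lit 178) (nat_lit 5) (nat_lit 8) (nat_lit 7) L29007 (by decide +kernel)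
theorem L29009 : W_16 (nat_lit 9) (nat_lit 0x4000200000001a002d0000800000000000000000000000000) (nat_lit 0x0) (nat_lit 0x4000220001000080024003e003f000280000000000000) := Q_16 (nat_lit 90) (C_16 L29000 (C_16 L28983 (C_16 L29008 (C_16 L28958 N_16)))) (by decide +kernel)
theorem L29010 : W_16 (nat_lit 2) (nat_lit 0x4000200020001a002d0002c00020000000000000000000000) (nat_lit 0x0) (nat_lit 0x40001000080000000000000) := D_16 (nat_lit 72) (nat_lit 90) (nat_lit 55) (nat_lit 4) (nat_lit 5) (nat_lit 8) (nat_lit 7) (nat_lit 4) (nat_lit 3) (by decide +kernel)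
theorem L29011 : W_16 (nat_lit 3) (nat_lit 0x4000200020001a002d0002c00000000000000000000000000) (nat_lit 0x0) (nat_lit 0x4000000000000000060001000080000000000000) := T_16 (nat_lit 89) (nat_lit 158) (nat_lit 4) (nat_lit 5) (nat_lit 9) L29010 (by decide +kernel)
theorem L29012 : W_16 (nat_lit 4) (nat_lit 0x4000200020001a002d0002800000000000000000000000000) (nat_lit 0x0) (nat_lit 0x4000000000001400060001000080000000000000) := T_16 (nat_lit 106) (nat_lit 108) (nat_lit 3) (nat_lit 4) (nat_lit 6) L29011 (by decide +kernel)
theorem L29013 : W_16 (nat_lit 5) (nat_lit 0x4000200020001a002d0000800000000000000000000000000) (nat_lit 0x0) (nat_lit 0x4000000000003400160001000080000000000000) := T_16 (nat_lit 109) (nat_lit 92) (nat_lit 7) (nat_lit 7) (nat_lit 5) L29012 (by decide +kernel)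
theorem L29014 : W_16 (nat_lit 6) (nat_lit 0x4000200000001a002d0000800000000000000000000000000) (nat_lit 0x0) (nat_lit 0x400024000000000003400160001000080000000000000) := T_16 (nat_lit 161) (nat_lit 178) (nat_lit 5) (nat_lit 8) (nat_lit 7) L29013 (by decide +kernel)
theorem L29015 : W_16 (nat_lit 5) (nat_lit 0x4000200000001a002d0000800000000000000000000000000) (nat_lit 0x0) (nat_lit 0x60001000080014000e0007000280000000000000) := Q_16 (nat_lit 90) (C_16 L29000 (C_16 L28962 (C_16 L28958 N_16))) (by decide +kernel)
theorem L29016 : W_16 (nat_lit 2) (nat_lit 0x4000200020001a002d0003800080000000000000000000000) (nat_lit 0x0) (nat_lit 0x40004000200000000000000) := D_16 (nat_lit 74) (nat_lit 90) (nat_lit 57) (nat_lit 6) (nat_lit 5) (nat_lit 8) (nat_lit 7) (nat_lit 6) (nat_lit 3) (by decide +kernel)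
theorem L29017 : W_16 (nat_lit 3) (nat_lit 0x4000200020001a002d0003800000000000000000000000000) (nat_lit 0x0) (nat_lit 0x40000000000000000c0004000200000000000000) := T_16 (nat_lit 91) (nat_lit 158) (nat_lit 6) (nat_lit 5) (nat_lit 9) L29016 (by decide +kernel)
theorem L29018 : W_16 (nat_lit 4) (nat_lit 0x4000200020001a002d0002800000000000000000000000000) (nat_lit 0x0) (nat_lit 0x40000000000014000c0004000200000000000000) := T_16 (nat_lit 108) (nat_lit 106) (nat_lit 3) (nat_lit 4) (nat_lit 6) L29017 (by decide +kernel)
theorem L29019 : W_16 (nat_lit 5) (nat_lit 0x4000200020001a002d0000800000000000000000000000000) (nat_lit 0x0) (nat_lit 0x40000000000034001c0004000200000000000000) := T_16 (nat_lit 109) (nat_lit 92) (nat_lit 7) (nat_lit 7) (nat_lit 5) L29018 (by decide +kernel)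
theorem L29020 : W_16 (nat_lit 6) (nat_lit 0x4000200000001a002d0000800000000000000000000000000) (nat_lit 0x0) (nat_lit 0x4000240000000000034001c0004000200000000000000) := T_16 (nat_lit 161) (nat_lit 178) (nat_lit 5) (nat_lit 8) (nat_lit 7) L29019 (by decide +kernel)
theorem L29021 : W_16 (nat_lit 12) (nat_lit 0x4000200000001a002d0000000000000000000000000000000) (nat_lit 0x0) (nat_lit 0x8004c0026000100008003c007f803f000280000000000000) := Q_16 (nat_lit 107) (C_16 L28959 (C_16 L28978 (C_16 L28984 (C_16 L28990 (C_16 L29001 (C_16 L29009 (C_16 L29014 (C_16 L29015 (C_16 L29020 N_16))))))))) (by decide +kernel)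
theorem L29022 : W_16 (nat_lit 2) (nat_lit 0x4800680004001a002d8000000000000000000000000000000) (nat_lit 0x0) (nat_lit 0x10003000000000000000000000000000000000000000000000000) := D_16 (nat_lit 192) (nat_lit 193) (nat_lit 208) (nat_lit 2) (nat_lit 4) (nat_lit 11) (nat_lit 5) (nat_lit 5) (nat_lit 8) (by decide +kernel)
theorem L29023 : W_16 (nat_lit 3) (nat_lit 0x4000680004001a002d8000000000000000000000000000000) (nat_lit 0x0) (nat_lit 0x10003800040000000000000000000000000000000000000000000) := T_16 (nat_lit 191) (nat_lit 174) (nat_lit 5) (nat_lit 5) (nat_lit 7) L29022 (by decide +kernel)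
theorem L29024 : W_16 (nat_lit 4) (nat_lit 0x4000600004001a002d8000000000000000000000000000000) (nat_lit 0x0) (nat_lit 0x100038000c0000000000000000400000000000000000000000000) := T_16 (nat_lit 175) (nat_lit 106) (nat_lit 4) (nat_lit 5) (nat_lit 10) L29023 (by decide +kernel)
theorem L29025 : W_16 (nat_lit 5) (nat_lit 0x4000600004001a002d0000000000000000000000000000000) (nat_lit 0x0) (nat_lit 0x100038000c0000000000028000400000000000000000000000000) := T_16 (nat_lit 123) (nat_lit 125) (nat_lit 3) (nat_lit 4) (nat_lit 7) L29024 (by decide +kernel)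
theorem L29026 : W_16 (nat_lit 6) (nat_lit 0x4000200004001a002d0000000000000000000000000000000) (nat_lit 0x0) (nat_lit 0x100038004c0020000000028000400000000000000000000000000) := T_16 (nat_lit 178) (nat_lit 161) (nat_lit 5) (nat_lit 8) (nat_lit 7) L29025 (by decide +kernel)
theorem L29027 : W_16 (nat_lit 2) (nat_lit 0x40002c0024001a002d80008001c0001000000000000000000) (nat_lit 0x0) (nat_lit 0x200002000080000000000000) := D_16 (nat_lit 73) (nat_lit 55) (nat_lit 93) (nat_lit 4) (nat_lit 5) (nat_lit 7) (nat_lit 0) (nat_lit 8) (nat_lit 5) (by decide +kernel)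
theorem L29028 : W_16 (nat_lit 3) (nat_lit 0x40002c0024001a002d80008001c0000000000000000000000) (nat_lit 0x0) (nat_lit 0x220003000080000000000000) := T_16 (nat_lit 72) (nat_lit 89) (nat_lit 4) (nat_lit 5) (nat_lit 8) L29027 (by decide +kernel)
theorem L29029 : W_16 (nat_lit 4) (nat_lit 0x40002c0024001a002d8000800180000000000000000000000) (nat_lit 0x0) (nat_lit 0x260007000080000000000000) := T_16 (nat_lit 90) (nat_lit 74) (nat_lit 6) (nat_lit 5) (nat_lit 8) L29028 (by decide +kernel)
theorem L29030 : W_16 (nat_lit 5) (nat_lit 0x40002c0024001a002d8000800100000000000000000000000) (nat_lit 0x0) (nat_lit 0x10002e0007000080000000000000) := T_16 (nat_lit 91) (nat_lit 108) (nat_lit 6) (nat_lit 5) (nat_lit 9) L29029 (by decide +kernel)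
theorem L29031 : W_16 (nat_lit 6) (nat_lit 0x40002c0024001a002d8000000100000000000000000000000) (nat_lit 0x0) (nat_lit 0x20000000000018002e0007000080000000000000) := T_16 (nat_lit 107) (nat_lit 157) (nat_lit 5) (nat_lit 5) (nat_lit 6) L29030 (by decide +kernel)
theorem L29032 : W_16 (nat_lit 7) (nat_lit 0x4000280024001a002d8000000100000000000000000000000) (nat_lit 0x0) (nat_lit 0x8000400020000000000018002e0007000080000000000000) := T_16 (nat_lit 174) (nat_lit 191) (nat_lit 5) (nat_lit 5) (nat_lit 7) L29031 (by decide +kernel)
theorem L29033 : W_16 (nat_lit 8) (nat_lit 0x4000200024001a002d8000000100000000000000000000000) (nat_lit 0x0) (nat_lit 0x8000c0002000000000001c002e0007000080000000000000) := T_16 (nat_lit 175) (nat_lit 106) (nat_lit 4) (nat_lit 5) (nat_lit 10) L29032 (by decide +kernel)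
theorem L29034 : W_16 (nat_lit 9) (nat_lit 0x4000200024001a002d8000000000000000000000000000000) (nat_lit 0x0) (nat_lit 0x8000c0002000000000003c003e0007000080000000000000) := T_16 (nat_lit 92) (nat_lit 109) (nat_lit 7) (nat_lit 7) (nat_lit 5) L29033 (by decide +kernel)
theorem L29035 : W_16 (nat_lit 10) (nat_lit 0x4000200004001a002d8000000000000000000000000000000) (nat_lit 0x0) (nat_lit 0x8004c0022000000000003c003e0007000080000000000000) := T_16 (nat_lit 161) (nat_lit 178) (nat_lit 5) (nat_lit 8) (nat_lit 7) L29034 (by decide +kernel)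
theorem L29036 : W_16 (nat_lit 11) (nat_lit 0x4000200004001a002d0000000000000000000000000000000) (nat_lit 0x0) (nat_lit 0x8004c0022000000028003c003e0007000080000000000000) := T_16 (nat_lit 123) (nat_lit 125) (nat_lit 3) (nat_lit 4) (nat_lit 7) L29035 (by decide +kernel)
theorem L29037 : W_16 (nat_lit 2) (nat_lit 0x40002c0004001a002d80008001c0003000000000000000000) (nat_lit 0x0) (nat_lit 0x20000000000002000000008000000000000000000) := D_16 (nat_lit 109) (nat_lit 75) (nat_lit 161) (nat_lit 7) (nat_lit 7) (nat_lit 4) (nat_lit 7) (nat_lit 7) (nat_lit 5) (by decide +kernel)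
theorem L29038 : W_16 (nat_lit 3) (nat_lit 0x40002c0004001a002d80008000c0003000000000000000000) (nat_lit 0x0) (nat_lit 0x20000000000002000300008000000000000000000) := T_16 (nat_lit 92) (nat_lit 93) (nat_lit 0) (nat_lit 8) (nat_lit 5) L29037 (by decide +kernel)
theorem L29039 : W_16 (nat_lit 4) (nat_lit 0x40002c0004001a002d80008000c0001000000000000000000) (nat_lit 0x0) (nat_lit 0x2000000000000200030000a000080000000000000) := T_16 (nat_lit 73) (nat_lit 55) (nat_lit 4) (nat_lit 5) (nat_lit 7) L29038 (by decide +kernel)
theorem L29040 : W_16 (nat_lit 5) (nat_lit 0x40002c0004001a002d80008000c0000000000000000000000) (nat_lit 0x0) (nat_lit 0x2000000000000200032000b000080000000000000) := T_16 (nat_lit 72) (nat_lit 89) (nat_lit 4) (nat_lit 5) (nat_lit 8) L29039 (by decide +kernel)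
theorem L29041 : W_16 (nat_lit 6) (nat_lit 0x40002c0004001a002d8000800080000000000000000000000) (nat_lit 0x0) (nat_lit 0x2000000000000200036000f000080000000000000) := T_16 (nat_lit 90) (nat_lit 74) (nat_lit 6) (nat_lit 5) (nat_lit 8) L29040 (by decide +kernel)
theorem L29042 : W_16 (nat_lit 7) (nat_lit 0x40002c0004001a002d8000800000000000000000000000000) (nat_lit 0x0) (nat_lit 0x200000000000030003e000f000080000000000000) := T_16 (nat_lit 91) (nat_lit 108) (nat_lit 6) (nat_lit 5) (nat_lit 9) L29041 (by decide +kernel)
theorem L29043 : W_16 (nat_lit 8) (nat_lit 0x40002c0004001a002d8000000000000000000000000000000) (nat_lit 0x0) (nat_lit 0x220000000000038003e000f000080000000000000) := T_16 (nat_lit 107) (nat_lit 157) (nat_lit 5) (nat_lit 5) (nat_lit 6) L29042 (by decide +kernel)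
theorem L29044 : W_16 (nat_lit 9) (nat_lit 0x4000280004001a002d8000000000000000000000000000000) (nat_lit 0x0) (nat_lit 0x8000400220000000000038003e000f000080000000000000) := T_16 (nat_lit 174) (nat_lit 191) (nat_lit 5) (nat_lit 5) (nat_lit 7) L29043 (by decide +kernel)
theorem L29045 : W_16 (nat_lit 10) (nat_lit 0x4000200004001a002d8000000000000000000000000000000) (nat_lit 0x0) (nat_lit 0x8000c0022000000000003c003e000f000080000000000000) := T_16 (nat_lit 175) (nat_lit 106) (nat_lit 4) (nat_lit 5) (nat_lit 10) L29044 (by decide +kernel)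
theorem L29046 : W_16 (nat_lit 11) (nat_lit 0x4000200004001a002d0000000000000000000000000000000) (nat_lit 0x0) (nat_lit 0x8000c0022000000028003c003e000f000080000000000000) := T_16 (nat_lit 123) (nat_lit 125) (nat_lit 3) (nat_lit 4) (nat_lit 7) L29045 (by decide +kernel)
theorem L29047 : W_16 (nat_lit 2) (nat_lit 0x4000240024001a002d0001c00100000000000000000000000) (nat_lit 0x0) (nat_lit 0x800080000000000008000000000000000000000000000000) := D_16 (nat_lit 175) (nat_lit 191) (nat_lit 123) (nat_lit 5) (nat_lit 5) (nat_lit 7) (nat_lit 4) (nat_lit 5) (nat_lit 10) (by decide +kernel)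
theorem L29048 : W_16 (nat_lit 3) (nat_lit 0x4000240024001a002d0001800100000000000000000000000) (nat_lit 0x0) (nat_lit 0x800080000000000008000400020000000000000000000000) := T_16 (nat_lit 106) (nat_lit 89) (nat_lit 4) (nat_lit 5) (nat_lit 9) L29047 (by decide +kernel)
theorem L29049 : W_16 (nat_lit 4) (nat_lit 0x4000200024001a002d0001800100000000000000000000000) (nat_lit 0x0) (nat_lit 0x8000c0002000000008000400020000000000000000000000) := T_16 (nat_lit 174) (nat_lit 157) (nat_lit 5) (nat_lit 5) (nat_lit 6) L29048 (by decide +kernel)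
theorem L29050 : W_16 (nat_lit 5) (nat_lit 0x4000200024001a002d0000800100000000000000000000000) (nat_lit 0x0) (nat_lit 0x8000c00020000000080014000a0000000000000000000000) := T_16 (nat_lit 108) (nat_lit 91) (nat_lit 6) (nat_lit 5) (nat_lit 9) L29049 (by decide +kernel)
theorem L29051 : W_16 (nat_lit 6) (nat_lit 0x4000200024001a002d0000800000000000000000000000000) (nat_lit 0x0) (nat_lit 0x8000c00020000000080034001a0000000000000000000000) := T_16 (nat_lit 92) (nat_lit 109) (nat_lit 7) (nat_lit 7) (nat_lit 5) L29050 (by decide +kernel)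
theorem L29052 : W_16 (nat_lit 7) (nat_lit 0x4000200004001a002d0000800000000000000000000000000) (nat_lit 0x0) (nat_lit 0x8004c00220000000080034001a0000000000000000000000) := T_16 (nat_lit 161) (nat_lit 178) (nat_lit 5) (nat_lit 8) (nat_lit 7) L29051 (by decide +kernel)
theorem L29053 : W_16 (nat_lit 2) (nat_lit 0x4000200006001a002d0001800000000000000000000000000) (nat_lit 0x0) (nat_lit 0x2400020000000000000000000000) := D_16 (nat_lit 106) (nat_lit 109) (nat_lit 89) (nat_lit 3) (nat_lit 4) (nat_lit 6) (nat_lit 4) (nat_lit 5) (nat_lit 9) (by decide +kernel)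
theorem L29054 : W_16 (nat_lit 3) (nat_lit 0x4000200006001a002d0000800000000000000000000000000) (nat_lit 0x0) (nat_lit 0x34000a0000000000000000000000) := T_16 (nat_lit 108) (nat_lit 91) (nat_lit 6) (nat_lit 5) (nat_lit 9) L29053 (by decide +kernel)
theorem L29055 : W_16 (nat_lit 4) (nat_lit 0x4000200004001a002d0000800000000000000000000000000) (nat_lit 0x0) (nat_lit 0x400020000000000034000a0000000000000000000000) := T_16 (nat_lit 157) (nat_lit 174) (nat_lit 5) (nat_lit 5) (nat_lit 6) L29054 (by decide +kernel)
theorem L29056 : W_16 (nat_lit 2) (nat_lit 0x4000240004001a002d0000c00000000000000000000000000) (nat_lit 0x0) (nat_lit 0x800080000000000008000000000000000000000000000000) := D_16 (nat_lit 175) (nat_lit 123) (nat_lit 191) (nat_lit 4) (nat_lit 5) (nat_lit 10) (nat_lit 5) (nat_lit 5) (nat_lit 7) (by decide +kernel)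
theorem L29057 : W_16 (nat_lit 3) (nat_lit 0x4000200004001a002d0000c00000000000000000000000000) (nat_lit 0x0) (nat_lit 0x8000c0002000000008000000000000000000000000000000) := T_16 (nat_lit 174) (nat_lit 157) (nat_lit 5) (nat_lit 5) (nat_lit 6) L29056 (by decide +kernel)
theorem L29058 : W_16 (nat_lit 4) (nat_lit 0x4000200004001a002d0000800000000000000000000000000) (nat_lit 0x0) (nat_lit 0x8000c0002000000008000400020000000000000000000000) := T_16 (nat_lit 106) (nat_lit 89) (nat_lit 4) (nat_lit 5) (nat_lit 9) L29057 (by decide +kernel)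
theorem L29059 : W_16 (nat_lit 2) (nat_lit 0x4000200026001a002d00008001c0001000000000000000000) (nat_lit 0x0) (nat_lit 0x200002000080000000000000) := D_16 (nat_lit 73) (nat_lit 93) (nat_lit 55) (nat_lit 0) (nat_lit 8) (nat_lit 5) (nat_lit 4) (nat_lit 5) (nat_lit 7) (by decide +kernel)
theorem L29060 : W_16 (nat_lit 3) (nat_lit 0x4000200026001a002d00008000c0001000000000000000000) (nat_lit 0x0) (nat_lit 0x2000300002000080000000000000) := T_16 (nat_lit 92) (nat_lit 109) (nat_lit 7) (nat_lit 7) (nat_lit 5) L29059 (by decide +kernel)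
theorem L29061 : W_16 (nat_lit 4) (nat_lit 0x4000200006001a002d00008000c0001000000000000000000) (nat_lit 0x0) (nat_lit 0x400020000000000002000300002000080000000000000) := T_16 (nat_lit 161) (nat_lit 178) (nat_lit 5) (nat_lit 8) (nat_lit 7) L29060 (by decide +kernel)
theorem L29062 : W_16 (nat_lit 5) (nat_lit 0x4000200006001a002d00008000c0000000000000000000000) (nat_lit 0x0) (nat_lit 0x400020000000000002000320003000080000000000000) := T_16 (nat_lit 72) (nat_lit 89) (nat_lit 4) (nat_lit 5) (nat_lit 8) L29061 (by decide +kernel)
theorem L29063 : W_16 (nat_lit 6) (nat_lit 0x4000200006001a002d0000800080000000000000000000000) (nat_lit 0x0) (nat_lit 0x400020000000000002000360007000080000000000000) := T_16 (nat_lit 90) (nat_lit 74) (nat_lit 6) (nat_lit 5) (nat_lit 8) L29062 (by decide +kernel)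
theorem L29064 : W_16 (nat_lit 7) (nat_lit 0x4000200004001a002d0000800080000000000000000000000) (nat_lit 0x0) (nat_lit 0x440022000000000002000360007000080000000000000) := T_16 (nat_lit 157) (nat_lit 174) (nat_lit 5) (nat_lit 5) (nat_lit 6) L29063 (by decide +kernel)
theorem L29065 : W_16 (nat_lit 8) (nat_lit 0x4000200004001a002d0000800000000000000000000000000) (nat_lit 0x0) (nat_lit 0x4400220000000000030003e0007000080000000000000) := T_16 (nat_lit 91) (nat_lit 108) (nat_lit 6) (nat_lit 5) (nat_lit 9) L29064 (by decide +kernel)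
theorem L29066 : W_16 (nat_lit 2) (nat_lit 0x4000200024001a002d0000c00180000000000000000000000) (nat_lit 0x0) (nat_lit 0x240004000000000000000000) := D_16 (nat_lit 90) (nat_lit 93) (nat_lit 74) (nat_lit 1) (nat_lit 8) (nat_lit 5) (nat_lit 6) (nat_lit 5) (nat_lit 8) (by decide +kernel)
theorem L29067 : W_16 (nat_lit 3) (nat_lit 0x4000200024001a002d0000800180000000000000000000000) (nat_lit 0x0) (nat_lit 0x400260004000000000000000000) := T_16 (nat_lit 106) (nat_lit 89) (nat_lit 4) (nat_lit 5) (nat_lit 9) L29066 (by decide +kernel)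
theorem L29068 : W_16 (nat_lit 4) (nat_lit 0x4000200024001a002d0000800100000000000000000000000) (nat_lit 0x0) (nat_lit 0x14002e0004000000000000000000) := T_16 (nat_lit 91) (nat_lit 108) (nat_lit 6) (nat_lit 5) (nat_lit 9) L29067 (by decide +kernel)
theorem L29069 : W_16 (nat_lit 5) (nat_lit 0x4000200024001a002d0000800000000000000000000000000) (nat_lit 0x0) (nat_lit 0x34003e0004000000000000000000) := T_16 (nat_lit 92) (nat_lit 109) (nat_lit 7) (nat_lit 7) (nat_lit 5) L29068 (by decide +kernel)
theorem L29070 : W_16 (nat_lit 6) (nat_lit 0x4000200004001a002d0000800000000000000000000000000) (nat_lit 0x0) (nat_lit 0x4000200000000000034003e0004000000000000000000) := T_16 (nat_lit 161) (nat_lit 178) (nat_lit 5) (nat_lit 8) (nat_lit 7) L29069 (by decide +kernel)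
theorem L29071 : W_16 (nat_lit 2) (nat_lit 0x4000200026001a002d0002800000000000000000000000000) (nat_lit 0x0) (nat_lit 0x1400080000000000000000000000) := D_16 (nat_lit 108) (nat_lit 91) (nat_lit 106) (nat_lit 6) (nat_lit 5) (nat_lit 9) (nat_lit 3) (nat_lit 4) (nat_lit 6) (by decide +kernel)
theorem L29072 : W_16 (nat_lit 3) (nat_lit 0x4000200026001a002d0000800000000000000000000000000) (nat_lit 0x0) (nat_lit 0x3400180000000000000000000000) := T_16 (nat_lit 109) (nat_lit 92) (nat_lit 7) (nat_lit 7) (nat_lit 5) L29071 (by decide +kernel)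
theorem L29073 : W_16 (nat_lit 4) (nat_lit 0x4000200006001a002d0000800000000000000000000000000) (nat_lit 0x0) (nat_lit 0x400020000000000003400180000000000000000000000) := T_16 (nat_lit 161) (nat_lit 178) (nat_lit 5) (nat_lit 8) (nat_lit 7) L29072 (by decide +kernel)
theorem L29074 : W_16 (nat_lit 5) (nat_lit 0x4000200004001a002d0000800000000000000000000000000) (nat_lit 0x0) (nat_lit 0x440022000000000003400180000000000000000000000) := T_16 (nat_lit 157) (nat_lit 174) (nat_lit 5) (nat_lit 5) (nat_lit 6) L29073 (by decide +kernel)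
theorem L29075 : W_16 (nat_lit 9) (nat_lit 0x4000200004001a002d0000000000000000000000000000000) (nat_lit 0x0) (nat_lit 0x8004c0022000000008003c003e0007000080000000000000) := Q_16 (nat_lit 107) (C_16 L29052 (C_16 L29055 (C_16 L29058 (C_16 L29065 (C_16 L29070 (C_16 L29074 N_16)))))) (by decide +kernel)
theorem L29076 : W_16 (nat_lit 2) (nat_lit 0x4000200024001a002d8000400100000000000000000000000) (nat_lit 0x0) (nat_lit 0x800020001000000000000000000) := D_16 (nat_lit 89) (nat_lit 107) (nat_lit 72) (nat_lit 4) (nat_lit 5) (nat_lit 9) (nat_lit 7) (nat_lit 4) (nat_lit 4) (by decide +kernel)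
theorem L29077 : W_16 (nat_lit 3) (nat_lit 0x4000200024001a002d8000000100000000000000000000000) (nat_lit 0x0) (nat_lit 0x80000000000000000c00020001000000000000000000) := T_16 (nat_lit 106) (nat_lit 175) (nat_lit 4) (nat_lit 5) (nat_lit 10) L29076 (by decide +kernel)
theorem L29078 : W_16 (nat_lit 4) (nat_lit 0x4000200024001a002d0000000100000000000000000000000) (nat_lit 0x0) (nat_lit 0x80000000000028000c00020001000000000000000000) := T_16 (nat_lit 123) (nat_lit 125) (nat_lit 3) (nat_lit 4) (nat_lit 7) L29077 (by decide +kernel)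
theorem L29079 : W_16 (nat_lit 5) (nat_lit 0x4000200024001a002d0000000000000000000000000000000) (nat_lit 0x0) (nat_lit 0x80000000000028002c00120001000000000000000000) := T_16 (nat_lit 92) (nat_lit 109) (nat_lit 7) (nat_lit 7) (nat_lit 5) L29078 (by decide +kernel)
theorem L29080 : W_16 (nat_lit 6) (nat_lit 0x4000200004001a002d0000000000000000000000000000000) (nat_lit 0x0) (nat_lit 0x480020000000028002c00120001000000000000000000) := T_16 (nat_lit 161) (nat_lit 178) (nat_lit 5) (nat_lit 8) (nat_lit 7) L29079 (by decide +kernel)
theorem L29081 : W_16 (nat_lit 2) (nat_lit 0x4000200024001a002f0001000100000000000000000000000) (nat_lit 0x0) (nat_lit 0x800080004000000000000000000) := D_16 (nat_lit 91) (nat_lit 107) (nat_lit 74) (nat_lit 6) (nat_lit 5) (nat_lit 9) (nat_lit 7) (nat_lit 6) (nat_lit 4) (by decide +kernel)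
theorem L29082 : W_16 (nat_lit 3) (nat_lit 0x4000200024001a002f0000000100000000000000000000000) (nat_lit 0x0) (nat_lit 0x80000000000000001800080004000000000000000000) := T_16 (nat_lit 108) (nat_lit 175) (nat_lit 6) (nat_lit 5) (nat_lit 10) L29081 (by decide +kernel)
theorem L29083 : W_16 (nat_lit 4) (nat_lit 0x4000200024001a002f0000000000000000000000000000000) (nat_lit 0x0) (nat_lit 0x80000000000000003800180004000000000000000000) := T_16 (nat_lit 92) (nat_lit 109) (nat_lit 7) (nat_lit 7) (nat_lit 5) L29082 (by decide +kernel)
theorem L29084 : W_16 (nat_lit 5) (nat_lit 0x4000200004001a002f0000000000000000000000000000000) (nat_lit 0x0) (nat_lit 0x480020000000000003800180004000000000000000000) := T_16 (nat_lit 161) (nat_lit 178) (nat_lit 5) (nat_lit 8) (nat_lit 7) L29083 (by decide +kernel)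
theorem L29085 : W_16 (nat_lit 6) (nat_lit 0x4000200004001a002d0000000000000000000000000000000) (nat_lit 0x0) (nat_lit 0x480020000000028003800180004000000000000000000) := T_16 (nat_lit 125) (nat_lit 123) (nat_lit 3) (nat_lit 4) (nat_lit 7) L29084 (by decide +kernel)
theorem L29086 : W_16 (nat_lit 2) (nat_lit 0x4000200026001a002f00008001c0001000000000000000000) (nat_lit 0x0) (nat_lit 0x200002000080000000000000) := D_16 (nat_lit 73) (nat_lit 55) (nat_lit 93) (nat_lit 4) (nat_lit 5) (nat_lit 7) (nat_lit 0) (nat_lit 8) (nat_lit 5) (by decide +kernel)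
theorem L29087 : W_16 (nat_lit 3) (nat_lit 0x4000200026001a002f00008001c0000000000000000000000) (nat_lit 0x0) (nat_lit 0x220003000080000000000000) := T_16 (nat_lit 72) (nat_lit 89) (nat_lit 4) (nat_lit 5) (nat_lit 8) L29086 (by decide +kernel)
theorem L29088 : W_16 (nat_lit 4) (nat_lit 0x4000200026001a002f0000800180000000000000000000000) (nat_lit 0x0) (nat_lit 0x260007000080000000000000) := T_16 (nat_lit 90) (nat_lit 74) (nat_lit 6) (nat_lit 5) (nat_lit 8) L29087 (by decide +kernel)
theorem L29089 : W_16 (nat_lit 5) (nat_lit 0x4000200024001a002f0000800180000000000000000000000) (nat_lit 0x0) (nat_lit 0x40002000000000000000260007000080000000000000) := T_16 (nat_lit 157) (nat_lit 174) (nat_lit 5) (nat_lit 5) (nat_lit 6) L29088 (by decide +kernel)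
theorem L29090 : W_16 (nat_lit 6) (nat_lit 0x4000200024001a002f0000800100000000000000000000000) (nat_lit 0x0) (nat_lit 0x400020000000000010002e0007000080000000000000) := T_16 (nat_lit 91) (nat_lit 108) (nat_lit 6) (nat_lit 5) (nat_lit 9) L29089 (by decide +kernel)
theorem L29091 : W_16 (nat_lit 7) (nat_lit 0x4000200024001a002f0000000100000000000000000000000) (nat_lit 0x0) (nat_lit 0x40002000000000001c002e0007000080000000000000) := T_16 (nat_lit 107) (nat_lit 106) (nat_lit 0) (nat_lit 8) (nat_lit 7) L29090 (by decide +kernel)
theorem L29092 : W_16 (nat_lit 8) (nat_lit 0x4000200024001a002f0000000000000000000000000000000) (nat_lit 0x0) (nat_lit 0x40002000000000003c003e0007000080000000000000) := T_16 (nat_lit 92) (nat_lit 109) (nat_lit 7) (nat_lit 7) (nat_lit 5) L29091 (by decide +kernel)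
theorem L29093 : W_16 (nat_lit 9) (nat_lit 0x4000200004001a002f0000000000000000000000000000000) (nat_lit 0x0) (nat_lit 0x440022000000000003c003e0007000080000000000000) := T_16 (nat_lit 161) (nat_lit 178) (nat_lit 5) (nat_lit 8) (nat_lit 7) L29092 (by decide +kernel)
theorem L29094 : W_16 (nat_lit 10) (nat_lit 0x4000200004001a002d0000000000000000000000000000000) (nat_lit 0x0) (nat_lit 0x440022000000028003c003e0007000080000000000000) := T_16 (nat_lit 125) (nat_lit 123) (nat_lit 3) (nat_lit 4) (nat_lit 7) L29093 (by decide +kernel)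
theorem L29095 : W_16 (nat_lit 2) (nat_lit 0x4000200004001a002d0000800000000000000000000000000) (nat_lit 0x0) (nat_lit 0x20000400020000000000000000000000) := D_16 (nat_lit 106) (nat_lit 125) (nat_lit 89) (nat_lit 0) (nat_lit 8) (nat_lit 7) (nat_lit 4) (nat_lit 5) (nat_lit 9) (by decide +kernel)
theorem L29096 : W_16 (nat_lit 9) (nat_lit 0x4000200004001a002d0000000000000000000000000000000) (nat_lit 0x0) (nat_lit 0x440022000000020003c003e0007000080000000000000) := Q_16 (nat_lit 107) (C_16 L29074 (C_16 L29055 (C_16 L29095 (C_16 L29065 N_16)))) (by decide +kernel)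
theorem L29097 : W_16 (nat_lit 2) (nat_lit 0x5800280004001a002d8000000000000000000000000000000) (nat_lit 0x0) (nat_lit 0x40002000400000000000000000000000000000000000000000000) := D_16 (nat_lit 193) (nat_lit 178) (nat_lit 210) (nat_lit 2) (nat_lit 4) (nat_lit 11) (nat_lit 7) (nat_lit 5) (nat_lit 8) (by decide +kernel)
theorem L29098 : W_16 (nat_lit 3) (nat_lit 0x4800280004001a002d8000000000000000000000000000000) (nat_lit 0x0) (nat_lit 0x50003000400000000000000000000000000000000000000000000) := T_16 (nat_lit 192) (nat_lit 208) (nat_lit 5) (nat_lit 5) (nat_lit 8) L29097 (by decide +kernel)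
theorem L29099 : W_16 (nat_lit 4) (nat_lit 0x4000280004001a002d8000000000000000000000000000000) (nat_lit 0x0) (nat_lit 0x50003800440000000000000000000000000000000000000000000) := T_16 (nat_lit 191) (nat_lit 174) (nat_lit 5) (nat_lit 5) (nat_lit 7) L29098 (by decide +kernel)
theorem L29100 : W_16 (nat_lit 5) (nat_lit 0x4000200004001a002d8000000000000000000000000000000) (nat_lit 0x0) (nat_lit 0x500038004c0000000000000000400000000000000000000000000) := T_16 (nat_lit 175) (nat_lit 106) (nat_lit 4) (nat_lit 5) (nat_lit 10) L29099 (by decide +kernel)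
theorem L29101 : W_16 (nat_lit 6) (nat_lit 0x4000200004001a002d0000000000000000000000000000000) (nat_lit 0x0) (nat_lit 0x500038004c0000000000028000400000000000000000000000000) := T_16 (nat_lit 123) (nat_lit 125) (nat_lit 3) (nat_lit 4) (nat_lit 7) L29100 (by decide +kernel)
theorem L29102 : W_16 (nat_lit 12) (nat_lit 0x4000200000001a002d0000000000000000000000000000000) (nat_lit 0x0) (nat_lit 0x500038004c0026000000028003c003e000f000080000000000000) := Q_16 (nat_lit 158) (C_16 L29026 (C_16 L29036 (C_16 L29046 (C_16 L29075 (C_16 L29080 (C_16 L29085 (C_16 L29094 (C_16 L29096 (C_16 L29101 N_16))))))))) (by decide +kernel)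
theorem L29103 : W_16 (nat_lit 2) (nat_lit 0x4000200000001a002d0002000000000000000000000000000) (nat_lit 0x0) (nat_lit 0x400020000000000000000100000000000000000000000) := D_16 (nat_lit 161) (nat_lit 178) (nat_lit 92) (nat_lit 5) (nat_lit 8) (nat_lit 7) (nat_lit 7) (nat_lit 7) (nat_lit 5) (by decide +kernel)
theorem L29104 : W_16 (nat_lit 2) (nat_lit 0x4000200000001a002d0002000000000000000000000000000) (nat_lit 0x0) (nat_lit 0x20000000000000000100008000000000000000000) := D_16 (nat_lit 92) (nat_lit 75) (nat_lit 161) (nat_lit 7) (nat_lit 7) (nat_lit 4) (nat_lit 7) (nat_lit 7) (nat_lit 5) (by decide +kernel)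
theorem L29105 : W_16 (nat_lit 2) (nat_lit 0x4000200000001a002d0002800000000000000000000000000) (nat_lit 0x0) (nat_lit 0x100020000400000000000000000000000000) := D_16 (nat_lit 125) (nat_lit 140) (nat_lit 106) (nat_lit 1) (nat_lit 8) (nat_lit 7) (nat_lit 0) (nat_lit 8) (nat_lit 7) (by decide +kernel)
theorem L29106 : W_16 (nat_lit 2) (nat_lit 0x4000600000001a002d0002c00020000000000000000000000) (nat_lit 0x0) (nat_lit 0x40001000080000000000000) := D_16 (nat_lit 72) (nat_lit 90) (nat_lit 55) (nat_lit 4) (nat_lit 5) (nat_lit 8) (nat_lit 7) (nat_lit 4) (nat_lit 3) (by decide +kernel)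
theorem L29107 : W_16 (nat_lit 3) (nat_lit 0x4000600000001a002d0002c00000000000000000000000000) (nat_lit 0x0) (nat_lit 0x4000000000000000060001000080000000000000) := T_16 (nat_lit 89) (nat_lit 158) (nat_lit 4) (nat_lit 5) (nat_lit 9) L29106 (by decide +kernel)
theorem L29108 : W_16 (nat_lit 4) (nat_lit 0x4000200000001a002d0002c00000000000000000000000000) (nat_lit 0x0) (nat_lit 0x400024000000000000000060001000080000000000000) := T_16 (nat_lit 178) (nat_lit 161) (nat_lit 5) (nat_lit 8) (nat_lit 7) L29107 (by decide +kernel)
theorem L29109 : W_16 (nat_lit 5) (nat_lit 0x4000200000001a002d0002800000000000000000000000000) (nat_lit 0x0) (nat_lit 0x400024000000000001400060001000080000000000000) := T_16 (nat_lit 106) (nat_lit 108) (nat_lit 3) (nat_lit 4) (nat_lit 6) L29108 (by decide +kernel)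
theorem L29110 : W_16 (nat_lit 2) (nat_lit 0x4000200020001b002d00028000e0000000000000000000000) (nat_lit 0x0) (nat_lit 0x4000000000001000010000000000000000000000) := D_16 (nat_lit 108) (nat_lit 88) (nat_lit 158) (nat_lit 3) (nat_lit 3) (nat_lit 5) (nat_lit 6) (nat_lit 5) (nat_lit 9) (by decide +kernel)
theorem L29111 : W_16 (nat_lit 3) (nat_lit 0x4000200020001b002d0002800060000000000000000000000) (nat_lit 0x0) (nat_lit 0x4000000000001000090004000000000000000000) := T_16 (nat_lit 91) (nat_lit 74) (nat_lit 6) (nat_lit 5) (nat_lit 8) L29110 (by decide +kernel)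
theorem L29112 : W_16 (nat_lit 4) (nat_lit 0x4000200020001b002d0002800040000000000000000000000) (nat_lit 0x0) (nat_lit 0x40000000000010000b0005000000000000000000) := T_16 (nat_lit 89) (nat_lit 72) (nat_lit 4) (nat_lit 5) (nat_lit 8) L29111 (by decide +kernel)
theorem L29113 : W_16 (nat_lit 5) (nat_lit 0x4000200020001b002d0002800000000000000000000000000) (nat_lit 0x0) (nat_lit 0x60000000000010000f0005000000000000000000) := T_16 (nat_lit 90) (nat_lit 157) (nat_lit 5) (nat_lit 5) (nat_lit 5) L29112 (by decide +kernel)
theorem L29114 : W_16 (nat_lit 6) (nat_lit 0x4000200000001b002d0002800000000000000000000000000) (nat_lit 0x0) (nat_lit 0x4000260000000000010000f0005000000000000000000) := T_16 (nat_lit 161) (nat_lit 178) (nat_lit 5) (nat_lit 8) (nat_lit 7) L29113 (by decide +kernel)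
theorem L29115 : W_16 (nat_lit 7) (nat_lit 0x4000200000001a002d0002800000000000000000000000000) (nat_lit 0x0) (nat_lit 0x4000260001000200010000f0005000000000000000000) := T_16 (nat_lit 140) (nat_lit 125) (nat_lit 1) (nat_lit 8) (nat_lit 7) L29114 (by decide +kernel)
theorem L29116 : W_16 (nat_lit 8) (nat_lit 0x4000200000001a002d0002000000000000000000000000000) (nat_lit 0x0) (nat_lit 0x400026000100020001c000f0005000080000000000000) := Q_16 (nat_lit 107) (C_16 L29105 (C_16 L29109 (C_16 L29115 N_16))) (by decide +kernel)
theorem L29117 : W_16 (nat_lit 2) (nat_lit 0x4000200000001a002f0002800380000000000000000000000) (nat_lit 0x0) (nat_lit 0x4000000000001000400000000000000000000000) := D_16 (nat_lit 108) (nat_lit 94) (nat_lit 158) (nat_lit 1) (nat_lit 9) (nat_lit 5) (nat_lit 6) (nat_lit 5) (nat_lit 9) (by decide +kernel)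
theorem L29118 : W_16 (nat_lit 3) (nat_lit 0x4000200000001a002f0002800300000000000000000000000) (nat_lit 0x0) (nat_lit 0x4000000000001000480004000000000000000000) := T_16 (nat_lit 91) (nat_lit 74) (nat_lit 4) (nat_lit 7) (nat_lit 8) L29117 (by decide +kernel)
theorem L29119 : W_16 (nat_lit 4) (nat_lit 0x4000200000001a002f0002800100000000000000000000000) (nat_lit 0x0) (nat_lit 0x4000000000001000680014000000000000000000) := T_16 (nat_lit 93) (nat_lit 76) (nat_lit 6) (nat_lit 7) (nat_lit 8) L29118 (by decide +kernel)
theorem L29120 : W_16 (nat_lit 5) (nat_lit 0x4000200000001a002f0002800000000000000000000000000) (nat_lit 0x0) (nat_lit 0x400000000000100078001c000000000000000000) := T_16 (nat_lit 92) (nat_lit 75) (nat_lit 7) (nat_lit 7) (nat_lit 4) L29119 (by decide +kernel)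
theorem L29121 : W_16 (nat_lit 6) (nat_lit 0x4000200000001a002f0002000000000000000000000000000) (nat_lit 0x0) (nat_lit 0x4000000000001c0078001c000000000000000000) := T_16 (nat_lit 107) (nat_lit 106) (nat_lit 0) (nat_lit 8) (nat_lit 7) L29120 (by decide +kernel)
theorem L29122 : W_16 (nat_lit 7) (nat_lit 0x4000200000001a002d0002000000000000000000000000000) (nat_lit 0x0) (nat_lit 0x4000100020001c0078001c000000000000000000) := T_16 (nat_lit 125) (nat_lit 140) (nat_lit 1) (nat_lit 8) (nat_lit 7) L29121 (by decide +kernel)
theorem L29123 : W_16 (nat_lit 9) (nat_lit 0x4000200000001a002d0000000000000000000000000000000) (nat_lit 0x0) (nat_lit 0x400026000100020003c007f001d000080000000000000) := Q_16 (nat_lit 109) (C_16 L29103 (C_16 L29104 (C_16 L29116 (C_16 L29122 N_16)))) (by decide +kernel)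
theorem L29124 : W_16 (nat_lit 13) (nat_lit 0x4000200000001a002c0000000000000000000000000000000) (nat_lit 0x0) (nat_lit 0x500038004c0026000100038003c007f803f000280000000000000) := Q_16 (nat_lit 124) (C_16 L28938 (C_16 L29021 (C_16 L29102 (C_16 L29123 N_16)))) (by decide +kernel)
theorem L29125 : W_16 (nat_lit 2) (nat_lit 0x4000200020001a002c0000000000000000000000000000000) (nat_lit 0x0) (nat_lit 0x40000500000000000000000000000000000000000) := D_16 (nat_lit 142) (nat_lit 162) (nat_lit 140) (nat_lit 3) (nat_lit 5) (nat_lit 8) (nat_lit 2) (nat_lit 4) (nat_lit 8) (by decide +kernel)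
theorem L29126 : W_16 (nat_lit 3) (nat_lit 0x4000200000001a002c0000000000000000000000000000000) (nat_lit 0x0) (nat_lit 0x400060000500000000000000000000000000000000000) := T_16 (nat_lit 161) (nat_lit 178) (nat_lit 5) (nat_lit 8) (nat_lit 7) L29125 (by decide +kernel)
theorem L29127 : W_16 (nat_lit 2) (nat_lit 0x4000200000001a002d0000000000000000000000000000000) (nat_lit 0x0) (nat_lit 0x500008000000000000000000000000000000) := D_16 (nat_lit 142) (nat_lit 140) (nat_lit 123) (nat_lit 2) (nat_lit 4) (nat_lit 8) (nat_lit 0) (nat_lit 8) (nat_lit 8) (by decide +kernel)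
theorem L29128 : W_16 (nat_lit 2) (nat_lit 0x4000200000001a002d0000000000000000000000000000000) (nat_lit 0x0) (nat_lit 0x400028000000000000000000000000000000) := D_16 (nat_lit 123) (nat_lit 125) (nat_lit 142) (nat_lit 3) (nat_lit 4) (nat_lit 7) (nat_lit 0) (nat_lit 8) (nat_lit 8) (by decide +kernel)
theorem L29129 : W_16 (nat_lit 2) (nat_lit 0x4000200000001a002d0000000000000000000000000000000) (nat_lit 0x0) (nat_lit 0x500020000000000000000000000000000000) := D_16 (nat_lit 140) (nat_lit 125) (nat_lit 142) (nat_lit 1) (nat_lit 8) (nat_lit 7) (nat_lit 2) (nat_lit 4) (nat_lit 8) (by decide +kernel)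
theorem L29130 : W_16 (nat_lit 3) (nat_lit 0x4000200000001a002c0000000000000000000000000000000) (nat_lit 0x0) (nat_lit 0x500038000000000000000000000000000000) := Q_16 (nat_lit 124) (C_16 L28938 (C_16 L29127 (C_16 L29128 (C_16 L29129 N_16)))) (by decide +kernel)
theorem L29131 : W_16 (nat_lit 4) (nat_lit 0x4000600000001a002c0002c00000000000000000000000000) (nat_lit 0x0) (nat_lit 0x4000000030000000060001000080000000000000) := T_16 (nat_lit 124) (nat_lit 125) (nat_lit 0) (nat_lit 8) (nat_lit 7) L29107 (by decide +kernel)
theorem L29132 : W_16 (nat_lit 5) (nat_lit 0x4000600000001a002c0002800000000000000000000000000) (nat_lit 0x0) (nat_lit 0x4000000030001400060001000080000000000000) := T_16 (nat_lit 106) (nat_lit 108) (nat_lit 3) (nat_lit 4) (nat_lit 6) L29131 (by decide +kernel)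
theorem L29133 : W_16 (nat_lit 6) (nat_lit 0x4000200000001a002c0002800000000000000000000000000) (nat_lit 0x0) (nat_lit 0x400024000000030001400060001000080000000000000) := T_16 (nat_lit 178) (nat_lit 161) (nat_lit 5) (nat_lit 8) (nat_lit 7) L29132 (by decide +kernel)
theorem L29134 : W_16 (nat_lit 2) (nat_lit 0x4000200000001e002d0002c00000000000000000000000000) (nat_lit 0x0) (nat_lit 0x6000000000000000020000000000000000000000) := D_16 (nat_lit 158) (nat_lit 89) (nat_lit 157) (nat_lit 4) (nat_lit 5) (nat_lit 9) (nat_lit 1) (nat_lit 8) (nat_lit 8) (by decide +kernel)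
theorem L29135 : W_16 (nat_lit 3) (nat_lit 0x4000200000001a002d0002c00000000000000000000000000) (nat_lit 0x0) (nat_lit 0x6000400008000000020000000000000000000000) := T_16 (nat_lit 142) (nat_lit 123) (nat_lit 0) (nat_lit 8) (nat_lit 8) L29134 (by decide +kernel)
theorem L29136 : W_16 (nat_lit 4) (nat_lit 0x4000200000001a002c0002c00000000000000000000000000) (nat_lit 0x0) (nat_lit 0x6000400038000000020000000000000000000000) := T_16 (nat_lit 124) (nat_lit 125) (nat_lit 0) (nat_lit 8) (nat_lit 7) L29135 (by decide +kernel)
theorem L29137 : W_16 (nat_lit 5) (nat_lit 0x4000200000001a002c0002800000000000000000000000000) (nat_lit 0x0) (nat_lit 0x6000400038001400020000000000000000000000) := T_16 (nat_lit 106) (nat_lit 108) (nat_lit 3) (nat_lit 4) (nat_lit 6) L29136 (by decide +kernel)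
theorem L29138 : W_16 (nat_lit 2) (nat_lit 0x4000200024001e002c0002c00000000000000000000000000) (nat_lit 0x0) (nat_lit 0x18000000020000000000000000000000) := D_16 (nat_lit 124) (nat_lit 123) (nat_lit 89) (nat_lit 0) (nat_lit 8) (nat_lit 8) (nat_lit 4) (nat_lit 5) (nat_lit 9) (by decide +kernel)
theorem L29139 : W_16 (nat_lit 3) (nat_lit 0x4000200020001e002c0002c00000000000000000000000000) (nat_lit 0x0) (nat_lit 0x6000000018000000020000000000000000000000) := T_16 (nat_lit 158) (nat_lit 157) (nat_lit 1) (nat_lit 8) (nat_lit 8) L29138 (by decide +kernel)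
theorem L29140 : W_16 (nat_lit 4) (nat_lit 0x4000200020001a002c0002c00000000000000000000000000) (nat_lit 0x0) (nat_lit 0x46000400018000000020000000000000000000000) := T_16 (nat_lit 142) (nat_lit 162) (nat_lit 3) (nat_lit 5) (nat_lit 8) L29139 (by decide +kernel)
theorem L29141 : W_16 (nat_lit 5) (nat_lit 0x4000200000001a002c0002c00000000000000000000000000) (nat_lit 0x0) (nat_lit 0x400066000400018000000020000000000000000000000) := T_16 (nat_lit 161) (nat_lit 178) (nat_lit 5) (nat_lit 8) (nat_lit 7) L29140 (by decide +kernel)
theorem L29142 : W_16 (nat_lit 6) (nat_lit 0x4000200000001a002c0002800000000000000000000000000) (nat_lit 0x0) (nat_lit 0x400066000400018001400020000000000000000000000) := T_16 (nat_lit 106) (nat_lit 108) (nat_lit 3) (nat_lit 4) (nat_lit 6) L29141 (by decide +kernel)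
theorem L29143 : W_16 (nat_lit 2) (nat_lit 0x4000200024001e002d0002800000000000000000000000000) (nat_lit 0x0) (nat_lit 0x20000400020000000000000000000000) := D_16 (nat_lit 106) (nat_lit 125) (nat_lit 89) (nat_lit 0) (nat_lit 8) (nat_lit 7) (nat_lit 4) (nat_lit 5) (nat_lit 9) (by decide +kernel)
theorem L29144 : W_16 (nat_lit 3) (nat_lit 0x4000200024001e002c0002800000000000000000000000000) (nat_lit 0x0) (nat_lit 0x38000400020000000000000000000000) := T_16 (nat_lit 124) (nat_lit 123) (nat_lit 0) (nat_lit 8) (nat_lit 8) L29143 (by decide +kernel)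
theorem L29145 : W_16 (nat_lit 4) (nat_lit 0x4000200020001e002c0002800000000000000000000000000) (nat_lit 0x0) (nat_lit 0x6000000038000400020000000000000000000000) := T_16 (nat_lit 158) (nat_lit 157) (nat_lit 1) (nat_lit 8) (nat_lit 8) L29144 (by decide +kernel)
theorem L29146 : W_16 (nat_lit 5) (nat_lit 0x4000200020001a002c0002800000000000000000000000000) (nat_lit 0x0) (nat_lit 0x46000400038000400020000000000000000000000) := T_16 (nat_lit 142) (nat_lit 162) (nat_lit 3) (nat_lit 5) (nat_lit 8) L29145 (by decide +kernel)
theorem L29147 : W_16 (nat_lit 6) (nat_lit 0x4000200000001a002c0002800000000000000000000000000) (nat_lit 0x0) (nat_lit 0x400066000400038000400020000000000000000000000) := T_16 (nat_lit 161) (nat_lit 178) (nat_lit 5) (nat_lit 8) (nat_lit 7) L29146 (by decide +kernel)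
theorem L29148 : W_16 (nat_lit 2) (nat_lit 0x4000200024001e002d0002800040000000000000000000000) (nat_lit 0x0) (nat_lit 0x1000080004000000000000000000) := D_16 (nat_lit 91) (nat_lit 108) (nat_lit 74) (nat_lit 6) (nat_lit 5) (nat_lit 9) (nat_lit 6) (nat_lit 5) (nat_lit 8) (by decide +kernel)
theorem L29149 : W_16 (nat_lit 3) (nat_lit 0x4000200024001e002d0002800000000000000000000000000) (nat_lit 0x0) (nat_lit 0x80000000000010000c0004000000000000000000) := T_16 (nat_lit 90) (nat_lit 159) (nat_lit 7) (nat_lit 5) (nat_lit 5) L29148 (by decide +kernel)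
theorem L29150 : W_16 (nat_lit 4) (nat_lit 0x4000200024001e002c0002800000000000000000000000000) (nat_lit 0x0) (nat_lit 0x80000000180010000c0004000000000000000000) := T_16 (nat_lit 124) (nat_lit 123) (nat_lit 0) (nat_lit 8) (nat_lit 8) L29149 (by decide +kernel)
theorem L29151 : W_16 (nat_lit 5) (nat_lit 0x4000200020001e002c0002800000000000000000000000000) (nat_lit 0x0) (nat_lit 0xe0000000180010000c0004000000000000000000) := T_16 (nat_lit 158) (nat_lit 157) (nat_lit 1) (nat_lit 8) (nat_lit 8) L29150 (by decide +kernel)
theorem L29152 : W_16 (nat_lit 6) (nat_lit 0x4000200020001a002c0002800000000000000000000000000) (nat_lit 0x0) (nat_lit 0x4e0004000180010000c0004000000000000000000) := T_16 (nat_lit 142) (nat_lit 162) (nat_lit 3) (nat_lit 5) (nat_lit 8) L29151 (by decide +kernel)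
theorem L29153 : W_16 (nat_lit 7) (nat_lit 0x4000200000001a002c0002800000000000000000000000000) (nat_lit 0x0) (nat_lit 0x40006e0004000180010000c0004000000000000000000) := T_16 (nat_lit 161) (nat_lit 178) (nat_lit 5) (nat_lit 8) (nat_lit 7) L29152 (by decide +kernel)
theorem L29154 : W_16 (nat_lit 2) (nat_lit 0x4000200024001e002e0003800000000000000000000000000) (nat_lit 0x0) (nat_lit 0x80008000000000000000040000000000000000000000) := D_16 (nat_lit 159) (nat_lit 90) (nat_lit 175) (nat_lit 4) (nat_lit 6) (nat_lit 9) (nat_lit 5) (nat_lit 6) (nat_lit 6) (by decide +kernel)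
theorem L29155 : W_16 (nat_lit 3) (nat_lit 0x4000200024001e002c0003800000000000000000000000000) (nat_lit 0x0) (nat_lit 0x800080000000200000000c0000000000000000000000) := T_16 (nat_lit 125) (nat_lit 91) (nat_lit 5) (nat_lit 6) (nat_lit 5) L29154 (by decide +kernel)
theorem L29156 : W_16 (nat_lit 4) (nat_lit 0x4000200020001e002c0003800000000000000000000000000) (nat_lit 0x0) (nat_lit 0x8000e0000000200000000c0000000000000000000000) := T_16 (nat_lit 158) (nat_lit 157) (nat_lit 1) (nat_lit 8) (nat_lit 8) L29155 (by decide +kernel)
theorem L29157 : W_16 (nat_lit 5) (nat_lit 0x4000200020001a002c0003800000000000000000000000000) (nat_lit 0x0) (nat_lit 0x8004e0004000200000000c0000000000000000000000) := T_16 (nat_lit 142) (nat_lit 162) (nat_lit 3) (nat_lit 5) (nat_lit 8) L29156 (by decide +kernel)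
theorem L29158 : W_16 (nat_lit 6) (nat_lit 0x4000200020001a002c0002800000000000000000000000000) (nat_lit 0x0) (nat_lit 0x8004e0004000200014000c0000000000000000000000) := T_16 (nat_lit 108) (nat_lit 106) (nat_lit 3) (nat_lit 4) (nat_lit 6) L29157 (by decide +kernel)
theorem L29159 : W_16 (nat_lit 7) (nat_lit 0x4000200000001a002c0002800000000000000000000000000) (nat_lit 0x0) (nat_lit 0x48006e0004000200014000c0000000000000000000000) := T_16 (nat_lit 161) (nat_lit 178) (nat_lit 5) (nat_lit 8) (nat_lit 7) L29158 (by decide +kernel)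
theorem L29160 : W_16 (nat_lit 2) (nat_lit 0x4000600000001e002d0002c00040005000000000000000000) (nat_lit 0x0) (nat_lit 0x2000280000000000000) := D_16 (nat_lit 73) (nat_lit 57) (nat_lit 55) (nat_lit 6) (nat_lit 5) (nat_lit 7) (nat_lit 4) (nat_lit 5) (nat_lit 7) (by decide +kernel)
theorem L29161 : W_16 (nat_lit 3) (nat_lit 0x4000600000001e002d0002c00040004000000000000000000) (nat_lit 0x0) (nat_lit 0x20003000280000000000000) := T_16 (nat_lit 72) (nat_lit 89) (nat_lit 4) (nat_lit 5) (nat_lit 8) L29160 (by decide +kernel)
theorem L29162 : W_16 (nat_lit 4) (nat_lit 0x4000600000001e002d0002c00040000000000000000000000) (nat_lit 0x0) (nat_lit 0xa0007000280000000000000) := T_16 (nat_lit 74) (nat_lit 91) (nat_lit 6) (nat_lit 5) (nat_lit 8) L29161 (by decide +kernel)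
theorem L29163 : W_16 (nat_lit 5) (nat_lit 0x4000600000001e002d0002c00000000000000000000000000) (nat_lit 0x0) (nat_lit 0x80000000000000000e0007000280000000000000) := T_16 (nat_lit 90) (nat_lit 159) (nat_lit 7) (nat_lit 5) (nat_lit 5) L29162 (by decide +kernel)
theorem L29164 : W_16 (nat_lit 6) (nat_lit 0x4000600000001a002d0002c00000000000000000000000000) (nat_lit 0x0) (nat_lit 0x80004000080000000e0007000280000000000000) := T_16 (nat_lit 142) (nat_lit 123) (nat_lit 0) (nat_lit 8) (nat_lit 8) L29163 (by decide +kernel)
theorem L29165 : W_16 (nat_lit 7) (nat_lit 0x4000600000001a002c0002c00000000000000000000000000) (nat_lit 0x0) (nat_lit 0x80004000380000000e0007000280000000000000) := T_16 (nat_lit 124) (nat_lit 125) (nat_lit 0) (nat_lit 8) (nat_lit 7) L29164 (by decide +kernel)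
theorem L29166 : W_16 (nat_lit 8) (nat_lit 0x4000600000001a002c0002800000000000000000000000000) (nat_lit 0x0) (nat_lit 0x80004000380014000e0007000280000000000000) := T_16 (nat_lit 106) (nat_lit 108) (nat_lit 3) (nat_lit 4) (nat_lit 6) L29165 (by decide +kernel)
theorem L29167 : W_16 (nat_lit 9) (nat_lit 0x4000200000001a002c0002800000000000000000000000000) (nat_lit 0x0) (nat_lit 0x4000280004000380014000e0007000280000000000000) := T_16 (nat_lit 178) (nat_lit 161) (nat_lit 5) (nat_lit 8) (nat_lit 7) L29166 (by decide +kernel)
theorem L29168 : W_16 (nat_lit 10) (nat_lit 0x4000200000001a002c0002000000000000000000000000000) (nat_lit 0x0) (nat_lit 0x48006e000400038001c000e0007000280000000000000) := Q_16 (nat_lit 107) (C_16 L29133 (C_16 L29137 (C_16 L29142 (C_16 L29147 (C_16 L29153 (C_16 L29159 (C_16 L29167 N_16))))))) (by decide +kernel)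
theorem L29169 : W_16 (nat_lit 2) (nat_lit 0x4000200000001a002c0002000000000000000000000000000) (nat_lit 0x0) (nat_lit 0x20000000000000000100008000000000000000000) := D_16 (nat_lit 92) (nat_lit 75) (nat_lit 161) (nat_lit 7) (nat_lit 7) (nat_lit 4) (nat_lit 7) (nat_lit 7) (nat_lit 5) (by decide +kernel)
theorem L29170 : W_16 (nat_lit 2) (nat_lit 0x4000200004001e002d0002000380000000000000000000000) (nat_lit 0x0) (nat_lit 0x20001800000000000000000000000000) := D_16 (nat_lit 108) (nat_lit 125) (nat_lit 107) (nat_lit 5) (nat_lit 6) (nat_lit 5) (nat_lit 6) (nat_lit 5) (nat_lit 9) (by decide +kernel)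
theorem L29171 : W_16 (nat_lit 3) (nat_lit 0x4000200004001e002d0002000300000000000000000000000) (nat_lit 0x0) (nat_lit 0x20001800080004000000000000000000) := T_16 (nat_lit 91) (nat_lit 74) (nat_lit 4) (nat_lit 7) (nat_lit 8) L29170 (by decide +kernel)
theorem L29172 : W_16 (nat_lit 4) (nat_lit 0x4000200004001e002c0002000300000000000000000000000) (nat_lit 0x0) (nat_lit 0x38001800080004000000000000000000) := T_16 (nat_lit 124) (nat_lit 123) (nat_lit 0) (nat_lit 8) (nat_lit 8) L29171 (by decide +kernel)
theorem L29173 : W_16 (nat_lit 5) (nat_lit 0x4000200000001e002c0002000300000000000000000000000) (nat_lit 0x0) (nat_lit 0x6000000038001800080004000000000000000000) := T_16 (nat_lit 158) (nat_lit 157) (nat_lit 1) (nat_lit 8) (nat_lit 8) L29172 (by decide +kernel)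
theorem L29174 : W_16 (nat_lit 6) (nat_lit 0x4000200000001a002c0002000300000000000000000000000) (nat_lit 0x0) (nat_lit 0xe000400038001800080004000000000000000000) := T_16 (nat_lit 142) (nat_lit 159) (nat_lit 5) (nat_lit 7) (nat_lit 5) L29173 (by decide +kernel)
theorem L29175 : W_16 (nat_lit 7) (nat_lit 0x4000200000001a002c0002000100000000000000000000000) (nat_lit 0x0) (nat_lit 0xe000400038001800280014000000000000000000) := T_16 (nat_lit 93) (nat_lit 76) (nat_lit 6) (nat_lit 7) (nat_lit 8) L29174 (by decide +kernel)
theorem L29176 : W_16 (nat_lit 8) (nat_lit 0x4000200000001a002c0002000000000000000000000000000) (nat_lit 0x0) (nat_lit 0xe00040003800180038001c000000000000000000) := T_16 (nat_lit 92) (nat_lit 75) (nat_lit 7) (nat_lit 7) (nat_lit 4) L29175 (by decide +kernel)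
theorem L29177 : W_16 (nat_lit 11) (nat_lit 0x4000200000001a002c0000000000000000000000000000000) (nat_lit 0x0) (nat_lit 0x48006e000400038003c003e001f000280000000000000) := Q_16 (nat_lit 109) (C_16 L29168 (C_16 L29169 (C_16 L29176 N_16))) (by decide +kernel)
theorem L29178 : W_16 (nat_lit 14) (nat_lit 0x40002000000018002c0000000000000000000000000000000) (nat_lit 0x0) (nat_lit 0x500038004c006e000700038003c007f803f000280000000000000) := Q_16 (nat_lit 141) (C_16 L29124 (C_16 L29126 (C_16 L29130 (C_16 L29177 N_16)))) (by decide +kernel)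
theorem L29179 : W_16 (nat_lit 2) (nat_lit 0x40002000000018003c0002000000000000000000000000000) (nat_lit 0x0) (nat_lit 0x20000000000000000100008000000000000000000) := D_16 (nat_lit 92) (nat_lit 75) (nat_lit 161) (nat_lit 7) (nat_lit 7) (nat_lit 4) (nat_lit 7) (nat_lit 7) (nat_lit 5) (by decide +kernel)
theorem L29180 : W_16 (nat_lit 3) (nat_lit 0x40002000000018003c0000000000000000000000000000000) (nat_lit 0x0) (nat_lit 0x20000000000003000100008000000000000000000) := T_16 (nat_lit 109) (nat_lit 108) (nat_lit 0) (nat_lit 10) (nat_lit 7) L29179 (by decide +kernel)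
theorem L29181 : W_16 (nat_lit 4) (nat_lit 0x40002000000018002c0000000000000000000000000000000) (nat_lit 0x0) (nat_lit 0x20000400100003000100008000000000000000000) := T_16 (nat_lit 128) (nat_lit 142) (nat_lit 1) (nat_lit 10) (nat_lit 7) L29180 (by decide +kernel)
theorem L29182 : W_16 (nat_lit 2) (nat_lit 0x40002000200058003c0018000100000000000000000000000) (nat_lit 0x0) (nat_lit 0x1000080000000000000000400000000000000000000000) := D_16 (nat_lit 163) (nat_lit 94) (nat_lit 180) (nat_lit 4) (nat_lit 10) (nat_lit 9) (nat_lit 4) (nat_lit 10) (nat_lit 10) (by decide +kernel)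
theorem L29183 : W_16 (nat_lit 3) (nat_lit 0x40002000200058003c0010000100000000000000000000000) (nat_lit 0x0) (nat_lit 0x1000080000000020008000400000000000000000000000) := T_16 (nat_lit 111) (nat_lit 125) (nat_lit 2) (nat_lit 6) (nat_lit 7) L29182 (by decide +kernel)
theorem L29184 : W_16 (nat_lit 4) (nat_lit 0x40002000200058003c0000000100000000000000000000000) (nat_lit 0x0) (nat_lit 0x1000080000000020038000400000000000000000000000) := T_16 (nat_lit 112) (nat_lit 113) (nat_lit 2) (nat_lit 7) (nat_lit 7) L29183 (by decide +kernel)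
theorem L29185 : W_16 (nat_lit 5) (nat_lit 0x40002000200018003c0000000100000000000000000000000) (nat_lit 0x0) (nat_lit 0x100008000c000020038000400000000000000000000000) := T_16 (nat_lit 146) (nat_lit 147) (nat_lit 3) (nat_lit 7) (nat_lit 7) L29184 (by decide +kernel)
theorem L29186 : W_16 (nat_lit 6) (nat_lit 0x40002000200018003c0000000000000000000000000000000) (nat_lit 0x0) (nat_lit 0x100008000c00002003a000500000000000000000000000) := T_16 (nat_lit 92) (nat_lit 109) (nat_lit 7) (nat_lit 7) (nat_lit 5) L29185 (by decide +kernel)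
theorem L29187 : W_16 (nat_lit 7) (nat_lit 0x40002000000018003c0000000000000000000000000000000) (nat_lit 0x0) (nat_lit 0x14000a000c00002003a000500000000000000000000000) := T_16 (nat_lit 161) (nat_lit 178) (nat_lit 5) (nat_lit 8) (nat_lit 7) L29186 (by decide +kernel)
theorem L29188 : W_16 (nat_lit 8) (nat_lit 0x40002000000018002c0000000000000000000000000000000) (nat_lit 0x0) (nat_lit 0x14000a000c40012003a000500000000000000000000000) := T_16 (nat_lit 128) (nat_lit 142) (nat_lit 1) (nat_lit 10) (nat_lit 7) L29187 (by decide +kernel)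
theorem L29189 : W_16 (nat_lit 2) (nat_lit 0x40006000000058003c001a000000000000000000000000000) (nat_lit 0x0) (nat_lit 0x1000080000000000000000400000000000000000000000) := D_16 (nat_lit 163) (nat_lit 94) (nat_lit 180) (nat_lit 4) (nat_lit 10) (nat_lit 9) (nat_lit 4) (nat_lit 10) (nat_lit 10) (by decide +kernel)
theorem L29190 : W_16 (nat_lit 3) (nat_lit 0x40006000000058003c0012000000000000000000000000000) (nat_lit 0x0) (nat_lit 0x1000080000000020008000400000000000000000000000) := T_16 (nat_lit 111) (nat_lit 125) (nat_lit 2) (nat_lit 6) (nat_lit 7) L29189 (by decide +kernel)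
theorem L29191 : W_16 (nat_lit 4) (nat_lit 0x40006000000058003c0002000000000000000000000000000) (nat_lit 0x0) (nat_lit 0x1000080000000020038000400000000000000000000000) := T_16 (nat_lit 112) (nat_lit 113) (nat_lit 2) (nat_lit 7) (nat_lit 7) L29190 (by decide +kernel)
theorem L29192 : W_16 (nat_lit 5) (nat_lit 0x40002000000058003c0002000000000000000000000000000) (nat_lit 0x0) (nat_lit 0x14000a0000000020038000400000000000000000000000) := T_16 (nat_lit 178) (nat_lit 161) (nat_lit 5) (nat_lit 8) (nat_lit 7) L29191 (by decide +kernel)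
theorem L29193 : W_16 (nat_lit 6) (nat_lit 0x40002000000018003c0002000000000000000000000000000) (nat_lit 0x0) (nat_lit 0x14000a000c000020038000400000000000000000000000) := T_16 (nat_lit 146) (nat_lit 147) (nat_lit 3) (nat_lit 7) (nat_lit 7) L29192 (by decide +kernel)
theorem L29194 : W_16 (nat_lit 7) (nat_lit 0x40002000000018003c0000000000000000000000000000000) (nat_lit 0x0) (nat_lit 0x14000a000c00002003b000400000000000000000000000) := T_16 (nat_lit 109) (nat_lit 108) (nat_lit 0) (nat_lit 10) (nat_lit 7) L29193 (by decide +kernel)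
theorem L29195 : W_16 (nat_lit 8) (nat_lit 0x40002000000018002c0000000000000000000000000000000) (nat_lit 0x0) (nat_lit 0x14000a000c40012003b000400000000000000000000000) := T_16 (nat_lit 128) (nat_lit 142) (nat_lit 1) (nat_lit 10) (nat_lit 7) L29194 (by decide +kernel)
theorem L29196 : W_16 (nat_lit 2) (nat_lit 0x40002000200058003e0010800000000000000000000000000) (nat_lit 0x0) (nat_lit 0x18000400000000000000000000000000) := D_16 (nat_lit 124) (nat_lit 123) (nat_lit 106) (nat_lit 3) (nat_lit 4) (nat_lit 7) (nat_lit 0) (nat_lit 8) (nat_lit 7) (by decide +kernel)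
theorem L29197 : W_16 (nat_lit 3) (nat_lit 0x40002000200058003e0010000000000000000000000000000) (nat_lit 0x0) (nat_lit 0x18001c00000000000000000000000000) := T_16 (nat_lit 107) (nat_lit 108) (nat_lit 0) (nat_lit 9) (nat_lit 7) L29196 (by decide +kernel)
theorem L29198 : W_16 (nat_lit 4) (nat_lit 0x40002000200058003c0010000000000000000000000000000) (nat_lit 0x0) (nat_lit 0x38009c00000000000000000000000000) := T_16 (nat_lit 125) (nat_lit 111) (nat_lit 2) (nat_lit 6) (nat_lit 7) L29197 (by decide +kernel)
theorem L29199 : W_16 (nat_lit 5) (nat_lit 0x40002000200058003c0000000000000000000000000000000) (nat_lit 0x0) (nat_lit 0x38039c00000000000000000000000000) := T_16 (nat_lit 112) (nat_lit 113) (nat_lit 2) (nat_lit 7) (nat_lit 7) L29198 (by decide +kernel)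
theorem L29200 : W_16 (nat_lit 6) (nat_lit 0x40002000200018003c0000000000000000000000000000000) (nat_lit 0x0) (nat_lit 0xc000038039c00000000000000000000000000) := T_16 (nat_lit 146) (nat_lit 147) (nat_lit 3) (nat_lit 7) (nat_lit 7) L29199 (by decide +kernel)
theorem L29201 : W_16 (nat_lit 7) (nat_lit 0x40002000000018003c0000000000000000000000000000000) (nat_lit 0x0) (nat_lit 0x40002000c000038039c00000000000000000000000000) := T_16 (nat_lit 161) (nat_lit 178) (nat_lit 5) (nat_lit 8) (nat_lit 7) L29200 (by decide +kernel)
theorem L29202 : W_16 (nat_lit 8) (nat_lit 0x40002000000018002c0000000000000000000000000000000) (nat_lit 0x0) (nat_lit 0x40002000c400138039c00000000000000000000000000) := T_16 (nat_lit 128) (nat_lit 142) (nat_lit 1) (nat_lit 10) (nat_lit 7) L29201 (by decide +kernel)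
theorem L29203 : W_16 (nat_lit 2) (nat_lit 0x40002000200058003c001a000000000000000000000000000) (nat_lit 0x0) (nat_lit 0x80000000000000000400020000000000000000000) := D_16 (nat_lit 94) (nat_lit 77) (nat_lit 163) (nat_lit 7) (nat_lit 9) (nat_lit 4) (nat_lit 4) (nat_lit 10) (nat_lit 9) (by decide +kernel)
theorem L29204 : W_16 (nat_lit 3) (nat_lit 0x40002000200018003c001a000000000000000000000000000) (nat_lit 0x0) (nat_lit 0x8000c000000000000400020000000000000000000) := T_16 (nat_lit 146) (nat_lit 147) (nat_lit 3) (nat_lit 7) (nat_lit 7) L29203 (by decide +kernel)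
theorem L29205 : W_16 (nat_lit 4) (nat_lit 0x40002000200018003c0012000000000000000000000000000) (nat_lit 0x0) (nat_lit 0x8000c000020008000400020000000000000000000) := T_16 (nat_lit 111) (nat_lit 125) (nat_lit 2) (nat_lit 6) (nat_lit 7) L29204 (by decide +kernel)
theorem L29206 : W_16 (nat_lit 5) (nat_lit 0x40002000200018003c0002000000000000000000000000000) (nat_lit 0x0) (nat_lit 0x8000c000020038000400020000000000000000000) := T_16 (nat_lit 112) (nat_lit 113) (nat_lit 2) (nat_lit 7) (nat_lit 7) L29205 (by decide +kernel)
theorem L29207 : W_16 (nat_lit 6) (nat_lit 0x40002000200018002c0002000000000000000000000000000) (nat_lit 0x0) (nat_lit 0x8000c000120039000400020000000000000000000) := T_16 (nat_lit 128) (nat_lit 108) (nat_lit 0) (nat_lit 10) (nat_lit 7) L29206 (by decide +kernel)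
theorem L29208 : W_16 (nat_lit 7) (nat_lit 0x40002000200018002c0000000000000000000000000000000) (nat_lit 0x0) (nat_lit 0x8000c00012003b000500020000000000000000000) := T_16 (nat_lit 109) (nat_lit 92) (nat_lit 7) (nat_lit 7) (nat_lit 5) L29207 (by decide +kernel)
theorem L29209 : W_16 (nat_lit 8) (nat_lit 0x40002000000018002c0000000000000000000000000000000) (nat_lit 0x0) (nat_lit 0x4000a000c00012003b000500020000000000000000000) := T_16 (nat_lit 161) (nat_lit 178) (nat_lit 5) (nat_lit 8) (nat_lit 7) L29208 (by decide +kernel)
theorem L29210 : W_16 (nat_lit 2) (nat_lit 0x40002000000058003c001a000000008000000000000000000) (nat_lit 0x0) (nat_lit 0x1000080000000000000000400000000000000000000000) := D_16 (nat_lit 163) (nat_lit 94) (nat_lit 180) (nat_lit 4) (nat_lit 10) (nat_lit 9) (nat_lit 4) (nat_lit 10) (nat_lit 10) (by decide +kernel)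
theorem L29211 : W_16 (nat_lit 3) (nat_lit 0x40002000000058003c0012000000008000000000000000000) (nat_lit 0x0) (nat_lit 0x1000080000000020008000400000000000000000000000) := T_16 (nat_lit 111) (nat_lit 125) (nat_lit 2) (nat_lit 6) (nat_lit 7) L29210 (by decide +kernel)
theorem L29212 : W_16 (nat_lit 4) (nat_lit 0x40002000000058003c0002000000008000000000000000000) (nat_lit 0x0) (nat_lit 0x1000080000000020038000400000000000000000000000) := T_16 (nat_lit 112) (nat_lit 113) (nat_lit 2) (nat_lit 7) (nat_lit 7) L29211 (by decide +kernel)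
theorem L29213 : W_16 (nat_lit 5) (nat_lit 0x40002000000058003c0002000000000000000000000000000) (nat_lit 0x0) (nat_lit 0x1000080000000020038000500008000000000000000000) := T_16 (nat_lit 75) (nat_lit 92) (nat_lit 7) (nat_lit 7) (nat_lit 4) L29212 (by decide +kernel)
theorem L29214 : W_16 (nat_lit 6) (nat_lit 0x40002000000018003c0002000000000000000000000000000) (nat_lit 0x0) (nat_lit 0x100008000c000020038000500008000000000000000000) := T_16 (nat_lit 146) (nat_lit 147) (nat_lit 3) (nat_lit 7) (nat_lit 7) L29213 (by decide +kernel)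
theorem L29215 : W_16 (nat_lit 7) (nat_lit 0x40002000000018003c0000000000000000000000000000000) (nat_lit 0x0) (nat_lit 0x100008000c00002003b000500008000000000000000000) := T_16 (nat_lit 109) (nat_lit 108) (nat_lit 0) (nat_lit 10) (nat_lit 7) L29214 (by decide +kernel)
theorem L29216 : W_16 (nat_lit 8) (nat_lit 0x40002000000018002c0000000000000000000000000000000) (nat_lit 0x0) (nat_lit 0x100008000c40012003b000500008000000000000000000) := T_16 (nat_lit 128) (nat_lit 142) (nat_lit 1) (nat_lit 10) (nat_lit 7) L29215 (by decide +kernel)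
theorem L29217 : W_16 (nat_lit 15) (nat_lit 0x4000200000001800280000000000000000000000000000000) (nat_lit 0x0) (nat_lit 0x500038014c00ee00c70017803bc007f803f000280000000000000) := Q_16 (nat_lit 126) (C_16 L28934 (C_16 L28937 (C_16 L29178 (C_16 L29181 (C_16 L29188 (C_16 L29195 (C_16 L29202 (C_16 L29209 (C_16 L29216 N_16))))))))) (by decide +kernel)
theorem L29218 : W_16 (nat_lit 16) (nat_lit 0x4000200000001000280000000000000000000000000000000) (nat_lit 0x0) (nat_lit 0x500038014c00fe00cf0017803bc007f803f000280000000000000) := T_16 (nat_lit 143) (nat_lit 160) (nat_lit 6) (nat_lit 7) (nat_lit 11) L29217 (by decide +kernel)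
theorem L29219 : W_16 (nat_lit 2) (nat_lit 0x40002000200010002800f8004000000000000000000000000) (nat_lit 0x0) (nat_lit 0x3800000000000000000000000000000000) := D_16 (nat_lit 132) (nat_lit 133) (nat_lit 131) (nat_lit 3) (nat_lit 10) (nat_lit 6) (nat_lit 3) (nat_lit 9) (nat_lit 6) (by decide +kernel)
theorem L29220 : W_16 (nat_lit 3) (nat_lit 0x40002000200010002800f0004000000000000000000000000) (nat_lit 0x0) (nat_lit 0x3800008002000000000000000000000000) := T_16 (nat_lit 111) (nat_lit 97) (nat_lit 2) (nat_lit 9) (nat_lit 6) L29219 (by decide +kernel)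
theorem L29221 : W_16 (nat_lit 4) (nat_lit 0x40002000200010002800f0000000000000000000000000000) (nat_lit 0x0) (nat_lit 0x380000800e000000000000000000000000) := T_16 (nat_lit 98) (nat_lit 99) (nat_lit 2) (nat_lit 10) (nat_lit 6) L29220 (by decide +kernel)
theorem L29222 : W_16 (nat_lit 5) (nat_lit 0x40002000000010002800f0000000000000000000000000000) (nat_lit 0x0) (nat_lit 0x40002000000380000800e000000000000000000000000) := T_16 (nat_lit 161) (nat_lit 178) (nat_lit 5) (nat_lit 8) (nat_lit 7) L29221 (by decide +kernel)
theorem L29223 : W_16 (nat_lit 2) (nat_lit 0x40002000000010002801f0000000000000000000000000000) (nat_lit 0x0) (nat_lit 0x1c00000000000000000000000) := D_16 (nat_lit 95) (nat_lit 96) (nat_lit 94) (nat_lit 0) (nat_lit 14) (nat_lit 6) (nat_lit 0) (nat_lit 13) (nat_lit 6) (by decide +kernel)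
theorem L29224 : W_16 (nat_lit 3) (nat_lit 0x40002000000010002800f0000000000000000000000000000) (nat_lit 0x0) (nat_lit 0x400100001c00000000000000000000000) := T_16 (nat_lit 116) (nat_lit 130) (nat_lit 1) (nat_lit 14) (nat_lit 6) L29223 (by decide +kernel)
theorem L29225 : W_16 (nat_lit 6) (nat_lit 0x4000200000001000280070000000000000000000000000000) (nat_lit 0x0) (nat_lit 0x400020000003c0018800fc00000000000000000000000) := Q_16 (nat_lit 115) (C_16 L29222 (C_16 L29224 N_16)) (by decide +kernel)
theorem L29226 : W_16 (nat_lit 2) (nat_lit 0x40002000200010002801f0004000000000000000000000000) (nat_lit 0x0) (nat_lit 0x7000000000000000000000000000000000) := D_16 (nat_lit 133) (nat_lit 132) (nat_lit 134) (nat_lit 3) (nat_lit 10) (nat_lit 6) (nat_lit 3) (nat_lit 11) (nat_lit 6) (by decide +kernel)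
theorem L29227 : W_16 (nat_lit 3) (nat_lit 0x40002000200010002800f0004000000000000000000000000) (nat_lit 0x0) (nat_lit 0x7400100000000000000000000000000000) := T_16 (nat_lit 116) (nat_lit 130) (nat_lit 1) (nat_lit 14) (nat_lit 6) L29226 (by decide +kernel)
theorem L29228 : W_16 (nat_lit 4) (nat_lit 0x40002000200010002800f0000000000000000000000000000) (nat_lit 0x0) (nat_lit 0x740010000c000000000000000000000000) := T_16 (nat_lit 98) (nat_lit 99) (nat_lit 2) (nat_lit 10) (nat_lit 6) L29227 (by decide +kernel)
theorem L29229 : W_16 (nat_lit 5) (nat_lit 0x40002000000010002800f0000000000000000000000000000) (nat_lit 0x0) (nat_lit 0x40002000000740010000c000000000000000000000000) := T_16 (nat_lit 161) (nat_lit 178) (nat_lit 5) (nat_lit 8) (nat_lit 7) L29228 (by decide +kernel)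
theorem L29230 : W_16 (nat_lit 2) (nat_lit 0x40002000200010002801f0004800000000000000000000000) (nat_lit 0x0) (nat_lit 0x7000000000000000000000000000000000) := D_16 (nat_lit 133) (nat_lit 132) (nat_lit 134) (nat_lit 3) (nat_lit 10) (nat_lit 6) (nat_lit 3) (nat_lit 11) (nat_lit 6) (by decide +kernel)
theorem L29231 : W_16 (nat_lit 3) (nat_lit 0x40002000200010002800f0004800000000000000000000000) (nat_lit 0x0) (nat_lit 0x7000100001000000000000000000000000) := T_16 (nat_lit 116) (nat_lit 96) (nat_lit 0) (nat_lit 14) (nat_lit 6) L29230 (by decide +kernel)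
theorem L29232 : W_16 (nat_lit 4) (nat_lit 0x40002000200010002800f0000800000000000000000000000) (nat_lit 0x0) (nat_lit 0x700010000d000000000000000000000000) := T_16 (nat_lit 98) (nat_lit 99) (nat_lit 2) (nat_lit 10) (nat_lit 6) L29231 (by decide +kernel)
theorem L29233 : W_16 (nat_lit 5) (nat_lit 0x40002000200010002800f0000000000000000000000000000) (nat_lit 0x0) (nat_lit 0x700010000dc00000000000000000000000) := T_16 (nat_lit 95) (nat_lit 94) (nat_lit 0) (nat_lit 13) (nat_lit 6) L29232 (by decide +kernel)
theorem L29234 : W_16 (nat_lit 6) (nat_lit 0x40002000000010002800f0000000000000000000000000000) (nat_lit 0x0) (nat_lit 0x40002000000700010000dc00000000000000000000000) := T_16 (nat_lit 161) (nat_lit 178) (nat_lit 5) (nat_lit 8) (nat_lit 7) L29233 (by decide +kernel)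
theorem L29235 : W_16 (nat_lit 2) (nat_lit 0x4000200020001001a800f0005000000004000000000000000) (nat_lit 0x0) (nat_lit 0x200010000000000000000200000000000000000000) := D_16 (nat_lit 148) (nat_lit 165) (nat_lit 81) (nat_lit 6) (nat_lit 12) (nat_lit 9) (nat_lit 5) (nat_lit 13) (nat_lit 4) (by decide +kernel)
theorem L29236 : W_16 (nat_lit 3) (nat_lit 0x4000200020001001a800f0001000000004000000000000000) (nat_lit 0x0) (nat_lit 0x20001000000000000c000200000000000000000000) := T_16 (nat_lit 98) (nat_lit 99) (nat_lit 2) (nat_lit 10) (nat_lit 6) L29235 (by decide +kernel)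
theorem L29237 : W_16 (nat_lit 4) (nat_lit 0x4000200000001001a800f0001000000004000000000000000) (nat_lit 0x0) (nat_lit 0x40022001000000000000c000200000000000000000000) := T_16 (nat_lit 161) (nat_lit 178) (nat_lit 5) (nat_lit 8) (nat_lit 7) L29236 (by decide +kernel)
theorem L29238 : W_16 (nat_lit 5) (nat_lit 0x4000200000001001a800f0001000000000000000000000000) (nat_lit 0x0) (nat_lit 0x40022001000000000000c000280004000000000000000) := T_16 (nat_lit 62) (nat_lit 79) (nat_lit 7) (nat_lit 11) (nat_lit 3) L29237 (by decide +kernel)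
theorem L29239 : W_16 (nat_lit 6) (nat_lit 0x4000200000001000a800f0001000000000000000000000000) (nat_lit 0x0) (nat_lit 0x40022001000300000000c000280004000000000000000) := T_16 (nat_lit 132) (nat_lit 133) (nat_lit 3) (nat_lit 10) (nat_lit 6) L29238 (by decide +kernel)
theorem L29240 : W_16 (nat_lit 2) (nat_lit 0x4000200200001001a800f0005000700004000000000000000) (nat_lit 0x0) (nat_lit 0x20000000000002000800000000000000000000) := D_16 (nat_lit 97) (nat_lit 83) (nat_lit 149) (nat_lit 1) (nat_lit 15) (nat_lit 4) (nat_lit 7) (nat_lit 12) (nat_lit 4) (by decide +kernel)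
theorem L29241 : W_16 (nat_lit 3) (nat_lit 0x4000200200001001a800f0005000300004000000000000000) (nat_lit 0x0) (nat_lit 0x20000000000002000c00020000000000000000) := T_16 (nat_lit 82) (nat_lit 65) (nat_lit 6) (nat_lit 13) (nat_lit 7) L29240 (by decide +kernel)
theorem L29242 : W_16 (nat_lit 4) (nat_lit 0x4000200200001001a800f0005000200004000000000000000) (nat_lit 0x0) (nat_lit 0x20000000000002000d00028000000000000000) := T_16 (nat_lit 80) (nat_lit 63) (nat_lit 4) (nat_lit 13) (nat_lit 7) L29241 (by decide +kernel)
theorem L29243 : W_16 (nat_lit 5) (nat_lit 0x4000200200001001a800f0005000000004000000000000000) (nat_lit 0x0) (nat_lit 0x20000000000002000f00038000000000000000) := T_16 (nat_lit 81) (nat_lit 64) (nat_lit 5) (nat_lit 13) (nat_lit 3) L29242 (by decide +kernel)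
theorem L29244 : W_16 (nat_lit 6) (nat_lit 0x4000200200001000a800f0005000000004000000000000000) (nat_lit 0x0) (nat_lit 0x20003000000002000f00038000000000000000) := T_16 (nat_lit 132) (nat_lit 133) (nat_lit 3) (nat_lit 10) (nat_lit 6) L29243 (by decide +kernel)
theorem L29245 : W_16 (nat_lit 7) (nat_lit 0x4000200200001000a800f0005000000000000000000000000) (nat_lit 0x0) (nat_lit 0x20003000000002000f8003c000000000000000) := T_16 (nat_lit 62) (nat_lit 79) (nat_lit 7) (nat_lit 11) (nat_lit 3) L29244 (by decide +kernel)
theorem L29246 : W_16 (nat_lit 8) (nat_lit 0x4000200000001000a800f0005000000000000000000000000) (nat_lit 0x0) (nat_lit 0x200030003000000002000f8003c000000000000000) := T_16 (nat_lit 165) (nat_lit 148) (nat_lit 6) (nat_lit 12) (nat_lit 9) L29245 (by decide +kernel)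
theorem L29247 : W_16 (nat_lit 9) (nat_lit 0x4000200000001000a800f0001000000000000000000000000) (nat_lit 0x0) (nat_lit 0x20003000300000000e000f8003c000000000000000) := T_16 (nat_lit 98) (nat_lit 99) (nat_lit 2) (nat_lit 10) (nat_lit 6) L29246 (by decide +kernel)
theorem L29248 : W_16 (nat_lit 2) (nat_lit 0x4000200020001001a800f0005000700004000000000000000) (nat_lit 0x0) (nat_lit 0x20000000000002000800000000000000000000) := D_16 (nat_lit 97) (nat_lit 83) (nat_lit 149) (nat_lit 1) (nat_lit 15) (nat_lit 4) (nat_lit 7) (nat_lit 12) (nat_lit 4) (by decide +kernel)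
theorem L29249 : W_16 (nat_lit 3) (nat_lit 0x4000200020001001a800f0005000600004000000000000000) (nat_lit 0x0) (nat_lit 0x20000000000002000900008000000000000000) := T_16 (nat_lit 80) (nat_lit 63) (nat_lit 4) (nat_lit 13) (nat_lit 7) L29248 (by decide +kernel)
theorem L29250 : W_16 (nat_lit 4) (nat_lit 0x4000200020001001a800f0005000200004000000000000000) (nat_lit 0x0) (nat_lit 0x20000000000002000d00028000000000000000) := T_16 (nat_lit 82) (nat_lit 65) (nat_lit 6) (nat_lit 13) (nat_lit 7) L29249 (by decide +kernel)
theorem L29251 : W_16 (nat_lit 5) (nat_lit 0x4000200020001000a800f0005000200004000000000000000) (nat_lit 0x0) (nat_lit 0x20003000000002000d00028000000000000000) := T_16 (nat_lit 132) (nat_lit 133) (nat_lit 3) (nat_lit 10) (nat_lit 6) L29250 (by decide +kernel)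
theorem L29252 : W_16 (nat_lit 6) (nat_lit 0x4000200020001000a800f0005000200000000000000000000) (nat_lit 0x0) (nat_lit 0x20003000000002000d8002c000000000000000) := T_16 (nat_lit 62) (nat_lit 79) (nat_lit 7) (nat_lit 11) (nat_lit 3) L29251 (by decide +kernel)
theorem L29253 : W_16 (nat_lit 7) (nat_lit 0x4000200000001000a800f0005000200000000000000000000) (nat_lit 0x0) (nat_lit 0x400020020003000000002000d8002c000000000000000) := T_16 (nat_lit 161) (nat_lit 178) (nat_lit 5) (nat_lit 8) (nat_lit 7) L29252 (by decide +kernel)
theorem L29254 : W_16 (nat_lit 8) (nat_lit 0x4000200000001000a800f0005000000000000000000000000) (nat_lit 0x0) (nat_lit 0x400020020003000000002000f8003c000000000000000) := T_16 (nat_lit 81) (nat_lit 64) (nat_lit 5) (nat_lit 13) (nat_lit 3) L29253 (by decide +kernel)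
theorem L29255 : W_16 (nat_lit 9) (nat_lit 0x4000200000001000a800f0001000000000000000000000000) (nat_lit 0x0) (nat_lit 0x40002002000300000000e000f8003c000000000000000) := T_16 (nat_lit 98) (nat_lit 99) (nat_lit 2) (nat_lit 10) (nat_lit 6) L29254 (by decide +kernel)
theorem L29256 : W_16 (nat_lit 2) (nat_lit 0x4000200020001001a800f0005000000000000000000000000) (nat_lit 0x0) (nat_lit 0x200010000000000000000200000000000000000000) := D_16 (nat_lit 148) (nat_lit 165) (nat_lit 81) (nat_lit 6) (nat_lit 12) (nat_lit 9) (nat_lit 5) (nat_lit 13) (nat_lit 4) (by decide +kernel)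
theorem L29257 : W_16 (nat_lit 3) (nat_lit 0x4000200020001001a800f0001000000000000000000000000) (nat_lit 0x0) (nat_lit 0x20001000000000000c000200000000000000000000) := T_16 (nat_lit 98) (nat_lit 99) (nat_lit 2) (nat_lit 10) (nat_lit 6) L29256 (by decide +kernel)
theorem L29258 : W_16 (nat_lit 4) (nat_lit 0x4000200000001001a800f0001000000000000000000000000) (nat_lit 0x0) (nat_lit 0x40022001000000000000c000200000000000000000000) := T_16 (nat_lit 161) (nat_lit 178) (nat_lit 5) (nat_lit 8) (nat_lit 7) L29257 (by decide +kernel)
theorem L29259 : W_16 (nat_lit 5) (nat_lit 0x4000200000001000a800f0001000000000000000000000000) (nat_lit 0x0) (nat_lit 0x40022001000300000000c000200000000000000000000) := T_16 (nat_lit 132) (nat_lit 133) (nat_lit 3) (nat_lit 10) (nat_lit 6) L29258 (by decide +kernel)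
theorem L29260 : W_16 (nat_lit 2) (nat_lit 0x4000200000011000a800f0005000000000000000000000000) (nat_lit 0x0) (nat_lit 0x2000080004000000000000000) := D_16 (nat_lit 79) (nat_lit 62) (nat_lit 97) (nat_lit 7) (nat_lit 11) (nat_lit 3) (nat_lit 4) (nat_lit 12) (nat_lit 8) (by decide +kernel)
theorem L29261 : W_16 (nat_lit 3) (nat_lit 0x4000200000001000a800f0005000000000000000000000000) (nat_lit 0x0) (nat_lit 0x200010000000000002000080004000000000000000) := T_16 (nat_lit 148) (nat_lit 165) (nat_lit 6) (nat_lit 12) (nat_lit 9) L29260 (by decide +kernel)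
theorem L29262 : W_16 (nat_lit 4) (nat_lit 0x4000200000001000a800f0001000000000000000000000000) (nat_lit 0x0) (nat_lit 0x20001000000000000e000080004000000000000000) := T_16 (nat_lit 98) (nat_lit 99) (nat_lit 2) (nat_lit 10) (nat_lit 6) L29261 (by decide +kernel)
theorem L29263 : W_16 (nat_lit 2) (nat_lit 0x4000200000001000a800f0001000080000000000000000000) (nat_lit 0x0) (nat_lit 0x200010000000000002000000000000000000000000) := D_16 (nat_lit 148) (nat_lit 165) (nat_lit 97) (nat_lit 4) (nat_lit 12) (nat_lit 9) (nat_lit 4) (nat_lit 12) (nat_lit 8) (by decide +kernel)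
theorem L29264 : W_16 (nat_lit 3) (nat_lit 0x4000200000001000a800f0001000000000000000000000000) (nat_lit 0x0) (nat_lit 0x200010000000000002000080004000000000000000) := T_16 (nat_lit 79) (nat_lit 62) (nat_lit 7) (nat_lit 11) (nat_lit 3) L29263 (by decide +kernel)
theorem L29265 : W_16 (nat_lit 10) (nat_lit 0x40002000000010002800f0001000000000000000000000000) (nat_lit 0x0) (nat_lit 0x40022003000380000000e000f8003c000000000000000) := Q_16 (nat_lit 131) (C_16 L29239 (C_16 L29247 (C_16 L29255 (C_16 L29259 (C_16 L29262 (C_16 L29264 N_16)))))) (by decide +kernel)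
theorem L29266 : W_16 (nat_lit 2) (nat_lit 0x4000200400001001a800f000b400380000000000000000000) (nat_lit 0x0) (nat_lit 0x10000c00000000000000000000) := D_16 (nat_lit 82) (nat_lit 100) (nat_lit 83) (nat_lit 3) (nat_lit 11) (nat_lit 4) (nat_lit 1) (nat_lit 15) (nat_lit 4) (by decide +kernel)
theorem L29267 : W_16 (nat_lit 3) (nat_lit 0x4000200400001001a800f000b400180000000000000000000) (nat_lit 0x0) (nat_lit 0x10000e00010000000000000000) := T_16 (nat_lit 81) (nat_lit 64) (nat_lit 6) (nat_lit 12) (nat_lit 7) L29266 (by decide +kernel)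
theorem L29268 : W_16 (nat_lit 4) (nat_lit 0x40002004000010012800f000b400180000000000000000000) (nat_lit 0x0) (nat_lit 0x10000800000010000e00010000000000000000) := T_16 (nat_lit 131) (nat_lit 148) (nat_lit 4) (nat_lit 12) (nat_lit 8) L29267 (by decide +kernel)
theorem L29269 : W_16 (nat_lit 5) (nat_lit 0x40002004000010012800f000b400080000000000000000000) (nat_lit 0x0) (nat_lit 0x10000800000010000f00018000000000000000) := T_16 (nat_lit 80) (nat_lit 63) (nat_lit 7) (nat_lit 12) (nat_lit 3) L29268 (by decide +kernel)
theorem L29270 : W_16 (nat_lit 6) (nat_lit 0x40002004000010012800f000b400000000000000000000000) (nat_lit 0x0) (nat_lit 0x10000800000010000f8001c000000000000000) := T_16 (nat_lit 79) (nat_lit 62) (nat_lit 5) (nat_lit 11) (nat_lit 3) L29269 (by decide +kernel)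
theorem L29271 : W_16 (nat_lit 7) (nat_lit 0x40002004000010012800f0003400000000000000000000000) (nat_lit 0x0) (nat_lit 0x1000080000001c000f8001c000000000000000) := T_16 (nat_lit 99) (nat_lit 98) (nat_lit 2) (nat_lit 10) (nat_lit 6) L29270 (by decide +kernel)
theorem L29272 : W_16 (nat_lit 8) (nat_lit 0x40002000000010012800f0003400000000000000000000000) (nat_lit 0x0) (nat_lit 0x40003000080000001c000f8001c000000000000000) := T_16 (nat_lit 166) (nat_lit 149) (nat_lit 4) (nat_lit 13) (nat_lit 9) L29271 (by decide +kernel)
theorem L29273 : W_16 (nat_lit 9) (nat_lit 0x40002000000010012800f0003000000000000000000000000) (nat_lit 0x0) (nat_lit 0x40003000080000001cc00f8001c000000000000000) := T_16 (nat_lit 94) (nat_lit 95) (nat_lit 3) (nat_lit 9) (nat_lit 5) L29272 (by decide +kernel)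
theorem L29274 : W_16 (nat_lit 10) (nat_lit 0x40002000000010002800f0003000000000000000000000000) (nat_lit 0x0) (nat_lit 0x40003000380000001cc00f8001c000000000000000) := T_16 (nat_lit 132) (nat_lit 133) (nat_lit 3) (nat_lit 10) (nat_lit 6) L29273 (by decide +kernel)
theorem L29275 : W_16 (nat_lit 2) (nat_lit 0x40002000000010012800f0007000000004000000000000000) (nat_lit 0x0) (nat_lit 0x400020000000000000000100000000000000000000) := D_16 (nat_lit 149) (nat_lit 80) (nat_lit 166) (nat_lit 4) (nat_lit 13) (nat_lit 8) (nat_lit 4) (nat_lit 13) (nat_lit 9) (by decide +kernel)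
theorem L29276 : W_16 (nat_lit 3) (nat_lit 0x40002000000010002800f0007000000004000000000000000) (nat_lit 0x0) (nat_lit 0x400020003000000000000100000000000000000000) := T_16 (nat_lit 132) (nat_lit 133) (nat_lit 3) (nat_lit 10) (nat_lit 6) L29275 (by decide +kernel)
theorem L29277 : W_16 (nat_lit 4) (nat_lit 0x40002000000010002800f0003000000004000000000000000) (nat_lit 0x0) (nat_lit 0x40002000300000000c000100000000000000000000) := T_16 (nat_lit 98) (nat_lit 99) (nat_lit 2) (nat_lit 10) (nat_lit 6) L29276 (by decide +kernel)
theorem L29278 : W_16 (nat_lit 5) (nat_lit 0x40002000000010002800f0003000000000000000000000000) (nat_lit 0x0) (nat_lit 0x40002000300000000c000180004000000000000000) := T_16 (nat_lit 62) (nat_lit 79) (nat_lit 5) (nat_lit 11) (nat_lit 3) L29277 (by decide +kernel)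
theorem L29279 : W_16 (nat_lit 2) (nat_lit 0x40002004000010012800f0007800200008000000000000000) (nat_lit 0x0) (nat_lit 0x10000c00000000000) := D_16 (nat_lit 64) (nat_lit 46) (nat_lit 47) (nat_lit 4) (nat_lit 13) (nat_lit 6) (nat_lit 5) (nat_lit 13) (nat_lit 2) (by decide +kernel)
theorem L29280 : W_16 (nat_lit 3) (nat_lit 0x40002004000010012800f0007800000008000000000000000) (nat_lit 0x0) (nat_lit 0x600010000c00000000000) := T_16 (nat_lit 81) (nat_lit 82) (nat_lit 2) (nat_lit 10) (nat_lit 5) L29279 (by decide +kernel)
theorem L29281 : W_16 (nat_lit 4) (nat_lit 0x40002004000010012800f0003800000008000000000000000) (nat_lit 0x0) (nat_lit 0xc000600010000c00000000000) := T_16 (nat_lit 98) (nat_lit 99) (nat_lit 2) (nat_lit 10) (nat_lit 6) L29280 (by decide +kernel)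
theorem L29282 : W_16 (nat_lit 5) (nat_lit 0x40002000000010012800f0003800000008000000000000000) (nat_lit 0x0) (nat_lit 0x40002000000000000c000600010000c00000000000) := T_16 (nat_lit 166) (nat_lit 149) (nat_lit 4) (nat_lit 13) (nat_lit 9) L29281 (by decide +kernel)
theorem L29283 : W_16 (nat_lit 6) (nat_lit 0x40002000000010012800f0003800000000000000000000000) (nat_lit 0x0) (nat_lit 0x40002000000000000c000700018000c00000000000) := T_16 (nat_lit 63) (nat_lit 80) (nat_lit 7) (nat_lit 12) (nat_lit 3) L29282 (by decide +kernel)
theorem L29284 : W_16 (nat_lit 7) (nat_lit 0x40002000000010012800f0003000000000000000000000000) (nat_lit 0x0) (nat_lit 0x40002000000000000cc00700018000c00000000000) := T_16 (nat_lit 95) (nat_lit 94) (nat_lit 3) (nat_lit 9) (nat_lit 5) L29283 (by decide +kernel)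
theorem L29285 : W_16 (nat_lit 8) (nat_lit 0x40002000000010002800f0003000000000000000000000000) (nat_lit 0x0) (nat_lit 0x40002000300000000cc00700018000c00000000000) := T_16 (nat_lit 132) (nat_lit 133) (nat_lit 3) (nat_lit 10) (nat_lit 6) L29284 (by decide +kernel)
theorem L29286 : W_16 (nat_lit 2) (nat_lit 0x40002000000010002800f0007800040000000000000000000) (nat_lit 0x0) (nat_lit 0x8000400000000000000002000000000000000) := D_16 (nat_lit 130) (nat_lit 147) (nat_lit 61) (nat_lit 7) (nat_lit 10) (nat_lit 4) (nat_lit 7) (nat_lit 10) (nat_lit 3) (by decide +kernel)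
theorem L29287 : W_16 (nat_lit 3) (nat_lit 0x40002000000010002800f0007800000000000000000000000) (nat_lit 0x0) (nat_lit 0x8000400000000000060002000000000000000) := T_16 (nat_lit 78) (nat_lit 77) (nat_lit 0) (nat_lit 13) (nat_lit 5) L29286 (by decide +kernel)
theorem L29288 : W_16 (nat_lit 4) (nat_lit 0x40002000000010002800f0007000000000000000000000000) (nat_lit 0x0) (nat_lit 0x8000400000000c00060002000000000000000) := T_16 (nat_lit 95) (nat_lit 94) (nat_lit 3) (nat_lit 9) (nat_lit 5) L29287 (by decide +kernel)
theorem L29289 : W_16 (nat_lit 5) (nat_lit 0x40002000000010002800f0003000000000000000000000000) (nat_lit 0x0) (nat_lit 0x800040000000cc00060002000000000000000) := T_16 (nat_lit 98) (nat_lit 99) (nat_lit 2) (nat_lit 10) (nat_lit 6) L29288 (by decide +kernel)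
theorem L29290 : W_16 (nat_lit 2) (nat_lit 0x40002000000210012800f0003400000004000000000000000) (nat_lit 0x0) (nat_lit 0x800000000000100008000000000000000) := D_16 (nat_lit 80) (nat_lit 63) (nat_lit 131) (nat_lit 7) (nat_lit 12) (nat_lit 3) (nat_lit 7) (nat_lit 12) (nat_lit 4) (by decide +kernel)
theorem L29291 : W_16 (nat_lit 3) (nat_lit 0x40002000000010012800f0003400000004000000000000000) (nat_lit 0x0) (nat_lit 0x400020000800000000000100008000000000000000) := T_16 (nat_lit 149) (nat_lit 166) (nat_lit 4) (nat_lit 13) (nat_lit 9) L29290 (by decide +kernel)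
theorem L29292 : W_16 (nat_lit 4) (nat_lit 0x40002000000010012800f0003000000004000000000000000) (nat_lit 0x0) (nat_lit 0x400020000800000000c00100008000000000000000) := T_16 (nat_lit 94) (nat_lit 95) (nat_lit 3) (nat_lit 9) (nat_lit 5) L29291 (by decide +kernel)
theorem L29293 : W_16 (nat_lit 5) (nat_lit 0x40002000000010002800f0003000000004000000000000000) (nat_lit 0x0) (nat_lit 0x400020003800000000c00100008000000000000000) := T_16 (nat_lit 132) (nat_lit 133) (nat_lit 3) (nat_lit 10) (nat_lit 6) L29292 (by decide +kernel)
theorem L29294 : W_16 (nat_lit 6) (nat_lit 0x40002000000010002800f0003000000000000000000000000) (nat_lit 0x0) (nat_lit 0x400020003800000000c0018000c000000000000000) := T_16 (nat_lit 62) (nat_lit 79) (nat_lit 5) (nat_lit 11) (nat_lit 3) L29293 (by decide +kernel)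
theorem L29295 : W_16 (nat_lit 11) (nat_lit 0x40002000000010002800f0001000000000000000000000000) (nat_lit 0x0) (nat_lit 0x400038003c0000001ec00fe001e000c00000000000) := Q_16 (nat_lit 97) (C_16 L29274 (C_16 L29278 (C_16 L29285 (C_16 L29289 (C_16 L29294 N_16))))) (by decide +kernel)
theorem L29296 : W_16 (nat_lit 7) (nat_lit 0x40002000000010002800f0001000000000000000000000000) (nat_lit 0x0) (nat_lit 0x400028003c0000000ec001e000e000000000000000) := Q_16 (nat_lit 97) (C_16 L29294 (C_16 L29278 (C_16 L29289 N_16))) (by decide +kernel)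
theorem L29297 : W_16 (nat_lit 2) (nat_lit 0x40002004200010016800f00034001c0000000000000000000) (nat_lit 0x0) (nat_lit 0x200030000000000000000000) := D_16 (nat_lit 77) (nat_lit 76) (nat_lit 93) (nat_lit 3) (nat_lit 8) (nat_lit 4) (nat_lit 1) (nat_lit 12) (nat_lit 4) (by decide +kernel)
theorem L29298 : W_16 (nat_lit 3) (nat_lit 0x40002004200010016800f0003400180000000000000000000) (nat_lit 0x0) (nat_lit 0x200070002000000000000000) := T_16 (nat_lit 78) (nat_lit 61) (nat_lit 4) (nat_lit 11) (nat_lit 7) L29297 (by decide +kernel)
theorem L29299 : W_16 (nat_lit 4) (nat_lit 0x40002004200010012800f0003400180000000000000000000) (nat_lit 0x0) (nat_lit 0x8000400000000200070002000000000000000) := T_16 (nat_lit 130) (nat_lit 147) (nat_lit 6) (nat_lit 11) (nat_lit 8) L29298 (by decide +kernel)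
theorem L29300 : W_16 (nat_lit 5) (nat_lit 0x40002000200010012800f0003400180000000000000000000) (nat_lit 0x0) (nat_lit 0x400028000400000000200070002000000000000000) := T_16 (nat_lit 166) (nat_lit 149) (nat_lit 4) (nat_lit 13) (nat_lit 9) L29299 (by decide +kernel)
theorem L29301 : W_16 (nat_lit 6) (nat_lit 0x40002000200010012800f0003400100000000000000000000) (nat_lit 0x0) (nat_lit 0x4000280004000000002000f0006000000000000000) := T_16 (nat_lit 79) (nat_lit 62) (nat_lit 5) (nat_lit 11) (nat_lit 3) L29300 (by decide +kernel)
theorem L29302 : W_16 (nat_lit 7) (nat_lit 0x40002000200010012800f0003000100000000000000000000) (nat_lit 0x0) (nat_lit 0x400028000400000000e000f0006000000000000000) := T_16 (nat_lit 94) (nat_lit 95) (nat_lit 3) (nat_lit 9) (nat_lit 5) L29301 (by decide +kernel)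
theorem L29303 : W_16 (nat_lit 8) (nat_lit 0x40002000200010012800f0003000000000000000000000000) (nat_lit 0x0) (nat_lit 0x400028000400000000e001f000e000000000000000) := T_16 (nat_lit 80) (nat_lit 63) (nat_lit 7) (nat_lit 12) (nat_lit 3) L29302 (by decide +kernel)
theorem L29304 : W_16 (nat_lit 9) (nat_lit 0x40002000000010012800f0003000000000000000000000000) (nat_lit 0x0) (nat_lit 0x400420028000400000000e001f000e000000000000000) := T_16 (nat_lit 161) (nat_lit 178) (nat_lit 5) (nat_lit 8) (nat_lit 7) L29303 (by decide +kernel)
theorem L29305 : W_16 (nat_lit 10) (nat_lit 0x40002000000010002800f0003000000000000000000000000) (nat_lit 0x0) (nat_lit 0x400420028003400000000e001f000e000000000000000) := T_16 (nat_lit 132) (nat_lit 133) (nat_lit 3) (nat_lit 10) (nat_lit 6) L29304 (by decide +kernel)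
theorem L29306 : W_16 (nat_lit 11) (nat_lit 0x40002000000010002800f0001000000000000000000000000) (nat_lit 0x0) (nat_lit 0x40042002800340000000ee007f001e000c00000000000) := Q_16 (nat_lit 97) (C_16 L29289 (C_16 L29285 (C_16 L29278 (C_16 L29305 N_16)))) (by decide +kernel)
theorem L29307 : W_16 (nat_lit 2) (nat_lit 0x40002000200010012800f0007000000000000000000000000) (nat_lit 0x0) (nat_lit 0x400020000000000000000100000000000000000000) := D_16 (nat_lit 149) (nat_lit 80) (nat_lit 166) (nat_lit 4) (nat_lit 13) (nat_lit 8) (nat_lit 4) (nat_lit 13) (nat_lit 9) (by decide +kernel)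
theorem L29308 : W_16 (nat_lit 3) (nat_lit 0x40002000200010002800f0007000000000000000000000000) (nat_lit 0x0) (nat_lit 0x400020003000000000000100000000000000000000) := T_16 (nat_lit 132) (nat_lit 133) (nat_lit 3) (nat_lit 10) (nat_lit 6) L29307 (by decide +kernel)
theorem L29309 : W_16 (nat_lit 4) (nat_lit 0x40002000000010002800f0007000000000000000000000000) (nat_lit 0x0) (nat_lit 0x400420020003000000000000100000000000000000000) := T_16 (nat_lit 161) (nat_lit 178) (nat_lit 5) (nat_lit 8) (nat_lit 7) L29308 (by decide +kernel)
theorem L29310 : W_16 (nat_lit 5) (nat_lit 0x40002000000010002800f0003000000000000000000000000) (nat_lit 0x0) (nat_lit 0x40042002000300000000c000100000000000000000000) := T_16 (nat_lit 98) (nat_lit 99) (nat_lit 2) (nat_lit 10) (nat_lit 6) L29309 (by decide +kernel)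
theorem L29311 : W_16 (nat_lit 2) (nat_lit 0x40002000000010012800f0003800100000000000000000000) (nat_lit 0x0) (nat_lit 0x400020000800000000000000000000000000000000) := D_16 (nat_lit 149) (nat_lit 166) (nat_lit 131) (nat_lit 4) (nat_lit 13) (nat_lit 9) (nat_lit 7) (nat_lit 12) (nat_lit 4) (by decide +kernel)
theorem L29312 : W_16 (nat_lit 3) (nat_lit 0x40002000000010012800f0003800000000000000000000000) (nat_lit 0x0) (nat_lit 0x400020000800000000000100008000000000000000) := T_16 (nat_lit 80) (nat_lit 63) (nat_lit 7) (nat_lit 12) (nat_lit 3) L29311 (by decide +kernel)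
theorem L29313 : W_16 (nat_lit 4) (nat_lit 0x40002000000010012800f0003000000000000000000000000) (nat_lit 0x0) (nat_lit 0x400020000800000000c00100008000000000000000) := T_16 (nat_lit 95) (nat_lit 94) (nat_lit 3) (nat_lit 9) (nat_lit 5) L29312 (by decide +kernel)
theorem L29314 : W_16 (nat_lit 5) (nat_lit 0x40002000000010002800f0003000000000000000000000000) (nat_lit 0x0) (nat_lit 0x400020003800000000c00100008000000000000000) := T_16 (nat_lit 132) (nat_lit 133) (nat_lit 3) (nat_lit 10) (nat_lit 6) L29313 (by decide +kernel)
theorem L29315 : W_16 (nat_lit 9) (nat_lit 0x40002000000010002800f0001000000000000000000000000) (nat_lit 0x0) (nat_lit 0x400420028003c0000000ec0076001a000c00000000000) := Q_16 (nat_lit 97) (C_16 L29289 (C_16 L29285 (C_16 L29310 (C_16 L29314 N_16)))) (by decide +kernel)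
theorem L29316 : W_16 (nat_lit 2) (nat_lit 0x4000200020001000a800f0007800240004000000000000000) (nat_lit 0x0) (nat_lit 0x8000400000000000000002000000000000000) := D_16 (nat_lit 130) (nat_lit 147) (nat_lit 61) (nat_lit 7) (nat_lit 10) (nat_lit 4) (nat_lit 7) (nat_lit 10) (nat_lit 3) (by decide +kernel)
theorem L29317 : W_16 (nat_lit 3) (nat_lit 0x4000200020001000a800f0007800200004000000000000000) (nat_lit 0x0) (nat_lit 0x8000400000000000060002000000000000000) := T_16 (nat_lit 78) (nat_lit 77) (nat_lit 0) (nat_lit 13) (nat_lit 5) L29316 (by decide +kernel)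
theorem L29318 : W_16 (nat_lit 4) (nat_lit 0x4000200020001000a800f0005800200004000000000000000) (nat_lit 0x0) (nat_lit 0x8000400000002000460002000000000000000) := T_16 (nat_lit 97) (nat_lit 82) (nat_lit 2) (nat_lit 10) (nat_lit 5) L29317 (by decide +kernel)
theorem L29319 : W_16 (nat_lit 5) (nat_lit 0x4000200000001000a800f0005800200004000000000000000) (nat_lit 0x0) (nat_lit 0x400020008000400000002000460002000000000000000) := T_16 (nat_lit 161) (nat_lit 178) (nat_lit 5) (nat_lit 8) (nat_lit 7) L29318 (by decide +kernel)
theorem L29320 : W_16 (nat_lit 6) (nat_lit 0x4000200000001000a800f0005800000004000000000000000) (nat_lit 0x0) (nat_lit 0x400020008000400000002000660012000000000000000) := T_16 (nat_lit 81) (nat_lit 64) (nat_lit 5) (nat_lit 13) (nat_lit 3) L29319 (by decide +kernel)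
theorem L29321 : W_16 (nat_lit 7) (nat_lit 0x4000200000001000a800f0001800000004000000000000000) (nat_lit 0x0) (nat_lit 0x40002000800040000000e000660012000000000000000) := T_16 (nat_lit 98) (nat_lit 99) (nat_lit 2) (nat_lit 10) (nat_lit 6) L29320 (by decide +kernel)
theorem L29322 : W_16 (nat_lit 8) (nat_lit 0x4000200000001000a800f0001000000004000000000000000) (nat_lit 0x0) (nat_lit 0x40002000800040000000ec00660012000000000000000) := T_16 (nat_lit 95) (nat_lit 94) (nat_lit 0) (nat_lit 13) (nat_lit 6) L29321 (by decide +kernel)
theorem L29323 : W_16 (nat_lit 9) (nat_lit 0x4000200000001000a800f0001000000000000000000000000) (nat_lit 0x0) (nat_lit 0x40002000800040000000ec006e0016000000000000000) := T_16 (nat_lit 62) (nat_lit 79) (nat_lit 7) (nat_lit 11) (nat_lit 3) L29322 (by decide +kernel)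
theorem L29324 : W_16 (nat_lit 2) (nat_lit 0x4000200220001000a800f0007800240000000000000000000) (nat_lit 0x0) (nat_lit 0x8000400000000000000002000000000000000) := D_16 (nat_lit 130) (nat_lit 147) (nat_lit 61) (nat_lit 7) (nat_lit 10) (nat_lit 4) (nat_lit 7) (nat_lit 10) (nat_lit 3) (by decide +kernel)
theorem L29325 : W_16 (nat_lit 3) (nat_lit 0x4000200220001000a800f0007800200000000000000000000) (nat_lit 0x0) (nat_lit 0x8000400000000000060002000000000000000) := T_16 (nat_lit 78) (nat_lit 77) (nat_lit 0) (nat_lit 13) (nat_lit 5) L29324 (by decide +kernel)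
theorem L29326 : W_16 (nat_lit 4) (nat_lit 0x4000200220001000a800f0005800200000000000000000000) (nat_lit 0x0) (nat_lit 0x8000400000002000460002000000000000000) := T_16 (nat_lit 97) (nat_lit 82) (nat_lit 2) (nat_lit 10) (nat_lit 5) L29325 (by decide +kernel)
theorem L29327 : W_16 (nat_lit 5) (nat_lit 0x4000200220001000a800f0005800000000000000000000000) (nat_lit 0x0) (nat_lit 0x8000400000002000660012000000000000000) := T_16 (nat_lit 81) (nat_lit 64) (nat_lit 5) (nat_lit 13) (nat_lit 3) L29326 (by decide +kernel)
theorem L29328 : W_16 (nat_lit 6) (nat_lit 0x4000200220001000a800f0001800000000000000000000000) (nat_lit 0x0) (nat_lit 0x800040000000e000660012000000000000000) := T_16 (nat_lit 98) (nat_lit 99) (nat_lit 2) (nat_lit 10) (nat_lit 6) L29327 (by decide +kernel)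
theorem L29329 : W_16 (nat_lit 7) (nat_lit 0x4000200220001000a800f0001000000000000000000000000) (nat_lit 0x0) (nat_lit 0x800040000000ec00660012000000000000000) := T_16 (nat_lit 95) (nat_lit 94) (nat_lit 0) (nat_lit 13) (nat_lit 6) L29328 (by decide +kernel)
theorem L29330 : W_16 (nat_lit 8) (nat_lit 0x4000200020001000a800f0001000000000000000000000000) (nat_lit 0x0) (nat_lit 0x20001800040000000ec00660012000000000000000) := T_16 (nat_lit 165) (nat_lit 148) (nat_lit 4) (nat_lit 12) (nat_lit 9) L29329 (by decide +kernel)
theorem L29331 : W_16 (nat_lit 9) (nat_lit 0x4000200000001000a800f0001000000000000000000000000) (nat_lit 0x0) (nat_lit 0x40022001800040000000ec00660012000000000000000) := T_16 (nat_lit 161) (nat_lit 178) (nat_lit 5) (nat_lit 8) (nat_lit 7) L29330 (by decide +kernel)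
theorem L29332 : W_16 (nat_lit 2) (nat_lit 0x4000200000001000a800f0005000080000000000000000000) (nat_lit 0x0) (nat_lit 0x200010000400000000000000000000000000000000) := D_16 (nat_lit 148) (nat_lit 165) (nat_lit 130) (nat_lit 6) (nat_lit 12) (nat_lit 9) (nat_lit 7) (nat_lit 11) (nat_lit 4) (by decide +kernel)
theorem L29333 : W_16 (nat_lit 3) (nat_lit 0x4000200000001000a800f0005000000000000000000000000) (nat_lit 0x0) (nat_lit 0x200010000400000000000080004000000000000000) := T_16 (nat_lit 79) (nat_lit 62) (nat_lit 7) (nat_lit 11) (nat_lit 3) L29332 (by decide +kernel)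
theorem L29334 : W_16 (nat_lit 4) (nat_lit 0x4000200000001000a800f0001000000000000000000000000) (nat_lit 0x0) (nat_lit 0x20001000040000000c000080004000000000000000) := T_16 (nat_lit 98) (nat_lit 99) (nat_lit 2) (nat_lit 10) (nat_lit 6) L29333 (by decide +kernel)
theorem L29335 : W_16 (nat_lit 10) (nat_lit 0x40002000000010002800f0001000000000000000000000000) (nat_lit 0x0) (nat_lit 0x400220018000c0000000ec006e0016000000000000000) := Q_16 (nat_lit 131) (C_16 L29264 (C_16 L29323 (C_16 L29331 (C_16 L29334 N_16)))) (by decide +kernel)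
theorem L29336 : W_16 (nat_lit 2) (nat_lit 0x4000200020001001a800f0005800280000000000000000000) (nat_lit 0x0) (nat_lit 0x500008000000000000000) := D_16 (nat_lit 80) (nat_lit 63) (nat_lit 82) (nat_lit 4) (nat_lit 13) (nat_lit 7) (nat_lit 1) (nat_lit 14) (nat_lit 4) (by decide +kernel)
theorem L29337 : W_16 (nat_lit 3) (nat_lit 0x4000200020001001a800f0005800080000000000000000000) (nat_lit 0x0) (nat_lit 0x700018000000000000000) := T_16 (nat_lit 81) (nat_lit 64) (nat_lit 5) (nat_lit 13) (nat_lit 3) L29336 (by decide +kernel)
theorem L29338 : W_16 (nat_lit 4) (nat_lit 0x4000200020001001a800f0005000080000000000000000000) (nat_lit 0x0) (nat_lit 0xc00700018000000000000000) := T_16 (nat_lit 95) (nat_lit 94) (nat_lit 0) (nat_lit 13) (nat_lit 6) L29337 (by decide +kernel)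
theorem L29339 : W_16 (nat_lit 5) (nat_lit 0x4000200000001001a800f0005000080000000000000000000) (nat_lit 0x0) (nat_lit 0x400020000000000000000c00700018000000000000000) := T_16 (nat_lit 161) (nat_lit 178) (nat_lit 5) (nat_lit 8) (nat_lit 7) L29338 (by decide +kernel)
theorem L29340 : W_16 (nat_lit 6) (nat_lit 0x4000200000001000a800f0005000080000000000000000000) (nat_lit 0x0) (nat_lit 0x400020000003000000000c00700018000000000000000) := T_16 (nat_lit 132) (nat_lit 133) (nat_lit 3) (nat_lit 10) (nat_lit 6) L29339 (by decide +kernel)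
theorem L29341 : W_16 (nat_lit 7) (nat_lit 0x4000200000001000a800f0005000000000000000000000000) (nat_lit 0x0) (nat_lit 0x400020000003000000000c0078001c000000000000000) := T_16 (nat_lit 79) (nat_lit 62) (nat_lit 7) (nat_lit 11) (nat_lit 3) L29340 (by decide +kernel)
theorem L29342 : W_16 (nat_lit 8) (nat_lit 0x4000200000001000a800f0001000000000000000000000000) (nat_lit 0x0) (nat_lit 0x40002000000300000000cc0078001c000000000000000) := T_16 (nat_lit 98) (nat_lit 99) (nat_lit 2) (nat_lit 10) (nat_lit 6) L29341 (by decide +kernel)
theorem L29343 : W_16 (nat_lit 2) (nat_lit 0x4000200000011000a800f0001000000000000000000000000) (nat_lit 0x0) (nat_lit 0x400000000000080004000000000000000) := D_16 (nat_lit 79) (nat_lit 62) (nat_lit 130) (nat_lit 7) (nat_lit 11) (nat_lit 3) (nat_lit 7) (nat_lit 11) (nat_lit 4) (by decide +kernel)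
theorem L29344 : W_16 (nat_lit 3) (nat_lit 0x4000200000001000a800f0001000000000000000000000000) (nat_lit 0x0) (nat_lit 0x200010000400000000000080004000000000000000) := T_16 (nat_lit 148) (nat_lit 165) (nat_lit 4) (nat_lit 12) (nat_lit 9) L29343 (by decide +kernel)
theorem L29345 : W_16 (nat_lit 9) (nat_lit 0x40002000000010002800f0001000000000000000000000000) (nat_lit 0x0) (nat_lit 0x400220010003c0000000cc0078001c000000000000000) := Q_16 (nat_lit 131) (C_16 L29334 (C_16 L29259 (C_16 L29342 (C_16 L29344 N_16)))) (by decide +kernel)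
theorem L29346 : W_16 (nat_lit 2) (nat_lit 0x40002000200010006800f0001800000000000000000000000) (nat_lit 0x0) (nat_lit 0x8000000000000000040002000000000000000) := D_16 (nat_lit 78) (nat_lit 147) (nat_lit 61) (nat_lit 7) (nat_lit 10) (nat_lit 4) (nat_lit 7) (nat_lit 10) (nat_lit 3) (by decide +kernel)
theorem L29347 : W_16 (nat_lit 3) (nat_lit 0x40002000200010006800f0001000000000000000000000000) (nat_lit 0x0) (nat_lit 0x8000000000000c00040002000000000000000) := T_16 (nat_lit 95) (nat_lit 94) (nat_lit 0) (nat_lit 13) (nat_lit 6) L29346 (by decide +kernel)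
theorem L29348 : W_16 (nat_lit 4) (nat_lit 0x40002000000010006800f0001000000000000000000000000) (nat_lit 0x0) (nat_lit 0x400020008000000000000c00040002000000000000000) := T_16 (nat_lit 161) (nat_lit 178) (nat_lit 5) (nat_lit 8) (nat_lit 7) L29347 (by decide +kernel)
theorem L29349 : W_16 (nat_lit 2) (nat_lit 0x40002000000010006800f0001800000004000000000000000) (nat_lit 0x0) (nat_lit 0x8000000000000000040002000000000000000) := D_16 (nat_lit 78) (nat_lit 147) (nat_lit 61) (nat_lit 7) (nat_lit 10) (nat_lit 4) (nat_lit 7) (nat_lit 10) (nat_lit 3) (by decide +kernel)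
theorem L29350 : W_16 (nat_lit 3) (nat_lit 0x40002000000010006800f0001000000004000000000000000) (nat_lit 0x0) (nat_lit 0x8000000000000c00040002000000000000000) := T_16 (nat_lit 95) (nat_lit 94) (nat_lit 0) (nat_lit 13) (nat_lit 6) L29349 (by decide +kernel)
theorem L29351 : W_16 (nat_lit 4) (nat_lit 0x40002000000010006800f0001000000000000000000000000) (nat_lit 0x0) (nat_lit 0x8000000000000c000c0006000000000000000) := T_16 (nat_lit 62) (nat_lit 79) (nat_lit 5) (nat_lit 11) (nat_lit 3) L29350 (by decide +kernel)
theorem L29352 : W_16 (nat_lit 2) (nat_lit 0x4000200020021001e800f0001800080000000000000000000) (nat_lit 0x0) (nat_lit 0x2000100008000000000000000) := D_16 (nat_lit 80) (nat_lit 63) (nat_lit 97) (nat_lit 6) (nat_lit 11) (nat_lit 7) (nat_lit 7) (nat_lit 12) (nat_lit 4) (by decide +kernel)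
theorem L29353 : W_16 (nat_lit 3) (nat_lit 0x4000200020001001e800f0001800080000000000000000000) (nat_lit 0x0) (nat_lit 0x60000000000002000100008000000000000000) := T_16 (nat_lit 149) (nat_lit 150) (nat_lit 3) (nat_lit 10) (nat_lit 7) L29352 (by decide +kernel)
theorem L29354 : W_16 (nat_lit 4) (nat_lit 0x40002000200010016800f0001800080000000000000000000) (nat_lit 0x0) (nat_lit 0x70000800000002000100008000000000000000) := T_16 (nat_lit 131) (nat_lit 148) (nat_lit 7) (nat_lit 11) (nat_lit 4) L29353 (by decide +kernel)
theorem L29355 : W_16 (nat_lit 5) (nat_lit 0x40002000200010016800f0001000080000000000000000000) (nat_lit 0x0) (nat_lit 0x70000800000002c00100008000000000000000) := T_16 (nat_lit 95) (nat_lit 94) (nat_lit 0) (nat_lit 13) (nat_lit 6) L29354 (by decide +kernel)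
theorem L29356 : W_16 (nat_lit 6) (nat_lit 0x40002000200010016800f0001000000000000000000000000) (nat_lit 0x0) (nat_lit 0x70000800000002c0018000c000000000000000) := T_16 (nat_lit 79) (nat_lit 62) (nat_lit 5) (nat_lit 11) (nat_lit 3) L29355 (by decide +kernel)
theorem L29357 : W_16 (nat_lit 7) (nat_lit 0x40002000000010016800f0001000000000000000000000000) (nat_lit 0x0) (nat_lit 0x400020070000800000002c0018000c000000000000000) := T_16 (nat_lit 161) (nat_lit 178) (nat_lit 5) (nat_lit 8) (nat_lit 7) L29356 (by decide +kernel)
theorem L29358 : W_16 (nat_lit 8) (nat_lit 0x40002000000010006800f0001000000000000000000000000) (nat_lit 0x0) (nat_lit 0x400020070003800000002c0018000c000000000000000) := T_16 (nat_lit 132) (nat_lit 133) (nat_lit 3) (nat_lit 10) (nat_lit 6) L29357 (by decide +kernel)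
theorem L29359 : W_16 (nat_lit 2) (nat_lit 0x4000200020021001e800f00010000c0000000000000000000) (nat_lit 0x0) (nat_lit 0x2000100008000000000000000) := D_16 (nat_lit 80) (nat_lit 63) (nat_lit 97) (nat_lit 6) (nat_lit 11) (nat_lit 7) (nat_lit 7) (nat_lit 12) (nat_lit 4) (by decide +kernel)
theorem L29360 : W_16 (nat_lit 3) (nat_lit 0x4000200020001001e800f00010000c0000000000000000000) (nat_lit 0x0) (nat_lit 0x60000000000002000100008000000000000000) := T_16 (nat_lit 149) (nat_lit 150) (nat_lit 3) (nat_lit 10) (nat_lit 7) L29359 (by decide +kernel)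
theorem L29361 : W_16 (nat_lit 4) (nat_lit 0x40002000200010016800f00010000c0000000000000000000) (nat_lit 0x0) (nat_lit 0x70000800000002000100008000000000000000) := T_16 (nat_lit 131) (nat_lit 148) (nat_lit 7) (nat_lit 11) (nat_lit 4) L29360 (by decide +kernel)
theorem L29362 : W_16 (nat_lit 5) (nat_lit 0x40002000200010016800f0001000080000000000000000000) (nat_lit 0x0) (nat_lit 0x7000080000000200014000a000000000000000) := T_16 (nat_lit 78) (nat_lit 61) (nat_lit 4) (nat_lit 11) (nat_lit 7) L29361 (by decide +kernel)
theorem L29363 : W_16 (nat_lit 6) (nat_lit 0x40002000200010016800f0001000000000000000000000000) (nat_lit 0x0) (nat_lit 0x700008000000020001c000e000000000000000) := T_16 (nat_lit 79) (nat_lit 62) (nat_lit 5) (nat_lit 11) (nat_lit 3) L29362 (by decide +kernel)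
theorem L29364 : W_16 (nat_lit 7) (nat_lit 0x40002000000010016800f0001000000000000000000000000) (nat_lit 0x0) (nat_lit 0x4000200700008000000020001c000e000000000000000) := T_16 (nat_lit 161) (nat_lit 178) (nat_lit 5) (nat_lit 8) (nat_lit 7) L29363 (by decide +kernel)
theorem L29365 : W_16 (nat_lit 8) (nat_lit 0x40002000000010006800f0001000000000000000000000000) (nat_lit 0x0) (nat_lit 0x4000200700038000000020001c000e000000000000000) := T_16 (nat_lit 132) (nat_lit 133) (nat_lit 3) (nat_lit 10) (nat_lit 6) L29364 (by decide +kernel)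
theorem L29366 : W_16 (nat_lit 9) (nat_lit 0x40002000000010002800f0001000000000000000000000000) (nat_lit 0x0) (nat_lit 0x400020078003c00000002c001c000e000000000000000) := Q_16 (nat_lit 130) (C_16 L29348 (C_16 L29351 (C_16 L29358 (C_16 L29365 N_16)))) (by decide +kernel)
theorem L29367 : W_16 (nat_lit 12) (nat_lit 0x40002000000010002800f0000000000000000000000000000) (nat_lit 0x0) (nat_lit 0x400620078003c0000001fe00ff003e000c00000000000) := Q_16 (nat_lit 96) (C_16 L29265 (C_16 L29295 (C_16 L29296 (C_16 L29306 (C_16 L29315 (C_16 L29335 (C_16 L29345 (C_16 L29366 N_16)))))))) (by decide +kernel)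
theorem L29368 : W_16 (nat_lit 13) (nat_lit 0x4000200000001000280070000000000000000000000000000) (nat_lit 0x0) (nat_lit 0x400620078007c0018001fe00ff003e000c00000000000) := Q_16 (nat_lit 115) (C_16 L29229 (C_16 L29224 (C_16 L29234 (C_16 L29367 N_16)))) (by decide +kernel)
theorem L29369 : W_16 (nat_lit 2) (nat_lit 0x40002000000010012800f8000000000000000000000000000) (nat_lit 0x0) (nat_lit 0xe000000000000000000000000) := D_16 (nat_lit 98) (nat_lit 97) (nat_lit 99) (nat_lit 2) (nat_lit 9) (nat_lit 6) (nat_lit 2) (nat_lit 10) (nat_lit 6) (by decide +kernel)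
theorem L29370 : W_16 (nat_lit 3) (nat_lit 0x40002000000010012800f0000000000000000000000000000) (nat_lit 0x0) (nat_lit 0x80000800e000000000000000000000000) := T_16 (nat_lit 111) (nat_lit 131) (nat_lit 3) (nat_lit 9) (nat_lit 6) L29369 (by decide +kernel)
theorem L29371 : W_16 (nat_lit 4) (nat_lit 0x40002000000010002800f0000000000000000000000000000) (nat_lit 0x0) (nat_lit 0x380000800e000000000000000000000000) := T_16 (nat_lit 132) (nat_lit 133) (nat_lit 3) (nat_lit 10) (nat_lit 6) L29370 (by decide +kernel)
theorem L29372 : W_16 (nat_lit 5) (nat_lit 0x4000200000001000280070000000000000000000000000000) (nat_lit 0x0) (nat_lit 0x3c0018800fc00000000000000000000000) := Q_16 (nat_lit 115) (C_16 L29371 (C_16 L29224 N_16)) (by decide +kernel)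
theorem L29373 : W_16 (nat_lit 2) (nat_lit 0x40002000200010002800f8004000000000000000000000000) (nat_lit 0x0) (nat_lit 0xe00000000000000000000000) := D_16 (nat_lit 94) (nat_lit 93) (nat_lit 95) (nat_lit 0) (nat_lit 12) (nat_lit 6) (nat_lit 0) (nat_lit 13) (nat_lit 6) (by decide +kernel)
theorem L29374 : W_16 (nat_lit 3) (nat_lit 0x40002000200010002800f0004000000000000000000000000) (nat_lit 0x0) (nat_lit 0x8002e00000000000000000000000) := T_16 (nat_lit 111) (nat_lit 97) (nat_lit 2) (nat_lit 9) (nat_lit 6) L29373 (by decide +kernel)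
theorem L29375 : W_16 (nat_lit 4) (nat_lit 0x40002000200010002800f0000000000000000000000000000) (nat_lit 0x0) (nat_lit 0x800ee00000000000000000000000) := T_16 (nat_lit 98) (nat_lit 99) (nat_lit 2) (nat_lit 10) (nat_lit 6) L29374 (by decide +kernel)
theorem L29376 : W_16 (nat_lit 5) (nat_lit 0x40002000000010002800f0000000000000000000000000000) (nat_lit 0x0) (nat_lit 0x40002000000000000800ee00000000000000000000000) := T_16 (nat_lit 161) (nat_lit 178) (nat_lit 5) (nat_lit 8) (nat_lit 7) L29375 (by decide +kernel)
theorem L29377 : W_16 (nat_lit 2) (nat_lit 0x40002000200010002801f0000800000000000000000000000) (nat_lit 0x0) (nat_lit 0x7000000000000000000000000000000000) := D_16 (nat_lit 133) (nat_lit 132) (nat_lit 134) (nat_lit 3) (nat_lit 10) (nat_lit 6) (nat_lit 3) (nat_lit 11) (nat_lit 6) (by decide +kernel)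
theorem L29378 : W_16 (nat_lit 3) (nat_lit 0x40002000200010002800f0000800000000000000000000000) (nat_lit 0x0) (nat_lit 0x7000100001000000000000000000000000) := T_16 (nat_lit 116) (nat_lit 96) (nat_lit 0) (nat_lit 14) (nat_lit 6) L29377 (by decide +kernel)
theorem L29379 : W_16 (nat_lit 4) (nat_lit 0x40002000000010002800f0000800000000000000000000000) (nat_lit 0x0) (nat_lit 0x400020000007000100001000000000000000000000000) := T_16 (nat_lit 161) (nat_lit 178) (nat_lit 5) (nat_lit 8) (nat_lit 7) L29378 (by decide +kernel)
theorem L29380 : W_16 (nat_lit 5) (nat_lit 0x40002000000010002800f0000000000000000000000000000) (nat_lit 0x0) (nat_lit 0x400020000007000100001c00000000000000000000000) := T_16 (nat_lit 95) (nat_lit 94) (nat_lit 0) (nat_lit 13) (nat_lit 6) L29379 (by decide +kernel)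
theorem L29381 : W_16 (nat_lit 7) (nat_lit 0x4000200000001000280070000000000000000000000000000) (nat_lit 0x0) (nat_lit 0x40002000000780018800fe00000000000000000000000) := Q_16 (nat_lit 115) (C_16 L29371 (C_16 L29234 (C_16 L29376 (C_16 L29380 N_16)))) (by decide +kernel)
theorem L29382 : W_16 (nat_lit 2) (nat_lit 0x40002000200010002801f0006000000000000000000000000) (nat_lit 0x0) (nat_lit 0x600001000000000000000000000000) := D_16 (nat_lit 117) (nat_lit 118) (nat_lit 96) (nat_lit 0) (nat_lit 16) (nat_lit 6) (nat_lit 0) (nat_lit 15) (nat_lit 6) (by decide +kernel)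
theorem L29383 : W_16 (nat_lit 3) (nat_lit 0x40002000200010002800f0006000000000000000000000000) (nat_lit 0x0) (nat_lit 0x400700001000000000000000000000000) := T_16 (nat_lit 116) (nat_lit 130) (nat_lit 1) (nat_lit 14) (nat_lit 6) L29382 (by decide +kernel)
theorem L29384 : W_16 (nat_lit 4) (nat_lit 0x40002000200010002800f0004000000000000000000000000) (nat_lit 0x0) (nat_lit 0x400708003000000000000000000000000) := T_16 (nat_lit 97) (nat_lit 111) (nat_lit 2) (nat_lit 9) (nat_lit 6) L29383 (by decide +kernel)
theorem L29385 : W_16 (nat_lit 5) (nat_lit 0x40002000200010002800f0000000000000000000000000000) (nat_lit 0x0) (nat_lit 0x40070800f000000000000000000000000) := T_16 (nat_lit 98) (nat_lit 99) (nat_lit 2) (nat_lit 10) (nat_lit 6) L29384 (by decide +kernel)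
theorem L29386 : W_16 (nat_lit 6) (nat_lit 0x40002000000010002800f0000000000000000000000000000) (nat_lit 0x0) (nat_lit 0x40002000000040070800f000000000000000000000000) := T_16 (nat_lit 161) (nat_lit 178) (nat_lit 5) (nat_lit 8) (nat_lit 7) L29385 (by decide +kernel)
theorem L29387 : W_16 (nat_lit 2) (nat_lit 0x40002000000010002801f0000000000000000000000000000) (nat_lit 0x0) (nat_lit 0x7000000000000000000000000000000000) := D_16 (nat_lit 133) (nat_lit 132) (nat_lit 134) (nat_lit 3) (nat_lit 10) (nat_lit 6) (nat_lit 3) (nat_lit 11) (nat_lit 6) (by decide +kernel)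
theorem L29388 : W_16 (nat_lit 3) (nat_lit 0x40002000000010002800f0000000000000000000000000000) (nat_lit 0x0) (nat_lit 0x7400100000000000000000000000000000) := T_16 (nat_lit 116) (nat_lit 130) (nat_lit 1) (nat_lit 14) (nat_lit 6) L29387 (by decide +kernel)
theorem L29389 : W_16 (nat_lit 7) (nat_lit 0x4000200000001000280070000000000000000000000000000) (nat_lit 0x0) (nat_lit 0x400020000007c0078800f000000000000000000000000) := Q_16 (nat_lit 115) (C_16 L29371 (C_16 L29229 (C_16 L29386 (C_16 L29388 N_16)))) (by decide +kernel)
theorem L29390 : W_16 (nat_lit 7) (nat_lit 0x4000200000001000280070000000000000000000000000000) (nat_lit 0x0) (nat_lit 0x40002000000740078800fe00000000000000000000000) := Q_16 (nat_lit 115) (C_16 L29388 (C_16 L29380 (C_16 L29386 (C_16 L29376 N_16)))) (by decide +kernel)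
theorem L29391 : W_16 (nat_lit 2) (nat_lit 0x4000200020001001a80070000000000000000000000000000) (nat_lit 0x0) (nat_lit 0x6400000000000000000000000000000000) := D_16 (nat_lit 133) (nat_lit 134) (nat_lit 130) (nat_lit 0) (nat_lit 15) (nat_lit 7) (nat_lit 0) (nat_lit 14) (nat_lit 7) (by decide +kernel)
theorem L29392 : W_16 (nat_lit 3) (nat_lit 0x4000200020001000a80070000000000000000000000000000) (nat_lit 0x0) (nat_lit 0x7400008000000000000000000000000000) := T_16 (nat_lit 132) (nat_lit 111) (nat_lit 3) (nat_lit 9) (nat_lit 6) L29391 (by decide +kernel)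
theorem L29393 : W_16 (nat_lit 4) (nat_lit 0x4000200000001000a80070000000000000000000000000000) (nat_lit 0x0) (nat_lit 0x400020000007400008000000000000000000000000000) := T_16 (nat_lit 161) (nat_lit 178) (nat_lit 5) (nat_lit 8) (nat_lit 7) L29392 (by decide +kernel)
theorem L29394 : W_16 (nat_lit 2) (nat_lit 0x4000200000001001a80070000000000000000000000000000) (nat_lit 0x0) (nat_lit 0x6400000000000000000000000000000000) := D_16 (nat_lit 133) (nat_lit 134) (nat_lit 130) (nat_lit 0) (nat_lit 15) (nat_lit 7) (nat_lit 0) (nat_lit 14) (nat_lit 7) (by decide +kernel)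
theorem L29395 : W_16 (nat_lit 3) (nat_lit 0x4000200000001000a80070000000000000000000000000000) (nat_lit 0x0) (nat_lit 0x7400008000000000000000000000000000) := T_16 (nat_lit 132) (nat_lit 111) (nat_lit 3) (nat_lit 9) (nat_lit 6) L29394 (by decide +kernel)
theorem L29396 : W_16 (nat_lit 2) (nat_lit 0x4000200000001000a80070002000000000000000000000000) (nat_lit 0x0) (nat_lit 0x1000008004000000000000000000000000) := D_16 (nat_lit 111) (nat_lit 132) (nat_lit 98) (nat_lit 3) (nat_lit 9) (nat_lit 6) (nat_lit 2) (nat_lit 9) (nat_lit 6) (by decide +kernel)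
theorem L29397 : W_16 (nat_lit 2) (nat_lit 0x4000200000011000a80070002000000000000000000000000) (nat_lit 0x0) (nat_lit 0x200000000000000001000080000000000000000000) := D_16 (nat_lit 96) (nat_lit 79) (nat_lit 165) (nat_lit 4) (nat_lit 12) (nat_lit 8) (nat_lit 4) (nat_lit 12) (nat_lit 9) (by decide +kernel)
theorem L29398 : W_16 (nat_lit 2) (nat_lit 0x4000200020011000a80070006000000000000000000000000) (nat_lit 0x0) (nat_lit 0x19000000000000000000000000) := D_16 (nat_lit 99) (nat_lit 100) (nat_lit 96) (nat_lit 1) (nat_lit 15) (nat_lit 5) (nat_lit 1) (nat_lit 14) (nat_lit 5) (by decide +kernel)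
theorem L29399 : W_16 (nat_lit 3) (nat_lit 0x4000200020011000a80070002000000000000000000000000) (nat_lit 0x0) (nat_lit 0x1d000200000000000000000000) := T_16 (nat_lit 98) (nat_lit 81) (nat_lit 6) (nat_lit 12) (nat_lit 8) L29398 (by decide +kernel)
theorem L29400 : W_16 (nat_lit 4) (nat_lit 0x4000200000011000a80070002000000000000000000000000) (nat_lit 0x0) (nat_lit 0x40002000000000000001d000200000000000000000000) := T_16 (nat_lit 161) (nat_lit 178) (nat_lit 5) (nat_lit 8) (nat_lit 7) L29399 (by decide +kernel)
theorem L29401 : W_16 (nat_lit 2) (nat_lit 0x4000200000039000a80070002000200000000000000000000) (nat_lit 0x0) (nat_lit 0x1000000000000100010000000000000000) := D_16 (nat_lit 80) (nat_lit 132) (nat_lit 64) (nat_lit 7) (nat_lit 12) (nat_lit 4) (nat_lit 6) (nat_lit 12) (nat_lit 7) (by decide +kernel)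
theorem L29402 : W_16 (nat_lit 3) (nat_lit 0x4000200000019000a80070002000200000000000000000000) (nat_lit 0x0) (nat_lit 0x400020001000000000000100010000000000000000) := T_16 (nat_lit 149) (nat_lit 166) (nat_lit 7) (nat_lit 12) (nat_lit 5) L29401 (by decide +kernel)
theorem L29403 : W_16 (nat_lit 4) (nat_lit 0x4000200000019000a80070002000000000000000000000000) (nat_lit 0x0) (nat_lit 0x400020001000000004000300010000000000000000) := T_16 (nat_lit 81) (nat_lit 98) (nat_lit 6) (nat_lit 12) (nat_lit 8) L29402 (by decide +kernel)
theorem L29404 : W_16 (nat_lit 5) (nat_lit 0x4000200000011000a80070002000000000000000000000000) (nat_lit 0x0) (nat_lit 0x500028001000000004000300010000000000000000) := T_16 (nat_lit 147) (nat_lit 164) (nat_lit 5) (nat_lit 12) (nat_lit 5) L29403 (by decide +kernel)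
theorem L29405 : W_16 (nat_lit 6) (nat_lit 0x4000200000001000a80070002000000000000000000000000) (nat_lit 0x0) (nat_lit 0x40072003800100000001d000380010000000000000000) := Q_16 (nat_lit 148) (C_16 L29397 (C_16 L29400 (C_16 L29404 N_16))) (by decide +kernel)
theorem L29406 : W_16 (nat_lit 2) (nat_lit 0x4000200020001000a80070006000000000000000000000000) (nat_lit 0x0) (nat_lit 0x19000000000000000000000000) := D_16 (nat_lit 99) (nat_lit 100) (nat_lit 96) (nat_lit 1) (nat_lit 15) (nat_lit 5) (nat_lit 1) (nat_lit 14) (nat_lit 5) (by decide +kernel)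
theorem L29407 : W_16 (nat_lit 3) (nat_lit 0x4000200020001000a80070002000000000000000000000000) (nat_lit 0x0) (nat_lit 0x801d000000000000000000000000) := T_16 (nat_lit 98) (nat_lit 111) (nat_lit 2) (nat_lit 9) (nat_lit 6) L29406 (by decide +kernel)
theorem L29408 : W_16 (nat_lit 4) (nat_lit 0x4000200000001000a80070002000000000000000000000000) (nat_lit 0x0) (nat_lit 0x40002000000000000801d000000000000000000000000) := T_16 (nat_lit 161) (nat_lit 178) (nat_lit 5) (nat_lit 8) (nat_lit 7) L29407 (by decide +kernel)
theorem L29409 : W_16 (nat_lit 2) (nat_lit 0x4000200020001005a80070003000380000000000000000000) (nat_lit 0x0) (nat_lit 0xc00400000000000000000000) := D_16 (nat_lit 95) (nat_lit 94) (nat_lit 82) (nat_lit 2) (nat_lit 9) (nat_lit 5) (nat_lit 1) (nat_lit 14) (nat_lit 4) (by decide +kernel)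
theorem L29410 : W_16 (nat_lit 3) (nat_lit 0x4000200020001005a80070002000380000000000000000000) (nat_lit 0x0) (nat_lit 0x10000000000001c00400000000000000000000) := T_16 (nat_lit 96) (nat_lit 148) (nat_lit 4) (nat_lit 12) (nat_lit 8) L29409 (by decide +kernel)
theorem L29411 : W_16 (nat_lit 4) (nat_lit 0x4000200020001001a80070002000380000000000000000000) (nat_lit 0x0) (nat_lit 0x10006000000001c00400000000000000000000) := T_16 (nat_lit 134) (nat_lit 133) (nat_lit 0) (nat_lit 15) (nat_lit 7) L29410 (by decide +kernel)
theorem L29412 : W_16 (nat_lit 5) (nat_lit 0x4000200020001001a80070002000300000000000000000000) (nat_lit 0x0) (nat_lit 0x10006000000001c00480004000000000000000) := T_16 (nat_lit 79) (nat_lit 62) (nat_lit 4) (nat_lit 12) (nat_lit 7) L29411 (by decide +kernel)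
theorem L29413 : W_16 (nat_lit 6) (nat_lit 0x4000200020001001a80070002000100000000000000000000) (nat_lit 0x0) (nat_lit 0x10006000000001c00680014000000000000000) := T_16 (nat_lit 81) (nat_lit 64) (nat_lit 6) (nat_lit 12) (nat_lit 7) L29412 (by decide +kernel)
theorem L29414 : W_16 (nat_lit 7) (nat_lit 0x4000200020001001a80070002000000000000000000000000) (nat_lit 0x0) (nat_lit 0x30006000000001c00780014000000000000000) := T_16 (nat_lit 80) (nat_lit 149) (nat_lit 7) (nat_lit 12) (nat_lit 4) L29413 (by decide +kernel)
theorem L29415 : W_16 (nat_lit 8) (nat_lit 0x4000200000001001a80070002000000000000000000000000) (nat_lit 0x0) (nat_lit 0x400020030006000000001c00780014000000000000000) := T_16 (nat_lit 161) (nat_lit 178) (nat_lit 5) (nat_lit 8) (nat_lit 7) L29414 (by decide +kernel)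
theorem L29416 : W_16 (nat_lit 9) (nat_lit 0x4000200000001000a80070002000000000000000000000000) (nat_lit 0x0) (nat_lit 0x400020030007000008001c00780014000000000000000) := T_16 (nat_lit 132) (nat_lit 111) (nat_lit 3) (nat_lit 9) (nat_lit 6) L29415 (by decide +kernel)
theorem L29417 : W_16 (nat_lit 10) (nat_lit 0x4000200000001000a80070000000000000000000000000000) (nat_lit 0x0) (nat_lit 0x40072003800700000801fc00780014000000000000000) := Q_16 (nat_lit 97) (C_16 L29396 (C_16 L29405 (C_16 L29408 (C_16 L29416 N_16)))) (by decide +kernel)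
theorem L29418 : W_16 (nat_lit 2) (nat_lit 0x4004200220011000a80070000000000000000000000000000) (nat_lit 0x0) (nat_lit 0x100008000400000000000000000000000000000000000000000) := D_16 (nat_lit 183) (nat_lit 166) (nat_lit 200) (nat_lit 7) (nat_lit 12) (nat_lit 6) (nat_lit 7) (nat_lit 12) (nat_lit 7) (by decide +kernel)
theorem L29419 : W_16 (nat_lit 3) (nat_lit 0x4000200220011000a80070000000000000000000000000000) (nat_lit 0x0) (nat_lit 0x10000c000400000000400000000000000000000000000000000) := T_16 (nat_lit 182) (nat_lit 130) (nat_lit 4) (nat_lit 12) (nat_lit 10) L29418 (by decide +kernel)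
theorem L29420 : W_16 (nat_lit 4) (nat_lit 0x4000200020011000a80070000000000000000000000000000) (nat_lit 0x0) (nat_lit 0x10000c000600000000400000001000000000000000000000000) := T_16 (nat_lit 165) (nat_lit 96) (nat_lit 4) (nat_lit 12) (nat_lit 9) L29419 (by decide +kernel)
theorem L29421 : W_16 (nat_lit 5) (nat_lit 0x4000200000011000a80070000000000000000000000000000) (nat_lit 0x0) (nat_lit 0x10000c400620000000400000001000000000000000000000000) := T_16 (nat_lit 161) (nat_lit 178) (nat_lit 5) (nat_lit 8) (nat_lit 7) L29420 (by decide +kernel)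
theorem L29422 : W_16 (nat_lit 2) (nat_lit 0x4004200200011000a80070000000000000000000000000000) (nat_lit 0x0) (nat_lit 0x100008000400000000000000000000000000000000000000000) := D_16 (nat_lit 183) (nat_lit 166) (nat_lit 200) (nat_lit 7) (nat_lit 12) (nat_lit 6) (nat_lit 7) (nat_lit 12) (nat_lit 7) (by decide +kernel)
theorem L29423 : W_16 (nat_lit 3) (nat_lit 0x4000200200011000a80070000000000000000000000000000) (nat_lit 0x0) (nat_lit 0x10000c000400000000400000000000000000000000000000000) := T_16 (nat_lit 182) (nat_lit 130) (nat_lit 4) (nat_lit 12) (nat_lit 10) L29422 (by decide +kernel)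
theorem L29424 : W_16 (nat_lit 4) (nat_lit 0x4000200000011000a80070000000000000000000000000000) (nat_lit 0x0) (nat_lit 0x10000c000600000000400000001000000000000000000000000) := T_16 (nat_lit 165) (nat_lit 96) (nat_lit 4) (nat_lit 12) (nat_lit 9) L29423 (by decide +kernel)
theorem L29425 : W_16 (nat_lit 2) (nat_lit 0x4000200620011000a80070002000000000000000000000000) (nat_lit 0x0) (nat_lit 0x2000100008000000000000000000000000000000000000) := D_16 (nat_lit 164) (nat_lit 181) (nat_lit 147) (nat_lit 5) (nat_lit 12) (nat_lit 6) (nat_lit 5) (nat_lit 12) (nat_lit 5) (by decide +kernel)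
theorem L29426 : W_16 (nat_lit 3) (nat_lit 0x4000200620011000a80070000000000000000000000000000) (nat_lit 0x0) (nat_lit 0x2000100028000000000002000000000000000000000000) := T_16 (nat_lit 97) (nat_lit 149) (nat_lit 7) (nat_lit 12) (nat_lit 5) L29425 (by decide +kernel)
theorem L29427 : W_16 (nat_lit 4) (nat_lit 0x4000200220011000a80070000000000000000000000000000) (nat_lit 0x0) (nat_lit 0xa000500028000000000002000000000000000000000000) := T_16 (nat_lit 166) (nat_lit 183) (nat_lit 7) (nat_lit 12) (nat_lit 6) L29426 (by decide +kernel)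
theorem L29428 : W_16 (nat_lit 5) (nat_lit 0x4000200200011000a80070000000000000000000000000000) (nat_lit 0x0) (nat_lit 0xa400520028000000000002000000000000000000000000) := T_16 (nat_lit 161) (nat_lit 178) (nat_lit 5) (nat_lit 8) (nat_lit 7) L29427 (by decide +kernel)
theorem L29429 : W_16 (nat_lit 6) (nat_lit 0x4000200000011000a80070000000000000000000000000000) (nat_lit 0x0) (nat_lit 0xa400720028000000000003000000000000000000000000) := T_16 (nat_lit 165) (nat_lit 96) (nat_lit 4) (nat_lit 12) (nat_lit 9) L29428 (by decide +kernel)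
theorem L29430 : W_16 (nat_lit 2) (nat_lit 0x4004200020031001e80070000000000000000000000000000) (nat_lit 0x0) (nat_lit 0x400000000000000002000100000000000000000000) := D_16 (nat_lit 97) (nat_lit 80) (nat_lit 166) (nat_lit 7) (nat_lit 12) (nat_lit 4) (nat_lit 7) (nat_lit 12) (nat_lit 5) (by decide +kernel)
theorem L29431 : W_16 (nat_lit 3) (nat_lit 0x4004200020011001e80070000000000000000000000000000) (nat_lit 0x0) (nat_lit 0x400060000000000002000100000000000000000000) := T_16 (nat_lit 149) (nat_lit 150) (nat_lit 3) (nat_lit 10) (nat_lit 7) L29430 (by decide +kernel)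
theorem L29432 : W_16 (nat_lit 4) (nat_lit 0x4004200020011000e80070000000000000000000000000000) (nat_lit 0x0) (nat_lit 0x400060003000000002000100000000000000000000) := T_16 (nat_lit 132) (nat_lit 133) (nat_lit 0) (nat_lit 14) (nat_lit 7) L29431 (by decide +kernel)
theorem L29433 : W_16 (nat_lit 5) (nat_lit 0x4000200020011000e80070000000000000000000000000000) (nat_lit 0x0) (nat_lit 0x4000600060003000000002000100000000000000000000) := T_16 (nat_lit 182) (nat_lit 165) (nat_lit 4) (nat_lit 12) (nat_lit 10) L29432 (by decide +kernel)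
theorem L29434 : W_16 (nat_lit 6) (nat_lit 0x4000200000011000e80070000000000000000000000000000) (nat_lit 0x0) (nat_lit 0x4400620060003000000002000100000000000000000000) := T_16 (nat_lit 161) (nat_lit 178) (nat_lit 5) (nat_lit 8) (nat_lit 7) L29433 (by decide +kernel)
theorem L29435 : W_16 (nat_lit 2) (nat_lit 0x4000200300011002e80070000000000000000000000000000) (nat_lit 0x0) (nat_lit 0x8000000000002800000000000000000000000) := D_16 (nat_lit 147) (nat_lit 97) (nat_lit 95) (nat_lit 6) (nat_lit 11) (nat_lit 9) (nat_lit 4) (nat_lit 11) (nat_lit 9) (by decide +kernel)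
theorem L29436 : W_16 (nat_lit 3) (nat_lit 0x4000200200011002e80070000000000000000000000000000) (nat_lit 0x0) (nat_lit 0x2000100008000000000002800000000000000000000000) := T_16 (nat_lit 164) (nat_lit 181) (nat_lit 5) (nat_lit 12) (nat_lit 6) L29435 (by decide +kernel)
theorem L29437 : W_16 (nat_lit 4) (nat_lit 0x4000200000011002e80070000000000000000000000000000) (nat_lit 0x0) (nat_lit 0x6000300008000000000002800000000000000000000000) := T_16 (nat_lit 165) (nat_lit 182) (nat_lit 4) (nat_lit 12) (nat_lit 10) L29436 (by decide +kernel)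
theorem L29438 : W_16 (nat_lit 5) (nat_lit 0x4000200000011000e80070000000000000000000000000000) (nat_lit 0x0) (nat_lit 0x6000300008003000000002800000000000000000000000) := T_16 (nat_lit 133) (nat_lit 132) (nat_lit 0) (nat_lit 14) (nat_lit 7) L29437 (by decide +kernel)
theorem L29439 : W_16 (nat_lit 2) (nat_lit 0x4000200620011000e80070002000000000000000000000000) (nat_lit 0x0) (nat_lit 0x2000100008000000000000000000000000000000000000) := D_16 (nat_lit 164) (nat_lit 147) (nat_lit 181) (nat_lit 6) (nat_lit 11) (nat_lit 9) (nat_lit 5) (nat_lit 12) (nat_lit 6) (by decide +kernel)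
theorem L29440 : W_16 (nat_lit 3) (nat_lit 0x4000200620011000e80070000000000000000000000000000) (nat_lit 0x0) (nat_lit 0x2000100028000000000002000000000000000000000000) := T_16 (nat_lit 97) (nat_lit 149) (nat_lit 7) (nat_lit 12) (nat_lit 5) L29439 (by decide +kernel)
theorem L29441 : W_16 (nat_lit 4) (nat_lit 0x4000200220011000e80070000000000000000000000000000) (nat_lit 0x0) (nat_lit 0xa000500028000000000002000000000000000000000000) := T_16 (nat_lit 166) (nat_lit 183) (nat_lit 7) (nat_lit 12) (nat_lit 6) L29440 (by decide +kernel)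
theorem L29442 : W_16 (nat_lit 5) (nat_lit 0x4000200200011000e80070000000000000000000000000000) (nat_lit 0x0) (nat_lit 0xa400520028000000000002000000000000000000000000) := T_16 (nat_lit 161) (nat_lit 178) (nat_lit 5) (nat_lit 8) (nat_lit 7) L29441 (by decide +kernel)
theorem L29443 : W_16 (nat_lit 6) (nat_lit 0x4000200000011000e80070000000000000000000000000000) (nat_lit 0x0) (nat_lit 0xe400720028000000000002000000000000000000000000) := T_16 (nat_lit 165) (nat_lit 182) (nat_lit 4) (nat_lit 12) (nat_lit 10) L29442 (by decide +kernel)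
theorem L29444 : W_16 (nat_lit 2) (nat_lit 0x4000201780019002e80070000000000000000000000000000) (nat_lit 0x0) (nat_lit 0x40060000000000000000000000000000000000000) := D_16 (nat_lit 149) (nat_lit 150) (nat_lit 162) (nat_lit 2) (nat_lit 10) (nat_lit 9) (nat_lit 2) (nat_lit 9) (nat_lit 9) (by decide +kernel)
theorem L29445 : W_16 (nat_lit 3) (nat_lit 0x4000201700019002e80070000000000000000000000000000) (nat_lit 0x0) (nat_lit 0x10000c0060000000000000000000000000000000000000) := T_16 (nat_lit 163) (nat_lit 180) (nat_lit 5) (nat_lit 11) (nat_lit 6) L29444 (by decide +kernel)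
theorem L29446 : W_16 (nat_lit 4) (nat_lit 0x4000200700019002e80070000000000000000000000000000) (nat_lit 0x0) (nat_lit 0x10018c0060000000000000000000000000000000000000) := T_16 (nat_lit 168) (nat_lit 167) (nat_lit 0) (nat_lit 15) (nat_lit 9) L29445 (by decide +kernel)
theorem L29447 : W_16 (nat_lit 5) (nat_lit 0x4000200700011002e80070000000000000000000000000000) (nat_lit 0x0) (nat_lit 0x10018c0068000000000000800000000000000000000000) := T_16 (nat_lit 147) (nat_lit 95) (nat_lit 4) (nat_lit 11) (nat_lit 9) L29446 (by decide +kernel)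
theorem L29448 : W_16 (nat_lit 6) (nat_lit 0x4000200600011002e80070000000000000000000000000000) (nat_lit 0x0) (nat_lit 0x30019c0068000000000000800000000000000000000000) := T_16 (nat_lit 164) (nat_lit 181) (nat_lit 5) (nat_lit 12) (nat_lit 6) L29447 (by decide +kernel)
theorem L29449 : W_16 (nat_lit 7) (nat_lit 0x4000200200011002e80070000000000000000000000000000) (nat_lit 0x0) (nat_lit 0xb001dc0068000000000000800000000000000000000000) := T_16 (nat_lit 166) (nat_lit 183) (nat_lit 7) (nat_lit 12) (nat_lit 6) L29448 (by decide +kernel)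
theorem L29450 : W_16 (nat_lit 8) (nat_lit 0x4000200200011000e80070000000000000000000000000000) (nat_lit 0x0) (nat_lit 0xb001dc0068003000000000800000000000000000000000) := T_16 (nat_lit 133) (nat_lit 132) (nat_lit 0) (nat_lit 14) (nat_lit 7) L29449 (by decide +kernel)
theorem L29451 : W_16 (nat_lit 9) (nat_lit 0x4000200000011000e80070000000000000000000000000000) (nat_lit 0x0) (nat_lit 0xf001fc0068003000000000800000000000000000000000) := T_16 (nat_lit 165) (nat_lit 182) (nat_lit 4) (nat_lit 12) (nat_lit 10) L29450 (by decide +kernel)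
theorem L29452 : W_16 (nat_lit 2) (nat_lit 0x4000200020031001e80070000000000000000000000000000) (nat_lit 0x0) (nat_lit 0x400000000000000002000100000000000000000000) := D_16 (nat_lit 97) (nat_lit 80) (nat_lit 166) (nat_lit 7) (nat_lit 12) (nat_lit 4) (nat_lit 7) (nat_lit 12) (nat_lit 5) (by decide +kernel)
theorem L29453 : W_16 (nat_lit 3) (nat_lit 0x4000200020011001e80070000000000000000000000000000) (nat_lit 0x0) (nat_lit 0x400060000000000002000100000000000000000000) := T_16 (nat_lit 149) (nat_lit 150) (nat_lit 3) (nat_lit 10) (nat_lit 7) L29452 (by decide +kernel)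
theorem L29454 : W_16 (nat_lit 4) (nat_lit 0x4000200000011001e80070000000000000000000000000000) (nat_lit 0x0) (nat_lit 0x400420060000000000002000100000000000000000000) := T_16 (nat_lit 161) (nat_lit 178) (nat_lit 5) (nat_lit 8) (nat_lit 7) L29453 (by decide +kernel)
theorem L29455 : W_16 (nat_lit 5) (nat_lit 0x4000200000011000e80070000000000000000000000000000) (nat_lit 0x0) (nat_lit 0x400420060003000000002000100000000000000000000) := T_16 (nat_lit 132) (nat_lit 133) (nat_lit 0) (nat_lit 14) (nat_lit 7) L29454 (by decide +kernel)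
theorem L29456 : W_16 (nat_lit 10) (nat_lit 0x4000200000011000a80070000000000000000000000000000) (nat_lit 0x0) (nat_lit 0xf401fe0068003400000002800100000000000000000000) := Q_16 (nat_lit 130) (C_16 L29434 (C_16 L29438 (C_16 L29443 (C_16 L29451 (C_16 L29455 N_16))))) (by decide +kernel)
theorem L29457 : W_16 (nat_lit 2) (nat_lit 0x4000200020019000a80070002000100000000000000000000) (nat_lit 0x0) (nat_lit 0x400020001000000000000000000000000000000000) := D_16 (nat_lit 149) (nat_lit 132) (nat_lit 166) (nat_lit 7) (nat_lit 12) (nat_lit 4) (nat_lit 7) (nat_lit 12) (nat_lit 5) (by decide +kernel)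
theorem L29458 : W_16 (nat_lit 3) (nat_lit 0x4000200020019000a80070002000000000000000000000000) (nat_lit 0x0) (nat_lit 0x400020001400000000000100000000000000000000) := T_16 (nat_lit 80) (nat_lit 130) (nat_lit 5) (nat_lit 12) (nat_lit 4) L29457 (by decide +kernel)
theorem L29459 : W_16 (nat_lit 4) (nat_lit 0x4000200020011000a80070002000000000000000000000000) (nat_lit 0x0) (nat_lit 0x500028001400000000000100000000000000000000) := T_16 (nat_lit 147) (nat_lit 164) (nat_lit 5) (nat_lit 12) (nat_lit 5) L29458 (by decide +kernel)
theorem L29460 : W_16 (nat_lit 5) (nat_lit 0x4000200000011000a80070002000000000000000000000000) (nat_lit 0x0) (nat_lit 0x400520028001400000000000100000000000000000000) := T_16 (nat_lit 161) (nat_lit 178) (nat_lit 5) (nat_lit 8) (nat_lit 7) L29459 (by decide +kernel)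
theorem L29461 : W_16 (nat_lit 6) (nat_lit 0x4000200000011000a80070000000000000000000000000000) (nat_lit 0x0) (nat_lit 0x40052002800140000001f000300010000000000000000) := Q_16 (nat_lit 97) (C_16 L29404 (C_16 L29400 (C_16 L29460 N_16))) (by decide +kernel)
theorem L29462 : W_16 (nat_lit 2) (nat_lit 0x4004200220011000a80070000000000000000000000000000) (nat_lit 0x0) (nat_lit 0x40002000100000000000000000000000000000000000000000) := D_16 (nat_lit 181) (nat_lit 164) (nat_lit 198) (nat_lit 5) (nat_lit 12) (nat_lit 6) (nat_lit 5) (nat_lit 12) (nat_lit 7) (by decide +kernel)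
theorem L29463 : W_16 (nat_lit 3) (nat_lit 0x4000200220011000a80070000000000000000000000000000) (nat_lit 0x0) (nat_lit 0x40006000100000000400000000000000000000000000000000) := T_16 (nat_lit 182) (nat_lit 130) (nat_lit 4) (nat_lit 12) (nat_lit 10) L29462 (by decide +kernel)
theorem L29464 : W_16 (nat_lit 4) (nat_lit 0x4000200020011000a80070000000000000000000000000000) (nat_lit 0x0) (nat_lit 0x40006000300000000400000001000000000000000000000000) := T_16 (nat_lit 165) (nat_lit 96) (nat_lit 4) (nat_lit 12) (nat_lit 9) L29463 (by decide +kernel)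
theorem L29465 : W_16 (nat_lit 5) (nat_lit 0x4000200000011000a80070000000000000000000000000000) (nat_lit 0x0) (nat_lit 0x40006400320000000400000001000000000000000000000000) := T_16 (nat_lit 161) (nat_lit 178) (nat_lit 5) (nat_lit 8) (nat_lit 7) L29464 (by decide +kernel)
theorem L29466 : W_16 (nat_lit 11) (nat_lit 0x4000200000001000a80070000000000000000000000000000) (nat_lit 0x0) (nat_lit 0x14000f401fe007800340000001f800300010000000000000000) := Q_16 (nat_lit 148) (C_16 L29421 (C_16 L29424 (C_16 L29429 (C_16 L29456 (C_16 L29461 (C_16 L29465 N_16)))))) (by decide +kernel)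
theorem L29467 : W_16 (nat_lit 2) (nat_lit 0x4000200000001000a80070006000000000000000000000000) (nat_lit 0x0) (nat_lit 0x19000000000000000000000000) := D_16 (nat_lit 99) (nat_lit 100) (nat_lit 96) (nat_lit 1) (nat_lit 15) (nat_lit 5) (nat_lit 1) (nat_lit 14) (nat_lit 5) (by decide +kernel)
theorem L29468 : W_16 (nat_lit 3) (nat_lit 0x4000200000001000a80070002000000000000000000000000) (nat_lit 0x0) (nat_lit 0x801d000000000000000000000000) := T_16 (nat_lit 98) (nat_lit 111) (nat_lit 2) (nat_lit 9) (nat_lit 6) L29467 (by decide +kernel)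
theorem L29469 : W_16 (nat_lit 2) (nat_lit 0x4000200000039000a80070002000000000000000000000000) (nat_lit 0x0) (nat_lit 0x40000400000000000100000000000000000000) := D_16 (nat_lit 130) (nat_lit 80) (nat_lit 150) (nat_lit 5) (nat_lit 12) (nat_lit 4) (nat_lit 0) (nat_lit 14) (nat_lit 8) (by decide +kernel)
theorem L29470 : W_16 (nat_lit 3) (nat_lit 0x4000200000031000a80070002000000000000000000000000) (nat_lit 0x0) (nat_lit 0x100048000400000000000100000000000000000000) := T_16 (nat_lit 147) (nat_lit 164) (nat_lit 5) (nat_lit 12) (nat_lit 5) L29469 (by decide +kernel)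
theorem L29471 : W_16 (nat_lit 4) (nat_lit 0x4000200000011000a80070002000000000000000000000000) (nat_lit 0x0) (nat_lit 0x500068000400000000000100000000000000000000) := T_16 (nat_lit 149) (nat_lit 166) (nat_lit 7) (nat_lit 12) (nat_lit 5) L29470 (by decide +kernel)
theorem L29472 : W_16 (nat_lit 5) (nat_lit 0x4000200000001000a80070002000000000000000000000000) (nat_lit 0x0) (nat_lit 0x40072007800040000001d000380000000000000000000) := Q_16 (nat_lit 148) (C_16 L29400 (C_16 L29397 (C_16 L29471 N_16))) (by decide +kernel)
theorem L29473 : W_16 (nat_lit 2) (nat_lit 0x4000200020019000e80070016000000000000000000000000) (nat_lit 0x0) (nat_lit 0x400060000000000000000000000000000000000000) := D_16 (nat_lit 149) (nat_lit 166) (nat_lit 150) (nat_lit 7) (nat_lit 12) (nat_lit 5) (nat_lit 0) (nat_lit 14) (nat_lit 8) (by decide +kernel)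
theorem L29474 : W_16 (nat_lit 3) (nat_lit 0x4000200020019000a80070016000000000000000000000000) (nat_lit 0x0) (nat_lit 0x400060000400000000000100000000000000000000) := T_16 (nat_lit 130) (nat_lit 80) (nat_lit 5) (nat_lit 12) (nat_lit 4) L29473 (by decide +kernel)
theorem L29475 : W_16 (nat_lit 4) (nat_lit 0x4000200020011000a80070016000000000000000000000000) (nat_lit 0x0) (nat_lit 0x500068000400000000000100000000000000000000) := T_16 (nat_lit 147) (nat_lit 164) (nat_lit 5) (nat_lit 12) (nat_lit 5) L29474 (by decide +kernel)
theorem L29476 : W_16 (nat_lit 5) (nat_lit 0x4000200020001000a80070016000000000000000000000000) (nat_lit 0x0) (nat_lit 0x500078000400000000000300000000000000000000) := T_16 (nat_lit 148) (nat_lit 81) (nat_lit 6) (nat_lit 12) (nat_lit 8) L29475 (by decide +kernel)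
theorem L29477 : W_16 (nat_lit 6) (nat_lit 0x4000200020001000a80070006000000000000000000000000) (nat_lit 0x0) (nat_lit 0x500078000400000018000300000000000000000000) := T_16 (nat_lit 100) (nat_lit 99) (nat_lit 1) (nat_lit 15) (nat_lit 5) L29476 (by decide +kernel)
theorem L29478 : W_16 (nat_lit 7) (nat_lit 0x4000200020001000a80070002000000000000000000000000) (nat_lit 0x0) (nat_lit 0x50007800040000801c000300000000000000000000) := T_16 (nat_lit 98) (nat_lit 111) (nat_lit 2) (nat_lit 9) (nat_lit 6) L29477 (by decide +kernel)
theorem L29479 : W_16 (nat_lit 8) (nat_lit 0x4000200000001000a80070002000000000000000000000000) (nat_lit 0x0) (nat_lit 0x40052007800040000801c000300000000000000000000) := T_16 (nat_lit 161) (nat_lit 178) (nat_lit 5) (nat_lit 8) (nat_lit 7) L29478 (by decide +kernel)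
theorem L29480 : W_16 (nat_lit 2) (nat_lit 0x4000200000001000a80070002000100000000000000000000) (nat_lit 0x0) (nat_lit 0x8000400000000000000008000000000000000) := D_16 (nat_lit 130) (nat_lit 63) (nat_lit 147) (nat_lit 5) (nat_lit 12) (nat_lit 3) (nat_lit 5) (nat_lit 12) (nat_lit 4) (by decide +kernel)
theorem L29481 : W_16 (nat_lit 2) (nat_lit 0x4000200520011000a80070002000380000000000000000000) (nat_lit 0x0) (nat_lit 0xa000200000000000000000000000000000000000000000) := D_16 (nat_lit 165) (nat_lit 183) (nat_lit 181) (nat_lit 7) (nat_lit 12) (nat_lit 6) (nat_lit 5) (nat_lit 12) (nat_lit 6) (by decide +kernel)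
theorem L29482 : W_16 (nat_lit 3) (nat_lit 0x4000200420011000a80070002000380000000000000000000) (nat_lit 0x0) (nat_lit 0xa000300008000000000000000000000000000000000000) := T_16 (nat_lit 164) (nat_lit 147) (nat_lit 5) (nat_lit 12) (nat_lit 5) L29481 (by decide +kernel)
theorem L29483 : W_16 (nat_lit 4) (nat_lit 0x4000200020011000a80070002000380000000000000000000) (nat_lit 0x0) (nat_lit 0xa000700028000000000000000000000000000000000000) := T_16 (nat_lit 166) (nat_lit 149) (nat_lit 7) (nat_lit 12) (nat_lit 5) L29482 (by decide +kernel)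
theorem L29484 : W_16 (nat_lit 5) (nat_lit 0x4000200020001000a80070002000380000000000000000000) (nat_lit 0x0) (nat_lit 0xa000700038000000000001000000000000000000000000) := T_16 (nat_lit 148) (nat_lit 96) (nat_lit 4) (nat_lit 12) (nat_lit 8) L29483 (by decide +kernel)
theorem L29485 : W_16 (nat_lit 6) (nat_lit 0x4000200020001000a80070002000300000000000000000000) (nat_lit 0x0) (nat_lit 0xa000700038000000000001000080004000000000000000) := T_16 (nat_lit 79) (nat_lit 62) (nat_lit 4) (nat_lit 12) (nat_lit 7) L29484 (by decide +kernel)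
theorem L29486 : W_16 (nat_lit 7) (nat_lit 0x4000200020001000a80070002000100000000000000000000) (nat_lit 0x0) (nat_lit 0xa000700038000000000001000280014000000000000000) := T_16 (nat_lit 81) (nat_lit 64) (nat_lit 6) (nat_lit 12) (nat_lit 7) L29485 (by decide +kernel)
theorem L29487 : W_16 (nat_lit 8) (nat_lit 0x4000200000001000a80070002000100000000000000000000) (nat_lit 0x0) (nat_lit 0xa400720038000000000001000280014000000000000000) := T_16 (nat_lit 161) (nat_lit 178) (nat_lit 5) (nat_lit 8) (nat_lit 7) L29486 (by decide +kernel)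
theorem L29488 : W_16 (nat_lit 2) (nat_lit 0x4000200000001000a80070002000180008000000000000000) (nat_lit 0x0) (nat_lit 0x10000000000001000000000000400000000000) := D_16 (nat_lit 96) (nat_lit 46) (nat_lit 148) (nat_lit 5) (nat_lit 12) (nat_lit 2) (nat_lit 4) (nat_lit 12) (nat_lit 8) (by decide +kernel)
theorem L29489 : W_16 (nat_lit 3) (nat_lit 0x4000200000001000a80070002000180000000000000000000) (nat_lit 0x0) (nat_lit 0x10000400000001000000008000400000000000) := T_16 (nat_lit 63) (nat_lit 130) (nat_lit 5) (nat_lit 12) (nat_lit 3) L29488 (by decide +kernel)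
theorem L29490 : W_16 (nat_lit 4) (nat_lit 0x4000200000001000a80070002000100000000000000000000) (nat_lit 0x0) (nat_lit 0x1000040000000100008000c000400000000000) := T_16 (nat_lit 79) (nat_lit 62) (nat_lit 4) (nat_lit 12) (nat_lit 7) L29489 (by decide +kernel)
theorem L29491 : W_16 (nat_lit 9) (nat_lit 0x4000200000001000a80070002000000000000000000000000) (nat_lit 0x0) (nat_lit 0xa40072003800040000000100038001c000400000000000) := Q_16 (nat_lit 80) (C_16 L29480 (C_16 L29487 (C_16 L29490 N_16))) (by decide +kernel)
theorem L29492 : W_16 (nat_lit 10) (nat_lit 0x4000200000001000a80070000000000000000000000000000) (nat_lit 0x0) (nat_lit 0xa40072007800040000801f00038001c000400000000000) := Q_16 (nat_lit 97) (C_16 L29408 (C_16 L29468 (C_16 L29472 (C_16 L29479 (C_16 L29491 N_16))))) (by decide +kernel)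
theorem L29493 : W_16 (nat_lit 12) (nat_lit 0x4000200000001000280070000000000000000000000000000) (nat_lit 0x0) (nat_lit 0x14000f401fe0078007c0000801fc0078001c000400000000000) := Q_16 (nat_lit 131) (C_16 L29393 (C_16 L29395 (C_16 L29417 (C_16 L29466 (C_16 L29492 N_16))))) (by decide +kernel)
theorem L29494 : W_16 (nat_lit 7) (nat_lit 0x4000200000001000280070000000000000000000000000000) (nat_lit 0x0) (nat_lit 0x40002000000040078800fe00000000000000000000000) := Q_16 (nat_lit 115) (C_16 L29386 (C_16 L29224 (C_16 L29376 N_16))) (by decide +kernel)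
theorem L29495 : W_16 (nat_lit 6) (nat_lit 0x4000200000001000280070000000000000000000000000000) (nat_lit 0x0) (nat_lit 0x40002000000740018800ee00000000000000000000000) := Q_16 (nat_lit 115) (C_16 L29388 (C_16 L29376 N_16)) (by decide +kernel)
theorem L29496 : W_16 (nat_lit 2) (nat_lit 0x4000200020001001a800f0004800000000000000000000000) (nat_lit 0x0) (nat_lit 0x200010000000000000000200000000000000000000) := D_16 (nat_lit 148) (nat_lit 165) (nat_lit 81) (nat_lit 6) (nat_lit 12) (nat_lit 9) (nat_lit 5) (nat_lit 13) (nat_lit 4) (by decide +kernel)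
theorem L29497 : W_16 (nat_lit 3) (nat_lit 0x40002000200010012800f0004800000000000000000000000) (nat_lit 0x0) (nat_lit 0x200010000800008000000200000000000000000000) := T_16 (nat_lit 131) (nat_lit 111) (nat_lit 3) (nat_lit 9) (nat_lit 6) L29496 (by decide +kernel)
theorem L29498 : W_16 (nat_lit 4) (nat_lit 0x40002000200010002800f0004800000000000000000000000) (nat_lit 0x0) (nat_lit 0x200010003800008000000200000000000000000000) := T_16 (nat_lit 132) (nat_lit 133) (nat_lit 3) (nat_lit 10) (nat_lit 6) L29497 (by decide +kernel)
theorem L29499 : W_16 (nat_lit 5) (nat_lit 0x40002000200010002800f0004000000000000000000000000) (nat_lit 0x0) (nat_lit 0x200010003800008000c00200000000000000000000) := T_16 (nat_lit 95) (nat_lit 94) (nat_lit 0) (nat_lit 13) (nat_lit 6) L29498 (by decide +kernel)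
theorem L29500 : W_16 (nat_lit 6) (nat_lit 0x40002000200010002800f0000000000000000000000000000) (nat_lit 0x0) (nat_lit 0x20001000380000800cc00200000000000000000000) := T_16 (nat_lit 98) (nat_lit 99) (nat_lit 2) (nat_lit 10) (nat_lit 6) L29499 (by decide +kernel)
theorem L29501 : W_16 (nat_lit 7) (nat_lit 0x40002000000010002800f0000000000000000000000000000) (nat_lit 0x0) (nat_lit 0x40022001000380000800cc00200000000000000000000) := T_16 (nat_lit 161) (nat_lit 178) (nat_lit 5) (nat_lit 8) (nat_lit 7) L29500 (by decide +kernel)
theorem L29502 : W_16 (nat_lit 8) (nat_lit 0x4000200000001000280070000000000000000000000000000) (nat_lit 0x0) (nat_lit 0x400220010007c0018800dc00200000000000000000000) := Q_16 (nat_lit 115) (C_16 L29388 (C_16 L29380 (C_16 L29224 (C_16 L29501 N_16)))) (by decide +kernel)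
theorem L29503 : W_16 (nat_lit 2) (nat_lit 0x40002000200010012800f0000400000000000000000000000) (nat_lit 0x0) (nat_lit 0x800008000200000000000000000000000) := D_16 (nat_lit 111) (nat_lit 131) (nat_lit 93) (nat_lit 3) (nat_lit 9) (nat_lit 6) (nat_lit 0) (nat_lit 12) (nat_lit 6) (by decide +kernel)
theorem L29504 : W_16 (nat_lit 3) (nat_lit 0x40002000200010002800f0000400000000000000000000000) (nat_lit 0x0) (nat_lit 0x3800008000200000000000000000000000) := T_16 (nat_lit 132) (nat_lit 133) (nat_lit 3) (nat_lit 10) (nat_lit 6) L29503 (by decide +kernel)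
theorem L29505 : W_16 (nat_lit 4) (nat_lit 0x40002000200010002800f0000000000000000000000000000) (nat_lit 0x0) (nat_lit 0x3800008000e00000000000000000000000) := T_16 (nat_lit 94) (nat_lit 95) (nat_lit 0) (nat_lit 13) (nat_lit 6) L29504 (by decide +kernel)
theorem L29506 : W_16 (nat_lit 5) (nat_lit 0x40002000000010002800f0000000000000000000000000000) (nat_lit 0x0) (nat_lit 0x400020000003800008000e00000000000000000000000) := T_16 (nat_lit 161) (nat_lit 178) (nat_lit 5) (nat_lit 8) (nat_lit 7) L29505 (by decide +kernel)
theorem L29507 : W_16 (nat_lit 6) (nat_lit 0x4000200000001000280070000000000000000000000000000) (nat_lit 0x0) (nat_lit 0x400020000007c00188001e00000000000000000000000) := Q_16 (nat_lit 115) (C_16 L29388 (C_16 L29380 (C_16 L29224 (C_16 L29506 N_16)))) (by decide +kernel)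
theorem L29508 : W_16 (nat_lit 14) (nat_lit 0x4000200000001000280030000000000000000000000000000) (nat_lit 0x0) (nat_lit 0x14000f401fe0078007c007c801fe00ff003e000c00000000000) := Q_16 (nat_lit 114) (C_16 L29225 (C_16 L29368 (C_16 L29372 (C_16 L29381 (C_16 L29389 (C_16 L29390 (C_16 L29493 (C_16 L29494 (C_16 L29495 (C_16 L29502 (C_16 L29507 N_16))))))))))) (by decide +kernel)
theorem L29509 : W_16 (nat_lit 2) (nat_lit 0x4000200000001000380030000000000000000000000000000) (nat_lit 0x0) (nat_lit 0xc8000000000000000000000000000) := D_16 (nat_lit 114) (nat_lit 115) (nat_lit 111) (nat_lit 1) (nat_lit 13) (nat_lit 6) (nat_lit 1) (nat_lit 12) (nat_lit 6) (by decide +kernel)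
theorem L29510 : W_16 (nat_lit 3) (nat_lit 0x4000200000001000280030000000000000000000000000000) (nat_lit 0x0) (nat_lit 0x1400c8000000000000000000000000000) := T_16 (nat_lit 128) (nat_lit 126) (nat_lit 2) (nat_lit 7) (nat_lit 7) L29509 (by decide +kernel)
theorem L29511 : W_16 (nat_lit 2) (nat_lit 0x4000200000001000380030000000000000000000000000000) (nat_lit 0x0) (nat_lit 0x4000c0000000000000000000000000000) := D_16 (nat_lit 114) (nat_lit 115) (nat_lit 130) (nat_lit 1) (nat_lit 13) (nat_lit 6) (nat_lit 2) (nat_lit 8) (nat_lit 7) (by decide +kernel)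
theorem L29512 : W_16 (nat_lit 3) (nat_lit 0x4000200000001000280030000000000000000000000000000) (nat_lit 0x0) (nat_lit 0x5400c0000000000000000000000000000) := T_16 (nat_lit 128) (nat_lit 126) (nat_lit 2) (nat_lit 7) (nat_lit 7) L29511 (by decide +kernel)
theorem L29513 : W_16 (nat_lit 2) (nat_lit 0x40002000000010002800300008000c0002000000000000000) (nat_lit 0x0) (nat_lit 0x20001000080000000000) := D_16 (nat_lit 60) (nat_lit 77) (nat_lit 43) (nat_lit 4) (nat_lit 10) (nat_lit 7) (nat_lit 4) (nat_lit 10) (nat_lit 6) (by decide +kernel)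
theorem L29514 : W_16 (nat_lit 3) (nat_lit 0x40002000000010002800300008000c0000000000000000000) (nat_lit 0x0) (nat_lit 0x400000000000020003000080000000000) := T_16 (nat_lit 61) (nat_lit 130) (nat_lit 7) (nat_lit 10) (nat_lit 3) L29513 (by decide +kernel)
theorem L29515 : W_16 (nat_lit 4) (nat_lit 0x4000200000001000280030000800040000000000000000000) (nat_lit 0x0) (nat_lit 0x4000000000000a0007000080000000000) := T_16 (nat_lit 79) (nat_lit 62) (nat_lit 6) (nat_lit 10) (nat_lit 7) L29514 (by decide +kernel)
theorem L29516 : W_16 (nat_lit 2) (nat_lit 0x40002000000010003800300008000e0000000000000000000) (nat_lit 0x0) (nat_lit 0x8000400000002000000000000000) := D_16 (nat_lit 111) (nat_lit 61) (nat_lit 94) (nat_lit 5) (nat_lit 10) (nat_lit 3) (nat_lit 5) (nat_lit 9) (nat_lit 4) (by decide +kernel)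
theorem L29517 : W_16 (nat_lit 3) (nat_lit 0x40002000000010002800300008000e0000000000000000000) (nat_lit 0x0) (nat_lit 0x140008000400000002000000000000000) := T_16 (nat_lit 128) (nat_lit 126) (nat_lit 2) (nat_lit 7) (nat_lit 7) L29516 (by decide +kernel)
theorem L29518 : W_16 (nat_lit 2) (nat_lit 0x4000200000001000280030000800040000000000000000000) (nat_lit 0x0) (nat_lit 0x8000400000000000000002000000000000000) := D_16 (nat_lit 130) (nat_lit 147) (nat_lit 61) (nat_lit 7) (nat_lit 10) (nat_lit 4) (nat_lit 7) (nat_lit 10) (nat_lit 3) (by decide +kernel)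
theorem L29519 : W_16 (nat_lit 2) (nat_lit 0x40002000200090002800300018000e0000000000000000000) (nat_lit 0x0) (nat_lit 0x2000018000000000000000000) := D_16 (nat_lit 76) (nat_lit 97) (nat_lit 75) (nat_lit 3) (nat_lit 8) (nat_lit 4) (nat_lit 3) (nat_lit 7) (nat_lit 4) (by decide +kernel)
theorem L29520 : W_16 (nat_lit 3) (nat_lit 0x40002000200090002800300018000c0000000000000000000) (nat_lit 0x0) (nat_lit 0x2000038001000000000000000) := T_16 (nat_lit 77) (nat_lit 60) (nat_lit 4) (nat_lit 10) (nat_lit 7) L29519 (by decide +kernel)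
theorem L29521 : W_16 (nat_lit 4) (nat_lit 0x4000200020009000280030001800040000000000000000000) (nat_lit 0x0) (nat_lit 0x20000b8005000000000000000) := T_16 (nat_lit 79) (nat_lit 62) (nat_lit 6) (nat_lit 10) (nat_lit 7) L29520 (by decide +kernel)
theorem L29522 : W_16 (nat_lit 5) (nat_lit 0x4000200020001000280030001800040000000000000000000) (nat_lit 0x0) (nat_lit 0x80004000000020000b8005000000000000000) := T_16 (nat_lit 147) (nat_lit 130) (nat_lit 7) (nat_lit 10) (nat_lit 4) L29521 (by decide +kernel)
theorem L29523 : W_16 (nat_lit 6) (nat_lit 0x4000200000001000280030001800040000000000000000000) (nat_lit 0x0) (nat_lit 0x4000200080004000000020000b8005000000000000000) := T_16 (nat_lit 161) (nat_lit 178) (nat_lit 5) (nat_lit 8) (nat_lit 7) L29522 (by decide +kernel)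
theorem L29524 : W_16 (nat_lit 2) (nat_lit 0x4000200000001000280030001800070000000000000000000) (nat_lit 0x0) (nat_lit 0x6400000000000000000000000) := D_16 (nat_lit 97) (nat_lit 98) (nat_lit 94) (nat_lit 0) (nat_lit 13) (nat_lit 5) (nat_lit 0) (nat_lit 12) (nat_lit 5) (by decide +kernel)
theorem L29525 : W_16 (nat_lit 3) (nat_lit 0x4000200000001000280030001800060000000000000000000) (nat_lit 0x0) (nat_lit 0x6400018000000000000000000) := T_16 (nat_lit 76) (nat_lit 75) (nat_lit 3) (nat_lit 7) (nat_lit 4) L29524 (by decide +kernel)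
theorem L29526 : W_16 (nat_lit 4) (nat_lit 0x4000200000001000280030001800040000000000000000000) (nat_lit 0x0) (nat_lit 0x6400038001000000000000000) := T_16 (nat_lit 77) (nat_lit 60) (nat_lit 4) (nat_lit 10) (nat_lit 7) L29525 (by decide +kernel)
theorem L29527 : W_16 (nat_lit 2) (nat_lit 0x40002000000010006800300058001e0000000000000000000) (nat_lit 0x0) (nat_lit 0x8400200000000000000000000) := D_16 (nat_lit 81) (nat_lit 99) (nat_lit 94) (nat_lit 3) (nat_lit 10) (nat_lit 4) (nat_lit 1) (nat_lit 13) (nat_lit 4) (by decide +kernel)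
theorem L29528 : W_16 (nat_lit 3) (nat_lit 0x40002000000010006800300058000e0000000000000000000) (nat_lit 0x0) (nat_lit 0x8400300008000000000000000) := T_16 (nat_lit 80) (nat_lit 63) (nat_lit 6) (nat_lit 11) (nat_lit 7) L29527 (by decide +kernel)
theorem L29529 : W_16 (nat_lit 4) (nat_lit 0x40002000000010006800300018000e0000000000000000000) (nat_lit 0x0) (nat_lit 0xe400300008000000000000000) := T_16 (nat_lit 98) (nat_lit 97) (nat_lit 0) (nat_lit 13) (nat_lit 5) L29528 (by decide +kernel)
theorem L29530 : W_16 (nat_lit 5) (nat_lit 0x40002000000010006800300018000c0000000000000000000) (nat_lit 0x0) (nat_lit 0xe400320009000000000000000) := T_16 (nat_lit 77) (nat_lit 60) (nat_lit 4) (nat_lit 10) (nat_lit 7) L29529 (by decide +kernel)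
theorem L29531 : W_16 (nat_lit 6) (nat_lit 0x4000200000001000680030001800040000000000000000000) (nat_lit 0x0) (nat_lit 0xe4003a000d000000000000000) := T_16 (nat_lit 79) (nat_lit 62) (nat_lit 6) (nat_lit 10) (nat_lit 7) L29530 (by decide +kernel)
theorem L29532 : W_16 (nat_lit 7) (nat_lit 0x4000200000001000280030001800040000000000000000000) (nat_lit 0x0) (nat_lit 0x800040000000e4003a000d000000000000000) := T_16 (nat_lit 130) (nat_lit 147) (nat_lit 7) (nat_lit 10) (nat_lit 4) L29531 (by decide +kernel)
theorem L29533 : W_16 (nat_lit 2) (nat_lit 0x40002000200010006c00300018001c0000000000000000000) (nat_lit 0x0) (nat_lit 0x600200000000000000000000) := D_16 (nat_lit 94) (nat_lit 93) (nat_lit 81) (nat_lit 2) (nat_lit 8) (nat_lit 5) (nat_lit 1) (nat_lit 13) (nat_lit 4) (by decide +kernel)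
theorem L29534 : W_16 (nat_lit 3) (nat_lit 0x40002000200010006c00300018000c0000000000000000000) (nat_lit 0x0) (nat_lit 0x600300008000000000000000) := T_16 (nat_lit 80) (nat_lit 63) (nat_lit 6) (nat_lit 11) (nat_lit 7) L29533 (by decide +kernel)
theorem L29535 : W_16 (nat_lit 2) (nat_lit 0x4000200000001000380030000c000e0000000000000000000) (nat_lit 0x0) (nat_lit 0x300100000000000000000000) := D_16 (nat_lit 93) (nat_lit 92) (nat_lit 80) (nat_lit 3) (nat_lit 7) (nat_lit 5) (nat_lit 1) (nat_lit 12) (nat_lit 4) (by decide +kernel)
theorem L29536 : W_16 (nat_lit 3) (nat_lit 0x40002000000010003800300008000e0000000000000000000) (nat_lit 0x0) (nat_lit 0x8000700100000000000000000000) := T_16 (nat_lit 94) (nat_lit 111) (nat_lit 5) (nat_lit 9) (nat_lit 4) L29535 (by decide +kernel)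
theorem L29537 : W_16 (nat_lit 2) (nat_lit 0x4000200020001000280030000800068006000100000000000) (nat_lit 0x0) (nat_lit 0x8000400000000000000008000000) := D_16 (nat_lit 94) (nat_lit 111) (nat_lit 27) (nat_lit 5) (nat_lit 10) (nat_lit 2) (nat_lit 5) (nat_lit 10) (nat_lit 1) (by decide +kernel)
theorem L29538 : W_16 (nat_lit 3) (nat_lit 0x4000200020001000280030000800068006000000000000000) (nat_lit 0x0) (nat_lit 0x8001400000000000100008000000) := T_16 (nat_lit 44) (nat_lit 96) (nat_lit 7) (nat_lit 10) (nat_lit 2) L29537 (by decide +kernel)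
theorem L29539 : W_16 (nat_lit 4) (nat_lit 0x4000200020001000280030000800060006000000000000000) (nat_lit 0x0) (nat_lit 0x8001400018000000100008000000) := T_16 (nat_lit 75) (nat_lit 76) (nat_lit 2) (nat_lit 7) (nat_lit 4) L29538 (by decide +kernel)
theorem L29540 : W_16 (nat_lit 5) (nat_lit 0x4000200020001000280030000800060004000000000000000) (nat_lit 0x0) (nat_lit 0x8001400018002000300008000000) := T_16 (nat_lit 61) (nat_lit 45) (nat_lit 6) (nat_lit 10) (nat_lit 6) L29539 (by decide +kernel)
theorem L29541 : W_16 (nat_lit 6) (nat_lit 0x4000200020001000280030000800060000000000000000000) (nat_lit 0x0) (nat_lit 0x8001400098006000300008000000) := T_16 (nat_lit 62) (nat_lit 79) (nat_lit 6) (nat_lit 10) (nat_lit 7) L29540 (by decide +kernel)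
theorem L29542 : W_16 (nat_lit 7) (nat_lit 0x4000200020001000280030000800040000000000000000000) (nat_lit 0x0) (nat_lit 0x80014000b8007000300008000000) := T_16 (nat_lit 77) (nat_lit 60) (nat_lit 4) (nat_lit 10) (nat_lit 7) L29541 (by decide +kernel)
theorem L29543 : W_16 (nat_lit 8) (nat_lit 0x4000200000001000280030000800040000000000000000000) (nat_lit 0x0) (nat_lit 0x4000200000000000080014000b8007000300008000000) := T_16 (nat_lit 161) (nat_lit 178) (nat_lit 5) (nat_lit 8) (nat_lit 7) L29542 (by decide +kernel)
theorem L29544 : W_16 (nat_lit 2) (nat_lit 0x4000200020001000e800300018000c0000000000000000000) (nat_lit 0x0) (nat_lit 0x3000008000000000000000000000000000) := D_16 (nat_lit 132) (nat_lit 133) (nat_lit 111) (nat_lit 0) (nat_lit 14) (nat_lit 7) (nat_lit 0) (nat_lit 13) (nat_lit 7) (by decide +kernel)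
theorem L29545 : W_16 (nat_lit 3) (nat_lit 0x40002000200010006800300018000c0000000000000000000) (nat_lit 0x0) (nat_lit 0x10003800008000000000000000000000000000) := T_16 (nat_lit 131) (nat_lit 148) (nat_lit 7) (nat_lit 11) (nat_lit 4) L29544 (by decide +kernel)
theorem L29546 : W_16 (nat_lit 4) (nat_lit 0x40002000000010006800300018000c0000000000000000000) (nat_lit 0x0) (nat_lit 0x400020010003800008000000000000000000000000000) := T_16 (nat_lit 161) (nat_lit 178) (nat_lit 5) (nat_lit 8) (nat_lit 7) L29545 (by decide +kernel)
theorem L29547 : W_16 (nat_lit 5) (nat_lit 0x40002000000010002800300018000c0000000000000000000) (nat_lit 0x0) (nat_lit 0x400020018003c00008000000000000000000000000000) := T_16 (nat_lit 130) (nat_lit 147) (nat_lit 7) (nat_lit 10) (nat_lit 4) L29546 (by decide +kernel)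
theorem L29548 : W_16 (nat_lit 6) (nat_lit 0x4000200000001000280030001800040000000000000000000) (nat_lit 0x0) (nat_lit 0x400020018003c00008000000080004000000000000000) := T_16 (nat_lit 79) (nat_lit 62) (nat_lit 6) (nat_lit 10) (nat_lit 7) L29547 (by decide +kernel)
theorem L29549 : W_16 (nat_lit 8) (nat_lit 0x4000200000001000280030000800040000000000000000000) (nat_lit 0x0) (nat_lit 0x400020018003c0000800f4003b800d000000000000000) := Q_16 (nat_lit 96) (C_16 L29532 (C_16 L29526 (C_16 L29523 (C_16 L29548 N_16)))) (by decide +kernel)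
theorem L29550 : W_16 (nat_lit 9) (nat_lit 0x4000200000001000280030000800000000000000000000000) (nat_lit 0x0) (nat_lit 0x400020018003c0000800f4003f800f000300008000000) := Q_16 (nat_lit 78) (C_16 L29549 (C_16 L29518 (C_16 L29543 N_16))) (by decide +kernel)
theorem L29551 : W_16 (nat_lit 2) (nat_lit 0x40002000200010002800300008000c0000000000000000000) (nat_lit 0x0) (nat_lit 0x8000400000000000000002000000000000000) := D_16 (nat_lit 130) (nat_lit 61) (nat_lit 147) (nat_lit 7) (nat_lit 10) (nat_lit 3) (nat_lit 7) (nat_lit 10) (nat_lit 4) (by decide +kernel)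
theorem L29552 : W_16 (nat_lit 3) (nat_lit 0x40002000200010002800300000000c0000000000000000000) (nat_lit 0x0) (nat_lit 0x8000400000000800000006000000000000000) := T_16 (nat_lit 95) (nat_lit 62) (nat_lit 6) (nat_lit 10) (nat_lit 7) L29551 (by decide +kernel)
theorem L29553 : W_16 (nat_lit 4) (nat_lit 0x40002000000010002800300000000c0000000000000000000) (nat_lit 0x0) (nat_lit 0x400020008000400000000800000006000000000000000) := T_16 (nat_lit 161) (nat_lit 178) (nat_lit 5) (nat_lit 8) (nat_lit 7) L29552 (by decide +kernel)
theorem L29554 : W_16 (nat_lit 4) (nat_lit 0x40002000000010002800300000000c0000000000000000000) (nat_lit 0x0) (nat_lit 0x400000000800020007000080000000000) := T_16 (nat_lit 95) (nat_lit 62) (nat_lit 6) (nat_lit 10) (nat_lit 7) L29514 (by decide +kernel)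
theorem L29555 : W_16 (nat_lit 4) (nat_lit 0x40002000000010002800300008000c0000000000000000000) (nat_lit 0x0) (nat_lit 0x140008000400020003000000000000000) := T_16 (nat_lit 77) (nat_lit 60) (nat_lit 4) (nat_lit 10) (nat_lit 7) L29517 (by decide +kernel)
theorem L29556 : W_16 (nat_lit 5) (nat_lit 0x40002000000010002800300000000c0000000000000000000) (nat_lit 0x0) (nat_lit 0x140008000c00020007000000000000000) := T_16 (nat_lit 95) (nat_lit 62) (nat_lit 6) (nat_lit 10) (nat_lit 7) L29555 (by decide +kernel)
theorem L29557 : W_16 (nat_lit 2) (nat_lit 0x40002000200010002800300020001f0008000000000000000) (nat_lit 0x0) (nat_lit 0x700000000000000000000000) := D_16 (nat_lit 93) (nat_lit 92) (nat_lit 94) (nat_lit 1) (nat_lit 11) (nat_lit 4) (nat_lit 1) (nat_lit 12) (nat_lit 4) (by decide +kernel)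
theorem L29558 : W_16 (nat_lit 3) (nat_lit 0x40002000200010002800300020001e0008000000000000000) (nat_lit 0x0) (nat_lit 0x700010004000000000000000) := T_16 (nat_lit 76) (nat_lit 62) (nat_lit 2) (nat_lit 8) (nat_lit 4) L29557 (by decide +kernel)
theorem L29559 : W_16 (nat_lit 4) (nat_lit 0x40002000200010002800300020001e0000000000000000000) (nat_lit 0x0) (nat_lit 0x70001001c000000000000000) := T_16 (nat_lit 63) (nat_lit 64) (nat_lit 2) (nat_lit 9) (nat_lit 4) L29558 (by decide +kernel)
theorem L29560 : W_16 (nat_lit 5) (nat_lit 0x40002000200010002800300000001e0000000000000000000) (nat_lit 0x0) (nat_lit 0x670001001c000000000000000) := T_16 (nat_lit 97) (nat_lit 98) (nat_lit 3) (nat_lit 9) (nat_lit 4) L29559 (by decide +kernel)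
theorem L29561 : W_16 (nat_lit 6) (nat_lit 0x40002000000010002800300000001e0000000000000000000) (nat_lit 0x0) (nat_lit 0x40002000000000000000670001001c000000000000000) := T_16 (nat_lit 161) (nat_lit 178) (nat_lit 5) (nat_lit 8) (nat_lit 7) L29560 (by decide +kernel)
theorem L29562 : W_16 (nat_lit 2) (nat_lit 0x40002000000010002800300004001e0000000000000000000) (nat_lit 0x0) (nat_lit 0x8000000000001800000000000000) := D_16 (nat_lit 60) (nat_lit 59) (nat_lit 111) (nat_lit 0) (nat_lit 12) (nat_lit 4) (nat_lit 7) (nat_lit 9) (nat_lit 3) (by decide +kernel)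
theorem L29563 : W_16 (nat_lit 3) (nat_lit 0x40002000000010002800300000001e0000000000000000000) (nat_lit 0x0) (nat_lit 0x8000600000001800000000000000) := T_16 (nat_lit 94) (nat_lit 93) (nat_lit 1) (nat_lit 12) (nat_lit 4) L29562 (by decide +kernel)
theorem L29564 : W_16 (nat_lit 2) (nat_lit 0x40002000200010002800300020001f0008000000000000000) (nat_lit 0x0) (nat_lit 0x1c00000000000000) := D_16 (nat_lit 59) (nat_lit 60) (nat_lit 58) (nat_lit 0) (nat_lit 12) (nat_lit 4) (nat_lit 0) (nat_lit 11) (nat_lit 4) (by decide +kernel)
theorem L29565 : W_16 (nat_lit 3) (nat_lit 0x40002000200010002800300020001e0008000000000000000) (nat_lit 0x0) (nat_lit 0x10005c00000000000000) := T_16 (nat_lit 76) (nat_lit 62) (nat_lit 2) (nat_lit 8) (nat_lit 4) L29564 (by decide +kernel)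
theorem L29566 : W_16 (nat_lit 4) (nat_lit 0x40002000200010002800300020001e0000000000000000000) (nat_lit 0x0) (nat_lit 0x1001dc00000000000000) := T_16 (nat_lit 63) (nat_lit 64) (nat_lit 2) (nat_lit 9) (nat_lit 4) L29565 (by decide +kernel)
theorem L29567 : W_16 (nat_lit 5) (nat_lit 0x40002000000010002800300020001e0000000000000000000) (nat_lit 0x0) (nat_lit 0x40002000000000000000000001001dc00000000000000) := T_16 (nat_lit 161) (nat_lit 178) (nat_lit 5) (nat_lit 8) (nat_lit 7) L29566 (by decide +kernel)
theorem L29568 : W_16 (nat_lit 6) (nat_lit 0x40002000000010002800300000001e0000000000000000000) (nat_lit 0x0) (nat_lit 0x40002000000000000000600001001dc00000000000000) := T_16 (nat_lit 97) (nat_lit 98) (nat_lit 3) (nat_lit 9) (nat_lit 4) L29567 (by decide +kernel)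
theorem L29569 : W_16 (nat_lit 7) (nat_lit 0x40002000000010002800300000000e0000000000000000000) (nat_lit 0x0) (nat_lit 0x40002000000000000800670011001dc00000000000000) := Q_16 (nat_lit 80) (C_16 L29561 (C_16 L29563 (C_16 L29568 N_16))) (by decide +kernel)
theorem L29570 : W_16 (nat_lit 2) (nat_lit 0x40002000000010003800300024003e0001000000000000000) (nat_lit 0x0) (nat_lit 0x38000000000000000) := D_16 (nat_lit 64) (nat_lit 63) (nat_lit 65) (nat_lit 2) (nat_lit 9) (nat_lit 4) (nat_lit 2) (nat_lit 10) (nat_lit 4) (by decide +kernel)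
theorem L29571 : W_16 (nat_lit 3) (nat_lit 0x40002000000010003800300024001e0001000000000000000) (nat_lit 0x0) (nat_lit 0x20003a000000000000000) := T_16 (nat_lit 81) (nat_lit 61) (nat_lit 0) (nat_lit 13) (nat_lit 4) L29570 (by decide +kernel)
theorem L29572 : W_16 (nat_lit 4) (nat_lit 0x40002000000010003800300004001e0001000000000000000) (nat_lit 0x0) (nat_lit 0x600020003a000000000000000) := T_16 (nat_lit 97) (nat_lit 98) (nat_lit 3) (nat_lit 9) (nat_lit 4) L29571 (by decide +kernel)
theorem L29573 : W_16 (nat_lit 5) (nat_lit 0x40002000000010003800300004001e0000000000000000000) (nat_lit 0x0) (nat_lit 0x600020003b800000000000000) := T_16 (nat_lit 60) (nat_lit 59) (nat_lit 0) (nat_lit 12) (nat_lit 4) L29572 (by decide +kernel)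
theorem L29574 : W_16 (nat_lit 6) (nat_lit 0x40002000000010003800300004000e0000000000000000000) (nat_lit 0x0) (nat_lit 0x620030003b800000000000000) := T_16 (nat_lit 80) (nat_lit 93) (nat_lit 1) (nat_lit 12) (nat_lit 4) L29573 (by decide +kernel)
theorem L29575 : W_16 (nat_lit 7) (nat_lit 0x40002000000010003800300000000e0000000000000000000) (nat_lit 0x0) (nat_lit 0x800660030003b800000000000000) := T_16 (nat_lit 94) (nat_lit 111) (nat_lit 5) (nat_lit 9) (nat_lit 4) L29574 (by decide +kernel)
theorem L29576 : W_16 (nat_lit 8) (nat_lit 0x40002000000010002800300000000e0000000000000000000) (nat_lit 0x0) (nat_lit 0x14000800660030003b800000000000000) := T_16 (nat_lit 128) (nat_lit 126) (nat_lit 2) (nat_lit 7) (nat_lit 7) L29575 (by decide +kernel)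
theorem L29577 : W_16 (nat_lit 2) (nat_lit 0x40002000000010002800300020001f0008000000000000000) (nat_lit 0x0) (nat_lit 0x700000000000000000000000) := D_16 (nat_lit 93) (nat_lit 92) (nat_lit 94) (nat_lit 1) (nat_lit 11) (nat_lit 4) (nat_lit 1) (nat_lit 12) (nat_lit 4) (by decide +kernel)
theorem L29578 : W_16 (nat_lit 3) (nat_lit 0x40002000000010002800300020001e0008000000000000000) (nat_lit 0x0) (nat_lit 0x700010004000000000000000) := T_16 (nat_lit 76) (nat_lit 62) (nat_lit 2) (nat_lit 8) (nat_lit 4) L29577 (by decide +kernel)
theorem L29579 : W_16 (nat_lit 4) (nat_lit 0x40002000000010002800300020001e0000000000000000000) (nat_lit 0x0) (nat_lit 0x70001001c000000000000000) := T_16 (nat_lit 63) (nat_lit 64) (nat_lit 2) (nat_lit 9) (nat_lit 4) L29578 (by decide +kernel)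
theorem L29580 : W_16 (nat_lit 5) (nat_lit 0x40002000000010002800300000001e0000000000000000000) (nat_lit 0x0) (nat_lit 0x670001001c000000000000000) := T_16 (nat_lit 97) (nat_lit 98) (nat_lit 3) (nat_lit 9) (nat_lit 4) L29579 (by decide +kernel)
theorem L29581 : W_16 (nat_lit 2) (nat_lit 0x40002000200010002800300024001e0011000000000000000) (nat_lit 0x0) (nat_lit 0x200022000000000000000) := D_16 (nat_lit 81) (nat_lit 65) (nat_lit 61) (nat_lit 2) (nat_lit 10) (nat_lit 4) (nat_lit 0) (nat_lit 13) (nat_lit 4) (by decide +kernel)
theorem L29582 : W_16 (nat_lit 3) (nat_lit 0x40002000200010002800300024001e0010000000000000000) (nat_lit 0x0) (nat_lit 0x200023800000000000000) := T_16 (nat_lit 60) (nat_lit 59) (nat_lit 0) (nat_lit 12) (nat_lit 4) L29581 (by decide +kernel)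
theorem L29583 : W_16 (nat_lit 4) (nat_lit 0x40002000200010002800300024001e0000000000000000000) (nat_lit 0x0) (nat_lit 0x20003b800000000000000) := T_16 (nat_lit 64) (nat_lit 63) (nat_lit 2) (nat_lit 9) (nat_lit 4) L29582 (by decide +kernel)
theorem L29584 : W_16 (nat_lit 5) (nat_lit 0x40002000200010002800300004001e0000000000000000000) (nat_lit 0x0) (nat_lit 0x600020003b800000000000000) := T_16 (nat_lit 97) (nat_lit 98) (nat_lit 3) (nat_lit 9) (nat_lit 4) L29583 (by decide +kernel)
theorem L29585 : W_16 (nat_lit 6) (nat_lit 0x40002000000010002800300004001e0000000000000000000) (nat_lit 0x0) (nat_lit 0x40002000000000000000600020003b800000000000000) := T_16 (nat_lit 161) (nat_lit 178) (nat_lit 5) (nat_lit 8) (nat_lit 7) L29584 (by decide +kernel)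
theorem L29586 : W_16 (nat_lit 7) (nat_lit 0x40002000000010002800300000001e0000000000000000000) (nat_lit 0x0) (nat_lit 0x40002000000000000000660020003b800000000000000) := T_16 (nat_lit 94) (nat_lit 93) (nat_lit 1) (nat_lit 12) (nat_lit 4) L29585 (by decide +kernel)
theorem L29587 : W_16 (nat_lit 2) (nat_lit 0x40002000000010002800300000001f0008000000000000000) (nat_lit 0x0) (nat_lit 0x700000000000000000000000) := D_16 (nat_lit 93) (nat_lit 92) (nat_lit 94) (nat_lit 1) (nat_lit 11) (nat_lit 4) (nat_lit 1) (nat_lit 12) (nat_lit 4) (by decide +kernel)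
theorem L29588 : W_16 (nat_lit 3) (nat_lit 0x40002000000010002800300000001e0008000000000000000) (nat_lit 0x0) (nat_lit 0x700010004000000000000000) := T_16 (nat_lit 76) (nat_lit 62) (nat_lit 2) (nat_lit 8) (nat_lit 4) L29587 (by decide +kernel)
theorem L29589 : W_16 (nat_lit 4) (nat_lit 0x40002000000010002800300000001e0000000000000000000) (nat_lit 0x0) (nat_lit 0x70001001c000000000000000) := T_16 (nat_lit 63) (nat_lit 64) (nat_lit 2) (nat_lit 9) (nat_lit 4) L29588 (by decide +kernel)
theorem L29590 : W_16 (nat_lit 2) (nat_lit 0x40002000200010002800300022001f0003000000000000000) (nat_lit 0x0) (nat_lit 0xc004000000000000000) := D_16 (nat_lit 75) (nat_lit 74) (nat_lit 62) (nat_lit 2) (nat_lit 6) (nat_lit 4) (nat_lit 2) (nat_lit 7) (nat_lit 4) (by decide +kernel)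
theorem L29591 : W_16 (nat_lit 3) (nat_lit 0x40002000200010002800300022001f0001000000000000000) (nat_lit 0x0) (nat_lit 0x20c006000000000000000) := T_16 (nat_lit 61) (nat_lit 81) (nat_lit 0) (nat_lit 13) (nat_lit 4) L29590 (by decide +kernel)
theorem L29592 : W_16 (nat_lit 4) (nat_lit 0x40002000200010002800300022001e0001000000000000000) (nat_lit 0x0) (nat_lit 0x10021c006000000000000000) := T_16 (nat_lit 76) (nat_lit 92) (nat_lit 1) (nat_lit 11) (nat_lit 4) L29591 (by decide +kernel)
theorem L29593 : W_16 (nat_lit 5) (nat_lit 0x40002000200010002800300022001e0000000000000000000) (nat_lit 0x0) (nat_lit 0x10021c007800000000000000) := T_16 (nat_lit 60) (nat_lit 59) (nat_lit 0) (nat_lit 12) (nat_lit 4) L29592 (by decide +kernel)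
theorem L29594 : W_16 (nat_lit 6) (nat_lit 0x40002000200010002800300020001e0000000000000000000) (nat_lit 0x0) (nat_lit 0x70021c007800000000000000) := T_16 (nat_lit 93) (nat_lit 94) (nat_lit 1) (nat_lit 12) (nat_lit 4) L29593 (by decide +kernel)
theorem L29595 : W_16 (nat_lit 7) (nat_lit 0x40002000200010002800300000001e0000000000000000000) (nat_lit 0x0) (nat_lit 0x670021c007800000000000000) := T_16 (nat_lit 97) (nat_lit 98) (nat_lit 3) (nat_lit 9) (nat_lit 4) L29594 (by decide +kernel)
theorem L29596 : W_16 (nat_lit 8) (nat_lit 0x40002000000010002800300000001e0000000000000000000) (nat_lit 0x0) (nat_lit 0x40002000000000000000670021c007800000000000000) := T_16 (nat_lit 161) (nat_lit 178) (nat_lit 5) (nat_lit 8) (nat_lit 7) L29595 (by decide +kernel)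
theorem L29597 : W_16 (nat_lit 9) (nat_lit 0x40002000000010002800300000000e0000000000000000000) (nat_lit 0x0) (nat_lit 0x40002000000000000000670031c03fc00000000000000) := Q_16 (nat_lit 80) (C_16 L29568 (C_16 L29580 (C_16 L29586 (C_16 L29589 (C_16 L29596 N_16))))) (by decide +kernel)
theorem L29598 : W_16 (nat_lit 2) (nat_lit 0x40002000000010002c00300000001f0008000000000000000) (nat_lit 0x0) (nat_lit 0x1c00000000000000) := D_16 (nat_lit 59) (nat_lit 60) (nat_lit 58) (nat_lit 0) (nat_lit 12) (nat_lit 4) (nat_lit 0) (nat_lit 11) (nat_lit 4) (by decide +kernel)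
theorem L29599 : W_16 (nat_lit 3) (nat_lit 0x40002000000010002c00300000001e0008000000000000000) (nat_lit 0x0) (nat_lit 0x10005c00000000000000) := T_16 (nat_lit 76) (nat_lit 62) (nat_lit 2) (nat_lit 8) (nat_lit 4) L29598 (by decide +kernel)
theorem L29600 : W_16 (nat_lit 4) (nat_lit 0x40002000000010002c00300000001e0000000000000000000) (nat_lit 0x0) (nat_lit 0x1001dc00000000000000) := T_16 (nat_lit 63) (nat_lit 64) (nat_lit 2) (nat_lit 9) (nat_lit 4) L29599 (by decide +kernel)
theorem L29601 : W_16 (nat_lit 5) (nat_lit 0x40002000000010002800300000001e0000000000000000000) (nat_lit 0x0) (nat_lit 0x14000000000001001dc00000000000000) := T_16 (nat_lit 126) (nat_lit 128) (nat_lit 2) (nat_lit 7) (nat_lit 7) L29600 (by decide +kernel)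
theorem L29602 : W_16 (nat_lit 2) (nat_lit 0x40002000200010002800300000003e0001000000000000000) (nat_lit 0x0) (nat_lit 0xe000000000000000000000000) := D_16 (nat_lit 98) (nat_lit 97) (nat_lit 99) (nat_lit 3) (nat_lit 9) (nat_lit 4) (nat_lit 3) (nat_lit 10) (nat_lit 4) (by decide +kernel)
theorem L29603 : W_16 (nat_lit 3) (nat_lit 0x40002000200010002800300000001e0001000000000000000) (nat_lit 0x0) (nat_lit 0xe000200002000000000000000) := T_16 (nat_lit 81) (nat_lit 61) (nat_lit 0) (nat_lit 13) (nat_lit 4) L29602 (by decide +kernel)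
theorem L29604 : W_16 (nat_lit 4) (nat_lit 0x40002000000010002800300000001e0001000000000000000) (nat_lit 0x0) (nat_lit 0x40002000000000000000e000200002000000000000000) := T_16 (nat_lit 161) (nat_lit 178) (nat_lit 5) (nat_lit 8) (nat_lit 7) L29603 (by decide +kernel)
theorem L29605 : W_16 (nat_lit 5) (nat_lit 0x40002000000010002800300000001e0000000000000000000) (nat_lit 0x0) (nat_lit 0x40002000000000000000e000200003800000000000000) := T_16 (nat_lit 60) (nat_lit 59) (nat_lit 0) (nat_lit 12) (nat_lit 4) L29604 (by decide +kernel)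
theorem L29606 : W_16 (nat_lit 2) (nat_lit 0x40002000200010002c00300001001f0008000000000000000) (nat_lit 0x0) (nat_lit 0x2000080008000000000000000000) := D_16 (nat_lit 75) (nat_lit 91) (nat_lit 109) (nat_lit 1) (nat_lit 10) (nat_lit 4) (nat_lit 7) (nat_lit 7) (nat_lit 4) (by decide +kernel)
theorem L29607 : W_16 (nat_lit 3) (nat_lit 0x40002000200010002c00300000001f0008000000000000000) (nat_lit 0x0) (nat_lit 0x2000380008000000000000000000) := T_16 (nat_lit 92) (nat_lit 93) (nat_lit 1) (nat_lit 11) (nat_lit 4) L29606 (by decide +kernel)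
theorem L29608 : W_16 (nat_lit 4) (nat_lit 0x40002000200010002c00300000001e0008000000000000000) (nat_lit 0x0) (nat_lit 0x2000380018004000000000000000) := T_16 (nat_lit 76) (nat_lit 62) (nat_lit 2) (nat_lit 8) (nat_lit 4) L29607 (by decide +kernel)
theorem L29609 : W_16 (nat_lit 5) (nat_lit 0x40002000200010002c00300000001e0000000000000000000) (nat_lit 0x0) (nat_lit 0x200038001801c000000000000000) := T_16 (nat_lit 63) (nat_lit 64) (nat_lit 2) (nat_lit 9) (nat_lit 4) L29608 (by decide +kernel)
theorem L29610 : W_16 (nat_lit 6) (nat_lit 0x40002000000010002c00300000001e0000000000000000000) (nat_lit 0x0) (nat_lit 0x40002000000000000200038001801c000000000000000) := T_16 (nat_lit 161) (nat_lit 178) (nat_lit 5) (nat_lit 8) (nat_lit 7) L29609 (by decide +kernel)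
theorem L29611 : W_16 (nat_lit 7) (nat_lit 0x40002000000010002800300000001e0000000000000000000) (nat_lit 0x0) (nat_lit 0x40002000000014000200038001801c000000000000000) := T_16 (nat_lit 126) (nat_lit 128) (nat_lit 2) (nat_lit 7) (nat_lit 7) L29610 (by decide +kernel)
theorem L29612 : W_16 (nat_lit 8) (nat_lit 0x40002000000010002800300000000e0000000000000000000) (nat_lit 0x0) (nat_lit 0x40002000000014000200e38031801fc00000000000000) := Q_16 (nat_lit 80) (C_16 L29568 (C_16 L29601 (C_16 L29605 (C_16 L29611 N_16)))) (by decide +kernel)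
theorem L29613 : W_16 (nat_lit 2) (nat_lit 0x40002000200010002c00300020001f8008400000000000000) (nat_lit 0x0) (nat_lit 0x2000180000000000000000000000) := D_16 (nat_lit 92) (nat_lit 91) (nat_lit 109) (nat_lit 1) (nat_lit 10) (nat_lit 4) (nat_lit 7) (nat_lit 7) (nat_lit 4) (by decide +kernel)
theorem L29614 : W_16 (nat_lit 3) (nat_lit 0x40002000200010002800300020001f8008400000000000000) (nat_lit 0x0) (nat_lit 0x140002000180000000000000000000000) := T_16 (nat_lit 126) (nat_lit 128) (nat_lit 2) (nat_lit 7) (nat_lit 7) L29613 (by decide +kernel)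
theorem L29615 : W_16 (nat_lit 4) (nat_lit 0x40002000200010002800300020001f0008400000000000000) (nat_lit 0x0) (nat_lit 0x140002000180008000200000000000000) := T_16 (nat_lit 75) (nat_lit 57) (nat_lit 0) (nat_lit 10) (nat_lit 4) L29614 (by decide +kernel)
theorem L29616 : W_16 (nat_lit 5) (nat_lit 0x40002000000010002800300020001f0008400000000000000) (nat_lit 0x0) (nat_lit 0x400020000000140002000180008000200000000000000) := T_16 (nat_lit 161) (nat_lit 178) (nat_lit 5) (nat_lit 8) (nat_lit 7) L29615 (by decide +kernel)
theorem L29617 : W_16 (nat_lit 6) (nat_lit 0x40002000000010002800300020001f0008000000000000000) (nat_lit 0x0) (nat_lit 0x400020000000140002000180008000e00000000000000) := T_16 (nat_lit 58) (nat_lit 59) (nat_lit 0) (nat_lit 11) (nat_lit 4) L29616 (by decide +kernel)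
theorem L29618 : W_16 (nat_lit 7) (nat_lit 0x40002000000010002800300020001e0008000000000000000) (nat_lit 0x0) (nat_lit 0x400020000000140002000180018004e00000000000000) := T_16 (nat_lit 76) (nat_lit 62) (nat_lit 2) (nat_lit 8) (nat_lit 4) L29617 (by decide +kernel)
theorem L29619 : W_16 (nat_lit 8) (nat_lit 0x40002000000010002800300020001e0000000000000000000) (nat_lit 0x0) (nat_lit 0x40002000000014000200018001801ce00000000000000) := T_16 (nat_lit 63) (nat_lit 64) (nat_lit 2) (nat_lit 9) (nat_lit 4) L29618 (by decide +kernel)
theorem L29620 : W_16 (nat_lit 9) (nat_lit 0x40002000000010002800300000001e0000000000000000000) (nat_lit 0x0) (nat_lit 0x40002000000014000200618001801ce00000000000000) := T_16 (nat_lit 97) (nat_lit 98) (nat_lit 3) (nat_lit 9) (nat_lit 4) L29619 (by decide +kernel)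
theorem L29621 : W_16 (nat_lit 2) (nat_lit 0x40002000200010002800300040003e000c000000000000000) (nat_lit 0x0) (nat_lit 0x400003000000000000000) := D_16 (nat_lit 61) (nat_lit 60) (nat_lit 82) (nat_lit 3) (nat_lit 9) (nat_lit 3) (nat_lit 0) (nat_lit 14) (nat_lit 4) (by decide +kernel)
theorem L29622 : W_16 (nat_lit 3) (nat_lit 0x40002000200010002800300040001e000c000000000000000) (nat_lit 0x0) (nat_lit 0x8000600003000000000000000) := T_16 (nat_lit 81) (nat_lit 99) (nat_lit 3) (nat_lit 10) (nat_lit 4) L29621 (by decide +kernel)
theorem L29623 : W_16 (nat_lit 4) (nat_lit 0x40002000200010002800300040001e0008000000000000000) (nat_lit 0x0) (nat_lit 0x8000610007000000000000000) := T_16 (nat_lit 62) (nat_lit 76) (nat_lit 2) (nat_lit 8) (nat_lit 4) L29622 (by decide +kernel)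
theorem L29624 : W_16 (nat_lit 5) (nat_lit 0x40002000200010002800300040001e0000000000000000000) (nat_lit 0x0) (nat_lit 0x800061001f000000000000000) := T_16 (nat_lit 63) (nat_lit 64) (nat_lit 2) (nat_lit 9) (nat_lit 4) L29623 (by decide +kernel)
theorem L29625 : W_16 (nat_lit 6) (nat_lit 0x40002000200010002800300000001e0000000000000000000) (nat_lit 0x0) (nat_lit 0xe00061001f000000000000000) := T_16 (nat_lit 98) (nat_lit 97) (nat_lit 3) (nat_lit 9) (nat_lit 4) L29624 (by decide +kernel)
theorem L29626 : W_16 (nat_lit 7) (nat_lit 0x40002000000010002800300000001e0000000000000000000) (nat_lit 0x0) (nat_lit 0x40002000000000000000e00061001f000000000000000) := T_16 (nat_lit 161) (nat_lit 178) (nat_lit 5) (nat_lit 8) (nat_lit 7) L29625 (by decide +kernel)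
theorem L29627 : W_16 (nat_lit 10) (nat_lit 0x40002000000010002800300000000e0000000000000000000) (nat_lit 0x0) (nat_lit 0x40002000000014000200e18071801fe00000000000000) := Q_16 (nat_lit 80) (C_16 L29605 (C_16 L29601 (C_16 L29620 (C_16 L29626 N_16)))) (by decide +kernel)
theorem L29628 : W_16 (nat_lit 2) (nat_lit 0x40002000200010003800300044003e000c000000000000000) (nat_lit 0x0) (nat_lit 0xc00002000000000000000) := D_16 (nat_lit 82) (nat_lit 83) (nat_lit 61) (nat_lit 0) (nat_lit 15) (nat_lit 4) (nat_lit 0) (nat_lit 14) (nat_lit 4) (by decide +kernel)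
theorem L29629 : W_16 (nat_lit 3) (nat_lit 0x40002000200010003800300044001e000c000000000000000) (nat_lit 0x0) (nat_lit 0x8000e00002000000000000000) := T_16 (nat_lit 81) (nat_lit 99) (nat_lit 3) (nat_lit 10) (nat_lit 4) L29628 (by decide +kernel)
theorem L29630 : W_16 (nat_lit 4) (nat_lit 0x40002000200010003800300004001e000c000000000000000) (nat_lit 0x0) (nat_lit 0xe000e00002000000000000000) := T_16 (nat_lit 98) (nat_lit 97) (nat_lit 3) (nat_lit 9) (nat_lit 4) L29629 (by decide +kernel)
theorem L29631 : W_16 (nat_lit 5) (nat_lit 0x40002000200010003800300004001e0008000000000000000) (nat_lit 0x0) (nat_lit 0xe000e10006000000000000000) := T_16 (nat_lit 62) (nat_lit 76) (nat_lit 2) (nat_lit 8) (nat_lit 4) L29630 (by decide +kernel)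
theorem L29632 : W_16 (nat_lit 6) (nat_lit 0x40002000200010003800300004001e0000000000000000000) (nat_lit 0x0) (nat_lit 0xe000e1001e000000000000000) := T_16 (nat_lit 63) (nat_lit 64) (nat_lit 2) (nat_lit 9) (nat_lit 4) L29631 (by decide +kernel)
theorem L29633 : W_16 (nat_lit 7) (nat_lit 0x40002000200010003800300004000e0000000000000000000) (nat_lit 0x0) (nat_lit 0xe200f1001e000000000000000) := T_16 (nat_lit 80) (nat_lit 93) (nat_lit 1) (nat_lit 12) (nat_lit 4) L29632 (by decide +kernel)
theorem L29634 : W_16 (nat_lit 8) (nat_lit 0x40002000200010003800300000000e0000000000000000000) (nat_lit 0x0) (nat_lit 0x800e600f1001e000000000000000) := T_16 (nat_lit 94) (nat_lit 111) (nat_lit 5) (nat_lit 9) (nat_lit 4) L29633 (by decide +kernel)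
theorem L29635 : W_16 (nat_lit 9) (nat_lit 0x40002000200010002800300000000e0000000000000000000) (nat_lit 0x0) (nat_lit 0x14000800e600f1001e000000000000000) := T_16 (nat_lit 128) (nat_lit 126) (nat_lit 2) (nat_lit 7) (nat_lit 7) L29634 (by decide +kernel)
theorem L29636 : W_16 (nat_lit 10) (nat_lit 0x40002000000010002800300000000e0000000000000000000) (nat_lit 0x0) (nat_lit 0x40002000000014000800e600f1001e000000000000000) := T_16 (nat_lit 161) (nat_lit 178) (nat_lit 5) (nat_lit 8) (nat_lit 7) L29635 (by decide +kernel)
theorem L29637 : W_16 (nat_lit 2) (nat_lit 0x40002000200010003800300004007e000d000000000000000) (nat_lit 0x0) (nat_lit 0x1c000000000000000000000000) := D_16 (nat_lit 99) (nat_lit 98) (nat_lit 100) (nat_lit 3) (nat_lit 10) (nat_lit 4) (nat_lit 3) (nat_lit 11) (nat_lit 4) (by decide +kernel)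
theorem L29638 : W_16 (nat_lit 3) (nat_lit 0x40002000200010003800300004003e000d000000000000000) (nat_lit 0x0) (nat_lit 0x1c000c00000000000000000000) := T_16 (nat_lit 82) (nat_lit 83) (nat_lit 0) (nat_lit 15) (nat_lit 4) L29637 (by decide +kernel)
theorem L29639 : W_16 (nat_lit 4) (nat_lit 0x40002000200010003800300004001e000d000000000000000) (nat_lit 0x0) (nat_lit 0x1c000e00002000000000000000) := T_16 (nat_lit 81) (nat_lit 61) (nat_lit 3) (nat_lit 9) (nat_lit 3) L29638 (by decide +kernel)
theorem L29640 : W_16 (nat_lit 5) (nat_lit 0x40002000200010003800300004001e0009000000000000000) (nat_lit 0x0) (nat_lit 0x1c000e10006000000000000000) := T_16 (nat_lit 62) (nat_lit 76) (nat_lit 2) (nat_lit 8) (nat_lit 4) L29639 (by decide +kernel)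
theorem L29641 : W_16 (nat_lit 6) (nat_lit 0x40002000200010003800300004001e0001000000000000000) (nat_lit 0x0) (nat_lit 0x1c000e1001e000000000000000) := T_16 (nat_lit 63) (nat_lit 64) (nat_lit 2) (nat_lit 9) (nat_lit 4) L29640 (by decide +kernel)
theorem L29642 : W_16 (nat_lit 7) (nat_lit 0x40002000200010003800300004001e0000000000000000000) (nat_lit 0x0) (nat_lit 0x1c000e1001f800000000000000) := T_16 (nat_lit 60) (nat_lit 59) (nat_lit 0) (nat_lit 12) (nat_lit 4) L29641 (by decide +kernel)
theorem L29643 : W_16 (nat_lit 8) (nat_lit 0x40002000200010003800300004000e0000000000000000000) (nat_lit 0x0) (nat_lit 0x1c200f1001f800000000000000) := T_16 (nat_lit 80) (nat_lit 93) (nat_lit 1) (nat_lit 12) (nat_lit 4) L29642 (by decide +kernel)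
theorem L29644 : W_16 (nat_lit 9) (nat_lit 0x40002000200010003800300000000e0000000000000000000) (nat_lit 0x0) (nat_lit 0x801c600f1001f800000000000000) := T_16 (nat_lit 94) (nat_lit 111) (nat_lit 5) (nat_lit 9) (nat_lit 4) L29643 (by decide +kernel)
theorem L29645 : W_16 (nat_lit 10) (nat_lit 0x40002000000010003800300000000e0000000000000000000) (nat_lit 0x0) (nat_lit 0x40002000000000000801c600f1001f800000000000000) := T_16 (nat_lit 161) (nat_lit 178) (nat_lit 5) (nat_lit 8) (nat_lit 7) L29644 (by decide +kernel)
theorem L29646 : W_16 (nat_lit 11) (nat_lit 0x40002000000010002800300000000e0000000000000000000) (nat_lit 0x0) (nat_lit 0x40002000000014000801c600f1001f800000000000000) := T_16 (nat_lit 128) (nat_lit 126) (nat_lit 2) (nat_lit 7) (nat_lit 7) L29645 (by decide +kernel)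
theorem L29647 : W_16 (nat_lit 2) (nat_lit 0x40002000000010002c00300000000f8004000000000000000) (nat_lit 0x0) (nat_lit 0x380000000000000000000000) := D_16 (nat_lit 92) (nat_lit 91) (nat_lit 93) (nat_lit 1) (nat_lit 10) (nat_lit 4) (nat_lit 1) (nat_lit 11) (nat_lit 4) (by decide +kernel)
theorem L29648 : W_16 (nat_lit 3) (nat_lit 0x40002000000010002c00300000000f0004000000000000000) (nat_lit 0x0) (nat_lit 0x380008002000000000000000) := T_16 (nat_lit 75) (nat_lit 61) (nat_lit 2) (nat_lit 7) (nat_lit 4) L29647 (by decide +kernel)
theorem L29649 : W_16 (nat_lit 4) (nat_lit 0x40002000000010002c00300000000f0000000000000000000) (nat_lit 0x0) (nat_lit 0x38000800e000000000000000) := T_16 (nat_lit 62) (nat_lit 63) (nat_lit 2) (nat_lit 8) (nat_lit 4) L29648 (by decide +kernel)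
theorem L29650 : W_16 (nat_lit 5) (nat_lit 0x40002000000010002800300000000f0000000000000000000) (nat_lit 0x0) (nat_lit 0x14000000038000800e000000000000000) := T_16 (nat_lit 126) (nat_lit 128) (nat_lit 2) (nat_lit 7) (nat_lit 7) L29649 (by decide +kernel)
theorem L29651 : W_16 (nat_lit 2) (nat_lit 0x40002000000010002800300002000f8004000000000000000) (nat_lit 0x0) (nat_lit 0xe00000000000000) := D_16 (nat_lit 58) (nat_lit 57) (nat_lit 59) (nat_lit 0) (nat_lit 10) (nat_lit 4) (nat_lit 0) (nat_lit 11) (nat_lit 4) (by decide +kernel)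
theorem L29652 : W_16 (nat_lit 3) (nat_lit 0x40002000000010002800300002000f0004000000000000000) (nat_lit 0x0) (nat_lit 0x8002e00000000000000) := T_16 (nat_lit 75) (nat_lit 61) (nat_lit 2) (nat_lit 7) (nat_lit 4) L29651 (by decide +kernel)
theorem L29653 : W_16 (nat_lit 4) (nat_lit 0x40002000000010002800300002000f0000000000000000000) (nat_lit 0x0) (nat_lit 0x800ee00000000000000) := T_16 (nat_lit 62) (nat_lit 63) (nat_lit 2) (nat_lit 8) (nat_lit 4) L29652 (by decide +kernel)
theorem L29654 : W_16 (nat_lit 5) (nat_lit 0x40002000000010002800300000000f0000000000000000000) (nat_lit 0x0) (nat_lit 0x30000800ee00000000000000) := T_16 (nat_lit 93) (nat_lit 92) (nat_lit 1) (nat_lit 11) (nat_lit 4) L29653 (by decide +kernel)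
theorem L29655 : W_16 (nat_lit 2) (nat_lit 0x40002000000010003800300004000f0006800140000000000) (nat_lit 0x0) (nat_lit 0x10000a0000000000) := D_16 (nat_lit 41) (nat_lit 43) (nat_lit 60) (nat_lit 3) (nat_lit 7) (nat_lit 2) (nat_lit 0) (nat_lit 11) (nat_lit 3) (by decide +kernel)
theorem L29656 : W_16 (nat_lit 3) (nat_lit 0x40002000000010003800300004000f0006800100000000000) (nat_lit 0x0) (nat_lit 0x10000e0002000000) := T_16 (nat_lit 42) (nat_lit 25) (nat_lit 7) (nat_lit 8) (nat_lit 1) L29655 (by decide +kernel)
theorem L29657 : W_16 (nat_lit 4) (nat_lit 0x40002000000010003800300004000f0006800000000000000) (nat_lit 0x0) (nat_lit 0x10001e000a000000) := T_16 (nat_lit 44) (nat_lit 27) (nat_lit 5) (nat_lit 10) (nat_lit 1) L29656 (by decide +kernel)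
theorem L29658 : W_16 (nat_lit 5) (nat_lit 0x40002000000010003800300000000f0006800000000000000) (nat_lit 0x0) (nat_lit 0x80004000000010001e000a000000) := T_16 (nat_lit 94) (nat_lit 111) (nat_lit 6) (nat_lit 9) (nat_lit 7) L29657 (by decide +kernel)
theorem L29659 : W_16 (nat_lit 6) (nat_lit 0x40002000000010003800300000000f0004800000000000000) (nat_lit 0x0) (nat_lit 0x80004000080030001e000a000000) := T_16 (nat_lit 61) (nat_lit 75) (nat_lit 2) (nat_lit 7) (nat_lit 4) L29658 (by decide +kernel)
theorem L29660 : W_16 (nat_lit 7) (nat_lit 0x40002000000010003800300000000f0000800000000000000) (nat_lit 0x0) (nat_lit 0x800040000800f0001e000a000000) := T_16 (nat_lit 62) (nat_lit 63) (nat_lit 2) (nat_lit 8) (nat_lit 4) L29659 (by decide +kernel)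
theorem L29661 : W_16 (nat_lit 8) (nat_lit 0x40002000000010002800300000000f0000800000000000000) (nat_lit 0x0) (nat_lit 0x14000800040000800f0001e000a000000) := T_16 (nat_lit 128) (nat_lit 126) (nat_lit 2) (nat_lit 7) (nat_lit 7) L29660 (by decide +kernel)
theorem L29662 : W_16 (nat_lit 9) (nat_lit 0x40002000000010002800300000000f0000000000000000000) (nat_lit 0x0) (nat_lit 0x14000800040000800fc001e000a000000) := T_16 (nat_lit 59) (nat_lit 58) (nat_lit 0) (nat_lit 11) (nat_lit 4) L29661 (by decide +kernel)
theorem L29663 : W_16 (nat_lit 2) (nat_lit 0x40002000200010002c00300001000f0000800000000000000) (nat_lit 0x0) (nat_lit 0x2000080008000000000000000000) := D_16 (nat_lit 75) (nat_lit 91) (nat_lit 109) (nat_lit 1) (nat_lit 10) (nat_lit 4) (nat_lit 7) (nat_lit 7) (nat_lit 4) (by decide +kernel)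
theorem L29664 : W_16 (nat_lit 3) (nat_lit 0x40002000200010002c00300000000f0000800000000000000) (nat_lit 0x0) (nat_lit 0x2000380008000000000000000000) := T_16 (nat_lit 92) (nat_lit 93) (nat_lit 1) (nat_lit 11) (nat_lit 4) L29663 (by decide +kernel)
theorem L29665 : W_16 (nat_lit 4) (nat_lit 0x40002000200010002800300000000f0000800000000000000) (nat_lit 0x0) (nat_lit 0x140002000380008000000000000000000) := T_16 (nat_lit 126) (nat_lit 128) (nat_lit 2) (nat_lit 7) (nat_lit 7) L29664 (by decide +kernel)
theorem L29666 : W_16 (nat_lit 5) (nat_lit 0x40002000200010002800300000000f0000000000000000000) (nat_lit 0x0) (nat_lit 0x140002000380008000c00000000000000) := T_16 (nat_lit 59) (nat_lit 58) (nat_lit 0) (nat_lit 11) (nat_lit 4) L29665 (by decide +kernel)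
theorem L29667 : W_16 (nat_lit 6) (nat_lit 0x40002000000010002800300000000f0000000000000000000) (nat_lit 0x0) (nat_lit 0x400020000000140002000380008000c00000000000000) := T_16 (nat_lit 161) (nat_lit 178) (nat_lit 5) (nat_lit 8) (nat_lit 7) L29666 (by decide +kernel)
theorem L29668 : W_16 (nat_lit 2) (nat_lit 0x40002000000010003800300006000f00048000e0000000000) (nat_lit 0x0) (nat_lit 0x3000100000000000) := D_16 (nat_lit 61) (nat_lit 44) (nat_lit 60) (nat_lit 3) (nat_lit 7) (nat_lit 2) (nat_lit 0) (nat_lit 11) (nat_lit 3) (by decide +kernel)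
theorem L29669 : W_16 (nat_lit 3) (nat_lit 0x40002000000010003800300006000f00048000c0000000000) (nat_lit 0x0) (nat_lit 0x3000120001000000) := T_16 (nat_lit 41) (nat_lit 24) (nat_lit 4) (nat_lit 8) (nat_lit 5) L29668 (by decide +kernel)
theorem L29670 : W_16 (nat_lit 4) (nat_lit 0x40002000000010003800300006000f0004800040000000000) (nat_lit 0x0) (nat_lit 0x30001a0005000000) := T_16 (nat_lit 43) (nat_lit 26) (nat_lit 6) (nat_lit 8) (nat_lit 5) L29669 (by decide +kernel)
theorem L29671 : W_16 (nat_lit 5) (nat_lit 0x40002000000010003800300006000f0004800000000000000) (nat_lit 0x0) (nat_lit 0x30001e0007000000) := T_16 (nat_lit 42) (nat_lit 25) (nat_lit 7) (nat_lit 8) (nat_lit 1) L29670 (by decide +kernel)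
theorem L29672 : W_16 (nat_lit 6) (nat_lit 0x40002000000010003800300002000f0004800000000000000) (nat_lit 0x0) (nat_lit 0x80004000000030001e0007000000) := T_16 (nat_lit 94) (nat_lit 111) (nat_lit 5) (nat_lit 9) (nat_lit 4) L29671 (by decide +kernel)
theorem L29673 : W_16 (nat_lit 7) (nat_lit 0x40002000000010003800300002000f0004000000000000000) (nat_lit 0x0) (nat_lit 0x8000400000003c001e0007000000) := T_16 (nat_lit 59) (nat_lit 58) (nat_lit 0) (nat_lit 11) (nat_lit 4) L29672 (by decide +kernel)
theorem L29674 : W_16 (nat_lit 8) (nat_lit 0x40002000000010002800300002000f0004000000000000000) (nat_lit 0x0) (nat_lit 0x140008000400000003c001e0007000000) := T_16 (nat_lit 128) (nat_lit 126) (nat_lit 2) (nat_lit 7) (nat_lit 7) L29673 (by decide +kernel)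
theorem L29675 : W_16 (nat_lit 9) (nat_lit 0x40002000000010002800300002000f0000000000000000000) (nat_lit 0x0) (nat_lit 0x14000800040000000fc001e0007000000) := T_16 (nat_lit 62) (nat_lit 63) (nat_lit 2) (nat_lit 8) (nat_lit 4) L29674 (by decide +kernel)
theorem L29676 : W_16 (nat_lit 10) (nat_lit 0x40002000000010002800300000000f0000000000000000000) (nat_lit 0x0) (nat_lit 0x14000800070000000fc001e0007000000) := T_16 (nat_lit 93) (nat_lit 92) (nat_lit 1) (nat_lit 11) (nat_lit 4) L29675 (by decide +kernel)
theorem L29677 : W_16 (nat_lit 11) (nat_lit 0x40002000000010002800300000000e0000000000000000000) (nat_lit 0x0) (nat_lit 0x40002000000014000a00078001800fe001e000f000000) := Q_16 (nat_lit 76) (C_16 L29650 (C_16 L29654 (C_16 L29662 (C_16 L29667 (C_16 L29676 N_16))))) (by decide +kernel)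
theorem L29678 : W_16 (nat_lit 2) (nat_lit 0x40002000200010003800300044001e0001000000000000000) (nat_lit 0x0) (nat_lit 0x8000200002000000000000000) := D_16 (nat_lit 81) (nat_lit 61) (nat_lit 99) (nat_lit 0) (nat_lit 13) (nat_lit 4) (nat_lit 3) (nat_lit 10) (nat_lit 4) (by decide +kernel)
theorem L29679 : W_16 (nat_lit 3) (nat_lit 0x40002000200010003800300004001e0001000000000000000) (nat_lit 0x0) (nat_lit 0xe000200002000000000000000) := T_16 (nat_lit 98) (nat_lit 97) (nat_lit 3) (nat_lit 9) (nat_lit 4) L29678 (by decide +kernel)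
theorem L29680 : W_16 (nat_lit 4) (nat_lit 0x40002000200010003800300004001e0000000000000000000) (nat_lit 0x0) (nat_lit 0xe000200003800000000000000) := T_16 (nat_lit 60) (nat_lit 59) (nat_lit 0) (nat_lit 12) (nat_lit 4) L29679 (by decide +kernel)
theorem L29681 : W_16 (nat_lit 5) (nat_lit 0x40002000200010003800300004000e0000000000000000000) (nat_lit 0x0) (nat_lit 0xe200300003800000000000000) := T_16 (nat_lit 80) (nat_lit 93) (nat_lit 1) (nat_lit 12) (nat_lit 4) L29680 (by decide +kernel)
theorem L29682 : W_16 (nat_lit 6) (nat_lit 0x40002000200010003800300000000e0000000000000000000) (nat_lit 0x0) (nat_lit 0x800e600300003800000000000000) := T_16 (nat_lit 94) (nat_lit 111) (nat_lit 5) (nat_lit 9) (nat_lit 4) L29681 (by decide +kernel)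
theorem L29683 : W_16 (nat_lit 7) (nat_lit 0x40002000200010002800300000000e0000000000000000000) (nat_lit 0x0) (nat_lit 0x14000800e600300003800000000000000) := T_16 (nat_lit 128) (nat_lit 126) (nat_lit 2) (nat_lit 7) (nat_lit 7) L29682 (by decide +kernel)
theorem L29684 : W_16 (nat_lit 8) (nat_lit 0x40002000000010002800300000000e0000000000000000000) (nat_lit 0x0) (nat_lit 0x40002000000014000800e600300003800000000000000) := T_16 (nat_lit 161) (nat_lit 178) (nat_lit 5) (nat_lit 8) (nat_lit 7) L29683 (by decide +kernel)
theorem L29685 : W_16 (nat_lit 12) (nat_lit 0x40002000000010002800300000000c0000000000000000000) (nat_lit 0x0) (nat_lit 0x40002000000014000a01e780f3c03fe001e000f000000) := Q_16 (nat_lit 77) (C_16 L29569 (C_16 L29576 (C_16 L29597 (C_16 L29612 (C_16 L29627 (C_16 L29636 (C_16 L29646 (C_16 L29677 (C_16 L29684 N_16))))))))) (by decide +kernel)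
theorem L29686 : W_16 (nat_lit 2) (nat_lit 0x40002000000010002800300008000c0000000000000000000) (nat_lit 0x0) (nat_lit 0x8000400000000000000002000000000000000) := D_16 (nat_lit 130) (nat_lit 147) (nat_lit 61) (nat_lit 7) (nat_lit 10) (nat_lit 4) (nat_lit 7) (nat_lit 10) (nat_lit 3) (by decide +kernel)
theorem L29687 : W_16 (nat_lit 2) (nat_lit 0x4000200020001000780030000c000e0000000000000000000) (nat_lit 0x0) (nat_lit 0x300100000000000000000000) := D_16 (nat_lit 93) (nat_lit 92) (nat_lit 80) (nat_lit 3) (nat_lit 7) (nat_lit 5) (nat_lit 1) (nat_lit 12) (nat_lit 4) (by decide +kernel)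
theorem L29688 : W_16 (nat_lit 3) (nat_lit 0x40002000200010007800300008000e0000000000000000000) (nat_lit 0x0) (nat_lit 0x8000700100000000000000000000) := T_16 (nat_lit 94) (nat_lit 111) (nat_lit 5) (nat_lit 9) (nat_lit 4) L29687 (by decide +kernel)
theorem L29689 : W_16 (nat_lit 4) (nat_lit 0x40002000000010007800300008000e0000000000000000000) (nat_lit 0x0) (nat_lit 0x400020000000000008000700100000000000000000000) := T_16 (nat_lit 161) (nat_lit 178) (nat_lit 5) (nat_lit 8) (nat_lit 7) L29688 (by decide +kernel)
theorem L29690 : W_16 (nat_lit 5) (nat_lit 0x40002000000010006800300008000e0000000000000000000) (nat_lit 0x0) (nat_lit 0x400020000000140008000700100000000000000000000) := T_16 (nat_lit 128) (nat_lit 126) (nat_lit 2) (nat_lit 7) (nat_lit 7) L29689 (by decide +kernel)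
theorem L29691 : W_16 (nat_lit 6) (nat_lit 0x40002000000010006800300008000c0000000000000000000) (nat_lit 0x0) (nat_lit 0x400020000000140008000700120001000000000000000) := T_16 (nat_lit 77) (nat_lit 60) (nat_lit 4) (nat_lit 10) (nat_lit 7) L29690 (by decide +kernel)
theorem L29692 : W_16 (nat_lit 7) (nat_lit 0x40002000000010002800300008000c0000000000000000000) (nat_lit 0x0) (nat_lit 0x400020008000540008000700120001000000000000000) := T_16 (nat_lit 130) (nat_lit 147) (nat_lit 7) (nat_lit 10) (nat_lit 4) L29691 (by decide +kernel)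
theorem L29693 : W_16 (nat_lit 8) (nat_lit 0x40002000000010002800300000000c0000000000000000000) (nat_lit 0x0) (nat_lit 0x400020008000540008000f00120003000080000000000) := Q_16 (nat_lit 95) (C_16 L29514 (C_16 L29555 (C_16 L29686 (C_16 L29692 N_16)))) (by decide +kernel)
theorem L29694 : W_16 (nat_lit 4) (nat_lit 0x40002000000010003800300008000c0000000000000000000) (nat_lit 0x0) (nat_lit 0x8000700120001000000000000000) := T_16 (nat_lit 77) (nat_lit 60) (nat_lit 4) (nat_lit 10) (nat_lit 7) L29536 (by decide +kernel)
theorem L29695 : W_16 (nat_lit 5) (nat_lit 0x40002000000010003800300000000c0000000000000000000) (nat_lit 0x0) (nat_lit 0x8000f00120005000000000000000) := T_16 (nat_lit 95) (nat_lit 62) (nat_lit 6) (nat_lit 10) (nat_lit 7) L29694 (by decide +kernel)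
theorem L29696 : W_16 (nat_lit 6) (nat_lit 0x40002000000010002800300000000c0000000000000000000) (nat_lit 0x0) (nat_lit 0x140008000f00120005000000000000000) := T_16 (nat_lit 128) (nat_lit 126) (nat_lit 2) (nat_lit 7) (nat_lit 7) L29695 (by decide +kernel)
theorem L29697 : W_16 (nat_lit 13) (nat_lit 0x4000200000001000280030000000080000000000000000000) (nat_lit 0x0) (nat_lit 0x40002000800054000a01ef80f7c03fe001e000f000000) := Q_16 (nat_lit 78) (C_16 L29553 (C_16 L29554 (C_16 L29556 (C_16 L29685 (C_16 L29693 (C_16 L29696 N_16)))))) (by decide +kernel)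
theorem L29698 : W_16 (nat_lit 2) (nat_lit 0x4000200020009000780030000000080004000000000000000) (nat_lit 0x0) (nat_lit 0x2000100000000000000000800000000000000000000000) := D_16 (nat_lit 164) (nat_lit 95) (nat_lit 181) (nat_lit 4) (nat_lit 11) (nat_lit 9) (nat_lit 4) (nat_lit 11) (nat_lit 10) (by decide +kernel)
theorem L29699 : W_16 (nat_lit 3) (nat_lit 0x4000200020001000780030000000080004000000000000000) (nat_lit 0x0) (nat_lit 0x2000100018000000000000800000000000000000000000) := T_16 (nat_lit 147) (nat_lit 148) (nat_lit 3) (nat_lit 8) (nat_lit 7) L29698 (by decide +kernel)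
theorem L29700 : W_16 (nat_lit 4) (nat_lit 0x4000200020001000680030000000080004000000000000000) (nat_lit 0x0) (nat_lit 0x2000100018000140000000800000000000000000000000) := T_16 (nat_lit 128) (nat_lit 126) (nat_lit 2) (nat_lit 7) (nat_lit 7) L29699 (by decide +kernel)
theorem L29701 : W_16 (nat_lit 5) (nat_lit 0x4000200020001000680030000000080000000000000000000) (nat_lit 0x0) (nat_lit 0x2000100018000140000001800000004000000000000000) := T_16 (nat_lit 62) (nat_lit 96) (nat_lit 5) (nat_lit 11) (nat_lit 3) L29700 (by decide +kernel)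
theorem L29702 : W_16 (nat_lit 6) (nat_lit 0x4000200000001000680030000000080000000000000000000) (nat_lit 0x0) (nat_lit 0x2400120018000140000001800000004000000000000000) := T_16 (nat_lit 161) (nat_lit 178) (nat_lit 5) (nat_lit 8) (nat_lit 7) L29701 (by decide +kernel)
theorem L29703 : W_16 (nat_lit 2) (nat_lit 0x4000200020001000e80030001000180000000000000000000) (nat_lit 0x0) (nat_lit 0x3000008000000000000000000000000000) := D_16 (nat_lit 132) (nat_lit 133) (nat_lit 111) (nat_lit 0) (nat_lit 14) (nat_lit 7) (nat_lit 0) (nat_lit 13) (nat_lit 7) (by decide +kernel)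
theorem L29704 : W_16 (nat_lit 3) (nat_lit 0x4000200020001000680030001000180000000000000000000) (nat_lit 0x0) (nat_lit 0x10003800008000000000000000000000000000) := T_16 (nat_lit 131) (nat_lit 148) (nat_lit 7) (nat_lit 11) (nat_lit 4) L29703 (by decide +kernel)
theorem L29705 : W_16 (nat_lit 4) (nat_lit 0x4000200020001000680030001000080000000000000000000) (nat_lit 0x0) (nat_lit 0x10003800008000000100008000000000000000) := T_16 (nat_lit 80) (nat_lit 63) (nat_lit 6) (nat_lit 11) (nat_lit 7) L29704 (by decide +kernel)
theorem L29706 : W_16 (nat_lit 5) (nat_lit 0x4000200020001000680030000000080000000000000000000) (nat_lit 0x0) (nat_lit 0x1000380000800100010000c000000000000000) := T_16 (nat_lit 96) (nat_lit 62) (nat_lit 5) (nat_lit 11) (nat_lit 3) L29705 (by decide +kernel)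
theorem L29707 : W_16 (nat_lit 6) (nat_lit 0x4000200000001000680030000000080000000000000000000) (nat_lit 0x0) (nat_lit 0x40002001000380000800100010000c000000000000000) := T_16 (nat_lit 161) (nat_lit 178) (nat_lit 5) (nat_lit 8) (nat_lit 7) L29706 (by decide +kernel)
theorem L29708 : W_16 (nat_lit 2) (nat_lit 0x4000200000009000780030000000080004000000000000000) (nat_lit 0x0) (nat_lit 0x2000100000000000000000800000000000000000000000) := D_16 (nat_lit 164) (nat_lit 95) (nat_lit 181) (nat_lit 4) (nat_lit 11) (nat_lit 9) (nat_lit 4) (nat_lit 11) (nat_lit 10) (by decide +kernel)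
theorem L29709 : W_16 (nat_lit 3) (nat_lit 0x4000200000001000780030000000080004000000000000000) (nat_lit 0x0) (nat_lit 0x2000100018000000000000800000000000000000000000) := T_16 (nat_lit 147) (nat_lit 148) (nat_lit 3) (nat_lit 8) (nat_lit 7) L29708 (by decide +kernel)
theorem L29710 : W_16 (nat_lit 4) (nat_lit 0x4000200000001000680030000000080004000000000000000) (nat_lit 0x0) (nat_lit 0x2000100018000140000000800000000000000000000000) := T_16 (nat_lit 128) (nat_lit 126) (nat_lit 2) (nat_lit 7) (nat_lit 7) L29709 (by decide +kernel)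
theorem L29711 : W_16 (nat_lit 5) (nat_lit 0x4000200000001000680030000000080000000000000000000) (nat_lit 0x0) (nat_lit 0x2000100018000140000001800000004000000000000000) := T_16 (nat_lit 62) (nat_lit 96) (nat_lit 5) (nat_lit 11) (nat_lit 3) L29710 (by decide +kernel)
theorem L29712 : W_16 (nat_lit 2) (nat_lit 0x40002000200090006c0030001000180000000000000000000) (nat_lit 0x0) (nat_lit 0x2000100000000000000000800000000000000000000000) := D_16 (nat_lit 164) (nat_lit 181) (nat_lit 95) (nat_lit 4) (nat_lit 11) (nat_lit 10) (nat_lit 4) (nat_lit 11) (nat_lit 9) (by decide +kernel)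
theorem L29713 : W_16 (nat_lit 3) (nat_lit 0x40002000200010006c0030001000180000000000000000000) (nat_lit 0x0) (nat_lit 0x2000100008000000000002800000000000000000000000) := T_16 (nat_lit 147) (nat_lit 97) (nat_lit 6) (nat_lit 11) (nat_lit 8) L29712 (by decide +kernel)
theorem L29714 : W_16 (nat_lit 4) (nat_lit 0x40002000200010006c0030001000080000000000000000000) (nat_lit 0x0) (nat_lit 0x2000100008000000000002800100008000000000000000) := T_16 (nat_lit 80) (nat_lit 63) (nat_lit 6) (nat_lit 11) (nat_lit 7) L29713 (by decide +kernel)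
theorem L29715 : W_16 (nat_lit 5) (nat_lit 0x40002000200010006c0030000000080000000000000000000) (nat_lit 0x0) (nat_lit 0x200010000800000000000380010000c000000000000000) := T_16 (nat_lit 96) (nat_lit 62) (nat_lit 5) (nat_lit 11) (nat_lit 3) L29714 (by decide +kernel)
theorem L29716 : W_16 (nat_lit 6) (nat_lit 0x40002000000010006c0030000000080000000000000000000) (nat_lit 0x0) (nat_lit 0x240012000800000000000380010000c000000000000000) := T_16 (nat_lit 161) (nat_lit 178) (nat_lit 5) (nat_lit 8) (nat_lit 7) L29715 (by decide +kernel)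
theorem L29717 : W_16 (nat_lit 7) (nat_lit 0x4000200000001000680030000000080000000000000000000) (nat_lit 0x0) (nat_lit 0x240012000800014000000380010000c000000000000000) := T_16 (nat_lit 126) (nat_lit 128) (nat_lit 2) (nat_lit 7) (nat_lit 7) L29716 (by decide +kernel)
theorem L29718 : W_16 (nat_lit 2) (nat_lit 0x4000200020009000780030000000080000000000000000000) (nat_lit 0x0) (nat_lit 0x2000100000000000000000800000000000000000000000) := D_16 (nat_lit 164) (nat_lit 95) (nat_lit 181) (nat_lit 4) (nat_lit 11) (nat_lit 9) (nat_lit 4) (nat_lit 11) (nat_lit 10) (by decide +kernel)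
theorem L29719 : W_16 (nat_lit 3) (nat_lit 0x4000200020001000780030000000080000000000000000000) (nat_lit 0x0) (nat_lit 0x2000100018000000000000800000000000000000000000) := T_16 (nat_lit 147) (nat_lit 148) (nat_lit 3) (nat_lit 8) (nat_lit 7) L29718 (by decide +kernel)
theorem L29720 : W_16 (nat_lit 4) (nat_lit 0x4000200000001000780030000000080000000000000000000) (nat_lit 0x0) (nat_lit 0x2400120018000000000000800000000000000000000000) := T_16 (nat_lit 161) (nat_lit 178) (nat_lit 5) (nat_lit 8) (nat_lit 7) L29719 (by decide +kernel)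
theorem L29721 : W_16 (nat_lit 5) (nat_lit 0x4000200000001000680030000000080000000000000000000) (nat_lit 0x0) (nat_lit 0x2400120018000140000000800000000000000000000000) := T_16 (nat_lit 128) (nat_lit 126) (nat_lit 2) (nat_lit 7) (nat_lit 7) L29720 (by decide +kernel)
theorem L29722 : W_16 (nat_lit 8) (nat_lit 0x4000200000001000280030000000080000000000000000000) (nat_lit 0x0) (nat_lit 0x2400120018003d4000800380010000c000000000000000) := Q_16 (nat_lit 130) (C_16 L29702 (C_16 L29707 (C_16 L29711 (C_16 L29717 (C_16 L29721 N_16))))) (by decide +kernel)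
theorem L29723 : W_16 (nat_lit 2) (nat_lit 0x4000200000001000ec00300010001c0000000000000000000) (nat_lit 0x0) (nat_lit 0x3000008000000000000000000000000000) := D_16 (nat_lit 132) (nat_lit 133) (nat_lit 111) (nat_lit 0) (nat_lit 14) (nat_lit 7) (nat_lit 0) (nat_lit 13) (nat_lit 7) (by decide +kernel)
theorem L29724 : W_16 (nat_lit 3) (nat_lit 0x40002000000010006c00300010001c0000000000000000000) (nat_lit 0x0) (nat_lit 0x10003800008000000000000000000000000000) := T_16 (nat_lit 131) (nat_lit 148) (nat_lit 7) (nat_lit 11) (nat_lit 4) L29723 (by decide +kernel)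
theorem L29725 : W_16 (nat_lit 4) (nat_lit 0x40002000000010006c00300010000c0000000000000000000) (nat_lit 0x0) (nat_lit 0x10003800008000000100008000000000000000) := T_16 (nat_lit 80) (nat_lit 63) (nat_lit 6) (nat_lit 11) (nat_lit 7) L29724 (by decide +kernel)
theorem L29726 : W_16 (nat_lit 5) (nat_lit 0x40002000000010002c00300010000c0000000000000000000) (nat_lit 0x0) (nat_lit 0x10003c0000800000010000a000000000000000) := T_16 (nat_lit 130) (nat_lit 61) (nat_lit 4) (nat_lit 11) (nat_lit 7) L29725 (by decide +kernel)
theorem L29727 : W_16 (nat_lit 6) (nat_lit 0x40002000000010002c00300000000c0000000000000000000) (nat_lit 0x0) (nat_lit 0x10003c0000800100010000e000000000000000) := T_16 (nat_lit 96) (nat_lit 62) (nat_lit 5) (nat_lit 11) (nat_lit 3) L29726 (by decide +kernel)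
theorem L29728 : W_16 (nat_lit 7) (nat_lit 0x40002000000010002800300000000c0000000000000000000) (nat_lit 0x0) (nat_lit 0x10003d4000800100010000e000000000000000) := T_16 (nat_lit 126) (nat_lit 128) (nat_lit 2) (nat_lit 7) (nat_lit 7) L29727 (by decide +kernel)
theorem L29729 : W_16 (nat_lit 5) (nat_lit 0x40002000000010002800300008000c0000000000000000000) (nat_lit 0x0) (nat_lit 0x140008000700120001000000000000000) := T_16 (nat_lit 128) (nat_lit 126) (nat_lit 2) (nat_lit 7) (nat_lit 7) L29694 (by decide +kernel)
theorem L29730 : W_16 (nat_lit 6) (nat_lit 0x40002000000010002800300000000c0000000000000000000) (nat_lit 0x0) (nat_lit 0x8000540008000f00120003000000000000000) := Q_16 (nat_lit 95) (C_16 L29686 (C_16 L29555 (C_16 L29729 N_16))) (by decide +kernel)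
theorem L29731 : W_16 (nat_lit 8) (nat_lit 0x4000200000001000280030000000080000000000000000000) (nat_lit 0x0) (nat_lit 0x18003d40008001f0016000f000080000000000) := Q_16 (nat_lit 78) (C_16 L29554 (C_16 L29696 (C_16 L29728 (C_16 L29730 N_16)))) (by decide +kernel)
theorem L29732 : W_16 (nat_lit 2) (nat_lit 0x40002000000010002800300000000c0000000000000000000) (nat_lit 0x0) (nat_lit 0x1800000004000000000000000) := D_16 (nat_lit 62) (nat_lit 96) (nat_lit 95) (nat_lit 5) (nat_lit 11) (nat_lit 3) (nat_lit 6) (nat_lit 10) (nat_lit 7) (by decide +kernel)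
theorem L29733 : W_16 (nat_lit 4) (nat_lit 0x40002000200010002800300000000e0001000000000000000) (nat_lit 0x0) (nat_lit 0xe000300002800000000000000) := T_16 (nat_lit 80) (nat_lit 59) (nat_lit 0) (nat_lit 12) (nat_lit 4) L29603 (by decide +kernel)
theorem L29734 : W_16 (nat_lit 5) (nat_lit 0x40002000200010002800300000000e0000000000000000000) (nat_lit 0x0) (nat_lit 0xe800300003800000000000000) := T_16 (nat_lit 60) (nat_lit 95) (nat_lit 4) (nat_lit 10) (nat_lit 7) L29733 (by decide +kernel)
theorem L29735 : W_16 (nat_lit 6) (nat_lit 0x40002000000010002800300000000e0000000000000000000) (nat_lit 0x0) (nat_lit 0x40002000000000000000e800300003800000000000000) := T_16 (nat_lit 161) (nat_lit 178) (nat_lit 5) (nat_lit 8) (nat_lit 7) L29734 (by decide +kernel)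
theorem L29736 : W_16 (nat_lit 2) (nat_lit 0x40002000200010003800300004003e0000000000000000000) (nat_lit 0x0) (nat_lit 0xe000000000000000000000000) := D_16 (nat_lit 98) (nat_lit 97) (nat_lit 99) (nat_lit 3) (nat_lit 9) (nat_lit 4) (nat_lit 3) (nat_lit 10) (nat_lit 4) (by decide +kernel)
theorem L29737 : W_16 (nat_lit 3) (nat_lit 0x40002000200010003800300004001e0000000000000000000) (nat_lit 0x0) (nat_lit 0xe800200000000000000000000) := T_16 (nat_lit 81) (nat_lit 95) (nat_lit 1) (nat_lit 13) (nat_lit 4) L29736 (by decide +kernel)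
theorem L29738 : W_16 (nat_lit 4) (nat_lit 0x40002000200010003800300004000e0000000000000000000) (nat_lit 0x0) (nat_lit 0xea00300000000000000000000) := T_16 (nat_lit 80) (nat_lit 93) (nat_lit 1) (nat_lit 12) (nat_lit 4) L29737 (by decide +kernel)
theorem L29739 : W_16 (nat_lit 5) (nat_lit 0x40002000200010003800300000000e0000000000000000000) (nat_lit 0x0) (nat_lit 0x800ee00300000000000000000000) := T_16 (nat_lit 94) (nat_lit 111) (nat_lit 5) (nat_lit 9) (nat_lit 4) L29738 (by decide +kernel)
theorem L29740 : W_16 (nat_lit 6) (nat_lit 0x40002000200010002800300000000e0000000000000000000) (nat_lit 0x0) (nat_lit 0x14000800ee00300000000000000000000) := T_16 (nat_lit 128) (nat_lit 126) (nat_lit 2) (nat_lit 7) (nat_lit 7) L29739 (by decide +kernel)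
theorem L29741 : W_16 (nat_lit 7) (nat_lit 0x40002000000010002800300000000e0000000000000000000) (nat_lit 0x0) (nat_lit 0x40002000000014000800ee00300000000000000000000) := T_16 (nat_lit 161) (nat_lit 178) (nat_lit 5) (nat_lit 8) (nat_lit 7) L29740 (by decide +kernel)
theorem L29742 : W_16 (nat_lit 2) (nat_lit 0x40002000200010002c00300004000e0001000000000000000) (nat_lit 0x0) (nat_lit 0x200100000800000000000000) := D_16 (nat_lit 80) (nat_lit 93) (nat_lit 59) (nat_lit 1) (nat_lit 12) (nat_lit 4) (nat_lit 0) (nat_lit 12) (nat_lit 4) (by decide +kernel)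
theorem L29743 : W_16 (nat_lit 3) (nat_lit 0x40002000200010002c00300000000e0001000000000000000) (nat_lit 0x0) (nat_lit 0x8000600100000800000000000000) := T_16 (nat_lit 94) (nat_lit 111) (nat_lit 7) (nat_lit 9) (nat_lit 3) L29742 (by decide +kernel)
theorem L29744 : W_16 (nat_lit 4) (nat_lit 0x40002000000010002c00300000000e0001000000000000000) (nat_lit 0x0) (nat_lit 0x400020000000000008000600100000800000000000000) := T_16 (nat_lit 161) (nat_lit 178) (nat_lit 5) (nat_lit 8) (nat_lit 7) L29743 (by decide +kernel)
theorem L29745 : W_16 (nat_lit 5) (nat_lit 0x40002000000010002c00300000000e0000000000000000000) (nat_lit 0x0) (nat_lit 0x400020000000000008000e00100001800000000000000) := T_16 (nat_lit 60) (nat_lit 95) (nat_lit 4) (nat_lit 10) (nat_lit 7) L29744 (by decide +kernel)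
theorem L29746 : W_16 (nat_lit 6) (nat_lit 0x40002000000010002800300000000e0000000000000000000) (nat_lit 0x0) (nat_lit 0x400020000000140008000e00100001800000000000000) := T_16 (nat_lit 126) (nat_lit 128) (nat_lit 2) (nat_lit 7) (nat_lit 7) L29745 (by decide +kernel)
theorem L29747 : W_16 (nat_lit 2) (nat_lit 0x40002000200010003800300008000e0000000000000000000) (nat_lit 0x0) (nat_lit 0x8000400000002000000000000000) := D_16 (nat_lit 111) (nat_lit 94) (nat_lit 61) (nat_lit 5) (nat_lit 9) (nat_lit 4) (nat_lit 5) (nat_lit 10) (nat_lit 3) (by decide +kernel)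
theorem L29748 : W_16 (nat_lit 3) (nat_lit 0x40002000200010003800300000000e0000000000000000000) (nat_lit 0x0) (nat_lit 0x8000c00000003000000000000000) := T_16 (nat_lit 95) (nat_lit 60) (nat_lit 4) (nat_lit 10) (nat_lit 7) L29747 (by decide +kernel)
theorem L29749 : W_16 (nat_lit 4) (nat_lit 0x40002000200010002800300000000e0000000000000000000) (nat_lit 0x0) (nat_lit 0x140008000c00000003000000000000000) := T_16 (nat_lit 128) (nat_lit 126) (nat_lit 2) (nat_lit 7) (nat_lit 7) L29748 (by decide +kernel)
theorem L29750 : W_16 (nat_lit 5) (nat_lit 0x40002000000010002800300000000e0000000000000000000) (nat_lit 0x0) (nat_lit 0x400020000000140008000c00000003000000000000000) := T_16 (nat_lit 161) (nat_lit 178) (nat_lit 5) (nat_lit 8) (nat_lit 7) L29749 (by decide +kernel)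
theorem L29751 : W_16 (nat_lit 9) (nat_lit 0x40002000000010002800300000000c0000000000000000000) (nat_lit 0x0) (nat_lit 0x40002000000014000800ee0032003b800000000000000) := Q_16 (nat_lit 77) (C_16 L29684 (C_16 L29735 (C_16 L29576 (C_16 L29741 (C_16 L29746 (C_16 L29750 N_16)))))) (by decide +kernel)
theorem L29752 : W_16 (nat_lit 13) (nat_lit 0x4000200000001000280030000000080000000000000000000) (nat_lit 0x0) (nat_lit 0x40002000000014000a01ff80f7c03fe001e000f000000) := Q_16 (nat_lit 78) (C_16 L29732 (C_16 L29685 (C_16 L29751 N_16))) (by decide +kernel)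
theorem L29753 : W_16 (nat_lit 2) (nat_lit 0x4000200020001002ec00300030001c0000000000000000000) (nat_lit 0x0) (nat_lit 0x4000030000000000000000000) := D_16 (nat_lit 77) (nat_lit 98) (nat_lit 76) (nat_lit 3) (nat_lit 9) (nat_lit 4) (nat_lit 3) (nat_lit 8) (nat_lit 4) (by decide +kernel)
theorem L29754 : W_16 (nat_lit 3) (nat_lit 0x4000200020001002ec00300010001c0000000000000000000) (nat_lit 0x0) (nat_lit 0x8000000000006000030000000000000000000) := T_16 (nat_lit 97) (nat_lit 147) (nat_lit 6) (nat_lit 11) (nat_lit 8) L29753 (by decide +kernel)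
theorem L29755 : W_16 (nat_lit 4) (nat_lit 0x4000200020001000ec00300010001c0000000000000000000) (nat_lit 0x0) (nat_lit 0x8003000000006000030000000000000000000) := T_16 (nat_lit 133) (nat_lit 132) (nat_lit 0) (nat_lit 14) (nat_lit 7) L29754 (by decide +kernel)
theorem L29756 : W_16 (nat_lit 5) (nat_lit 0x40002000200010006c00300010001c0000000000000000000) (nat_lit 0x0) (nat_lit 0x18003800000006000030000000000000000000) := T_16 (nat_lit 131) (nat_lit 148) (nat_lit 7) (nat_lit 11) (nat_lit 4) L29755 (by decide +kernel)
theorem L29757 : W_16 (nat_lit 6) (nat_lit 0x40002000200010006c00300010000c0000000000000000000) (nat_lit 0x0) (nat_lit 0x18003800000006000130008000000000000000) := T_16 (nat_lit 80) (nat_lit 63) (nat_lit 6) (nat_lit 11) (nat_lit 7) L29756 (by decide +kernel)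
theorem L29758 : W_16 (nat_lit 7) (nat_lit 0x40002000200010002c00300010000c0000000000000000000) (nat_lit 0x0) (nat_lit 0x18003c0000000600013000a000000000000000) := T_16 (nat_lit 130) (nat_lit 61) (nat_lit 4) (nat_lit 11) (nat_lit 7) L29757 (by decide +kernel)
theorem L29759 : W_16 (nat_lit 8) (nat_lit 0x40002000000010002c00300010000c0000000000000000000) (nat_lit 0x0) (nat_lit 0x400020018003c0000000600013000a000000000000000) := T_16 (nat_lit 161) (nat_lit 178) (nat_lit 5) (nat_lit 8) (nat_lit 7) L29758 (by decide +kernel)
theorem L29760 : W_16 (nat_lit 9) (nat_lit 0x40002000000010002c00300000000c0000000000000000000) (nat_lit 0x0) (nat_lit 0x400020018003c0000000700013000e000000000000000) := T_16 (nat_lit 96) (nat_lit 62) (nat_lit 5) (nat_lit 11) (nat_lit 3) L29759 (by decide +kernel)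
theorem L29761 : W_16 (nat_lit 10) (nat_lit 0x40002000000010002800300000000c0000000000000000000) (nat_lit 0x0) (nat_lit 0x400020018003d4000000700013000e000000000000000) := T_16 (nat_lit 126) (nat_lit 128) (nat_lit 2) (nat_lit 7) (nat_lit 7) L29760 (by decide +kernel)
theorem L29762 : W_16 (nat_lit 7) (nat_lit 0x40002000200010006800300010000c0000000000000000000) (nat_lit 0x0) (nat_lit 0x18003940000006000130008000000000000000) := T_16 (nat_lit 126) (nat_lit 128) (nat_lit 2) (nat_lit 7) (nat_lit 7) L29757 (by decide +kernel)
theorem L29763 : W_16 (nat_lit 8) (nat_lit 0x40002000200010006800300000000c0000000000000000000) (nat_lit 0x0) (nat_lit 0x1800394000000700013000a000000000000000) := T_16 (nat_lit 96) (nat_lit 61) (nat_lit 4) (nat_lit 11) (nat_lit 7) L29762 (by decide +kernel)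
theorem L29764 : W_16 (nat_lit 9) (nat_lit 0x40002000000010006800300000000c0000000000000000000) (nat_lit 0x0) (nat_lit 0x40002001800394000000700013000a000000000000000) := T_16 (nat_lit 161) (nat_lit 178) (nat_lit 5) (nat_lit 8) (nat_lit 7) L29763 (by decide +kernel)
theorem L29765 : W_16 (nat_lit 2) (nat_lit 0x40002000000010006800300000000c0000000000000000000) (nat_lit 0x0) (nat_lit 0x8000000000000800000002000000000000000) := D_16 (nat_lit 95) (nat_lit 147) (nat_lit 61) (nat_lit 7) (nat_lit 10) (nat_lit 4) (nat_lit 7) (nat_lit 10) (nat_lit 3) (by decide +kernel)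
theorem L29766 : W_16 (nat_lit 2) (nat_lit 0x40002000000010006800300000000c0000000000000000000) (nat_lit 0x0) (nat_lit 0x1800000002000000000000000) := D_16 (nat_lit 61) (nat_lit 96) (nat_lit 95) (nat_lit 4) (nat_lit 11) (nat_lit 7) (nat_lit 7) (nat_lit 10) (nat_lit 3) (by decide +kernel)
theorem L29767 : W_16 (nat_lit 2) (nat_lit 0x40002001a00190006c00300000000c0000000000000000000) (nat_lit 0x0) (nat_lit 0x4000200000000000000001000000000000000000000000) := D_16 (nat_lit 165) (nat_lit 182) (nat_lit 96) (nat_lit 7) (nat_lit 11) (nat_lit 6) (nat_lit 7) (nat_lit 11) (nat_lit 5) (by decide +kernel)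
theorem L29768 : W_16 (nat_lit 3) (nat_lit 0x40002001a00090006c00300000000c0000000000000000000) (nat_lit 0x0) (nat_lit 0x4000240010000000000001000000000000000000000000) := T_16 (nat_lit 148) (nat_lit 162) (nat_lit 2) (nat_lit 8) (nat_lit 9) L29767 (by decide +kernel)
theorem L29769 : W_16 (nat_lit 4) (nat_lit 0x40002001200090006c00300000000c0000000000000000000) (nat_lit 0x0) (nat_lit 0x50002c0010000000000001000000000000000000000000) := T_16 (nat_lit 163) (nat_lit 180) (nat_lit 5) (nat_lit 11) (nat_lit 6) L29768 (by decide +kernel)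
theorem L29770 : W_16 (nat_lit 5) (nat_lit 0x40002000200090006c00300000000c0000000000000000000) (nat_lit 0x0) (nat_lit 0x70003c0010000000000001000000000000000000000000) := T_16 (nat_lit 164) (nat_lit 181) (nat_lit 4) (nat_lit 11) (nat_lit 10) L29769 (by decide +kernel)
theorem L29771 : W_16 (nat_lit 6) (nat_lit 0x40002000200010006c00300000000c0000000000000000000) (nat_lit 0x0) (nat_lit 0x70003c0018000000000001800000000000000000000000) := T_16 (nat_lit 147) (nat_lit 95) (nat_lit 7) (nat_lit 10) (nat_lit 4) L29770 (by decide +kernel)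
theorem L29772 : W_16 (nat_lit 7) (nat_lit 0x40002000000010006c00300000000c0000000000000000000) (nat_lit 0x0) (nat_lit 0x74003e0018000000000001800000000000000000000000) := T_16 (nat_lit 161) (nat_lit 178) (nat_lit 5) (nat_lit 8) (nat_lit 7) L29771 (by decide +kernel)
theorem L29773 : W_16 (nat_lit 8) (nat_lit 0x40002000000010006800300000000c0000000000000000000) (nat_lit 0x0) (nat_lit 0x74003e0018000140000001800000000000000000000000) := T_16 (nat_lit 126) (nat_lit 128) (nat_lit 2) (nat_lit 7) (nat_lit 7) L29772 (by decide +kernel)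
theorem L29774 : W_16 (nat_lit 10) (nat_lit 0x40002000000010002800300000000c0000000000000000000) (nat_lit 0x0) (nat_lit 0x74003e0018003d4000000780013000a000000000000000) := Q_16 (nat_lit 130) (C_16 L29764 (C_16 L29765 (C_16 L29766 (C_16 L29773 N_16)))) (by decide +kernel)
theorem L29775 : W_16 (nat_lit 11) (nat_lit 0x4000200000001000280030000000080000000000000000000) (nat_lit 0x0) (nat_lit 0x74003e0018003d4000000780017000f000080000000000) := Q_16 (nat_lit 78) (C_16 L29732 (C_16 L29761 (C_16 L29554 (C_16 L29774 N_16)))) (by decide +kernel)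
theorem L29776 : W_16 (nat_lit 2) (nat_lit 0x40002000200010002800300008000c0003400100000000000) (nat_lit 0x0) (nat_lit 0x100008000400000000000000000000000) := D_16 (nat_lit 111) (nat_lit 128) (nat_lit 94) (nat_lit 5) (nat_lit 10) (nat_lit 3) (nat_lit 5) (nat_lit 10) (nat_lit 2) (by decide +kernel)
theorem L29777 : W_16 (nat_lit 3) (nat_lit 0x40002000200010002800300008000c0003400000000000000) (nat_lit 0x0) (nat_lit 0x100008001400000000000100000000000) := T_16 (nat_lit 44) (nat_lit 96) (nat_lit 7) (nat_lit 10) (nat_lit 2) L29776 (by decide +kernel)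
theorem L29778 : W_16 (nat_lit 4) (nat_lit 0x40002000200010002800300008000c0003000000000000000) (nat_lit 0x0) (nat_lit 0x100008001400000000c00100000000000) := T_16 (nat_lit 58) (nat_lit 59) (nat_lit 3) (nat_lit 7) (nat_lit 3) L29777 (by decide +kernel)
theorem L29779 : W_16 (nat_lit 5) (nat_lit 0x40002000200010002800300008000c0001000000000000000) (nat_lit 0x0) (nat_lit 0x100008001400000002c00180000000000) := T_16 (nat_lit 61) (nat_lit 43) (nat_lit 4) (nat_lit 10) (nat_lit 6) L29778 (by decide +kernel)
theorem L29780 : W_16 (nat_lit 6) (nat_lit 0x40002000200010002800300008000c0000000000000000000) (nat_lit 0x0) (nat_lit 0x100008001400020003c00180000000000) := T_16 (nat_lit 60) (nat_lit 77) (nat_lit 4) (nat_lit 10) (nat_lit 7) L29779 (by decide +kernel)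
theorem L29781 : W_16 (nat_lit 7) (nat_lit 0x40002000000010002800300008000c0000000000000000000) (nat_lit 0x0) (nat_lit 0x400020000000100008001400020003c00180000000000) := T_16 (nat_lit 161) (nat_lit 178) (nat_lit 5) (nat_lit 8) (nat_lit 7) L29780 (by decide +kernel)
theorem L29782 : W_16 (nat_lit 2) (nat_lit 0x4000200000001000280030000c000e0000000000000000000) (nat_lit 0x0) (nat_lit 0x200300000000000000000000) := D_16 (nat_lit 80) (nat_lit 93) (nat_lit 81) (nat_lit 1) (nat_lit 12) (nat_lit 4) (nat_lit 1) (nat_lit 13) (nat_lit 4) (by decide +kernel)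
theorem L29783 : W_16 (nat_lit 3) (nat_lit 0x4000200000001000280030000c000c0000000000000000000) (nat_lit 0x0) (nat_lit 0x200320001000000000000000) := T_16 (nat_lit 77) (nat_lit 60) (nat_lit 4) (nat_lit 10) (nat_lit 7) L29782 (by decide +kernel)
theorem L29784 : W_16 (nat_lit 2) (nat_lit 0x4000200020001000e80030001d001c0000000000000000000) (nat_lit 0x0) (nat_lit 0x3000008000000000000000000000000000) := D_16 (nat_lit 132) (nat_lit 133) (nat_lit 111) (nat_lit 0) (nat_lit 14) (nat_lit 7) (nat_lit 0) (nat_lit 13) (nat_lit 7) (by decide +kernel)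
theorem L29785 : W_16 (nat_lit 3) (nat_lit 0x4000200020001000680030001d001c0000000000000000000) (nat_lit 0x0) (nat_lit 0x10003800008000000000000000000000000000) := T_16 (nat_lit 131) (nat_lit 148) (nat_lit 7) (nat_lit 11) (nat_lit 4) L29784 (by decide +kernel)
theorem L29786 : W_16 (nat_lit 4) (nat_lit 0x4000200000001000680030001d001c0000000000000000000) (nat_lit 0x0) (nat_lit 0x400020010003800008000000000000000000000000000) := T_16 (nat_lit 161) (nat_lit 178) (nat_lit 5) (nat_lit 8) (nat_lit 7) L29785 (by decide +kernel)
theorem L29787 : W_16 (nat_lit 5) (nat_lit 0x4000200000001000680030000d001c0000000000000000000) (nat_lit 0x0) (nat_lit 0x400020010003800008001000000008000000000000000) := T_16 (nat_lit 96) (nat_lit 63) (nat_lit 6) (nat_lit 11) (nat_lit 7) L29786 (by decide +kernel)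
theorem L29788 : W_16 (nat_lit 6) (nat_lit 0x4000200000001000280030000d001c0000000000000000000) (nat_lit 0x0) (nat_lit 0x400020018003c00008001000000008000000000000000) := T_16 (nat_lit 130) (nat_lit 147) (nat_lit 7) (nat_lit 10) (nat_lit 4) L29787 (by decide +kernel)
theorem L29789 : W_16 (nat_lit 7) (nat_lit 0x4000200000001000280030000d000c0000000000000000000) (nat_lit 0x0) (nat_lit 0x400020018003c00008001000300008000000000000000) := T_16 (nat_lit 80) (nat_lit 81) (nat_lit 1) (nat_lit 13) (nat_lit 4) L29788 (by decide +kernel)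
theorem L29790 : W_16 (nat_lit 8) (nat_lit 0x4000200000001000280030000c000c0000000000000000000) (nat_lit 0x0) (nat_lit 0x400020018003c00008001300300008000000000000000) := T_16 (nat_lit 92) (nat_lit 93) (nat_lit 3) (nat_lit 7) (nat_lit 5) L29789 (by decide +kernel)
theorem L29791 : W_16 (nat_lit 2) (nat_lit 0x4000200020001000e80038001c002e0000000000000000000) (nat_lit 0x0) (nat_lit 0x2000018000000000000000000) := D_16 (nat_lit 76) (nat_lit 97) (nat_lit 75) (nat_lit 3) (nat_lit 8) (nat_lit 4) (nat_lit 3) (nat_lit 7) (nat_lit 4) (by decide +kernel)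
theorem L29792 : W_16 (nat_lit 3) (nat_lit 0x4000200020001000e80038000c002e0000000000000000000) (nat_lit 0x0) (nat_lit 0x10000000000003000018000000000000000000) := T_16 (nat_lit 96) (nat_lit 148) (nat_lit 7) (nat_lit 11) (nat_lit 4) L29791 (by decide +kernel)
theorem L29793 : W_16 (nat_lit 4) (nat_lit 0x4000200020001000680038000c002e0000000000000000000) (nat_lit 0x0) (nat_lit 0x10001800000003000018000000000000000000) := T_16 (nat_lit 131) (nat_lit 132) (nat_lit 0) (nat_lit 13) (nat_lit 7) L29792 (by decide +kernel)
theorem L29794 : W_16 (nat_lit 5) (nat_lit 0x4000200020001000280038000c002e0000000000000000000) (nat_lit 0x0) (nat_lit 0x18001c00000003000018000000000000000000) := T_16 (nat_lit 130) (nat_lit 147) (nat_lit 7) (nat_lit 10) (nat_lit 4) L29793 (by decide +kernel)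
theorem L29795 : W_16 (nat_lit 6) (nat_lit 0x4000200020001000280030000c002e0000000000000000000) (nat_lit 0x0) (nat_lit 0x18001d00008003000018000000000000000000) := T_16 (nat_lit 111) (nat_lit 128) (nat_lit 5) (nat_lit 9) (nat_lit 4) L29794 (by decide +kernel)
theorem L29796 : W_16 (nat_lit 7) (nat_lit 0x4000200020001000280030000c000e0000000000000000000) (nat_lit 0x0) (nat_lit 0x18001d00008003000318000000000000000000) := T_16 (nat_lit 81) (nat_lit 80) (nat_lit 1) (nat_lit 13) (nat_lit 4) L29795 (by decide +kernel)
theorem L29797 : W_16 (nat_lit 8) (nat_lit 0x4000200020001000280030000c000c0000000000000000000) (nat_lit 0x0) (nat_lit 0x18001d00008003000338001000000000000000) := T_16 (nat_lit 77) (nat_lit 60) (nat_lit 4) (nat_lit 10) (nat_lit 7) L29796 (by decide +kernel)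
theorem L29798 : W_16 (nat_lit 9) (nat_lit 0x4000200000001000280030000c000c0000000000000000000) (nat_lit 0x0) (nat_lit 0x400020018001d00008003000338001000000000000000) := T_16 (nat_lit 161) (nat_lit 178) (nat_lit 5) (nat_lit 8) (nat_lit 7) L29797 (by decide +kernel)
theorem L29799 : W_16 (nat_lit 2) (nat_lit 0x4000200020001000e80038001d000e0000000000000000000) (nat_lit 0x0) (nat_lit 0x2000018000000000000000000) := D_16 (nat_lit 76) (nat_lit 97) (nat_lit 75) (nat_lit 3) (nat_lit 8) (nat_lit 4) (nat_lit 3) (nat_lit 7) (nat_lit 4) (by decide +kernel)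
theorem L29800 : W_16 (nat_lit 3) (nat_lit 0x4000200020001000e80038000d000e0000000000000000000) (nat_lit 0x0) (nat_lit 0x10000000000003000018000000000000000000) := T_16 (nat_lit 96) (nat_lit 148) (nat_lit 7) (nat_lit 11) (nat_lit 4) L29799 (by decide +kernel)
theorem L29801 : W_16 (nat_lit 4) (nat_lit 0x4000200020001000680038000d000e0000000000000000000) (nat_lit 0x0) (nat_lit 0x10001800000003000018000000000000000000) := T_16 (nat_lit 131) (nat_lit 132) (nat_lit 0) (nat_lit 13) (nat_lit 7) L29800 (by decide +kernel)
theorem L29802 : W_16 (nat_lit 5) (nat_lit 0x4000200020001000680030000d000e0000000000000000000) (nat_lit 0x0) (nat_lit 0x10001900008003000018000000000000000000) := T_16 (nat_lit 111) (nat_lit 128) (nat_lit 5) (nat_lit 9) (nat_lit 4) L29801 (by decide +kernel)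
theorem L29803 : W_16 (nat_lit 6) (nat_lit 0x4000200020001000680030000d000c0000000000000000000) (nat_lit 0x0) (nat_lit 0x10001900008003000038001000000000000000) := T_16 (nat_lit 77) (nat_lit 60) (nat_lit 4) (nat_lit 10) (nat_lit 7) L29802 (by decide +kernel)
theorem L29804 : W_16 (nat_lit 7) (nat_lit 0x4000200000001000680030000d000c0000000000000000000) (nat_lit 0x0) (nat_lit 0x400020010001900008003000038001000000000000000) := T_16 (nat_lit 161) (nat_lit 178) (nat_lit 5) (nat_lit 8) (nat_lit 7) L29803 (by decide +kernel)
theorem L29805 : W_16 (nat_lit 8) (nat_lit 0x4000200000001000680030000c000c0000000000000000000) (nat_lit 0x0) (nat_lit 0x400020010001900008003300038001000000000000000) := T_16 (nat_lit 92) (nat_lit 93) (nat_lit 3) (nat_lit 7) (nat_lit 5) L29804 (by decide +kernel)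
theorem L29806 : W_16 (nat_lit 9) (nat_lit 0x4000200000001000280030000c000c0000000000000000000) (nat_lit 0x0) (nat_lit 0x400020018001d00008003300038001000000000000000) := T_16 (nat_lit 130) (nat_lit 147) (nat_lit 7) (nat_lit 10) (nat_lit 4) L29805 (by decide +kernel)
theorem L29807 : W_16 (nat_lit 10) (nat_lit 0x40002000000010002800300008000c0000000000000000000) (nat_lit 0x0) (nat_lit 0x400020018003d00008003700338009000000000000000) := Q_16 (nat_lit 94) (C_16 L29783 (C_16 L29790 (C_16 L29798 (C_16 L29806 N_16)))) (by decide +kernel)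
theorem L29808 : W_16 (nat_lit 11) (nat_lit 0x40002000000010002800300000000c0000000000000000000) (nat_lit 0x0) (nat_lit 0x400020018003d00008003f0033800bc00180000000000) := Q_16 (nat_lit 95) (C_16 L29686 (C_16 L29781 (C_16 L29807 N_16))) (by decide +kernel)
theorem L29809 : W_16 (nat_lit 2) (nat_lit 0x4000200020001000e800300010001c0000000000000000000) (nat_lit 0x0) (nat_lit 0x3000008000000000000000000000000000) := D_16 (nat_lit 132) (nat_lit 133) (nat_lit 111) (nat_lit 0) (nat_lit 14) (nat_lit 7) (nat_lit 0) (nat_lit 13) (nat_lit 7) (by decide +kernel)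
theorem L29810 : W_16 (nat_lit 3) (nat_lit 0x40002000200010006800300010001c0000000000000000000) (nat_lit 0x0) (nat_lit 0x10003800008000000000000000000000000000) := T_16 (nat_lit 131) (nat_lit 148) (nat_lit 7) (nat_lit 11) (nat_lit 4) L29809 (by decide +kernel)
theorem L29811 : W_16 (nat_lit 4) (nat_lit 0x40002000200010006800300010000c0000000000000000000) (nat_lit 0x0) (nat_lit 0x10003800008000000100008000000000000000) := T_16 (nat_lit 80) (nat_lit 63) (nat_lit 6) (nat_lit 11) (nat_lit 7) L29810 (by decide +kernel)
theorem L29812 : W_16 (nat_lit 5) (nat_lit 0x40002000200010002800300010000c0000000000000000000) (nat_lit 0x0) (nat_lit 0x10003c0000800000010000a000000000000000) := T_16 (nat_lit 130) (nat_lit 61) (nat_lit 4) (nat_lit 11) (nat_lit 7) L29811 (by decide +kernel)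
theorem L29813 : W_16 (nat_lit 6) (nat_lit 0x40002000200010002800300000000c0000000000000000000) (nat_lit 0x0) (nat_lit 0x10003c0000800100010000e000000000000000) := T_16 (nat_lit 96) (nat_lit 62) (nat_lit 5) (nat_lit 11) (nat_lit 3) L29812 (by decide +kernel)
theorem L29814 : W_16 (nat_lit 7) (nat_lit 0x40002000000010002800300000000c0000000000000000000) (nat_lit 0x0) (nat_lit 0x400020010003c0000800100010000e000000000000000) := T_16 (nat_lit 161) (nat_lit 178) (nat_lit 5) (nat_lit 8) (nat_lit 7) L29813 (by decide +kernel)
theorem L29815 : W_16 (nat_lit 12) (nat_lit 0x4000200000001000280030000000080000000000000000000) (nat_lit 0x0) (nat_lit 0x400020018003d00008003f0037800fc00180000000000) := Q_16 (nat_lit 78) (C_16 L29808 (C_16 L29732 (C_16 L29814 (C_16 L29554 N_16)))) (by decide +kernel)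
theorem L29816 : W_16 (nat_lit 2) (nat_lit 0x4000200000011000f80030000000080004000000000000000) (nat_lit 0x0) (nat_lit 0x3000008000000000000000000000000000) := D_16 (nat_lit 132) (nat_lit 133) (nat_lit 111) (nat_lit 0) (nat_lit 14) (nat_lit 7) (nat_lit 0) (nat_lit 13) (nat_lit 7) (by decide +kernel)
theorem L29817 : W_16 (nat_lit 3) (nat_lit 0x4000200000011000780030000000080004000000000000000) (nat_lit 0x0) (nat_lit 0x20003800008000000000000000000000000000) := T_16 (nat_lit 131) (nat_lit 149) (nat_lit 3) (nat_lit 9) (nat_lit 7) L29816 (by decide +kernel)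
theorem L29818 : W_16 (nat_lit 4) (nat_lit 0x4000200000001000780030000000080004000000000000000) (nat_lit 0x0) (nat_lit 0x38003800008000000000000000000000000000) := T_16 (nat_lit 148) (nat_lit 147) (nat_lit 3) (nat_lit 8) (nat_lit 7) L29817 (by decide +kernel)
theorem L29819 : W_16 (nat_lit 5) (nat_lit 0x4000200000001000680030000000080004000000000000000) (nat_lit 0x0) (nat_lit 0x38003940008000000000000000000000000000) := T_16 (nat_lit 128) (nat_lit 126) (nat_lit 2) (nat_lit 7) (nat_lit 7) L29818 (by decide +kernel)
theorem L29820 : W_16 (nat_lit 6) (nat_lit 0x4000200000001000680030000000080000000000000000000) (nat_lit 0x0) (nat_lit 0x38003940008001000000004000000000000000) := T_16 (nat_lit 62) (nat_lit 96) (nat_lit 5) (nat_lit 11) (nat_lit 3) L29819 (by decide +kernel)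
theorem L29821 : W_16 (nat_lit 7) (nat_lit 0x40002000200010006c0030001000080000000000000000000) (nat_lit 0x0) (nat_lit 0x1800380000000600017000a000000000000000) := T_16 (nat_lit 78) (nat_lit 61) (nat_lit 4) (nat_lit 11) (nat_lit 7) L29757 (by decide +kernel)
theorem L29822 : W_16 (nat_lit 8) (nat_lit 0x40002000200010006c0030000000080000000000000000000) (nat_lit 0x0) (nat_lit 0x1800380000000700017000e000000000000000) := T_16 (nat_lit 96) (nat_lit 62) (nat_lit 5) (nat_lit 11) (nat_lit 3) L29821 (by decide +kernel)
theorem L29823 : W_16 (nat_lit 9) (nat_lit 0x40002000000010006c0030000000080000000000000000000) (nat_lit 0x0) (nat_lit 0x40002001800380000000700017000e000000000000000) := T_16 (nat_lit 161) (nat_lit 178) (nat_lit 5) (nat_lit 8) (nat_lit 7) L29822 (by decide +kernel)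
theorem L29824 : W_16 (nat_lit 10) (nat_lit 0x4000200000001000680030000000080000000000000000000) (nat_lit 0x0) (nat_lit 0x40002001800394000000700017000e000000000000000) := T_16 (nat_lit 126) (nat_lit 128) (nat_lit 2) (nat_lit 7) (nat_lit 7) L29823 (by decide +kernel)
theorem L29825 : W_16 (nat_lit 2) (nat_lit 0x40002000000010006c00300030001c0000000000000000000) (nat_lit 0x0) (nat_lit 0x4000030000000000000000000) := D_16 (nat_lit 77) (nat_lit 98) (nat_lit 76) (nat_lit 3) (nat_lit 9) (nat_lit 4) (nat_lit 3) (nat_lit 8) (nat_lit 4) (by decide +kernel)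
theorem L29826 : W_16 (nat_lit 3) (nat_lit 0x40002000000010006c00300010001c0000000000000000000) (nat_lit 0x0) (nat_lit 0x8000000000006000030000000000000000000) := T_16 (nat_lit 97) (nat_lit 147) (nat_lit 6) (nat_lit 11) (nat_lit 8) L29825 (by decide +kernel)
theorem L29827 : W_16 (nat_lit 4) (nat_lit 0x40002000000010006c0030001000180000000000000000000) (nat_lit 0x0) (nat_lit 0x8000000000006000070002000000000000000) := T_16 (nat_lit 78) (nat_lit 61) (nat_lit 4) (nat_lit 11) (nat_lit 7) L29826 (by decide +kernel)
theorem L29828 : W_16 (nat_lit 5) (nat_lit 0x40002000000010006c0030001000080000000000000000000) (nat_lit 0x0) (nat_lit 0x800000000000600017000a000000000000000) := T_16 (nat_lit 80) (nat_lit 63) (nat_lit 6) (nat_lit 11) (nat_lit 7) L29827 (by decide +kernel)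
theorem L29829 : W_16 (nat_lit 6) (nat_lit 0x4000200000001000680030001000080000000000000000000) (nat_lit 0x0) (nat_lit 0x800014000000600017000a000000000000000) := T_16 (nat_lit 126) (nat_lit 128) (nat_lit 2) (nat_lit 7) (nat_lit 7) L29828 (by decide +kernel)
theorem L29830 : W_16 (nat_lit 7) (nat_lit 0x4000200000001000680030000000080000000000000000000) (nat_lit 0x0) (nat_lit 0x800014000000700017000e000000000000000) := T_16 (nat_lit 96) (nat_lit 62) (nat_lit 5) (nat_lit 11) (nat_lit 3) L29829 (by decide +kernel)
theorem L29831 : W_16 (nat_lit 2) (nat_lit 0x4000200020011000f80030000000080000000000000000000) (nat_lit 0x0) (nat_lit 0x3000008000000000000000000000000000) := D_16 (nat_lit 132) (nat_lit 133) (nat_lit 111) (nat_lit 0) (nat_lit 14) (nat_lit 7) (nat_lit 0) (nat_lit 13) (nat_lit 7) (by decide +kernel)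
theorem L29832 : W_16 (nat_lit 3) (nat_lit 0x4000200020011000780030000000080000000000000000000) (nat_lit 0x0) (nat_lit 0x20003800008000000000000000000000000000) := T_16 (nat_lit 131) (nat_lit 149) (nat_lit 3) (nat_lit 9) (nat_lit 7) L29831 (by decide +kernel)
theorem L29833 : W_16 (nat_lit 4) (nat_lit 0x4000200020001000780030000000080000000000000000000) (nat_lit 0x0) (nat_lit 0x38003800008000000000000000000000000000) := T_16 (nat_lit 148) (nat_lit 147) (nat_lit 3) (nat_lit 8) (nat_lit 7) L29832 (by decide +kernel)
theorem L29834 : W_16 (nat_lit 5) (nat_lit 0x4000200020001000680030000000080000000000000000000) (nat_lit 0x0) (nat_lit 0x38003940008000000000000000000000000000) := T_16 (nat_lit 128) (nat_lit 126) (nat_lit 2) (nat_lit 7) (nat_lit 7) L29833 (by decide +kernel)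
theorem L29835 : W_16 (nat_lit 6) (nat_lit 0x4000200000001000680030000000080000000000000000000) (nat_lit 0x0) (nat_lit 0x400020038003940008000000000000000000000000000) := T_16 (nat_lit 161) (nat_lit 178) (nat_lit 5) (nat_lit 8) (nat_lit 7) L29834 (by decide +kernel)
theorem L29836 : W_16 (nat_lit 11) (nat_lit 0x4000200000001000280030000000080000000000000000000) (nat_lit 0x0) (nat_lit 0x400020038003d4000800700017000e000000000000000) := Q_16 (nat_lit 130) (C_16 L29707 (C_16 L29820 (C_16 L29824 (C_16 L29830 (C_16 L29835 N_16))))) (by decide +kernel)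
theorem L29837 : W_16 (nat_lit 2) (nat_lit 0x4000200020001000280030000e000c0000000000000000000) (nat_lit 0x0) (nat_lit 0x1000300000000000000000000) := D_16 (nat_lit 80) (nat_lit 81) (nat_lit 96) (nat_lit 1) (nat_lit 13) (nat_lit 4) (nat_lit 2) (nat_lit 8) (nat_lit 5) (by decide +kernel)
theorem L29838 : W_16 (nat_lit 3) (nat_lit 0x4000200020001000280030000c000c0000000000000000000) (nat_lit 0x0) (nat_lit 0x1300300000000000000000000) := T_16 (nat_lit 93) (nat_lit 92) (nat_lit 3) (nat_lit 7) (nat_lit 5) L29837 (by decide +kernel)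
theorem L29839 : W_16 (nat_lit 4) (nat_lit 0x4000200000001000280030000c000c0000000000000000000) (nat_lit 0x0) (nat_lit 0x400020000000000000001300300000000000000000000) := T_16 (nat_lit 161) (nat_lit 178) (nat_lit 5) (nat_lit 8) (nat_lit 7) L29838 (by decide +kernel)
theorem L29840 : W_16 (nat_lit 2) (nat_lit 0x4000200020001000280030000c002c0003000000000000000) (nat_lit 0x0) (nat_lit 0x8001000000000000100000000000) := D_16 (nat_lit 44) (nat_lit 111) (nat_lit 96) (nat_lit 5) (nat_lit 10) (nat_lit 2) (nat_lit 7) (nat_lit 10) (nat_lit 2) (by decide +kernel)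
theorem L29841 : W_16 (nat_lit 3) (nat_lit 0x4000200020001000280030000c002c0001000000000000000) (nat_lit 0x0) (nat_lit 0x8001000000002000180000000000) := T_16 (nat_lit 61) (nat_lit 43) (nat_lit 4) (nat_lit 10) (nat_lit 6) L29840 (by decide +kernel)
theorem L29842 : W_16 (nat_lit 4) (nat_lit 0x4000200020001000280030000c002c0000000000000000000) (nat_lit 0x0) (nat_lit 0x8001000020003000180000000000) := T_16 (nat_lit 60) (nat_lit 77) (nat_lit 4) (nat_lit 10) (nat_lit 7) L29841 (by decide +kernel)
theorem L29843 : W_16 (nat_lit 5) (nat_lit 0x4000200000001000280030000c002c0000000000000000000) (nat_lit 0x0) (nat_lit 0x400020000000000008001000020003000180000000000) := T_16 (nat_lit 161) (nat_lit 178) (nat_lit 5) (nat_lit 8) (nat_lit 7) L29842 (by decide +kernel)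
theorem L29844 : W_16 (nat_lit 6) (nat_lit 0x4000200000001000280030000c000c0000000000000000000) (nat_lit 0x0) (nat_lit 0x400020000000000008001000320003000180000000000) := T_16 (nat_lit 81) (nat_lit 80) (nat_lit 1) (nat_lit 13) (nat_lit 4) L29843 (by decide +kernel)
theorem L29845 : W_16 (nat_lit 2) (nat_lit 0x4000200000001000280030000d000c0003000000000000000) (nat_lit 0x0) (nat_lit 0x8001000000000000100000000000) := D_16 (nat_lit 44) (nat_lit 111) (nat_lit 96) (nat_lit 5) (nat_lit 10) (nat_lit 2) (nat_lit 7) (nat_lit 10) (nat_lit 2) (by decide +kernel)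
theorem L29846 : W_16 (nat_lit 3) (nat_lit 0x4000200000001000280030000d000c0001000000000000000) (nat_lit 0x0) (nat_lit 0x8001000000002000180000000000) := T_16 (nat_lit 61) (nat_lit 43) (nat_lit 4) (nat_lit 10) (nat_lit 6) L29845 (by decide +kernel)
theorem L29847 : W_16 (nat_lit 4) (nat_lit 0x4000200000001000280030000c000c0001000000000000000) (nat_lit 0x0) (nat_lit 0x8001300000002000180000000000) := T_16 (nat_lit 92) (nat_lit 93) (nat_lit 3) (nat_lit 7) (nat_lit 5) L29846 (by decide +kernel)
theorem L29848 : W_16 (nat_lit 5) (nat_lit 0x4000200000001000280030000c000c0000000000000000000) (nat_lit 0x0) (nat_lit 0x8001300020003000180000000000) := T_16 (nat_lit 60) (nat_lit 77) (nat_lit 4) (nat_lit 10) (nat_lit 7) L29847 (by decide +kernel)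
theorem L29849 : W_16 (nat_lit 7) (nat_lit 0x40002000000010002800300008000c0000000000000000000) (nat_lit 0x0) (nat_lit 0x400020000000000008001700320003000180000000000) := Q_16 (nat_lit 94) (C_16 L29783 (C_16 L29839 (C_16 L29844 (C_16 L29848 N_16)))) (by decide +kernel)
theorem L29850 : W_16 (nat_lit 2) (nat_lit 0x40002000000010002800300018000e0000000000000000000) (nat_lit 0x0) (nat_lit 0x2000018000000000000000000) := D_16 (nat_lit 76) (nat_lit 97) (nat_lit 75) (nat_lit 3) (nat_lit 8) (nat_lit 4) (nat_lit 3) (nat_lit 7) (nat_lit 4) (by decide +kernel)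
theorem L29851 : W_16 (nat_lit 3) (nat_lit 0x40002000000010002800300018000c0000000000000000000) (nat_lit 0x0) (nat_lit 0x2000038001000000000000000) := T_16 (nat_lit 77) (nat_lit 60) (nat_lit 4) (nat_lit 10) (nat_lit 7) L29850 (by decide +kernel)
theorem L29852 : W_16 (nat_lit 6) (nat_lit 0x40002000000010002800300008000c0000000000000000000) (nat_lit 0x0) (nat_lit 0x400020018003c00008003000038001000000000000000) := Q_16 (nat_lit 96) (C_16 L29851 (C_16 L29547 N_16)) (by decide +kernel)
theorem L29853 : W_16 (nat_lit 8) (nat_lit 0x40002000000010002800300000000c0000000000000000000) (nat_lit 0x0) (nat_lit 0x400020018003c00008003f00338003000180000000000) := Q_16 (nat_lit 95) (C_16 L29686 (C_16 L29849 (C_16 L29852 N_16))) (by decide +kernel)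
theorem L29854 : W_16 (nat_lit 9) (nat_lit 0x4000200000001000280030000000080000000000000000000) (nat_lit 0x0) (nat_lit 0x400020018003c00008003f0037800f000180000000000) := Q_16 (nat_lit 78) (C_16 L29814 (C_16 L29732 (C_16 L29554 (C_16 L29853 N_16)))) (by decide +kernel)
theorem L29855 : W_16 (nat_lit 2) (nat_lit 0x4002200020019000680030000000080000000000000000000) (nat_lit 0x0) (nat_lit 0x200000000800000001000000000000000000000000) := D_16 (nat_lit 96) (nat_lit 131) (nat_lit 165) (nat_lit 7) (nat_lit 11) (nat_lit 4) (nat_lit 7) (nat_lit 11) (nat_lit 5) (by decide +kernel)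
theorem L29856 : W_16 (nat_lit 3) (nat_lit 0x4002200020009000680030000000080000000000000000000) (nat_lit 0x0) (nat_lit 0x200010000900000001000000000000000000000000) := T_16 (nat_lit 148) (nat_lit 128) (nat_lit 3) (nat_lit 8) (nat_lit 7) L29855 (by decide +kernel)
theorem L29857 : W_16 (nat_lit 4) (nat_lit 0x4000200020009000680030000000080000000000000000000) (nat_lit 0x0) (nat_lit 0x2000300010000900000001000000000000000000000000) := T_16 (nat_lit 181) (nat_lit 164) (nat_lit 4) (nat_lit 11) (nat_lit 10) L29856 (by decide +kernel)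
theorem L29858 : W_16 (nat_lit 5) (nat_lit 0x4000200000009000680030000000080000000000000000000) (nat_lit 0x0) (nat_lit 0x2400320010000900000001000000000000000000000000) := T_16 (nat_lit 161) (nat_lit 178) (nat_lit 5) (nat_lit 8) (nat_lit 7) L29857 (by decide +kernel)
theorem L29859 : W_16 (nat_lit 2) (nat_lit 0x4000200000009000680030000000080000000000000000000) (nat_lit 0x0) (nat_lit 0x2000100000000000000000800000000000000000000000) := D_16 (nat_lit 164) (nat_lit 181) (nat_lit 95) (nat_lit 4) (nat_lit 11) (nat_lit 10) (nat_lit 4) (nat_lit 11) (nat_lit 9) (by decide +kernel)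
theorem L29860 : W_16 (nat_lit 2) (nat_lit 0x4000200000009000680030000000080000000000000000000) (nat_lit 0x0) (nat_lit 0x100000000000000000800040000000000000000000) := D_16 (nat_lit 95) (nat_lit 78) (nat_lit 164) (nat_lit 7) (nat_lit 10) (nat_lit 4) (nat_lit 4) (nat_lit 11) (nat_lit 9) (by decide +kernel)
theorem L29861 : W_16 (nat_lit 2) (nat_lit 0x40002000000090007800300010000c0000000000000000000) (nat_lit 0x0) (nat_lit 0x2000100008000000000000000) := D_16 (nat_lit 80) (nat_lit 63) (nat_lit 97) (nat_lit 6) (nat_lit 11) (nat_lit 7) (nat_lit 6) (nat_lit 11) (nat_lit 8) (by decide +kernel)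
theorem L29862 : W_16 (nat_lit 3) (nat_lit 0x40002000000090007800300000000c0000000000000000000) (nat_lit 0x0) (nat_lit 0x300010000a000000000000000) := T_16 (nat_lit 96) (nat_lit 61) (nat_lit 4) (nat_lit 11) (nat_lit 7) L29861 (by decide +kernel)
theorem L29863 : W_16 (nat_lit 4) (nat_lit 0x4000200000009000780030000000080000000000000000000) (nat_lit 0x0) (nat_lit 0x380014000a000000000000000) := T_16 (nat_lit 78) (nat_lit 95) (nat_lit 7) (nat_lit 10) (nat_lit 4) L29862 (by decide +kernel)
theorem L29864 : W_16 (nat_lit 5) (nat_lit 0x4000200000009000680030000000080000000000000000000) (nat_lit 0x0) (nat_lit 0x1000010000000380014000a000000000000000) := T_16 (nat_lit 128) (nat_lit 148) (nat_lit 3) (nat_lit 8) (nat_lit 7) L29863 (by decide +kernel)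
theorem L29865 : W_16 (nat_lit 6) (nat_lit 0x4000200000001000680030000000080000000000000000000) (nat_lit 0x0) (nat_lit 0x240032001800090000000380014000a000000000000000) := Q_16 (nat_lit 147) (C_16 L29858 (C_16 L29859 (C_16 L29860 (C_16 L29864 N_16)))) (by decide +kernel)
theorem L29866 : W_16 (nat_lit 5) (nat_lit 0x4000200000001000780030000000080000000000000000000) (nat_lit 0x0) (nat_lit 0x1800000000000380014000a000000000000000) := T_16 (nat_lit 147) (nat_lit 148) (nat_lit 3) (nat_lit 8) (nat_lit 7) L29863 (by decide +kernel)
theorem L29867 : W_16 (nat_lit 6) (nat_lit 0x4000200000001000680030000000080000000000000000000) (nat_lit 0x0) (nat_lit 0x1800014000000380014000a000000000000000) := T_16 (nat_lit 128) (nat_lit 126) (nat_lit 2) (nat_lit 7) (nat_lit 7) L29866 (by decide +kernel)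
theorem L29868 : W_16 (nat_lit 2) (nat_lit 0x4000200000001000e80030000000080000000000000000000) (nat_lit 0x0) (nat_lit 0x3000008000000000000000000000000000) := D_16 (nat_lit 132) (nat_lit 111) (nat_lit 133) (nat_lit 0) (nat_lit 13) (nat_lit 7) (nat_lit 0) (nat_lit 14) (nat_lit 7) (by decide +kernel)
theorem L29869 : W_16 (nat_lit 2) (nat_lit 0x4000200020021001ec00b00050001c0000000000000000000) (nat_lit 0x0) (nat_lit 0x8000600000000000000000000) := D_16 (nat_lit 99) (nat_lit 81) (nat_lit 82) (nat_lit 3) (nat_lit 10) (nat_lit 4) (nat_lit 6) (nat_lit 13) (nat_lit 8) (by decide +kernel)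
theorem L29870 : W_16 (nat_lit 3) (nat_lit 0x4000200020021001ec00b00010001c0000000000000000000) (nat_lit 0x0) (nat_lit 0xe000600000000000000000000) := T_16 (nat_lit 98) (nat_lit 97) (nat_lit 4) (nat_lit 13) (nat_lit 8) L29869 (by decide +kernel)
theorem L29871 : W_16 (nat_lit 4) (nat_lit 0x4000200000021001ec00b00010001c0000000000000000000) (nat_lit 0x0) (nat_lit 0x40002000000000000000e000600000000000000000000) := T_16 (nat_lit 161) (nat_lit 178) (nat_lit 5) (nat_lit 8) (nat_lit 7) L29870 (by decide +kernel)
theorem L29872 : W_16 (nat_lit 5) (nat_lit 0x4000200000021001ec00300010001c0000000000000000000) (nat_lit 0x0) (nat_lit 0x40002000000000018000e000600000000000000000000) := T_16 (nat_lit 115) (nat_lit 116) (nat_lit 2) (nat_lit 10) (nat_lit 7) L29871 (by decide +kernel)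
theorem L29873 : W_16 (nat_lit 6) (nat_lit 0x4000200000001001ec00300010001c0000000000000000000) (nat_lit 0x0) (nat_lit 0x40002006000000018000e000600000000000000000000) := T_16 (nat_lit 149) (nat_lit 150) (nat_lit 3) (nat_lit 10) (nat_lit 7) L29872 (by decide +kernel)
theorem L29874 : W_16 (nat_lit 7) (nat_lit 0x4000200000001001ec0030001000180000000000000000000) (nat_lit 0x0) (nat_lit 0x40002006000000018000e000640002000000000000000) := T_16 (nat_lit 78) (nat_lit 61) (nat_lit 4) (nat_lit 11) (nat_lit 7) L29873 (by decide +kernel)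
theorem L29875 : W_16 (nat_lit 8) (nat_lit 0x4000200000001001ec0030001000080000000000000000000) (nat_lit 0x0) (nat_lit 0x40002006000000018000e00074000a000000000000000) := T_16 (nat_lit 80) (nat_lit 63) (nat_lit 6) (nat_lit 11) (nat_lit 7) L29874 (by decide +kernel)
theorem L29876 : W_16 (nat_lit 9) (nat_lit 0x4000200000001001ec0030000000080000000000000000000) (nat_lit 0x0) (nat_lit 0x40002007000000018000f00074000a000000000000000) := T_16 (nat_lit 96) (nat_lit 148) (nat_lit 7) (nat_lit 11) (nat_lit 4) L29875 (by decide +kernel)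
theorem L29877 : W_16 (nat_lit 10) (nat_lit 0x4000200000001000ec0030000000080000000000000000000) (nat_lit 0x0) (nat_lit 0x40002007000300018000f00074000a000000000000000) := T_16 (nat_lit 132) (nat_lit 133) (nat_lit 0) (nat_lit 14) (nat_lit 7) L29876 (by decide +kernel)
theorem L29878 : W_16 (nat_lit 11) (nat_lit 0x4000200000001000e80030000000080000000000000000000) (nat_lit 0x0) (nat_lit 0x40002007000314018000f00074000a000000000000000) := T_16 (nat_lit 126) (nat_lit 128) (nat_lit 2) (nat_lit 7) (nat_lit 7) L29877 (by decide +kernel)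
theorem L29879 : W_16 (nat_lit 2) (nat_lit 0x4000200000001000f80030000000080000000000000000000) (nat_lit 0x0) (nat_lit 0x30000000000001000000000000000000000000) := D_16 (nat_lit 148) (nat_lit 96) (nat_lit 149) (nat_lit 7) (nat_lit 11) (nat_lit 4) (nat_lit 3) (nat_lit 9) (nat_lit 7) (by decide +kernel)
theorem L29880 : W_16 (nat_lit 3) (nat_lit 0x4000200000001000e80030000000080000000000000000000) (nat_lit 0x0) (nat_lit 0x30000140000001000000000000000000000000) := T_16 (nat_lit 128) (nat_lit 126) (nat_lit 2) (nat_lit 7) (nat_lit 7) L29879 (by decide +kernel)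
theorem L29881 : W_16 (nat_lit 12) (nat_lit 0x4000200000001000680030000000080000000000000000000) (nat_lit 0x0) (nat_lit 0x40002007000394018800f00074000a000000000000000) := Q_16 (nat_lit 131) (C_16 L29868 (C_16 L29878 (C_16 L29880 N_16))) (by decide +kernel)
theorem L29882 : W_16 (nat_lit 2) (nat_lit 0x40002001a0019000680030000000080000000000000000000) (nat_lit 0x0) (nat_lit 0x4000200000000000000001000000000000000000000000) := D_16 (nat_lit 165) (nat_lit 182) (nat_lit 96) (nat_lit 7) (nat_lit 11) (nat_lit 6) (nat_lit 7) (nat_lit 11) (nat_lit 5) (by decide +kernel)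
theorem L29883 : W_16 (nat_lit 3) (nat_lit 0x40002001a0009000680030000000080000000000000000000) (nat_lit 0x0) (nat_lit 0x4000240010000000000001000000000000000000000000) := T_16 (nat_lit 148) (nat_lit 162) (nat_lit 2) (nat_lit 8) (nat_lit 9) L29882 (by decide +kernel)
theorem L29884 : W_16 (nat_lit 4) (nat_lit 0x4000200120009000680030000000080000000000000000000) (nat_lit 0x0) (nat_lit 0x50002c0010000000000001000000000000000000000000) := T_16 (nat_lit 163) (nat_lit 180) (nat_lit 5) (nat_lit 11) (nat_lit 6) L29883 (by decide +kernel)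
theorem L29885 : W_16 (nat_lit 5) (nat_lit 0x4000200020009000680030000000080000000000000000000) (nat_lit 0x0) (nat_lit 0x70003c0010000000000001000000000000000000000000) := T_16 (nat_lit 164) (nat_lit 181) (nat_lit 4) (nat_lit 11) (nat_lit 10) L29884 (by decide +kernel)
theorem L29886 : W_16 (nat_lit 6) (nat_lit 0x4000200000009000680030000000080000000000000000000) (nat_lit 0x0) (nat_lit 0x74003e0010000000000001000000000000000000000000) := T_16 (nat_lit 161) (nat_lit 178) (nat_lit 5) (nat_lit 8) (nat_lit 7) L29885 (by decide +kernel)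
theorem L29887 : W_16 (nat_lit 2) (nat_lit 0x40002000200090006800300010000c0000000000000000000) (nat_lit 0x0) (nat_lit 0x2000100008000000000000000) := D_16 (nat_lit 80) (nat_lit 63) (nat_lit 97) (nat_lit 6) (nat_lit 11) (nat_lit 7) (nat_lit 6) (nat_lit 11) (nat_lit 8) (by decide +kernel)
theorem L29888 : W_16 (nat_lit 3) (nat_lit 0x40002000200090006800300000000c0000000000000000000) (nat_lit 0x0) (nat_lit 0x300010000a000000000000000) := T_16 (nat_lit 96) (nat_lit 61) (nat_lit 4) (nat_lit 11) (nat_lit 7) L29887 (by decide +kernel)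
theorem L29889 : W_16 (nat_lit 4) (nat_lit 0x4000200020009000680030000000080000000000000000000) (nat_lit 0x0) (nat_lit 0x380014000a000000000000000) := T_16 (nat_lit 78) (nat_lit 95) (nat_lit 7) (nat_lit 10) (nat_lit 4) L29888 (by decide +kernel)
theorem L29890 : W_16 (nat_lit 5) (nat_lit 0x4000200000009000680030000000080000000000000000000) (nat_lit 0x0) (nat_lit 0x40002000000000000000380014000a000000000000000) := T_16 (nat_lit 161) (nat_lit 178) (nat_lit 5) (nat_lit 8) (nat_lit 7) L29889 (by decide +kernel)
theorem L29891 : W_16 (nat_lit 7) (nat_lit 0x4000200000001000680030000000080000000000000000000) (nat_lit 0x0) (nat_lit 0x74003e001800000000000380014000a000000000000000) := Q_16 (nat_lit 147) (C_16 L29886 (C_16 L29860 (C_16 L29890 N_16))) (by decide +kernel)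
theorem L29892 : W_16 (nat_lit 2) (nat_lit 0x40002000200010006c00300030001c0000000000000000000) (nat_lit 0x0) (nat_lit 0x4000030000000000000000000) := D_16 (nat_lit 77) (nat_lit 98) (nat_lit 76) (nat_lit 3) (nat_lit 9) (nat_lit 4) (nat_lit 3) (nat_lit 8) (nat_lit 4) (by decide +kernel)
theorem L29893 : W_16 (nat_lit 3) (nat_lit 0x40002000200010006c00300010001c0000000000000000000) (nat_lit 0x0) (nat_lit 0x8000000000006000030000000000000000000) := T_16 (nat_lit 97) (nat_lit 147) (nat_lit 6) (nat_lit 11) (nat_lit 8) L29892 (by decide +kernel)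
theorem L29894 : W_16 (nat_lit 4) (nat_lit 0x40002000200010006c00300010000c0000000000000000000) (nat_lit 0x0) (nat_lit 0x8000000000006000130008000000000000000) := T_16 (nat_lit 80) (nat_lit 63) (nat_lit 6) (nat_lit 11) (nat_lit 7) L29893 (by decide +kernel)
theorem L29895 : W_16 (nat_lit 5) (nat_lit 0x40002000200010006800300010000c0000000000000000000) (nat_lit 0x0) (nat_lit 0x8000140000006000130008000000000000000) := T_16 (nat_lit 126) (nat_lit 128) (nat_lit 2) (nat_lit 7) (nat_lit 7) L29894 (by decide +kernel)
theorem L29896 : W_16 (nat_lit 6) (nat_lit 0x40002000200010006800300000000c0000000000000000000) (nat_lit 0x0) (nat_lit 0x800014000000700013000a000000000000000) := T_16 (nat_lit 96) (nat_lit 61) (nat_lit 4) (nat_lit 11) (nat_lit 7) L29895 (by decide +kernel)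
theorem L29897 : W_16 (nat_lit 7) (nat_lit 0x40002000000010006800300000000c0000000000000000000) (nat_lit 0x0) (nat_lit 0x40002000800014000000700013000a000000000000000) := T_16 (nat_lit 161) (nat_lit 178) (nat_lit 5) (nat_lit 8) (nat_lit 7) L29896 (by decide +kernel)
theorem L29898 : W_16 (nat_lit 4) (nat_lit 0x40002000200010007800300008000c0000000000000000000) (nat_lit 0x0) (nat_lit 0x8000700120001000000000000000) := T_16 (nat_lit 77) (nat_lit 60) (nat_lit 4) (nat_lit 10) (nat_lit 7) L29688 (by decide +kernel)
theorem L29899 : W_16 (nat_lit 5) (nat_lit 0x40002000200010007800300000000c0000000000000000000) (nat_lit 0x0) (nat_lit 0x8000000008000f00120001000000000000000) := T_16 (nat_lit 95) (nat_lit 147) (nat_lit 7) (nat_lit 10) (nat_lit 4) L29898 (by decide +kernel)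
theorem L29900 : W_16 (nat_lit 6) (nat_lit 0x40002000000010007800300000000c0000000000000000000) (nat_lit 0x0) (nat_lit 0x400020008000000008000f00120001000000000000000) := T_16 (nat_lit 161) (nat_lit 178) (nat_lit 5) (nat_lit 8) (nat_lit 7) L29899 (by decide +kernel)
theorem L29901 : W_16 (nat_lit 7) (nat_lit 0x40002000000010006800300000000c0000000000000000000) (nat_lit 0x0) (nat_lit 0x400020008000140008000f00120001000000000000000) := T_16 (nat_lit 128) (nat_lit 126) (nat_lit 2) (nat_lit 7) (nat_lit 7) L29900 (by decide +kernel)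
theorem L29902 : W_16 (nat_lit 8) (nat_lit 0x4000200000001000680030000000080000000000000000000) (nat_lit 0x0) (nat_lit 0x400020008000140008007f0017000b000000000000000) := Q_16 (nat_lit 78) (C_16 L29897 (C_16 L29766 (C_16 L29765 (C_16 L29901 N_16)))) (by decide +kernel)
theorem L29903 : W_16 (nat_lit 13) (nat_lit 0x4000200000001000280030000000080000000000000000000) (nat_lit 0x0) (nat_lit 0x74003e0078003d4018800ff0077000b000000000000000) := Q_16 (nat_lit 130) (C_16 L29835 (C_16 L29865 (C_16 L29867 (C_16 L29881 (C_16 L29891 (C_16 L29902 N_16)))))) (by decide +kernel)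
theorem L29904 : W_16 (nat_lit 2) (nat_lit 0x4000200020001000ec00300010000c0000000000000000000) (nat_lit 0x0) (nat_lit 0x3000008000000000000000000000000000) := D_16 (nat_lit 132) (nat_lit 133) (nat_lit 111) (nat_lit 0) (nat_lit 14) (nat_lit 7) (nat_lit 0) (nat_lit 13) (nat_lit 7) (by decide +kernel)
theorem L29905 : W_16 (nat_lit 3) (nat_lit 0x40002000200010006c00300010000c0000000000000000000) (nat_lit 0x0) (nat_lit 0x10003800008000000000000000000000000000) := T_16 (nat_lit 131) (nat_lit 148) (nat_lit 7) (nat_lit 11) (nat_lit 4) L29904 (by decide +kernel)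
theorem L29906 : W_16 (nat_lit 4) (nat_lit 0x40002000200010002c00300010000c0000000000000000000) (nat_lit 0x0) (nat_lit 0x10003c00008000000000002000000000000000) := T_16 (nat_lit 130) (nat_lit 61) (nat_lit 4) (nat_lit 11) (nat_lit 7) L29905 (by decide +kernel)
theorem L29907 : W_16 (nat_lit 5) (nat_lit 0x40002000000010002c00300010000c0000000000000000000) (nat_lit 0x0) (nat_lit 0x400020010003c00008000000000002000000000000000) := T_16 (nat_lit 161) (nat_lit 178) (nat_lit 5) (nat_lit 8) (nat_lit 7) L29906 (by decide +kernel)
theorem L29908 : W_16 (nat_lit 6) (nat_lit 0x40002000000010002c00300000000c0000000000000000000) (nat_lit 0x0) (nat_lit 0x400020010003c00008001000000006000000000000000) := T_16 (nat_lit 96) (nat_lit 62) (nat_lit 5) (nat_lit 11) (nat_lit 3) L29907 (by decide +kernel)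
theorem L29909 : W_16 (nat_lit 7) (nat_lit 0x40002000000010002800300000000c0000000000000000000) (nat_lit 0x0) (nat_lit 0x400020010003d40008001000000006000000000000000) := T_16 (nat_lit 126) (nat_lit 128) (nat_lit 2) (nat_lit 7) (nat_lit 7) L29908 (by decide +kernel)
theorem L29910 : W_16 (nat_lit 8) (nat_lit 0x40002000000010002800300000000c0000000000000000000) (nat_lit 0x0) (nat_lit 0x400020018003d00008003c00038003c00180000000000) := Q_16 (nat_lit 95) (C_16 L29852 (C_16 L29686 (C_16 L29781 N_16))) (by decide +kernel)
theorem L29911 : W_16 (nat_lit 9) (nat_lit 0x4000200000001000280030000000080000000000000000000) (nat_lit 0x0) (nat_lit 0x400020018003d40008003c00078007c00180000000000) := Q_16 (nat_lit 78) (C_16 L29732 (C_16 L29909 (C_16 L29556 (C_16 L29910 N_16)))) (by decide +kernel)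
theorem L29912 : W_16 (nat_lit 14) (nat_lit 0x4000200000001000280030000000000000000000000000000) (nat_lit 0x0) (nat_lit 0x74003e0078003d4018a01ff80ffc03fe001e000f000000) := Q_16 (nat_lit 79) (C_16 L29697 (C_16 L29722 (C_16 L29731 (C_16 L29752 (C_16 L29775 (C_16 L29815 (C_16 L29836 (C_16 L29854 (C_16 L29903 (C_16 L29911 N_16)))))))))) (by decide +kernel)
theorem L29913 : W_16 (nat_lit 2) (nat_lit 0x4000200000001000380030000000000000000000000000000) (nat_lit 0x0) (nat_lit 0x400048000000000000000000000000000) := D_16 (nat_lit 114) (nat_lit 111) (nat_lit 130) (nat_lit 1) (nat_lit 12) (nat_lit 6) (nat_lit 2) (nat_lit 8) (nat_lit 7) (by decide +kernel)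
theorem L29914 : W_16 (nat_lit 3) (nat_lit 0x4000200000001000280030000000000000000000000000000) (nat_lit 0x0) (nat_lit 0x540048000000000000000000000000000) := T_16 (nat_lit 128) (nat_lit 126) (nat_lit 2) (nat_lit 7) (nat_lit 7) L29913 (by decide +kernel)
theorem L29915 : W_16 (nat_lit 15) (nat_lit 0x4000200000001000280010000000000000000000000000000) (nat_lit 0x0) (nat_lit 0x14000f401fe0078007d407ea01ff80ffc03fe00de000f000000) := Q_16 (nat_lit 113) (C_16 L29508 (C_16 L29510 (C_16 L29512 (C_16 L29912 (C_16 L29914 N_16))))) (by decide +kernel)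
theorem L29916 : W_16 (nat_lit 2) (nat_lit 0x40002000200010003c0018000400000000000000000000000) (nat_lit 0x0) (nat_lit 0x8000c000000000000000000000000000000000000) := D_16 (nat_lit 146) (nat_lit 163) (nat_lit 147) (nat_lit 4) (nat_lit 10) (nat_lit 9) (nat_lit 3) (nat_lit 7) (nat_lit 7) (by decide +kernel)
theorem L29917 : W_16 (nat_lit 2) (nat_lit 0x2400fe00210005000380018000000020000000000000000000) (nat_lit 0x0) (nat_lit 0x380000000000000000000000000000000000000000000000000) := D_16 (nat_lit 200) (nat_lit 199) (nat_lit 201) (nat_lit 3) (nat_lit 9) (nat_lit 10) (nat_lit 3) (nat_lit 10) (nat_lit 10) (by decide +kernel)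
theorem L29918 : W_16 (nat_lit 3) (nat_lit 0x24007e00210005000380018000000020000000000000000000) (nat_lit 0x0) (nat_lit 0x390008000000000000000000000000000000000000000000000) := T_16 (nat_lit 183) (nat_lit 196) (nat_lit 1) (nat_lit 13) (nat_lit 10) L29917 (by decide +kernel)
theorem L29919 : W_16 (nat_lit 4) (nat_lit 0x24003e00210005000380018000000020000000000000000000) (nat_lit 0x0) (nat_lit 0x39000c000400000000000000000000000000000000000000000) := T_16 (nat_lit 182) (nat_lit 166) (nat_lit 2) (nat_lit 9) (nat_lit 10) L29918 (by decide +kernel)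
theorem L29920 : W_16 (nat_lit 5) (nat_lit 0x24003e00010005000380018000000020000000000000000000) (nat_lit 0x0) (nat_lit 0x39000c000700000000000000000000000000000000000000000) := T_16 (nat_lit 165) (nat_lit 164) (nat_lit 2) (nat_lit 8) (nat_lit 10) L29919 (by decide +kernel)
theorem L29921 : W_16 (nat_lit 6) (nat_lit 0x24001e00010005000380018000000020000000000000000000) (nat_lit 0x0) (nat_lit 0x39800e000700000000000000000000000000000000000000000) := T_16 (nat_lit 181) (nat_lit 195) (nat_lit 1) (nat_lit 11) (nat_lit 10) L29920 (by decide +kernel)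
theorem L29922 : W_16 (nat_lit 7) (nat_lit 0x4001e00010005000380018000000020000000000000000000) (nat_lit 0x0) (nat_lit 0x3f800e000700000000000000000000000000000000000000000) := T_16 (nat_lit 197) (nat_lit 198) (nat_lit 3) (nat_lit 7) (nat_lit 10) L29921 (by decide +kernel)
theorem L29923 : W_16 (nat_lit 8) (nat_lit 0x4001e00000005000380018000000020000000000000000000) (nat_lit 0x0) (nat_lit 0x3f800e000718000000000000000000000000000000000000000) := T_16 (nat_lit 160) (nat_lit 159) (nat_lit 0) (nat_lit 10) (nat_lit 10) L29922 (by decide +kernel)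
theorem L29924 : W_16 (nat_lit 9) (nat_lit 0x4001600000005000380018000000020000000000000000000) (nat_lit 0x0) (nat_lit 0x3fa00e800718000000000000000000000000000000000000000) := T_16 (nat_lit 179) (nat_lit 193) (nat_lit 1) (nat_lit 10) (nat_lit 10) L29923 (by decide +kernel)
theorem L29925 : W_16 (nat_lit 10) (nat_lit 0x4000600000005000380018000000020000000000000000000) (nat_lit 0x0) (nat_lit 0x3fa00f800798000000000000000000000000000000000000000) := T_16 (nat_lit 180) (nat_lit 163) (nat_lit 4) (nat_lit 10) (nat_lit 10) L29924 (by decide +kernel)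
theorem L29926 : W_16 (nat_lit 11) (nat_lit 0x4000200000005000380018000000020000000000000000000) (nat_lit 0x0) (nat_lit 0x3fa00fc007b8000000000000000000000000000000000000000) := T_16 (nat_lit 178) (nat_lit 161) (nat_lit 6) (nat_lit 8) (nat_lit 10) L29925 (by decide +kernel)
theorem L29927 : W_16 (nat_lit 2) (nat_lit 0x40002000000050003c001a000000008000000000000000000) (nat_lit 0x0) (nat_lit 0x1000080000000000000000400000000000000000000000) := D_16 (nat_lit 163) (nat_lit 94) (nat_lit 180) (nat_lit 4) (nat_lit 10) (nat_lit 9) (nat_lit 4) (nat_lit 10) (nat_lit 10) (by decide +kernel)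
theorem L29928 : W_16 (nat_lit 3) (nat_lit 0x40002000000050003c0012000000008000000000000000000) (nat_lit 0x0) (nat_lit 0x1000080000000020008000400000000000000000000000) := T_16 (nat_lit 111) (nat_lit 125) (nat_lit 2) (nat_lit 6) (nat_lit 7) L29927 (by decide +kernel)
theorem L29929 : W_16 (nat_lit 4) (nat_lit 0x40002000000050003c0012000000000000000000000000000) (nat_lit 0x0) (nat_lit 0x1000080000000020008000500008000000000000000000) := T_16 (nat_lit 75) (nat_lit 92) (nat_lit 7) (nat_lit 7) (nat_lit 4) L29928 (by decide +kernel)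
theorem L29930 : W_16 (nat_lit 5) (nat_lit 0x40002000000010003c0012000000000000000000000000000) (nat_lit 0x0) (nat_lit 0x100008000c000020008000500008000000000000000000) := T_16 (nat_lit 146) (nat_lit 147) (nat_lit 3) (nat_lit 7) (nat_lit 7) L29929 (by decide +kernel)
theorem L29931 : W_16 (nat_lit 6) (nat_lit 0x40002000000010003c0010000000000000000000000000000) (nat_lit 0x0) (nat_lit 0x100008000c00002000b000500008000000000000000000) := T_16 (nat_lit 109) (nat_lit 108) (nat_lit 0) (nat_lit 10) (nat_lit 7) L29930 (by decide +kernel)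
theorem L29932 : W_16 (nat_lit 3) (nat_lit 0x40002000200010003c0018000000000000000000000000000) (nat_lit 0x0) (nat_lit 0x8000c000000000000400020000000000000000000) := T_16 (nat_lit 94) (nat_lit 77) (nat_lit 5) (nat_lit 9) (nat_lit 4) L29916 (by decide +kernel)
theorem L29933 : W_16 (nat_lit 4) (nat_lit 0x40002000000010003c0018000000000000000000000000000) (nat_lit 0x0) (nat_lit 0x4000a000c000000000000400020000000000000000000) := T_16 (nat_lit 161) (nat_lit 178) (nat_lit 6) (nat_lit 8) (nat_lit 10) L29932 (by decide +kernel)
theorem L29934 : W_16 (nat_lit 5) (nat_lit 0x40002000000010003c0010000000000000000000000000000) (nat_lit 0x0) (nat_lit 0x4000a000c000020008000400020000000000000000000) := T_16 (nat_lit 111) (nat_lit 125) (nat_lit 2) (nat_lit 6) (nat_lit 7) L29933 (by decide +kernel)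
theorem L29935 : W_16 (nat_lit 2) (nat_lit 0x400020002002d0003800100008000a0000000000000000000) (nat_lit 0x0) (nat_lit 0x40005000000000000000) := D_16 (nat_lit 78) (nat_lit 62) (nat_lit 60) (nat_lit 6) (nat_lit 10) (nat_lit 7) (nat_lit 4) (nat_lit 10) (nat_lit 7) (by decide +kernel)
theorem L29936 : W_16 (nat_lit 3) (nat_lit 0x400020002002d000380010000800080000000000000000000) (nat_lit 0x0) (nat_lit 0x400060005000000000000000) := T_16 (nat_lit 77) (nat_lit 94) (nat_lit 4) (nat_lit 10) (nat_lit 8) L29935 (by decide +kernel)
theorem L29937 : W_16 (nat_lit 4) (nat_lit 0x400020002002d000380010000800000000000000000000000) (nat_lit 0x0) (nat_lit 0x14000e0005000000000000000) := T_16 (nat_lit 79) (nat_lit 96) (nat_lit 6) (nat_lit 10) (nat_lit 8) L29936 (by decide +kernel)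
theorem L29938 : W_16 (nat_lit 5) (nat_lit 0x400020002002d000380010000000000000000000000000000) (nat_lit 0x0) (nat_lit 0x100000000000000001c000e0005000000000000000) := T_16 (nat_lit 95) (nat_lit 164) (nat_lit 7) (nat_lit 10) (nat_lit 5) L29937 (by decide +kernel)
theorem L29939 : W_16 (nat_lit 6) (nat_lit 0x400020002000d000380010000000000000000000000000000) (nat_lit 0x0) (nat_lit 0x100030000000000001c000e0005000000000000000) := T_16 (nat_lit 149) (nat_lit 148) (nat_lit 0) (nat_lit 13) (nat_lit 8) L29938 (by decide +kernel)
theorem L29940 : W_16 (nat_lit 7) (nat_lit 0x4000200020005000380010000000000000000000000000000) (nat_lit 0x0) (nat_lit 0x100038000040000001c000e0005000000000000000) := T_16 (nat_lit 147) (nat_lit 126) (nat_lit 3) (nat_lit 7) (nat_lit 7) L29939 (by decide +kernel)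
theorem L29941 : W_16 (nat_lit 8) (nat_lit 0x4000200000005000380010000000000000000000000000000) (nat_lit 0x0) (nat_lit 0x400120038000040000001c000e0005000000000000000) := T_16 (nat_lit 161) (nat_lit 178) (nat_lit 5) (nat_lit 8) (nat_lit 7) L29940 (by decide +kernel)
theorem L29942 : W_16 (nat_lit 2) (nat_lit 0x4000200080005000380010000000000000000000000000000) (nat_lit 0x0) (nat_lit 0x1000000000000000008000400000000000000000000000) := D_16 (nat_lit 111) (nat_lit 94) (nat_lit 180) (nat_lit 4) (nat_lit 10) (nat_lit 9) (nat_lit 4) (nat_lit 10) (nat_lit 10) (by decide +kernel)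
theorem L29943 : W_16 (nat_lit 2) (nat_lit 0x4000a00180005000380010001c00000000000000000000000) (nat_lit 0x0) (nat_lit 0x1400020000000000000000000000000000000000000000) := D_16 (nat_lit 178) (nat_lit 161) (nat_lit 180) (nat_lit 5) (nat_lit 8) (nat_lit 7) (nat_lit 2) (nat_lit 7) (nat_lit 10) (by decide +kernel)
theorem L29944 : W_16 (nat_lit 3) (nat_lit 0x4000200180005000380010001c00000000000000000000000) (nat_lit 0x0) (nat_lit 0x1c00060000000000000000000000000000000000000000) := T_16 (nat_lit 179) (nat_lit 162) (nat_lit 5) (nat_lit 10) (nat_lit 6) L29943 (by decide +kernel)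
theorem L29945 : W_16 (nat_lit 4) (nat_lit 0x4000200180005000380010001800000000000000000000000) (nat_lit 0x0) (nat_lit 0x1c00060000000000000000400020000000000000000000) := T_16 (nat_lit 94) (nat_lit 77) (nat_lit 4) (nat_lit 10) (nat_lit 8) L29944 (by decide +kernel)
theorem L29946 : W_16 (nat_lit 5) (nat_lit 0x4000200180005000380010000800000000000000000000000) (nat_lit 0x0) (nat_lit 0x1c000600000000000000014000a0000000000000000000) := T_16 (nat_lit 96) (nat_lit 79) (nat_lit 6) (nat_lit 10) (nat_lit 8) L29945 (by decide +kernel)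
theorem L29947 : W_16 (nat_lit 6) (nat_lit 0x4000200180005000380010000000000000000000000000000) (nat_lit 0x0) (nat_lit 0x1c00060008000000000001c000a0000000000000000000) := T_16 (nat_lit 95) (nat_lit 147) (nat_lit 7) (nat_lit 10) (nat_lit 5) L29946 (by decide +kernel)
theorem L29948 : W_16 (nat_lit 7) (nat_lit 0x4000200080005000380010000000000000000000000000000) (nat_lit 0x0) (nat_lit 0x3c00160008000000000001c000a0000000000000000000) := T_16 (nat_lit 164) (nat_lit 181) (nat_lit 7) (nat_lit 10) (nat_lit 6) L29947 (by decide +kernel)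
theorem L29949 : W_16 (nat_lit 2) (nat_lit 0x40012000a0005000380010000000000000000000000000000) (nat_lit 0x0) (nat_lit 0x40002000100000000000000000000000000000000000000000) := D_16 (nat_lit 181) (nat_lit 164) (nat_lit 198) (nat_lit 7) (nat_lit 10) (nat_lit 6) (nat_lit 7) (nat_lit 10) (nat_lit 7) (by decide +kernel)
theorem L29950 : W_16 (nat_lit 3) (nat_lit 0x40002000a0005000380010000000000000000000000000000) (nat_lit 0x0) (nat_lit 0x40003000100000000000008000000000000000000000000000) := T_16 (nat_lit 180) (nat_lit 111) (nat_lit 4) (nat_lit 10) (nat_lit 10) L29949 (by decide +kernel)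
theorem L29951 : W_16 (nat_lit 4) (nat_lit 0x4000200080005000380010000000000000000000000000000) (nat_lit 0x0) (nat_lit 0x40003400120000000000008000000000000000000000000000) := T_16 (nat_lit 161) (nat_lit 178) (nat_lit 5) (nat_lit 8) (nat_lit 7) L29950 (by decide +kernel)
theorem L29952 : W_16 (nat_lit 2) (nat_lit 0x4000200180005000380010000800000000000000000000000) (nat_lit 0x0) (nat_lit 0x8000400020000000000000000000) := D_16 (nat_lit 94) (nat_lit 111) (nat_lit 77) (nat_lit 4) (nat_lit 10) (nat_lit 9) (nat_lit 4) (nat_lit 10) (nat_lit 8) (by decide +kernel)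
theorem L29953 : W_16 (nat_lit 3) (nat_lit 0x4000200180005000380010000000000000000000000000000) (nat_lit 0x0) (nat_lit 0x8000000008000c00020000000000000000000) := T_16 (nat_lit 95) (nat_lit 147) (nat_lit 7) (nat_lit 10) (nat_lit 5) L29952 (by decide +kernel)
theorem L29954 : W_16 (nat_lit 4) (nat_lit 0x4000200080005000380010000000000000000000000000000) (nat_lit 0x0) (nat_lit 0x2000100008000000008000c00020000000000000000000) := T_16 (nat_lit 164) (nat_lit 181) (nat_lit 7) (nat_lit 10) (nat_lit 6) L29953 (by decide +kernel)
theorem L29955 : W_16 (nat_lit 8) (nat_lit 0x4000200000005000380010000000000000000000000000000) (nat_lit 0x0) (nat_lit 0x40003c001e0008000000008001c000a0000000000000000000) := Q_16 (nat_lit 163) (C_16 L29942 (C_16 L29948 (C_16 L29951 (C_16 L29954 N_16)))) (by decide +kernel)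
theorem L29956 : W_16 (nat_lit 2) (nat_lit 0x40002000000050003e0010000000000000000000000000000) (nat_lit 0x0) (nat_lit 0x3800000000000000000000000000) := D_16 (nat_lit 108) (nat_lit 109) (nat_lit 107) (nat_lit 0) (nat_lit 10) (nat_lit 7) (nat_lit 0) (nat_lit 9) (nat_lit 7) (by decide +kernel)
theorem L29957 : W_16 (nat_lit 3) (nat_lit 0x40002000000050003c0010000000000000000000000000000) (nat_lit 0x0) (nat_lit 0x2000b800000000000000000000000000) := T_16 (nat_lit 125) (nat_lit 111) (nat_lit 2) (nat_lit 6) (nat_lit 7) L29956 (by decide +kernel)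
theorem L29958 : W_16 (nat_lit 4) (nat_lit 0x4000200000005000380010000000000000000000000000000) (nat_lit 0x0) (nat_lit 0x800006000b800000000000000000000000000) := T_16 (nat_lit 126) (nat_lit 147) (nat_lit 3) (nat_lit 7) (nat_lit 7) L29957 (by decide +kernel)
theorem L29959 : W_16 (nat_lit 2) (nat_lit 0x4000200000005000380010000000020000000000000000000) (nat_lit 0x0) (nat_lit 0x8000c00000000000000000000000) := D_16 (nat_lit 94) (nat_lit 111) (nat_lit 95) (nat_lit 7) (nat_lit 9) (nat_lit 4) (nat_lit 4) (nat_lit 10) (nat_lit 8) (by decide +kernel)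
theorem L29960 : W_16 (nat_lit 2) (nat_lit 0x4000200020005000380010000800060000000000000000000) (nat_lit 0x0) (nat_lit 0x1000080004000000000000000) := D_16 (nat_lit 79) (nat_lit 96) (nat_lit 62) (nat_lit 6) (nat_lit 10) (nat_lit 8) (nat_lit 6) (nat_lit 10) (nat_lit 7) (by decide +kernel)
theorem L29961 : W_16 (nat_lit 3) (nat_lit 0x4000200020005000380010000800020000000000000000000) (nat_lit 0x0) (nat_lit 0x10000c0005000000000000000) := T_16 (nat_lit 78) (nat_lit 60) (nat_lit 4) (nat_lit 10) (nat_lit 7) L29960 (by decide +kernel)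
theorem L29962 : W_16 (nat_lit 4) (nat_lit 0x4000200020005000380010000000020000000000000000000) (nat_lit 0x0) (nat_lit 0x1c000c0005000000000000000) := T_16 (nat_lit 95) (nat_lit 94) (nat_lit 4) (nat_lit 10) (nat_lit 8) L29961 (by decide +kernel)
theorem L29963 : W_16 (nat_lit 5) (nat_lit 0x4000200000005000380010000000020000000000000000000) (nat_lit 0x0) (nat_lit 0x400020000000000000001c000c0005000000000000000) := T_16 (nat_lit 161) (nat_lit 178) (nat_lit 5) (nat_lit 8) (nat_lit 7) L29962 (by decide +kernel)
theorem L29964 : W_16 (nat_lit 12) (nat_lit 0x4000200000005000380010000000020000000000000000000) (nat_lit 0x0) (nat_lit 0x3fa00fc007b8000000000008000400000000000000000000000) := T_16 (nat_lit 111) (nat_lit 94) (nat_lit 7) (nat_lit 9) (nat_lit 4) L29926 (by decide +kernel)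
theorem L29965 : W_16 (nat_lit 4) (nat_lit 0x4000200000005000380010000800020000000000000000000) (nat_lit 0x0) (nat_lit 0x4000200000000000000010000c0005000000000000000) := T_16 (nat_lit 161) (nat_lit 178) (nat_lit 5) (nat_lit 8) (nat_lit 7) L29961 (by decide +kernel)
theorem L29966 : W_16 (nat_lit 2) (nat_lit 0x40002000000050003c0018005800068000000000000000000) (nat_lit 0x0) (nat_lit 0x3000100000000000000000000000) := D_16 (nat_lit 109) (nat_lit 108) (nat_lit 92) (nat_lit 0) (nat_lit 10) (nat_lit 7) (nat_lit 7) (nat_lit 7) (nat_lit 4) (by decide +kernel)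
theorem L29967 : W_16 (nat_lit 3) (nat_lit 0x4000200000005000380018005800068000000000000000000) (nat_lit 0x0) (nat_lit 0x60003000100000000000000000000000) := T_16 (nat_lit 126) (nat_lit 125) (nat_lit 2) (nat_lit 6) (nat_lit 7) L29966 (by decide +kernel)
theorem L29968 : W_16 (nat_lit 4) (nat_lit 0x4000200000005000380018001800068000000000000000000) (nat_lit 0x0) (nat_lit 0x60003006100000000000000000000000) := T_16 (nat_lit 98) (nat_lit 97) (nat_lit 1) (nat_lit 13) (nat_lit 5) L29967 (by decide +kernel)
theorem L29969 : W_16 (nat_lit 5) (nat_lit 0x4000200000005000380010001800068000000000000000000) (nat_lit 0x0) (nat_lit 0x6000b006100000002000000000000000) := T_16 (nat_lit 111) (nat_lit 61) (nat_lit 5) (nat_lit 10) (nat_lit 3) L29968 (by decide +kernel)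
theorem L29970 : W_16 (nat_lit 6) (nat_lit 0x4000200000005000380010001800060000000000000000000) (nat_lit 0x0) (nat_lit 0x6000b006100018002000000000000000) := T_16 (nat_lit 75) (nat_lit 76) (nat_lit 3) (nat_lit 7) (nat_lit 4) L29969 (by decide +kernel)
theorem L29971 : W_16 (nat_lit 7) (nat_lit 0x4000200000005000380010001800020000000000000000000) (nat_lit 0x0) (nat_lit 0x6000b006100058003000000000000000) := T_16 (nat_lit 78) (nat_lit 60) (nat_lit 4) (nat_lit 10) (nat_lit 7) L29970 (by decide +kernel)
theorem L29972 : W_16 (nat_lit 8) (nat_lit 0x4000200000005000380010000800020000000000000000000) (nat_lit 0x0) (nat_lit 0x6000b0071000d8003000000000000000) := T_16 (nat_lit 96) (nat_lit 79) (nat_lit 6) (nat_lit 10) (nat_lit 8) L29971 (by decide +kernel)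
theorem L29973 : W_16 (nat_lit 2) (nat_lit 0x40012000a0005000380010000800020000000000000000000) (nat_lit 0x0) (nat_lit 0x10000800040000000000000000000000000000000000000000) := D_16 (nat_lit 179) (nat_lit 162) (nat_lit 196) (nat_lit 5) (nat_lit 10) (nat_lit 6) (nat_lit 5) (nat_lit 10) (nat_lit 7) (by decide +kernel)
theorem L29974 : W_16 (nat_lit 3) (nat_lit 0x4001200020005000380010000800020000000000000000000) (nat_lit 0x0) (nat_lit 0x100008000c0000000000008000000000000000000000000000) := T_16 (nat_lit 163) (nat_lit 111) (nat_lit 4) (nat_lit 10) (nat_lit 10) L29973 (by decide +kernel)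
theorem L29975 : W_16 (nat_lit 4) (nat_lit 0x4001200000005000380010000800020000000000000000000) (nat_lit 0x0) (nat_lit 0x10000c000e0000000000008000000000000000000000000000) := T_16 (nat_lit 161) (nat_lit 178) (nat_lit 5) (nat_lit 8) (nat_lit 7) L29974 (by decide +kernel)
theorem L29976 : W_16 (nat_lit 2) (nat_lit 0x4001200080005000380010001800020000000000000000000) (nat_lit 0x0) (nat_lit 0x10000800040000000000000000000000000000000000000000) := D_16 (nat_lit 179) (nat_lit 162) (nat_lit 196) (nat_lit 5) (nat_lit 10) (nat_lit 6) (nat_lit 5) (nat_lit 10) (nat_lit 7) (by decide +kernel)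
theorem L29977 : W_16 (nat_lit 3) (nat_lit 0x4001200000005000380010001800020000000000000000000) (nat_lit 0x0) (nat_lit 0x100008000c0000000000008000000000000000000000000000) := T_16 (nat_lit 163) (nat_lit 111) (nat_lit 4) (nat_lit 10) (nat_lit 10) L29976 (by decide +kernel)
theorem L29978 : W_16 (nat_lit 4) (nat_lit 0x4001200000005000380010000800020000000000000000000) (nat_lit 0x0) (nat_lit 0x100008000c0000000000008001000080000000000000000000) := T_16 (nat_lit 96) (nat_lit 79) (nat_lit 6) (nat_lit 10) (nat_lit 8) L29977 (by decide +kernel)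
theorem L29979 : W_16 (nat_lit 2) (nat_lit 0x4001e00000005000380010001800020000000000000000000) (nat_lit 0x0) (nat_lit 0x1c0000000000000000000000000000000000000000) := D_16 (nat_lit 163) (nat_lit 164) (nat_lit 162) (nat_lit 2) (nat_lit 7) (nat_lit 10) (nat_lit 5) (nat_lit 10) (nat_lit 6) (by decide +kernel)
theorem L29980 : W_16 (nat_lit 3) (nat_lit 0x4001600000005000380010001800020000000000000000000) (nat_lit 0x0) (nat_lit 0x20008001c0000000000000000000000000000000000000000) := T_16 (nat_lit 179) (nat_lit 193) (nat_lit 1) (nat_lit 10) (nat_lit 10) L29979 (by decide +kernel)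
theorem L29981 : W_16 (nat_lit 4) (nat_lit 0x4001600000005000380010000800020000000000000000000) (nat_lit 0x0) (nat_lit 0x20008001c0000000000000001000080000000000000000000) := T_16 (nat_lit 96) (nat_lit 79) (nat_lit 6) (nat_lit 10) (nat_lit 8) L29980 (by decide +kernel)
theorem L29982 : W_16 (nat_lit 5) (nat_lit 0x4001200000005000380010000800020000000000000000000) (nat_lit 0x0) (nat_lit 0x2000c001e0000000000000001000080000000000000000000) := T_16 (nat_lit 178) (nat_lit 161) (nat_lit 5) (nat_lit 8) (nat_lit 7) L29981 (by decide +kernel)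
theorem L29983 : W_16 (nat_lit 2) (nat_lit 0x4001200080005000380010001800020000000000000000000) (nat_lit 0x0) (nat_lit 0x40002000100000000000000000000000000000000000000000) := D_16 (nat_lit 181) (nat_lit 164) (nat_lit 198) (nat_lit 7) (nat_lit 10) (nat_lit 6) (nat_lit 7) (nat_lit 10) (nat_lit 7) (by decide +kernel)
theorem L29984 : W_16 (nat_lit 3) (nat_lit 0x4001200000005000380010001800020000000000000000000) (nat_lit 0x0) (nat_lit 0x40002000180000000000008000000000000000000000000000) := T_16 (nat_lit 163) (nat_lit 111) (nat_lit 4) (nat_lit 10) (nat_lit 10) L29983 (by decide +kernel)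
theorem L29985 : W_16 (nat_lit 4) (nat_lit 0x4001200000005000380010000800020000000000000000000) (nat_lit 0x0) (nat_lit 0x40002000180000000000008001000080000000000000000000) := T_16 (nat_lit 96) (nat_lit 79) (nat_lit 6) (nat_lit 10) (nat_lit 8) L29984 (by decide +kernel)
theorem L29986 : W_16 (nat_lit 2) (nat_lit 0x44001e00010005000380010001800020000000000000000000) (nat_lit 0x0) (nat_lit 0x88002000000000000000000000000000000000000000000000) := D_16 (nat_lit 181) (nat_lit 195) (nat_lit 199) (nat_lit 1) (nat_lit 11) (nat_lit 10) (nat_lit 3) (nat_lit 8) (nat_lit 10) (by decide +kernel)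
theorem L29987 : W_16 (nat_lit 3) (nat_lit 0x4001e00010005000380010001800020000000000000000000) (nat_lit 0x0) (nat_lit 0xe8002000000000000000000000000000000000000000000000) := T_16 (nat_lit 198) (nat_lit 197) (nat_lit 3) (nat_lit 7) (nat_lit 10) L29986 (by decide +kernel)
theorem L29988 : W_16 (nat_lit 4) (nat_lit 0x4001e00000005000380010001800020000000000000000000) (nat_lit 0x0) (nat_lit 0xe8002000018000000000000000000000000000000000000000) := T_16 (nat_lit 160) (nat_lit 159) (nat_lit 0) (nat_lit 10) (nat_lit 10) L29987 (by decide +kernel)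
theorem L29989 : W_16 (nat_lit 5) (nat_lit 0x4001600000005000380010001800020000000000000000000) (nat_lit 0x0) (nat_lit 0xea002800018000000000000000000000000000000000000000) := T_16 (nat_lit 179) (nat_lit 193) (nat_lit 1) (nat_lit 10) (nat_lit 10) L29988 (by decide +kernel)
theorem L29990 : W_16 (nat_lit 6) (nat_lit 0x4001600000005000380010000800020000000000000000000) (nat_lit 0x0) (nat_lit 0xea002800018000000000000001000080000000000000000000) := T_16 (nat_lit 96) (nat_lit 79) (nat_lit 6) (nat_lit 10) (nat_lit 8) L29989 (by decide +kernel)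
theorem L29991 : W_16 (nat_lit 7) (nat_lit 0x4001200000005000380010000800020000000000000000000) (nat_lit 0x0) (nat_lit 0xea002c00038000000000000001000080000000000000000000) := T_16 (nat_lit 178) (nat_lit 161) (nat_lit 5) (nat_lit 8) (nat_lit 7) L29990 (by decide +kernel)
theorem L29992 : W_16 (nat_lit 8) (nat_lit 0x4000200000005000380010000800020000000000000000000) (nat_lit 0x0) (nat_lit 0xfa003c001f8000000000008001000080000000000000000000) := Q_16 (nat_lit 180) (C_16 L29975 (C_16 L29978 (C_16 L29982 (C_16 L29985 (C_16 L29991 N_16))))) (by decide +kernel)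
theorem L29993 : W_16 (nat_lit 2) (nat_lit 0x44001e00010005000380018000800060000000000000000000) (nat_lit 0x0) (nat_lit 0x88002000000000000000000000000000000000000000000000) := D_16 (nat_lit 181) (nat_lit 195) (nat_lit 199) (nat_lit 1) (nat_lit 11) (nat_lit 10) (nat_lit 3) (nat_lit 8) (nat_lit 10) (by decide +kernel)
theorem L29994 : W_16 (nat_lit 3) (nat_lit 0x4001e00010005000380018000800060000000000000000000) (nat_lit 0x0) (nat_lit 0xe8002000000000000000000000000000000000000000000000) := T_16 (nat_lit 198) (nat_lit 197) (nat_lit 3) (nat_lit 7) (nat_lit 10) L29993 (by decide +kernel)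
theorem L29995 : W_16 (nat_lit 4) (nat_lit 0x4001e00000005000380018000800060000000000000000000) (nat_lit 0x0) (nat_lit 0xe8002000018000000000000000000000000000000000000000) := T_16 (nat_lit 160) (nat_lit 159) (nat_lit 0) (nat_lit 10) (nat_lit 10) L29994 (by decide +kernel)
theorem L29996 : W_16 (nat_lit 5) (nat_lit 0x4001600000005000380018000800060000000000000000000) (nat_lit 0x0) (nat_lit 0xea002800018000000000000000000000000000000000000000) := T_16 (nat_lit 179) (nat_lit 193) (nat_lit 1) (nat_lit 10) (nat_lit 10) L29995 (by decide +kernel)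
theorem L29997 : W_16 (nat_lit 6) (nat_lit 0x4000600000005000380018000800060000000000000000000) (nat_lit 0x0) (nat_lit 0xea003800098000000000000000000000000000000000000000) := T_16 (nat_lit 180) (nat_lit 163) (nat_lit 4) (nat_lit 10) (nat_lit 10) L29996 (by decide +kernel)
theorem L29998 : W_16 (nat_lit 7) (nat_lit 0x4000600000005000380010000800060000000000000000000) (nat_lit 0x0) (nat_lit 0xea003800098000000000008000000000002000000000000000) := T_16 (nat_lit 111) (nat_lit 61) (nat_lit 5) (nat_lit 10) (nat_lit 3) L29997 (by decide +kernel)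
theorem L29999 : W_16 (nat_lit 8) (nat_lit 0x4000600000005000380010000800020000000000000000000) (nat_lit 0x0) (nat_lit 0xea003800098000000000008000000040003000000000000000) := T_16 (nat_lit 78) (nat_lit 60) (nat_lit 4) (nat_lit 10) (nat_lit 7) L29998 (by decide +kernel)
theorem L30000 : W_16 (nat_lit 9) (nat_lit 0x4000200000005000380010000800020000000000000000000) (nat_lit 0x0) (nat_lit 0xea003c000b8000000000008000000040003000000000000000) := T_16 (nat_lit 178) (nat_lit 161) (nat_lit 5) (nat_lit 8) (nat_lit 7) L29999 (by decide +kernel)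
theorem L30001 : W_16 (nat_lit 10) (nat_lit 0x4000200000005000380010000000020000000000000000000) (nat_lit 0x0) (nat_lit 0xfa003c001f800000006000b0079000d8007000000000000000) := Q_16 (nat_lit 95) (C_16 L29965 (C_16 L29972 (C_16 L29992 (C_16 L30000 N_16)))) (by decide +kernel)
theorem L30002 : W_16 (nat_lit 13) (nat_lit 0x4000200000005000380010000000000000000000000000000) (nat_lit 0x0) (nat_lit 0x3fa00fc007f800000006000b007d000f8007000000000000000) := Q_16 (nat_lit 77) (C_16 L29959 (C_16 L29963 (C_16 L29964 (C_16 L30001 N_16)))) (by decide +kernel)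
theorem L30003 : W_16 (nat_lit 14) (nat_lit 0x4000200000001000380010000000000000000000000000000) (nat_lit 0x0) (nat_lit 0x3fa00fc007f803c00006000b807d000f8007000000000000000) := Q_16 (nat_lit 146) (C_16 L29941 (C_16 L29955 (C_16 L29958 (C_16 L30002 N_16)))) (by decide +kernel)
theorem L30004 : W_16 (nat_lit 7) (nat_lit 0x4000200000001000380010000000000000000000000000000) (nat_lit 0x0) (nat_lit 0x100008000c00006002b000500008000000000000000000) := T_16 (nat_lit 126) (nat_lit 113) (nat_lit 2) (nat_lit 7) (nat_lit 7) L29931 (by decide +kernel)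
theorem L30005 : W_16 (nat_lit 6) (nat_lit 0x4000200000001000380010000000000000000000000000000) (nat_lit 0x0) (nat_lit 0x4000a000c000060028000400020000000000000000000) := T_16 (nat_lit 126) (nat_lit 113) (nat_lit 2) (nat_lit 7) (nat_lit 7) L29934 (by decide +kernel)
theorem L30006 : W_16 (nat_lit 2) (nat_lit 0x4000200180005000380010000800000000000000000000000) (nat_lit 0x0) (nat_lit 0x20001000080000000000000000000) := D_16 (nat_lit 96) (nat_lit 79) (nat_lit 113) (nat_lit 6) (nat_lit 10) (nat_lit 8) (nat_lit 6) (nat_lit 10) (nat_lit 9) (by decide +kernel)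
theorem L30007 : W_16 (nat_lit 3) (nat_lit 0x4000200180005000380010000000000000000000000000000) (nat_lit 0x0) (nat_lit 0x8000000020001800080000000000000000000) := T_16 (nat_lit 95) (nat_lit 147) (nat_lit 7) (nat_lit 10) (nat_lit 5) L30006 (by decide +kernel)
theorem L30008 : W_16 (nat_lit 4) (nat_lit 0x4000200080005000380010000000000000000000000000000) (nat_lit 0x0) (nat_lit 0x2000100008000000020001800080000000000000000000) := T_16 (nat_lit 164) (nat_lit 181) (nat_lit 7) (nat_lit 10) (nat_lit 6) L30007 (by decide +kernel)
theorem L30009 : W_16 (nat_lit 2) (nat_lit 0x40022000e00050003800b0000000000000000000000000000) (nat_lit 0x0) (nat_lit 0x40001000010000000000000000000000000000000000000000) := D_16 (nat_lit 180) (nat_lit 160) (nat_lit 198) (nat_lit 3) (nat_lit 7) (nat_lit 9) (nat_lit 7) (nat_lit 10) (nat_lit 7) (by decide +kernel)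
theorem L30010 : W_16 (nat_lit 3) (nat_lit 0x40022000a00050003800b0000000000000000000000000000) (nat_lit 0x0) (nat_lit 0x40001800050000000000000000000000000000000000000000) := T_16 (nat_lit 162) (nat_lit 179) (nat_lit 5) (nat_lit 10) (nat_lit 6) L30009 (by decide +kernel)
theorem L30011 : W_16 (nat_lit 4) (nat_lit 0x40002000a00050003800b0000000000000000000000000000) (nat_lit 0x0) (nat_lit 0x40003800150000000000000000000000000000000000000000) := T_16 (nat_lit 181) (nat_lit 164) (nat_lit 7) (nat_lit 10) (nat_lit 6) L30010 (by decide +kernel)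
theorem L30012 : W_16 (nat_lit 5) (nat_lit 0x40002000800050003800b0000000000000000000000000000) (nat_lit 0x0) (nat_lit 0x40003c00170000000000000000000000000000000000000000) := T_16 (nat_lit 161) (nat_lit 178) (nat_lit 5) (nat_lit 8) (nat_lit 7) L30011 (by decide +kernel)
theorem L30013 : W_16 (nat_lit 6) (nat_lit 0x4000200080005000380030000000000000000000000000000) (nat_lit 0x0) (nat_lit 0x40003c001700000000000c0000000000000000000000000000) := T_16 (nat_lit 115) (nat_lit 114) (nat_lit 1) (nat_lit 13) (nat_lit 6) L30012 (by decide +kernel)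
theorem L30014 : W_16 (nat_lit 7) (nat_lit 0x4000200080005000380010000000000000000000000000000) (nat_lit 0x0) (nat_lit 0x40003c001700000000000e0001000000000000000000000000) := T_16 (nat_lit 113) (nat_lit 96) (nat_lit 6) (nat_lit 10) (nat_lit 9) L30013 (by decide +kernel)
theorem L30015 : W_16 (nat_lit 2) (nat_lit 0x4000600180005000380010000c00000000000000000000000) (nat_lit 0x0) (nat_lit 0x1800040000000000000000000000000000000000000000) := D_16 (nat_lit 179) (nat_lit 162) (nat_lit 180) (nat_lit 5) (nat_lit 10) (nat_lit 6) (nat_lit 2) (nat_lit 7) (nat_lit 10) (by decide +kernel)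
theorem L30016 : W_16 (nat_lit 3) (nat_lit 0x4000200180005000380010000c00000000000000000000000) (nat_lit 0x0) (nat_lit 0x1c00060000000000000000000000000000000000000000) := T_16 (nat_lit 178) (nat_lit 161) (nat_lit 5) (nat_lit 8) (nat_lit 7) L30015 (by decide +kernel)
theorem L30017 : W_16 (nat_lit 4) (nat_lit 0x4000200180005000380010000800000000000000000000000) (nat_lit 0x0) (nat_lit 0x1c00060000000000000000400020000000000000000000) := T_16 (nat_lit 94) (nat_lit 77) (nat_lit 4) (nat_lit 10) (nat_lit 8) L30016 (by decide +kernel)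
theorem L30018 : W_16 (nat_lit 5) (nat_lit 0x4000200180005000380010000000000000000000000000000) (nat_lit 0x0) (nat_lit 0x1c00060008000000000000c00020000000000000000000) := T_16 (nat_lit 95) (nat_lit 147) (nat_lit 7) (nat_lit 10) (nat_lit 5) L30017 (by decide +kernel)
theorem L30019 : W_16 (nat_lit 6) (nat_lit 0x4000200080005000380010000000000000000000000000000) (nat_lit 0x0) (nat_lit 0x3c00160008000000000000c00020000000000000000000) := T_16 (nat_lit 164) (nat_lit 181) (nat_lit 7) (nat_lit 10) (nat_lit 6) L30018 (by decide +kernel)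
theorem L30020 : W_16 (nat_lit 2) (nat_lit 0x40002000e000d0003800b0000000000000000000000000000) (nat_lit 0x0) (nat_lit 0x100030000000000000000000000000000000000000) := D_16 (nat_lit 148) (nat_lit 149) (nat_lit 164) (nat_lit 1) (nat_lit 13) (nat_lit 8) (nat_lit 2) (nat_lit 8) (nat_lit 9) (by decide +kernel)
theorem L30021 : W_16 (nat_lit 3) (nat_lit 0x40002000e00050003800b0000000000000000000000000000) (nat_lit 0x0) (nat_lit 0x110038000000000000000000000000000000000000) := T_16 (nat_lit 147) (nat_lit 160) (nat_lit 2) (nat_lit 7) (nat_lit 9) L30020 (by decide +kernel)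
theorem L30022 : W_16 (nat_lit 4) (nat_lit 0x40002000c00050003800b0000000000000000000000000000) (nat_lit 0x0) (nat_lit 0x400130038000000000000000000000000000000000000) := T_16 (nat_lit 161) (nat_lit 178) (nat_lit 5) (nat_lit 8) (nat_lit 7) L30021 (by decide +kernel)
theorem L30023 : W_16 (nat_lit 5) (nat_lit 0x40002000c0005000380030000000000000000000000000000) (nat_lit 0x0) (nat_lit 0x4001300380000000c0000000000000000000000000000) := T_16 (nat_lit 115) (nat_lit 114) (nat_lit 1) (nat_lit 13) (nat_lit 6) L30022 (by decide +kernel)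
theorem L30024 : W_16 (nat_lit 6) (nat_lit 0x40002000c0005000380010000000000000000000000000000) (nat_lit 0x0) (nat_lit 0x4001300380000000e0001000000000000000000000000) := T_16 (nat_lit 113) (nat_lit 96) (nat_lit 6) (nat_lit 10) (nat_lit 9) L30023 (by decide +kernel)
theorem L30025 : W_16 (nat_lit 7) (nat_lit 0x4000200080005000380010000000000000000000000000000) (nat_lit 0x0) (nat_lit 0xc001700380000000e0001000000000000000000000000) := T_16 (nat_lit 162) (nat_lit 179) (nat_lit 5) (nat_lit 10) (nat_lit 6) L30024 (by decide +kernel)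
theorem L30026 : W_16 (nat_lit 2) (nat_lit 0x4000e00080005000380010000000000000000000000000000) (nat_lit 0x0) (nat_lit 0x12001000000000000000000000000000000000000000000000) := D_16 (nat_lit 180) (nat_lit 193) (nat_lit 196) (nat_lit 1) (nat_lit 10) (nat_lit 10) (nat_lit 5) (nat_lit 10) (nat_lit 7) (by decide +kernel)
theorem L30027 : W_16 (nat_lit 3) (nat_lit 0x4000600080005000380010000000000000000000000000000) (nat_lit 0x0) (nat_lit 0x12001800040000000000000000000000000000000000000000) := T_16 (nat_lit 179) (nat_lit 162) (nat_lit 5) (nat_lit 10) (nat_lit 6) L30026 (by decide +kernel)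
theorem L30028 : W_16 (nat_lit 4) (nat_lit 0x4000200080005000380010000000000000000000000000000) (nat_lit 0x0) (nat_lit 0x12001c00060000000000000000000000000000000000000000) := T_16 (nat_lit 178) (nat_lit 161) (nat_lit 5) (nat_lit 8) (nat_lit 7) L30027 (by decide +kernel)
theorem L30029 : W_16 (nat_lit 8) (nat_lit 0x4000200000005000380010000000000000000000000000000) (nat_lit 0x0) (nat_lit 0x52003c001f00380000000e0001c000a0000000000000000000) := Q_16 (nat_lit 163) (C_16 L30008 (C_16 L30014 (C_16 L29948 (C_16 L30019 (C_16 L30025 (C_16 L30028 N_16)))))) (by decide +kernel)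
theorem L30030 : W_16 (nat_lit 2) (nat_lit 0x4000200000005000380010000000000000000000000000000) (nat_lit 0x0) (nat_lit 0x8000040020000000000000000000000000000) := D_16 (nat_lit 126) (nat_lit 147) (nat_lit 113) (nat_lit 3) (nat_lit 7) (nat_lit 7) (nat_lit 2) (nat_lit 7) (nat_lit 7) (by decide +kernel)
theorem L30031 : W_16 (nat_lit 5) (nat_lit 0x40002000200050003800b0000000000000000000000000000) (nat_lit 0x0) (nat_lit 0x400038001d0000000000000001000000000000000000000000) := T_16 (nat_lit 163) (nat_lit 96) (nat_lit 6) (nat_lit 10) (nat_lit 9) L30011 (by decide +kernel)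
theorem L30032 : W_16 (nat_lit 6) (nat_lit 0x4000200020005000380030000000000000000000000000000) (nat_lit 0x0) (nat_lit 0x400038001d00000000000c0001000000000000000000000000) := T_16 (nat_lit 115) (nat_lit 114) (nat_lit 1) (nat_lit 13) (nat_lit 6) L30031 (by decide +kernel)
theorem L30033 : W_16 (nat_lit 7) (nat_lit 0x4000200020005000380010000000000000000000000000000) (nat_lit 0x0) (nat_lit 0x400038001d00000000400e0001000000000000000000000000) := T_16 (nat_lit 113) (nat_lit 126) (nat_lit 2) (nat_lit 7) (nat_lit 7) L30032 (by decide +kernel)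
theorem L30034 : W_16 (nat_lit 8) (nat_lit 0x4000200000005000380010000000000000000000000000000) (nat_lit 0x0) (nat_lit 0x40003c001f00000000400e0001000000000000000000000000) := T_16 (nat_lit 161) (nat_lit 178) (nat_lit 5) (nat_lit 8) (nat_lit 7) L30033 (by decide +kernel)
theorem L30035 : W_16 (nat_lit 9) (nat_lit 0x4000200000001000380010000000000000000000000000000) (nat_lit 0x0) (nat_lit 0x52003c001f003c0000400e0001c000e0005000000000000000) := Q_16 (nat_lit 146) (C_16 L30029 (C_16 L30030 (C_16 L30034 (C_16 L29941 N_16)))) (by decide +kernel)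
theorem L30036 : W_16 (nat_lit 2) (nat_lit 0x4000200020005000380030000e00000000000000000000000) (nat_lit 0x0) (nat_lit 0xc0001000000000000000000000000) := D_16 (nat_lit 114) (nat_lit 115) (nat_lit 96) (nat_lit 1) (nat_lit 13) (nat_lit 6) (nat_lit 3) (nat_lit 8) (nat_lit 5) (by decide +kernel)
theorem L30037 : W_16 (nat_lit 3) (nat_lit 0x4000200020005000380030000c00000000000000000000000) (nat_lit 0x0) (nat_lit 0xc0001300000000000000000000000) := T_16 (nat_lit 93) (nat_lit 92) (nat_lit 3) (nat_lit 7) (nat_lit 5) L30036 (by decide +kernel)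
theorem L30038 : W_16 (nat_lit 4) (nat_lit 0x4000200020005000380030000800000000000000000000000) (nat_lit 0x0) (nat_lit 0xc0001700020000000000000000000) := T_16 (nat_lit 94) (nat_lit 77) (nat_lit 4) (nat_lit 10) (nat_lit 8) L30037 (by decide +kernel)
theorem L30039 : W_16 (nat_lit 2) (nat_lit 0x4000200000005000380070001800000000000000000000000) (nat_lit 0x0) (nat_lit 0x600020000000000000000000) := D_16 (nat_lit 94) (nat_lit 77) (nat_lit 93) (nat_lit 4) (nat_lit 10) (nat_lit 8) (nat_lit 3) (nat_lit 8) (nat_lit 5) (by decide +kernel)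
theorem L30040 : W_16 (nat_lit 5) (nat_lit 0x4000200000005000380030000800000000000000000000000) (nat_lit 0x0) (nat_lit 0x4000200000000000c0001700020000000000000000000) := T_16 (nat_lit 161) (nat_lit 178) (nat_lit 5) (nat_lit 8) (nat_lit 7) L30038 (by decide +kernel)
theorem L30041 : W_16 (nat_lit 4) (nat_lit 0x4000200020001000380030000c00000000000000000000000) (nat_lit 0x0) (nat_lit 0x40000000c0001300020000000000000000000) := T_16 (nat_lit 146) (nat_lit 77) (nat_lit 4) (nat_lit 10) (nat_lit 8) L30037 (by decide +kernel)
theorem L30042 : W_16 (nat_lit 5) (nat_lit 0x4000200000001000380030000c00000000000000000000000) (nat_lit 0x0) (nat_lit 0x4000200040000000c0001300020000000000000000000) := T_16 (nat_lit 161) (nat_lit 178) (nat_lit 5) (nat_lit 8) (nat_lit 7) L30041 (by decide +kernel)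
theorem L30043 : W_16 (nat_lit 2) (nat_lit 0x40002001000050003800b0000d00000000000000000000000) (nat_lit 0x0) (nat_lit 0x2000080000000000000001000000000000000000000000) := D_16 (nat_lit 163) (nat_lit 96) (nat_lit 181) (nat_lit 6) (nat_lit 10) (nat_lit 9) (nat_lit 7) (nat_lit 10) (nat_lit 6) (by decide +kernel)
theorem L30044 : W_16 (nat_lit 3) (nat_lit 0x40002000000050003800b0000d00000000000000000000000) (nat_lit 0x0) (nat_lit 0x2000180008000000000001000000000000000000000000) := T_16 (nat_lit 164) (nat_lit 147) (nat_lit 7) (nat_lit 10) (nat_lit 5) L30043 (by decide +kernel)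
theorem L30045 : W_16 (nat_lit 4) (nat_lit 0x4000200000005000380030000d00000000000000000000000) (nat_lit 0x0) (nat_lit 0x20001800080000000c0001000000000000000000000000) := T_16 (nat_lit 115) (nat_lit 114) (nat_lit 1) (nat_lit 13) (nat_lit 6) L30044 (by decide +kernel)
theorem L30046 : W_16 (nat_lit 5) (nat_lit 0x4000200000001000380030000d00000000000000000000000) (nat_lit 0x0) (nat_lit 0x200018000c0000000c0001000020000000000000000000) := T_16 (nat_lit 146) (nat_lit 77) (nat_lit 4) (nat_lit 10) (nat_lit 8) L30045 (by decide +kernel)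
theorem L30047 : W_16 (nat_lit 6) (nat_lit 0x4000200000001000380030000c00000000000000000000000) (nat_lit 0x0) (nat_lit 0x200018000c0000000c0001300020000000000000000000) := T_16 (nat_lit 92) (nat_lit 93) (nat_lit 3) (nat_lit 7) (nat_lit 5) L30046 (by decide +kernel)
theorem L30048 : W_16 (nat_lit 2) (nat_lit 0x4000200020001000380030000e00000000000000000000000) (nat_lit 0x0) (nat_lit 0xc0001000000000000000000000000) := D_16 (nat_lit 114) (nat_lit 115) (nat_lit 96) (nat_lit 1) (nat_lit 13) (nat_lit 6) (nat_lit 3) (nat_lit 8) (nat_lit 5) (by decide +kernel)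
theorem L30049 : W_16 (nat_lit 3) (nat_lit 0x4000200020001000380030000c00000000000000000000000) (nat_lit 0x0) (nat_lit 0xc0001300000000000000000000000) := T_16 (nat_lit 93) (nat_lit 92) (nat_lit 3) (nat_lit 7) (nat_lit 5) L30048 (by decide +kernel)
theorem L30050 : W_16 (nat_lit 4) (nat_lit 0x4000200000001000380030000c00000000000000000000000) (nat_lit 0x0) (nat_lit 0x4000200000000000c0001300000000000000000000000) := T_16 (nat_lit 161) (nat_lit 178) (nat_lit 5) (nat_lit 8) (nat_lit 7) L30049 (by decide +kernel)
theorem L30051 : W_16 (nat_lit 2) (nat_lit 0x40002000c002d000380030000d00000000000000000000000) (nat_lit 0x0) (nat_lit 0x400030000000000000000000000000000000000000000) := D_16 (nat_lit 161) (nat_lit 160) (nat_lit 178) (nat_lit 2) (nat_lit 7) (nat_lit 9) (nat_lit 5) (nat_lit 8) (nat_lit 7) (by decide +kernel)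
theorem L30052 : W_16 (nat_lit 3) (nat_lit 0x400020008002d000380030000d00000000000000000000000) (nat_lit 0x0) (nat_lit 0xc00070000000000000000000000000000000000000000) := T_16 (nat_lit 162) (nat_lit 179) (nat_lit 5) (nat_lit 10) (nat_lit 6) L30051 (by decide +kernel)
theorem L30053 : W_16 (nat_lit 4) (nat_lit 0x400020000002d000380030000d00000000000000000000000) (nat_lit 0x0) (nat_lit 0xc000f0000000000000001000000000000000000000000) := T_16 (nat_lit 163) (nat_lit 96) (nat_lit 6) (nat_lit 10) (nat_lit 9) L30052 (by decide +kernel)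
theorem L30054 : W_16 (nat_lit 5) (nat_lit 0x400020000000d000380030000d00000000000000000000000) (nat_lit 0x0) (nat_lit 0xc000f0030000000000001000000000000000000000000) := T_16 (nat_lit 149) (nat_lit 148) (nat_lit 0) (nat_lit 13) (nat_lit 8) L30053 (by decide +kernel)
theorem L30055 : W_16 (nat_lit 6) (nat_lit 0x4000200000005000380030000d00000000000000000000000) (nat_lit 0x0) (nat_lit 0xc001f0038000000000001000000000000000000000000) := T_16 (nat_lit 147) (nat_lit 164) (nat_lit 7) (nat_lit 10) (nat_lit 5) L30054 (by decide +kernel)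
theorem L30056 : W_16 (nat_lit 7) (nat_lit 0x4000200000005000380030000c00000000000000000000000) (nat_lit 0x0) (nat_lit 0xc001f0038000000000001300000000000000000000000) := T_16 (nat_lit 92) (nat_lit 93) (nat_lit 3) (nat_lit 7) (nat_lit 5) L30055 (by decide +kernel)
theorem L30057 : W_16 (nat_lit 8) (nat_lit 0x4000200000001000380030000c00000000000000000000000) (nat_lit 0x0) (nat_lit 0xc001f003c000000000001300020000000000000000000) := T_16 (nat_lit 146) (nat_lit 77) (nat_lit 4) (nat_lit 10) (nat_lit 8) L30056 (by decide +kernel)
theorem L30058 : W_16 (nat_lit 2) (nat_lit 0x40002000a00050003800b0000c00000000000000000000000) (nat_lit 0x0) (nat_lit 0x2000100008000000000000000000000000000000000000) := D_16 (nat_lit 164) (nat_lit 147) (nat_lit 181) (nat_lit 7) (nat_lit 10) (nat_lit 5) (nat_lit 7) (nat_lit 10) (nat_lit 6) (by decide +kernel)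
theorem L30059 : W_16 (nat_lit 3) (nat_lit 0x40002000200050003800b0000c00000000000000000000000) (nat_lit 0x0) (nat_lit 0x2000180008000000000001000000000000000000000000) := T_16 (nat_lit 163) (nat_lit 96) (nat_lit 6) (nat_lit 10) (nat_lit 9) L30058 (by decide +kernel)
theorem L30060 : W_16 (nat_lit 4) (nat_lit 0x40002000200010003800b0000c00000000000000000000000) (nat_lit 0x0) (nat_lit 0x200018000c000000000001000020000000000000000000) := T_16 (nat_lit 146) (nat_lit 77) (nat_lit 4) (nat_lit 10) (nat_lit 8) L30059 (by decide +kernel)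
theorem L30061 : W_16 (nat_lit 5) (nat_lit 0x4000200020001000380030000c00000000000000000000000) (nat_lit 0x0) (nat_lit 0x200018000c0000000c0001000020000000000000000000) := T_16 (nat_lit 115) (nat_lit 114) (nat_lit 1) (nat_lit 13) (nat_lit 6) L30060 (by decide +kernel)
theorem L30062 : W_16 (nat_lit 6) (nat_lit 0x4000200000001000380030000c00000000000000000000000) (nat_lit 0x0) (nat_lit 0x24001a000c0000000c0001000020000000000000000000) := T_16 (nat_lit 161) (nat_lit 178) (nat_lit 5) (nat_lit 8) (nat_lit 7) L30061 (by decide +kernel)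
theorem L30063 : W_16 (nat_lit 2) (nat_lit 0x40006001800050003800b0000d00000000000000000000000) (nat_lit 0x0) (nat_lit 0x1800040000000000000000000000000000000000000000) := D_16 (nat_lit 179) (nat_lit 162) (nat_lit 180) (nat_lit 5) (nat_lit 10) (nat_lit 6) (nat_lit 2) (nat_lit 7) (nat_lit 10) (by decide +kernel)
theorem L30064 : W_16 (nat_lit 3) (nat_lit 0x40006001000050003800b0000d00000000000000000000000) (nat_lit 0x0) (nat_lit 0x38000c0000000000000000000000000000000000000000) := T_16 (nat_lit 163) (nat_lit 181) (nat_lit 7) (nat_lit 10) (nat_lit 6) L30063 (by decide +kernel)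
theorem L30065 : W_16 (nat_lit 4) (nat_lit 0x40002001000050003800b0000d00000000000000000000000) (nat_lit 0x0) (nat_lit 0x3c000e0000000000000000000000000000000000000000) := T_16 (nat_lit 178) (nat_lit 161) (nat_lit 5) (nat_lit 8) (nat_lit 7) L30064 (by decide +kernel)
theorem L30066 : W_16 (nat_lit 5) (nat_lit 0x4000200100005000380030000d00000000000000000000000) (nat_lit 0x0) (nat_lit 0x3c000e00000000000c0000000000000000000000000000) := T_16 (nat_lit 115) (nat_lit 114) (nat_lit 1) (nat_lit 13) (nat_lit 6) L30065 (by decide +kernel)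
theorem L30067 : W_16 (nat_lit 6) (nat_lit 0x4000200000005000380030000d00000000000000000000000) (nat_lit 0x0) (nat_lit 0x3c001e00080000000c0000000000000000000000000000) := T_16 (nat_lit 164) (nat_lit 147) (nat_lit 7) (nat_lit 10) (nat_lit 5) L30066 (by decide +kernel)
theorem L30068 : W_16 (nat_lit 7) (nat_lit 0x4000200000005000380030000c00000000000000000000000) (nat_lit 0x0) (nat_lit 0x3c001e00080000000c0000300000000000000000000000) := T_16 (nat_lit 92) (nat_lit 93) (nat_lit 3) (nat_lit 7) (nat_lit 5) L30067 (by decide +kernel)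
theorem L30069 : W_16 (nat_lit 8) (nat_lit 0x4000200000001000380030000c00000000000000000000000) (nat_lit 0x0) (nat_lit 0x3c001e000c0000000c0000300020000000000000000000) := T_16 (nat_lit 146) (nat_lit 77) (nat_lit 4) (nat_lit 10) (nat_lit 8) L30068 (by decide +kernel)
theorem L30070 : W_16 (nat_lit 9) (nat_lit 0x4000200000001000380030000800000000000000000000000) (nat_lit 0x0) (nat_lit 0x3c001f003c0000000c0001700020000000000000000000) := Q_16 (nat_lit 94) (C_16 L30042 (C_16 L30047 (C_16 L30050 (C_16 L30057 (C_16 L30062 (C_16 L30069 N_16)))))) (by decide +kernel)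
theorem L30071 : W_16 (nat_lit 2) (nat_lit 0x40002000000050003800d0000c00000000000000000000000) (nat_lit 0x0) (nat_lit 0x3000080000000000000000000) := D_16 (nat_lit 96) (nat_lit 79) (nat_lit 97) (nat_lit 6) (nat_lit 10) (nat_lit 8) (nat_lit 3) (nat_lit 9) (nat_lit 5) (by decide +kernel)
theorem L30072 : W_16 (nat_lit 3) (nat_lit 0x4000200000005000380050000c00000000000000000000000) (nat_lit 0x0) (nat_lit 0xa0003000080000000000000000000) := T_16 (nat_lit 115) (nat_lit 113) (nat_lit 1) (nat_lit 13) (nat_lit 6) L30071 (by decide +kernel)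
theorem L30073 : W_16 (nat_lit 4) (nat_lit 0x4000200000005000380050000800000000000000000000000) (nat_lit 0x0) (nat_lit 0xa00034000a0000000000000000000) := T_16 (nat_lit 94) (nat_lit 77) (nat_lit 4) (nat_lit 10) (nat_lit 8) L30072 (by decide +kernel)
theorem L30074 : W_16 (nat_lit 2) (nat_lit 0x400020000001d000380050003c00200000000000000000000) (nat_lit 0x0) (nat_lit 0x800000004000400000000000000000000) := D_16 (nat_lit 98) (nat_lit 82) (nat_lit 131) (nat_lit 2) (nat_lit 10) (nat_lit 5) (nat_lit 6) (nat_lit 12) (nat_lit 8) (by decide +kernel)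
theorem L30075 : W_16 (nat_lit 3) (nat_lit 0x400020000000d000380050003c00200000000000000000000) (nat_lit 0x0) (nat_lit 0x30000800000004000400000000000000000000) := T_16 (nat_lit 148) (nat_lit 149) (nat_lit 0) (nat_lit 13) (nat_lit 8) L30074 (by decide +kernel)
theorem L30076 : W_16 (nat_lit 4) (nat_lit 0x4000200000005000380050003c00200000000000000000000) (nat_lit 0x0) (nat_lit 0x100038000800000004000400000000000000000000) := T_16 (nat_lit 147) (nat_lit 164) (nat_lit 7) (nat_lit 10) (nat_lit 5) L30075 (by decide +kernel)
theorem L30077 : W_16 (nat_lit 5) (nat_lit 0x4000200000005000380050003c00000000000000000000000) (nat_lit 0x0) (nat_lit 0x100038000800000004000700000000000000000000) := T_16 (nat_lit 81) (nat_lit 80) (nat_lit 2) (nat_lit 9) (nat_lit 5) L30076 (by decide +kernel)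
theorem L30078 : W_16 (nat_lit 6) (nat_lit 0x4000200000005000380050001c00000000000000000000000) (nat_lit 0x0) (nat_lit 0x100038000800080006000700000000000000000000) := T_16 (nat_lit 97) (nat_lit 115) (nat_lit 3) (nat_lit 9) (nat_lit 5) L30077 (by decide +kernel)
theorem L30079 : W_16 (nat_lit 7) (nat_lit 0x4000200000005000380050000c00000000000000000000000) (nat_lit 0x0) (nat_lit 0x100038000800080007000780000000000000000000) := T_16 (nat_lit 96) (nat_lit 79) (nat_lit 6) (nat_lit 10) (nat_lit 8) L30078 (by decide +kernel)
theorem L30080 : W_16 (nat_lit 2) (nat_lit 0x4000200020001000380050000800040005000000000000000) (nat_lit 0x0) (nat_lit 0x2000280000000000) := D_16 (nat_lit 61) (nat_lit 45) (nat_lit 43) (nat_lit 6) (nat_lit 10) (nat_lit 6) (nat_lit 4) (nat_lit 10) (nat_lit 6) (by decide +kernel)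
theorem L30081 : W_16 (nat_lit 3) (nat_lit 0x4000200020001000380050000800040004000000000000000) (nat_lit 0x0) (nat_lit 0x20003000280000000000) := T_16 (nat_lit 60) (nat_lit 77) (nat_lit 4) (nat_lit 10) (nat_lit 7) L30080 (by decide +kernel)
theorem L30082 : W_16 (nat_lit 4) (nat_lit 0x4000200020001000380050000800040000000000000000000) (nat_lit 0x0) (nat_lit 0xa0007000280000000000) := T_16 (nat_lit 62) (nat_lit 79) (nat_lit 6) (nat_lit 10) (nat_lit 7) L30081 (by decide +kernel)
theorem L30083 : W_16 (nat_lit 5) (nat_lit 0x4000200000001000380050000800040000000000000000000) (nat_lit 0x0) (nat_lit 0x4000200000000000000000000a0007000280000000000) := T_16 (nat_lit 161) (nat_lit 178) (nat_lit 5) (nat_lit 8) (nat_lit 7) L30082 (by decide +kernel)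
theorem L30084 : W_16 (nat_lit 8) (nat_lit 0x4000200000005000380050000800000000000000000000000) (nat_lit 0x0) (nat_lit 0x1000380008000800074007a0000000000000000000) := T_16 (nat_lit 94) (nat_lit 77) (nat_lit 4) (nat_lit 10) (nat_lit 8) L30079 (by decide +kernel)
theorem L30085 : W_16 (nat_lit 2) (nat_lit 0x4000200000001000380050000c00020000000000000000000) (nat_lit 0x0) (nat_lit 0x40001000080000000000) := D_16 (nat_lit 60) (nat_lit 78) (nat_lit 43) (nat_lit 4) (nat_lit 10) (nat_lit 7) (nat_lit 7) (nat_lit 9) (nat_lit 2) (by decide +kernel)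
theorem L30086 : W_16 (nat_lit 3) (nat_lit 0x4000200000001000380050000800020000000000000000000) (nat_lit 0x0) (nat_lit 0x4000000000000400040001000080000000000) := T_16 (nat_lit 94) (nat_lit 146) (nat_lit 4) (nat_lit 10) (nat_lit 8) L30085 (by decide +kernel)
theorem L30087 : W_16 (nat_lit 2) (nat_lit 0x4000200020001000380050000c00020000000000000000000) (nat_lit 0x0) (nat_lit 0x40001000080000000000) := D_16 (nat_lit 60) (nat_lit 78) (nat_lit 43) (nat_lit 4) (nat_lit 10) (nat_lit 7) (nat_lit 7) (nat_lit 9) (nat_lit 2) (by decide +kernel)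
theorem L30088 : W_16 (nat_lit 5) (nat_lit 0x4000200000005000380010000000000000000000000000000) (nat_lit 0x0) (nat_lit 0x3000180008000000028001c00080000000000000000000) := Q_16 (nat_lit 163) (C_16 L29942 (C_16 L30008 N_16)) (by decide +kernel)
theorem L30089 : W_16 (nat_lit 2) (nat_lit 0x4000200000005000380018000000000000000000000000000) (nat_lit 0x0) (nat_lit 0x1000080000000000000000400000000000000000000000) := D_16 (nat_lit 163) (nat_lit 94) (nat_lit 180) (nat_lit 4) (nat_lit 10) (nat_lit 9) (nat_lit 4) (nat_lit 10) (nat_lit 10) (by decide +kernel)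
theorem L30090 : W_16 (nat_lit 2) (nat_lit 0x40002000a0005000380018000000000000000000000000000) (nat_lit 0x0) (nat_lit 0x60001000000000000000000000000) := D_16 (nat_lit 113) (nat_lit 114) (nat_lit 96) (nat_lit 1) (nat_lit 12) (nat_lit 6) (nat_lit 6) (nat_lit 10) (nat_lit 9) (by decide +kernel)
theorem L30091 : W_16 (nat_lit 3) (nat_lit 0x4000200020005000380018000000000000000000000000000) (nat_lit 0x0) (nat_lit 0x1000080000000000060001000000000000000000000000) := T_16 (nat_lit 163) (nat_lit 180) (nat_lit 4) (nat_lit 10) (nat_lit 10) L30090 (by decide +kernel)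
theorem L30092 : W_16 (nat_lit 4) (nat_lit 0x4000200000005000380018000000000000000000000000000) (nat_lit 0x0) (nat_lit 0x14000a0000000000060001000000000000000000000000) := T_16 (nat_lit 161) (nat_lit 178) (nat_lit 6) (nat_lit 8) (nat_lit 10) L30091 (by decide +kernel)
theorem L30093 : W_16 (nat_lit 2) (nat_lit 0x4000200000005000380018000000000000000000000000000) (nat_lit 0x0) (nat_lit 0x80000000000000000400020000000000000000000) := D_16 (nat_lit 94) (nat_lit 77) (nat_lit 163) (nat_lit 7) (nat_lit 9) (nat_lit 4) (nat_lit 4) (nat_lit 10) (nat_lit 9) (by decide +kernel)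
theorem L30094 : W_16 (nat_lit 2) (nat_lit 0x4000200000005000380058001c00000002000000000000000) (nat_lit 0x0) (nat_lit 0x80006000000000000000000000000) := D_16 (nat_lit 97) (nat_lit 115) (nat_lit 98) (nat_lit 3) (nat_lit 9) (nat_lit 5) (nat_lit 1) (nat_lit 13) (nat_lit 5) (by decide +kernel)
theorem L30095 : W_16 (nat_lit 3) (nat_lit 0x4000200000005000380058000c00000002000000000000000) (nat_lit 0x0) (nat_lit 0x80007000080000000000000000000) := T_16 (nat_lit 96) (nat_lit 79) (nat_lit 6) (nat_lit 10) (nat_lit 8) L30094 (by decide +kernel)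
theorem L30096 : W_16 (nat_lit 4) (nat_lit 0x4000200000005000380058000c00000000000000000000000) (nat_lit 0x0) (nat_lit 0x800070000c0002000000000000000) := T_16 (nat_lit 61) (nat_lit 78) (nat_lit 5) (nat_lit 10) (nat_lit 3) L30095 (by decide +kernel)
theorem L30097 : W_16 (nat_lit 5) (nat_lit 0x4000200000005000380058000800000000000000000000000) (nat_lit 0x0) (nat_lit 0x800074000e0002000000000000000) := T_16 (nat_lit 94) (nat_lit 77) (nat_lit 7) (nat_lit 9) (nat_lit 4) L30096 (by decide +kernel)
theorem L30098 : W_16 (nat_lit 6) (nat_lit 0x4000200000005000380018000800000000000000000000000) (nat_lit 0x0) (nat_lit 0xe00074000e0002000000000000000) := T_16 (nat_lit 114) (nat_lit 113) (nat_lit 1) (nat_lit 12) (nat_lit 6) L30097 (by decide +kernel)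
theorem L30099 : W_16 (nat_lit 2) (nat_lit 0x4000200020005000380018005800020000000000000000000) (nat_lit 0x0) (nat_lit 0x40003000000000000000) := D_16 (nat_lit 78) (nat_lit 60) (nat_lit 61) (nat_lit 4) (nat_lit 10) (nat_lit 7) (nat_lit 5) (nat_lit 10) (nat_lit 3) (by decide +kernel)
theorem L30100 : W_16 (nat_lit 3) (nat_lit 0x4000200020005000380018005800000000000000000000000) (nat_lit 0x0) (nat_lit 0x400060003000000000000000) := T_16 (nat_lit 77) (nat_lit 94) (nat_lit 7) (nat_lit 9) (nat_lit 4) L30099 (by decide +kernel)
theorem L30101 : W_16 (nat_lit 4) (nat_lit 0x4000200000005000380018005800000000000000000000000) (nat_lit 0x0) (nat_lit 0x400020000000000000000400060003000000000000000) := T_16 (nat_lit 161) (nat_lit 178) (nat_lit 6) (nat_lit 8) (nat_lit 10) L30100 (by decide +kernel)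
theorem L30102 : W_16 (nat_lit 5) (nat_lit 0x4000200000005000380018001800000000000000000000000) (nat_lit 0x0) (nat_lit 0x400020000000000000006400060003000000000000000) := T_16 (nat_lit 98) (nat_lit 97) (nat_lit 1) (nat_lit 13) (nat_lit 5) L30101 (by decide +kernel)
theorem L30103 : W_16 (nat_lit 6) (nat_lit 0x4000200000005000380018000800000000000000000000000) (nat_lit 0x0) (nat_lit 0x4000200000000000000074000e0003000000000000000) := T_16 (nat_lit 96) (nat_lit 79) (nat_lit 6) (nat_lit 10) (nat_lit 8) L30102 (by decide +kernel)
theorem L30104 : W_16 (nat_lit 2) (nat_lit 0x4000600000005000380058001c00000000000000000000000) (nat_lit 0x0) (nat_lit 0x80006000000000000000000000000) := D_16 (nat_lit 97) (nat_lit 115) (nat_lit 98) (nat_lit 3) (nat_lit 9) (nat_lit 5) (nat_lit 1) (nat_lit 13) (nat_lit 5) (by decide +kernel)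
theorem L30105 : W_16 (nat_lit 3) (nat_lit 0x4000600000005000380058000c00000000000000000000000) (nat_lit 0x0) (nat_lit 0x80007000080000000000000000000) := T_16 (nat_lit 96) (nat_lit 79) (nat_lit 6) (nat_lit 10) (nat_lit 8) L30104 (by decide +kernel)
theorem L30106 : W_16 (nat_lit 4) (nat_lit 0x4000600000005000380018000c00000000000000000000000) (nat_lit 0x0) (nat_lit 0xe0007000080000000000000000000) := T_16 (nat_lit 114) (nat_lit 113) (nat_lit 1) (nat_lit 12) (nat_lit 6) L30105 (by decide +kernel)
theorem L30107 : W_16 (nat_lit 5) (nat_lit 0x4000200000005000380018000c00000000000000000000000) (nat_lit 0x0) (nat_lit 0x4000200000000000e0007000080000000000000000000) := T_16 (nat_lit 178) (nat_lit 161) (nat_lit 6) (nat_lit 8) (nat_lit 10) L30106 (by decide +kernel)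
theorem L30108 : W_16 (nat_lit 6) (nat_lit 0x4000200000005000380018000800000000000000000000000) (nat_lit 0x0) (nat_lit 0x4000200000000000e00074000a0000000000000000000) := T_16 (nat_lit 94) (nat_lit 77) (nat_lit 7) (nat_lit 9) (nat_lit 4) L30107 (by decide +kernel)
theorem L30109 : W_16 (nat_lit 2) (nat_lit 0x4000200000005000380018000800080000000000000000000) (nat_lit 0x0) (nat_lit 0x40006000000000000000) := D_16 (nat_lit 78) (nat_lit 61) (nat_lit 62) (nat_lit 5) (nat_lit 10) (nat_lit 3) (nat_lit 6) (nat_lit 10) (nat_lit 7) (by decide +kernel)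
theorem L30110 : W_16 (nat_lit 3) (nat_lit 0x4000200000005000380018000800000000000000000000000) (nat_lit 0x0) (nat_lit 0x10000c0006000000000000000) := T_16 (nat_lit 79) (nat_lit 96) (nat_lit 6) (nat_lit 10) (nat_lit 8) L30109 (by decide +kernel)
theorem L30111 : W_16 (nat_lit 2) (nat_lit 0x4000200000005000380018000800040000000000000000000) (nat_lit 0x0) (nat_lit 0x400020001000000000000000) := D_16 (nat_lit 77) (nat_lit 94) (nat_lit 60) (nat_lit 7) (nat_lit 9) (nat_lit 4) (nat_lit 4) (nat_lit 10) (nat_lit 7) (by decide +kernel)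
theorem L30112 : W_16 (nat_lit 3) (nat_lit 0x4000200000005000380018000800000000000000000000000) (nat_lit 0x0) (nat_lit 0x400060003000000000000000) := T_16 (nat_lit 78) (nat_lit 61) (nat_lit 5) (nat_lit 10) (nat_lit 3) L30111 (by decide +kernel)
theorem L30113 : W_16 (nat_lit 7) (nat_lit 0x4000200000005000380018000000000000000000000000000) (nat_lit 0x0) (nat_lit 0x4000200000000000e0007c000e0007000000000000000) := Q_16 (nat_lit 95) (C_16 L30098 (C_16 L30103 (C_16 L30108 (C_16 L30110 (C_16 L30112 N_16))))) (by decide +kernel)
theorem L30114 : W_16 (nat_lit 8) (nat_lit 0x4000200000005000380010000000000000000000000000000) (nat_lit 0x0) (nat_lit 0x14000a00000000000e8007c000e0007000000000000000) := Q_16 (nat_lit 111) (C_16 L30089 (C_16 L30092 (C_16 L30093 (C_16 L30113 N_16)))) (by decide +kernel)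
theorem L30115 : W_16 (nat_lit 8) (nat_lit 0x4000200000005000380010000000000000000000000000000) (nat_lit 0x0) (nat_lit 0x12001c001f00380000000e8001400000000000000000000000) := Q_16 (nat_lit 163) (C_16 L30028 (C_16 L29942 (C_16 L30025 N_16))) (by decide +kernel)
theorem L30116 : W_16 (nat_lit 5) (nat_lit 0x4000200000005000380010000000000000000000000000000) (nat_lit 0x0) (nat_lit 0x12003c001e0008000000020001800080000000000000000000) := Q_16 (nat_lit 163) (C_16 L30028 (C_16 L30008 N_16)) (by decide +kernel)
theorem L30117 : W_16 (nat_lit 2) (nat_lit 0x4000600000005000380038001000000000000000000000000) (nat_lit 0x0) (nat_lit 0x800080004000000000000000) := D_16 (nat_lit 79) (nat_lit 95) (nat_lit 62) (nat_lit 6) (nat_lit 10) (nat_lit 8) (nat_lit 5) (nat_lit 11) (nat_lit 3) (by decide +kernel)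
theorem L30118 : W_16 (nat_lit 3) (nat_lit 0x4000600000005000380038000000000000000000000000000) (nat_lit 0x0) (nat_lit 0x80000000000000001800080004000000000000000) := T_16 (nat_lit 96) (nat_lit 163) (nat_lit 6) (nat_lit 10) (nat_lit 9) L30117 (by decide +kernel)
theorem L30119 : W_16 (nat_lit 4) (nat_lit 0x4000600000005000380018000000000000000000000000000) (nat_lit 0x0) (nat_lit 0x80000000000060001800080004000000000000000) := T_16 (nat_lit 113) (nat_lit 114) (nat_lit 1) (nat_lit 12) (nat_lit 6) L30118 (by decide +kernel)
theorem L30120 : W_16 (nat_lit 5) (nat_lit 0x4000200000005000380018000000000000000000000000000) (nat_lit 0x0) (nat_lit 0x4000a0000000000060001800080004000000000000000) := T_16 (nat_lit 178) (nat_lit 161) (nat_lit 6) (nat_lit 8) (nat_lit 10) L30119 (by decide +kernel)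
theorem L30121 : W_16 (nat_lit 8) (nat_lit 0x4000200000005000380010000000000000000000000000000) (nat_lit 0x0) (nat_lit 0x4000a00000000000e8007c000e0007000000000000000) := Q_16 (nat_lit 111) (C_16 L30113 (C_16 L30093 (C_16 L30120 N_16))) (by decide +kernel)
theorem L30122 : W_16 (nat_lit 5) (nat_lit 0x400020002000d000380010000800000000000000000000000) (nat_lit 0x0) (nat_lit 0x300000000000014000e0005000000000000000) := T_16 (nat_lit 149) (nat_lit 148) (nat_lit 0) (nat_lit 13) (nat_lit 8) L29937 (by decide +kernel)
theorem L30123 : W_16 (nat_lit 6) (nat_lit 0x4000200020005000380010000800000000000000000000000) (nat_lit 0x0) (nat_lit 0x1000380000000000014000e0005000000000000000) := T_16 (nat_lit 147) (nat_lit 164) (nat_lit 7) (nat_lit 10) (nat_lit 5) L30122 (by decide +kernel)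
theorem L30124 : W_16 (nat_lit 7) (nat_lit 0x4000200000005000380010000800000000000000000000000) (nat_lit 0x0) (nat_lit 0x4001200380000000000014000e0005000000000000000) := T_16 (nat_lit 161) (nat_lit 178) (nat_lit 5) (nat_lit 8) (nat_lit 7) L30123 (by decide +kernel)
theorem L30125 : W_16 (nat_lit 2) (nat_lit 0x400020000002d000380010005800068002000100000000000) (nat_lit 0x0) (nat_lit 0x4000200010000000) := D_16 (nat_lit 45) (nat_lit 28) (nat_lit 62) (nat_lit 6) (nat_lit 10) (nat_lit 5) (nat_lit 6) (nat_lit 10) (nat_lit 6) (by decide +kernel)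
theorem L30126 : W_16 (nat_lit 3) (nat_lit 0x400020000002d000380010005800068002000000000000000) (nat_lit 0x0) (nat_lit 0x20000000000004000300010000000) := T_16 (nat_lit 44) (nat_lit 113) (nat_lit 7) (nat_lit 10) (nat_lit 2) L30125 (by decide +kernel)
theorem L30127 : W_16 (nat_lit 4) (nat_lit 0x400020000002d000380010001800068002000000000000000) (nat_lit 0x0) (nat_lit 0x20006000000004000300010000000) := T_16 (nat_lit 98) (nat_lit 97) (nat_lit 0) (nat_lit 13) (nat_lit 5) L30126 (by decide +kernel)
theorem L30128 : W_16 (nat_lit 5) (nat_lit 0x400020000002d000380010001800068000000000000000000) (nat_lit 0x0) (nat_lit 0x28006000000006000300010000000) := T_16 (nat_lit 61) (nat_lit 111) (nat_lit 5) (nat_lit 10) (nat_lit 3) L30127 (by decide +kernel)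
theorem L30129 : W_16 (nat_lit 6) (nat_lit 0x400020000002d000380010001800060000000000000000000) (nat_lit 0x0) (nat_lit 0x28006000018006000300010000000) := T_16 (nat_lit 75) (nat_lit 76) (nat_lit 3) (nat_lit 7) (nat_lit 4) L30128 (by decide +kernel)
theorem L30130 : W_16 (nat_lit 7) (nat_lit 0x400020000002d000380010001800020000000000000000000) (nat_lit 0x0) (nat_lit 0x28006000058007000300010000000) := T_16 (nat_lit 78) (nat_lit 60) (nat_lit 4) (nat_lit 10) (nat_lit 7) L30129 (by decide +kernel)
theorem L30131 : W_16 (nat_lit 8) (nat_lit 0x400020000002d000380010001800000000000000000000000) (nat_lit 0x0) (nat_lit 0x28006400078007000300010000000) := T_16 (nat_lit 77) (nat_lit 94) (nat_lit 4) (nat_lit 10) (nat_lit 8) L30130 (by decide +kernel)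
theorem L30132 : W_16 (nat_lit 9) (nat_lit 0x400020000000d000380010001800000000000000000000000) (nat_lit 0x0) (nat_lit 0x30000000028006400078007000300010000000) := T_16 (nat_lit 149) (nat_lit 148) (nat_lit 0) (nat_lit 13) (nat_lit 8) L30131 (by decide +kernel)
theorem L30133 : W_16 (nat_lit 10) (nat_lit 0x4000200000005000380010001800000000000000000000000) (nat_lit 0x0) (nat_lit 0x100038000000028006400078007000300010000000) := T_16 (nat_lit 147) (nat_lit 164) (nat_lit 7) (nat_lit 10) (nat_lit 5) L30132 (by decide +kernel)
theorem L30134 : W_16 (nat_lit 11) (nat_lit 0x4000200000005000380010000800000000000000000000000) (nat_lit 0x0) (nat_lit 0x1000380000000280074000f8007000300010000000) := T_16 (nat_lit 96) (nat_lit 79) (nat_lit 6) (nat_lit 10) (nat_lit 8) L30133 (by decide +kernel)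
theorem L30135 : W_16 (nat_lit 5) (nat_lit 0x4000200000005000380010000800000000000000000000000) (nat_lit 0x0) (nat_lit 0x4000200000000000000014000e0005000000000000000) := T_16 (nat_lit 77) (nat_lit 94) (nat_lit 4) (nat_lit 10) (nat_lit 8) L29965 (by decide +kernel)
theorem L30136 : W_16 (nat_lit 2) (nat_lit 0x4000200000005000380050000800000000000000000000000) (nat_lit 0x0) (nat_lit 0xa8000000000000000000000000000) := D_16 (nat_lit 113) (nat_lit 115) (nat_lit 111) (nat_lit 1) (nat_lit 13) (nat_lit 6) (nat_lit 1) (nat_lit 12) (nat_lit 6) (by decide +kernel)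
theorem L30137 : W_16 (nat_lit 3) (nat_lit 0x4000200000005000380050001800000000000000000000000) (nat_lit 0x0) (nat_lit 0x28000600020000000000000000000) := T_16 (nat_lit 113) (nat_lit 111) (nat_lit 1) (nat_lit 12) (nat_lit 6) L30039 (by decide +kernel)
theorem L30138 : W_16 (nat_lit 4) (nat_lit 0x4000200000005000380050000800000000000000000000000) (nat_lit 0x0) (nat_lit 0x280016000a0000000000000000000) := T_16 (nat_lit 96) (nat_lit 79) (nat_lit 6) (nat_lit 10) (nat_lit 8) L30137 (by decide +kernel)
theorem L30139 : W_16 (nat_lit 9) (nat_lit 0x4000200000005000380010000800000000000000000000000) (nat_lit 0x0) (nat_lit 0x1000380008000e80076007a0000000000000000000) := Q_16 (nat_lit 114) (C_16 L30084 (C_16 L30073 (C_16 L30136 (C_16 L30138 N_16)))) (by decide +kernel)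
theorem L30140 : W_16 (nat_lit 2) (nat_lit 0x400020002002d0003800100008000c0002000000000000000) (nat_lit 0x0) (nat_lit 0x20001000080000000000) := D_16 (nat_lit 60) (nat_lit 43) (nat_lit 77) (nat_lit 4) (nat_lit 10) (nat_lit 6) (nat_lit 4) (nat_lit 10) (nat_lit 7) (by decide +kernel)
theorem L30141 : W_16 (nat_lit 3) (nat_lit 0x400020002002d0003800100008000c0000000000000000000) (nat_lit 0x0) (nat_lit 0x8000000020003000080000000000) := T_16 (nat_lit 61) (nat_lit 111) (nat_lit 5) (nat_lit 10) (nat_lit 3) L30140 (by decide +kernel)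
theorem L30142 : W_16 (nat_lit 4) (nat_lit 0x400020002002d000380010000800080000000000000000000) (nat_lit 0x0) (nat_lit 0x8000000060007000080000000000) := T_16 (nat_lit 78) (nat_lit 62) (nat_lit 6) (nat_lit 10) (nat_lit 7) L30141 (by decide +kernel)
theorem L30143 : W_16 (nat_lit 5) (nat_lit 0x400020002002d000380010000800000000000000000000000) (nat_lit 0x0) (nat_lit 0x80010000e0007000080000000000) := T_16 (nat_lit 79) (nat_lit 96) (nat_lit 6) (nat_lit 10) (nat_lit 8) L30142 (by decide +kernel)
theorem L30144 : W_16 (nat_lit 6) (nat_lit 0x400020002000d000380010000800000000000000000000000) (nat_lit 0x0) (nat_lit 0x300000000080010000e0007000080000000000) := T_16 (nat_lit 149) (nat_lit 148) (nat_lit 0) (nat_lit 13) (nat_lit 8) L30143 (by decide +kernel)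
theorem L30145 : W_16 (nat_lit 7) (nat_lit 0x4000200020005000380010000800000000000000000000000) (nat_lit 0x0) (nat_lit 0x1000380000000080010000e0007000080000000000) := T_16 (nat_lit 147) (nat_lit 164) (nat_lit 7) (nat_lit 10) (nat_lit 5) L30144 (by decide +kernel)
theorem L30146 : W_16 (nat_lit 8) (nat_lit 0x4000200000005000380010000800000000000000000000000) (nat_lit 0x0) (nat_lit 0x4001200380000000080010000e0007000080000000000) := T_16 (nat_lit 161) (nat_lit 178) (nat_lit 5) (nat_lit 8) (nat_lit 7) L30145 (by decide +kernel)
theorem L30147 : W_16 (nat_lit 2) (nat_lit 0x400020002002d000380030000800060002000100000000000) (nat_lit 0x0) (nat_lit 0x4000200010000000) := D_16 (nat_lit 45) (nat_lit 28) (nat_lit 62) (nat_lit 6) (nat_lit 10) (nat_lit 5) (nat_lit 6) (nat_lit 10) (nat_lit 6) (by decide +kernel)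
theorem L30148 : W_16 (nat_lit 3) (nat_lit 0x400020002002d000380030000800060002000000000000000) (nat_lit 0x0) (nat_lit 0x1000000004000300010000000) := T_16 (nat_lit 44) (nat_lit 96) (nat_lit 7) (nat_lit 10) (nat_lit 2) L30147 (by decide +kernel)
theorem L30149 : W_16 (nat_lit 4) (nat_lit 0x400020002000d000380030000800060002000000000000000) (nat_lit 0x0) (nat_lit 0x30000000000001000000004000300010000000) := T_16 (nat_lit 149) (nat_lit 148) (nat_lit 0) (nat_lit 13) (nat_lit 8) L30148 (by decide +kernel)
theorem L30150 : W_16 (nat_lit 5) (nat_lit 0x4000200020005000380030000800060002000000000000000) (nat_lit 0x0) (nat_lit 0x100038000000000001000000004000300010000000) := T_16 (nat_lit 147) (nat_lit 164) (nat_lit 7) (nat_lit 10) (nat_lit 5) L30149 (by decide +kernel)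
theorem L30151 : W_16 (nat_lit 6) (nat_lit 0x4000200020005000380030000800060000000000000000000) (nat_lit 0x0) (nat_lit 0x100038000000008001000000006000300010000000) := T_16 (nat_lit 61) (nat_lit 111) (nat_lit 5) (nat_lit 10) (nat_lit 3) L30150 (by decide +kernel)
theorem L30152 : W_16 (nat_lit 7) (nat_lit 0x4000200000005000380030000800060000000000000000000) (nat_lit 0x0) (nat_lit 0x400120038000000008001000000006000300010000000) := T_16 (nat_lit 161) (nat_lit 178) (nat_lit 5) (nat_lit 8) (nat_lit 7) L30151 (by decide +kernel)
theorem L30153 : W_16 (nat_lit 8) (nat_lit 0x4000200000005000380030000800020000000000000000000) (nat_lit 0x0) (nat_lit 0x400120038000000008001000040007000300010000000) := T_16 (nat_lit 78) (nat_lit 60) (nat_lit 4) (nat_lit 10) (nat_lit 7) L30152 (by decide +kernel)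
theorem L30154 : W_16 (nat_lit 9) (nat_lit 0x4000200000005000380030000800000000000000000000000) (nat_lit 0x0) (nat_lit 0x400120038000000008001400060007000300010000000) := T_16 (nat_lit 77) (nat_lit 94) (nat_lit 4) (nat_lit 10) (nat_lit 8) L30153 (by decide +kernel)
theorem L30155 : W_16 (nat_lit 2) (nat_lit 0x4000200000005000380030000800000000000000000000000) (nat_lit 0x0) (nat_lit 0xc8000000000000000000000000000) := D_16 (nat_lit 114) (nat_lit 115) (nat_lit 111) (nat_lit 1) (nat_lit 13) (nat_lit 6) (nat_lit 1) (nat_lit 12) (nat_lit 6) (by decide +kernel)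
theorem L30156 : W_16 (nat_lit 10) (nat_lit 0x4000200000005000380010000800000000000000000000000) (nat_lit 0x0) (nat_lit 0x4001200380000000e8001700060007000300010000000) := Q_16 (nat_lit 113) (C_16 L30154 (C_16 L30155 (C_16 L30040 N_16))) (by decide +kernel)
theorem L30157 : W_16 (nat_lit 2) (nat_lit 0x400020002002d000380010000800060004000000000000000) (nat_lit 0x0) (nat_lit 0x8000000000002000200000000000) := D_16 (nat_lit 61) (nat_lit 111) (nat_lit 45) (nat_lit 5) (nat_lit 10) (nat_lit 3) (nat_lit 6) (nat_lit 10) (nat_lit 6) (by decide +kernel)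
theorem L30158 : W_16 (nat_lit 3) (nat_lit 0x400020002002d000380010000800060000000000000000000) (nat_lit 0x0) (nat_lit 0x8000000080006000200000000000) := T_16 (nat_lit 62) (nat_lit 79) (nat_lit 6) (nat_lit 10) (nat_lit 7) L30157 (by decide +kernel)
theorem L30159 : W_16 (nat_lit 4) (nat_lit 0x400020002000d000380010000800060000000000000000000) (nat_lit 0x0) (nat_lit 0x30000000008000000080006000200000000000) := T_16 (nat_lit 149) (nat_lit 148) (nat_lit 0) (nat_lit 13) (nat_lit 8) L30158 (by decide +kernel)
theorem L30160 : W_16 (nat_lit 5) (nat_lit 0x4000200020005000380010000800060000000000000000000) (nat_lit 0x0) (nat_lit 0x100038000000008000000080006000200000000000) := T_16 (nat_lit 147) (nat_lit 164) (nat_lit 7) (nat_lit 10) (nat_lit 5) L30159 (by decide +kernel)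
theorem L30161 : W_16 (nat_lit 6) (nat_lit 0x4000200020005000380010000800020000000000000000000) (nat_lit 0x0) (nat_lit 0x1000380000000080000000c0007000200000000000) := T_16 (nat_lit 78) (nat_lit 60) (nat_lit 4) (nat_lit 10) (nat_lit 7) L30160 (by decide +kernel)
theorem L30162 : W_16 (nat_lit 7) (nat_lit 0x4000200000005000380010000800020000000000000000000) (nat_lit 0x0) (nat_lit 0x4001200380000000080000000c0007000200000000000) := T_16 (nat_lit 161) (nat_lit 178) (nat_lit 5) (nat_lit 8) (nat_lit 7) L30161 (by decide +kernel)
theorem L30163 : W_16 (nat_lit 8) (nat_lit 0x4000200000005000380010000800000000000000000000000) (nat_lit 0x0) (nat_lit 0x4001200380000000080004000e0007000200000000000) := T_16 (nat_lit 77) (nat_lit 94) (nat_lit 4) (nat_lit 10) (nat_lit 8) L30162 (by decide +kernel)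
theorem L30164 : W_16 (nat_lit 2) (nat_lit 0x4000200000005000380010000800040000000000000000000) (nat_lit 0x0) (nat_lit 0x1000080004000000000000000) := D_16 (nat_lit 79) (nat_lit 96) (nat_lit 62) (nat_lit 6) (nat_lit 10) (nat_lit 8) (nat_lit 6) (nat_lit 10) (nat_lit 7) (by decide +kernel)
theorem L30165 : W_16 (nat_lit 2) (nat_lit 0x400020000002d000380010000800040002000180000000000) (nat_lit 0x0) (nat_lit 0x4000200010000000) := D_16 (nat_lit 45) (nat_lit 62) (nat_lit 28) (nat_lit 6) (nat_lit 10) (nat_lit 6) (nat_lit 6) (nat_lit 10) (nat_lit 5) (by decide +kernel)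
theorem L30166 : W_16 (nat_lit 3) (nat_lit 0x400020000002d000380010000800040002000080000000000) (nat_lit 0x0) (nat_lit 0x4000300014000000) := T_16 (nat_lit 44) (nat_lit 26) (nat_lit 4) (nat_lit 10) (nat_lit 5) L30165 (by decide +kernel)
theorem L30167 : W_16 (nat_lit 4) (nat_lit 0x400020000000d000380010000800040002000080000000000) (nat_lit 0x0) (nat_lit 0x30000000000000000000004000300014000000) := T_16 (nat_lit 149) (nat_lit 148) (nat_lit 0) (nat_lit 13) (nat_lit 8) L30166 (by decide +kernel)
theorem L30168 : W_16 (nat_lit 5) (nat_lit 0x4000200000005000380010000800040002000080000000000) (nat_lit 0x0) (nat_lit 0x100038000000000000000000004000300014000000) := T_16 (nat_lit 147) (nat_lit 164) (nat_lit 7) (nat_lit 10) (nat_lit 5) L30167 (by decide +kernel)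
theorem L30169 : W_16 (nat_lit 6) (nat_lit 0x4000200000005000380010000800040002000000000000000) (nat_lit 0x0) (nat_lit 0x100038000000000000000000005000380014000000) := T_16 (nat_lit 43) (nat_lit 60) (nat_lit 4) (nat_lit 10) (nat_lit 6) L30168 (by decide +kernel)
theorem L30170 : W_16 (nat_lit 7) (nat_lit 0x4000200000005000380010000800040000000000000000000) (nat_lit 0x0) (nat_lit 0x100038000000008000000000007000380014000000) := T_16 (nat_lit 61) (nat_lit 111) (nat_lit 5) (nat_lit 10) (nat_lit 3) L30169 (by decide +kernel)
theorem L30171 : W_16 (nat_lit 2) (nat_lit 0x400020002002d000380010001800040002000080000000000) (nat_lit 0x0) (nat_lit 0x20000000000000000100004000000) := D_16 (nat_lit 44) (nat_lit 113) (nat_lit 26) (nat_lit 7) (nat_lit 10) (nat_lit 2) (nat_lit 4) (nat_lit 10) (nat_lit 5) (by decide +kernel)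
theorem L30172 : W_16 (nat_lit 3) (nat_lit 0x400020002002d000380010001800040002000000000000000) (nat_lit 0x0) (nat_lit 0x20000000000001000180004000000) := T_16 (nat_lit 43) (nat_lit 60) (nat_lit 4) (nat_lit 10) (nat_lit 6) L30171 (by decide +kernel)
theorem L30173 : W_16 (nat_lit 4) (nat_lit 0x400020002002d000380010001800040000000000000000000) (nat_lit 0x0) (nat_lit 0x28000000000003000180004000000) := T_16 (nat_lit 61) (nat_lit 111) (nat_lit 5) (nat_lit 10) (nat_lit 3) L30172 (by decide +kernel)
theorem L30174 : W_16 (nat_lit 5) (nat_lit 0x400020002000d000380010001800040000000000000000000) (nat_lit 0x0) (nat_lit 0x30000000028000000000003000180004000000) := T_16 (nat_lit 149) (nat_lit 148) (nat_lit 0) (nat_lit 13) (nat_lit 8) L30173 (by decide +kernel)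
theorem L30175 : W_16 (nat_lit 6) (nat_lit 0x4000200020005000380010001800040000000000000000000) (nat_lit 0x0) (nat_lit 0x100038000000028000000000003000180004000000) := T_16 (nat_lit 147) (nat_lit 164) (nat_lit 7) (nat_lit 10) (nat_lit 5) L30174 (by decide +kernel)
theorem L30176 : W_16 (nat_lit 7) (nat_lit 0x4000200020005000380010000800040000000000000000000) (nat_lit 0x0) (nat_lit 0x100038000000028001000080003000180004000000) := T_16 (nat_lit 96) (nat_lit 79) (nat_lit 6) (nat_lit 10) (nat_lit 8) L30175 (by decide +kernel)
theorem L30177 : W_16 (nat_lit 8) (nat_lit 0x4000200000005000380010000800040000000000000000000) (nat_lit 0x0) (nat_lit 0x400120038000000028001000080003000180004000000) := T_16 (nat_lit 161) (nat_lit 178) (nat_lit 5) (nat_lit 8) (nat_lit 7) L30176 (by decide +kernel)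
theorem L30178 : W_16 (nat_lit 9) (nat_lit 0x4000200000005000380010000800000000000000000000000) (nat_lit 0x0) (nat_lit 0x4001200380000000280010000c0007000380014000000) := Q_16 (nat_lit 78) (C_16 L30164 (C_16 L30170 (C_16 L30177 N_16))) (by decide +kernel)
theorem L30179 : W_16 (nat_lit 12) (nat_lit 0x4000200000005000380010000000000000000000000000000) (nat_lit 0x0) (nat_lit 0x4001200380008000e8007f007f8007000380014000000) := Q_16 (nat_lit 95) (C_16 L30124 (C_16 L30134 (C_16 L30135 (C_16 L30139 (C_16 L30146 (C_16 L30156 (C_16 L30163 (C_16 L30178 N_16)))))))) (by decide +kernel)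
theorem L30180 : W_16 (nat_lit 5) (nat_lit 0x4000200000005000380010000000000000000000000000000) (nat_lit 0x0) (nat_lit 0x12003c001e0008000000008000c00020000000000000000000) := Q_16 (nat_lit 163) (C_16 L30028 (C_16 L29954 N_16)) (by decide +kernel)
theorem L30181 : W_16 (nat_lit 13) (nat_lit 0x4000200000001000380010000000000000000000000000000) (nat_lit 0x0) (nat_lit 0x52003c001f003c0008000e8007f007f8007000380014000000) := Q_16 (nat_lit 146) (C_16 L30029 (C_16 L29955 (C_16 L30088 (C_16 L30114 (C_16 L30115 (C_16 L30116 (C_16 L30121 (C_16 L30179 (C_16 L30180 N_16))))))))) (by decide +kernel)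
theorem L30182 : W_16 (nat_lit 2) (nat_lit 0x40002000200010003e0010000000000000000000000000000) (nat_lit 0x0) (nat_lit 0x3800000000000000000000000000) := D_16 (nat_lit 108) (nat_lit 109) (nat_lit 107) (nat_lit 0) (nat_lit 10) (nat_lit 7) (nat_lit 0) (nat_lit 9) (nat_lit 7) (by decide +kernel)
theorem L30183 : W_16 (nat_lit 3) (nat_lit 0x40002000200010003c0010000000000000000000000000000) (nat_lit 0x0) (nat_lit 0x2000b800000000000000000000000000) := T_16 (nat_lit 125) (nat_lit 111) (nat_lit 2) (nat_lit 6) (nat_lit 7) L30182 (by decide +kernel)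
theorem L30184 : W_16 (nat_lit 4) (nat_lit 0x4000200020001000380010000000000000000000000000000) (nat_lit 0x0) (nat_lit 0x6002b800000000000000000000000000) := T_16 (nat_lit 126) (nat_lit 113) (nat_lit 2) (nat_lit 7) (nat_lit 7) L30183 (by decide +kernel)
theorem L30185 : W_16 (nat_lit 5) (nat_lit 0x4000200000001000380010000000000000000000000000000) (nat_lit 0x0) (nat_lit 0x40002000000006002b800000000000000000000000000) := T_16 (nat_lit 161) (nat_lit 178) (nat_lit 5) (nat_lit 8) (nat_lit 7) L30184 (by decide +kernel)
theorem L30186 : W_16 (nat_lit 15) (nat_lit 0x4000200000001000280010000000000000000000000000000) (nat_lit 0x0) (nat_lit 0x3fa00fc007f803c0009600eb807f007f8007000380014000000) := Q_16 (nat_lit 128) (C_16 L30003 (C_16 L30004 (C_16 L30005 (C_16 L30035 (C_16 L30181 (C_16 L30185 N_16)))))) (by decide +kernel)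
theorem L30187 : W_16 (nat_lit 2) (nat_lit 0x4000a00180005000380010000000000000000000000000000) (nat_lit 0x0) (nat_lit 0x10001000000000000000008000000000000000000000000000) := D_16 (nat_lit 180) (nat_lit 111) (nat_lit 196) (nat_lit 4) (nat_lit 10) (nat_lit 10) (nat_lit 5) (nat_lit 10) (nat_lit 7) (by decide +kernel)
theorem L30188 : W_16 (nat_lit 3) (nat_lit 0x4000200180005000380010000000000000000000000000000) (nat_lit 0x0) (nat_lit 0x10001800040000000000008000000000000000000000000000) := T_16 (nat_lit 179) (nat_lit 162) (nat_lit 5) (nat_lit 10) (nat_lit 6) L30187 (by decide +kernel)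
theorem L30189 : W_16 (nat_lit 4) (nat_lit 0x4000200080005000380010000000000000000000000000000) (nat_lit 0x0) (nat_lit 0x10003800140000000000008000000000000000000000000000) := T_16 (nat_lit 164) (nat_lit 181) (nat_lit 7) (nat_lit 10) (nat_lit 6) L30188 (by decide +kernel)
theorem L30190 : W_16 (nat_lit 2) (nat_lit 0x4002a00080005000380010000000000000000000000000000) (nat_lit 0x0) (nat_lit 0x50001000000000000000000000000000000000000000000000) := D_16 (nat_lit 180) (nat_lit 198) (nat_lit 196) (nat_lit 7) (nat_lit 10) (nat_lit 7) (nat_lit 5) (nat_lit 10) (nat_lit 7) (by decide +kernel)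
theorem L30191 : W_16 (nat_lit 3) (nat_lit 0x4002200080005000380010000000000000000000000000000) (nat_lit 0x0) (nat_lit 0x50001800040000000000000000000000000000000000000000) := T_16 (nat_lit 179) (nat_lit 162) (nat_lit 5) (nat_lit 10) (nat_lit 6) L30190 (by decide +kernel)
theorem L30192 : W_16 (nat_lit 4) (nat_lit 0x4000200080005000380010000000000000000000000000000) (nat_lit 0x0) (nat_lit 0x50003800140000000000000000000000000000000000000000) := T_16 (nat_lit 181) (nat_lit 164) (nat_lit 7) (nat_lit 10) (nat_lit 6) L30191 (by decide +kernel)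
theorem L30193 : W_16 (nat_lit 2) (nat_lit 0x4000200080005000380010000800000000000000000000000) (nat_lit 0x0) (nat_lit 0x8000400020000000000000000000) := D_16 (nat_lit 94) (nat_lit 111) (nat_lit 77) (nat_lit 4) (nat_lit 10) (nat_lit 9) (nat_lit 4) (nat_lit 10) (nat_lit 8) (by decide +kernel)
theorem L30194 : W_16 (nat_lit 2) (nat_lit 0x40002001c0005000380010000800060000000000000000000) (nat_lit 0x0) (nat_lit 0x1000080004000000000000000) := D_16 (nat_lit 79) (nat_lit 96) (nat_lit 62) (nat_lit 6) (nat_lit 10) (nat_lit 8) (nat_lit 6) (nat_lit 10) (nat_lit 7) (by decide +kernel)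
theorem L30195 : W_16 (nat_lit 3) (nat_lit 0x40002001c0005000380010000800020000000000000000000) (nat_lit 0x0) (nat_lit 0x10000c0005000000000000000) := T_16 (nat_lit 78) (nat_lit 60) (nat_lit 4) (nat_lit 10) (nat_lit 7) L30194 (by decide +kernel)
theorem L30196 : W_16 (nat_lit 4) (nat_lit 0x4000200180005000380010000800020000000000000000000) (nat_lit 0x0) (nat_lit 0x8000400000000000000010000c0005000000000000000) := T_16 (nat_lit 162) (nat_lit 179) (nat_lit 5) (nat_lit 10) (nat_lit 6) L30195 (by decide +kernel)
theorem L30197 : W_16 (nat_lit 5) (nat_lit 0x4000200180005000380010000800000000000000000000000) (nat_lit 0x0) (nat_lit 0x8000400000000000000014000e0005000000000000000) := T_16 (nat_lit 77) (nat_lit 94) (nat_lit 4) (nat_lit 10) (nat_lit 8) L30196 (by decide +kernel)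
theorem L30198 : W_16 (nat_lit 6) (nat_lit 0x4000200080005000380010000800000000000000000000000) (nat_lit 0x0) (nat_lit 0x28001400000000000000014000e0005000000000000000) := T_16 (nat_lit 164) (nat_lit 181) (nat_lit 7) (nat_lit 10) (nat_lit 6) L30197 (by decide +kernel)
theorem L30199 : W_16 (nat_lit 2) (nat_lit 0x40002001800050003800100008000c0002000000000000000) (nat_lit 0x0) (nat_lit 0x20001000080000000000) := D_16 (nat_lit 60) (nat_lit 43) (nat_lit 77) (nat_lit 4) (nat_lit 10) (nat_lit 6) (nat_lit 4) (nat_lit 10) (nat_lit 7) (by decide +kernel)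
theorem L30200 : W_16 (nat_lit 3) (nat_lit 0x40002001800050003800100008000c0000000000000000000) (nat_lit 0x0) (nat_lit 0x8000000020003000080000000000) := T_16 (nat_lit 61) (nat_lit 111) (nat_lit 5) (nat_lit 10) (nat_lit 3) L30199 (by decide +kernel)
theorem L30201 : W_16 (nat_lit 4) (nat_lit 0x4000200180005000380010000800080000000000000000000) (nat_lit 0x0) (nat_lit 0x8000000060007000080000000000) := T_16 (nat_lit 78) (nat_lit 62) (nat_lit 6) (nat_lit 10) (nat_lit 7) L30200 (by decide +kernel)
theorem L30202 : W_16 (nat_lit 5) (nat_lit 0x4000200080005000380010000800080000000000000000000) (nat_lit 0x0) (nat_lit 0x2000100000000000008000000060007000080000000000) := T_16 (nat_lit 164) (nat_lit 181) (nat_lit 7) (nat_lit 10) (nat_lit 6) L30201 (by decide +kernel)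
theorem L30203 : W_16 (nat_lit 6) (nat_lit 0x4000200080005000380010000800000000000000000000000) (nat_lit 0x0) (nat_lit 0x20001000000000000080010000e0007000080000000000) := T_16 (nat_lit 79) (nat_lit 96) (nat_lit 6) (nat_lit 10) (nat_lit 8) L30202 (by decide +kernel)
theorem L30204 : W_16 (nat_lit 2) (nat_lit 0x40002000c00050003a0018000800040000000000000000000) (nat_lit 0x0) (nat_lit 0x1000080004000000000000000) := D_16 (nat_lit 79) (nat_lit 96) (nat_lit 62) (nat_lit 6) (nat_lit 10) (nat_lit 8) (nat_lit 6) (nat_lit 10) (nat_lit 7) (by decide +kernel)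
theorem L30205 : W_16 (nat_lit 3) (nat_lit 0x40002000c00050003a0018000800000000000000000000000) (nat_lit 0x0) (nat_lit 0x10000c0006000000000000000) := T_16 (nat_lit 78) (nat_lit 61) (nat_lit 5) (nat_lit 10) (nat_lit 3) L30204 (by decide +kernel)
theorem L30206 : W_16 (nat_lit 4) (nat_lit 0x40002000c0005000380018000800000000000000000000000) (nat_lit 0x0) (nat_lit 0x600000010000c0006000000000000000) := T_16 (nat_lit 125) (nat_lit 126) (nat_lit 2) (nat_lit 6) (nat_lit 7) L30205 (by decide +kernel)
theorem L30207 : W_16 (nat_lit 5) (nat_lit 0x40002000c0005000380010000800000000000000000000000) (nat_lit 0x0) (nat_lit 0x600080014000c0006000000000000000) := T_16 (nat_lit 111) (nat_lit 94) (nat_lit 4) (nat_lit 10) (nat_lit 9) L30206 (by decide +kernel)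
theorem L30208 : W_16 (nat_lit 6) (nat_lit 0x4000200080005000380010000800000000000000000000000) (nat_lit 0x0) (nat_lit 0x8000400000000600080014000c0006000000000000000) := T_16 (nat_lit 162) (nat_lit 179) (nat_lit 5) (nat_lit 10) (nat_lit 6) L30207 (by decide +kernel)
theorem L30209 : W_16 (nat_lit 7) (nat_lit 0x4000200080005000380010000000000000000000000000000) (nat_lit 0x0) (nat_lit 0x2800140000000060008001c000e0007000080000000000) := Q_16 (nat_lit 95) (C_16 L30193 (C_16 L30198 (C_16 L30203 (C_16 L30208 N_16)))) (by decide +kernel)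
theorem L30210 : W_16 (nat_lit 8) (nat_lit 0x4000200000005000380010000000000000000000000000000) (nat_lit 0x0) (nat_lit 0x500038001c0000000060008001c000e0007000080000000000) := Q_16 (nat_lit 163) (C_16 L30189 (C_16 L30192 (C_16 L29942 (C_16 L30209 N_16)))) (by decide +kernel)
theorem L30211 : W_16 (nat_lit 2) (nat_lit 0x400020000000d000380010000000000000000000000000000) (nat_lit 0x0) (nat_lit 0x30000400000000000000000000000000000000) := D_16 (nat_lit 148) (nat_lit 149) (nat_lit 130) (nat_lit 0) (nat_lit 13) (nat_lit 8) (nat_lit 3) (nat_lit 8) (nat_lit 7) (by decide +kernel)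
theorem L30212 : W_16 (nat_lit 3) (nat_lit 0x4000200000005000380010000000000000000000000000000) (nat_lit 0x0) (nat_lit 0x38000440000000000000000000000000000000) := T_16 (nat_lit 147) (nat_lit 126) (nat_lit 3) (nat_lit 7) (nat_lit 7) L30211 (by decide +kernel)
theorem L30213 : W_16 (nat_lit 5) (nat_lit 0x4000200000005000380010000000000000000000000000000) (nat_lit 0x0) (nat_lit 0x500038001c0008000000008000c00020000000000000000000) := Q_16 (nat_lit 163) (C_16 L30192 (C_16 L29954 (C_16 L29942 N_16))) (by decide +kernel)
theorem L30214 : W_16 (nat_lit 9) (nat_lit 0x4000200000001000380010000000000000000000000000000) (nat_lit 0x0) (nat_lit 0x500038001c003c000460008001c000e0007000080000000000) := Q_16 (nat_lit 146) (C_16 L30210 (C_16 L30212 (C_16 L30213 N_16))) (by decide +kernel)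
theorem L30215 : W_16 (nat_lit 3) (nat_lit 0x4000200000001000380010000000000000000000000000000) (nat_lit 0x0) (nat_lit 0x4400e0000000000000000000000000000) := T_16 (nat_lit 113) (nat_lit 126) (nat_lit 2) (nat_lit 7) (nat_lit 7) L29511 (by decide +kernel)
theorem L30216 : W_16 (nat_lit 2) (nat_lit 0x4000200080005000380030000000000000000000000000000) (nat_lit 0x0) (nat_lit 0x1000000000000400008000000000000000000000000000) := D_16 (nat_lit 180) (nat_lit 111) (nat_lit 130) (nat_lit 4) (nat_lit 10) (nat_lit 10) (nat_lit 6) (nat_lit 10) (nat_lit 10) (by decide +kernel)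
theorem L30217 : W_16 (nat_lit 3) (nat_lit 0x4000200000005000380030000000000000000000000000000) (nat_lit 0x0) (nat_lit 0x1000080000000400008001000000000000000000000000) := T_16 (nat_lit 163) (nat_lit 96) (nat_lit 6) (nat_lit 10) (nat_lit 9) L30216 (by decide +kernel)
theorem L30218 : W_16 (nat_lit 2) (nat_lit 0x4000200080005000380030000000000000000000000000000) (nat_lit 0x0) (nat_lit 0x1000000000000000008000400000000000000000000000) := D_16 (nat_lit 111) (nat_lit 94) (nat_lit 180) (nat_lit 4) (nat_lit 10) (nat_lit 9) (nat_lit 4) (nat_lit 10) (nat_lit 10) (by decide +kernel)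
theorem L30219 : W_16 (nat_lit 3) (nat_lit 0x4000200000005000380030000000000000000000000000000) (nat_lit 0x0) (nat_lit 0x1000080000000000008001400000000000000000000000) := T_16 (nat_lit 163) (nat_lit 96) (nat_lit 6) (nat_lit 10) (nat_lit 9) L30218 (by decide +kernel)
theorem L30220 : W_16 (nat_lit 2) (nat_lit 0x40002001c0005000780030000800020000000000000000000) (nat_lit 0x0) (nat_lit 0x40003000000000000000) := D_16 (nat_lit 78) (nat_lit 60) (nat_lit 61) (nat_lit 4) (nat_lit 10) (nat_lit 7) (nat_lit 7) (nat_lit 10) (nat_lit 3) (by decide +kernel)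
theorem L30221 : W_16 (nat_lit 3) (nat_lit 0x40002001c0005000380030000800020000000000000000000) (nat_lit 0x0) (nat_lit 0x1000000000000400000000000040003000000000000000) := T_16 (nat_lit 130) (nat_lit 180) (nat_lit 6) (nat_lit 10) (nat_lit 10) L30220 (by decide +kernel)
theorem L30222 : W_16 (nat_lit 4) (nat_lit 0x40002001c0005000380030000800000000000000000000000) (nat_lit 0x0) (nat_lit 0x1000000000000400000000400060003000000000000000) := T_16 (nat_lit 77) (nat_lit 94) (nat_lit 4) (nat_lit 10) (nat_lit 8) L30221 (by decide +kernel)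
theorem L30223 : W_16 (nat_lit 5) (nat_lit 0x40002001c0005000380030000000000000000000000000000) (nat_lit 0x0) (nat_lit 0x1000000008000400000000c00060003000000000000000) := T_16 (nat_lit 95) (nat_lit 147) (nat_lit 7) (nat_lit 10) (nat_lit 5) L30222 (by decide +kernel)
theorem L30224 : W_16 (nat_lit 6) (nat_lit 0x40002000c0005000380030000000000000000000000000000) (nat_lit 0x0) (nat_lit 0x3000100008000400000000c00060003000000000000000) := T_16 (nat_lit 164) (nat_lit 181) (nat_lit 7) (nat_lit 10) (nat_lit 6) L30223 (by decide +kernel)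
theorem L30225 : W_16 (nat_lit 7) (nat_lit 0x4000200080005000380030000000000000000000000000000) (nat_lit 0x0) (nat_lit 0x3800140008000400000000c00060003000000000000000) := T_16 (nat_lit 162) (nat_lit 179) (nat_lit 5) (nat_lit 10) (nat_lit 6) L30224 (by decide +kernel)
theorem L30226 : W_16 (nat_lit 8) (nat_lit 0x4000200000005000380030000000000000000000000000000) (nat_lit 0x0) (nat_lit 0x38001c0008000400000001c00060003000000000000000) := T_16 (nat_lit 163) (nat_lit 96) (nat_lit 6) (nat_lit 10) (nat_lit 9) L30225 (by decide +kernel)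
theorem L30227 : W_16 (nat_lit 2) (nat_lit 0x40002001c0005000380030000800000000000000000000000) (nat_lit 0x0) (nat_lit 0x8000400020000000000000000000) := D_16 (nat_lit 94) (nat_lit 77) (nat_lit 111) (nat_lit 4) (nat_lit 10) (nat_lit 8) (nat_lit 4) (nat_lit 10) (nat_lit 9) (by decide +kernel)
theorem L30228 : W_16 (nat_lit 3) (nat_lit 0x40002001c0005000380030000000000000000000000000000) (nat_lit 0x0) (nat_lit 0x8000000008000c00020000000000000000000) := T_16 (nat_lit 95) (nat_lit 147) (nat_lit 7) (nat_lit 10) (nat_lit 5) L30227 (by decide +kernel)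
theorem L30229 : W_16 (nat_lit 4) (nat_lit 0x40002000c0005000380030000000000000000000000000000) (nat_lit 0x0) (nat_lit 0x2000100008000000008000c00020000000000000000000) := T_16 (nat_lit 164) (nat_lit 181) (nat_lit 7) (nat_lit 10) (nat_lit 6) L30228 (by decide +kernel)
theorem L30230 : W_16 (nat_lit 5) (nat_lit 0x4000200080005000380030000000000000000000000000000) (nat_lit 0x0) (nat_lit 0x2800140008000000008000c00020000000000000000000) := T_16 (nat_lit 162) (nat_lit 179) (nat_lit 5) (nat_lit 10) (nat_lit 6) L30229 (by decide +kernel)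
theorem L30231 : W_16 (nat_lit 6) (nat_lit 0x4000200000005000380030000000000000000000000000000) (nat_lit 0x0) (nat_lit 0x28001c0008000000008001c00020000000000000000000) := T_16 (nat_lit 163) (nat_lit 96) (nat_lit 6) (nat_lit 10) (nat_lit 9) L30230 (by decide +kernel)
theorem L30232 : W_16 (nat_lit 2) (nat_lit 0x400020000000d000380030000c00000000000000000000000) (nat_lit 0x0) (nat_lit 0x10000400000000000040000000000000000000) := D_16 (nat_lit 130) (nat_lit 78) (nat_lit 148) (nat_lit 7) (nat_lit 10) (nat_lit 4) (nat_lit 3) (nat_lit 8) (nat_lit 7) (by decide +kernel)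
theorem L30233 : W_16 (nat_lit 3) (nat_lit 0x4000200000005000380030000c00000000000000000000000) (nat_lit 0x0) (nat_lit 0x100018000400000000000040000000000000000000) := T_16 (nat_lit 147) (nat_lit 164) (nat_lit 7) (nat_lit 10) (nat_lit 5) L30232 (by decide +kernel)
theorem L30234 : W_16 (nat_lit 4) (nat_lit 0x4000200000005000380030000800000000000000000000000) (nat_lit 0x0) (nat_lit 0x100018000400000000400060000000000000000000) := T_16 (nat_lit 94) (nat_lit 77) (nat_lit 4) (nat_lit 10) (nat_lit 8) L30233 (by decide +kernel)
theorem L30235 : W_16 (nat_lit 2) (nat_lit 0x4000200000005000380030001800060000000000000000000) (nat_lit 0x0) (nat_lit 0x8000000000002000100000000000) := D_16 (nat_lit 61) (nat_lit 111) (nat_lit 44) (nat_lit 5) (nat_lit 10) (nat_lit 3) (nat_lit 7) (nat_lit 10) (nat_lit 2) (by decide +kernel)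
theorem L30236 : W_16 (nat_lit 3) (nat_lit 0x4000200000005000380030001800020000000000000000000) (nat_lit 0x0) (nat_lit 0x8000000040003000100000000000) := T_16 (nat_lit 78) (nat_lit 60) (nat_lit 4) (nat_lit 10) (nat_lit 7) L30235 (by decide +kernel)
theorem L30237 : W_16 (nat_lit 4) (nat_lit 0x4000200000005000380030001800000000000000000000000) (nat_lit 0x0) (nat_lit 0x8000400060003000100000000000) := T_16 (nat_lit 77) (nat_lit 94) (nat_lit 4) (nat_lit 10) (nat_lit 8) L30236 (by decide +kernel)
theorem L30238 : W_16 (nat_lit 5) (nat_lit 0x4000200000005000380030000800000000000000000000000) (nat_lit 0x0) (nat_lit 0x80014000e0003000100000000000) := T_16 (nat_lit 96) (nat_lit 79) (nat_lit 6) (nat_lit 10) (nat_lit 8) L30237 (by decide +kernel)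
theorem L30239 : W_16 (nat_lit 2) (nat_lit 0x400020000000d000380030001d00000000000000000000000) (nat_lit 0x0) (nat_lit 0x30000400000000000000000000000000000000) := D_16 (nat_lit 148) (nat_lit 130) (nat_lit 149) (nat_lit 3) (nat_lit 8) (nat_lit 7) (nat_lit 0) (nat_lit 13) (nat_lit 8) (by decide +kernel)
theorem L30240 : W_16 (nat_lit 3) (nat_lit 0x4000200000005000380030001d00000000000000000000000) (nat_lit 0x0) (nat_lit 0x100038000400000000000000000000000000000000) := T_16 (nat_lit 147) (nat_lit 164) (nat_lit 7) (nat_lit 10) (nat_lit 5) L30239 (by decide +kernel)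
theorem L30241 : W_16 (nat_lit 4) (nat_lit 0x4000200000005000380030000d00000000000000000000000) (nat_lit 0x0) (nat_lit 0x100038000400000001000080000000000000000000) := T_16 (nat_lit 96) (nat_lit 79) (nat_lit 6) (nat_lit 10) (nat_lit 8) L30240 (by decide +kernel)
theorem L30242 : W_16 (nat_lit 5) (nat_lit 0x4000200000005000380030000c00000000000000000000000) (nat_lit 0x0) (nat_lit 0x100038000400000001300080000000000000000000) := T_16 (nat_lit 92) (nat_lit 93) (nat_lit 3) (nat_lit 7) (nat_lit 5) L30241 (by decide +kernel)
theorem L30243 : W_16 (nat_lit 6) (nat_lit 0x4000200000005000380030000800000000000000000000000) (nat_lit 0x0) (nat_lit 0x1000380004000000017000a0000000000000000000) := T_16 (nat_lit 94) (nat_lit 77) (nat_lit 4) (nat_lit 10) (nat_lit 8) L30242 (by decide +kernel)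
theorem L30244 : W_16 (nat_lit 2) (nat_lit 0x400020000000d000380030000800000000000000000000000) (nat_lit 0x0) (nat_lit 0x10000400000000000040000000000000000000) := D_16 (nat_lit 130) (nat_lit 78) (nat_lit 148) (nat_lit 7) (nat_lit 10) (nat_lit 4) (nat_lit 3) (nat_lit 8) (nat_lit 7) (by decide +kernel)
theorem L30245 : W_16 (nat_lit 3) (nat_lit 0x4000200000005000380030000800000000000000000000000) (nat_lit 0x0) (nat_lit 0x100018000400000000000040000000000000000000) := T_16 (nat_lit 147) (nat_lit 164) (nat_lit 7) (nat_lit 10) (nat_lit 5) L30244 (by decide +kernel)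
theorem L30246 : W_16 (nat_lit 7) (nat_lit 0x4000200000005000380030000000000000000000000000000) (nat_lit 0x0) (nat_lit 0x100038000400008001f000e0003000100000000000) := Q_16 (nat_lit 95) (C_16 L30234 (C_16 L30238 (C_16 L30243 (C_16 L30245 N_16)))) (by decide +kernel)
theorem L30247 : W_16 (nat_lit 8) (nat_lit 0x4000200000005000380030000000000000000000000000000) (nat_lit 0x0) (nat_lit 0x38001c0008000400008000c00060003000000000000000) := Q_16 (nat_lit 163) (C_16 L30230 (C_16 L30225 (C_16 L30218 (C_16 L30216 N_16)))) (by decide +kernel)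
theorem L30248 : W_16 (nat_lit 9) (nat_lit 0x4000200000001000380030000000000000000000000000000) (nat_lit 0x0) (nat_lit 0x38001c003c000400008001f000e0003000100000000000) := Q_16 (nat_lit 146) (C_16 L30217 (C_16 L30219 (C_16 L30226 (C_16 L30231 (C_16 L30246 (C_16 L30247 N_16)))))) (by decide +kernel)
theorem L30249 : W_16 (nat_lit 10) (nat_lit 0x4000200000001000380010000000000000000000000000000) (nat_lit 0x0) (nat_lit 0x38001c003c0004000e8001f000e0003000100000000000) := Q_16 (nat_lit 113) (C_16 L29913 (C_16 L29511 (C_16 L29509 (C_16 L30248 N_16)))) (by decide +kernel)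
theorem L30250 : W_16 (nat_lit 11) (nat_lit 0x4000200000001000280010000000000000000000000000000) (nat_lit 0x0) (nat_lit 0x500038001c003c0005600eb001f000e8007000180000000000) := Q_16 (nat_lit 128) (C_16 L30214 (C_16 L30004 (C_16 L30215 (C_16 L30249 N_16)))) (by decide +kernel)
theorem L30251 : W_16 (nat_lit 2) (nat_lit 0x4000200020005000280030001000000000000000000000000) (nat_lit 0x0) (nat_lit 0x800080004000000000000000) := D_16 (nat_lit 79) (nat_lit 62) (nat_lit 95) (nat_lit 5) (nat_lit 11) (nat_lit 3) (nat_lit 6) (nat_lit 10) (nat_lit 8) (by decide +kernel)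
theorem L30252 : W_16 (nat_lit 3) (nat_lit 0x4000200020001000280030001000000000000000000000000) (nat_lit 0x0) (nat_lit 0x80004000000000000800080004000000000000000) := T_16 (nat_lit 146) (nat_lit 163) (nat_lit 6) (nat_lit 10) (nat_lit 9) L30251 (by decide +kernel)
theorem L30253 : W_16 (nat_lit 4) (nat_lit 0x4000200000001000280030001000000000000000000000000) (nat_lit 0x0) (nat_lit 0x4000a0004000000000000800080004000000000000000) := T_16 (nat_lit 161) (nat_lit 178) (nat_lit 5) (nat_lit 8) (nat_lit 7) L30252 (by decide +kernel)
theorem L30254 : W_16 (nat_lit 2) (nat_lit 0x4000200000001000280030001000080000000000000000000) (nat_lit 0x0) (nat_lit 0x80004000400000000000000000000000000000000) := D_16 (nat_lit 146) (nat_lit 163) (nat_lit 130) (nat_lit 6) (nat_lit 10) (nat_lit 9) (nat_lit 5) (nat_lit 11) (nat_lit 4) (by decide +kernel)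
theorem L30255 : W_16 (nat_lit 3) (nat_lit 0x4000200000001000280030001000000000000000000000000) (nat_lit 0x0) (nat_lit 0x80004000400000000000080004000000000000000) := T_16 (nat_lit 79) (nat_lit 62) (nat_lit 5) (nat_lit 11) (nat_lit 3) L30254 (by decide +kernel)
theorem L30256 : W_16 (nat_lit 2) (nat_lit 0x4000200000001000280030001800040000000000000000000) (nat_lit 0x0) (nat_lit 0x8000400000000000000002000000000000000) := D_16 (nat_lit 130) (nat_lit 147) (nat_lit 61) (nat_lit 7) (nat_lit 10) (nat_lit 4) (nat_lit 7) (nat_lit 10) (nat_lit 3) (by decide +kernel)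
theorem L30257 : W_16 (nat_lit 2) (nat_lit 0x40002000200010002800300018000e0000000100000000000) (nat_lit 0x0) (nat_lit 0x2000018000000000000000000) := D_16 (nat_lit 76) (nat_lit 97) (nat_lit 75) (nat_lit 3) (nat_lit 8) (nat_lit 4) (nat_lit 3) (nat_lit 7) (nat_lit 4) (by decide +kernel)
theorem L30258 : W_16 (nat_lit 3) (nat_lit 0x40002000200010002800300018000c0000000100000000000) (nat_lit 0x0) (nat_lit 0x2000038001000000000000000) := T_16 (nat_lit 77) (nat_lit 60) (nat_lit 4) (nat_lit 10) (nat_lit 7) L30257 (by decide +kernel)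
theorem L30259 : W_16 (nat_lit 4) (nat_lit 0x40002000200010002800300018000c0000000000000000000) (nat_lit 0x0) (nat_lit 0x2000038003000100000000000) := T_16 (nat_lit 44) (nat_lit 61) (nat_lit 7) (nat_lit 10) (nat_lit 2) L30258 (by decide +kernel)
theorem L30260 : W_16 (nat_lit 5) (nat_lit 0x4000200020001000280030001800040000000000000000000) (nat_lit 0x0) (nat_lit 0x20000b8007000100000000000) := T_16 (nat_lit 79) (nat_lit 62) (nat_lit 6) (nat_lit 10) (nat_lit 7) L30259 (by decide +kernel)
theorem L30261 : W_16 (nat_lit 6) (nat_lit 0x4000200000001000280030001800040000000000000000000) (nat_lit 0x0) (nat_lit 0x4000200000000000000020000b8007000100000000000) := T_16 (nat_lit 161) (nat_lit 178) (nat_lit 5) (nat_lit 8) (nat_lit 7) L30260 (by decide +kernel)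
theorem L30262 : W_16 (nat_lit 7) (nat_lit 0x4000200000001000280030001800000000000000000000000) (nat_lit 0x0) (nat_lit 0x4000200080004000000020000f8007000100000000000) := Q_16 (nat_lit 78) (C_16 L29523 (C_16 L30256 (C_16 L30261 N_16))) (by decide +kernel)
theorem L30263 : W_16 (nat_lit 5) (nat_lit 0x4000200000001000280030001800000000000000000000000) (nat_lit 0x0) (nat_lit 0x8000400000006400078003000000000000000) := Q_16 (nat_lit 78) (C_16 L30256 (C_16 L29526 N_16)) (by decide +kernel)
theorem L30264 : W_16 (nat_lit 2) (nat_lit 0x4000200000001000280070001800000000000000000000000) (nat_lit 0x0) (nat_lit 0x180000400000000000000000000000) := D_16 (nat_lit 115) (nat_lit 94) (nat_lit 116) (nat_lit 0) (nat_lit 13) (nat_lit 6) (nat_lit 0) (nat_lit 14) (nat_lit 6) (by decide +kernel)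
theorem L30265 : W_16 (nat_lit 2) (nat_lit 0x40002000000010002801700018000e0000000100000000000) (nat_lit 0x0) (nat_lit 0x2000018000000000000000000) := D_16 (nat_lit 76) (nat_lit 97) (nat_lit 75) (nat_lit 3) (nat_lit 8) (nat_lit 4) (nat_lit 3) (nat_lit 7) (nat_lit 4) (by decide +kernel)
theorem L30266 : W_16 (nat_lit 3) (nat_lit 0x40002000000010002801700018000c0000000100000000000) (nat_lit 0x0) (nat_lit 0x2000038001000000000000000) := T_16 (nat_lit 77) (nat_lit 60) (nat_lit 4) (nat_lit 10) (nat_lit 7) L30265 (by decide +kernel)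
theorem L30267 : W_16 (nat_lit 4) (nat_lit 0x4000200000001000280170001800040000000100000000000) (nat_lit 0x0) (nat_lit 0x20000b8005000000000000000) := T_16 (nat_lit 79) (nat_lit 62) (nat_lit 6) (nat_lit 10) (nat_lit 7) L30266 (by decide +kernel)
theorem L30268 : W_16 (nat_lit 5) (nat_lit 0x4000200000001000280170001800040000000000000000000) (nat_lit 0x0) (nat_lit 0x20000b8007000100000000000) := T_16 (nat_lit 44) (nat_lit 61) (nat_lit 7) (nat_lit 10) (nat_lit 2) L30267 (by decide +kernel)
theorem L30269 : W_16 (nat_lit 6) (nat_lit 0x4000200000001000280070001800040000000000000000000) (nat_lit 0x0) (nat_lit 0x1800020000b8007000100000000000) := T_16 (nat_lit 116) (nat_lit 115) (nat_lit 0) (nat_lit 14) (nat_lit 6) L30268 (by decide +kernel)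
theorem L30270 : W_16 (nat_lit 2) (nat_lit 0x4000200020001000280170001800040002000000000000000) (nat_lit 0x0) (nat_lit 0x20001000080000000000) := D_16 (nat_lit 60) (nat_lit 77) (nat_lit 43) (nat_lit 4) (nat_lit 10) (nat_lit 7) (nat_lit 4) (nat_lit 10) (nat_lit 6) (by decide +kernel)
theorem L30271 : W_16 (nat_lit 3) (nat_lit 0x4000200020001000280170001800040000000000000000000) (nat_lit 0x0) (nat_lit 0x20003000180000000000) := T_16 (nat_lit 61) (nat_lit 44) (nat_lit 7) (nat_lit 10) (nat_lit 2) L30270 (by decide +kernel)
theorem L30272 : W_16 (nat_lit 4) (nat_lit 0x4000200020001000280070001800040000000000000000000) (nat_lit 0x0) (nat_lit 0x180000000020003000180000000000) := T_16 (nat_lit 116) (nat_lit 115) (nat_lit 0) (nat_lit 14) (nat_lit 6) L30271 (by decide +kernel)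
theorem L30273 : W_16 (nat_lit 5) (nat_lit 0x4000200000001000280070001800040000000000000000000) (nat_lit 0x0) (nat_lit 0x400020000000000180000000020003000180000000000) := T_16 (nat_lit 161) (nat_lit 178) (nat_lit 5) (nat_lit 8) (nat_lit 7) L30272 (by decide +kernel)
theorem L30274 : W_16 (nat_lit 2) (nat_lit 0x4000200000001000280070005800068004000000000000000) (nat_lit 0x0) (nat_lit 0x2000300000000000) := D_16 (nat_lit 61) (nat_lit 44) (nat_lit 45) (nat_lit 7) (nat_lit 10) (nat_lit 2) (nat_lit 6) (nat_lit 10) (nat_lit 6) (by decide +kernel)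
theorem L30275 : W_16 (nat_lit 3) (nat_lit 0x4000200000001000280070005800068000000000000000000) (nat_lit 0x0) (nat_lit 0x80006000300000000000) := T_16 (nat_lit 62) (nat_lit 79) (nat_lit 6) (nat_lit 10) (nat_lit 7) L30274 (by decide +kernel)
theorem L30276 : W_16 (nat_lit 4) (nat_lit 0x4000200000001000280070001800068000000000000000000) (nat_lit 0x0) (nat_lit 0x6000080006000300000000000) := T_16 (nat_lit 98) (nat_lit 97) (nat_lit 0) (nat_lit 13) (nat_lit 5) L30275 (by decide +kernel)
theorem L30277 : W_16 (nat_lit 5) (nat_lit 0x4000200000001000280070001800060000000000000000000) (nat_lit 0x0) (nat_lit 0x6000098006000300000000000) := T_16 (nat_lit 75) (nat_lit 76) (nat_lit 3) (nat_lit 7) (nat_lit 4) L30276 (by decide +kernel)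
theorem L30278 : W_16 (nat_lit 6) (nat_lit 0x4000200000001000280070001800040000000000000000000) (nat_lit 0x0) (nat_lit 0x60000b8007000300000000000) := T_16 (nat_lit 77) (nat_lit 60) (nat_lit 4) (nat_lit 10) (nat_lit 7) L30277 (by decide +kernel)
theorem L30279 : W_16 (nat_lit 2) (nat_lit 0x4000200020001000280170001800040004000000000000000) (nat_lit 0x0) (nat_lit 0x2000300000000000) := D_16 (nat_lit 61) (nat_lit 44) (nat_lit 45) (nat_lit 7) (nat_lit 10) (nat_lit 2) (nat_lit 6) (nat_lit 10) (nat_lit 6) (by decide +kernel)
theorem L30280 : W_16 (nat_lit 3) (nat_lit 0x4000200020001000280170001800040000000000000000000) (nat_lit 0x0) (nat_lit 0x80006000300000000000) := T_16 (nat_lit 62) (nat_lit 79) (nat_lit 6) (nat_lit 10) (nat_lit 7) L30279 (by decide +kernel)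
theorem L30281 : W_16 (nat_lit 4) (nat_lit 0x4000200020001000280070001800040000000000000000000) (nat_lit 0x0) (nat_lit 0x180000000080006000300000000000) := T_16 (nat_lit 116) (nat_lit 115) (nat_lit 0) (nat_lit 14) (nat_lit 6) L30280 (by decide +kernel)
theorem L30282 : W_16 (nat_lit 5) (nat_lit 0x4000200000001000280070001800040000000000000000000) (nat_lit 0x0) (nat_lit 0x400020000000000180000000080006000300000000000) := T_16 (nat_lit 161) (nat_lit 178) (nat_lit 5) (nat_lit 8) (nat_lit 7) L30281 (by decide +kernel)
theorem L30283 : W_16 (nat_lit 2) (nat_lit 0x4000200000001000280070005800068000000000000000000) (nat_lit 0x0) (nat_lit 0x180008000000000000000000000000) := D_16 (nat_lit 115) (nat_lit 116) (nat_lit 99) (nat_lit 0) (nat_lit 14) (nat_lit 6) (nat_lit 2) (nat_lit 10) (nat_lit 6) (by decide +kernel)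
theorem L30284 : W_16 (nat_lit 3) (nat_lit 0x4000200000001000280070001800068000000000000000000) (nat_lit 0x0) (nat_lit 0x18000e000000000000000000000000) := T_16 (nat_lit 98) (nat_lit 97) (nat_lit 0) (nat_lit 13) (nat_lit 5) L30283 (by decide +kernel)
theorem L30285 : W_16 (nat_lit 4) (nat_lit 0x4000200000001000280070001800060000000000000000000) (nat_lit 0x0) (nat_lit 0x18000e000018000000000000000000) := T_16 (nat_lit 75) (nat_lit 76) (nat_lit 3) (nat_lit 7) (nat_lit 4) L30284 (by decide +kernel)
theorem L30286 : W_16 (nat_lit 5) (nat_lit 0x4000200000001000280070001800040000000000000000000) (nat_lit 0x0) (nat_lit 0x18000e000038001000000000000000) := T_16 (nat_lit 77) (nat_lit 60) (nat_lit 4) (nat_lit 10) (nat_lit 7) L30285 (by decide +kernel)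
theorem L30287 : W_16 (nat_lit 7) (nat_lit 0x4000200000001000280070001800000000000000000000000) (nat_lit 0x0) (nat_lit 0x40002000000000018000e0000f8007000380000000000) := Q_16 (nat_lit 78) (C_16 L30269 (C_16 L30273 (C_16 L30278 (C_16 L30282 (C_16 L30286 N_16))))) (by decide +kernel)
theorem L30288 : W_16 (nat_lit 2) (nat_lit 0x4000200000001000280070001800070000000100000000000) (nat_lit 0x0) (nat_lit 0x6400000000000000000000000) := D_16 (nat_lit 97) (nat_lit 98) (nat_lit 94) (nat_lit 0) (nat_lit 13) (nat_lit 5) (nat_lit 0) (nat_lit 12) (nat_lit 5) (by decide +kernel)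
theorem L30289 : W_16 (nat_lit 3) (nat_lit 0x4000200000001000280070001800060000000100000000000) (nat_lit 0x0) (nat_lit 0x6400018000000000000000000) := T_16 (nat_lit 76) (nat_lit 75) (nat_lit 3) (nat_lit 7) (nat_lit 4) L30288 (by decide +kernel)
theorem L30290 : W_16 (nat_lit 4) (nat_lit 0x4000200000001000280070001800040000000100000000000) (nat_lit 0x0) (nat_lit 0x6400038001000000000000000) := T_16 (nat_lit 77) (nat_lit 60) (nat_lit 4) (nat_lit 10) (nat_lit 7) L30289 (by decide +kernel)
theorem L30291 : W_16 (nat_lit 5) (nat_lit 0x4000200000001000280070001800040000000000000000000) (nat_lit 0x0) (nat_lit 0x6400038003000100000000000) := T_16 (nat_lit 44) (nat_lit 61) (nat_lit 7) (nat_lit 10) (nat_lit 2) L30290 (by decide +kernel)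
theorem L30292 : W_16 (nat_lit 2) (nat_lit 0x4000200020011000280070003c001e0000000100000000000) (nat_lit 0x0) (nat_lit 0x18000400000000000) := D_16 (nat_lit 63) (nat_lit 64) (nat_lit 46) (nat_lit 2) (nat_lit 9) (nat_lit 4) (nat_lit 5) (nat_lit 12) (nat_lit 2) (by decide +kernel)
theorem L30293 : W_16 (nat_lit 3) (nat_lit 0x4000200020011000280070003c000e0000000100000000000) (nat_lit 0x0) (nat_lit 0x300018000400000000000) := T_16 (nat_lit 80) (nat_lit 81) (nat_lit 2) (nat_lit 9) (nat_lit 5) L30292 (by decide +kernel)
theorem L30294 : W_16 (nat_lit 4) (nat_lit 0x4000200020001000280070003c000e0000000100000000000) (nat_lit 0x0) (nat_lit 0x10000800000000000300018000400000000000) := T_16 (nat_lit 148) (nat_lit 131) (nat_lit 4) (nat_lit 12) (nat_lit 8) L30293 (by decide +kernel)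
theorem L30295 : W_16 (nat_lit 5) (nat_lit 0x40002000200010002800700038000e0000000100000000000) (nat_lit 0x0) (nat_lit 0x10000800000000600300018000400000000000) := T_16 (nat_lit 94) (nat_lit 93) (nat_lit 3) (nat_lit 8) (nat_lit 5) L30294 (by decide +kernel)
theorem L30296 : W_16 (nat_lit 6) (nat_lit 0x40002000200010002800700018000e0000000100000000000) (nat_lit 0x0) (nat_lit 0x10000800000006600300018000400000000000) := T_16 (nat_lit 97) (nat_lit 98) (nat_lit 0) (nat_lit 13) (nat_lit 5) L30295 (by decide +kernel)
theorem L30297 : W_16 (nat_lit 7) (nat_lit 0x40002000200010002800700018000c0000000100000000000) (nat_lit 0x0) (nat_lit 0x10000800000006600320019000400000000000) := T_16 (nat_lit 77) (nat_lit 60) (nat_lit 4) (nat_lit 10) (nat_lit 7) L30296 (by decide +kernel)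
theorem L30298 : W_16 (nat_lit 8) (nat_lit 0x40002000200010002800700018000c0000000000000000000) (nat_lit 0x0) (nat_lit 0x1000080000000660032001b000500000000000) := T_16 (nat_lit 44) (nat_lit 61) (nat_lit 7) (nat_lit 10) (nat_lit 2) L30297 (by decide +kernel)
theorem L30299 : W_16 (nat_lit 9) (nat_lit 0x4000200020001000280070001800040000000000000000000) (nat_lit 0x0) (nat_lit 0x100008000000066003a001f000500000000000) := T_16 (nat_lit 79) (nat_lit 62) (nat_lit 6) (nat_lit 10) (nat_lit 7) L30298 (by decide +kernel)
theorem L30300 : W_16 (nat_lit 10) (nat_lit 0x4000200000001000280070001800040000000000000000000) (nat_lit 0x0) (nat_lit 0x4000200100008000000066003a001f000500000000000) := T_16 (nat_lit 161) (nat_lit 178) (nat_lit 5) (nat_lit 8) (nat_lit 7) L30299 (by decide +kernel)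
theorem L30301 : W_16 (nat_lit 2) (nat_lit 0x4000200000001000280070001a00040004000000000000000) (nat_lit 0x0) (nat_lit 0x2000300000000000) := D_16 (nat_lit 61) (nat_lit 45) (nat_lit 44) (nat_lit 6) (nat_lit 10) (nat_lit 6) (nat_lit 7) (nat_lit 10) (nat_lit 2) (by decide +kernel)
theorem L30302 : W_16 (nat_lit 3) (nat_lit 0x4000200000001000280070001a00040000000000000000000) (nat_lit 0x0) (nat_lit 0x80006000300000000000) := T_16 (nat_lit 62) (nat_lit 79) (nat_lit 6) (nat_lit 10) (nat_lit 7) L30301 (by decide +kernel)
theorem L30303 : W_16 (nat_lit 4) (nat_lit 0x4000200000001000280070001800040000000000000000000) (nat_lit 0x0) (nat_lit 0x600080006000300000000000) := T_16 (nat_lit 93) (nat_lit 94) (nat_lit 3) (nat_lit 8) (nat_lit 5) L30302 (by decide +kernel)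
theorem L30304 : W_16 (nat_lit 2) (nat_lit 0x4000200000001000280070001c00060004000000000000000) (nat_lit 0x0) (nat_lit 0x2000018000000000000000000) := D_16 (nat_lit 76) (nat_lit 75) (nat_lit 97) (nat_lit 3) (nat_lit 7) (nat_lit 4) (nat_lit 0) (nat_lit 12) (nat_lit 5) (by decide +kernel)
theorem L30305 : W_16 (nat_lit 3) (nat_lit 0x4000200000001000280070001c00040004000000000000000) (nat_lit 0x0) (nat_lit 0x2000038001000000000000000) := T_16 (nat_lit 77) (nat_lit 60) (nat_lit 4) (nat_lit 10) (nat_lit 7) L30304 (by decide +kernel)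
theorem L30306 : W_16 (nat_lit 4) (nat_lit 0x4000200000001000280070001800040004000000000000000) (nat_lit 0x0) (nat_lit 0x2600038001000000000000000) := T_16 (nat_lit 94) (nat_lit 93) (nat_lit 3) (nat_lit 8) (nat_lit 5) L30305 (by decide +kernel)
theorem L30307 : W_16 (nat_lit 5) (nat_lit 0x4000200000001000280070001800040000000000000000000) (nat_lit 0x0) (nat_lit 0x26000b8005000000000000000) := T_16 (nat_lit 62) (nat_lit 79) (nat_lit 6) (nat_lit 10) (nat_lit 7) L30306 (by decide +kernel)
theorem L30308 : W_16 (nat_lit 11) (nat_lit 0x4000200000001000280070001800000000000000000000000) (nat_lit 0x0) (nat_lit 0x4000200100008000000066003f801f000700000000000) := Q_16 (nat_lit 78) (C_16 L30278 (C_16 L30291 (C_16 L30300 (C_16 L30303 (C_16 L30307 N_16))))) (by decide +kernel)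
theorem L30309 : W_16 (nat_lit 12) (nat_lit 0x4000200000001000280030001800000000000000000000000) (nat_lit 0x0) (nat_lit 0x4000200100008001c000e6003f801f000780000000000) := Q_16 (nat_lit 114) (C_16 L30264 (C_16 L30287 (C_16 L30308 N_16))) (by decide +kernel)
theorem L30310 : W_16 (nat_lit 2) (nat_lit 0x4000200120001001e80170001800580000000000000000000) (nat_lit 0x0) (nat_lit 0x60000000000002000000000000000000000000) := D_16 (nat_lit 149) (nat_lit 97) (nat_lit 150) (nat_lit 7) (nat_lit 12) (nat_lit 4) (nat_lit 3) (nat_lit 10) (nat_lit 7) (by decide +kernel)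
theorem L30311 : W_16 (nat_lit 3) (nat_lit 0x4000200120001000e80170001800580000000000000000000) (nat_lit 0x0) (nat_lit 0x60003000000002000000000000000000000000) := T_16 (nat_lit 132) (nat_lit 133) (nat_lit 0) (nat_lit 14) (nat_lit 7) L30310 (by decide +kernel)
theorem L30312 : W_16 (nat_lit 4) (nat_lit 0x4000200120001000680170001800580000000000000000000) (nat_lit 0x0) (nat_lit 0x70003800000002000000000000000000000000) := T_16 (nat_lit 131) (nat_lit 148) (nat_lit 7) (nat_lit 11) (nat_lit 4) L30311 (by decide +kernel)
theorem L30313 : W_16 (nat_lit 5) (nat_lit 0x4000200120001000680170001800180000000000000000000) (nat_lit 0x0) (nat_lit 0x70003800000002000600000000000000000000) := T_16 (nat_lit 82) (nat_lit 81) (nat_lit 1) (nat_lit 14) (nat_lit 4) L30312 (by decide +kernel)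
theorem L30314 : W_16 (nat_lit 6) (nat_lit 0x4000200120001000680170001800080000000000000000000) (nat_lit 0x0) (nat_lit 0x70003800000002000700008000000000000000) := T_16 (nat_lit 80) (nat_lit 63) (nat_lit 6) (nat_lit 11) (nat_lit 7) L30313 (by decide +kernel)
theorem L30315 : W_16 (nat_lit 7) (nat_lit 0x4000200100001000680170001800080000000000000000000) (nat_lit 0x0) (nat_lit 0x400020070003800000002000700008000000000000000) := T_16 (nat_lit 161) (nat_lit 178) (nat_lit 5) (nat_lit 8) (nat_lit 7) L30314 (by decide +kernel)
theorem L30316 : W_16 (nat_lit 8) (nat_lit 0x4000200100001000680170001800000000000000000000000) (nat_lit 0x0) (nat_lit 0x40002007000380000000200078000c000000000000000) := T_16 (nat_lit 79) (nat_lit 62) (nat_lit 5) (nat_lit 11) (nat_lit 3) L30315 (by decide +kernel)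
theorem L30317 : W_16 (nat_lit 9) (nat_lit 0x4000200000001000680170001800000000000000000000000) (nat_lit 0x0) (nat_lit 0x40012007800380000000200078000c000000000000000) := T_16 (nat_lit 164) (nat_lit 147) (nat_lit 4) (nat_lit 11) (nat_lit 9) L30316 (by decide +kernel)
theorem L30318 : W_16 (nat_lit 10) (nat_lit 0x4000200000001000680070001800000000000000000000000) (nat_lit 0x0) (nat_lit 0x40012007800380018000200078000c000000000000000) := T_16 (nat_lit 116) (nat_lit 115) (nat_lit 1) (nat_lit 14) (nat_lit 6) L30317 (by decide +kernel)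
theorem L30319 : W_16 (nat_lit 2) (nat_lit 0x4000200100001001e80170001800180000000000000000000) (nat_lit 0x0) (nat_lit 0x60000000000002000000000000000000000000) := D_16 (nat_lit 149) (nat_lit 97) (nat_lit 150) (nat_lit 7) (nat_lit 12) (nat_lit 4) (nat_lit 3) (nat_lit 10) (nat_lit 7) (by decide +kernel)
theorem L30320 : W_16 (nat_lit 3) (nat_lit 0x4000200100001001e80170001800080000000000000000000) (nat_lit 0x0) (nat_lit 0x60000000000002000100008000000000000000) := T_16 (nat_lit 80) (nat_lit 63) (nat_lit 6) (nat_lit 11) (nat_lit 7) L30319 (by decide +kernel)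
theorem L30321 : W_16 (nat_lit 4) (nat_lit 0x4000200100001000e80170001800080000000000000000000) (nat_lit 0x0) (nat_lit 0x60003000000002000100008000000000000000) := T_16 (nat_lit 132) (nat_lit 133) (nat_lit 0) (nat_lit 14) (nat_lit 7) L30320 (by decide +kernel)
theorem L30322 : W_16 (nat_lit 5) (nat_lit 0x4000200100001000680170001800080000000000000000000) (nat_lit 0x0) (nat_lit 0x70003800000002000100008000000000000000) := T_16 (nat_lit 131) (nat_lit 148) (nat_lit 7) (nat_lit 11) (nat_lit 4) L30321 (by decide +kernel)
theorem L30323 : W_16 (nat_lit 6) (nat_lit 0x4000200100001000680170001800000000000000000000000) (nat_lit 0x0) (nat_lit 0x7000380000000200018000c000000000000000) := T_16 (nat_lit 79) (nat_lit 62) (nat_lit 5) (nat_lit 11) (nat_lit 3) L30322 (by decide +kernel)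
theorem L30324 : W_16 (nat_lit 7) (nat_lit 0x4000200000001000680170001800000000000000000000000) (nat_lit 0x0) (nat_lit 0x10007800380000000200018000c000000000000000) := T_16 (nat_lit 164) (nat_lit 147) (nat_lit 4) (nat_lit 11) (nat_lit 9) L30323 (by decide +kernel)
theorem L30325 : W_16 (nat_lit 8) (nat_lit 0x4000200000001000680070001800000000000000000000000) (nat_lit 0x0) (nat_lit 0x10007800380018000200018000c000000000000000) := T_16 (nat_lit 116) (nat_lit 115) (nat_lit 1) (nat_lit 14) (nat_lit 6) L30324 (by decide +kernel)
theorem L30326 : W_16 (nat_lit 2) (nat_lit 0x4000200020021001e80170001800080000000000000000000) (nat_lit 0x0) (nat_lit 0x2000100008000000000000000) := D_16 (nat_lit 80) (nat_lit 63) (nat_lit 97) (nat_lit 6) (nat_lit 11) (nat_lit 7) (nat_lit 7) (nat_lit 12) (nat_lit 4) (by decide +kernel)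
theorem L30327 : W_16 (nat_lit 3) (nat_lit 0x4000200020001001e80170001800080000000000000000000) (nat_lit 0x0) (nat_lit 0x60000000000002000100008000000000000000) := T_16 (nat_lit 149) (nat_lit 150) (nat_lit 3) (nat_lit 10) (nat_lit 7) L30326 (by decide +kernel)
theorem L30328 : W_16 (nat_lit 4) (nat_lit 0x4000200000001001e80170001800080000000000000000000) (nat_lit 0x0) (nat_lit 0x400020060000000000002000100008000000000000000) := T_16 (nat_lit 161) (nat_lit 178) (nat_lit 5) (nat_lit 8) (nat_lit 7) L30327 (by decide +kernel)
theorem L30329 : W_16 (nat_lit 5) (nat_lit 0x4000200000001000e80170001800080000000000000000000) (nat_lit 0x0) (nat_lit 0x400020060003000000002000100008000000000000000) := T_16 (nat_lit 132) (nat_lit 133) (nat_lit 0) (nat_lit 14) (nat_lit 7) L30328 (by decide +kernel)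
theorem L30330 : W_16 (nat_lit 6) (nat_lit 0x4000200000001000680170001800080000000000000000000) (nat_lit 0x0) (nat_lit 0x400020070003800000002000100008000000000000000) := T_16 (nat_lit 131) (nat_lit 148) (nat_lit 7) (nat_lit 11) (nat_lit 4) L30329 (by decide +kernel)
theorem L30331 : W_16 (nat_lit 7) (nat_lit 0x4000200000001000680070001800080000000000000000000) (nat_lit 0x0) (nat_lit 0x400020070003800180002000100008000000000000000) := T_16 (nat_lit 116) (nat_lit 115) (nat_lit 1) (nat_lit 14) (nat_lit 6) L30330 (by decide +kernel)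
theorem L30332 : W_16 (nat_lit 8) (nat_lit 0x4000200000001000680070001800000000000000000000000) (nat_lit 0x0) (nat_lit 0x40002007000380018000200018000c000000000000000) := T_16 (nat_lit 79) (nat_lit 62) (nat_lit 5) (nat_lit 11) (nat_lit 3) L30331 (by decide +kernel)
theorem L30333 : W_16 (nat_lit 2) (nat_lit 0x40002000200290016800f0007800000004000000000000000) (nat_lit 0x0) (nat_lit 0x800040000800000000000000000000000000000000) := D_16 (nat_lit 150) (nat_lit 131) (nat_lit 167) (nat_lit 3) (nat_lit 10) (nat_lit 7) (nat_lit 7) (nat_lit 13) (nat_lit 5) (by decide +kernel)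
theorem L30334 : W_16 (nat_lit 3) (nat_lit 0x40002000200090016800f0007800000004000000000000000) (nat_lit 0x0) (nat_lit 0xc00060000800000000000000000000000000000000) := T_16 (nat_lit 149) (nat_lit 166) (nat_lit 4) (nat_lit 13) (nat_lit 9) L30333 (by decide +kernel)
theorem L30335 : W_16 (nat_lit 4) (nat_lit 0x40002000200090016800f0005800000004000000000000000) (nat_lit 0x0) (nat_lit 0xc00060000800000002000100000000000000000000) := T_16 (nat_lit 97) (nat_lit 80) (nat_lit 6) (nat_lit 11) (nat_lit 8) L30334 (by decide +kernel)
theorem L30336 : W_16 (nat_lit 5) (nat_lit 0x40002000200090016800f0001800000004000000000000000) (nat_lit 0x0) (nat_lit 0xc0006000080000000e000100000000000000000000) := T_16 (nat_lit 98) (nat_lit 99) (nat_lit 2) (nat_lit 10) (nat_lit 6) L30335 (by decide +kernel)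
theorem L30337 : W_16 (nat_lit 6) (nat_lit 0x40002000200090006800f0001800000004000000000000000) (nat_lit 0x0) (nat_lit 0xc0006000380000000e000100000000000000000000) := T_16 (nat_lit 132) (nat_lit 133) (nat_lit 3) (nat_lit 10) (nat_lit 6) L30336 (by decide +kernel)
theorem L30338 : W_16 (nat_lit 7) (nat_lit 0x40002000000090006800f0001800000004000000000000000) (nat_lit 0x0) (nat_lit 0x400c2006000380000000e000100000000000000000000) := T_16 (nat_lit 161) (nat_lit 178) (nat_lit 5) (nat_lit 8) (nat_lit 7) L30337 (by decide +kernel)
theorem L30339 : W_16 (nat_lit 8) (nat_lit 0x4000200000009000680070001800000004000000000000000) (nat_lit 0x0) (nat_lit 0x400c2006000380018000e000100000000000000000000) := T_16 (nat_lit 115) (nat_lit 116) (nat_lit 1) (nat_lit 14) (nat_lit 6) L30338 (by decide +kernel)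
theorem L30340 : W_16 (nat_lit 9) (nat_lit 0x4000200000001000680070001800000004000000000000000) (nat_lit 0x0) (nat_lit 0x400d2006800380018000e000100000000000000000000) := T_16 (nat_lit 147) (nat_lit 164) (nat_lit 4) (nat_lit 11) (nat_lit 9) L30339 (by decide +kernel)
theorem L30341 : W_16 (nat_lit 10) (nat_lit 0x4000200000001000680070001800000000000000000000000) (nat_lit 0x0) (nat_lit 0x400d2006800380018000e000180004000000000000000) := T_16 (nat_lit 62) (nat_lit 79) (nat_lit 5) (nat_lit 11) (nat_lit 3) L30340 (by decide +kernel)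
theorem L30342 : W_16 (nat_lit 2) (nat_lit 0x4000200000009000680170001800100000000000000000000) (nat_lit 0x0) (nat_lit 0x8000c000000000000000) := D_16 (nat_lit 79) (nat_lit 62) (nat_lit 63) (nat_lit 5) (nat_lit 11) (nat_lit 3) (nat_lit 6) (nat_lit 11) (nat_lit 7) (by decide +kernel)
theorem L30343 : W_16 (nat_lit 3) (nat_lit 0x4000200000009000680170001800000000000000000000000) (nat_lit 0x0) (nat_lit 0x200018000c000000000000000) := T_16 (nat_lit 80) (nat_lit 97) (nat_lit 6) (nat_lit 11) (nat_lit 8) L30342 (by decide +kernel)
theorem L30344 : W_16 (nat_lit 4) (nat_lit 0x4000200000009000680070001800000000000000000000000) (nat_lit 0x0) (nat_lit 0x18000200018000c000000000000000) := T_16 (nat_lit 116) (nat_lit 115) (nat_lit 1) (nat_lit 14) (nat_lit 6) L30343 (by decide +kernel)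
theorem L30345 : W_16 (nat_lit 5) (nat_lit 0x4000200000001000680070001800000000000000000000000) (nat_lit 0x0) (nat_lit 0x10000800000018000200018000c000000000000000) := T_16 (nat_lit 147) (nat_lit 164) (nat_lit 4) (nat_lit 11) (nat_lit 9) L30344 (by decide +kernel)
theorem L30346 : W_16 (nat_lit 2) (nat_lit 0x4000200020059000680170007800000000000000000000000) (nat_lit 0x0) (nat_lit 0x800000000000600000000000000000000) := D_16 (nat_lit 81) (nat_lit 131) (nat_lit 82) (nat_lit 6) (nat_lit 12) (nat_lit 8) (nat_lit 2) (nat_lit 10) (nat_lit 5) (by decide +kernel)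
theorem L30347 : W_16 (nat_lit 3) (nat_lit 0x4000200020059000680170003800000000000000000000000) (nat_lit 0x0) (nat_lit 0x80000000c000600000000000000000000) := T_16 (nat_lit 98) (nat_lit 99) (nat_lit 1) (nat_lit 14) (nat_lit 5) L30346 (by decide +kernel)
theorem L30348 : W_16 (nat_lit 4) (nat_lit 0x4000200020059000680170001800000000000000000000000) (nat_lit 0x0) (nat_lit 0x80000000e000700000000000000000000) := T_16 (nat_lit 97) (nat_lit 80) (nat_lit 6) (nat_lit 11) (nat_lit 8) L30347 (by decide +kernel)
theorem L30349 : W_16 (nat_lit 5) (nat_lit 0x4000200020019000680170001800000000000000000000000) (nat_lit 0x0) (nat_lit 0x6000080000000e000700000000000000000000) := T_16 (nat_lit 150) (nat_lit 149) (nat_lit 0) (nat_lit 14) (nat_lit 8) L30348 (by decide +kernel)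
theorem L30350 : W_16 (nat_lit 6) (nat_lit 0x4000200020009000680170001800000000000000000000000) (nat_lit 0x0) (nat_lit 0x20007000080000000e000700000000000000000000) := T_16 (nat_lit 148) (nat_lit 165) (nat_lit 7) (nat_lit 11) (nat_lit 5) L30349 (by decide +kernel)
theorem L30351 : W_16 (nat_lit 7) (nat_lit 0x4000200020009000680070001800000000000000000000000) (nat_lit 0x0) (nat_lit 0x20007000080018000e000700000000000000000000) := T_16 (nat_lit 116) (nat_lit 115) (nat_lit 1) (nat_lit 14) (nat_lit 6) L30350 (by decide +kernel)
theorem L30352 : W_16 (nat_lit 8) (nat_lit 0x4000200020001000680070001800000000000000000000000) (nat_lit 0x0) (nat_lit 0x30007800080018000e000700000000000000000000) := T_16 (nat_lit 147) (nat_lit 164) (nat_lit 4) (nat_lit 11) (nat_lit 9) L30351 (by decide +kernel)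
theorem L30353 : W_16 (nat_lit 9) (nat_lit 0x4000200000001000680070001800000000000000000000000) (nat_lit 0x0) (nat_lit 0x40032007800080018000e000700000000000000000000) := T_16 (nat_lit 161) (nat_lit 178) (nat_lit 5) (nat_lit 8) (nat_lit 7) L30352 (by decide +kernel)
theorem L30354 : W_16 (nat_lit 2) (nat_lit 0x4000200120001001e80070001800580000000000000000000) (nat_lit 0x0) (nat_lit 0x60000000000002000000000000000000000000) := D_16 (nat_lit 149) (nat_lit 97) (nat_lit 150) (nat_lit 7) (nat_lit 12) (nat_lit 4) (nat_lit 3) (nat_lit 10) (nat_lit 7) (by decide +kernel)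
theorem L30355 : W_16 (nat_lit 3) (nat_lit 0x4000200120001000e80070001800580000000000000000000) (nat_lit 0x0) (nat_lit 0x60003000000002000000000000000000000000) := T_16 (nat_lit 132) (nat_lit 133) (nat_lit 0) (nat_lit 14) (nat_lit 7) L30354 (by decide +kernel)
theorem L30356 : W_16 (nat_lit 4) (nat_lit 0x4000200120001000680070001800580000000000000000000) (nat_lit 0x0) (nat_lit 0x70003800000002000000000000000000000000) := T_16 (nat_lit 131) (nat_lit 148) (nat_lit 7) (nat_lit 11) (nat_lit 4) L30355 (by decide +kernel)
theorem L30357 : W_16 (nat_lit 5) (nat_lit 0x4000200120001000680070001800180000000000000000000) (nat_lit 0x0) (nat_lit 0x70003800000002000600000000000000000000) := T_16 (nat_lit 82) (nat_lit 81) (nat_lit 1) (nat_lit 14) (nat_lit 4) L30356 (by decide +kernel)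
theorem L30358 : W_16 (nat_lit 6) (nat_lit 0x4000200120001000680070001800080000000000000000000) (nat_lit 0x0) (nat_lit 0x70003800000002000700008000000000000000) := T_16 (nat_lit 80) (nat_lit 63) (nat_lit 6) (nat_lit 11) (nat_lit 7) L30357 (by decide +kernel)
theorem L30359 : W_16 (nat_lit 7) (nat_lit 0x4000200100001000680070001800080000000000000000000) (nat_lit 0x0) (nat_lit 0x400020070003800000002000700008000000000000000) := T_16 (nat_lit 161) (nat_lit 178) (nat_lit 5) (nat_lit 8) (nat_lit 7) L30358 (by decide +kernel)
theorem L30360 : W_16 (nat_lit 8) (nat_lit 0x4000200100001000680070001800000000000000000000000) (nat_lit 0x0) (nat_lit 0x40002007000380000000200078000c000000000000000) := T_16 (nat_lit 79) (nat_lit 62) (nat_lit 5) (nat_lit 11) (nat_lit 3) L30359 (by decide +kernel)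
theorem L30361 : W_16 (nat_lit 9) (nat_lit 0x4000200000001000680070001800000000000000000000000) (nat_lit 0x0) (nat_lit 0x40012007800380000000200078000c000000000000000) := T_16 (nat_lit 164) (nat_lit 147) (nat_lit 4) (nat_lit 11) (nat_lit 9) L30360 (by decide +kernel)
theorem L30362 : W_16 (nat_lit 2) (nat_lit 0x4000200020009000680170001800080000000000000000000) (nat_lit 0x0) (nat_lit 0x200010000800000000000000000000000000000000) := D_16 (nat_lit 148) (nat_lit 165) (nat_lit 131) (nat_lit 7) (nat_lit 11) (nat_lit 5) (nat_lit 7) (nat_lit 11) (nat_lit 4) (by decide +kernel)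
theorem L30363 : W_16 (nat_lit 3) (nat_lit 0x4000200020009000680170001800000000000000000000000) (nat_lit 0x0) (nat_lit 0x200010000800000000000080004000000000000000) := T_16 (nat_lit 79) (nat_lit 62) (nat_lit 5) (nat_lit 11) (nat_lit 3) L30362 (by decide +kernel)
theorem L30364 : W_16 (nat_lit 4) (nat_lit 0x4000200020001000680170001800000000000000000000000) (nat_lit 0x0) (nat_lit 0x300018000800000000000080004000000000000000) := T_16 (nat_lit 147) (nat_lit 164) (nat_lit 4) (nat_lit 11) (nat_lit 9) L30363 (by decide +kernel)
theorem L30365 : W_16 (nat_lit 5) (nat_lit 0x4000200020001000680070001800000000000000000000000) (nat_lit 0x0) (nat_lit 0x300018000800180000000080004000000000000000) := T_16 (nat_lit 116) (nat_lit 115) (nat_lit 1) (nat_lit 14) (nat_lit 6) L30364 (by decide +kernel)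
theorem L30366 : W_16 (nat_lit 6) (nat_lit 0x4000200000001000680070001800000000000000000000000) (nat_lit 0x0) (nat_lit 0x400320018000800180000000080004000000000000000) := T_16 (nat_lit 161) (nat_lit 178) (nat_lit 5) (nat_lit 8) (nat_lit 7) L30365 (by decide +kernel)
theorem L30367 : W_16 (nat_lit 11) (nat_lit 0x4000200000001000280070001800000000000000000000000) (nat_lit 0x0) (nat_lit 0x400f20078003c0018000e00078000c000000000000000) := Q_16 (nat_lit 130) (C_16 L30318 (C_16 L30325 (C_16 L30332 (C_16 L30341 (C_16 L30345 (C_16 L30353 (C_16 L30361 (C_16 L30366 N_16)))))))) (by decide +kernel)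
theorem L30368 : W_16 (nat_lit 2) (nat_lit 0x4000200000009000680070001a00080000000000000000000) (nat_lit 0x0) (nat_lit 0x2000100008000000000000000) := D_16 (nat_lit 80) (nat_lit 97) (nat_lit 63) (nat_lit 6) (nat_lit 11) (nat_lit 8) (nat_lit 6) (nat_lit 11) (nat_lit 7) (by decide +kernel)
theorem L30369 : W_16 (nat_lit 3) (nat_lit 0x4000200000009000680070001a00000000000000000000000) (nat_lit 0x0) (nat_lit 0x200018000c000000000000000) := T_16 (nat_lit 79) (nat_lit 62) (nat_lit 5) (nat_lit 11) (nat_lit 3) L30368 (by decide +kernel)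
theorem L30370 : W_16 (nat_lit 4) (nat_lit 0x4000200000001000680070001a00000000000000000000000) (nat_lit 0x0) (nat_lit 0x10000800000000000200018000c000000000000000) := T_16 (nat_lit 147) (nat_lit 164) (nat_lit 4) (nat_lit 11) (nat_lit 9) L30369 (by decide +kernel)
theorem L30371 : W_16 (nat_lit 5) (nat_lit 0x4000200000001000680070001800000000000000000000000) (nat_lit 0x0) (nat_lit 0x10000800000000000260018000c000000000000000) := T_16 (nat_lit 93) (nat_lit 94) (nat_lit 3) (nat_lit 8) (nat_lit 5) L30370 (by decide +kernel)
theorem L30372 : W_16 (nat_lit 2) (nat_lit 0x4000200020019000680070001800000000000000000000000) (nat_lit 0x0) (nat_lit 0x800000000000080004000000000000000) := D_16 (nat_lit 79) (nat_lit 131) (nat_lit 62) (nat_lit 7) (nat_lit 11) (nat_lit 4) (nat_lit 5) (nat_lit 11) (nat_lit 3) (by decide +kernel)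
theorem L30373 : W_16 (nat_lit 3) (nat_lit 0x4000200020009000680070001800000000000000000000000) (nat_lit 0x0) (nat_lit 0x200010000800000000000080004000000000000000) := T_16 (nat_lit 148) (nat_lit 165) (nat_lit 7) (nat_lit 11) (nat_lit 5) L30372 (by decide +kernel)
theorem L30374 : W_16 (nat_lit 4) (nat_lit 0x4000200000009000680070001800000000000000000000000) (nat_lit 0x0) (nat_lit 0x400220010000800000000000080004000000000000000) := T_16 (nat_lit 161) (nat_lit 178) (nat_lit 5) (nat_lit 8) (nat_lit 7) L30373 (by decide +kernel)
theorem L30375 : W_16 (nat_lit 5) (nat_lit 0x4000200000001000680070001800000000000000000000000) (nat_lit 0x0) (nat_lit 0x400320018000800000000000080004000000000000000) := T_16 (nat_lit 147) (nat_lit 164) (nat_lit 4) (nat_lit 11) (nat_lit 9) L30374 (by decide +kernel)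
theorem L30376 : W_16 (nat_lit 2) (nat_lit 0x4000200020001001e80070001a00580000000000000000000) (nat_lit 0x0) (nat_lit 0x60000000000002000000000000000000000000) := D_16 (nat_lit 149) (nat_lit 97) (nat_lit 150) (nat_lit 7) (nat_lit 12) (nat_lit 4) (nat_lit 3) (nat_lit 10) (nat_lit 7) (by decide +kernel)
theorem L30377 : W_16 (nat_lit 3) (nat_lit 0x4000200020001000e80070001a00580000000000000000000) (nat_lit 0x0) (nat_lit 0x60003000000002000000000000000000000000) := T_16 (nat_lit 132) (nat_lit 133) (nat_lit 0) (nat_lit 14) (nat_lit 7) L30376 (by decide +kernel)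
theorem L30378 : W_16 (nat_lit 4) (nat_lit 0x4000200020001000680070001a00580000000000000000000) (nat_lit 0x0) (nat_lit 0x70003800000002000000000000000000000000) := T_16 (nat_lit 131) (nat_lit 148) (nat_lit 7) (nat_lit 11) (nat_lit 4) L30377 (by decide +kernel)
theorem L30379 : W_16 (nat_lit 5) (nat_lit 0x4000200020001000680070001a00180000000000000000000) (nat_lit 0x0) (nat_lit 0x70003800000002000600000000000000000000) := T_16 (nat_lit 82) (nat_lit 81) (nat_lit 1) (nat_lit 14) (nat_lit 4) L30378 (by decide +kernel)
theorem L30380 : W_16 (nat_lit 6) (nat_lit 0x4000200020001000680070001800180000000000000000000) (nat_lit 0x0) (nat_lit 0x70003800000002600600000000000000000000) := T_16 (nat_lit 93) (nat_lit 94) (nat_lit 3) (nat_lit 8) (nat_lit 5) L30379 (by decide +kernel)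
theorem L30381 : W_16 (nat_lit 7) (nat_lit 0x4000200020001000680070001800080000000000000000000) (nat_lit 0x0) (nat_lit 0x70003800000002600700008000000000000000) := T_16 (nat_lit 80) (nat_lit 63) (nat_lit 6) (nat_lit 11) (nat_lit 7) L30380 (by decide +kernel)
theorem L30382 : W_16 (nat_lit 8) (nat_lit 0x4000200000001000680070001800080000000000000000000) (nat_lit 0x0) (nat_lit 0x400020070003800000002600700008000000000000000) := T_16 (nat_lit 161) (nat_lit 178) (nat_lit 5) (nat_lit 8) (nat_lit 7) L30381 (by decide +kernel)
theorem L30383 : W_16 (nat_lit 9) (nat_lit 0x4000200000001000680070001800000000000000000000000) (nat_lit 0x0) (nat_lit 0x40002007000380000000260078000c000000000000000) := T_16 (nat_lit 79) (nat_lit 62) (nat_lit 5) (nat_lit 11) (nat_lit 3) L30382 (by decide +kernel)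
theorem L30384 : W_16 (nat_lit 2) (nat_lit 0x4000200020019000680070007a00000000000000000000000) (nat_lit 0x0) (nat_lit 0x800000000000600000000000000000000) := D_16 (nat_lit 81) (nat_lit 131) (nat_lit 82) (nat_lit 6) (nat_lit 12) (nat_lit 8) (nat_lit 2) (nat_lit 10) (nat_lit 5) (by decide +kernel)
theorem L30385 : W_16 (nat_lit 3) (nat_lit 0x4000200020009000680070007a00000000000000000000000) (nat_lit 0x0) (nat_lit 0x200010000800000000000600000000000000000000) := T_16 (nat_lit 148) (nat_lit 165) (nat_lit 7) (nat_lit 11) (nat_lit 5) L30384 (by decide +kernel)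
theorem L30386 : W_16 (nat_lit 4) (nat_lit 0x4000200020009000680070003a00000000000000000000000) (nat_lit 0x0) (nat_lit 0x20001000080000000c000600000000000000000000) := T_16 (nat_lit 98) (nat_lit 99) (nat_lit 1) (nat_lit 14) (nat_lit 5) L30385 (by decide +kernel)
theorem L30387 : W_16 (nat_lit 5) (nat_lit 0x4000200020009000680070001a00000000000000000000000) (nat_lit 0x0) (nat_lit 0x20001000080000000e000700000000000000000000) := T_16 (nat_lit 97) (nat_lit 80) (nat_lit 6) (nat_lit 11) (nat_lit 8) L30386 (by decide +kernel)
theorem L30388 : W_16 (nat_lit 6) (nat_lit 0x4000200020009000680070001800000000000000000000000) (nat_lit 0x0) (nat_lit 0x20001000080000000e600700000000000000000000) := T_16 (nat_lit 93) (nat_lit 94) (nat_lit 3) (nat_lit 8) (nat_lit 5) L30387 (by decide +kernel)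
theorem L30389 : W_16 (nat_lit 7) (nat_lit 0x4000200020001000680070001800000000000000000000000) (nat_lit 0x0) (nat_lit 0x30001800080000000e600700000000000000000000) := T_16 (nat_lit 147) (nat_lit 164) (nat_lit 4) (nat_lit 11) (nat_lit 9) L30388 (by decide +kernel)
theorem L30390 : W_16 (nat_lit 8) (nat_lit 0x4000200000001000680070001800000000000000000000000) (nat_lit 0x0) (nat_lit 0x40032001800080000000e600700000000000000000000) := T_16 (nat_lit 161) (nat_lit 178) (nat_lit 5) (nat_lit 8) (nat_lit 7) L30389 (by decide +kernel)
theorem L30391 : W_16 (nat_lit 10) (nat_lit 0x4000200000001000280070001800000000000000000000000) (nat_lit 0x0) (nat_lit 0x400320078003c0000000e60078000c000000000000000) := Q_16 (nat_lit 130) (C_16 L30371 (C_16 L30375 (C_16 L30383 (C_16 L30390 N_16)))) (by decide +kernel)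
theorem L30392 : W_16 (nat_lit 12) (nat_lit 0x4000200000001000280030001800000000000000000000000) (nat_lit 0x0) (nat_lit 0x400f20078003c001c000e60078000c000000000000000) := Q_16 (nat_lit 114) (C_16 L30264 (C_16 L30367 (C_16 L30391 N_16))) (by decide +kernel)
theorem L30393 : W_16 (nat_lit 2) (nat_lit 0x4000200020001000280030001a000f0000000100000000000) (nat_lit 0x0) (nat_lit 0x40000400100000000000000000000) := D_16 (nat_lit 94) (nat_lit 80) (nat_lit 114) (nat_lit 2) (nat_lit 8) (nat_lit 5) (nat_lit 3) (nat_lit 8) (nat_lit 5) (by decide +kernel)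
theorem L30394 : W_16 (nat_lit 3) (nat_lit 0x40002000200010002800300018000f0000000100000000000) (nat_lit 0x0) (nat_lit 0x40000700100000000000000000000) := T_16 (nat_lit 93) (nat_lit 92) (nat_lit 1) (nat_lit 11) (nat_lit 4) L30393 (by decide +kernel)
theorem L30395 : W_16 (nat_lit 4) (nat_lit 0x40002000200010002800300018000e0000000100000000000) (nat_lit 0x0) (nat_lit 0x40000700118000000000000000000) := T_16 (nat_lit 76) (nat_lit 75) (nat_lit 3) (nat_lit 7) (nat_lit 4) L30394 (by decide +kernel)
theorem L30396 : W_16 (nat_lit 5) (nat_lit 0x40002000200010002800300018000c0000000100000000000) (nat_lit 0x0) (nat_lit 0x40000700138001000000000000000) := T_16 (nat_lit 77) (nat_lit 60) (nat_lit 4) (nat_lit 10) (nat_lit 7) L30395 (by decide +kernel)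
theorem L30397 : W_16 (nat_lit 6) (nat_lit 0x40002000200010002800300018000c0000000000000000000) (nat_lit 0x0) (nat_lit 0x40000700138003000100000000000) := T_16 (nat_lit 44) (nat_lit 61) (nat_lit 7) (nat_lit 10) (nat_lit 2) L30396 (by decide +kernel)
theorem L30398 : W_16 (nat_lit 7) (nat_lit 0x4000200020001000280030001800040000000000000000000) (nat_lit 0x0) (nat_lit 0x400007001b8007000100000000000) := T_16 (nat_lit 79) (nat_lit 62) (nat_lit 6) (nat_lit 10) (nat_lit 7) L30397 (by decide +kernel)
theorem L30399 : W_16 (nat_lit 8) (nat_lit 0x4000200000001000280030001800040000000000000000000) (nat_lit 0x0) (nat_lit 0x4000200000000000400007001b8007000100000000000) := T_16 (nat_lit 161) (nat_lit 178) (nat_lit 5) (nat_lit 8) (nat_lit 7) L30398 (by decide +kernel)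
theorem L30400 : W_16 (nat_lit 2) (nat_lit 0x4000200020001002e800300018001e8000000000000000000) (nat_lit 0x0) (nat_lit 0x600200000000000000000000) := D_16 (nat_lit 94) (nat_lit 93) (nat_lit 81) (nat_lit 2) (nat_lit 8) (nat_lit 5) (nat_lit 1) (nat_lit 13) (nat_lit 4) (by decide +kernel)
theorem L30401 : W_16 (nat_lit 3) (nat_lit 0x4000200020001002e800300018000e8000000000000000000) (nat_lit 0x0) (nat_lit 0x600300008000000000000000) := T_16 (nat_lit 80) (nat_lit 63) (nat_lit 6) (nat_lit 11) (nat_lit 7) L30400 (by decide +kernel)
theorem L30402 : W_16 (nat_lit 4) (nat_lit 0x4000200020001000e800300018000e8000000000000000000) (nat_lit 0x0) (nat_lit 0x3000000000600300008000000000000000) := T_16 (nat_lit 133) (nat_lit 132) (nat_lit 0) (nat_lit 14) (nat_lit 7) L30401 (by decide +kernel)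
theorem L30403 : W_16 (nat_lit 5) (nat_lit 0x40002000200010006800300018000e8000000000000000000) (nat_lit 0x0) (nat_lit 0x10003800000000600300008000000000000000) := T_16 (nat_lit 131) (nat_lit 148) (nat_lit 7) (nat_lit 11) (nat_lit 4) L30402 (by decide +kernel)
theorem L30404 : W_16 (nat_lit 6) (nat_lit 0x4000200020001000680030001800068000000000000000000) (nat_lit 0x0) (nat_lit 0x1000380000000060038000c000000000000000) := T_16 (nat_lit 79) (nat_lit 62) (nat_lit 6) (nat_lit 10) (nat_lit 7) L30403 (by decide +kernel)
theorem L30405 : W_16 (nat_lit 7) (nat_lit 0x4000200000001000680030001800068000000000000000000) (nat_lit 0x0) (nat_lit 0x40002001000380000000060038000c000000000000000) := T_16 (nat_lit 161) (nat_lit 178) (nat_lit 5) (nat_lit 8) (nat_lit 7) L30404 (by decide +kernel)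
theorem L30406 : W_16 (nat_lit 8) (nat_lit 0x4000200000001000280030001800068000000000000000000) (nat_lit 0x0) (nat_lit 0x400020018003c0000000060038000c000000000000000) := T_16 (nat_lit 130) (nat_lit 147) (nat_lit 7) (nat_lit 10) (nat_lit 4) L30405 (by decide +kernel)
theorem L30407 : W_16 (nat_lit 9) (nat_lit 0x4000200000001000280030001800060000000000000000000) (nat_lit 0x0) (nat_lit 0x400020018003c0000000060039800c000000000000000) := T_16 (nat_lit 75) (nat_lit 76) (nat_lit 3) (nat_lit 7) (nat_lit 4) L30406 (by decide +kernel)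
theorem L30408 : W_16 (nat_lit 10) (nat_lit 0x4000200000001000280030001800040000000000000000000) (nat_lit 0x0) (nat_lit 0x400020018003c000000006003b800d000000000000000) := T_16 (nat_lit 77) (nat_lit 60) (nat_lit 4) (nat_lit 10) (nat_lit 7) L30407 (by decide +kernel)
theorem L30409 : W_16 (nat_lit 11) (nat_lit 0x4000200000001000280030001800000000000000000000000) (nat_lit 0x0) (nat_lit 0x400020018003c000400007003f800f000100000000000) := Q_16 (nat_lit 78) (C_16 L30256 (C_16 L30399 (C_16 L30408 N_16))) (by decide +kernel)
theorem L30410 : W_16 (nat_lit 13) (nat_lit 0x4000200000001000280030001000000000000000000000000) (nat_lit 0x0) (nat_lit 0x400f20078003c001c000ef007f801f000780000000000) := Q_16 (nat_lit 95) (C_16 L30262 (C_16 L30263 (C_16 L30309 (C_16 L30392 (C_16 L30409 N_16))))) (by decide +kernel)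
theorem L30411 : W_16 (nat_lit 2) (nat_lit 0x400020002000d000280030001800040002000000000000000) (nat_lit 0x0) (nat_lit 0x20001000080000000000) := D_16 (nat_lit 60) (nat_lit 77) (nat_lit 43) (nat_lit 4) (nat_lit 10) (nat_lit 7) (nat_lit 4) (nat_lit 10) (nat_lit 6) (by decide +kernel)
theorem L30412 : W_16 (nat_lit 3) (nat_lit 0x400020002000d000280030001800040000000000000000000) (nat_lit 0x0) (nat_lit 0x20003000180000000000) := T_16 (nat_lit 61) (nat_lit 44) (nat_lit 7) (nat_lit 10) (nat_lit 2) L30411 (by decide +kernel)
theorem L30413 : W_16 (nat_lit 4) (nat_lit 0x400020002000d000280030001800000000000000000000000) (nat_lit 0x0) (nat_lit 0x400000000000060003000180000000000) := T_16 (nat_lit 78) (nat_lit 130) (nat_lit 7) (nat_lit 10) (nat_lit 4) L30412 (by decide +kernel)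
theorem L30414 : W_16 (nat_lit 5) (nat_lit 0x4000200020005000280030001800000000000000000000000) (nat_lit 0x0) (nat_lit 0x100008000400000000000060003000180000000000) := T_16 (nat_lit 147) (nat_lit 164) (nat_lit 7) (nat_lit 10) (nat_lit 5) L30413 (by decide +kernel)
theorem L30415 : W_16 (nat_lit 6) (nat_lit 0x4000200020001000280030001800000000000000000000000) (nat_lit 0x0) (nat_lit 0x18000c000400000000000060003000180000000000) := T_16 (nat_lit 146) (nat_lit 163) (nat_lit 6) (nat_lit 10) (nat_lit 9) L30414 (by decide +kernel)
theorem L30416 : W_16 (nat_lit 7) (nat_lit 0x4000200000001000280030001800000000000000000000000) (nat_lit 0x0) (nat_lit 0x4001a000c000400000000000060003000180000000000) := T_16 (nat_lit 161) (nat_lit 178) (nat_lit 5) (nat_lit 8) (nat_lit 7) L30415 (by decide +kernel)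
theorem L30417 : W_16 (nat_lit 2) (nat_lit 0x4000200020005000280030001c00000000000000000000000) (nat_lit 0x0) (nat_lit 0x40000300000000000000000000000) := D_16 (nat_lit 93) (nat_lit 114) (nat_lit 92) (nat_lit 3) (nat_lit 8) (nat_lit 5) (nat_lit 3) (nat_lit 7) (nat_lit 5) (by decide +kernel)
theorem L30418 : W_16 (nat_lit 3) (nat_lit 0x4000200020005000280030001800000000000000000000000) (nat_lit 0x0) (nat_lit 0x40000700020000000000000000000) := T_16 (nat_lit 94) (nat_lit 77) (nat_lit 4) (nat_lit 10) (nat_lit 8) L30417 (by decide +kernel)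
theorem L30419 : W_16 (nat_lit 4) (nat_lit 0x4000200020001000280030001800000000000000000000000) (nat_lit 0x0) (nat_lit 0x80004000000040000700020000000000000000000) := T_16 (nat_lit 146) (nat_lit 163) (nat_lit 6) (nat_lit 10) (nat_lit 9) L30418 (by decide +kernel)
theorem L30420 : W_16 (nat_lit 5) (nat_lit 0x4000200000001000280030001800000000000000000000000) (nat_lit 0x0) (nat_lit 0x4000a0004000000040000700020000000000000000000) := T_16 (nat_lit 161) (nat_lit 178) (nat_lit 5) (nat_lit 8) (nat_lit 7) L30419 (by decide +kernel)
theorem L30421 : W_16 (nat_lit 2) (nat_lit 0x400020002005d0006800b0007800200000000000000000000) (nat_lit 0x0) (nat_lit 0x800040000400000000000000000000000) := D_16 (nat_lit 114) (nat_lit 94) (nat_lit 131) (nat_lit 3) (nat_lit 9) (nat_lit 5) (nat_lit 6) (nat_lit 12) (nat_lit 8) (by decide +kernel)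
theorem L30422 : W_16 (nat_lit 3) (nat_lit 0x400020002005d000680030007800200000000000000000000) (nat_lit 0x0) (nat_lit 0x8001c0000400000000000000000000000) := T_16 (nat_lit 115) (nat_lit 116) (nat_lit 3) (nat_lit 10) (nat_lit 5) L30421 (by decide +kernel)
theorem L30423 : W_16 (nat_lit 4) (nat_lit 0x400020002005d000680030007800000000000000000000000) (nat_lit 0x0) (nat_lit 0x8001c0000400600000000000000000000) := T_16 (nat_lit 81) (nat_lit 82) (nat_lit 2) (nat_lit 10) (nat_lit 5) L30422 (by decide +kernel)
theorem L30424 : W_16 (nat_lit 5) (nat_lit 0x400020002005d000680030003800000000000000000000000) (nat_lit 0x0) (nat_lit 0x8001c000c400600000000000000000000) := T_16 (nat_lit 98) (nat_lit 99) (nat_lit 1) (nat_lit 14) (nat_lit 5) L30423 (by decide +kernel)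
theorem L30425 : W_16 (nat_lit 6) (nat_lit 0x400020002005d000680030001800000000000000000000000) (nat_lit 0x0) (nat_lit 0x8001c000e400700000000000000000000) := T_16 (nat_lit 97) (nat_lit 80) (nat_lit 6) (nat_lit 11) (nat_lit 8) L30424 (by decide +kernel)
theorem L30426 : W_16 (nat_lit 7) (nat_lit 0x400020002001d000680030001800000000000000000000000) (nat_lit 0x0) (nat_lit 0x600008001c000e400700000000000000000000) := T_16 (nat_lit 150) (nat_lit 149) (nat_lit 0) (nat_lit 14) (nat_lit 8) L30425 (by decide +kernel)
theorem L30427 : W_16 (nat_lit 8) (nat_lit 0x400020002000d000680030001800000000000000000000000) (nat_lit 0x0) (nat_lit 0x2000700008001c000e400700000000000000000000) := T_16 (nat_lit 148) (nat_lit 165) (nat_lit 7) (nat_lit 11) (nat_lit 5) L30426 (by decide +kernel)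
theorem L30428 : W_16 (nat_lit 9) (nat_lit 0x400020002000d000280030001800000000000000000000000) (nat_lit 0x0) (nat_lit 0x200070000c001c000e400740000000000000000000) := T_16 (nat_lit 130) (nat_lit 78) (nat_lit 7) (nat_lit 10) (nat_lit 4) L30427 (by decide +kernel)
theorem L30429 : W_16 (nat_lit 10) (nat_lit 0x4000200020005000280030001800000000000000000000000) (nat_lit 0x0) (nat_lit 0x300078000c001c000e400740000000000000000000) := T_16 (nat_lit 147) (nat_lit 164) (nat_lit 7) (nat_lit 10) (nat_lit 5) L30428 (by decide +kernel)
theorem L30430 : W_16 (nat_lit 11) (nat_lit 0x4000200000005000280030001800000000000000000000000) (nat_lit 0x0) (nat_lit 0x400320078000c001c000e400740000000000000000000) := T_16 (nat_lit 161) (nat_lit 178) (nat_lit 5) (nat_lit 8) (nat_lit 7) L30429 (by decide +kernel)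
theorem L30431 : W_16 (nat_lit 12) (nat_lit 0x4000200000001000280030001800000000000000000000000) (nat_lit 0x0) (nat_lit 0x4003a007c000c001c000e400740000000000000000000) := T_16 (nat_lit 146) (nat_lit 163) (nat_lit 6) (nat_lit 10) (nat_lit 9) L30430 (by decide +kernel)
theorem L30432 : W_16 (nat_lit 13) (nat_lit 0x4000200000001000280030001000000000000000000000000) (nat_lit 0x0) (nat_lit 0x4003a007c000c001c000ef00778003000180000000000) := Q_16 (nat_lit 95) (C_16 L30416 (C_16 L30263 (C_16 L30420 (C_16 L30431 N_16)))) (by decide +kernel)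
theorem L30433 : W_16 (nat_lit 14) (nat_lit 0x4000200000001000280030000000000000000000000000000) (nat_lit 0x0) (nat_lit 0x400fa007c003c001c000ff007f801f000780000000000) := Q_16 (nat_lit 96) (C_16 L30253 (C_16 L30255 (C_16 L30410 (C_16 L30432 N_16)))) (by decide +kernel)
theorem L30434 : W_16 (nat_lit 2) (nat_lit 0x40002000000010002c0030001000080000000000000000000) (nat_lit 0x0) (nat_lit 0x80004000000000000800000000000000000000000) := D_16 (nat_lit 146) (nat_lit 163) (nat_lit 95) (nat_lit 6) (nat_lit 10) (nat_lit 9) (nat_lit 6) (nat_lit 10) (nat_lit 8) (by decide +kernel)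
theorem L30435 : W_16 (nat_lit 2) (nat_lit 0x400020002000d0002c00300008000a0000000000000000000) (nat_lit 0x0) (nat_lit 0x40005000000000000000) := D_16 (nat_lit 78) (nat_lit 62) (nat_lit 60) (nat_lit 6) (nat_lit 10) (nat_lit 7) (nat_lit 4) (nat_lit 10) (nat_lit 7) (by decide +kernel)
theorem L30436 : W_16 (nat_lit 3) (nat_lit 0x400020002000d0002c0030000800080000000000000000000) (nat_lit 0x0) (nat_lit 0x400060005000000000000000) := T_16 (nat_lit 77) (nat_lit 94) (nat_lit 4) (nat_lit 10) (nat_lit 8) L30435 (by decide +kernel)
theorem L30437 : W_16 (nat_lit 4) (nat_lit 0x400020002000d0002c0030000800000000000000000000000) (nat_lit 0x0) (nat_lit 0x14000e0005000000000000000) := T_16 (nat_lit 79) (nat_lit 96) (nat_lit 6) (nat_lit 10) (nat_lit 8) L30436 (by decide +kernel)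
theorem L30438 : W_16 (nat_lit 5) (nat_lit 0x400020000000d0002c0030000800000000000000000000000) (nat_lit 0x0) (nat_lit 0x4000200000000000000014000e0005000000000000000) := T_16 (nat_lit 161) (nat_lit 178) (nat_lit 5) (nat_lit 8) (nat_lit 7) L30437 (by decide +kernel)
theorem L30439 : W_16 (nat_lit 6) (nat_lit 0x400020000000d000280030000800000000000000000000000) (nat_lit 0x0) (nat_lit 0x4000200000001400000014000e0005000000000000000) := T_16 (nat_lit 126) (nat_lit 128) (nat_lit 3) (nat_lit 7) (nat_lit 7) L30438 (by decide +kernel)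
theorem L30440 : W_16 (nat_lit 7) (nat_lit 0x4000200000005000280030000800000000000000000000000) (nat_lit 0x0) (nat_lit 0x4001200080001400000014000e0005000000000000000) := T_16 (nat_lit 147) (nat_lit 164) (nat_lit 7) (nat_lit 10) (nat_lit 5) L30439 (by decide +kernel)
theorem L30441 : W_16 (nat_lit 2) (nat_lit 0x4000200000005000280030000e00000000000000000000000) (nat_lit 0x0) (nat_lit 0xc0001000000000000000000000000) := D_16 (nat_lit 114) (nat_lit 115) (nat_lit 96) (nat_lit 0) (nat_lit 13) (nat_lit 6) (nat_lit 3) (nat_lit 8) (nat_lit 5) (by decide +kernel)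
theorem L30442 : W_16 (nat_lit 3) (nat_lit 0x4000200000005000280030000c00000000000000000000000) (nat_lit 0x0) (nat_lit 0xc0001300000000000000000000000) := T_16 (nat_lit 93) (nat_lit 92) (nat_lit 3) (nat_lit 7) (nat_lit 5) L30441 (by decide +kernel)
theorem L30443 : W_16 (nat_lit 4) (nat_lit 0x4000200000005000280030000800000000000000000000000) (nat_lit 0x0) (nat_lit 0xc0001700020000000000000000000) := T_16 (nat_lit 94) (nat_lit 77) (nat_lit 4) (nat_lit 10) (nat_lit 8) L30442 (by decide +kernel)
theorem L30444 : W_16 (nat_lit 2) (nat_lit 0x400020000000d000280030000800040000000000000000000) (nat_lit 0x0) (nat_lit 0x400020001000000000000000) := D_16 (nat_lit 77) (nat_lit 60) (nat_lit 94) (nat_lit 4) (nat_lit 10) (nat_lit 7) (nat_lit 4) (nat_lit 10) (nat_lit 8) (by decide +kernel)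
theorem L30445 : W_16 (nat_lit 2) (nat_lit 0x4000200000005000280030001000000000000000000000000) (nat_lit 0x0) (nat_lit 0x800080004000000000000000) := D_16 (nat_lit 79) (nat_lit 95) (nat_lit 62) (nat_lit 6) (nat_lit 10) (nat_lit 8) (nat_lit 5) (nat_lit 11) (nat_lit 3) (by decide +kernel)
theorem L30446 : W_16 (nat_lit 6) (nat_lit 0x4000200000001000280070000000000000000000000000000) (nat_lit 0x0) (nat_lit 0x400020000007100180001c00000000000000000000000) := T_16 (nat_lit 115) (nat_lit 128) (nat_lit 1) (nat_lit 13) (nat_lit 6) L29380 (by decide +kernel)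
theorem L30447 : W_16 (nat_lit 2) (nat_lit 0x40002000200010022800f0008000000000000000000000000) (nat_lit 0x0) (nat_lit 0x4000100010000000000000000000000000) := D_16 (nat_lit 116) (nat_lit 100) (nat_lit 134) (nat_lit 2) (nat_lit 11) (nat_lit 6) (nat_lit 3) (nat_lit 11) (nat_lit 6) (by decide +kernel)
theorem L30448 : W_16 (nat_lit 3) (nat_lit 0x40002000200010002800f0008000000000000000000000000) (nat_lit 0x0) (nat_lit 0x7000100010000000000000000000000000) := T_16 (nat_lit 133) (nat_lit 132) (nat_lit 3) (nat_lit 10) (nat_lit 6) L30447 (by decide +kernel)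
theorem L30449 : W_16 (nat_lit 4) (nat_lit 0x40002000200010002800f0000000000000000000000000000) (nat_lit 0x0) (nat_lit 0x700010001c000000000000000000000000) := T_16 (nat_lit 99) (nat_lit 98) (nat_lit 2) (nat_lit 10) (nat_lit 6) L30448 (by decide +kernel)
theorem L30450 : W_16 (nat_lit 5) (nat_lit 0x40002000000010002800f0000000000000000000000000000) (nat_lit 0x0) (nat_lit 0x40002000000700010001c000000000000000000000000) := T_16 (nat_lit 161) (nat_lit 178) (nat_lit 5) (nat_lit 8) (nat_lit 7) L30449 (by decide +kernel)
theorem L30451 : W_16 (nat_lit 2) (nat_lit 0x40002000000010012800f0005800000000000000000000000) (nat_lit 0x0) (nat_lit 0x80004000000000000000080000000000000000000) := D_16 (nat_lit 146) (nat_lit 163) (nat_lit 79) (nat_lit 6) (nat_lit 10) (nat_lit 9) (nat_lit 6) (nat_lit 10) (nat_lit 8) (by decide +kernel)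
theorem L30452 : W_16 (nat_lit 3) (nat_lit 0x40002000000010012800f0004800000000000000000000000) (nat_lit 0x0) (nat_lit 0x80004000000100001000080000000000000000000) := T_16 (nat_lit 96) (nat_lit 116) (nat_lit 0) (nat_lit 14) (nat_lit 6) L30451 (by decide +kernel)
theorem L30453 : W_16 (nat_lit 4) (nat_lit 0x40002000000010002800f0004800000000000000000000000) (nat_lit 0x0) (nat_lit 0x80004003000100001000080000000000000000000) := T_16 (nat_lit 132) (nat_lit 133) (nat_lit 3) (nat_lit 10) (nat_lit 6) L30452 (by decide +kernel)
theorem L30454 : W_16 (nat_lit 5) (nat_lit 0x40002000000010002800f0004000000000000000000000000) (nat_lit 0x0) (nat_lit 0x80004003000100001c00080000000000000000000) := T_16 (nat_lit 95) (nat_lit 94) (nat_lit 0) (nat_lit 13) (nat_lit 6) L30453 (by decide +kernel)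
theorem L30455 : W_16 (nat_lit 6) (nat_lit 0x40002000000010002800f0000000000000000000000000000) (nat_lit 0x0) (nat_lit 0x8000400300010000dc00080000000000000000000) := T_16 (nat_lit 98) (nat_lit 99) (nat_lit 2) (nat_lit 10) (nat_lit 6) L30454 (by decide +kernel)
theorem L30456 : W_16 (nat_lit 2) (nat_lit 0x40002000000010002800f0005800000000000000000000000) (nat_lit 0x0) (nat_lit 0x80004000000000000000080000000000000000000) := D_16 (nat_lit 146) (nat_lit 163) (nat_lit 79) (nat_lit 6) (nat_lit 10) (nat_lit 9) (nat_lit 6) (nat_lit 10) (nat_lit 8) (by decide +kernel)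
theorem L30457 : W_16 (nat_lit 3) (nat_lit 0x40002000000010002800f0004800000000000000000000000) (nat_lit 0x0) (nat_lit 0x80004000000100001000080000000000000000000) := T_16 (nat_lit 96) (nat_lit 116) (nat_lit 0) (nat_lit 14) (nat_lit 6) L30456 (by decide +kernel)
theorem L30458 : W_16 (nat_lit 4) (nat_lit 0x40002000000010002800f0000800000000000000000000000) (nat_lit 0x0) (nat_lit 0x8000400000010000d000080000000000000000000) := T_16 (nat_lit 98) (nat_lit 99) (nat_lit 2) (nat_lit 10) (nat_lit 6) L30457 (by decide +kernel)
theorem L30459 : W_16 (nat_lit 5) (nat_lit 0x40002000000010002800f0000000000000000000000000000) (nat_lit 0x0) (nat_lit 0x8000400000010000dc00080000000000000000000) := T_16 (nat_lit 95) (nat_lit 94) (nat_lit 0) (nat_lit 13) (nat_lit 6) L30458 (by decide +kernel)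
theorem L30460 : W_16 (nat_lit 2) (nat_lit 0x40002000000050002800f0001000000000000000000000000) (nat_lit 0x0) (nat_lit 0xc00080000000000000000000) := D_16 (nat_lit 95) (nat_lit 94) (nat_lit 79) (nat_lit 0) (nat_lit 13) (nat_lit 6) (nat_lit 6) (nat_lit 10) (nat_lit 8) (by decide +kernel)
theorem L30461 : W_16 (nat_lit 3) (nat_lit 0x40002000000010002800f0001000000000000000000000000) (nat_lit 0x0) (nat_lit 0x80004000000000000c00080000000000000000000) := T_16 (nat_lit 146) (nat_lit 163) (nat_lit 6) (nat_lit 10) (nat_lit 9) L30460 (by decide +kernel)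
theorem L30462 : W_16 (nat_lit 2) (nat_lit 0x40002000800010002800f0007800200000000000000000000) (nat_lit 0x0) (nat_lit 0x800000000000000010000800000000000) := D_16 (nat_lit 64) (nat_lit 47) (nat_lit 131) (nat_lit 5) (nat_lit 13) (nat_lit 2) (nat_lit 5) (nat_lit 13) (nat_lit 3) (by decide +kernel)
theorem L30463 : W_16 (nat_lit 3) (nat_lit 0x40002000800010002800f0007800000000000000000000000) (nat_lit 0x0) (nat_lit 0x800000000000600010000800000000000) := T_16 (nat_lit 81) (nat_lit 82) (nat_lit 2) (nat_lit 10) (nat_lit 5) L30462 (by decide +kernel)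
theorem L30464 : W_16 (nat_lit 4) (nat_lit 0x40002000800010002800f0003800000000000000000000000) (nat_lit 0x0) (nat_lit 0x80000000c000600010000800000000000) := T_16 (nat_lit 98) (nat_lit 99) (nat_lit 2) (nat_lit 10) (nat_lit 6) L30463 (by decide +kernel)
theorem L30465 : W_16 (nat_lit 5) (nat_lit 0x40002000000010002800f0003800000000000000000000000) (nat_lit 0x0) (nat_lit 0x8000400080000000c000600010000800000000000) := T_16 (nat_lit 163) (nat_lit 146) (nat_lit 6) (nat_lit 10) (nat_lit 9) L30464 (by decide +kernel)
theorem L30466 : W_16 (nat_lit 6) (nat_lit 0x40002000000010002800f0003000000000000000000000000) (nat_lit 0x0) (nat_lit 0x8000400080000000cc00600010000800000000000) := T_16 (nat_lit 95) (nat_lit 94) (nat_lit 3) (nat_lit 9) (nat_lit 5) L30465 (by decide +kernel)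
end Crest.Agent.Helper32.Snaky.R1_0
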