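import Crest.Agent.Helper32.Snaky.Gen.R1_0_p16
set_option autoImplicit false
set_option maxRecDepth 100000
set_option linter.all false
set_option Elab.async false
namespace Crest.Agent.Helper32.Snaky.R1_0
@[reducible] def W_17 (d M Bz Z : Nat) : Prop := Crest.Agent.Helper32.Snaky.Wins (nat_lit 17) d M Bz Z
theorem D_17 {d M Bz Z : Nat} (m t1 t2 o1 x1 y1 o2 x2 y2 : Nat) (h : Crest.Agent.Helper32.Snaky.chkDoubleC (nat_lit 17) d M Bz Z m t1 t2 o1 x1 y1 o2 x2 y2 = true) : W_17 d M Bz Z := Crest.Agent.Helper32.Snaky.doubleC m t1 t2 o1 x1 y1 o2 x2 y2 h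
theorem T_17 {d M Bz Z cd cM cBz cZ : Nat} (m t o x y : Nat) (child : W_17 cd cM cBz cZ) (h : Crest.Agent.Helper32.Snaky.chkThreatC (nat_lit 17) d M Bz Z cd cM cBz cZ m t o x y = true) : W_17 d M Bz Z := Crest.Agent.Helper32.Snaky.threatC m t o x y child h
theorem Q_17 {d M Bz Z : Nat} (m : Nat) {l : List Crest.Agent.Helper32.Snaky.Spec} (kids : Crest.Agent.Helper32.Snaky.AllWins (nat_lit 17) l) (h : Crest.Agent.Helper32.Snaky.chkQuiet d M Bz Z m l = true) : W_17 d M Bz Z := Crest.Agent.Helper32.Snaky.quiet m kids h
theorem C_17 {cd cM cBz cZ : Nat} {l : List Crest.Agent.Helper32.Snaky.Spec} (h : W_17 cd cM cBz cZ) (hl : Crest.Agent.Helper32.Snaky.AllWins (nat_lit 17) l) : Crest.Agent.Helper32.Snaky.AllWins (nat_lit 17) ((cd, cM, cBz, cZ) :: l) := Crest.Agent.Helper32.Snaky.AllWins.cons h hl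
theorem N_17 : Crest.Agent.Helper32.Snaky.AllWins (nat_lit 17) [] := Crest.Agent.Helper32.Snaky.AllWins.nil
theorem L30467 : W_17 (nat_lit 7) (nat_lit 0x40002000000010002800f0001000000000000000000000000) (nat_lit 0x0) (nat_lit 0x4004a002400380000000ec00700018000800000000000) := Q_17 (nat_lit 97) (C_17 L29310 (C_17 L29314 (C_17 L30466 N_17))) (by decide +kernel)
theorem L30468 : W_17 (nat_lit 11) (nat_lit 0x40002000000010002800f0000000000000000000000000000) (nat_lit 0x0) (nat_lit 0x4006a003400380000000fc00f8003c000800000000000) := Q_17 (nat_lit 96) (C_17 L29265 (C_17 L30461 (C_17 L30467 N_17))) (by decide +kernel)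
theorem L30469 : W_17 (nat_lit 12) (nat_lit 0x4000200000001000280070000000000000000000000000000) (nat_lit 0x0) (nat_lit 0x4006a003400780018001fc00f8003c000800000000000) := Q_17 (nat_lit 115) (C_17 L30450 (C_17 L30455 (C_17 L30459 (C_17 L30468 (C_17 L29380 N_17))))) (by decide +kernel)
theorem L30470 : W_17 (nat_lit 2) (nat_lit 0x4000200000011000280070003c001e0000000000000000000) (nat_lit 0x0) (nat_lit 0x18000400000000000) := D_17 (nat_lit 63) (nat_lit 64) (nat_lit 46) (nat_lit 2) (nat_lit 9) (nat_lit 4) (nat_lit 5) (nat_lit 12) (nat_lit 2) (by decide +kernel)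
theorem L30471 : W_17 (nat_lit 3) (nat_lit 0x4000200000011000280070003c000e0000000000000000000) (nat_lit 0x0) (nat_lit 0x300018000400000000000) := T_17 (nat_lit 80) (nat_lit 81) (nat_lit 2) (nat_lit 9) (nat_lit 5) L30470 (by decide +kernel)
theorem L30472 : W_17 (nat_lit 4) (nat_lit 0x4000200000001000280070003c000e0000000000000000000) (nat_lit 0x0) (nat_lit 0x10000800000000000300018000400000000000) := T_17 (nat_lit 148) (nat_lit 131) (nat_lit 4) (nat_lit 12) (nat_lit 8) L30471 (by decide +kernel)
theorem L30473 : W_17 (nat_lit 5) (nat_lit 0x4000200000001000280070003c00060000000000000000000) (nat_lit 0x0) (nat_lit 0x1000080000000000038001c000400000000000) := T_17 (nat_lit 79) (nat_lit 62) (nat_lit 6) (nat_lit 10) (nat_lit 7) L30472 (by decide +kernel)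
theorem L30474 : W_17 (nat_lit 6) (nat_lit 0x4000200000001000280070003800060000000000000000000) (nat_lit 0x0) (nat_lit 0x1000080000000060038001c000400000000000) := T_17 (nat_lit 94) (nat_lit 93) (nat_lit 3) (nat_lit 8) (nat_lit 5) L30473 (by decide +kernel)
theorem L30475 : W_17 (nat_lit 7) (nat_lit 0x4000200000001000280070001800060000000000000000000) (nat_lit 0x0) (nat_lit 0x1000080000000660038001c000400000000000) := T_17 (nat_lit 97) (nat_lit 98) (nat_lit 0) (nat_lit 13) (nat_lit 5) L30474 (by decide +kernel)
theorem L30476 : W_17 (nat_lit 8) (nat_lit 0x4000200000001000280070001800040000000000000000000) (nat_lit 0x0) (nat_lit 0x100008000000066003a001d000400000000000) := T_17 (nat_lit 77) (nat_lit 60) (nat_lit 4) (nat_lit 10) (nat_lit 7) L30475 (by decide +kernel)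
theorem L30477 : W_17 (nat_lit 10) (nat_lit 0x4000200000001000280030000800000000000000000000000) (nat_lit 0x0) (nat_lit 0x3c001f003c0001400c0001700020000000000000000000) := T_17 (nat_lit 128) (nat_lit 126) (nat_lit 2) (nat_lit 7) (nat_lit 7) L30070 (by decide +kernel)
theorem L30478 : W_17 (nat_lit 2) (nat_lit 0x4000200000001000280030000c00020000000000000000000) (nat_lit 0x0) (nat_lit 0x40001000080000000000) := D_17 (nat_lit 60) (nat_lit 78) (nat_lit 43) (nat_lit 4) (nat_lit 10) (nat_lit 7) (nat_lit 7) (nat_lit 9) (nat_lit 2) (by decide +kernel)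
theorem L30479 : W_17 (nat_lit 3) (nat_lit 0x4000200000001000280030000c00000000000000000000000) (nat_lit 0x0) (nat_lit 0x4000000000000000060001000080000000000) := T_17 (nat_lit 77) (nat_lit 146) (nat_lit 4) (nat_lit 10) (nat_lit 8) L30478 (by decide +kernel)
theorem L30480 : W_17 (nat_lit 2) (nat_lit 0x4002a00080005000280030000c00000000000000000000000) (nat_lit 0x0) (nat_lit 0x50001000000000000000000000000000000000000000000000) := D_17 (nat_lit 180) (nat_lit 198) (nat_lit 196) (nat_lit 7) (nat_lit 10) (nat_lit 7) (nat_lit 5) (nat_lit 10) (nat_lit 7) (by decide +kernel)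
theorem L30481 : W_17 (nat_lit 3) (nat_lit 0x4002200080005000280030000c00000000000000000000000) (nat_lit 0x0) (nat_lit 0x50001800040000000000000000000000000000000000000000) := T_17 (nat_lit 179) (nat_lit 162) (nat_lit 5) (nat_lit 10) (nat_lit 6) L30480 (by decide +kernel)
theorem L30482 : W_17 (nat_lit 4) (nat_lit 0x4000200080005000280030000c00000000000000000000000) (nat_lit 0x0) (nat_lit 0x50003800140000000000000000000000000000000000000000) := T_17 (nat_lit 181) (nat_lit 164) (nat_lit 7) (nat_lit 10) (nat_lit 6) L30481 (by decide +kernel)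
theorem L30483 : W_17 (nat_lit 2) (nat_lit 0x40002000200010002c00b0000e000c0000000000000000000) (nat_lit 0x0) (nat_lit 0x320000000000000000000) := D_17 (nat_lit 80) (nat_lit 81) (nat_lit 77) (nat_lit 1) (nat_lit 13) (nat_lit 4) (nat_lit 1) (nat_lit 12) (nat_lit 4) (by decide +kernel)
theorem L30484 : W_17 (nat_lit 2) (nat_lit 0x4000200000001000280070000800000000000000000000000) (nat_lit 0x0) (nat_lit 0x100080000400000000000000000000000) := D_17 (nat_lit 115) (nat_lit 128) (nat_lit 94) (nat_lit 1) (nat_lit 13) (nat_lit 6) (nat_lit 0) (nat_lit 13) (nat_lit 6) (by decide +kernel)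
theorem L30485 : W_17 (nat_lit 2) (nat_lit 0x40002000000010002c0030000c000e0000000000000000000) (nat_lit 0x0) (nat_lit 0x300100000000000000000000) := D_17 (nat_lit 93) (nat_lit 92) (nat_lit 80) (nat_lit 3) (nat_lit 7) (nat_lit 5) (nat_lit 1) (nat_lit 12) (nat_lit 4) (by decide +kernel)
theorem L30486 : W_17 (nat_lit 2) (nat_lit 0x4000200020001000280030000c000e0000000000000000000) (nat_lit 0x0) (nat_lit 0x300100000000000000000000) := D_17 (nat_lit 93) (nat_lit 92) (nat_lit 80) (nat_lit 3) (nat_lit 7) (nat_lit 5) (nat_lit 1) (nat_lit 12) (nat_lit 4) (by decide +kernel)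
theorem L30487 : W_17 (nat_lit 3) (nat_lit 0x40002000200010002800300008000e0000000000000000000) (nat_lit 0x0) (nat_lit 0x4000000000000700100000000000000000000) := T_17 (nat_lit 94) (nat_lit 146) (nat_lit 4) (nat_lit 10) (nat_lit 8) L30486 (by decide +kernel)
theorem L30488 : W_17 (nat_lit 2) (nat_lit 0x4000200000001000280030000e00060000000000000000000) (nat_lit 0x0) (nat_lit 0x180004000000000000000) := D_17 (nat_lit 79) (nat_lit 62) (nat_lit 80) (nat_lit 6) (nat_lit 10) (nat_lit 7) (nat_lit 1) (nat_lit 12) (nat_lit 4) (by decide +kernel)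
theorem L30489 : W_17 (nat_lit 3) (nat_lit 0x4000200000001000280030000c00060000000000000000000) (nat_lit 0x0) (nat_lit 0x300180004000000000000000) := T_17 (nat_lit 93) (nat_lit 92) (nat_lit 3) (nat_lit 7) (nat_lit 5) L30488 (by decide +kernel)
theorem L30490 : W_17 (nat_lit 2) (nat_lit 0x40002000200010002c0030000c000e0000000000000000000) (nat_lit 0x0) (nat_lit 0x200300000000000000000000) := D_17 (nat_lit 80) (nat_lit 81) (nat_lit 93) (nat_lit 1) (nat_lit 13) (nat_lit 4) (nat_lit 1) (nat_lit 12) (nat_lit 4) (by decide +kernel)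
theorem L30491 : W_17 (nat_lit 3) (nat_lit 0x40002000200010002c00b0000c000c0000000000000000000) (nat_lit 0x0) (nat_lit 0x300320000000000000000000) := T_17 (nat_lit 93) (nat_lit 92) (nat_lit 3) (nat_lit 7) (nat_lit 5) L30483 (by decide +kernel)
theorem L30492 : W_17 (nat_lit 4) (nat_lit 0x40002000200010002c00b0000c00040000000000000000000) (nat_lit 0x0) (nat_lit 0x3003a0004000000000000000) := T_17 (nat_lit 79) (nat_lit 62) (nat_lit 6) (nat_lit 10) (nat_lit 7) L30491 (by decide +kernel)
theorem L30493 : W_17 (nat_lit 5) (nat_lit 0x40002000200010002c0030000c00040000000000000000000) (nat_lit 0x0) (nat_lit 0xc00003003a0004000000000000000) := T_17 (nat_lit 115) (nat_lit 114) (nat_lit 0) (nat_lit 13) (nat_lit 6) L30492 (by decide +kernel)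
theorem L30494 : W_17 (nat_lit 6) (nat_lit 0x4000200020001000280030000c00040000000000000000000) (nat_lit 0x0) (nat_lit 0x1400c00003003a0004000000000000000) := T_17 (nat_lit 126) (nat_lit 128) (nat_lit 2) (nat_lit 7) (nat_lit 7) L30493 (by decide +kernel)
theorem L30495 : W_17 (nat_lit 3) (nat_lit 0x40002000200010002c00300008000e0000000000000000000) (nat_lit 0x0) (nat_lit 0x4000000000000600300000000000000000000) := T_17 (nat_lit 94) (nat_lit 146) (nat_lit 4) (nat_lit 10) (nat_lit 8) L30490 (by decide +kernel)
theorem L30496 : W_17 (nat_lit 2) (nat_lit 0x40002000200010002c0030000c00020000000000000000000) (nat_lit 0x0) (nat_lit 0x40001000080000000000) := D_17 (nat_lit 60) (nat_lit 78) (nat_lit 43) (nat_lit 4) (nat_lit 10) (nat_lit 7) (nat_lit 7) (nat_lit 9) (nat_lit 2) (by decide +kernel)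
theorem L30497 : W_17 (nat_lit 3) (nat_lit 0x40002000200010002c0030000c00000000000000000000000) (nat_lit 0x0) (nat_lit 0x4000000000000000060001000080000000000) := T_17 (nat_lit 77) (nat_lit 146) (nat_lit 4) (nat_lit 10) (nat_lit 8) L30496 (by decide +kernel)
theorem L30498 : W_17 (nat_lit 3) (nat_lit 0x40002000000010002c0030000000080000000000000000000) (nat_lit 0x0) (nat_lit 0x80004000000000001800000004000000000000000) := T_17 (nat_lit 96) (nat_lit 62) (nat_lit 5) (nat_lit 11) (nat_lit 3) L30434 (by decide +kernel)
theorem L30499 : W_17 (nat_lit 4) (nat_lit 0x4000200000001000280030000000080000000000000000000) (nat_lit 0x0) (nat_lit 0x80004000140000001800000004000000000000000) := T_17 (nat_lit 126) (nat_lit 128) (nat_lit 2) (nat_lit 7) (nat_lit 7) L30498 (by decide +kernel)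
theorem L30500 : W_17 (nat_lit 3) (nat_lit 0x40002000000010002c00300008000e0000000000000000000) (nat_lit 0x0) (nat_lit 0x4000000000000700100000000000000000000) := T_17 (nat_lit 94) (nat_lit 146) (nat_lit 4) (nat_lit 10) (nat_lit 8) L30485 (by decide +kernel)
theorem L30501 : W_17 (nat_lit 2) (nat_lit 0x40002000000010002800300000000e0000000000000000000) (nat_lit 0x0) (nat_lit 0x800000005000000000000000) := D_17 (nat_lit 95) (nat_lit 60) (nat_lit 62) (nat_lit 4) (nat_lit 10) (nat_lit 7) (nat_lit 6) (nat_lit 10) (nat_lit 7) (by decide +kernel)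
theorem L30502 : W_17 (nat_lit 2) (nat_lit 0x40002000200010002c00300000000f8004000000000000000) (nat_lit 0x0) (nat_lit 0x380000000000000000000000) := D_17 (nat_lit 92) (nat_lit 91) (nat_lit 93) (nat_lit 1) (nat_lit 10) (nat_lit 4) (nat_lit 1) (nat_lit 11) (nat_lit 4) (by decide +kernel)
theorem L30503 : W_17 (nat_lit 3) (nat_lit 0x40002000200010002c00300000000f0004000000000000000) (nat_lit 0x0) (nat_lit 0x380008002000000000000000) := T_17 (nat_lit 75) (nat_lit 61) (nat_lit 2) (nat_lit 7) (nat_lit 4) L30502 (by decide +kernel)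
theorem L30504 : W_17 (nat_lit 4) (nat_lit 0x40002000200010002c00300000000e0004000000000000000) (nat_lit 0x0) (nat_lit 0x38001800a000000000000000) := T_17 (nat_lit 76) (nat_lit 63) (nat_lit 2) (nat_lit 8) (nat_lit 4) L30503 (by decide +kernel)
theorem L30505 : W_17 (nat_lit 5) (nat_lit 0x40002000000010002c00300000000e0004000000000000000) (nat_lit 0x0) (nat_lit 0x40002000000000000000038001800a000000000000000) := T_17 (nat_lit 161) (nat_lit 178) (nat_lit 5) (nat_lit 8) (nat_lit 7) L30504 (by decide +kernel)
theorem L30506 : W_17 (nat_lit 6) (nat_lit 0x40002000000010002c00300000000e0000000000000000000) (nat_lit 0x0) (nat_lit 0x400020000000000000000b8001800e000000000000000) := T_17 (nat_lit 62) (nat_lit 95) (nat_lit 6) (nat_lit 10) (nat_lit 7) L30505 (by decide +kernel)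
theorem L30507 : W_17 (nat_lit 7) (nat_lit 0x40002000000010002800300000000e0000000000000000000) (nat_lit 0x0) (nat_lit 0x400020000000140000000b8001800e000000000000000) := T_17 (nat_lit 126) (nat_lit 128) (nat_lit 2) (nat_lit 7) (nat_lit 7) L30506 (by decide +kernel)
theorem L30508 : W_17 (nat_lit 11) (nat_lit 0x40002000000010002800300000000c0000000000000000000) (nat_lit 0x0) (nat_lit 0x40002000000014000200eb8073801fe00000000000000) := Q_17 (nat_lit 77) (C_17 L30501 (C_17 L29627 (C_17 L29735 (C_17 L30507 N_17)))) (by decide +kernel)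
theorem L30509 : W_17 (nat_lit 4) (nat_lit 0x40002000000010002c00300008000c0000000000000000000) (nat_lit 0x0) (nat_lit 0x4000000000000700120001000000000000000) := T_17 (nat_lit 77) (nat_lit 60) (nat_lit 4) (nat_lit 10) (nat_lit 7) L30500 (by decide +kernel)
theorem L30510 : W_17 (nat_lit 5) (nat_lit 0x40002000000010002c00300000000c0000000000000000000) (nat_lit 0x0) (nat_lit 0x4000000000000f00120005000000000000000) := T_17 (nat_lit 95) (nat_lit 62) (nat_lit 6) (nat_lit 10) (nat_lit 7) L30509 (by decide +kernel)
theorem L30511 : W_17 (nat_lit 6) (nat_lit 0x40002000000010002800300000000c0000000000000000000) (nat_lit 0x0) (nat_lit 0x4000140000000f00120005000000000000000) := T_17 (nat_lit 126) (nat_lit 128) (nat_lit 2) (nat_lit 7) (nat_lit 7) L30510 (by decide +kernel)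
theorem L30512 : W_17 (nat_lit 4) (nat_lit 0x40002000000010002800300008000e0000000000000000000) (nat_lit 0x0) (nat_lit 0x400020004000000000000700100000000000000000000) := T_17 (nat_lit 161) (nat_lit 178) (nat_lit 5) (nat_lit 8) (nat_lit 7) L30487 (by decide +kernel)
theorem L30513 : W_17 (nat_lit 5) (nat_lit 0x40002000000010002800300008000c0000000000000000000) (nat_lit 0x0) (nat_lit 0x400020004000000000000700120001000000000000000) := T_17 (nat_lit 77) (nat_lit 60) (nat_lit 4) (nat_lit 10) (nat_lit 7) L30512 (by decide +kernel)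
theorem L30514 : W_17 (nat_lit 6) (nat_lit 0x40002000000010002800300000000c0000000000000000000) (nat_lit 0x0) (nat_lit 0x400020004000000000000f00120005000000000000000) := T_17 (nat_lit 95) (nat_lit 62) (nat_lit 6) (nat_lit 10) (nat_lit 7) L30513 (by decide +kernel)
theorem L30515 : W_17 (nat_lit 4) (nat_lit 0x40002000000010002c00300008000e0000000000000000000) (nat_lit 0x0) (nat_lit 0x400020004000000000000600300000000000000000000) := T_17 (nat_lit 161) (nat_lit 178) (nat_lit 5) (nat_lit 8) (nat_lit 7) L30495 (by decide +kernel)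
theorem L30516 : W_17 (nat_lit 5) (nat_lit 0x40002000000010002c00300008000c0000000000000000000) (nat_lit 0x0) (nat_lit 0x400020004000000000000600320001000000000000000) := T_17 (nat_lit 77) (nat_lit 60) (nat_lit 4) (nat_lit 10) (nat_lit 7) L30515 (by decide +kernel)
theorem L30517 : W_17 (nat_lit 6) (nat_lit 0x40002000000010002c00300000000c0000000000000000000) (nat_lit 0x0) (nat_lit 0x400020004000000000000e00320005000000000000000) := T_17 (nat_lit 95) (nat_lit 62) (nat_lit 6) (nat_lit 10) (nat_lit 7) L30516 (by decide +kernel)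
theorem L30518 : W_17 (nat_lit 7) (nat_lit 0x40002000000010002800300000000c0000000000000000000) (nat_lit 0x0) (nat_lit 0x400020004000140000000e00320005000000000000000) := T_17 (nat_lit 126) (nat_lit 128) (nat_lit 2) (nat_lit 7) (nat_lit 7) L30517 (by decide +kernel)
theorem L30519 : W_17 (nat_lit 2) (nat_lit 0x40022000e0005000280030000000000000000000000000000) (nat_lit 0x0) (nat_lit 0x40001000010000000000000000000000000000000000000000) := D_17 (nat_lit 180) (nat_lit 160) (nat_lit 198) (nat_lit 3) (nat_lit 7) (nat_lit 9) (nat_lit 7) (nat_lit 10) (nat_lit 7) (by decide +kernel)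
theorem L30520 : W_17 (nat_lit 3) (nat_lit 0x40022000a0005000280030000000000000000000000000000) (nat_lit 0x0) (nat_lit 0x40001800050000000000000000000000000000000000000000) := T_17 (nat_lit 162) (nat_lit 179) (nat_lit 5) (nat_lit 10) (nat_lit 6) L30519 (by decide +kernel)
theorem L30521 : W_17 (nat_lit 4) (nat_lit 0x40002000a0005000280030000000000000000000000000000) (nat_lit 0x0) (nat_lit 0x40003800150000000000000000000000000000000000000000) := T_17 (nat_lit 181) (nat_lit 164) (nat_lit 7) (nat_lit 10) (nat_lit 6) L30520 (by decide +kernel)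
theorem L30522 : W_17 (nat_lit 2) (nat_lit 0x40002000200010002c0030000e00000000000000000000000) (nat_lit 0x0) (nat_lit 0xc0001000000000000000000000000) := D_17 (nat_lit 114) (nat_lit 115) (nat_lit 96) (nat_lit 0) (nat_lit 13) (nat_lit 6) (nat_lit 3) (nat_lit 8) (nat_lit 5) (by decide +kernel)
theorem L30523 : W_17 (nat_lit 3) (nat_lit 0x40002000200010002c0030000c00000000000000000000000) (nat_lit 0x0) (nat_lit 0xc0001300000000000000000000000) := T_17 (nat_lit 93) (nat_lit 92) (nat_lit 3) (nat_lit 7) (nat_lit 5) L30522 (by decide +kernel)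
theorem L30524 : W_17 (nat_lit 4) (nat_lit 0x40002000200010002c0030000800000000000000000000000) (nat_lit 0x0) (nat_lit 0x40000000c0001700060001000080000000000) := Q_17 (nat_lit 94) (C_17 L30523 (C_17 L30497 N_17)) (by decide +kernel)
theorem L30525 : W_17 (nat_lit 2) (nat_lit 0x4000200020005000280030000e00000000000000000000000) (nat_lit 0x0) (nat_lit 0x40001000080000000000000000000) := D_17 (nat_lit 96) (nat_lit 79) (nat_lit 114) (nat_lit 6) (nat_lit 10) (nat_lit 8) (nat_lit 3) (nat_lit 8) (nat_lit 5) (by decide +kernel)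
theorem L30526 : W_17 (nat_lit 3) (nat_lit 0x4000200020005000280030000c00000000000000000000000) (nat_lit 0x0) (nat_lit 0x40001300080000000000000000000) := T_17 (nat_lit 93) (nat_lit 92) (nat_lit 3) (nat_lit 7) (nat_lit 5) L30525 (by decide +kernel)
theorem L30527 : W_17 (nat_lit 2) (nat_lit 0x4000200020001000280070000c00040000000000000000000) (nat_lit 0x0) (nat_lit 0x1300000000000000000000000) := D_17 (nat_lit 93) (nat_lit 92) (nat_lit 96) (nat_lit 3) (nat_lit 7) (nat_lit 5) (nat_lit 3) (nat_lit 8) (nat_lit 5) (by decide +kernel)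
theorem L30528 : W_17 (nat_lit 3) (nat_lit 0x4000200020001000280030000c00040000000000000000000) (nat_lit 0x0) (nat_lit 0xc0001300000000000000000000000) := T_17 (nat_lit 114) (nat_lit 115) (nat_lit 0) (nat_lit 13) (nat_lit 6) L30527 (by decide +kernel)
theorem L30529 : W_17 (nat_lit 2) (nat_lit 0x4000200020001000280030000c001c0000000000000000000) (nat_lit 0x0) (nat_lit 0x1200020000000000000000000) := D_17 (nat_lit 93) (nat_lit 77) (nat_lit 96) (nat_lit 1) (nat_lit 12) (nat_lit 4) (nat_lit 2) (nat_lit 8) (nat_lit 5) (by decide +kernel)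
theorem L30530 : W_17 (nat_lit 3) (nat_lit 0x4000200020001000280030000c000c0000000000000000000) (nat_lit 0x0) (nat_lit 0x1200320000000000000000000) := T_17 (nat_lit 80) (nat_lit 81) (nat_lit 1) (nat_lit 13) (nat_lit 4) L30529 (by decide +kernel)
theorem L30531 : W_17 (nat_lit 4) (nat_lit 0x4000200020001000280030000c00040000000000000000000) (nat_lit 0x0) (nat_lit 0x12003a0004000000000000000) := T_17 (nat_lit 79) (nat_lit 62) (nat_lit 6) (nat_lit 10) (nat_lit 7) L30530 (by decide +kernel)
theorem L30532 : W_17 (nat_lit 2) (nat_lit 0x40002000200010002800b0002c001f8000000000000000000) (nat_lit 0x0) (nat_lit 0xe00000000000000) := D_17 (nat_lit 58) (nat_lit 59) (nat_lit 57) (nat_lit 0) (nat_lit 11) (nat_lit 4) (nat_lit 0) (nat_lit 10) (nat_lit 4) (by decide +kernel)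
theorem L30533 : W_17 (nat_lit 3) (nat_lit 0x40002000200010002800b0002c001f0000000000000000000) (nat_lit 0x0) (nat_lit 0xc000e00000000000000) := T_17 (nat_lit 75) (nat_lit 74) (nat_lit 3) (nat_lit 6) (nat_lit 4) L30532 (by decide +kernel)
theorem L30534 : W_17 (nat_lit 4) (nat_lit 0x40002000200010002800b0002c001e0000000000000000000) (nat_lit 0x0) (nat_lit 0x100001c000e00000000000000) := T_17 (nat_lit 76) (nat_lit 96) (nat_lit 3) (nat_lit 8) (nat_lit 4) L30533 (by decide +kernel)
theorem L30535 : W_17 (nat_lit 5) (nat_lit 0x40002000200010002800b0000c001e0000000000000000000) (nat_lit 0x0) (nat_lit 0x700001c000e00000000000000) := T_17 (nat_lit 97) (nat_lit 98) (nat_lit 3) (nat_lit 9) (nat_lit 4) L30534 (by decide +kernel)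
theorem L30536 : W_17 (nat_lit 6) (nat_lit 0x40002000200010002800b0000c001c0000000000000000000) (nat_lit 0x0) (nat_lit 0x700003c001e00000000000000) := T_17 (nat_lit 77) (nat_lit 60) (nat_lit 4) (nat_lit 10) (nat_lit 7) L30535 (by decide +kernel)
theorem L30537 : W_17 (nat_lit 7) (nat_lit 0x40002000200010002800b0000c000c0000000000000000000) (nat_lit 0x0) (nat_lit 0x700033c001e00000000000000) := T_17 (nat_lit 80) (nat_lit 81) (nat_lit 1) (nat_lit 13) (nat_lit 4) L30536 (by decide +kernel)
theorem L30538 : W_17 (nat_lit 8) (nat_lit 0x40002000200010002800b0000c00040000000000000000000) (nat_lit 0x0) (nat_lit 0x70003bc005e00000000000000) := T_17 (nat_lit 79) (nat_lit 62) (nat_lit 6) (nat_lit 10) (nat_lit 7) L30537 (by decide +kernel)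
theorem L30539 : W_17 (nat_lit 9) (nat_lit 0x4000200020001000280030000c00040000000000000000000) (nat_lit 0x0) (nat_lit 0xc00070003bc005e00000000000000) := T_17 (nat_lit 115) (nat_lit 114) (nat_lit 0) (nat_lit 13) (nat_lit 6) L30538 (by decide +kernel)
theorem L30540 : W_17 (nat_lit 10) (nat_lit 0x4000200020001000280030000800040000000000000000000) (nat_lit 0x0) (nat_lit 0x1400c00077003bc005e00000000000000) := Q_17 (nat_lit 94) (C_17 L30531 (C_17 L30528 (C_17 L30494 (C_17 L30539 N_17)))) (by decide +kernel)
theorem L30541 : W_17 (nat_lit 2) (nat_lit 0x40002000200010002800300018000e0000000000000000000) (nat_lit 0x0) (nat_lit 0x2000018000000000000000000) := D_17 (nat_lit 76) (nat_lit 97) (nat_lit 75) (nat_lit 3) (nat_lit 8) (nat_lit 4) (nat_lit 3) (nat_lit 7) (nat_lit 4) (by decide +kernel)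
theorem L30542 : W_17 (nat_lit 3) (nat_lit 0x40002000200010002800300018000c0000000000000000000) (nat_lit 0x0) (nat_lit 0x2000038001000000000000000) := T_17 (nat_lit 77) (nat_lit 60) (nat_lit 4) (nat_lit 10) (nat_lit 7) L30541 (by decide +kernel)
theorem L30543 : W_17 (nat_lit 4) (nat_lit 0x40002000200010002800300008000c0000000000000000000) (nat_lit 0x0) (nat_lit 0x4000000000003000038001000000000000000) := T_17 (nat_lit 96) (nat_lit 146) (nat_lit 6) (nat_lit 10) (nat_lit 8) L30542 (by decide +kernel)
theorem L30544 : W_17 (nat_lit 5) (nat_lit 0x4000200020001000280030000800040000000000000000000) (nat_lit 0x0) (nat_lit 0x40000000000030000b8005000000000000000) := T_17 (nat_lit 79) (nat_lit 62) (nat_lit 6) (nat_lit 10) (nat_lit 7) L30543 (by decide +kernel)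
theorem L30545 : W_17 (nat_lit 5) (nat_lit 0x4000200020001000280030000800000000000000000000000) (nat_lit 0x0) (nat_lit 0x40001400c0001700060001000080000000000) := T_17 (nat_lit 126) (nat_lit 128) (nat_lit 2) (nat_lit 7) (nat_lit 7) L30524 (by decide +kernel)
theorem L30546 : W_17 (nat_lit 2) (nat_lit 0x400020000000d000780010000000000000000000000000000) (nat_lit 0x0) (nat_lit 0x100000000000000000800040000000000000000000) := D_17 (nat_lit 95) (nat_lit 78) (nat_lit 164) (nat_lit 7) (nat_lit 10) (nat_lit 4) (nat_lit 7) (nat_lit 10) (nat_lit 5) (by decide +kernel)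
theorem L30547 : W_17 (nat_lit 3) (nat_lit 0x4000200000009000780010000000000000000000000000000) (nat_lit 0x0) (nat_lit 0x100004000040000000800040000000000000000000) := T_17 (nat_lit 146) (nat_lit 126) (nat_lit 3) (nat_lit 7) (nat_lit 7) L30546 (by decide +kernel)
theorem L30548 : W_17 (nat_lit 4) (nat_lit 0x4000200000009000380010000000000000000000000000000) (nat_lit 0x0) (nat_lit 0x100014000440000000800040000000000000000000) := T_17 (nat_lit 130) (nat_lit 148) (nat_lit 3) (nat_lit 8) (nat_lit 7) L30547 (by decide +kernel)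
theorem L30549 : W_17 (nat_lit 7) (nat_lit 0x400020000000d000380010000000000000000000000000000) (nat_lit 0x0) (nat_lit 0x400120030000000000001c000e0005000000000000000) := T_17 (nat_lit 161) (nat_lit 178) (nat_lit 5) (nat_lit 8) (nat_lit 7) L29939 (by decide +kernel)
theorem L30550 : W_17 (nat_lit 2) (nat_lit 0x400020000000d000380010000800040000000000000000000) (nat_lit 0x0) (nat_lit 0x1000080004000000000000000) := D_17 (nat_lit 79) (nat_lit 62) (nat_lit 96) (nat_lit 6) (nat_lit 10) (nat_lit 7) (nat_lit 6) (nat_lit 10) (nat_lit 8) (by decide +kernel)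
theorem L30551 : W_17 (nat_lit 3) (nat_lit 0x400020000000d000380010000800000000000000000000000) (nat_lit 0x0) (nat_lit 0x4000000010000c0004000000000000000) := T_17 (nat_lit 78) (nat_lit 130) (nat_lit 7) (nat_lit 10) (nat_lit 4) L30550 (by decide +kernel)
theorem L30552 : W_17 (nat_lit 4) (nat_lit 0x400020000000d000380010000000000000000000000000000) (nat_lit 0x0) (nat_lit 0x1000000004000000018000c0004000000000000000) := T_17 (nat_lit 95) (nat_lit 164) (nat_lit 7) (nat_lit 10) (nat_lit 5) L30551 (by decide +kernel)
theorem L30553 : W_17 (nat_lit 8) (nat_lit 0x4000200000005000380010000000000000000000000000000) (nat_lit 0x0) (nat_lit 0x400120038000400000001c000e0005000000000000000) := Q_17 (nat_lit 147) (C_17 L30211 (C_17 L30549 (C_17 L30552 N_17))) (by decide +kernel)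
theorem L30554 : W_17 (nat_lit 2) (nat_lit 0x4001200080005000380010000000000000000000000000000) (nat_lit 0x0) (nat_lit 0x40002000100000000000000000000000000000000000000000) := D_17 (nat_lit 181) (nat_lit 164) (nat_lit 198) (nat_lit 7) (nat_lit 10) (nat_lit 6) (nat_lit 7) (nat_lit 10) (nat_lit 7) (by decide +kernel)
theorem L30555 : W_17 (nat_lit 2) (nat_lit 0x4001e00000005000380010000000000000000000000000000) (nat_lit 0x0) (nat_lit 0x1c0000000000000000000000000000000000000000) := D_17 (nat_lit 163) (nat_lit 164) (nat_lit 162) (nat_lit 2) (nat_lit 7) (nat_lit 10) (nat_lit 5) (nat_lit 10) (nat_lit 6) (by decide +kernel)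
theorem L30556 : W_17 (nat_lit 3) (nat_lit 0x4001600000005000380010000000000000000000000000000) (nat_lit 0x0) (nat_lit 0x20008001c0000000000000000000000000000000000000000) := T_17 (nat_lit 179) (nat_lit 193) (nat_lit 1) (nat_lit 10) (nat_lit 10) L30555 (by decide +kernel)
theorem L30557 : W_17 (nat_lit 4) (nat_lit 0x4001200000005000380010000000000000000000000000000) (nat_lit 0x0) (nat_lit 0x2000c001e0000000000000000000000000000000000000000) := T_17 (nat_lit 178) (nat_lit 161) (nat_lit 5) (nat_lit 8) (nat_lit 7) L30556 (by decide +kernel)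
theorem L30558 : W_17 (nat_lit 2) (nat_lit 0x4001200080005000380010000000000000000000000000000) (nat_lit 0x0) (nat_lit 0x10000800040000000000000000000000000000000000000000) := D_17 (nat_lit 179) (nat_lit 162) (nat_lit 196) (nat_lit 5) (nat_lit 10) (nat_lit 6) (nat_lit 5) (nat_lit 10) (nat_lit 7) (by decide +kernel)
theorem L30559 : W_17 (nat_lit 3) (nat_lit 0x4001200000005000380010000000000000000000000000000) (nat_lit 0x0) (nat_lit 0x500028001c0000000000000000000000000000000000000000) := Q_17 (nat_lit 163) (C_17 L30554 (C_17 L30558 N_17)) (by decide +kernel)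
theorem L30560 : W_17 (nat_lit 2) (nat_lit 0x2400fe00210005000380010000000000000000000000000000) (nat_lit 0x0) (nat_lit 0x380000000000000000000000000000000000000000000000000) := D_17 (nat_lit 200) (nat_lit 199) (nat_lit 201) (nat_lit 3) (nat_lit 9) (nat_lit 10) (nat_lit 3) (nat_lit 10) (nat_lit 10) (by decide +kernel)
theorem L30561 : W_17 (nat_lit 3) (nat_lit 0x24007e00210005000380010000000000000000000000000000) (nat_lit 0x0) (nat_lit 0x390008000000000000000000000000000000000000000000000) := T_17 (nat_lit 183) (nat_lit 196) (nat_lit 1) (nat_lit 13) (nat_lit 10) L30560 (by decide +kernel)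
theorem L30562 : W_17 (nat_lit 4) (nat_lit 0x24003e00210005000380010000000000000000000000000000) (nat_lit 0x0) (nat_lit 0x39000c000400000000000000000000000000000000000000000) := T_17 (nat_lit 182) (nat_lit 166) (nat_lit 2) (nat_lit 9) (nat_lit 10) L30561 (by decide +kernel)
theorem L30563 : W_17 (nat_lit 5) (nat_lit 0x24003e00010005000380010000000000000000000000000000) (nat_lit 0x0) (nat_lit 0x39000c000700000000000000000000000000000000000000000) := T_17 (nat_lit 165) (nat_lit 164) (nat_lit 2) (nat_lit 8) (nat_lit 10) L30562 (by decide +kernel)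
theorem L30564 : W_17 (nat_lit 6) (nat_lit 0x24001e00010005000380010000000000000000000000000000) (nat_lit 0x0) (nat_lit 0x39800e000700000000000000000000000000000000000000000) := T_17 (nat_lit 181) (nat_lit 195) (nat_lit 1) (nat_lit 11) (nat_lit 10) L30563 (by decide +kernel)
theorem L30565 : W_17 (nat_lit 7) (nat_lit 0x4001e00010005000380010000000000000000000000000000) (nat_lit 0x0) (nat_lit 0x3f800e000700000000000000000000000000000000000000000) := T_17 (nat_lit 197) (nat_lit 198) (nat_lit 3) (nat_lit 7) (nat_lit 10) L30564 (by decide +kernel)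
theorem L30566 : W_17 (nat_lit 8) (nat_lit 0x4001e00000005000380010000000000000000000000000000) (nat_lit 0x0) (nat_lit 0x3f800e000718000000000000000000000000000000000000000) := T_17 (nat_lit 160) (nat_lit 159) (nat_lit 0) (nat_lit 10) (nat_lit 10) L30565 (by decide +kernel)
theorem L30567 : W_17 (nat_lit 2) (nat_lit 0x4000200000041001f80110000000000000000000000000000) (nat_lit 0x0) (nat_lit 0x80002000200000000000000000000000000000) := D_17 (nat_lit 133) (nat_lit 151) (nat_lit 117) (nat_lit 3) (nat_lit 11) (nat_lit 7) (nat_lit 2) (nat_lit 11) (nat_lit 7) (by decide +kernel)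
theorem L30568 : W_17 (nat_lit 3) (nat_lit 0x4000200000041001f80010000000000000000000000000000) (nat_lit 0x0) (nat_lit 0x80002000380000000000000000000000000000) := T_17 (nat_lit 116) (nat_lit 115) (nat_lit 2) (nat_lit 10) (nat_lit 7) L30567 (by decide +kernel)
theorem L30569 : W_17 (nat_lit 4) (nat_lit 0x4000200000001001f80010000000000000000000000000000) (nat_lit 0x0) (nat_lit 0xe0002000380000000000000000000000000000) := T_17 (nat_lit 150) (nat_lit 149) (nat_lit 3) (nat_lit 10) (nat_lit 7) L30568 (by decide +kernel)
theorem L30570 : W_17 (nat_lit 2) (nat_lit 0x40002000000050007800d0000c00000000000000000000000) (nat_lit 0x0) (nat_lit 0x3000080000000000000000000) := D_17 (nat_lit 96) (nat_lit 79) (nat_lit 97) (nat_lit 6) (nat_lit 10) (nat_lit 8) (nat_lit 3) (nat_lit 9) (nat_lit 5) (by decide +kernel)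
theorem L30571 : W_17 (nat_lit 3) (nat_lit 0x4000200000005000780050000c00000000000000000000000) (nat_lit 0x0) (nat_lit 0x800080003000080000000000000000000) := T_17 (nat_lit 115) (nat_lit 131) (nat_lit 2) (nat_lit 9) (nat_lit 7) L30570 (by decide +kernel)
theorem L30572 : W_17 (nat_lit 4) (nat_lit 0x4000200000005000780050000800000000000000000000000) (nat_lit 0x0) (nat_lit 0x8000800034000a0000000000000000000) := T_17 (nat_lit 94) (nat_lit 77) (nat_lit 4) (nat_lit 10) (nat_lit 8) L30571 (by decide +kernel)
theorem L30573 : W_17 (nat_lit 2) (nat_lit 0x4000200000001000780050000800040005000000000000000) (nat_lit 0x0) (nat_lit 0x2000280000000000) := D_17 (nat_lit 61) (nat_lit 43) (nat_lit 45) (nat_lit 4) (nat_lit 10) (nat_lit 6) (nat_lit 6) (nat_lit 10) (nat_lit 6) (by decide +kernel)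
theorem L30574 : W_17 (nat_lit 3) (nat_lit 0x4000200000001000780050000800040001000000000000000) (nat_lit 0x0) (nat_lit 0x80006000280000000000) := T_17 (nat_lit 62) (nat_lit 79) (nat_lit 6) (nat_lit 10) (nat_lit 7) L30573 (by decide +kernel)
theorem L30575 : W_17 (nat_lit 4) (nat_lit 0x4000200000001000780050000800040000000000000000000) (nat_lit 0x0) (nat_lit 0xa0007000280000000000) := T_17 (nat_lit 60) (nat_lit 77) (nat_lit 4) (nat_lit 10) (nat_lit 7) L30574 (by decide +kernel)
theorem L30576 : W_17 (nat_lit 2) (nat_lit 0x400020000000d0002c0010000800040000000000000000000) (nat_lit 0x0) (nat_lit 0x1000080004000000000000000) := D_17 (nat_lit 79) (nat_lit 62) (nat_lit 96) (nat_lit 6) (nat_lit 10) (nat_lit 7) (nat_lit 6) (nat_lit 10) (nat_lit 8) (by decide +kernel)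
theorem L30577 : W_17 (nat_lit 3) (nat_lit 0x400020000000d0002c0010000800000000000000000000000) (nat_lit 0x0) (nat_lit 0x4000000010000c0004000000000000000) := T_17 (nat_lit 78) (nat_lit 130) (nat_lit 7) (nat_lit 10) (nat_lit 4) L30576 (by decide +kernel)
theorem L30578 : W_17 (nat_lit 4) (nat_lit 0x400020000000d0002c0010000000000000000000000000000) (nat_lit 0x0) (nat_lit 0x1000000004000000018000c0004000000000000000) := T_17 (nat_lit 95) (nat_lit 164) (nat_lit 7) (nat_lit 10) (nat_lit 5) L30577 (by decide +kernel)
theorem L30579 : W_17 (nat_lit 2) (nat_lit 0x400020002000d0002c00100008000a0000000000000000000) (nat_lit 0x0) (nat_lit 0x40005000000000000000) := D_17 (nat_lit 78) (nat_lit 62) (nat_lit 60) (nat_lit 6) (nat_lit 10) (nat_lit 7) (nat_lit 4) (nat_lit 10) (nat_lit 7) (by decide +kernel)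
theorem L30580 : W_17 (nat_lit 3) (nat_lit 0x400020002000d0002c0010000800080000000000000000000) (nat_lit 0x0) (nat_lit 0x400060005000000000000000) := T_17 (nat_lit 77) (nat_lit 94) (nat_lit 4) (nat_lit 10) (nat_lit 8) L30579 (by decide +kernel)
theorem L30581 : W_17 (nat_lit 4) (nat_lit 0x400020002000d0002c0010000800000000000000000000000) (nat_lit 0x0) (nat_lit 0x14000e0005000000000000000) := T_17 (nat_lit 79) (nat_lit 96) (nat_lit 6) (nat_lit 10) (nat_lit 8) L30580 (by decide +kernel)
theorem L30582 : W_17 (nat_lit 2) (nat_lit 0x40002000200010006800100008000e0000000000000000000) (nat_lit 0x0) (nat_lit 0x4000000000001400000000000000000000000) := D_17 (nat_lit 146) (nat_lit 96) (nat_lit 94) (nat_lit 6) (nat_lit 10) (nat_lit 8) (nat_lit 4) (nat_lit 10) (nat_lit 8) (by decide +kernel)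
theorem L30583 : W_17 (nat_lit 3) (nat_lit 0x40002000200010006800100008000c0000000000000000000) (nat_lit 0x0) (nat_lit 0x4000000000001400020001000000000000000) := T_17 (nat_lit 77) (nat_lit 60) (nat_lit 4) (nat_lit 10) (nat_lit 7) L30582 (by decide +kernel)
theorem L30584 : W_17 (nat_lit 4) (nat_lit 0x4000200020001000680010000800040000000000000000000) (nat_lit 0x0) (nat_lit 0x40000000000014000a0005000000000000000) := T_17 (nat_lit 79) (nat_lit 62) (nat_lit 6) (nat_lit 10) (nat_lit 7) L30583 (by decide +kernel)
theorem L30585 : W_17 (nat_lit 5) (nat_lit 0x4000200020001000280010000800040000000000000000000) (nat_lit 0x0) (nat_lit 0xc0004000000014000a0005000000000000000) := T_17 (nat_lit 130) (nat_lit 147) (nat_lit 7) (nat_lit 10) (nat_lit 4) L30584 (by decide +kernel)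
theorem L30586 : W_17 (nat_lit 6) (nat_lit 0x4000200000001000280010000800040000000000000000000) (nat_lit 0x0) (nat_lit 0x40002000c0004000000014000a0005000000000000000) := T_17 (nat_lit 161) (nat_lit 178) (nat_lit 5) (nat_lit 8) (nat_lit 7) L30585 (by decide +kernel)
theorem L30587 : W_17 (nat_lit 2) (nat_lit 0x40002000000050006800100008000c0000000000000000000) (nat_lit 0x0) (nat_lit 0x400020001000000000000000) := D_17 (nat_lit 77) (nat_lit 94) (nat_lit 60) (nat_lit 4) (nat_lit 10) (nat_lit 8) (nat_lit 4) (nat_lit 10) (nat_lit 7) (by decide +kernel)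
theorem L30588 : W_17 (nat_lit 3) (nat_lit 0x40002000000010006800100008000c0000000000000000000) (nat_lit 0x0) (nat_lit 0x4000000000001400020001000000000000000) := T_17 (nat_lit 146) (nat_lit 96) (nat_lit 6) (nat_lit 10) (nat_lit 8) L30587 (by decide +kernel)
theorem L30589 : W_17 (nat_lit 4) (nat_lit 0x40002000000010002800100008000c0000000000000000000) (nat_lit 0x0) (nat_lit 0xc000400000001400020001000000000000000) := T_17 (nat_lit 130) (nat_lit 147) (nat_lit 7) (nat_lit 10) (nat_lit 4) L30588 (by decide +kernel)
theorem L30590 : W_17 (nat_lit 5) (nat_lit 0x4000200000001000280010000800040000000000000000000) (nat_lit 0x0) (nat_lit 0xc0004000000014000a0005000000000000000) := T_17 (nat_lit 79) (nat_lit 62) (nat_lit 6) (nat_lit 10) (nat_lit 7) L30589 (by decide +kernel)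
theorem L30591 : W_17 (nat_lit 2) (nat_lit 0x4000200020005000280010000800060000000000000000000) (nat_lit 0x0) (nat_lit 0x1000080004000000000000000) := D_17 (nat_lit 79) (nat_lit 62) (nat_lit 96) (nat_lit 6) (nat_lit 10) (nat_lit 7) (nat_lit 6) (nat_lit 10) (nat_lit 8) (by decide +kernel)
theorem L30592 : W_17 (nat_lit 3) (nat_lit 0x4000200020001000280010000800060000000000000000000) (nat_lit 0x0) (nat_lit 0x4000000000001400080004000000000000000) := T_17 (nat_lit 146) (nat_lit 94) (nat_lit 4) (nat_lit 10) (nat_lit 8) L30591 (by decide +kernel)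
theorem L30593 : W_17 (nat_lit 4) (nat_lit 0x4000200000001000280010000800060000000000000000000) (nat_lit 0x0) (nat_lit 0x400020004000000000001400080004000000000000000) := T_17 (nat_lit 161) (nat_lit 178) (nat_lit 5) (nat_lit 8) (nat_lit 7) L30592 (by decide +kernel)
theorem L30594 : W_17 (nat_lit 5) (nat_lit 0x4000200000001000280010000800040000000000000000000) (nat_lit 0x0) (nat_lit 0x4000200040000000000014000a0005000000000000000) := T_17 (nat_lit 77) (nat_lit 60) (nat_lit 4) (nat_lit 10) (nat_lit 7) L30593 (by decide +kernel)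
theorem L30595 : W_17 (nat_lit 2) (nat_lit 0x4000200000001000680010000800040006000000000000000) (nat_lit 0x0) (nat_lit 0x20001000080000000000) := D_17 (nat_lit 60) (nat_lit 43) (nat_lit 77) (nat_lit 4) (nat_lit 10) (nat_lit 6) (nat_lit 4) (nat_lit 10) (nat_lit 7) (by decide +kernel)
theorem L30596 : W_17 (nat_lit 3) (nat_lit 0x4000200000001000680010000800040004000000000000000) (nat_lit 0x0) (nat_lit 0x20003000280000000000) := T_17 (nat_lit 61) (nat_lit 45) (nat_lit 6) (nat_lit 10) (nat_lit 6) L30595 (by decide +kernel)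
theorem L30597 : W_17 (nat_lit 4) (nat_lit 0x4000200000001000280010000800040004000000000000000) (nat_lit 0x0) (nat_lit 0x8000400000000000020003000280000000000) := T_17 (nat_lit 130) (nat_lit 147) (nat_lit 7) (nat_lit 10) (nat_lit 4) L30596 (by decide +kernel)
theorem L30598 : W_17 (nat_lit 5) (nat_lit 0x4000200000001000280010000800040000000000000000000) (nat_lit 0x0) (nat_lit 0x80004000000000000a0007000280000000000) := T_17 (nat_lit 62) (nat_lit 79) (nat_lit 6) (nat_lit 10) (nat_lit 7) L30597 (by decide +kernel)
theorem L30599 : W_17 (nat_lit 2) (nat_lit 0x4000200020009000280010000800060000000000000000000) (nat_lit 0x0) (nat_lit 0x100004000000000000400000000000000000000000) := D_17 (nat_lit 146) (nat_lit 164) (nat_lit 94) (nat_lit 7) (nat_lit 10) (nat_lit 5) (nat_lit 4) (nat_lit 10) (nat_lit 8) (by decide +kernel)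
theorem L30600 : W_17 (nat_lit 3) (nat_lit 0x4000200020009000280010000800040000000000000000000) (nat_lit 0x0) (nat_lit 0x100004000000000000400020001000000000000000) := T_17 (nat_lit 77) (nat_lit 60) (nat_lit 4) (nat_lit 10) (nat_lit 7) L30599 (by decide +kernel)
theorem L30601 : W_17 (nat_lit 4) (nat_lit 0x4000200020001000280010000800040000000000000000000) (nat_lit 0x0) (nat_lit 0x10000c000400000000400020001000000000000000) := T_17 (nat_lit 147) (nat_lit 130) (nat_lit 7) (nat_lit 10) (nat_lit 4) L30600 (by decide +kernel)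
theorem L30602 : W_17 (nat_lit 5) (nat_lit 0x4000200000001000280010000800040000000000000000000) (nat_lit 0x0) (nat_lit 0x40012000c000400000000400020001000000000000000) := T_17 (nat_lit 161) (nat_lit 178) (nat_lit 5) (nat_lit 8) (nat_lit 7) L30601 (by decide +kernel)
theorem L30603 : W_17 (nat_lit 2) (nat_lit 0x400020002000d000280010000800040000000000000000000) (nat_lit 0x0) (nat_lit 0x1000080004000000000000000) := D_17 (nat_lit 79) (nat_lit 96) (nat_lit 62) (nat_lit 6) (nat_lit 10) (nat_lit 8) (nat_lit 6) (nat_lit 10) (nat_lit 7) (by decide +kernel)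
theorem L30604 : W_17 (nat_lit 3) (nat_lit 0x4000200020009000280010000800040000000000000000000) (nat_lit 0x0) (nat_lit 0x100004000000000001000080004000000000000000) := T_17 (nat_lit 146) (nat_lit 164) (nat_lit 7) (nat_lit 10) (nat_lit 5) L30603 (by decide +kernel)
theorem L30605 : W_17 (nat_lit 4) (nat_lit 0x4000200000009000280010000800040000000000000000000) (nat_lit 0x0) (nat_lit 0x400120004000000000001000080004000000000000000) := T_17 (nat_lit 161) (nat_lit 178) (nat_lit 5) (nat_lit 8) (nat_lit 7) L30604 (by decide +kernel)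
theorem L30606 : W_17 (nat_lit 5) (nat_lit 0x4000200000001000280010000800040000000000000000000) (nat_lit 0x0) (nat_lit 0x40012000c000400000001000080004000000000000000) := T_17 (nat_lit 147) (nat_lit 130) (nat_lit 7) (nat_lit 10) (nat_lit 4) L30605 (by decide +kernel)
theorem L30607 : W_17 (nat_lit 7) (nat_lit 0x4000200000001000280010000800000000000000000000000) (nat_lit 0x0) (nat_lit 0x40012000c0004000000014000e0007000280000000000) := Q_17 (nat_lit 78) (C_17 L30586 (C_17 L30590 (C_17 L30594 (C_17 L30598 (C_17 L30602 (C_17 L30606 N_17)))))) (by decide +kernel)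
theorem L30608 : W_17 (nat_lit 5) (nat_lit 0x400020002000d000280010000800000000000000000000000) (nat_lit 0x0) (nat_lit 0x1400000014000e0005000000000000000) := T_17 (nat_lit 126) (nat_lit 128) (nat_lit 3) (nat_lit 7) (nat_lit 7) L30581 (by decide +kernel)
theorem L30609 : W_17 (nat_lit 6) (nat_lit 0x4000200020005000280010000800000000000000000000000) (nat_lit 0x0) (nat_lit 0x1000080001400000014000e0005000000000000000) := T_17 (nat_lit 147) (nat_lit 164) (nat_lit 7) (nat_lit 10) (nat_lit 5) L30608 (by decide +kernel)
theorem L30610 : W_17 (nat_lit 7) (nat_lit 0x4000200000005000280010000800000000000000000000000) (nat_lit 0x0) (nat_lit 0x4001200080001400000014000e0005000000000000000) := T_17 (nat_lit 161) (nat_lit 178) (nat_lit 5) (nat_lit 8) (nat_lit 7) L30609 (by decide +kernel)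
theorem L30611 : W_17 (nat_lit 2) (nat_lit 0x400020000000d0002c0030001c00000000000000000000000) (nat_lit 0x0) (nat_lit 0x40000300000000000000000000000) := D_17 (nat_lit 93) (nat_lit 114) (nat_lit 92) (nat_lit 3) (nat_lit 8) (nat_lit 5) (nat_lit 3) (nat_lit 7) (nat_lit 5) (by decide +kernel)
theorem L30612 : W_17 (nat_lit 3) (nat_lit 0x400020000000d0002c0030001800000000000000000000000) (nat_lit 0x0) (nat_lit 0x40000700020000000000000000000) := T_17 (nat_lit 94) (nat_lit 77) (nat_lit 4) (nat_lit 10) (nat_lit 8) L30611 (by decide +kernel)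
theorem L30613 : W_17 (nat_lit 4) (nat_lit 0x400020000000d0002c0010001800000000000000000000000) (nat_lit 0x0) (nat_lit 0x80000000000060000700020000000000000000000) := T_17 (nat_lit 113) (nat_lit 163) (nat_lit 6) (nat_lit 10) (nat_lit 9) L30612 (by decide +kernel)
theorem L30614 : W_17 (nat_lit 5) (nat_lit 0x400020000000d000280010001800000000000000000000000) (nat_lit 0x0) (nat_lit 0x80000000140060000700020000000000000000000) := T_17 (nat_lit 126) (nat_lit 128) (nat_lit 3) (nat_lit 7) (nat_lit 7) L30613 (by decide +kernel)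
theorem L30615 : W_17 (nat_lit 6) (nat_lit 0x4000200000005000280010001800000000000000000000000) (nat_lit 0x0) (nat_lit 0x180008000140060000700020000000000000000000) := T_17 (nat_lit 147) (nat_lit 164) (nat_lit 7) (nat_lit 10) (nat_lit 5) L30614 (by decide +kernel)
theorem L30616 : W_17 (nat_lit 7) (nat_lit 0x4000200000005000280010000800000000000000000000000) (nat_lit 0x0) (nat_lit 0x1800080001400600017000a0000000000000000000) := T_17 (nat_lit 96) (nat_lit 79) (nat_lit 6) (nat_lit 10) (nat_lit 8) L30615 (by decide +kernel)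
theorem L30617 : W_17 (nat_lit 2) (nat_lit 0x40002000a000d000280010001c00000000000000000000000) (nat_lit 0x0) (nat_lit 0x800050000000000000000000000000000000000000000) := D_17 (nat_lit 162) (nat_lit 179) (nat_lit 160) (nat_lit 5) (nat_lit 10) (nat_lit 6) (nat_lit 2) (nat_lit 7) (nat_lit 9) (by decide +kernel)
theorem L30618 : W_17 (nat_lit 3) (nat_lit 0x400020002000d000280010001c00000000000000000000000) (nat_lit 0x0) (nat_lit 0x8000d0000000000020000000000000000000000000000) := T_17 (nat_lit 163) (nat_lit 113) (nat_lit 6) (nat_lit 10) (nat_lit 9) L30617 (by decide +kernel)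
theorem L30619 : W_17 (nat_lit 4) (nat_lit 0x400020002000d000280010000c00000000000000000000000) (nat_lit 0x0) (nat_lit 0x8000d0000000000020001000080000000000000000000) := T_17 (nat_lit 96) (nat_lit 79) (nat_lit 6) (nat_lit 10) (nat_lit 8) L30618 (by decide +kernel)
theorem L30620 : W_17 (nat_lit 5) (nat_lit 0x4000200020005000280010000c00000000000000000000000) (nat_lit 0x0) (nat_lit 0x8001d0008000000020001000080000000000000000000) := T_17 (nat_lit 147) (nat_lit 164) (nat_lit 7) (nat_lit 10) (nat_lit 5) L30619 (by decide +kernel)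
theorem L30621 : W_17 (nat_lit 6) (nat_lit 0x4000200000005000280010000c00000000000000000000000) (nat_lit 0x0) (nat_lit 0xc001f0008000000020001000080000000000000000000) := T_17 (nat_lit 161) (nat_lit 178) (nat_lit 5) (nat_lit 8) (nat_lit 7) L30620 (by decide +kernel)
theorem L30622 : W_17 (nat_lit 7) (nat_lit 0x4000200000005000280010000800000000000000000000000) (nat_lit 0x0) (nat_lit 0xc001f00080000000200014000a0000000000000000000) := T_17 (nat_lit 94) (nat_lit 77) (nat_lit 4) (nat_lit 10) (nat_lit 8) L30621 (by decide +kernel)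
theorem L30623 : W_17 (nat_lit 2) (nat_lit 0x40022000e0005000280010001800000000000000000000000) (nat_lit 0x0) (nat_lit 0x40001000010000000000000000000000000000000000000000) := D_17 (nat_lit 180) (nat_lit 198) (nat_lit 160) (nat_lit 7) (nat_lit 10) (nat_lit 7) (nat_lit 3) (nat_lit 7) (nat_lit 9) (by decide +kernel)
theorem L30624 : W_17 (nat_lit 3) (nat_lit 0x40002000e0005000280010001800000000000000000000000) (nat_lit 0x0) (nat_lit 0x40003000110000000000000000000000000000000000000000) := T_17 (nat_lit 181) (nat_lit 164) (nat_lit 7) (nat_lit 10) (nat_lit 6) L30623 (by decide +kernel)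
theorem L30625 : W_17 (nat_lit 4) (nat_lit 0x40002000a0005000280010001800000000000000000000000) (nat_lit 0x0) (nat_lit 0x40003800150000000000000000000000000000000000000000) := T_17 (nat_lit 162) (nat_lit 179) (nat_lit 5) (nat_lit 10) (nat_lit 6) L30624 (by decide +kernel)
theorem L30626 : W_17 (nat_lit 5) (nat_lit 0x4000200020005000280010001800000000000000000000000) (nat_lit 0x0) (nat_lit 0x400038001d0000000000020000000000000000000000000000) := T_17 (nat_lit 163) (nat_lit 113) (nat_lit 6) (nat_lit 10) (nat_lit 9) L30625 (by decide +kernel)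
theorem L30627 : W_17 (nat_lit 6) (nat_lit 0x4000200000005000280010001800000000000000000000000) (nat_lit 0x0) (nat_lit 0x40003c001f0000000000020000000000000000000000000000) := T_17 (nat_lit 161) (nat_lit 178) (nat_lit 5) (nat_lit 8) (nat_lit 7) L30626 (by decide +kernel)
theorem L30628 : W_17 (nat_lit 7) (nat_lit 0x4000200000005000280010000800000000000000000000000) (nat_lit 0x0) (nat_lit 0x40003c001f0000000000020001000080000000000000000000) := T_17 (nat_lit 96) (nat_lit 79) (nat_lit 6) (nat_lit 10) (nat_lit 8) L30627 (by decide +kernel)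
theorem L30629 : W_17 (nat_lit 2) (nat_lit 0x4000600180005000280010000c00000000000000000000000) (nat_lit 0x0) (nat_lit 0x1800040000000000000000000000000000000000000000) := D_17 (nat_lit 179) (nat_lit 180) (nat_lit 162) (nat_lit 2) (nat_lit 7) (nat_lit 10) (nat_lit 5) (nat_lit 10) (nat_lit 6) (by decide +kernel)
theorem L30630 : W_17 (nat_lit 3) (nat_lit 0x4000600100005000280010000c00000000000000000000000) (nat_lit 0x0) (nat_lit 0x38000c0000000000000000000000000000000000000000) := T_17 (nat_lit 163) (nat_lit 181) (nat_lit 7) (nat_lit 10) (nat_lit 6) L30629 (by decide +kernel)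
theorem L30631 : W_17 (nat_lit 4) (nat_lit 0x4000600000005000280010000c00000000000000000000000) (nat_lit 0x0) (nat_lit 0x38001c0008000000000000000000000000000000000000) := T_17 (nat_lit 164) (nat_lit 147) (nat_lit 7) (nat_lit 10) (nat_lit 5) L30630 (by decide +kernel)
theorem L30632 : W_17 (nat_lit 5) (nat_lit 0x4000200000005000280010000c00000000000000000000000) (nat_lit 0x0) (nat_lit 0x3c001e0008000000000000000000000000000000000000) := T_17 (nat_lit 178) (nat_lit 161) (nat_lit 5) (nat_lit 8) (nat_lit 7) L30631 (by decide +kernel)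
theorem L30633 : W_17 (nat_lit 6) (nat_lit 0x4000200000005000280010000800000000000000000000000) (nat_lit 0x0) (nat_lit 0x3c001e0008000000000000400020000000000000000000) := T_17 (nat_lit 94) (nat_lit 77) (nat_lit 4) (nat_lit 10) (nat_lit 8) L30632 (by decide +kernel)
theorem L30634 : W_17 (nat_lit 2) (nat_lit 0x4000e00080005000280010001c00000000000000000000000) (nat_lit 0x0) (nat_lit 0x12001000000000000000000000000000000000000000000000) := D_17 (nat_lit 180) (nat_lit 196) (nat_lit 193) (nat_lit 5) (nat_lit 10) (nat_lit 7) (nat_lit 1) (nat_lit 10) (nat_lit 10) (by decide +kernel)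
theorem L30635 : W_17 (nat_lit 3) (nat_lit 0x4000a00080005000280010001c00000000000000000000000) (nat_lit 0x0) (nat_lit 0x12001400020000000000000000000000000000000000000000) := T_17 (nat_lit 178) (nat_lit 161) (nat_lit 5) (nat_lit 8) (nat_lit 7) L30634 (by decide +kernel)
theorem L30636 : W_17 (nat_lit 4) (nat_lit 0x4000200080005000280010001c00000000000000000000000) (nat_lit 0x0) (nat_lit 0x12001c00060000000000000000000000000000000000000000) := T_17 (nat_lit 179) (nat_lit 162) (nat_lit 5) (nat_lit 10) (nat_lit 6) L30635 (by decide +kernel)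
theorem L30637 : W_17 (nat_lit 5) (nat_lit 0x4000200000005000280010001c00000000000000000000000) (nat_lit 0x0) (nat_lit 0x12001c000e0000000000020000000000000000000000000000) := T_17 (nat_lit 163) (nat_lit 113) (nat_lit 6) (nat_lit 10) (nat_lit 9) L30636 (by decide +kernel)
theorem L30638 : W_17 (nat_lit 6) (nat_lit 0x4000200000005000280010001800000000000000000000000) (nat_lit 0x0) (nat_lit 0x12001c000e0000000000020000400020000000000000000000) := T_17 (nat_lit 94) (nat_lit 77) (nat_lit 4) (nat_lit 10) (nat_lit 8) L30637 (by decide +kernel)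
theorem L30639 : W_17 (nat_lit 7) (nat_lit 0x4000200000005000280010000800000000000000000000000) (nat_lit 0x0) (nat_lit 0x12001c000e00000000000200014000a0000000000000000000) := T_17 (nat_lit 96) (nat_lit 79) (nat_lit 6) (nat_lit 10) (nat_lit 8) L30638 (by decide +kernel)
theorem L30640 : W_17 (nat_lit 8) (nat_lit 0x4000200000001000280010000800000000000000000000000) (nat_lit 0x0) (nat_lit 0x52003c001f000c0001400600017000e0005000000000000000) := Q_17 (nat_lit 146) (C_17 L30610 (C_17 L30616 (C_17 L30622 (C_17 L30628 (C_17 L30633 (C_17 L30639 N_17)))))) (by decide +kernel)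
theorem L30641 : W_17 (nat_lit 2) (nat_lit 0x40002000000010002800100008000e0000000000000000000) (nat_lit 0x0) (nat_lit 0x4000000000001400000000000000000000000) := D_17 (nat_lit 146) (nat_lit 94) (nat_lit 96) (nat_lit 4) (nat_lit 10) (nat_lit 8) (nat_lit 6) (nat_lit 10) (nat_lit 8) (by decide +kernel)
theorem L30642 : W_17 (nat_lit 3) (nat_lit 0x4000200000001000280010000800060000000000000000000) (nat_lit 0x0) (nat_lit 0x4000000000001400080004000000000000000) := T_17 (nat_lit 79) (nat_lit 62) (nat_lit 6) (nat_lit 10) (nat_lit 7) L30641 (by decide +kernel)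
theorem L30643 : W_17 (nat_lit 4) (nat_lit 0x4000200000001000280010000800040000000000000000000) (nat_lit 0x0) (nat_lit 0x40000000000014000a0005000000000000000) := T_17 (nat_lit 77) (nat_lit 60) (nat_lit 4) (nat_lit 10) (nat_lit 7) L30642 (by decide +kernel)
theorem L30644 : W_17 (nat_lit 2) (nat_lit 0x4000200000001000680010000c00060002000200000000000) (nat_lit 0x0) (nat_lit 0x100018000000) := D_17 (nat_lit 44) (nat_lit 28) (nat_lit 27) (nat_lit 6) (nat_lit 10) (nat_lit 5) (nat_lit 5) (nat_lit 10) (nat_lit 1) (by decide +kernel)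
theorem L30645 : W_17 (nat_lit 3) (nat_lit 0x4000200000001000680010000800060002000200000000000) (nat_lit 0x0) (nat_lit 0x4000000000000400000000000100018000000) := T_17 (nat_lit 94) (nat_lit 146) (nat_lit 4) (nat_lit 10) (nat_lit 8) L30644 (by decide +kernel)
theorem L30646 : W_17 (nat_lit 4) (nat_lit 0x4000200000001000680010000800060002000000000000000) (nat_lit 0x0) (nat_lit 0x4000000000000400000004000300018000000) := T_17 (nat_lit 45) (nat_lit 62) (nat_lit 6) (nat_lit 10) (nat_lit 6) L30645 (by decide +kernel)
theorem L30647 : W_17 (nat_lit 5) (nat_lit 0x4000200000001000680010000800060000000000000000000) (nat_lit 0x0) (nat_lit 0x4000000020000400000006000300018000000) := T_17 (nat_lit 61) (nat_lit 113) (nat_lit 7) (nat_lit 10) (nat_lit 3) L30646 (by decide +kernel)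
theorem L30648 : W_17 (nat_lit 6) (nat_lit 0x4000200000001000280010000800060000000000000000000) (nat_lit 0x0) (nat_lit 0xc000400020000400000006000300018000000) := T_17 (nat_lit 130) (nat_lit 147) (nat_lit 7) (nat_lit 10) (nat_lit 4) L30647 (by decide +kernel)
theorem L30649 : W_17 (nat_lit 7) (nat_lit 0x4000200000001000280010000800040000000000000000000) (nat_lit 0x0) (nat_lit 0xc000400020000400020007000300018000000) := T_17 (nat_lit 77) (nat_lit 60) (nat_lit 4) (nat_lit 10) (nat_lit 7) L30648 (by decide +kernel)
theorem L30650 : W_17 (nat_lit 2) (nat_lit 0x40002000000010006800100018000c0002000080000000000) (nat_lit 0x0) (nat_lit 0x10000c000000) := D_17 (nat_lit 44) (nat_lit 26) (nat_lit 27) (nat_lit 4) (nat_lit 10) (nat_lit 5) (nat_lit 7) (nat_lit 10) (nat_lit 1) (by decide +kernel)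
theorem L30651 : W_17 (nat_lit 3) (nat_lit 0x40002000000010006800100008000c0002000080000000000) (nat_lit 0x0) (nat_lit 0x400000000000100000000000010000c000000) := T_17 (nat_lit 96) (nat_lit 146) (nat_lit 6) (nat_lit 10) (nat_lit 8) L30650 (by decide +kernel)
theorem L30652 : W_17 (nat_lit 4) (nat_lit 0x40002000000010006800100008000c0002000000000000000) (nat_lit 0x0) (nat_lit 0x400000000000100000000100018000c000000) := T_17 (nat_lit 43) (nat_lit 60) (nat_lit 4) (nat_lit 10) (nat_lit 6) L30651 (by decide +kernel)
theorem L30653 : W_17 (nat_lit 5) (nat_lit 0x40002000000010006800100008000c0000000000000000000) (nat_lit 0x0) (nat_lit 0x400000002000100000000300018000c000000) := T_17 (nat_lit 61) (nat_lit 113) (nat_lit 7) (nat_lit 10) (nat_lit 3) L30652 (by decide +kernel)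
theorem L30654 : W_17 (nat_lit 6) (nat_lit 0x40002000000010002800100008000c0000000000000000000) (nat_lit 0x0) (nat_lit 0xc00040002000100000000300018000c000000) := T_17 (nat_lit 130) (nat_lit 147) (nat_lit 7) (nat_lit 10) (nat_lit 4) L30653 (by decide +kernel)
theorem L30655 : W_17 (nat_lit 7) (nat_lit 0x4000200000001000280010000800040000000000000000000) (nat_lit 0x0) (nat_lit 0xc00040002000100008000700018000c000000) := T_17 (nat_lit 79) (nat_lit 62) (nat_lit 6) (nat_lit 10) (nat_lit 7) L30654 (by decide +kernel)
theorem L30656 : W_17 (nat_lit 2) (nat_lit 0x4000200000001000680030000800060000000000000000000) (nat_lit 0x0) (nat_lit 0x140040000000000000000000000000000) := D_17 (nat_lit 128) (nat_lit 114) (nat_lit 126) (nat_lit 2) (nat_lit 8) (nat_lit 7) (nat_lit 2) (nat_lit 7) (nat_lit 7) (by decide +kernel)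
theorem L30657 : W_17 (nat_lit 3) (nat_lit 0x4000200000001000680010000800060000000000000000000) (nat_lit 0x0) (nat_lit 0x140060000000000002000000000000000) := T_17 (nat_lit 113) (nat_lit 61) (nat_lit 7) (nat_lit 10) (nat_lit 3) L30656 (by decide +kernel)
theorem L30658 : W_17 (nat_lit 4) (nat_lit 0x4000200000001000280010000800060000000000000000000) (nat_lit 0x0) (nat_lit 0x8000540060000000000002000000000000000) := T_17 (nat_lit 130) (nat_lit 147) (nat_lit 7) (nat_lit 10) (nat_lit 4) L30657 (by decide +kernel)
theorem L30659 : W_17 (nat_lit 5) (nat_lit 0x4000200000001000280010000800040000000000000000000) (nat_lit 0x0) (nat_lit 0x8000540060000000020003000000000000000) := T_17 (nat_lit 77) (nat_lit 60) (nat_lit 4) (nat_lit 10) (nat_lit 7) L30658 (by decide +kernel)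
theorem L30660 : W_17 (nat_lit 2) (nat_lit 0x40002000000010006800300008000c0000000000000000000) (nat_lit 0x0) (nat_lit 0x140040000000000000000000000000000) := D_17 (nat_lit 128) (nat_lit 126) (nat_lit 114) (nat_lit 2) (nat_lit 7) (nat_lit 7) (nat_lit 2) (nat_lit 8) (nat_lit 7) (by decide +kernel)
theorem L30661 : W_17 (nat_lit 3) (nat_lit 0x40002000000010006800100008000c0000000000000000000) (nat_lit 0x0) (nat_lit 0x140060000000000002000000000000000) := T_17 (nat_lit 113) (nat_lit 61) (nat_lit 7) (nat_lit 10) (nat_lit 3) L30660 (by decide +kernel)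
theorem L30662 : W_17 (nat_lit 4) (nat_lit 0x40002000000010002800100008000c0000000000000000000) (nat_lit 0x0) (nat_lit 0x8000540060000000000002000000000000000) := T_17 (nat_lit 130) (nat_lit 147) (nat_lit 7) (nat_lit 10) (nat_lit 4) L30661 (by decide +kernel)
theorem L30663 : W_17 (nat_lit 5) (nat_lit 0x4000200000001000280010000800040000000000000000000) (nat_lit 0x0) (nat_lit 0x8000540060000000080006000000000000000) := T_17 (nat_lit 79) (nat_lit 62) (nat_lit 6) (nat_lit 10) (nat_lit 7) L30662 (by decide +kernel)
theorem L30664 : W_17 (nat_lit 8) (nat_lit 0x4000200000001000280010000800000000000000000000000) (nat_lit 0x0) (nat_lit 0xc0005400600014000e000700038001c000000) := Q_17 (nat_lit 78) (C_17 L30598 (C_17 L30643 (C_17 L30649 (C_17 L30655 (C_17 L30659 (C_17 L30663 N_17)))))) (by decide +kernel)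
theorem L30665 : W_17 (nat_lit 2) (nat_lit 0x4000200020001000280030000800068006000100008000000) (nat_lit 0x0) (nat_lit 0x80004000200) := D_17 (nat_lit 26) (nat_lit 9) (nat_lit 43) (nat_lit 4) (nat_lit 10) (nat_lit 4) (nat_lit 4) (nat_lit 10) (nat_lit 5) (by decide +kernel)
theorem L30666 : W_17 (nat_lit 3) (nat_lit 0x4000200020001000280030000800068006000100000000000) (nat_lit 0x0) (nat_lit 0x40000000000008000c000200) := T_17 (nat_lit 27) (nat_lit 94) (nat_lit 5) (nat_lit 10) (nat_lit 1) L30665 (by decide +kernel)
theorem L30667 : W_17 (nat_lit 4) (nat_lit 0x4000200020001000280030000800068006000000000000000) (nat_lit 0x0) (nat_lit 0x140000000000018000c000200) := T_17 (nat_lit 44) (nat_lit 96) (nat_lit 7) (nat_lit 10) (nat_lit 2) L30666 (by decide +kernel)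
theorem L30668 : W_17 (nat_lit 5) (nat_lit 0x4000200020001000280010000800068006000000000000000) (nat_lit 0x0) (nat_lit 0x40002000140000000000018000c000200) := T_17 (nat_lit 113) (nat_lit 130) (nat_lit 7) (nat_lit 10) (nat_lit 3) L30667 (by decide +kernel)
theorem L30669 : W_17 (nat_lit 6) (nat_lit 0x4000200020001000280010000800060006000000000000000) (nat_lit 0x0) (nat_lit 0x40002000140001800000018000c000200) := T_17 (nat_lit 75) (nat_lit 76) (nat_lit 2) (nat_lit 7) (nat_lit 4) L30668 (by decide +kernel)
theorem L30670 : W_17 (nat_lit 7) (nat_lit 0x4000200020001000280010000800060004000000000000000) (nat_lit 0x0) (nat_lit 0x40002000140001800200038000c000200) := T_17 (nat_lit 61) (nat_lit 45) (nat_lit 6) (nat_lit 10) (nat_lit 6) L30669 (by decide +kernel)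
theorem L30671 : W_17 (nat_lit 8) (nat_lit 0x4000200020001000280010000800040004000000000000000) (nat_lit 0x0) (nat_lit 0x40002000140003800300038000c000200) := T_17 (nat_lit 77) (nat_lit 60) (nat_lit 4) (nat_lit 10) (nat_lit 7) L30670 (by decide +kernel)
theorem L30672 : W_17 (nat_lit 9) (nat_lit 0x4000200020001000280010000800040000000000000000000) (nat_lit 0x0) (nat_lit 0x4000200014000b800700038000c000200) := T_17 (nat_lit 62) (nat_lit 79) (nat_lit 6) (nat_lit 10) (nat_lit 7) L30671 (by decide +kernel)
theorem L30673 : W_17 (nat_lit 10) (nat_lit 0x4000200000001000280010000800040000000000000000000) (nat_lit 0x0) (nat_lit 0x4000200000004000200014000b800700038000c000200) := T_17 (nat_lit 161) (nat_lit 178) (nat_lit 5) (nat_lit 8) (nat_lit 7) L30672 (by decide +kernel)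
theorem L30674 : W_17 (nat_lit 2) (nat_lit 0x40002000200010002800100018000e0000000000000000000) (nat_lit 0x0) (nat_lit 0x2000018000000000000000000) := D_17 (nat_lit 76) (nat_lit 97) (nat_lit 75) (nat_lit 3) (nat_lit 8) (nat_lit 4) (nat_lit 3) (nat_lit 7) (nat_lit 4) (by decide +kernel)
theorem L30675 : W_17 (nat_lit 3) (nat_lit 0x40002000200010002800100008000e0000000000000000000) (nat_lit 0x0) (nat_lit 0x4000000000003000018000000000000000000) := T_17 (nat_lit 96) (nat_lit 146) (nat_lit 6) (nat_lit 10) (nat_lit 8) L30674 (by decide +kernel)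
theorem L30676 : W_17 (nat_lit 4) (nat_lit 0x4000200020001000280010000800060000000000000000000) (nat_lit 0x0) (nat_lit 0x4000000000003000098004000000000000000) := T_17 (nat_lit 79) (nat_lit 62) (nat_lit 6) (nat_lit 10) (nat_lit 7) L30675 (by decide +kernel)
theorem L30677 : W_17 (nat_lit 5) (nat_lit 0x4000200000001000280010000800060000000000000000000) (nat_lit 0x0) (nat_lit 0x400020004000000000003000098004000000000000000) := T_17 (nat_lit 161) (nat_lit 178) (nat_lit 5) (nat_lit 8) (nat_lit 7) L30676 (by decide +kernel)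
theorem L30678 : W_17 (nat_lit 6) (nat_lit 0x4000200000001000280010000800040000000000000000000) (nat_lit 0x0) (nat_lit 0x4000200040000000000030000b8005000000000000000) := T_17 (nat_lit 77) (nat_lit 60) (nat_lit 4) (nat_lit 10) (nat_lit 7) L30677 (by decide +kernel)
theorem L30679 : W_17 (nat_lit 2) (nat_lit 0x4000200020001000280030000800040003000200000000000) (nat_lit 0x0) (nat_lit 0x1000000000000100010000000) := D_17 (nat_lit 44) (nat_lit 96) (nat_lit 28) (nat_lit 7) (nat_lit 10) (nat_lit 2) (nat_lit 6) (nat_lit 10) (nat_lit 5) (by decide +kernel)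
theorem L30680 : W_17 (nat_lit 3) (nat_lit 0x4000200020001000280010000800040003000200000000000) (nat_lit 0x0) (nat_lit 0x400020001000000000000100010000000) := T_17 (nat_lit 113) (nat_lit 130) (nat_lit 7) (nat_lit 10) (nat_lit 3) L30679 (by decide +kernel)
theorem L30681 : W_17 (nat_lit 4) (nat_lit 0x4000200020001000280010000800040003000000000000000) (nat_lit 0x0) (nat_lit 0x400020001000000004000300010000000) := T_17 (nat_lit 45) (nat_lit 62) (nat_lit 6) (nat_lit 10) (nat_lit 6) L30680 (by decide +kernel)
theorem L30682 : W_17 (nat_lit 5) (nat_lit 0x4000200020001000280010000800040001000000000000000) (nat_lit 0x0) (nat_lit 0x400020001000000006000380010000000) := T_17 (nat_lit 61) (nat_lit 43) (nat_lit 4) (nat_lit 10) (nat_lit 6) L30681 (by decide +kernel)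
theorem L30683 : W_17 (nat_lit 6) (nat_lit 0x4000200000001000280010000800040001000000000000000) (nat_lit 0x0) (nat_lit 0x400020000000400020001000000006000380010000000) := T_17 (nat_lit 161) (nat_lit 178) (nat_lit 5) (nat_lit 8) (nat_lit 7) L30682 (by decide +kernel)
theorem L30684 : W_17 (nat_lit 7) (nat_lit 0x4000200000001000280010000800040000000000000000000) (nat_lit 0x0) (nat_lit 0x400020000000400020001000020007000380010000000) := T_17 (nat_lit 60) (nat_lit 77) (nat_lit 4) (nat_lit 10) (nat_lit 7) L30683 (by decide +kernel)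
theorem L30685 : W_17 (nat_lit 2) (nat_lit 0x4000200020001000280010000c000e0000000000000000000) (nat_lit 0x0) (nat_lit 0x300100000000000000000000) := D_17 (nat_lit 93) (nat_lit 92) (nat_lit 80) (nat_lit 2) (nat_lit 7) (nat_lit 5) (nat_lit 1) (nat_lit 12) (nat_lit 4) (by decide +kernel)
theorem L30686 : W_17 (nat_lit 3) (nat_lit 0x40002000200010002800100008000e0000000000000000000) (nat_lit 0x0) (nat_lit 0x4000000000000700100000000000000000000) := T_17 (nat_lit 94) (nat_lit 146) (nat_lit 4) (nat_lit 10) (nat_lit 8) L30685 (by decide +kernel)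
theorem L30687 : W_17 (nat_lit 4) (nat_lit 0x40002000200010002800100008000c0000000000000000000) (nat_lit 0x0) (nat_lit 0x4000000000000700120001000000000000000) := T_17 (nat_lit 77) (nat_lit 60) (nat_lit 4) (nat_lit 10) (nat_lit 7) L30686 (by decide +kernel)
theorem L30688 : W_17 (nat_lit 5) (nat_lit 0x4000200020001000280010000800040000000000000000000) (nat_lit 0x0) (nat_lit 0x40000000000007001a0005000000000000000) := T_17 (nat_lit 79) (nat_lit 62) (nat_lit 6) (nat_lit 10) (nat_lit 7) L30687 (by decide +kernel)
theorem L30689 : W_17 (nat_lit 6) (nat_lit 0x4000200000001000280010000800040000000000000000000) (nat_lit 0x0) (nat_lit 0x4000200040000000000007001a0005000000000000000) := T_17 (nat_lit 161) (nat_lit 178) (nat_lit 5) (nat_lit 8) (nat_lit 7) L30688 (by decide +kernel)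
theorem L30690 : W_17 (nat_lit 2) (nat_lit 0x4000200020001000280030000800040006000080000000000) (nat_lit 0x0) (nat_lit 0x1000000000000100004000000) := D_17 (nat_lit 44) (nat_lit 96) (nat_lit 26) (nat_lit 7) (nat_lit 10) (nat_lit 2) (nat_lit 4) (nat_lit 10) (nat_lit 5) (by decide +kernel)
theorem L30691 : W_17 (nat_lit 3) (nat_lit 0x4000200020001000280010000800040006000080000000000) (nat_lit 0x0) (nat_lit 0x400020001000000000000100004000000) := T_17 (nat_lit 113) (nat_lit 130) (nat_lit 7) (nat_lit 10) (nat_lit 3) L30690 (by decide +kernel)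
theorem L30692 : W_17 (nat_lit 4) (nat_lit 0x4000200020001000280010000800040006000000000000000) (nat_lit 0x0) (nat_lit 0x400020001000000001000180004000000) := T_17 (nat_lit 43) (nat_lit 60) (nat_lit 4) (nat_lit 10) (nat_lit 6) L30691 (by decide +kernel)
theorem L30693 : W_17 (nat_lit 5) (nat_lit 0x4000200020001000280010000800040004000000000000000) (nat_lit 0x0) (nat_lit 0x400020001000000003000380004000000) := T_17 (nat_lit 61) (nat_lit 45) (nat_lit 6) (nat_lit 10) (nat_lit 6) L30692 (by decide +kernel)
theorem L30694 : W_17 (nat_lit 6) (nat_lit 0x4000200020001000280010000800040000000000000000000) (nat_lit 0x0) (nat_lit 0x400020001000080007000380004000000) := T_17 (nat_lit 62) (nat_lit 79) (nat_lit 6) (nat_lit 10) (nat_lit 7) L30693 (by decide +kernel)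
theorem L30695 : W_17 (nat_lit 7) (nat_lit 0x4000200000001000280010000800040000000000000000000) (nat_lit 0x0) (nat_lit 0x400020000000400020001000080007000380004000000) := T_17 (nat_lit 161) (nat_lit 178) (nat_lit 5) (nat_lit 8) (nat_lit 7) L30694 (by decide +kernel)
theorem L30696 : W_17 (nat_lit 2) (nat_lit 0x40022000e0005000280010001800068000000000000000000) (nat_lit 0x0) (nat_lit 0x40001000010000000000000000000000000000000000000000) := D_17 (nat_lit 180) (nat_lit 198) (nat_lit 160) (nat_lit 7) (nat_lit 10) (nat_lit 7) (nat_lit 3) (nat_lit 7) (nat_lit 9) (by decide +kernel)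
theorem L30697 : W_17 (nat_lit 3) (nat_lit 0x40002000e0005000280010001800068000000000000000000) (nat_lit 0x0) (nat_lit 0x40003000110000000000000000000000000000000000000000) := T_17 (nat_lit 181) (nat_lit 164) (nat_lit 7) (nat_lit 10) (nat_lit 6) L30696 (by decide +kernel)
theorem L30698 : W_17 (nat_lit 4) (nat_lit 0x40002000a0005000280010001800068000000000000000000) (nat_lit 0x0) (nat_lit 0x40003800150000000000000000000000000000000000000000) := T_17 (nat_lit 162) (nat_lit 179) (nat_lit 5) (nat_lit 10) (nat_lit 6) L30697 (by decide +kernel)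
theorem L30699 : W_17 (nat_lit 5) (nat_lit 0x4000200020005000280010001800068000000000000000000) (nat_lit 0x0) (nat_lit 0x400038001d0000000000020000000000000000000000000000) := T_17 (nat_lit 163) (nat_lit 113) (nat_lit 6) (nat_lit 10) (nat_lit 9) L30698 (by decide +kernel)
theorem L30700 : W_17 (nat_lit 6) (nat_lit 0x4000200020005000280010001800060000000000000000000) (nat_lit 0x0) (nat_lit 0x400038001d0000000000020000000018000000000000000000) := T_17 (nat_lit 75) (nat_lit 76) (nat_lit 3) (nat_lit 7) (nat_lit 4) L30699 (by decide +kernel)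
theorem L30701 : W_17 (nat_lit 7) (nat_lit 0x4000200020005000280010000800060000000000000000000) (nat_lit 0x0) (nat_lit 0x400038001d0000000000020001000098000000000000000000) := T_17 (nat_lit 96) (nat_lit 79) (nat_lit 6) (nat_lit 10) (nat_lit 8) L30700 (by decide +kernel)
theorem L30702 : W_17 (nat_lit 8) (nat_lit 0x4000200020001000280010000800060000000000000000000) (nat_lit 0x0) (nat_lit 0x400038001d0004000000020001400098000000000000000000) := T_17 (nat_lit 146) (nat_lit 94) (nat_lit 4) (nat_lit 10) (nat_lit 8) L30701 (by decide +kernel)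
theorem L30703 : W_17 (nat_lit 9) (nat_lit 0x4000200000001000280010000800060000000000000000000) (nat_lit 0x0) (nat_lit 0x40003c001f0004000000020001400098000000000000000000) := T_17 (nat_lit 161) (nat_lit 178) (nat_lit 5) (nat_lit 8) (nat_lit 7) L30702 (by decide +kernel)
theorem L30704 : W_17 (nat_lit 10) (nat_lit 0x4000200000001000280010000800040000000000000000000) (nat_lit 0x0) (nat_lit 0x40003c001f00040000000200014000b8001000000000000000) := T_17 (nat_lit 77) (nat_lit 60) (nat_lit 4) (nat_lit 10) (nat_lit 7) L30703 (by decide +kernel)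
theorem L30705 : W_17 (nat_lit 2) (nat_lit 0x40002000200050002c0030001c00040006000000000000000) (nat_lit 0x0) (nat_lit 0x40000300000000000000000000000) := D_17 (nat_lit 93) (nat_lit 114) (nat_lit 92) (nat_lit 3) (nat_lit 8) (nat_lit 5) (nat_lit 3) (nat_lit 7) (nat_lit 5) (by decide +kernel)
theorem L30706 : W_17 (nat_lit 3) (nat_lit 0x40002000200050002c0030001800040006000000000000000) (nat_lit 0x0) (nat_lit 0x40000700020000000000000000000) := T_17 (nat_lit 94) (nat_lit 77) (nat_lit 4) (nat_lit 10) (nat_lit 8) L30705 (by decide +kernel)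
theorem L30707 : W_17 (nat_lit 4) (nat_lit 0x40002000200010002c0030001800040006000000000000000) (nat_lit 0x0) (nat_lit 0x80004000000040000700020000000000000000000) := T_17 (nat_lit 146) (nat_lit 163) (nat_lit 6) (nat_lit 10) (nat_lit 9) L30706 (by decide +kernel)
theorem L30708 : W_17 (nat_lit 5) (nat_lit 0x4000200020001000280030001800040006000000000000000) (nat_lit 0x0) (nat_lit 0x80004000140040000700020000000000000000000) := T_17 (nat_lit 126) (nat_lit 128) (nat_lit 2) (nat_lit 7) (nat_lit 7) L30707 (by decide +kernel)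
theorem L30709 : W_17 (nat_lit 6) (nat_lit 0x4000200020001000280030000800040006000000000000000) (nat_lit 0x0) (nat_lit 0x80004000140040001700020000000100000000000) := T_17 (nat_lit 96) (nat_lit 44) (nat_lit 7) (nat_lit 10) (nat_lit 2) L30708 (by decide +kernel)
theorem L30710 : W_17 (nat_lit 7) (nat_lit 0x4000200020001000280010000800040006000000000000000) (nat_lit 0x0) (nat_lit 0x80004000540060001700020000000100000000000) := T_17 (nat_lit 113) (nat_lit 130) (nat_lit 7) (nat_lit 10) (nat_lit 3) L30709 (by decide +kernel)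
theorem L30711 : W_17 (nat_lit 8) (nat_lit 0x4000200020001000280010000800040004000000000000000) (nat_lit 0x0) (nat_lit 0x80004000540060001700020002000300000000000) := T_17 (nat_lit 61) (nat_lit 45) (nat_lit 6) (nat_lit 10) (nat_lit 6) L30710 (by decide +kernel)
theorem L30712 : W_17 (nat_lit 9) (nat_lit 0x4000200000001000280010000800040004000000000000000) (nat_lit 0x0) (nat_lit 0x4000a0004000540060001700020002000300000000000) := T_17 (nat_lit 161) (nat_lit 178) (nat_lit 5) (nat_lit 8) (nat_lit 7) L30711 (by decide +kernel)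
theorem L30713 : W_17 (nat_lit 10) (nat_lit 0x4000200000001000280010000800040000000000000000000) (nat_lit 0x0) (nat_lit 0x4000a00040005400600017000a0006000300000000000) := T_17 (nat_lit 62) (nat_lit 79) (nat_lit 6) (nat_lit 10) (nat_lit 7) L30712 (by decide +kernel)
theorem L30714 : W_17 (nat_lit 11) (nat_lit 0x4000200000001000280010000800000000000000000000000) (nat_lit 0x0) (nat_lit 0x40003c001f00040005400600037001f800700038001c000200) := Q_17 (nat_lit 78) (C_17 L30643 (C_17 L30673 (C_17 L30678 (C_17 L30684 (C_17 L30689 (C_17 L30695 (C_17 L30704 (C_17 L30713 N_17)))))))) (by decide +kernel)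
theorem L30715 : W_17 (nat_lit 2) (nat_lit 0x4000200020001000280010000800040005000000000000000) (nat_lit 0x0) (nat_lit 0x2000280000000000) := D_17 (nat_lit 61) (nat_lit 45) (nat_lit 43) (nat_lit 6) (nat_lit 10) (nat_lit 6) (nat_lit 4) (nat_lit 10) (nat_lit 6) (by decide +kernel)
theorem L30716 : W_17 (nat_lit 3) (nat_lit 0x4000200020001000280010000800040004000000000000000) (nat_lit 0x0) (nat_lit 0x20003000280000000000) := T_17 (nat_lit 60) (nat_lit 77) (nat_lit 4) (nat_lit 10) (nat_lit 7) L30715 (by decide +kernel)
theorem L30717 : W_17 (nat_lit 4) (nat_lit 0x4000200020001000280010000800040000000000000000000) (nat_lit 0x0) (nat_lit 0xa0007000280000000000) := T_17 (nat_lit 62) (nat_lit 79) (nat_lit 6) (nat_lit 10) (nat_lit 7) L30716 (by decide +kernel)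
theorem L30718 : W_17 (nat_lit 5) (nat_lit 0x4000200000001000280010000800040000000000000000000) (nat_lit 0x0) (nat_lit 0x4000200000000000000000000a0007000280000000000) := T_17 (nat_lit 161) (nat_lit 178) (nat_lit 5) (nat_lit 8) (nat_lit 7) L30717 (by decide +kernel)
theorem L30719 : W_17 (nat_lit 2) (nat_lit 0x40002000000010003800300008000e0000000000000000000) (nat_lit 0x0) (nat_lit 0x4000c0000000000000000000000000000) := D_17 (nat_lit 114) (nat_lit 115) (nat_lit 130) (nat_lit 1) (nat_lit 13) (nat_lit 6) (nat_lit 2) (nat_lit 8) (nat_lit 7) (by decide +kernel)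
theorem L30720 : W_17 (nat_lit 3) (nat_lit 0x40002000000010002800300008000e0000000000000000000) (nat_lit 0x0) (nat_lit 0x5400c0000000000000000000000000000) := T_17 (nat_lit 128) (nat_lit 126) (nat_lit 2) (nat_lit 7) (nat_lit 7) L30719 (by decide +kernel)
theorem L30721 : W_17 (nat_lit 4) (nat_lit 0x4000200000001000280030000800060000000000000000000) (nat_lit 0x0) (nat_lit 0x5400c0000000080004000000000000000) := T_17 (nat_lit 79) (nat_lit 62) (nat_lit 6) (nat_lit 10) (nat_lit 7) L30720 (by decide +kernel)
theorem L30722 : W_17 (nat_lit 5) (nat_lit 0x4000200000001000280030000800040000000000000000000) (nat_lit 0x0) (nat_lit 0x5400c00000000a0005000000000000000) := T_17 (nat_lit 77) (nat_lit 60) (nat_lit 4) (nat_lit 10) (nat_lit 7) L30721 (by decide +kernel)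
theorem L30723 : W_17 (nat_lit 11) (nat_lit 0x4000200000001000280030000800040000000000000000000) (nat_lit 0x0) (nat_lit 0x4000200000001400c00077003bc005e00000000000000) := T_17 (nat_lit 161) (nat_lit 178) (nat_lit 5) (nat_lit 8) (nat_lit 7) L30540 (by decide +kernel)
theorem L30724 : W_17 (nat_lit 2) (nat_lit 0x40002000200010006800700008000e0000000000000000000) (nat_lit 0x0) (nat_lit 0x180000400000000000000000000000) := D_17 (nat_lit 115) (nat_lit 116) (nat_lit 94) (nat_lit 1) (nat_lit 14) (nat_lit 6) (nat_lit 0) (nat_lit 13) (nat_lit 6) (by decide +kernel)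
theorem L30725 : W_17 (nat_lit 3) (nat_lit 0x40002000200010006800300008000e0000000000000000000) (nat_lit 0x0) (nat_lit 0x1001c0000400000000000000000000000) := T_17 (nat_lit 114) (nat_lit 128) (nat_lit 2) (nat_lit 8) (nat_lit 7) L30724 (by decide +kernel)
theorem L30726 : W_17 (nat_lit 4) (nat_lit 0x40002000200010002800300008000e0000000000000000000) (nat_lit 0x0) (nat_lit 0x80005001c0000400000000000000000000000) := T_17 (nat_lit 130) (nat_lit 147) (nat_lit 7) (nat_lit 10) (nat_lit 4) L30725 (by decide +kernel)
theorem L30727 : W_17 (nat_lit 5) (nat_lit 0x4000200020001000280030000800060000000000000000000) (nat_lit 0x0) (nat_lit 0x80005001c0000400080004000000000000000) := T_17 (nat_lit 79) (nat_lit 62) (nat_lit 6) (nat_lit 10) (nat_lit 7) L30726 (by decide +kernel)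
theorem L30728 : W_17 (nat_lit 6) (nat_lit 0x4000200000001000280030000800060000000000000000000) (nat_lit 0x0) (nat_lit 0x4000200080005001c0000400080004000000000000000) := T_17 (nat_lit 161) (nat_lit 178) (nat_lit 5) (nat_lit 8) (nat_lit 7) L30727 (by decide +kernel)
theorem L30729 : W_17 (nat_lit 7) (nat_lit 0x4000200000001000280030000800040000000000000000000) (nat_lit 0x0) (nat_lit 0x4000200080005001c00004000a0005000000000000000) := T_17 (nat_lit 77) (nat_lit 60) (nat_lit 4) (nat_lit 10) (nat_lit 7) L30728 (by decide +kernel)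
theorem L30730 : W_17 (nat_lit 2) (nat_lit 0x4000200020001002e800300018001c0000000000000000000) (nat_lit 0x0) (nat_lit 0x600200000000000000000000) := D_17 (nat_lit 94) (nat_lit 93) (nat_lit 81) (nat_lit 2) (nat_lit 8) (nat_lit 5) (nat_lit 1) (nat_lit 13) (nat_lit 4) (by decide +kernel)
theorem L30731 : W_17 (nat_lit 3) (nat_lit 0x4000200020001002e800300018000c0000000000000000000) (nat_lit 0x0) (nat_lit 0x600300008000000000000000) := T_17 (nat_lit 80) (nat_lit 63) (nat_lit 6) (nat_lit 11) (nat_lit 7) L30730 (by decide +kernel)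
theorem L30732 : W_17 (nat_lit 4) (nat_lit 0x4000200020001000e800300018000c0000000000000000000) (nat_lit 0x0) (nat_lit 0x3000000000600300008000000000000000) := T_17 (nat_lit 133) (nat_lit 132) (nat_lit 0) (nat_lit 14) (nat_lit 7) L30731 (by decide +kernel)
theorem L30733 : W_17 (nat_lit 5) (nat_lit 0x40002000200010006800300018000c0000000000000000000) (nat_lit 0x0) (nat_lit 0x10003800000000600300008000000000000000) := T_17 (nat_lit 131) (nat_lit 148) (nat_lit 7) (nat_lit 11) (nat_lit 4) L30732 (by decide +kernel)
theorem L30734 : W_17 (nat_lit 6) (nat_lit 0x4000200020001000680030001800040000000000000000000) (nat_lit 0x0) (nat_lit 0x1000380000000060038000c000000000000000) := T_17 (nat_lit 79) (nat_lit 62) (nat_lit 6) (nat_lit 10) (nat_lit 7) L30733 (by decide +kernel)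
theorem L30735 : W_17 (nat_lit 7) (nat_lit 0x4000200020001000280030001800040000000000000000000) (nat_lit 0x0) (nat_lit 0x18003c0000000060038000c000000000000000) := T_17 (nat_lit 130) (nat_lit 147) (nat_lit 7) (nat_lit 10) (nat_lit 4) L30734 (by decide +kernel)
theorem L30736 : W_17 (nat_lit 8) (nat_lit 0x4000200000001000280030001800040000000000000000000) (nat_lit 0x0) (nat_lit 0x400020018003c0000000060038000c000000000000000) := T_17 (nat_lit 161) (nat_lit 178) (nat_lit 5) (nat_lit 8) (nat_lit 7) L30735 (by decide +kernel)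
theorem L30737 : W_17 (nat_lit 11) (nat_lit 0x4000200000001000280030000800040000000000000000000) (nat_lit 0x0) (nat_lit 0x400020018003c0000000f6003b800d000000000000000) := Q_17 (nat_lit 96) (C_17 L30408 (C_17 L29532 (C_17 L29526 (C_17 L29523 (C_17 L30736 N_17))))) (by decide +kernel)
theorem L30738 : W_17 (nat_lit 2) (nat_lit 0x4000200000001000380030000800040000000000000000000) (nat_lit 0x0) (nat_lit 0x8000400040000000000000000000000000000) := D_17 (nat_lit 130) (nat_lit 147) (nat_lit 114) (nat_lit 7) (nat_lit 10) (nat_lit 4) (nat_lit 2) (nat_lit 8) (nat_lit 7) (by decide +kernel)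
theorem L30739 : W_17 (nat_lit 3) (nat_lit 0x4000200000001000280030000800040000000000000000000) (nat_lit 0x0) (nat_lit 0x8000540040000000000000000000000000000) := T_17 (nat_lit 128) (nat_lit 126) (nat_lit 2) (nat_lit 7) (nat_lit 7) L30738 (by decide +kernel)
theorem L30740 : W_17 (nat_lit 12) (nat_lit 0x4000200000001000280010000800040000000000000000000) (nat_lit 0x0) (nat_lit 0x400020018003d401e000f7003bc00de00000000000000) := Q_17 (nat_lit 113) (C_17 L30722 (C_17 L30723 (C_17 L30729 (C_17 L30737 (C_17 L30739 N_17))))) (by decide +kernel)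
theorem L30741 : W_17 (nat_lit 13) (nat_lit 0x4000200000001000280010000800000000000000000000000) (nat_lit 0x0) (nat_lit 0x400020018003d401e000f7003fc00fe00380014000000) := Q_17 (nat_lit 78) (C_17 L30695 (C_17 L30663 (C_17 L30718 (C_17 L30684 (C_17 L30659 (C_17 L30740 N_17)))))) (by decide +kernel)
theorem L30742 : W_17 (nat_lit 2) (nat_lit 0x400020000000d000380010000800000000000000000000000) (nat_lit 0x0) (nat_lit 0x30000400000000000000000000000000000000) := D_17 (nat_lit 148) (nat_lit 130) (nat_lit 149) (nat_lit 3) (nat_lit 8) (nat_lit 7) (nat_lit 0) (nat_lit 13) (nat_lit 8) (by decide +kernel)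
theorem L30743 : W_17 (nat_lit 3) (nat_lit 0x400020000000d000280010000800000000000000000000000) (nat_lit 0x0) (nat_lit 0x30000540000000000000000000000000000000) := T_17 (nat_lit 128) (nat_lit 126) (nat_lit 3) (nat_lit 7) (nat_lit 7) L30742 (by decide +kernel)
theorem L30744 : W_17 (nat_lit 4) (nat_lit 0x4000200000005000280010000800000000000000000000000) (nat_lit 0x0) (nat_lit 0x100038000540000000000000000000000000000000) := T_17 (nat_lit 147) (nat_lit 164) (nat_lit 7) (nat_lit 10) (nat_lit 5) L30743 (by decide +kernel)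
theorem L30745 : W_17 (nat_lit 8) (nat_lit 0x4000200000001000280010000800000000000000000000000) (nat_lit 0x0) (nat_lit 0x52003c001f003c0005400600017000a0000000000000000000) := Q_17 (nat_lit 146) (C_17 L30622 (C_17 L30639 (C_17 L30616 (C_17 L30628 (C_17 L30633 (C_17 L30744 N_17)))))) (by decide +kernel)
theorem L30746 : W_17 (nat_lit 2) (nat_lit 0x40002000e001d000280010001800000000000000000000000) (nat_lit 0x0) (nat_lit 0x500000000000040000000000000000000) := D_17 (nat_lit 130) (nat_lit 78) (nat_lit 128) (nat_lit 7) (nat_lit 10) (nat_lit 4) (nat_lit 3) (nat_lit 8) (nat_lit 7) (by decide +kernel)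
theorem L30747 : W_17 (nat_lit 3) (nat_lit 0x40002000e000d000280010001800000000000000000000000) (nat_lit 0x0) (nat_lit 0x30000500000000000040000000000000000000) := T_17 (nat_lit 148) (nat_lit 149) (nat_lit 1) (nat_lit 13) (nat_lit 8) L30746 (by decide +kernel)
theorem L30748 : W_17 (nat_lit 4) (nat_lit 0x40002000e0005000280010001800000000000000000000000) (nat_lit 0x0) (nat_lit 0x10038000500000000000040000000000000000000) := T_17 (nat_lit 147) (nat_lit 160) (nat_lit 2) (nat_lit 7) (nat_lit 9) L30747 (by decide +kernel)
theorem L30749 : W_17 (nat_lit 5) (nat_lit 0x40002000a0005000280010001800000000000000000000000) (nat_lit 0x0) (nat_lit 0x800050038000500000000000040000000000000000000) := T_17 (nat_lit 162) (nat_lit 179) (nat_lit 5) (nat_lit 10) (nat_lit 6) L30748 (by decide +kernel)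
theorem L30750 : W_17 (nat_lit 6) (nat_lit 0x4000200020005000280010001800000000000000000000000) (nat_lit 0x0) (nat_lit 0x8000d0038000500020000000040000000000000000000) := T_17 (nat_lit 163) (nat_lit 113) (nat_lit 6) (nat_lit 10) (nat_lit 9) L30749 (by decide +kernel)
theorem L30751 : W_17 (nat_lit 7) (nat_lit 0x4000200020005000280010000800000000000000000000000) (nat_lit 0x0) (nat_lit 0x8000d00380005000200010000c0000000000000000000) := T_17 (nat_lit 96) (nat_lit 79) (nat_lit 6) (nat_lit 10) (nat_lit 8) L30750 (by decide +kernel)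
theorem L30752 : W_17 (nat_lit 8) (nat_lit 0x4000200000005000280010000800000000000000000000000) (nat_lit 0x0) (nat_lit 0xc000f00380005000200010000c0000000000000000000) := T_17 (nat_lit 161) (nat_lit 178) (nat_lit 5) (nat_lit 8) (nat_lit 7) L30751 (by decide +kernel)
theorem L30753 : W_17 (nat_lit 9) (nat_lit 0x4000200000001000280010000800000000000000000000000) (nat_lit 0x0) (nat_lit 0x40003c001f003c0005400200010000c0000000000000000000) := Q_17 (nat_lit 146) (C_17 L30744 (C_17 L30628 (C_17 L30752 N_17))) (by decide +kernel)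
theorem L30754 : W_17 (nat_lit 2) (nat_lit 0x400020000000d000280010000800040000000000000000000) (nat_lit 0x0) (nat_lit 0x400020001000000000000000) := D_17 (nat_lit 77) (nat_lit 94) (nat_lit 60) (nat_lit 4) (nat_lit 10) (nat_lit 8) (nat_lit 4) (nat_lit 10) (nat_lit 7) (by decide +kernel)
theorem L30755 : W_17 (nat_lit 2) (nat_lit 0x400020002000d000280010000800040000000000000000000) (nat_lit 0x0) (nat_lit 0x400020001000000000000000) := D_17 (nat_lit 77) (nat_lit 94) (nat_lit 60) (nat_lit 4) (nat_lit 10) (nat_lit 8) (nat_lit 4) (nat_lit 10) (nat_lit 7) (by decide +kernel)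
theorem L30756 : W_17 (nat_lit 6) (nat_lit 0x4000200000001000280030000800000000000000000000000) (nat_lit 0x0) (nat_lit 0x4000200040001400c0001700060001000080000000000) := T_17 (nat_lit 161) (nat_lit 178) (nat_lit 5) (nat_lit 8) (nat_lit 7) L30545 (by decide +kernel)
theorem L30757 : W_17 (nat_lit 2) (nat_lit 0x4000200000001000380030000800000000000000000000000) (nat_lit 0x0) (nat_lit 0x4000c0000000000000000000000000000) := D_17 (nat_lit 114) (nat_lit 115) (nat_lit 130) (nat_lit 1) (nat_lit 13) (nat_lit 6) (nat_lit 2) (nat_lit 8) (nat_lit 7) (by decide +kernel)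
theorem L30758 : W_17 (nat_lit 3) (nat_lit 0x4000200000001000280030000800000000000000000000000) (nat_lit 0x0) (nat_lit 0x5400c0000000000000000000000000000) := T_17 (nat_lit 128) (nat_lit 126) (nat_lit 2) (nat_lit 7) (nat_lit 7) L30757 (by decide +kernel)
theorem L30759 : W_17 (nat_lit 2) (nat_lit 0x4000200000001000680030000800000000000000000000000) (nat_lit 0x0) (nat_lit 0x8000000000000000040002000000000000000) := D_17 (nat_lit 78) (nat_lit 147) (nat_lit 61) (nat_lit 7) (nat_lit 10) (nat_lit 4) (nat_lit 7) (nat_lit 10) (nat_lit 3) (by decide +kernel)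
theorem L30760 : W_17 (nat_lit 2) (nat_lit 0x4000200020001000680070000800000002000000000000000) (nat_lit 0x0) (nat_lit 0x180000400000000000000000000000) := D_17 (nat_lit 115) (nat_lit 116) (nat_lit 94) (nat_lit 1) (nat_lit 14) (nat_lit 6) (nat_lit 0) (nat_lit 13) (nat_lit 6) (by decide +kernel)
theorem L30761 : W_17 (nat_lit 3) (nat_lit 0x4000200020001000680030000800000002000000000000000) (nat_lit 0x0) (nat_lit 0x1001c0000400000000000000000000000) := T_17 (nat_lit 114) (nat_lit 128) (nat_lit 2) (nat_lit 8) (nat_lit 7) L30760 (by decide +kernel)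
theorem L30762 : W_17 (nat_lit 4) (nat_lit 0x4000200000001000680030000800000002000000000000000) (nat_lit 0x0) (nat_lit 0x4000200000001001c0000400000000000000000000000) := T_17 (nat_lit 161) (nat_lit 178) (nat_lit 5) (nat_lit 8) (nat_lit 7) L30761 (by decide +kernel)
theorem L30763 : W_17 (nat_lit 5) (nat_lit 0x4000200000001000680030000800000000000000000000000) (nat_lit 0x0) (nat_lit 0x4000200000001001c0000400040002000000000000000) := T_17 (nat_lit 61) (nat_lit 78) (nat_lit 7) (nat_lit 10) (nat_lit 3) L30762 (by decide +kernel)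
theorem L30764 : W_17 (nat_lit 2) (nat_lit 0x4000200000001000780030000800000000000000000000000) (nat_lit 0x0) (nat_lit 0x100018000000000000000000000000000000000000) := D_17 (nat_lit 147) (nat_lit 148) (nat_lit 164) (nat_lit 3) (nat_lit 8) (nat_lit 7) (nat_lit 4) (nat_lit 11) (nat_lit 9) (by decide +kernel)
theorem L30765 : W_17 (nat_lit 3) (nat_lit 0x4000200000001000680030000800000000000000000000000) (nat_lit 0x0) (nat_lit 0x100018000100040000000000000000000000000000) := T_17 (nat_lit 128) (nat_lit 114) (nat_lit 2) (nat_lit 8) (nat_lit 7) L30764 (by decide +kernel)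
theorem L30766 : W_17 (nat_lit 6) (nat_lit 0x4000200000001000280030000800000000000000000000000) (nat_lit 0x0) (nat_lit 0x4001200180005001c0000400040002000000000000000) := Q_17 (nat_lit 130) (C_17 L30759 (C_17 L30763 (C_17 L30765 N_17))) (by decide +kernel)
theorem L30767 : W_17 (nat_lit 2) (nat_lit 0x4000200020005000680030000800060000000000000000000) (nat_lit 0x0) (nat_lit 0x1000080000000000000001000000000000000000000000) := D_17 (nat_lit 163) (nat_lit 96) (nat_lit 180) (nat_lit 6) (nat_lit 10) (nat_lit 9) (nat_lit 6) (nat_lit 10) (nat_lit 10) (by decide +kernel)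
theorem L30768 : W_17 (nat_lit 3) (nat_lit 0x4000200020001000680030000800060000000000000000000) (nat_lit 0x0) (nat_lit 0x1000080004000000000001400000000000000000000000) := T_17 (nat_lit 146) (nat_lit 94) (nat_lit 4) (nat_lit 10) (nat_lit 8) L30767 (by decide +kernel)
theorem L30769 : W_17 (nat_lit 4) (nat_lit 0x4000200020001000680030000800040000000000000000000) (nat_lit 0x0) (nat_lit 0x1000080004000000000001400020001000000000000000) := T_17 (nat_lit 77) (nat_lit 60) (nat_lit 4) (nat_lit 10) (nat_lit 7) L30768 (by decide +kernel)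
theorem L30770 : W_17 (nat_lit 5) (nat_lit 0x4000200000001000680030000800040000000000000000000) (nat_lit 0x0) (nat_lit 0x14000a0004000000000001400020001000000000000000) := T_17 (nat_lit 161) (nat_lit 178) (nat_lit 5) (nat_lit 8) (nat_lit 7) L30769 (by decide +kernel)
theorem L30771 : W_17 (nat_lit 6) (nat_lit 0x4000200000001000680030000800000000000000000000000) (nat_lit 0x0) (nat_lit 0x14000a0004000000000001400060003000000000000000) := T_17 (nat_lit 78) (nat_lit 61) (nat_lit 7) (nat_lit 10) (nat_lit 3) L30770 (by decide +kernel)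
theorem L30772 : W_17 (nat_lit 2) (nat_lit 0x4000200000005000680030000800000000000000000000000) (nat_lit 0x0) (nat_lit 0x1000080000000000000001000000000000000000000000) := D_17 (nat_lit 163) (nat_lit 96) (nat_lit 180) (nat_lit 6) (nat_lit 10) (nat_lit 9) (nat_lit 6) (nat_lit 10) (nat_lit 10) (by decide +kernel)
theorem L30773 : W_17 (nat_lit 9) (nat_lit 0x400020002000d000680030000800000000000000000000000) (nat_lit 0x0) (nat_lit 0x2800700008001c000f400700000000000000000000) := T_17 (nat_lit 96) (nat_lit 163) (nat_lit 6) (nat_lit 10) (nat_lit 9) L30427 (by decide +kernel)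
theorem L30774 : W_17 (nat_lit 10) (nat_lit 0x4000200020005000680030000800000000000000000000000) (nat_lit 0x0) (nat_lit 0x3800780008001c000f400700000000000000000000) := T_17 (nat_lit 147) (nat_lit 164) (nat_lit 7) (nat_lit 10) (nat_lit 5) L30773 (by decide +kernel)
theorem L30775 : W_17 (nat_lit 11) (nat_lit 0x4000200000005000680030000800000000000000000000000) (nat_lit 0x0) (nat_lit 0x4003a00780008001c000f400700000000000000000000) := T_17 (nat_lit 161) (nat_lit 178) (nat_lit 5) (nat_lit 8) (nat_lit 7) L30774 (by decide +kernel)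
theorem L30776 : W_17 (nat_lit 2) (nat_lit 0x4000200000005000680030000e00000000000000000000000) (nat_lit 0x0) (nat_lit 0xc0001000000000000000000000000) := D_17 (nat_lit 114) (nat_lit 115) (nat_lit 96) (nat_lit 0) (nat_lit 13) (nat_lit 6) (nat_lit 3) (nat_lit 8) (nat_lit 5) (by decide +kernel)
theorem L30777 : W_17 (nat_lit 3) (nat_lit 0x4000200000005000680030000c00000000000000000000000) (nat_lit 0x0) (nat_lit 0xc0001300000000000000000000000) := T_17 (nat_lit 93) (nat_lit 92) (nat_lit 3) (nat_lit 7) (nat_lit 5) L30776 (by decide +kernel)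
theorem L30778 : W_17 (nat_lit 4) (nat_lit 0x4000200000005000680030000800000000000000000000000) (nat_lit 0x0) (nat_lit 0xc0001700020000000000000000000) := T_17 (nat_lit 94) (nat_lit 77) (nat_lit 4) (nat_lit 10) (nat_lit 8) L30777 (by decide +kernel)
theorem L30779 : W_17 (nat_lit 2) (nat_lit 0x40002000a0005000680030000800000000000000000000000) (nat_lit 0x0) (nat_lit 0x2000100008000000000000000000000000000000000000) := D_17 (nat_lit 164) (nat_lit 147) (nat_lit 181) (nat_lit 7) (nat_lit 10) (nat_lit 5) (nat_lit 7) (nat_lit 10) (nat_lit 6) (by decide +kernel)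
theorem L30780 : W_17 (nat_lit 3) (nat_lit 0x4000200020005000680030000800000000000000000000000) (nat_lit 0x0) (nat_lit 0x3000180008000000000000000000000000000000000000) := T_17 (nat_lit 163) (nat_lit 180) (nat_lit 6) (nat_lit 10) (nat_lit 10) L30779 (by decide +kernel)
theorem L30781 : W_17 (nat_lit 4) (nat_lit 0x4000200000005000680030000800000000000000000000000) (nat_lit 0x0) (nat_lit 0x34001a0008000000000000000000000000000000000000) := T_17 (nat_lit 161) (nat_lit 178) (nat_lit 5) (nat_lit 8) (nat_lit 7) L30780 (by decide +kernel)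
theorem L30782 : W_17 (nat_lit 12) (nat_lit 0x4000200000001000680030000800000000000000000000000) (nat_lit 0x0) (nat_lit 0x34003a007c0008001c000f700720000000000000000000) := Q_17 (nat_lit 146) (C_17 L30772 (C_17 L30775 (C_17 L30778 (C_17 L30781 N_17)))) (by decide +kernel)
theorem L30783 : W_17 (nat_lit 13) (nat_lit 0x4000200000001000280030000800000000000000000000000) (nat_lit 0x0) (nat_lit 0x34003a007c000c001c000f700760003000000000000000) := Q_17 (nat_lit 130) (C_17 L30759 (C_17 L30771 (C_17 L30782 N_17))) (by decide +kernel)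
theorem L30784 : W_17 (nat_lit 2) (nat_lit 0x4000200020009000680030000800000000000000000000000) (nat_lit 0x0) (nat_lit 0x10000140000000000000000000000000000000) := D_17 (nat_lit 128) (nat_lit 126) (nat_lit 148) (nat_lit 2) (nat_lit 7) (nat_lit 7) (nat_lit 3) (nat_lit 8) (nat_lit 7) (by decide +kernel)
theorem L30785 : W_17 (nat_lit 3) (nat_lit 0x4000200020001000680030000800000000000000000000000) (nat_lit 0x0) (nat_lit 0x100018000140000000000000000000000000000000) := T_17 (nat_lit 147) (nat_lit 164) (nat_lit 4) (nat_lit 11) (nat_lit 9) L30784 (by decide +kernel)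
theorem L30786 : W_17 (nat_lit 4) (nat_lit 0x4000200000001000680030000800000000000000000000000) (nat_lit 0x0) (nat_lit 0x400120018000140000000000000000000000000000000) := T_17 (nat_lit 161) (nat_lit 178) (nat_lit 5) (nat_lit 8) (nat_lit 7) L30785 (by decide +kernel)
theorem L30787 : W_17 (nat_lit 7) (nat_lit 0x4000200000001000280030000800000000000000000000000) (nat_lit 0x0) (nat_lit 0x14001a001c000540000001400060003000000000000000) := Q_17 (nat_lit 130) (C_17 L30759 (C_17 L30771 (C_17 L30786 N_17))) (by decide +kernel)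
theorem L30788 : W_17 (nat_lit 14) (nat_lit 0x4000200000001000280010000800000000000000000000000) (nat_lit 0x0) (nat_lit 0x3c003f007c000d401e000f700760003000080000000000) := Q_17 (nat_lit 113) (C_17 L30477 (C_17 L30756 (C_17 L30758 (C_17 L30766 (C_17 L30783 (C_17 L30787 N_17)))))) (by decide +kernel)
theorem L30789 : W_17 (nat_lit 7) (nat_lit 0x4000200000001000280010000800000000000000000000000) (nat_lit 0x0) (nat_lit 0x40002000c0005400600007001e0007000280000000000) := Q_17 (nat_lit 78) (C_17 L30718 (C_17 L30663 (C_17 L30659 (C_17 L30689 N_17)))) (by decide +kernel)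
theorem L30790 : W_17 (nat_lit 15) (nat_lit 0x4000200000001000280010000000000000000000000000000) (nat_lit 0x0) (nat_lit 0x52003c003f007c003d401e000ff007fc00fe0038001c000200) := Q_17 (nat_lit 95) (C_17 L30607 (C_17 L30640 (C_17 L30664 (C_17 L30714 (C_17 L30741 (C_17 L30745 (C_17 L30753 (C_17 L30788 (C_17 L30789 N_17))))))))) (by decide +kernel)
theorem L30791 : W_17 (nat_lit 2) (nat_lit 0x400020000000d000280010001c00000000000000000000000) (nat_lit 0x0) (nat_lit 0x80000000000028000000000000000000000000000) := D_17 (nat_lit 163) (nat_lit 113) (nat_lit 111) (nat_lit 6) (nat_lit 10) (nat_lit 9) (nat_lit 4) (nat_lit 10) (nat_lit 9) (by decide +kernel)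
theorem L30792 : W_17 (nat_lit 3) (nat_lit 0x400020000000d000280010001800000000000000000000000) (nat_lit 0x0) (nat_lit 0x80000000000028000400020000000000000000000) := T_17 (nat_lit 94) (nat_lit 77) (nat_lit 4) (nat_lit 10) (nat_lit 8) L30791 (by decide +kernel)
theorem L30793 : W_17 (nat_lit 4) (nat_lit 0x400020000000d000280010000800000000000000000000000) (nat_lit 0x0) (nat_lit 0x800000000000280014000a0000000000000000000) := T_17 (nat_lit 96) (nat_lit 79) (nat_lit 6) (nat_lit 10) (nat_lit 8) L30792 (by decide +kernel)
theorem L30794 : W_17 (nat_lit 5) (nat_lit 0x4000200000005000280010000800000000000000000000000) (nat_lit 0x0) (nat_lit 0x1800080000000280014000a0000000000000000000) := T_17 (nat_lit 147) (nat_lit 164) (nat_lit 7) (nat_lit 10) (nat_lit 5) L30793 (by decide +kernel)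
theorem L30795 : W_17 (nat_lit 2) (nat_lit 0x40002000000050002800100008000a0000000000000000000) (nat_lit 0x0) (nat_lit 0x40005000000000000000) := D_17 (nat_lit 78) (nat_lit 62) (nat_lit 60) (nat_lit 6) (nat_lit 10) (nat_lit 7) (nat_lit 4) (nat_lit 10) (nat_lit 7) (by decide +kernel)
theorem L30796 : W_17 (nat_lit 3) (nat_lit 0x4000200000005000280010000800080000000000000000000) (nat_lit 0x0) (nat_lit 0x400060005000000000000000) := T_17 (nat_lit 77) (nat_lit 94) (nat_lit 4) (nat_lit 10) (nat_lit 8) L30795 (by decide +kernel)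
theorem L30797 : W_17 (nat_lit 4) (nat_lit 0x4000200000005000280010000800000000000000000000000) (nat_lit 0x0) (nat_lit 0x14000e0005000000000000000) := T_17 (nat_lit 79) (nat_lit 96) (nat_lit 6) (nat_lit 10) (nat_lit 8) L30796 (by decide +kernel)
theorem L30798 : W_17 (nat_lit 8) (nat_lit 0x4000200000001000280010000800000000000000000000000) (nat_lit 0x0) (nat_lit 0x52003c001f000c0000000280014000e0005000000000000000) := Q_17 (nat_lit 146) (C_17 L30622 (C_17 L30639 (C_17 L30794 (C_17 L30628 (C_17 L30633 (C_17 L30797 N_17)))))) (by decide +kernel)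
theorem L30799 : W_17 (nat_lit 2) (nat_lit 0x4000200000001000680018000800060002000000000000000) (nat_lit 0x0) (nat_lit 0x4000000000000400000000000100000000000) := D_17 (nat_lit 94) (nat_lit 44) (nat_lit 146) (nat_lit 5) (nat_lit 10) (nat_lit 2) (nat_lit 4) (nat_lit 10) (nat_lit 8) (by decide +kernel)
theorem L30800 : W_17 (nat_lit 3) (nat_lit 0x4000200000001000680010000800060002000000000000000) (nat_lit 0x0) (nat_lit 0x4000100008000400000000000100000000000) := T_17 (nat_lit 111) (nat_lit 128) (nat_lit 5) (nat_lit 10) (nat_lit 3) L30799 (by decide +kernel)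
theorem L30801 : W_17 (nat_lit 4) (nat_lit 0x4000200000001000680010000800060000000000000000000) (nat_lit 0x0) (nat_lit 0x4000100028000400000002000100000000000) := T_17 (nat_lit 61) (nat_lit 113) (nat_lit 7) (nat_lit 10) (nat_lit 3) L30800 (by decide +kernel)
theorem L30802 : W_17 (nat_lit 5) (nat_lit 0x4000200000001000280010000800060000000000000000000) (nat_lit 0x0) (nat_lit 0xc000500028000400000002000100000000000) := T_17 (nat_lit 130) (nat_lit 147) (nat_lit 7) (nat_lit 10) (nat_lit 4) L30801 (by decide +kernel)
theorem L30803 : W_17 (nat_lit 6) (nat_lit 0x4000200000001000280010000800040000000000000000000) (nat_lit 0x0) (nat_lit 0xc000500028000400020003000100000000000) := T_17 (nat_lit 77) (nat_lit 60) (nat_lit 4) (nat_lit 10) (nat_lit 7) L30802 (by decide +kernel)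
theorem L30804 : W_17 (nat_lit 2) (nat_lit 0x40002000000010006800180008000c0002000100000000000) (nat_lit 0x0) (nat_lit 0x4000000000001000000000000000008000000) := D_17 (nat_lit 96) (nat_lit 146) (nat_lit 27) (nat_lit 6) (nat_lit 10) (nat_lit 8) (nat_lit 7) (nat_lit 10) (nat_lit 1) (by decide +kernel)
theorem L30805 : W_17 (nat_lit 3) (nat_lit 0x40002000000010006800180008000c0002000000000000000) (nat_lit 0x0) (nat_lit 0x4000000000001400000000000100008000000) := T_17 (nat_lit 44) (nat_lit 94) (nat_lit 5) (nat_lit 10) (nat_lit 2) L30804 (by decide +kernel)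
theorem L30806 : W_17 (nat_lit 4) (nat_lit 0x40002000000010006800100008000c0002000000000000000) (nat_lit 0x0) (nat_lit 0x4000100008001400000000000100008000000) := T_17 (nat_lit 111) (nat_lit 128) (nat_lit 5) (nat_lit 10) (nat_lit 3) L30805 (by decide +kernel)
theorem L30807 : W_17 (nat_lit 5) (nat_lit 0x40002000000010006800100008000c0000000000000000000) (nat_lit 0x0) (nat_lit 0x4000100028001400000002000100008000000) := T_17 (nat_lit 61) (nat_lit 113) (nat_lit 7) (nat_lit 10) (nat_lit 3) L30806 (by decide +kernel)
theorem L30808 : W_17 (nat_lit 6) (nat_lit 0x40002000000010002800100008000c0000000000000000000) (nat_lit 0x0) (nat_lit 0xc000500028001400000002000100008000000) := T_17 (nat_lit 130) (nat_lit 147) (nat_lit 7) (nat_lit 10) (nat_lit 4) L30807 (by decide +kernel)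
theorem L30809 : W_17 (nat_lit 7) (nat_lit 0x4000200000001000280010000800040000000000000000000) (nat_lit 0x0) (nat_lit 0xc000500028001400080006000100008000000) := T_17 (nat_lit 79) (nat_lit 62) (nat_lit 6) (nat_lit 10) (nat_lit 7) L30808 (by decide +kernel)
theorem L30810 : W_17 (nat_lit 8) (nat_lit 0x4000200000001000280010000800000000000000000000000) (nat_lit 0x0) (nat_lit 0xc0005000280014000e000700038001c000000) := Q_17 (nat_lit 78) (C_17 L30643 (C_17 L30655 (C_17 L30598 (C_17 L30649 (C_17 L30803 (C_17 L30809 N_17)))))) (by decide +kernel)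
theorem L30811 : W_17 (nat_lit 2) (nat_lit 0x40022000e0005000280010000d002c0000000000000000000) (nat_lit 0x0) (nat_lit 0x40001000010000000000000000000000000000000000000000) := D_17 (nat_lit 180) (nat_lit 160) (nat_lit 198) (nat_lit 3) (nat_lit 7) (nat_lit 9) (nat_lit 7) (nat_lit 10) (nat_lit 7) (by decide +kernel)
theorem L30812 : W_17 (nat_lit 3) (nat_lit 0x40022000a0005000280010000d002c0000000000000000000) (nat_lit 0x0) (nat_lit 0x40001800050000000000000000000000000000000000000000) := T_17 (nat_lit 162) (nat_lit 179) (nat_lit 5) (nat_lit 10) (nat_lit 6) L30811 (by decide +kernel)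
theorem L30813 : W_17 (nat_lit 4) (nat_lit 0x40002000a0005000280010000d002c0000000000000000000) (nat_lit 0x0) (nat_lit 0x40003800150000000000000000000000000000000000000000) := T_17 (nat_lit 181) (nat_lit 164) (nat_lit 7) (nat_lit 10) (nat_lit 6) L30812 (by decide +kernel)
theorem L30814 : W_17 (nat_lit 5) (nat_lit 0x40002000a0005000280010000d000c0000000000000000000) (nat_lit 0x0) (nat_lit 0x40003800150000000000000000000300000000000000000000) := T_17 (nat_lit 81) (nat_lit 80) (nat_lit 1) (nat_lit 13) (nat_lit 4) L30813 (by decide +kernel)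
theorem L30815 : W_17 (nat_lit 6) (nat_lit 0x4000200020005000280010000d000c0000000000000000000) (nat_lit 0x0) (nat_lit 0x400038001d0000000000008000000300000000000000000000) := T_17 (nat_lit 163) (nat_lit 111) (nat_lit 4) (nat_lit 10) (nat_lit 9) L30814 (by decide +kernel)
theorem L30816 : W_17 (nat_lit 7) (nat_lit 0x4000200020005000280010000c000c0000000000000000000) (nat_lit 0x0) (nat_lit 0x400038001d0000000000008000300300000000000000000000) := T_17 (nat_lit 92) (nat_lit 93) (nat_lit 2) (nat_lit 7) (nat_lit 5) L30815 (by decide +kernel)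
theorem L30817 : W_17 (nat_lit 8) (nat_lit 0x40002000200050002800100008000c0000000000000000000) (nat_lit 0x0) (nat_lit 0x400038001d0000000000008000700320000000000000000000) := T_17 (nat_lit 94) (nat_lit 77) (nat_lit 4) (nat_lit 10) (nat_lit 8) L30816 (by decide +kernel)
theorem L30818 : W_17 (nat_lit 9) (nat_lit 0x40002000200010002800100008000c0000000000000000000) (nat_lit 0x0) (nat_lit 0x400038001d0004000000008001700320000000000000000000) := T_17 (nat_lit 146) (nat_lit 96) (nat_lit 6) (nat_lit 10) (nat_lit 8) L30817 (by decide +kernel)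
theorem L30819 : W_17 (nat_lit 10) (nat_lit 0x4000200020001000280010000800040000000000000000000) (nat_lit 0x0) (nat_lit 0x400038001d00040000000080017003a0004000000000000000) := T_17 (nat_lit 79) (nat_lit 62) (nat_lit 6) (nat_lit 10) (nat_lit 7) L30818 (by decide +kernel)
theorem L30820 : W_17 (nat_lit 11) (nat_lit 0x4000200000001000280010000800040000000000000000000) (nat_lit 0x0) (nat_lit 0x40003c001f00040000000080017003a0004000000000000000) := T_17 (nat_lit 161) (nat_lit 178) (nat_lit 5) (nat_lit 8) (nat_lit 7) L30819 (by decide +kernel)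
theorem L30821 : W_17 (nat_lit 12) (nat_lit 0x4000200000001000280010000800000000000000000000000) (nat_lit 0x0) (nat_lit 0x40003c001f00040004000280017003f8007000380014000000) := Q_17 (nat_lit 78) (C_17 L30718 (C_17 L30643 (C_17 L30684 (C_17 L30695 (C_17 L30704 (C_17 L30820 N_17)))))) (by decide +kernel)
theorem L30822 : W_17 (nat_lit 2) (nat_lit 0x4000200000001000680010000800040002000000000000000) (nat_lit 0x0) (nat_lit 0x20001000080000000000) := D_17 (nat_lit 60) (nat_lit 77) (nat_lit 43) (nat_lit 4) (nat_lit 10) (nat_lit 7) (nat_lit 4) (nat_lit 10) (nat_lit 6) (by decide +kernel)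
theorem L30823 : W_17 (nat_lit 3) (nat_lit 0x4000200000001000680010000800040000000000000000000) (nat_lit 0x0) (nat_lit 0x20000000020003000080000000000) := T_17 (nat_lit 61) (nat_lit 113) (nat_lit 7) (nat_lit 10) (nat_lit 3) L30822 (by decide +kernel)
theorem L30824 : W_17 (nat_lit 4) (nat_lit 0x4000200000001000280010000800040000000000000000000) (nat_lit 0x0) (nat_lit 0x8000400020000000020003000080000000000) := T_17 (nat_lit 130) (nat_lit 147) (nat_lit 7) (nat_lit 10) (nat_lit 4) L30823 (by decide +kernel)
theorem L30825 : W_17 (nat_lit 2) (nat_lit 0x4000200020001000680010000800040002000000000000000) (nat_lit 0x0) (nat_lit 0x80004000200000000000) := D_17 (nat_lit 62) (nat_lit 45) (nat_lit 79) (nat_lit 6) (nat_lit 10) (nat_lit 6) (nat_lit 6) (nat_lit 10) (nat_lit 7) (by decide +kernel)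
theorem L30826 : W_17 (nat_lit 3) (nat_lit 0x4000200020001000680010000800040000000000000000000) (nat_lit 0x0) (nat_lit 0x20000000080006000200000000000) := T_17 (nat_lit 61) (nat_lit 113) (nat_lit 7) (nat_lit 10) (nat_lit 3) L30825 (by decide +kernel)
theorem L30827 : W_17 (nat_lit 4) (nat_lit 0x4000200020001000280010000800040000000000000000000) (nat_lit 0x0) (nat_lit 0x8000400020000000080006000200000000000) := T_17 (nat_lit 130) (nat_lit 147) (nat_lit 7) (nat_lit 10) (nat_lit 4) L30826 (by decide +kernel)
theorem L30828 : W_17 (nat_lit 5) (nat_lit 0x4000200000001000280010000800040000000000000000000) (nat_lit 0x0) (nat_lit 0x400020008000400020000000080006000200000000000) := T_17 (nat_lit 161) (nat_lit 178) (nat_lit 5) (nat_lit 8) (nat_lit 7) L30827 (by decide +kernel)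
theorem L30829 : W_17 (nat_lit 2) (nat_lit 0x4000200000001000780030000c000e0000000000000000000) (nat_lit 0x0) (nat_lit 0x300100000000000000000000) := D_17 (nat_lit 93) (nat_lit 92) (nat_lit 80) (nat_lit 3) (nat_lit 7) (nat_lit 5) (nat_lit 1) (nat_lit 12) (nat_lit 4) (by decide +kernel)
theorem L30830 : W_17 (nat_lit 3) (nat_lit 0x40002000000010007800300008000e0000000000000000000) (nat_lit 0x0) (nat_lit 0x8000700100000000000000000000) := T_17 (nat_lit 94) (nat_lit 111) (nat_lit 5) (nat_lit 9) (nat_lit 4) L30829 (by decide +kernel)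
theorem L30831 : W_17 (nat_lit 4) (nat_lit 0x40002000000010007800300008000c0000000000000000000) (nat_lit 0x0) (nat_lit 0x8000700120001000000000000000) := T_17 (nat_lit 77) (nat_lit 60) (nat_lit 4) (nat_lit 10) (nat_lit 7) L30830 (by decide +kernel)
theorem L30832 : W_17 (nat_lit 5) (nat_lit 0x40002000000010006800300008000c0000000000000000000) (nat_lit 0x0) (nat_lit 0x100048000700120001000000000000000) := T_17 (nat_lit 128) (nat_lit 114) (nat_lit 2) (nat_lit 8) (nat_lit 7) L30831 (by decide +kernel)
theorem L30833 : W_17 (nat_lit 6) (nat_lit 0x40002000000010002800300008000c0000000000000000000) (nat_lit 0x0) (nat_lit 0x8000500048000700120001000000000000000) := T_17 (nat_lit 130) (nat_lit 147) (nat_lit 7) (nat_lit 10) (nat_lit 4) L30832 (by decide +kernel)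
theorem L30834 : W_17 (nat_lit 7) (nat_lit 0x4000200000001000280030000800040000000000000000000) (nat_lit 0x0) (nat_lit 0x80005000480007001a0005000000000000000) := T_17 (nat_lit 79) (nat_lit 62) (nat_lit 6) (nat_lit 10) (nat_lit 7) L30833 (by decide +kernel)
theorem L30835 : W_17 (nat_lit 10) (nat_lit 0x4000200000001000280030000c00040000000000000000000) (nat_lit 0x0) (nat_lit 0x4000200000000000c00070003bc005e00000000000000) := T_17 (nat_lit 161) (nat_lit 178) (nat_lit 5) (nat_lit 8) (nat_lit 7) L30539 (by decide +kernel)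
theorem L30836 : W_17 (nat_lit 2) (nat_lit 0x40002000000010002800b0002d001f0000000000000000000) (nat_lit 0x0) (nat_lit 0x8000c000000000000000000) := D_17 (nat_lit 75) (nat_lit 74) (nat_lit 91) (nat_lit 3) (nat_lit 6) (nat_lit 4) (nat_lit 1) (nat_lit 10) (nat_lit 4) (by decide +kernel)
theorem L30837 : W_17 (nat_lit 3) (nat_lit 0x40002000000010002800b0002d001e0000000000000000000) (nat_lit 0x0) (nat_lit 0x108001c000000000000000000) := T_17 (nat_lit 76) (nat_lit 96) (nat_lit 3) (nat_lit 8) (nat_lit 4) L30836 (by decide +kernel)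
theorem L30838 : W_17 (nat_lit 4) (nat_lit 0x40002000000010002800b0000d001e0000000000000000000) (nat_lit 0x0) (nat_lit 0x708001c000000000000000000) := T_17 (nat_lit 97) (nat_lit 98) (nat_lit 3) (nat_lit 9) (nat_lit 4) L30837 (by decide +kernel)
theorem L30839 : W_17 (nat_lit 5) (nat_lit 0x40002000000010002800b0000d001c0000000000000000000) (nat_lit 0x0) (nat_lit 0x708003c001000000000000000) := T_17 (nat_lit 77) (nat_lit 60) (nat_lit 4) (nat_lit 10) (nat_lit 7) L30838 (by decide +kernel)
theorem L30840 : W_17 (nat_lit 6) (nat_lit 0x40002000000010002800b0000d000c0000000000000000000) (nat_lit 0x0) (nat_lit 0x708033c001000000000000000) := T_17 (nat_lit 80) (nat_lit 81) (nat_lit 1) (nat_lit 13) (nat_lit 4) L30839 (by decide +kernel)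
theorem L30841 : W_17 (nat_lit 7) (nat_lit 0x40002000000010002800b0000d00040000000000000000000) (nat_lit 0x0) (nat_lit 0x70803bc005000000000000000) := T_17 (nat_lit 79) (nat_lit 62) (nat_lit 6) (nat_lit 10) (nat_lit 7) L30840 (by decide +kernel)
theorem L30842 : W_17 (nat_lit 8) (nat_lit 0x4000200000001000280030000d00040000000000000000000) (nat_lit 0x0) (nat_lit 0xc00070803bc005000000000000000) := T_17 (nat_lit 115) (nat_lit 114) (nat_lit 0) (nat_lit 13) (nat_lit 6) L30841 (by decide +kernel)
theorem L30843 : W_17 (nat_lit 9) (nat_lit 0x4000200000001000280030000c00040000000000000000000) (nat_lit 0x0) (nat_lit 0xc00073803bc005000000000000000) := T_17 (nat_lit 92) (nat_lit 93) (nat_lit 3) (nat_lit 7) (nat_lit 5) L30842 (by decide +kernel)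
theorem L30844 : W_17 (nat_lit 4) (nat_lit 0x4000200000001000280030000c00040000000000000000000) (nat_lit 0x0) (nat_lit 0x3001a0005000000000000000) := T_17 (nat_lit 77) (nat_lit 60) (nat_lit 4) (nat_lit 10) (nat_lit 7) L30489 (by decide +kernel)
theorem L30845 : W_17 (nat_lit 2) (nat_lit 0x4000200020001000280078002d00070000000000000000000) (nat_lit 0x0) (nat_lit 0x8000c000000000000000000) := D_17 (nat_lit 75) (nat_lit 91) (nat_lit 74) (nat_lit 1) (nat_lit 10) (nat_lit 4) (nat_lit 3) (nat_lit 6) (nat_lit 4) (by decide +kernel)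
theorem L30846 : W_17 (nat_lit 3) (nat_lit 0x4000200020001000280078002d00060000000000000000000) (nat_lit 0x0) (nat_lit 0x108001c000000000000000000) := T_17 (nat_lit 76) (nat_lit 96) (nat_lit 0) (nat_lit 12) (nat_lit 5) L30845 (by decide +kernel)
theorem L30847 : W_17 (nat_lit 4) (nat_lit 0x4000200020001000280078000d00060000000000000000000) (nat_lit 0x0) (nat_lit 0x708001c000000000000000000) := T_17 (nat_lit 97) (nat_lit 98) (nat_lit 2) (nat_lit 9) (nat_lit 6) L30846 (by decide +kernel)
theorem L30848 : W_17 (nat_lit 5) (nat_lit 0x4000200020001000280038000d00060000000000000000000) (nat_lit 0x0) (nat_lit 0xc000708001c000000000000000000) := T_17 (nat_lit 114) (nat_lit 115) (nat_lit 0) (nat_lit 13) (nat_lit 6) L30847 (by decide +kernel)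
theorem L30849 : W_17 (nat_lit 6) (nat_lit 0x4000200020001000280030000d00060000000000000000000) (nat_lit 0x0) (nat_lit 0x1000c800708001c000000000000000000) := T_17 (nat_lit 111) (nat_lit 128) (nat_lit 5) (nat_lit 9) (nat_lit 4) L30848 (by decide +kernel)
theorem L30850 : W_17 (nat_lit 7) (nat_lit 0x4000200000001000280030000d00060000000000000000000) (nat_lit 0x0) (nat_lit 0x4000200000001000c800708001c000000000000000000) := T_17 (nat_lit 161) (nat_lit 178) (nat_lit 5) (nat_lit 8) (nat_lit 7) L30849 (by decide +kernel)
theorem L30851 : W_17 (nat_lit 8) (nat_lit 0x4000200000001000280030000d00040000000000000000000) (nat_lit 0x0) (nat_lit 0x4000200000001000c800708003c001000000000000000) := T_17 (nat_lit 77) (nat_lit 60) (nat_lit 4) (nat_lit 10) (nat_lit 7) L30850 (by decide +kernel)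
theorem L30852 : W_17 (nat_lit 9) (nat_lit 0x4000200000001000280030000c00040000000000000000000) (nat_lit 0x0) (nat_lit 0x4000200000001000c800738003c001000000000000000) := T_17 (nat_lit 92) (nat_lit 93) (nat_lit 3) (nat_lit 7) (nat_lit 5) L30851 (by decide +kernel)
theorem L30853 : W_17 (nat_lit 2) (nat_lit 0x40002000200010002800b0000e000c0000000000000000000) (nat_lit 0x0) (nat_lit 0x1000300000000000000000000) := D_17 (nat_lit 80) (nat_lit 96) (nat_lit 81) (nat_lit 2) (nat_lit 8) (nat_lit 5) (nat_lit 1) (nat_lit 13) (nat_lit 4) (by decide +kernel)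
theorem L30854 : W_17 (nat_lit 3) (nat_lit 0x40002000200010002800b0000e00040000000000000000000) (nat_lit 0x0) (nat_lit 0x1000380004000000000000000) := T_17 (nat_lit 79) (nat_lit 62) (nat_lit 6) (nat_lit 10) (nat_lit 7) L30853 (by decide +kernel)
theorem L30855 : W_17 (nat_lit 4) (nat_lit 0x40002000000010002800b0000e00040000000000000000000) (nat_lit 0x0) (nat_lit 0x400020000000000000001000380004000000000000000) := T_17 (nat_lit 161) (nat_lit 178) (nat_lit 5) (nat_lit 8) (nat_lit 7) L30854 (by decide +kernel)
theorem L30856 : W_17 (nat_lit 5) (nat_lit 0x40002000000010002800b0000c00040000000000000000000) (nat_lit 0x0) (nat_lit 0x400020000000000000001300380004000000000000000) := T_17 (nat_lit 93) (nat_lit 92) (nat_lit 3) (nat_lit 7) (nat_lit 5) L30855 (by decide +kernel)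
theorem L30857 : W_17 (nat_lit 6) (nat_lit 0x4000200000001000280030000c00040000000000000000000) (nat_lit 0x0) (nat_lit 0x4000200000000000c0001300380004000000000000000) := T_17 (nat_lit 115) (nat_lit 114) (nat_lit 0) (nat_lit 13) (nat_lit 6) L30856 (by decide +kernel)
theorem L30858 : W_17 (nat_lit 11) (nat_lit 0x4000200000001000280030000800040000000000000000000) (nat_lit 0x0) (nat_lit 0x4000200000001000c80077803bc005e00000000000000) := Q_17 (nat_lit 94) (C_17 L30835 (C_17 L30843 (C_17 L30844 (C_17 L30852 (C_17 L30857 N_17))))) (by decide +kernel)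
theorem L30859 : W_17 (nat_lit 7) (nat_lit 0x4000200000001000280030000800040000000000000000000) (nat_lit 0x0) (nat_lit 0x400020018003c000080030000b8005000000000000000) := T_17 (nat_lit 79) (nat_lit 62) (nat_lit 6) (nat_lit 10) (nat_lit 7) L29852 (by decide +kernel)
theorem L30860 : W_17 (nat_lit 2) (nat_lit 0x4000200000001000680070000800040000000000000000000) (nat_lit 0x0) (nat_lit 0x180000400000000000000000000000) := D_17 (nat_lit 115) (nat_lit 116) (nat_lit 94) (nat_lit 1) (nat_lit 14) (nat_lit 6) (nat_lit 0) (nat_lit 13) (nat_lit 6) (by decide +kernel)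
theorem L30861 : W_17 (nat_lit 3) (nat_lit 0x4000200000001000680030000800040000000000000000000) (nat_lit 0x0) (nat_lit 0x1001c0000400000000000000000000000) := T_17 (nat_lit 114) (nat_lit 128) (nat_lit 2) (nat_lit 8) (nat_lit 7) L30860 (by decide +kernel)
theorem L30862 : W_17 (nat_lit 4) (nat_lit 0x4000200000001000280030000800040000000000000000000) (nat_lit 0x0) (nat_lit 0x80005001c0000400000000000000000000000) := T_17 (nat_lit 130) (nat_lit 147) (nat_lit 7) (nat_lit 10) (nat_lit 4) L30861 (by decide +kernel)
theorem L30863 : W_17 (nat_lit 12) (nat_lit 0x4000200000001000280010000800040000000000000000000) (nat_lit 0x0) (nat_lit 0x400020018003d001e800f7803bc00de00000000000000) := Q_17 (nat_lit 113) (C_17 L30834 (C_17 L30858 (C_17 L30737 (C_17 L30859 (C_17 L30862 N_17))))) (by decide +kernel)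
theorem L30864 : W_17 (nat_lit 13) (nat_lit 0x4000200000001000280010000800000000000000000000000) (nat_lit 0x0) (nat_lit 0x400020018003d001e800f7803fc00fe00380014000000) := Q_17 (nat_lit 78) (C_17 L30718 (C_17 L30598 (C_17 L30684 (C_17 L30695 (C_17 L30824 (C_17 L30828 (C_17 L30863 N_17))))))) (by decide +kernel)
theorem L30865 : W_17 (nat_lit 2) (nat_lit 0x400020000000d000780030003d00000000000000000000000) (nat_lit 0x0) (nat_lit 0x800c000000000000000000000000) := D_17 (nat_lit 98) (nat_lit 99) (nat_lit 111) (nat_lit 1) (nat_lit 14) (nat_lit 5) (nat_lit 1) (nat_lit 13) (nat_lit 5) (by decide +kernel)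
theorem L30866 : W_17 (nat_lit 3) (nat_lit 0x400020000000d000780030001d00000000000000000000000) (nat_lit 0x0) (nat_lit 0x800e000100000000000000000000) := T_17 (nat_lit 97) (nat_lit 80) (nat_lit 6) (nat_lit 11) (nat_lit 8) L30865 (by decide +kernel)
theorem L30867 : W_17 (nat_lit 4) (nat_lit 0x400020000000d000780030001c00000000000000000000000) (nat_lit 0x0) (nat_lit 0x800e300100000000000000000000) := T_17 (nat_lit 92) (nat_lit 93) (nat_lit 3) (nat_lit 7) (nat_lit 5) L30866 (by decide +kernel)
theorem L30868 : W_17 (nat_lit 5) (nat_lit 0x400020000000d000780030001800000000000000000000000) (nat_lit 0x0) (nat_lit 0x800e700120000000000000000000) := T_17 (nat_lit 94) (nat_lit 77) (nat_lit 4) (nat_lit 10) (nat_lit 8) L30867 (by decide +kernel)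
theorem L30869 : W_17 (nat_lit 6) (nat_lit 0x400020000000d000780030000800000000000000000000000) (nat_lit 0x0) (nat_lit 0x800f7001a0000000000000000000) := T_17 (nat_lit 96) (nat_lit 79) (nat_lit 6) (nat_lit 10) (nat_lit 8) L30868 (by decide +kernel)
theorem L30870 : W_17 (nat_lit 7) (nat_lit 0x400020000000d000780010000800000000000000000000000) (nat_lit 0x0) (nat_lit 0x6800f7001a0000000000000000000) := T_17 (nat_lit 113) (nat_lit 114) (nat_lit 2) (nat_lit 8) (nat_lit 7) L30869 (by decide +kernel)
theorem L30871 : W_17 (nat_lit 8) (nat_lit 0x400020000000d000680010000800000000000000000000000) (nat_lit 0x0) (nat_lit 0x1000010006800f7001a0000000000000000000) := T_17 (nat_lit 128) (nat_lit 148) (nat_lit 3) (nat_lit 8) (nat_lit 7) L30870 (by decide +kernel)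
theorem L30872 : W_17 (nat_lit 9) (nat_lit 0x4000200000005000680010000800000000000000000000000) (nat_lit 0x0) (nat_lit 0x10001800010006800f7001a0000000000000000000) := T_17 (nat_lit 147) (nat_lit 164) (nat_lit 7) (nat_lit 10) (nat_lit 5) L30871 (by decide +kernel)
theorem L30873 : W_17 (nat_lit 2) (nat_lit 0x400020002000d0007800d0001800000000000000000000000) (nat_lit 0x0) (nat_lit 0x2400020000000000000000000) := D_17 (nat_lit 94) (nat_lit 77) (nat_lit 97) (nat_lit 4) (nat_lit 10) (nat_lit 8) (nat_lit 3) (nat_lit 9) (nat_lit 5) (by decide +kernel)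
theorem L30874 : W_17 (nat_lit 3) (nat_lit 0x400020002000d000780050001800000000000000000000000) (nat_lit 0x0) (nat_lit 0x800080002400020000000000000000000) := T_17 (nat_lit 115) (nat_lit 131) (nat_lit 2) (nat_lit 9) (nat_lit 7) L30873 (by decide +kernel)
theorem L30875 : W_17 (nat_lit 4) (nat_lit 0x400020002000d000780010001800000000000000000000000) (nat_lit 0x0) (nat_lit 0x8000e0002400020000000000000000000) := T_17 (nat_lit 114) (nat_lit 113) (nat_lit 2) (nat_lit 8) (nat_lit 7) L30874 (by decide +kernel)
theorem L30876 : W_17 (nat_lit 5) (nat_lit 0x400020002000d000680010001800000000000000000000000) (nat_lit 0x0) (nat_lit 0x100009000e0002400020000000000000000000) := T_17 (nat_lit 128) (nat_lit 148) (nat_lit 3) (nat_lit 8) (nat_lit 7) L30875 (by decide +kernel)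
theorem L30877 : W_17 (nat_lit 6) (nat_lit 0x4000200020005000680010001800000000000000000000000) (nat_lit 0x0) (nat_lit 0x1000180009000e0002400020000000000000000000) := T_17 (nat_lit 147) (nat_lit 164) (nat_lit 7) (nat_lit 10) (nat_lit 5) L30876 (by decide +kernel)
theorem L30878 : W_17 (nat_lit 7) (nat_lit 0x4000200000005000680010001800000000000000000000000) (nat_lit 0x0) (nat_lit 0x4001200180009000e0002400020000000000000000000) := T_17 (nat_lit 161) (nat_lit 178) (nat_lit 5) (nat_lit 8) (nat_lit 7) L30877 (by decide +kernel)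
theorem L30879 : W_17 (nat_lit 8) (nat_lit 0x4000200000005000680010000800000000000000000000000) (nat_lit 0x0) (nat_lit 0x4001200180009000e00034000a0000000000000000000) := T_17 (nat_lit 96) (nat_lit 79) (nat_lit 6) (nat_lit 10) (nat_lit 8) L30878 (by decide +kernel)
theorem L30880 : W_17 (nat_lit 2) (nat_lit 0x4000200000005001f80050001800000000000000000000000) (nat_lit 0x0) (nat_lit 0x70000000000000000000000000000000000000) := D_17 (nat_lit 149) (nat_lit 148) (nat_lit 150) (nat_lit 3) (nat_lit 9) (nat_lit 7) (nat_lit 3) (nat_lit 10) (nat_lit 7) (by decide +kernel)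
theorem L30881 : W_17 (nat_lit 3) (nat_lit 0x4000200000005000f80050001800000000000000000000000) (nat_lit 0x0) (nat_lit 0x70001000008000000000000000000000000000) := T_17 (nat_lit 132) (nat_lit 111) (nat_lit 0) (nat_lit 13) (nat_lit 7) L30880 (by decide +kernel)
theorem L30882 : W_17 (nat_lit 4) (nat_lit 0x4000200000005000780050001800000000000000000000000) (nat_lit 0x0) (nat_lit 0x70001800088000000000000000000000000000) := T_17 (nat_lit 131) (nat_lit 115) (nat_lit 2) (nat_lit 9) (nat_lit 7) L30881 (by decide +kernel)
theorem L30883 : W_17 (nat_lit 5) (nat_lit 0x4000200000005000680050001800000000000000000000000) (nat_lit 0x0) (nat_lit 0x700019000a8000000000000000000000000000) := T_17 (nat_lit 128) (nat_lit 113) (nat_lit 2) (nat_lit 8) (nat_lit 7) L30882 (by decide +kernel)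
theorem L30884 : W_17 (nat_lit 6) (nat_lit 0x4000200000005000680050000800000000000000000000000) (nat_lit 0x0) (nat_lit 0x700019000a8001000080000000000000000000) := T_17 (nat_lit 96) (nat_lit 79) (nat_lit 6) (nat_lit 10) (nat_lit 8) L30883 (by decide +kernel)
theorem L30885 : W_17 (nat_lit 5) (nat_lit 0x4000200000005000680050000800000000000000000000000) (nat_lit 0x0) (nat_lit 0x9000a00034000a0000000000000000000) := T_17 (nat_lit 128) (nat_lit 113) (nat_lit 2) (nat_lit 8) (nat_lit 7) L30572 (by decide +kernel)
theorem L30886 : W_17 (nat_lit 2) (nat_lit 0x4000200020005000680050001c00000000000000000000000) (nat_lit 0x0) (nat_lit 0xa0002000000000000000000000000) := D_17 (nat_lit 115) (nat_lit 97) (nat_lit 113) (nat_lit 3) (nat_lit 9) (nat_lit 5) (nat_lit 0) (nat_lit 13) (nat_lit 6) (by decide +kernel)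
theorem L30887 : W_17 (nat_lit 3) (nat_lit 0x4000200020005000680050001800000000000000000000000) (nat_lit 0x0) (nat_lit 0xa0002400020000000000000000000) := T_17 (nat_lit 94) (nat_lit 77) (nat_lit 4) (nat_lit 10) (nat_lit 8) L30886 (by decide +kernel)
theorem L30888 : W_17 (nat_lit 4) (nat_lit 0x4000200000005000680050001800000000000000000000000) (nat_lit 0x0) (nat_lit 0x4000200000000000a0002400020000000000000000000) := T_17 (nat_lit 161) (nat_lit 178) (nat_lit 5) (nat_lit 8) (nat_lit 7) L30887 (by decide +kernel)
theorem L30889 : W_17 (nat_lit 5) (nat_lit 0x4000200000005000680050000800000000000000000000000) (nat_lit 0x0) (nat_lit 0x4000200000000000a00034000a0000000000000000000) := T_17 (nat_lit 96) (nat_lit 79) (nat_lit 6) (nat_lit 10) (nat_lit 8) L30888 (by decide +kernel)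
theorem L30890 : W_17 (nat_lit 2) (nat_lit 0x4000200000005000680050003c00200000000000000000000) (nat_lit 0x0) (nat_lit 0x8004000400000000000000000000) := D_17 (nat_lit 98) (nat_lit 111) (nat_lit 82) (nat_lit 1) (nat_lit 13) (nat_lit 5) (nat_lit 2) (nat_lit 10) (nat_lit 5) (by decide +kernel)
theorem L30891 : W_17 (nat_lit 3) (nat_lit 0x4000200000005000680050003c00000000000000000000000) (nat_lit 0x0) (nat_lit 0x8004000700000000000000000000) := T_17 (nat_lit 81) (nat_lit 80) (nat_lit 2) (nat_lit 9) (nat_lit 5) L30890 (by decide +kernel)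
theorem L30892 : W_17 (nat_lit 4) (nat_lit 0x4000200000005000680050001c00000000000000000000000) (nat_lit 0x0) (nat_lit 0x88006000700000000000000000000) := T_17 (nat_lit 97) (nat_lit 115) (nat_lit 3) (nat_lit 9) (nat_lit 5) L30891 (by decide +kernel)
theorem L30893 : W_17 (nat_lit 5) (nat_lit 0x4000200000005000680050000c00000000000000000000000) (nat_lit 0x0) (nat_lit 0x88007000780000000000000000000) := T_17 (nat_lit 96) (nat_lit 79) (nat_lit 6) (nat_lit 10) (nat_lit 8) L30892 (by decide +kernel)
theorem L30894 : W_17 (nat_lit 6) (nat_lit 0x4000200000005000680050000800000000000000000000000) (nat_lit 0x0) (nat_lit 0x880074007a0000000000000000000) := T_17 (nat_lit 94) (nat_lit 77) (nat_lit 4) (nat_lit 10) (nat_lit 8) L30893 (by decide +kernel)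
theorem L30895 : W_17 (nat_lit 2) (nat_lit 0x4000200020005000680050000c00000000000000000000000) (nat_lit 0x0) (nat_lit 0x1000a0000000000000000000000000000) := D_17 (nat_lit 113) (nat_lit 115) (nat_lit 128) (nat_lit 0) (nat_lit 13) (nat_lit 6) (nat_lit 2) (nat_lit 8) (nat_lit 7) (by decide +kernel)
theorem L30896 : W_17 (nat_lit 3) (nat_lit 0x4000200020005000680050000800000000000000000000000) (nat_lit 0x0) (nat_lit 0x1000a0000400020000000000000000000) := T_17 (nat_lit 94) (nat_lit 77) (nat_lit 4) (nat_lit 10) (nat_lit 8) L30895 (by decide +kernel)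
theorem L30897 : W_17 (nat_lit 4) (nat_lit 0x4000200000005000680050000800000000000000000000000) (nat_lit 0x0) (nat_lit 0x4000200000001000a0000400020000000000000000000) := T_17 (nat_lit 161) (nat_lit 178) (nat_lit 5) (nat_lit 8) (nat_lit 7) L30896 (by decide +kernel)
theorem L30898 : W_17 (nat_lit 2) (nat_lit 0x4000200000005000680070000c00000000000000000000000) (nat_lit 0x0) (nat_lit 0x8001200000000000000000000000) := D_17 (nat_lit 93) (nat_lit 96) (nat_lit 111) (nat_lit 3) (nat_lit 8) (nat_lit 5) (nat_lit 0) (nat_lit 12) (nat_lit 6) (by decide +kernel)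
theorem L30899 : W_17 (nat_lit 3) (nat_lit 0x4000200000005000680070000800000000000000000000000) (nat_lit 0x0) (nat_lit 0x8001600020000000000000000000) := T_17 (nat_lit 94) (nat_lit 77) (nat_lit 4) (nat_lit 10) (nat_lit 8) L30898 (by decide +kernel)
theorem L30900 : W_17 (nat_lit 4) (nat_lit 0x4000200000005000680050000800000000000000000000000) (nat_lit 0x0) (nat_lit 0x100028001600020000000000000000000) := T_17 (nat_lit 113) (nat_lit 128) (nat_lit 2) (nat_lit 8) (nat_lit 7) L30899 (by decide +kernel)
theorem L30901 : W_17 (nat_lit 7) (nat_lit 0x4000200000005000680010000800000000000000000000000) (nat_lit 0x0) (nat_lit 0x4000200700019000e80076007a0000000000000000000) := Q_17 (nat_lit 114) (C_17 L30884 (C_17 L30885 (C_17 L30889 (C_17 L30894 (C_17 L30897 (C_17 L30900 N_17)))))) (by decide +kernel)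
theorem L30902 : W_17 (nat_lit 2) (nat_lit 0x400020002005d000680030003d00000000000000000000000) (nat_lit 0x0) (nat_lit 0x800c000000000000000000000000) := D_17 (nat_lit 98) (nat_lit 99) (nat_lit 111) (nat_lit 1) (nat_lit 14) (nat_lit 5) (nat_lit 1) (nat_lit 13) (nat_lit 5) (by decide +kernel)
theorem L30903 : W_17 (nat_lit 3) (nat_lit 0x400020002005d000680030001d00000000000000000000000) (nat_lit 0x0) (nat_lit 0x800e000100000000000000000000) := T_17 (nat_lit 97) (nat_lit 80) (nat_lit 6) (nat_lit 11) (nat_lit 8) L30902 (by decide +kernel)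
theorem L30904 : W_17 (nat_lit 4) (nat_lit 0x400020002001d000680030001d00000000000000000000000) (nat_lit 0x0) (nat_lit 0x6000000000800e000100000000000000000000) := T_17 (nat_lit 150) (nat_lit 149) (nat_lit 0) (nat_lit 14) (nat_lit 8) L30903 (by decide +kernel)
theorem L30905 : W_17 (nat_lit 5) (nat_lit 0x400020002000d000680030001d00000000000000000000000) (nat_lit 0x0) (nat_lit 0x20007000000000800e000100000000000000000000) := T_17 (nat_lit 148) (nat_lit 165) (nat_lit 7) (nat_lit 11) (nat_lit 5) L30904 (by decide +kernel)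
theorem L30906 : W_17 (nat_lit 6) (nat_lit 0x400020002000d000680030001c00000000000000000000000) (nat_lit 0x0) (nat_lit 0x20007000000000800e300100000000000000000000) := T_17 (nat_lit 92) (nat_lit 93) (nat_lit 3) (nat_lit 7) (nat_lit 5) L30905 (by decide +kernel)
theorem L30907 : W_17 (nat_lit 7) (nat_lit 0x400020002000d000680030001800000000000000000000000) (nat_lit 0x0) (nat_lit 0x20007000000000800e700120000000000000000000) := T_17 (nat_lit 94) (nat_lit 77) (nat_lit 4) (nat_lit 10) (nat_lit 8) L30906 (by decide +kernel)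
theorem L30908 : W_17 (nat_lit 8) (nat_lit 0x4000200020005000680030001800000000000000000000000) (nat_lit 0x0) (nat_lit 0x30007800000000800e700120000000000000000000) := T_17 (nat_lit 147) (nat_lit 164) (nat_lit 7) (nat_lit 10) (nat_lit 5) L30907 (by decide +kernel)
theorem L30909 : W_17 (nat_lit 9) (nat_lit 0x4000200020005000680030000800000000000000000000000) (nat_lit 0x0) (nat_lit 0x30007800000000800f7001a0000000000000000000) := T_17 (nat_lit 96) (nat_lit 79) (nat_lit 6) (nat_lit 10) (nat_lit 8) L30908 (by decide +kernel)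
theorem L30910 : W_17 (nat_lit 10) (nat_lit 0x4000200000005000680030000800000000000000000000000) (nat_lit 0x0) (nat_lit 0x40032007800000000800f7001a0000000000000000000) := T_17 (nat_lit 161) (nat_lit 178) (nat_lit 5) (nat_lit 8) (nat_lit 7) L30909 (by decide +kernel)
theorem L30911 : W_17 (nat_lit 2) (nat_lit 0x400020002000d000680030003800000000000000000000000) (nat_lit 0x0) (nat_lit 0x800c000000000000000000000000) := D_17 (nat_lit 98) (nat_lit 99) (nat_lit 111) (nat_lit 1) (nat_lit 14) (nat_lit 5) (nat_lit 1) (nat_lit 13) (nat_lit 5) (by decide +kernel)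
theorem L30912 : W_17 (nat_lit 3) (nat_lit 0x400020002000d000680030001800000000000000000000000) (nat_lit 0x0) (nat_lit 0x800e000100000000000000000000) := T_17 (nat_lit 97) (nat_lit 80) (nat_lit 6) (nat_lit 11) (nat_lit 8) L30911 (by decide +kernel)
theorem L30913 : W_17 (nat_lit 4) (nat_lit 0x400020000000d000680030001800000000000000000000000) (nat_lit 0x0) (nat_lit 0x40002000000000000800e000100000000000000000000) := T_17 (nat_lit 161) (nat_lit 178) (nat_lit 5) (nat_lit 8) (nat_lit 7) L30912 (by decide +kernel)
theorem L30914 : W_17 (nat_lit 5) (nat_lit 0x400020000000d000680030000800000000000000000000000) (nat_lit 0x0) (nat_lit 0x40002000000000000800f000180000000000000000000) := T_17 (nat_lit 96) (nat_lit 79) (nat_lit 6) (nat_lit 10) (nat_lit 8) L30913 (by decide +kernel)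
theorem L30915 : W_17 (nat_lit 6) (nat_lit 0x4000200000005000680030000800000000000000000000000) (nat_lit 0x0) (nat_lit 0x40012000800000000800f000180000000000000000000) := T_17 (nat_lit 147) (nat_lit 164) (nat_lit 7) (nat_lit 10) (nat_lit 5) L30914 (by decide +kernel)
theorem L30916 : W_17 (nat_lit 2) (nat_lit 0x4000200000005000680030000e00000000000000000000000) (nat_lit 0x0) (nat_lit 0xc8000000000000000000000000000) := D_17 (nat_lit 114) (nat_lit 115) (nat_lit 111) (nat_lit 0) (nat_lit 13) (nat_lit 6) (nat_lit 0) (nat_lit 12) (nat_lit 6) (by decide +kernel)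
theorem L30917 : W_17 (nat_lit 3) (nat_lit 0x4000200000005000680030000c00000000000000000000000) (nat_lit 0x0) (nat_lit 0xc8000300000000000000000000000) := T_17 (nat_lit 93) (nat_lit 92) (nat_lit 3) (nat_lit 7) (nat_lit 5) L30916 (by decide +kernel)
theorem L30918 : W_17 (nat_lit 4) (nat_lit 0x4000200000005000680030000800000000000000000000000) (nat_lit 0x0) (nat_lit 0xc8000700020000000000000000000) := T_17 (nat_lit 94) (nat_lit 77) (nat_lit 4) (nat_lit 10) (nat_lit 8) L30917 (by decide +kernel)
theorem L30919 : W_17 (nat_lit 11) (nat_lit 0x4000200000005000680010000800000000000000000000000) (nat_lit 0x0) (nat_lit 0x4003200780000000e800f7001a0000000000000000000) := Q_17 (nat_lit 113) (C_17 L30778 (C_17 L30910 (C_17 L30915 (C_17 L30918 N_17)))) (by decide +kernel)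
theorem L30920 : W_17 (nat_lit 2) (nat_lit 0x400020002005d000680030003c00000000000000000000000) (nat_lit 0x0) (nat_lit 0x800c000000000000000000000000) := D_17 (nat_lit 98) (nat_lit 99) (nat_lit 111) (nat_lit 1) (nat_lit 14) (nat_lit 5) (nat_lit 1) (nat_lit 13) (nat_lit 5) (by decide +kernel)
theorem L30921 : W_17 (nat_lit 3) (nat_lit 0x400020002005d000680030001c00000000000000000000000) (nat_lit 0x0) (nat_lit 0x800e000100000000000000000000) := T_17 (nat_lit 97) (nat_lit 80) (nat_lit 6) (nat_lit 11) (nat_lit 8) L30920 (by decide +kernel)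
theorem L30922 : W_17 (nat_lit 4) (nat_lit 0x400020002005d000680010001c00000000000000000000000) (nat_lit 0x0) (nat_lit 0x20000000000002800e000100000000000000000000) := T_17 (nat_lit 113) (nat_lit 165) (nat_lit 7) (nat_lit 11) (nat_lit 5) L30921 (by decide +kernel)
theorem L30923 : W_17 (nat_lit 5) (nat_lit 0x400020002001d000680010001c00000000000000000000000) (nat_lit 0x0) (nat_lit 0x20006000000002800e000100000000000000000000) := T_17 (nat_lit 150) (nat_lit 149) (nat_lit 0) (nat_lit 14) (nat_lit 8) L30922 (by decide +kernel)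
theorem L30924 : W_17 (nat_lit 6) (nat_lit 0x400020002000d000680010001c00000000000000000000000) (nat_lit 0x0) (nat_lit 0x20007000010002800e000100000000000000000000) := T_17 (nat_lit 148) (nat_lit 128) (nat_lit 3) (nat_lit 8) (nat_lit 7) L30923 (by decide +kernel)
theorem L30925 : W_17 (nat_lit 7) (nat_lit 0x4000200020005000680010001c00000000000000000000000) (nat_lit 0x0) (nat_lit 0x30007800010002800e000100000000000000000000) := T_17 (nat_lit 147) (nat_lit 164) (nat_lit 7) (nat_lit 10) (nat_lit 5) L30924 (by decide +kernel)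
theorem L30926 : W_17 (nat_lit 8) (nat_lit 0x4000200000005000680010001c00000000000000000000000) (nat_lit 0x0) (nat_lit 0x40032007800010002800e000100000000000000000000) := T_17 (nat_lit 161) (nat_lit 178) (nat_lit 5) (nat_lit 8) (nat_lit 7) L30925 (by decide +kernel)
theorem L30927 : W_17 (nat_lit 9) (nat_lit 0x4000200000005000680010001800000000000000000000000) (nat_lit 0x0) (nat_lit 0x40032007800010002800e400120000000000000000000) := T_17 (nat_lit 94) (nat_lit 77) (nat_lit 4) (nat_lit 10) (nat_lit 8) L30926 (by decide +kernel)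
theorem L30928 : W_17 (nat_lit 10) (nat_lit 0x4000200000005000680010000800000000000000000000000) (nat_lit 0x0) (nat_lit 0x40032007800010002800f4001a0000000000000000000) := T_17 (nat_lit 96) (nat_lit 79) (nat_lit 6) (nat_lit 10) (nat_lit 8) L30927 (by decide +kernel)
theorem L30929 : W_17 (nat_lit 7) (nat_lit 0x4000200000005000680010000800000000000000000000000) (nat_lit 0x0) (nat_lit 0x4001200080000000e800f7001a0000000000000000000) := Q_17 (nat_lit 113) (C_17 L30918 (C_17 L30778 (C_17 L30915 N_17))) (by decide +kernel)
theorem L30930 : W_17 (nat_lit 2) (nat_lit 0x400020002000d000780030003800000000000000000000000) (nat_lit 0x0) (nat_lit 0x800c000000000000000000000000) := D_17 (nat_lit 98) (nat_lit 99) (nat_lit 111) (nat_lit 1) (nat_lit 14) (nat_lit 5) (nat_lit 1) (nat_lit 13) (nat_lit 5) (by decide +kernel)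
theorem L30931 : W_17 (nat_lit 3) (nat_lit 0x400020002000d000780030001800000000000000000000000) (nat_lit 0x0) (nat_lit 0x800e000100000000000000000000) := T_17 (nat_lit 97) (nat_lit 80) (nat_lit 6) (nat_lit 11) (nat_lit 8) L30930 (by decide +kernel)
theorem L30932 : W_17 (nat_lit 4) (nat_lit 0x400020002000d000780010001800000000000000000000000) (nat_lit 0x0) (nat_lit 0x6800e000100000000000000000000) := T_17 (nat_lit 113) (nat_lit 114) (nat_lit 2) (nat_lit 8) (nat_lit 7) L30931 (by decide +kernel)
theorem L30933 : W_17 (nat_lit 5) (nat_lit 0x400020002000d000680010001800000000000000000000000) (nat_lit 0x0) (nat_lit 0x1000010006800e000100000000000000000000) := T_17 (nat_lit 128) (nat_lit 148) (nat_lit 3) (nat_lit 8) (nat_lit 7) L30932 (by decide +kernel)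
theorem L30934 : W_17 (nat_lit 6) (nat_lit 0x4000200020005000680010001800000000000000000000000) (nat_lit 0x0) (nat_lit 0x10001800010006800e000100000000000000000000) := T_17 (nat_lit 147) (nat_lit 164) (nat_lit 7) (nat_lit 10) (nat_lit 5) L30933 (by decide +kernel)
theorem L30935 : W_17 (nat_lit 7) (nat_lit 0x4000200000005000680010001800000000000000000000000) (nat_lit 0x0) (nat_lit 0x40012001800010006800e000100000000000000000000) := T_17 (nat_lit 161) (nat_lit 178) (nat_lit 5) (nat_lit 8) (nat_lit 7) L30934 (by decide +kernel)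
theorem L30936 : W_17 (nat_lit 8) (nat_lit 0x4000200000005000680010000800000000000000000000000) (nat_lit 0x0) (nat_lit 0x40012001800010006800f000180000000000000000000) := T_17 (nat_lit 96) (nat_lit 79) (nat_lit 6) (nat_lit 10) (nat_lit 8) L30935 (by decide +kernel)
theorem L30937 : W_17 (nat_lit 2) (nat_lit 0x400020040003d001e80010001c00000000000000000000000) (nat_lit 0x0) (nat_lit 0x100008000000000000000040000000000000000000000000000) := D_17 (nat_lit 183) (nat_lit 114) (nat_lit 200) (nat_lit 4) (nat_lit 13) (nat_lit 10) (nat_lit 4) (nat_lit 13) (nat_lit 11) (by decide +kernel)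
theorem L30938 : W_17 (nat_lit 3) (nat_lit 0x400020040003d001680010001c00000000000000000000000) (nat_lit 0x0) (nat_lit 0x100008000000000000800048000000000000000000000000000) := T_17 (nat_lit 131) (nat_lit 111) (nat_lit 0) (nat_lit 13) (nat_lit 7) L30937 (by decide +kernel)
theorem L30939 : W_17 (nat_lit 4) (nat_lit 0x400020040003d000680010001c00000000000000000000000) (nat_lit 0x0) (nat_lit 0x100008000000000003800048000000000000000000000000000) := T_17 (nat_lit 132) (nat_lit 133) (nat_lit 2) (nat_lit 10) (nat_lit 8) L30938 (by decide +kernel)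
theorem L30940 : W_17 (nat_lit 5) (nat_lit 0x400020000003d000680010001c00000000000000000000000) (nat_lit 0x0) (nat_lit 0x100008000c00000003800048000000000000000000000000000) := T_17 (nat_lit 166) (nat_lit 167) (nat_lit 3) (nat_lit 10) (nat_lit 8) L30939 (by decide +kernel)
theorem L30941 : W_17 (nat_lit 6) (nat_lit 0x400020000003d000680010000c00000000000000000000000) (nat_lit 0x0) (nat_lit 0x100008000c00000003800048001000080000000000000000000) := T_17 (nat_lit 96) (nat_lit 79) (nat_lit 6) (nat_lit 10) (nat_lit 8) L30940 (by decide +kernel)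
theorem L30942 : W_17 (nat_lit 7) (nat_lit 0x400020000001d000680010000c00000000000000000000000) (nat_lit 0x0) (nat_lit 0x100008000c00060003800048001000080000000000000000000) := T_17 (nat_lit 149) (nat_lit 150) (nat_lit 0) (nat_lit 14) (nat_lit 8) L30941 (by decide +kernel)
theorem L30943 : W_17 (nat_lit 8) (nat_lit 0x400020000001d000680010000800000000000000000000000) (nat_lit 0x0) (nat_lit 0x100008000c000600038000480014000a0000000000000000000) := T_17 (nat_lit 94) (nat_lit 77) (nat_lit 4) (nat_lit 10) (nat_lit 8) L30942 (by decide +kernel)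
theorem L30944 : W_17 (nat_lit 9) (nat_lit 0x400020000000d000680010000800000000000000000000000) (nat_lit 0x0) (nat_lit 0x100008000c000700039000480014000a0000000000000000000) := T_17 (nat_lit 148) (nat_lit 128) (nat_lit 3) (nat_lit 8) (nat_lit 7) L30943 (by decide +kernel)
theorem L30945 : W_17 (nat_lit 10) (nat_lit 0x4000200000005000680010000800000000000000000000000) (nat_lit 0x0) (nat_lit 0x100008000d000780039000480014000a0000000000000000000) := T_17 (nat_lit 147) (nat_lit 164) (nat_lit 7) (nat_lit 10) (nat_lit 5) L30944 (by decide +kernel)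
theorem L30946 : W_17 (nat_lit 2) (nat_lit 0x400020002000d000f80050000c00000000000000000000000) (nat_lit 0x0) (nat_lit 0x3000008000000000000000000000000000) := D_17 (nat_lit 132) (nat_lit 133) (nat_lit 111) (nat_lit 1) (nat_lit 14) (nat_lit 7) (nat_lit 0) (nat_lit 13) (nat_lit 7) (by decide +kernel)
theorem L30947 : W_17 (nat_lit 3) (nat_lit 0x400020002000d000780050000c00000000000000000000000) (nat_lit 0x0) (nat_lit 0x3800088000000000000000000000000000) := T_17 (nat_lit 131) (nat_lit 115) (nat_lit 2) (nat_lit 9) (nat_lit 7) L30946 (by decide +kernel)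
theorem L30948 : W_17 (nat_lit 4) (nat_lit 0x400020002000d000780050000800000000000000000000000) (nat_lit 0x0) (nat_lit 0x3800088000400020000000000000000000) := T_17 (nat_lit 94) (nat_lit 77) (nat_lit 4) (nat_lit 10) (nat_lit 8) L30947 (by decide +kernel)
theorem L30949 : W_17 (nat_lit 5) (nat_lit 0x400020002000d000780010000800000000000000000000000) (nat_lit 0x0) (nat_lit 0x38000e8000400020000000000000000000) := T_17 (nat_lit 114) (nat_lit 113) (nat_lit 2) (nat_lit 8) (nat_lit 7) L30948 (by decide +kernel)
theorem L30950 : W_17 (nat_lit 6) (nat_lit 0x400020002000d000680010000800000000000000000000000) (nat_lit 0x0) (nat_lit 0x100039000e8000400020000000000000000000) := T_17 (nat_lit 128) (nat_lit 148) (nat_lit 3) (nat_lit 8) (nat_lit 7) L30949 (by decide +kernel)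
theorem L30951 : W_17 (nat_lit 7) (nat_lit 0x4000200020005000680010000800000000000000000000000) (nat_lit 0x0) (nat_lit 0x1000180039000e8000400020000000000000000000) := T_17 (nat_lit 147) (nat_lit 164) (nat_lit 7) (nat_lit 10) (nat_lit 5) L30950 (by decide +kernel)
theorem L30952 : W_17 (nat_lit 8) (nat_lit 0x4000200000005000680010000800000000000000000000000) (nat_lit 0x0) (nat_lit 0x4001200180039000e8000400020000000000000000000) := T_17 (nat_lit 161) (nat_lit 178) (nat_lit 5) (nat_lit 8) (nat_lit 7) L30951 (by decide +kernel)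
theorem L30953 : W_17 (nat_lit 12) (nat_lit 0x4000200000005000280010000800000000000000000000000) (nat_lit 0x0) (nat_lit 0x100008400f20078003d000e800f7007a0000000000000000000) := Q_17 (nat_lit 130) (C_17 L30872 (C_17 L30879 (C_17 L30901 (C_17 L30919 (C_17 L30928 (C_17 L30929 (C_17 L30936 (C_17 L30945 (C_17 L30952 N_17))))))))) (by decide +kernel)
theorem L30954 : W_17 (nat_lit 13) (nat_lit 0x4000200000001000280010000800000000000000000000000) (nat_lit 0x0) (nat_lit 0x15200bc00ff007c003d000e800f7007a0000000000000000000) := Q_17 (nat_lit 146) (C_17 L30953 (C_17 L30794 (C_17 L30639 (C_17 L30628 (C_17 L30633 N_17))))) (by decide +kernel)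
theorem L30955 : W_17 (nat_lit 2) (nat_lit 0x400020000000d000280010000800040000000000000000000) (nat_lit 0x0) (nat_lit 0x1000080004000000000000000) := D_17 (nat_lit 79) (nat_lit 62) (nat_lit 96) (nat_lit 6) (nat_lit 10) (nat_lit 7) (nat_lit 6) (nat_lit 10) (nat_lit 8) (by decide +kernel)
theorem L30956 : W_17 (nat_lit 3) (nat_lit 0x400020000000d000280010000800000000000000000000000) (nat_lit 0x0) (nat_lit 0x4000000010000c0004000000000000000) := T_17 (nat_lit 78) (nat_lit 130) (nat_lit 7) (nat_lit 10) (nat_lit 4) L30955 (by decide +kernel)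
theorem L30957 : W_17 (nat_lit 4) (nat_lit 0x4000200000005000280010000800000000000000000000000) (nat_lit 0x0) (nat_lit 0x1000080004000000010000c0004000000000000000) := T_17 (nat_lit 147) (nat_lit 164) (nat_lit 7) (nat_lit 10) (nat_lit 5) L30956 (by decide +kernel)
theorem L30958 : W_17 (nat_lit 2) (nat_lit 0x400020002000d000780030000800000000000000000000000) (nat_lit 0x0) (nat_lit 0x1000080000000000000001000000000000000000000000) := D_17 (nat_lit 163) (nat_lit 96) (nat_lit 180) (nat_lit 6) (nat_lit 10) (nat_lit 9) (nat_lit 6) (nat_lit 10) (nat_lit 10) (by decide +kernel)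
theorem L30959 : W_17 (nat_lit 3) (nat_lit 0x400020002000d000780010000800000000000000000000000) (nat_lit 0x0) (nat_lit 0x1000080000000000060001000000000000000000000000) := T_17 (nat_lit 113) (nat_lit 114) (nat_lit 2) (nat_lit 8) (nat_lit 7) L30958 (by decide +kernel)
theorem L30960 : W_17 (nat_lit 4) (nat_lit 0x400020002000d000680010000800000000000000000000000) (nat_lit 0x0) (nat_lit 0x1000080010000100060001000000000000000000000000) := T_17 (nat_lit 128) (nat_lit 148) (nat_lit 3) (nat_lit 8) (nat_lit 7) L30959 (by decide +kernel)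
theorem L30961 : W_17 (nat_lit 5) (nat_lit 0x400020002000d000280010000800000000000000000000000) (nat_lit 0x0) (nat_lit 0x1000080010000500060001000040000000000000000000) := T_17 (nat_lit 130) (nat_lit 78) (nat_lit 7) (nat_lit 10) (nat_lit 4) L30960 (by decide +kernel)
theorem L30962 : W_17 (nat_lit 6) (nat_lit 0x4000200020005000280010000800000000000000000000000) (nat_lit 0x0) (nat_lit 0x1000180018000500060001000040000000000000000000) := T_17 (nat_lit 147) (nat_lit 164) (nat_lit 7) (nat_lit 10) (nat_lit 5) L30961 (by decide +kernel)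
theorem L30963 : W_17 (nat_lit 7) (nat_lit 0x4000200000005000280010000800000000000000000000000) (nat_lit 0x0) (nat_lit 0x14001a0018000500060001000040000000000000000000) := T_17 (nat_lit 161) (nat_lit 178) (nat_lit 5) (nat_lit 8) (nat_lit 7) L30962 (by decide +kernel)
theorem L30964 : W_17 (nat_lit 2) (nat_lit 0x400020000000d000280010000800040005000000000000000) (nat_lit 0x0) (nat_lit 0x2000280000000000) := D_17 (nat_lit 61) (nat_lit 45) (nat_lit 43) (nat_lit 6) (nat_lit 10) (nat_lit 6) (nat_lit 4) (nat_lit 10) (nat_lit 6) (by decide +kernel)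
theorem L30965 : W_17 (nat_lit 3) (nat_lit 0x400020000000d000280010000800040004000000000000000) (nat_lit 0x0) (nat_lit 0x20003000280000000000) := T_17 (nat_lit 60) (nat_lit 77) (nat_lit 4) (nat_lit 10) (nat_lit 7) L30964 (by decide +kernel)
theorem L30966 : W_17 (nat_lit 4) (nat_lit 0x400020000000d000280010000800040000000000000000000) (nat_lit 0x0) (nat_lit 0xa0007000280000000000) := T_17 (nat_lit 62) (nat_lit 79) (nat_lit 6) (nat_lit 10) (nat_lit 7) L30965 (by decide +kernel)
theorem L30967 : W_17 (nat_lit 5) (nat_lit 0x400020000000d000280010000800000000000000000000000) (nat_lit 0x0) (nat_lit 0x4000000000000e0007000280000000000) := T_17 (nat_lit 78) (nat_lit 130) (nat_lit 7) (nat_lit 10) (nat_lit 4) L30966 (by decide +kernel)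
theorem L30968 : W_17 (nat_lit 6) (nat_lit 0x4000200000005000280010000800000000000000000000000) (nat_lit 0x0) (nat_lit 0x1000080004000000000000e0007000280000000000) := T_17 (nat_lit 147) (nat_lit 164) (nat_lit 7) (nat_lit 10) (nat_lit 5) L30967 (by decide +kernel)
theorem L30969 : W_17 (nat_lit 9) (nat_lit 0x4000200000001000280010000800000000000000000000000) (nat_lit 0x0) (nat_lit 0x40003c001f003c0005000600010000e0007000280000000000) := Q_17 (nat_lit 146) (C_17 L30628 (C_17 L30752 (C_17 L30957 (C_17 L30963 (C_17 L30968 N_17))))) (by decide +kernel)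
theorem L30970 : W_17 (nat_lit 3) (nat_lit 0x400020002000d000280010000800000000000000000000000) (nat_lit 0x0) (nat_lit 0x400000000400060001000000000000000) := T_17 (nat_lit 78) (nat_lit 130) (nat_lit 7) (nat_lit 10) (nat_lit 4) L30755 (by decide +kernel)
theorem L30971 : W_17 (nat_lit 4) (nat_lit 0x4000200020005000280010000800000000000000000000000) (nat_lit 0x0) (nat_lit 0x100008000400000000400060001000000000000000) := T_17 (nat_lit 147) (nat_lit 164) (nat_lit 7) (nat_lit 10) (nat_lit 5) L30970 (by decide +kernel)
theorem L30972 : W_17 (nat_lit 5) (nat_lit 0x4000200000005000280010000800000000000000000000000) (nat_lit 0x0) (nat_lit 0x400120008000400000000400060001000000000000000) := T_17 (nat_lit 161) (nat_lit 178) (nat_lit 5) (nat_lit 8) (nat_lit 7) L30971 (by decide +kernel)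
theorem L30973 : W_17 (nat_lit 2) (nat_lit 0x400020000000d000280018000c00040000000000000000000) (nat_lit 0x0) (nat_lit 0x100000000000000002000100000000000) := D_17 (nat_lit 61) (nat_lit 44) (nat_lit 128) (nat_lit 5) (nat_lit 10) (nat_lit 2) (nat_lit 5) (nat_lit 10) (nat_lit 3) (by decide +kernel)
theorem L30974 : W_17 (nat_lit 3) (nat_lit 0x400020000000d000280010000c00040000000000000000000) (nat_lit 0x0) (nat_lit 0x80000000100008000000000002000100000000000) := T_17 (nat_lit 111) (nat_lit 163) (nat_lit 4) (nat_lit 10) (nat_lit 9) L30973 (by decide +kernel)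
theorem L30975 : W_17 (nat_lit 4) (nat_lit 0x400020000000d000280010000c00000000000000000000000) (nat_lit 0x0) (nat_lit 0x80000000500008000000040002000100000000000) := T_17 (nat_lit 78) (nat_lit 130) (nat_lit 7) (nat_lit 10) (nat_lit 4) L30974 (by decide +kernel)
theorem L30976 : W_17 (nat_lit 5) (nat_lit 0x4000200000005000280010000c00000000000000000000000) (nat_lit 0x0) (nat_lit 0x180008000500008000000040002000100000000000) := T_17 (nat_lit 147) (nat_lit 164) (nat_lit 7) (nat_lit 10) (nat_lit 5) L30975 (by decide +kernel)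
theorem L30977 : W_17 (nat_lit 6) (nat_lit 0x4000200000005000280010000800000000000000000000000) (nat_lit 0x0) (nat_lit 0x180008000500008000400060002000100000000000) := T_17 (nat_lit 94) (nat_lit 77) (nat_lit 4) (nat_lit 10) (nat_lit 8) L30976 (by decide +kernel)
theorem L30978 : W_17 (nat_lit 2) (nat_lit 0x40002001e0005000680030000d00000000000000000000000) (nat_lit 0x0) (nat_lit 0x1000c0000000000000000000000000000) := D_17 (nat_lit 114) (nat_lit 115) (nat_lit 128) (nat_lit 0) (nat_lit 13) (nat_lit 6) (nat_lit 2) (nat_lit 8) (nat_lit 7) (by decide +kernel)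
theorem L30979 : W_17 (nat_lit 3) (nat_lit 0x40002001e0005000280030000d00000000000000000000000) (nat_lit 0x0) (nat_lit 0x10000000000005000c0000000000000000000000000000) := T_17 (nat_lit 130) (nat_lit 180) (nat_lit 6) (nat_lit 10) (nat_lit 10) L30978 (by decide +kernel)
theorem L30980 : W_17 (nat_lit 4) (nat_lit 0x40002001e0005000280030000c00000000000000000000000) (nat_lit 0x0) (nat_lit 0x10000000000005000c0000300000000000000000000000) := T_17 (nat_lit 92) (nat_lit 93) (nat_lit 3) (nat_lit 7) (nat_lit 5) L30979 (by decide +kernel)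
theorem L30981 : W_17 (nat_lit 5) (nat_lit 0x40002001e0005000280010000c00000000000000000000000) (nat_lit 0x0) (nat_lit 0x10000000000005000e0001300000000000000000000000) := T_17 (nat_lit 113) (nat_lit 96) (nat_lit 6) (nat_lit 10) (nat_lit 9) L30980 (by decide +kernel)
theorem L30982 : W_17 (nat_lit 6) (nat_lit 0x40002000e0005000280010000c00000000000000000000000) (nat_lit 0x0) (nat_lit 0x30001000000005000e0001300000000000000000000000) := T_17 (nat_lit 164) (nat_lit 181) (nat_lit 7) (nat_lit 10) (nat_lit 6) L30981 (by decide +kernel)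
theorem L30983 : W_17 (nat_lit 7) (nat_lit 0x40002000a0005000280010000c00000000000000000000000) (nat_lit 0x0) (nat_lit 0x38001400000005000e0001300000000000000000000000) := T_17 (nat_lit 162) (nat_lit 179) (nat_lit 5) (nat_lit 10) (nat_lit 6) L30982 (by decide +kernel)
theorem L30984 : W_17 (nat_lit 8) (nat_lit 0x4000200020005000280010000c00000000000000000000000) (nat_lit 0x0) (nat_lit 0x38001c00000005000e8001300000000000000000000000) := T_17 (nat_lit 163) (nat_lit 111) (nat_lit 4) (nat_lit 10) (nat_lit 9) L30983 (by decide +kernel)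
theorem L30985 : W_17 (nat_lit 9) (nat_lit 0x4000200000005000280010000c00000000000000000000000) (nat_lit 0x0) (nat_lit 0x3c001e00000005000e8001300000000000000000000000) := T_17 (nat_lit 161) (nat_lit 178) (nat_lit 5) (nat_lit 8) (nat_lit 7) L30984 (by decide +kernel)
theorem L30986 : W_17 (nat_lit 10) (nat_lit 0x4000200000005000280010000800000000000000000000000) (nat_lit 0x0) (nat_lit 0x3c001e00000005000e8001700020000000000000000000) := T_17 (nat_lit 94) (nat_lit 77) (nat_lit 4) (nat_lit 10) (nat_lit 8) L30985 (by decide +kernel)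
theorem L30987 : W_17 (nat_lit 2) (nat_lit 0x40002000f0005000280030000c00000000000000000000000) (nat_lit 0x0) (nat_lit 0x3000000000000400000000000000000000000000000000) := D_17 (nat_lit 180) (nat_lit 181) (nat_lit 130) (nat_lit 3) (nat_lit 7) (nat_lit 9) (nat_lit 6) (nat_lit 10) (nat_lit 10) (by decide +kernel)
theorem L30988 : W_17 (nat_lit 3) (nat_lit 0x40002000f0005000280010000c00000000000000000000000) (nat_lit 0x0) (nat_lit 0x3000000000000400020001000000000000000000000000) := T_17 (nat_lit 113) (nat_lit 96) (nat_lit 6) (nat_lit 10) (nat_lit 9) L30987 (by decide +kernel)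
theorem L30989 : W_17 (nat_lit 4) (nat_lit 0x40002000e0005000280010000c00000000000000000000000) (nat_lit 0x0) (nat_lit 0x3000010008000400020001000000000000000000000000) := T_17 (nat_lit 160) (nat_lit 147) (nat_lit 2) (nat_lit 7) (nat_lit 9) L30988 (by decide +kernel)
theorem L30990 : W_17 (nat_lit 5) (nat_lit 0x40002000a0005000280010000c00000000000000000000000) (nat_lit 0x0) (nat_lit 0x3800050008000400020001000000000000000000000000) := T_17 (nat_lit 162) (nat_lit 179) (nat_lit 5) (nat_lit 10) (nat_lit 6) L30989 (by decide +kernel)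
theorem L30991 : W_17 (nat_lit 6) (nat_lit 0x4000200020005000280010000c00000000000000000000000) (nat_lit 0x0) (nat_lit 0x38000d0008000400028001000000000000000000000000) := T_17 (nat_lit 163) (nat_lit 111) (nat_lit 4) (nat_lit 10) (nat_lit 9) L30990 (by decide +kernel)
theorem L30992 : W_17 (nat_lit 7) (nat_lit 0x4000200000005000280010000c00000000000000000000000) (nat_lit 0x0) (nat_lit 0x3c000f0008000400028001000000000000000000000000) := T_17 (nat_lit 161) (nat_lit 178) (nat_lit 5) (nat_lit 8) (nat_lit 7) L30991 (by decide +kernel)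
theorem L30993 : W_17 (nat_lit 8) (nat_lit 0x4000200000005000280010000800000000000000000000000) (nat_lit 0x0) (nat_lit 0x3c000f0008000400028001400020000000000000000000) := T_17 (nat_lit 94) (nat_lit 77) (nat_lit 4) (nat_lit 10) (nat_lit 8) L30992 (by decide +kernel)
theorem L30994 : W_17 (nat_lit 11) (nat_lit 0x4000200000001000280010000800000000000000000000000) (nat_lit 0x0) (nat_lit 0x3c001f001c0005000e8001700060003000100000000000) := Q_17 (nat_lit 146) (C_17 L30633 (C_17 L30972 (C_17 L30977 (C_17 L30986 (C_17 L30963 (C_17 L30993 N_17)))))) (by decide +kernel)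
theorem L30995 : W_17 (nat_lit 7) (nat_lit 0x4000200000001000280010000800000000000000000000000) (nat_lit 0x0) (nat_lit 0x40002000c0004000200007001e0007000280000000000) := Q_17 (nat_lit 78) (C_17 L30718 (C_17 L30828 (C_17 L30824 (C_17 L30689 N_17)))) (by decide +kernel)
theorem L30996 : W_17 (nat_lit 2) (nat_lit 0x400020002000d000280018000800040006000000000000000) (nat_lit 0x0) (nat_lit 0x80000000000000000400000000000100000000000) := D_17 (nat_lit 94) (nat_lit 44) (nat_lit 163) (nat_lit 5) (nat_lit 10) (nat_lit 2) (nat_lit 4) (nat_lit 10) (nat_lit 9) (by decide +kernel)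
theorem L30997 : W_17 (nat_lit 3) (nat_lit 0x400020002000d000280010000800040006000000000000000) (nat_lit 0x0) (nat_lit 0x80000000100008000400000000000100000000000) := T_17 (nat_lit 111) (nat_lit 128) (nat_lit 5) (nat_lit 10) (nat_lit 3) L30996 (by decide +kernel)
theorem L30998 : W_17 (nat_lit 4) (nat_lit 0x400020002000d000280010000800040004000000000000000) (nat_lit 0x0) (nat_lit 0x80000000100008000400000002000300000000000) := T_17 (nat_lit 61) (nat_lit 45) (nat_lit 6) (nat_lit 10) (nat_lit 6) L30997 (by decide +kernel)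
theorem L30999 : W_17 (nat_lit 5) (nat_lit 0x400020002000d000280010000800040000000000000000000) (nat_lit 0x0) (nat_lit 0x80000000100008000400080006000300000000000) := T_17 (nat_lit 62) (nat_lit 79) (nat_lit 6) (nat_lit 10) (nat_lit 7) L30998 (by decide +kernel)
theorem L31000 : W_17 (nat_lit 6) (nat_lit 0x400020002000d000280010000800000000000000000000000) (nat_lit 0x0) (nat_lit 0x800000005000080004000c0006000300000000000) := T_17 (nat_lit 78) (nat_lit 130) (nat_lit 7) (nat_lit 10) (nat_lit 4) L30999 (by decide +kernel)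
theorem L31001 : W_17 (nat_lit 7) (nat_lit 0x4000200020005000280010000800000000000000000000000) (nat_lit 0x0) (nat_lit 0x1800080005000080004000c0006000300000000000) := T_17 (nat_lit 147) (nat_lit 164) (nat_lit 7) (nat_lit 10) (nat_lit 5) L31000 (by decide +kernel)
theorem L31002 : W_17 (nat_lit 8) (nat_lit 0x4000200000005000280010000800000000000000000000000) (nat_lit 0x0) (nat_lit 0x4001a00080005000080004000c0006000300000000000) := T_17 (nat_lit 161) (nat_lit 178) (nat_lit 5) (nat_lit 8) (nat_lit 7) L31001 (by decide +kernel)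
theorem L31003 : W_17 (nat_lit 9) (nat_lit 0x4000200000001000280010000800000000000000000000000) (nat_lit 0x0) (nat_lit 0x40003c001f003c0005000680014000c0006000300000000000) := Q_17 (nat_lit 146) (C_17 L30628 (C_17 L30957 (C_17 L30963 (C_17 L31002 (C_17 L30752 N_17))))) (by decide +kernel)
theorem L31004 : W_17 (nat_lit 14) (nat_lit 0x4000200000001000280010000000000000000000000000000) (nat_lit 0x0) (nat_lit 0x15200bc00ff007c003d001e800ff807fc00fe0038001c000000) := Q_17 (nat_lit 95) (C_17 L30607 (C_17 L30798 (C_17 L30810 (C_17 L30821 (C_17 L30864 (C_17 L30954 (C_17 L30969 (C_17 L30994 (C_17 L30995 (C_17 L31003 N_17)))))))))) (by decide +kernel)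
theorem L31005 : W_17 (nat_lit 2) (nat_lit 0x4000200020001000280030001000080000000000000000000) (nat_lit 0x0) (nat_lit 0x4000400000000800000000000000000000000) := D_17 (nat_lit 146) (nat_lit 130) (nat_lit 95) (nat_lit 5) (nat_lit 11) (nat_lit 4) (nat_lit 6) (nat_lit 10) (nat_lit 8) (by decide +kernel)
theorem L31006 : W_17 (nat_lit 3) (nat_lit 0x4000200020001000280030000000080000000000000000000) (nat_lit 0x0) (nat_lit 0x4000400000001800000004000000000000000) := T_17 (nat_lit 96) (nat_lit 62) (nat_lit 5) (nat_lit 11) (nat_lit 3) L31005 (by decide +kernel)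
theorem L31007 : W_17 (nat_lit 4) (nat_lit 0x4000200000001000280030000000080000000000000000000) (nat_lit 0x0) (nat_lit 0x400020004000400000001800000004000000000000000) := T_17 (nat_lit 161) (nat_lit 178) (nat_lit 5) (nat_lit 8) (nat_lit 7) L31006 (by decide +kernel)
theorem L31008 : W_17 (nat_lit 3) (nat_lit 0x4000200000001000280030000000080000000000000000000) (nat_lit 0x0) (nat_lit 0x80004000400000001000000004000000000000000) := T_17 (nat_lit 96) (nat_lit 62) (nat_lit 5) (nat_lit 11) (nat_lit 3) L30254 (by decide +kernel)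
theorem L31009 : W_17 (nat_lit 2) (nat_lit 0x40002000200010003800300008000c0000000000000000000) (nat_lit 0x0) (nat_lit 0x400008000000000002000000000000000) := D_17 (nat_lit 61) (nat_lit 111) (nat_lit 130) (nat_lit 5) (nat_lit 10) (nat_lit 3) (nat_lit 7) (nat_lit 10) (nat_lit 3) (by decide +kernel)
theorem L31010 : W_17 (nat_lit 3) (nat_lit 0x40002000200010003800300000000c0000000000000000000) (nat_lit 0x0) (nat_lit 0x400008000800000006000000000000000) := T_17 (nat_lit 95) (nat_lit 62) (nat_lit 6) (nat_lit 10) (nat_lit 7) L31009 (by decide +kernel)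
theorem L31011 : W_17 (nat_lit 4) (nat_lit 0x40002000200010002800300000000c0000000000000000000) (nat_lit 0x0) (nat_lit 0x540008000800000006000000000000000) := T_17 (nat_lit 128) (nat_lit 126) (nat_lit 2) (nat_lit 7) (nat_lit 7) L31010 (by decide +kernel)
theorem L31012 : W_17 (nat_lit 5) (nat_lit 0x40002000000010002800300000000c0000000000000000000) (nat_lit 0x0) (nat_lit 0x400020000000540008000800000006000000000000000) := T_17 (nat_lit 161) (nat_lit 178) (nat_lit 5) (nat_lit 8) (nat_lit 7) L31011 (by decide +kernel)
theorem L31013 : W_17 (nat_lit 13) (nat_lit 0x4000200000001000280030000000080000000000000000000) (nat_lit 0x0) (nat_lit 0x40002000400054000a01ef80f7c03fe001e000f000000) := Q_17 (nat_lit 78) (C_17 L29685 (C_17 L30511 (C_17 L30518 (C_17 L30514 (C_17 L30508 (C_17 L31012 (C_17 L29751 N_17))))))) (by decide +kernel)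
theorem L31014 : W_17 (nat_lit 2) (nat_lit 0x4000200020001000680030001c00180002000000000000000) (nat_lit 0x0) (nat_lit 0x2000600000000000000000000) := D_17 (nat_lit 81) (nat_lit 82) (nat_lit 97) (nat_lit 1) (nat_lit 14) (nat_lit 4) (nat_lit 2) (nat_lit 9) (nat_lit 5) (by decide +kernel)
theorem L31015 : W_17 (nat_lit 3) (nat_lit 0x4000200020001000680030001800180002000000000000000) (nat_lit 0x0) (nat_lit 0x2600600000000000000000000) := T_17 (nat_lit 94) (nat_lit 93) (nat_lit 2) (nat_lit 8) (nat_lit 5) L31014 (by decide +kernel)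
theorem L31016 : W_17 (nat_lit 4) (nat_lit 0x4000200020001000680030001800080002000000000000000) (nat_lit 0x0) (nat_lit 0x2600700008000000000000000) := T_17 (nat_lit 80) (nat_lit 63) (nat_lit 6) (nat_lit 11) (nat_lit 7) L31015 (by decide +kernel)
theorem L31017 : W_17 (nat_lit 5) (nat_lit 0x4000200020001000680030001800080000000000000000000) (nat_lit 0x0) (nat_lit 0x260074000a000000000000000) := T_17 (nat_lit 61) (nat_lit 78) (nat_lit 7) (nat_lit 10) (nat_lit 3) L31016 (by decide +kernel)
theorem L31018 : W_17 (nat_lit 6) (nat_lit 0x4000200000001000680030001800080000000000000000000) (nat_lit 0x0) (nat_lit 0x40002000000000000000260074000a000000000000000) := T_17 (nat_lit 161) (nat_lit 178) (nat_lit 5) (nat_lit 8) (nat_lit 7) L31017 (by decide +kernel)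
theorem L31019 : W_17 (nat_lit 2) (nat_lit 0x40002000000010006c0030001c00180002000000000000000) (nat_lit 0x0) (nat_lit 0x2000600000000000000000000) := D_17 (nat_lit 81) (nat_lit 82) (nat_lit 97) (nat_lit 1) (nat_lit 14) (nat_lit 4) (nat_lit 2) (nat_lit 9) (nat_lit 5) (by decide +kernel)
theorem L31020 : W_17 (nat_lit 3) (nat_lit 0x40002000000010006c0030001800180002000000000000000) (nat_lit 0x0) (nat_lit 0x2600600000000000000000000) := T_17 (nat_lit 94) (nat_lit 93) (nat_lit 2) (nat_lit 8) (nat_lit 5) L31019 (by decide +kernel)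
theorem L31021 : W_17 (nat_lit 4) (nat_lit 0x40002000000010006c0030001800080002000000000000000) (nat_lit 0x0) (nat_lit 0x2600700008000000000000000) := T_17 (nat_lit 80) (nat_lit 63) (nat_lit 6) (nat_lit 11) (nat_lit 7) L31020 (by decide +kernel)
theorem L31022 : W_17 (nat_lit 5) (nat_lit 0x40002000000010006c0030001800080000000000000000000) (nat_lit 0x0) (nat_lit 0x260074000a000000000000000) := T_17 (nat_lit 61) (nat_lit 78) (nat_lit 7) (nat_lit 10) (nat_lit 3) L31021 (by decide +kernel)
theorem L31023 : W_17 (nat_lit 6) (nat_lit 0x4000200000001000680030001800080000000000000000000) (nat_lit 0x0) (nat_lit 0x14000000260074000a000000000000000) := T_17 (nat_lit 126) (nat_lit 128) (nat_lit 2) (nat_lit 7) (nat_lit 7) L31022 (by decide +kernel)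
theorem L31024 : W_17 (nat_lit 2) (nat_lit 0x4000200000001000680030001c00180000000000000000000) (nat_lit 0x0) (nat_lit 0x2000600000000000000000000) := D_17 (nat_lit 81) (nat_lit 82) (nat_lit 97) (nat_lit 1) (nat_lit 14) (nat_lit 4) (nat_lit 2) (nat_lit 9) (nat_lit 5) (by decide +kernel)
theorem L31025 : W_17 (nat_lit 3) (nat_lit 0x4000200000001000680030001800180000000000000000000) (nat_lit 0x0) (nat_lit 0x2600600000000000000000000) := T_17 (nat_lit 94) (nat_lit 93) (nat_lit 2) (nat_lit 8) (nat_lit 5) L31024 (by decide +kernel)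
theorem L31026 : W_17 (nat_lit 4) (nat_lit 0x4000200000001000680030001800080000000000000000000) (nat_lit 0x0) (nat_lit 0x2600700008000000000000000) := T_17 (nat_lit 80) (nat_lit 63) (nat_lit 6) (nat_lit 11) (nat_lit 7) L31025 (by decide +kernel)
theorem L31027 : W_17 (nat_lit 2) (nat_lit 0x40002000200010006800300018005e0000000000000000000) (nat_lit 0x0) (nat_lit 0x6000010000000000000000000) := D_17 (nat_lit 97) (nat_lit 98) (nat_lit 76) (nat_lit 3) (nat_lit 9) (nat_lit 4) (nat_lit 3) (nat_lit 8) (nat_lit 4) (by decide +kernel)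
theorem L31028 : W_17 (nat_lit 3) (nat_lit 0x40002000200010006800300018005c0000000000000000000) (nat_lit 0x0) (nat_lit 0x6000030001000000000000000) := T_17 (nat_lit 77) (nat_lit 60) (nat_lit 4) (nat_lit 10) (nat_lit 7) L31027 (by decide +kernel)
theorem L31029 : W_17 (nat_lit 4) (nat_lit 0x40002000200010006800300018001c0000000000000000000) (nat_lit 0x0) (nat_lit 0x6000630001000000000000000) := T_17 (nat_lit 82) (nat_lit 81) (nat_lit 1) (nat_lit 14) (nat_lit 4) L31028 (by decide +kernel)
theorem L31030 : W_17 (nat_lit 5) (nat_lit 0x40002000200010006800300018000c0000000000000000000) (nat_lit 0x0) (nat_lit 0x6000730009000000000000000) := T_17 (nat_lit 80) (nat_lit 63) (nat_lit 6) (nat_lit 11) (nat_lit 7) L31029 (by decide +kernel)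
theorem L31031 : W_17 (nat_lit 6) (nat_lit 0x4000200020001000680030001800080000000000000000000) (nat_lit 0x0) (nat_lit 0x600077000b000000000000000) := T_17 (nat_lit 78) (nat_lit 61) (nat_lit 7) (nat_lit 10) (nat_lit 3) L31030 (by decide +kernel)
theorem L31032 : W_17 (nat_lit 7) (nat_lit 0x4000200000001000680030001800080000000000000000000) (nat_lit 0x0) (nat_lit 0x40002000000000000000600077000b000000000000000) := T_17 (nat_lit 161) (nat_lit 178) (nat_lit 5) (nat_lit 8) (nat_lit 7) L31031 (by decide +kernel)
theorem L31033 : W_17 (nat_lit 4) (nat_lit 0x40002000200010006c0030001800080000000000000000000) (nat_lit 0x0) (nat_lit 0x60034000a000000000000000) := T_17 (nat_lit 78) (nat_lit 61) (nat_lit 7) (nat_lit 10) (nat_lit 3) L29534 (by decide +kernel)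
theorem L31034 : W_17 (nat_lit 5) (nat_lit 0x40002000000010006c0030001800080000000000000000000) (nat_lit 0x0) (nat_lit 0x40002000000000000000060034000a000000000000000) := T_17 (nat_lit 161) (nat_lit 178) (nat_lit 5) (nat_lit 8) (nat_lit 7) L31033 (by decide +kernel)
theorem L31035 : W_17 (nat_lit 6) (nat_lit 0x4000200000001000680030001800080000000000000000000) (nat_lit 0x0) (nat_lit 0x40002000000014000000060034000a000000000000000) := T_17 (nat_lit 126) (nat_lit 128) (nat_lit 2) (nat_lit 7) (nat_lit 7) L31034 (by decide +kernel)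
theorem L31036 : W_17 (nat_lit 2) (nat_lit 0x40002000200010006c00300018000e0000000000000000000) (nat_lit 0x0) (nat_lit 0x2000018000000000000000000) := D_17 (nat_lit 76) (nat_lit 97) (nat_lit 75) (nat_lit 3) (nat_lit 8) (nat_lit 4) (nat_lit 3) (nat_lit 7) (nat_lit 4) (by decide +kernel)
theorem L31037 : W_17 (nat_lit 3) (nat_lit 0x40002000200010006c00300018000c0000000000000000000) (nat_lit 0x0) (nat_lit 0x2000038001000000000000000) := T_17 (nat_lit 77) (nat_lit 60) (nat_lit 4) (nat_lit 10) (nat_lit 7) L31036 (by decide +kernel)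
theorem L31038 : W_17 (nat_lit 4) (nat_lit 0x40002000200010006c0030001800080000000000000000000) (nat_lit 0x0) (nat_lit 0x2000078003000000000000000) := T_17 (nat_lit 78) (nat_lit 61) (nat_lit 7) (nat_lit 10) (nat_lit 3) L31037 (by decide +kernel)
theorem L31039 : W_17 (nat_lit 5) (nat_lit 0x40002000000010006c0030001800080000000000000000000) (nat_lit 0x0) (nat_lit 0x400020000000000000002000078003000000000000000) := T_17 (nat_lit 161) (nat_lit 178) (nat_lit 5) (nat_lit 8) (nat_lit 7) L31038 (by decide +kernel)
theorem L31040 : W_17 (nat_lit 6) (nat_lit 0x4000200000001000680030001800080000000000000000000) (nat_lit 0x0) (nat_lit 0x400020000000140000002000078003000000000000000) := T_17 (nat_lit 126) (nat_lit 128) (nat_lit 2) (nat_lit 7) (nat_lit 7) L31039 (by decide +kernel)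
theorem L31041 : W_17 (nat_lit 8) (nat_lit 0x4000200000001000680030001000080000000000000000000) (nat_lit 0x0) (nat_lit 0x400020000000140000006e0077800b000000000000000) := Q_17 (nat_lit 95) (C_17 L31018 (C_17 L31023 (C_17 L31026 (C_17 L31032 (C_17 L31035 (C_17 L31040 N_17)))))) (by decide +kernel)
theorem L31042 : W_17 (nat_lit 5) (nat_lit 0x40002000000010006800300010000c0000000000000000000) (nat_lit 0x0) (nat_lit 0x10003940008000000100008000000000000000) := T_17 (nat_lit 126) (nat_lit 128) (nat_lit 2) (nat_lit 7) (nat_lit 7) L29725 (by decide +kernel)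
theorem L31043 : W_17 (nat_lit 6) (nat_lit 0x4000200000001000680030001000080000000000000000000) (nat_lit 0x0) (nat_lit 0x1000394000800000014000a000000000000000) := T_17 (nat_lit 78) (nat_lit 61) (nat_lit 4) (nat_lit 11) (nat_lit 7) L31042 (by decide +kernel)
theorem L31044 : W_17 (nat_lit 2) (nat_lit 0x4000200000001000e80030001000080000000000000000000) (nat_lit 0x0) (nat_lit 0x3000008000000000000000000000000000) := D_17 (nat_lit 132) (nat_lit 133) (nat_lit 111) (nat_lit 0) (nat_lit 14) (nat_lit 7) (nat_lit 0) (nat_lit 13) (nat_lit 7) (by decide +kernel)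
theorem L31045 : W_17 (nat_lit 3) (nat_lit 0x4000200000001000680030001000080000000000000000000) (nat_lit 0x0) (nat_lit 0x10003800008000000000000000000000000000) := T_17 (nat_lit 131) (nat_lit 148) (nat_lit 7) (nat_lit 11) (nat_lit 4) L31044 (by decide +kernel)
theorem L31046 : W_17 (nat_lit 9) (nat_lit 0x4000200000001000280030001000080000000000000000000) (nat_lit 0x0) (nat_lit 0x400020010003d40008006e0077800b000000000000000) := Q_17 (nat_lit 130) (C_17 L31041 (C_17 L31043 (C_17 L31045 N_17))) (by decide +kernel)
theorem L31047 : W_17 (nat_lit 2) (nat_lit 0x4000200000001000280030001000080000000000000000000) (nat_lit 0x0) (nat_lit 0x80004000000000000800000000000000000000000) := D_17 (nat_lit 146) (nat_lit 163) (nat_lit 95) (nat_lit 6) (nat_lit 10) (nat_lit 9) (nat_lit 6) (nat_lit 10) (nat_lit 8) (by decide +kernel)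
theorem L31048 : W_17 (nat_lit 10) (nat_lit 0x4000200000001000280030000000080000000000000000000) (nat_lit 0x0) (nat_lit 0x4000a0014003d40008007e0077800b000000000000000) := Q_17 (nat_lit 96) (C_17 L30254 (C_17 L31046 (C_17 L31047 N_17))) (by decide +kernel)
theorem L31049 : W_17 (nat_lit 14) (nat_lit 0x4000200000001000280030000000000000000000000000000) (nat_lit 0x0) (nat_lit 0x4000a0014003d4000a01ff80ffc03fe001e000f000000) := Q_17 (nat_lit 79) (C_17 L30499 (C_17 L31007 (C_17 L31008 (C_17 L29752 (C_17 L31013 (C_17 L31048 N_17)))))) (by decide +kernel)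
theorem L31050 : W_17 (nat_lit 2) (nat_lit 0x4000200000001000280070000000000000000000000000000) (nat_lit 0x0) (nat_lit 0x500008000000000000000000000000000) := D_17 (nat_lit 128) (nat_lit 130) (nat_lit 111) (nat_lit 2) (nat_lit 8) (nat_lit 7) (nat_lit 1) (nat_lit 12) (nat_lit 6) (by decide +kernel)
theorem L31051 : W_17 (nat_lit 13) (nat_lit 0x4000200000001000280030000000000000000000000000000) (nat_lit 0x0) (nat_lit 0x4006a0034007d007c801fc00f8003c000800000000000) := Q_17 (nat_lit 114) (C_17 L30469 (C_17 L29372 (C_17 L29389 (C_17 L30446 (C_17 L31050 N_17))))) (by decide +kernel)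
theorem L31052 : W_17 (nat_lit 2) (nat_lit 0x4000200020005000280030001800060000000000000000000) (nat_lit 0x0) (nat_lit 0x400000000000000002000100000000000) := D_17 (nat_lit 61) (nat_lit 44) (nat_lit 130) (nat_lit 7) (nat_lit 10) (nat_lit 2) (nat_lit 7) (nat_lit 10) (nat_lit 3) (by decide +kernel)
theorem L31053 : W_17 (nat_lit 3) (nat_lit 0x4000200020005000280030001800020000000000000000000) (nat_lit 0x0) (nat_lit 0x400000000000040003000100000000000) := T_17 (nat_lit 78) (nat_lit 60) (nat_lit 4) (nat_lit 10) (nat_lit 7) L31052 (by decide +kernel)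
theorem L31054 : W_17 (nat_lit 4) (nat_lit 0x4000200020005000280030001800000000000000000000000) (nat_lit 0x0) (nat_lit 0x400000000400060003000100000000000) := T_17 (nat_lit 77) (nat_lit 94) (nat_lit 4) (nat_lit 10) (nat_lit 8) L31053 (by decide +kernel)
theorem L31055 : W_17 (nat_lit 2) (nat_lit 0x4000200000005000280030003800000000000000000000000) (nat_lit 0x0) (nat_lit 0x800c000000000000000000000000) := D_17 (nat_lit 98) (nat_lit 111) (nat_lit 99) (nat_lit 1) (nat_lit 13) (nat_lit 5) (nat_lit 1) (nat_lit 14) (nat_lit 5) (by decide +kernel)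
theorem L31056 : W_17 (nat_lit 5) (nat_lit 0x4000200020005000280030000000000000000000000000000) (nat_lit 0x0) (nat_lit 0x400038001d0000000000000001000000000000000000000000) := T_17 (nat_lit 163) (nat_lit 96) (nat_lit 6) (nat_lit 10) (nat_lit 9) L30521 (by decide +kernel)
theorem L31057 : W_17 (nat_lit 6) (nat_lit 0x4000200000005000280030000000000000000000000000000) (nat_lit 0x0) (nat_lit 0x40003c001f0000000000000001000000000000000000000000) := T_17 (nat_lit 161) (nat_lit 178) (nat_lit 5) (nat_lit 8) (nat_lit 7) L31056 (by decide +kernel)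
theorem L31058 : W_17 (nat_lit 2) (nat_lit 0x40022000c0005000280030000000000000000000000000000) (nat_lit 0x0) (nat_lit 0x40001000000000000400000000000000000000000000000000) := D_17 (nat_lit 180) (nat_lit 130) (nat_lit 198) (nat_lit 6) (nat_lit 10) (nat_lit 10) (nat_lit 7) (nat_lit 10) (nat_lit 7) (by decide +kernel)
theorem L31059 : W_17 (nat_lit 3) (nat_lit 0x40002000c0005000280030000000000000000000000000000) (nat_lit 0x0) (nat_lit 0x40003000100000000400000000000000000000000000000000) := T_17 (nat_lit 181) (nat_lit 164) (nat_lit 7) (nat_lit 10) (nat_lit 6) L31058 (by decide +kernel)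
theorem L31060 : W_17 (nat_lit 4) (nat_lit 0x4000200080005000280030000000000000000000000000000) (nat_lit 0x0) (nat_lit 0x40003800140000000400000000000000000000000000000000) := T_17 (nat_lit 162) (nat_lit 179) (nat_lit 5) (nat_lit 10) (nat_lit 6) L31059 (by decide +kernel)
theorem L31061 : W_17 (nat_lit 5) (nat_lit 0x4000200000005000280030000000000000000000000000000) (nat_lit 0x0) (nat_lit 0x400038001c0000000400000001000000000000000000000000) := T_17 (nat_lit 163) (nat_lit 96) (nat_lit 6) (nat_lit 10) (nat_lit 9) L31060 (by decide +kernel)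
theorem L31062 : W_17 (nat_lit 2) (nat_lit 0x4002200080005000280038000000000000000000000000000) (nat_lit 0x0) (nat_lit 0x40001000000000000400000000000000000000000000000000) := D_17 (nat_lit 180) (nat_lit 130) (nat_lit 198) (nat_lit 6) (nat_lit 10) (nat_lit 10) (nat_lit 7) (nat_lit 10) (nat_lit 7) (by decide +kernel)
theorem L31063 : W_17 (nat_lit 3) (nat_lit 0x4000200080005000280038000000000000000000000000000) (nat_lit 0x0) (nat_lit 0x40003000100000000400000000000000000000000000000000) := T_17 (nat_lit 181) (nat_lit 164) (nat_lit 7) (nat_lit 10) (nat_lit 6) L31062 (by decide +kernel)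
theorem L31064 : W_17 (nat_lit 4) (nat_lit 0x4000200080005000280030000000000000000000000000000) (nat_lit 0x0) (nat_lit 0x40003000100000000400008000400000000000000000000000) := T_17 (nat_lit 111) (nat_lit 94) (nat_lit 4) (nat_lit 10) (nat_lit 9) L31063 (by decide +kernel)
theorem L31065 : W_17 (nat_lit 5) (nat_lit 0x4000200000005000280030000000000000000000000000000) (nat_lit 0x0) (nat_lit 0x40003000180000000400008001400000000000000000000000) := T_17 (nat_lit 163) (nat_lit 96) (nat_lit 6) (nat_lit 10) (nat_lit 9) L31064 (by decide +kernel)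
theorem L31066 : W_17 (nat_lit 3) (nat_lit 0x4000200000005000280030000000000000000000000000000) (nat_lit 0x0) (nat_lit 0x80000000000000001800080004000000000000000) := T_17 (nat_lit 96) (nat_lit 163) (nat_lit 6) (nat_lit 10) (nat_lit 9) L30445 (by decide +kernel)
theorem L31067 : W_17 (nat_lit 5) (nat_lit 0x4000200000005000280030001800000000000000000000000) (nat_lit 0x0) (nat_lit 0x400020000000400000000400060003000100000000000) := T_17 (nat_lit 161) (nat_lit 178) (nat_lit 5) (nat_lit 8) (nat_lit 7) L31054 (by decide +kernel)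
theorem L31068 : W_17 (nat_lit 6) (nat_lit 0x4000200000005000280030000800000000000000000000000) (nat_lit 0x0) (nat_lit 0x4000200000004000000014000e0003000100000000000) := T_17 (nat_lit 96) (nat_lit 79) (nat_lit 6) (nat_lit 10) (nat_lit 8) L31067 (by decide +kernel)
theorem L31069 : W_17 (nat_lit 2) (nat_lit 0x40002000200050002800300008000c0001000000000000000) (nat_lit 0x0) (nat_lit 0x400000000000000002000080000000000) := D_17 (nat_lit 61) (nat_lit 130) (nat_lit 43) (nat_lit 7) (nat_lit 10) (nat_lit 3) (nat_lit 4) (nat_lit 10) (nat_lit 6) (by decide +kernel)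
theorem L31070 : W_17 (nat_lit 3) (nat_lit 0x40002000200050002800300008000c0000000000000000000) (nat_lit 0x0) (nat_lit 0x400000000000020003000080000000000) := T_17 (nat_lit 60) (nat_lit 77) (nat_lit 4) (nat_lit 10) (nat_lit 7) L31069 (by decide +kernel)
theorem L31071 : W_17 (nat_lit 4) (nat_lit 0x4000200020005000280030000800080000000000000000000) (nat_lit 0x0) (nat_lit 0x400000000000060007000080000000000) := T_17 (nat_lit 78) (nat_lit 62) (nat_lit 6) (nat_lit 10) (nat_lit 7) L31070 (by decide +kernel)
theorem L31072 : W_17 (nat_lit 5) (nat_lit 0x4000200000005000280030000800080000000000000000000) (nat_lit 0x0) (nat_lit 0x400020000000400000000000060007000080000000000) := T_17 (nat_lit 161) (nat_lit 178) (nat_lit 5) (nat_lit 8) (nat_lit 7) L31071 (by decide +kernel)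
theorem L31073 : W_17 (nat_lit 6) (nat_lit 0x4000200000005000280030000800000000000000000000000) (nat_lit 0x0) (nat_lit 0x4000200000004000000010000e0007000080000000000) := T_17 (nat_lit 79) (nat_lit 96) (nat_lit 6) (nat_lit 10) (nat_lit 8) L31072 (by decide +kernel)
theorem L31074 : W_17 (nat_lit 2) (nat_lit 0x4000200020005000280030000e00000000000000000000000) (nat_lit 0x0) (nat_lit 0xc8000000000000000000000000000) := D_17 (nat_lit 114) (nat_lit 115) (nat_lit 111) (nat_lit 0) (nat_lit 13) (nat_lit 6) (nat_lit 0) (nat_lit 12) (nat_lit 6) (by decide +kernel)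
theorem L31075 : W_17 (nat_lit 3) (nat_lit 0x4000200020005000280030000c00000000000000000000000) (nat_lit 0x0) (nat_lit 0xc8000300000000000000000000000) := T_17 (nat_lit 93) (nat_lit 92) (nat_lit 3) (nat_lit 7) (nat_lit 5) L31074 (by decide +kernel)
theorem L31076 : W_17 (nat_lit 4) (nat_lit 0x4000200020005000280030000800000000000000000000000) (nat_lit 0x0) (nat_lit 0xc8000700020000000000000000000) := T_17 (nat_lit 94) (nat_lit 77) (nat_lit 4) (nat_lit 10) (nat_lit 8) L31075 (by decide +kernel)
theorem L31077 : W_17 (nat_lit 5) (nat_lit 0x4000200000005000280030000800000000000000000000000) (nat_lit 0x0) (nat_lit 0x4000200000000000c8000700020000000000000000000) := T_17 (nat_lit 161) (nat_lit 178) (nat_lit 5) (nat_lit 8) (nat_lit 7) L31076 (by decide +kernel)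
theorem L31078 : W_17 (nat_lit 2) (nat_lit 0x4000200000005000280030000800040000000000000000000) (nat_lit 0x0) (nat_lit 0x1000080004000000000000000) := D_17 (nat_lit 79) (nat_lit 96) (nat_lit 62) (nat_lit 6) (nat_lit 10) (nat_lit 8) (nat_lit 6) (nat_lit 10) (nat_lit 7) (by decide +kernel)
theorem L31079 : W_17 (nat_lit 2) (nat_lit 0x4000200000005000280030000800040002000100000000000) (nat_lit 0x0) (nat_lit 0x4000200010000000) := D_17 (nat_lit 45) (nat_lit 28) (nat_lit 62) (nat_lit 6) (nat_lit 10) (nat_lit 5) (nat_lit 6) (nat_lit 10) (nat_lit 6) (by decide +kernel)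
theorem L31080 : W_17 (nat_lit 3) (nat_lit 0x4000200000005000280030000800040002000000000000000) (nat_lit 0x0) (nat_lit 0x1000000004000300010000000) := T_17 (nat_lit 44) (nat_lit 96) (nat_lit 7) (nat_lit 10) (nat_lit 2) L31079 (by decide +kernel)
theorem L31081 : W_17 (nat_lit 4) (nat_lit 0x4000200000005000280030000800040000000000000000000) (nat_lit 0x0) (nat_lit 0x400000001000000006000300010000000) := T_17 (nat_lit 61) (nat_lit 130) (nat_lit 7) (nat_lit 10) (nat_lit 3) L31080 (by decide +kernel)
theorem L31082 : W_17 (nat_lit 2) (nat_lit 0x4000200020005000280030000800040004000000000000000) (nat_lit 0x0) (nat_lit 0x400000000000000002000200000000000) := D_17 (nat_lit 61) (nat_lit 130) (nat_lit 45) (nat_lit 7) (nat_lit 10) (nat_lit 3) (nat_lit 6) (nat_lit 10) (nat_lit 6) (by decide +kernel)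
theorem L31083 : W_17 (nat_lit 3) (nat_lit 0x4000200020005000280030000800040000000000000000000) (nat_lit 0x0) (nat_lit 0x400000000000080006000200000000000) := T_17 (nat_lit 62) (nat_lit 79) (nat_lit 6) (nat_lit 10) (nat_lit 7) L31082 (by decide +kernel)
theorem L31084 : W_17 (nat_lit 4) (nat_lit 0x4000200000005000280030000800040000000000000000000) (nat_lit 0x0) (nat_lit 0x400020000000400000000000080006000200000000000) := T_17 (nat_lit 161) (nat_lit 178) (nat_lit 5) (nat_lit 8) (nat_lit 7) L31083 (by decide +kernel)
theorem L31085 : W_17 (nat_lit 2) (nat_lit 0x4000200000005000280030000800040002000000000000000) (nat_lit 0x0) (nat_lit 0x1000080000000100000000000) := D_17 (nat_lit 96) (nat_lit 44) (nat_lit 79) (nat_lit 7) (nat_lit 10) (nat_lit 2) (nat_lit 6) (nat_lit 10) (nat_lit 8) (by decide +kernel)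
theorem L31086 : W_17 (nat_lit 3) (nat_lit 0x4000200000005000280030000800040000000000000000000) (nat_lit 0x0) (nat_lit 0x400000001000080002000100000000000) := T_17 (nat_lit 61) (nat_lit 130) (nat_lit 7) (nat_lit 10) (nat_lit 3) L31085 (by decide +kernel)
theorem L31087 : W_17 (nat_lit 5) (nat_lit 0x4000200000005000280030000800000000000000000000000) (nat_lit 0x0) (nat_lit 0x4000200000004000000010000c0006000300010000000) := Q_17 (nat_lit 78) (C_17 L31078 (C_17 L31081 (C_17 L31084 (C_17 L31086 N_17)))) (by decide +kernel)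
theorem L31088 : W_17 (nat_lit 7) (nat_lit 0x4000200000005000280030000000000000000000000000000) (nat_lit 0x0) (nat_lit 0x4000200000004000c8001f000e0007000380010000000) := Q_17 (nat_lit 95) (C_17 L30443 (C_17 L31068 (C_17 L31073 (C_17 L31077 (C_17 L31087 N_17))))) (by decide +kernel)
theorem L31089 : W_17 (nat_lit 5) (nat_lit 0x4000200080005000280030000400000000000000000000000) (nat_lit 0x0) (nat_lit 0x50003800140000000000000000800020000000000000000000) := T_17 (nat_lit 95) (nat_lit 77) (nat_lit 4) (nat_lit 10) (nat_lit 8) L30482 (by decide +kernel)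
theorem L31090 : W_17 (nat_lit 6) (nat_lit 0x4000200000005000280030000400000000000000000000000) (nat_lit 0x0) (nat_lit 0x500038001c0000000000008000800020000000000000000000) := T_17 (nat_lit 163) (nat_lit 111) (nat_lit 4) (nat_lit 10) (nat_lit 9) L31089 (by decide +kernel)
theorem L31091 : W_17 (nat_lit 2) (nat_lit 0x4001200080005000280030000400000000000000000000000) (nat_lit 0x0) (nat_lit 0x10000800040000000000000000000000000000000000000000) := D_17 (nat_lit 179) (nat_lit 196) (nat_lit 162) (nat_lit 5) (nat_lit 10) (nat_lit 7) (nat_lit 5) (nat_lit 10) (nat_lit 6) (by decide +kernel)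
theorem L31092 : W_17 (nat_lit 3) (nat_lit 0x4001200000005000280030000400000000000000000000000) (nat_lit 0x0) (nat_lit 0x100008000c0000000400000000000000000000000000000000) := T_17 (nat_lit 163) (nat_lit 130) (nat_lit 6) (nat_lit 10) (nat_lit 10) L31091 (by decide +kernel)
theorem L31093 : W_17 (nat_lit 2) (nat_lit 0x4001e000000050002800b0000d00000000000000000000000) (nat_lit 0x0) (nat_lit 0x1c0000000000000000000000000000000000000000) := D_17 (nat_lit 163) (nat_lit 164) (nat_lit 162) (nat_lit 2) (nat_lit 7) (nat_lit 10) (nat_lit 5) (nat_lit 10) (nat_lit 6) (by decide +kernel)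
theorem L31094 : W_17 (nat_lit 3) (nat_lit 0x40016000000050002800b0000d00000000000000000000000) (nat_lit 0x0) (nat_lit 0x20008001c0000000000000000000000000000000000000000) := T_17 (nat_lit 179) (nat_lit 193) (nat_lit 1) (nat_lit 10) (nat_lit 10) L31093 (by decide +kernel)
theorem L31095 : W_17 (nat_lit 4) (nat_lit 0x40012000000050002800b0000d00000000000000000000000) (nat_lit 0x0) (nat_lit 0x2000c001e0000000000000000000000000000000000000000) := T_17 (nat_lit 178) (nat_lit 161) (nat_lit 5) (nat_lit 8) (nat_lit 7) L31094 (by decide +kernel)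
theorem L31096 : W_17 (nat_lit 5) (nat_lit 0x4001200000005000280030000d00000000000000000000000) (nat_lit 0x0) (nat_lit 0x2000c001e00000000000c0000000000000000000000000000) := T_17 (nat_lit 115) (nat_lit 114) (nat_lit 0) (nat_lit 13) (nat_lit 6) L31095 (by decide +kernel)
theorem L31097 : W_17 (nat_lit 6) (nat_lit 0x4001200000005000280030000c00000000000000000000000) (nat_lit 0x0) (nat_lit 0x2000c001e00000000000c0000300000000000000000000000) := T_17 (nat_lit 92) (nat_lit 93) (nat_lit 3) (nat_lit 7) (nat_lit 5) L31096 (by decide +kernel)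
theorem L31098 : W_17 (nat_lit 7) (nat_lit 0x4001200000005000280030000400000000000000000000000) (nat_lit 0x0) (nat_lit 0x2000c001e00000000000c0000b00020000000000000000000) := T_17 (nat_lit 95) (nat_lit 77) (nat_lit 4) (nat_lit 10) (nat_lit 8) L31097 (by decide +kernel)
theorem L31099 : W_17 (nat_lit 2) (nat_lit 0x40012000a0005000280030000400000000000000000000000) (nat_lit 0x0) (nat_lit 0x40002000100000000000000000000000000000000000000000) := D_17 (nat_lit 181) (nat_lit 164) (nat_lit 198) (nat_lit 7) (nat_lit 10) (nat_lit 6) (nat_lit 7) (nat_lit 10) (nat_lit 7) (by decide +kernel)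
theorem L31100 : W_17 (nat_lit 3) (nat_lit 0x4001200020005000280030000400000000000000000000000) (nat_lit 0x0) (nat_lit 0x40002000180000000400000000000000000000000000000000) := T_17 (nat_lit 163) (nat_lit 130) (nat_lit 6) (nat_lit 10) (nat_lit 10) L31099 (by decide +kernel)
theorem L31101 : W_17 (nat_lit 4) (nat_lit 0x4001200000005000280030000400000000000000000000000) (nat_lit 0x0) (nat_lit 0x400024001a0000000400000000000000000000000000000000) := T_17 (nat_lit 161) (nat_lit 178) (nat_lit 5) (nat_lit 8) (nat_lit 7) L31100 (by decide +kernel)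
theorem L31102 : W_17 (nat_lit 2) (nat_lit 0x44001e000100050002800b0000d00000000000000000000000) (nat_lit 0x0) (nat_lit 0x88002000000000000000000000000000000000000000000000) := D_17 (nat_lit 181) (nat_lit 195) (nat_lit 199) (nat_lit 1) (nat_lit 11) (nat_lit 10) (nat_lit 3) (nat_lit 8) (nat_lit 10) (by decide +kernel)
theorem L31103 : W_17 (nat_lit 3) (nat_lit 0x4001e000100050002800b0000d00000000000000000000000) (nat_lit 0x0) (nat_lit 0xe8002000000000000000000000000000000000000000000000) := T_17 (nat_lit 198) (nat_lit 197) (nat_lit 3) (nat_lit 7) (nat_lit 10) L31102 (by decide +kernel)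
theorem L31104 : W_17 (nat_lit 4) (nat_lit 0x4001e000000050002800b0000d00000000000000000000000) (nat_lit 0x0) (nat_lit 0xe8002000018000000000000000000000000000000000000000) := T_17 (nat_lit 160) (nat_lit 159) (nat_lit 0) (nat_lit 10) (nat_lit 10) L31103 (by decide +kernel)
theorem L31105 : W_17 (nat_lit 5) (nat_lit 0x40016000000050002800b0000d00000000000000000000000) (nat_lit 0x0) (nat_lit 0xea002800018000000000000000000000000000000000000000) := T_17 (nat_lit 179) (nat_lit 193) (nat_lit 1) (nat_lit 10) (nat_lit 10) L31104 (by decide +kernel)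
theorem L31106 : W_17 (nat_lit 6) (nat_lit 0x40012000000050002800b0000d00000000000000000000000) (nat_lit 0x0) (nat_lit 0xea002c00038000000000000000000000000000000000000000) := T_17 (nat_lit 178) (nat_lit 161) (nat_lit 5) (nat_lit 8) (nat_lit 7) L31105 (by decide +kernel)
theorem L31107 : W_17 (nat_lit 7) (nat_lit 0x4001200000005000280030000d00000000000000000000000) (nat_lit 0x0) (nat_lit 0xea002c000380000000000c0000000000000000000000000000) := T_17 (nat_lit 115) (nat_lit 114) (nat_lit 0) (nat_lit 13) (nat_lit 6) L31106 (by decide +kernel)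
theorem L31108 : W_17 (nat_lit 8) (nat_lit 0x4001200000005000280030000c00000000000000000000000) (nat_lit 0x0) (nat_lit 0xea002c000380000000000c0000300000000000000000000000) := T_17 (nat_lit 92) (nat_lit 93) (nat_lit 3) (nat_lit 7) (nat_lit 5) L31107 (by decide +kernel)
theorem L31109 : W_17 (nat_lit 9) (nat_lit 0x4001200000005000280030000400000000000000000000000) (nat_lit 0x0) (nat_lit 0xea002c000380000000000c0000b00020000000000000000000) := T_17 (nat_lit 95) (nat_lit 77) (nat_lit 4) (nat_lit 10) (nat_lit 8) L31108 (by decide +kernel)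
theorem L31110 : W_17 (nat_lit 10) (nat_lit 0x4000200000005000280030000400000000000000000000000) (nat_lit 0x0) (nat_lit 0xfa003c001f80000004000c0000b00020000000000000000000) := Q_17 (nat_lit 180) (C_17 L31092 (C_17 L31098 (C_17 L31101 (C_17 L31109 N_17)))) (by decide +kernel)
theorem L31111 : W_17 (nat_lit 2) (nat_lit 0x40022000e0005000280030000400000000000000000000000) (nat_lit 0x0) (nat_lit 0x40001000000000000400000000000000000000000000000000) := D_17 (nat_lit 180) (nat_lit 130) (nat_lit 198) (nat_lit 6) (nat_lit 10) (nat_lit 10) (nat_lit 7) (nat_lit 10) (nat_lit 7) (by decide +kernel)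
theorem L31112 : W_17 (nat_lit 3) (nat_lit 0x40002000e0005000280030000400000000000000000000000) (nat_lit 0x0) (nat_lit 0x40003000100000000400000000000000000000000000000000) := T_17 (nat_lit 181) (nat_lit 164) (nat_lit 7) (nat_lit 10) (nat_lit 6) L31111 (by decide +kernel)
theorem L31113 : W_17 (nat_lit 4) (nat_lit 0x40002000a0005000280030000400000000000000000000000) (nat_lit 0x0) (nat_lit 0x40003800140000000400000000000000000000000000000000) := T_17 (nat_lit 162) (nat_lit 179) (nat_lit 5) (nat_lit 10) (nat_lit 6) L31112 (by decide +kernel)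
theorem L31114 : W_17 (nat_lit 5) (nat_lit 0x4000200020005000280030000400000000000000000000000) (nat_lit 0x0) (nat_lit 0x400038001c0000000400008000000000000000000000000000) := T_17 (nat_lit 163) (nat_lit 111) (nat_lit 4) (nat_lit 10) (nat_lit 9) L31113 (by decide +kernel)
theorem L31115 : W_17 (nat_lit 6) (nat_lit 0x4000200000005000280030000400000000000000000000000) (nat_lit 0x0) (nat_lit 0x40003c001e0000000400008000000000000000000000000000) := T_17 (nat_lit 161) (nat_lit 178) (nat_lit 5) (nat_lit 8) (nat_lit 7) L31114 (by decide +kernel)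
theorem L31116 : W_17 (nat_lit 2) (nat_lit 0x40022000800050002800b0000d00000000000000000000000) (nat_lit 0x0) (nat_lit 0x40001000000000000400000000000000000000000000000000) := D_17 (nat_lit 180) (nat_lit 130) (nat_lit 198) (nat_lit 6) (nat_lit 10) (nat_lit 10) (nat_lit 7) (nat_lit 10) (nat_lit 7) (by decide +kernel)
theorem L31117 : W_17 (nat_lit 3) (nat_lit 0x40002000800050002800b0000d00000000000000000000000) (nat_lit 0x0) (nat_lit 0x40003000100000000400000000000000000000000000000000) := T_17 (nat_lit 181) (nat_lit 164) (nat_lit 7) (nat_lit 10) (nat_lit 6) L31116 (by decide +kernel)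
theorem L31118 : W_17 (nat_lit 4) (nat_lit 0x4000200080005000280030000d00000000000000000000000) (nat_lit 0x0) (nat_lit 0x400030001000000004000c0000000000000000000000000000) := T_17 (nat_lit 115) (nat_lit 114) (nat_lit 0) (nat_lit 13) (nat_lit 6) L31117 (by decide +kernel)
theorem L31119 : W_17 (nat_lit 5) (nat_lit 0x4000200080005000280030000c00000000000000000000000) (nat_lit 0x0) (nat_lit 0x400030001000000004000c0000300000000000000000000000) := T_17 (nat_lit 92) (nat_lit 93) (nat_lit 3) (nat_lit 7) (nat_lit 5) L31118 (by decide +kernel)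
theorem L31120 : W_17 (nat_lit 6) (nat_lit 0x4000200080005000280030000400000000000000000000000) (nat_lit 0x0) (nat_lit 0x400030001000000004000c0000b00020000000000000000000) := T_17 (nat_lit 95) (nat_lit 77) (nat_lit 4) (nat_lit 10) (nat_lit 8) L31119 (by decide +kernel)
theorem L31121 : W_17 (nat_lit 7) (nat_lit 0x4000200000005000280030000400000000000000000000000) (nat_lit 0x0) (nat_lit 0x400030001800000004000c8000b00020000000000000000000) := T_17 (nat_lit 163) (nat_lit 111) (nat_lit 4) (nat_lit 10) (nat_lit 9) L31120 (by decide +kernel)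
theorem L31122 : W_17 (nat_lit 2) (nat_lit 0x4000200000005000280038000400000000000000000000000) (nat_lit 0x0) (nat_lit 0x800020001000000000000000) := D_17 (nat_lit 77) (nat_lit 95) (nat_lit 60) (nat_lit 4) (nat_lit 10) (nat_lit 8) (nat_lit 7) (nat_lit 9) (nat_lit 3) (by decide +kernel)
theorem L31123 : W_17 (nat_lit 3) (nat_lit 0x4000200000005000280030000400000000000000000000000) (nat_lit 0x0) (nat_lit 0x80000000000008000800020001000000000000000) := T_17 (nat_lit 111) (nat_lit 163) (nat_lit 4) (nat_lit 10) (nat_lit 9) L31122 (by decide +kernel)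
theorem L31124 : W_17 (nat_lit 2) (nat_lit 0x4000200000005000280030000e00000000000000000000000) (nat_lit 0x0) (nat_lit 0xc8000000000000000000000000000) := D_17 (nat_lit 114) (nat_lit 115) (nat_lit 111) (nat_lit 0) (nat_lit 13) (nat_lit 6) (nat_lit 0) (nat_lit 12) (nat_lit 6) (by decide +kernel)
theorem L31125 : W_17 (nat_lit 3) (nat_lit 0x4000200000005000280030000c00000000000000000000000) (nat_lit 0x0) (nat_lit 0xc8000300000000000000000000000) := T_17 (nat_lit 93) (nat_lit 92) (nat_lit 3) (nat_lit 7) (nat_lit 5) L31124 (by decide +kernel)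
theorem L31126 : W_17 (nat_lit 4) (nat_lit 0x4000200000005000280030000400000000000000000000000) (nat_lit 0x0) (nat_lit 0xc8000b00020000000000000000000) := T_17 (nat_lit 95) (nat_lit 77) (nat_lit 4) (nat_lit 10) (nat_lit 8) L31125 (by decide +kernel)
theorem L31127 : W_17 (nat_lit 11) (nat_lit 0x4000200000005000280030000000000000000000000000000) (nat_lit 0x0) (nat_lit 0xfa003c001f80000004000c8000f00020001000000000000000) := Q_17 (nat_lit 94) (C_17 L31090 (C_17 L31110 (C_17 L31115 (C_17 L31121 (C_17 L31123 (C_17 L31126 N_17)))))) (by decide +kernel)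
theorem L31128 : W_17 (nat_lit 12) (nat_lit 0x4000200000001000280030000000000000000000000000000) (nat_lit 0x0) (nat_lit 0xfa003c001f80040004000c8001f000e0007000380010000000) := Q_17 (nat_lit 146) (C_17 L31057 (C_17 L31061 (C_17 L31065 (C_17 L31066 (C_17 L31088 (C_17 L31127 N_17)))))) (by decide +kernel)
theorem L31129 : W_17 (nat_lit 15) (nat_lit 0x4000200000001000280010000000000000000000000000000) (nat_lit 0x0) (nat_lit 0xfa003c007f8034007d407ea01ff80ffc03fe00be001f000000) := Q_17 (nat_lit 113) (C_17 L31049 (C_17 L29510 (C_17 L29512 (C_17 L31051 (C_17 L31128 N_17))))) (by decide +kernel)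
theorem L31130 : W_17 (nat_lit 2) (nat_lit 0x40002000e000d000380018000000000000000000000000000) (nat_lit 0x0) (nat_lit 0x2000100010000000000000000000000000000000000000) := D_17 (nat_lit 164) (nat_lit 181) (nat_lit 148) (nat_lit 7) (nat_lit 10) (nat_lit 6) (nat_lit 2) (nat_lit 8) (nat_lit 9) (by decide +kernel)
theorem L31131 : W_17 (nat_lit 3) (nat_lit 0x40002000e0005000380018000000000000000000000000000) (nat_lit 0x0) (nat_lit 0x2000110018000000000000000000000000000000000000) := T_17 (nat_lit 147) (nat_lit 160) (nat_lit 2) (nat_lit 7) (nat_lit 9) L31130 (by decide +kernel)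
theorem L31132 : W_17 (nat_lit 4) (nat_lit 0x40002000a0005000380018000000000000000000000000000) (nat_lit 0x0) (nat_lit 0x2800150018000000000000000000000000000000000000) := T_17 (nat_lit 162) (nat_lit 179) (nat_lit 5) (nat_lit 10) (nat_lit 6) L31131 (by decide +kernel)
theorem L31133 : W_17 (nat_lit 5) (nat_lit 0x40002000a0005000380010000000000000000000000000000) (nat_lit 0x0) (nat_lit 0x2800150018000000008000400000000000000000000000) := T_17 (nat_lit 111) (nat_lit 94) (nat_lit 4) (nat_lit 10) (nat_lit 9) L31132 (by decide +kernel)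
theorem L31134 : W_17 (nat_lit 6) (nat_lit 0x4000200080005000380010000000000000000000000000000) (nat_lit 0x0) (nat_lit 0x2c00170018000000008000400000000000000000000000) := T_17 (nat_lit 161) (nat_lit 178) (nat_lit 5) (nat_lit 8) (nat_lit 7) L31133 (by decide +kernel)
theorem L31135 : W_17 (nat_lit 7) (nat_lit 0x4000200000005000380010000000000000000000000000000) (nat_lit 0x0) (nat_lit 0x52003c001f0018000000008000400000000000000000000000) := Q_17 (nat_lit 163) (C_17 L30192 (C_17 L29951 (C_17 L31134 (C_17 L30028 N_17)))) (by decide +kernel)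
theorem L31136 : W_17 (nat_lit 9) (nat_lit 0x4001600000005000380010000000000000000000000000000) (nat_lit 0x0) (nat_lit 0x3fa00e800718000000000000000000000000000000000000000) := T_17 (nat_lit 179) (nat_lit 193) (nat_lit 1) (nat_lit 10) (nat_lit 10) L30566 (by decide +kernel)
theorem L31137 : W_17 (nat_lit 10) (nat_lit 0x4001200000005000380010000000000000000000000000000) (nat_lit 0x0) (nat_lit 0x3fa00ec00738000000000000000000000000000000000000000) := T_17 (nat_lit 178) (nat_lit 161) (nat_lit 5) (nat_lit 8) (nat_lit 7) L31136 (by decide +kernel)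
theorem L31138 : W_17 (nat_lit 3) (nat_lit 0x4001200020005000380010000000000000000000000000000) (nat_lit 0x0) (nat_lit 0x40002000180000000000008000000000000000000000000000) := T_17 (nat_lit 163) (nat_lit 111) (nat_lit 4) (nat_lit 10) (nat_lit 10) L29949 (by decide +kernel)
theorem L31139 : W_17 (nat_lit 4) (nat_lit 0x4001200000005000380010000000000000000000000000000) (nat_lit 0x0) (nat_lit 0x400024001a0000000000008000000000000000000000000000) := T_17 (nat_lit 161) (nat_lit 178) (nat_lit 5) (nat_lit 8) (nat_lit 7) L31138 (by decide +kernel)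
theorem L31140 : W_17 (nat_lit 3) (nat_lit 0x4001200000005000380010000000000000000000000000000) (nat_lit 0x0) (nat_lit 0x100008000c0000000000008000000000000000000000000000) := T_17 (nat_lit 163) (nat_lit 111) (nat_lit 4) (nat_lit 10) (nat_lit 10) L30558 (by decide +kernel)
theorem L31141 : W_17 (nat_lit 11) (nat_lit 0x4000200000005000380010000000000000000000000000000) (nat_lit 0x0) (nat_lit 0x3fa00fc007f8000000000008000000000000000000000000000) := Q_17 (nat_lit 180) (C_17 L30559 (C_17 L31137 (C_17 L31139 (C_17 L30557 (C_17 L31140 N_17))))) (by decide +kernel)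
theorem L31142 : W_17 (nat_lit 12) (nat_lit 0x4000200000001000380010000000000000000000000000000) (nat_lit 0x0) (nat_lit 0x3fa00fc007f803c00046000b800400000000000000000000000) := Q_17 (nat_lit 146) (C_17 L30212 (C_17 L29958 (C_17 L31135 (C_17 L31141 N_17)))) (by decide +kernel)
theorem L31143 : W_17 (nat_lit 2) (nat_lit 0x4000200020011000f80090000000000000000000000000000) (nat_lit 0x0) (nat_lit 0x1000108000000000000000000000000000) := D_17 (nat_lit 132) (nat_lit 111) (nat_lit 116) (nat_lit 0) (nat_lit 13) (nat_lit 7) (nat_lit 2) (nat_lit 10) (nat_lit 7) (by decide +kernel)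
theorem L31144 : W_17 (nat_lit 3) (nat_lit 0x4000200020011000f80010000000000000000000000000000) (nat_lit 0x0) (nat_lit 0x10001c8000000000000000000000000000) := T_17 (nat_lit 115) (nat_lit 114) (nat_lit 2) (nat_lit 9) (nat_lit 7) L31143 (by decide +kernel)
theorem L31145 : W_17 (nat_lit 4) (nat_lit 0x4000200020011000780010000000000000000000000000000) (nat_lit 0x0) (nat_lit 0x200018001c8000000000000000000000000000) := T_17 (nat_lit 131) (nat_lit 149) (nat_lit 3) (nat_lit 9) (nat_lit 7) L31144 (by decide +kernel)
theorem L31146 : W_17 (nat_lit 5) (nat_lit 0x4000200020001000780010000000000000000000000000000) (nat_lit 0x0) (nat_lit 0x380018001c8000000000000000000000000000) := T_17 (nat_lit 148) (nat_lit 147) (nat_lit 3) (nat_lit 8) (nat_lit 7) L31145 (by decide +kernel)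
theorem L31147 : W_17 (nat_lit 6) (nat_lit 0x4000200000001000780010000000000000000000000000000) (nat_lit 0x0) (nat_lit 0x4000200380018001c8000000000000000000000000000) := T_17 (nat_lit 161) (nat_lit 178) (nat_lit 5) (nat_lit 8) (nat_lit 7) L31146 (by decide +kernel)
theorem L31148 : W_17 (nat_lit 2) (nat_lit 0x4000200020011003f80010000000000000000000000000000) (nat_lit 0x0) (nat_lit 0x380000000000000000000000000000) := D_17 (nat_lit 116) (nat_lit 115) (nat_lit 117) (nat_lit 2) (nat_lit 10) (nat_lit 7) (nat_lit 2) (nat_lit 11) (nat_lit 7) (by decide +kernel)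
theorem L31149 : W_17 (nat_lit 3) (nat_lit 0x4000200020011001f80010000000000000000000000000000) (nat_lit 0x0) (nat_lit 0x20003a0000000000000000000000000000) := T_17 (nat_lit 133) (nat_lit 113) (nat_lit 0) (nat_lit 14) (nat_lit 7) L31148 (by decide +kernel)
theorem L31150 : W_17 (nat_lit 4) (nat_lit 0x4000200020011000f80010000000000000000000000000000) (nat_lit 0x0) (nat_lit 0x30003a8000000000000000000000000000) := T_17 (nat_lit 132) (nat_lit 111) (nat_lit 0) (nat_lit 13) (nat_lit 7) L31149 (by decide +kernel)
theorem L31151 : W_17 (nat_lit 5) (nat_lit 0x4000200020011000780010000000000000000000000000000) (nat_lit 0x0) (nat_lit 0x200038003a8000000000000000000000000000) := T_17 (nat_lit 131) (nat_lit 149) (nat_lit 3) (nat_lit 9) (nat_lit 7) L31150 (by decide +kernel)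
theorem L31152 : W_17 (nat_lit 6) (nat_lit 0x4000200000011000780010000000000000000000000000000) (nat_lit 0x0) (nat_lit 0x4000200200038003a8000000000000000000000000000) := T_17 (nat_lit 161) (nat_lit 178) (nat_lit 5) (nat_lit 8) (nat_lit 7) L31151 (by decide +kernel)
theorem L31153 : W_17 (nat_lit 7) (nat_lit 0x4000200000001000780010000000000000000000000000000) (nat_lit 0x0) (nat_lit 0x4000200380038003a8000000000000000000000000000) := T_17 (nat_lit 148) (nat_lit 147) (nat_lit 3) (nat_lit 8) (nat_lit 7) L31152 (by decide +kernel)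
theorem L31154 : W_17 (nat_lit 2) (nat_lit 0x4000200180009000780030001000080000000000000000000) (nat_lit 0x0) (nat_lit 0x2000100008000000000000000) := D_17 (nat_lit 80) (nat_lit 97) (nat_lit 63) (nat_lit 6) (nat_lit 11) (nat_lit 8) (nat_lit 6) (nat_lit 11) (nat_lit 7) (by decide +kernel)
theorem L31155 : W_17 (nat_lit 3) (nat_lit 0x4000200180009000780030001000000000000000000000000) (nat_lit 0x0) (nat_lit 0x200018000c000000000000000) := T_17 (nat_lit 79) (nat_lit 62) (nat_lit 5) (nat_lit 11) (nat_lit 3) L31154 (by decide +kernel)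
theorem L31156 : W_17 (nat_lit 4) (nat_lit 0x4000200180009000780030000000000000000000000000000) (nat_lit 0x0) (nat_lit 0x400000000000300018000c000000000000000) := T_17 (nat_lit 96) (nat_lit 146) (nat_lit 6) (nat_lit 10) (nat_lit 9) L31155 (by decide +kernel)
theorem L31157 : W_17 (nat_lit 5) (nat_lit 0x4000200100009000780030000000000000000000000000000) (nat_lit 0x0) (nat_lit 0x100008000400000000000300018000c000000000000000) := T_17 (nat_lit 163) (nat_lit 180) (nat_lit 5) (nat_lit 11) (nat_lit 6) L31156 (by decide +kernel)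
theorem L31158 : W_17 (nat_lit 6) (nat_lit 0x4000200000009000780030000000000000000000000000000) (nat_lit 0x0) (nat_lit 0x300018000400000000000300018000c000000000000000) := T_17 (nat_lit 164) (nat_lit 181) (nat_lit 4) (nat_lit 11) (nat_lit 10) L31157 (by decide +kernel)
theorem L31159 : W_17 (nat_lit 7) (nat_lit 0x4000200000009000780010000000000000000000000000000) (nat_lit 0x0) (nat_lit 0x300018000400000006000300018000c000000000000000) := T_17 (nat_lit 113) (nat_lit 114) (nat_lit 2) (nat_lit 8) (nat_lit 7) L31158 (by decide +kernel)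
theorem L31160 : W_17 (nat_lit 8) (nat_lit 0x4000200000001000780010000000000000000000000000000) (nat_lit 0x0) (nat_lit 0x300018001c00000006000300018000c000000000000000) := T_17 (nat_lit 147) (nat_lit 148) (nat_lit 3) (nat_lit 8) (nat_lit 7) L31159 (by decide +kernel)
theorem L31161 : W_17 (nat_lit 2) (nat_lit 0x4000200020001001f80050000000000000000000000000000) (nat_lit 0x0) (nat_lit 0x70000000000000000000000000000000000000) := D_17 (nat_lit 149) (nat_lit 148) (nat_lit 150) (nat_lit 3) (nat_lit 9) (nat_lit 7) (nat_lit 3) (nat_lit 10) (nat_lit 7) (by decide +kernel)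
theorem L31162 : W_17 (nat_lit 3) (nat_lit 0x4000200020001000f80050000000000000000000000000000) (nat_lit 0x0) (nat_lit 0x70001000008000000000000000000000000000) := T_17 (nat_lit 132) (nat_lit 111) (nat_lit 0) (nat_lit 13) (nat_lit 7) L31161 (by decide +kernel)
theorem L31163 : W_17 (nat_lit 4) (nat_lit 0x4000200020001000780050000000000000000000000000000) (nat_lit 0x0) (nat_lit 0x70001800088000000000000000000000000000) := T_17 (nat_lit 131) (nat_lit 115) (nat_lit 2) (nat_lit 9) (nat_lit 7) L31162 (by decide +kernel)
theorem L31164 : W_17 (nat_lit 5) (nat_lit 0x4000200020001000780010000000000000000000000000000) (nat_lit 0x0) (nat_lit 0x700018000e8000000000000000000000000000) := T_17 (nat_lit 114) (nat_lit 113) (nat_lit 2) (nat_lit 8) (nat_lit 7) L31163 (by decide +kernel)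
theorem L31165 : W_17 (nat_lit 6) (nat_lit 0x4000200000001000780010000000000000000000000000000) (nat_lit 0x0) (nat_lit 0x4000200700018000e8000000000000000000000000000) := T_17 (nat_lit 161) (nat_lit 178) (nat_lit 5) (nat_lit 8) (nat_lit 7) L31164 (by decide +kernel)
theorem L31166 : W_17 (nat_lit 5) (nat_lit 0x4000200000001000f80010000000000000000000000000000) (nat_lit 0x0) (nat_lit 0xe0003000388000000000000000000000000000) := T_17 (nat_lit 132) (nat_lit 111) (nat_lit 0) (nat_lit 13) (nat_lit 7) L30569 (by decide +kernel)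
theorem L31167 : W_17 (nat_lit 2) (nat_lit 0x4000200000001000f80010000000000000000000000000000) (nat_lit 0x0) (nat_lit 0xe0000000000000000000000000000) := D_17 (nat_lit 114) (nat_lit 115) (nat_lit 113) (nat_lit 2) (nat_lit 9) (nat_lit 7) (nat_lit 2) (nat_lit 8) (nat_lit 7) (by decide +kernel)
theorem L31168 : W_17 (nat_lit 2) (nat_lit 0x4000200020001000f80030000000000000000000000000000) (nat_lit 0x0) (nat_lit 0x3000008000000000000000000000000000) := D_17 (nat_lit 132) (nat_lit 133) (nat_lit 111) (nat_lit 0) (nat_lit 14) (nat_lit 7) (nat_lit 0) (nat_lit 13) (nat_lit 7) (by decide +kernel)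
theorem L31169 : W_17 (nat_lit 3) (nat_lit 0x4000200020001000f80010000000000000000000000000000) (nat_lit 0x0) (nat_lit 0x3000068000000000000000000000000000) := T_17 (nat_lit 113) (nat_lit 114) (nat_lit 2) (nat_lit 8) (nat_lit 7) L31168 (by decide +kernel)
theorem L31170 : W_17 (nat_lit 4) (nat_lit 0x4000200000001000f80010000000000000000000000000000) (nat_lit 0x0) (nat_lit 0x400020000003000068000000000000000000000000000) := T_17 (nat_lit 161) (nat_lit 178) (nat_lit 5) (nat_lit 8) (nat_lit 7) L31169 (by decide +kernel)
theorem L31171 : W_17 (nat_lit 6) (nat_lit 0x4000200000001000780010000000000000000000000000000) (nat_lit 0x0) (nat_lit 0x4000200e00038003e8000000000000000000000000000) := Q_17 (nat_lit 131) (C_17 L31166 (C_17 L31167 (C_17 L31170 N_17))) (by decide +kernel)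
theorem L31172 : W_17 (nat_lit 9) (nat_lit 0x4000200000001000380010000000000000000000000000000) (nat_lit 0x0) (nat_lit 0x34001a00fc003c003e800300018000c000000000000000) := Q_17 (nat_lit 130) (C_17 L31147 (C_17 L31153 (C_17 L31160 (C_17 L31165 (C_17 L31171 N_17))))) (by decide +kernel)
theorem L31173 : W_17 (nat_lit 13) (nat_lit 0x4000200000001000280010000000000000000000000000000) (nat_lit 0x0) (nat_lit 0x3fa00fc007f80fc003d603eb80340018000c000000000000000) := Q_17 (nat_lit 128) (C_17 L31142 (C_17 L30185 (C_17 L30215 (C_17 L31172 N_17)))) (by decide +kernel)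
theorem L31174 : W_17 (nat_lit 2) (nat_lit 0x4000200000001000680010000800040002000000000000000) (nat_lit 0x0) (nat_lit 0x80004000200000000000) := D_17 (nat_lit 62) (nat_lit 45) (nat_lit 79) (nat_lit 6) (nat_lit 10) (nat_lit 6) (nat_lit 6) (nat_lit 10) (nat_lit 7) (by decide +kernel)
theorem L31175 : W_17 (nat_lit 3) (nat_lit 0x4000200000001000680010000800040000000000000000000) (nat_lit 0x0) (nat_lit 0x20000000080006000200000000000) := T_17 (nat_lit 61) (nat_lit 113) (nat_lit 7) (nat_lit 10) (nat_lit 3) L31174 (by decide +kernel)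
theorem L31176 : W_17 (nat_lit 4) (nat_lit 0x4000200000001000280010000800040000000000000000000) (nat_lit 0x0) (nat_lit 0x8000400020000000080006000200000000000) := T_17 (nat_lit 130) (nat_lit 147) (nat_lit 7) (nat_lit 10) (nat_lit 4) L31175 (by decide +kernel)
theorem L31177 : W_17 (nat_lit 8) (nat_lit 0x4000200000001000280010000800000000000000000000000) (nat_lit 0x0) (nat_lit 0xc0004000200014000e000700038000c000000) := Q_17 (nat_lit 78) (C_17 L30643 (C_17 L30824 (C_17 L30655 (C_17 L31176 N_17)))) (by decide +kernel)
theorem L31178 : W_17 (nat_lit 3) (nat_lit 0x40002000200010002800100018000c0000000000000000000) (nat_lit 0x0) (nat_lit 0x2000038001000000000000000) := T_17 (nat_lit 77) (nat_lit 60) (nat_lit 4) (nat_lit 10) (nat_lit 7) L30674 (by decide +kernel)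
theorem L31179 : W_17 (nat_lit 4) (nat_lit 0x4000200020001000280010001800040000000000000000000) (nat_lit 0x0) (nat_lit 0x20000b8005000000000000000) := T_17 (nat_lit 79) (nat_lit 62) (nat_lit 6) (nat_lit 10) (nat_lit 7) L31178 (by decide +kernel)
theorem L31180 : W_17 (nat_lit 5) (nat_lit 0x4000200000001000280010001800040000000000000000000) (nat_lit 0x0) (nat_lit 0x4000200000000000000020000b8005000000000000000) := T_17 (nat_lit 161) (nat_lit 178) (nat_lit 5) (nat_lit 8) (nat_lit 7) L31179 (by decide +kernel)
theorem L31181 : W_17 (nat_lit 2) (nat_lit 0x40002000000010006800100018000e0000000000000000000) (nat_lit 0x0) (nat_lit 0x2000018000000000000000000) := D_17 (nat_lit 76) (nat_lit 97) (nat_lit 75) (nat_lit 3) (nat_lit 8) (nat_lit 4) (nat_lit 3) (nat_lit 7) (nat_lit 4) (by decide +kernel)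
theorem L31182 : W_17 (nat_lit 3) (nat_lit 0x40002000000010006800100018000c0000000000000000000) (nat_lit 0x0) (nat_lit 0x2000038001000000000000000) := T_17 (nat_lit 77) (nat_lit 60) (nat_lit 4) (nat_lit 10) (nat_lit 7) L31181 (by decide +kernel)
theorem L31183 : W_17 (nat_lit 4) (nat_lit 0x4000200000001000680010001800040000000000000000000) (nat_lit 0x0) (nat_lit 0x20000b8005000000000000000) := T_17 (nat_lit 79) (nat_lit 62) (nat_lit 6) (nat_lit 10) (nat_lit 7) L31182 (by decide +kernel)
theorem L31184 : W_17 (nat_lit 5) (nat_lit 0x4000200000001000280010001800040000000000000000000) (nat_lit 0x0) (nat_lit 0x80004000000020000b8005000000000000000) := T_17 (nat_lit 130) (nat_lit 147) (nat_lit 7) (nat_lit 10) (nat_lit 4) L31183 (by decide +kernel)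
theorem L31185 : W_17 (nat_lit 2) (nat_lit 0x4000200000001000280010001800070000000000000000000) (nat_lit 0x0) (nat_lit 0x6400000000000000000000000) := D_17 (nat_lit 97) (nat_lit 98) (nat_lit 94) (nat_lit 0) (nat_lit 13) (nat_lit 5) (nat_lit 0) (nat_lit 12) (nat_lit 5) (by decide +kernel)
theorem L31186 : W_17 (nat_lit 3) (nat_lit 0x4000200000001000280010001800060000000000000000000) (nat_lit 0x0) (nat_lit 0x6400018000000000000000000) := T_17 (nat_lit 76) (nat_lit 75) (nat_lit 3) (nat_lit 7) (nat_lit 4) L31185 (by decide +kernel)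
theorem L31187 : W_17 (nat_lit 4) (nat_lit 0x4000200000001000280010001800040000000000000000000) (nat_lit 0x0) (nat_lit 0x6400038001000000000000000) := T_17 (nat_lit 77) (nat_lit 60) (nat_lit 4) (nat_lit 10) (nat_lit 7) L31186 (by decide +kernel)
theorem L31188 : W_17 (nat_lit 2) (nat_lit 0x4000200000001000280070001800040000000000000000000) (nat_lit 0x0) (nat_lit 0x80000600000000000000000000000) := D_17 (nat_lit 94) (nat_lit 93) (nat_lit 115) (nat_lit 3) (nat_lit 8) (nat_lit 5) (nat_lit 0) (nat_lit 13) (nat_lit 6) (by decide +kernel)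
theorem L31189 : W_17 (nat_lit 2) (nat_lit 0x4000200000001000280070005800060000000000000000000) (nat_lit 0x0) (nat_lit 0x180008000000000000000000000000) := D_17 (nat_lit 115) (nat_lit 116) (nat_lit 99) (nat_lit 0) (nat_lit 14) (nat_lit 6) (nat_lit 2) (nat_lit 10) (nat_lit 6) (by decide +kernel)
theorem L31190 : W_17 (nat_lit 3) (nat_lit 0x4000200000001000280070001800060000000000000000000) (nat_lit 0x0) (nat_lit 0x18000e000000000000000000000000) := T_17 (nat_lit 98) (nat_lit 97) (nat_lit 0) (nat_lit 13) (nat_lit 5) L31189 (by decide +kernel)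
theorem L31191 : W_17 (nat_lit 4) (nat_lit 0x4000200000001000280070001800040000000000000000000) (nat_lit 0x0) (nat_lit 0x18000e000020001000000000000000) := T_17 (nat_lit 77) (nat_lit 60) (nat_lit 4) (nat_lit 10) (nat_lit 7) L31190 (by decide +kernel)
theorem L31192 : W_17 (nat_lit 9) (nat_lit 0x4000200000001000280030001800040000000000000000000) (nat_lit 0x0) (nat_lit 0x100008001c000e6003a001d000400000000000) := Q_17 (nat_lit 114) (C_17 L30476 (C_17 L31188 (C_17 L31191 N_17))) (by decide +kernel)
theorem L31193 : W_17 (nat_lit 2) (nat_lit 0x4000200020001000680070003c00060000000000000000000) (nat_lit 0x0) (nat_lit 0x300008000000000000000) := D_17 (nat_lit 80) (nat_lit 63) (nat_lit 81) (nat_lit 5) (nat_lit 12) (nat_lit 3) (nat_lit 2) (nat_lit 9) (nat_lit 5) (by decide +kernel)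
theorem L31194 : W_17 (nat_lit 3) (nat_lit 0x4000200020001000680070001c00060000000000000000000) (nat_lit 0x0) (nat_lit 0x6000300008000000000000000) := T_17 (nat_lit 97) (nat_lit 98) (nat_lit 0) (nat_lit 13) (nat_lit 5) L31193 (by decide +kernel)
theorem L31195 : W_17 (nat_lit 4) (nat_lit 0x4000200020001000680070001c00040000000000000000000) (nat_lit 0x0) (nat_lit 0x6000320009000000000000000) := T_17 (nat_lit 77) (nat_lit 60) (nat_lit 4) (nat_lit 10) (nat_lit 7) L31194 (by decide +kernel)
theorem L31196 : W_17 (nat_lit 5) (nat_lit 0x4000200020001000280070001c00040000000000000000000) (nat_lit 0x0) (nat_lit 0x8000400000006000320009000000000000000) := T_17 (nat_lit 130) (nat_lit 147) (nat_lit 7) (nat_lit 10) (nat_lit 4) L31195 (by decide +kernel)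
theorem L31197 : W_17 (nat_lit 6) (nat_lit 0x4000200000001000280070001c00040000000000000000000) (nat_lit 0x0) (nat_lit 0x400020008000400000006000320009000000000000000) := T_17 (nat_lit 161) (nat_lit 178) (nat_lit 5) (nat_lit 8) (nat_lit 7) L31196 (by decide +kernel)
theorem L31198 : W_17 (nat_lit 7) (nat_lit 0x4000200000001000280070001800040000000000000000000) (nat_lit 0x0) (nat_lit 0x400020008000400000006600320009000000000000000) := T_17 (nat_lit 94) (nat_lit 93) (nat_lit 3) (nat_lit 8) (nat_lit 5) L31197 (by decide +kernel)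
theorem L31199 : W_17 (nat_lit 8) (nat_lit 0x4000200000001000280030001800040000000000000000000) (nat_lit 0x0) (nat_lit 0x4000200080004001c000e600320009000000000000000) := Q_17 (nat_lit 114) (C_17 L31191 (C_17 L31198 (C_17 L31188 N_17))) (by decide +kernel)
theorem L31200 : W_17 (nat_lit 10) (nat_lit 0x4000200000001000280010001800040000000000000000000) (nat_lit 0x0) (nat_lit 0x400020018003c001e800e6003a001d000400000000000) := Q_17 (nat_lit 113) (C_17 L29532 (C_17 L30736 (C_17 L31192 (C_17 L29548 (C_17 L31199 N_17))))) (by decide +kernel)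
theorem L31201 : W_17 (nat_lit 2) (nat_lit 0x40002000000010002800100038000c0000000000000000000) (nat_lit 0x0) (nat_lit 0x800c000000000000000000000000) := D_17 (nat_lit 98) (nat_lit 99) (nat_lit 111) (nat_lit 0) (nat_lit 14) (nat_lit 5) (nat_lit 1) (nat_lit 13) (nat_lit 5) (by decide +kernel)
theorem L31202 : W_17 (nat_lit 3) (nat_lit 0x4000200000001000280010003800040000000000000000000) (nat_lit 0x0) (nat_lit 0x800c000080004000000000000000) := T_17 (nat_lit 79) (nat_lit 62) (nat_lit 6) (nat_lit 10) (nat_lit 7) L31201 (by decide +kernel)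
theorem L31203 : W_17 (nat_lit 2) (nat_lit 0x4000200020001000680010007c002c0000000000000000000) (nat_lit 0x0) (nat_lit 0x1c0000000000000000000000000000) := D_17 (nat_lit 115) (nat_lit 114) (nat_lit 116) (nat_lit 3) (nat_lit 9) (nat_lit 5) (nat_lit 3) (nat_lit 10) (nat_lit 5) (by decide +kernel)
theorem L31204 : W_17 (nat_lit 3) (nat_lit 0x40002000200010006800100078002c0000000000000000000) (nat_lit 0x0) (nat_lit 0x1c0000400100000000000000000000) := T_17 (nat_lit 94) (nat_lit 80) (nat_lit 2) (nat_lit 9) (nat_lit 5) L31203 (by decide +kernel)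
theorem L31205 : W_17 (nat_lit 4) (nat_lit 0x40002000200010006800100078000c0000000000000000000) (nat_lit 0x0) (nat_lit 0x1c0000400700000000000000000000) := T_17 (nat_lit 81) (nat_lit 82) (nat_lit 2) (nat_lit 10) (nat_lit 5) L31204 (by decide +kernel)
theorem L31206 : W_17 (nat_lit 5) (nat_lit 0x40002000200010002800100078000c0000000000000000000) (nat_lit 0x0) (nat_lit 0x80004001c0000400700000000000000000000) := T_17 (nat_lit 130) (nat_lit 147) (nat_lit 7) (nat_lit 10) (nat_lit 4) L31205 (by decide +kernel)
theorem L31207 : W_17 (nat_lit 6) (nat_lit 0x40002000200010002800100038000c0000000000000000000) (nat_lit 0x0) (nat_lit 0x80004001c000c400700000000000000000000) := T_17 (nat_lit 98) (nat_lit 99) (nat_lit 0) (nat_lit 14) (nat_lit 5) L31206 (by decide +kernel)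
theorem L31208 : W_17 (nat_lit 7) (nat_lit 0x4000200020001000280010003800040000000000000000000) (nat_lit 0x0) (nat_lit 0x80004001c000c400780004000000000000000) := T_17 (nat_lit 79) (nat_lit 62) (nat_lit 6) (nat_lit 10) (nat_lit 7) L31207 (by decide +kernel)
theorem L31209 : W_17 (nat_lit 8) (nat_lit 0x4000200000001000280010003800040000000000000000000) (nat_lit 0x0) (nat_lit 0x4000200080004001c000c400780004000000000000000) := T_17 (nat_lit 161) (nat_lit 178) (nat_lit 5) (nat_lit 8) (nat_lit 7) L31208 (by decide +kernel)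
theorem L31210 : W_17 (nat_lit 2) (nat_lit 0x400020002000100068001000f800040000000000000000000) (nat_lit 0x0) (nat_lit 0x380000000000000000000000000000) := D_17 (nat_lit 116) (nat_lit 115) (nat_lit 117) (nat_lit 3) (nat_lit 10) (nat_lit 5) (nat_lit 3) (nat_lit 11) (nat_lit 5) (by decide +kernel)
theorem L31211 : W_17 (nat_lit 3) (nat_lit 0x4000200020001000680010007800040000000000000000000) (nat_lit 0x0) (nat_lit 0x3a0008000000000000000000000000) := T_17 (nat_lit 99) (nat_lit 113) (nat_lit 1) (nat_lit 14) (nat_lit 5) L31210 (by decide +kernel)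
theorem L31212 : W_17 (nat_lit 4) (nat_lit 0x4000200020001000680010003800040000000000000000000) (nat_lit 0x0) (nat_lit 0x3a800c000000000000000000000000) := T_17 (nat_lit 98) (nat_lit 111) (nat_lit 1) (nat_lit 13) (nat_lit 5) L31211 (by decide +kernel)
theorem L31213 : W_17 (nat_lit 5) (nat_lit 0x4000200000001000680010003800040000000000000000000) (nat_lit 0x0) (nat_lit 0x4000200000000003a800c000000000000000000000000) := T_17 (nat_lit 161) (nat_lit 178) (nat_lit 5) (nat_lit 8) (nat_lit 7) L31212 (by decide +kernel)
theorem L31214 : W_17 (nat_lit 6) (nat_lit 0x4000200000001000280010003800040000000000000000000) (nat_lit 0x0) (nat_lit 0x4000200080004003a800c000000000000000000000000) := T_17 (nat_lit 130) (nat_lit 147) (nat_lit 7) (nat_lit 10) (nat_lit 4) L31213 (by decide +kernel)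
theorem L31215 : W_17 (nat_lit 2) (nat_lit 0x4000200020001000680050003c00140000000000000000000) (nat_lit 0x0) (nat_lit 0x20000200000008000000000000000) := D_17 (nat_lit 113) (nat_lit 93) (nat_lit 63) (nat_lit 3) (nat_lit 8) (nat_lit 5) (nat_lit 5) (nat_lit 12) (nat_lit 3) (by decide +kernel)
theorem L31216 : W_17 (nat_lit 3) (nat_lit 0x4000200020001000680010003c00140000000000000000000) (nat_lit 0x0) (nat_lit 0xe0000200000008000000000000000) := T_17 (nat_lit 114) (nat_lit 115) (nat_lit 3) (nat_lit 9) (nat_lit 5) L31215 (by decide +kernel)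
theorem L31217 : W_17 (nat_lit 4) (nat_lit 0x4000200020001000280010003c00140000000000000000000) (nat_lit 0x0) (nat_lit 0x80004000e0000200000008000000000000000) := T_17 (nat_lit 130) (nat_lit 147) (nat_lit 7) (nat_lit 10) (nat_lit 4) L31216 (by decide +kernel)
theorem L31218 : W_17 (nat_lit 5) (nat_lit 0x4000200020001000280010003c00040000000000000000000) (nat_lit 0x0) (nat_lit 0x80004000e0000200300008000000000000000) := T_17 (nat_lit 80) (nat_lit 81) (nat_lit 2) (nat_lit 9) (nat_lit 5) L31217 (by decide +kernel)
theorem L31219 : W_17 (nat_lit 6) (nat_lit 0x4000200000001000280010003c00040000000000000000000) (nat_lit 0x0) (nat_lit 0x4000200080004000e0000200300008000000000000000) := T_17 (nat_lit 161) (nat_lit 178) (nat_lit 5) (nat_lit 8) (nat_lit 7) L31218 (by decide +kernel)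
theorem L31220 : W_17 (nat_lit 2) (nat_lit 0x4000200000001000280050003e00040000000000000000000) (nat_lit 0x0) (nat_lit 0x100080004000000000000000) := D_17 (nat_lit 79) (nat_lit 92) (nat_lit 62) (nat_lit 2) (nat_lit 7) (nat_lit 5) (nat_lit 6) (nat_lit 10) (nat_lit 7) (by decide +kernel)
theorem L31221 : W_17 (nat_lit 3) (nat_lit 0x4000200000001000280050003c00040000000000000000000) (nat_lit 0x0) (nat_lit 0x20000300080004000000000000000) := T_17 (nat_lit 93) (nat_lit 113) (nat_lit 3) (nat_lit 8) (nat_lit 5) L31220 (by decide +kernel)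
theorem L31222 : W_17 (nat_lit 4) (nat_lit 0x4000200000001000280010003c00040000000000000000000) (nat_lit 0x0) (nat_lit 0xe0000300080004000000000000000) := T_17 (nat_lit 114) (nat_lit 115) (nat_lit 3) (nat_lit 9) (nat_lit 5) L31221 (by decide +kernel)
theorem L31223 : W_17 (nat_lit 2) (nat_lit 0x4000200000001000280010003c000c0000000000000000000) (nat_lit 0x0) (nat_lit 0x300100000000000000000000) := D_17 (nat_lit 93) (nat_lit 80) (nat_lit 92) (nat_lit 2) (nat_lit 8) (nat_lit 5) (nat_lit 2) (nat_lit 7) (nat_lit 5) (by decide +kernel)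
theorem L31224 : W_17 (nat_lit 3) (nat_lit 0x4000200000001000280010003c00040000000000000000000) (nat_lit 0x0) (nat_lit 0x300180004000000000000000) := T_17 (nat_lit 79) (nat_lit 62) (nat_lit 6) (nat_lit 10) (nat_lit 7) L31223 (by decide +kernel)
theorem L31225 : W_17 (nat_lit 2) (nat_lit 0x4000200020011000680050003c001c0008000400000000000) (nat_lit 0x0) (nat_lit 0x10000800040000000) := D_17 (nat_lit 47) (nat_lit 64) (nat_lit 30) (nat_lit 6) (nat_lit 12) (nat_lit 6) (nat_lit 6) (nat_lit 12) (nat_lit 5) (by decide +kernel)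
theorem L31226 : W_17 (nat_lit 3) (nat_lit 0x4000200020011000680050003c001c0008000000000000000) (nat_lit 0x0) (nat_lit 0x10000c00060000000) := T_17 (nat_lit 46) (nat_lit 29) (nat_lit 5) (nat_lit 12) (nat_lit 1) L31225 (by decide +kernel)
theorem L31227 : W_17 (nat_lit 4) (nat_lit 0x4000200020011000680050003c001c0000000000000000000) (nat_lit 0x0) (nat_lit 0x20000000000018000c00060000000) := T_17 (nat_lit 63) (nat_lit 113) (nat_lit 6) (nat_lit 11) (nat_lit 7) L31226 (by decide +kernel)
theorem L31228 : W_17 (nat_lit 5) (nat_lit 0x4000200020011000280050003c001c0000000000000000000) (nat_lit 0x0) (nat_lit 0x8000400020000000000018000c00060000000) := T_17 (nat_lit 130) (nat_lit 147) (nat_lit 7) (nat_lit 10) (nat_lit 4) L31227 (by decide +kernel)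
theorem L31229 : W_17 (nat_lit 6) (nat_lit 0x4000200020011000280050003c000c0000000000000000000) (nat_lit 0x0) (nat_lit 0x8000400020000000300018000c00060000000) := T_17 (nat_lit 80) (nat_lit 81) (nat_lit 2) (nat_lit 9) (nat_lit 5) L31228 (by decide +kernel)
theorem L31230 : W_17 (nat_lit 7) (nat_lit 0x4000200020001000280050003c000c0000000000000000000) (nat_lit 0x0) (nat_lit 0x18000c00020000000300018000c00060000000) := T_17 (nat_lit 148) (nat_lit 131) (nat_lit 4) (nat_lit 12) (nat_lit 8) L31229 (by decide +kernel)
theorem L31231 : W_17 (nat_lit 8) (nat_lit 0x4000200020001000280050003c00040000000000000000000) (nat_lit 0x0) (nat_lit 0x18000c0002000000038001c000c00060000000) := T_17 (nat_lit 79) (nat_lit 62) (nat_lit 6) (nat_lit 10) (nat_lit 7) L31230 (by decide +kernel)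
theorem L31232 : W_17 (nat_lit 9) (nat_lit 0x4000200020001000280010003c00040000000000000000000) (nat_lit 0x0) (nat_lit 0x18000c000e000000038001c000c00060000000) := T_17 (nat_lit 114) (nat_lit 115) (nat_lit 3) (nat_lit 9) (nat_lit 5) L31231 (by decide +kernel)
theorem L31233 : W_17 (nat_lit 10) (nat_lit 0x4000200000001000280010003c00040000000000000000000) (nat_lit 0x0) (nat_lit 0x400020018000c000e000000038001c000c00060000000) := T_17 (nat_lit 161) (nat_lit 178) (nat_lit 5) (nat_lit 8) (nat_lit 7) L31232 (by decide +kernel)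
theorem L31234 : W_17 (nat_lit 11) (nat_lit 0x4000200000001000280010003800040000000000000000000) (nat_lit 0x0) (nat_lit 0x400020018000c000e000070038001c000c00060000000) := Q_17 (nat_lit 94) (C_17 L31219 (C_17 L31222 (C_17 L31224 (C_17 L31233 N_17)))) (by decide +kernel)
theorem L31235 : W_17 (nat_lit 12) (nat_lit 0x4000200000001000280010001800040000000000000000000) (nat_lit 0x0) (nat_lit 0x400020018000c003e800e70078001c000c00060000000) := Q_17 (nat_lit 97) (C_17 L31202 (C_17 L31209 (C_17 L31214 (C_17 L31234 N_17)))) (by decide +kernel)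
theorem L31236 : W_17 (nat_lit 2) (nat_lit 0x4000200020001000680010001e000f0000800000000000000) (nat_lit 0x0) (nat_lit 0x8000000000000000040002000000) := D_17 (nat_lit 42) (nat_lit 111) (nat_lit 25) (nat_lit 7) (nat_lit 8) (nat_lit 2) (nat_lit 7) (nat_lit 8) (nat_lit 1) (by decide +kernel)
theorem L31237 : W_17 (nat_lit 3) (nat_lit 0x4000200020001000680010001a000f0000800000000000000) (nat_lit 0x0) (nat_lit 0x8000400100000000040002000000) := T_17 (nat_lit 94) (nat_lit 80) (nat_lit 2) (nat_lit 8) (nat_lit 5) L31236 (by decide +kernel)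
theorem L31238 : W_17 (nat_lit 4) (nat_lit 0x4000200020001000680010001a000f0000000000000000000) (nat_lit 0x0) (nat_lit 0x8000400100000c00040002000000) := T_17 (nat_lit 59) (nat_lit 58) (nat_lit 0) (nat_lit 11) (nat_lit 4) L31237 (by decide +kernel)
theorem L31239 : W_17 (nat_lit 5) (nat_lit 0x40002000200010006800100018000f0000000000000000000) (nat_lit 0x0) (nat_lit 0x8000700100000c00040002000000) := T_17 (nat_lit 93) (nat_lit 92) (nat_lit 1) (nat_lit 11) (nat_lit 4) L31238 (by decide +kernel)
theorem L31240 : W_17 (nat_lit 6) (nat_lit 0x4000200020001000680010001800070000000000000000000) (nat_lit 0x0) (nat_lit 0x8000700180004c00040002000000) := T_17 (nat_lit 79) (nat_lit 62) (nat_lit 6) (nat_lit 10) (nat_lit 7) L31239 (by decide +kernel)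
theorem L31241 : W_17 (nat_lit 7) (nat_lit 0x4000200000001000680010001800070000000000000000000) (nat_lit 0x0) (nat_lit 0x400020000000000008000700180004c00040002000000) := T_17 (nat_lit 161) (nat_lit 178) (nat_lit 5) (nat_lit 8) (nat_lit 7) L31240 (by decide +kernel)
theorem L31242 : W_17 (nat_lit 8) (nat_lit 0x4000200000001000680010001800060000000000000000000) (nat_lit 0x0) (nat_lit 0x400020000000000008000700198004c00040002000000) := T_17 (nat_lit 76) (nat_lit 75) (nat_lit 3) (nat_lit 7) (nat_lit 4) L31241 (by decide +kernel)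
theorem L31243 : W_17 (nat_lit 9) (nat_lit 0x4000200000001000680010001800040000000000000000000) (nat_lit 0x0) (nat_lit 0x4000200000000000080007001b8005c00040002000000) := T_17 (nat_lit 77) (nat_lit 60) (nat_lit 4) (nat_lit 10) (nat_lit 7) L31242 (by decide +kernel)
theorem L31244 : W_17 (nat_lit 10) (nat_lit 0x4000200000001000280010001800040000000000000000000) (nat_lit 0x0) (nat_lit 0x4000200080004000080007001b8005c00040002000000) := T_17 (nat_lit 130) (nat_lit 147) (nat_lit 7) (nat_lit 10) (nat_lit 4) L31243 (by decide +kernel)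
theorem L31245 : W_17 (nat_lit 13) (nat_lit 0x4000200000001000280010000800040000000000000000000) (nat_lit 0x0) (nat_lit 0x400020018003c003e800f7007b801dc00c40062000000) := Q_17 (nat_lit 96) (C_17 L31180 (C_17 L31184 (C_17 L31187 (C_17 L31200 (C_17 L31235 (C_17 L31244 N_17)))))) (by decide +kernel)
theorem L31246 : W_17 (nat_lit 14) (nat_lit 0x4000200000001000280010000800000000000000000000000) (nat_lit 0x0) (nat_lit 0x400020018003c003e800f7007f801fc00ec0062000000) := Q_17 (nat_lit 78) (C_17 L30718 (C_17 L31176 (C_17 L30824 (C_17 L31245 N_17)))) (by decide +kernel)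
theorem L31247 : W_17 (nat_lit 2) (nat_lit 0x4000200020005000280010000f80000000000000000000000) (nat_lit 0x0) (nat_lit 0x3800000000000000000000000000) := D_17 (nat_lit 108) (nat_lit 107) (nat_lit 109) (nat_lit 1) (nat_lit 9) (nat_lit 5) (nat_lit 1) (nat_lit 10) (nat_lit 5) (by decide +kernel)
theorem L31248 : W_17 (nat_lit 3) (nat_lit 0x4000200020005000280010000f00000000000000000000000) (nat_lit 0x0) (nat_lit 0xb800080000000000000000000000) := T_17 (nat_lit 91) (nat_lit 111) (nat_lit 3) (nat_lit 6) (nat_lit 5) L31247 (by decide +kernel)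
theorem L31249 : W_17 (nat_lit 4) (nat_lit 0x4000200020005000280010000e00000000000000000000000) (nat_lit 0x0) (nat_lit 0x2b800180000000000000000000000) := T_17 (nat_lit 92) (nat_lit 113) (nat_lit 3) (nat_lit 7) (nat_lit 5) L31248 (by decide +kernel)
theorem L31250 : W_17 (nat_lit 5) (nat_lit 0x4000200000005000280010000e00000000000000000000000) (nat_lit 0x0) (nat_lit 0x40002000000000002b800180000000000000000000000) := T_17 (nat_lit 161) (nat_lit 178) (nat_lit 5) (nat_lit 8) (nat_lit 7) L31249 (by decide +kernel)
theorem L31251 : W_17 (nat_lit 2) (nat_lit 0x400020000000d000280010000f80000000000000000000000) (nat_lit 0x0) (nat_lit 0x3800000000000000000000000000) := D_17 (nat_lit 108) (nat_lit 107) (nat_lit 109) (nat_lit 1) (nat_lit 9) (nat_lit 5) (nat_lit 1) (nat_lit 10) (nat_lit 5) (by decide +kernel)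
theorem L31252 : W_17 (nat_lit 3) (nat_lit 0x400020000000d000280010000f00000000000000000000000) (nat_lit 0x0) (nat_lit 0xb800080000000000000000000000) := T_17 (nat_lit 91) (nat_lit 111) (nat_lit 3) (nat_lit 6) (nat_lit 5) L31251 (by decide +kernel)
theorem L31253 : W_17 (nat_lit 4) (nat_lit 0x400020000000d000280010000e00000000000000000000000) (nat_lit 0x0) (nat_lit 0x2b800180000000000000000000000) := T_17 (nat_lit 92) (nat_lit 113) (nat_lit 3) (nat_lit 7) (nat_lit 5) L31252 (by decide +kernel)
theorem L31254 : W_17 (nat_lit 5) (nat_lit 0x4000200000005000280010000e00000000000000000000000) (nat_lit 0x0) (nat_lit 0x10000800000002b800180000000000000000000000) := T_17 (nat_lit 147) (nat_lit 164) (nat_lit 7) (nat_lit 10) (nat_lit 5) L31253 (by decide +kernel)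
theorem L31255 : W_17 (nat_lit 2) (nat_lit 0x4000200000005000280010001e00000000000000000000000) (nat_lit 0x0) (nat_lit 0x60000100000000000000000000000) := D_17 (nat_lit 113) (nat_lit 114) (nat_lit 92) (nat_lit 3) (nat_lit 8) (nat_lit 5) (nat_lit 3) (nat_lit 7) (nat_lit 5) (by decide +kernel)
theorem L31256 : W_17 (nat_lit 3) (nat_lit 0x4000200000005000280010000e00000000000000000000000) (nat_lit 0x0) (nat_lit 0x60001100080000000000000000000) := T_17 (nat_lit 96) (nat_lit 79) (nat_lit 6) (nat_lit 10) (nat_lit 8) L31255 (by decide +kernel)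
theorem L31257 : W_17 (nat_lit 2) (nat_lit 0x400020002000d000280050003e00210000000000000000000) (nat_lit 0x0) (nat_lit 0x8004000400000000000000000000) := D_17 (nat_lit 98) (nat_lit 111) (nat_lit 82) (nat_lit 1) (nat_lit 13) (nat_lit 5) (nat_lit 2) (nat_lit 10) (nat_lit 5) (by decide +kernel)
theorem L31258 : W_17 (nat_lit 3) (nat_lit 0x400020002000d000280050003e00010000000000000000000) (nat_lit 0x0) (nat_lit 0x8004000700000000000000000000) := T_17 (nat_lit 81) (nat_lit 80) (nat_lit 2) (nat_lit 9) (nat_lit 5) L31257 (by decide +kernel)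
theorem L31259 : W_17 (nat_lit 4) (nat_lit 0x400020002000d000280050001e00010000000000000000000) (nat_lit 0x0) (nat_lit 0x88006000700000000000000000000) := T_17 (nat_lit 97) (nat_lit 115) (nat_lit 3) (nat_lit 9) (nat_lit 5) L31258 (by decide +kernel)
theorem L31260 : W_17 (nat_lit 5) (nat_lit 0x400020002000d000280050001e00000000000000000000000) (nat_lit 0x0) (nat_lit 0x88006000718000000000000000000) := T_17 (nat_lit 76) (nat_lit 75) (nat_lit 0) (nat_lit 11) (nat_lit 5) L31259 (by decide +kernel)
theorem L31261 : W_17 (nat_lit 6) (nat_lit 0x400020002000d000280010001e00000000000000000000000) (nat_lit 0x0) (nat_lit 0xe8006000718000000000000000000) := T_17 (nat_lit 114) (nat_lit 113) (nat_lit 3) (nat_lit 8) (nat_lit 5) L31260 (by decide +kernel)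
theorem L31262 : W_17 (nat_lit 7) (nat_lit 0x400020002000d000280010000e00000000000000000000000) (nat_lit 0x0) (nat_lit 0xe8007000798000000000000000000) := T_17 (nat_lit 96) (nat_lit 79) (nat_lit 6) (nat_lit 10) (nat_lit 8) L31261 (by decide +kernel)
theorem L31263 : W_17 (nat_lit 8) (nat_lit 0x4000200020005000280010000e00000000000000000000000) (nat_lit 0x0) (nat_lit 0x1000080000000e8007000798000000000000000000) := T_17 (nat_lit 147) (nat_lit 164) (nat_lit 7) (nat_lit 10) (nat_lit 5) L31262 (by decide +kernel)
theorem L31264 : W_17 (nat_lit 9) (nat_lit 0x4000200000005000280010000e00000000000000000000000) (nat_lit 0x0) (nat_lit 0x4001200080000000e8007000798000000000000000000) := T_17 (nat_lit 161) (nat_lit 178) (nat_lit 5) (nat_lit 8) (nat_lit 7) L31263 (by decide +kernel)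
theorem L31265 : W_17 (nat_lit 2) (nat_lit 0x4000200020005000280010001f00008000000000000000000) (nat_lit 0x0) (nat_lit 0x40003000000000000000000000000000) := D_17 (nat_lit 109) (nat_lit 108) (nat_lit 126) (nat_lit 1) (nat_lit 10) (nat_lit 5) (nat_lit 7) (nat_lit 7) (nat_lit 4) (by decide +kernel)
theorem L31266 : W_17 (nat_lit 3) (nat_lit 0x4000200020005000280010001e00008000000000000000000) (nat_lit 0x0) (nat_lit 0x40003000100004000000000000000000) := T_17 (nat_lit 92) (nat_lit 74) (nat_lit 0) (nat_lit 10) (nat_lit 5) L31265 (by decide +kernel)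
theorem L31267 : W_17 (nat_lit 4) (nat_lit 0x4000200000005000280010001e00008000000000000000000) (nat_lit 0x0) (nat_lit 0x400020000000040003000100004000000000000000000) := T_17 (nat_lit 161) (nat_lit 178) (nat_lit 5) (nat_lit 8) (nat_lit 7) L31266 (by decide +kernel)
theorem L31268 : W_17 (nat_lit 5) (nat_lit 0x4000200000005000280010001e00000000000000000000000) (nat_lit 0x0) (nat_lit 0x40002000000004000300010001c000000000000000000) := T_17 (nat_lit 75) (nat_lit 76) (nat_lit 0) (nat_lit 11) (nat_lit 5) L31267 (by decide +kernel)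
theorem L31269 : W_17 (nat_lit 6) (nat_lit 0x4000200000005000280010000e00000000000000000000000) (nat_lit 0x0) (nat_lit 0x40002000000004000300110009c000000000000000000) := T_17 (nat_lit 96) (nat_lit 79) (nat_lit 6) (nat_lit 10) (nat_lit 8) L31268 (by decide +kernel)
theorem L31270 : W_17 (nat_lit 10) (nat_lit 0x4000200000005000280010000c00000000000000000000000) (nat_lit 0x0) (nat_lit 0x4001200080000400eb80738079c000000000000000000) := Q_17 (nat_lit 93) (C_17 L31250 (C_17 L31254 (C_17 L31256 (C_17 L31264 (C_17 L31269 N_17))))) (by decide +kernel)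
theorem L31271 : W_17 (nat_lit 11) (nat_lit 0x4000200000005000280010000800000000000000000000000) (nat_lit 0x0) (nat_lit 0x4001200080000400eb8077807bc000000000000000000) := T_17 (nat_lit 94) (nat_lit 77) (nat_lit 4) (nat_lit 10) (nat_lit 8) L31270 (by decide +kernel)
theorem L31272 : W_17 (nat_lit 12) (nat_lit 0x4000200000001000280010000800000000000000000000000) (nat_lit 0x0) (nat_lit 0x52003c001f000c0004400eb8077807bc000000000000000000) := Q_17 (nat_lit 146) (C_17 L30633 (C_17 L30993 (C_17 L30794 (C_17 L30639 (C_17 L30628 (C_17 L31271 N_17)))))) (by decide +kernel)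
theorem L31273 : W_17 (nat_lit 2) (nat_lit 0x4000a001a0005000280030000800000000000000000000000) (nat_lit 0x0) (nat_lit 0x10001000000000000400000000000000000000000000000000) := D_17 (nat_lit 180) (nat_lit 130) (nat_lit 196) (nat_lit 6) (nat_lit 10) (nat_lit 10) (nat_lit 5) (nat_lit 10) (nat_lit 7) (by decide +kernel)
theorem L31274 : W_17 (nat_lit 3) (nat_lit 0x40002001a0005000280030000800000000000000000000000) (nat_lit 0x0) (nat_lit 0x10001800040000000400000000000000000000000000000000) := T_17 (nat_lit 179) (nat_lit 162) (nat_lit 5) (nat_lit 10) (nat_lit 6) L31273 (by decide +kernel)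
theorem L31275 : W_17 (nat_lit 4) (nat_lit 0x40002001a0005000280010000800000000000000000000000) (nat_lit 0x0) (nat_lit 0x10001800040000000400020001000000000000000000000000) := T_17 (nat_lit 113) (nat_lit 96) (nat_lit 6) (nat_lit 10) (nat_lit 9) L31274 (by decide +kernel)
theorem L31276 : W_17 (nat_lit 5) (nat_lit 0x4000200120005000280010000800000000000000000000000) (nat_lit 0x0) (nat_lit 0x100038000c0000000400020001000000000000000000000000) := T_17 (nat_lit 163) (nat_lit 181) (nat_lit 7) (nat_lit 10) (nat_lit 6) L31275 (by decide +kernel)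
theorem L31277 : W_17 (nat_lit 6) (nat_lit 0x4000200020005000280010000800000000000000000000000) (nat_lit 0x0) (nat_lit 0x100038001c0008000400020001000000000000000000000000) := T_17 (nat_lit 164) (nat_lit 147) (nat_lit 7) (nat_lit 10) (nat_lit 5) L31276 (by decide +kernel)
theorem L31278 : W_17 (nat_lit 7) (nat_lit 0x4000200000005000280010000800000000000000000000000) (nat_lit 0x0) (nat_lit 0x10003c001e0008000400020001000000000000000000000000) := T_17 (nat_lit 161) (nat_lit 178) (nat_lit 5) (nat_lit 8) (nat_lit 7) L31277 (by decide +kernel)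
theorem L31279 : W_17 (nat_lit 2) (nat_lit 0x4000e00080005000280010001800000000000000000000000) (nat_lit 0x0) (nat_lit 0x12001000000000000000000000000000000000000000000000) := D_17 (nat_lit 180) (nat_lit 193) (nat_lit 196) (nat_lit 1) (nat_lit 10) (nat_lit 10) (nat_lit 5) (nat_lit 10) (nat_lit 7) (by decide +kernel)
theorem L31280 : W_17 (nat_lit 3) (nat_lit 0x4000600080005000280010001800000000000000000000000) (nat_lit 0x0) (nat_lit 0x12001800040000000000000000000000000000000000000000) := T_17 (nat_lit 179) (nat_lit 162) (nat_lit 5) (nat_lit 10) (nat_lit 6) L31279 (by decide +kernel)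
theorem L31281 : W_17 (nat_lit 4) (nat_lit 0x4000600000005000280010001800000000000000000000000) (nat_lit 0x0) (nat_lit 0x120018000c0000000000020000000000000000000000000000) := T_17 (nat_lit 163) (nat_lit 113) (nat_lit 6) (nat_lit 10) (nat_lit 9) L31280 (by decide +kernel)
theorem L31282 : W_17 (nat_lit 5) (nat_lit 0x4000200000005000280010001800000000000000000000000) (nat_lit 0x0) (nat_lit 0x12001c000e0000000000020000000000000000000000000000) := T_17 (nat_lit 178) (nat_lit 161) (nat_lit 5) (nat_lit 8) (nat_lit 7) L31281 (by decide +kernel)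
theorem L31283 : W_17 (nat_lit 6) (nat_lit 0x4000200000005000280010000800000000000000000000000) (nat_lit 0x0) (nat_lit 0x12001c000e0000000000020001000080000000000000000000) := T_17 (nat_lit 96) (nat_lit 79) (nat_lit 6) (nat_lit 10) (nat_lit 8) L31282 (by decide +kernel)
theorem L31284 : W_17 (nat_lit 8) (nat_lit 0x4000200000001000280010000800000000000000000000000) (nat_lit 0x0) (nat_lit 0x52003c001f000c0004000200010000e0007000280000000000) := Q_17 (nat_lit 146) (C_17 L30968 (C_17 L30628 (C_17 L31278 (C_17 L31283 N_17)))) (by decide +kernel)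
theorem L31285 : W_17 (nat_lit 3) (nat_lit 0x400020000000d000280010000800000000000000000000000) (nat_lit 0x0) (nat_lit 0x400000000400060001000000000000000) := T_17 (nat_lit 78) (nat_lit 130) (nat_lit 7) (nat_lit 10) (nat_lit 4) L30754 (by decide +kernel)
theorem L31286 : W_17 (nat_lit 4) (nat_lit 0x4000200000005000280010000800000000000000000000000) (nat_lit 0x0) (nat_lit 0x100008000400000000400060001000000000000000) := T_17 (nat_lit 147) (nat_lit 164) (nat_lit 7) (nat_lit 10) (nat_lit 5) L31285 (by decide +kernel)
theorem L31287 : W_17 (nat_lit 2) (nat_lit 0x40022000e0005000280010000c00000000000000000000000) (nat_lit 0x0) (nat_lit 0x40001000010000000000000000000000000000000000000000) := D_17 (nat_lit 180) (nat_lit 198) (nat_lit 160) (nat_lit 7) (nat_lit 10) (nat_lit 7) (nat_lit 3) (nat_lit 7) (nat_lit 9) (by decide +kernel)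
theorem L31288 : W_17 (nat_lit 3) (nat_lit 0x40002000e0005000280010000c00000000000000000000000) (nat_lit 0x0) (nat_lit 0x40003000110000000000000000000000000000000000000000) := T_17 (nat_lit 181) (nat_lit 164) (nat_lit 7) (nat_lit 10) (nat_lit 6) L31287 (by decide +kernel)
theorem L31289 : W_17 (nat_lit 4) (nat_lit 0x40002000a0005000280010000c00000000000000000000000) (nat_lit 0x0) (nat_lit 0x40003800150000000000000000000000000000000000000000) := T_17 (nat_lit 162) (nat_lit 179) (nat_lit 5) (nat_lit 10) (nat_lit 6) L31288 (by decide +kernel)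
theorem L31290 : W_17 (nat_lit 5) (nat_lit 0x4000200020005000280010000c00000000000000000000000) (nat_lit 0x0) (nat_lit 0x400038001d0000000000008000000000000000000000000000) := T_17 (nat_lit 163) (nat_lit 111) (nat_lit 4) (nat_lit 10) (nat_lit 9) L31289 (by decide +kernel)
theorem L31291 : W_17 (nat_lit 6) (nat_lit 0x4000200000005000280010000c00000000000000000000000) (nat_lit 0x0) (nat_lit 0x40003c001f0000000000008000000000000000000000000000) := T_17 (nat_lit 161) (nat_lit 178) (nat_lit 5) (nat_lit 8) (nat_lit 7) L31290 (by decide +kernel)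
theorem L31292 : W_17 (nat_lit 7) (nat_lit 0x4000200000005000280010000800000000000000000000000) (nat_lit 0x0) (nat_lit 0x40003c001f0000000000008000400020000000000000000000) := T_17 (nat_lit 94) (nat_lit 77) (nat_lit 4) (nat_lit 10) (nat_lit 8) L31291 (by decide +kernel)
theorem L31293 : W_17 (nat_lit 9) (nat_lit 0x4000200000001000280010000800000000000000000000000) (nat_lit 0x0) (nat_lit 0x50003c001f000c000400028001400060001000000000000000) := Q_17 (nat_lit 146) (C_17 L30972 (C_17 L31278 (C_17 L31286 (C_17 L30633 (C_17 L31292 (C_17 L30993 N_17)))))) (by decide +kernel)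
theorem L31294 : W_17 (nat_lit 2) (nat_lit 0x4000600180005000280010000800000000000000000000000) (nat_lit 0x0) (nat_lit 0x1800040000000000000000000000000000000000000000) := D_17 (nat_lit 179) (nat_lit 162) (nat_lit 180) (nat_lit 5) (nat_lit 10) (nat_lit 6) (nat_lit 2) (nat_lit 7) (nat_lit 10) (by decide +kernel)
theorem L31295 : W_17 (nat_lit 3) (nat_lit 0x4000600100005000280010000800000000000000000000000) (nat_lit 0x0) (nat_lit 0x38000c0000000000000000000000000000000000000000) := T_17 (nat_lit 163) (nat_lit 181) (nat_lit 7) (nat_lit 10) (nat_lit 6) L31294 (by decide +kernel)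
theorem L31296 : W_17 (nat_lit 4) (nat_lit 0x4000600000005000280010000800000000000000000000000) (nat_lit 0x0) (nat_lit 0x38001c0008000000000000000000000000000000000000) := T_17 (nat_lit 164) (nat_lit 147) (nat_lit 7) (nat_lit 10) (nat_lit 5) L31295 (by decide +kernel)
theorem L31297 : W_17 (nat_lit 5) (nat_lit 0x4000200000005000280010000800000000000000000000000) (nat_lit 0x0) (nat_lit 0x3c001e0008000000000000000000000000000000000000) := T_17 (nat_lit 178) (nat_lit 161) (nat_lit 5) (nat_lit 8) (nat_lit 7) L31296 (by decide +kernel)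
theorem L31298 : W_17 (nat_lit 8) (nat_lit 0x4000200000001000280010000800000000000000000000000) (nat_lit 0x0) (nat_lit 0x12003c001e000c0004000200010000c0004000000000000000) := Q_17 (nat_lit 146) (C_17 L30957 (C_17 L31283 (C_17 L31278 (C_17 L31297 N_17)))) (by decide +kernel)
theorem L31299 : W_17 (nat_lit 15) (nat_lit 0x4000200000001000280010000000000000000000000000000) (nat_lit 0x0) (nat_lit 0x52003c001f001c003c403eb80ff807fc01fc00fc007e000000) := Q_17 (nat_lit 95) (C_17 L30607 (C_17 L30798 (C_17 L30995 (C_17 L31177 (C_17 L30821 (C_17 L31246 (C_17 L31272 (C_17 L31284 (C_17 L31293 (C_17 L31298 N_17)))))))))) (by decide +kernel)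
theorem L31300 : W_17 (nat_lit 2) (nat_lit 0x4000200000009000380010000000000000000000000000000) (nat_lit 0x0) (nat_lit 0x4000040020000000000000000000000000000) := D_17 (nat_lit 126) (nat_lit 113) (nat_lit 146) (nat_lit 2) (nat_lit 7) (nat_lit 7) (nat_lit 3) (nat_lit 7) (nat_lit 7) (by decide +kernel)
theorem L31301 : W_17 (nat_lit 2) (nat_lit 0x4000200020009000780010000800000000000000000000000) (nat_lit 0x0) (nat_lit 0x2000100000000000020000000000000000000000000000) := D_17 (nat_lit 164) (nat_lit 181) (nat_lit 113) (nat_lit 4) (nat_lit 11) (nat_lit 10) (nat_lit 4) (nat_lit 11) (nat_lit 9) (by decide +kernel)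
theorem L31302 : W_17 (nat_lit 3) (nat_lit 0x4000200020009000780010000000000000000000000000000) (nat_lit 0x0) (nat_lit 0x2000100000000000020000800040000000000000000000) := T_17 (nat_lit 95) (nat_lit 78) (nat_lit 7) (nat_lit 10) (nat_lit 4) L31301 (by decide +kernel)
theorem L31303 : W_17 (nat_lit 4) (nat_lit 0x4000200000009000780010000000000000000000000000000) (nat_lit 0x0) (nat_lit 0x2400120000000000020000800040000000000000000000) := T_17 (nat_lit 161) (nat_lit 178) (nat_lit 5) (nat_lit 8) (nat_lit 7) L31302 (by decide +kernel)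
theorem L31304 : W_17 (nat_lit 5) (nat_lit 0x4000200000009000380010000000000000000000000000000) (nat_lit 0x0) (nat_lit 0x2400120010000400020000800040000000000000000000) := T_17 (nat_lit 130) (nat_lit 148) (nat_lit 3) (nat_lit 8) (nat_lit 7) L31303 (by decide +kernel)
theorem L31305 : W_17 (nat_lit 6) (nat_lit 0x4000200000001000380010000000000000000000000000000) (nat_lit 0x0) (nat_lit 0x240012001c000440020000800040000000000000000000) := Q_17 (nat_lit 147) (C_17 L30548 (C_17 L31300 (C_17 L31304 N_17))) (by decide +kernel)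
theorem L31306 : W_17 (nat_lit 2) (nat_lit 0x40002000e000d000380018000000020000000000000000000) (nat_lit 0x0) (nat_lit 0x30000400000000000000000000000000000000) := D_17 (nat_lit 148) (nat_lit 149) (nat_lit 130) (nat_lit 1) (nat_lit 13) (nat_lit 8) (nat_lit 3) (nat_lit 8) (nat_lit 7) (by decide +kernel)
theorem L31307 : W_17 (nat_lit 3) (nat_lit 0x40002000e0005000380018000000020000000000000000000) (nat_lit 0x0) (nat_lit 0x10038000400000000000000000000000000000000) := T_17 (nat_lit 147) (nat_lit 160) (nat_lit 2) (nat_lit 7) (nat_lit 9) L31306 (by decide +kernel)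
theorem L31308 : W_17 (nat_lit 4) (nat_lit 0x40002000a0005000380018000000020000000000000000000) (nat_lit 0x0) (nat_lit 0x800050038000400000000000000000000000000000000) := T_17 (nat_lit 162) (nat_lit 179) (nat_lit 5) (nat_lit 10) (nat_lit 6) L31307 (by decide +kernel)
theorem L31309 : W_17 (nat_lit 5) (nat_lit 0x4000200020005000380018000000020000000000000000000) (nat_lit 0x0) (nat_lit 0x18000d0038000400000000000000000000000000000000) := T_17 (nat_lit 163) (nat_lit 180) (nat_lit 4) (nat_lit 10) (nat_lit 10) L31308 (by decide +kernel)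
theorem L31310 : W_17 (nat_lit 6) (nat_lit 0x4000200000005000380018000000020000000000000000000) (nat_lit 0x0) (nat_lit 0x1c000f0038000400000000000000000000000000000000) := T_17 (nat_lit 161) (nat_lit 178) (nat_lit 6) (nat_lit 8) (nat_lit 10) L31309 (by decide +kernel)
theorem L31311 : W_17 (nat_lit 7) (nat_lit 0x4000200000005000380010000000020000000000000000000) (nat_lit 0x0) (nat_lit 0x1c000f0038000400008000400000000000000000000000) := T_17 (nat_lit 111) (nat_lit 94) (nat_lit 7) (nat_lit 9) (nat_lit 4) L31310 (by decide +kernel)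
theorem L31312 : W_17 (nat_lit 2) (nat_lit 0x40002000f0005000380030000000020000000000000000000) (nat_lit 0x0) (nat_lit 0x3000000000000000008000000000000000000000000000) := D_17 (nat_lit 180) (nat_lit 111) (nat_lit 181) (nat_lit 4) (nat_lit 10) (nat_lit 10) (nat_lit 3) (nat_lit 7) (nat_lit 9) (by decide +kernel)
theorem L31313 : W_17 (nat_lit 3) (nat_lit 0x40002000e0005000380030000000020000000000000000000) (nat_lit 0x0) (nat_lit 0x3000010008000000008000000000000000000000000000) := T_17 (nat_lit 160) (nat_lit 147) (nat_lit 2) (nat_lit 7) (nat_lit 9) L31312 (by decide +kernel)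
theorem L31314 : W_17 (nat_lit 4) (nat_lit 0x40002000a0005000380030000000020000000000000000000) (nat_lit 0x0) (nat_lit 0x3800050008000000008000000000000000000000000000) := T_17 (nat_lit 162) (nat_lit 179) (nat_lit 5) (nat_lit 10) (nat_lit 6) L31313 (by decide +kernel)
theorem L31315 : W_17 (nat_lit 5) (nat_lit 0x40002000a0005000380010000000020000000000000000000) (nat_lit 0x0) (nat_lit 0x3800050008000000028001000000000000000000000000) := T_17 (nat_lit 113) (nat_lit 96) (nat_lit 6) (nat_lit 10) (nat_lit 9) L31314 (by decide +kernel)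
theorem L31316 : W_17 (nat_lit 6) (nat_lit 0x4000200080005000380010000000020000000000000000000) (nat_lit 0x0) (nat_lit 0x3c00070008000000028001000000000000000000000000) := T_17 (nat_lit 161) (nat_lit 178) (nat_lit 5) (nat_lit 8) (nat_lit 7) L31315 (by decide +kernel)
theorem L31317 : W_17 (nat_lit 2) (nat_lit 0x4001200080005000380010000000020000000000000000000) (nat_lit 0x0) (nat_lit 0x400020001000000000000000000000000) := D_17 (nat_lit 113) (nat_lit 96) (nat_lit 130) (nat_lit 6) (nat_lit 10) (nat_lit 9) (nat_lit 6) (nat_lit 10) (nat_lit 10) (by decide +kernel)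
theorem L31318 : W_17 (nat_lit 3) (nat_lit 0x4000200080005000380010000000020000000000000000000) (nat_lit 0x0) (nat_lit 0x1000000000000400028001000000000000000000000000) := T_17 (nat_lit 180) (nat_lit 111) (nat_lit 4) (nat_lit 10) (nat_lit 10) L31317 (by decide +kernel)
theorem L31319 : W_17 (nat_lit 2) (nat_lit 0x40012000a0005000380030000000020000000000000000000) (nat_lit 0x0) (nat_lit 0x10000800040000000000000000000000000000000000000000) := D_17 (nat_lit 179) (nat_lit 196) (nat_lit 162) (nat_lit 5) (nat_lit 10) (nat_lit 7) (nat_lit 5) (nat_lit 10) (nat_lit 6) (by decide +kernel)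
theorem L31320 : W_17 (nat_lit 3) (nat_lit 0x40002000a0005000380030000000020000000000000000000) (nat_lit 0x0) (nat_lit 0x10001800040000000400000000000000000000000000000000) := T_17 (nat_lit 180) (nat_lit 130) (nat_lit 6) (nat_lit 10) (nat_lit 10) L31319 (by decide +kernel)
theorem L31321 : W_17 (nat_lit 4) (nat_lit 0x4000200080005000380030000000020000000000000000000) (nat_lit 0x0) (nat_lit 0x10001c00060000000400000000000000000000000000000000) := T_17 (nat_lit 161) (nat_lit 178) (nat_lit 5) (nat_lit 8) (nat_lit 7) L31320 (by decide +kernel)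
theorem L31322 : W_17 (nat_lit 5) (nat_lit 0x4000200080005000380010000000020000000000000000000) (nat_lit 0x0) (nat_lit 0x10001c00060000000400020001000000000000000000000000) := T_17 (nat_lit 113) (nat_lit 96) (nat_lit 6) (nat_lit 10) (nat_lit 9) L31321 (by decide +kernel)
theorem L31323 : W_17 (nat_lit 2) (nat_lit 0x4001200080005000380010000000020000000000000000000) (nat_lit 0x0) (nat_lit 0x10000800040000000000000000000000000000000000000000) := D_17 (nat_lit 179) (nat_lit 162) (nat_lit 196) (nat_lit 5) (nat_lit 10) (nat_lit 6) (nat_lit 5) (nat_lit 10) (nat_lit 7) (by decide +kernel)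
theorem L31324 : W_17 (nat_lit 3) (nat_lit 0x4000200080005000380010000000020000000000000000000) (nat_lit 0x0) (nat_lit 0x10001800040000000000008000000000000000000000000000) := T_17 (nat_lit 180) (nat_lit 111) (nat_lit 4) (nat_lit 10) (nat_lit 10) L31323 (by decide +kernel)
theorem L31325 : W_17 (nat_lit 2) (nat_lit 0x40002000e000d000380030000000020000000000000000000) (nat_lit 0x0) (nat_lit 0x30000400000000000000000000000000000000) := D_17 (nat_lit 148) (nat_lit 149) (nat_lit 130) (nat_lit 1) (nat_lit 13) (nat_lit 8) (nat_lit 3) (nat_lit 8) (nat_lit 7) (by decide +kernel)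
theorem L31326 : W_17 (nat_lit 3) (nat_lit 0x40002000e0005000380030000000020000000000000000000) (nat_lit 0x0) (nat_lit 0x10038000400000000000000000000000000000000) := T_17 (nat_lit 147) (nat_lit 160) (nat_lit 2) (nat_lit 7) (nat_lit 9) L31325 (by decide +kernel)
theorem L31327 : W_17 (nat_lit 4) (nat_lit 0x40002000a0005000380030000000020000000000000000000) (nat_lit 0x0) (nat_lit 0x800050038000400000000000000000000000000000000) := T_17 (nat_lit 162) (nat_lit 179) (nat_lit 5) (nat_lit 10) (nat_lit 6) L31326 (by decide +kernel)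
theorem L31328 : W_17 (nat_lit 5) (nat_lit 0x40002000a0005000380010000000020000000000000000000) (nat_lit 0x0) (nat_lit 0x800050038000400020001000000000000000000000000) := T_17 (nat_lit 113) (nat_lit 96) (nat_lit 6) (nat_lit 10) (nat_lit 9) L31327 (by decide +kernel)
theorem L31329 : W_17 (nat_lit 6) (nat_lit 0x4000200080005000380010000000020000000000000000000) (nat_lit 0x0) (nat_lit 0xc00070038000400020001000000000000000000000000) := T_17 (nat_lit 161) (nat_lit 178) (nat_lit 5) (nat_lit 8) (nat_lit 7) L31328 (by decide +kernel)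
theorem L31330 : W_17 (nat_lit 7) (nat_lit 0x4000200000005000380010000000020000000000000000000) (nat_lit 0x0) (nat_lit 0x10003c000f0038000400028001000000000000000000000000) := Q_17 (nat_lit 163) (C_17 L31316 (C_17 L31318 (C_17 L31322 (C_17 L31324 (C_17 L31329 N_17))))) (by decide +kernel)
theorem L31331 : W_17 (nat_lit 8) (nat_lit 0x4000200000005000380010000000000000000000000000000) (nat_lit 0x0) (nat_lit 0x10003c000f0038000400028001c000e0005000000000000000) := Q_17 (nat_lit 77) (C_17 L29963 (C_17 L29959 (C_17 L31311 (C_17 L31330 N_17)))) (by decide +kernel)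
theorem L31332 : W_17 (nat_lit 12) (nat_lit 0x4000200000001000380010000000000000000000000000000) (nat_lit 0x0) (nat_lit 0x3fa00fc007f803c000400028001c000e0005000000000000000) := Q_17 (nat_lit 146) (C_17 L31141 (C_17 L30213 (C_17 L30553 (C_17 L31331 N_17)))) (by decide +kernel)
theorem L31333 : W_17 (nat_lit 13) (nat_lit 0x4000200000001000280010000000000000000000000000000) (nat_lit 0x0) (nat_lit 0x3fa00fc007f803c00056002b801c000e0007000080000000000) := Q_17 (nat_lit 128) (C_17 L31142 (C_17 L30185 (C_17 L30214 (C_17 L31305 (C_17 L31332 N_17))))) (by decide +kernel)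
theorem L31334 : W_17 (nat_lit 3) (nat_lit 0x400020000000d000280030000800000000000000000000000) (nat_lit 0x0) (nat_lit 0x400000000400060001000000000000000) := T_17 (nat_lit 78) (nat_lit 130) (nat_lit 7) (nat_lit 10) (nat_lit 4) L30444 (by decide +kernel)
theorem L31335 : W_17 (nat_lit 4) (nat_lit 0x4000200000005000280030000800000000000000000000000) (nat_lit 0x0) (nat_lit 0x100008000400000000400060001000000000000000) := T_17 (nat_lit 147) (nat_lit 164) (nat_lit 7) (nat_lit 10) (nat_lit 5) L31334 (by decide +kernel)
theorem L31336 : W_17 (nat_lit 2) (nat_lit 0x400020002000d0002c003000b800100000000000000000000) (nat_lit 0x0) (nat_lit 0x400220000000000000000000) := D_17 (nat_lit 94) (nat_lit 77) (nat_lit 81) (nat_lit 4) (nat_lit 10) (nat_lit 8) (nat_lit 2) (nat_lit 9) (nat_lit 5) (by decide +kernel)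
theorem L31337 : W_17 (nat_lit 3) (nat_lit 0x400020002000d0002c003000b800000000000000000000000) (nat_lit 0x0) (nat_lit 0x400000000400320000000000000000000) := T_17 (nat_lit 80) (nat_lit 130) (nat_lit 6) (nat_lit 11) (nat_lit 8) L31336 (by decide +kernel)
theorem L31338 : W_17 (nat_lit 4) (nat_lit 0x40002000200050002c003000b800000000000000000000000) (nat_lit 0x0) (nat_lit 0x100008000400000000400320000000000000000000) := T_17 (nat_lit 147) (nat_lit 164) (nat_lit 7) (nat_lit 10) (nat_lit 5) L31337 (by decide +kernel)
theorem L31339 : W_17 (nat_lit 5) (nat_lit 0x40002000200050002c0030003800000000000000000000000) (nat_lit 0x0) (nat_lit 0x10000800040000000c400320000000000000000000) := T_17 (nat_lit 99) (nat_lit 98) (nat_lit 1) (nat_lit 14) (nat_lit 5) L31338 (by decide +kernel)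
theorem L31340 : W_17 (nat_lit 6) (nat_lit 0x40002000000050002c0030003800000000000000000000000) (nat_lit 0x0) (nat_lit 0x40012000800040000000c400320000000000000000000) := T_17 (nat_lit 161) (nat_lit 178) (nat_lit 5) (nat_lit 8) (nat_lit 7) L31339 (by decide +kernel)
theorem L31341 : W_17 (nat_lit 7) (nat_lit 0x4000200000005000280030003800000000000000000000000) (nat_lit 0x0) (nat_lit 0x40012000800054000000c400320000000000000000000) := T_17 (nat_lit 126) (nat_lit 128) (nat_lit 2) (nat_lit 7) (nat_lit 7) L31340 (by decide +kernel)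
theorem L31342 : W_17 (nat_lit 2) (nat_lit 0x4000200000005000280030003d00100000000000000000000) (nat_lit 0x0) (nat_lit 0x100008000400000000000000000000000000000000) := D_17 (nat_lit 147) (nat_lit 164) (nat_lit 130) (nat_lit 7) (nat_lit 10) (nat_lit 5) (nat_lit 6) (nat_lit 11) (nat_lit 8) (by decide +kernel)
theorem L31343 : W_17 (nat_lit 3) (nat_lit 0x4000200000005000280030003d00000000000000000000000) (nat_lit 0x0) (nat_lit 0x100008000400000000000300000000000000000000) := T_17 (nat_lit 80) (nat_lit 81) (nat_lit 2) (nat_lit 9) (nat_lit 5) L31342 (by decide +kernel)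
theorem L31344 : W_17 (nat_lit 4) (nat_lit 0x4000200000005000280030003c00000000000000000000000) (nat_lit 0x0) (nat_lit 0x100008000400000000300300000000000000000000) := T_17 (nat_lit 92) (nat_lit 93) (nat_lit 3) (nat_lit 7) (nat_lit 5) L31343 (by decide +kernel)
theorem L31345 : W_17 (nat_lit 5) (nat_lit 0x4000200000005000280030003800000000000000000000000) (nat_lit 0x0) (nat_lit 0x100008000400000000700320000000000000000000) := T_17 (nat_lit 94) (nat_lit 77) (nat_lit 4) (nat_lit 10) (nat_lit 8) L31344 (by decide +kernel)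
theorem L31346 : W_17 (nat_lit 8) (nat_lit 0x4000200000005000280030001800000000000000000000000) (nat_lit 0x0) (nat_lit 0x40012000800054000800e700320000000000000000000) := Q_17 (nat_lit 97) (C_17 L31055 (C_17 L31341 (C_17 L31345 N_17))) (by decide +kernel)
theorem L31347 : W_17 (nat_lit 9) (nat_lit 0x4000200000005000280030000800000000000000000000000) (nat_lit 0x0) (nat_lit 0x40012000800054000800f7003a0000000000000000000) := T_17 (nat_lit 96) (nat_lit 79) (nat_lit 6) (nat_lit 10) (nat_lit 8) L31346 (by decide +kernel)
theorem L31348 : W_17 (nat_lit 10) (nat_lit 0x4000200000005000280030000000000000000000000000000) (nat_lit 0x0) (nat_lit 0x40012000800054000800ff003e0007000300010000000) := Q_17 (nat_lit 95) (C_17 L31087 (C_17 L31335 (C_17 L30440 (C_17 L31347 N_17)))) (by decide +kernel)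
theorem L31349 : W_17 (nat_lit 9) (nat_lit 0x4000200000005000280030000000000000000000000000000) (nat_lit 0x0) (nat_lit 0x38001c0008000540008000c00060003000000000000000) := T_17 (nat_lit 128) (nat_lit 126) (nat_lit 2) (nat_lit 7) (nat_lit 7) L30247 (by decide +kernel)
theorem L31350 : W_17 (nat_lit 11) (nat_lit 0x4000200000001000280030000000000000000000000000000) (nat_lit 0x0) (nat_lit 0x40003c001e000c00054000800ff003e0007000300010000000) := Q_17 (nat_lit 146) (C_17 L31066 (C_17 L31065 (C_17 L31348 (C_17 L31349 N_17)))) (by decide +kernel)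
theorem L31351 : W_17 (nat_lit 13) (nat_lit 0x4000200000001000280010000000000000000000000000000) (nat_lit 0x0) (nat_lit 0xfa003c001f800c0005400e800ff003e0007000380010000000) := Q_17 (nat_lit 113) (C_17 L29510 (C_17 L31128 (C_17 L29512 (C_17 L31350 N_17)))) (by decide +kernel)
theorem L31352 : W_17 (nat_lit 12) (nat_lit 0x4000200000001000380010000000000000000000000000000) (nat_lit 0x0) (nat_lit 0x3fa00fc007f803c000440008000000000000000000000000000) := Q_17 (nat_lit 146) (C_17 L30212 (C_17 L31141 N_17)) (by decide +kernel)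
theorem L31353 : W_17 (nat_lit 13) (nat_lit 0x4000200000001000280010000000000000000000000000000) (nat_lit 0x0) (nat_lit 0x3fa00fc007f80fc003d603eb80300018000c000000000000000) := Q_17 (nat_lit 128) (C_17 L31352 (C_17 L30185 (C_17 L30215 (C_17 L31172 N_17)))) (by decide +kernel)
theorem L31354 : W_17 (nat_lit 3) (nat_lit 0x40002000e0005000280010000000000000000000000000000) (nat_lit 0x0) (nat_lit 0x3000110008000000000000000000000000000000000000) := T_17 (nat_lit 160) (nat_lit 147) (nat_lit 2) (nat_lit 7) (nat_lit 9) L28575 (by decide +kernel)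
theorem L31355 : W_17 (nat_lit 4) (nat_lit 0x40002000a0005000280010000000000000000000000000000) (nat_lit 0x0) (nat_lit 0x3800150008000000000000000000000000000000000000) := T_17 (nat_lit 162) (nat_lit 179) (nat_lit 5) (nat_lit 10) (nat_lit 6) L31354 (by decide +kernel)
theorem L31356 : W_17 (nat_lit 5) (nat_lit 0x4000200080005000280010000000000000000000000000000) (nat_lit 0x0) (nat_lit 0x3c00170008000000000000000000000000000000000000) := T_17 (nat_lit 161) (nat_lit 178) (nat_lit 5) (nat_lit 8) (nat_lit 7) L31355 (by decide +kernel)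
theorem L31357 : W_17 (nat_lit 2) (nat_lit 0x40012000a0005000280018000000000000000000000000000) (nat_lit 0x0) (nat_lit 0x40002000100000000000000000000000000000000000000000) := D_17 (nat_lit 181) (nat_lit 164) (nat_lit 198) (nat_lit 7) (nat_lit 10) (nat_lit 6) (nat_lit 7) (nat_lit 10) (nat_lit 7) (by decide +kernel)
theorem L31358 : W_17 (nat_lit 3) (nat_lit 0x40002000a0005000280018000000000000000000000000000) (nat_lit 0x0) (nat_lit 0x40003000100000000100000000000000000000000000000000) := T_17 (nat_lit 180) (nat_lit 128) (nat_lit 4) (nat_lit 10) (nat_lit 10) L31357 (by decide +kernel)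
theorem L31359 : W_17 (nat_lit 4) (nat_lit 0x4000200080005000280018000000000000000000000000000) (nat_lit 0x0) (nat_lit 0x40003400120000000100000000000000000000000000000000) := T_17 (nat_lit 161) (nat_lit 178) (nat_lit 5) (nat_lit 8) (nat_lit 7) L31358 (by decide +kernel)
theorem L31360 : W_17 (nat_lit 5) (nat_lit 0x4000200080005000280010000000000000000000000000000) (nat_lit 0x0) (nat_lit 0x40003400120000000100008000400000000000000000000000) := T_17 (nat_lit 111) (nat_lit 94) (nat_lit 4) (nat_lit 10) (nat_lit 9) L31359 (by decide +kernel)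
theorem L31361 : W_17 (nat_lit 2) (nat_lit 0x40002000e000d000280018000000000000000000000000000) (nat_lit 0x0) (nat_lit 0x1000000000000140000000000000000000000000000000) := D_17 (nat_lit 128) (nat_lit 180) (nat_lit 126) (nat_lit 4) (nat_lit 10) (nat_lit 10) (nat_lit 3) (nat_lit 7) (nat_lit 7) (by decide +kernel)
theorem L31362 : W_17 (nat_lit 3) (nat_lit 0x40002000e0005000280018000000000000000000000000000) (nat_lit 0x0) (nat_lit 0x1000010008000140000000000000000000000000000000) := T_17 (nat_lit 147) (nat_lit 160) (nat_lit 2) (nat_lit 7) (nat_lit 9) L31361 (by decide +kernel)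
theorem L31363 : W_17 (nat_lit 4) (nat_lit 0x40002000a0005000280018000000000000000000000000000) (nat_lit 0x0) (nat_lit 0x1800050008000140000000000000000000000000000000) := T_17 (nat_lit 162) (nat_lit 179) (nat_lit 5) (nat_lit 10) (nat_lit 6) L31362 (by decide +kernel)
theorem L31364 : W_17 (nat_lit 5) (nat_lit 0x40002000a0005000280010000000000000000000000000000) (nat_lit 0x0) (nat_lit 0x1800050008000140008000400000000000000000000000) := T_17 (nat_lit 111) (nat_lit 94) (nat_lit 4) (nat_lit 10) (nat_lit 9) L31363 (by decide +kernel)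
theorem L31365 : W_17 (nat_lit 6) (nat_lit 0x4000200080005000280010000000000000000000000000000) (nat_lit 0x0) (nat_lit 0x1c00070008000140008000400000000000000000000000) := T_17 (nat_lit 161) (nat_lit 178) (nat_lit 5) (nat_lit 8) (nat_lit 7) L31364 (by decide +kernel)
theorem L31366 : W_17 (nat_lit 7) (nat_lit 0x4000200000005000280010000000000000000000000000000) (nat_lit 0x0) (nat_lit 0x40003c001f0008000140008000c00020000000000000000000) := Q_17 (nat_lit 163) (C_17 L31356 (C_17 L28248 (C_17 L31360 (C_17 L31365 N_17)))) (by decide +kernel)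
theorem L31367 : W_17 (nat_lit 5) (nat_lit 0x4000200000005000280010000000000000000000000000000) (nat_lit 0x0) (nat_lit 0x100038000540000001c000e0005000000000000000) := Q_17 (nat_lit 95) (C_17 L31286 (C_17 L30797 (C_17 L30744 N_17))) (by decide +kernel)
theorem L31368 : W_17 (nat_lit 2) (nat_lit 0x40012000e000d000280018000000000000000000000000000) (nat_lit 0x0) (nat_lit 0x100030000000000000000000000000000000000000) := D_17 (nat_lit 148) (nat_lit 149) (nat_lit 164) (nat_lit 1) (nat_lit 13) (nat_lit 8) (nat_lit 2) (nat_lit 8) (nat_lit 9) (by decide +kernel)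
theorem L31369 : W_17 (nat_lit 3) (nat_lit 0x40012000e0005000280018000000000000000000000000000) (nat_lit 0x0) (nat_lit 0x110038000000000000000000000000000000000000) := T_17 (nat_lit 147) (nat_lit 160) (nat_lit 2) (nat_lit 7) (nat_lit 9) L31368 (by decide +kernel)
theorem L31370 : W_17 (nat_lit 4) (nat_lit 0x40012000c0005000280018000000000000000000000000000) (nat_lit 0x0) (nat_lit 0x400130038000000000000000000000000000000000000) := T_17 (nat_lit 161) (nat_lit 178) (nat_lit 5) (nat_lit 8) (nat_lit 7) L31369 (by decide +kernel)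
theorem L31371 : W_17 (nat_lit 5) (nat_lit 0x40002000c0005000280018000000000000000000000000000) (nat_lit 0x0) (nat_lit 0x1400130038000100000000000000000000000000000000) := T_17 (nat_lit 180) (nat_lit 128) (nat_lit 4) (nat_lit 10) (nat_lit 10) L31370 (by decide +kernel)
theorem L31372 : W_17 (nat_lit 6) (nat_lit 0x4000200080005000280018000000000000000000000000000) (nat_lit 0x0) (nat_lit 0x1c00170038000100000000000000000000000000000000) := T_17 (nat_lit 162) (nat_lit 179) (nat_lit 5) (nat_lit 10) (nat_lit 6) L31371 (by decide +kernel)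
theorem L31373 : W_17 (nat_lit 7) (nat_lit 0x4000200080005000280010000000000000000000000000000) (nat_lit 0x0) (nat_lit 0x1c00170038000100008000400000000000000000000000) := T_17 (nat_lit 111) (nat_lit 94) (nat_lit 4) (nat_lit 10) (nat_lit 9) L31372 (by decide +kernel)
theorem L31374 : W_17 (nat_lit 2) (nat_lit 0x40002000f0005000280018000000000000000000000000000) (nat_lit 0x0) (nat_lit 0x3000000000000100000000000000000000000000000000) := D_17 (nat_lit 180) (nat_lit 181) (nat_lit 128) (nat_lit 3) (nat_lit 7) (nat_lit 9) (nat_lit 4) (nat_lit 10) (nat_lit 10) (by decide +kernel)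
theorem L31375 : W_17 (nat_lit 3) (nat_lit 0x40002000f0005000280010000000000000000000000000000) (nat_lit 0x0) (nat_lit 0x3000000000000100008000400000000000000000000000) := T_17 (nat_lit 111) (nat_lit 94) (nat_lit 4) (nat_lit 10) (nat_lit 9) L31374 (by decide +kernel)
theorem L31376 : W_17 (nat_lit 4) (nat_lit 0x40002000e0005000280010000000000000000000000000000) (nat_lit 0x0) (nat_lit 0x3000010008000100008000400000000000000000000000) := T_17 (nat_lit 160) (nat_lit 147) (nat_lit 2) (nat_lit 7) (nat_lit 9) L31375 (by decide +kernel)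
theorem L31377 : W_17 (nat_lit 5) (nat_lit 0x40002000a0005000280010000000000000000000000000000) (nat_lit 0x0) (nat_lit 0x3800050008000100008000400000000000000000000000) := T_17 (nat_lit 162) (nat_lit 179) (nat_lit 5) (nat_lit 10) (nat_lit 6) L31376 (by decide +kernel)
theorem L31378 : W_17 (nat_lit 6) (nat_lit 0x4000200080005000280010000000000000000000000000000) (nat_lit 0x0) (nat_lit 0x3c00070008000100008000400000000000000000000000) := T_17 (nat_lit 161) (nat_lit 178) (nat_lit 5) (nat_lit 8) (nat_lit 7) L31377 (by decide +kernel)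
theorem L31379 : W_17 (nat_lit 8) (nat_lit 0x4000200000005000280010000000000000000000000000000) (nat_lit 0x0) (nat_lit 0x40003c001f0038000100008000c00020000000000000000000) := Q_17 (nat_lit 163) (C_17 L31356 (C_17 L31360 (C_17 L28248 (C_17 L31373 (C_17 L31378 N_17))))) (by decide +kernel)
theorem L31380 : W_17 (nat_lit 2) (nat_lit 0x4001e00000005000280010000000000000000000000000000) (nat_lit 0x0) (nat_lit 0x1c0000000000000000000000000000000000000000) := D_17 (nat_lit 163) (nat_lit 164) (nat_lit 162) (nat_lit 2) (nat_lit 7) (nat_lit 10) (nat_lit 5) (nat_lit 10) (nat_lit 6) (by decide +kernel)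
theorem L31381 : W_17 (nat_lit 3) (nat_lit 0x4001600000005000280010000000000000000000000000000) (nat_lit 0x0) (nat_lit 0x20008001c0000000000000000000000000000000000000000) := T_17 (nat_lit 179) (nat_lit 193) (nat_lit 1) (nat_lit 10) (nat_lit 10) L31380 (by decide +kernel)
theorem L31382 : W_17 (nat_lit 4) (nat_lit 0x4001200000005000280010000000000000000000000000000) (nat_lit 0x0) (nat_lit 0x2000c001e0000000000000000000000000000000000000000) := T_17 (nat_lit 178) (nat_lit 161) (nat_lit 5) (nat_lit 8) (nat_lit 7) L31381 (by decide +kernel)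
theorem L31383 : W_17 (nat_lit 2) (nat_lit 0x4001200080005000280010000000000000000000000000000) (nat_lit 0x0) (nat_lit 0x100008000400000000000000000000000) := D_17 (nat_lit 111) (nat_lit 94) (nat_lit 128) (nat_lit 4) (nat_lit 10) (nat_lit 9) (nat_lit 4) (nat_lit 10) (nat_lit 10) (by decide +kernel)
theorem L31384 : W_17 (nat_lit 2) (nat_lit 0x4001200080005000280010000000000000000000000000000) (nat_lit 0x0) (nat_lit 0x40002000100000000000000000000000000000000000000000) := D_17 (nat_lit 181) (nat_lit 198) (nat_lit 164) (nat_lit 7) (nat_lit 10) (nat_lit 7) (nat_lit 7) (nat_lit 10) (nat_lit 6) (by decide +kernel)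
theorem L31385 : W_17 (nat_lit 3) (nat_lit 0x4001200000005000280010000000000000000000000000000) (nat_lit 0x0) (nat_lit 0x40002000180000000100008000400000000000000000000000) := Q_17 (nat_lit 163) (C_17 L31383 (C_17 L31384 N_17)) (by decide +kernel)
theorem L31386 : W_17 (nat_lit 2) (nat_lit 0x2400fe00210005000280010000000000000000000000000000) (nat_lit 0x0) (nat_lit 0x380000000000000000000000000000000000000000000000000) := D_17 (nat_lit 200) (nat_lit 199) (nat_lit 201) (nat_lit 3) (nat_lit 9) (nat_lit 10) (nat_lit 3) (nat_lit 10) (nat_lit 10) (by decide +kernel)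
theorem L31387 : W_17 (nat_lit 3) (nat_lit 0x24007e00210005000280010000000000000000000000000000) (nat_lit 0x0) (nat_lit 0x390008000000000000000000000000000000000000000000000) := T_17 (nat_lit 183) (nat_lit 196) (nat_lit 1) (nat_lit 13) (nat_lit 10) L31386 (by decide +kernel)
theorem L31388 : W_17 (nat_lit 4) (nat_lit 0x24003e00210005000280010000000000000000000000000000) (nat_lit 0x0) (nat_lit 0x39000c000400000000000000000000000000000000000000000) := T_17 (nat_lit 182) (nat_lit 166) (nat_lit 2) (nat_lit 9) (nat_lit 10) L31387 (by decide +kernel)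
theorem L31389 : W_17 (nat_lit 5) (nat_lit 0x24003e00010005000280010000000000000000000000000000) (nat_lit 0x0) (nat_lit 0x39000c000700000000000000000000000000000000000000000) := T_17 (nat_lit 165) (nat_lit 164) (nat_lit 2) (nat_lit 8) (nat_lit 10) L31388 (by decide +kernel)
theorem L31390 : W_17 (nat_lit 6) (nat_lit 0x24001e00010005000280010000000000000000000000000000) (nat_lit 0x0) (nat_lit 0x39800e000700000000000000000000000000000000000000000) := T_17 (nat_lit 181) (nat_lit 195) (nat_lit 1) (nat_lit 11) (nat_lit 10) L31389 (by decide +kernel)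
theorem L31391 : W_17 (nat_lit 7) (nat_lit 0x4001e00010005000280010000000000000000000000000000) (nat_lit 0x0) (nat_lit 0x3f800e000700000000000000000000000000000000000000000) := T_17 (nat_lit 197) (nat_lit 198) (nat_lit 3) (nat_lit 7) (nat_lit 10) L31390 (by decide +kernel)
theorem L31392 : W_17 (nat_lit 8) (nat_lit 0x4001e00000005000280010000000000000000000000000000) (nat_lit 0x0) (nat_lit 0x3f800e000718000000000000000000000000000000000000000) := T_17 (nat_lit 160) (nat_lit 159) (nat_lit 0) (nat_lit 10) (nat_lit 10) L31391 (by decide +kernel)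
theorem L31393 : W_17 (nat_lit 9) (nat_lit 0x4001600000005000280010000000000000000000000000000) (nat_lit 0x0) (nat_lit 0x3fa00e800718000000000000000000000000000000000000000) := T_17 (nat_lit 179) (nat_lit 193) (nat_lit 1) (nat_lit 10) (nat_lit 10) L31392 (by decide +kernel)
theorem L31394 : W_17 (nat_lit 10) (nat_lit 0x4001200000005000280010000000000000000000000000000) (nat_lit 0x0) (nat_lit 0x3fa00ec00738000000000000000000000000000000000000000) := T_17 (nat_lit 178) (nat_lit 161) (nat_lit 5) (nat_lit 8) (nat_lit 7) L31393 (by decide +kernel)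
theorem L31395 : W_17 (nat_lit 2) (nat_lit 0x4001e00000005000280010000000000000000000000000000) (nat_lit 0x0) (nat_lit 0x100000000c0000000000000000000000000000000000000000) := D_17 (nat_lit 163) (nat_lit 162) (nat_lit 196) (nat_lit 5) (nat_lit 10) (nat_lit 6) (nat_lit 5) (nat_lit 10) (nat_lit 7) (by decide +kernel)
theorem L31396 : W_17 (nat_lit 3) (nat_lit 0x4001600000005000280010000000000000000000000000000) (nat_lit 0x0) (nat_lit 0x120008000c0000000000000000000000000000000000000000) := T_17 (nat_lit 179) (nat_lit 193) (nat_lit 1) (nat_lit 10) (nat_lit 10) L31395 (by decide +kernel)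
theorem L31397 : W_17 (nat_lit 4) (nat_lit 0x4001200000005000280010000000000000000000000000000) (nat_lit 0x0) (nat_lit 0x12000c000e0000000000000000000000000000000000000000) := T_17 (nat_lit 178) (nat_lit 161) (nat_lit 5) (nat_lit 8) (nat_lit 7) L31396 (by decide +kernel)
theorem L31398 : W_17 (nat_lit 11) (nat_lit 0x4000200000005000280010000000000000000000000000000) (nat_lit 0x0) (nat_lit 0x3fa00fc007f8000000100008000400000000000000000000000) := Q_17 (nat_lit 180) (C_17 L31382 (C_17 L31385 (C_17 L31394 (C_17 L31397 N_17)))) (by decide +kernel)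
theorem L31399 : W_17 (nat_lit 8) (nat_lit 0x4000200000005000280010000000000000000000000000000) (nat_lit 0x0) (nat_lit 0x40003c001f0008000400008001c000e0005000000000000000) := Q_17 (nat_lit 95) (C_17 L31297 (C_17 L31286 (C_17 L31292 (C_17 L30797 N_17)))) (by decide +kernel)
theorem L31400 : W_17 (nat_lit 3) (nat_lit 0x400020002000d000280010000800000000000000000000000) (nat_lit 0x0) (nat_lit 0x4000000010000c0004000000000000000) := T_17 (nat_lit 78) (nat_lit 130) (nat_lit 7) (nat_lit 10) (nat_lit 4) L30603 (by decide +kernel)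
theorem L31401 : W_17 (nat_lit 4) (nat_lit 0x400020002000d000280010000000000000000000000000000) (nat_lit 0x0) (nat_lit 0x1000000004000000018000c0004000000000000000) := T_17 (nat_lit 95) (nat_lit 164) (nat_lit 7) (nat_lit 10) (nat_lit 5) L31400 (by decide +kernel)
theorem L31402 : W_17 (nat_lit 5) (nat_lit 0x400020000000d000280010000000000000000000000000000) (nat_lit 0x0) (nat_lit 0x4001200000004000000018000c0004000000000000000) := T_17 (nat_lit 161) (nat_lit 178) (nat_lit 5) (nat_lit 8) (nat_lit 7) L31401 (by decide +kernel)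
theorem L31403 : W_17 (nat_lit 5) (nat_lit 0x400020000000d000280010000000000000000000000000000) (nat_lit 0x0) (nat_lit 0x1000000005400000018000c0004000000000000000) := T_17 (nat_lit 126) (nat_lit 128) (nat_lit 3) (nat_lit 7) (nat_lit 7) L30578 (by decide +kernel)
theorem L31404 : W_17 (nat_lit 2) (nat_lit 0x40002000a002d0003800180008000e0000000000000000000) (nat_lit 0x0) (nat_lit 0x800050000000000000000000000000000000000000000) := D_17 (nat_lit 162) (nat_lit 160) (nat_lit 179) (nat_lit 2) (nat_lit 7) (nat_lit 9) (nat_lit 5) (nat_lit 10) (nat_lit 6) (by decide +kernel)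
theorem L31405 : W_17 (nat_lit 3) (nat_lit 0x400020002002d0003800180008000e0000000000000000000) (nat_lit 0x0) (nat_lit 0x18000d0000000000000000000000000000000000000000) := T_17 (nat_lit 163) (nat_lit 180) (nat_lit 4) (nat_lit 10) (nat_lit 10) L31404 (by decide +kernel)
theorem L31406 : W_17 (nat_lit 4) (nat_lit 0x400020002002d0003800100008000e0000000000000000000) (nat_lit 0x0) (nat_lit 0x18000d0000000000008000000000002000000000000000) := T_17 (nat_lit 111) (nat_lit 61) (nat_lit 5) (nat_lit 10) (nat_lit 3) L31405 (by decide +kernel)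
theorem L31407 : W_17 (nat_lit 5) (nat_lit 0x400020002000d0003800100008000e0000000000000000000) (nat_lit 0x0) (nat_lit 0x18000d0030000000008000000000002000000000000000) := T_17 (nat_lit 149) (nat_lit 148) (nat_lit 0) (nat_lit 13) (nat_lit 8) L31406 (by decide +kernel)
theorem L31408 : W_17 (nat_lit 6) (nat_lit 0x400020002000d0002800100008000e0000000000000000000) (nat_lit 0x0) (nat_lit 0x18000d0030000140008000000000002000000000000000) := T_17 (nat_lit 128) (nat_lit 126) (nat_lit 3) (nat_lit 7) (nat_lit 7) L31407 (by decide +kernel)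
theorem L31409 : W_17 (nat_lit 7) (nat_lit 0x400020002000d0002800100008000c0000000000000000000) (nat_lit 0x0) (nat_lit 0x18000d0030000140008000000020003000000000000000) := T_17 (nat_lit 77) (nat_lit 60) (nat_lit 4) (nat_lit 10) (nat_lit 7) L31408 (by decide +kernel)
theorem L31410 : W_17 (nat_lit 8) (nat_lit 0x400020002000d000280010000800080000000000000000000) (nat_lit 0x0) (nat_lit 0x18000d0030000140008000000060007000000000000000) := T_17 (nat_lit 78) (nat_lit 62) (nat_lit 6) (nat_lit 10) (nat_lit 7) L31409 (by decide +kernel)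
theorem L31411 : W_17 (nat_lit 9) (nat_lit 0x400020000000d000280010000800080000000000000000000) (nat_lit 0x0) (nat_lit 0x1c000f0030000140008000000060007000000000000000) := T_17 (nat_lit 161) (nat_lit 178) (nat_lit 5) (nat_lit 8) (nat_lit 7) L31410 (by decide +kernel)
theorem L31412 : W_17 (nat_lit 10) (nat_lit 0x400020000000d000280010000800000000000000000000000) (nat_lit 0x0) (nat_lit 0x1c000f00300001400080010000e0007000000000000000) := T_17 (nat_lit 79) (nat_lit 96) (nat_lit 6) (nat_lit 10) (nat_lit 8) L31411 (by decide +kernel)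
theorem L31413 : W_17 (nat_lit 11) (nat_lit 0x400020000000d000280010000000000000000000000000000) (nat_lit 0x0) (nat_lit 0x1c001f00300001400080018000e0007000000000000000) := T_17 (nat_lit 95) (nat_lit 164) (nat_lit 7) (nat_lit 10) (nat_lit 5) L31412 (by decide +kernel)
theorem L31414 : W_17 (nat_lit 3) (nat_lit 0x400020000000d000280010000000000000000000000000000) (nat_lit 0x0) (nat_lit 0x30000540000000000000000000000000000000) := T_17 (nat_lit 128) (nat_lit 126) (nat_lit 3) (nat_lit 7) (nat_lit 7) L30211 (by decide +kernel)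
theorem L31415 : W_17 (nat_lit 12) (nat_lit 0x4000200000005000280010000000000000000000000000000) (nat_lit 0x0) (nat_lit 0x1c001f00380005400080018000e0007000000000000000) := Q_17 (nat_lit 147) (C_17 L31402 (C_17 L31403 (C_17 L31413 (C_17 L31414 N_17)))) (by decide +kernel)
theorem L31416 : W_17 (nat_lit 2) (nat_lit 0x40002000e001d000280010001c00000000000000000000000) (nat_lit 0x0) (nat_lit 0x540000000000000000000000000000000) := D_17 (nat_lit 128) (nat_lit 126) (nat_lit 130) (nat_lit 3) (nat_lit 7) (nat_lit 7) (nat_lit 3) (nat_lit 8) (nat_lit 7) (by decide +kernel)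
theorem L31417 : W_17 (nat_lit 3) (nat_lit 0x40002000e000d000280010001c00000000000000000000000) (nat_lit 0x0) (nat_lit 0x30000540000000000000000000000000000000) := T_17 (nat_lit 148) (nat_lit 149) (nat_lit 1) (nat_lit 13) (nat_lit 8) L31416 (by decide +kernel)
theorem L31418 : W_17 (nat_lit 4) (nat_lit 0x40002000e0005000280010001c00000000000000000000000) (nat_lit 0x0) (nat_lit 0x10038000540000000000000000000000000000000) := T_17 (nat_lit 147) (nat_lit 160) (nat_lit 2) (nat_lit 7) (nat_lit 9) L31417 (by decide +kernel)
theorem L31419 : W_17 (nat_lit 5) (nat_lit 0x40002000a0005000280010001c00000000000000000000000) (nat_lit 0x0) (nat_lit 0x800050038000540000000000000000000000000000000) := T_17 (nat_lit 162) (nat_lit 179) (nat_lit 5) (nat_lit 10) (nat_lit 6) L31418 (by decide +kernel)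
theorem L31420 : W_17 (nat_lit 6) (nat_lit 0x4000200020005000280010001c00000000000000000000000) (nat_lit 0x0) (nat_lit 0x8000d0038000540008000000000000000000000000000) := T_17 (nat_lit 163) (nat_lit 111) (nat_lit 4) (nat_lit 10) (nat_lit 9) L31419 (by decide +kernel)
theorem L31421 : W_17 (nat_lit 7) (nat_lit 0x4000200020005000280010001800000000000000000000000) (nat_lit 0x0) (nat_lit 0x8000d0038000540008000400020000000000000000000) := T_17 (nat_lit 94) (nat_lit 77) (nat_lit 4) (nat_lit 10) (nat_lit 8) L31420 (by decide +kernel)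
theorem L31422 : W_17 (nat_lit 8) (nat_lit 0x4000200020005000280010000800000000000000000000000) (nat_lit 0x0) (nat_lit 0x8000d00380005400080014000a0000000000000000000) := T_17 (nat_lit 96) (nat_lit 79) (nat_lit 6) (nat_lit 10) (nat_lit 8) L31421 (by decide +kernel)
theorem L31423 : W_17 (nat_lit 9) (nat_lit 0x4000200000005000280010000800000000000000000000000) (nat_lit 0x0) (nat_lit 0xc000f00380005400080014000a0000000000000000000) := T_17 (nat_lit 161) (nat_lit 178) (nat_lit 5) (nat_lit 8) (nat_lit 7) L31422 (by decide +kernel)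
theorem L31424 : W_17 (nat_lit 7) (nat_lit 0x40002000200050002800100008000e0000000000000000000) (nat_lit 0x0) (nat_lit 0x18000d0038000540008000000000002000000000000000) := T_17 (nat_lit 147) (nat_lit 130) (nat_lit 7) (nat_lit 10) (nat_lit 4) L31408 (by decide +kernel)
theorem L31425 : W_17 (nat_lit 8) (nat_lit 0x40002000200050002800100008000c0000000000000000000) (nat_lit 0x0) (nat_lit 0x18000d0038000540008000000020003000000000000000) := T_17 (nat_lit 77) (nat_lit 60) (nat_lit 4) (nat_lit 10) (nat_lit 7) L31424 (by decide +kernel)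
theorem L31426 : W_17 (nat_lit 9) (nat_lit 0x4000200020005000280010000800080000000000000000000) (nat_lit 0x0) (nat_lit 0x18000d0038000540008000000060007000000000000000) := T_17 (nat_lit 78) (nat_lit 62) (nat_lit 6) (nat_lit 10) (nat_lit 7) L31425 (by decide +kernel)
theorem L31427 : W_17 (nat_lit 10) (nat_lit 0x4000200020005000280010000800000000000000000000000) (nat_lit 0x0) (nat_lit 0x18000d00380005400080010000e0007000000000000000) := T_17 (nat_lit 79) (nat_lit 96) (nat_lit 6) (nat_lit 10) (nat_lit 8) L31426 (by decide +kernel)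
theorem L31428 : W_17 (nat_lit 11) (nat_lit 0x4000200000005000280010000800000000000000000000000) (nat_lit 0x0) (nat_lit 0x1c000f00380005400080010000e0007000000000000000) := T_17 (nat_lit 161) (nat_lit 178) (nat_lit 5) (nat_lit 8) (nat_lit 7) L31427 (by decide +kernel)
theorem L31429 : W_17 (nat_lit 2) (nat_lit 0x40002000e001d000280010000c00000000000000000000000) (nat_lit 0x0) (nat_lit 0x500000000000040000000000000000000) := D_17 (nat_lit 130) (nat_lit 78) (nat_lit 128) (nat_lit 7) (nat_lit 10) (nat_lit 4) (nat_lit 3) (nat_lit 8) (nat_lit 7) (by decide +kernel)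
theorem L31430 : W_17 (nat_lit 3) (nat_lit 0x40002000e000d000280010000c00000000000000000000000) (nat_lit 0x0) (nat_lit 0x30000500000000000040000000000000000000) := T_17 (nat_lit 148) (nat_lit 149) (nat_lit 1) (nat_lit 13) (nat_lit 8) L31429 (by decide +kernel)
theorem L31431 : W_17 (nat_lit 4) (nat_lit 0x40002000e0005000280010000c00000000000000000000000) (nat_lit 0x0) (nat_lit 0x10038000500000000000040000000000000000000) := T_17 (nat_lit 147) (nat_lit 160) (nat_lit 2) (nat_lit 7) (nat_lit 9) L31430 (by decide +kernel)
theorem L31432 : W_17 (nat_lit 5) (nat_lit 0x40002000a0005000280010000c00000000000000000000000) (nat_lit 0x0) (nat_lit 0x800050038000500000000000040000000000000000000) := T_17 (nat_lit 162) (nat_lit 179) (nat_lit 5) (nat_lit 10) (nat_lit 6) L31431 (by decide +kernel)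
theorem L31433 : W_17 (nat_lit 6) (nat_lit 0x4000200020005000280010000c00000000000000000000000) (nat_lit 0x0) (nat_lit 0x8000d0038000500008000000040000000000000000000) := T_17 (nat_lit 163) (nat_lit 111) (nat_lit 4) (nat_lit 10) (nat_lit 9) L31432 (by decide +kernel)
theorem L31434 : W_17 (nat_lit 7) (nat_lit 0x4000200000005000280010000c00000000000000000000000) (nat_lit 0x0) (nat_lit 0xc000f0038000500008000000040000000000000000000) := T_17 (nat_lit 161) (nat_lit 178) (nat_lit 5) (nat_lit 8) (nat_lit 7) L31433 (by decide +kernel)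
theorem L31435 : W_17 (nat_lit 8) (nat_lit 0x4000200000005000280010000800000000000000000000000) (nat_lit 0x0) (nat_lit 0xc000f0038000500008000400060000000000000000000) := T_17 (nat_lit 94) (nat_lit 77) (nat_lit 4) (nat_lit 10) (nat_lit 8) L31434 (by decide +kernel)
theorem L31436 : W_17 (nat_lit 2) (nat_lit 0x400020002002d0003800180008000c0000000000000000000) (nat_lit 0x0) (nat_lit 0x1000080000000000000000400000000000000000000000) := D_17 (nat_lit 163) (nat_lit 180) (nat_lit 94) (nat_lit 4) (nat_lit 10) (nat_lit 10) (nat_lit 4) (nat_lit 10) (nat_lit 9) (by decide +kernel)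
theorem L31437 : W_17 (nat_lit 3) (nat_lit 0x400020002002d0003800100008000c0000000000000000000) (nat_lit 0x0) (nat_lit 0x1000080000000000008000400000002000000000000000) := T_17 (nat_lit 111) (nat_lit 61) (nat_lit 5) (nat_lit 10) (nat_lit 3) L31436 (by decide +kernel)
theorem L31438 : W_17 (nat_lit 4) (nat_lit 0x400020002000d0003800100008000c0000000000000000000) (nat_lit 0x0) (nat_lit 0x1000080030000000008000400000002000000000000000) := T_17 (nat_lit 149) (nat_lit 148) (nat_lit 0) (nat_lit 13) (nat_lit 8) L31437 (by decide +kernel)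
theorem L31439 : W_17 (nat_lit 5) (nat_lit 0x400020002000d0002800100008000c0000000000000000000) (nat_lit 0x0) (nat_lit 0x1000080030000140008000400000002000000000000000) := T_17 (nat_lit 128) (nat_lit 126) (nat_lit 3) (nat_lit 7) (nat_lit 7) L31438 (by decide +kernel)
theorem L31440 : W_17 (nat_lit 6) (nat_lit 0x40002000200050002800100008000c0000000000000000000) (nat_lit 0x0) (nat_lit 0x1000080038000540008000400000002000000000000000) := T_17 (nat_lit 147) (nat_lit 130) (nat_lit 7) (nat_lit 10) (nat_lit 4) L31439 (by decide +kernel)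
theorem L31441 : W_17 (nat_lit 7) (nat_lit 0x4000200020005000280010000800080000000000000000000) (nat_lit 0x0) (nat_lit 0x1000080038000540008000400040006000000000000000) := T_17 (nat_lit 78) (nat_lit 62) (nat_lit 6) (nat_lit 10) (nat_lit 7) L31440 (by decide +kernel)
theorem L31442 : W_17 (nat_lit 8) (nat_lit 0x4000200000005000280010000800080000000000000000000) (nat_lit 0x0) (nat_lit 0x14000a0038000540008000400040006000000000000000) := T_17 (nat_lit 161) (nat_lit 178) (nat_lit 5) (nat_lit 8) (nat_lit 7) L31441 (by decide +kernel)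
theorem L31443 : W_17 (nat_lit 9) (nat_lit 0x4000200000005000280010000800000000000000000000000) (nat_lit 0x0) (nat_lit 0x14000a00380005400080014000c0006000000000000000) := T_17 (nat_lit 79) (nat_lit 96) (nat_lit 6) (nat_lit 10) (nat_lit 8) L31442 (by decide +kernel)
theorem L31444 : W_17 (nat_lit 12) (nat_lit 0x4000200000005000280010000000000000000000000000000) (nat_lit 0x0) (nat_lit 0x1c000f0038000540008001c000e0007000000000000000) := Q_17 (nat_lit 95) (C_17 L30797 (C_17 L31423 (C_17 L31428 (C_17 L31435 (C_17 L31443 N_17))))) (by decide +kernel)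
theorem L31445 : W_17 (nat_lit 13) (nat_lit 0x4000200000001000280010000000000000000000000000000) (nat_lit 0x0) (nat_lit 0x3fa00fc007f803c000540008001c000e0007000000000000000) := Q_17 (nat_lit 146) (C_17 L31366 (C_17 L31367 (C_17 L31379 (C_17 L31398 (C_17 L31399 (C_17 L31415 (C_17 L31444 N_17))))))) (by decide +kernel)
theorem L31446 : W_17 (nat_lit 2) (nat_lit 0x400020000000d000380030000000000000000000000000000) (nat_lit 0x0) (nat_lit 0x30000400000000000000000000000000000000) := D_17 (nat_lit 148) (nat_lit 149) (nat_lit 130) (nat_lit 0) (nat_lit 13) (nat_lit 8) (nat_lit 3) (nat_lit 8) (nat_lit 7) (by decide +kernel)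
theorem L31447 : W_17 (nat_lit 5) (nat_lit 0x400020002000d000380030000800060000000000000000000) (nat_lit 0x0) (nat_lit 0x30000000008001000000006000300010000000) := T_17 (nat_lit 61) (nat_lit 111) (nat_lit 5) (nat_lit 10) (nat_lit 3) L30149 (by decide +kernel)
theorem L31448 : W_17 (nat_lit 6) (nat_lit 0x400020000000d000380030000800060000000000000000000) (nat_lit 0x0) (nat_lit 0x400020030000000008001000000006000300010000000) := T_17 (nat_lit 161) (nat_lit 178) (nat_lit 5) (nat_lit 8) (nat_lit 7) L31447 (by decide +kernel)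
theorem L31449 : W_17 (nat_lit 7) (nat_lit 0x400020000000d000380030000800020000000000000000000) (nat_lit 0x0) (nat_lit 0x400020030000000008001000040007000300010000000) := T_17 (nat_lit 78) (nat_lit 60) (nat_lit 4) (nat_lit 10) (nat_lit 7) L31448 (by decide +kernel)
theorem L31450 : W_17 (nat_lit 8) (nat_lit 0x400020000000d000380030000800000000000000000000000) (nat_lit 0x0) (nat_lit 0x400020030000000008001400060007000300010000000) := T_17 (nat_lit 77) (nat_lit 94) (nat_lit 4) (nat_lit 10) (nat_lit 8) L31449 (by decide +kernel)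
theorem L31451 : W_17 (nat_lit 9) (nat_lit 0x400020000000d000380030000000000000000000000000000) (nat_lit 0x0) (nat_lit 0x400120030000000008001c00060007000300010000000) := T_17 (nat_lit 95) (nat_lit 164) (nat_lit 7) (nat_lit 10) (nat_lit 5) L31450 (by decide +kernel)
theorem L31452 : W_17 (nat_lit 2) (nat_lit 0x400020000000d000380030000800040000000000000000000) (nat_lit 0x0) (nat_lit 0x400020001000000000000000) := D_17 (nat_lit 77) (nat_lit 94) (nat_lit 60) (nat_lit 4) (nat_lit 10) (nat_lit 8) (nat_lit 4) (nat_lit 10) (nat_lit 7) (by decide +kernel)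
theorem L31453 : W_17 (nat_lit 3) (nat_lit 0x400020000000d000380030000800000000000000000000000) (nat_lit 0x0) (nat_lit 0x400000000400060001000000000000000) := T_17 (nat_lit 78) (nat_lit 130) (nat_lit 7) (nat_lit 10) (nat_lit 4) L31452 (by decide +kernel)
theorem L31454 : W_17 (nat_lit 4) (nat_lit 0x400020000000d000380030000000000000000000000000000) (nat_lit 0x0) (nat_lit 0x100000000400000000c00060001000000000000000) := T_17 (nat_lit 95) (nat_lit 164) (nat_lit 7) (nat_lit 10) (nat_lit 5) L31453 (by decide +kernel)
theorem L31455 : W_17 (nat_lit 10) (nat_lit 0x4000200000005000380030000000000000000000000000000) (nat_lit 0x0) (nat_lit 0x400120038000400008001c00060007000300010000000) := Q_17 (nat_lit 147) (C_17 L31446 (C_17 L31451 (C_17 L31454 N_17))) (by decide +kernel)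
theorem L31456 : W_17 (nat_lit 11) (nat_lit 0x4000200000001000380030000000000000000000000000000) (nat_lit 0x0) (nat_lit 0x3c001e003c000400008001c00060007000300010000000) := Q_17 (nat_lit 146) (C_17 L30219 (C_17 L30247 (C_17 L30226 (C_17 L30217 (C_17 L30231 (C_17 L31455 N_17)))))) (by decide +kernel)
theorem L31457 : W_17 (nat_lit 12) (nat_lit 0x4000200000001000380010000000000000000000000000000) (nat_lit 0x0) (nat_lit 0x3c001e003c0004000e8001c00060007000300010000000) := Q_17 (nat_lit 113) (C_17 L29509 (C_17 L29913 (C_17 L29511 (C_17 L31456 N_17)))) (by decide +kernel)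
theorem L31458 : W_17 (nat_lit 13) (nat_lit 0x4000200000001000280010000000000000000000000000000) (nat_lit 0x0) (nat_lit 0x3fa00fc007f803c0005600eb801c00060007000300010000000) := Q_17 (nat_lit 128) (C_17 L31352 (C_17 L30185 (C_17 L30215 (C_17 L31457 N_17)))) (by decide +kernel)
theorem L31459 : W_17 (nat_lit 15) (nat_lit 0x4000200000001000280010000000000000000000000000000) (nat_lit 0x0) (nat_lit 0x400fa007c007d407ea01ff80ffc03fe00fe000f000000) := Q_17 (nat_lit 113) (C_17 L29510 (C_17 L31051 (C_17 L30433 (C_17 L31049 N_17)))) (by decide +kernel)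
theorem L31460 : W_17 (nat_lit 2) (nat_lit 0x4000200020001000a80078003d00020000000000000000000) (nat_lit 0x0) (nat_lit 0x200010000000000000000080000000000000000000) := D_17 (nat_lit 148) (nat_lit 79) (nat_lit 165) (nat_lit 4) (nat_lit 12) (nat_lit 8) (nat_lit 4) (nat_lit 12) (nat_lit 9) (by decide +kernel)
theorem L31461 : W_17 (nat_lit 3) (nat_lit 0x4000200020001000a80078002d00020000000000000000000) (nat_lit 0x0) (nat_lit 0x200010000000000001000090000000000000000000) := T_17 (nat_lit 96) (nat_lit 76) (nat_lit 0) (nat_lit 12) (nat_lit 5) L31460 (by decide +kernel)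
theorem L31462 : W_17 (nat_lit 4) (nat_lit 0x4000200020001000280078002d00020000000000000000000) (nat_lit 0x0) (nat_lit 0x200010001800000001000090000000000000000000) := T_17 (nat_lit 131) (nat_lit 132) (nat_lit 3) (nat_lit 9) (nat_lit 6) L31461 (by decide +kernel)
theorem L31463 : W_17 (nat_lit 5) (nat_lit 0x4000200020001000280078002d00000000000000000000000) (nat_lit 0x0) (nat_lit 0x2000100018000000010000b0001000000000000000) := T_17 (nat_lit 77) (nat_lit 60) (nat_lit 7) (nat_lit 9) (nat_lit 3) L31462 (by decide +kernel)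
theorem L31464 : W_17 (nat_lit 6) (nat_lit 0x4000200020001000280078000d00000000000000000000000) (nat_lit 0x0) (nat_lit 0x2000100018000000070000b0001000000000000000) := T_17 (nat_lit 97) (nat_lit 98) (nat_lit 2) (nat_lit 9) (nat_lit 6) L31463 (by decide +kernel)
theorem L31465 : W_17 (nat_lit 7) (nat_lit 0x4000200020001000280070000d00000000000000000000000) (nat_lit 0x0) (nat_lit 0x2000100019000080070000b0001000000000000000) := T_17 (nat_lit 111) (nat_lit 128) (nat_lit 1) (nat_lit 12) (nat_lit 6) L31464 (by decide +kernel)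
theorem L31466 : W_17 (nat_lit 8) (nat_lit 0x4000200020001000280030000d00000000000000000000000) (nat_lit 0x0) (nat_lit 0x2000100019000c80070000b0001000000000000000) := T_17 (nat_lit 114) (nat_lit 115) (nat_lit 0) (nat_lit 13) (nat_lit 6) L31465 (by decide +kernel)
theorem L31467 : W_17 (nat_lit 9) (nat_lit 0x4000200020001000280030000c00000000000000000000000) (nat_lit 0x0) (nat_lit 0x2000100019000c80073000b0001000000000000000) := T_17 (nat_lit 92) (nat_lit 93) (nat_lit 3) (nat_lit 7) (nat_lit 5) L31466 (by decide +kernel)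
theorem L31468 : W_17 (nat_lit 10) (nat_lit 0x4000200000001000280030000c00000000000000000000000) (nat_lit 0x0) (nat_lit 0x4002200100019000c80073000b0001000000000000000) := T_17 (nat_lit 161) (nat_lit 178) (nat_lit 5) (nat_lit 8) (nat_lit 7) L31467 (by decide +kernel)
theorem L31469 : W_17 (nat_lit 2) (nat_lit 0x4000200000001000280070000c00000000000000000000000) (nat_lit 0x0) (nat_lit 0x8000300000000000000000000000) := D_17 (nat_lit 93) (nat_lit 92) (nat_lit 111) (nat_lit 3) (nat_lit 7) (nat_lit 5) (nat_lit 0) (nat_lit 12) (nat_lit 6) (by decide +kernel)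
theorem L31470 : W_17 (nat_lit 3) (nat_lit 0x4000200000001000280030000c00000000000000000000000) (nat_lit 0x0) (nat_lit 0xc8000300000000000000000000000) := T_17 (nat_lit 114) (nat_lit 115) (nat_lit 0) (nat_lit 13) (nat_lit 6) L31469 (by decide +kernel)
theorem L31471 : W_17 (nat_lit 11) (nat_lit 0x4000200000001000280030000800000000000000000000000) (nat_lit 0x0) (nat_lit 0x4002200140019000c80077000f0001000080000000000) := Q_17 (nat_lit 94) (C_17 L30479 (C_17 L31468 (C_17 L31470 N_17))) (by decide +kernel)
theorem L31472 : W_17 (nat_lit 2) (nat_lit 0x40002000000010002800f0000800000000000000000000000) (nat_lit 0x0) (nat_lit 0x400100001000000000000000000000000) := D_17 (nat_lit 116) (nat_lit 96) (nat_lit 130) (nat_lit 0) (nat_lit 14) (nat_lit 6) (nat_lit 1) (nat_lit 14) (nat_lit 6) (by decide +kernel)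
theorem L31473 : W_17 (nat_lit 3) (nat_lit 0x4000200000001000280070000800000000000000000000000) (nat_lit 0x0) (nat_lit 0x400180001400000000000000000000000) := T_17 (nat_lit 115) (nat_lit 94) (nat_lit 0) (nat_lit 13) (nat_lit 6) L31472 (by decide +kernel)
theorem L31474 : W_17 (nat_lit 2) (nat_lit 0x4000200000001000280070000800000000000000000000000) (nat_lit 0x0) (nat_lit 0x500008000000000000000000000000000) := D_17 (nat_lit 128) (nat_lit 130) (nat_lit 111) (nat_lit 2) (nat_lit 8) (nat_lit 7) (nat_lit 1) (nat_lit 12) (nat_lit 6) (by decide +kernel)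
theorem L31475 : W_17 (nat_lit 4) (nat_lit 0x4000200000001000280030000800000000000000000000000) (nat_lit 0x0) (nat_lit 0x5001c8001400000000000000000000000) := Q_17 (nat_lit 114) (C_17 L30484 (C_17 L31473 (C_17 L31474 N_17))) (by decide +kernel)
theorem L31476 : W_17 (nat_lit 6) (nat_lit 0x4000200000001000280030000800040000000000000000000) (nat_lit 0x0) (nat_lit 0x4000200040000000000030000b8005000000000000000) := T_17 (nat_lit 161) (nat_lit 178) (nat_lit 5) (nat_lit 8) (nat_lit 7) L30544 (by decide +kernel)
theorem L31477 : W_17 (nat_lit 8) (nat_lit 0x4000200000001000280030000800000000000000000000000) (nat_lit 0x0) (nat_lit 0x40002001c003c000080030000f8007000080000000000) := Q_17 (nat_lit 78) (C_17 L29515 (C_17 L30859 (C_17 L31476 (C_17 L29518 N_17)))) (by decide +kernel)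
theorem L31478 : W_17 (nat_lit 12) (nat_lit 0x4000200000001000280030000000000000000000000000000) (nat_lit 0x0) (nat_lit 0x40032001c003d001c800ff003f800f000380008000000) := Q_17 (nat_lit 95) (C_17 L31471 (C_17 L30766 (C_17 L31475 (C_17 L29550 (C_17 L31477 N_17))))) (by decide +kernel)
theorem L31479 : W_17 (nat_lit 4) (nat_lit 0x4000200000001000280030000800000000000000000000000) (nat_lit 0x0) (nat_lit 0x40000000c8000700060001000080000000000) := Q_17 (nat_lit 94) (C_17 L31470 (C_17 L30479 N_17)) (by decide +kernel)
theorem L31480 : W_17 (nat_lit 7) (nat_lit 0x4000200000001000280030000800000000000000000000000) (nat_lit 0x0) (nat_lit 0x40002000c0004000000030000f8007000000000000000) := Q_17 (nat_lit 78) (C_17 L31476 (C_17 L29518 N_17)) (by decide +kernel)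
theorem L31481 : W_17 (nat_lit 4) (nat_lit 0x4000200020001000280030000c00000000000000000000000) (nat_lit 0x0) (nat_lit 0x40000000400013000a0000000000000000000) := T_17 (nat_lit 146) (nat_lit 77) (nat_lit 4) (nat_lit 10) (nat_lit 8) L30526 (by decide +kernel)
theorem L31482 : W_17 (nat_lit 5) (nat_lit 0x4000200000001000280030000c00000000000000000000000) (nat_lit 0x0) (nat_lit 0x4000200040000000400013000a0000000000000000000) := T_17 (nat_lit 161) (nat_lit 178) (nat_lit 5) (nat_lit 8) (nat_lit 7) L31481 (by decide +kernel)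
theorem L31483 : W_17 (nat_lit 2) (nat_lit 0x4000200000001000280030000d00020000000000000000000) (nat_lit 0x0) (nat_lit 0x8000000000001000080000000000) := D_17 (nat_lit 60) (nat_lit 43) (nat_lit 111) (nat_lit 7) (nat_lit 9) (nat_lit 2) (nat_lit 7) (nat_lit 9) (nat_lit 3) (by decide +kernel)
theorem L31484 : W_17 (nat_lit 3) (nat_lit 0x4000200000001000280030000d00000000000000000000000) (nat_lit 0x0) (nat_lit 0x4000000008000000020001000080000000000) := T_17 (nat_lit 77) (nat_lit 146) (nat_lit 4) (nat_lit 10) (nat_lit 8) L31483 (by decide +kernel)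
theorem L31485 : W_17 (nat_lit 4) (nat_lit 0x4000200000001000280030000c00000000000000000000000) (nat_lit 0x0) (nat_lit 0x4000000008000300020001000080000000000) := T_17 (nat_lit 92) (nat_lit 93) (nat_lit 3) (nat_lit 7) (nat_lit 5) L31484 (by decide +kernel)
theorem L31486 : W_17 (nat_lit 2) (nat_lit 0x40002000200010002800b0000c00020000000000000000000) (nat_lit 0x0) (nat_lit 0x8000000000001000080000000000) := D_17 (nat_lit 60) (nat_lit 43) (nat_lit 111) (nat_lit 7) (nat_lit 9) (nat_lit 2) (nat_lit 7) (nat_lit 9) (nat_lit 3) (by decide +kernel)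
theorem L31487 : W_17 (nat_lit 3) (nat_lit 0x40002000200010002800b0000c00000000000000000000000) (nat_lit 0x0) (nat_lit 0x4000000008000000020001000080000000000) := T_17 (nat_lit 77) (nat_lit 146) (nat_lit 4) (nat_lit 10) (nat_lit 8) L31486 (by decide +kernel)
theorem L31488 : W_17 (nat_lit 4) (nat_lit 0x4000200020001000280030000c00000000000000000000000) (nat_lit 0x0) (nat_lit 0x40000000c8000000020001000080000000000) := T_17 (nat_lit 115) (nat_lit 114) (nat_lit 0) (nat_lit 13) (nat_lit 6) L31487 (by decide +kernel)
theorem L31489 : W_17 (nat_lit 5) (nat_lit 0x4000200000001000280030000c00000000000000000000000) (nat_lit 0x0) (nat_lit 0x4000200040000000c8000000020001000080000000000) := T_17 (nat_lit 161) (nat_lit 178) (nat_lit 5) (nat_lit 8) (nat_lit 7) L31488 (by decide +kernel)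
theorem L31490 : W_17 (nat_lit 6) (nat_lit 0x4000200000001000280030000800000000000000000000000) (nat_lit 0x0) (nat_lit 0x4000200040000000c80017000a0001000080000000000) := Q_17 (nat_lit 94) (C_17 L31470 (C_17 L31482 (C_17 L31485 (C_17 L31489 N_17)))) (by decide +kernel)
theorem L31491 : W_17 (nat_lit 6) (nat_lit 0x40002000200010006800300008000c0000000000000000000) (nat_lit 0x0) (nat_lit 0x14003800000001600300008000000000000000) := T_17 (nat_lit 96) (nat_lit 146) (nat_lit 6) (nat_lit 10) (nat_lit 8) L30733 (by decide +kernel)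
theorem L31492 : W_17 (nat_lit 7) (nat_lit 0x4000200020001000680030000800040000000000000000000) (nat_lit 0x0) (nat_lit 0x1400380000000160038000c000000000000000) := T_17 (nat_lit 79) (nat_lit 62) (nat_lit 6) (nat_lit 10) (nat_lit 7) L31491 (by decide +kernel)
theorem L31493 : W_17 (nat_lit 8) (nat_lit 0x4000200020001000680030000800000000000000000000000) (nat_lit 0x0) (nat_lit 0x140038000000016003c000e000000000000000) := T_17 (nat_lit 78) (nat_lit 61) (nat_lit 7) (nat_lit 10) (nat_lit 3) L31492 (by decide +kernel)
theorem L31494 : W_17 (nat_lit 9) (nat_lit 0x4000200000001000680030000800000000000000000000000) (nat_lit 0x0) (nat_lit 0x4000200140038000000016003c000e000000000000000) := T_17 (nat_lit 161) (nat_lit 178) (nat_lit 5) (nat_lit 8) (nat_lit 7) L31493 (by decide +kernel)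
theorem L31495 : W_17 (nat_lit 2) (nat_lit 0x4000200020059000680030003800000004000000000000000) (nat_lit 0x0) (nat_lit 0x800c000000000000000000000000) := D_17 (nat_lit 98) (nat_lit 99) (nat_lit 111) (nat_lit 1) (nat_lit 14) (nat_lit 5) (nat_lit 1) (nat_lit 13) (nat_lit 5) (by decide +kernel)
theorem L31496 : W_17 (nat_lit 3) (nat_lit 0x4000200020059000680030001800000004000000000000000) (nat_lit 0x0) (nat_lit 0x800e000100000000000000000000) := T_17 (nat_lit 97) (nat_lit 80) (nat_lit 6) (nat_lit 11) (nat_lit 8) L31495 (by decide +kernel)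
theorem L31497 : W_17 (nat_lit 4) (nat_lit 0x4000200020019000680030001800000004000000000000000) (nat_lit 0x0) (nat_lit 0x6000000000800e000100000000000000000000) := T_17 (nat_lit 150) (nat_lit 149) (nat_lit 0) (nat_lit 14) (nat_lit 8) L31496 (by decide +kernel)
theorem L31498 : W_17 (nat_lit 5) (nat_lit 0x4000200020009000680030001800000004000000000000000) (nat_lit 0x0) (nat_lit 0x20007000000000800e000100000000000000000000) := T_17 (nat_lit 148) (nat_lit 165) (nat_lit 7) (nat_lit 11) (nat_lit 5) L31497 (by decide +kernel)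
theorem L31499 : W_17 (nat_lit 6) (nat_lit 0x4000200020001000680030001800000004000000000000000) (nat_lit 0x0) (nat_lit 0x30007800000000800e000100000000000000000000) := T_17 (nat_lit 147) (nat_lit 164) (nat_lit 4) (nat_lit 11) (nat_lit 9) L31498 (by decide +kernel)
theorem L31500 : W_17 (nat_lit 7) (nat_lit 0x4000200020001000680030001800000000000000000000000) (nat_lit 0x0) (nat_lit 0x30007800000000800e000180004000000000000000) := T_17 (nat_lit 62) (nat_lit 79) (nat_lit 5) (nat_lit 11) (nat_lit 3) L31499 (by decide +kernel)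
theorem L31501 : W_17 (nat_lit 8) (nat_lit 0x4000200000001000680030001800000000000000000000000) (nat_lit 0x0) (nat_lit 0x40032007800000000800e000180004000000000000000) := T_17 (nat_lit 161) (nat_lit 178) (nat_lit 5) (nat_lit 8) (nat_lit 7) L31500 (by decide +kernel)
theorem L31502 : W_17 (nat_lit 2) (nat_lit 0x4000200000001000680030001800000000000000000000000) (nat_lit 0x0) (nat_lit 0x4000000000000000080004000000000000000) := D_17 (nat_lit 79) (nat_lit 62) (nat_lit 146) (nat_lit 5) (nat_lit 11) (nat_lit 3) (nat_lit 6) (nat_lit 10) (nat_lit 8) (by decide +kernel)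
theorem L31503 : W_17 (nat_lit 2) (nat_lit 0x4000200020009000680030003800000000000000000000000) (nat_lit 0x0) (nat_lit 0x800c000000000000000000000000) := D_17 (nat_lit 98) (nat_lit 99) (nat_lit 111) (nat_lit 1) (nat_lit 14) (nat_lit 5) (nat_lit 1) (nat_lit 13) (nat_lit 5) (by decide +kernel)
theorem L31504 : W_17 (nat_lit 3) (nat_lit 0x4000200020009000680030001800000000000000000000000) (nat_lit 0x0) (nat_lit 0x800e000100000000000000000000) := T_17 (nat_lit 97) (nat_lit 80) (nat_lit 6) (nat_lit 11) (nat_lit 8) L31503 (by decide +kernel)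
theorem L31505 : W_17 (nat_lit 4) (nat_lit 0x4000200000009000680030001800000000000000000000000) (nat_lit 0x0) (nat_lit 0x40002000000000000800e000100000000000000000000) := T_17 (nat_lit 161) (nat_lit 178) (nat_lit 5) (nat_lit 8) (nat_lit 7) L31504 (by decide +kernel)
theorem L31506 : W_17 (nat_lit 5) (nat_lit 0x4000200000001000680030001800000000000000000000000) (nat_lit 0x0) (nat_lit 0x40012000800000000800e000100000000000000000000) := T_17 (nat_lit 147) (nat_lit 164) (nat_lit 4) (nat_lit 11) (nat_lit 9) L31505 (by decide +kernel)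
theorem L31507 : W_17 (nat_lit 9) (nat_lit 0x4000200000001000680030000800000000000000000000000) (nat_lit 0x0) (nat_lit 0x40032007c00000000800f000180004000000000000000) := Q_17 (nat_lit 96) (C_17 L31501 (C_17 L31502 (C_17 L31506 N_17))) (by decide +kernel)
theorem L31508 : W_17 (nat_lit 10) (nat_lit 0x4000200000001000280030000800000000000000000000000) (nat_lit 0x0) (nat_lit 0x40032007c003c0000800f6003c000e000000000000000) := Q_17 (nat_lit 130) (C_17 L31494 (C_17 L30759 (C_17 L31507 N_17))) (by decide +kernel)
theorem L31509 : W_17 (nat_lit 11) (nat_lit 0x4000200000001000280030000000000000000000000000000) (nat_lit 0x0) (nat_lit 0x40032007c003c000c800ff003f800f000380008000000) := Q_17 (nat_lit 95) (C_17 L31479 (C_17 L29550 (C_17 L31480 (C_17 L31490 (C_17 L31508 N_17))))) (by decide +kernel)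
theorem L31510 : W_17 (nat_lit 4) (nat_lit 0x4000200000001000680030000000080000000000000000000) (nat_lit 0x0) (nat_lit 0x14003800008001000000000000000000000000) := T_17 (nat_lit 96) (nat_lit 146) (nat_lit 5) (nat_lit 11) (nat_lit 4) L31045 (by decide +kernel)
theorem L31511 : W_17 (nat_lit 13) (nat_lit 0x4000200000001000280030000000080000000000000000000) (nat_lit 0x0) (nat_lit 0x240032007c003d4018800ff0077000b000000000000000) := Q_17 (nat_lit 130) (C_17 L29881 (C_17 L29902 (C_17 L29867 (C_17 L29865 (C_17 L31510 (C_17 L29835 N_17)))))) (by decide +kernel)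
theorem L31512 : W_17 (nat_lit 14) (nat_lit 0x4000200000001000280030000000000000000000000000000) (nat_lit 0x0) (nat_lit 0x240032007c003d4018a01ff80ffc03fe001e000f000000) := Q_17 (nat_lit 79) (C_17 L29752 (C_17 L31013 (C_17 L29731 (C_17 L31007 (C_17 L29836 (C_17 L31511 N_17)))))) (by decide +kernel)
theorem L31513 : W_17 (nat_lit 15) (nat_lit 0x4000200000001000280010000000000000000000000000000) (nat_lit 0x0) (nat_lit 0x240032007c003d401ea01ff80ffc03fe003e000f000000) := Q_17 (nat_lit 113) (C_17 L29510 (C_17 L29914 (C_17 L29512 (C_17 L31478 (C_17 L31509 (C_17 L31512 N_17)))))) (by decide +kernel)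
theorem L31514 : W_17 (nat_lit 2) (nat_lit 0x4000200000001000380050000000000000000000000000000) (nat_lit 0x0) (nat_lit 0xa8000000000000000000000000000) := D_17 (nat_lit 113) (nat_lit 111) (nat_lit 115) (nat_lit 1) (nat_lit 12) (nat_lit 6) (nat_lit 1) (nat_lit 13) (nat_lit 6) (by decide +kernel)
theorem L31515 : W_17 (nat_lit 2) (nat_lit 0x4000200000001000380050000000000000000000000000000) (nat_lit 0x0) (nat_lit 0x4000a0000000000000000000000000000) := D_17 (nat_lit 113) (nat_lit 130) (nat_lit 115) (nat_lit 2) (nat_lit 8) (nat_lit 7) (nat_lit 1) (nat_lit 13) (nat_lit 6) (by decide +kernel)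
theorem L31516 : W_17 (nat_lit 5) (nat_lit 0x4000200000001000780050000000000000000000000000000) (nat_lit 0x0) (nat_lit 0x400020070001800088000000000000000000000000000) := T_17 (nat_lit 161) (nat_lit 178) (nat_lit 5) (nat_lit 8) (nat_lit 7) L31163 (by decide +kernel)
theorem L31517 : W_17 (nat_lit 2) (nat_lit 0x4002200000009003f80050000000000000000000000000000) (nat_lit 0x0) (nat_lit 0xe0000000000000000000000000000000000000) := D_17 (nat_lit 150) (nat_lit 149) (nat_lit 151) (nat_lit 3) (nat_lit 10) (nat_lit 7) (nat_lit 3) (nat_lit 11) (nat_lit 7) (by decide +kernel)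
theorem L31518 : W_17 (nat_lit 3) (nat_lit 0x4002200000009001f80050000000000000000000000000000) (nat_lit 0x0) (nat_lit 0xe4002000000000000000000000000000000000) := T_17 (nat_lit 133) (nat_lit 146) (nat_lit 1) (nat_lit 14) (nat_lit 7) L31517 (by decide +kernel)
theorem L31519 : W_17 (nat_lit 4) (nat_lit 0x4000200000009001f80050000000000000000000000000000) (nat_lit 0x0) (nat_lit 0x20001000e4002000000000000000000000000000000000) := T_17 (nat_lit 181) (nat_lit 164) (nat_lit 6) (nat_lit 11) (nat_lit 10) L31518 (by decide +kernel)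
theorem L31520 : W_17 (nat_lit 5) (nat_lit 0x4000200000009000f80050000000000000000000000000000) (nat_lit 0x0) (nat_lit 0x20001000e4003000008000000000000000000000000000) := T_17 (nat_lit 132) (nat_lit 111) (nat_lit 0) (nat_lit 13) (nat_lit 7) L31519 (by decide +kernel)
theorem L31521 : W_17 (nat_lit 6) (nat_lit 0x4000200000009000780050000000000000000000000000000) (nat_lit 0x0) (nat_lit 0x20001000e4003800088000000000000000000000000000) := T_17 (nat_lit 131) (nat_lit 115) (nat_lit 2) (nat_lit 9) (nat_lit 7) L31520 (by decide +kernel)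
theorem L31522 : W_17 (nat_lit 7) (nat_lit 0x4000200000001000780050000000000000000000000000000) (nat_lit 0x0) (nat_lit 0x20001000fc003800088000000000000000000000000000) := T_17 (nat_lit 147) (nat_lit 148) (nat_lit 3) (nat_lit 8) (nat_lit 7) L31521 (by decide +kernel)
theorem L31523 : W_17 (nat_lit 2) (nat_lit 0x4000200000001000f80050000000000000000000000000000) (nat_lit 0x0) (nat_lit 0x38000000000000000000000000000000000000) := D_17 (nat_lit 148) (nat_lit 147) (nat_lit 149) (nat_lit 3) (nat_lit 8) (nat_lit 7) (nat_lit 3) (nat_lit 9) (nat_lit 7) (by decide +kernel)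
theorem L31524 : W_17 (nat_lit 3) (nat_lit 0x4000200000001000780050000000000000000000000000000) (nat_lit 0x0) (nat_lit 0x38000800080000000000000000000000000000) := T_17 (nat_lit 131) (nat_lit 115) (nat_lit 2) (nat_lit 9) (nat_lit 7) L31523 (by decide +kernel)
theorem L31525 : W_17 (nat_lit 2) (nat_lit 0x40002000200010007800500008000c0002000000000000000) (nat_lit 0x0) (nat_lit 0x20001000080000000000) := D_17 (nat_lit 60) (nat_lit 43) (nat_lit 77) (nat_lit 4) (nat_lit 10) (nat_lit 6) (nat_lit 4) (nat_lit 10) (nat_lit 7) (by decide +kernel)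
theorem L31526 : W_17 (nat_lit 3) (nat_lit 0x40002000200010007800500008000c0000000000000000000) (nat_lit 0x0) (nat_lit 0x8000000020003000080000000000) := T_17 (nat_lit 61) (nat_lit 111) (nat_lit 5) (nat_lit 10) (nat_lit 3) L31525 (by decide +kernel)
theorem L31527 : W_17 (nat_lit 4) (nat_lit 0x4000200020001000780050000800040000000000000000000) (nat_lit 0x0) (nat_lit 0x80000000a0007000080000000000) := T_17 (nat_lit 79) (nat_lit 62) (nat_lit 6) (nat_lit 10) (nat_lit 7) L31526 (by decide +kernel)
theorem L31528 : W_17 (nat_lit 5) (nat_lit 0x4000200020001000780050000800000000000000000000000) (nat_lit 0x0) (nat_lit 0x80000000080000000e0007000080000000000) := T_17 (nat_lit 78) (nat_lit 147) (nat_lit 7) (nat_lit 10) (nat_lit 4) L31527 (by decide +kernel)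
theorem L31529 : W_17 (nat_lit 6) (nat_lit 0x4000200000001000780050000800000000000000000000000) (nat_lit 0x0) (nat_lit 0x4000200080000000080000000e0007000080000000000) := T_17 (nat_lit 161) (nat_lit 178) (nat_lit 5) (nat_lit 8) (nat_lit 7) L31528 (by decide +kernel)
theorem L31530 : W_17 (nat_lit 2) (nat_lit 0x4000200000021001f80050000c000e0000000000000000000) (nat_lit 0x0) (nat_lit 0x2200100000000000000000000) := D_17 (nat_lit 80) (nat_lit 97) (nat_lit 93) (nat_lit 7) (nat_lit 12) (nat_lit 4) (nat_lit 1) (nat_lit 12) (nat_lit 4) (by decide +kernel)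
theorem L31531 : W_17 (nat_lit 3) (nat_lit 0x4000200000021001f800500008000e0000000000000000000) (nat_lit 0x0) (nat_lit 0x4000000000002600100000000000000000000) := T_17 (nat_lit 94) (nat_lit 146) (nat_lit 4) (nat_lit 10) (nat_lit 8) L31530 (by decide +kernel)
theorem L31532 : W_17 (nat_lit 4) (nat_lit 0x4000200000001001f800500008000e0000000000000000000) (nat_lit 0x0) (nat_lit 0x64000000000002600100000000000000000000) := T_17 (nat_lit 149) (nat_lit 150) (nat_lit 3) (nat_lit 10) (nat_lit 7) L31531 (by decide +kernel)
theorem L31533 : W_17 (nat_lit 5) (nat_lit 0x4000200000001001f800500008000c0000000000000000000) (nat_lit 0x0) (nat_lit 0x64000000000002600120001000000000000000) := T_17 (nat_lit 77) (nat_lit 60) (nat_lit 4) (nat_lit 10) (nat_lit 7) L31532 (by decide +kernel)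
theorem L31534 : W_17 (nat_lit 6) (nat_lit 0x4000200000001001f80050000800040000000000000000000) (nat_lit 0x0) (nat_lit 0x640000000000026001a0005000000000000000) := T_17 (nat_lit 79) (nat_lit 62) (nat_lit 6) (nat_lit 10) (nat_lit 7) L31533 (by decide +kernel)
theorem L31535 : W_17 (nat_lit 7) (nat_lit 0x4000200000001001f80050000800000000000000000000000) (nat_lit 0x0) (nat_lit 0x6c0000000000026001e0005000000000000000) := T_17 (nat_lit 78) (nat_lit 147) (nat_lit 7) (nat_lit 10) (nat_lit 4) L31534 (by decide +kernel)
theorem L31536 : W_17 (nat_lit 8) (nat_lit 0x4000200000001000f80050000800000000000000000000000) (nat_lit 0x0) (nat_lit 0x6c0010000080026001e0005000000000000000) := T_17 (nat_lit 132) (nat_lit 111) (nat_lit 0) (nat_lit 13) (nat_lit 7) L31535 (by decide +kernel)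
theorem L31537 : W_17 (nat_lit 9) (nat_lit 0x4000200000001000780050000800000000000000000000000) (nat_lit 0x0) (nat_lit 0x6c0018000880026001e0005000000000000000) := T_17 (nat_lit 131) (nat_lit 115) (nat_lit 2) (nat_lit 9) (nat_lit 7) L31536 (by decide +kernel)
theorem L31538 : W_17 (nat_lit 5) (nat_lit 0x4000200000001000780050000800000000000000000000000) (nat_lit 0x0) (nat_lit 0x80000000000000000e0007000280000000000) := T_17 (nat_lit 78) (nat_lit 147) (nat_lit 7) (nat_lit 10) (nat_lit 4) L30575 (by decide +kernel)
theorem L31539 : W_17 (nat_lit 2) (nat_lit 0x4000200020001000f80058000800040000000000000000000) (nat_lit 0x0) (nat_lit 0x400020001000000000000000) := D_17 (nat_lit 77) (nat_lit 94) (nat_lit 60) (nat_lit 5) (nat_lit 9) (nat_lit 4) (nat_lit 4) (nat_lit 10) (nat_lit 7) (by decide +kernel)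
theorem L31540 : W_17 (nat_lit 3) (nat_lit 0x4000200020001000f80058000800000000000000000000000) (nat_lit 0x0) (nat_lit 0x400060003000000000000000) := T_17 (nat_lit 78) (nat_lit 61) (nat_lit 5) (nat_lit 10) (nat_lit 3) L31539 (by decide +kernel)
theorem L31541 : W_17 (nat_lit 4) (nat_lit 0x4000200020001000f80050000800000000000000000000000) (nat_lit 0x0) (nat_lit 0x1000008000400060003000000000000000) := T_17 (nat_lit 111) (nat_lit 132) (nat_lit 0) (nat_lit 13) (nat_lit 7) L31540 (by decide +kernel)
theorem L31542 : W_17 (nat_lit 5) (nat_lit 0x4000200020001000780050000800000000000000000000000) (nat_lit 0x0) (nat_lit 0x1800088000400060003000000000000000) := T_17 (nat_lit 131) (nat_lit 115) (nat_lit 2) (nat_lit 9) (nat_lit 7) L31541 (by decide +kernel)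
theorem L31543 : W_17 (nat_lit 6) (nat_lit 0x4000200000001000780050000800000000000000000000000) (nat_lit 0x0) (nat_lit 0x400020000001800088000400060003000000000000000) := T_17 (nat_lit 161) (nat_lit 178) (nat_lit 5) (nat_lit 8) (nat_lit 7) L31542 (by decide +kernel)
theorem L31544 : W_17 (nat_lit 2) (nat_lit 0x40002000a000d000780050000c00000000000000000000000) (nat_lit 0x0) (nat_lit 0x800050000000000000000000000000000000000000000) := D_17 (nat_lit 162) (nat_lit 160) (nat_lit 179) (nat_lit 2) (nat_lit 7) (nat_lit 9) (nat_lit 5) (nat_lit 10) (nat_lit 6) (by decide +kernel)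
theorem L31545 : W_17 (nat_lit 3) (nat_lit 0x400020002000d000780050000c00000000000000000000000) (nat_lit 0x0) (nat_lit 0x8000d0000000000008000000000000000000000000000) := T_17 (nat_lit 163) (nat_lit 111) (nat_lit 4) (nat_lit 10) (nat_lit 9) L31544 (by decide +kernel)
theorem L31546 : W_17 (nat_lit 4) (nat_lit 0x4000200020005000780050000c00000000000000000000000) (nat_lit 0x0) (nat_lit 0x8001d0008000000008000000000000000000000000000) := T_17 (nat_lit 147) (nat_lit 164) (nat_lit 7) (nat_lit 10) (nat_lit 5) L31545 (by decide +kernel)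
theorem L31547 : W_17 (nat_lit 5) (nat_lit 0x4000200020005000780050000800000000000000000000000) (nat_lit 0x0) (nat_lit 0x8001d0008000000008000400020000000000000000000) := T_17 (nat_lit 94) (nat_lit 77) (nat_lit 4) (nat_lit 10) (nat_lit 8) L31546 (by decide +kernel)
theorem L31548 : W_17 (nat_lit 6) (nat_lit 0x4000200000005000780050000800000000000000000000000) (nat_lit 0x0) (nat_lit 0xc001f0008000000008000400020000000000000000000) := T_17 (nat_lit 161) (nat_lit 178) (nat_lit 5) (nat_lit 8) (nat_lit 7) L31547 (by decide +kernel)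
theorem L31549 : W_17 (nat_lit 2) (nat_lit 0x4000200000005000f80050000c00000000000000000000000) (nat_lit 0x0) (nat_lit 0x80000001000008000000000000000000000000000) := D_17 (nat_lit 111) (nat_lit 132) (nat_lit 163) (nat_lit 0) (nat_lit 13) (nat_lit 7) (nat_lit 4) (nat_lit 10) (nat_lit 9) (by decide +kernel)
theorem L31550 : W_17 (nat_lit 3) (nat_lit 0x4000200000005000780050000c00000000000000000000000) (nat_lit 0x0) (nat_lit 0x80000001800088000000000000000000000000000) := T_17 (nat_lit 131) (nat_lit 115) (nat_lit 2) (nat_lit 9) (nat_lit 7) L31549 (by decide +kernel)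
theorem L31551 : W_17 (nat_lit 4) (nat_lit 0x4000200000005000780050000800000000000000000000000) (nat_lit 0x0) (nat_lit 0x80000001800088000400020000000000000000000) := T_17 (nat_lit 94) (nat_lit 77) (nat_lit 4) (nat_lit 10) (nat_lit 8) L31550 (by decide +kernel)
theorem L31552 : W_17 (nat_lit 2) (nat_lit 0x4000600180005000f80050000c00000000000000000000000) (nat_lit 0x0) (nat_lit 0x1800040000000000000000000000000000000000000000) := D_17 (nat_lit 179) (nat_lit 162) (nat_lit 180) (nat_lit 5) (nat_lit 10) (nat_lit 6) (nat_lit 2) (nat_lit 7) (nat_lit 10) (by decide +kernel)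
theorem L31553 : W_17 (nat_lit 3) (nat_lit 0x4000600100005000f80050000c00000000000000000000000) (nat_lit 0x0) (nat_lit 0x38000c0000000000000000000000000000000000000000) := T_17 (nat_lit 163) (nat_lit 181) (nat_lit 7) (nat_lit 10) (nat_lit 6) L31552 (by decide +kernel)
theorem L31554 : W_17 (nat_lit 4) (nat_lit 0x4000600000005000f80050000c00000000000000000000000) (nat_lit 0x0) (nat_lit 0x38001c0008000000000000000000000000000000000000) := T_17 (nat_lit 164) (nat_lit 147) (nat_lit 7) (nat_lit 10) (nat_lit 5) L31553 (by decide +kernel)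
theorem L31555 : W_17 (nat_lit 5) (nat_lit 0x4000600000005000780050000c00000000000000000000000) (nat_lit 0x0) (nat_lit 0x38001c0008000800080000000000000000000000000000) := T_17 (nat_lit 131) (nat_lit 115) (nat_lit 2) (nat_lit 9) (nat_lit 7) L31554 (by decide +kernel)
theorem L31556 : W_17 (nat_lit 6) (nat_lit 0x4000200000005000780050000c00000000000000000000000) (nat_lit 0x0) (nat_lit 0x3c001e0008000800080000000000000000000000000000) := T_17 (nat_lit 178) (nat_lit 161) (nat_lit 5) (nat_lit 8) (nat_lit 7) L31555 (by decide +kernel)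
theorem L31557 : W_17 (nat_lit 7) (nat_lit 0x4000200000005000780050000800000000000000000000000) (nat_lit 0x0) (nat_lit 0x3c001e0008000800080000400020000000000000000000) := T_17 (nat_lit 94) (nat_lit 77) (nat_lit 4) (nat_lit 10) (nat_lit 8) L31556 (by decide +kernel)
theorem L31558 : W_17 (nat_lit 2) (nat_lit 0x400020002000d000f80050000800000000000000000000000) (nat_lit 0x0) (nat_lit 0x3000008000000000000000000000000000) := D_17 (nat_lit 132) (nat_lit 133) (nat_lit 111) (nat_lit 1) (nat_lit 14) (nat_lit 7) (nat_lit 0) (nat_lit 13) (nat_lit 7) (by decide +kernel)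
theorem L31559 : W_17 (nat_lit 3) (nat_lit 0x400020002000d000780050000800000000000000000000000) (nat_lit 0x0) (nat_lit 0x3800088000000000000000000000000000) := T_17 (nat_lit 131) (nat_lit 115) (nat_lit 2) (nat_lit 9) (nat_lit 7) L31558 (by decide +kernel)
theorem L31560 : W_17 (nat_lit 4) (nat_lit 0x400020000000d000780050000800000000000000000000000) (nat_lit 0x0) (nat_lit 0x400020000003800088000000000000000000000000000) := T_17 (nat_lit 161) (nat_lit 178) (nat_lit 5) (nat_lit 8) (nat_lit 7) L31559 (by decide +kernel)
theorem L31561 : W_17 (nat_lit 5) (nat_lit 0x4000200000005000780050000800000000000000000000000) (nat_lit 0x0) (nat_lit 0x400120008003800088000000000000000000000000000) := T_17 (nat_lit 147) (nat_lit 164) (nat_lit 7) (nat_lit 10) (nat_lit 5) L31560 (by decide +kernel)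
theorem L31562 : W_17 (nat_lit 8) (nat_lit 0x4000200000001000780050000800000000000000000000000) (nat_lit 0x0) (nat_lit 0x3c001f000c003800088000400020000000000000000000) := Q_17 (nat_lit 146) (C_17 L31548 (C_17 L31551 (C_17 L31557 (C_17 L31561 N_17)))) (by decide +kernel)
theorem L31563 : W_17 (nat_lit 2) (nat_lit 0x4000200000021001f800500088003c0020000000000000000) (nat_lit 0x0) (nat_lit 0x10000400040000000000000000) := D_17 (nat_lit 82) (nat_lit 66) (nat_lit 100) (nat_lit 2) (nat_lit 11) (nat_lit 4) (nat_lit 3) (nat_lit 11) (nat_lit 4) (by decide +kernel)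
theorem L31564 : W_17 (nat_lit 3) (nat_lit 0x4000200000021001f800500008003c0020000000000000000) (nat_lit 0x0) (nat_lit 0x1c000400040000000000000000) := T_17 (nat_lit 99) (nat_lit 98) (nat_lit 3) (nat_lit 10) (nat_lit 4) L31563 (by decide +kernel)
theorem L31565 : W_17 (nat_lit 4) (nat_lit 0x4000200000021001f800500008003c0000000000000000000) (nat_lit 0x0) (nat_lit 0x1c000400070000000000000000) := T_17 (nat_lit 65) (nat_lit 64) (nat_lit 2) (nat_lit 10) (nat_lit 4) L31564 (by decide +kernel)
theorem L31566 : W_17 (nat_lit 5) (nat_lit 0x4000200000021001f800500008001c0000000000000000000) (nat_lit 0x0) (nat_lit 0x1c400600070000000000000000) := T_17 (nat_lit 81) (nat_lit 94) (nat_lit 1) (nat_lit 13) (nat_lit 4) L31565 (by decide +kernel)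
theorem L31567 : W_17 (nat_lit 6) (nat_lit 0x4000200000021001f800500008000c0000000000000000000) (nat_lit 0x0) (nat_lit 0x1e400700070000000000000000) := T_17 (nat_lit 80) (nat_lit 97) (nat_lit 7) (nat_lit 12) (nat_lit 4) L31566 (by decide +kernel)
theorem L31568 : W_17 (nat_lit 7) (nat_lit 0x4000200000001001f800500008000c0000000000000000000) (nat_lit 0x0) (nat_lit 0x6000000000001e400700070000000000000000) := T_17 (nat_lit 149) (nat_lit 150) (nat_lit 3) (nat_lit 10) (nat_lit 7) L31567 (by decide +kernel)
theorem L31569 : W_17 (nat_lit 8) (nat_lit 0x4000200000001001f80050000800040000000000000000000) (nat_lit 0x0) (nat_lit 0x6000000000001e400780074000000000000000) := T_17 (nat_lit 79) (nat_lit 62) (nat_lit 6) (nat_lit 10) (nat_lit 7) L31568 (by decide +kernel)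
theorem L31570 : W_17 (nat_lit 9) (nat_lit 0x4000200000001001f80050000800000000000000000000000) (nat_lit 0x0) (nat_lit 0x6800000000001e4007c0074000000000000000) := T_17 (nat_lit 78) (nat_lit 147) (nat_lit 7) (nat_lit 10) (nat_lit 4) L31569 (by decide +kernel)
theorem L31571 : W_17 (nat_lit 10) (nat_lit 0x4000200000001000f80050000800000000000000000000000) (nat_lit 0x0) (nat_lit 0x6800100000801e4007c0074000000000000000) := T_17 (nat_lit 132) (nat_lit 111) (nat_lit 0) (nat_lit 13) (nat_lit 7) L31570 (by decide +kernel)
theorem L31572 : W_17 (nat_lit 11) (nat_lit 0x4000200000001000780050000800000000000000000000000) (nat_lit 0x0) (nat_lit 0x6800180008801e4007c0074000000000000000) := T_17 (nat_lit 131) (nat_lit 115) (nat_lit 2) (nat_lit 9) (nat_lit 7) L31571 (by decide +kernel)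
theorem L31573 : W_17 (nat_lit 12) (nat_lit 0x4000200000001000780050000000000000000000000000000) (nat_lit 0x0) (nat_lit 0x3c001f006c00380008801ee007e0077000280000000000) := Q_17 (nat_lit 95) (C_17 L31529 (C_17 L31537 (C_17 L31538 (C_17 L31543 (C_17 L31562 (C_17 L31572 N_17)))))) (by decide +kernel)
theorem L31574 : W_17 (nat_lit 2) (nat_lit 0x4000200120009000780050000000000000000000000000000) (nat_lit 0x0) (nat_lit 0x4000000000000800040000000000000000000) := D_17 (nat_lit 95) (nat_lit 78) (nat_lit 146) (nat_lit 7) (nat_lit 10) (nat_lit 4) (nat_lit 7) (nat_lit 10) (nat_lit 5) (by decide +kernel)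
theorem L31575 : W_17 (nat_lit 3) (nat_lit 0x4000200020009000780050000000000000000000000000000) (nat_lit 0x0) (nat_lit 0x2000100004000000000000800040000000000000000000) := T_17 (nat_lit 164) (nat_lit 181) (nat_lit 4) (nat_lit 11) (nat_lit 10) L31574 (by decide +kernel)
theorem L31576 : W_17 (nat_lit 4) (nat_lit 0x4000200020001000780050000000000000000000000000000) (nat_lit 0x0) (nat_lit 0x200010001c000000000000800040000000000000000000) := T_17 (nat_lit 147) (nat_lit 148) (nat_lit 3) (nat_lit 8) (nat_lit 7) L31575 (by decide +kernel)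
theorem L31577 : W_17 (nat_lit 5) (nat_lit 0x4000200000001000780050000000000000000000000000000) (nat_lit 0x0) (nat_lit 0x240012001c000000000000800040000000000000000000) := T_17 (nat_lit 161) (nat_lit 178) (nat_lit 5) (nat_lit 8) (nat_lit 7) L31576 (by decide +kernel)
theorem L31578 : W_17 (nat_lit 13) (nat_lit 0x4000200000001000380050000000000000000000000000000) (nat_lit 0x0) (nat_lit 0x3c001f00fc003c0008801ee007e0077000280000000000) := Q_17 (nat_lit 130) (C_17 L31516 (C_17 L31522 (C_17 L31524 (C_17 L31573 (C_17 L31577 N_17))))) (by decide +kernel)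
theorem L31579 : W_17 (nat_lit 2) (nat_lit 0x4000200000001000380050000000000000000000000000000) (nat_lit 0x0) (nat_lit 0x400028000000000000000000000000000) := D_17 (nat_lit 113) (nat_lit 111) (nat_lit 130) (nat_lit 1) (nat_lit 12) (nat_lit 6) (nat_lit 2) (nat_lit 8) (nat_lit 7) (by decide +kernel)
theorem L31580 : W_17 (nat_lit 14) (nat_lit 0x4000200000001000380010000000000000000000000000000) (nat_lit 0x0) (nat_lit 0x3c001f00fc003c000e801ee007e0077000280000000000) := Q_17 (nat_lit 114) (C_17 L31514 (C_17 L31515 (C_17 L31578 (C_17 L31579 N_17)))) (by decide +kernel)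
theorem L31581 : W_17 (nat_lit 15) (nat_lit 0x4000200000001000280010000000000000000000000000000) (nat_lit 0x0) (nat_lit 0x3fa00fc007f80fc003d600eb81ee007e0077000280000000000) := Q_17 (nat_lit 128) (C_17 L31352 (C_17 L30185 (C_17 L30215 (C_17 L31580 N_17)))) (by decide +kernel)
theorem L31582 : W_17 (nat_lit 2) (nat_lit 0x40002000e000d000380010000000020000000000000000000) (nat_lit 0x0) (nat_lit 0x30000400000000000000000000000000000000) := D_17 (nat_lit 148) (nat_lit 149) (nat_lit 130) (nat_lit 1) (nat_lit 13) (nat_lit 8) (nat_lit 3) (nat_lit 8) (nat_lit 7) (by decide +kernel)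
theorem L31583 : W_17 (nat_lit 3) (nat_lit 0x40002000e0005000380010000000020000000000000000000) (nat_lit 0x0) (nat_lit 0x10038000400000000000000000000000000000000) := T_17 (nat_lit 147) (nat_lit 160) (nat_lit 2) (nat_lit 7) (nat_lit 9) L31582 (by decide +kernel)
theorem L31584 : W_17 (nat_lit 4) (nat_lit 0x40002000a0005000380010000000020000000000000000000) (nat_lit 0x0) (nat_lit 0x800050038000400000000000000000000000000000000) := T_17 (nat_lit 162) (nat_lit 179) (nat_lit 5) (nat_lit 10) (nat_lit 6) L31583 (by decide +kernel)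
theorem L31585 : W_17 (nat_lit 5) (nat_lit 0x4000200080005000380010000000020000000000000000000) (nat_lit 0x0) (nat_lit 0xc00070038000400000000000000000000000000000000) := T_17 (nat_lit 161) (nat_lit 178) (nat_lit 5) (nat_lit 8) (nat_lit 7) L31584 (by decide +kernel)
theorem L31586 : W_17 (nat_lit 2) (nat_lit 0x64001600080005000380010000000020000000000000000000) (nat_lit 0x0) (nat_lit 0x200018000000000000000000000000000000000000000000000000) := D_17 (nat_lit 196) (nat_lit 195) (nat_lit 213) (nat_lit 0) (nat_lit 11) (nat_lit 11) (nat_lit 5) (nat_lit 10) (nat_lit 8) (by decide +kernel)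
theorem L31587 : W_17 (nat_lit 3) (nat_lit 0x44001600080005000380010000000020000000000000000000) (nat_lit 0x0) (nat_lit 0xa00038000000000000000000000000000000000000000000000000) := T_17 (nat_lit 197) (nat_lit 215) (nat_lit 7) (nat_lit 10) (nat_lit 8) L31586 (by decide +kernel)
theorem L31588 : W_17 (nat_lit 4) (nat_lit 0x4001600080005000380010000000020000000000000000000) (nat_lit 0x0) (nat_lit 0xa00078002000000000000000000000000000000000000000000000) := T_17 (nat_lit 198) (nat_lit 181) (nat_lit 7) (nat_lit 10) (nat_lit 7) L31587 (by decide +kernel)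
theorem L31589 : W_17 (nat_lit 5) (nat_lit 0x4001200080005000380010000000020000000000000000000) (nat_lit 0x0) (nat_lit 0xa00078002400020000000000000000000000000000000000000000) := T_17 (nat_lit 178) (nat_lit 161) (nat_lit 5) (nat_lit 8) (nat_lit 7) L31588 (by decide +kernel)
theorem L31590 : W_17 (nat_lit 6) (nat_lit 0x4000200080005000380010000000020000000000000000000) (nat_lit 0x0) (nat_lit 0xa00078003400020000000000008000000000000000000000000000) := T_17 (nat_lit 180) (nat_lit 111) (nat_lit 4) (nat_lit 10) (nat_lit 10) L31589 (by decide +kernel)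
theorem L31591 : W_17 (nat_lit 7) (nat_lit 0x4000200000005000380010000000020000000000000000000) (nat_lit 0x0) (nat_lit 0xa00078003c000f0038000400008000000000000000000000000000) := Q_17 (nat_lit 163) (C_17 L31324 (C_17 L31585 (C_17 L31590 N_17))) (by decide +kernel)
theorem L31592 : W_17 (nat_lit 8) (nat_lit 0x4000200000005000380010000000000000000000000000000) (nat_lit 0x0) (nat_lit 0xa00078003c000f0038000400008001c000e0005000000000000000) := Q_17 (nat_lit 77) (C_17 L31311 (C_17 L29959 (C_17 L29963 (C_17 L31591 N_17)))) (by decide +kernel)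
theorem L31593 : W_17 (nat_lit 2) (nat_lit 0x44001e00010005000380018000000020000000000000000000) (nat_lit 0x0) (nat_lit 0x88002000000000000000000000000000000000000000000000) := D_17 (nat_lit 181) (nat_lit 195) (nat_lit 199) (nat_lit 1) (nat_lit 11) (nat_lit 10) (nat_lit 3) (nat_lit 8) (nat_lit 10) (by decide +kernel)
theorem L31594 : W_17 (nat_lit 3) (nat_lit 0x4001e00010005000380018000000020000000000000000000) (nat_lit 0x0) (nat_lit 0xe8002000000000000000000000000000000000000000000000) := T_17 (nat_lit 198) (nat_lit 197) (nat_lit 3) (nat_lit 7) (nat_lit 10) L31593 (by decide +kernel)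
theorem L31595 : W_17 (nat_lit 4) (nat_lit 0x4001e00000005000380018000000020000000000000000000) (nat_lit 0x0) (nat_lit 0xe8002000018000000000000000000000000000000000000000) := T_17 (nat_lit 160) (nat_lit 159) (nat_lit 0) (nat_lit 10) (nat_lit 10) L31594 (by decide +kernel)
theorem L31596 : W_17 (nat_lit 5) (nat_lit 0x4001600000005000380018000000020000000000000000000) (nat_lit 0x0) (nat_lit 0xea002800018000000000000000000000000000000000000000) := T_17 (nat_lit 179) (nat_lit 193) (nat_lit 1) (nat_lit 10) (nat_lit 10) L31595 (by decide +kernel)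
theorem L31597 : W_17 (nat_lit 6) (nat_lit 0x4000600000005000380018000000020000000000000000000) (nat_lit 0x0) (nat_lit 0xea003800098000000000000000000000000000000000000000) := T_17 (nat_lit 180) (nat_lit 163) (nat_lit 4) (nat_lit 10) (nat_lit 10) L31596 (by decide +kernel)
theorem L31598 : W_17 (nat_lit 7) (nat_lit 0x4000600000005000380010000000020000000000000000000) (nat_lit 0x0) (nat_lit 0xea003800098000000000008000400000000000000000000000) := T_17 (nat_lit 111) (nat_lit 94) (nat_lit 7) (nat_lit 9) (nat_lit 4) L31597 (by decide +kernel)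
theorem L31599 : W_17 (nat_lit 8) (nat_lit 0x4000200000005000380010000000020000000000000000000) (nat_lit 0x0) (nat_lit 0xea003c000b8000000000008000400000000000000000000000) := T_17 (nat_lit 178) (nat_lit 161) (nat_lit 5) (nat_lit 8) (nat_lit 7) L31598 (by decide +kernel)
theorem L31600 : W_17 (nat_lit 2) (nat_lit 0x64001600080005000380010001800020000000000000000000) (nat_lit 0x0) (nat_lit 0x200018000000000000000000000000000000000000000000000000) := D_17 (nat_lit 196) (nat_lit 213) (nat_lit 195) (nat_lit 5) (nat_lit 10) (nat_lit 8) (nat_lit 0) (nat_lit 11) (nat_lit 11) (by decide +kernel)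
theorem L31601 : W_17 (nat_lit 3) (nat_lit 0x44001600080005000380010001800020000000000000000000) (nat_lit 0x0) (nat_lit 0xa00038000000000000000000000000000000000000000000000000) := T_17 (nat_lit 197) (nat_lit 215) (nat_lit 7) (nat_lit 10) (nat_lit 8) L31600 (by decide +kernel)
theorem L31602 : W_17 (nat_lit 4) (nat_lit 0x4001600080005000380010001800020000000000000000000) (nat_lit 0x0) (nat_lit 0xa00078002000000000000000000000000000000000000000000000) := T_17 (nat_lit 198) (nat_lit 181) (nat_lit 7) (nat_lit 10) (nat_lit 7) L31601 (by decide +kernel)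
theorem L31603 : W_17 (nat_lit 5) (nat_lit 0x4001600000005000380010001800020000000000000000000) (nat_lit 0x0) (nat_lit 0xa00078002000080000000000008000000000000000000000000000) := T_17 (nat_lit 163) (nat_lit 111) (nat_lit 4) (nat_lit 10) (nat_lit 10) L31602 (by decide +kernel)
theorem L31604 : W_17 (nat_lit 6) (nat_lit 0x4001200000005000380010001800020000000000000000000) (nat_lit 0x0) (nat_lit 0xa000780024000a0000000000008000000000000000000000000000) := T_17 (nat_lit 178) (nat_lit 161) (nat_lit 5) (nat_lit 8) (nat_lit 7) L31603 (by decide +kernel)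
theorem L31605 : W_17 (nat_lit 7) (nat_lit 0x4001200000005000380010000800020000000000000000000) (nat_lit 0x0) (nat_lit 0xa000780024000a0000000000008001000080000000000000000000) := T_17 (nat_lit 96) (nat_lit 79) (nat_lit 6) (nat_lit 10) (nat_lit 8) L31604 (by decide +kernel)
theorem L31606 : W_17 (nat_lit 8) (nat_lit 0x4000200000005000380010000800020000000000000000000) (nat_lit 0x0) (nat_lit 0xa000fa003c000f8000000000008001000080000000000000000000) := Q_17 (nat_lit 180) (C_17 L29991 (C_17 L29978 (C_17 L31605 (C_17 L29975 N_17)))) (by decide +kernel)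
theorem L31607 : W_17 (nat_lit 10) (nat_lit 0x4000200000005000380010000000020000000000000000000) (nat_lit 0x0) (nat_lit 0xa000fa003c000f800000006000b0079000d8007000000000000000) := Q_17 (nat_lit 95) (C_17 L30000 (C_17 L29972 (C_17 L29965 (C_17 L31606 N_17)))) (by decide +kernel)
theorem L31608 : W_17 (nat_lit 11) (nat_lit 0x4000200000005000380010000000000000000000000000000) (nat_lit 0x0) (nat_lit 0xa000fa003c000f800000006000b007d000f8007000000000000000) := Q_17 (nat_lit 77) (C_17 L31599 (C_17 L29959 (C_17 L29963 (C_17 L31607 N_17)))) (by decide +kernel)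
theorem L31609 : W_17 (nat_lit 12) (nat_lit 0x4000200000001000380010000000000000000000000000000) (nat_lit 0x0) (nat_lit 0xa000fa003c000f803c00046000b807d000f8007000000000000000) := Q_17 (nat_lit 146) (C_17 L29958 (C_17 L30212 (C_17 L31592 (C_17 L31608 N_17)))) (by decide +kernel)
theorem L31610 : W_17 (nat_lit 2) (nat_lit 0x4000200000001000f80050000800060000000000000000000) (nat_lit 0x0) (nat_lit 0x1000008000000000002000000000000000) := D_17 (nat_lit 111) (nat_lit 132) (nat_lit 61) (nat_lit 0) (nat_lit 13) (nat_lit 7) (nat_lit 5) (nat_lit 10) (nat_lit 3) (by decide +kernel)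
theorem L31611 : W_17 (nat_lit 3) (nat_lit 0x4000200000001000780050000800060000000000000000000) (nat_lit 0x0) (nat_lit 0x1800088000000000002000000000000000) := T_17 (nat_lit 131) (nat_lit 115) (nat_lit 2) (nat_lit 9) (nat_lit 7) L31610 (by decide +kernel)
theorem L31612 : W_17 (nat_lit 4) (nat_lit 0x4000200000001000380050000800060000000000000000000) (nat_lit 0x0) (nat_lit 0x8001c00088000000000002000000000000000) := T_17 (nat_lit 130) (nat_lit 147) (nat_lit 7) (nat_lit 10) (nat_lit 4) L31611 (by decide +kernel)
theorem L31613 : W_17 (nat_lit 5) (nat_lit 0x4000200000001000380050000800040000000000000000000) (nat_lit 0x0) (nat_lit 0x8001c00088000000020003000000000000000) := T_17 (nat_lit 77) (nat_lit 60) (nat_lit 4) (nat_lit 10) (nat_lit 7) L31612 (by decide +kernel)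
theorem L31614 : W_17 (nat_lit 2) (nat_lit 0x40002000000010003800500008000e0000000000000000000) (nat_lit 0x0) (nat_lit 0x4000000000001400000000000000000000000) := D_17 (nat_lit 146) (nat_lit 96) (nat_lit 94) (nat_lit 6) (nat_lit 10) (nat_lit 8) (nat_lit 4) (nat_lit 10) (nat_lit 8) (by decide +kernel)
theorem L31615 : W_17 (nat_lit 3) (nat_lit 0x40002000000010003800500008000c0000000000000000000) (nat_lit 0x0) (nat_lit 0x4000000000001400020001000000000000000) := T_17 (nat_lit 77) (nat_lit 60) (nat_lit 4) (nat_lit 10) (nat_lit 7) L31614 (by decide +kernel)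
theorem L31616 : W_17 (nat_lit 4) (nat_lit 0x4000200000001000380050000800040000000000000000000) (nat_lit 0x0) (nat_lit 0x40000000000014000a0005000000000000000) := T_17 (nat_lit 79) (nat_lit 62) (nat_lit 6) (nat_lit 10) (nat_lit 7) L31615 (by decide +kernel)
theorem L31617 : W_17 (nat_lit 2) (nat_lit 0x4000200000001000f800500008000c0000000000000000000) (nat_lit 0x0) (nat_lit 0x1000008000000000002000000000000000) := D_17 (nat_lit 111) (nat_lit 132) (nat_lit 61) (nat_lit 0) (nat_lit 13) (nat_lit 7) (nat_lit 5) (nat_lit 10) (nat_lit 3) (by decide +kernel)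
theorem L31618 : W_17 (nat_lit 3) (nat_lit 0x40002000000010007800500008000c0000000000000000000) (nat_lit 0x0) (nat_lit 0x1800088000000000002000000000000000) := T_17 (nat_lit 131) (nat_lit 115) (nat_lit 2) (nat_lit 9) (nat_lit 7) L31617 (by decide +kernel)
theorem L31619 : W_17 (nat_lit 4) (nat_lit 0x40002000000010003800500008000c0000000000000000000) (nat_lit 0x0) (nat_lit 0x8001c00088000000000002000000000000000) := T_17 (nat_lit 130) (nat_lit 147) (nat_lit 7) (nat_lit 10) (nat_lit 4) L31618 (by decide +kernel)
theorem L31620 : W_17 (nat_lit 5) (nat_lit 0x4000200000001000380050000800040000000000000000000) (nat_lit 0x0) (nat_lit 0x8001c00088000000080006000000000000000) := T_17 (nat_lit 79) (nat_lit 62) (nat_lit 6) (nat_lit 10) (nat_lit 7) L31619 (by decide +kernel)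
theorem L31621 : W_17 (nat_lit 6) (nat_lit 0x4000200000001000380050000800000000000000000000000) (nat_lit 0x0) (nat_lit 0xc001c000880014000e0007000000000000000) := Q_17 (nat_lit 78) (C_17 L31613 (C_17 L31616 (C_17 L31620 N_17))) (by decide +kernel)
theorem L31622 : W_17 (nat_lit 2) (nat_lit 0x4000200020001000380050000800060002000000000000000) (nat_lit 0x0) (nat_lit 0x80004000200000000000) := D_17 (nat_lit 62) (nat_lit 79) (nat_lit 45) (nat_lit 6) (nat_lit 10) (nat_lit 7) (nat_lit 6) (nat_lit 10) (nat_lit 6) (by decide +kernel)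
theorem L31623 : W_17 (nat_lit 3) (nat_lit 0x4000200020001000380050000800060000000000000000000) (nat_lit 0x0) (nat_lit 0x8000000080006000200000000000) := T_17 (nat_lit 61) (nat_lit 111) (nat_lit 5) (nat_lit 10) (nat_lit 3) L31622 (by decide +kernel)
theorem L31624 : W_17 (nat_lit 4) (nat_lit 0x4000200020001000380050000800020000000000000000000) (nat_lit 0x0) (nat_lit 0x80000000c0007000200000000000) := T_17 (nat_lit 78) (nat_lit 60) (nat_lit 4) (nat_lit 10) (nat_lit 7) L31623 (by decide +kernel)
theorem L31625 : W_17 (nat_lit 5) (nat_lit 0x4000200000001000380050000800020000000000000000000) (nat_lit 0x0) (nat_lit 0x4000200000000000080000000c0007000200000000000) := T_17 (nat_lit 161) (nat_lit 178) (nat_lit 5) (nat_lit 8) (nat_lit 7) L31624 (by decide +kernel)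
theorem L31626 : W_17 (nat_lit 2) (nat_lit 0x4000200000001000380050000800020000000000000000000) (nat_lit 0x0) (nat_lit 0x4000000008000400000000000000000000000) := D_17 (nat_lit 94) (nat_lit 111) (nat_lit 146) (nat_lit 5) (nat_lit 9) (nat_lit 4) (nat_lit 4) (nat_lit 10) (nat_lit 8) (by decide +kernel)
theorem L31627 : W_17 (nat_lit 6) (nat_lit 0x4000200000001000380050000800000000000000000000000) (nat_lit 0x0) (nat_lit 0x4000200040000000080004000e0007000280000000000) := Q_17 (nat_lit 77) (C_17 L31625 (C_17 L30086 (C_17 L31626 N_17))) (by decide +kernel)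
theorem L31628 : W_17 (nat_lit 2) (nat_lit 0x4008200020021001f80050002c00060000000000000000000) (nat_lit 0x0) (nat_lit 0x5000010000000000000000000) := D_17 (nat_lit 96) (nat_lit 98) (nat_lit 76) (nat_lit 0) (nat_lit 13) (nat_lit 5) (nat_lit 0) (nat_lit 12) (nat_lit 5) (by decide +kernel)
theorem L31629 : W_17 (nat_lit 3) (nat_lit 0x4008200020021001f80050000c00060000000000000000000) (nat_lit 0x0) (nat_lit 0x7000110000000000000000000) := T_17 (nat_lit 97) (nat_lit 80) (nat_lit 7) (nat_lit 12) (nat_lit 4) L31628 (by decide +kernel)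
theorem L31630 : W_17 (nat_lit 4) (nat_lit 0x4000200020021001f80050000c00060000000000000000000) (nat_lit 0x0) (nat_lit 0x8000400000000000000007000110000000000000000000) := T_17 (nat_lit 183) (nat_lit 166) (nat_lit 4) (nat_lit 13) (nat_lit 10) L31629 (by decide +kernel)
theorem L31631 : W_17 (nat_lit 5) (nat_lit 0x4000200020021000f80050000c00060000000000000000000) (nat_lit 0x0) (nat_lit 0x8000400040001000000007000110000000000000000000) := T_17 (nat_lit 132) (nat_lit 150) (nat_lit 3) (nat_lit 10) (nat_lit 7) L31630 (by decide +kernel)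
theorem L31632 : W_17 (nat_lit 6) (nat_lit 0x4000200020021000f80050000800060000000000000000000) (nat_lit 0x0) (nat_lit 0x8000400044001000000007400110000000000000000000) := T_17 (nat_lit 94) (nat_lit 146) (nat_lit 4) (nat_lit 10) (nat_lit 8) L31631 (by decide +kernel)
theorem L31633 : W_17 (nat_lit 7) (nat_lit 0x4000200020001000f80050000800060000000000000000000) (nat_lit 0x0) (nat_lit 0x8000400074001000000007400110000000000000000000) := T_17 (nat_lit 149) (nat_lit 148) (nat_lit 3) (nat_lit 9) (nat_lit 7) L31632 (by decide +kernel)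
theorem L31634 : W_17 (nat_lit 8) (nat_lit 0x4000200020001000f80050000800040000000000000000000) (nat_lit 0x0) (nat_lit 0x8000400074001000000007400130001000000000000000) := T_17 (nat_lit 77) (nat_lit 60) (nat_lit 4) (nat_lit 10) (nat_lit 7) L31633 (by decide +kernel)
theorem L31635 : W_17 (nat_lit 9) (nat_lit 0x4000200020001000780050000800040000000000000000000) (nat_lit 0x0) (nat_lit 0x8000400074001800080007400130001000000000000000) := T_17 (nat_lit 131) (nat_lit 115) (nat_lit 2) (nat_lit 9) (nat_lit 7) L31634 (by decide +kernel)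
theorem L31636 : W_17 (nat_lit 10) (nat_lit 0x4000200020001000380050000800040000000000000000000) (nat_lit 0x0) (nat_lit 0x800040007c001c00080007400130001000000000000000) := T_17 (nat_lit 130) (nat_lit 147) (nat_lit 7) (nat_lit 10) (nat_lit 4) L31635 (by decide +kernel)
theorem L31637 : W_17 (nat_lit 11) (nat_lit 0x4000200000001000380050000800040000000000000000000) (nat_lit 0x0) (nat_lit 0x840042007c001c00080007400130001000000000000000) := T_17 (nat_lit 161) (nat_lit 178) (nat_lit 5) (nat_lit 8) (nat_lit 7) L31636 (by decide +kernel)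
theorem L31638 : W_17 (nat_lit 2) (nat_lit 0x4000200020001000f800500018000c0000000000000000000) (nat_lit 0x0) (nat_lit 0x30000000000002000000000000000000000000) := D_17 (nat_lit 148) (nat_lit 149) (nat_lit 97) (nat_lit 3) (nat_lit 9) (nat_lit 7) (nat_lit 4) (nat_lit 12) (nat_lit 8) (by decide +kernel)
theorem L31639 : W_17 (nat_lit 3) (nat_lit 0x40002000200010007800500018000c0000000000000000000) (nat_lit 0x0) (nat_lit 0x30000800080002000000000000000000000000) := T_17 (nat_lit 131) (nat_lit 115) (nat_lit 2) (nat_lit 9) (nat_lit 7) L31638 (by decide +kernel)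
theorem L31640 : W_17 (nat_lit 4) (nat_lit 0x40002000200010003800500018000c0000000000000000000) (nat_lit 0x0) (nat_lit 0x38000c00080002000000000000000000000000) := T_17 (nat_lit 130) (nat_lit 147) (nat_lit 7) (nat_lit 10) (nat_lit 4) L31639 (by decide +kernel)
theorem L31641 : W_17 (nat_lit 5) (nat_lit 0x40002000200010003800500008000c0000000000000000000) (nat_lit 0x0) (nat_lit 0x3c000c00080003000000000000000000000000) := T_17 (nat_lit 96) (nat_lit 146) (nat_lit 6) (nat_lit 10) (nat_lit 8) L31640 (by decide +kernel)
theorem L31642 : W_17 (nat_lit 6) (nat_lit 0x40002000000010003800500008000c0000000000000000000) (nat_lit 0x0) (nat_lit 0x40002003c000c00080003000000000000000000000000) := T_17 (nat_lit 161) (nat_lit 178) (nat_lit 5) (nat_lit 8) (nat_lit 7) L31641 (by decide +kernel)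
theorem L31643 : W_17 (nat_lit 7) (nat_lit 0x4000200000001000380050000800040000000000000000000) (nat_lit 0x0) (nat_lit 0x40002003c000c00080003000080004000000000000000) := T_17 (nat_lit 79) (nat_lit 62) (nat_lit 6) (nat_lit 10) (nat_lit 7) L31642 (by decide +kernel)
theorem L31644 : W_17 (nat_lit 12) (nat_lit 0x4000200000001000380050000800000000000000000000000) (nat_lit 0x0) (nat_lit 0x840042007c001c000800074001f0007000280000000000) := Q_17 (nat_lit 78) (C_17 L30083 (C_17 L31616 (C_17 L31637 (C_17 L31643 N_17)))) (by decide +kernel)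
theorem L31645 : W_17 (nat_lit 2) (nat_lit 0x4000200020001001f80050000800040000000000000000000) (nat_lit 0x0) (nat_lit 0x70000000000000000000000000000000000000) := D_17 (nat_lit 149) (nat_lit 148) (nat_lit 150) (nat_lit 3) (nat_lit 9) (nat_lit 7) (nat_lit 3) (nat_lit 10) (nat_lit 7) (by decide +kernel)
theorem L31646 : W_17 (nat_lit 3) (nat_lit 0x4000200020001000f80050000800040000000000000000000) (nat_lit 0x0) (nat_lit 0x70001000008000000000000000000000000000) := T_17 (nat_lit 132) (nat_lit 111) (nat_lit 0) (nat_lit 13) (nat_lit 7) L31645 (by decide +kernel)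
theorem L31647 : W_17 (nat_lit 4) (nat_lit 0x4000200020001000780050000800040000000000000000000) (nat_lit 0x0) (nat_lit 0x70001800088000000000000000000000000000) := T_17 (nat_lit 131) (nat_lit 115) (nat_lit 2) (nat_lit 9) (nat_lit 7) L31646 (by decide +kernel)
theorem L31648 : W_17 (nat_lit 5) (nat_lit 0x4000200020001000380050000800040000000000000000000) (nat_lit 0x0) (nat_lit 0x78001c00088000000000000000000000000000) := T_17 (nat_lit 130) (nat_lit 147) (nat_lit 7) (nat_lit 10) (nat_lit 4) L31647 (by decide +kernel)
theorem L31649 : W_17 (nat_lit 6) (nat_lit 0x4000200000001000380050000800040000000000000000000) (nat_lit 0x0) (nat_lit 0x400020078001c00088000000000000000000000000000) := T_17 (nat_lit 161) (nat_lit 178) (nat_lit 5) (nat_lit 8) (nat_lit 7) L31648 (by decide +kernel)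
theorem L31650 : W_17 (nat_lit 7) (nat_lit 0x4000200000001000380050000800000000000000000000000) (nat_lit 0x0) (nat_lit 0x400020078001c000880000000e0007000280000000000) := Q_17 (nat_lit 78) (C_17 L31620 (C_17 L30083 (C_17 L31613 (C_17 L31649 N_17)))) (by decide +kernel)
theorem L31651 : W_17 (nat_lit 2) (nat_lit 0x40002000e000d000380050000800000000000000000000000) (nat_lit 0x0) (nat_lit 0x30000400000000000000000000000000000000) := D_17 (nat_lit 148) (nat_lit 149) (nat_lit 130) (nat_lit 1) (nat_lit 13) (nat_lit 8) (nat_lit 3) (nat_lit 8) (nat_lit 7) (by decide +kernel)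
theorem L31652 : W_17 (nat_lit 3) (nat_lit 0x40002000e0005000380050000800000000000000000000000) (nat_lit 0x0) (nat_lit 0x10038000400000000000000000000000000000000) := T_17 (nat_lit 147) (nat_lit 160) (nat_lit 2) (nat_lit 7) (nat_lit 9) L31651 (by decide +kernel)
theorem L31653 : W_17 (nat_lit 4) (nat_lit 0x40002000a0005000380050000800000000000000000000000) (nat_lit 0x0) (nat_lit 0x800050038000400000000000000000000000000000000) := T_17 (nat_lit 162) (nat_lit 179) (nat_lit 5) (nat_lit 10) (nat_lit 6) L31652 (by decide +kernel)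
theorem L31654 : W_17 (nat_lit 5) (nat_lit 0x4000200080005000380050000800000000000000000000000) (nat_lit 0x0) (nat_lit 0xc00070038000400000000000000000000000000000000) := T_17 (nat_lit 161) (nat_lit 178) (nat_lit 5) (nat_lit 8) (nat_lit 7) L31653 (by decide +kernel)
theorem L31655 : W_17 (nat_lit 2) (nat_lit 0x4001200080005000380050001800000000000000000000000) (nat_lit 0x0) (nat_lit 0x10000800040000000000000000000000000000000000000000) := D_17 (nat_lit 179) (nat_lit 162) (nat_lit 196) (nat_lit 5) (nat_lit 10) (nat_lit 6) (nat_lit 5) (nat_lit 10) (nat_lit 7) (by decide +kernel)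
theorem L31656 : W_17 (nat_lit 3) (nat_lit 0x4000200080005000380050001800000000000000000000000) (nat_lit 0x0) (nat_lit 0x10001800040000000000008000000000000000000000000000) := T_17 (nat_lit 180) (nat_lit 111) (nat_lit 4) (nat_lit 10) (nat_lit 10) L31655 (by decide +kernel)
theorem L31657 : W_17 (nat_lit 4) (nat_lit 0x4000200080005000380050000800000000000000000000000) (nat_lit 0x0) (nat_lit 0x10001800040000000000008001000080000000000000000000) := T_17 (nat_lit 96) (nat_lit 79) (nat_lit 6) (nat_lit 10) (nat_lit 8) L31656 (by decide +kernel)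
theorem L31658 : W_17 (nat_lit 2) (nat_lit 0x64001600080005000380050001800000000000000000000000) (nat_lit 0x0) (nat_lit 0x200018000000000000000000000000000000000000000000000000) := D_17 (nat_lit 196) (nat_lit 195) (nat_lit 213) (nat_lit 0) (nat_lit 11) (nat_lit 11) (nat_lit 5) (nat_lit 10) (nat_lit 8) (by decide +kernel)
theorem L31659 : W_17 (nat_lit 3) (nat_lit 0x44001600080005000380050001800000000000000000000000) (nat_lit 0x0) (nat_lit 0xa00038000000000000000000000000000000000000000000000000) := T_17 (nat_lit 197) (nat_lit 215) (nat_lit 7) (nat_lit 10) (nat_lit 8) L31658 (by decide +kernel)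
theorem L31660 : W_17 (nat_lit 4) (nat_lit 0x4001600080005000380050001800000000000000000000000) (nat_lit 0x0) (nat_lit 0xa00078002000000000000000000000000000000000000000000000) := T_17 (nat_lit 198) (nat_lit 181) (nat_lit 7) (nat_lit 10) (nat_lit 7) L31659 (by decide +kernel)
theorem L31661 : W_17 (nat_lit 5) (nat_lit 0x4001600080005000380050000800000000000000000000000) (nat_lit 0x0) (nat_lit 0xa00078002000000000000000000001000080000000000000000000) := T_17 (nat_lit 96) (nat_lit 79) (nat_lit 6) (nat_lit 10) (nat_lit 8) L31660 (by decide +kernel)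
theorem L31662 : W_17 (nat_lit 6) (nat_lit 0x4000600080005000380050000800000000000000000000000) (nat_lit 0x0) (nat_lit 0xa00078003000000000000000008001000080000000000000000000) := T_17 (nat_lit 180) (nat_lit 111) (nat_lit 4) (nat_lit 10) (nat_lit 10) L31661 (by decide +kernel)
theorem L31663 : W_17 (nat_lit 7) (nat_lit 0x4000200080005000380050000800000000000000000000000) (nat_lit 0x0) (nat_lit 0xa00078003400020000000000008001000080000000000000000000) := T_17 (nat_lit 178) (nat_lit 161) (nat_lit 5) (nat_lit 8) (nat_lit 7) L31662 (by decide +kernel)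
theorem L31664 : W_17 (nat_lit 8) (nat_lit 0x4000200000005000380050000800000000000000000000000) (nat_lit 0x0) (nat_lit 0xa00078003c000f0038000400008001000080000000000000000000) := Q_17 (nat_lit 163) (C_17 L31654 (C_17 L31657 (C_17 L31663 N_17))) (by decide +kernel)
theorem L31665 : W_17 (nat_lit 2) (nat_lit 0x4000200000005000380050003c00000000000000000000000) (nat_lit 0x0) (nat_lit 0x80000000000008004000000000000000000000000) := D_17 (nat_lit 111) (nat_lit 163) (nat_lit 98) (nat_lit 4) (nat_lit 10) (nat_lit 9) (nat_lit 1) (nat_lit 13) (nat_lit 5) (by decide +kernel)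
theorem L31666 : W_17 (nat_lit 3) (nat_lit 0x4000200000005000380050001c00000000000000000000000) (nat_lit 0x0) (nat_lit 0x80000000000088006000000000000000000000000) := T_17 (nat_lit 97) (nat_lit 115) (nat_lit 3) (nat_lit 9) (nat_lit 5) L31665 (by decide +kernel)
theorem L31667 : W_17 (nat_lit 4) (nat_lit 0x4000200000005000380050000c00000000000000000000000) (nat_lit 0x0) (nat_lit 0x80000000000088007000080000000000000000000) := T_17 (nat_lit 96) (nat_lit 79) (nat_lit 6) (nat_lit 10) (nat_lit 8) L31666 (by decide +kernel)
theorem L31668 : W_17 (nat_lit 5) (nat_lit 0x4000200000005000380050000800000000000000000000000) (nat_lit 0x0) (nat_lit 0x800000000000880074000a0000000000000000000) := T_17 (nat_lit 94) (nat_lit 77) (nat_lit 4) (nat_lit 10) (nat_lit 8) L31667 (by decide +kernel)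
theorem L31669 : W_17 (nat_lit 2) (nat_lit 0x4000200020015000380050007c00200000000800000000000) (nat_lit 0x0) (nat_lit 0x28000400000000000000000000000000000000) := D_17 (nat_lit 147) (nat_lit 130) (nat_lit 149) (nat_lit 3) (nat_lit 8) (nat_lit 7) (nat_lit 0) (nat_lit 13) (nat_lit 8) (by decide +kernel)
theorem L31670 : W_17 (nat_lit 3) (nat_lit 0x4000200020005000380050007c00200000000800000000000) (nat_lit 0x0) (nat_lit 0x38000c00000000000000000000000000000000) := T_17 (nat_lit 148) (nat_lit 131) (nat_lit 6) (nat_lit 12) (nat_lit 8) L31669 (by decide +kernel)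
theorem L31671 : W_17 (nat_lit 4) (nat_lit 0x4000200020005000380050007c00200000000000000000000) (nat_lit 0x0) (nat_lit 0x38000c00000000000000010000800000000000) := T_17 (nat_lit 47) (nat_lit 64) (nat_lit 5) (nat_lit 13) (nat_lit 2) L31670 (by decide +kernel)
theorem L31672 : W_17 (nat_lit 5) (nat_lit 0x4000200020005000380050003c00200000000000000000000) (nat_lit 0x0) (nat_lit 0x38000c00000004000400010000800000000000) := T_17 (nat_lit 98) (nat_lit 82) (nat_lit 2) (nat_lit 10) (nat_lit 5) L31671 (by decide +kernel)
theorem L31673 : W_17 (nat_lit 6) (nat_lit 0x4000200020005000380050003c00000000000000000000000) (nat_lit 0x0) (nat_lit 0x38000c00000004000700010000800000000000) := T_17 (nat_lit 81) (nat_lit 80) (nat_lit 2) (nat_lit 9) (nat_lit 5) L31672 (by decide +kernel)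
theorem L31674 : W_17 (nat_lit 7) (nat_lit 0x4000200020005000380050001c00000000000000000000000) (nat_lit 0x0) (nat_lit 0x38000c00080006000700010000800000000000) := T_17 (nat_lit 97) (nat_lit 115) (nat_lit 3) (nat_lit 9) (nat_lit 5) L31673 (by decide +kernel)
theorem L31675 : W_17 (nat_lit 8) (nat_lit 0x4000200020005000380050000c00000000000000000000000) (nat_lit 0x0) (nat_lit 0x38000c00080007000780010000800000000000) := T_17 (nat_lit 96) (nat_lit 79) (nat_lit 6) (nat_lit 10) (nat_lit 8) L31674 (by decide +kernel)
theorem L31676 : W_17 (nat_lit 9) (nat_lit 0x4000200000005000380050000c00000000000000000000000) (nat_lit 0x0) (nat_lit 0x400020038000c00080007000780010000800000000000) := T_17 (nat_lit 161) (nat_lit 178) (nat_lit 5) (nat_lit 8) (nat_lit 7) L31675 (by decide +kernel)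
theorem L31677 : W_17 (nat_lit 10) (nat_lit 0x4000200000005000380050000800000000000000000000000) (nat_lit 0x0) (nat_lit 0x400020038000c000800074007a0010000800000000000) := T_17 (nat_lit 94) (nat_lit 77) (nat_lit 4) (nat_lit 10) (nat_lit 8) L31676 (by decide +kernel)
theorem L31678 : W_17 (nat_lit 2) (nat_lit 0x40002000e000d000380050000c00000000000000000000000) (nat_lit 0x0) (nat_lit 0x30000400000000000000000000000000000000) := D_17 (nat_lit 148) (nat_lit 149) (nat_lit 130) (nat_lit 1) (nat_lit 13) (nat_lit 8) (nat_lit 3) (nat_lit 8) (nat_lit 7) (by decide +kernel)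
theorem L31679 : W_17 (nat_lit 3) (nat_lit 0x40002000e0005000380050000c00000000000000000000000) (nat_lit 0x0) (nat_lit 0x10038000400000000000000000000000000000000) := T_17 (nat_lit 147) (nat_lit 160) (nat_lit 2) (nat_lit 7) (nat_lit 9) L31678 (by decide +kernel)
theorem L31680 : W_17 (nat_lit 4) (nat_lit 0x40002000a0005000380050000c00000000000000000000000) (nat_lit 0x0) (nat_lit 0x800050038000400000000000000000000000000000000) := T_17 (nat_lit 162) (nat_lit 179) (nat_lit 5) (nat_lit 10) (nat_lit 6) L31679 (by decide +kernel)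
theorem L31681 : W_17 (nat_lit 5) (nat_lit 0x4000200020005000380050000c00000000000000000000000) (nat_lit 0x0) (nat_lit 0x8000d0038000400008000000000000000000000000000) := T_17 (nat_lit 163) (nat_lit 111) (nat_lit 4) (nat_lit 10) (nat_lit 9) L31680 (by decide +kernel)
theorem L31682 : W_17 (nat_lit 6) (nat_lit 0x4000200000005000380050000c00000000000000000000000) (nat_lit 0x0) (nat_lit 0xc000f0038000400008000000000000000000000000000) := T_17 (nat_lit 161) (nat_lit 178) (nat_lit 5) (nat_lit 8) (nat_lit 7) L31681 (by decide +kernel)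
theorem L31683 : W_17 (nat_lit 7) (nat_lit 0x4000200000005000380050000800000000000000000000000) (nat_lit 0x0) (nat_lit 0xc000f0038000400008000400020000000000000000000) := T_17 (nat_lit 94) (nat_lit 77) (nat_lit 4) (nat_lit 10) (nat_lit 8) L31682 (by decide +kernel)
theorem L31684 : W_17 (nat_lit 11) (nat_lit 0x4000200000001000380050000800000000000000000000000) (nat_lit 0x0) (nat_lit 0xa00078003c000f003c000c000880074007a0010000800000000000) := Q_17 (nat_lit 146) (C_17 L31664 (C_17 L31668 (C_17 L31677 (C_17 L31683 N_17)))) (by decide +kernel)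
theorem L31685 : W_17 (nat_lit 3) (nat_lit 0x4000200020001000380050000800020000000000000000000) (nat_lit 0x0) (nat_lit 0x8000400040001000080000000000) := T_17 (nat_lit 94) (nat_lit 111) (nat_lit 5) (nat_lit 9) (nat_lit 4) L30087 (by decide +kernel)
theorem L31686 : W_17 (nat_lit 4) (nat_lit 0x4000200000001000380050000800020000000000000000000) (nat_lit 0x0) (nat_lit 0x400020000000000008000400040001000080000000000) := T_17 (nat_lit 161) (nat_lit 178) (nat_lit 5) (nat_lit 8) (nat_lit 7) L31685 (by decide +kernel)
theorem L31687 : W_17 (nat_lit 5) (nat_lit 0x4000200000001000380050000800020000000000000000000) (nat_lit 0x0) (nat_lit 0x8001c00088000000040003000000000000000) := T_17 (nat_lit 78) (nat_lit 60) (nat_lit 4) (nat_lit 10) (nat_lit 7) L31612 (by decide +kernel)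
theorem L31688 : W_17 (nat_lit 6) (nat_lit 0x4000200000001000380050000800000000000000000000000) (nat_lit 0x0) (nat_lit 0x40002000c001c00088000400060003000080000000000) := Q_17 (nat_lit 77) (C_17 L31686 (C_17 L31687 (C_17 L30086 (C_17 L31626 N_17)))) (by decide +kernel)
theorem L31689 : W_17 (nat_lit 2) (nat_lit 0x40002000200010003800500018000c0002000080000000000) (nat_lit 0x0) (nat_lit 0x10000c000000) := D_17 (nat_lit 44) (nat_lit 26) (nat_lit 27) (nat_lit 4) (nat_lit 10) (nat_lit 5) (nat_lit 7) (nat_lit 10) (nat_lit 1) (by decide +kernel)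
theorem L31690 : W_17 (nat_lit 3) (nat_lit 0x40002000200010003800500008000c0002000080000000000) (nat_lit 0x0) (nat_lit 0x400000000000100000000000010000c000000) := T_17 (nat_lit 96) (nat_lit 146) (nat_lit 6) (nat_lit 10) (nat_lit 8) L31689 (by decide +kernel)
theorem L31691 : W_17 (nat_lit 4) (nat_lit 0x40002000200010003800500008000c0002000000000000000) (nat_lit 0x0) (nat_lit 0x400000000000100000000100018000c000000) := T_17 (nat_lit 43) (nat_lit 60) (nat_lit 4) (nat_lit 10) (nat_lit 6) L31690 (by decide +kernel)
theorem L31692 : W_17 (nat_lit 5) (nat_lit 0x40002000200010003800500008000c0000000000000000000) (nat_lit 0x0) (nat_lit 0x400000000800100000000300018000c000000) := T_17 (nat_lit 61) (nat_lit 111) (nat_lit 5) (nat_lit 10) (nat_lit 3) L31691 (by decide +kernel)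
theorem L31693 : W_17 (nat_lit 6) (nat_lit 0x4000200020001000380050000800040000000000000000000) (nat_lit 0x0) (nat_lit 0x400000000800100008000700018000c000000) := T_17 (nat_lit 79) (nat_lit 62) (nat_lit 6) (nat_lit 10) (nat_lit 7) L31692 (by decide +kernel)
theorem L31694 : W_17 (nat_lit 7) (nat_lit 0x4000200000001000380050000800040000000000000000000) (nat_lit 0x0) (nat_lit 0x40002000400000000800100008000700018000c000000) := T_17 (nat_lit 161) (nat_lit 178) (nat_lit 5) (nat_lit 8) (nat_lit 7) L31693 (by decide +kernel)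
theorem L31695 : W_17 (nat_lit 8) (nat_lit 0x4000200000001000380050000800000000000000000000000) (nat_lit 0x0) (nat_lit 0x40002007c001c000880030000c000700018000c000000) := Q_17 (nat_lit 78) (C_17 L31649 (C_17 L31620 (C_17 L31694 (C_17 L31643 N_17)))) (by decide +kernel)
theorem L31696 : W_17 (nat_lit 13) (nat_lit 0x4000200000001000380050000000000000000000000000000) (nat_lit 0x0) (nat_lit 0xa0007800bc004f007c001c00088007c007f0017000b8000c000000) := Q_17 (nat_lit 95) (C_17 L31621 (C_17 L31627 (C_17 L31644 (C_17 L31650 (C_17 L31684 (C_17 L31688 (C_17 L31695 N_17))))))) (by decide +kernel)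
theorem L31697 : W_17 (nat_lit 14) (nat_lit 0x4000200000001000380010000000000000000000000000000) (nat_lit 0x0) (nat_lit 0xa0007800bc004f007c001c000e8007c007f0017000b8000c000000) := Q_17 (nat_lit 114) (C_17 L31514 (C_17 L31579 (C_17 L31515 (C_17 L31696 N_17)))) (by decide +kernel)
theorem L31698 : W_17 (nat_lit 15) (nat_lit 0x4000200000001000280010000000000000000000000000000) (nat_lit 0x0) (nat_lit 0xa000fa00bc004f807c001d600eb807d007f8017000b8000c000000) := Q_17 (nat_lit 128) (C_17 L31609 (C_17 L30185 (C_17 L30215 (C_17 L31697 N_17)))) (by decide +kernel)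
theorem L31699 : W_17 (nat_lit 13) (nat_lit 0x4000200000001000280010000000000000000000000000000) (nat_lit 0x0) (nat_lit 0x3fa00fc007f803c0005600eb801f000e0003000100000000000) := Q_17 (nat_lit 128) (C_17 L31352 (C_17 L30185 (C_17 L30249 (C_17 L31305 N_17)))) (by decide +kernel)
theorem L31700 : W_17 (nat_lit 16) (nat_lit 0x4000200000001000280000000000000000000000000000000) (nat_lit 0x0) (nat_lit 0xa003fa00fc01ff80fc007d607fb81ff80ffc07fe00fe007f000200) := Q_17 (nat_lit 112) (C_17 L29915 (C_17 L30186 (C_17 L30250 (C_17 L30790 (C_17 L31004 (C_17 L31129 (C_17 L31173 (C_17 L31299 (C_17 L31333 (C_17 L31351 (C_17 L31353 (C_17 L31445 (C_17 L31458 (C_17 L31459 (C_17 L31513 (C_17 L31581 (C_17 L31698 (C_17 L31699 N_17)))))))))))))))))) (by decide +kernel)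
theorem L31701 : W_17 (nat_lit 2) (nat_lit 0x140032000800050007c0002000000008000000000000000000) (nat_lit 0x0) (nat_lit 0x200028000000000000000000000000000000000000000000000000) := D_17 (nat_lit 197) (nat_lit 195) (nat_lit 213) (nat_lit 2) (nat_lit 7) (nat_lit 11) (nat_lit 5) (nat_lit 10) (nat_lit 8) (by decide +kernel)
theorem L31702 : W_17 (nat_lit 3) (nat_lit 0x40032000800050007c0002000000008000000000000000000) (nat_lit 0x0) (nat_lit 0x200038000800000000000000000000000000000000000000000000) := T_17 (nat_lit 196) (nat_lit 179) (nat_lit 5) (nat_lit 10) (nat_lit 7) L31701 (by decide +kernel)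
theorem L31703 : W_17 (nat_lit 4) (nat_lit 0x40032000800050003c0002000000008000000000000000000) (nat_lit 0x0) (nat_lit 0x200038000800000000000400020000000000000000000000000000) := T_17 (nat_lit 130) (nat_lit 113) (nat_lit 6) (nat_lit 10) (nat_lit 10) L31702 (by decide +kernel)
theorem L31704 : W_17 (nat_lit 5) (nat_lit 0x40012000800050003c0002000000008000000000000000000) (nat_lit 0x0) (nat_lit 0x200078002800000000000400020000000000000000000000000000) := T_17 (nat_lit 181) (nat_lit 198) (nat_lit 7) (nat_lit 10) (nat_lit 7) L31703 (by decide +kernel)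
theorem L31705 : W_17 (nat_lit 6) (nat_lit 0x40012000800050003c0002000000000000000000000000000) (nat_lit 0x0) (nat_lit 0x200078002800000000000400020000100008000000000000000000) := T_17 (nat_lit 75) (nat_lit 92) (nat_lit 7) (nat_lit 7) (nat_lit 4) L31704 (by decide +kernel)
theorem L31706 : W_17 (nat_lit 7) (nat_lit 0x40012000000050003c0002000000000000000000000000000) (nat_lit 0x0) (nat_lit 0x200078002800080000000400028000100008000000000000000000) := T_17 (nat_lit 163) (nat_lit 111) (nat_lit 4) (nat_lit 10) (nat_lit 10) L31705 (by decide +kernel)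
theorem L31707 : W_17 (nat_lit 8) (nat_lit 0x40012000000050003c0000000000000000000000000000000) (nat_lit 0x0) (nat_lit 0x20007800280008000000040002b000100008000000000000000000) := T_17 (nat_lit 109) (nat_lit 108) (nat_lit 0) (nat_lit 10) (nat_lit 7) L31706 (by decide +kernel)
theorem L31708 : W_17 (nat_lit 9) (nat_lit 0x40012000000010003c0000000000000000000000000000000) (nat_lit 0x0) (nat_lit 0x20007800280008000c00040002b000100008000000000000000000) := T_17 (nat_lit 146) (nat_lit 147) (nat_lit 3) (nat_lit 7) (nat_lit 7) L31707 (by decide +kernel)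
theorem L31709 : W_17 (nat_lit 2) (nat_lit 0x24001e000800010003c0002000000008000000000000000000) (nat_lit 0x0) (nat_lit 0x10000000000004000000008000000000000000000000000000) := D_17 (nat_lit 146) (nat_lit 111) (nat_lit 196) (nat_lit 4) (nat_lit 10) (nat_lit 10) (nat_lit 5) (nat_lit 10) (nat_lit 7) (by decide +kernel)
theorem L31710 : W_17 (nat_lit 3) (nat_lit 0x24001e000000010003c0002000000008000000000000000000) (nat_lit 0x0) (nat_lit 0x10000000180004000000008000000000000000000000000000) := T_17 (nat_lit 163) (nat_lit 164) (nat_lit 2) (nat_lit 7) (nat_lit 10) L31709 (by decide +kernel)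
theorem L31711 : W_17 (nat_lit 4) (nat_lit 0x4001e000000010003c0002000000008000000000000000000) (nat_lit 0x0) (nat_lit 0x70000000180004000000008000000000000000000000000000) := T_17 (nat_lit 197) (nat_lit 198) (nat_lit 3) (nat_lit 7) (nat_lit 10) L31710 (by decide +kernel)
theorem L31712 : W_17 (nat_lit 5) (nat_lit 0x4001e000000010003c0002000000000000000000000000000) (nat_lit 0x0) (nat_lit 0x70000000180004000000008000100008000000000000000000) := T_17 (nat_lit 75) (nat_lit 92) (nat_lit 7) (nat_lit 7) (nat_lit 4) L31711 (by decide +kernel)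
theorem L31713 : W_17 (nat_lit 6) (nat_lit 0x40016000000010003c0002000000000000000000000000000) (nat_lit 0x0) (nat_lit 0x72000800180004000000008000100008000000000000000000) := T_17 (nat_lit 179) (nat_lit 193) (nat_lit 1) (nat_lit 10) (nat_lit 10) L31712 (by decide +kernel)
theorem L31714 : W_17 (nat_lit 7) (nat_lit 0x40016000000010003c0000000000000000000000000000000) (nat_lit 0x0) (nat_lit 0x7200080018000400000000b000100008000000000000000000) := T_17 (nat_lit 109) (nat_lit 108) (nat_lit 0) (nat_lit 10) (nat_lit 7) L31713 (by decide +kernel)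
theorem L31715 : W_17 (nat_lit 8) (nat_lit 0x40012000000010003c0000000000000000000000000000000) (nat_lit 0x0) (nat_lit 0x72000c001a000400000000b000100008000000000000000000) := T_17 (nat_lit 178) (nat_lit 161) (nat_lit 5) (nat_lit 8) (nat_lit 7) L31714 (by decide +kernel)
theorem L31716 : W_17 (nat_lit 2) (nat_lit 0x104007a004a00050007c0000000000000000000000000000000) (nat_lit 0x0) (nat_lit 0x200008000800000000000000000000000000000000000000000) := D_17 (nat_lit 183) (nat_lit 167) (nat_lit 201) (nat_lit 2) (nat_lit 10) (nat_lit 10) (nat_lit 3) (nat_lit 10) (nat_lit 10) (by decide +kernel)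
theorem L31717 : W_17 (nat_lit 3) (nat_lit 0x4007a004a00050007c0000000000000000000000000000000) (nat_lit 0x0) (nat_lit 0x380008000800000000000000000000000000000000000000000) := T_17 (nat_lit 200) (nat_lit 199) (nat_lit 3) (nat_lit 9) (nat_lit 10) L31716 (by decide +kernel)
theorem L31718 : W_17 (nat_lit 4) (nat_lit 0x4007a000a00050007c0000000000000000000000000000000) (nat_lit 0x0) (nat_lit 0x380008000e00000000000000000000000000000000000000000) := T_17 (nat_lit 166) (nat_lit 165) (nat_lit 2) (nat_lit 9) (nat_lit 10) L31717 (by decide +kernel)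
theorem L31719 : W_17 (nat_lit 5) (nat_lit 0x4007a000a00050003c0000000000000000000000000000000) (nat_lit 0x0) (nat_lit 0x380008000e00000000400020000000000000000000000000000) := T_17 (nat_lit 130) (nat_lit 113) (nat_lit 6) (nat_lit 10) (nat_lit 10) L31718 (by decide +kernel)
theorem L31720 : W_17 (nat_lit 6) (nat_lit 0x4003a000a00050003c0000000000000000000000000000000) (nat_lit 0x0) (nat_lit 0x38000c000e40000000400020000000000000000000000000000) := T_17 (nat_lit 182) (nat_lit 162) (nat_lit 0) (nat_lit 12) (nat_lit 10) L31719 (by decide +kernel)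
theorem L31721 : W_17 (nat_lit 7) (nat_lit 0x4001a000a00050003c0000000000000000000000000000000) (nat_lit 0x0) (nat_lit 0x3c000e000e40000000400020000000000000000000000000000) := T_17 (nat_lit 181) (nat_lit 198) (nat_lit 7) (nat_lit 10) (nat_lit 7) L31720 (by decide +kernel)
theorem L31722 : W_17 (nat_lit 8) (nat_lit 0x40012000a00050003c0000000000000000000000000000000) (nat_lit 0x0) (nat_lit 0x3d000e800e40000000400020000000000000000000000000000) := T_17 (nat_lit 179) (nat_lit 196) (nat_lit 5) (nat_lit 10) (nat_lit 7) L31721 (by decide +kernel)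
theorem L31723 : W_17 (nat_lit 9) (nat_lit 0x40012000200050003c0000000000000000000000000000000) (nat_lit 0x0) (nat_lit 0x3d000e800ec0000000400028000000000000000000000000000) := T_17 (nat_lit 163) (nat_lit 111) (nat_lit 4) (nat_lit 10) (nat_lit 10) L31722 (by decide +kernel)
theorem L31724 : W_17 (nat_lit 10) (nat_lit 0x40012000200010003c0000000000000000000000000000000) (nat_lit 0x0) (nat_lit 0x3d000e800ec000c000400028000000000000000000000000000) := T_17 (nat_lit 146) (nat_lit 147) (nat_lit 3) (nat_lit 7) (nat_lit 7) L31723 (by decide +kernel)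
theorem L31725 : W_17 (nat_lit 11) (nat_lit 0x40012000000010003c0000000000000000000000000000000) (nat_lit 0x0) (nat_lit 0x3d000ec00ee000c000400028000000000000000000000000000) := T_17 (nat_lit 161) (nat_lit 178) (nat_lit 5) (nat_lit 8) (nat_lit 7) L31724 (by decide +kernel)
theorem L31726 : W_17 (nat_lit 2) (nat_lit 0x740012000800050007c0002000000008000000000000000000) (nat_lit 0x0) (nat_lit 0x8000400020000000000000000000000000000000000000000) := D_17 (nat_lit 178) (nat_lit 195) (nat_lit 161) (nat_lit 0) (nat_lit 11) (nat_lit 11) (nat_lit 5) (nat_lit 8) (nat_lit 7) (by decide +kernel)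
theorem L31727 : W_17 (nat_lit 3) (nat_lit 0x640012000800050007c0002000000008000000000000000000) (nat_lit 0x0) (nat_lit 0x200018000400020000000000000000000000000000000000000000) := T_17 (nat_lit 196) (nat_lit 213) (nat_lit 5) (nat_lit 10) (nat_lit 8) L31726 (by decide +kernel)
theorem L31728 : W_17 (nat_lit 4) (nat_lit 0x440012000800050007c0002000000008000000000000000000) (nat_lit 0x0) (nat_lit 0xa00038000400020000000000000000000000000000000000000000) := T_17 (nat_lit 197) (nat_lit 215) (nat_lit 7) (nat_lit 10) (nat_lit 8) L31727 (by decide +kernel)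
theorem L31729 : W_17 (nat_lit 5) (nat_lit 0x440012000800050003c0002000000008000000000000000000) (nat_lit 0x0) (nat_lit 0xa00038000400020000000400020000000000000000000000000000) := T_17 (nat_lit 130) (nat_lit 113) (nat_lit 6) (nat_lit 10) (nat_lit 10) L31728 (by decide +kernel)
theorem L31730 : W_17 (nat_lit 6) (nat_lit 0x40012000800050003c0002000000008000000000000000000) (nat_lit 0x0) (nat_lit 0xa00078002400020000000400020000000000000000000000000000) := T_17 (nat_lit 198) (nat_lit 181) (nat_lit 7) (nat_lit 10) (nat_lit 7) L31729 (by decide +kernel)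
theorem L31731 : W_17 (nat_lit 7) (nat_lit 0x40012000800050003c0002000000000000000000000000000) (nat_lit 0x0) (nat_lit 0xa00078002400020000000400020000100008000000000000000000) := T_17 (nat_lit 75) (nat_lit 92) (nat_lit 7) (nat_lit 7) (nat_lit 4) L31730 (by decide +kernel)
theorem L31732 : W_17 (nat_lit 8) (nat_lit 0x40012000000050003c0002000000000000000000000000000) (nat_lit 0x0) (nat_lit 0xa000780024000a0000000400028000100008000000000000000000) := T_17 (nat_lit 163) (nat_lit 111) (nat_lit 4) (nat_lit 10) (nat_lit 10) L31731 (by decide +kernel)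
theorem L31733 : W_17 (nat_lit 9) (nat_lit 0x40012000000050003c0000000000000000000000000000000) (nat_lit 0x0) (nat_lit 0xa000780024000a000000040002b000100008000000000000000000) := T_17 (nat_lit 109) (nat_lit 108) (nat_lit 0) (nat_lit 10) (nat_lit 7) L31732 (by decide +kernel)
theorem L31734 : W_17 (nat_lit 10) (nat_lit 0x40012000000010003c0000000000000000000000000000000) (nat_lit 0x0) (nat_lit 0xa000780024000a000c00040002b000100008000000000000000000) := T_17 (nat_lit 146) (nat_lit 147) (nat_lit 3) (nat_lit 7) (nat_lit 7) L31733 (by decide +kernel)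
theorem L31735 : W_17 (nat_lit 2) (nat_lit 0x4003e000000010003c0002000000008000000000000000000) (nat_lit 0x0) (nat_lit 0xe0000000000000000000000000000000000000000000000000) := D_17 (nat_lit 198) (nat_lit 197) (nat_lit 199) (nat_lit 3) (nat_lit 7) (nat_lit 10) (nat_lit 3) (nat_lit 8) (nat_lit 10) (by decide +kernel)
theorem L31736 : W_17 (nat_lit 3) (nat_lit 0x4001e000000010003c0002000000008000000000000000000) (nat_lit 0x0) (nat_lit 0xe8002000000000000000000000000000000000000000000000) := T_17 (nat_lit 181) (nat_lit 195) (nat_lit 1) (nat_lit 11) (nat_lit 10) L31735 (by decide +kernel)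
theorem L31737 : W_17 (nat_lit 4) (nat_lit 0x40016000000010003c0002000000008000000000000000000) (nat_lit 0x0) (nat_lit 0xea002800000000000000000000000000000000000000000000) := T_17 (nat_lit 179) (nat_lit 193) (nat_lit 1) (nat_lit 10) (nat_lit 10) L31736 (by decide +kernel)
theorem L31738 : W_17 (nat_lit 5) (nat_lit 0x40016000000010003c0002000000000000000000000000000) (nat_lit 0x0) (nat_lit 0xea002800000000000000000000100008000000000000000000) := T_17 (nat_lit 75) (nat_lit 92) (nat_lit 7) (nat_lit 7) (nat_lit 4) L31737 (by decide +kernel)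
theorem L31739 : W_17 (nat_lit 6) (nat_lit 0x40012000000010003c0002000000000000000000000000000) (nat_lit 0x0) (nat_lit 0xea002c00020000000000000000100008000000000000000000) := T_17 (nat_lit 178) (nat_lit 161) (nat_lit 5) (nat_lit 8) (nat_lit 7) L31738 (by decide +kernel)
theorem L31740 : W_17 (nat_lit 7) (nat_lit 0x40012000000010003c0000000000000000000000000000000) (nat_lit 0x0) (nat_lit 0xea002c00020000000000003000100008000000000000000000) := T_17 (nat_lit 109) (nat_lit 108) (nat_lit 0) (nat_lit 10) (nat_lit 7) L31739 (by decide +kernel)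
theorem L31741 : W_17 (nat_lit 2) (nat_lit 0x40032001200090007c0022000000008000000000000000000) (nat_lit 0x0) (nat_lit 0x80004000200000000000000000000000000000000000000000) := D_17 (nat_lit 182) (nat_lit 165) (nat_lit 199) (nat_lit 7) (nat_lit 11) (nat_lit 6) (nat_lit 7) (nat_lit 11) (nat_lit 7) (by decide +kernel)
theorem L31742 : W_17 (nat_lit 3) (nat_lit 0x40012001200090007c0022000000008000000000000000000) (nat_lit 0x0) (nat_lit 0xa0006000200000000000000000000000000000000000000000) := T_17 (nat_lit 181) (nat_lit 197) (nat_lit 5) (nat_lit 11) (nat_lit 7) L31741 (by decide +kernel)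
theorem L31743 : W_17 (nat_lit 4) (nat_lit 0x40012000200090007c0022000000008000000000000000000) (nat_lit 0x0) (nat_lit 0xa0006000380000000000000000000000000000000000000000) := T_17 (nat_lit 164) (nat_lit 163) (nat_lit 5) (nat_lit 11) (nat_lit 6) L31742 (by decide +kernel)
theorem L31744 : W_17 (nat_lit 5) (nat_lit 0x40012000200090007c0022000000000000000000000000000) (nat_lit 0x0) (nat_lit 0xa0006000380000000000000000100008000000000000000000) := T_17 (nat_lit 75) (nat_lit 92) (nat_lit 7) (nat_lit 7) (nat_lit 4) L31743 (by decide +kernel)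
theorem L31745 : W_17 (nat_lit 6) (nat_lit 0x40012000200090007c0002000000000000000000000000000) (nat_lit 0x0) (nat_lit 0xa0006000380000000000060000100008000000000000000000) := T_17 (nat_lit 113) (nat_lit 114) (nat_lit 2) (nat_lit 8) (nat_lit 7) L31744 (by decide +kernel)
theorem L31746 : W_17 (nat_lit 7) (nat_lit 0x40012000200090003c0002000000000000000000000000000) (nat_lit 0x0) (nat_lit 0xa0006000380010000400060000100008000000000000000000) := T_17 (nat_lit 130) (nat_lit 148) (nat_lit 3) (nat_lit 8) (nat_lit 7) L31745 (by decide +kernel)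
theorem L31747 : W_17 (nat_lit 8) (nat_lit 0x40012000200090003c0000000000000000000000000000000) (nat_lit 0x0) (nat_lit 0xa0006000380010000400063000100008000000000000000000) := T_17 (nat_lit 109) (nat_lit 108) (nat_lit 0) (nat_lit 10) (nat_lit 7) L31746 (by decide +kernel)
theorem L31748 : W_17 (nat_lit 9) (nat_lit 0x40012000200010003c0000000000000000000000000000000) (nat_lit 0x0) (nat_lit 0xa000600038001c000400063000100008000000000000000000) := T_17 (nat_lit 147) (nat_lit 146) (nat_lit 3) (nat_lit 7) (nat_lit 7) L31747 (by decide +kernel)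
theorem L31749 : W_17 (nat_lit 10) (nat_lit 0x40012000000010003c0000000000000000000000000000000) (nat_lit 0x0) (nat_lit 0xa00064003a001c000400063000100008000000000000000000) := T_17 (nat_lit 161) (nat_lit 178) (nat_lit 5) (nat_lit 8) (nat_lit 7) L31748 (by decide +kernel)
theorem L31750 : W_17 (nat_lit 12) (nat_lit 0x40002000000010003c0000000000000000000000000000000) (nat_lit 0x0) (nat_lit 0xa003fa00fc00fe001c00040006b000100008000000000000000000) := Q_17 (nat_lit 180) (C_17 L31708 (C_17 L31715 (C_17 L31725 (C_17 L31734 (C_17 L31740 (C_17 L31749 N_17)))))) (by decide +kernel)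
theorem L31751 : W_17 (nat_lit 2) (nat_lit 0x40002000200010003c001a000400000000000000000000000) (nat_lit 0x0) (nat_lit 0x8000c000000000000000000000000000000000000) := D_17 (nat_lit 146) (nat_lit 147) (nat_lit 163) (nat_lit 3) (nat_lit 7) (nat_lit 7) (nat_lit 4) (nat_lit 10) (nat_lit 9) (by decide +kernel)
theorem L31752 : W_17 (nat_lit 3) (nat_lit 0x40002000200010003c001a000000000000000000000000000) (nat_lit 0x0) (nat_lit 0x8000c000000000000400020000000000000000000) := T_17 (nat_lit 94) (nat_lit 77) (nat_lit 5) (nat_lit 9) (nat_lit 4) L31751 (by decide +kernel)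
theorem L31753 : W_17 (nat_lit 4) (nat_lit 0x40002000000010003c001a000000000000000000000000000) (nat_lit 0x0) (nat_lit 0x4000a000c000000000000400020000000000000000000) := T_17 (nat_lit 161) (nat_lit 178) (nat_lit 6) (nat_lit 8) (nat_lit 10) L31752 (by decide +kernel)
theorem L31754 : W_17 (nat_lit 5) (nat_lit 0x40002000000010003c0012000000000000000000000000000) (nat_lit 0x0) (nat_lit 0x4000a000c000020008000400020000000000000000000) := T_17 (nat_lit 111) (nat_lit 125) (nat_lit 2) (nat_lit 6) (nat_lit 7) L31753 (by decide +kernel)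
theorem L31755 : W_17 (nat_lit 6) (nat_lit 0x40002000000010003c0002000000000000000000000000000) (nat_lit 0x0) (nat_lit 0x4000a000c000020038000400020000000000000000000) := T_17 (nat_lit 112) (nat_lit 113) (nat_lit 2) (nat_lit 7) (nat_lit 7) L31754 (by decide +kernel)
theorem L31756 : W_17 (nat_lit 7) (nat_lit 0x40002000000010003c0000000000000000000000000000000) (nat_lit 0x0) (nat_lit 0x4000a000c00002003b000400020000000000000000000) := T_17 (nat_lit 109) (nat_lit 108) (nat_lit 0) (nat_lit 10) (nat_lit 7) L31755 (by decide +kernel)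
theorem L31757 : W_17 (nat_lit 2) (nat_lit 0x40002000000050003c001a000000000000000000000000000) (nat_lit 0x0) (nat_lit 0x1000080000000000000000400000000000000000000000) := D_17 (nat_lit 163) (nat_lit 94) (nat_lit 180) (nat_lit 4) (nat_lit 10) (nat_lit 9) (nat_lit 4) (nat_lit 10) (nat_lit 10) (by decide +kernel)
theorem L31758 : W_17 (nat_lit 3) (nat_lit 0x40002000000050003c0012000000000000000000000000000) (nat_lit 0x0) (nat_lit 0x1000080000000020008000400000000000000000000000) := T_17 (nat_lit 111) (nat_lit 125) (nat_lit 2) (nat_lit 6) (nat_lit 7) L31757 (by decide +kernel)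
theorem L31759 : W_17 (nat_lit 4) (nat_lit 0x40002000000050003c0002000000000000000000000000000) (nat_lit 0x0) (nat_lit 0x1000080000000020038000400000000000000000000000) := T_17 (nat_lit 112) (nat_lit 113) (nat_lit 2) (nat_lit 7) (nat_lit 7) L31758 (by decide +kernel)
theorem L31760 : W_17 (nat_lit 5) (nat_lit 0x40002000000050003c0000000000000000000000000000000) (nat_lit 0x0) (nat_lit 0x100008000000002003b000400000000000000000000000) := T_17 (nat_lit 109) (nat_lit 108) (nat_lit 0) (nat_lit 10) (nat_lit 7) L31759 (by decide +kernel)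
theorem L31761 : W_17 (nat_lit 6) (nat_lit 0x40002000000010003c0000000000000000000000000000000) (nat_lit 0x0) (nat_lit 0x100008000c00002003b000400000000000000000000000) := T_17 (nat_lit 146) (nat_lit 147) (nat_lit 3) (nat_lit 7) (nat_lit 7) L31760 (by decide +kernel)
theorem L31762 : W_17 (nat_lit 2) (nat_lit 0x40002000200010003e0001000000000000000000000000000) (nat_lit 0x0) (nat_lit 0x38000000000000000000000000000) := D_17 (nat_lit 112) (nat_lit 113) (nat_lit 111) (nat_lit 2) (nat_lit 7) (nat_lit 7) (nat_lit 2) (nat_lit 6) (nat_lit 7) (by decide +kernel)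
theorem L31763 : W_17 (nat_lit 3) (nat_lit 0x40002000200010003c0001000000000000000000000000000) (nat_lit 0x0) (nat_lit 0x20038800000000000000000000000000) := T_17 (nat_lit 125) (nat_lit 107) (nat_lit 0) (nat_lit 9) (nat_lit 7) L31762 (by decide +kernel)
theorem L31764 : W_17 (nat_lit 4) (nat_lit 0x40002000000010003c0001000000000000000000000000000) (nat_lit 0x0) (nat_lit 0x400020000000020038800000000000000000000000000) := T_17 (nat_lit 161) (nat_lit 178) (nat_lit 5) (nat_lit 8) (nat_lit 7) L31763 (by decide +kernel)
theorem L31765 : W_17 (nat_lit 5) (nat_lit 0x40002000000010003c0000000000000000000000000000000) (nat_lit 0x0) (nat_lit 0x40002000000002003b800000000000000000000000000) := T_17 (nat_lit 108) (nat_lit 109) (nat_lit 0) (nat_lit 10) (nat_lit 7) L31764 (by decide +kernel)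
theorem L31766 : W_17 (nat_lit 2) (nat_lit 0x40002000000050003c0018000000000000000000000000000) (nat_lit 0x0) (nat_lit 0x80000000000000000400020000000000000000000) := D_17 (nat_lit 94) (nat_lit 77) (nat_lit 163) (nat_lit 7) (nat_lit 9) (nat_lit 4) (nat_lit 4) (nat_lit 10) (nat_lit 9) (by decide +kernel)
theorem L31767 : W_17 (nat_lit 3) (nat_lit 0x40002000000010003c0018000000000000000000000000000) (nat_lit 0x0) (nat_lit 0x8000c000000000000400020000000000000000000) := T_17 (nat_lit 146) (nat_lit 147) (nat_lit 3) (nat_lit 7) (nat_lit 7) L31766 (by decide +kernel)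
theorem L31768 : W_17 (nat_lit 4) (nat_lit 0x40002000000010003c0010000000000000000000000000000) (nat_lit 0x0) (nat_lit 0x8000c000020008000400020000000000000000000) := T_17 (nat_lit 111) (nat_lit 125) (nat_lit 2) (nat_lit 6) (nat_lit 7) L31767 (by decide +kernel)
theorem L31769 : W_17 (nat_lit 5) (nat_lit 0x40002000000010003c0000000000000000000000000000000) (nat_lit 0x0) (nat_lit 0x8000c000020038000400020000000000000000000) := T_17 (nat_lit 112) (nat_lit 113) (nat_lit 2) (nat_lit 7) (nat_lit 7) L31768 (by decide +kernel)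
theorem L31770 : W_17 (nat_lit 2) (nat_lit 0x4003e000000054003e0009000000020000000000000000000) (nat_lit 0x0) (nat_lit 0xe0000000000000000000000000000000000000000000000000) := D_17 (nat_lit 198) (nat_lit 197) (nat_lit 199) (nat_lit 3) (nat_lit 7) (nat_lit 10) (nat_lit 3) (nat_lit 8) (nat_lit 10) (by decide +kernel)
theorem L31771 : W_17 (nat_lit 3) (nat_lit 0x4001e000000054003e0009000000020000000000000000000) (nat_lit 0x0) (nat_lit 0xe8002000000000000000000000000000000000000000000000) := T_17 (nat_lit 181) (nat_lit 195) (nat_lit 1) (nat_lit 11) (nat_lit 10) L31770 (by decide +kernel)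
theorem L31772 : W_17 (nat_lit 4) (nat_lit 0x4001e000000054003e0009000000000000000000000000000) (nat_lit 0x0) (nat_lit 0xe8002000000000000000000000400020000000000000000000) := T_17 (nat_lit 77) (nat_lit 94) (nat_lit 7) (nat_lit 9) (nat_lit 4) L31771 (by decide +kernel)
theorem L31773 : W_17 (nat_lit 5) (nat_lit 0x40016000000054003e0009000000000000000000000000000) (nat_lit 0x0) (nat_lit 0xea002800000000000000000000400020000000000000000000) := T_17 (nat_lit 179) (nat_lit 193) (nat_lit 1) (nat_lit 10) (nat_lit 10) L31772 (by decide +kernel)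
theorem L31774 : W_17 (nat_lit 6) (nat_lit 0x40006000000054003e0009000000000000000000000000000) (nat_lit 0x0) (nat_lit 0xea003800080000000000000000400020000000000000000000) := T_17 (nat_lit 180) (nat_lit 163) (nat_lit 4) (nat_lit 10) (nat_lit 10) L31773 (by decide +kernel)
theorem L31775 : W_17 (nat_lit 7) (nat_lit 0x40006000000054003e0001000000000000000000000000000) (nat_lit 0x0) (nat_lit 0xea003800080000000000018000400020000000000000000000) := T_17 (nat_lit 111) (nat_lit 112) (nat_lit 2) (nat_lit 6) (nat_lit 7) L31774 (by decide +kernel)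
theorem L31776 : W_17 (nat_lit 8) (nat_lit 0x40006000000050003e0001000000000000000000000000000) (nat_lit 0x0) (nat_lit 0xea003800080000600000018000400020000000000000000000) := T_17 (nat_lit 142) (nat_lit 141) (nat_lit 1) (nat_lit 9) (nat_lit 7) L31775 (by decide +kernel)
theorem L31777 : W_17 (nat_lit 9) (nat_lit 0x40006000000050003c0001000000000000000000000000000) (nat_lit 0x0) (nat_lit 0xea003800080000600020018800400020000000000000000000) := T_17 (nat_lit 125) (nat_lit 107) (nat_lit 0) (nat_lit 9) (nat_lit 7) L31776 (by decide +kernel)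
theorem L31778 : W_17 (nat_lit 10) (nat_lit 0x40002000000050003c0001000000000000000000000000000) (nat_lit 0x0) (nat_lit 0xea003c000a0000600020018800400020000000000000000000) := T_17 (nat_lit 178) (nat_lit 161) (nat_lit 5) (nat_lit 8) (nat_lit 7) L31777 (by decide +kernel)
theorem L31779 : W_17 (nat_lit 11) (nat_lit 0x40002000000050003c0000000000000000000000000000000) (nat_lit 0x0) (nat_lit 0xea003c000a000060002001b800400020000000000000000000) := T_17 (nat_lit 108) (nat_lit 109) (nat_lit 0) (nat_lit 10) (nat_lit 7) L31778 (by decide +kernel)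
theorem L31780 : W_17 (nat_lit 12) (nat_lit 0x40002000000010003c0000000000000000000000000000000) (nat_lit 0x0) (nat_lit 0xea003c000a000c60002001b800400020000000000000000000) := T_17 (nat_lit 146) (nat_lit 147) (nat_lit 3) (nat_lit 7) (nat_lit 7) L31779 (by decide +kernel)
theorem L31781 : W_17 (nat_lit 2) (nat_lit 0x40002000200090003c0020000000000000000000000000000) (nat_lit 0x0) (nat_lit 0x10000400040000000000000000000000000000) := D_17 (nat_lit 130) (nat_lit 114) (nat_lit 148) (nat_lit 2) (nat_lit 8) (nat_lit 7) (nat_lit 3) (nat_lit 8) (nat_lit 7) (by decide +kernel)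
theorem L31782 : W_17 (nat_lit 3) (nat_lit 0x40002000200010003c0020000000000000000000000000000) (nat_lit 0x0) (nat_lit 0x1c000400040000000000000000000000000000) := T_17 (nat_lit 147) (nat_lit 146) (nat_lit 3) (nat_lit 7) (nat_lit 7) L31781 (by decide +kernel)
theorem L31783 : W_17 (nat_lit 4) (nat_lit 0x40002000200010003c0000000000000000000000000000000) (nat_lit 0x0) (nat_lit 0x1c000400070000000000000000000000000000) := T_17 (nat_lit 113) (nat_lit 112) (nat_lit 2) (nat_lit 7) (nat_lit 7) L31782 (by decide +kernel)
theorem L31784 : W_17 (nat_lit 5) (nat_lit 0x40002000000010003c0000000000000000000000000000000) (nat_lit 0x0) (nat_lit 0x40002001c000400070000000000000000000000000000) := T_17 (nat_lit 161) (nat_lit 178) (nat_lit 5) (nat_lit 8) (nat_lit 7) L31783 (by decide +kernel)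
theorem L31785 : W_17 (nat_lit 13) (nat_lit 0x4000200000001000380000000000000000000000000000000) (nat_lit 0x0) (nat_lit 0xa003fa00fc00fe001c60046007b800500028000000000000000000) := Q_17 (nat_lit 126) (C_17 L31750 (C_17 L31756 (C_17 L31761 (C_17 L31765 (C_17 L31769 (C_17 L31780 (C_17 L31784 N_17))))))) (by decide +kernel)
theorem L31786 : W_17 (nat_lit 2) (nat_lit 0x40002000000010007c0020000000000000000000000000000) (nat_lit 0x0) (nat_lit 0x1c000000000000000000000000000000000000) := D_17 (nat_lit 147) (nat_lit 148) (nat_lit 146) (nat_lit 3) (nat_lit 8) (nat_lit 7) (nat_lit 3) (nat_lit 7) (nat_lit 7) (by decide +kernel)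
theorem L31787 : W_17 (nat_lit 3) (nat_lit 0x4000200000001000780020000000000000000000000000000) (nat_lit 0x0) (nat_lit 0x1c000040010000000000000000000000000000) := T_17 (nat_lit 126) (nat_lit 112) (nat_lit 2) (nat_lit 7) (nat_lit 7) L31786 (by decide +kernel)
theorem L31788 : W_17 (nat_lit 4) (nat_lit 0x4000200000001000780000000000000000000000000000000) (nat_lit 0x0) (nat_lit 0x1c000040070000000000000000000000000000) := T_17 (nat_lit 113) (nat_lit 114) (nat_lit 2) (nat_lit 8) (nat_lit 7) L31787 (by decide +kernel)
theorem L31789 : W_17 (nat_lit 5) (nat_lit 0x4000200000001000380000000000000000000000000000000) (nat_lit 0x0) (nat_lit 0x1c800440070000000000000000000000000000) := T_17 (nat_lit 130) (nat_lit 143) (nat_lit 1) (nat_lit 11) (nat_lit 7) L31788 (by decide +kernel)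
theorem L31790 : W_17 (nat_lit 2) (nat_lit 0x4000200000001800380000000000000000000000000000000) (nat_lit 0x0) (nat_lit 0x600040000000000000000000000000000000) := D_17 (nat_lit 142) (nat_lit 126) (nat_lit 141) (nat_lit 1) (nat_lit 10) (nat_lit 7) (nat_lit 2) (nat_lit 5) (nat_lit 8) (by decide +kernel)
theorem L31791 : W_17 (nat_lit 3) (nat_lit 0x4000200000001000380000000000000000000000000000000) (nat_lit 0x0) (nat_lit 0xe00440000000000000000000000000000000) := T_17 (nat_lit 143) (nat_lit 130) (nat_lit 1) (nat_lit 11) (nat_lit 7) L31790 (by decide +kernel)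
theorem L31792 : W_17 (nat_lit 2) (nat_lit 0x4000200020011000780040000000000000000000000000000) (nat_lit 0x0) (nat_lit 0x20000800080000000000000000000000000000) := D_17 (nat_lit 131) (nat_lit 115) (nat_lit 149) (nat_lit 2) (nat_lit 9) (nat_lit 7) (nat_lit 3) (nat_lit 9) (nat_lit 7) (by decide +kernel)
theorem L31793 : W_17 (nat_lit 3) (nat_lit 0x4000200020001000780040000000000000000000000000000) (nat_lit 0x0) (nat_lit 0x38000800080000000000000000000000000000) := T_17 (nat_lit 148) (nat_lit 147) (nat_lit 3) (nat_lit 8) (nat_lit 7) L31792 (by decide +kernel)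
theorem L31794 : W_17 (nat_lit 4) (nat_lit 0x4000200020001000780000000000000000000000000000000) (nat_lit 0x0) (nat_lit 0x380008000e0000000000000000000000000000) := T_17 (nat_lit 114) (nat_lit 113) (nat_lit 2) (nat_lit 8) (nat_lit 7) L31793 (by decide +kernel)
theorem L31795 : W_17 (nat_lit 5) (nat_lit 0x4000200020001000380000000000000000000000000000000) (nat_lit 0x0) (nat_lit 0x38800c000e0000000000000000000000000000) := T_17 (nat_lit 130) (nat_lit 143) (nat_lit 1) (nat_lit 11) (nat_lit 7) L31794 (by decide +kernel)
theorem L31796 : W_17 (nat_lit 6) (nat_lit 0x4000200000001000380000000000000000000000000000000) (nat_lit 0x0) (nat_lit 0x400020038800c000e0000000000000000000000000000) := T_17 (nat_lit 161) (nat_lit 178) (nat_lit 5) (nat_lit 8) (nat_lit 7) L31795 (by decide +kernel)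
theorem L31797 : W_17 (nat_lit 2) (nat_lit 0x40002000200058003c0000000000000000000000000000000) (nat_lit 0x0) (nat_lit 0x3000100000000000000000000000) := D_17 (nat_lit 109) (nat_lit 108) (nat_lit 92) (nat_lit 0) (nat_lit 10) (nat_lit 7) (nat_lit 7) (nat_lit 7) (nat_lit 5) (by decide +kernel)
theorem L31798 : W_17 (nat_lit 3) (nat_lit 0x40002000200050003c0000000000000000000000000000000) (nat_lit 0x0) (nat_lit 0xc00000003000100000000000000000000000) := T_17 (nat_lit 143) (nat_lit 142) (nat_lit 1) (nat_lit 10) (nat_lit 7) L31797 (by decide +kernel)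
theorem L31799 : W_17 (nat_lit 4) (nat_lit 0x40002000200010003c0000000000000000000000000000000) (nat_lit 0x0) (nat_lit 0xcc00000003000100000000000000000000000) := T_17 (nat_lit 146) (nat_lit 147) (nat_lit 3) (nat_lit 7) (nat_lit 7) L31798 (by decide +kernel)
theorem L31800 : W_17 (nat_lit 5) (nat_lit 0x40002000000010003c0000000000000000000000000000000) (nat_lit 0x0) (nat_lit 0x40002000cc00000003000100000000000000000000000) := T_17 (nat_lit 161) (nat_lit 178) (nat_lit 5) (nat_lit 8) (nat_lit 7) L31799 (by decide +kernel)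
theorem L31801 : W_17 (nat_lit 13) (nat_lit 0x4000200000001000380000000000000000000000000000000) (nat_lit 0x0) (nat_lit 0xea003c000a000ce0006003b800500020000000000000000000) := Q_17 (nat_lit 126) (C_17 L31769 (C_17 L31780 (C_17 L31765 (C_17 L31800 N_17)))) (by decide +kernel)
theorem L31802 : W_17 (nat_lit 14) (nat_lit 0x4000200000001000280000000000000000000000000000000) (nat_lit 0x0) (nat_lit 0xa003fa00fc00fe003ce00d600fb800500028000000000000000000) := Q_17 (nat_lit 128) (C_17 L31785 (C_17 L31789 (C_17 L31791 (C_17 L31796 (C_17 L31801 N_17))))) (by decide +kernel)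
theorem L31803 : W_17 (nat_lit 3) (nat_lit 0x4000200000001800280000000000000000000000000000000) (nat_lit 0x0) (nat_lit 0x600540000000000000000000000000000000) := T_17 (nat_lit 128) (nat_lit 130) (nat_lit 1) (nat_lit 11) (nat_lit 7) L31790 (by decide +kernel)
theorem L31804 : W_17 (nat_lit 4) (nat_lit 0x4000200000001000280000000000000000000000000000000) (nat_lit 0x0) (nat_lit 0x10000e00540000000000000000000000000000000) := T_17 (nat_lit 143) (nat_lit 160) (nat_lit 6) (nat_lit 7) (nat_lit 11) L31803 (by decide +kernel)
theorem L31805 : W_17 (nat_lit 17) (nat_lit 0x4000200000001000080000000000000000000000000000000) (nat_lit 0x80000000100000002000000004000000000000000000000000000) (nat_lit 0x1a001f800fe00ffd07ff87ffc3ffe1fff07ff87ffc1fff8fff07fe80fe007f000200) := Q_17 (nat_lit 129) (C_17 L28927 (C_17 L29218 (C_17 L31700 (C_17 L31802 (C_17 L31804 N_17))))) (by decide +kernel)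
end Crest.Agent.Helper32.Snaky.R1_0
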