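import Crest.Agent.Helper32.Snaky.Gen.R1_0_p18
set_option autoImplicit false
set_option maxRecDepth 100000
set_option linter.all false
set_option Elab.async false
namespace Crest.Agent.Helper32.Snaky.R1_0
@[reducible] def W_19 (d M Bz Z : Nat) : Prop := Crest.Agent.Helper32.Snaky.Wins (nat_lit 17) d M Bz Z
theorem D_19 {d M Bz Z : Nat} (m t1 t2 o1 x1 y1 o2 x2 y2 : Nat) (h : Crest.Agent.Helper32.Snaky.chkDoubleC (nat_lit 17) d M Bz Z m t1 t2 o1 x1 y1 o2 x2 y2 = true) : W_19 d M Bz Z := Crest.Agent.Helper32.Snaky.doubleC m t1 t2 o1 x1 y1 o2 x2 y2 h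
theorem T_19 {d M Bz Z cd cM cBz cZ : Nat} (m t o x y : Nat) (child : W_19 cd cM cBz cZ) (h : Crest.Agent.Helper32.Snaky.chkThreatC (nat_lit 17) d M Bz Z cd cM cBz cZ m t o x y = true) : W_19 d M Bz Z := Crest.Agent.Helper32.Snaky.threatC m t o x y child h
theorem Q_19 {d M Bz Z : Nat} (m : Nat) {l : List Crest.Agent.Helper32.Snaky.Spec} (kids : Crest.Agent.Helper32.Snaky.AllWins (nat_lit 17) l) (h : Crest.Agent.Helper32.Snaky.chkQuiet d M Bz Z m l = true) : W_19 d M Bz Z := Crest.Agent.Helper32.Snaky.quiet m kids h
theorem C_19 {cd cM cBz cZ : Nat} {l : List Crest.Agent.Helper32.Snaky.Spec} (h : W_19 cd cM cBz cZ) (hl : Crest.Agent.Helper32.Snaky.AllWins (nat_lit 17) l) : Crest.Agent.Helper32.Snaky.AllWins (nat_lit 17) ((cd, cM, cBz, cZ) :: l) := Crest.Agent.Helper32.Snaky.AllWins.cons h hl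
theorem N_19 : Crest.Agent.Helper32.Snaky.AllWins (nat_lit 17) [] := Crest.Agent.Helper32.Snaky.AllWins.nil
theorem L23215 : W_19 (nat_lit 2) (nat_lit 0xc000a001d000280006001400080000000000000000000000000000000) (nat_lit 0x0) (nat_lit 0xa00020000000000000000000000000000000) := D_19 (nat_lit 141) (nat_lit 125) (nat_lit 143) (nat_lit 6) (nat_lit 5) (nat_lit 11) (nat_lit 1) (nat_lit 8) (nat_lit 8) (by decide +kernel)
theorem L23216 : W_19 (nat_lit 3) (nat_lit 0xc000a001d000280006001000080000000000000000000000000000000) (nat_lit 0x0) (nat_lit 0x8000e00020000000000000000000000000000000) := T_19 (nat_lit 142) (nat_lit 159) (nat_lit 6) (nat_lit 5) (nat_lit 12) L23215 (by decide +kernel)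
theorem L23217 : W_19 (nat_lit 4) (nat_lit 0xc000a001d000280002001000080000000000000000000000000000000) (nat_lit 0x0) (nat_lit 0xc000f00020000000000000000000000000000000) := T_19 (nat_lit 158) (nat_lit 140) (nat_lit 4) (nat_lit 5) (nat_lit 12) L23216 (by decide +kernel)
theorem L23218 : W_19 (nat_lit 5) (nat_lit 0xc000a001d000280000001000080000000000000000000000000000000) (nat_lit 0x0) (nat_lit 0x4000e000f00020000000000000000000000000000000) := T_19 (nat_lit 157) (nat_lit 174) (nat_lit 4) (nat_lit 5) (nat_lit 13) L23217 (by decide +kernel)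
theorem L23219 : W_19 (nat_lit 6) (nat_lit 0x4000a001d000280000001000080000000000000000000000000000000) (nat_lit 0x0) (nat_lit 0x1000080000000000004000e000f00020000000000000000000000000000000) := T_19 (nat_lit 227) (nat_lit 244) (nat_lit 7) (nat_lit 5) (nat_lit 10) L23218 (by decide +kernel)
theorem L23220 : W_19 (nat_lit 2) (nat_lit 0x6000a001d000280006001400080000000000000000000000000000000) (nat_lit 0x0) (nat_lit 0xa00020000000000000000000000000000000) := D_19 (nat_lit 141) (nat_lit 125) (nat_lit 143) (nat_lit 6) (nat_lit 5) (nat_lit 11) (nat_lit 1) (nat_lit 8) (nat_lit 8) (by decide +kernel)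
theorem L23221 : W_19 (nat_lit 3) (nat_lit 0x6000a001d000280006001000080000000000000000000000000000000) (nat_lit 0x0) (nat_lit 0x8000e00020000000000000000000000000000000) := T_19 (nat_lit 142) (nat_lit 159) (nat_lit 6) (nat_lit 5) (nat_lit 12) L23220 (by decide +kernel)
theorem L23222 : W_19 (nat_lit 4) (nat_lit 0x6000a001d000280004001000080000000000000000000000000000000) (nat_lit 0x0) (nat_lit 0xa000f00020000000000000000000000000000000) := T_19 (nat_lit 157) (nat_lit 140) (nat_lit 4) (nat_lit 5) (nat_lit 12) L23221 (by decide +kernel)
theorem L23223 : W_19 (nat_lit 5) (nat_lit 0x6000a001d000280000001000080000000000000000000000000000000) (nat_lit 0x0) (nat_lit 0x1000000000000e000f00020000000000000000000000000000000) := T_19 (nat_lit 158) (nat_lit 208) (nat_lit 5) (nat_lit 5) (nat_lit 9) L23222 (by decide +kernel)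
theorem L23224 : W_19 (nat_lit 6) (nat_lit 0x4000a001d000280000001000080000000000000000000000000000000) (nat_lit 0x0) (nat_lit 0x400020001000000000000e000f00020000000000000000000000000000000) := T_19 (nat_lit 225) (nat_lit 242) (nat_lit 5) (nat_lit 5) (nat_lit 10) L23223 (by decide +kernel)
theorem L23225 : W_19 (nat_lit 2) (nat_lit 0xe000a001d000280004001700080000000000000000000000000000000) (nat_lit 0x0) (nat_lit 0x800140000000000000000000000000000000) := D_19 (nat_lit 143) (nat_lit 126) (nat_lit 128) (nat_lit 2) (nat_lit 4) (nat_lit 8) (nat_lit 2) (nat_lit 5) (nat_lit 8) (by decide +kernel)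
theorem L23226 : W_19 (nat_lit 3) (nat_lit 0xe000a001d000280004001600080000000000000000000000000000000) (nat_lit 0x0) (nat_lit 0x900148000000000000000000000000000000) := T_19 (nat_lit 140) (nat_lit 123) (nat_lit 4) (nat_lit 5) (nat_lit 11) L23225 (by decide +kernel)
theorem L23227 : W_19 (nat_lit 4) (nat_lit 0xe000a001d000280004001400080000000000000000000000000000000) (nat_lit 0x0) (nat_lit 0xb00168000000000000000000000000000000) := T_19 (nat_lit 141) (nat_lit 125) (nat_lit 6) (nat_lit 5) (nat_lit 11) L23226 (by decide +kernel)
theorem L23228 : W_19 (nat_lit 5) (nat_lit 0xe000a001d000280004001000080000000000000000000000000000000) (nat_lit 0x0) (nat_lit 0x8000f00168000000000000000000000000000000) := T_19 (nat_lit 142) (nat_lit 159) (nat_lit 6) (nat_lit 5) (nat_lit 12) L23227 (by decide +kernel)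
theorem L23229 : W_19 (nat_lit 6) (nat_lit 0xe000a001d000280000001000080000000000000000000000000000000) (nat_lit 0x0) (nat_lit 0x1000000000000c000f00168000000000000000000000000000000) := T_19 (nat_lit 158) (nat_lit 208) (nat_lit 5) (nat_lit 5) (nat_lit 9) L23228 (by decide +kernel)
theorem L23230 : W_19 (nat_lit 7) (nat_lit 0xc000a001d000280000001000080000000000000000000000000000000) (nat_lit 0x0) (nat_lit 0x400020001000000000000c000f00168000000000000000000000000000000) := T_19 (nat_lit 225) (nat_lit 242) (nat_lit 5) (nat_lit 5) (nat_lit 10) L23229 (by decide +kernel)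
theorem L23231 : W_19 (nat_lit 8) (nat_lit 0x4000a001d000280000001000080000000000000000000000000000000) (nat_lit 0x0) (nat_lit 0x14000a0001000000000000c000f00168000000000000000000000000000000) := T_19 (nat_lit 227) (nat_lit 244) (nat_lit 7) (nat_lit 5) (nat_lit 10) L23230 (by decide +kernel)
theorem L23232 : W_19 (nat_lit 10) (nat_lit 0xa001d000280000001000080000000000000000000000000000000) (nat_lit 0x0) (nat_lit 0x8001c000e0001000080004000e000f00168000000000000000000000000000000) := Q_19 (nat_lit 226) (C_19 L18633 (C_19 L23210 (C_19 L23214 (C_19 L23219 (C_19 L23224 (C_19 L23231 N_19)))))) (by decide +kernel)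
theorem L23233 : W_19 (nat_lit 5) (nat_lit 0xa001d0002c0000001000080000000000000000000000000000000) (nat_lit 0x0) (nat_lit 0x8001c000e00000000800000002000000000000000000000000000000000000000) := T_19 (nat_lit 226) (nat_lit 157) (nat_lit 4) (nat_lit 5) (nat_lit 13) L23213 (by decide +kernel)
theorem L23234 : W_19 (nat_lit 6) (nat_lit 0xa001d000280000001000080000000000000000000000000000000) (nat_lit 0x0) (nat_lit 0x8001c000e00000002800040002000000000000000000000000000000000000000) := T_19 (nat_lit 174) (nat_lit 193) (nat_lit 0) (nat_lit 8) (nat_lit 11) L23233 (by decide +kernel)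
theorem L23235 : W_19 (nat_lit 2) (nat_lit 0xb001d000280004001200080000000000000000000000000000000) (nat_lit 0x0) (nat_lit 0x2000100008000000000000000000000000000000) := D_19 (nat_lit 140) (nat_lit 123) (nat_lit 157) (nat_lit 4) (nat_lit 5) (nat_lit 11) (nat_lit 4) (nat_lit 5) (nat_lit 12) (by decide +kernel)
theorem L23236 : W_19 (nat_lit 3) (nat_lit 0xb001d000280004001000080000000000000000000000000000000) (nat_lit 0x0) (nat_lit 0x800000002000300008000000000000000000000000000000) := T_19 (nat_lit 141) (nat_lit 191) (nat_lit 5) (nat_lit 5) (nat_lit 8) L23235 (by decide +kernel)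
theorem L23237 : W_19 (nat_lit 4) (nat_lit 0xb001d000280000001000080000000000000000000000000000000) (nat_lit 0x0) (nat_lit 0x200000000800000006000300008000000000000000000000000000000) := T_19 (nat_lit 158) (nat_lit 225) (nat_lit 5) (nat_lit 5) (nat_lit 9) L23236 (by decide +kernel)
theorem L23238 : W_19 (nat_lit 5) (nat_lit 0xa001d000280000001000080000000000000000000000000000000) (nat_lit 0x0) (nat_lit 0x200010002800000006000300008000000000000000000000000000000) := T_19 (nat_lit 208) (nat_lit 193) (nat_lit 1) (nat_lit 8) (nat_lit 11) L23237 (by decide +kernel)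
theorem L23239 : W_19 (nat_lit 11) (nat_lit 0xa001d000200000001000080000000000000000000000000000000) (nat_lit 0x0) (nat_lit 0x8001c000e000100028000c000e000f00168000000000000000000000000000000) := Q_19 (nat_lit 175) (C_19 L23202 (C_19 L23232 (C_19 L23234 (C_19 L23238 N_19)))) (by decide +kernel)
theorem L23240 : W_19 (nat_lit 2) (nat_lit 0xa001f000200000001000080000000000000000000000000000000) (nat_lit 0x0) (nat_lit 0x300000800000000000000000000000000000000000000000000000) := D_19 (nat_lit 212) (nat_lit 191) (nat_lit 213) (nat_lit 3) (nat_lit 4) (nat_lit 11) (nat_lit 3) (nat_lit 5) (nat_lit 11) (by decide +kernel)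
theorem L23241 : W_19 (nat_lit 3) (nat_lit 0xa001d000200000001000080000000000000000000000000000000) (nat_lit 0x0) (nat_lit 0x310002800000000000000000000000000000000000000000000000) := T_19 (nat_lit 193) (nat_lit 208) (nat_lit 1) (nat_lit 8) (nat_lit 11) L23240 (by decide +kernel)
theorem L23242 : W_19 (nat_lit 2) (nat_lit 0xb0000e0016000a001d800200000001000080000000000000000000000000000000) (nat_lit 0x0) (nat_lit 0x60002000000000000000000000000000000000000000000000000000000000) := D_19 (nat_lit 246) (nat_lit 245) (nat_lit 229) (nat_lit 7) (nat_lit 7) (nat_lit 11) (nat_lit 7) (nat_lit 7) (nat_lit 10) (by decide +kernel)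
theorem L23243 : W_19 (nat_lit 3) (nat_lit 0xb0000e0006000a001d800200000001000080000000000000000000000000000000) (nat_lit 0x0) (nat_lit 0x60003800000000000000000000000000000000000000000000000000000000) := T_19 (nat_lit 228) (nat_lit 227) (nat_lit 1) (nat_lit 7) (nat_lit 13) L23242 (by decide +kernel)
theorem L23244 : W_19 (nat_lit 4) (nat_lit 0x30000e0006000a001d800200000001000080000000000000000000000000000000) (nat_lit 0x0) (nat_lit 0xc00060003800000000000000000000000000000000000000000000000000000000) := T_19 (nat_lit 263) (nat_lit 262) (nat_lit 0) (nat_lit 8) (nat_lit 15) L23243 (by decide +kernel)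
theorem L23245 : W_19 (nat_lit 5) (nat_lit 0x30000c0006000a001d800200000001000080000000000000000000000000000000) (nat_lit 0x0) (nat_lit 0xc00063003800000000000000000000000000000000000000000000000000000000) := T_19 (nat_lit 241) (nat_lit 240) (nat_lit 3) (nat_lit 2) (nat_lit 14) L23244 (by decide +kernel)
theorem L23246 : W_19 (nat_lit 6) (nat_lit 0x10000c0006000a001d800200000001000080000000000000000000000000000000) (nat_lit 0x0) (nat_lit 0x4000e00063003800000000000000000000000000000000000000000000000000000000) := T_19 (nat_lit 261) (nat_lit 278) (nat_lit 7) (nat_lit 5) (nat_lit 12) L23245 (by decide +kernel)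
theorem L23247 : W_19 (nat_lit 7) (nat_lit 0xc0006000a001d800200000001000080000000000000000000000000000000) (nat_lit 0x0) (nat_lit 0x4000f00063003800010000000000000000000000000000000000000000000000000000) := T_19 (nat_lit 260) (nat_lit 208) (nat_lit 7) (nat_lit 4) (nat_lit 11) L23246 (by decide +kernel)
theorem L23248 : W_19 (nat_lit 8) (nat_lit 0xc0004000a001d800200000001000080000000000000000000000000000000) (nat_lit 0x0) (nat_lit 0x4000f00063003a00010000000080000000000000000000000000000000000000000000) := T_19 (nat_lit 225) (nat_lit 175) (nat_lit 5) (nat_lit 5) (nat_lit 10) L23247 (by decide +kernel)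
theorem L23249 : W_19 (nat_lit 9) (nat_lit 0x80004000a001d800200000001000080000000000000000000000000000000) (nat_lit 0x0) (nat_lit 0x4000f80067003a00010000000080000000000000000000000000000000000000000000) := T_19 (nat_lit 242) (nat_lit 259) (nat_lit 5) (nat_lit 5) (nat_lit 11) L23248 (by decide +kernel)
theorem L23250 : W_19 (nat_lit 10) (nat_lit 0x80004000a001d000200000001000080000000000000000000000000000000) (nat_lit 0x0) (nat_lit 0x4000f80067003a000100008000c0000000000000000000000000000000000000000000) := T_19 (nat_lit 191) (nat_lit 174) (nat_lit 4) (nat_lit 5) (nat_lit 14) L23249 (by decide +kernel)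
theorem L23251 : W_19 (nat_lit 2) (nat_lit 0x1000180004000a001d800200000001000080000000000000000000000000000000) (nat_lit 0x0) (nat_lit 0x1000080004000000000000000000000000000000000000000000000000000000000000) := D_19 (nat_lit 259) (nat_lit 242) (nat_lit 276) (nat_lit 5) (nat_lit 5) (nat_lit 11) (nat_lit 5) (nat_lit 5) (nat_lit 12) (by decide +kernel)
theorem L23252 : W_19 (nat_lit 3) (nat_lit 0x180004000a001d800200000001000080000000000000000000000000000000) (nat_lit 0x0) (nat_lit 0x1000180004000000010000000000000000000000000000000000000000000000000000) := T_19 (nat_lit 260) (nat_lit 208) (nat_lit 4) (nat_lit 5) (nat_lit 15) L23251 (by decide +kernel)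
theorem L23253 : W_19 (nat_lit 4) (nat_lit 0x80004000a001d800200000001000080000000000000000000000000000000) (nat_lit 0x0) (nat_lit 0x1000380014000000010000000000000000000000000000000000000000000000000000) := T_19 (nat_lit 244) (nat_lit 261) (nat_lit 7) (nat_lit 5) (nat_lit 11) L23252 (by decide +kernel)
theorem L23254 : W_19 (nat_lit 5) (nat_lit 0x80004000a001d000200000001000080000000000000000000000000000000) (nat_lit 0x0) (nat_lit 0x1000380014000000010000800040000000000000000000000000000000000000000000) := T_19 (nat_lit 191) (nat_lit 174) (nat_lit 4) (nat_lit 5) (nat_lit 14) L23253 (by decide +kernel)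
theorem L23255 : W_19 (nat_lit 2) (nat_lit 0x180004000a001d000200000001000080000000000000000000000000000000) (nat_lit 0x0) (nat_lit 0x1800000000000080000000000000000000000000000000000000000000) := D_19 (nat_lit 227) (nat_lit 175) (nat_lit 228) (nat_lit 7) (nat_lit 5) (nat_lit 10) (nat_lit 5) (nat_lit 7) (nat_lit 10) (by decide +kernel)
theorem L23256 : W_19 (nat_lit 3) (nat_lit 0x80004000a001d000200000001000080000000000000000000000000000000) (nat_lit 0x0) (nat_lit 0x200010001800000000000080000000000000000000000000000000000000000000) := T_19 (nat_lit 244) (nat_lit 261) (nat_lit 7) (nat_lit 5) (nat_lit 11) L23255 (by decide +kernel)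
theorem L23257 : W_19 (nat_lit 2) (nat_lit 0xe0006000b001dd00200000001000080000000000000000000000000000000) (nat_lit 0x0) (nat_lit 0x1800800000000000000000000000000000000000000000000000000000000) := D_19 (nat_lit 240) (nat_lit 227) (nat_lit 239) (nat_lit 2) (nat_lit 2) (nat_lit 14) (nat_lit 2) (nat_lit 1) (nat_lit 14) (by decide +kernel)
theorem L23258 : W_19 (nat_lit 3) (nat_lit 0xc0006000b001dd00200000001000080000000000000000000000000000000) (nat_lit 0x0) (nat_lit 0x40003800800000000000000000000000000000000000000000000000000000000) := T_19 (nat_lit 241) (nat_lit 258) (nat_lit 5) (nat_lit 4) (nat_lit 11) L23257 (by decide +kernel)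
theorem L23259 : W_19 (nat_lit 4) (nat_lit 0xc0006000b001dc00200000001000080000000000000000000000000000000) (nat_lit 0x0) (nat_lit 0x40003800800000000300000000000000000000000000000000000000000000000) := T_19 (nat_lit 188) (nat_lit 189) (nat_lit 3) (nat_lit 1) (nat_lit 11) L23258 (by decide +kernel)
theorem L23260 : W_19 (nat_lit 5) (nat_lit 0xc0006000b001d800200000001000080000000000000000000000000000000) (nat_lit 0x0) (nat_lit 0x40003800800000000700020000000000000000000000000000000000000000000) := T_19 (nat_lit 190) (nat_lit 173) (nat_lit 4) (nat_lit 4) (nat_lit 14) L23259 (by decide +kernel)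
theorem L23261 : W_19 (nat_lit 6) (nat_lit 0xc0006000a001d800200000001000080000000000000000000000000000000) (nat_lit 0x0) (nat_lit 0x140003800800010000700020000000000000000000000000000000000000000000) := T_19 (nat_lit 208) (nat_lit 260) (nat_lit 7) (nat_lit 4) (nat_lit 11) L23260 (by decide +kernel)
theorem L23262 : W_19 (nat_lit 7) (nat_lit 0xc0004000a001d800200000001000080000000000000000000000000000000) (nat_lit 0x0) (nat_lit 0x140003800a000100007000a0000000000000000000000000000000000000000000) := T_19 (nat_lit 225) (nat_lit 175) (nat_lit 5) (nat_lit 5) (nat_lit 10) L23261 (by decide +kernel)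
theorem L23263 : W_19 (nat_lit 8) (nat_lit 0x80004000a001d800200000001000080000000000000000000000000000000) (nat_lit 0x0) (nat_lit 0x1c0007800a000100007000a0000000000000000000000000000000000000000000) := T_19 (nat_lit 242) (nat_lit 259) (nat_lit 5) (nat_lit 5) (nat_lit 11) L23262 (by decide +kernel)
theorem L23264 : W_19 (nat_lit 9) (nat_lit 0x80004000a001d000200000001000080000000000000000000000000000000) (nat_lit 0x0) (nat_lit 0x1c0007800a00010000f000e0000000000000000000000000000000000000000000) := T_19 (nat_lit 191) (nat_lit 174) (nat_lit 4) (nat_lit 5) (nat_lit 14) L23263 (by decide +kernel)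
theorem L23265 : W_19 (nat_lit 11) (nat_lit 0x4000a001d000200000001000080000000000000000000000000000000) (nat_lit 0x0) (nat_lit 0x5000fc007f803a00010000f000e0000000000000000000000000000000000000000000) := Q_19 (nat_lit 243) (C_19 L18629 (C_19 L23250 (C_19 L23254 (C_19 L23256 (C_19 L23264 N_19))))) (by decide +kernel)
theorem L23266 : W_19 (nat_lit 2) (nat_lit 0x180004000a001d000280000001000080000000000000000000000000000000) (nat_lit 0x0) (nat_lit 0x800040002000000000000000000000000000000000000000) := D_19 (nat_lit 174) (nat_lit 157) (nat_lit 191) (nat_lit 4) (nat_lit 5) (nat_lit 13) (nat_lit 4) (nat_lit 5) (nat_lit 14) (by decide +kernel)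
theorem L23267 : W_19 (nat_lit 3) (nat_lit 0x180004000a001d000200000001000080000000000000000000000000000000) (nat_lit 0x0) (nat_lit 0x8000000008000c0002000000000000000000000000000000000000000) := T_19 (nat_lit 175) (nat_lit 227) (nat_lit 7) (nat_lit 5) (nat_lit 10) L23266 (by decide +kernel)
theorem L23268 : W_19 (nat_lit 4) (nat_lit 0x80004000a001d000200000001000080000000000000000000000000000000) (nat_lit 0x0) (nat_lit 0x2000100008000000008000c0002000000000000000000000000000000000000000) := T_19 (nat_lit 244) (nat_lit 261) (nat_lit 7) (nat_lit 5) (nat_lit 11) L23267 (by decide +kernel)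
theorem L23269 : W_19 (nat_lit 10) (nat_lit 0x4000a001d000200000001000080000000000000000000000000000000) (nat_lit 0x0) (nat_lit 0x10003c001f800a00010000f000e0002000000000000000000000000000000000000000) := Q_19 (nat_lit 243) (C_19 L23264 (C_19 L23254 (C_19 L18629 (C_19 L23268 N_19)))) (by decide +kernel)
theorem L23270 : W_19 (nat_lit 2) (nat_lit 0x6000a001d8002c0004001400080000000000000000000000000000000) (nat_lit 0x0) (nat_lit 0x200030000000000000000000000000000000) := D_19 (nat_lit 141) (nat_lit 124) (nat_lit 125) (nat_lit 5) (nat_lit 5) (nat_lit 7) (nat_lit 6) (nat_lit 5) (nat_lit 11) (by decide +kernel)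
theorem L23271 : W_19 (nat_lit 3) (nat_lit 0x6000a001d8002c0004001000080000000000000000000000000000000) (nat_lit 0x0) (nat_lit 0x8000600030000000000000000000000000000000) := T_19 (nat_lit 142) (nat_lit 159) (nat_lit 6) (nat_lit 5) (nat_lit 12) L23270 (by decide +kernel)
theorem L23272 : W_19 (nat_lit 4) (nat_lit 0x6000a001d0002c0004001000080000000000000000000000000000000) (nat_lit 0x0) (nat_lit 0x8000000000000800000008000600030000000000000000000000000000000) := T_19 (nat_lit 191) (nat_lit 243) (nat_lit 4) (nat_lit 5) (nat_lit 14) L23271 (by decide +kernel)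
theorem L23273 : W_19 (nat_lit 5) (nat_lit 0x6000a001d0002c0000001000080000000000000000000000000000000) (nat_lit 0x0) (nat_lit 0x800000001000080000000c000600030000000000000000000000000000000) := T_19 (nat_lit 158) (nat_lit 208) (nat_lit 5) (nat_lit 5) (nat_lit 9) L23272 (by decide +kernel)
theorem L23274 : W_19 (nat_lit 6) (nat_lit 0x4000a001d0002c0000001000080000000000000000000000000000000) (nat_lit 0x0) (nat_lit 0xc00020001000080000000c000600030000000000000000000000000000000) := T_19 (nat_lit 225) (nat_lit 242) (nat_lit 5) (nat_lit 5) (nat_lit 10) L23273 (by decide +kernel)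
theorem L23275 : W_19 (nat_lit 7) (nat_lit 0x4000a001d000280000001000080000000000000000000000000000000) (nat_lit 0x0) (nat_lit 0xc00020001000080004000e000600030000000000000000000000000000000) := T_19 (nat_lit 174) (nat_lit 157) (nat_lit 4) (nat_lit 5) (nat_lit 13) L23274 (by decide +kernel)
theorem L23276 : W_19 (nat_lit 2) (nat_lit 0x6000a001d8002c0004001700080000000000000000000000000000000) (nat_lit 0x0) (nat_lit 0x800140000000000000000000000000000000) := D_19 (nat_lit 143) (nat_lit 126) (nat_lit 128) (nat_lit 2) (nat_lit 4) (nat_lit 8) (nat_lit 2) (nat_lit 5) (nat_lit 8) (by decide +kernel)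
theorem L23277 : W_19 (nat_lit 3) (nat_lit 0x6000a001d8002c0004001600080000000000000000000000000000000) (nat_lit 0x0) (nat_lit 0x900148000000000000000000000000000000) := T_19 (nat_lit 140) (nat_lit 123) (nat_lit 4) (nat_lit 5) (nat_lit 11) L23276 (by decide +kernel)
theorem L23278 : W_19 (nat_lit 4) (nat_lit 0x6000a001d8002c0004001400080000000000000000000000000000000) (nat_lit 0x0) (nat_lit 0xb00158000000000000000000000000000000) := T_19 (nat_lit 141) (nat_lit 124) (nat_lit 5) (nat_lit 5) (nat_lit 7) L23277 (by decide +kernel)
theorem L23279 : W_19 (nat_lit 5) (nat_lit 0x6000a001d8002c0004001000080000000000000000000000000000000) (nat_lit 0x0) (nat_lit 0x8000f00158000000000000000000000000000000) := T_19 (nat_lit 142) (nat_lit 159) (nat_lit 6) (nat_lit 5) (nat_lit 12) L23278 (by decide +kernel)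
theorem L23280 : W_19 (nat_lit 6) (nat_lit 0x6000a001d0002c0004001000080000000000000000000000000000000) (nat_lit 0x0) (nat_lit 0x8000000000000800000008000f00158000000000000000000000000000000) := T_19 (nat_lit 191) (nat_lit 243) (nat_lit 4) (nat_lit 5) (nat_lit 14) L23279 (by decide +kernel)
theorem L23281 : W_19 (nat_lit 7) (nat_lit 0x6000a001d0002c0000001000080000000000000000000000000000000) (nat_lit 0x0) (nat_lit 0x800000001000080000000c000f00158000000000000000000000000000000) := T_19 (nat_lit 158) (nat_lit 208) (nat_lit 5) (nat_lit 5) (nat_lit 9) L23280 (by decide +kernel)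
theorem L23282 : W_19 (nat_lit 8) (nat_lit 0x4000a001d0002c0000001000080000000000000000000000000000000) (nat_lit 0x0) (nat_lit 0xc00020001000080000000c000f00158000000000000000000000000000000) := T_19 (nat_lit 225) (nat_lit 242) (nat_lit 5) (nat_lit 5) (nat_lit 10) L23281 (by decide +kernel)
theorem L23283 : W_19 (nat_lit 9) (nat_lit 0x4000a001d000280000001000080000000000000000000000000000000) (nat_lit 0x0) (nat_lit 0xc00020001000080004000e000f00158000000000000000000000000000000) := T_19 (nat_lit 174) (nat_lit 157) (nat_lit 4) (nat_lit 5) (nat_lit 13) L23282 (by decide +kernel)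
theorem L23284 : W_19 (nat_lit 2) (nat_lit 0xf800b401d8002c0000001000080000000000000000000000000000000) (nat_lit 0x0) (nat_lit 0x3000100000000000000000000000000000000000000000000000000000) := D_19 (nat_lit 228) (nat_lit 212) (nat_lit 229) (nat_lit 2) (nat_lit 4) (nat_lit 13) (nat_lit 0) (nat_lit 8) (nat_lit 13) (by decide +kernel)
theorem L23285 : W_19 (nat_lit 3) (nat_lit 0x7800b401d8002c0000001000080000000000000000000000000000000) (nat_lit 0x0) (nat_lit 0x3800108000000000000000000000000000000000000000000000000000) := T_19 (nat_lit 227) (nat_lit 207) (nat_lit 3) (nat_lit 2) (nat_lit 12) L23284 (by decide +kernel)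
theorem L23286 : W_19 (nat_lit 4) (nat_lit 0x7800b001d8002c0000001000080000000000000000000000000000000) (nat_lit 0x0) (nat_lit 0x380010e000000000000000000000000000000000000000000000000000) := T_19 (nat_lit 206) (nat_lit 205) (nat_lit 0) (nat_lit 5) (nat_lit 13) L23285 (by decide +kernel)
theorem L23287 : W_19 (nat_lit 5) (nat_lit 0x7000b001d8002c0000001000080000000000000000000000000000000) (nat_lit 0x0) (nat_lit 0x38c010e000000000000000000000000000000000000000000000000000) := T_19 (nat_lit 223) (nat_lit 222) (nat_lit 2) (nat_lit 1) (nat_lit 13) L23286 (by decide +kernel)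
theorem L23288 : W_19 (nat_lit 6) (nat_lit 0x6000b001d8002c0000001000080000000000000000000000000000000) (nat_lit 0x0) (nat_lit 0x20039c010e000000000000000000000000000000000000000000000000000) := T_19 (nat_lit 224) (nat_lit 241) (nat_lit 5) (nat_lit 4) (nat_lit 10) L23287 (by decide +kernel)
theorem L23289 : W_19 (nat_lit 7) (nat_lit 0x6000b001d0002c0000001000080000000000000000000000000000000) (nat_lit 0x0) (nat_lit 0xa0039c010e000800000000000000000000000000000000000000000000000) := T_19 (nat_lit 191) (nat_lit 243) (nat_lit 7) (nat_lit 4) (nat_lit 10) L23288 (by decide +kernel)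
theorem L23290 : W_19 (nat_lit 8) (nat_lit 0x6000a001d0002c0000001000080000000000000000000000000000000) (nat_lit 0x0) (nat_lit 0xa0039c011e000800000004000000000000000000000000000000000000000) := T_19 (nat_lit 208) (nat_lit 158) (nat_lit 5) (nat_lit 5) (nat_lit 9) L23289 (by decide +kernel)
theorem L23291 : W_19 (nat_lit 9) (nat_lit 0x4000a001d0002c0000001000080000000000000000000000000000000) (nat_lit 0x0) (nat_lit 0xe003bc011e000800000004000000000000000000000000000000000000000) := T_19 (nat_lit 225) (nat_lit 242) (nat_lit 5) (nat_lit 5) (nat_lit 10) L23290 (by decide +kernel)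
theorem L23292 : W_19 (nat_lit 10) (nat_lit 0x4000a001d000280000001000080000000000000000000000000000000) (nat_lit 0x0) (nat_lit 0xe003bc011e000800040006000000000000000000000000000000000000000) := T_19 (nat_lit 174) (nat_lit 157) (nat_lit 4) (nat_lit 5) (nat_lit 13) L23291 (by decide +kernel)
theorem L23293 : W_19 (nat_lit 2) (nat_lit 0x40004000a001d0002c0000001000080000000000000000000000000000000) (nat_lit 0x0) (nat_lit 0x80008000000000000800000000000000000000000000000000000000000000000) := D_19 (nat_lit 243) (nat_lit 191) (nat_lit 259) (nat_lit 4) (nat_lit 5) (nat_lit 14) (nat_lit 5) (nat_lit 5) (nat_lit 11) (by decide +kernel)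
theorem L23294 : W_19 (nat_lit 3) (nat_lit 0x4000a001d0002c0000001000080000000000000000000000000000000) (nat_lit 0x0) (nat_lit 0x8000c000200000000800000000000000000000000000000000000000000000000) := T_19 (nat_lit 242) (nat_lit 225) (nat_lit 5) (nat_lit 5) (nat_lit 10) L23293 (by decide +kernel)
theorem L23295 : W_19 (nat_lit 4) (nat_lit 0x4000a001d000280000001000080000000000000000000000000000000) (nat_lit 0x0) (nat_lit 0x8000c000200000000800040002000000000000000000000000000000000000000) := T_19 (nat_lit 174) (nat_lit 157) (nat_lit 4) (nat_lit 5) (nat_lit 13) L23294 (by decide +kernel)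
theorem L23296 : W_19 (nat_lit 2) (nat_lit 0x4000a001d000280006001400080000000000000000000000000000000) (nat_lit 0x0) (nat_lit 0xa00020000000000000000000000000000000) := D_19 (nat_lit 141) (nat_lit 125) (nat_lit 143) (nat_lit 6) (nat_lit 5) (nat_lit 11) (nat_lit 1) (nat_lit 8) (nat_lit 8) (by decide +kernel)
theorem L23297 : W_19 (nat_lit 3) (nat_lit 0x4000a001d000280006001000080000000000000000000000000000000) (nat_lit 0x0) (nat_lit 0x8000e00020000000000000000000000000000000) := T_19 (nat_lit 142) (nat_lit 159) (nat_lit 6) (nat_lit 5) (nat_lit 12) L23296 (by decide +kernel)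
theorem L23298 : W_19 (nat_lit 4) (nat_lit 0x4000a001d000280002001000080000000000000000000000000000000) (nat_lit 0x0) (nat_lit 0xc000f00020000000000000000000000000000000) := T_19 (nat_lit 158) (nat_lit 140) (nat_lit 4) (nat_lit 5) (nat_lit 12) L23297 (by decide +kernel)
theorem L23299 : W_19 (nat_lit 5) (nat_lit 0x4000a001d000280000001000080000000000000000000000000000000) (nat_lit 0x0) (nat_lit 0x4000e000f00020000000000000000000000000000000) := T_19 (nat_lit 157) (nat_lit 174) (nat_lit 4) (nat_lit 5) (nat_lit 13) L23298 (by decide +kernel)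
theorem L23300 : W_19 (nat_lit 2) (nat_lit 0x6000a001d000280004001700080000000000000000000000000000000) (nat_lit 0x0) (nat_lit 0x800140000000000000000000000000000000) := D_19 (nat_lit 143) (nat_lit 126) (nat_lit 128) (nat_lit 2) (nat_lit 4) (nat_lit 8) (nat_lit 2) (nat_lit 5) (nat_lit 8) (by decide +kernel)
theorem L23301 : W_19 (nat_lit 3) (nat_lit 0x6000a001d000280004001600080000000000000000000000000000000) (nat_lit 0x0) (nat_lit 0x900148000000000000000000000000000000) := T_19 (nat_lit 140) (nat_lit 123) (nat_lit 4) (nat_lit 5) (nat_lit 11) L23300 (by decide +kernel)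
theorem L23302 : W_19 (nat_lit 4) (nat_lit 0x6000a001d000280004001400080000000000000000000000000000000) (nat_lit 0x0) (nat_lit 0xb00168000000000000000000000000000000) := T_19 (nat_lit 141) (nat_lit 125) (nat_lit 6) (nat_lit 5) (nat_lit 11) L23301 (by decide +kernel)
theorem L23303 : W_19 (nat_lit 5) (nat_lit 0x6000a001d000280004001000080000000000000000000000000000000) (nat_lit 0x0) (nat_lit 0x8000f00168000000000000000000000000000000) := T_19 (nat_lit 142) (nat_lit 159) (nat_lit 6) (nat_lit 5) (nat_lit 12) L23302 (by decide +kernel)
theorem L23304 : W_19 (nat_lit 6) (nat_lit 0x6000a001d000280000001000080000000000000000000000000000000) (nat_lit 0x0) (nat_lit 0x1000000000000c000f00168000000000000000000000000000000) := T_19 (nat_lit 158) (nat_lit 208) (nat_lit 5) (nat_lit 5) (nat_lit 9) L23303 (by decide +kernel)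
theorem L23305 : W_19 (nat_lit 7) (nat_lit 0x4000a001d000280000001000080000000000000000000000000000000) (nat_lit 0x0) (nat_lit 0x400020001000000000000c000f00168000000000000000000000000000000) := T_19 (nat_lit 225) (nat_lit 242) (nat_lit 5) (nat_lit 5) (nat_lit 10) L23304 (by decide +kernel)
theorem L23306 : W_19 (nat_lit 11) (nat_lit 0x4000a001d000200000001000080000000000000000000000000000000) (nat_lit 0x0) (nat_lit 0x8000e003bc011e0008000c000e000f00178000000000000000000000000000000) := Q_19 (nat_lit 175) (C_19 L23224 (C_19 L23275 (C_19 L23283 (C_19 L23292 (C_19 L23295 (C_19 L23299 (C_19 L23305 N_19))))))) (by decide +kernel)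
theorem L23307 : W_19 (nat_lit 2) (nat_lit 0x800080004000a001d800200000001000080000000000000000000000000000000) (nat_lit 0x0) (nat_lit 0x1000100000000000010000000000000000000000000000000000000000000000000000) := D_19 (nat_lit 260) (nat_lit 208) (nat_lit 276) (nat_lit 4) (nat_lit 5) (nat_lit 15) (nat_lit 5) (nat_lit 5) (nat_lit 12) (by decide +kernel)
theorem L23308 : W_19 (nat_lit 3) (nat_lit 0x80004000a001d800200000001000080000000000000000000000000000000) (nat_lit 0x0) (nat_lit 0x1000180004000000010000000000000000000000000000000000000000000000000000) := T_19 (nat_lit 259) (nat_lit 242) (nat_lit 5) (nat_lit 5) (nat_lit 11) L23307 (by decide +kernel)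
theorem L23309 : W_19 (nat_lit 4) (nat_lit 0x80004000a001d000200000001000080000000000000000000000000000000) (nat_lit 0x0) (nat_lit 0x1000180004000000010000800040000000000000000000000000000000000000000000) := T_19 (nat_lit 191) (nat_lit 174) (nat_lit 4) (nat_lit 5) (nat_lit 14) L23308 (by decide +kernel)
theorem L23310 : W_19 (nat_lit 2) (nat_lit 0x1c0004000a001d000280006001400080000000000000000000000000000000) (nat_lit 0x0) (nat_lit 0xa00020000000000000000000000000000000) := D_19 (nat_lit 141) (nat_lit 125) (nat_lit 143) (nat_lit 6) (nat_lit 5) (nat_lit 11) (nat_lit 1) (nat_lit 8) (nat_lit 8) (by decide +kernel)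
theorem L23311 : W_19 (nat_lit 3) (nat_lit 0x1c0004000a001d000280006001000080000000000000000000000000000000) (nat_lit 0x0) (nat_lit 0x8000e00020000000000000000000000000000000) := T_19 (nat_lit 142) (nat_lit 159) (nat_lit 6) (nat_lit 5) (nat_lit 12) L23310 (by decide +kernel)
theorem L23312 : W_19 (nat_lit 4) (nat_lit 0x1c0004000a001d000280002001000080000000000000000000000000000000) (nat_lit 0x0) (nat_lit 0xc000f00020000000000000000000000000000000) := T_19 (nat_lit 158) (nat_lit 140) (nat_lit 4) (nat_lit 5) (nat_lit 12) L23311 (by decide +kernel)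
theorem L23313 : W_19 (nat_lit 5) (nat_lit 0x1c0004000a001d000280000001000080000000000000000000000000000000) (nat_lit 0x0) (nat_lit 0x4000e000f00020000000000000000000000000000000) := T_19 (nat_lit 157) (nat_lit 174) (nat_lit 4) (nat_lit 5) (nat_lit 13) L23312 (by decide +kernel)
theorem L23314 : W_19 (nat_lit 6) (nat_lit 0x1c0004000a001d000200000001000080000000000000000000000000000000) (nat_lit 0x0) (nat_lit 0x2000000000000c000e000f00020000000000000000000000000000000) := T_19 (nat_lit 175) (nat_lit 225) (nat_lit 5) (nat_lit 5) (nat_lit 10) L23313 (by decide +kernel)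
theorem L23315 : W_19 (nat_lit 7) (nat_lit 0x180004000a001d000200000001000080000000000000000000000000000000) (nat_lit 0x0) (nat_lit 0x800040002000000000000c000e000f00020000000000000000000000000000000) := T_19 (nat_lit 242) (nat_lit 259) (nat_lit 5) (nat_lit 5) (nat_lit 11) L23314 (by decide +kernel)
theorem L23316 : W_19 (nat_lit 8) (nat_lit 0x80004000a001d000200000001000080000000000000000000000000000000) (nat_lit 0x0) (nat_lit 0x2800140002000000000000c000e000f00020000000000000000000000000000000) := T_19 (nat_lit 244) (nat_lit 261) (nat_lit 7) (nat_lit 5) (nat_lit 11) L23315 (by decide +kernel)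
theorem L23317 : W_19 (nat_lit 2) (nat_lit 0x1c0006000a001d000200000001000080000000000000000000000000000000) (nat_lit 0x0) (nat_lit 0x20000180000000000000000000000000000000000000000000000000000000) := D_19 (nat_lit 224) (nat_lit 223) (nat_lit 245) (nat_lit 3) (nat_lit 2) (nat_lit 13) (nat_lit 0) (nat_lit 7) (nat_lit 14) (by decide +kernel)
theorem L23318 : W_19 (nat_lit 3) (nat_lit 0xc0006000a001d000200000001000080000000000000000000000000000000) (nat_lit 0x0) (nat_lit 0x200030000180000000000000000000000000000000000000000000000000000000) := T_19 (nat_lit 244) (nat_lit 261) (nat_lit 7) (nat_lit 5) (nat_lit 11) L23317 (by decide +kernel)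
theorem L23319 : W_19 (nat_lit 4) (nat_lit 0xc0004000a001d000200000001000080000000000000000000000000000000) (nat_lit 0x0) (nat_lit 0x200030000380000000000080000000000000000000000000000000000000000000) := T_19 (nat_lit 225) (nat_lit 175) (nat_lit 5) (nat_lit 5) (nat_lit 10) L23318 (by decide +kernel)
theorem L23320 : W_19 (nat_lit 5) (nat_lit 0x80004000a001d000200000001000080000000000000000000000000000000) (nat_lit 0x0) (nat_lit 0x280034000380000000000080000000000000000000000000000000000000000000) := T_19 (nat_lit 242) (nat_lit 259) (nat_lit 5) (nat_lit 5) (nat_lit 11) L23319 (by decide +kernel)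
theorem L23321 : W_19 (nat_lit 2) (nat_lit 0x1a00580004000a001d800200000001000080000000000000000000000000000000) (nat_lit 0x0) (nat_lit 0x3000100000000000000000000000000000000000000000000000000000) := D_19 (nat_lit 229) (nat_lit 228) (nat_lit 212) (nat_lit 7) (nat_lit 7) (nat_lit 10) (nat_lit 4) (nat_lit 8) (nat_lit 14) (by decide +kernel)
theorem L23322 : W_19 (nat_lit 3) (nat_lit 0x1a00180004000a001d800200000001000080000000000000000000000000000000) (nat_lit 0x0) (nat_lit 0x60003000100000000000000000000000000000000000000000000000000000) := T_19 (nat_lit 246) (nat_lit 245) (nat_lit 1) (nat_lit 8) (nat_lit 14) L23321 (by decide +kernel)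
theorem L23323 : W_19 (nat_lit 4) (nat_lit 0x1800180004000a001d800200000001000080000000000000000000000000000000) (nat_lit 0x0) (nat_lit 0x60060003000100000000000000000000000000000000000000000000000000000) := T_19 (nat_lit 257) (nat_lit 258) (nat_lit 2) (nat_lit 2) (nat_lit 15) L23322 (by decide +kernel)
theorem L23324 : W_19 (nat_lit 5) (nat_lit 0x1000180004000a001d800200000001000080000000000000000000000000000000) (nat_lit 0x0) (nat_lit 0x10000e0060003000100000000000000000000000000000000000000000000000000000) := T_19 (nat_lit 259) (nat_lit 276) (nat_lit 5) (nat_lit 5) (nat_lit 12) L23323 (by decide +kernel)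
theorem L23325 : W_19 (nat_lit 6) (nat_lit 0x180004000a001d800200000001000080000000000000000000000000000000) (nat_lit 0x0) (nat_lit 0x10001e0060003000110000000000000000000000000000000000000000000000000000) := T_19 (nat_lit 260) (nat_lit 208) (nat_lit 4) (nat_lit 5) (nat_lit 15) L23324 (by decide +kernel)
theorem L23326 : W_19 (nat_lit 7) (nat_lit 0x180004000a001d000200000001000080000000000000000000000000000000) (nat_lit 0x0) (nat_lit 0x10001e0060003000110000800040000000000000000000000000000000000000000000) := T_19 (nat_lit 191) (nat_lit 174) (nat_lit 4) (nat_lit 5) (nat_lit 14) L23325 (by decide +kernel)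
theorem L23327 : W_19 (nat_lit 8) (nat_lit 0x80004000a001d000200000001000080000000000000000000000000000000) (nat_lit 0x0) (nat_lit 0x10003e0070003000110000800040000000000000000000000000000000000000000000) := T_19 (nat_lit 244) (nat_lit 261) (nat_lit 7) (nat_lit 5) (nat_lit 11) L23326 (by decide +kernel)
theorem L23328 : W_19 (nat_lit 2) (nat_lit 0x2000080004000a001d800200000001000080000000000000000000000000000000) (nat_lit 0x0) (nat_lit 0x4000100000000000010000000000000000000000000000000000000000000000000000) := D_19 (nat_lit 260) (nat_lit 208) (nat_lit 278) (nat_lit 4) (nat_lit 5) (nat_lit 15) (nat_lit 7) (nat_lit 5) (nat_lit 12) (by decide +kernel)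
theorem L23329 : W_19 (nat_lit 3) (nat_lit 0x80004000a001d800200000001000080000000000000000000000000000000) (nat_lit 0x0) (nat_lit 0x4000300010000000010000000000000000000000000000000000000000000000000000) := T_19 (nat_lit 261) (nat_lit 244) (nat_lit 7) (nat_lit 5) (nat_lit 11) L23328 (by decide +kernel)
theorem L23330 : W_19 (nat_lit 4) (nat_lit 0x80004000a001d000200000001000080000000000000000000000000000000) (nat_lit 0x0) (nat_lit 0x4000300010000000010000800040000000000000000000000000000000000000000000) := T_19 (nat_lit 191) (nat_lit 174) (nat_lit 4) (nat_lit 5) (nat_lit 14) L23329 (by decide +kernel)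
theorem L23331 : W_19 (nat_lit 9) (nat_lit 0x4000a001d000200000001000080000000000000000000000000000000) (nat_lit 0x0) (nat_lit 0x50003e007c0033801100008000c000e000f00020000000000000000000000000000000) := Q_19 (nat_lit 243) (C_19 L23254 (C_19 L23309 (C_19 L23316 (C_19 L23320 (C_19 L23327 (C_19 L23330 N_19)))))) (by decide +kernel)
theorem L23332 : W_19 (nat_lit 2) (nat_lit 0x1e000a001d0002c0000001000080000000000000000000000000000000) (nat_lit 0x0) (nat_lit 0x40002000010000000000000000000000000000000000000000000000000000) := D_19 (nat_lit 229) (nat_lit 208) (nat_lit 246) (nat_lit 0) (nat_lit 8) (nat_lit 13) (nat_lit 7) (nat_lit 7) (nat_lit 10) (by decide +kernel)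
theorem L23333 : W_19 (nat_lit 3) (nat_lit 0xe000a001d0002c0000001000080000000000000000000000000000000) (nat_lit 0x0) (nat_lit 0x40003000110000000000000000000000000000000000000000000000000000) := T_19 (nat_lit 228) (nat_lit 212) (nat_lit 2) (nat_lit 4) (nat_lit 13) L23332 (by decide +kernel)
theorem L23334 : W_19 (nat_lit 4) (nat_lit 0xc000a001d0002c0000001000080000000000000000000000000000000) (nat_lit 0x0) (nat_lit 0x44003200110000000000000000000000000000000000000000000000000000) := T_19 (nat_lit 225) (nat_lit 242) (nat_lit 5) (nat_lit 5) (nat_lit 10) L23333 (by decide +kernel)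
theorem L23335 : W_19 (nat_lit 5) (nat_lit 0x4000a001d0002c0000001000080000000000000000000000000000000) (nat_lit 0x0) (nat_lit 0x54003a00110000000000000000000000000000000000000000000000000000) := T_19 (nat_lit 227) (nat_lit 244) (nat_lit 7) (nat_lit 5) (nat_lit 10) L23334 (by decide +kernel)
theorem L23336 : W_19 (nat_lit 6) (nat_lit 0x4000a001d000280000001000080000000000000000000000000000000) (nat_lit 0x0) (nat_lit 0x54003a00110000000040002000000000000000000000000000000000000000) := T_19 (nat_lit 174) (nat_lit 157) (nat_lit 4) (nat_lit 5) (nat_lit 13) L23335 (by decide +kernel)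
theorem L23337 : W_19 (nat_lit 8) (nat_lit 0x4000a001d000200000001000080000000000000000000000000000000) (nat_lit 0x0) (nat_lit 0x54003a001100000000c000e000f00168000000000000000000000000000000) := Q_19 (nat_lit 175) (C_19 L23305 (C_19 L18633 (C_19 L23299 (C_19 L23336 N_19)))) (by decide +kernel)
theorem L23338 : W_19 (nat_lit 8) (nat_lit 0x100004000a001d000200000001000080000000000000000000000000000000) (nat_lit 0x0) (nat_lit 0x28000c0002000000000000c000e000f00020000000000000000000000000000000) := T_19 (nat_lit 243) (nat_lit 261) (nat_lit 7) (nat_lit 5) (nat_lit 11) L23315 (by decide +kernel)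
theorem L23339 : W_19 (nat_lit 2) (nat_lit 0x100004000a001d000200000001000080000000000000000000000000000000) (nat_lit 0x0) (nat_lit 0x1800000000000080000000000000000000000000000000000000000000) := D_19 (nat_lit 227) (nat_lit 175) (nat_lit 228) (nat_lit 7) (nat_lit 5) (nat_lit 10) (nat_lit 5) (nat_lit 7) (nat_lit 10) (by decide +kernel)
theorem L23340 : W_19 (nat_lit 2) (nat_lit 0x100014000a001d000200000001000080000000000000000000000000000000) (nat_lit 0x0) (nat_lit 0x200028000000000000000000000000000000000000000000000000000000000000) := D_19 (nat_lit 261) (nat_lit 243) (nat_lit 245) (nat_lit 7) (nat_lit 5) (nat_lit 11) (nat_lit 5) (nat_lit 7) (nat_lit 11) (by decide +kernel)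
theorem L23341 : W_19 (nat_lit 3) (nat_lit 0x100004000a001d000200000001000080000000000000000000000000000000) (nat_lit 0x0) (nat_lit 0x200028001800000000000000000000000000000000000000000000000000000000) := T_19 (nat_lit 228) (nat_lit 227) (nat_lit 5) (nat_lit 7) (nat_lit 10) L23340 (by decide +kernel)
theorem L23342 : W_19 (nat_lit 9) (nat_lit 0x4000a001d000200000001000080000000000000000000000000000000) (nat_lit 0x0) (nat_lit 0x28003c001a000000000000c000e000f00020000000000000000000000000000000) := Q_19 (nat_lit 244) (C_19 L23338 (C_19 L23339 (C_19 L23341 N_19))) (by decide +kernel)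
theorem L23343 : W_19 (nat_lit 5) (nat_lit 0x4000a001d000200000001000080000000000000000000000000000000) (nat_lit 0x0) (nat_lit 0x500038001c0018000100008000c0000000000000000000000000000000000000000000) := Q_19 (nat_lit 243) (C_19 L23330 (C_19 L23309 (C_19 L23256 N_19))) (by decide +kernel)
theorem L23344 : W_19 (nat_lit 4) (nat_lit 0x100004000a001d000200000001000080000000000000000000000000000000) (nat_lit 0x0) (nat_lit 0x28000c000a00000000000080000000000000000000000000000000000000000000) := T_19 (nat_lit 243) (nat_lit 261) (nat_lit 7) (nat_lit 5) (nat_lit 11) L18628 (by decide +kernel)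
theorem L23345 : W_19 (nat_lit 3) (nat_lit 0x1c0004000a001d000200000001000080000000000000000000000000000000) (nat_lit 0x0) (nat_lit 0x20000380000000000080000000000000000000000000000000000000000000) := T_19 (nat_lit 225) (nat_lit 175) (nat_lit 5) (nat_lit 5) (nat_lit 10) L23317 (by decide +kernel)
theorem L23346 : W_19 (nat_lit 4) (nat_lit 0x180004000a001d000200000001000080000000000000000000000000000000) (nat_lit 0x0) (nat_lit 0x80024000380000000000080000000000000000000000000000000000000000000) := T_19 (nat_lit 242) (nat_lit 259) (nat_lit 5) (nat_lit 5) (nat_lit 11) L23345 (by decide +kernel)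
theorem L23347 : W_19 (nat_lit 5) (nat_lit 0x100004000a001d000200000001000080000000000000000000000000000000) (nat_lit 0x0) (nat_lit 0x28002c000380000000000080000000000000000000000000000000000000000000) := T_19 (nat_lit 243) (nat_lit 261) (nat_lit 7) (nat_lit 5) (nat_lit 11) L23346 (by decide +kernel)
theorem L23348 : W_19 (nat_lit 6) (nat_lit 0x4000a001d000200000001000080000000000000000000000000000000) (nat_lit 0x0) (nat_lit 0x28003c001b80000000000080000000000000000000000000000000000000000000) := Q_19 (nat_lit 244) (C_19 L23344 (C_19 L23347 (C_19 L23341 (C_19 L23339 N_19)))) (by decide +kernel)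
theorem L23349 : W_19 (nat_lit 2) (nat_lit 0x1c0014000a001d000200000001000080000000000000000000000000000000) (nat_lit 0x0) (nat_lit 0x60002000000000000000000000000000000000000000000000000000000000) := D_19 (nat_lit 229) (nat_lit 245) (nat_lit 246) (nat_lit 2) (nat_lit 4) (nat_lit 14) (nat_lit 7) (nat_lit 7) (nat_lit 10) (by decide +kernel)
theorem L23350 : W_19 (nat_lit 3) (nat_lit 0x180014000a001d000200000001000080000000000000000000000000000000) (nat_lit 0x0) (nat_lit 0x80064002000000000000000000000000000000000000000000000000000000000) := T_19 (nat_lit 242) (nat_lit 259) (nat_lit 5) (nat_lit 5) (nat_lit 11) L23349 (by decide +kernel)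
theorem L23351 : W_19 (nat_lit 4) (nat_lit 0x180004000a001d000200000001000080000000000000000000000000000000) (nat_lit 0x0) (nat_lit 0x80064003800000000000000000000000000000000000000000000000000000000) := T_19 (nat_lit 228) (nat_lit 227) (nat_lit 5) (nat_lit 7) (nat_lit 10) L23350 (by decide +kernel)
theorem L23352 : W_19 (nat_lit 5) (nat_lit 0x80004000a001d000200000001000080000000000000000000000000000000) (nat_lit 0x0) (nat_lit 0x280074003800000000000000000000000000000000000000000000000000000000) := T_19 (nat_lit 244) (nat_lit 261) (nat_lit 7) (nat_lit 5) (nat_lit 11) L23351 (by decide +kernel)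
theorem L23353 : W_19 (nat_lit 6) (nat_lit 0x4000a001d000200000001000080000000000000000000000000000000) (nat_lit 0x0) (nat_lit 0x500038007c003800010000800040000000000000000000000000000000000000000000) := Q_19 (nat_lit 243) (C_19 L23330 (C_19 L23309 (C_19 L23352 N_19))) (by decide +kernel)
theorem L23354 : W_19 (nat_lit 4) (nat_lit 0x100004000a001d000200000001000080000000000000000000000000000000) (nat_lit 0x0) (nat_lit 0x2000080008000000008000c0002000000000000000000000000000000000000000) := T_19 (nat_lit 243) (nat_lit 261) (nat_lit 7) (nat_lit 5) (nat_lit 11) L23267 (by decide +kernel)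
theorem L23355 : W_19 (nat_lit 8) (nat_lit 0x100004000a001d000200000001000080000000000000000000000000000000) (nat_lit 0x0) (nat_lit 0x10003e0068003000110000800040000000000000000000000000000000000000000000) := T_19 (nat_lit 243) (nat_lit 261) (nat_lit 7) (nat_lit 5) (nat_lit 11) L23326 (by decide +kernel)
theorem L23356 : W_19 (nat_lit 9) (nat_lit 0x4000a001d000200000001000080000000000000000000000000000000) (nat_lit 0x0) (nat_lit 0x10003e00780038001100008000c0002000000000000000000000000000000000000000) := Q_19 (nat_lit 244) (C_19 L23354 (C_19 L23355 (C_19 L23341 (C_19 L23339 N_19)))) (by decide +kernel)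
theorem L23357 : W_19 (nat_lit 12) (nat_lit 0xa001d000200000001000080000000000000000000000000000000) (nat_lit 0x0) (nat_lit 0x5000fe007f803fc011e000f000e000e000f00178000000000000000000000000000000) := Q_19 (nat_lit 226) (C_19 L23265 (C_19 L23269 (C_19 L23306 (C_19 L23331 (C_19 L23337 (C_19 L23342 (C_19 L23343 (C_19 L23348 (C_19 L23353 (C_19 L23356 N_19)))))))))) (by decide +kernel)
theorem L23358 : W_19 (nat_lit 2) (nat_lit 0x200010001a001f000a80000001000080000000000000000000000000000000) (nat_lit 0x0) (nat_lit 0x800040002000000000000000000000000000000000000000000000000000000000) := D_19 (nat_lit 246) (nat_lit 229) (nat_lit 263) (nat_lit 7) (nat_lit 7) (nat_lit 10) (nat_lit 7) (nat_lit 7) (nat_lit 11) (by decide +kernel)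
theorem L23359 : W_19 (nat_lit 3) (nat_lit 0x10001a001f000a80000001000080000000000000000000000000000000) (nat_lit 0x0) (nat_lit 0xc00060002000000000000000000000000000000000000000000000000000000000) := T_19 (nat_lit 245) (nat_lit 262) (nat_lit 6) (nat_lit 7) (nat_lit 15) L23358 (by decide +kernel)
theorem L23360 : W_19 (nat_lit 4) (nat_lit 0x10001a001f000280000001000080000000000000000000000000000000) (nat_lit 0x0) (nat_lit 0xc00060002000000000001800000000000000000000000000000000000000000000) := T_19 (nat_lit 179) (nat_lit 180) (nat_lit 2) (nat_lit 6) (nat_lit 11) L23359 (by decide +kernel)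
theorem L23361 : W_19 (nat_lit 5) (nat_lit 0x10000a001f000280000001000080000000000000000000000000000000) (nat_lit 0x0) (nat_lit 0xc00060002000300000001800000000000000000000000000000000000000000000) := T_19 (nat_lit 212) (nat_lit 213) (nat_lit 3) (nat_lit 5) (nat_lit 11) L23360 (by decide +kernel)
theorem L23362 : W_19 (nat_lit 6) (nat_lit 0x10000a001f000200000001000080000000000000000000000000000000) (nat_lit 0x0) (nat_lit 0xc000600020003000000018c0000000000000000000000000000000000000000000) := T_19 (nat_lit 175) (nat_lit 174) (nat_lit 0) (nat_lit 8) (nat_lit 11) L23361 (by decide +kernel)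
theorem L23363 : W_19 (nat_lit 7) (nat_lit 0x10000a001d000200000001000080000000000000000000000000000000) (nat_lit 0x0) (nat_lit 0xc000600020003100020018c0000000000000000000000000000000000000000000) := T_19 (nat_lit 193) (nat_lit 208) (nat_lit 1) (nat_lit 8) (nat_lit 11) L23362 (by decide +kernel)
theorem L23364 : W_19 (nat_lit 2) (nat_lit 0x3c000a001d000200000001000080000000000000000000000000000000) (nat_lit 0x0) (nat_lit 0x200300000000000000000000000000000000000000000000000000000) := D_19 (nat_lit 212) (nat_lit 225) (nat_lit 213) (nat_lit 2) (nat_lit 4) (nat_lit 13) (nat_lit 2) (nat_lit 5) (nat_lit 13) (by decide +kernel)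
theorem L23365 : W_19 (nat_lit 3) (nat_lit 0x38000a001d000200000001000080000000000000000000000000000000) (nat_lit 0x0) (nat_lit 0x600310000000000000000000000000000000000000000000000000000) := T_19 (nat_lit 226) (nat_lit 208) (nat_lit 0) (nat_lit 8) (nat_lit 13) L23364 (by decide +kernel)
theorem L23366 : W_19 (nat_lit 4) (nat_lit 0x18000a001d000200000001000080000000000000000000000000000000) (nat_lit 0x0) (nat_lit 0x40002600310000000000000000000000000000000000000000000000000000) := T_19 (nat_lit 229) (nat_lit 246) (nat_lit 7) (nat_lit 7) (nat_lit 10) L23365 (by decide +kernel)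
theorem L23367 : W_19 (nat_lit 5) (nat_lit 0x10000a001d000200000001000080000000000000000000000000000000) (nat_lit 0x0) (nat_lit 0x50002e00310000000000000000000000000000000000000000000000000000) := T_19 (nat_lit 227) (nat_lit 244) (nat_lit 5) (nat_lit 7) (nat_lit 10) L23366 (by decide +kernel)
theorem L23368 : W_19 (nat_lit 4) (nat_lit 0x10000a001d000200000001000080000000000000000000000000000000) (nat_lit 0x0) (nat_lit 0x50002c00010002000000000000000000000000000000000000000000000000) := T_19 (nat_lit 229) (nat_lit 246) (nat_lit 7) (nat_lit 7) (nat_lit 10) L19048 (by decide +kernel)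
theorem L23369 : W_19 (nat_lit 2) (nat_lit 0x200010001a001f000a80000001000080000000000000000000000000000000) (nat_lit 0x0) (nat_lit 0x200010000800000000000000000000000000000000000000000000000000000000) := D_19 (nat_lit 244) (nat_lit 227) (nat_lit 261) (nat_lit 5) (nat_lit 7) (nat_lit 10) (nat_lit 5) (nat_lit 7) (nat_lit 11) (by decide +kernel)
theorem L23370 : W_19 (nat_lit 3) (nat_lit 0x10001a001f000a80000001000080000000000000000000000000000000) (nat_lit 0x0) (nat_lit 0x600030000800000000000000000000000000000000000000000000000000000000) := T_19 (nat_lit 245) (nat_lit 262) (nat_lit 6) (nat_lit 7) (nat_lit 15) L23369 (by decide +kernel)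
theorem L23371 : W_19 (nat_lit 4) (nat_lit 0x10001a001f000280000001000080000000000000000000000000000000) (nat_lit 0x0) (nat_lit 0x600030000800000000001800000000000000000000000000000000000000000000) := T_19 (nat_lit 179) (nat_lit 180) (nat_lit 2) (nat_lit 6) (nat_lit 11) L23370 (by decide +kernel)
theorem L23372 : W_19 (nat_lit 5) (nat_lit 0x10000a001f000280000001000080000000000000000000000000000000) (nat_lit 0x0) (nat_lit 0x600030000800300000001800000000000000000000000000000000000000000000) := T_19 (nat_lit 212) (nat_lit 213) (nat_lit 3) (nat_lit 5) (nat_lit 11) L23371 (by decide +kernel)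
theorem L23373 : W_19 (nat_lit 6) (nat_lit 0x10000a001f000200000001000080000000000000000000000000000000) (nat_lit 0x0) (nat_lit 0x6000300008003000000018c0000000000000000000000000000000000000000000) := T_19 (nat_lit 175) (nat_lit 174) (nat_lit 0) (nat_lit 8) (nat_lit 11) L23372 (by decide +kernel)
theorem L23374 : W_19 (nat_lit 7) (nat_lit 0x10000a001d000200000001000080000000000000000000000000000000) (nat_lit 0x0) (nat_lit 0x6000300008003100020018c0000000000000000000000000000000000000000000) := T_19 (nat_lit 193) (nat_lit 208) (nat_lit 1) (nat_lit 8) (nat_lit 11) L23373 (by decide +kernel)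
theorem L23375 : W_19 (nat_lit 2) (nat_lit 0x500010000a001d000200000001000080000000000000000000000000000000) (nat_lit 0x0) (nat_lit 0xa00020000000000000000000000000000000000000000000000000000000000000) := D_19 (nat_lit 245) (nat_lit 261) (nat_lit 263) (nat_lit 5) (nat_lit 7) (nat_lit 11) (nat_lit 7) (nat_lit 7) (nat_lit 11) (by decide +kernel)
theorem L23376 : W_19 (nat_lit 3) (nat_lit 0x100010000a001d000200000001000080000000000000000000000000000000) (nat_lit 0x0) (nat_lit 0xa00060002000000000000000000000000000000000000000000000000000000000) := T_19 (nat_lit 246) (nat_lit 229) (nat_lit 7) (nat_lit 7) (nat_lit 10) L23375 (by decide +kernel)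
theorem L23377 : W_19 (nat_lit 4) (nat_lit 0x10000a001d000200000001000080000000000000000000000000000000) (nat_lit 0x0) (nat_lit 0xa00070002800000000000000000000000000000000000000000000000000000000) := T_19 (nat_lit 244) (nat_lit 227) (nat_lit 5) (nat_lit 7) (nat_lit 10) L23376 (by decide +kernel)
theorem L23378 : W_19 (nat_lit 8) (nat_lit 0xa001d000200000001000080000000000000000000000000000000) (nat_lit 0x0) (nat_lit 0xe00070003e003100020018c0000000000000000000000000000000000000000000) := Q_19 (nat_lit 228) (C_19 L23363 (C_19 L23367 (C_19 L23368 (C_19 L23374 (C_19 L23377 N_19))))) (by decide +kernel)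
theorem L23379 : W_19 (nat_lit 2) (nat_lit 0x1a001d000200000001000080000000000000000000000000000000) (nat_lit 0x0) (nat_lit 0x200002800000000000000000000000000000000000000000000000) := D_19 (nat_lit 193) (nat_lit 191) (nat_lit 213) (nat_lit 3) (nat_lit 4) (nat_lit 11) (nat_lit 3) (nat_lit 5) (nat_lit 11) (by decide +kernel)
theorem L23380 : W_19 (nat_lit 2) (nat_lit 0x400010001a001d000200000001000080000000000000000000000000000000) (nat_lit 0x0) (nat_lit 0xc00020000000000000000000000000000000000000000000000000000000000000) := D_19 (nat_lit 245) (nat_lit 263) (nat_lit 262) (nat_lit 7) (nat_lit 7) (nat_lit 11) (nat_lit 6) (nat_lit 7) (nat_lit 15) (by decide +kernel)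
theorem L23381 : W_19 (nat_lit 3) (nat_lit 0x10001a001d000200000001000080000000000000000000000000000000) (nat_lit 0x0) (nat_lit 0xc00060002000000000000000000000000000000000000000000000000000000000) := T_19 (nat_lit 246) (nat_lit 229) (nat_lit 7) (nat_lit 7) (nat_lit 10) L23380 (by decide +kernel)
theorem L23382 : W_19 (nat_lit 2) (nat_lit 0x200010001a001d000200000001000080000000000000000000000000000000) (nat_lit 0x0) (nat_lit 0x200010000800000000000000000000000000000000000000000000000000000000) := D_19 (nat_lit 244) (nat_lit 227) (nat_lit 261) (nat_lit 5) (nat_lit 7) (nat_lit 10) (nat_lit 5) (nat_lit 7) (nat_lit 11) (by decide +kernel)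
theorem L23383 : W_19 (nat_lit 3) (nat_lit 0x10001a001d000200000001000080000000000000000000000000000000) (nat_lit 0x0) (nat_lit 0x600030000800000000000000000000000000000000000000000000000000000000) := T_19 (nat_lit 245) (nat_lit 262) (nat_lit 6) (nat_lit 7) (nat_lit 15) L23382 (by decide +kernel)
theorem L23384 : W_19 (nat_lit 2) (nat_lit 0x1c001a001d000200000001000080000000000000000000000000000000) (nat_lit 0x0) (nat_lit 0x40002000200000000000000000000000000000000000000000000000000000) := D_19 (nat_lit 229) (nat_lit 246) (nat_lit 213) (nat_lit 7) (nat_lit 7) (nat_lit 10) (nat_lit 2) (nat_lit 5) (nat_lit 13) (by decide +kernel)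
theorem L23385 : W_19 (nat_lit 3) (nat_lit 0x18001a001d000200000001000080000000000000000000000000000000) (nat_lit 0x0) (nat_lit 0x40002600200000000000000000000000000000000000000000000000000000) := T_19 (nat_lit 226) (nat_lit 225) (nat_lit 2) (nat_lit 4) (nat_lit 13) L23384 (by decide +kernel)
theorem L23386 : W_19 (nat_lit 4) (nat_lit 0x10001a001d000200000001000080000000000000000000000000000000) (nat_lit 0x0) (nat_lit 0x50002e00200000000000000000000000000000000000000000000000000000) := T_19 (nat_lit 227) (nat_lit 244) (nat_lit 5) (nat_lit 7) (nat_lit 10) L23385 (by decide +kernel)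
theorem L23387 : W_19 (nat_lit 5) (nat_lit 0x1a001d000200000001000080000000000000000000000000000000) (nat_lit 0x0) (nat_lit 0xe00070003e00200000000000000000000000000000000000000000000000000000) := Q_19 (nat_lit 228) (C_19 L23381 (C_19 L23383 (C_19 L23386 N_19))) (by decide +kernel)
theorem L23388 : W_19 (nat_lit 2) (nat_lit 0x40001c001a001d800240000001000080000000000000000000000000000000) (nat_lit 0x0) (nat_lit 0x80002000100000000000000000000000000000000000) := D_19 (nat_lit 157) (nat_lit 175) (nat_lit 140) (nat_lit 4) (nat_lit 5) (nat_lit 13) (nat_lit 7) (nat_lit 4) (nat_lit 8) (by decide +kernel)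
theorem L23389 : W_19 (nat_lit 3) (nat_lit 0x40001c001a001d800200000001000080000000000000000000000000000000) (nat_lit 0x0) (nat_lit 0x80000000000000000c0002000100000000000000000000000000000000000) := T_19 (nat_lit 174) (nat_lit 243) (nat_lit 4) (nat_lit 5) (nat_lit 14) L23388 (by decide +kernel)
theorem L23390 : W_19 (nat_lit 4) (nat_lit 0x40001c001a001d000200000001000080000000000000000000000000000000) (nat_lit 0x0) (nat_lit 0x80000000000028000c0002000100000000000000000000000000000000000) := T_19 (nat_lit 191) (nat_lit 193) (nat_lit 3) (nat_lit 4) (nat_lit 11) L23389 (by decide +kernel)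
theorem L23391 : W_19 (nat_lit 5) (nat_lit 0x400018001a001d000200000001000080000000000000000000000000000000) (nat_lit 0x0) (nat_lit 0x80006000000028000c0002000100000000000000000000000000000000000) := T_19 (nat_lit 226) (nat_lit 225) (nat_lit 2) (nat_lit 4) (nat_lit 13) L23390 (by decide +kernel)
theorem L23392 : W_19 (nat_lit 6) (nat_lit 0x400010001a001d000200000001000080000000000000000000000000000000) (nat_lit 0x0) (nat_lit 0x18000e000000028000c0002000100000000000000000000000000000000000) := T_19 (nat_lit 227) (nat_lit 244) (nat_lit 5) (nat_lit 7) (nat_lit 10) L23391 (by decide +kernel)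
theorem L23393 : W_19 (nat_lit 7) (nat_lit 0x10001a001d000200000001000080000000000000000000000000000000) (nat_lit 0x0) (nat_lit 0x58002e000000028000c0002000100000000000000000000000000000000000) := T_19 (nat_lit 246) (nat_lit 229) (nat_lit 7) (nat_lit 7) (nat_lit 10) L23392 (by decide +kernel)
theorem L23394 : W_19 (nat_lit 8) (nat_lit 0x1a001d000200000001000080000000000000000000000000000000) (nat_lit 0x0) (nat_lit 0xe00078003e000000028000c0002000100000000000000000000000000000000000) := Q_19 (nat_lit 228) (C_19 L23383 (C_19 L23381 (C_19 L23393 N_19))) (by decide +kernel)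
theorem L23395 : W_19 (nat_lit 9) (nat_lit 0xa001d000200000001000080000000000000000000000000000000) (nat_lit 0x0) (nat_lit 0xe00078003e003000028000c0002000100000000000000000000000000000000000) := Q_19 (nat_lit 212) (C_19 L23379 (C_19 L23387 (C_19 L23394 N_19))) (by decide +kernel)
theorem L23396 : W_19 (nat_lit 13) (nat_lit 0xa001c000200000001000080000000000000000000000000000000) (nat_lit 0x0) (nat_lit 0x5000fe007f803fc031e003f018e000e000f00178000000000000000000000000000000) := Q_19 (nat_lit 192) (C_19 L23239 (C_19 L23241 (C_19 L23357 (C_19 L23378 (C_19 L23395 N_19))))) (by decide +kernel)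
theorem L23397 : W_19 (nat_lit 2) (nat_lit 0xa001c000200000001000080000000000000000000000000000000) (nat_lit 0x0) (nat_lit 0x50002000000000000000000000000000000000000000000000000) := D_19 (nat_lit 210) (nat_lit 193) (nat_lit 208) (nat_lit 1) (nat_lit 9) (nat_lit 11) (nat_lit 2) (nat_lit 4) (nat_lit 12) (by decide +kernel)
theorem L23398 : W_19 (nat_lit 2) (nat_lit 0xa001c000200000001000080000000000000000000000000000000) (nat_lit 0x0) (nat_lit 0x140002000000000000000000000000000000000000000000000000) := D_19 (nat_lit 210) (nat_lit 193) (nat_lit 212) (nat_lit 1) (nat_lit 9) (nat_lit 11) (nat_lit 2) (nat_lit 5) (nat_lit 12) (by decide +kernel)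
theorem L23399 : W_19 (nat_lit 14) (nat_lit 0x8001c000200000001000080000000000000000000000000000000) (nat_lit 0x0) (nat_lit 0x5000fe007f803fc037e003f018e000e000f00178000000000000000000000000000000) := Q_19 (nat_lit 209) (C_19 L18626 (C_19 L23396 (C_19 L23397 (C_19 L23398 N_19)))) (by decide +kernel)
theorem L23400 : W_19 (nat_lit 15) (nat_lit 0x1c000200000001000080000000000000000000000000000000) (nat_lit 0x0) (nat_lit 0x5001fe00ff807fc3bfe1e3f1f8e008e004f00178000000000000000000000000000000) := Q_19 (nat_lit 211) (C_19 L23125 (C_19 L23126 (C_19 L23201 (C_19 L23399 N_19)))) (by decide +kernel)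
theorem L23401 : W_19 (nat_lit 8) (nat_lit 0x1c000200000001000080000000000000000000000000000000) (nat_lit 0x0) (nat_lit 0x2000ff8023c018e0060000000000000000000000000000000000000000) := Q_19 (nat_lit 193) (C_19 L22978 (C_19 L22981 (C_19 L23004 (C_19 L22726 N_19)))) (by decide +kernel)
theorem L23402 : W_19 (nat_lit 8) (nat_lit 0x1c000200000001000080000000000000000000000000000000) (nat_lit 0x0) (nat_lit 0x20007f8023c038e0060000000000000000000000000000000000000000) := Q_19 (nat_lit 193) (C_19 L22978 (C_19 L20363 (C_19 L23004 (C_19 L22726 N_19)))) (by decide +kernel)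
theorem L23403 : W_19 (nat_lit 16) (nat_lit 0xc000200000001000080000000000000000000000000000000) (nat_lit 0x0) (nat_lit 0x55007fe03ff83ffc7ffe1f3f1f8e02ee004f00178000000000000000000000000000000) := Q_19 (nat_lit 196) (C_19 L22834 (C_19 L22973 (C_19 L22776 (C_19 L19559 (C_19 L22974 (C_19 L23005 (C_19 L23124 (C_19 L23400 (C_19 L23401 (C_19 L23402 N_19)))))))))) (by decide +kernel)
theorem L23404 : W_19 (nat_lit 6) (nat_lit 0x18000c000200000001000080000000000000000000000000000000) (nat_lit 0x0) (nat_lit 0xe00070003e00240070000000000000000000000000000000000000000000000000) := Q_19 (nat_lit 196) (C_19 L18667 (C_19 L23200 N_19)) (by decide +kernel)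
theorem L23405 : W_19 (nat_lit 2) (nat_lit 0x400000007c002c000200000001000080000000000000000000000000000000) (nat_lit 0x0) (nat_lit 0x1c000000000000000000000000000000000000000000000000000000000) := D_19 (nat_lit 231) (nat_lit 230) (nat_lit 232) (nat_lit 3) (nat_lit 6) (nat_lit 12) (nat_lit 3) (nat_lit 7) (nat_lit 12) (by decide +kernel)
theorem L23406 : W_19 (nat_lit 3) (nat_lit 0x4000000078002c000200000001000080000000000000000000000000000000) (nat_lit 0x0) (nat_lit 0x1c000040010000000000000000000000000000000000000000000000000) := T_19 (nat_lit 210) (nat_lit 196) (nat_lit 2) (nat_lit 6) (nat_lit 12) L23405 (by decide +kernel)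
theorem L23407 : W_19 (nat_lit 4) (nat_lit 0x4000000078000c000200000001000080000000000000000000000000000000) (nat_lit 0x0) (nat_lit 0x1c000040070000000000000000000000000000000000000000000000000) := T_19 (nat_lit 197) (nat_lit 198) (nat_lit 2) (nat_lit 7) (nat_lit 12) L23406 (by decide +kernel)
theorem L23408 : W_19 (nat_lit 5) (nat_lit 0x4000000038000c000200000001000080000000000000000000000000000000) (nat_lit 0x0) (nat_lit 0x1c000c40070000000000000000000000000000000000000000000000000) := T_19 (nat_lit 214) (nat_lit 215) (nat_lit 0) (nat_lit 11) (nat_lit 12) L23407 (by decide +kernel)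
theorem L23409 : W_19 (nat_lit 6) (nat_lit 0x38000c000200000001000080000000000000000000000000000000) (nat_lit 0x0) (nat_lit 0x4001e000c40070000000000000000000000000000000000000000000000000) := T_19 (nat_lit 246) (nat_lit 229) (nat_lit 4) (nat_lit 8) (nat_lit 14) L23408 (by decide +kernel)
theorem L23410 : W_19 (nat_lit 2) (nat_lit 0x38001c000200000001000080000000000000000000000000000000) (nat_lit 0x0) (nat_lit 0x60020000000000000000000000000000000000000000000000000) := D_19 (nat_lit 210) (nat_lit 197) (nat_lit 209) (nat_lit 2) (nat_lit 6) (nat_lit 12) (nat_lit 2) (nat_lit 5) (nat_lit 12) (by decide +kernel)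
theorem L23411 : W_19 (nat_lit 6) (nat_lit 0x38000c000200000001000080000000000000000000000000000000) (nat_lit 0x0) (nat_lit 0x18000c000e000060033001800060000000000000000000000000000000000000000) := Q_19 (nat_lit 196) (C_19 L20722 (C_19 L20719 (C_19 L20717 (C_19 L23410 N_19)))) (by decide +kernel)
theorem L23412 : W_19 (nat_lit 7) (nat_lit 0x18000c000200000001000080000000000000000000000000000000) (nat_lit 0x0) (nat_lit 0x18000c001e000e60073001800060000000000000000000000000000000000000000) := Q_19 (nat_lit 213) (C_19 L23409 (C_19 L21319 (C_19 L23411 N_19))) (by decide +kernel)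
theorem L23413 : W_19 (nat_lit 7) (nat_lit 0xf000000018000c000200000001000080000000000000000000000000000000) (nat_lit 0x0) (nat_lit 0x3f0010801cc00000000000000000000000000000000000000000000000000000000) := T_19 (nat_lit 227) (nat_lit 226) (nat_lit 0) (nat_lit 9) (nat_lit 14) L19978 (by decide +kernel)
theorem L23414 : W_19 (nat_lit 2) (nat_lit 0x10000f800000018000c000200000001000080000000000000000000000000000000) (nat_lit 0x0) (nat_lit 0x380000000000000000000000000000000000000000000000000000000000000000) := D_19 (nat_lit 260) (nat_lit 259) (nat_lit 261) (nat_lit 1) (nat_lit 8) (nat_lit 14) (nat_lit 1) (nat_lit 9) (nat_lit 14) (by decide +kernel)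
theorem L23415 : W_19 (nat_lit 3) (nat_lit 0x10000f000000018000c000200000001000080000000000000000000000000000000) (nat_lit 0x0) (nat_lit 0xb80008000000000000000000000000000000000000000000000000000000000000) := T_19 (nat_lit 243) (nat_lit 263) (nat_lit 3) (nat_lit 5) (nat_lit 14) L23414 (by decide +kernel)
theorem L23416 : W_19 (nat_lit 4) (nat_lit 0xf000000018000c000200000001000080000000000000000000000000000000) (nat_lit 0x0) (nat_lit 0x3b80008000000000000000000000000000000000000000000000000000000000000) := T_19 (nat_lit 264) (nat_lit 265) (nat_lit 3) (nat_lit 6) (nat_lit 14) L23415 (by decide +kernel)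
theorem L23417 : W_19 (nat_lit 2) (nat_lit 0x22000f000480018000c000200000001000080000000000000000000000000000000) (nat_lit 0x0) (nat_lit 0x4400100000000000000000000000000000000000000000000000000000000000000) := D_19 (nat_lit 248) (nat_lit 266) (nat_lit 262) (nat_lit 3) (nat_lit 7) (nat_lit 14) (nat_lit 1) (nat_lit 10) (nat_lit 14) (by decide +kernel)
theorem L23418 : W_19 (nat_lit 3) (nat_lit 0x20000f000480018000c000200000001000080000000000000000000000000000000) (nat_lit 0x0) (nat_lit 0x4700100000000000000000000000000000000000000000000000000000000000000) := T_19 (nat_lit 261) (nat_lit 260) (nat_lit 1) (nat_lit 9) (nat_lit 14) L23417 (by decide +kernel)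
theorem L23419 : W_19 (nat_lit 4) (nat_lit 0xf000480018000c000200000001000080000000000000000000000000000000) (nat_lit 0x0) (nat_lit 0x7700100000000000000000000000000000000000000000000000000000000000000) := T_19 (nat_lit 265) (nat_lit 264) (nat_lit 3) (nat_lit 6) (nat_lit 14) L23418 (by decide +kernel)
theorem L23420 : W_19 (nat_lit 5) (nat_lit 0xf000400018000c000200000001000080000000000000000000000000000000) (nat_lit 0x0) (nat_lit 0x7700100000c00000000000000000000000000000000000000000000000000000000) := T_19 (nat_lit 227) (nat_lit 226) (nat_lit 0) (nat_lit 9) (nat_lit 14) L23419 (by decide +kernel)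
theorem L23421 : W_19 (nat_lit 6) (nat_lit 0xf000000018000c000200000001000080000000000000000000000000000000) (nat_lit 0x0) (nat_lit 0x770010000cc00000000000000000000000000000000000000000000000000000000) := T_19 (nat_lit 230) (nat_lit 231) (nat_lit 2) (nat_lit 6) (nat_lit 14) L23420 (by decide +kernel)
theorem L23422 : W_19 (nat_lit 2) (nat_lit 0x10000f800000018000c000200000001000080000000000000000000000000000000) (nat_lit 0x0) (nat_lit 0xe00000000000000000000000000000000000000000000000000000000) := D_19 (nat_lit 226) (nat_lit 225) (nat_lit 227) (nat_lit 0) (nat_lit 8) (nat_lit 14) (nat_lit 0) (nat_lit 9) (nat_lit 14) (by decide +kernel)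
theorem L23423 : W_19 (nat_lit 3) (nat_lit 0x10000f000000018000c000200000001000080000000000000000000000000000000) (nat_lit 0x0) (nat_lit 0x800008000e00000000000000000000000000000000000000000000000000000000) := T_19 (nat_lit 243) (nat_lit 263) (nat_lit 3) (nat_lit 5) (nat_lit 14) L23422 (by decide +kernel)
theorem L23424 : W_19 (nat_lit 4) (nat_lit 0xf000000018000c000200000001000080000000000000000000000000000000) (nat_lit 0x0) (nat_lit 0x3800008000e00000000000000000000000000000000000000000000000000000000) := T_19 (nat_lit 264) (nat_lit 265) (nat_lit 3) (nat_lit 6) (nat_lit 14) L23423 (by decide +kernel)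
theorem L23425 : W_19 (nat_lit 2) (nat_lit 0x2000f000880018000c000200000001000080000000000000000000000000000000) (nat_lit 0x0) (nat_lit 0x400100010000000000000000000000000000000000000000000000000000000000) := D_19 (nat_lit 248) (nat_lit 262) (nat_lit 232) (nat_lit 1) (nat_lit 10) (nat_lit 14) (nat_lit 2) (nat_lit 7) (nat_lit 14) (by decide +kernel)
theorem L23426 : W_19 (nat_lit 3) (nat_lit 0x2000f000080018000c000200000001000080000000000000000000000000000000) (nat_lit 0x0) (nat_lit 0x40010001c000000000000000000000000000000000000000000000000000000000) := T_19 (nat_lit 231) (nat_lit 230) (nat_lit 2) (nat_lit 6) (nat_lit 14) L23425 (by decide +kernel)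
theorem L23427 : W_19 (nat_lit 4) (nat_lit 0xf000080018000c000200000001000080000000000000000000000000000000) (nat_lit 0x0) (nat_lit 0x70010001c000000000000000000000000000000000000000000000000000000000) := T_19 (nat_lit 261) (nat_lit 260) (nat_lit 1) (nat_lit 9) (nat_lit 14) L23426 (by decide +kernel)
theorem L23428 : W_19 (nat_lit 5) (nat_lit 0xf000000018000c000200000001000080000000000000000000000000000000) (nat_lit 0x0) (nat_lit 0x70010001cc00000000000000000000000000000000000000000000000000000000) := T_19 (nat_lit 227) (nat_lit 226) (nat_lit 0) (nat_lit 9) (nat_lit 14) L23427 (by decide +kernel)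
theorem L23429 : W_19 (nat_lit 8) (nat_lit 0x7000000018000c000200000001000080000000000000000000000000000000) (nat_lit 0x0) (nat_lit 0x7f8018801ce00000000000000000000000000000000000000000000000000000000) := Q_19 (nat_lit 247) (C_19 L23413 (C_19 L23416 (C_19 L23421 (C_19 L23424 (C_19 L23428 N_19))))) (by decide +kernel)
theorem L23430 : W_19 (nat_lit 2) (nat_lit 0x80007c00040018000c000200000001000080000000000000000000000000000000) (nat_lit 0x0) (nat_lit 0x1c0000000000000000000000000000000000000000000000000000000000000000) := D_19 (nat_lit 259) (nat_lit 258) (nat_lit 260) (nat_lit 1) (nat_lit 7) (nat_lit 14) (nat_lit 1) (nat_lit 8) (nat_lit 14) (by decide +kernel)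
theorem L23431 : W_19 (nat_lit 3) (nat_lit 0x80007800040018000c000200000001000080000000000000000000000000000000) (nat_lit 0x0) (nat_lit 0x5c0004000000000000000000000000000000000000000000000000000000000000) := T_19 (nat_lit 242) (nat_lit 262) (nat_lit 3) (nat_lit 4) (nat_lit 14) L23430 (by decide +kernel)
theorem L23432 : W_19 (nat_lit 4) (nat_lit 0x7800040018000c000200000001000080000000000000000000000000000000) (nat_lit 0x0) (nat_lit 0x1dc0004000000000000000000000000000000000000000000000000000000000000) := T_19 (nat_lit 263) (nat_lit 264) (nat_lit 3) (nat_lit 5) (nat_lit 14) L23431 (by decide +kernel)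
theorem L23433 : W_19 (nat_lit 5) (nat_lit 0x7800000018000c000200000001000080000000000000000000000000000000) (nat_lit 0x0) (nat_lit 0x1dc0004000600000000000000000000000000000000000000000000000000000000) := T_19 (nat_lit 226) (nat_lit 225) (nat_lit 0) (nat_lit 8) (nat_lit 14) L23432 (by decide +kernel)
theorem L23434 : W_19 (nat_lit 2) (nat_lit 0xb0007c00010018000c000200000001000080000000000000000000000000000000) (nat_lit 0x0) (nat_lit 0x3000080000000000000000000000000000000000000000000000000000000) := D_19 (nat_lit 241) (nat_lit 223) (nat_lit 240) (nat_lit 0) (nat_lit 6) (nat_lit 14) (nat_lit 3) (nat_lit 2) (nat_lit 14) (by decide +kernel)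
theorem L23435 : W_19 (nat_lit 3) (nat_lit 0x90007c00010018000c000200000001000080000000000000000000000000000000) (nat_lit 0x0) (nat_lit 0x200083000080000000000000000000000000000000000000000000000000000000) := T_19 (nat_lit 261) (nat_lit 247) (nat_lit 1) (nat_lit 9) (nat_lit 14) L23434 (by decide +kernel)
theorem L23436 : W_19 (nat_lit 4) (nat_lit 0x90007c00000018000c000200000001000080000000000000000000000000000000) (nat_lit 0x0) (nat_lit 0x200083000380000000000000000000000000000000000000000000000000000000) := T_19 (nat_lit 224) (nat_lit 225) (nat_lit 0) (nat_lit 7) (nat_lit 14) L23435 (by decide +kernel)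
theorem L23437 : W_19 (nat_lit 5) (nat_lit 0x90007800000018000c000200000001000080000000000000000000000000000000) (nat_lit 0x0) (nat_lit 0x600087000380000000000000000000000000000000000000000000000000000000) := T_19 (nat_lit 242) (nat_lit 262) (nat_lit 3) (nat_lit 4) (nat_lit 14) L23436 (by decide +kernel)
theorem L23438 : W_19 (nat_lit 6) (nat_lit 0x10007800000018000c000200000001000080000000000000000000000000000000) (nat_lit 0x0) (nat_lit 0x1e00087000380000000000000000000000000000000000000000000000000000000) := T_19 (nat_lit 263) (nat_lit 264) (nat_lit 3) (nat_lit 5) (nat_lit 14) L23437 (by decide +kernel)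
theorem L23439 : W_19 (nat_lit 7) (nat_lit 0x7800000018000c000200000001000080000000000000000000000000000000) (nat_lit 0x0) (nat_lit 0x1f80087000380000000000000000000000000000000000000000000000000000000) := T_19 (nat_lit 260) (nat_lit 259) (nat_lit 1) (nat_lit 8) (nat_lit 14) L23438 (by decide +kernel)
theorem L23440 : W_19 (nat_lit 2) (nat_lit 0xd000f800800018000c000200000001000080000000000000000000000000000000) (nat_lit 0x0) (nat_lit 0x300010000000000000000000000000000000000000000000000000000000000) := D_19 (nat_lit 248) (nat_lit 249) (nat_lit 232) (nat_lit 1) (nat_lit 11) (nat_lit 14) (nat_lit 2) (nat_lit 7) (nat_lit 14) (by decide +kernel)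
theorem L23441 : W_19 (nat_lit 3) (nat_lit 0xd000f800000018000c000200000001000080000000000000000000000000000000) (nat_lit 0x0) (nat_lit 0x30001c000000000000000000000000000000000000000000000000000000000) := T_19 (nat_lit 231) (nat_lit 230) (nat_lit 2) (nat_lit 6) (nat_lit 14) L23440 (by decide +kernel)
theorem L23442 : W_19 (nat_lit 4) (nat_lit 0xd0007800000018000c000200000001000080000000000000000000000000000000) (nat_lit 0x0) (nat_lit 0x20038001c000000000000000000000000000000000000000000000000000000000) := T_19 (nat_lit 247) (nat_lit 261) (nat_lit 2) (nat_lit 5) (nat_lit 15) L23441 (by decide +kernel)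
theorem L23443 : W_19 (nat_lit 5) (nat_lit 0x90007800000018000c000200000001000080000000000000000000000000000000) (nat_lit 0x0) (nat_lit 0x60038401c000000000000000000000000000000000000000000000000000000000) := T_19 (nat_lit 262) (nat_lit 242) (nat_lit 3) (nat_lit 4) (nat_lit 14) L23442 (by decide +kernel)
theorem L23444 : W_19 (nat_lit 6) (nat_lit 0x10007800000018000c000200000001000080000000000000000000000000000000) (nat_lit 0x0) (nat_lit 0x1e0038401c000000000000000000000000000000000000000000000000000000000) := T_19 (nat_lit 263) (nat_lit 264) (nat_lit 3) (nat_lit 5) (nat_lit 14) L23443 (by decide +kernel)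
theorem L23445 : W_19 (nat_lit 7) (nat_lit 0x7800000018000c000200000001000080000000000000000000000000000000) (nat_lit 0x0) (nat_lit 0x1f8038401c000000000000000000000000000000000000000000000000000000000) := T_19 (nat_lit 260) (nat_lit 259) (nat_lit 1) (nat_lit 8) (nat_lit 14) L23444 (by decide +kernel)
theorem L23446 : W_19 (nat_lit 2) (nat_lit 0x1000f800040018000c000200000001000080000000000000000000000000000000) (nat_lit 0x0) (nat_lit 0x3800000000000000000000000000000000000000000000000000000000000000000) := D_19 (nat_lit 264) (nat_lit 263) (nat_lit 265) (nat_lit 3) (nat_lit 5) (nat_lit 14) (nat_lit 3) (nat_lit 6) (nat_lit 14) (by decide +kernel)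
theorem L23447 : W_19 (nat_lit 3) (nat_lit 0x10007800040018000c000200000001000080000000000000000000000000000000) (nat_lit 0x0) (nat_lit 0x3a00080000000000000000000000000000000000000000000000000000000000000) := T_19 (nat_lit 247) (nat_lit 261) (nat_lit 1) (nat_lit 9) (nat_lit 14) L23446 (by decide +kernel)
theorem L23448 : W_19 (nat_lit 4) (nat_lit 0x10007800000018000c000200000001000080000000000000000000000000000000) (nat_lit 0x0) (nat_lit 0x3a00080000600000000000000000000000000000000000000000000000000000000) := T_19 (nat_lit 226) (nat_lit 225) (nat_lit 0) (nat_lit 8) (nat_lit 14) L23447 (by decide +kernel)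
theorem L23449 : W_19 (nat_lit 5) (nat_lit 0x7800000018000c000200000001000080000000000000000000000000000000) (nat_lit 0x0) (nat_lit 0x3b80080000600000000000000000000000000000000000000000000000000000000) := T_19 (nat_lit 260) (nat_lit 259) (nat_lit 1) (nat_lit 8) (nat_lit 14) L23448 (by decide +kernel)
theorem L23450 : W_19 (nat_lit 2) (nat_lit 0x80007c00000018000c000200000001000080000000000000000000000000000000) (nat_lit 0x0) (nat_lit 0x700000000000000000000000000000000000000000000000000000000) := D_19 (nat_lit 225) (nat_lit 224) (nat_lit 226) (nat_lit 0) (nat_lit 7) (nat_lit 14) (nat_lit 0) (nat_lit 8) (nat_lit 14) (by decide +kernel)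
theorem L23451 : W_19 (nat_lit 3) (nat_lit 0x80007800000018000c000200000001000080000000000000000000000000000000) (nat_lit 0x0) (nat_lit 0x400004000700000000000000000000000000000000000000000000000000000000) := T_19 (nat_lit 242) (nat_lit 262) (nat_lit 3) (nat_lit 4) (nat_lit 14) L23450 (by decide +kernel)
theorem L23452 : W_19 (nat_lit 4) (nat_lit 0x7800000018000c000200000001000080000000000000000000000000000000) (nat_lit 0x0) (nat_lit 0x1c00004000700000000000000000000000000000000000000000000000000000000) := T_19 (nat_lit 263) (nat_lit 264) (nat_lit 3) (nat_lit 5) (nat_lit 14) L23451 (by decide +kernel)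
theorem L23453 : W_19 (nat_lit 2) (nat_lit 0x11001f800840018002c000200000001000080000000000000000000000000000000) (nat_lit 0x0) (nat_lit 0x40050000000000000000000000000000000000000000000000000) := D_19 (nat_lit 196) (nat_lit 198) (nat_lit 210) (nat_lit 1) (nat_lit 11) (nat_lit 11) (nat_lit 1) (nat_lit 10) (nat_lit 11) (by decide +kernel)
theorem L23454 : W_19 (nat_lit 3) (nat_lit 0x11001f800840018000c000200000001000080000000000000000000000000000000) (nat_lit 0x0) (nat_lit 0x440070000000000000000000000000000000000000000000000000) := T_19 (nat_lit 197) (nat_lit 214) (nat_lit 5) (nat_lit 10) (nat_lit 11) L23453 (by decide +kernel)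
theorem L23455 : W_19 (nat_lit 4) (nat_lit 0x11000f800840018000c000200000001000080000000000000000000000000000000) (nat_lit 0x0) (nat_lit 0x100010000440070000000000000000000000000000000000000000000000000) := T_19 (nat_lit 248) (nat_lit 232) (nat_lit 2) (nat_lit 7) (nat_lit 14) L23454 (by decide +kernel)
theorem L23456 : W_19 (nat_lit 5) (nat_lit 0x1000f800840018000c000200000001000080000000000000000000000000000000) (nat_lit 0x0) (nat_lit 0x3000100010000440070000000000000000000000000000000000000000000000000) := T_19 (nat_lit 264) (nat_lit 265) (nat_lit 3) (nat_lit 6) (nat_lit 14) L23455 (by decide +kernel)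
theorem L23457 : W_19 (nat_lit 6) (nat_lit 0x1000f800040018000c000200000001000080000000000000000000000000000000) (nat_lit 0x0) (nat_lit 0x300010001c000440070000000000000000000000000000000000000000000000000) := T_19 (nat_lit 231) (nat_lit 230) (nat_lit 2) (nat_lit 6) (nat_lit 14) L23456 (by decide +kernel)
theorem L23458 : W_19 (nat_lit 7) (nat_lit 0x10007800040018000c000200000001000080000000000000000000000000000000) (nat_lit 0x0) (nat_lit 0x320018001c000440070000000000000000000000000000000000000000000000000) := T_19 (nat_lit 247) (nat_lit 261) (nat_lit 1) (nat_lit 9) (nat_lit 14) L23457 (by decide +kernel)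
theorem L23459 : W_19 (nat_lit 8) (nat_lit 0x7800040018000c000200000001000080000000000000000000000000000000) (nat_lit 0x0) (nat_lit 0x338018001c000440070000000000000000000000000000000000000000000000000) := T_19 (nat_lit 260) (nat_lit 259) (nat_lit 1) (nat_lit 8) (nat_lit 14) L23458 (by decide +kernel)
theorem L23460 : W_19 (nat_lit 9) (nat_lit 0x7800000018000c000200000001000080000000000000000000000000000000) (nat_lit 0x0) (nat_lit 0x338018001c600440070000000000000000000000000000000000000000000000000) := T_19 (nat_lit 226) (nat_lit 225) (nat_lit 0) (nat_lit 8) (nat_lit 14) L23459 (by decide +kernel)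
theorem L23461 : W_19 (nat_lit 2) (nat_lit 0x41003f800840018002c000200000001000080000000000000000000000000000000) (nat_lit 0x0) (nat_lit 0x40050000000000000000000000000000000000000000000000000) := D_19 (nat_lit 196) (nat_lit 198) (nat_lit 210) (nat_lit 1) (nat_lit 11) (nat_lit 11) (nat_lit 1) (nat_lit 10) (nat_lit 11) (by decide +kernel)
theorem L23462 : W_19 (nat_lit 3) (nat_lit 0x41003f800840018000c000200000001000080000000000000000000000000000000) (nat_lit 0x0) (nat_lit 0x440070000000000000000000000000000000000000000000000000) := T_19 (nat_lit 197) (nat_lit 214) (nat_lit 7) (nat_lit 10) (nat_lit 11) L23461 (by decide +kernel)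
theorem L23463 : W_19 (nat_lit 4) (nat_lit 0x41001f800840018000c000200000001000080000000000000000000000000000000) (nat_lit 0x0) (nat_lit 0x8000200000000440070000000000000000000000000000000000000000000000000) := T_19 (nat_lit 249) (nat_lit 267) (nat_lit 3) (nat_lit 8) (nat_lit 14) L23462 (by decide +kernel)
theorem L23464 : W_19 (nat_lit 5) (nat_lit 0x1001f800840018000c000200000001000080000000000000000000000000000000) (nat_lit 0x0) (nat_lit 0xe000200000000440070000000000000000000000000000000000000000000000000) := T_19 (nat_lit 266) (nat_lit 265) (nat_lit 3) (nat_lit 7) (nat_lit 14) L23463 (by decide +kernel)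
theorem L23465 : W_19 (nat_lit 6) (nat_lit 0x1000f800840018000c000200000001000080000000000000000000000000000000) (nat_lit 0x0) (nat_lit 0xe000300010000440070000000000000000000000000000000000000000000000000) := T_19 (nat_lit 248) (nat_lit 232) (nat_lit 2) (nat_lit 7) (nat_lit 14) L23464 (by decide +kernel)
theorem L23466 : W_19 (nat_lit 7) (nat_lit 0x1000f800040018000c000200000001000080000000000000000000000000000000) (nat_lit 0x0) (nat_lit 0xe00030001c000440070000000000000000000000000000000000000000000000000) := T_19 (nat_lit 231) (nat_lit 230) (nat_lit 2) (nat_lit 6) (nat_lit 14) L23465 (by decide +kernel)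
theorem L23467 : W_19 (nat_lit 8) (nat_lit 0x10007800040018000c000200000001000080000000000000000000000000000000) (nat_lit 0x0) (nat_lit 0xe20038001c000440070000000000000000000000000000000000000000000000000) := T_19 (nat_lit 247) (nat_lit 261) (nat_lit 1) (nat_lit 9) (nat_lit 14) L23466 (by decide +kernel)
theorem L23468 : W_19 (nat_lit 9) (nat_lit 0x10007800000018000c000200000001000080000000000000000000000000000000) (nat_lit 0x0) (nat_lit 0xe20038001c600440070000000000000000000000000000000000000000000000000) := T_19 (nat_lit 226) (nat_lit 225) (nat_lit 0) (nat_lit 8) (nat_lit 14) L23467 (by decide +kernel)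
theorem L23469 : W_19 (nat_lit 10) (nat_lit 0x7800000018000c000200000001000080000000000000000000000000000000) (nat_lit 0x0) (nat_lit 0xe38038001c600440070000000000000000000000000000000000000000000000000) := T_19 (nat_lit 260) (nat_lit 259) (nat_lit 1) (nat_lit 8) (nat_lit 14) L23468 (by decide +kernel)
theorem L23470 : W_19 (nat_lit 11) (nat_lit 0x7000000018000c000200000001000080000000000000000000000000000000) (nat_lit 0x0) (nat_lit 0xffc038f01c780440070000000000000000000000000000000000000000000000000) := Q_19 (nat_lit 243) (C_19 L23433 (C_19 L23439 (C_19 L23445 (C_19 L23449 (C_19 L23452 (C_19 L23460 (C_19 L23469 N_19))))))) (by decide +kernel)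
theorem L23471 : W_19 (nat_lit 2) (nat_lit 0x700000001c000c000200000001000080000000000000000000000000000000) (nat_lit 0x0) (nat_lit 0x200000000800000002000000000000000000000000000000000000000000000000) := D_19 (nat_lit 227) (nat_lit 261) (nat_lit 193) (nat_lit 6) (nat_lit 6) (nat_lit 15) (nat_lit 6) (nat_lit 6) (nat_lit 14) (by decide +kernel)
theorem L23472 : W_19 (nat_lit 2) (nat_lit 0x700000001c000c000200000001000080000000000000000000000000000000) (nat_lit 0x0) (nat_lit 0x20030000000000000000000000000000000000000000000000000) := D_19 (nat_lit 196) (nat_lit 209) (nat_lit 197) (nat_lit 2) (nat_lit 5) (nat_lit 12) (nat_lit 1) (nat_lit 10) (nat_lit 11) (by decide +kernel)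
theorem L23473 : W_19 (nat_lit 3) (nat_lit 0x7000000018000c000200000001000080000000000000000000000000000000) (nat_lit 0x0) (nat_lit 0x200000000800060032000000000000000000000000000000000000000000000000) := Q_19 (nat_lit 210) (C_19 L23471 (C_19 L23472 N_19)) (by decide +kernel)
theorem L23474 : W_19 (nat_lit 2) (nat_lit 0x18001f00088001c000c000200000001000080000000000000000000000000000000) (nat_lit 0x0) (nat_lit 0x400600000000000000000000000000000000000000000000000000000000000000) := D_19 (nat_lit 249) (nat_lit 250) (nat_lit 262) (nat_lit 1) (nat_lit 12) (nat_lit 14) (nat_lit 1) (nat_lit 11) (nat_lit 14) (by decide +kernel)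
theorem L23475 : W_19 (nat_lit 3) (nat_lit 0x18000f00088001c000c000200000001000080000000000000000000000000000000) (nat_lit 0x0) (nat_lit 0x400700010000000000000000000000000000000000000000000000000000000000) := T_19 (nat_lit 248) (nat_lit 232) (nat_lit 2) (nat_lit 7) (nat_lit 14) L23474 (by decide +kernel)
theorem L23476 : W_19 (nat_lit 4) (nat_lit 0x10000f00088001c000c000200000001000080000000000000000000000000000000) (nat_lit 0x0) (nat_lit 0xc00708010000000000000000000000000000000000000000000000000000000000) := T_19 (nat_lit 263) (nat_lit 243) (nat_lit 3) (nat_lit 5) (nat_lit 14) L23475 (by decide +kernel)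
theorem L23477 : W_19 (nat_lit 5) (nat_lit 0xf00088001c000c000200000001000080000000000000000000000000000000) (nat_lit 0x0) (nat_lit 0x3c00708010000000000000000000000000000000000000000000000000000000000) := T_19 (nat_lit 264) (nat_lit 265) (nat_lit 3) (nat_lit 6) (nat_lit 14) L23476 (by decide +kernel)
theorem L23478 : W_19 (nat_lit 6) (nat_lit 0xf00008001c000c000200000001000080000000000000000000000000000000) (nat_lit 0x0) (nat_lit 0x3c0070801c000000000000000000000000000000000000000000000000000000000) := T_19 (nat_lit 231) (nat_lit 230) (nat_lit 2) (nat_lit 6) (nat_lit 14) L23477 (by decide +kernel)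
theorem L23479 : W_19 (nat_lit 7) (nat_lit 0x700008001c000c000200000001000080000000000000000000000000000000) (nat_lit 0x0) (nat_lit 0x3c0078801c400000000000000000000000000000000000000000000000000000000) := T_19 (nat_lit 247) (nat_lit 226) (nat_lit 0) (nat_lit 9) (nat_lit 14) L23478 (by decide +kernel)
theorem L23480 : W_19 (nat_lit 8) (nat_lit 0x700000001c000c000200000001000080000000000000000000000000000000) (nat_lit 0x0) (nat_lit 0x3c0078801cc00000002000000000000000000000000000000000000000000000000) := T_19 (nat_lit 227) (nat_lit 193) (nat_lit 6) (nat_lit 6) (nat_lit 14) L23479 (by decide +kernel)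
theorem L23481 : W_19 (nat_lit 9) (nat_lit 0x7000000018000c000200000001000080000000000000000000000000000000) (nat_lit 0x0) (nat_lit 0x3c0078801cc00060032000000000000000000000000000000000000000000000000) := Q_19 (nat_lit 210) (C_19 L23480 (C_19 L23472 N_19)) (by decide +kernel)
theorem L23482 : W_19 (nat_lit 12) (nat_lit 0x6000000018000c000200000001000080000000000000000000000000000000) (nat_lit 0x0) (nat_lit 0xffc079f01cf80460072000000000000000000000000000000000000000000000000) := Q_19 (nat_lit 244) (C_19 L23429 (C_19 L23470 (C_19 L23473 (C_19 L23481 N_19)))) (by decide +kernel)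
theorem L23483 : W_19 (nat_lit 13) (nat_lit 0x2000000018000c000200000001000080000000000000000000000000000000) (nat_lit 0x0) (nat_lit 0xffc07df01ef80460072000000000000000000000000000000000000000000000000) := T_19 (nat_lit 246) (nat_lit 229) (nat_lit 4) (nat_lit 8) (nat_lit 14) L23482 (by decide +kernel)
theorem L23484 : W_19 (nat_lit 2) (nat_lit 0x2000100018000c000200000001000080000000000000000000000000000000) (nat_lit 0x0) (nat_lit 0x200010000800000000000000000000000000000000000000000000000000000000) := D_19 (nat_lit 244) (nat_lit 261) (nat_lit 227) (nat_lit 5) (nat_lit 7) (nat_lit 11) (nat_lit 5) (nat_lit 7) (nat_lit 10) (by decide +kernel)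
theorem L23485 : W_19 (nat_lit 3) (nat_lit 0x2000000018000c000200000001000080000000000000000000000000000000) (nat_lit 0x0) (nat_lit 0x600010001800000000000000000000000000000000000000000000000000000000) := T_19 (nat_lit 228) (nat_lit 262) (nat_lit 6) (nat_lit 7) (nat_lit 15) L23484 (by decide +kernel)
theorem L23486 : W_19 (nat_lit 2) (nat_lit 0x6000100018000c000200000001000080000000000000000000000000000000) (nat_lit 0x0) (nat_lit 0x200010000800000000000000000000000000000000000000000000000000000000) := D_19 (nat_lit 244) (nat_lit 261) (nat_lit 227) (nat_lit 5) (nat_lit 7) (nat_lit 11) (nat_lit 5) (nat_lit 7) (nat_lit 10) (by decide +kernel)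
theorem L23487 : W_19 (nat_lit 3) (nat_lit 0x6000000018000c000200000001000080000000000000000000000000000000) (nat_lit 0x0) (nat_lit 0xa00010001800000000000000000000000000000000000000000000000000000000) := T_19 (nat_lit 228) (nat_lit 263) (nat_lit 7) (nat_lit 7) (nat_lit 11) L23486 (by decide +kernel)
theorem L23488 : W_19 (nat_lit 4) (nat_lit 0x2000000018000c000200000001000080000000000000000000000000000000) (nat_lit 0x0) (nat_lit 0xa00050003800000000000000000000000000000000000000000000000000000000) := T_19 (nat_lit 246) (nat_lit 229) (nat_lit 4) (nat_lit 8) (nat_lit 14) L23487 (by decide +kernel)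
theorem L23489 : W_19 (nat_lit 14) (nat_lit 0x18000c000200000001000080000000000000000000000000000000) (nat_lit 0x0) (nat_lit 0xffc07ff01ff80460072000000000000000000000000000000000000000000000000) := Q_19 (nat_lit 245) (C_19 L20741 (C_19 L23483 (C_19 L23485 (C_19 L23488 N_19)))) (by decide +kernel)
theorem L23490 : W_19 (nat_lit 9) (nat_lit 0x38000c000200000001000080000000000000000000000000000000) (nat_lit 0x0) (nat_lit 0x16000b001f800c00060001000000000000000000000000000000000000000000000) := T_19 (nat_lit 214) (nat_lit 215) (nat_lit 0) (nat_lit 11) (nat_lit 12) L19472 (by decide +kernel)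
theorem L23491 : W_19 (nat_lit 2) (nat_lit 0x3c000c000200000001000080000000000000000000000000000000) (nat_lit 0x0) (nat_lit 0x20030000000000000000000000000000000000000000000000000) := D_19 (nat_lit 196) (nat_lit 197) (nat_lit 209) (nat_lit 2) (nat_lit 6) (nat_lit 12) (nat_lit 2) (nat_lit 5) (nat_lit 12) (by decide +kernel)
theorem L23492 : W_19 (nat_lit 4) (nat_lit 0x38000c000200000001000080000000000000000000000000000000) (nat_lit 0x0) (nat_lit 0x10000c00060033000000000000000000000000000000000000000000000000) := Q_19 (nat_lit 210) (C_19 L23491 (C_19 L20620 N_19)) (by decide +kernel)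
theorem L23493 : W_19 (nat_lit 10) (nat_lit 0x18000c000200000001000080000000000000000000000000000000) (nat_lit 0x0) (nat_lit 0x16000b001fc00e60073001000000000000000000000000000000000000000000000) := Q_19 (nat_lit 213) (C_19 L21319 (C_19 L23490 (C_19 L23492 N_19))) (by decide +kernel)
theorem L23494 : W_19 (nat_lit 10) (nat_lit 0x38000c000200000001000080000000000000000000000000000000) (nat_lit 0x0) (nat_lit 0x3e001f001d800c00060000000000000000000000000000000000000000000000000) := T_19 (nat_lit 214) (nat_lit 215) (nat_lit 0) (nat_lit 11) (nat_lit 12) L19480 (by decide +kernel)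
theorem L23495 : W_19 (nat_lit 11) (nat_lit 0x18000c000200000001000080000000000000000000000000000000) (nat_lit 0x0) (nat_lit 0x3e001f001dc00e60073000000000000000000000000000000000000000000000000) := Q_19 (nat_lit 213) (C_19 L21319 (C_19 L23492 (C_19 L23494 N_19))) (by decide +kernel)
theorem L23496 : W_19 (nat_lit 15) (nat_lit 0x8000c000200000001000080000000000000000000000000000000) (nat_lit 0x0) (nat_lit 0xffc07ff01ff80f60073001800060000000000000000000000000000000000000000) := Q_19 (nat_lit 212) (C_19 L20684 (C_19 L23404 (C_19 L23412 (C_19 L23489 (C_19 L23493 (C_19 L23495 N_19)))))) (by decide +kernel)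
theorem L23497 : W_19 (nat_lit 6) (nat_lit 0x78000c000200020001000080000000000000000000000000000000) (nat_lit 0x0) (nat_lit 0x100008001d800040060001000000000000000000000000000000000000000000000) := T_19 (nat_lit 228) (nat_lit 227) (nat_lit 1) (nat_lit 10) (nat_lit 12) L18873 (by decide +kernel)
theorem L23498 : W_19 (nat_lit 7) (nat_lit 0x38000c000200020001000080000000000000000000000000000000) (nat_lit 0x0) (nat_lit 0x100008001d800c40060001000000000000000000000000000000000000000000000) := T_19 (nat_lit 214) (nat_lit 215) (nat_lit 0) (nat_lit 11) (nat_lit 12) L23497 (by decide +kernel)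
theorem L23499 : W_19 (nat_lit 8) (nat_lit 0x38000c000200000001000080000000000000000000000000000000) (nat_lit 0x0) (nat_lit 0x100008001d800c40060001400020000000000000000000000000000000000000000) := T_19 (nat_lit 161) (nat_lit 178) (nat_lit 5) (nat_lit 8) (nat_lit 7) L23498 (by decide +kernel)
theorem L23500 : W_19 (nat_lit 2) (nat_lit 0x3c001d000600000001000080000000000000000000000000000000) (nat_lit 0x0) (nat_lit 0x8000c000000000000000000000000000000000000000000000000000000000) := D_19 (nat_lit 230) (nat_lit 231) (nat_lit 247) (nat_lit 3) (nat_lit 6) (nat_lit 12) (nat_lit 4) (nat_lit 9) (nat_lit 14) (by decide +kernel)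
theorem L23501 : W_19 (nat_lit 3) (nat_lit 0x3c001d000200000001000080000000000000000000000000000000) (nat_lit 0x0) (nat_lit 0x8000c000000000000400020000000000000000000000000000000000000000) := T_19 (nat_lit 178) (nat_lit 161) (nat_lit 7) (nat_lit 8) (nat_lit 8) L23500 (by decide +kernel)
theorem L23502 : W_19 (nat_lit 4) (nat_lit 0x38001d000200000001000080000000000000000000000000000000) (nat_lit 0x0) (nat_lit 0x8000c000060000000400020000000000000000000000000000000000000000) := T_19 (nat_lit 210) (nat_lit 209) (nat_lit 2) (nat_lit 5) (nat_lit 12) L23501 (by decide +kernel)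
theorem L23503 : W_19 (nat_lit 5) (nat_lit 0x38001c000200000001000080000000000000000000000000000000) (nat_lit 0x0) (nat_lit 0x8000c000060003000400020000000000000000000000000000000000000000) := T_19 (nat_lit 192) (nat_lit 193) (nat_lit 3) (nat_lit 5) (nat_lit 11) L23502 (by decide +kernel)
theorem L23504 : W_19 (nat_lit 7) (nat_lit 0x38000c000200000001000080000000000000000000000000000000) (nat_lit 0x0) (nat_lit 0x8000c000060073003c000e0000000000000000000000000000000000000000) := Q_19 (nat_lit 196) (C_19 L23410 (C_19 L18672 (C_19 L23503 N_19))) (by decide +kernel)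
theorem L23505 : W_19 (nat_lit 9) (nat_lit 0x18000c000200000001000080000000000000000000000000000000) (nat_lit 0x0) (nat_lit 0x100008001d800e60073003c000e0000000000000000000000000000000000000000) := Q_19 (nat_lit 213) (C_19 L21319 (C_19 L23499 (C_19 L23504 N_19))) (by decide +kernel)
theorem L23506 : W_19 (nat_lit 2) (nat_lit 0x10000400044003e000c000200000001000080000000000000000000000000000000) (nat_lit 0x0) (nat_lit 0x3800000000000000000000000000000000000000000000000) := D_19 (nat_lit 192) (nat_lit 191) (nat_lit 193) (nat_lit 0) (nat_lit 8) (nat_lit 12) (nat_lit 3) (nat_lit 5) (nat_lit 11) (by decide +kernel)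
theorem L23507 : W_19 (nat_lit 3) (nat_lit 0x10000400044003c000c000200000001000080000000000000000000000000000000) (nat_lit 0x0) (nat_lit 0x200020003800000000000000000000000000000000000000000000000) := T_19 (nat_lit 209) (nat_lit 225) (nat_lit 1) (nat_lit 8) (nat_lit 12) L23506 (by decide +kernel)
theorem L23508 : W_19 (nat_lit 4) (nat_lit 0x400044003c000c000200000001000080000000000000000000000000000000) (nat_lit 0x0) (nat_lit 0x1000080000200020003800000000000000000000000000000000000000000000000) := T_19 (nat_lit 264) (nat_lit 247) (nat_lit 4) (nat_lit 9) (nat_lit 15) L23507 (by decide +kernel)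
theorem L23509 : W_19 (nat_lit 5) (nat_lit 0x400040003c000c000200000001000080000000000000000000000000000000) (nat_lit 0x0) (nat_lit 0x1000080000e00020003800000000000000000000000000000000000000000000000) := T_19 (nat_lit 226) (nat_lit 227) (nat_lit 1) (nat_lit 9) (nat_lit 12) L23508 (by decide +kernel)
theorem L23510 : W_19 (nat_lit 6) (nat_lit 0x400000003c000c000200000001000080000000000000000000000000000000) (nat_lit 0x0) (nat_lit 0x100008000ce00020003800000000000000000000000000000000000000000000000) := T_19 (nat_lit 230) (nat_lit 231) (nat_lit 3) (nat_lit 6) (nat_lit 12) L23509 (by decide +kernel)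
theorem L23511 : W_19 (nat_lit 7) (nat_lit 0x3c000c000200000001000080000000000000000000000000000000) (nat_lit 0x0) (nat_lit 0x10000c000ee00020003800000000000000000000000000000000000000000000000) := T_19 (nat_lit 246) (nat_lit 229) (nat_lit 4) (nat_lit 8) (nat_lit 14) L23510 (by decide +kernel)
theorem L23512 : W_19 (nat_lit 11) (nat_lit 0x38000c000200000001000080000000000000000000000000000000) (nat_lit 0x0) (nat_lit 0x30007c000fe00060033801800040000000000000000000000000000000000000000) := Q_19 (nat_lit 210) (C_19 L23491 (C_19 L20703 (C_19 L23511 N_19))) (by decide +kernel)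
theorem L23513 : W_19 (nat_lit 12) (nat_lit 0x18000c000200000001000080000000000000000000000000000000) (nat_lit 0x0) (nat_lit 0x30007c001fe00e60073801800040000000000000000000000000000000000000000) := Q_19 (nat_lit 213) (C_19 L21319 (C_19 L23409 (C_19 L23512 N_19))) (by decide +kernel)
theorem L23514 : W_19 (nat_lit 13) (nat_lit 0x8000c000200000001000080000000000000000000000000000000) (nat_lit 0x0) (nat_lit 0x38007c001fe00f60073803c001e0004000200000000000000000000000000000000) := Q_19 (nat_lit 212) (C_19 L23412 (C_19 L18729 (C_19 L21335 (C_19 L18649 (C_19 L20612 (C_19 L23505 (C_19 L23513 N_19))))))) (by decide +kernel)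
theorem L23515 : W_19 (nat_lit 2) (nat_lit 0x7c002c000200020001000080000000000000000000000000000000) (nat_lit 0x0) (nat_lit 0x1c000000000000000000000000000000000000000000000000000000000) := D_19 (nat_lit 231) (nat_lit 230) (nat_lit 232) (nat_lit 3) (nat_lit 6) (nat_lit 12) (nat_lit 3) (nat_lit 7) (nat_lit 12) (by decide +kernel)
theorem L23516 : W_19 (nat_lit 3) (nat_lit 0x78002c000200020001000080000000000000000000000000000000) (nat_lit 0x0) (nat_lit 0x1c000040010000000000000000000000000000000000000000000000000) := T_19 (nat_lit 210) (nat_lit 196) (nat_lit 2) (nat_lit 6) (nat_lit 12) L23515 (by decide +kernel)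
theorem L23517 : W_19 (nat_lit 4) (nat_lit 0x78000c000200020001000080000000000000000000000000000000) (nat_lit 0x0) (nat_lit 0x1c000040070000000000000000000000000000000000000000000000000) := T_19 (nat_lit 197) (nat_lit 198) (nat_lit 2) (nat_lit 7) (nat_lit 12) L23516 (by decide +kernel)
theorem L23518 : W_19 (nat_lit 5) (nat_lit 0x38000c000200020001000080000000000000000000000000000000) (nat_lit 0x0) (nat_lit 0x1c000c40070000000000000000000000000000000000000000000000000) := T_19 (nat_lit 214) (nat_lit 215) (nat_lit 0) (nat_lit 11) (nat_lit 12) L23517 (by decide +kernel)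
theorem L23519 : W_19 (nat_lit 6) (nat_lit 0x38000c000200000001000080000000000000000000000000000000) (nat_lit 0x0) (nat_lit 0x1c000c40070000400020000000000000000000000000000000000000000) := T_19 (nat_lit 161) (nat_lit 178) (nat_lit 5) (nat_lit 8) (nat_lit 7) L23518 (by decide +kernel)
theorem L23520 : W_19 (nat_lit 8) (nat_lit 0x18000c000200000001000080000000000000000000000000000000) (nat_lit 0x0) (nat_lit 0x8001c000e60073003c000e0000000000000000000000000000000000000000) := Q_19 (nat_lit 213) (C_19 L21319 (C_19 L23504 (C_19 L23519 N_19))) (by decide +kernel)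
theorem L23521 : W_19 (nat_lit 2) (nat_lit 0x18001e000200000001000080000000000000000000000000000000) (nat_lit 0x0) (nat_lit 0x200001800000000000000000000000000000000000000000000000) := D_19 (nat_lit 192) (nat_lit 213) (nat_lit 191) (nat_lit 3) (nat_lit 5) (nat_lit 11) (nat_lit 3) (nat_lit 4) (nat_lit 11) (by decide +kernel)
theorem L23522 : W_19 (nat_lit 2) (nat_lit 0x4000000018001e000a00000001000080000000000000000000000000000000) (nat_lit 0x0) (nat_lit 0x1800400000000000000000000000000000000000000000000) := D_19 (nat_lit 192) (nat_lit 178) (nat_lit 191) (nat_lit 2) (nat_lit 5) (nat_lit 11) (nat_lit 3) (nat_lit 4) (nat_lit 11) (by decide +kernel)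
theorem L23523 : W_19 (nat_lit 3) (nat_lit 0x4000000018001e000200000001000080000000000000000000000000000000) (nat_lit 0x0) (nat_lit 0x1801c00000000000000000000000000000000000000000000) := T_19 (nat_lit 179) (nat_lit 180) (nat_lit 2) (nat_lit 6) (nat_lit 11) L23522 (by decide +kernel)
theorem L23524 : W_19 (nat_lit 4) (nat_lit 0x18001e000200000001000080000000000000000000000000000000) (nat_lit 0x0) (nat_lit 0x40002000000001801c00000000000000000000000000000000000000000000) := T_19 (nat_lit 246) (nat_lit 229) (nat_lit 4) (nat_lit 8) (nat_lit 14) L23523 (by decide +kernel)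
theorem L23525 : W_19 (nat_lit 6) (nat_lit 0x18001c000200000001000080000000000000000000000000000000) (nat_lit 0x0) (nat_lit 0x40002000660003801c00040000000000000000000000000000000000000000) := Q_19 (nat_lit 193) (C_19 L23521 (C_19 L20735 (C_19 L23524 N_19))) (by decide +kernel)
theorem L23526 : W_19 (nat_lit 7) (nat_lit 0x18000c000200000001000080000000000000000000000000000000) (nat_lit 0x0) (nat_lit 0x40002000660073803c00040000000000000000000000000000000000000000) := Q_19 (nat_lit 196) (C_19 L23197 (C_19 L18667 (C_19 L23525 N_19))) (by decide +kernel)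
theorem L23527 : W_19 (nat_lit 10) (nat_lit 0x8000c000200000001000080000000000000000000000000000000) (nat_lit 0x0) (nat_lit 0x18000c001e000f60073803c001e0004000200000000000000000000000000000000) := Q_19 (nat_lit 212) (C_19 L23412 (C_19 L18729 (C_19 L21335 (C_19 L18649 (C_19 L20612 (C_19 L23520 (C_19 L23526 N_19))))))) (by decide +kernel)
theorem L23528 : W_19 (nat_lit 12) (nat_lit 0x8000c000200000001000080000000000000000000000000000000) (nat_lit 0x0) (nat_lit 0x80026003f001fe00f60073803c00060000000000000000000000000000000000000000) := Q_19 (nat_lit 228) (C_19 L18564 (C_19 L20890 (C_19 L20056 (C_19 L20131 (C_19 L18306 (C_19 L19988 N_19)))))) (by decide +kernel)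
theorem L23529 : W_19 (nat_lit 16) (nat_lit 0xc000200000001000080000000000000000000000000000000) (nat_lit 0x0) (nat_lit 0xfc00ffc07ff01ff81fe0073807c001e0004000200000000000000000000000000000000) := Q_19 (nat_lit 211) (C_19 L19973 (C_19 L23496 (C_19 L20057 (C_19 L18565 (C_19 L20177 (C_19 L18786 (C_19 L23514 (C_19 L19779 (C_19 L23527 (C_19 L18973 (C_19 L20891 (C_19 L20126 (C_19 L23528 (C_19 L20158 N_19)))))))))))))) (by decide +kernel)
theorem L23530 : W_19 (nat_lit 2) (nat_lit 0x380008003c001e00040001000080000000000000000000000000000000) (nat_lit 0x0) (nat_lit 0x8000c00000000000000000000000000000000000000000000000000000) := D_19 (nat_lit 214) (nat_lit 215) (nat_lit 231) (nat_lit 3) (nat_lit 7) (nat_lit 11) (nat_lit 4) (nat_lit 10) (nat_lit 13) (by decide +kernel)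
theorem L23531 : W_19 (nat_lit 3) (nat_lit 0x380008003c001e00000001000080000000000000000000000000000000) (nat_lit 0x0) (nat_lit 0x8000d00000000000040000000000000000000000000000000000000000) := T_19 (nat_lit 162) (nat_lit 212) (nat_lit 6) (nat_lit 8) (nat_lit 13) L23530 (by decide +kernel)
theorem L23532 : W_19 (nat_lit 4) (nat_lit 0x180008003c001e00000001000080000000000000000000000000000000) (nat_lit 0x0) (nat_lit 0x4000a000d00000000000040000000000000000000000000000000000000000) := T_19 (nat_lit 229) (nat_lit 246) (nat_lit 7) (nat_lit 7) (nat_lit 10) L23531 (by decide +kernel)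
theorem L23533 : W_19 (nat_lit 5) (nat_lit 0x180008003c001600000001000080000000000000000000000000000000) (nat_lit 0x0) (nat_lit 0x4000a000d00002000800040000000000000000000000000000000000000000) := T_19 (nat_lit 179) (nat_lit 193) (nat_lit 2) (nat_lit 6) (nat_lit 11) L23532 (by decide +kernel)
theorem L23534 : W_19 (nat_lit 6) (nat_lit 0x180008003c000600000001000080000000000000000000000000000000) (nat_lit 0x0) (nat_lit 0x4000a000d00002003800040000000000000000000000000000000000000000) := T_19 (nat_lit 180) (nat_lit 181) (nat_lit 2) (nat_lit 7) (nat_lit 11) L23533 (by decide +kernel)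
theorem L23535 : W_19 (nat_lit 7) (nat_lit 0x100008003c000600000001000080000000000000000000000000000000) (nat_lit 0x0) (nat_lit 0x5000a800d00002003800040000000000000000000000000000000000000000) := T_19 (nat_lit 227) (nat_lit 244) (nat_lit 5) (nat_lit 7) (nat_lit 10) L23534 (by decide +kernel)
theorem L23536 : W_19 (nat_lit 8) (nat_lit 0x100008001c000600000001000080000000000000000000000000000000) (nat_lit 0x0) (nat_lit 0x5000a800d00062003800040000000000000000000000000000000000000000) := T_19 (nat_lit 197) (nat_lit 198) (nat_lit 0) (nat_lit 11) (nat_lit 11) L23535 (by decide +kernel)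
theorem L23537 : W_19 (nat_lit 9) (nat_lit 0x100008001c000200000001000080000000000000000000000000000000) (nat_lit 0x0) (nat_lit 0x5000a800d00062003c00060000000000000000000000000000000000000000) := T_19 (nat_lit 178) (nat_lit 161) (nat_lit 6) (nat_lit 7) (nat_lit 13) L23536 (by decide +kernel)
theorem L23538 : W_19 (nat_lit 2) (nat_lit 0x4003c000a001c000200020001000080000000000000000000000000000000) (nat_lit 0x0) (nat_lit 0x2000200100000000000000000000000000000000000000000000000000000) := D_19 (nat_lit 225) (nat_lit 212) (nat_lit 241) (nat_lit 2) (nat_lit 4) (nat_lit 13) (nat_lit 1) (nat_lit 7) (nat_lit 13) (by decide +kernel)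
theorem L23539 : W_19 (nat_lit 3) (nat_lit 0x3c000a001c000200020001000080000000000000000000000000000000) (nat_lit 0x0) (nat_lit 0xe000200100000000000000000000000000000000000000000000000000000) := T_19 (nat_lit 242) (nat_lit 243) (nat_lit 1) (nat_lit 8) (nat_lit 13) L23538 (by decide +kernel)
theorem L23540 : W_19 (nat_lit 4) (nat_lit 0x38000a001c000200020001000080000000000000000000000000000000) (nat_lit 0x0) (nat_lit 0xe000600110000000000000000000000000000000000000000000000000000) := T_19 (nat_lit 226) (nat_lit 208) (nat_lit 0) (nat_lit 8) (nat_lit 13) L23539 (by decide +kernel)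
theorem L23541 : W_19 (nat_lit 5) (nat_lit 0x18000a001c000200020001000080000000000000000000000000000000) (nat_lit 0x0) (nat_lit 0x4e002600110000000000000000000000000000000000000000000000000000) := T_19 (nat_lit 229) (nat_lit 246) (nat_lit 7) (nat_lit 7) (nat_lit 10) L23540 (by decide +kernel)
theorem L23542 : W_19 (nat_lit 6) (nat_lit 0x18000a001c000200000001000080000000000000000000000000000000) (nat_lit 0x0) (nat_lit 0x4e002600110000000400020000000000000000000000000000000000000000) := T_19 (nat_lit 161) (nat_lit 178) (nat_lit 6) (nat_lit 7) (nat_lit 13) L23541 (by decide +kernel)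
theorem L23543 : W_19 (nat_lit 7) (nat_lit 0x10000a001c000200000001000080000000000000000000000000000000) (nat_lit 0x0) (nat_lit 0x5e002e00110000000400020000000000000000000000000000000000000000) := T_19 (nat_lit 227) (nat_lit 244) (nat_lit 5) (nat_lit 7) (nat_lit 10) L23542 (by decide +kernel)
theorem L23544 : W_19 (nat_lit 8) (nat_lit 0x100008001c000200000001000080000000000000000000000000000000) (nat_lit 0x0) (nat_lit 0x5e002e00170002000400020000000000000000000000000000000000000000) := Q_19 (nat_lit 209) (C_19 L19944 (C_19 L19938 (C_19 L23543 (C_19 L19937 N_19)))) (by decide +kernel)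
theorem L23545 : W_19 (nat_lit 10) (nat_lit 0x100008000c000200000001000080000000000000000000000000000000) (nat_lit 0x0) (nat_lit 0x5e00ae01d70072003c00060000000000000000000000000000000000000000) := Q_19 (nat_lit 196) (C_19 L20019 (C_19 L23537 (C_19 L18514 (C_19 L23544 N_19)))) (by decide +kernel)
theorem L23546 : W_19 (nat_lit 11) (nat_lit 0x8000c000200000001000080000000000000000000000000000000) (nat_lit 0x0) (nat_lit 0xe0007e00be01d70072003c00060000000000000000000000000000000000000000) := Q_19 (nat_lit 228) (C_19 L20132 (C_19 L20200 (C_19 L23545 N_19))) (by decide +kernel)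
theorem L23547 : W_19 (nat_lit 5) (nat_lit 0x3c000c000200000001000080000000000000000000000000000000) (nat_lit 0x0) (nat_lit 0x40002000000033001800040000000000000000000000000000000000000000) := T_19 (nat_lit 196) (nat_lit 197) (nat_lit 2) (nat_lit 6) (nat_lit 12) L20710 (by decide +kernel)
theorem L23548 : W_19 (nat_lit 2) (nat_lit 0x2000400008003c002c000200000001000080000000000000000000000000000000) (nat_lit 0x0) (nat_lit 0xc00040000000000000000000000000000000000000000000000000) := D_19 (nat_lit 214) (nat_lit 215) (nat_lit 198) (nat_lit 0) (nat_lit 11) (nat_lit 12) (nat_lit 2) (nat_lit 7) (nat_lit 12) (by decide +kernel)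
theorem L23549 : W_19 (nat_lit 3) (nat_lit 0x2000400008001c002c000200000001000080000000000000000000000000000000) (nat_lit 0x0) (nat_lit 0x400e00040000000000000000000000000000000000000000000000000) := T_19 (nat_lit 213) (nat_lit 226) (nat_lit 1) (nat_lit 9) (nat_lit 12) L23548 (by decide +kernel)
theorem L23550 : W_19 (nat_lit 4) (nat_lit 0x2000400008000c002c000200000001000080000000000000000000000000000000) (nat_lit 0x0) (nat_lit 0x2400f00040000000000000000000000000000000000000000000000000) := T_19 (nat_lit 212) (nat_lit 229) (nat_lit 4) (nat_lit 8) (nat_lit 14) L23549 (by decide +kernel)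
theorem L23551 : W_19 (nat_lit 5) (nat_lit 0x400008000c002c000200000001000080000000000000000000000000000000) (nat_lit 0x0) (nat_lit 0x200010002400f00040000000000000000000000000000000000000000000000000) := T_19 (nat_lit 261) (nat_lit 244) (nat_lit 6) (nat_lit 6) (nat_lit 15) L23550 (by decide +kernel)
theorem L23552 : W_19 (nat_lit 6) (nat_lit 0x400008000c000c000200000001000080000000000000000000000000000000) (nat_lit 0x0) (nat_lit 0x200010002400f00070000000000000000000000000000000000000000000000000) := T_19 (nat_lit 197) (nat_lit 196) (nat_lit 1) (nat_lit 10) (nat_lit 11) L23551 (by decide +kernel)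
theorem L23553 : W_19 (nat_lit 7) (nat_lit 0x400000000c000c000200000001000080000000000000000000000000000000) (nat_lit 0x0) (nat_lit 0x200010002c00f00072000000000000000000000000000000000000000000000000) := Q_19 (nat_lit 227) (C_19 L20197 (C_19 L23552 (C_19 L19605 N_19))) (by decide +kernel)
theorem L23554 : W_19 (nat_lit 2) (nat_lit 0x500000000c000c000200000001000080000000000000000000000000000000) (nat_lit 0x0) (nat_lit 0x200000001800000000000000000000000000000000000000000000000000000000) := D_19 (nat_lit 227) (nat_lit 228) (nat_lit 261) (nat_lit 5) (nat_lit 7) (nat_lit 10) (nat_lit 6) (nat_lit 6) (nat_lit 15) (by decide +kernel)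
theorem L23555 : W_19 (nat_lit 2) (nat_lit 0x500000000c000c000200000001000080000000000000000000000000000000) (nat_lit 0x0) (nat_lit 0x1800000002000000000000000000000000000000000000000000000000) := D_19 (nat_lit 227) (nat_lit 228) (nat_lit 193) (nat_lit 5) (nat_lit 7) (nat_lit 10) (nat_lit 6) (nat_lit 6) (nat_lit 14) (by decide +kernel)
theorem L23556 : W_19 (nat_lit 8) (nat_lit 0x400000000c000c000200000001000080000000000000000000000000000000) (nat_lit 0x0) (nat_lit 0x3fc00bc001f00100032000000000000000000000000000000000000000000000000) := Q_19 (nat_lit 244) (C_19 L20196 (C_19 L23554 (C_19 L19719 (C_19 L23555 N_19)))) (by decide +kernel)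
theorem L23557 : W_19 (nat_lit 9) (nat_lit 0xc000c000200000001000080000000000000000000000000000000) (nat_lit 0x0) (nat_lit 0x3fc00fc003f00f00072000000000000000000000000000000000000000000000000) := Q_19 (nat_lit 246) (C_19 L20193 (C_19 L20195 (C_19 L23553 (C_19 L23556 N_19)))) (by decide +kernel)
theorem L23558 : W_19 (nat_lit 2) (nat_lit 0x400008003d000c000200000001000080000000000000000000000000000000) (nat_lit 0x0) (nat_lit 0x1000c00000000000000000000000000000000000000000000000000000) := D_19 (nat_lit 214) (nat_lit 215) (nat_lit 228) (nat_lit 0) (nat_lit 11) (nat_lit 12) (nat_lit 1) (nat_lit 10) (nat_lit 12) (by decide +kernel)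
theorem L23559 : W_19 (nat_lit 3) (nat_lit 0x400008001d000c000200000001000080000000000000000000000000000000) (nat_lit 0x0) (nat_lit 0x1400e00000000000000000000000000000000000000000000000000000) := T_19 (nat_lit 213) (nat_lit 226) (nat_lit 1) (nat_lit 9) (nat_lit 12) L23558 (by decide +kernel)
theorem L23560 : W_19 (nat_lit 4) (nat_lit 0x8001d000c000200000001000080000000000000000000000000000000) (nat_lit 0x0) (nat_lit 0x40003400e00000000000000000000000000000000000000000000000000000) := T_19 (nat_lit 246) (nat_lit 229) (nat_lit 4) (nat_lit 8) (nat_lit 14) L23559 (by decide +kernel)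
theorem L23561 : W_19 (nat_lit 5) (nat_lit 0x8001c000c000200000001000080000000000000000000000000000000) (nat_lit 0x0) (nat_lit 0x40003400e30000000000000000000000000000000000000000000000000000) := T_19 (nat_lit 208) (nat_lit 209) (nat_lit 2) (nat_lit 4) (nat_lit 12) L23560 (by decide +kernel)
theorem L23562 : W_19 (nat_lit 2) (nat_lit 0x40000c001e000d000280000001000080000000000000000000000000000000) (nat_lit 0x0) (nat_lit 0x2000040002000000000000000000000000000000000000000) := D_19 (nat_lit 174) (nat_lit 157) (nat_lit 193) (nat_lit 4) (nat_lit 5) (nat_lit 13) (nat_lit 0) (nat_lit 8) (nat_lit 11) (by decide +kernel)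
theorem L23563 : W_19 (nat_lit 3) (nat_lit 0x40000c001e000d000200000001000080000000000000000000000000000000) (nat_lit 0x0) (nat_lit 0x20000c0006000000000000000000000000000000000000000) := T_19 (nat_lit 175) (nat_lit 158) (nat_lit 7) (nat_lit 5) (nat_lit 9) L23562 (by decide +kernel)
theorem L23564 : W_19 (nat_lit 4) (nat_lit 0x400008001e000d000200000001000080000000000000000000000000000000) (nat_lit 0x0) (nat_lit 0x6000000020000c0006000000000000000000000000000000000000000) := T_19 (nat_lit 226) (nat_lit 225) (nat_lit 1) (nat_lit 8) (nat_lit 12) L23563 (by decide +kernel)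
theorem L23565 : W_19 (nat_lit 5) (nat_lit 0x400008001e000c000200000001000080000000000000000000000000000000) (nat_lit 0x0) (nat_lit 0x6000000038000c0006000000000000000000000000000000000000000) := T_19 (nat_lit 192) (nat_lit 191) (nat_lit 0) (nat_lit 8) (nat_lit 12) L23564 (by decide +kernel)
theorem L23566 : W_19 (nat_lit 6) (nat_lit 0x8001e000c000200000001000080000000000000000000000000000000) (nat_lit 0x0) (nat_lit 0x400026000000038000c0006000000000000000000000000000000000000000) := T_19 (nat_lit 246) (nat_lit 229) (nat_lit 4) (nat_lit 8) (nat_lit 14) L23565 (by decide +kernel)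
theorem L23567 : W_19 (nat_lit 7) (nat_lit 0x8001c000c000200000001000080000000000000000000000000000000) (nat_lit 0x0) (nat_lit 0x400026000300038000c0006000000000000000000000000000000000000000) := T_19 (nat_lit 209) (nat_lit 208) (nat_lit 2) (nat_lit 4) (nat_lit 12) L23566 (by decide +kernel)
theorem L23568 : W_19 (nat_lit 2) (nat_lit 0x400008003e000d000200000001000080000000000000000000000000000000) (nat_lit 0x0) (nat_lit 0x1000c00000000000000000000000000000000000000000000000000000) := D_19 (nat_lit 214) (nat_lit 228) (nat_lit 215) (nat_lit 1) (nat_lit 10) (nat_lit 12) (nat_lit 0) (nat_lit 11) (nat_lit 12) (by decide +kernel)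
theorem L23569 : W_19 (nat_lit 3) (nat_lit 0x400008001e000d000200000001000080000000000000000000000000000000) (nat_lit 0x0) (nat_lit 0x1000e00002000000000000000000000000000000000000000000000000) := T_19 (nat_lit 213) (nat_lit 193) (nat_lit 3) (nat_lit 5) (nat_lit 11) L23568 (by decide +kernel)
theorem L23570 : W_19 (nat_lit 4) (nat_lit 0x400008001e000c000200000001000080000000000000000000000000000000) (nat_lit 0x0) (nat_lit 0x1000e00003800000000000000000000000000000000000000000000000) := T_19 (nat_lit 192) (nat_lit 191) (nat_lit 0) (nat_lit 8) (nat_lit 12) L23569 (by decide +kernel)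
theorem L23571 : W_19 (nat_lit 5) (nat_lit 0x400008001c000c000200000001000080000000000000000000000000000000) (nat_lit 0x0) (nat_lit 0x1000e30003800000000000000000000000000000000000000000000000) := T_19 (nat_lit 209) (nat_lit 208) (nat_lit 2) (nat_lit 4) (nat_lit 12) L23570 (by decide +kernel)
theorem L23572 : W_19 (nat_lit 6) (nat_lit 0x8001c000c000200000001000080000000000000000000000000000000) (nat_lit 0x0) (nat_lit 0x40003000e30003800000000000000000000000000000000000000000000000) := T_19 (nat_lit 246) (nat_lit 229) (nat_lit 4) (nat_lit 8) (nat_lit 14) L23571 (by decide +kernel)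
theorem L23573 : W_19 (nat_lit 8) (nat_lit 0x8000c000c000200000001000080000000000000000000000000000000) (nat_lit 0x0) (nat_lit 0x40003600f300038000c0006000000000000000000000000000000000000000) := Q_19 (nat_lit 212) (C_19 L19728 (C_19 L23561 (C_19 L23567 (C_19 L23572 N_19)))) (by decide +kernel)
theorem L23574 : W_19 (nat_lit 9) (nat_lit 0xc000c000200000001000080000000000000000000000000000000) (nat_lit 0x0) (nat_lit 0x200050003e00f300038000c0006000000000000000000000000000000000000000) := Q_19 (nat_lit 227) (C_19 L9038 (C_19 L19731 (C_19 L23573 N_19))) (by decide +kernel)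
theorem L23575 : W_19 (nat_lit 10) (nat_lit 0x8000c000200000001000080000000000000000000000000000000) (nat_lit 0x0) (nat_lit 0x3fc00fc003f00f700738000c0006000000000000000000000000000000000000000) := Q_19 (nat_lit 210) (C_19 L19600 (C_19 L19723 (C_19 L19598 (C_19 L23557 (C_19 L23574 N_19))))) (by decide +kernel)
theorem L23576 : W_19 (nat_lit 8) (nat_lit 0x100008000c000200000001000080000000000000000000000000000000) (nat_lit 0x0) (nat_lit 0x50002e00f00073803c00060000000000000000000000000000000000000000) := Q_19 (nat_lit 212) (C_19 L6567 (C_19 L9112 (C_19 L20055 N_19))) (by decide +kernel)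
theorem L23577 : W_19 (nat_lit 9) (nat_lit 0x8000c000200000001000080000000000000000000000000000000) (nat_lit 0x0) (nat_lit 0x10000e00070003e00f00073803c00060000000000000000000000000000000000000000) := Q_19 (nat_lit 228) (C_19 L20132 (C_19 L18306 (C_19 L23576 (C_19 L18304 N_19)))) (by decide +kernel)
theorem L23578 : W_19 (nat_lit 2) (nat_lit 0x380008003e001600000001000080000000000000000000000000000000) (nat_lit 0x0) (nat_lit 0xe00000000000000000000000000000000000000000000000000000) := D_19 (nat_lit 214) (nat_lit 213) (nat_lit 215) (nat_lit 3) (nat_lit 6) (nat_lit 11) (nat_lit 3) (nat_lit 7) (nat_lit 11) (by decide +kernel)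
theorem L23579 : W_19 (nat_lit 3) (nat_lit 0x380008003c001600000001000080000000000000000000000000000000) (nat_lit 0x0) (nat_lit 0xe00002000800000000000000000000000000000000000000000000) := T_19 (nat_lit 193) (nat_lit 179) (nat_lit 2) (nat_lit 6) (nat_lit 11) L23578 (by decide +kernel)
theorem L23580 : W_19 (nat_lit 4) (nat_lit 0x380008003c000600000001000080000000000000000000000000000000) (nat_lit 0x0) (nat_lit 0xe00002003800000000000000000000000000000000000000000000) := T_19 (nat_lit 180) (nat_lit 181) (nat_lit 2) (nat_lit 7) (nat_lit 11) L23579 (by decide +kernel)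
theorem L23581 : W_19 (nat_lit 5) (nat_lit 0x380008001c000600000001000080000000000000000000000000000000) (nat_lit 0x0) (nat_lit 0xe00062003800000000000000000000000000000000000000000000) := T_19 (nat_lit 197) (nat_lit 198) (nat_lit 0) (nat_lit 11) (nat_lit 11) L23580 (by decide +kernel)
theorem L23582 : W_19 (nat_lit 6) (nat_lit 0x180008001c000600000001000080000000000000000000000000000000) (nat_lit 0x0) (nat_lit 0x40002000e00062003800000000000000000000000000000000000000000000) := T_19 (nat_lit 229) (nat_lit 246) (nat_lit 7) (nat_lit 7) (nat_lit 10) L23581 (by decide +kernel)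
theorem L23583 : W_19 (nat_lit 7) (nat_lit 0x180008001c000200000001000080000000000000000000000000000000) (nat_lit 0x0) (nat_lit 0x40002000e00062003c00020000000000000000000000000000000000000000) := T_19 (nat_lit 178) (nat_lit 161) (nat_lit 6) (nat_lit 7) (nat_lit 13) L23582 (by decide +kernel)
theorem L23584 : W_19 (nat_lit 8) (nat_lit 0x100008001c000200000001000080000000000000000000000000000000) (nat_lit 0x0) (nat_lit 0x50002800e00062003c00020000000000000000000000000000000000000000) := T_19 (nat_lit 227) (nat_lit 244) (nat_lit 5) (nat_lit 7) (nat_lit 10) L23583 (by decide +kernel)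
theorem L23585 : W_19 (nat_lit 2) (nat_lit 0x18002b001e000200020001000080000000000000000000000000000000) (nat_lit 0x0) (nat_lit 0x40002400000000000000000000000000000000000000000000000000000000) := D_19 (nat_lit 229) (nat_lit 246) (nat_lit 226) (nat_lit 7) (nat_lit 7) (nat_lit 10) (nat_lit 0) (nat_lit 8) (nat_lit 13) (by decide +kernel)
theorem L23586 : W_19 (nat_lit 3) (nat_lit 0x18002a001e000200020001000080000000000000000000000000000000) (nat_lit 0x0) (nat_lit 0x40002400010001000000000000000000000000000000000000000000000000) := T_19 (nat_lit 208) (nat_lit 192) (nat_lit 1) (nat_lit 8) (nat_lit 11) L23585 (by decide +kernel)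
theorem L23587 : W_19 (nat_lit 4) (nat_lit 0x10002a001e000200020001000080000000000000000000000000000000) (nat_lit 0x0) (nat_lit 0x50002c00010001000000000000000000000000000000000000000000000000) := T_19 (nat_lit 227) (nat_lit 244) (nat_lit 5) (nat_lit 7) (nat_lit 10) L23586 (by decide +kernel)
theorem L23588 : W_19 (nat_lit 5) (nat_lit 0x10000a001e000200020001000080000000000000000000000000000000) (nat_lit 0x0) (nat_lit 0x50002c00610001000000000000000000000000000000000000000000000000) := T_19 (nat_lit 213) (nat_lit 214) (nat_lit 3) (nat_lit 6) (nat_lit 11) L23587 (by decide +kernel)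
theorem L23589 : W_19 (nat_lit 6) (nat_lit 0x100008001e000200020001000080000000000000000000000000000000) (nat_lit 0x0) (nat_lit 0x50002c00670001000000000000000000000000000000000000000000000000) := T_19 (nat_lit 209) (nat_lit 210) (nat_lit 1) (nat_lit 9) (nat_lit 11) L23588 (by decide +kernel)
theorem L23590 : W_19 (nat_lit 7) (nat_lit 0x100008001e000200000001000080000000000000000000000000000000) (nat_lit 0x0) (nat_lit 0x50002c00670001000400020000000000000000000000000000000000000000) := T_19 (nat_lit 161) (nat_lit 178) (nat_lit 6) (nat_lit 7) (nat_lit 13) L23589 (by decide +kernel)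
theorem L23591 : W_19 (nat_lit 2) (nat_lit 0x300028001e000200020001000080000000000000000000000000000000) (nat_lit 0x0) (nat_lit 0x1800040000000000000000000000000000000000000000) := D_19 (nat_lit 179) (nat_lit 180) (nat_lit 162) (nat_lit 2) (nat_lit 6) (nat_lit 11) (nat_lit 4) (nat_lit 9) (nat_lit 12) (by decide +kernel)
theorem L23592 : W_19 (nat_lit 3) (nat_lit 0x300008001e000200020001000080000000000000000000000000000000) (nat_lit 0x0) (nat_lit 0x600000001800040000000000000000000000000000000000000000) := T_19 (nat_lit 213) (nat_lit 214) (nat_lit 3) (nat_lit 6) (nat_lit 11) L23591 (by decide +kernel)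
theorem L23593 : W_19 (nat_lit 4) (nat_lit 0x300008001e000200000001000080000000000000000000000000000000) (nat_lit 0x0) (nat_lit 0x600000001c00060000000000000000000000000000000000000000) := T_19 (nat_lit 161) (nat_lit 178) (nat_lit 6) (nat_lit 7) (nat_lit 13) L23592 (by decide +kernel)
theorem L23594 : W_19 (nat_lit 5) (nat_lit 0x100008001e000200000001000080000000000000000000000000000000) (nat_lit 0x0) (nat_lit 0x40002000600000001c00060000000000000000000000000000000000000000) := T_19 (nat_lit 229) (nat_lit 246) (nat_lit 7) (nat_lit 7) (nat_lit 10) L23593 (by decide +kernel)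
theorem L23595 : W_19 (nat_lit 8) (nat_lit 0x100008001e000200000001000080000000000000000000000000000000) (nat_lit 0x0) (nat_lit 0x1000080005c001c01ce0000000000000000000000000000000000000000000) := T_19 (nat_lit 179) (nat_lit 180) (nat_lit 2) (nat_lit 6) (nat_lit 11) L20070 (by decide +kernel)
theorem L23596 : W_19 (nat_lit 2) (nat_lit 0x38002a001e000a00040001000080000000000000000000000000000000) (nat_lit 0x0) (nat_lit 0x400010001000000000000000000000000000000000000000000000000) := D_19 (nat_lit 208) (nat_lit 192) (nat_lit 226) (nat_lit 1) (nat_lit 8) (nat_lit 11) (nat_lit 0) (nat_lit 8) (nat_lit 13) (by decide +kernel)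
theorem L23597 : W_19 (nat_lit 3) (nat_lit 0x380028001e000a00040001000080000000000000000000000000000000) (nat_lit 0x0) (nat_lit 0x400070001000000000000000000000000000000000000000000000000) := T_19 (nat_lit 209) (nat_lit 210) (nat_lit 1) (nat_lit 9) (nat_lit 11) L23596 (by decide +kernel)
theorem L23598 : W_19 (nat_lit 4) (nat_lit 0x380028001e000a00000001000080000000000000000000000000000000) (nat_lit 0x0) (nat_lit 0x400070001000000060000000000000000000000000000000000000000) := T_19 (nat_lit 162) (nat_lit 161) (nat_lit 4) (nat_lit 9) (nat_lit 12) L23597 (by decide +kernel)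
theorem L23599 : W_19 (nat_lit 5) (nat_lit 0x300028001e000a00000001000080000000000000000000000000000000) (nat_lit 0x0) (nat_lit 0x10000c00070001000000060000000000000000000000000000000000000000) := T_19 (nat_lit 227) (nat_lit 244) (nat_lit 5) (nat_lit 7) (nat_lit 10) L23598 (by decide +kernel)
theorem L23600 : W_19 (nat_lit 6) (nat_lit 0x300008001e000a00000001000080000000000000000000000000000000) (nat_lit 0x0) (nat_lit 0x10000c00670001000000060000000000000000000000000000000000000000) := T_19 (nat_lit 213) (nat_lit 214) (nat_lit 3) (nat_lit 6) (nat_lit 11) L23599 (by decide +kernel)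
theorem L23601 : W_19 (nat_lit 7) (nat_lit 0x100008001e000a00000001000080000000000000000000000000000000) (nat_lit 0x0) (nat_lit 0x50002c00670001000000060000000000000000000000000000000000000000) := T_19 (nat_lit 229) (nat_lit 246) (nat_lit 7) (nat_lit 7) (nat_lit 10) L23600 (by decide +kernel)
theorem L23602 : W_19 (nat_lit 8) (nat_lit 0x100008001e000200000001000080000000000000000000000000000000) (nat_lit 0x0) (nat_lit 0x50002c00670001001800060000000000000000000000000000000000000000) := T_19 (nat_lit 179) (nat_lit 180) (nat_lit 2) (nat_lit 6) (nat_lit 11) L23601 (by decide +kernel)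
theorem L23603 : W_19 (nat_lit 9) (nat_lit 0x100008001c000200000001000080000000000000000000000000000000) (nat_lit 0x0) (nat_lit 0x50002c0067c003c01ce0060000000000000000000000000000000000000000) := Q_19 (nat_lit 193) (C_19 L23590 (C_19 L23594 (C_19 L23595 (C_19 L23602 N_19)))) (by decide +kernel)
theorem L23604 : W_19 (nat_lit 2) (nat_lit 0x180048003e000200000001000080000000000000000000000000000000) (nat_lit 0x0) (nat_lit 0x3800000000000000000000000000000000000000000000) := D_19 (nat_lit 180) (nat_lit 179) (nat_lit 181) (nat_lit 2) (nat_lit 6) (nat_lit 11) (nat_lit 2) (nat_lit 7) (nat_lit 11) (by decide +kernel)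
theorem L23605 : W_19 (nat_lit 3) (nat_lit 0x180048003c000200000001000080000000000000000000000000000000) (nat_lit 0x0) (nat_lit 0x200002003800000000000000000000000000000000000000000000) := T_19 (nat_lit 193) (nat_lit 213) (nat_lit 3) (nat_lit 6) (nat_lit 11) L23604 (by decide +kernel)
theorem L23606 : W_19 (nat_lit 4) (nat_lit 0x180008003c000200000001000080000000000000000000000000000000) (nat_lit 0x0) (nat_lit 0xe00002003800000000000000000000000000000000000000000000) := T_19 (nat_lit 214) (nat_lit 215) (nat_lit 3) (nat_lit 7) (nat_lit 11) L23605 (by decide +kernel)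
theorem L23607 : W_19 (nat_lit 5) (nat_lit 0x100008003c000200000001000080000000000000000000000000000000) (nat_lit 0x0) (nat_lit 0x10000800e00002003800000000000000000000000000000000000000000000) := T_19 (nat_lit 227) (nat_lit 244) (nat_lit 5) (nat_lit 7) (nat_lit 10) L23606 (by decide +kernel)
theorem L23608 : W_19 (nat_lit 6) (nat_lit 0x100008001c000200000001000080000000000000000000000000000000) (nat_lit 0x0) (nat_lit 0x10000800e40022003800000000000000000000000000000000000000000000) := T_19 (nat_lit 197) (nat_lit 210) (nat_lit 1) (nat_lit 10) (nat_lit 11) L23607 (by decide +kernel)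
theorem L23609 : W_19 (nat_lit 10) (nat_lit 0x100008000c000200000001000080000000000000000000000000000000) (nat_lit 0x0) (nat_lit 0x50002c00e7c073c03ce0060000000000000000000000000000000000000000) := Q_19 (nat_lit 196) (C_19 L18514 (C_19 L23584 (C_19 L23603 (C_19 L23608 N_19)))) (by decide +kernel)
theorem L23610 : W_19 (nat_lit 11) (nat_lit 0x8000c000200000001000080000000000000000000000000000000) (nat_lit 0x0) (nat_lit 0xa00070003c00e7c073c03ce0060000000000000000000000000000000000000000) := Q_19 (nat_lit 228) (C_19 L20132 (C_19 L18306 (C_19 L23609 (C_19 L18167 N_19)))) (by decide +kernel)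
theorem L23611 : W_19 (nat_lit 7) (nat_lit 0x8001c000200000001000080000000000000000000000000000000) (nat_lit 0x0) (nat_lit 0x770003c01ce0060000000000000000000000000000000000000000) := Q_19 (nat_lit 193) (C_19 L19806 (C_19 L9132 (C_19 L19792 (C_19 L9122 (C_19 L19801 N_19))))) (by decide +kernel)
theorem L23612 : W_19 (nat_lit 9) (nat_lit 0x8000c000200000001000080000000000000000000000000000000) (nat_lit 0x0) (nat_lit 0x100008003f701f3c1fce0060000000000000000000000000000000000000000) := Q_19 (nat_lit 196) (C_19 L23125 (C_19 L23126 (C_19 L19044 (C_19 L23611 N_19)))) (by decide +kernel)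
theorem L23613 : W_19 (nat_lit 2) (nat_lit 0x380018003c001e00000001000080000000000000000000000000000000) (nat_lit 0x0) (nat_lit 0x600200000000000000000000000000000000000000000000000000000) := D_19 (nat_lit 226) (nat_lit 213) (nat_lit 225) (nat_lit 2) (nat_lit 5) (nat_lit 13) (nat_lit 2) (nat_lit 4) (nat_lit 13) (by decide +kernel)
theorem L23614 : W_19 (nat_lit 3) (nat_lit 0x380008003c001e00000001000080000000000000000000000000000000) (nat_lit 0x0) (nat_lit 0x600300000000000040000000000000000000000000000000000000000) := T_19 (nat_lit 212) (nat_lit 162) (nat_lit 6) (nat_lit 8) (nat_lit 13) L23613 (by decide +kernel)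
theorem L23615 : W_19 (nat_lit 4) (nat_lit 0x380008003c001600000001000080000000000000000000000000000000) (nat_lit 0x0) (nat_lit 0x600300002000800040000000000000000000000000000000000000000) := T_19 (nat_lit 179) (nat_lit 193) (nat_lit 2) (nat_lit 6) (nat_lit 11) L23614 (by decide +kernel)
theorem L23616 : W_19 (nat_lit 5) (nat_lit 0x380008003c000600000001000080000000000000000000000000000000) (nat_lit 0x0) (nat_lit 0x600300002003800040000000000000000000000000000000000000000) := T_19 (nat_lit 180) (nat_lit 181) (nat_lit 2) (nat_lit 7) (nat_lit 11) L23615 (by decide +kernel)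
theorem L23617 : W_19 (nat_lit 6) (nat_lit 0x300008003c000600000001000080000000000000000000000000000000) (nat_lit 0x0) (nat_lit 0x10000e00300002003800040000000000000000000000000000000000000000) := T_19 (nat_lit 227) (nat_lit 244) (nat_lit 5) (nat_lit 7) (nat_lit 10) L23616 (by decide +kernel)
theorem L23618 : W_19 (nat_lit 7) (nat_lit 0x300008001c000600000001000080000000000000000000000000000000) (nat_lit 0x0) (nat_lit 0x10000e00300062003800040000000000000000000000000000000000000000) := T_19 (nat_lit 197) (nat_lit 198) (nat_lit 0) (nat_lit 11) (nat_lit 11) L23617 (by decide +kernel)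
theorem L23619 : W_19 (nat_lit 8) (nat_lit 0x100008001c000600000001000080000000000000000000000000000000) (nat_lit 0x0) (nat_lit 0x50002e00300062003800040000000000000000000000000000000000000000) := T_19 (nat_lit 229) (nat_lit 246) (nat_lit 7) (nat_lit 7) (nat_lit 10) L23618 (by decide +kernel)
theorem L23620 : W_19 (nat_lit 9) (nat_lit 0x100008001c000200000001000080000000000000000000000000000000) (nat_lit 0x0) (nat_lit 0x50002e00300062003c00060000000000000000000000000000000000000000) := T_19 (nat_lit 178) (nat_lit 161) (nat_lit 6) (nat_lit 7) (nat_lit 13) L23619 (by decide +kernel)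
theorem L23621 : W_19 (nat_lit 10) (nat_lit 0x100008000c000200000001000080000000000000000000000000000000) (nat_lit 0x0) (nat_lit 0x5e002e00370072007c00060000000000000000000000000000000000000000) := Q_19 (nat_lit 196) (C_19 L18784 (C_19 L23544 (C_19 L23620 (C_19 L18514 N_19)))) (by decide +kernel)
theorem L23622 : W_19 (nat_lit 11) (nat_lit 0x8000c000200000001000080000000000000000000000000000000) (nat_lit 0x0) (nat_lit 0xe0007e003e00370072007c00060000000000000000000000000000000000000000) := Q_19 (nat_lit 228) (C_19 L20132 (C_19 L20200 (C_19 L23621 N_19))) (by decide +kernel)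
theorem L23623 : W_19 (nat_lit 14) (nat_lit 0xc000200000001000080000000000000000000000000000000) (nat_lit 0x0) (nat_lit 0x1f003fc01ff00bf03ffc1f3c1fce01e6004000200000000000000000000000000000000) := Q_19 (nat_lit 211) (C_19 L23546 (C_19 L23575 (C_19 L18974 (C_19 L23577 (C_19 L23610 (C_19 L23612 (C_19 L20891 (C_19 L23622 N_19)))))))) (by decide +kernel)
theorem L23624 : W_19 (nat_lit 6) (nat_lit 0x700000000c000c000200000001000080000000000000000000000000000000) (nat_lit 0x0) (nat_lit 0x770018001e000300030000000000000000000000000000000000000000000000000) := Q_19 (nat_lit 247) (C_19 L19697 (C_19 L19687 (C_19 L19677 N_19))) (by decide +kernel)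
theorem L23625 : W_19 (nat_lit 10) (nat_lit 0x500000000c000c000200000001000080000000000000000000000000000000) (nat_lit 0x0) (nat_lit 0x7fc01af01e700300030000000000000000000000000000000000000000000000000) := Q_19 (nat_lit 245) (C_19 L19711 (C_19 L19663 (C_19 L19668 (C_19 L23624 (C_19 L19706 N_19))))) (by decide +kernel)
theorem L23626 : W_19 (nat_lit 11) (nat_lit 0x100000000c000c000200000001000080000000000000000000000000000000) (nat_lit 0x0) (nat_lit 0x7fc01ef01f700300032000000000000000000000000000000000000000000000000) := Q_19 (nat_lit 246) (C_19 L19719 (C_19 L19612 (C_19 L23625 (C_19 L19609 N_19)))) (by decide +kernel)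
theorem L23627 : W_19 (nat_lit 12) (nat_lit 0xc000c000200000001000080000000000000000000000000000000) (nat_lit 0x0) (nat_lit 0x7fc01ff01ff00300032000000000000000000000000000000000000000000000000) := Q_19 (nat_lit 244) (C_19 L19607 (C_19 L19608 (C_19 L23626 (C_19 L19606 N_19)))) (by decide +kernel)
theorem L23628 : W_19 (nat_lit 2) (nat_lit 0x40000c001c000c000200000001000080000000000000000000000000000000) (nat_lit 0x0) (nat_lit 0x1300000000000000000000000000000000000000000000000000000000) := D_19 (nat_lit 225) (nat_lit 224) (nat_lit 228) (nat_lit 2) (nat_lit 3) (nat_lit 13) (nat_lit 2) (nat_lit 4) (nat_lit 13) (by decide +kernel)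
theorem L23629 : W_19 (nat_lit 3) (nat_lit 0x400008001c000c000200000001000080000000000000000000000000000000) (nat_lit 0x0) (nat_lit 0x1700200000000000000000000000000000000000000000000000000000) := T_19 (nat_lit 226) (nat_lit 213) (nat_lit 1) (nat_lit 9) (nat_lit 12) L23628 (by decide +kernel)
theorem L23630 : W_19 (nat_lit 4) (nat_lit 0x8001c000c000200000001000080000000000000000000000000000000) (nat_lit 0x0) (nat_lit 0x40003700200000000000000000000000000000000000000000000000000000) := T_19 (nat_lit 246) (nat_lit 229) (nat_lit 4) (nat_lit 8) (nat_lit 14) L23629 (by decide +kernel)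
theorem L23631 : W_19 (nat_lit 2) (nat_lit 0x48003c000e000200000001000080000000000000000000000000000000) (nat_lit 0x0) (nat_lit 0x2000030000000000000000000000000000000000000000000000000000) := D_19 (nat_lit 209) (nat_lit 229) (nat_lit 208) (nat_lit 3) (nat_lit 5) (nat_lit 12) (nat_lit 2) (nat_lit 4) (nat_lit 12) (by decide +kernel)
theorem L23632 : W_19 (nat_lit 3) (nat_lit 0x8003c000e000200000001000080000000000000000000000000000000) (nat_lit 0x0) (nat_lit 0xe000030000000000000000000000000000000000000000000000000000) := T_19 (nat_lit 230) (nat_lit 231) (nat_lit 3) (nat_lit 6) (nat_lit 12) L23631 (by decide +kernel)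
theorem L23633 : W_19 (nat_lit 4) (nat_lit 0x8003c000c000200000001000080000000000000000000000000000000) (nat_lit 0x0) (nat_lit 0xe000030003000000000000000000000000000000000000000000000000) := T_19 (nat_lit 193) (nat_lit 192) (nat_lit 3) (nat_lit 5) (nat_lit 11) L23632 (by decide +kernel)
theorem L23634 : W_19 (nat_lit 5) (nat_lit 0x8001c000c000200000001000080000000000000000000000000000000) (nat_lit 0x0) (nat_lit 0xe400230003000000000000000000000000000000000000000000000000) := T_19 (nat_lit 213) (nat_lit 226) (nat_lit 1) (nat_lit 9) (nat_lit 12) L23633 (by decide +kernel)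
theorem L23635 : W_19 (nat_lit 2) (nat_lit 0x8003c000d000200000001000080000000000000000000000000000000) (nat_lit 0x0) (nat_lit 0x30000800000000000000000000000000000000000000000000000) := D_19 (nat_lit 209) (nat_lit 208) (nat_lit 191) (nat_lit 2) (nat_lit 4) (nat_lit 12) (nat_lit 0) (nat_lit 8) (nat_lit 12) (by decide +kernel)
theorem L23636 : W_19 (nat_lit 3) (nat_lit 0x8003c000c000200000001000080000000000000000000000000000000) (nat_lit 0x0) (nat_lit 0x30003800000000000000000000000000000000000000000000000) := T_19 (nat_lit 192) (nat_lit 193) (nat_lit 3) (nat_lit 5) (nat_lit 11) L23635 (by decide +kernel)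
theorem L23637 : W_19 (nat_lit 4) (nat_lit 0x8001c000c000200000001000080000000000000000000000000000000) (nat_lit 0x0) (nat_lit 0x400230003800000000000000000000000000000000000000000000000) := T_19 (nat_lit 213) (nat_lit 226) (nat_lit 1) (nat_lit 9) (nat_lit 12) L23636 (by decide +kernel)
theorem L23638 : W_19 (nat_lit 8) (nat_lit 0x8000c000c000200000001000080000000000000000000000000000000) (nat_lit 0x0) (nat_lit 0x4000f7003300038000c0006000000000000000000000000000000000000000) := Q_19 (nat_lit 212) (C_19 L23567 (C_19 L9046 (C_19 L23630 (C_19 L23634 (C_19 L23637 N_19))))) (by decide +kernel)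
theorem L23639 : W_19 (nat_lit 9) (nat_lit 0xc000c000200000001000080000000000000000000000000000000) (nat_lit 0x0) (nat_lit 0x20005000ff003300038000c0006000000000000000000000000000000000000000) := Q_19 (nat_lit 227) (C_19 L19731 (C_19 L9038 (C_19 L23638 N_19))) (by decide +kernel)
theorem L23640 : W_19 (nat_lit 13) (nat_lit 0x8000c000200000001000080000000000000000000000000000000) (nat_lit 0x0) (nat_lit 0x7fc01ff01ff003700338000c0006000000000000000000000000000000000000000) := Q_19 (nat_lit 210) (C_19 L19600 (C_19 L19723 (C_19 L19598 (C_19 L23627 (C_19 L23639 N_19))))) (by decide +kernel)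
theorem L23641 : W_19 (nat_lit 2) (nat_lit 0x100008000c000e00000001000080000000000000000000000000000000) (nat_lit 0x0) (nat_lit 0x2003000000000000000000000000000000000000000000000) := D_19 (nat_lit 180) (nat_lit 193) (nat_lit 181) (nat_lit 1) (nat_lit 10) (nat_lit 10) (nat_lit 1) (nat_lit 11) (nat_lit 10) (by decide +kernel)
theorem L23642 : W_19 (nat_lit 2) (nat_lit 0x380018000c002e00000001000080000000000000000000000000000000) (nat_lit 0x0) (nat_lit 0x600200000000000000000000000000000000000000000000000000000) := D_19 (nat_lit 226) (nat_lit 213) (nat_lit 225) (nat_lit 2) (nat_lit 5) (nat_lit 13) (nat_lit 2) (nat_lit 4) (nat_lit 13) (by decide +kernel)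
theorem L23643 : W_19 (nat_lit 3) (nat_lit 0x380008000c002e00000001000080000000000000000000000000000000) (nat_lit 0x0) (nat_lit 0x600300000000000040000000000000000000000000000000000000000) := T_19 (nat_lit 212) (nat_lit 162) (nat_lit 6) (nat_lit 8) (nat_lit 13) L23642 (by decide +kernel)
theorem L23644 : W_19 (nat_lit 4) (nat_lit 0x180008000c002e00000001000080000000000000000000000000000000) (nat_lit 0x0) (nat_lit 0x40002600300000000000040000000000000000000000000000000000000000) := T_19 (nat_lit 229) (nat_lit 246) (nat_lit 7) (nat_lit 7) (nat_lit 10) L23643 (by decide +kernel)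
theorem L23645 : W_19 (nat_lit 5) (nat_lit 0x180008000c000e00000001000080000000000000000000000000000000) (nat_lit 0x0) (nat_lit 0x40002600300000003000040000000000000000000000000000000000000000) := T_19 (nat_lit 181) (nat_lit 180) (nat_lit 1) (nat_lit 11) (nat_lit 10) L23644 (by decide +kernel)
theorem L23646 : W_19 (nat_lit 6) (nat_lit 0x100008000c000e00000001000080000000000000000000000000000000) (nat_lit 0x0) (nat_lit 0x50002e00300000003000040000000000000000000000000000000000000000) := T_19 (nat_lit 227) (nat_lit 244) (nat_lit 5) (nat_lit 7) (nat_lit 10) L23645 (by decide +kernel)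
theorem L23647 : W_19 (nat_lit 2) (nat_lit 0x380018000c000e00000001000080000000000000000000000000000000) (nat_lit 0x0) (nat_lit 0x600200000000000000000000000000000000000000000000000000000) := D_19 (nat_lit 226) (nat_lit 213) (nat_lit 225) (nat_lit 2) (nat_lit 5) (nat_lit 13) (nat_lit 2) (nat_lit 4) (nat_lit 13) (by decide +kernel)
theorem L23648 : W_19 (nat_lit 3) (nat_lit 0x300018000c000e00000001000080000000000000000000000000000000) (nat_lit 0x0) (nat_lit 0x10000e00200000000000000000000000000000000000000000000000000000) := T_19 (nat_lit 227) (nat_lit 244) (nat_lit 5) (nat_lit 7) (nat_lit 10) L23647 (by decide +kernel)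
theorem L23649 : W_19 (nat_lit 4) (nat_lit 0x300008000c000e00000001000080000000000000000000000000000000) (nat_lit 0x0) (nat_lit 0x10000e00300000000000040000000000000000000000000000000000000000) := T_19 (nat_lit 212) (nat_lit 162) (nat_lit 6) (nat_lit 8) (nat_lit 13) L23648 (by decide +kernel)
theorem L23650 : W_19 (nat_lit 5) (nat_lit 0x100008000c000e00000001000080000000000000000000000000000000) (nat_lit 0x0) (nat_lit 0x50002e00300000000000040000000000000000000000000000000000000000) := T_19 (nat_lit 229) (nat_lit 246) (nat_lit 7) (nat_lit 7) (nat_lit 10) L23649 (by decide +kernel)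
theorem L23651 : W_19 (nat_lit 7) (nat_lit 0x100008000c000600000001000080000000000000000000000000000000) (nat_lit 0x0) (nat_lit 0x50002e00300002003800040000000000000000000000000000000000000000) := Q_19 (nat_lit 179) (C_19 L23641 (C_19 L23646 (C_19 L23650 N_19))) (by decide +kernel)
theorem L23652 : W_19 (nat_lit 8) (nat_lit 0x100008000c000200000001000080000000000000000000000000000000) (nat_lit 0x0) (nat_lit 0x50002e00300002003c00060000000000000000000000000000000000000000) := T_19 (nat_lit 178) (nat_lit 161) (nat_lit 6) (nat_lit 7) (nat_lit 13) L23651 (by decide +kernel)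
theorem L23653 : W_19 (nat_lit 9) (nat_lit 0x8000c000200000001000080000000000000000000000000000000) (nat_lit 0x0) (nat_lit 0x10000e00070003e00300002003c00060000000000000000000000000000000000000000) := Q_19 (nat_lit 228) (C_19 L20132 (C_19 L18306 (C_19 L23652 (C_19 L18304 N_19)))) (by decide +kernel)
theorem L23654 : W_19 (nat_lit 2) (nat_lit 0x78000c001c000600000001000080000000000000000000000000000000) (nat_lit 0x0) (nat_lit 0x180000000200000000000000000000000000000000000000000000000000000) := D_19 (nat_lit 247) (nat_lit 248) (nat_lit 213) (nat_lit 3) (nat_lit 6) (nat_lit 13) (nat_lit 4) (nat_lit 9) (nat_lit 14) (by decide +kernel)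
theorem L23655 : W_19 (nat_lit 3) (nat_lit 0x38000c001c000600000001000080000000000000000000000000000000) (nat_lit 0x0) (nat_lit 0x18000c000200000000000000000000000000000000000000000000000000000) := T_19 (nat_lit 230) (nat_lit 231) (nat_lit 0) (nat_lit 10) (nat_lit 13) L23654 (by decide +kernel)
theorem L23656 : W_19 (nat_lit 4) (nat_lit 0x18000c001c000600000001000080000000000000000000000000000000) (nat_lit 0x0) (nat_lit 0x1c000e000200000000000000000000000000000000000000000000000000000) := T_19 (nat_lit 229) (nat_lit 246) (nat_lit 7) (nat_lit 7) (nat_lit 10) L23655 (by decide +kernel)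
theorem L23657 : W_19 (nat_lit 5) (nat_lit 0x10000c001c000600000001000080000000000000000000000000000000) (nat_lit 0x0) (nat_lit 0x1d000e800200000000000000000000000000000000000000000000000000000) := T_19 (nat_lit 227) (nat_lit 244) (nat_lit 5) (nat_lit 7) (nat_lit 10) L23656 (by decide +kernel)
theorem L23658 : W_19 (nat_lit 6) (nat_lit 0x10000c000c000600000001000080000000000000000000000000000000) (nat_lit 0x0) (nat_lit 0x1d000e800200030000000000000000000000000000000000000000000000000) := T_19 (nat_lit 196) (nat_lit 197) (nat_lit 1) (nat_lit 10) (nat_lit 11) L23657 (by decide +kernel)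
theorem L23659 : W_19 (nat_lit 7) (nat_lit 0x10000c000c000200000001000080000000000000000000000000000000) (nat_lit 0x0) (nat_lit 0x1d000e800200030000400020000000000000000000000000000000000000000) := T_19 (nat_lit 178) (nat_lit 161) (nat_lit 6) (nat_lit 7) (nat_lit 13) L23658 (by decide +kernel)
theorem L23660 : W_19 (nat_lit 12) (nat_lit 0x100008000c000200000001000080000000000000000000000000000000) (nat_lit 0x0) (nat_lit 0x30001801de00ef00278033801cc0026000000000000000000000000000000000000000) := Q_19 (nat_lit 210) (C_19 L19891 (C_19 L20998 (C_19 L23659 (C_19 L20598 N_19)))) (by decide +kernel)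
theorem L23661 : W_19 (nat_lit 13) (nat_lit 0x8000c000200000001000080000000000000000000000000000000) (nat_lit 0x0) (nat_lit 0x3000b801fe00ff00278033801cc0026000000000000000000000000000000000000000) := Q_19 (nat_lit 228) (C_19 L20132 (C_19 L18306 (C_19 L23660 (C_19 L18167 N_19)))) (by decide +kernel)
theorem L23662 : W_19 (nat_lit 2) (nat_lit 0x60001c002c000600000001000080000000000000000000000000000000) (nat_lit 0x0) (nat_lit 0x18000200000000000000000000000000000000000000000000000000000) := D_19 (nat_lit 231) (nat_lit 213) (nat_lit 232) (nat_lit 3) (nat_lit 6) (nat_lit 12) (nat_lit 0) (nat_lit 11) (nat_lit 13) (by decide +kernel)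
theorem L23663 : W_19 (nat_lit 3) (nat_lit 0x20001c002c000600000001000080000000000000000000000000000000) (nat_lit 0x0) (nat_lit 0x8001c000200000000000000000000000000000000000000000000000000000) := T_19 (nat_lit 230) (nat_lit 247) (nat_lit 7) (nat_lit 8) (nat_lit 10) L23662 (by decide +kernel)
theorem L23664 : W_19 (nat_lit 4) (nat_lit 0x20001c000c000600000001000080000000000000000000000000000000) (nat_lit 0x0) (nat_lit 0x8001c000200030000000000000000000000000000000000000000000000000) := T_19 (nat_lit 197) (nat_lit 196) (nat_lit 1) (nat_lit 10) (nat_lit 11) L23663 (by decide +kernel)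
theorem L23665 : W_19 (nat_lit 5) (nat_lit 0x1c000c000600000001000080000000000000000000000000000000) (nat_lit 0x0) (nat_lit 0xc001e000200030000000000000000000000000000000000000000000000000) := T_19 (nat_lit 229) (nat_lit 246) (nat_lit 4) (nat_lit 8) (nat_lit 14) L23664 (by decide +kernel)
theorem L23666 : W_19 (nat_lit 6) (nat_lit 0x1c000c000200000001000080000000000000000000000000000000) (nat_lit 0x0) (nat_lit 0xc001e000200030000400020000000000000000000000000000000000000000) := T_19 (nat_lit 178) (nat_lit 161) (nat_lit 5) (nat_lit 8) (nat_lit 7) L23665 (by decide +kernel)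
theorem L23667 : W_19 (nat_lit 8) (nat_lit 0x1c000c000200000001000080000000000000000000000000000000) (nat_lit 0x0) (nat_lit 0x1a000d000ec00200033001800040000000000000000000000000000000000000000) := Q_19 (nat_lit 213) (C_19 L18709 (C_19 L23547 (C_19 L20620 N_19))) (by decide +kernel)
theorem L23668 : W_19 (nat_lit 4) (nat_lit 0x60001c002c000600000001000080000000000000000000000000000000) (nat_lit 0x0) (nat_lit 0x18000000040003800040000000000000000000000000000000000000000) := T_19 (nat_lit 232) (nat_lit 231) (nat_lit 0) (nat_lit 11) (nat_lit 13) L18660 (by decide +kernel)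
theorem L23669 : W_19 (nat_lit 5) (nat_lit 0x20001c002c000600000001000080000000000000000000000000000000) (nat_lit 0x0) (nat_lit 0x8001c000000040003800040000000000000000000000000000000000000000) := T_19 (nat_lit 230) (nat_lit 247) (nat_lit 7) (nat_lit 8) (nat_lit 10) L23668 (by decide +kernel)
theorem L23670 : W_19 (nat_lit 6) (nat_lit 0x20001c000c000600000001000080000000000000000000000000000000) (nat_lit 0x0) (nat_lit 0x8001c000000070003800040000000000000000000000000000000000000000) := T_19 (nat_lit 197) (nat_lit 196) (nat_lit 1) (nat_lit 10) (nat_lit 11) L23669 (by decide +kernel)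
theorem L23671 : W_19 (nat_lit 7) (nat_lit 0x20001c000c000200000001000080000000000000000000000000000000) (nat_lit 0x0) (nat_lit 0x8001c000000070003c00060000000000000000000000000000000000000000) := T_19 (nat_lit 178) (nat_lit 161) (nat_lit 5) (nat_lit 8) (nat_lit 7) L23670 (by decide +kernel)
theorem L23672 : W_19 (nat_lit 8) (nat_lit 0x1c000c000200000001000080000000000000000000000000000000) (nat_lit 0x0) (nat_lit 0xc001e000000070003c00060000000000000000000000000000000000000000) := T_19 (nat_lit 229) (nat_lit 246) (nat_lit 4) (nat_lit 8) (nat_lit 14) L23671 (by decide +kernel)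
theorem L23673 : W_19 (nat_lit 5) (nat_lit 0x1c000c000200000001000080000000000000000000000000000000) (nat_lit 0x0) (nat_lit 0x9000cc00200033000400020000000000000000000000000000000000000000) := Q_19 (nat_lit 213) (C_19 L18683 (C_19 L20620 N_19)) (by decide +kernel)
theorem L23674 : W_19 (nat_lit 3) (nat_lit 0x20001c000c000600000001000080000000000000000000000000000000) (nat_lit 0x0) (nat_lit 0x8001c000200000000000000000000000000000000000000000000000000000) := T_19 (nat_lit 230) (nat_lit 247) (nat_lit 7) (nat_lit 8) (nat_lit 10) L9745 (by decide +kernel)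
theorem L23675 : W_19 (nat_lit 4) (nat_lit 0x1c000c000600000001000080000000000000000000000000000000) (nat_lit 0x0) (nat_lit 0xc001e000200000000000000000000000000000000000000000000000000000) := T_19 (nat_lit 229) (nat_lit 246) (nat_lit 4) (nat_lit 8) (nat_lit 14) L23674 (by decide +kernel)
theorem L23676 : W_19 (nat_lit 5) (nat_lit 0x1c000c000200000001000080000000000000000000000000000000) (nat_lit 0x0) (nat_lit 0xc001e000200000000400020000000000000000000000000000000000000000) := T_19 (nat_lit 178) (nat_lit 161) (nat_lit 5) (nat_lit 8) (nat_lit 7) L23675 (by decide +kernel)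
theorem L23677 : W_19 (nat_lit 2) (nat_lit 0x20001c002c000e00000001000080000000000000000000000000000000) (nat_lit 0x0) (nat_lit 0x42001000000000000000000000000000000000000000000000) := D_19 (nat_lit 180) (nat_lit 198) (nat_lit 193) (nat_lit 3) (nat_lit 7) (nat_lit 10) (nat_lit 1) (nat_lit 10) (nat_lit 10) (by decide +kernel)
theorem L23678 : W_19 (nat_lit 3) (nat_lit 0x20001c002c000600000001000080000000000000000000000000000000) (nat_lit 0x0) (nat_lit 0x42001800040000000000000000000000000000000000000000) := T_19 (nat_lit 179) (nat_lit 162) (nat_lit 6) (nat_lit 8) (nat_lit 13) L23677 (by decide +kernel)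
theorem L23679 : W_19 (nat_lit 4) (nat_lit 0x20001c002c000200000001000080000000000000000000000000000000) (nat_lit 0x0) (nat_lit 0x42001c00060000000000000000000000000000000000000000) := T_19 (nat_lit 178) (nat_lit 161) (nat_lit 5) (nat_lit 8) (nat_lit 7) L23678 (by decide +kernel)
theorem L23680 : W_19 (nat_lit 5) (nat_lit 0x20001c000c000200000001000080000000000000000000000000000000) (nat_lit 0x0) (nat_lit 0x72001c00060000000000000000000000000000000000000000) := T_19 (nat_lit 197) (nat_lit 196) (nat_lit 1) (nat_lit 10) (nat_lit 11) L23679 (by decide +kernel)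
theorem L23681 : W_19 (nat_lit 6) (nat_lit 0x1c000c000200000001000080000000000000000000000000000000) (nat_lit 0x0) (nat_lit 0x40002000000072001c00060000000000000000000000000000000000000000) := T_19 (nat_lit 229) (nat_lit 246) (nat_lit 4) (nat_lit 8) (nat_lit 14) L23680 (by decide +kernel)
theorem L23682 : W_19 (nat_lit 9) (nat_lit 0xc000c000200000001000080000000000000000000000000000000) (nat_lit 0x0) (nat_lit 0x1a000d001ec00300073003c00060000000000000000000000000000000000000000) := Q_19 (nat_lit 212) (C_19 L23666 (C_19 L23667 (C_19 L23672 (C_19 L23673 (C_19 L23676 (C_19 L23681 N_19)))))) (by decide +kernel)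
theorem L23683 : W_19 (nat_lit 2) (nat_lit 0x20001c000e000600000001000080000000000000000000000000000000) (nat_lit 0x0) (nat_lit 0x1800040000000000000000000000000000000000000000) := D_19 (nat_lit 179) (nat_lit 180) (nat_lit 162) (nat_lit 1) (nat_lit 10) (nat_lit 10) (nat_lit 6) (nat_lit 8) (nat_lit 13) (by decide +kernel)
theorem L23684 : W_19 (nat_lit 3) (nat_lit 0x1c000e000600000001000080000000000000000000000000000000) (nat_lit 0x0) (nat_lit 0x40002000000000001800040000000000000000000000000000000000000000) := T_19 (nat_lit 229) (nat_lit 246) (nat_lit 4) (nat_lit 8) (nat_lit 14) L23683 (by decide +kernel)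
theorem L23685 : W_19 (nat_lit 4) (nat_lit 0x1c000e000200000001000080000000000000000000000000000000) (nat_lit 0x0) (nat_lit 0x40002000000000001c00060000000000000000000000000000000000000000) := T_19 (nat_lit 178) (nat_lit 161) (nat_lit 5) (nat_lit 8) (nat_lit 7) L23684 (by decide +kernel)
theorem L23686 : W_19 (nat_lit 2) (nat_lit 0x100060001d000e000e00000001000080000000000000000000000000000000) (nat_lit 0x0) (nat_lit 0x18000200000000000000000000000000000000000000000000000000000) := D_19 (nat_lit 231) (nat_lit 213) (nat_lit 232) (nat_lit 3) (nat_lit 6) (nat_lit 12) (nat_lit 0) (nat_lit 11) (nat_lit 13) (by decide +kernel)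
theorem L23687 : W_19 (nat_lit 3) (nat_lit 0x100020001d000e000e00000001000080000000000000000000000000000000) (nat_lit 0x0) (nat_lit 0x8001c000200000000000000000000000000000000000000000000000000000) := T_19 (nat_lit 230) (nat_lit 247) (nat_lit 7) (nat_lit 8) (nat_lit 10) L23686 (by decide +kernel)
theorem L23688 : W_19 (nat_lit 4) (nat_lit 0x100000001d000e000e00000001000080000000000000000000000000000000) (nat_lit 0x0) (nat_lit 0x8001e000200000000000040000000000000000000000000000000000000000) := T_19 (nat_lit 229) (nat_lit 162) (nat_lit 6) (nat_lit 8) (nat_lit 13) L23687 (by decide +kernel)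
theorem L23689 : W_19 (nat_lit 5) (nat_lit 0x100000001d000e000600000001000080000000000000000000000000000000) (nat_lit 0x0) (nat_lit 0x8001e000200000001800040000000000000000000000000000000000000000) := T_19 (nat_lit 179) (nat_lit 180) (nat_lit 1) (nat_lit 10) (nat_lit 10) L23688 (by decide +kernel)
theorem L23690 : W_19 (nat_lit 6) (nat_lit 0x1d000e000600000001000080000000000000000000000000000000) (nat_lit 0x0) (nat_lit 0x9001e800200000001800040000000000000000000000000000000000000000) := T_19 (nat_lit 244) (nat_lit 227) (nat_lit 6) (nat_lit 6) (nat_lit 14) L23689 (by decide +kernel)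
theorem L23691 : W_19 (nat_lit 7) (nat_lit 0x1d000e000200000001000080000000000000000000000000000000) (nat_lit 0x0) (nat_lit 0x9001e800200000001c00060000000000000000000000000000000000000000) := T_19 (nat_lit 178) (nat_lit 161) (nat_lit 5) (nat_lit 8) (nat_lit 7) L23690 (by decide +kernel)
theorem L23692 : W_19 (nat_lit 8) (nat_lit 0x1c000e000200000001000080000000000000000000000000000000) (nat_lit 0x0) (nat_lit 0x9001e800230000001c00060000000000000000000000000000000000000000) := T_19 (nat_lit 208) (nat_lit 209) (nat_lit 2) (nat_lit 4) (nat_lit 12) L23691 (by decide +kernel)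
theorem L23693 : W_19 (nat_lit 2) (nat_lit 0x8001e000e000200000001000080000000000000000000000000000000) (nat_lit 0x0) (nat_lit 0x600200000000000000000000000000000000000000000000000000000) := D_19 (nat_lit 226) (nat_lit 213) (nat_lit 225) (nat_lit 1) (nat_lit 9) (nat_lit 12) (nat_lit 1) (nat_lit 8) (nat_lit 12) (by decide +kernel)
theorem L23694 : W_19 (nat_lit 3) (nat_lit 0x8001c000e000200000001000080000000000000000000000000000000) (nat_lit 0x0) (nat_lit 0x600230000000000000000000000000000000000000000000000000000) := T_19 (nat_lit 209) (nat_lit 208) (nat_lit 2) (nat_lit 4) (nat_lit 12) L23693 (by decide +kernel)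
theorem L23695 : W_19 (nat_lit 4) (nat_lit 0x1c000e000200000001000080000000000000000000000000000000) (nat_lit 0x0) (nat_lit 0x10000e00230000000000000000000000000000000000000000000000000000) := T_19 (nat_lit 227) (nat_lit 244) (nat_lit 6) (nat_lit 6) (nat_lit 14) L23694 (by decide +kernel)
theorem L23696 : W_19 (nat_lit 9) (nat_lit 0xc000e000200000001000080000000000000000000000000000000) (nat_lit 0x0) (nat_lit 0xd001ee00330000001c00060000000000000000000000000000000000000000) := Q_19 (nat_lit 212) (C_19 L20451 (C_19 L23685 (C_19 L23692 (C_19 L23695 N_19)))) (by decide +kernel)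
theorem L23697 : W_19 (nat_lit 10) (nat_lit 0xc000c000200000001000080000000000000000000000000000000) (nat_lit 0x0) (nat_lit 0xd001ee00338003c01cc0064000000000000000000000000000000000000000) := Q_19 (nat_lit 193) (C_19 L20473 (C_19 L20466 (C_19 L23696 N_19))) (by decide +kernel)
theorem L23698 : W_19 (nat_lit 11) (nat_lit 0x8000c000200000001000080000000000000000000000000000000) (nat_lit 0x0) (nat_lit 0x1a000d001ee00378073c03cc0064000000000000000000000000000000000000000) := Q_19 (nat_lit 210) (C_19 L19600 (C_19 L19723 (C_19 L19598 (C_19 L23682 (C_19 L23697 N_19))))) (by decide +kernel)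
theorem L23699 : W_19 (nat_lit 2) (nat_lit 0x180008003c001e00080001000080000000000000000000000000000000) (nat_lit 0x0) (nat_lit 0x200000000000000004000200000000000000000000000000000000) := D_19 (nat_lit 146) (nat_lit 129) (nat_lit 213) (nat_lit 5) (nat_lit 10) (nat_lit 7) (nat_lit 5) (nat_lit 10) (nat_lit 8) (by decide +kernel)
theorem L23700 : W_19 (nat_lit 3) (nat_lit 0x180008003c001e00000001000080000000000000000000000000000000) (nat_lit 0x0) (nat_lit 0x200000000000180004000200000000000000000000000000000000) := T_19 (nat_lit 163) (nat_lit 164) (nat_lit 2) (nat_lit 7) (nat_lit 10) L23699 (by decide +kernel)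
theorem L23701 : W_19 (nat_lit 4) (nat_lit 0x180008003c001600000001000080000000000000000000000000000000) (nat_lit 0x0) (nat_lit 0x200002000800180004000200000000000000000000000000000000) := T_19 (nat_lit 179) (nat_lit 193) (nat_lit 2) (nat_lit 6) (nat_lit 11) L23700 (by decide +kernel)
theorem L23702 : W_19 (nat_lit 5) (nat_lit 0x180008003c000600000001000080000000000000000000000000000000) (nat_lit 0x0) (nat_lit 0x200002003800180004000200000000000000000000000000000000) := T_19 (nat_lit 180) (nat_lit 181) (nat_lit 2) (nat_lit 7) (nat_lit 11) L23701 (by decide +kernel)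
theorem L23703 : W_19 (nat_lit 6) (nat_lit 0x180008001c000600000001000080000000000000000000000000000000) (nat_lit 0x0) (nat_lit 0x200062003800180004000200000000000000000000000000000000) := T_19 (nat_lit 197) (nat_lit 198) (nat_lit 0) (nat_lit 11) (nat_lit 11) L23702 (by decide +kernel)
theorem L23704 : W_19 (nat_lit 7) (nat_lit 0x100008001c000600000001000080000000000000000000000000000000) (nat_lit 0x0) (nat_lit 0x10000800200062003800180004000200000000000000000000000000000000) := T_19 (nat_lit 227) (nat_lit 244) (nat_lit 5) (nat_lit 7) (nat_lit 10) L23703 (by decide +kernel)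
theorem L23705 : W_19 (nat_lit 8) (nat_lit 0x100008001c000200000001000080000000000000000000000000000000) (nat_lit 0x0) (nat_lit 0x10000800200062003c001a0004000200000000000000000000000000000000) := T_19 (nat_lit 178) (nat_lit 161) (nat_lit 6) (nat_lit 7) (nat_lit 13) L23704 (by decide +kernel)
theorem L23706 : W_19 (nat_lit 2) (nat_lit 0x1f0008001c000200020001000080000000000000000000000000000000) (nat_lit 0x0) (nat_lit 0x7000000000000000000000000000000000000000000000000000000000000) := D_19 (nat_lit 241) (nat_lit 240) (nat_lit 242) (nat_lit 1) (nat_lit 6) (nat_lit 13) (nat_lit 1) (nat_lit 7) (nat_lit 13) (by decide +kernel)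
theorem L23707 : W_19 (nat_lit 3) (nat_lit 0x1e0008001c000200020001000080000000000000000000000000000000) (nat_lit 0x0) (nat_lit 0x7000100040000000000000000000000000000000000000000000000000000) := T_19 (nat_lit 224) (nat_lit 210) (nat_lit 2) (nat_lit 3) (nat_lit 13) L23706 (by decide +kernel)
theorem L23708 : W_19 (nat_lit 4) (nat_lit 0x1c0008001c000200020001000080000000000000000000000000000000) (nat_lit 0x0) (nat_lit 0x7000300140000000000000000000000000000000000000000000000000000) := T_19 (nat_lit 225) (nat_lit 212) (nat_lit 2) (nat_lit 4) (nat_lit 13) L23707 (by decide +kernel)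
theorem L23709 : W_19 (nat_lit 5) (nat_lit 0x1c0008001c000200000001000080000000000000000000000000000000) (nat_lit 0x0) (nat_lit 0x7000300140000000400020000000000000000000000000000000000000000) := T_19 (nat_lit 161) (nat_lit 178) (nat_lit 6) (nat_lit 7) (nat_lit 13) L23708 (by decide +kernel)
theorem L23710 : W_19 (nat_lit 2) (nat_lit 0x4001e0009001c000200000001000080000000000000000000000000000000) (nat_lit 0x0) (nat_lit 0x8002000020000000000000000000000000000000000000000000000000000) := D_19 (nat_lit 229) (nat_lit 243) (nat_lit 209) (nat_lit 1) (nat_lit 8) (nat_lit 13) (nat_lit 0) (nat_lit 8) (nat_lit 13) (by decide +kernel)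
theorem L23711 : W_19 (nat_lit 3) (nat_lit 0x4001e0008001c000200000001000080000000000000000000000000000000) (nat_lit 0x0) (nat_lit 0x8002000038000000000000000000000000000000000000000000000000000) := T_19 (nat_lit 208) (nat_lit 207) (nat_lit 0) (nat_lit 7) (nat_lit 13) L23710 (by decide +kernel)
theorem L23712 : W_19 (nat_lit 4) (nat_lit 0x1e0008001c000200000001000080000000000000000000000000000000) (nat_lit 0x0) (nat_lit 0xe002000038000000000000000000000000000000000000000000000000000) := T_19 (nat_lit 242) (nat_lit 241) (nat_lit 1) (nat_lit 7) (nat_lit 13) L23711 (by decide +kernel)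
theorem L23713 : W_19 (nat_lit 5) (nat_lit 0x1c0008001c000200000001000080000000000000000000000000000000) (nat_lit 0x0) (nat_lit 0xe002200138000000000000000000000000000000000000000000000000000) := T_19 (nat_lit 225) (nat_lit 212) (nat_lit 2) (nat_lit 4) (nat_lit 13) L23712 (by decide +kernel)
theorem L23714 : W_19 (nat_lit 5) (nat_lit 0x1e0008001c000200000001000080000000000000000000000000000000) (nat_lit 0x0) (nat_lit 0x700010001c000000400020000000000000000000000000000000000000000) := T_19 (nat_lit 178) (nat_lit 161) (nat_lit 6) (nat_lit 7) (nat_lit 13) L19054 (by decide +kernel)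
theorem L23715 : W_19 (nat_lit 2) (nat_lit 0x1f0008001c000600000001000080000000000000000000000000000000) (nat_lit 0x0) (nat_lit 0x7000000000000000000000000000000000000000000000000000000000000) := D_19 (nat_lit 241) (nat_lit 240) (nat_lit 242) (nat_lit 1) (nat_lit 6) (nat_lit 13) (nat_lit 1) (nat_lit 7) (nat_lit 13) (by decide +kernel)
theorem L23716 : W_19 (nat_lit 3) (nat_lit 0x1e0008001c000600000001000080000000000000000000000000000000) (nat_lit 0x0) (nat_lit 0x7000100040000000000000000000000000000000000000000000000000000) := T_19 (nat_lit 224) (nat_lit 210) (nat_lit 2) (nat_lit 3) (nat_lit 13) L23715 (by decide +kernel)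
theorem L23717 : W_19 (nat_lit 4) (nat_lit 0x1e0008001c000200000001000080000000000000000000000000000000) (nat_lit 0x0) (nat_lit 0x7000100040000000400020000000000000000000000000000000000000000) := T_19 (nat_lit 178) (nat_lit 161) (nat_lit 6) (nat_lit 7) (nat_lit 13) L23716 (by decide +kernel)
theorem L23718 : W_19 (nat_lit 2) (nat_lit 0x1e0009001c000200000001000080000000000000000000000000000000) (nat_lit 0x0) (nat_lit 0x100060000000000000000000000000000000000000000000000000000) := D_19 (nat_lit 210) (nat_lit 224) (nat_lit 209) (nat_lit 2) (nat_lit 3) (nat_lit 13) (nat_lit 2) (nat_lit 4) (nat_lit 12) (by decide +kernel)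
theorem L23719 : W_19 (nat_lit 3) (nat_lit 0x1e0008001c000200000001000080000000000000000000000000000000) (nat_lit 0x0) (nat_lit 0x100078000000000000000000000000000000000000000000000000000) := T_19 (nat_lit 208) (nat_lit 207) (nat_lit 0) (nat_lit 7) (nat_lit 13) L23718 (by decide +kernel)
theorem L23720 : W_19 (nat_lit 6) (nat_lit 0x1c0008001c000200000001000080000000000000000000000000000000) (nat_lit 0x0) (nat_lit 0xf00230007c000000400020000000000000000000000000000000000000000) := Q_19 (nat_lit 225) (C_19 L23714 (C_19 L23712 (C_19 L23717 (C_19 L23719 N_19)))) (by decide +kernel)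
theorem L23721 : W_19 (nat_lit 2) (nat_lit 0x1c0028001e000a00020001000080000000000000000000000000000000) (nat_lit 0x0) (nat_lit 0x140001000000000000000000000000000000000000000000000000) := D_19 (nat_lit 212) (nat_lit 192) (nat_lit 210) (nat_lit 3) (nat_lit 5) (nat_lit 11) (nat_lit 1) (nat_lit 9) (nat_lit 12) (by decide +kernel)
theorem L23722 : W_19 (nat_lit 3) (nat_lit 0x1c0008001e000a00020001000080000000000000000000000000000000) (nat_lit 0x0) (nat_lit 0x340001000000040000000000000000000000000000000000000000) := T_19 (nat_lit 213) (nat_lit 162) (nat_lit 4) (nat_lit 9) (nat_lit 12) L23721 (by decide +kernel)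
theorem L23723 : W_19 (nat_lit 4) (nat_lit 0x1c0008001e000200020001000080000000000000000000000000000000) (nat_lit 0x0) (nat_lit 0x340001001800040000000000000000000000000000000000000000) := T_19 (nat_lit 179) (nat_lit 180) (nat_lit 2) (nat_lit 6) (nat_lit 11) L23722 (by decide +kernel)
theorem L23724 : W_19 (nat_lit 5) (nat_lit 0x1c0008001e000200000001000080000000000000000000000000000000) (nat_lit 0x0) (nat_lit 0x340001001c00060000000000000000000000000000000000000000) := T_19 (nat_lit 161) (nat_lit 178) (nat_lit 6) (nat_lit 7) (nat_lit 13) L23723 (by decide +kernel)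
theorem L23725 : W_19 (nat_lit 2) (nat_lit 0x1c0008001e000a00000001000080000000000000000000000000000000) (nat_lit 0x0) (nat_lit 0x1000400020000000000000000000000000000000000000000) := D_19 (nat_lit 178) (nat_lit 192) (nat_lit 161) (nat_lit 2) (nat_lit 5) (nat_lit 11) (nat_lit 7) (nat_lit 8) (nat_lit 7) (by decide +kernel)
theorem L23726 : W_19 (nat_lit 3) (nat_lit 0x1c0008001e000200000001000080000000000000000000000000000000) (nat_lit 0x0) (nat_lit 0x1001c00020000000000000000000000000000000000000000) := T_19 (nat_lit 179) (nat_lit 180) (nat_lit 2) (nat_lit 6) (nat_lit 11) L23725 (by decide +kernel)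
theorem L23727 : W_19 (nat_lit 2) (nat_lit 0x1c000a001e000200000001000080000000000000000000000000000000) (nat_lit 0x0) (nat_lit 0x2000010001000000000000000000000000000000000000000000000000) := D_19 (nat_lit 208) (nat_lit 192) (nat_lit 229) (nat_lit 1) (nat_lit 8) (nat_lit 11) (nat_lit 0) (nat_lit 8) (nat_lit 13) (by decide +kernel)
theorem L23728 : W_19 (nat_lit 3) (nat_lit 0x1c0008001e000200000001000080000000000000000000000000000000) (nat_lit 0x0) (nat_lit 0x2000070001000000000000000000000000000000000000000000000000) := T_19 (nat_lit 209) (nat_lit 210) (nat_lit 1) (nat_lit 9) (nat_lit 11) L23727 (by decide +kernel)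
theorem L23729 : W_19 (nat_lit 2) (nat_lit 0x1c000c001e000a00020001000080000000000000000000000000000000) (nat_lit 0x0) (nat_lit 0x300000000000040000000000000000000000000000000000000000) := D_19 (nat_lit 213) (nat_lit 162) (nat_lit 212) (nat_lit 4) (nat_lit 9) (nat_lit 12) (nat_lit 1) (nat_lit 9) (nat_lit 12) (by decide +kernel)
theorem L23730 : W_19 (nat_lit 3) (nat_lit 0x1c0008001e000a00020001000080000000000000000000000000000000) (nat_lit 0x0) (nat_lit 0x360000000000040000000000000000000000000000000000000000) := T_19 (nat_lit 210) (nat_lit 209) (nat_lit 1) (nat_lit 9) (nat_lit 11) L23729 (by decide +kernel)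
theorem L23731 : W_19 (nat_lit 4) (nat_lit 0x1c0008001e000200020001000080000000000000000000000000000000) (nat_lit 0x0) (nat_lit 0x360000001800040000000000000000000000000000000000000000) := T_19 (nat_lit 179) (nat_lit 180) (nat_lit 2) (nat_lit 6) (nat_lit 11) L23730 (by decide +kernel)
theorem L23732 : W_19 (nat_lit 5) (nat_lit 0x1c0008001e000200000001000080000000000000000000000000000000) (nat_lit 0x0) (nat_lit 0x360000001c00060000000000000000000000000000000000000000) := T_19 (nat_lit 161) (nat_lit 178) (nat_lit 6) (nat_lit 7) (nat_lit 13) L23731 (by decide +kernel)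
theorem L23733 : W_19 (nat_lit 6) (nat_lit 0x1c0008001c000200000001000080000000000000000000000000000000) (nat_lit 0x0) (nat_lit 0x2000370003001c00060000000000000000000000000000000000000000) := Q_19 (nat_lit 193) (C_19 L23724 (C_19 L23726 (C_19 L23728 (C_19 L23732 N_19)))) (by decide +kernel)
theorem L23734 : W_19 (nat_lit 7) (nat_lit 0x180008001c000200000001000080000000000000000000000000000000) (nat_lit 0x0) (nat_lit 0xf00270037c003001c00060000000000000000000000000000000000000000) := Q_19 (nat_lit 226) (C_19 L23709 (C_19 L23713 (C_19 L23720 (C_19 L23733 N_19)))) (by decide +kernel)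
theorem L23735 : W_19 (nat_lit 8) (nat_lit 0x100008001c000200000001000080000000000000000000000000000000) (nat_lit 0x0) (nat_lit 0x1f002f0037c003001c00060000000000000000000000000000000000000000) := T_19 (nat_lit 227) (nat_lit 244) (nat_lit 5) (nat_lit 7) (nat_lit 10) L23734 (by decide +kernel)
theorem L23736 : W_19 (nat_lit 9) (nat_lit 0x100008000c000200000001000080000000000000000000000000000000) (nat_lit 0x0) (nat_lit 0x1f002f0037c073007c001e0004000200000000000000000000000000000000) := Q_19 (nat_lit 196) (C_19 L18784 (C_19 L23705 (C_19 L18514 (C_19 L23735 N_19)))) (by decide +kernel)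
theorem L23737 : W_19 (nat_lit 10) (nat_lit 0x8000c000200000001000080000000000000000000000000000000) (nat_lit 0x0) (nat_lit 0x60003f003f0037c073007c001e0004000200000000000000000000000000000000) := Q_19 (nat_lit 228) (C_19 L18306 (C_19 L20200 (C_19 L23736 N_19))) (by decide +kernel)
theorem L23738 : W_19 (nat_lit 8) (nat_lit 0x8000c000200000001000080000000000000000000000000000000) (nat_lit 0x0) (nat_lit 0xc000e000f800370032000400020000000000000000000000000000000000000000) := Q_19 (nat_lit 228) (C_19 L20132 (C_19 L20671 (C_19 L18306 (C_19 L19900 N_19)))) (by decide +kernel)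
theorem L23739 : W_19 (nat_lit 2) (nat_lit 0x2001e0008801c000200020001000080000000000000000000000000000000) (nat_lit 0x0) (nat_lit 0x1000100004000000000000000000000000000000000000000000000000000) := D_19 (nat_lit 224) (nat_lit 240) (nat_lit 206) (nat_lit 1) (nat_lit 6) (nat_lit 13) (nat_lit 0) (nat_lit 6) (nat_lit 13) (by decide +kernel)
theorem L23740 : W_19 (nat_lit 3) (nat_lit 0x2001e0008001c000200020001000080000000000000000000000000000000) (nat_lit 0x0) (nat_lit 0x100010001c000000000000000000000000000000000000000000000000000) := T_19 (nat_lit 207) (nat_lit 208) (nat_lit 0) (nat_lit 7) (nat_lit 13) L23739 (by decide +kernel)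
theorem L23741 : W_19 (nat_lit 4) (nat_lit 0x1e0008001c000200020001000080000000000000000000000000000000) (nat_lit 0x0) (nat_lit 0x700010001c000000000000000000000000000000000000000000000000000) := T_19 (nat_lit 241) (nat_lit 242) (nat_lit 1) (nat_lit 7) (nat_lit 13) L23740 (by decide +kernel)
theorem L23742 : W_19 (nat_lit 5) (nat_lit 0x1c0008001c000200020001000080000000000000000000000000000000) (nat_lit 0x0) (nat_lit 0x700030011c000000000000000000000000000000000000000000000000000) := T_19 (nat_lit 225) (nat_lit 212) (nat_lit 2) (nat_lit 4) (nat_lit 13) L23741 (by decide +kernel)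
theorem L23743 : W_19 (nat_lit 6) (nat_lit 0x1c0008001c000200000001000080000000000000000000000000000000) (nat_lit 0x0) (nat_lit 0x700030011c000000400020000000000000000000000000000000000000000) := T_19 (nat_lit 161) (nat_lit 178) (nat_lit 6) (nat_lit 7) (nat_lit 13) L23742 (by decide +kernel)
theorem L23744 : W_19 (nat_lit 2) (nat_lit 0x4001e000b001c000600000001000080000000000000000000000000000000) (nat_lit 0x0) (nat_lit 0x1000080000000000000001000000000000000000000000000000000000000000000000) := D_19 (nat_lit 259) (nat_lit 276) (nat_lit 192) (nat_lit 6) (nat_lit 4) (nat_lit 16) (nat_lit 6) (nat_lit 4) (nat_lit 15) (by decide +kernel)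
theorem L23745 : W_19 (nat_lit 3) (nat_lit 0x4001e0009001c000600000001000080000000000000000000000000000000) (nat_lit 0x0) (nat_lit 0x1000080000000000060001000000000000000000000000000000000000000000000000) := T_19 (nat_lit 209) (nat_lit 210) (nat_lit 2) (nat_lit 4) (nat_lit 12) L23744 (by decide +kernel)
theorem L23746 : W_19 (nat_lit 4) (nat_lit 0x4001e0008001c000600000001000080000000000000000000000000000000) (nat_lit 0x0) (nat_lit 0x1000080000000000078001000000000000000000000000000000000000000000000000) := T_19 (nat_lit 208) (nat_lit 207) (nat_lit 0) (nat_lit 7) (nat_lit 13) L23745 (by decide +kernel)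
theorem L23747 : W_19 (nat_lit 5) (nat_lit 0x1e0008001c000600000001000080000000000000000000000000000000) (nat_lit 0x0) (nat_lit 0x1000080006000000078001000000000000000000000000000000000000000000000000) := T_19 (nat_lit 242) (nat_lit 241) (nat_lit 1) (nat_lit 7) (nat_lit 13) L23746 (by decide +kernel)
theorem L23748 : W_19 (nat_lit 6) (nat_lit 0x1e0008001c000200000001000080000000000000000000000000000000) (nat_lit 0x0) (nat_lit 0x1000080006000000078001000400020000000000000000000000000000000000000000) := T_19 (nat_lit 178) (nat_lit 161) (nat_lit 6) (nat_lit 7) (nat_lit 13) L23747 (by decide +kernel)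
theorem L23749 : W_19 (nat_lit 7) (nat_lit 0x1c0008001c000200000001000080000000000000000000000000000000) (nat_lit 0x0) (nat_lit 0x100008000700030007c001000400020000000000000000000000000000000000000000) := Q_19 (nat_lit 225) (C_19 L23717 (C_19 L23719 (C_19 L23714 (C_19 L23748 N_19)))) (by decide +kernel)
theorem L23750 : W_19 (nat_lit 4) (nat_lit 0x1c0008001c000200000001000080000000000000000000000000000000) (nat_lit 0x0) (nat_lit 0x300178000000000000000000000000000000000000000000000000000) := T_19 (nat_lit 225) (nat_lit 212) (nat_lit 2) (nat_lit 4) (nat_lit 13) L23719 (by decide +kernel)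
theorem L23751 : W_19 (nat_lit 2) (nat_lit 0x1c000a001e000600000001000080000000000000000000000000000000) (nat_lit 0x0) (nat_lit 0x10001800000000000000000000000000000000000000000000000) := D_19 (nat_lit 192) (nat_lit 191) (nat_lit 208) (nat_lit 2) (nat_lit 4) (nat_lit 11) (nat_lit 1) (nat_lit 8) (nat_lit 11) (by decide +kernel)
theorem L23752 : W_19 (nat_lit 3) (nat_lit 0x1c0008001e000600000001000080000000000000000000000000000000) (nat_lit 0x0) (nat_lit 0x70001800000000000000000000000000000000000000000000000) := T_19 (nat_lit 209) (nat_lit 210) (nat_lit 1) (nat_lit 9) (nat_lit 11) L23751 (by decide +kernel)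
theorem L23753 : W_19 (nat_lit 4) (nat_lit 0x1c0008001e000200000001000080000000000000000000000000000000) (nat_lit 0x0) (nat_lit 0x70001800400020000000000000000000000000000000000000000) := T_19 (nat_lit 178) (nat_lit 161) (nat_lit 6) (nat_lit 7) (nat_lit 13) L23752 (by decide +kernel)
theorem L23754 : W_19 (nat_lit 2) (nat_lit 0x1c000a001f000a00000001000080000000000000000000000000000000) (nat_lit 0x0) (nat_lit 0x300000800000000000000000000000000000000000000000000000) := D_19 (nat_lit 212) (nat_lit 191) (nat_lit 213) (nat_lit 3) (nat_lit 4) (nat_lit 11) (nat_lit 3) (nat_lit 5) (nat_lit 11) (by decide +kernel)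
theorem L23755 : W_19 (nat_lit 3) (nat_lit 0x1c000a001e000a00000001000080000000000000000000000000000000) (nat_lit 0x0) (nat_lit 0x310001800000000000000000000000000000000000000000000000) := T_19 (nat_lit 192) (nat_lit 208) (nat_lit 1) (nat_lit 8) (nat_lit 11) L23754 (by decide +kernel)
theorem L23756 : W_19 (nat_lit 4) (nat_lit 0x1c0008001e000a00000001000080000000000000000000000000000000) (nat_lit 0x0) (nat_lit 0x370001800000000000000000000000000000000000000000000000) := T_19 (nat_lit 209) (nat_lit 210) (nat_lit 1) (nat_lit 9) (nat_lit 11) L23755 (by decide +kernel)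
theorem L23757 : W_19 (nat_lit 5) (nat_lit 0x1c0008001e000200000001000080000000000000000000000000000000) (nat_lit 0x0) (nat_lit 0x370001801800000000000000000000000000000000000000000000) := T_19 (nat_lit 179) (nat_lit 180) (nat_lit 2) (nat_lit 6) (nat_lit 11) L23756 (by decide +kernel)
theorem L23758 : W_19 (nat_lit 6) (nat_lit 0x1c0008001c000200000001000080000000000000000000000000000000) (nat_lit 0x0) (nat_lit 0x370003801c00060000000000000000000000000000000000000000) := Q_19 (nat_lit 193) (C_19 L23726 (C_19 L23732 (C_19 L23753 (C_19 L23757 N_19)))) (by decide +kernel)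
theorem L23759 : W_19 (nat_lit 8) (nat_lit 0x180008001c000200000001000080000000000000000000000000000000) (nat_lit 0x0) (nat_lit 0x100008000700070037c003801c00060000000000000000000000000000000000000000) := Q_19 (nat_lit 226) (C_19 L23709 (C_19 L23743 (C_19 L23749 (C_19 L23750 (C_19 L23758 N_19))))) (by decide +kernel)
theorem L23760 : W_19 (nat_lit 9) (nat_lit 0x100008001c000200000001000080000000000000000000000000000000) (nat_lit 0x0) (nat_lit 0x1000080017000f0037c003801c00060000000000000000000000000000000000000000) := T_19 (nat_lit 227) (nat_lit 244) (nat_lit 5) (nat_lit 7) (nat_lit 10) L23759 (by decide +kernel)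
theorem L23761 : W_19 (nat_lit 10) (nat_lit 0x100008000c000200000001000080000000000000000000000000000000) (nat_lit 0x0) (nat_lit 0x1000080017000f0037c073807c001e0004000200000000000000000000000000000000) := Q_19 (nat_lit 196) (C_19 L18784 (C_19 L23705 (C_19 L18514 (C_19 L23760 N_19)))) (by decide +kernel)
theorem L23762 : W_19 (nat_lit 11) (nat_lit 0x8000c000200000001000080000000000000000000000000000000) (nat_lit 0x0) (nat_lit 0x1000680037001f0037c073807c001e0004000200000000000000000000000000000000) := Q_19 (nat_lit 228) (C_19 L18306 (C_19 L20200 (C_19 L23761 N_19))) (by decide +kernel)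
theorem L23763 : W_19 (nat_lit 15) (nat_lit 0xc000200000001000080000000000000000000000000000000) (nat_lit 0x0) (nat_lit 0x1f007fc01ff01ff003fc073e07cc01e6004000200000000000000000000000000000000) := Q_19 (nat_lit 211) (C_19 L20954 (C_19 L23640 (C_19 L18311 (C_19 L23653 (C_19 L23661 (C_19 L23698 (C_19 L23737 (C_19 L23738 (C_19 L19901 (C_19 L23762 N_19)))))))))) (by decide +kernel)
theorem L23764 : W_19 (nat_lit 16) (nat_lit 0xc000200000001000080000000000000000000000000000000) (nat_lit 0x0) (nat_lit 0x17803ff017f81ffc3ffe1f3f1fcf81efc04f8023c000000000000000000000000000000) := Q_19 (nat_lit 211) (C_19 L23546 (C_19 L22395 (C_19 L23762 (C_19 L18974 (C_19 L23653 (C_19 L23610 (C_19 L23612 N_19))))))) (by decide +kernel)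
theorem L23765 : W_19 (nat_lit 2) (nat_lit 0x38000e000c000200020001000080000000000000000000000000000000) (nat_lit 0x0) (nat_lit 0x32000000000000000000000000000000000000000000000000) := D_19 (nat_lit 196) (nat_lit 193) (nat_lit 197) (nat_lit 1) (nat_lit 9) (nat_lit 11) (nat_lit 1) (nat_lit 10) (nat_lit 11) (by decide +kernel)
theorem L23766 : W_19 (nat_lit 3) (nat_lit 0x38000a000c000200020001000080000000000000000000000000000000) (nat_lit 0x0) (nat_lit 0x4000040032000000000000000000000000000000000000000000000000) := T_19 (nat_lit 210) (nat_lit 230) (nat_lit 0) (nat_lit 9) (nat_lit 13) L23765 (by decide +kernel)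
theorem L23767 : W_19 (nat_lit 4) (nat_lit 0x18000a000c000200020001000080000000000000000000000000000000) (nat_lit 0x0) (nat_lit 0x40006000040032000000000000000000000000000000000000000000000000) := T_19 (nat_lit 229) (nat_lit 246) (nat_lit 7) (nat_lit 7) (nat_lit 10) L23766 (by decide +kernel)
theorem L23768 : W_19 (nat_lit 5) (nat_lit 0x10000a000c000200020001000080000000000000000000000000000000) (nat_lit 0x0) (nat_lit 0x50006800040032000000000000000000000000000000000000000000000000) := T_19 (nat_lit 227) (nat_lit 244) (nat_lit 5) (nat_lit 7) (nat_lit 10) L23767 (by decide +kernel)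
theorem L23769 : W_19 (nat_lit 6) (nat_lit 0x10000a000c000200000001000080000000000000000000000000000000) (nat_lit 0x0) (nat_lit 0x50006800040032000400020000000000000000000000000000000000000000) := T_19 (nat_lit 161) (nat_lit 178) (nat_lit 6) (nat_lit 7) (nat_lit 13) L23768 (by decide +kernel)
theorem L23770 : W_19 (nat_lit 14) (nat_lit 0x100008000c000200000001000080000000000000000000000000000000) (nat_lit 0x0) (nat_lit 0x400038005f806fc017c033c00ce002f000f00020000000000000000000000000000000) := Q_19 (nat_lit 209) (C_19 L21231 (C_19 L21223 (C_19 L20209 (C_19 L20224 (C_19 L23769 N_19))))) (by decide +kernel)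
theorem L23771 : W_19 (nat_lit 15) (nat_lit 0x8000c000200000001000080000000000000000000000000000000) (nat_lit 0x0) (nat_lit 0x4000f8007f807fc017c033c00ce002f000f00020000000000000000000000000000000) := Q_19 (nat_lit 228) (C_19 L20132 (C_19 L20200 (C_19 L23770 N_19))) (by decide +kernel)
theorem L23772 : W_19 (nat_lit 9) (nat_lit 0x8000c000200000001000080000000000000000000000000000000) (nat_lit 0x0) (nat_lit 0x80004003f701f3c1fce00e0000000000000000000000000000000000000000) := Q_19 (nat_lit 196) (C_19 L23125 (C_19 L23611 (C_19 L23126 (C_19 L19781 N_19)))) (by decide +kernel)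
theorem L23773 : W_19 (nat_lit 16) (nat_lit 0xc000200000001000080000000000000000000000000000000) (nat_lit 0x0) (nat_lit 0x17003fc00ff807fc3ffc1f3c1fce01ef004f00220000000000000000000000000000000) := Q_19 (nat_lit 211) (C_19 L23771 (C_19 L23575 (C_19 L18974 (C_19 L23653 (C_19 L23610 (C_19 L23772 N_19)))))) (by decide +kernel)
theorem L23774 : W_19 (nat_lit 16) (nat_lit 0xc000200000001000080000000000000000000000000000000) (nat_lit 0x0) (nat_lit 0x1f00fff03ff81ffe0ffc033c03ce006f000f00020000000000000000000000000000000) := Q_19 (nat_lit 211) (C_19 L23771 (C_19 L23640 (C_19 L19779 (C_19 L23653 (C_19 L23661 (C_19 L20626 (C_19 L20656 (C_19 L23738 (C_19 L20683 (C_19 L22715 N_19)))))))))) (by decide +kernel)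
theorem L23775 : W_19 (nat_lit 4) (nat_lit 0xf000a80000001000080000000000000000000000000000000) (nat_lit 0x0) (nat_lit 0x730010001000000000000000000000000000000000000000000000) := T_19 (nat_lit 209) (nat_lit 208) (nat_lit 1) (nat_lit 8) (nat_lit 11) L22734 (by decide +kernel)
theorem L23776 : W_19 (nat_lit 5) (nat_lit 0xf000280000001000080000000000000000000000000000000) (nat_lit 0x0) (nat_lit 0x730010001c00000000000000000000000000000000000000000000) := T_19 (nat_lit 179) (nat_lit 178) (nat_lit 2) (nat_lit 5) (nat_lit 11) L23775 (by decide +kernel)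
theorem L23777 : W_19 (nat_lit 6) (nat_lit 0xf000200000001000080000000000000000000000000000000) (nat_lit 0x0) (nat_lit 0x730010001cc0000000000000000000000000000000000000000000) := T_19 (nat_lit 175) (nat_lit 174) (nat_lit 0) (nat_lit 8) (nat_lit 11) L23776 (by decide +kernel)
theorem L23778 : W_19 (nat_lit 2) (nat_lit 0xf000200000001000080000000000000000000000000000000) (nat_lit 0x0) (nat_lit 0x800c00000000000000000000000000000000000000000000) := D_19 (nat_lit 178) (nat_lit 179) (nat_lit 191) (nat_lit 2) (nat_lit 5) (nat_lit 11) (nat_lit 2) (nat_lit 4) (nat_lit 11) (by decide +kernel)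
theorem L23779 : W_19 (nat_lit 7) (nat_lit 0xe000200000001000080000000000000000000000000000000) (nat_lit 0x0) (nat_lit 0x7b8011801ce0000000000000000000000000000000000000000000) := Q_19 (nat_lit 192) (C_19 L20373 (C_19 L5312 (C_19 L23777 (C_19 L23778 N_19)))) (by decide +kernel)
theorem L23780 : W_19 (nat_lit 6) (nat_lit 0xe000200000001000080000000000000000000000000000000) (nat_lit 0x0) (nat_lit 0x10000800078011800ce0004000000000000000000000000000000000000000) := Q_19 (nat_lit 192) (C_19 L23778 (C_19 L20373 (C_19 L18989 N_19))) (by decide +kernel)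
theorem L23781 : W_19 (nat_lit 3) (nat_lit 0x20000f000280000001000080000000000000000000000000000000) (nat_lit 0x0) (nat_lit 0x400010001c00000000000000000000000000000000000000000000) := T_19 (nat_lit 179) (nat_lit 178) (nat_lit 2) (nat_lit 5) (nat_lit 11) L22724 (by decide +kernel)
theorem L23782 : W_19 (nat_lit 4) (nat_lit 0xf000280000001000080000000000000000000000000000000) (nat_lit 0x0) (nat_lit 0x700010001c00000000000000000000000000000000000000000000) := T_19 (nat_lit 213) (nat_lit 212) (nat_lit 3) (nat_lit 5) (nat_lit 11) L23781 (by decide +kernel)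
theorem L23783 : W_19 (nat_lit 5) (nat_lit 0xf000200000001000080000000000000000000000000000000) (nat_lit 0x0) (nat_lit 0x700010001cc0000000000000000000000000000000000000000000) := T_19 (nat_lit 175) (nat_lit 174) (nat_lit 0) (nat_lit 8) (nat_lit 11) L23782 (by decide +kernel)
theorem L23784 : W_19 (nat_lit 7) (nat_lit 0xe000200000001000080000000000000000000000000000000) (nat_lit 0x0) (nat_lit 0x7dc011c01ce0000000000000000000000000000000000000000000) := Q_19 (nat_lit 192) (C_19 L23778 (C_19 L20370 (C_19 L23783 N_19))) (by decide +kernel)
theorem L23785 : W_19 (nat_lit 4) (nat_lit 0x10001e000200000001000080000000000000000000000000000000) (nat_lit 0x0) (nat_lit 0x40002000600000001800040000000000000000000000000000000000000000) := T_19 (nat_lit 229) (nat_lit 246) (nat_lit 4) (nat_lit 8) (nat_lit 14) L22735 (by decide +kernel)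
theorem L23786 : W_19 (nat_lit 2) (nat_lit 0x48003c001e000a00000001000080000000000000000000000000000000) (nat_lit 0x0) (nat_lit 0x1000080000000000000000400000000000000000000000000000000000000000000) := D_19 (nat_lit 247) (nat_lit 178) (nat_lit 264) (nat_lit 4) (nat_lit 9) (nat_lit 14) (nat_lit 4) (nat_lit 9) (nat_lit 15) (by decide +kernel)
theorem L23787 : W_19 (nat_lit 3) (nat_lit 0x8003c001e000a00000001000080000000000000000000000000000000) (nat_lit 0x0) (nat_lit 0x100008000c000000000000400000000000000000000000000000000000000000000) := T_19 (nat_lit 230) (nat_lit 231) (nat_lit 3) (nat_lit 6) (nat_lit 12) L23786 (by decide +kernel)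
theorem L23788 : W_19 (nat_lit 4) (nat_lit 0x80034001e000a00000001000080000000000000000000000000000000) (nat_lit 0x0) (nat_lit 0x100008000c400080000000400000000000000000000000000000000000000000000) := T_19 (nat_lit 211) (nat_lit 226) (nat_lit 1) (nat_lit 9) (nat_lit 12) L23787 (by decide +kernel)
theorem L23789 : W_19 (nat_lit 5) (nat_lit 0x34001e000a00000001000080000000000000000000000000000000) (nat_lit 0x0) (nat_lit 0x100009000cc00080000000400000000000000000000000000000000000000000000) := T_19 (nat_lit 227) (nat_lit 244) (nat_lit 6) (nat_lit 6) (nat_lit 14) L23788 (by decide +kernel)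
theorem L23790 : W_19 (nat_lit 6) (nat_lit 0x34001e000200000001000080000000000000000000000000000000) (nat_lit 0x0) (nat_lit 0x100009000cc00080000001c00000000000000000000000000000000000000000000) := T_19 (nat_lit 179) (nat_lit 180) (nat_lit 2) (nat_lit 6) (nat_lit 11) L23789 (by decide +kernel)
theorem L23791 : W_19 (nat_lit 7) (nat_lit 0x30001e000200000001000080000000000000000000000000000000) (nat_lit 0x0) (nat_lit 0x100009000cc000e0000001c00000000000000000000000000000000000000000000) := T_19 (nat_lit 210) (nat_lit 209) (nat_lit 1) (nat_lit 9) (nat_lit 11) L23790 (by decide +kernel)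
theorem L23792 : W_19 (nat_lit 8) (nat_lit 0x10001e000200000001000080000000000000000000000000000000) (nat_lit 0x0) (nat_lit 0x100009000cc006e0000001c00000000000000000000000000000000000000000000) := T_19 (nat_lit 213) (nat_lit 214) (nat_lit 3) (nat_lit 6) (nat_lit 11) L23791 (by decide +kernel)
theorem L23793 : W_19 (nat_lit 2) (nat_lit 0x400048003c001e000200000001000080000000000000000000000000000000) (nat_lit 0x0) (nat_lit 0x1000080000000000000000400000000000000000000000000000000000000000000) := D_19 (nat_lit 247) (nat_lit 178) (nat_lit 264) (nat_lit 4) (nat_lit 9) (nat_lit 14) (nat_lit 4) (nat_lit 9) (nat_lit 15) (by decide +kernel)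
theorem L23794 : W_19 (nat_lit 3) (nat_lit 0x400008003c001e000200000001000080000000000000000000000000000000) (nat_lit 0x0) (nat_lit 0x100008000c000000000000400000000000000000000000000000000000000000000) := T_19 (nat_lit 230) (nat_lit 231) (nat_lit 3) (nat_lit 6) (nat_lit 12) L23793 (by decide +kernel)
theorem L23795 : W_19 (nat_lit 4) (nat_lit 0x4000080034001e000200000001000080000000000000000000000000000000) (nat_lit 0x0) (nat_lit 0x100008000c400080000000400000000000000000000000000000000000000000000) := T_19 (nat_lit 211) (nat_lit 226) (nat_lit 1) (nat_lit 9) (nat_lit 12) L23794 (by decide +kernel)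
theorem L23796 : W_19 (nat_lit 5) (nat_lit 0x80034001e000200000001000080000000000000000000000000000000) (nat_lit 0x0) (nat_lit 0x10000c000e400080000000400000000000000000000000000000000000000000000) := T_19 (nat_lit 246) (nat_lit 229) (nat_lit 4) (nat_lit 8) (nat_lit 14) L23795 (by decide +kernel)
theorem L23797 : W_19 (nat_lit 6) (nat_lit 0x34001e000200000001000080000000000000000000000000000000) (nat_lit 0x0) (nat_lit 0x10000d000ec00080000000400000000000000000000000000000000000000000000) := T_19 (nat_lit 227) (nat_lit 244) (nat_lit 6) (nat_lit 6) (nat_lit 14) L23796 (by decide +kernel)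
theorem L23798 : W_19 (nat_lit 7) (nat_lit 0x14001e000200000001000080000000000000000000000000000000) (nat_lit 0x0) (nat_lit 0x10000d000ec00680000000400000000000000000000000000000000000000000000) := T_19 (nat_lit 213) (nat_lit 214) (nat_lit 3) (nat_lit 6) (nat_lit 11) L23797 (by decide +kernel)
theorem L23799 : W_19 (nat_lit 8) (nat_lit 0x10001e000200000001000080000000000000000000000000000000) (nat_lit 0x0) (nat_lit 0x10000d000ec006e0000000400000000000000000000000000000000000000000000) := T_19 (nat_lit 210) (nat_lit 209) (nat_lit 1) (nat_lit 9) (nat_lit 11) L23798 (by decide +kernel)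
theorem L23800 : W_19 (nat_lit 5) (nat_lit 0xf00014001e000e00000001000080000000000000000000000000000000) (nat_lit 0x0) (nat_lit 0x710010801c00000000000000000000000000000000000000000000000000000) := T_19 (nat_lit 244) (nat_lit 227) (nat_lit 6) (nat_lit 6) (nat_lit 14) L20343 (by decide +kernel)
theorem L23801 : W_19 (nat_lit 6) (nat_lit 0x700014001e000e00000001000080000000000000000000000000000000) (nat_lit 0x0) (nat_lit 0x710018801c80000000000000000000000000000000000000000000000000000) := T_19 (nat_lit 231) (nat_lit 211) (nat_lit 0) (nat_lit 10) (nat_lit 13) L23800 (by decide +kernel)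
theorem L23802 : W_19 (nat_lit 7) (nat_lit 0x700010001e000e00000001000080000000000000000000000000000000) (nat_lit 0x0) (nat_lit 0x710018801ce0000000000000000000000000000000000000000000000000000) := T_19 (nat_lit 210) (nat_lit 209) (nat_lit 1) (nat_lit 9) (nat_lit 11) L23801 (by decide +kernel)
theorem L23803 : W_19 (nat_lit 8) (nat_lit 0x300010001e000e00000001000080000000000000000000000000000000) (nat_lit 0x0) (nat_lit 0x79001c801ce0000000000000000000000000000000000000000000000000000) := T_19 (nat_lit 230) (nat_lit 247) (nat_lit 7) (nat_lit 8) (nat_lit 10) L23802 (by decide +kernel)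
theorem L23804 : W_19 (nat_lit 9) (nat_lit 0x200010001e000e00000001000080000000000000000000000000000000) (nat_lit 0x0) (nat_lit 0x7b001d801ce0000000000000000000000000000000000000000000000000000) := T_19 (nat_lit 228) (nat_lit 245) (nat_lit 5) (nat_lit 8) (nat_lit 10) L23803 (by decide +kernel)
theorem L23805 : W_19 (nat_lit 10) (nat_lit 0x200010001e000a00000001000080000000000000000000000000000000) (nat_lit 0x0) (nat_lit 0x7b001d801ce0000000400040000000000000000000000000000000000000000) := T_19 (nat_lit 178) (nat_lit 162) (nat_lit 6) (nat_lit 8) (nat_lit 13) L23804 (by decide +kernel)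
theorem L23806 : W_19 (nat_lit 11) (nat_lit 0x200010001e000200000001000080000000000000000000000000000000) (nat_lit 0x0) (nat_lit 0x7b001d801ce0000001c00040000000000000000000000000000000000000000) := T_19 (nat_lit 179) (nat_lit 180) (nat_lit 2) (nat_lit 6) (nat_lit 11) L23805 (by decide +kernel)
theorem L23807 : W_19 (nat_lit 12) (nat_lit 0x10001e000200000001000080000000000000000000000000000000) (nat_lit 0x0) (nat_lit 0x7f001f801ce0000001c00040000000000000000000000000000000000000000) := T_19 (nat_lit 229) (nat_lit 246) (nat_lit 4) (nat_lit 8) (nat_lit 14) L23806 (by decide +kernel)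
theorem L23808 : W_19 (nat_lit 2) (nat_lit 0x1000200014001e000a00000001000080000000000000000000000000000000) (nat_lit 0x0) (nat_lit 0x200000000400040000000000000000000000000000000000000000) := D_19 (nat_lit 162) (nat_lit 178) (nat_lit 213) (nat_lit 6) (nat_lit 8) (nat_lit 13) (nat_lit 5) (nat_lit 9) (nat_lit 9) (by decide +kernel)
theorem L23809 : W_19 (nat_lit 3) (nat_lit 0x1000200014001e000200000001000080000000000000000000000000000000) (nat_lit 0x0) (nat_lit 0x200000001c00040000000000000000000000000000000000000000) := T_19 (nat_lit 179) (nat_lit 180) (nat_lit 2) (nat_lit 6) (nat_lit 11) L23808 (by decide +kernel)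
theorem L23810 : W_19 (nat_lit 4) (nat_lit 0x200014001e000200000001000080000000000000000000000000000000) (nat_lit 0x0) (nat_lit 0x10000800200000001c00040000000000000000000000000000000000000000) := T_19 (nat_lit 244) (nat_lit 227) (nat_lit 6) (nat_lit 6) (nat_lit 14) L23809 (by decide +kernel)
theorem L23811 : W_19 (nat_lit 5) (nat_lit 0x14001e000200000001000080000000000000000000000000000000) (nat_lit 0x0) (nat_lit 0x50002800200000001c00040000000000000000000000000000000000000000) := T_19 (nat_lit 229) (nat_lit 246) (nat_lit 4) (nat_lit 8) (nat_lit 14) L23810 (by decide +kernel)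
theorem L23812 : W_19 (nat_lit 6) (nat_lit 0x10001e000200000001000080000000000000000000000000000000) (nat_lit 0x0) (nat_lit 0x50002800260000001c00040000000000000000000000000000000000000000) := T_19 (nat_lit 210) (nat_lit 209) (nat_lit 1) (nat_lit 9) (nat_lit 11) L23811 (by decide +kernel)
theorem L23813 : W_19 (nat_lit 13) (nat_lit 0x1e000200000001000080000000000000000000000000000000) (nat_lit 0x0) (nat_lit 0x10007f001fc01fe0000001c00040000000000000000000000000000000000000000) := Q_19 (nat_lit 212) (C_19 L23785 (C_19 L23792 (C_19 L23799 (C_19 L23807 (C_19 L23812 N_19))))) (by decide +kernel)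
theorem L23814 : W_19 (nat_lit 14) (nat_lit 0xe000200000001000080000000000000000000000000000000) (nat_lit 0x0) (nat_lit 0x10007f001fc03fe00f0003c00040000000000000000000000000000000000000000) := Q_19 (nat_lit 196) (C_19 L22730 (C_19 L22981 (C_19 L22723 (C_19 L20363 (C_19 L23813 N_19))))) (by decide +kernel)
theorem L23823 : W_19 (nat_lit 10) (nat_lit 0xe000200000001000080000000000000000000000000000000) (nat_lit 0x0) (nat_lit 0xe00078003f8001c00cf0000000000000000000000000000000000000000000) := Q_19 (nat_lit 192) (C_19 L23778 (C_19 L20383 (C_19 L23822 N_19))) (by decide +kernel)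
theorem L23824 : W_19 (nat_lit 15) (nat_lit 0xc000200000001000080000000000000000000000000000000) (nat_lit 0x0) (nat_lit 0x10007f001fc03ffe0f3e03cf8044000000000000000000000000000000000000000) := Q_19 (nat_lit 193) (C_19 L20397 (C_19 L23779 (C_19 L23780 (C_19 L23784 (C_19 L23814 (C_19 L23823 N_19)))))) (by decide +kernel)
theorem L23825 : W_19 (nat_lit 17) (nat_lit 0x4000200000001000080000000000000000000000000000000) (nat_lit 0x0) (nat_lit 0xff81fff0fff8fffe7fff3fbf9fcf83efc0cf8077c028000000000000000000000000000) := Q_19 (nat_lit 195) (C_19 L18976 (C_19 L19030 (C_19 L19548 (C_19 L19597 (C_19 L19948 (C_19 L20159 (C_19 L20187 (C_19 L20398 (C_19 L20411 (C_19 L20414 (C_19 L20539 (C_19 L20892 (C_19 L22716 (C_19 L22829 (C_19 L23403 (C_19 L23529 (C_19 L23623 (C_19 L23763 (C_19 L23764 (C_19 L23773 (C_19 L23774 (C_19 L23824 N_19)))))))))))))))))))))) (by decide +kernel)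
end Crest.Agent.Helper32.Snaky.R1_0
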