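import Crest.Agent.Helper32.Snaky.Gen.R1_0_p1
set_option autoImplicit false
set_option maxRecDepth 100000
set_option linter.all false
set_option Elab.async false
namespace Crest.Agent.Helper32.Snaky.R1_0
@[reducible] def W_2 (d M Bz Z : Nat) : Prop := Crest.Agent.Helper32.Snaky.Wins (nat_lit 17) d M Bz Z
theorem D_2 {d M Bz Z : Nat} (m t1 t2 o1 x1 y1 o2 x2 y2 : Nat) (h : Crest.Agent.Helper32.Snaky.chkDoubleC (nat_lit 17) d M Bz Z m t1 t2 o1 x1 y1 o2 x2 y2 = true) : W_2 d M Bz Z := Crest.Agent.Helper32.Snaky.doubleC m t1 t2 o1 x1 y1 o2 x2 y2 h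
theorem T_2 {d M Bz Z cd cM cBz cZ : Nat} (m t o x y : Nat) (child : W_2 cd cM cBz cZ) (h : Crest.Agent.Helper32.Snaky.chkThreatC (nat_lit 17) d M Bz Z cd cM cBz cZ m t o x y = true) : W_2 d M Bz Z := Crest.Agent.Helper32.Snaky.threatC m t o x y child h
theorem Q_2 {d M Bz Z : Nat} (m : Nat) {l : List Crest.Agent.Helper32.Snaky.Spec} (kids : Crest.Agent.Helper32.Snaky.AllWins (nat_lit 17) l) (h : Crest.Agent.Helper32.Snaky.chkQuiet d M Bz Z m l = true) : W_2 d M Bz Z := Crest.Agent.Helper32.Snaky.quiet m kids h
theorem C_2 {cd cM cBz cZ : Nat} {l : List Crest.Agent.Helper32.Snaky.Spec} (h : W_2 cd cM cBz cZ) (hl : Crest.Agent.Helper32.Snaky.AllWins (nat_lit 17) l) : Crest.Agent.Helper32.Snaky.AllWins (nat_lit 17) ((cd, cM, cBz, cZ) :: l) := Crest.Agent.Helper32.Snaky.AllWins.cons h hl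
theorem N_2 : Crest.Agent.Helper32.Snaky.AllWins (nat_lit 17) [] := Crest.Agent.Helper32.Snaky.AllWins.nil
theorem L4736 : W_2 (nat_lit 2) (nat_lit 0x1000040016000f00058001000080000000000000000000000000000000) (nat_lit 0x0) (nat_lit 0x400020008000000000000000000000000000000000000000000000000) := D_2 (nat_lit 209) (nat_lit 226) (nat_lit 195) (nat_lit 5) (nat_lit 6) (nat_lit 9) (nat_lit 1) (nat_lit 9) (nat_lit 11) (by decide +kernel)
theorem L4737 : W_2 (nat_lit 3) (nat_lit 0x1000000016000f00058001000080000000000000000000000000000000) (nat_lit 0x0) (nat_lit 0xc00060008000000000000000000000000000000000000000000000000) := T_2 (nat_lit 210) (nat_lit 227) (nat_lit 6) (nat_lit 6) (nat_lit 13) L4736 (by decide +kernel)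
theorem L4765 : W_2 (nat_lit 2) (nat_lit 0x10000f80000001000080000000000000000000000000000000) (nat_lit 0x0) (nat_lit 0xe000000000000000000000000000000000000000) := D_2 (nat_lit 158) (nat_lit 159) (nat_lit 157) (nat_lit 0) (nat_lit 9) (nat_lit 10) (nat_lit 0) (nat_lit 8) (nat_lit 10) (by decide +kernel)
theorem L4766 : W_2 (nat_lit 3) (nat_lit 0x10000f00000001000080000000000000000000000000000000) (nat_lit 0x0) (nat_lit 0x800008000e000000000000000000000000000000000000000) := T_2 (nat_lit 175) (nat_lit 195) (nat_lit 3) (nat_lit 5) (nat_lit 10) L4765 (by decide +kernel)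
theorem L4767 : W_2 (nat_lit 4) (nat_lit 0xf00000001000080000000000000000000000000000000) (nat_lit 0x0) (nat_lit 0x3800008000e000000000000000000000000000000000000000) := T_2 (nat_lit 196) (nat_lit 197) (nat_lit 3) (nat_lit 6) (nat_lit 10) L4766 (by decide +kernel)
theorem L4768 : W_2 (nat_lit 2) (nat_lit 0xf80044001000080000000000000000000000000000000) (nat_lit 0x0) (nat_lit 0x3800000000000000000000000000000000000000000000000) := D_2 (nat_lit 192) (nat_lit 193) (nat_lit 191) (nat_lit 1) (nat_lit 9) (nat_lit 10) (nat_lit 1) (nat_lit 8) (nat_lit 10) (by decide +kernel)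
theorem L4769 : W_2 (nat_lit 3) (nat_lit 0xf00044001000080000000000000000000000000000000) (nat_lit 0x0) (nat_lit 0x3800080002000000000000000000000000000000000000000) := T_2 (nat_lit 175) (nat_lit 157) (nat_lit 0) (nat_lit 8) (nat_lit 10) L4768 (by decide +kernel)
theorem L4770 : W_2 (nat_lit 4) (nat_lit 0xf00004001000080000000000000000000000000000000) (nat_lit 0x0) (nat_lit 0x38000800c2000000000000000000000000000000000000000) := T_2 (nat_lit 162) (nat_lit 163) (nat_lit 2) (nat_lit 6) (nat_lit 10) L4769 (by decide +kernel)
theorem L4771 : W_2 (nat_lit 5) (nat_lit 0xf00000001000080000000000000000000000000000000) (nat_lit 0x0) (nat_lit 0x38000800ce000000000000000000000000000000000000000) := T_2 (nat_lit 158) (nat_lit 159) (nat_lit 0) (nat_lit 9) (nat_lit 10) L4770 (by decide +kernel)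
theorem L4776 : W_2 (nat_lit 2) (nat_lit 0x1e00010001000080000000000000000000000000000000) (nat_lit 0x0) (nat_lit 0x6000000000000800000000000000000000000000000000000) := D_2 (nat_lit 194) (nat_lit 193) (nat_lit 143) (nat_lit 1) (nat_lit 10) (nat_lit 10) (nat_lit 6) (nat_lit 7) (nat_lit 11) (by decide +kernel)
theorem L4777 : W_2 (nat_lit 3) (nat_lit 0x1e00000001000080000000000000000000000000000000) (nat_lit 0x0) (nat_lit 0x6000000018000800000000000000000000000000000000000) := T_2 (nat_lit 160) (nat_lit 159) (nat_lit 0) (nat_lit 10) (nat_lit 10) L4776 (by decide +kernel)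
theorem L4778 : W_2 (nat_lit 2) (nat_lit 0x24001e00100001000080000000000000000000000000000000) (nat_lit 0x0) (nat_lit 0x8002000200000000000000000000000000000000000000000) := D_2 (nat_lit 181) (nat_lit 165) (nat_lit 195) (nat_lit 2) (nat_lit 8) (nat_lit 10) (nat_lit 1) (nat_lit 11) (nat_lit 10) (by decide +kernel)
theorem L4779 : W_2 (nat_lit 3) (nat_lit 0x20001e00100001000080000000000000000000000000000000) (nat_lit 0x0) (nat_lit 0xe002000200000000000000000000000000000000000000000) := T_2 (nat_lit 194) (nat_lit 193) (nat_lit 1) (nat_lit 10) (nat_lit 10) L4778 (by decide +kernel)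
theorem L4780 : W_2 (nat_lit 4) (nat_lit 0x20001e00000001000080000000000000000000000000000000) (nat_lit 0x0) (nat_lit 0xe002000380000000000000000000000000000000000000000) := T_2 (nat_lit 164) (nat_lit 163) (nat_lit 2) (nat_lit 7) (nat_lit 10) L4779 (by decide +kernel)
theorem L4781 : W_2 (nat_lit 5) (nat_lit 0x1e00000001000080000000000000000000000000000000) (nat_lit 0x0) (nat_lit 0x6e002000380000000000000000000000000000000000000000) := T_2 (nat_lit 197) (nat_lit 198) (nat_lit 3) (nat_lit 7) (nat_lit 10) L4780 (by decide +kernel)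
theorem L4793 : W_2 (nat_lit 4) (nat_lit 0x4001f00080001000080000000000000000000000000000000) (nat_lit 0x0) (nat_lit 0x180020c000c000000000000000000000000000000000000000) := T_2 (nat_lit 159) (nat_lit 158) (nat_lit 0) (nat_lit 9) (nat_lit 10) L4792 (by decide +kernel)
theorem L4794 : W_2 (nat_lit 5) (nat_lit 0x4001e00080001000080000000000000000000000000000000) (nat_lit 0x0) (nat_lit 0x180021c004c000000000000000000000000000000000000000) := T_2 (nat_lit 176) (nat_lit 162) (nat_lit 2) (nat_lit 6) (nat_lit 10) L4793 (by decide +kernel)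
theorem L4795 : W_2 (nat_lit 6) (nat_lit 0x4001e00000001000080000000000000000000000000000000) (nat_lit 0x0) (nat_lit 0x180021c01cc000000000000000000000000000000000000000) := T_2 (nat_lit 163) (nat_lit 164) (nat_lit 2) (nat_lit 7) (nat_lit 10) L4794 (by decide +kernel)
theorem L4796 : W_2 (nat_lit 7) (nat_lit 0x1e00000001000080000000000000000000000000000000) (nat_lit 0x0) (nat_lit 0x1e0021c01cc000000000000000000000000000000000000000) := T_2 (nat_lit 194) (nat_lit 193) (nat_lit 1) (nat_lit 10) (nat_lit 10) L4795 (by decide +kernel)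
theorem L4797 : W_2 (nat_lit 2) (nat_lit 0x2c001f00004001000080000000000000000000000000000000) (nat_lit 0x0) (nat_lit 0xc0002000000000000000000000000000000000000000) := D_2 (nat_lit 175) (nat_lit 157) (nat_lit 174) (nat_lit 0) (nat_lit 8) (nat_lit 10) (nat_lit 3) (nat_lit 4) (nat_lit 10) (by decide +kernel)
theorem L4798 : W_2 (nat_lit 3) (nat_lit 0x24001f00004001000080000000000000000000000000000000) (nat_lit 0x0) (nat_lit 0x80020c0002000000000000000000000000000000000000000) := T_2 (nat_lit 195) (nat_lit 181) (nat_lit 1) (nat_lit 11) (nat_lit 10) L4797 (by decide +kernel)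
theorem L4799 : W_2 (nat_lit 4) (nat_lit 0x24001f00000001000080000000000000000000000000000000) (nat_lit 0x0) (nat_lit 0x80020c000e000000000000000000000000000000000000000) := T_2 (nat_lit 158) (nat_lit 159) (nat_lit 0) (nat_lit 9) (nat_lit 10) L4798 (by decide +kernel)
theorem L4800 : W_2 (nat_lit 5) (nat_lit 0x24001e00000001000080000000000000000000000000000000) (nat_lit 0x0) (nat_lit 0x180021c000e000000000000000000000000000000000000000) := T_2 (nat_lit 176) (nat_lit 196) (nat_lit 3) (nat_lit 6) (nat_lit 10) L4799 (by decide +kernel)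
theorem L4801 : W_2 (nat_lit 6) (nat_lit 0x4001e00000001000080000000000000000000000000000000) (nat_lit 0x0) (nat_lit 0x780021c000e000000000000000000000000000000000000000) := T_2 (nat_lit 197) (nat_lit 198) (nat_lit 3) (nat_lit 7) (nat_lit 10) L4800 (by decide +kernel)
theorem L4802 : W_2 (nat_lit 7) (nat_lit 0x1e00000001000080000000000000000000000000000000) (nat_lit 0x0) (nat_lit 0x7e0021c000e000000000000000000000000000000000000000) := T_2 (nat_lit 194) (nat_lit 193) (nat_lit 1) (nat_lit 10) (nat_lit 10) L4801 (by decide +kernel)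
theorem L4808 : W_2 (nat_lit 2) (nat_lit 0xc001f00090001000080000000000000000000000000000000) (nat_lit 0x0) (nat_lit 0x100000c0000000000000000000000000000000000000000000) := D_2 (nat_lit 175) (nat_lit 174) (nat_lit 196) (nat_lit 3) (nat_lit 4) (nat_lit 10) (nat_lit 3) (nat_lit 5) (nat_lit 10) (by decide +kernel)
theorem L4809 : W_2 (nat_lit 3) (nat_lit 0x4001f00090001000080000000000000000000000000000000) (nat_lit 0x0) (nat_lit 0x180020c0000000000000000000000000000000000000000000) := T_2 (nat_lit 195) (nat_lit 181) (nat_lit 1) (nat_lit 11) (nat_lit 10) L4808 (by decide +kernel)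
theorem L4810 : W_2 (nat_lit 4) (nat_lit 0x1f00090001000080000000000000000000000000000000) (nat_lit 0x0) (nat_lit 0x1c0020c0000000800000000000000000000000000000000000) := T_2 (nat_lit 194) (nat_lit 143) (nat_lit 6) (nat_lit 7) (nat_lit 11) L4809 (by decide +kernel)
theorem L4811 : W_2 (nat_lit 5) (nat_lit 0x1e00090001000080000000000000000000000000000000) (nat_lit 0x0) (nat_lit 0x1c0021c0040000800000000000000000000000000000000000) := T_2 (nat_lit 176) (nat_lit 162) (nat_lit 2) (nat_lit 6) (nat_lit 10) L4810 (by decide +kernel)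
theorem L4812 : W_2 (nat_lit 6) (nat_lit 0x1e00010001000080000000000000000000000000000000) (nat_lit 0x0) (nat_lit 0x1c0021c01c0000800000000000000000000000000000000000) := T_2 (nat_lit 163) (nat_lit 164) (nat_lit 2) (nat_lit 7) (nat_lit 10) L4811 (by decide +kernel)
theorem L4813 : W_2 (nat_lit 7) (nat_lit 0x1e00000001000080000000000000000000000000000000) (nat_lit 0x0) (nat_lit 0x1c0021c01d8000800000000000000000000000000000000000) := T_2 (nat_lit 160) (nat_lit 159) (nat_lit 0) (nat_lit 10) (nat_lit 10) L4812 (by decide +kernel)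
theorem L4814 : W_2 (nat_lit 2) (nat_lit 0x48003c001e00010001000080000000000000000000000000000000) (nat_lit 0x0) (nat_lit 0x100008000000000000000040000000000000000000000000000000000000000) := D_2 (nat_lit 231) (nat_lit 162) (nat_lit 248) (nat_lit 4) (nat_lit 10) (nat_lit 13) (nat_lit 4) (nat_lit 10) (nat_lit 14) (by decide +kernel)
theorem L4815 : W_2 (nat_lit 3) (nat_lit 0x8003c001e00010001000080000000000000000000000000000000) (nat_lit 0x0) (nat_lit 0x100008000c00000000000040000000000000000000000000000000000000000) := T_2 (nat_lit 214) (nat_lit 215) (nat_lit 3) (nat_lit 7) (nat_lit 11) L4814 (by decide +kernel)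
theorem L4816 : W_2 (nat_lit 4) (nat_lit 0x3c001e00010001000080000000000000000000000000000000) (nat_lit 0x0) (nat_lit 0x100008000cc0000000000040000000000000000000000000000000000000000) := T_2 (nat_lit 211) (nat_lit 210) (nat_lit 1) (nat_lit 10) (nat_lit 11) L4815 (by decide +kernel)
theorem L4817 : W_2 (nat_lit 5) (nat_lit 0x34001e00010001000080000000000000000000000000000000) (nat_lit 0x0) (nat_lit 0x100008000cc0008002000040000000000000000000000000000000000000000) := T_2 (nat_lit 195) (nat_lit 181) (nat_lit 2) (nat_lit 7) (nat_lit 11) L4816 (by decide +kernel)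
theorem L4818 : W_2 (nat_lit 6) (nat_lit 0x30001e00010001000080000000000000000000000000000000) (nat_lit 0x0) (nat_lit 0x100008000cc000c002000040000800000000000000000000000000000000000) := T_2 (nat_lit 194) (nat_lit 143) (nat_lit 6) (nat_lit 7) (nat_lit 11) L4817 (by decide +kernel)
theorem L4819 : W_2 (nat_lit 7) (nat_lit 0x20001e00010001000080000000000000000000000000000000) (nat_lit 0x0) (nat_lit 0x100008000cc001c002100040000800000000000000000000000000000000000) := T_2 (nat_lit 196) (nat_lit 176) (nat_lit 3) (nat_lit 6) (nat_lit 10) L4818 (by decide +kernel)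
theorem L4820 : W_2 (nat_lit 8) (nat_lit 0x1e00010001000080000000000000000000000000000000) (nat_lit 0x0) (nat_lit 0x100008000cc007c002100040000800000000000000000000000000000000000) := T_2 (nat_lit 197) (nat_lit 198) (nat_lit 3) (nat_lit 7) (nat_lit 10) L4819 (by decide +kernel)
theorem L4821 : W_2 (nat_lit 9) (nat_lit 0x1e00000001000080000000000000000000000000000000) (nat_lit 0x0) (nat_lit 0x100008000cc007c002100058000800000000000000000000000000000000000) := T_2 (nat_lit 160) (nat_lit 159) (nat_lit 0) (nat_lit 10) (nat_lit 10) L4820 (by decide +kernel)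
theorem L4827 : W_2 (nat_lit 2) (nat_lit 0x1f00048001000080000000000000000000000000000000) (nat_lit 0x0) (nat_lit 0x70000000000000000000000000000000000000000000000000) := D_2 (nat_lit 197) (nat_lit 196) (nat_lit 198) (nat_lit 3) (nat_lit 6) (nat_lit 10) (nat_lit 3) (nat_lit 7) (nat_lit 10) (by decide +kernel)
theorem L4828 : W_2 (nat_lit 3) (nat_lit 0xf00048001000080000000000000000000000000000000) (nat_lit 0x0) (nat_lit 0x70001000010000000000000000000000000000000000000000) := T_2 (nat_lit 180) (nat_lit 160) (nat_lit 0) (nat_lit 10) (nat_lit 10) L4827 (by decide +kernel)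
theorem L4829 : W_2 (nat_lit 4) (nat_lit 0xf00008001000080000000000000000000000000000000) (nat_lit 0x0) (nat_lit 0x700010000d0000000000000000000000000000000000000000) := T_2 (nat_lit 162) (nat_lit 163) (nat_lit 2) (nat_lit 6) (nat_lit 10) L4828 (by decide +kernel)
theorem L4830 : W_2 (nat_lit 5) (nat_lit 0xf00000001000080000000000000000000000000000000) (nat_lit 0x0) (nat_lit 0x700010000dc000000000000000000000000000000000000000) := T_2 (nat_lit 159) (nat_lit 158) (nat_lit 0) (nat_lit 9) (nat_lit 10) L4829 (by decide +kernel)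
theorem L4835 : W_2 (nat_lit 2) (nat_lit 0x10001f00008001000080000000000000000000000000000000) (nat_lit 0x0) (nat_lit 0x7000000000000000000000000000000000000000000000000) := D_2 (nat_lit 193) (nat_lit 192) (nat_lit 194) (nat_lit 1) (nat_lit 9) (nat_lit 10) (nat_lit 1) (nat_lit 10) (nat_lit 10) (by decide +kernel)
theorem L4836 : W_2 (nat_lit 3) (nat_lit 0x10000f00008001000080000000000000000000000000000000) (nat_lit 0x0) (nat_lit 0x7001000010000000000000000000000000000000000000000) := T_2 (nat_lit 180) (nat_lit 160) (nat_lit 0) (nat_lit 10) (nat_lit 10) L4835 (by decide +kernel)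
theorem L4837 : W_2 (nat_lit 4) (nat_lit 0xf00008001000080000000000000000000000000000000) (nat_lit 0x0) (nat_lit 0x37001000010000000000000000000000000000000000000000) := T_2 (nat_lit 196) (nat_lit 197) (nat_lit 3) (nat_lit 6) (nat_lit 10) L4836 (by decide +kernel)
theorem L4838 : W_2 (nat_lit 5) (nat_lit 0xf00000001000080000000000000000000000000000000) (nat_lit 0x0) (nat_lit 0x3700100001c000000000000000000000000000000000000000) := T_2 (nat_lit 159) (nat_lit 158) (nat_lit 0) (nat_lit 9) (nat_lit 10) L4837 (by decide +kernel)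
theorem L4840 : W_2 (nat_lit 2) (nat_lit 0x4000f00058001000080000000000000000000000000000000) (nat_lit 0x0) (nat_lit 0x1000080000000000000000400000000000000000000000000000000000) := D_2 (nat_lit 211) (nat_lit 228) (nat_lit 142) (nat_lit 4) (nat_lit 7) (nat_lit 13) (nat_lit 4) (nat_lit 7) (nat_lit 12) (by decide +kernel)
theorem L4841 : W_2 (nat_lit 3) (nat_lit 0xf00058001000080000000000000000000000000000000) (nat_lit 0x0) (nat_lit 0x1000080004000000000000c00000000000000000000000000000000000) := T_2 (nat_lit 194) (nat_lit 143) (nat_lit 6) (nat_lit 7) (nat_lit 11) L4840 (by decide +kernel)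
theorem L4842 : W_2 (nat_lit 4) (nat_lit 0xf00048001000080000000000000000000000000000000) (nat_lit 0x0) (nat_lit 0x1000080004001000010000c00000000000000000000000000000000000) := T_2 (nat_lit 160) (nat_lit 180) (nat_lit 0) (nat_lit 10) (nat_lit 10) L4841 (by decide +kernel)
theorem L4854 : W_2 (nat_lit 4) (nat_lit 0x4001f00080001000080000000000000000000000000000000) (nat_lit 0x0) (nat_lit 0x180020c0010000800000000000000000000000000000000000) := T_2 (nat_lit 160) (nat_lit 143) (nat_lit 6) (nat_lit 7) (nat_lit 11) L4809 (by decide +kernel)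
theorem L4855 : W_2 (nat_lit 5) (nat_lit 0x4001e00080001000080000000000000000000000000000000) (nat_lit 0x0) (nat_lit 0x180021c0050000800000000000000000000000000000000000) := T_2 (nat_lit 176) (nat_lit 162) (nat_lit 2) (nat_lit 6) (nat_lit 10) L4854 (by decide +kernel)
theorem L4856 : W_2 (nat_lit 6) (nat_lit 0x4001e00000001000080000000000000000000000000000000) (nat_lit 0x0) (nat_lit 0x180021c01d0000800000000000000000000000000000000000) := T_2 (nat_lit 163) (nat_lit 164) (nat_lit 2) (nat_lit 7) (nat_lit 10) L4855 (by decide +kernel)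
theorem L4857 : W_2 (nat_lit 7) (nat_lit 0x1e00000001000080000000000000000000000000000000) (nat_lit 0x0) (nat_lit 0x1e0021c01d0000800000000000000000000000000000000000) := T_2 (nat_lit 194) (nat_lit 193) (nat_lit 1) (nat_lit 10) (nat_lit 10) L4856 (by decide +kernel)
theorem L4858 : W_2 (nat_lit 6) (nat_lit 0x34001e00000001000080000000000000000000000000000000) (nat_lit 0x0) (nat_lit 0x100008000cc0008002000050000800000000000000000000000000000000000) := T_2 (nat_lit 160) (nat_lit 143) (nat_lit 6) (nat_lit 7) (nat_lit 11) L4817 (by decide +kernel)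
theorem L4859 : W_2 (nat_lit 7) (nat_lit 0x24001e00000001000080000000000000000000000000000000) (nat_lit 0x0) (nat_lit 0x100008000cc0018002100050000800000000000000000000000000000000000) := T_2 (nat_lit 196) (nat_lit 176) (nat_lit 3) (nat_lit 6) (nat_lit 10) L4858 (by decide +kernel)
theorem L4860 : W_2 (nat_lit 8) (nat_lit 0x4001e00000001000080000000000000000000000000000000) (nat_lit 0x0) (nat_lit 0x100008000cc0078002100050000800000000000000000000000000000000000) := T_2 (nat_lit 197) (nat_lit 198) (nat_lit 3) (nat_lit 7) (nat_lit 10) L4859 (by decide +kernel)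
theorem L4861 : W_2 (nat_lit 9) (nat_lit 0x1e00000001000080000000000000000000000000000000) (nat_lit 0x0) (nat_lit 0x100008000cc007e002100050000800000000000000000000000000000000000) := T_2 (nat_lit 194) (nat_lit 193) (nat_lit 1) (nat_lit 10) (nat_lit 10) L4860 (by decide +kernel)
theorem L4864 : W_2 (nat_lit 2) (nat_lit 0xe000200018001c0000000000000000000000000000000) (nat_lit 0x0) (nat_lit 0x600200000000000000000000000000000000) := D_2 (nat_lit 142) (nat_lit 141) (nat_lit 129) (nat_lit 2) (nat_lit 5) (nat_lit 8) (nat_lit 1) (nat_lit 10) (nat_lit 7) (by decide +kernel)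
theorem L4865 : W_2 (nat_lit 3) (nat_lit 0xe000200018000c0000000000000000000000000000000) (nat_lit 0x0) (nat_lit 0x600300008000000000000000000000000000) := T_2 (nat_lit 128) (nat_lit 111) (nat_lit 6) (nat_lit 8) (nat_lit 10) L4864 (by decide +kernel)
theorem L4866 : W_2 (nat_lit 4) (nat_lit 0xe000200010000c0000000000000000000000000000000) (nat_lit 0x0) (nat_lit 0x8000000000000e00300008000000000000000000000000000) := T_2 (nat_lit 143) (nat_lit 195) (nat_lit 4) (nat_lit 8) (nat_lit 11) L4865 (by decide +kernel)
theorem L4867 : W_2 (nat_lit 5) (nat_lit 0x6000200010000c0000000000000000000000000000000) (nat_lit 0x0) (nat_lit 0x18000800000000e00300008000000000000000000000000000) := T_2 (nat_lit 179) (nat_lit 196) (nat_lit 7) (nat_lit 8) (nat_lit 7) L4866 (by decide +kernel)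
theorem L4868 : W_2 (nat_lit 6) (nat_lit 0x600020001000080000000000000000000000000000000) (nat_lit 0x0) (nat_lit 0x18000800000000e0034000a000000000000000000000000000) := T_2 (nat_lit 126) (nat_lit 109) (nat_lit 4) (nat_lit 8) (nat_lit 10) L4867 (by decide +kernel)
theorem L4869 : W_2 (nat_lit 7) (nat_lit 0x600000001000080000000000000000000000000000000) (nat_lit 0x0) (nat_lit 0x1c000800020000e0034000a000000000000000000000000000) := T_2 (nat_lit 161) (nat_lit 194) (nat_lit 5) (nat_lit 8) (nat_lit 7) L4868 (by decide +kernel)
theorem L4870 : W_2 (nat_lit 2) (nat_lit 0xe00000001000080000000000000000000000000000000) (nat_lit 0x0) (nat_lit 0x14000000020000000000000000000000000000000000000000) := D_2 (nat_lit 161) (nat_lit 194) (nat_lit 196) (nat_lit 5) (nat_lit 8) (nat_lit 7) (nat_lit 7) (nat_lit 8) (nat_lit 7) (by decide +kernel)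
theorem L4871 : W_2 (nat_lit 2) (nat_lit 0x12000f00058001000080000000000000000000000000000000) (nat_lit 0x0) (nat_lit 0x40000000000000000800040000000000000000000000000000000) := D_2 (nat_lit 143) (nat_lit 126) (nat_lit 210) (nat_lit 5) (nat_lit 7) (nat_lit 7) (nat_lit 6) (nat_lit 6) (nat_lit 12) (by decide +kernel)
theorem L4872 : W_2 (nat_lit 3) (nat_lit 0x12000f00048001000080000000000000000000000000000000) (nat_lit 0x0) (nat_lit 0x40000001000010000800040000000000000000000000000000000) := T_2 (nat_lit 160) (nat_lit 180) (nat_lit 0) (nat_lit 10) (nat_lit 10) L4871 (by decide +kernel)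
theorem L4873 : W_2 (nat_lit 4) (nat_lit 0x12000f00040001000080000000000000000000000000000000) (nat_lit 0x0) (nat_lit 0x4000000100001c000800040000000000000000000000000000000) := T_2 (nat_lit 159) (nat_lit 158) (nat_lit 0) (nat_lit 9) (nat_lit 10) L4872 (by decide +kernel)
theorem L4874 : W_2 (nat_lit 5) (nat_lit 0x10000f00040001000080000000000000000000000000000000) (nat_lit 0x0) (nat_lit 0x4000300100001c000800040000000000000000000000000000000) := T_2 (nat_lit 193) (nat_lit 192) (nat_lit 1) (nat_lit 9) (nat_lit 10) L4873 (by decide +kernel)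
theorem L4875 : W_2 (nat_lit 6) (nat_lit 0x10000f00000001000080000000000000000000000000000000) (nat_lit 0x0) (nat_lit 0x400030010000dc000800040000000000000000000000000000000) := T_2 (nat_lit 162) (nat_lit 163) (nat_lit 2) (nat_lit 6) (nat_lit 10) L4874 (by decide +kernel)
theorem L4876 : W_2 (nat_lit 7) (nat_lit 0x10000e00000001000080000000000000000000000000000000) (nat_lit 0x0) (nat_lit 0x400230011000dc000800040000000000000000000000000000000) := T_2 (nat_lit 176) (nat_lit 197) (nat_lit 3) (nat_lit 6) (nat_lit 10) L4875 (by decide +kernel)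
theorem L4877 : W_2 (nat_lit 8) (nat_lit 0xe00000001000080000000000000000000000000000000) (nat_lit 0x0) (nat_lit 0x400330011000fc000800040000000000000000000000000000000) := T_2 (nat_lit 196) (nat_lit 161) (nat_lit 7) (nat_lit 8) (nat_lit 7) L4876 (by decide +kernel)
theorem L4879 : W_2 (nat_lit 8) (nat_lit 0xe000200010000c0000000000000000000000000000000) (nat_lit 0x0) (nat_lit 0x80030001c000c800700038000000000000000000000000000) := T_2 (nat_lit 143) (nat_lit 195) (nat_lit 4) (nat_lit 8) (nat_lit 11) L508 (by decide +kernel)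
theorem L4880 : W_2 (nat_lit 9) (nat_lit 0x6000200010000c0000000000000000000000000000000) (nat_lit 0x0) (nat_lit 0x180038001c000c800700038000000000000000000000000000) := T_2 (nat_lit 179) (nat_lit 196) (nat_lit 7) (nat_lit 8) (nat_lit 7) L4879 (by decide +kernel)
theorem L4881 : W_2 (nat_lit 10) (nat_lit 0x600020001000080000000000000000000000000000000) (nat_lit 0x0) (nat_lit 0x180038001c000c80074003a000000000000000000000000000) := T_2 (nat_lit 126) (nat_lit 109) (nat_lit 4) (nat_lit 8) (nat_lit 10) L4880 (by decide +kernel)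
theorem L4882 : W_2 (nat_lit 11) (nat_lit 0x600000001000080000000000000000000000000000000) (nat_lit 0x0) (nat_lit 0x1c0038001e000c80074003a000000000000000000000000000) := T_2 (nat_lit 161) (nat_lit 194) (nat_lit 5) (nat_lit 8) (nat_lit 7) L4881 (by decide +kernel)
theorem L4883 : W_2 (nat_lit 2) (nat_lit 0x50002c001e000d0001000080000000000000000000000000000000) (nat_lit 0x0) (nat_lit 0x10000a00000000000000000000000000000000000000000000000000000) := D_2 (nat_lit 215) (nat_lit 232) (nat_lit 213) (nat_lit 7) (nat_lit 10) (nat_lit 9) (nat_lit 0) (nat_lit 11) (nat_lit 12) (by decide +kernel)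
theorem L4884 : W_2 (nat_lit 3) (nat_lit 0x40002c001e000d0001000080000000000000000000000000000000) (nat_lit 0x0) (nat_lit 0x12000b00000000000000000000000000000000000000000000000000000) := T_2 (nat_lit 212) (nat_lit 229) (nat_lit 6) (nat_lit 8) (nat_lit 13) L4883 (by decide +kernel)
theorem L4885 : W_2 (nat_lit 4) (nat_lit 0x2c001e000d0001000080000000000000000000000000000000) (nat_lit 0x0) (nat_lit 0x1a000f00000000000000000000000000000000000000000000000000000) := T_2 (nat_lit 214) (nat_lit 231) (nat_lit 4) (nat_lit 10) (nat_lit 13) L4884 (by decide +kernel)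
theorem L4886 : W_2 (nat_lit 5) (nat_lit 0x24001e000d0001000080000000000000000000000000000000) (nat_lit 0x0) (nat_lit 0x1a000f00008002000000000000000000000000000000000000000000000) := T_2 (nat_lit 195) (nat_lit 181) (nat_lit 1) (nat_lit 11) (nat_lit 10) L4885 (by decide +kernel)
theorem L4887 : W_2 (nat_lit 6) (nat_lit 0x24001e00090001000080000000000000000000000000000000) (nat_lit 0x0) (nat_lit 0x1a000f00008002100040000000000000000000000000000000000000000) := T_2 (nat_lit 162) (nat_lit 176) (nat_lit 2) (nat_lit 6) (nat_lit 10) L4886 (by decide +kernel)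
theorem L4888 : W_2 (nat_lit 7) (nat_lit 0x24001e00010001000080000000000000000000000000000000) (nat_lit 0x0) (nat_lit 0x1a000f000080021001c0000000000000000000000000000000000000000) := T_2 (nat_lit 163) (nat_lit 164) (nat_lit 2) (nat_lit 7) (nat_lit 10) L4887 (by decide +kernel)
theorem L4889 : W_2 (nat_lit 8) (nat_lit 0x4001e00010001000080000000000000000000000000000000) (nat_lit 0x0) (nat_lit 0x1a000f000680021001c0000000000000000000000000000000000000000) := T_2 (nat_lit 197) (nat_lit 198) (nat_lit 3) (nat_lit 7) (nat_lit 10) L4888 (by decide +kernel)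
theorem L4890 : W_2 (nat_lit 9) (nat_lit 0x4001e00000001000080000000000000000000000000000000) (nat_lit 0x0) (nat_lit 0x1a000f000680021001d8000000000000000000000000000000000000000) := T_2 (nat_lit 160) (nat_lit 159) (nat_lit 0) (nat_lit 10) (nat_lit 10) L4889 (by decide +kernel)
theorem L4891 : W_2 (nat_lit 10) (nat_lit 0x4000e00000001000080000000000000000000000000000000) (nat_lit 0x0) (nat_lit 0x1a000f0006a0031001d8000000000000000000000000000000000000000) := T_2 (nat_lit 180) (nat_lit 193) (nat_lit 1) (nat_lit 10) (nat_lit 10) L4890 (by decide +kernel)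
theorem L4892 : W_2 (nat_lit 11) (nat_lit 0xe00000001000080000000000000000000000000000000) (nat_lit 0x0) (nat_lit 0x1a000f0006e0031001f8000000000000000000000000000000000000000) := T_2 (nat_lit 194) (nat_lit 161) (nat_lit 5) (nat_lit 8) (nat_lit 7) L4891 (by decide +kernel)
theorem L4894 : W_2 (nat_lit 4) (nat_lit 0x6000200010000c0000000000000000000000000000000) (nat_lit 0x0) (nat_lit 0x8000000000000e00300008000000000000000000000000000) := T_2 (nat_lit 128) (nat_lit 111) (nat_lit 6) (nat_lit 8) (nat_lit 10) L857 (by decide +kernel)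
theorem L4895 : W_2 (nat_lit 5) (nat_lit 0x600020001000080000000000000000000000000000000) (nat_lit 0x0) (nat_lit 0x8000000000000e0034000a000000000000000000000000000) := T_2 (nat_lit 126) (nat_lit 109) (nat_lit 4) (nat_lit 8) (nat_lit 10) L4894 (by decide +kernel)
theorem L4896 : W_2 (nat_lit 6) (nat_lit 0x600000001000080000000000000000000000000000000) (nat_lit 0x0) (nat_lit 0xc000000020000e0034000a000000000000000000000000000) := T_2 (nat_lit 161) (nat_lit 194) (nat_lit 5) (nat_lit 8) (nat_lit 7) L4895 (by decide +kernel)
theorem L4907 : W_2 (nat_lit 2) (nat_lit 0x6000e0001800080000000000000000000000000000000) (nat_lit 0x0) (nat_lit 0x10000600000000000000000000000000000000000) := D_2 (nat_lit 142) (nat_lit 141) (nat_lit 160) (nat_lit 3) (nat_lit 5) (nat_lit 8) (nat_lit 0) (nat_lit 10) (nat_lit 9) (by decide +kernel)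
theorem L4908 : W_2 (nat_lit 3) (nat_lit 0x600060001800080000000000000000000000000000000) (nat_lit 0x0) (nat_lit 0x190000600000000000000000000000000000000000) := T_2 (nat_lit 163) (nat_lit 164) (nat_lit 1) (nat_lit 11) (nat_lit 9) L4907 (by decide +kernel)
theorem L4922 : W_2 (nat_lit 3) (nat_lit 0x600060001000080000000000000000000000000000000) (nat_lit 0x0) (nat_lit 0x10000980080000000000000000000000000000000000000000) := T_2 (nat_lit 179) (nat_lit 196) (nat_lit 7) (nat_lit 8) (nat_lit 7) L1737 (by decide +kernel)
theorem L4925 : W_2 (nat_lit 2) (nat_lit 0x2000f000680010001c0000000000000000000000000000000) (nat_lit 0x0) (nat_lit 0x10000c00000000000000000000000000000000000) := D_2 (nat_lit 143) (nat_lit 160) (nat_lit 142) (nat_lit 5) (nat_lit 7) (nat_lit 7) (nat_lit 6) (nat_lit 6) (nat_lit 11) (by decide +kernel)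
theorem L4926 : W_2 (nat_lit 3) (nat_lit 0x2000f000600010001c0000000000000000000000000000000) (nat_lit 0x0) (nat_lit 0x1c000c00000000000000000000000000000000000) := T_2 (nat_lit 159) (nat_lit 158) (nat_lit 0) (nat_lit 9) (nat_lit 10) L4925 (by decide +kernel)
theorem L4927 : W_2 (nat_lit 4) (nat_lit 0xf000600010001c0000000000000000000000000000000) (nat_lit 0x0) (nat_lit 0x300000001c000c00000000000000000000000000000000000) := T_2 (nat_lit 193) (nat_lit 192) (nat_lit 1) (nat_lit 9) (nat_lit 10) L4926 (by decide +kernel)
theorem L4939 : W_2 (nat_lit 2) (nat_lit 0x2003f000680010001c0000000000000000000000000000000) (nat_lit 0x0) (nat_lit 0xe0000000000000000000000000000000000000000000000000) := D_2 (nat_lit 198) (nat_lit 197) (nat_lit 199) (nat_lit 3) (nat_lit 7) (nat_lit 10) (nat_lit 3) (nat_lit 8) (nat_lit 10) (by decide +kernel)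
theorem L4940 : W_2 (nat_lit 3) (nat_lit 0x2001f000680010001c0000000000000000000000000000000) (nat_lit 0x0) (nat_lit 0xe0006000000000000000000000000000000000000000000000) := T_2 (nat_lit 181) (nat_lit 182) (nat_lit 0) (nat_lit 12) (nat_lit 10) L4939 (by decide +kernel)
theorem L4941 : W_2 (nat_lit 4) (nat_lit 0x2000f000680010001c0000000000000000000000000000000) (nat_lit 0x0) (nat_lit 0xe0007000010000000000000000000000000000000000000000) := T_2 (nat_lit 180) (nat_lit 160) (nat_lit 3) (nat_lit 6) (nat_lit 9) L4940 (by decide +kernel)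
theorem L4948 : W_2 (nat_lit 2) (nat_lit 0x42001f001280010001c0000000000000000000000000000000) (nat_lit 0x0) (nat_lit 0x80002000200000000000000000000000000000000000000000) := D_2 (nat_lit 181) (nat_lit 199) (nat_lit 165) (nat_lit 3) (nat_lit 8) (nat_lit 10) (nat_lit 2) (nat_lit 8) (nat_lit 10) (by decide +kernel)
theorem L4949 : W_2 (nat_lit 3) (nat_lit 0x42001f000280010001c0000000000000000000000000000000) (nat_lit 0x0) (nat_lit 0x80002000380000000000000000000000000000000000000000) := T_2 (nat_lit 164) (nat_lit 163) (nat_lit 2) (nat_lit 7) (nat_lit 10) L4948 (by decide +kernel)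
theorem L4950 : W_2 (nat_lit 4) (nat_lit 0x2001f000280010001c0000000000000000000000000000000) (nat_lit 0x0) (nat_lit 0xe0002000380000000000000000000000000000000000000000) := T_2 (nat_lit 198) (nat_lit 197) (nat_lit 3) (nat_lit 7) (nat_lit 10) L4949 (by decide +kernel)
theorem L4951 : W_2 (nat_lit 5) (nat_lit 0x2000f000280010001c0000000000000000000000000000000) (nat_lit 0x0) (nat_lit 0xe0003000390000000000000000000000000000000000000000) := T_2 (nat_lit 180) (nat_lit 160) (nat_lit 0) (nat_lit 10) (nat_lit 10) L4950 (by decide +kernel)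
theorem L4952 : W_2 (nat_lit 6) (nat_lit 0x2000f000200010001c0000000000000000000000000000000) (nat_lit 0x0) (nat_lit 0xe000300039c000000000000000000000000000000000000000) := T_2 (nat_lit 159) (nat_lit 158) (nat_lit 0) (nat_lit 9) (nat_lit 10) L4951 (by decide +kernel)
theorem L4953 : W_2 (nat_lit 7) (nat_lit 0xf000200010001c0000000000000000000000000000000) (nat_lit 0x0) (nat_lit 0xe300300039c000000000000000000000000000000000000000) := T_2 (nat_lit 193) (nat_lit 192) (nat_lit 1) (nat_lit 9) (nat_lit 10) L4952 (by decide +kernel)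
theorem L4954 : W_2 (nat_lit 8) (nat_lit 0x7000200010001c0000000000000000000000000000000) (nat_lit 0x0) (nat_lit 0xf300380039c000000000000000000000000000000000000000) := T_2 (nat_lit 179) (nat_lit 196) (nat_lit 7) (nat_lit 8) (nat_lit 7) L4953 (by decide +kernel)
theorem L4958 : W_2 (nat_lit 2) (nat_lit 0x100006000200010000c0000000000000000000000000000000) (nat_lit 0x0) (nat_lit 0x200008000000000000800000000000000000000000000000000000) := D_2 (nat_lit 195) (nat_lit 213) (nat_lit 143) (nat_lit 7) (nat_lit 8) (nat_lit 8) (nat_lit 4) (nat_lit 8) (nat_lit 11) (by decide +kernel)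
theorem L4959 : W_2 (nat_lit 3) (nat_lit 0x10000600020001000080000000000000000000000000000000) (nat_lit 0x0) (nat_lit 0x200008000000000000800040002000000000000000000000000000) := T_2 (nat_lit 126) (nat_lit 109) (nat_lit 4) (nat_lit 8) (nat_lit 10) L4958 (by decide +kernel)
theorem L4960 : W_2 (nat_lit 4) (nat_lit 0x600020001000080000000000000000000000000000000) (nat_lit 0x0) (nat_lit 0x200018000800000000800040002000000000000000000000000000) := T_2 (nat_lit 196) (nat_lit 179) (nat_lit 7) (nat_lit 8) (nat_lit 7) L4959 (by decide +kernel)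
theorem L4968 : W_2 (nat_lit 2) (nat_lit 0x10000000042003f000a8011000780040000000000000000000000000000) (nat_lit 0x0) (nat_lit 0x20000800080000000000000000000000000000) := D_2 (nat_lit 131) (nat_lit 115) (nat_lit 149) (nat_lit 2) (nat_lit 9) (nat_lit 7) (nat_lit 3) (nat_lit 9) (nat_lit 7) (by decide +kernel)
theorem L4969 : W_2 (nat_lit 3) (nat_lit 0x10000000042003f000a8001000780040000000000000000000000000000) (nat_lit 0x0) (nat_lit 0x38000800080000000000000000000000000000) := T_2 (nat_lit 148) (nat_lit 147) (nat_lit 3) (nat_lit 8) (nat_lit 7) L4968 (by decide +kernel)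
theorem L4970 : W_2 (nat_lit 4) (nat_lit 0x10000000042003f000a8001000780000000000000000000000000000000) (nat_lit 0x0) (nat_lit 0x380008000e0000000000000000000000000000) := T_2 (nat_lit 114) (nat_lit 113) (nat_lit 2) (nat_lit 8) (nat_lit 7) L4969 (by decide +kernel)
theorem L4971 : W_2 (nat_lit 5) (nat_lit 0x10000000042003f000a8001000380000000000000000000000000000000) (nat_lit 0x0) (nat_lit 0x38800c000e0000000000000000000000000000) := T_2 (nat_lit 130) (nat_lit 143) (nat_lit 1) (nat_lit 11) (nat_lit 7) L4970 (by decide +kernel)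
theorem L4972 : W_2 (nat_lit 6) (nat_lit 0x10000000042003f000a8001000180000000000000000000000000000000) (nat_lit 0x0) (nat_lit 0x3c800e000e0000000000000000000000000000) := T_2 (nat_lit 129) (nat_lit 146) (nat_lit 7) (nat_lit 10) (nat_lit 7) L4971 (by decide +kernel)
theorem L4973 : W_2 (nat_lit 7) (nat_lit 0x42003f000a8001000180000000000000000000000000000000) (nat_lit 0x0) (nat_lit 0x1000080000000000000003c800e000e0000000000000000000000000000) := T_2 (nat_lit 232) (nat_lit 215) (nat_lit 4) (nat_lit 11) (nat_lit 13) L4972 (by decide +kernel)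
theorem L4974 : W_2 (nat_lit 8) (nat_lit 0x42001f000a8001000180000000000000000000000000000000) (nat_lit 0x0) (nat_lit 0x1000080008000200000003c800e000e0000000000000000000000000000) := T_2 (nat_lit 181) (nat_lit 199) (nat_lit 3) (nat_lit 8) (nat_lit 10) L4973 (by decide +kernel)
theorem L4975 : W_2 (nat_lit 9) (nat_lit 0x42001f00028001000180000000000000000000000000000000) (nat_lit 0x0) (nat_lit 0x1000080008000200018003c800e000e0000000000000000000000000000) := T_2 (nat_lit 163) (nat_lit 164) (nat_lit 2) (nat_lit 7) (nat_lit 10) L4974 (by decide +kernel)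
theorem L4976 : W_2 (nat_lit 10) (nat_lit 0x2001f00028001000180000000000000000000000000000000) (nat_lit 0x0) (nat_lit 0x100008000e000200018003c800e000e0000000000000000000000000000) := T_2 (nat_lit 198) (nat_lit 197) (nat_lit 3) (nat_lit 7) (nat_lit 10) L4975 (by decide +kernel)
theorem L4977 : W_2 (nat_lit 11) (nat_lit 0x2000f00028001000180000000000000000000000000000000) (nat_lit 0x0) (nat_lit 0x100008000e000300019003c800e000e0000000000000000000000000000) := T_2 (nat_lit 180) (nat_lit 160) (nat_lit 0) (nat_lit 10) (nat_lit 10) L4976 (by decide +kernel)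
theorem L4978 : W_2 (nat_lit 12) (nat_lit 0x2000f00020001000180000000000000000000000000000000) (nat_lit 0x0) (nat_lit 0x100008000e000300019c03c800e000e0000000000000000000000000000) := T_2 (nat_lit 159) (nat_lit 158) (nat_lit 0) (nat_lit 9) (nat_lit 10) L4977 (by decide +kernel)
theorem L4979 : W_2 (nat_lit 13) (nat_lit 0xf00020001000180000000000000000000000000000000) (nat_lit 0x0) (nat_lit 0x100008000e300300019c03c800e000e0000000000000000000000000000) := T_2 (nat_lit 193) (nat_lit 192) (nat_lit 1) (nat_lit 9) (nat_lit 10) L4978 (by decide +kernel)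
theorem L4980 : W_2 (nat_lit 14) (nat_lit 0x700020001000180000000000000000000000000000000) (nat_lit 0x0) (nat_lit 0x100008000f300380019c03c800e000e0000000000000000000000000000) := T_2 (nat_lit 179) (nat_lit 196) (nat_lit 7) (nat_lit 8) (nat_lit 7) L4979 (by decide +kernel)
theorem L4981 : W_2 (nat_lit 15) (nat_lit 0x700020001000080000000000000000000000000000000) (nat_lit 0x0) (nat_lit 0x100008000f300380019c03c800f000e8000000000000000000000000000) := T_2 (nat_lit 128) (nat_lit 111) (nat_lit 6) (nat_lit 8) (nat_lit 10) L4980 (by decide +kernel)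
theorem L4993 : W_2 (nat_lit 2) (nat_lit 0x1000e00024001e000b000c0001000080000000000000000000000000000000) (nat_lit 0x0) (nat_lit 0x20001000080000000000000000000000000000000000000000000000000000) := D_2 (nat_lit 228) (nat_lit 245) (nat_lit 211) (nat_lit 1) (nat_lit 10) (nat_lit 13) (nat_lit 0) (nat_lit 10) (nat_lit 13) (by decide +kernel)
theorem L4994 : W_2 (nat_lit 3) (nat_lit 0x1000600024001e000b000c0001000080000000000000000000000000000000) (nat_lit 0x0) (nat_lit 0x120009000080000000000000000000000000000000000000000000000000000) := T_2 (nat_lit 231) (nat_lit 248) (nat_lit 7) (nat_lit 9) (nat_lit 10) L4993 (by decide +kernel)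
theorem L4995 : W_2 (nat_lit 4) (nat_lit 0x1000200024001e000b000c0001000080000000000000000000000000000000) (nat_lit 0x0) (nat_lit 0x16000d000080000000000000000000000000000000000000000000000000000) := T_2 (nat_lit 230) (nat_lit 246) (nat_lit 5) (nat_lit 9) (nat_lit 10) L4994 (by decide +kernel)
theorem L4996 : W_2 (nat_lit 5) (nat_lit 0x1000000024001e000b000c0001000080000000000000000000000000000000) (nat_lit 0x0) (nat_lit 0x16000f000180000000000000000000000000000000000000000000000000000) := T_2 (nat_lit 229) (nat_lit 212) (nat_lit 5) (nat_lit 9) (nat_lit 9) L4995 (by decide +kernel)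
theorem L4997 : W_2 (nat_lit 6) (nat_lit 0x1000000024001e000b00040001000080000000000000000000000000000000) (nat_lit 0x0) (nat_lit 0x16000f000180000000000080004000000000000000000000000000000000000) := T_2 (nat_lit 163) (nat_lit 146) (nat_lit 6) (nat_lit 9) (nat_lit 12) L4996 (by decide +kernel)
theorem L4998 : W_2 (nat_lit 7) (nat_lit 0x24001e000b00040001000080000000000000000000000000000000) (nat_lit 0x0) (nat_lit 0x17000f800180000000000080004000000000000000000000000000000000000) := T_2 (nat_lit 244) (nat_lit 227) (nat_lit 6) (nat_lit 6) (nat_lit 14) L4997 (by decide +kernel)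
theorem L4999 : W_2 (nat_lit 8) (nat_lit 0x24001e000b00000001000080000000000000000000000000000000) (nat_lit 0x0) (nat_lit 0x17000f8001800000000000e0004000000000000000000000000000000000000) := T_2 (nat_lit 162) (nat_lit 161) (nat_lit 4) (nat_lit 9) (nat_lit 12) L4998 (by decide +kernel)
theorem L5000 : W_2 (nat_lit 9) (nat_lit 0x20001e000b00000001000080000000000000000000000000000000) (nat_lit 0x0) (nat_lit 0x17000f8001e00000000000e0004000000000000000000000000000000000000) := T_2 (nat_lit 210) (nat_lit 209) (nat_lit 1) (nat_lit 9) (nat_lit 11) L4999 (by decide +kernel)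
theorem L5022 : W_2 (nat_lit 2) (nat_lit 0x1c0004001e000b00008001400080000000000000000000000000000000) (nat_lit 0x0) (nat_lit 0x4000200010000000000000000000000000000000) := D_2 (nat_lit 141) (nat_lit 158) (nat_lit 124) (nat_lit 4) (nat_lit 6) (nat_lit 12) (nat_lit 4) (nat_lit 6) (nat_lit 11) (by decide +kernel)
theorem L5023 : W_2 (nat_lit 3) (nat_lit 0x1c0004001e000b00008001000080000000000000000000000000000000) (nat_lit 0x0) (nat_lit 0x4000600030000000000000000000000000000000) := T_2 (nat_lit 142) (nat_lit 125) (nat_lit 7) (nat_lit 6) (nat_lit 7) L5022 (by decide +kernel)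
theorem L5024 : W_2 (nat_lit 4) (nat_lit 0x1c0004001e000b00000001000080000000000000000000000000000000) (nat_lit 0x0) (nat_lit 0x8000000000000c000600030000000000000000000000000000000) := T_2 (nat_lit 159) (nat_lit 211) (nat_lit 7) (nat_lit 6) (nat_lit 9) L5023 (by decide +kernel)
theorem L5025 : W_2 (nat_lit 5) (nat_lit 0xc0004001e000b00000001000080000000000000000000000000000000) (nat_lit 0x0) (nat_lit 0x2000100008000000000000c000600030000000000000000000000000000000) := T_2 (nat_lit 228) (nat_lit 245) (nat_lit 7) (nat_lit 6) (nat_lit 10) L5024 (by decide +kernel)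
theorem L5026 : W_2 (nat_lit 6) (nat_lit 0x80004001e000b00000001000080000000000000000000000000000000) (nat_lit 0x0) (nat_lit 0x2800140008000000000000c000600030000000000000000000000000000000) := T_2 (nat_lit 226) (nat_lit 243) (nat_lit 5) (nat_lit 6) (nat_lit 10) L5025 (by decide +kernel)
theorem L5027 : W_2 (nat_lit 7) (nat_lit 0x4001e000b00000001000080000000000000000000000000000000) (nat_lit 0x0) (nat_lit 0x38001c0008000000000000c000600030000000000000000000000000000000) := T_2 (nat_lit 227) (nat_lit 244) (nat_lit 6) (nat_lit 6) (nat_lit 14) L5026 (by decide +kernel)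
theorem L5028 : W_2 (nat_lit 8) (nat_lit 0x4001e000a00000001000080000000000000000000000000000000) (nat_lit 0x0) (nat_lit 0x38001c0008000000018000c000600030000000000000000000000000000000) := T_2 (nat_lit 176) (nat_lit 175) (nat_lit 0) (nat_lit 9) (nat_lit 11) L5027 (by decide +kernel)
theorem L5029 : W_2 (nat_lit 9) (nat_lit 0x1e000a00000001000080000000000000000000000000000000) (nat_lit 0x0) (nat_lit 0x38001c000e000000018000c000600030000000000000000000000000000000) := T_2 (nat_lit 210) (nat_lit 209) (nat_lit 1) (nat_lit 9) (nat_lit 11) L5028 (by decide +kernel)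
theorem L5030 : W_2 (nat_lit 10) (nat_lit 0x1e000200000001000080000000000000000000000000000000) (nat_lit 0x0) (nat_lit 0x38001c000e000000198000c000600030000000000000000000000000000000) := T_2 (nat_lit 179) (nat_lit 180) (nat_lit 2) (nat_lit 6) (nat_lit 11) L5029 (by decide +kernel)
theorem L5031 : W_2 (nat_lit 2) (nat_lit 0x20001f000200000001000080000000000000000000000000000000) (nat_lit 0x0) (nat_lit 0x1c0000000000000000000000000000000000000000000) := D_2 (nat_lit 175) (nat_lit 174) (nat_lit 176) (nat_lit 0) (nat_lit 8) (nat_lit 11) (nat_lit 0) (nat_lit 9) (nat_lit 11) (by decide +kernel)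
theorem L5032 : W_2 (nat_lit 3) (nat_lit 0x20001e000200000001000080000000000000000000000000000000) (nat_lit 0x0) (nat_lit 0x1000010001c0000000000000000000000000000000000000000000) := T_2 (nat_lit 192) (nat_lit 212) (nat_lit 3) (nat_lit 5) (nat_lit 11) L5031 (by decide +kernel)
theorem L5033 : W_2 (nat_lit 4) (nat_lit 0x1e000200000001000080000000000000000000000000000000) (nat_lit 0x0) (nat_lit 0x7000010001c0000000000000000000000000000000000000000000) := T_2 (nat_lit 213) (nat_lit 214) (nat_lit 3) (nat_lit 6) (nat_lit 11) L5032 (by decide +kernel)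
theorem L5035 : W_2 (nat_lit 2) (nat_lit 0x48003e000200000001000080000000000000000000000000000000) (nat_lit 0x0) (nat_lit 0x3800000000000000000000000000000000000000000000) := D_2 (nat_lit 180) (nat_lit 179) (nat_lit 181) (nat_lit 2) (nat_lit 6) (nat_lit 11) (nat_lit 2) (nat_lit 7) (nat_lit 11) (by decide +kernel)
theorem L5036 : W_2 (nat_lit 3) (nat_lit 0x48003c000200000001000080000000000000000000000000000000) (nat_lit 0x0) (nat_lit 0x200002003800000000000000000000000000000000000000000000) := T_2 (nat_lit 193) (nat_lit 213) (nat_lit 3) (nat_lit 6) (nat_lit 11) L5035 (by decide +kernel)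
theorem L5037 : W_2 (nat_lit 4) (nat_lit 0x8003c000200000001000080000000000000000000000000000000) (nat_lit 0x0) (nat_lit 0xe00002003800000000000000000000000000000000000000000000) := T_2 (nat_lit 214) (nat_lit 215) (nat_lit 3) (nat_lit 7) (nat_lit 11) L5036 (by decide +kernel)
theorem L5038 : W_2 (nat_lit 5) (nat_lit 0x3c000200000001000080000000000000000000000000000000) (nat_lit 0x0) (nat_lit 0xec0002003800000000000000000000000000000000000000000000) := T_2 (nat_lit 211) (nat_lit 210) (nat_lit 1) (nat_lit 10) (nat_lit 11) L5037 (by decide +kernel)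
theorem L5039 : W_2 (nat_lit 6) (nat_lit 0x1c000200000001000080000000000000000000000000000000) (nat_lit 0x0) (nat_lit 0xec0022003900000000000000000000000000000000000000000000) := T_2 (nat_lit 197) (nat_lit 176) (nat_lit 0) (nat_lit 10) (nat_lit 11) L5038 (by decide +kernel)
theorem L5040 : W_2 (nat_lit 2) (nat_lit 0x48007c000200000001000080000000000000000000000000000000) (nat_lit 0x0) (nat_lit 0x7000000000000000000000000000000000000000000000) := D_2 (nat_lit 181) (nat_lit 180) (nat_lit 182) (nat_lit 2) (nat_lit 7) (nat_lit 11) (nat_lit 2) (nat_lit 8) (nat_lit 11) (by decide +kernel)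
theorem L5041 : W_2 (nat_lit 3) (nat_lit 0x48003c000200000001000080000000000000000000000000000000) (nat_lit 0x0) (nat_lit 0x100040007000000000000000000000000000000000000000000000) := T_2 (nat_lit 198) (nat_lit 212) (nat_lit 1) (nat_lit 11) (nat_lit 11) L5040 (by decide +kernel)
theorem L5042 : W_2 (nat_lit 4) (nat_lit 0x8003c000200000001000080000000000000000000000000000000) (nat_lit 0x0) (nat_lit 0xd00040007000000000000000000000000000000000000000000000) := T_2 (nat_lit 214) (nat_lit 215) (nat_lit 3) (nat_lit 7) (nat_lit 11) L5041 (by decide +kernel)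
theorem L5043 : W_2 (nat_lit 5) (nat_lit 0x3c000200000001000080000000000000000000000000000000) (nat_lit 0x0) (nat_lit 0xdc0040007000000000000000000000000000000000000000000000) := T_2 (nat_lit 211) (nat_lit 210) (nat_lit 1) (nat_lit 10) (nat_lit 11) L5042 (by decide +kernel)
theorem L5047 : W_2 (nat_lit 2) (nat_lit 0x40003e000200000001000080000000000000000000000000000000) (nat_lit 0x0) (nat_lit 0xe0000000000000000000000000000000000000000000000000000) := D_2 (nat_lit 210) (nat_lit 209) (nat_lit 211) (nat_lit 1) (nat_lit 9) (nat_lit 11) (nat_lit 1) (nat_lit 10) (nat_lit 11) (by decide +kernel)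
theorem L5048 : W_2 (nat_lit 3) (nat_lit 0x40003c000200000001000080000000000000000000000000000000) (nat_lit 0x0) (nat_lit 0x2e0002000000000000000000000000000000000000000000000000) := T_2 (nat_lit 193) (nat_lit 213) (nat_lit 3) (nat_lit 6) (nat_lit 11) L5047 (by decide +kernel)
theorem L5049 : W_2 (nat_lit 4) (nat_lit 0x3c000200000001000080000000000000000000000000000000) (nat_lit 0x0) (nat_lit 0xee0002000000000000000000000000000000000000000000000000) := T_2 (nat_lit 214) (nat_lit 215) (nat_lit 3) (nat_lit 7) (nat_lit 11) L5048 (by decide +kernel)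
theorem L5050 : W_2 (nat_lit 2) (nat_lit 0x18003e001200000001000080000000000000000000000000000000) (nat_lit 0x0) (nat_lit 0x600001000000000000000000000000000000000000000000000000) := D_2 (nat_lit 213) (nat_lit 214) (nat_lit 192) (nat_lit 3) (nat_lit 6) (nat_lit 11) (nat_lit 3) (nat_lit 5) (nat_lit 11) (by decide +kernel)
theorem L5051 : W_2 (nat_lit 3) (nat_lit 0x8003e001200000001000080000000000000000000000000000000) (nat_lit 0x0) (nat_lit 0x700041000000000000000000000000000000000000000000000000) := T_2 (nat_lit 212) (nat_lit 198) (nat_lit 1) (nat_lit 11) (nat_lit 11) L5050 (by decide +kernel)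
theorem L5052 : W_2 (nat_lit 4) (nat_lit 0x8003c001200000001000080000000000000000000000000000000) (nat_lit 0x0) (nat_lit 0x700043000800000000000000000000000000000000000000000000) := T_2 (nat_lit 193) (nat_lit 179) (nat_lit 2) (nat_lit 6) (nat_lit 11) L5051 (by decide +kernel)
theorem L5053 : W_2 (nat_lit 5) (nat_lit 0x8003c000200000001000080000000000000000000000000000000) (nat_lit 0x0) (nat_lit 0x700043003800000000000000000000000000000000000000000000) := T_2 (nat_lit 180) (nat_lit 181) (nat_lit 2) (nat_lit 7) (nat_lit 11) L5052 (by decide +kernel)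
theorem L5054 : W_2 (nat_lit 6) (nat_lit 0x3c000200000001000080000000000000000000000000000000) (nat_lit 0x0) (nat_lit 0x7c0043003800000000000000000000000000000000000000000000) := T_2 (nat_lit 211) (nat_lit 210) (nat_lit 1) (nat_lit 10) (nat_lit 11) L5053 (by decide +kernel)
theorem L5055 : W_2 (nat_lit 2) (nat_lit 0x18003e001200000001000080000000000000000000000000000000) (nat_lit 0x0) (nat_lit 0x200001800000000000000000000000000000000000000000000000) := D_2 (nat_lit 192) (nat_lit 191) (nat_lit 213) (nat_lit 3) (nat_lit 4) (nat_lit 11) (nat_lit 3) (nat_lit 5) (nat_lit 11) (by decide +kernel)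
theorem L5056 : W_2 (nat_lit 3) (nat_lit 0x8003e001200000001000080000000000000000000000000000000) (nat_lit 0x0) (nat_lit 0x300041800000000000000000000000000000000000000000000000) := T_2 (nat_lit 212) (nat_lit 198) (nat_lit 1) (nat_lit 11) (nat_lit 11) L5055 (by decide +kernel)
theorem L5057 : W_2 (nat_lit 4) (nat_lit 0x8003c001200000001000080000000000000000000000000000000) (nat_lit 0x0) (nat_lit 0x300043800800000000000000000000000000000000000000000000) := T_2 (nat_lit 193) (nat_lit 179) (nat_lit 2) (nat_lit 6) (nat_lit 11) L5056 (by decide +kernel)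
theorem L5058 : W_2 (nat_lit 5) (nat_lit 0x8003c000200000001000080000000000000000000000000000000) (nat_lit 0x0) (nat_lit 0x300043803800000000000000000000000000000000000000000000) := T_2 (nat_lit 180) (nat_lit 181) (nat_lit 2) (nat_lit 7) (nat_lit 11) L5057 (by decide +kernel)
theorem L5059 : W_2 (nat_lit 6) (nat_lit 0x3c000200000001000080000000000000000000000000000000) (nat_lit 0x0) (nat_lit 0x3c0043803800000000000000000000000000000000000000000000) := T_2 (nat_lit 211) (nat_lit 210) (nat_lit 1) (nat_lit 10) (nat_lit 11) L5058 (by decide +kernel)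
theorem L5061 : W_2 (nat_lit 6) (nat_lit 0x1c000200000001000080000000000000000000000000000000) (nat_lit 0x0) (nat_lit 0xdc0060007100000000000000000000000000000000000000000000) := T_2 (nat_lit 197) (nat_lit 176) (nat_lit 0) (nat_lit 10) (nat_lit 11) L5043 (by decide +kernel)
theorem L5063 : W_2 (nat_lit 5) (nat_lit 0x1c000200000001000080000000000000000000000000000000) (nat_lit 0x0) (nat_lit 0xee0022000100000000000000000000000000000000000000000000) := T_2 (nat_lit 197) (nat_lit 176) (nat_lit 0) (nat_lit 10) (nat_lit 11) L5049 (by decide +kernel)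
theorem L5064 : W_2 (nat_lit 7) (nat_lit 0x1c000200000001000080000000000000000000000000000000) (nat_lit 0x0) (nat_lit 0x3c0063803900000000000000000000000000000000000000000000) := T_2 (nat_lit 197) (nat_lit 176) (nat_lit 0) (nat_lit 10) (nat_lit 11) L5059 (by decide +kernel)
theorem L5066 : W_2 (nat_lit 2) (nat_lit 0x48003e000600000001000080000000000000000000000000000000) (nat_lit 0x0) (nat_lit 0x3800000000000000000000000000000000000000000000) := D_2 (nat_lit 180) (nat_lit 179) (nat_lit 181) (nat_lit 2) (nat_lit 6) (nat_lit 11) (nat_lit 2) (nat_lit 7) (nat_lit 11) (by decide +kernel)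
theorem L5067 : W_2 (nat_lit 3) (nat_lit 0x48003c000600000001000080000000000000000000000000000000) (nat_lit 0x0) (nat_lit 0x200002003800000000000000000000000000000000000000000000) := T_2 (nat_lit 193) (nat_lit 213) (nat_lit 3) (nat_lit 6) (nat_lit 11) L5066 (by decide +kernel)
theorem L5068 : W_2 (nat_lit 4) (nat_lit 0x8003c000600000001000080000000000000000000000000000000) (nat_lit 0x0) (nat_lit 0xe00002003800000000000000000000000000000000000000000000) := T_2 (nat_lit 214) (nat_lit 215) (nat_lit 3) (nat_lit 7) (nat_lit 11) L5067 (by decide +kernel)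
theorem L5069 : W_2 (nat_lit 5) (nat_lit 0x3c000600000001000080000000000000000000000000000000) (nat_lit 0x0) (nat_lit 0xec0002003800000000000000000000000000000000000000000000) := T_2 (nat_lit 211) (nat_lit 210) (nat_lit 1) (nat_lit 10) (nat_lit 11) L5068 (by decide +kernel)
theorem L5070 : W_2 (nat_lit 6) (nat_lit 0x1c000600000001000080000000000000000000000000000000) (nat_lit 0x0) (nat_lit 0xec0062003800000000000000000000000000000000000000000000) := T_2 (nat_lit 197) (nat_lit 198) (nat_lit 0) (nat_lit 11) (nat_lit 11) L5069 (by decide +kernel)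
theorem L5071 : W_2 (nat_lit 7) (nat_lit 0x1c000200000001000080000000000000000000000000000000) (nat_lit 0x0) (nat_lit 0xec0062003c00020000000000000000000000000000000000000000) := T_2 (nat_lit 178) (nat_lit 161) (nat_lit 5) (nat_lit 8) (nat_lit 7) L5070 (by decide +kernel)
theorem L5072 : W_2 (nat_lit 2) (nat_lit 0x380048003c001600000001000080000000000000000000000000000000) (nat_lit 0x0) (nat_lit 0x4000300000000000000000000000000000000000000000000000000000) := D_2 (nat_lit 213) (nat_lit 230) (nat_lit 212) (nat_lit 2) (nat_lit 6) (nat_lit 13) (nat_lit 1) (nat_lit 10) (nat_lit 12) (by decide +kernel)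
theorem L5073 : W_2 (nat_lit 3) (nat_lit 0x300048003c001600000001000080000000000000000000000000000000) (nat_lit 0x0) (nat_lit 0x10004800300000000000000000000000000000000000000000000000000000) := T_2 (nat_lit 227) (nat_lit 244) (nat_lit 5) (nat_lit 7) (nat_lit 10) L5072 (by decide +kernel)
theorem L5074 : W_2 (nat_lit 4) (nat_lit 0x100048003c001600000001000080000000000000000000000000000000) (nat_lit 0x0) (nat_lit 0x50006800300000000000000000000000000000000000000000000000000000) := T_2 (nat_lit 229) (nat_lit 246) (nat_lit 7) (nat_lit 7) (nat_lit 10) L5073 (by decide +kernel)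
theorem L5075 : W_2 (nat_lit 5) (nat_lit 0x100048003c000600000001000080000000000000000000000000000000) (nat_lit 0x0) (nat_lit 0x50006800300000003000000000000000000000000000000000000000000000) := T_2 (nat_lit 180) (nat_lit 181) (nat_lit 2) (nat_lit 7) (nat_lit 11) L5074 (by decide +kernel)
theorem L5076 : W_2 (nat_lit 6) (nat_lit 0x48003c000600000001000080000000000000000000000000000000) (nat_lit 0x0) (nat_lit 0x70007800300000003000000000000000000000000000000000000000000000) := T_2 (nat_lit 228) (nat_lit 245) (nat_lit 6) (nat_lit 7) (nat_lit 14) L5075 (by decide +kernel)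
theorem L5077 : W_2 (nat_lit 7) (nat_lit 0x8003c000600000001000080000000000000000000000000000000) (nat_lit 0x0) (nat_lit 0x70007800f00000003000000000000000000000000000000000000000000000) := T_2 (nat_lit 214) (nat_lit 215) (nat_lit 3) (nat_lit 7) (nat_lit 11) L5076 (by decide +kernel)
theorem L5078 : W_2 (nat_lit 8) (nat_lit 0x3c000600000001000080000000000000000000000000000000) (nat_lit 0x0) (nat_lit 0x70007800fc0000003000000000000000000000000000000000000000000000) := T_2 (nat_lit 211) (nat_lit 210) (nat_lit 1) (nat_lit 10) (nat_lit 11) L5077 (by decide +kernel)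
theorem L5079 : W_2 (nat_lit 9) (nat_lit 0x1c000600000001000080000000000000000000000000000000) (nat_lit 0x0) (nat_lit 0x70007800fc0060003000000000000000000000000000000000000000000000) := T_2 (nat_lit 197) (nat_lit 198) (nat_lit 0) (nat_lit 11) (nat_lit 11) L5078 (by decide +kernel)
theorem L5080 : W_2 (nat_lit 10) (nat_lit 0x1c000200000001000080000000000000000000000000000000) (nat_lit 0x0) (nat_lit 0x70007800fc0060003400020000000000000000000000000000000000000000) := T_2 (nat_lit 178) (nat_lit 161) (nat_lit 5) (nat_lit 8) (nat_lit 7) L5079 (by decide +kernel)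
theorem L5081 : W_2 (nat_lit 2) (nat_lit 0x3e001600000001000080000000000000000000000000000000) (nat_lit 0x0) (nat_lit 0xe00000000000000000000000000000000000000000000000000000) := D_2 (nat_lit 214) (nat_lit 213) (nat_lit 215) (nat_lit 3) (nat_lit 6) (nat_lit 11) (nat_lit 3) (nat_lit 7) (nat_lit 11) (by decide +kernel)
theorem L5082 : W_2 (nat_lit 3) (nat_lit 0x3c001600000001000080000000000000000000000000000000) (nat_lit 0x0) (nat_lit 0xe00002000800000000000000000000000000000000000000000000) := T_2 (nat_lit 193) (nat_lit 179) (nat_lit 2) (nat_lit 6) (nat_lit 11) L5081 (by decide +kernel)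
theorem L5083 : W_2 (nat_lit 4) (nat_lit 0x3c000600000001000080000000000000000000000000000000) (nat_lit 0x0) (nat_lit 0xe00002003800000000000000000000000000000000000000000000) := T_2 (nat_lit 180) (nat_lit 181) (nat_lit 2) (nat_lit 7) (nat_lit 11) L5082 (by decide +kernel)
theorem L5084 : W_2 (nat_lit 5) (nat_lit 0x1c000600000001000080000000000000000000000000000000) (nat_lit 0x0) (nat_lit 0xe00062003800000000000000000000000000000000000000000000) := T_2 (nat_lit 197) (nat_lit 198) (nat_lit 0) (nat_lit 11) (nat_lit 11) L5083 (by decide +kernel)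
theorem L5085 : W_2 (nat_lit 6) (nat_lit 0x1c000200000001000080000000000000000000000000000000) (nat_lit 0x0) (nat_lit 0xe00062003c00020000000000000000000000000000000000000000) := T_2 (nat_lit 178) (nat_lit 161) (nat_lit 5) (nat_lit 8) (nat_lit 7) L5084 (by decide +kernel)
theorem L5086 : W_2 (nat_lit 2) (nat_lit 0x48003e000600000001000080000000000000000000000000000000) (nat_lit 0x0) (nat_lit 0x1800800000000000000000000000000000000000000000000) := D_2 (nat_lit 192) (nat_lit 179) (nat_lit 191) (nat_lit 2) (nat_lit 5) (nat_lit 11) (nat_lit 2) (nat_lit 4) (nat_lit 11) (by decide +kernel)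
theorem L5087 : W_2 (nat_lit 3) (nat_lit 0x48003c000600000001000080000000000000000000000000000000) (nat_lit 0x0) (nat_lit 0x200003800800000000000000000000000000000000000000000000) := T_2 (nat_lit 193) (nat_lit 213) (nat_lit 3) (nat_lit 6) (nat_lit 11) L5086 (by decide +kernel)
theorem L5088 : W_2 (nat_lit 4) (nat_lit 0x8003c000600000001000080000000000000000000000000000000) (nat_lit 0x0) (nat_lit 0xe00003800800000000000000000000000000000000000000000000) := T_2 (nat_lit 214) (nat_lit 215) (nat_lit 3) (nat_lit 7) (nat_lit 11) L5087 (by decide +kernel)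
theorem L5089 : W_2 (nat_lit 5) (nat_lit 0x3c000600000001000080000000000000000000000000000000) (nat_lit 0x0) (nat_lit 0xec0003800800000000000000000000000000000000000000000000) := T_2 (nat_lit 211) (nat_lit 210) (nat_lit 1) (nat_lit 10) (nat_lit 11) L5088 (by decide +kernel)
theorem L5090 : W_2 (nat_lit 6) (nat_lit 0x1c000600000001000080000000000000000000000000000000) (nat_lit 0x0) (nat_lit 0xec0063800800000000000000000000000000000000000000000000) := T_2 (nat_lit 197) (nat_lit 198) (nat_lit 0) (nat_lit 11) (nat_lit 11) L5089 (by decide +kernel)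
theorem L5091 : W_2 (nat_lit 7) (nat_lit 0x1c000200000001000080000000000000000000000000000000) (nat_lit 0x0) (nat_lit 0xec0063800c00020000000000000000000000000000000000000000) := T_2 (nat_lit 178) (nat_lit 161) (nat_lit 5) (nat_lit 8) (nat_lit 7) L5090 (by decide +kernel)
theorem L5092 : W_2 (nat_lit 2) (nat_lit 0x20001e000200020001000080000000000000000000000000000000) (nat_lit 0x0) (nat_lit 0x1800040000000000000000000000000000000000000000) := D_2 (nat_lit 179) (nat_lit 180) (nat_lit 162) (nat_lit 2) (nat_lit 6) (nat_lit 11) (nat_lit 4) (nat_lit 9) (nat_lit 12) (by decide +kernel)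
theorem L5093 : W_2 (nat_lit 3) (nat_lit 0x1e000200020001000080000000000000000000000000000000) (nat_lit 0x0) (nat_lit 0x600000001800040000000000000000000000000000000000000000) := T_2 (nat_lit 213) (nat_lit 214) (nat_lit 3) (nat_lit 6) (nat_lit 11) L5092 (by decide +kernel)
theorem L5094 : W_2 (nat_lit 4) (nat_lit 0x1e000200000001000080000000000000000000000000000000) (nat_lit 0x0) (nat_lit 0x600000001c00060000000000000000000000000000000000000000) := T_2 (nat_lit 161) (nat_lit 178) (nat_lit 5) (nat_lit 8) (nat_lit 7) L5093 (by decide +kernel)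
theorem L5103 : W_2 (nat_lit 2) (nat_lit 0x2000000048003c001e00000001000080000000000000000000000000000000) (nat_lit 0x0) (nat_lit 0x100008000000000000000040000000000000000000000000000000000000000) := D_2 (nat_lit 231) (nat_lit 248) (nat_lit 162) (nat_lit 4) (nat_lit 10) (nat_lit 14) (nat_lit 4) (nat_lit 10) (nat_lit 13) (by decide +kernel)
theorem L5104 : W_2 (nat_lit 3) (nat_lit 0x2000000048003c001600000001000080000000000000000000000000000000) (nat_lit 0x0) (nat_lit 0x100008000000002000800040000000000000000000000000000000000000000) := T_2 (nat_lit 179) (nat_lit 193) (nat_lit 2) (nat_lit 6) (nat_lit 11) L5103 (by decide +kernel)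
theorem L5105 : W_2 (nat_lit 4) (nat_lit 0x2000000048003c000600000001000080000000000000000000000000000000) (nat_lit 0x0) (nat_lit 0x100008000000002003800040000000000000000000000000000000000000000) := T_2 (nat_lit 180) (nat_lit 181) (nat_lit 2) (nat_lit 7) (nat_lit 11) L5104 (by decide +kernel)
theorem L5106 : W_2 (nat_lit 5) (nat_lit 0x48003c000600000001000080000000000000000000000000000000) (nat_lit 0x0) (nat_lit 0x120009000000002003800040000000000000000000000000000000000000000) := T_2 (nat_lit 245) (nat_lit 228) (nat_lit 6) (nat_lit 7) (nat_lit 14) L5105 (by decide +kernel)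
theorem L5107 : W_2 (nat_lit 6) (nat_lit 0x8003c000600000001000080000000000000000000000000000000) (nat_lit 0x0) (nat_lit 0x120009000c00002003800040000000000000000000000000000000000000000) := T_2 (nat_lit 214) (nat_lit 215) (nat_lit 3) (nat_lit 7) (nat_lit 11) L5106 (by decide +kernel)
theorem L5108 : W_2 (nat_lit 7) (nat_lit 0x3c000600000001000080000000000000000000000000000000) (nat_lit 0x0) (nat_lit 0x120009000cc0002003800040000000000000000000000000000000000000000) := T_2 (nat_lit 211) (nat_lit 210) (nat_lit 1) (nat_lit 10) (nat_lit 11) L5107 (by decide +kernel)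
theorem L5109 : W_2 (nat_lit 8) (nat_lit 0x1c000600000001000080000000000000000000000000000000) (nat_lit 0x0) (nat_lit 0x120009000cc0062003800040000000000000000000000000000000000000000) := T_2 (nat_lit 197) (nat_lit 198) (nat_lit 0) (nat_lit 11) (nat_lit 11) L5108 (by decide +kernel)
theorem L5110 : W_2 (nat_lit 9) (nat_lit 0x1c000200000001000080000000000000000000000000000000) (nat_lit 0x0) (nat_lit 0x120009000cc0062003c00060000000000000000000000000000000000000000) := T_2 (nat_lit 178) (nat_lit 161) (nat_lit 5) (nat_lit 8) (nat_lit 7) L5109 (by decide +kernel)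
theorem L5111 : W_2 (nat_lit 2) (nat_lit 0x8003c001e00080001000080000000000000000000000000000000) (nat_lit 0x0) (nat_lit 0x200000000000000004000200000000000000000000000000000000) := D_2 (nat_lit 146) (nat_lit 129) (nat_lit 213) (nat_lit 5) (nat_lit 10) (nat_lit 7) (nat_lit 5) (nat_lit 10) (nat_lit 8) (by decide +kernel)
theorem L5112 : W_2 (nat_lit 3) (nat_lit 0x8003c001e00000001000080000000000000000000000000000000) (nat_lit 0x0) (nat_lit 0x200000000000180004000200000000000000000000000000000000) := T_2 (nat_lit 163) (nat_lit 164) (nat_lit 2) (nat_lit 7) (nat_lit 10) L5111 (by decide +kernel)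
theorem L5113 : W_2 (nat_lit 4) (nat_lit 0x8003c001600000001000080000000000000000000000000000000) (nat_lit 0x0) (nat_lit 0x200002000800180004000200000000000000000000000000000000) := T_2 (nat_lit 179) (nat_lit 193) (nat_lit 2) (nat_lit 6) (nat_lit 11) L5112 (by decide +kernel)
theorem L5114 : W_2 (nat_lit 5) (nat_lit 0x8003c000600000001000080000000000000000000000000000000) (nat_lit 0x0) (nat_lit 0x200002003800180004000200000000000000000000000000000000) := T_2 (nat_lit 180) (nat_lit 181) (nat_lit 2) (nat_lit 7) (nat_lit 11) L5113 (by decide +kernel)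
theorem L5115 : W_2 (nat_lit 6) (nat_lit 0x3c000600000001000080000000000000000000000000000000) (nat_lit 0x0) (nat_lit 0x2c0002003800180004000200000000000000000000000000000000) := T_2 (nat_lit 211) (nat_lit 210) (nat_lit 1) (nat_lit 10) (nat_lit 11) L5114 (by decide +kernel)
theorem L5116 : W_2 (nat_lit 7) (nat_lit 0x1c000600000001000080000000000000000000000000000000) (nat_lit 0x0) (nat_lit 0x2c0062003800180004000200000000000000000000000000000000) := T_2 (nat_lit 197) (nat_lit 198) (nat_lit 0) (nat_lit 11) (nat_lit 11) L5115 (by decide +kernel)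
theorem L5117 : W_2 (nat_lit 8) (nat_lit 0x1c000200000001000080000000000000000000000000000000) (nat_lit 0x0) (nat_lit 0x2c0062003c001a0004000200000000000000000000000000000000) := T_2 (nat_lit 178) (nat_lit 161) (nat_lit 5) (nat_lit 8) (nat_lit 7) L5116 (by decide +kernel)
theorem L5119 : W_2 (nat_lit 2) (nat_lit 0x48007c000200020001000080000000000000000000000000000000) (nat_lit 0x0) (nat_lit 0x7000000000000000000000000000000000000000000000) := D_2 (nat_lit 181) (nat_lit 180) (nat_lit 182) (nat_lit 2) (nat_lit 7) (nat_lit 11) (nat_lit 2) (nat_lit 8) (nat_lit 11) (by decide +kernel)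
theorem L5120 : W_2 (nat_lit 3) (nat_lit 0x48003c000200020001000080000000000000000000000000000000) (nat_lit 0x0) (nat_lit 0x100040007000000000000000000000000000000000000000000000) := T_2 (nat_lit 198) (nat_lit 212) (nat_lit 1) (nat_lit 11) (nat_lit 11) L5119 (by decide +kernel)
theorem L5121 : W_2 (nat_lit 4) (nat_lit 0x8003c000200020001000080000000000000000000000000000000) (nat_lit 0x0) (nat_lit 0xd00040007000000000000000000000000000000000000000000000) := T_2 (nat_lit 214) (nat_lit 215) (nat_lit 3) (nat_lit 7) (nat_lit 11) L5120 (by decide +kernel)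
theorem L5122 : W_2 (nat_lit 5) (nat_lit 0x3c000200020001000080000000000000000000000000000000) (nat_lit 0x0) (nat_lit 0xdc0040007000000000000000000000000000000000000000000000) := T_2 (nat_lit 211) (nat_lit 210) (nat_lit 1) (nat_lit 10) (nat_lit 11) L5121 (by decide +kernel)
theorem L5123 : W_2 (nat_lit 6) (nat_lit 0x34000200020001000080000000000000000000000000000000) (nat_lit 0x0) (nat_lit 0xdc0048007100000000000000000000000000000000000000000000) := T_2 (nat_lit 195) (nat_lit 176) (nat_lit 0) (nat_lit 10) (nat_lit 11) L5122 (by decide +kernel)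
theorem L5124 : W_2 (nat_lit 7) (nat_lit 0x34000200000001000080000000000000000000000000000000) (nat_lit 0x0) (nat_lit 0xdc0048007500020000000000000000000000000000000000000000) := T_2 (nat_lit 161) (nat_lit 178) (nat_lit 5) (nat_lit 8) (nat_lit 7) L5123 (by decide +kernel)
theorem L5125 : W_2 (nat_lit 2) (nat_lit 0x74000600000001000080000000000000000000000000000000) (nat_lit 0x0) (nat_lit 0x80001800000000000000000000000000000000000000000000) := D_2 (nat_lit 179) (nat_lit 199) (nat_lit 180) (nat_lit 0) (nat_lit 12) (nat_lit 11) (nat_lit 3) (nat_lit 7) (nat_lit 10) (by decide +kernel)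
theorem L5126 : W_2 (nat_lit 3) (nat_lit 0x34000600000001000080000000000000000000000000000000) (nat_lit 0x0) (nat_lit 0xc8001800000000000000000000000000000000000000000000) := T_2 (nat_lit 198) (nat_lit 195) (nat_lit 0) (nat_lit 11) (nat_lit 11) L5125 (by decide +kernel)
theorem L5127 : W_2 (nat_lit 4) (nat_lit 0x34000200000001000080000000000000000000000000000000) (nat_lit 0x0) (nat_lit 0xc8001c00020000000000000000000000000000000000000000) := T_2 (nat_lit 178) (nat_lit 161) (nat_lit 5) (nat_lit 8) (nat_lit 7) L5126 (by decide +kernel)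
theorem L5128 : W_2 (nat_lit 6) (nat_lit 0x34000200000001000080000000000000000000000000000000) (nat_lit 0x0) (nat_lit 0xdc0048007100000000000000000000000000000000000000000000) := T_2 (nat_lit 195) (nat_lit 176) (nat_lit 0) (nat_lit 10) (nat_lit 11) L5043 (by decide +kernel)
theorem L5129 : W_2 (nat_lit 2) (nat_lit 0x34000e00000001000080000000000000000000000000000000) (nat_lit 0x0) (nat_lit 0xc0001000000000000000000000000000000000000000000000) := D_2 (nat_lit 198) (nat_lit 199) (nat_lit 180) (nat_lit 0) (nat_lit 12) (nat_lit 11) (nat_lit 3) (nat_lit 7) (nat_lit 10) (by decide +kernel)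
theorem L5130 : W_2 (nat_lit 3) (nat_lit 0x34000600000001000080000000000000000000000000000000) (nat_lit 0x0) (nat_lit 0xc0001900000000000000000000000000000000000000000000) := T_2 (nat_lit 179) (nat_lit 176) (nat_lit 3) (nat_lit 6) (nat_lit 10) L5129 (by decide +kernel)
theorem L5131 : W_2 (nat_lit 4) (nat_lit 0x34000200000001000080000000000000000000000000000000) (nat_lit 0x0) (nat_lit 0xc0001d00020000000000000000000000000000000000000000) := T_2 (nat_lit 178) (nat_lit 161) (nat_lit 5) (nat_lit 8) (nat_lit 7) L5130 (by decide +kernel)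
theorem L5132 : W_2 (nat_lit 2) (nat_lit 0x4801fc004200020001000080000000000000000000000000000000) (nat_lit 0x0) (nat_lit 0x7000000000000000000000000000000000000000000000000000000) := D_2 (nat_lit 217) (nat_lit 216) (nat_lit 218) (nat_lit 3) (nat_lit 9) (nat_lit 11) (nat_lit 3) (nat_lit 10) (nat_lit 11) (by decide +kernel)
theorem L5133 : W_2 (nat_lit 3) (nat_lit 0x4800fc004200020001000080000000000000000000000000000000) (nat_lit 0x0) (nat_lit 0x7200100000000000000000000000000000000000000000000000000) := T_2 (nat_lit 200) (nat_lit 213) (nat_lit 1) (nat_lit 13) (nat_lit 11) L5132 (by decide +kernel)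
theorem L5134 : W_2 (nat_lit 4) (nat_lit 0x48007c004200020001000080000000000000000000000000000000) (nat_lit 0x0) (nat_lit 0x7200180008000000000000000000000000000000000000000000000) := T_2 (nat_lit 199) (nat_lit 183) (nat_lit 2) (nat_lit 9) (nat_lit 11) L5133 (by decide +kernel)
theorem L5135 : W_2 (nat_lit 5) (nat_lit 0x48007c000200020001000080000000000000000000000000000000) (nat_lit 0x0) (nat_lit 0x720018000e000000000000000000000000000000000000000000000) := T_2 (nat_lit 182) (nat_lit 181) (nat_lit 2) (nat_lit 8) (nat_lit 11) L5134 (by decide +kernel)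
theorem L5136 : W_2 (nat_lit 6) (nat_lit 0x48003c000200020001000080000000000000000000000000000000) (nat_lit 0x0) (nat_lit 0x73001c000e000000000000000000000000000000000000000000000) := T_2 (nat_lit 198) (nat_lit 212) (nat_lit 1) (nat_lit 11) (nat_lit 11) L5135 (by decide +kernel)
theorem L5137 : W_2 (nat_lit 7) (nat_lit 0x8003c000200020001000080000000000000000000000000000000) (nat_lit 0x0) (nat_lit 0x7f001c000e000000000000000000000000000000000000000000000) := T_2 (nat_lit 214) (nat_lit 215) (nat_lit 3) (nat_lit 7) (nat_lit 11) L5136 (by decide +kernel)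
theorem L5138 : W_2 (nat_lit 8) (nat_lit 0x3c000200020001000080000000000000000000000000000000) (nat_lit 0x0) (nat_lit 0x7fc01c000e000000000000000000000000000000000000000000000) := T_2 (nat_lit 211) (nat_lit 210) (nat_lit 1) (nat_lit 10) (nat_lit 11) L5137 (by decide +kernel)
theorem L5139 : W_2 (nat_lit 9) (nat_lit 0x34000200020001000080000000000000000000000000000000) (nat_lit 0x0) (nat_lit 0x7fc01c800e100000000000000000000000000000000000000000000) := T_2 (nat_lit 195) (nat_lit 176) (nat_lit 0) (nat_lit 10) (nat_lit 11) L5138 (by decide +kernel)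
theorem L5140 : W_2 (nat_lit 10) (nat_lit 0x34000200000001000080000000000000000000000000000000) (nat_lit 0x0) (nat_lit 0x7fc01c800e500020000000000000000000000000000000000000000) := T_2 (nat_lit 161) (nat_lit 178) (nat_lit 5) (nat_lit 8) (nat_lit 7) L5139 (by decide +kernel)
theorem L5141 : W_2 (nat_lit 9) (nat_lit 0x3c000200000001000080000000000000000000000000000000) (nat_lit 0x0) (nat_lit 0x70007800fc0000003400020000000000000000000000000000000000000000) := T_2 (nat_lit 178) (nat_lit 161) (nat_lit 5) (nat_lit 8) (nat_lit 7) L5078 (by decide +kernel)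
theorem L5142 : W_2 (nat_lit 10) (nat_lit 0x34000200000001000080000000000000000000000000000000) (nat_lit 0x0) (nat_lit 0x70007800fc0008003500020000000000000000000000000000000000000000) := T_2 (nat_lit 195) (nat_lit 176) (nat_lit 0) (nat_lit 10) (nat_lit 11) L5141 (by decide +kernel)
theorem L5143 : W_2 (nat_lit 11) (nat_lit 0x14000200000001000080000000000000000000000000000000) (nat_lit 0x0) (nat_lit 0x70007807fc01e800fd00020000000000000000000000000000000000000000) := Q_2 (nat_lit 197) (C_2 L5124 (C_2 L5127 (C_2 L5128 (C_2 L5131 (C_2 L5140 (C_2 L5142 N_2)))))) (by decide +kernel)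
theorem L5144 : W_2 (nat_lit 2) (nat_lit 0x14001e00000001000080000000000000000000000000000000) (nat_lit 0x0) (nat_lit 0x60000100000000000000000000000000000000000000000000) := D_2 (nat_lit 197) (nat_lit 176) (nat_lit 198) (nat_lit 3) (nat_lit 6) (nat_lit 10) (nat_lit 3) (nat_lit 7) (nat_lit 10) (by decide +kernel)
theorem L5145 : W_2 (nat_lit 3) (nat_lit 0x14000e00000001000080000000000000000000000000000000) (nat_lit 0x0) (nat_lit 0x62001100000000000000000000000000000000000000000000) := T_2 (nat_lit 180) (nat_lit 193) (nat_lit 1) (nat_lit 10) (nat_lit 10) L5144 (by decide +kernel)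
theorem L5146 : W_2 (nat_lit 2) (nat_lit 0x34001e00080001000080000000000000000000000000000000) (nat_lit 0x0) (nat_lit 0x200000000000000004000200000000000000000000000000000000) := D_2 (nat_lit 146) (nat_lit 213) (nat_lit 129) (nat_lit 5) (nat_lit 10) (nat_lit 8) (nat_lit 5) (nat_lit 10) (nat_lit 7) (by decide +kernel)
theorem L5147 : W_2 (nat_lit 3) (nat_lit 0x14001e00080001000080000000000000000000000000000000) (nat_lit 0x0) (nat_lit 0x200060000000000004000200000000000000000000000000000000) := T_2 (nat_lit 197) (nat_lit 198) (nat_lit 3) (nat_lit 7) (nat_lit 10) L5146 (by decide +kernel)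
theorem L5148 : W_2 (nat_lit 4) (nat_lit 0x14001e00000001000080000000000000000000000000000000) (nat_lit 0x0) (nat_lit 0x200060000000180004000200000000000000000000000000000000) := T_2 (nat_lit 163) (nat_lit 164) (nat_lit 2) (nat_lit 7) (nat_lit 10) L5147 (by decide +kernel)
theorem L5149 : W_2 (nat_lit 5) (nat_lit 0x14000e00000001000080000000000000000000000000000000) (nat_lit 0x0) (nat_lit 0x200062001000180004000200000000000000000000000000000000) := T_2 (nat_lit 180) (nat_lit 193) (nat_lit 1) (nat_lit 10) (nat_lit 10) L5148 (by decide +kernel)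
theorem L5150 : W_2 (nat_lit 3) (nat_lit 0x14000e00000001000080000000000000000000000000000000) (nat_lit 0x0) (nat_lit 0xe0001100000000000000000000000000000000000000000000) := T_2 (nat_lit 197) (nat_lit 176) (nat_lit 3) (nat_lit 6) (nat_lit 10) L5129 (by decide +kernel)
theorem L5151 : W_2 (nat_lit 2) (nat_lit 0x16000f00048001000080000000000000000000000000000000) (nat_lit 0x0) (nat_lit 0x1000080000000000000000400000000000000000000000000000000000) := D_2 (nat_lit 211) (nat_lit 228) (nat_lit 142) (nat_lit 4) (nat_lit 7) (nat_lit 13) (nat_lit 7) (nat_lit 6) (nat_lit 8) (by decide +kernel)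
theorem L5152 : W_2 (nat_lit 3) (nat_lit 0x16000f00040001000080000000000000000000000000000000) (nat_lit 0x0) (nat_lit 0x100008000000000000c000400000000000000000000000000000000000) := T_2 (nat_lit 159) (nat_lit 158) (nat_lit 0) (nat_lit 9) (nat_lit 10) L5151 (by decide +kernel)
theorem L5153 : W_2 (nat_lit 4) (nat_lit 0x14000f00040001000080000000000000000000000000000000) (nat_lit 0x0) (nat_lit 0x100008000300000000c000400000000000000000000000000000000000) := T_2 (nat_lit 193) (nat_lit 192) (nat_lit 1) (nat_lit 9) (nat_lit 10) L5152 (by decide +kernel)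
theorem L5154 : W_2 (nat_lit 5) (nat_lit 0x14000f00000001000080000000000000000000000000000000) (nat_lit 0x0) (nat_lit 0x10000800030000000cc000400000000000000000000000000000000000) := T_2 (nat_lit 162) (nat_lit 163) (nat_lit 2) (nat_lit 6) (nat_lit 10) L5153 (by decide +kernel)
theorem L5155 : W_2 (nat_lit 6) (nat_lit 0x14000e00000001000080000000000000000000000000000000) (nat_lit 0x0) (nat_lit 0x10000800230001000cc000400000000000000000000000000000000000) := T_2 (nat_lit 176) (nat_lit 197) (nat_lit 3) (nat_lit 6) (nat_lit 10) L5154 (by decide +kernel)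
theorem L5156 : W_2 (nat_lit 2) (nat_lit 0x14001e000c0001000080000000000000000000000000000000) (nat_lit 0x0) (nat_lit 0x4000200000000000000004000000000000000000000000000000000000) := D_2 (nat_lit 213) (nat_lit 230) (nat_lit 146) (nat_lit 6) (nat_lit 9) (nat_lit 13) (nat_lit 6) (nat_lit 9) (nat_lit 12) (by decide +kernel)
theorem L5157 : W_2 (nat_lit 3) (nat_lit 0x14001e00080001000080000000000000000000000000000000) (nat_lit 0x0) (nat_lit 0x4000200000000100040004000000000000000000000000000000000000) := T_2 (nat_lit 162) (nat_lit 176) (nat_lit 2) (nat_lit 6) (nat_lit 10) L5156 (by decide +kernel)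
theorem L5158 : W_2 (nat_lit 4) (nat_lit 0x14001e00000001000080000000000000000000000000000000) (nat_lit 0x0) (nat_lit 0x40002000000001001c0004000000000000000000000000000000000000) := T_2 (nat_lit 163) (nat_lit 164) (nat_lit 2) (nat_lit 7) (nat_lit 10) L5157 (by decide +kernel)
theorem L5159 : W_2 (nat_lit 5) (nat_lit 0x14000e00000001000080000000000000000000000000000000) (nat_lit 0x0) (nat_lit 0x40002000020011001c0004000000000000000000000000000000000000) := T_2 (nat_lit 180) (nat_lit 193) (nat_lit 1) (nat_lit 10) (nat_lit 10) L5158 (by decide +kernel)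
theorem L5164 : W_2 (nat_lit 2) (nat_lit 0x14000f80000001000080000000000000000000000000000000) (nat_lit 0x0) (nat_lit 0x3800000000000000000000000000000000000000000000000) := D_2 (nat_lit 192) (nat_lit 191) (nat_lit 193) (nat_lit 1) (nat_lit 8) (nat_lit 10) (nat_lit 1) (nat_lit 9) (nat_lit 10) (by decide +kernel)
theorem L5165 : W_2 (nat_lit 3) (nat_lit 0x14000f00000001000080000000000000000000000000000000) (nat_lit 0x0) (nat_lit 0xb800080000000000000000000000000000000000000000000) := T_2 (nat_lit 175) (nat_lit 195) (nat_lit 3) (nat_lit 5) (nat_lit 10) L5164 (by decide +kernel)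
theorem L5169 : W_2 (nat_lit 2) (nat_lit 0xc0034001e000300020001000080000000000000000000000000000000) (nat_lit 0x0) (nat_lit 0x20003000000000000000000000000000000000000000000000000000000000) := D_2 (nat_lit 228) (nat_lit 245) (nat_lit 229) (nat_lit 7) (nat_lit 6) (nat_lit 10) (nat_lit 2) (nat_lit 5) (nat_lit 13) (by decide +kernel)
theorem L5170 : W_2 (nat_lit 3) (nat_lit 0xc0024001e000300020001000080000000000000000000000000000000) (nat_lit 0x0) (nat_lit 0x20003000180000000000000000000000000000000000000000000000000000) := T_2 (nat_lit 212) (nat_lit 211) (nat_lit 1) (nat_lit 9) (nat_lit 12) L5169 (by decide +kernel)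
theorem L5171 : W_2 (nat_lit 4) (nat_lit 0x80024001e000300020001000080000000000000000000000000000000) (nat_lit 0x0) (nat_lit 0x28003400180000000000000000000000000000000000000000000000000000) := T_2 (nat_lit 226) (nat_lit 243) (nat_lit 5) (nat_lit 6) (nat_lit 10) L5170 (by decide +kernel)
theorem L5172 : W_2 (nat_lit 5) (nat_lit 0x24001e000300020001000080000000000000000000000000000000) (nat_lit 0x0) (nat_lit 0x38003c00180000000000000000000000000000000000000000000000000000) := T_2 (nat_lit 227) (nat_lit 244) (nat_lit 6) (nat_lit 6) (nat_lit 14) L5171 (by decide +kernel)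
theorem L5173 : W_2 (nat_lit 6) (nat_lit 0x24001e000200020001000080000000000000000000000000000000) (nat_lit 0x0) (nat_lit 0x38003c00180000000180000000000000000000000000000000000000000000) := T_2 (nat_lit 176) (nat_lit 175) (nat_lit 0) (nat_lit 9) (nat_lit 11) L5172 (by decide +kernel)
theorem L5174 : W_2 (nat_lit 7) (nat_lit 0x20001e000200020001000080000000000000000000000000000000) (nat_lit 0x0) (nat_lit 0x38003c001e0000000180000000000000000000000000000000000000000000) := T_2 (nat_lit 210) (nat_lit 209) (nat_lit 1) (nat_lit 9) (nat_lit 11) L5173 (by decide +kernel)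
theorem L5183 : W_2 (nat_lit 2) (nat_lit 0x1c0004001e000300028001400080000000000000000000000000000000) (nat_lit 0x0) (nat_lit 0x4000200010000000000000000000000000000000) := D_2 (nat_lit 141) (nat_lit 158) (nat_lit 124) (nat_lit 4) (nat_lit 6) (nat_lit 12) (nat_lit 4) (nat_lit 6) (nat_lit 11) (by decide +kernel)
theorem L5184 : W_2 (nat_lit 3) (nat_lit 0x1c0004001e000300028001000080000000000000000000000000000000) (nat_lit 0x0) (nat_lit 0x4000600030000000000000000000000000000000) := T_2 (nat_lit 142) (nat_lit 125) (nat_lit 7) (nat_lit 6) (nat_lit 7) L5183 (by decide +kernel)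
theorem L5185 : W_2 (nat_lit 4) (nat_lit 0x1c0004001e000300020001000080000000000000000000000000000000) (nat_lit 0x0) (nat_lit 0x8000000000000c000600030000000000000000000000000000000) := T_2 (nat_lit 159) (nat_lit 211) (nat_lit 7) (nat_lit 6) (nat_lit 9) L5184 (by decide +kernel)
theorem L5186 : W_2 (nat_lit 5) (nat_lit 0xc0004001e000300020001000080000000000000000000000000000000) (nat_lit 0x0) (nat_lit 0x2000100008000000000000c000600030000000000000000000000000000000) := T_2 (nat_lit 228) (nat_lit 245) (nat_lit 7) (nat_lit 6) (nat_lit 10) L5185 (by decide +kernel)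
theorem L5187 : W_2 (nat_lit 6) (nat_lit 0x80004001e000300020001000080000000000000000000000000000000) (nat_lit 0x0) (nat_lit 0x2800140008000000000000c000600030000000000000000000000000000000) := T_2 (nat_lit 226) (nat_lit 243) (nat_lit 5) (nat_lit 6) (nat_lit 10) L5186 (by decide +kernel)
theorem L5188 : W_2 (nat_lit 7) (nat_lit 0x4001e000300020001000080000000000000000000000000000000) (nat_lit 0x0) (nat_lit 0x38001c0008000000000000c000600030000000000000000000000000000000) := T_2 (nat_lit 227) (nat_lit 244) (nat_lit 6) (nat_lit 6) (nat_lit 14) L5187 (by decide +kernel)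
theorem L5193 : W_2 (nat_lit 2) (nat_lit 0x3c000200000001000080000000000000000000000000000000) (nat_lit 0x0) (nat_lit 0x40000400020000000000000000000000000000000000000000) := D_2 (nat_lit 178) (nat_lit 161) (nat_lit 198) (nat_lit 5) (nat_lit 8) (nat_lit 7) (nat_lit 0) (nat_lit 11) (nat_lit 11) (by decide +kernel)
theorem L5194 : W_2 (nat_lit 3) (nat_lit 0x1c000200000001000080000000000000000000000000000000) (nat_lit 0x0) (nat_lit 0x60000500020000000000000000000000000000000000000000) := T_2 (nat_lit 197) (nat_lit 176) (nat_lit 0) (nat_lit 10) (nat_lit 11) L5193 (by decide +kernel)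
theorem L5198 : W_2 (nat_lit 2) (nat_lit 0x17000600000001000080000000000000000000000000000000) (nat_lit 0x0) (nat_lit 0x8001800000000000000000000000000000000000000000000) := D_2 (nat_lit 179) (nat_lit 180) (nat_lit 195) (nat_lit 1) (nat_lit 10) (nat_lit 10) (nat_lit 2) (nat_lit 5) (nat_lit 11) (by decide +kernel)
theorem L5199 : W_2 (nat_lit 3) (nat_lit 0x16000600000001000080000000000000000000000000000000) (nat_lit 0x0) (nat_lit 0x9801800000000000000000000000000000000000000000000) := T_2 (nat_lit 192) (nat_lit 191) (nat_lit 2) (nat_lit 4) (nat_lit 11) L5198 (by decide +kernel)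
theorem L5200 : W_2 (nat_lit 4) (nat_lit 0x16000200000001000080000000000000000000000000000000) (nat_lit 0x0) (nat_lit 0x9801c00020000000000000000000000000000000000000000) := T_2 (nat_lit 178) (nat_lit 161) (nat_lit 5) (nat_lit 8) (nat_lit 7) L5199 (by decide +kernel)
theorem L5202 : W_2 (nat_lit 2) (nat_lit 0x17000600000001000080000000000000000000000000000000) (nat_lit 0x0) (nat_lit 0x1900000000000000000000000000000000000000000000) := D_2 (nat_lit 179) (nat_lit 180) (nat_lit 176) (nat_lit 1) (nat_lit 10) (nat_lit 10) (nat_lit 1) (nat_lit 9) (nat_lit 10) (by decide +kernel)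
theorem L5203 : W_2 (nat_lit 3) (nat_lit 0x16000600000001000080000000000000000000000000000000) (nat_lit 0x0) (nat_lit 0x1801900000000000000000000000000000000000000000000) := T_2 (nat_lit 192) (nat_lit 191) (nat_lit 2) (nat_lit 4) (nat_lit 11) L5202 (by decide +kernel)
theorem L5204 : W_2 (nat_lit 4) (nat_lit 0x16000200000001000080000000000000000000000000000000) (nat_lit 0x0) (nat_lit 0x1801d00020000000000000000000000000000000000000000) := T_2 (nat_lit 178) (nat_lit 161) (nat_lit 5) (nat_lit 8) (nat_lit 7) L5203 (by decide +kernel)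
theorem L5213 : W_2 (nat_lit 2) (nat_lit 0xf000200000001000080000000000000000000000000000000) (nat_lit 0x0) (nat_lit 0x800c00000000000000000000000000000000000000000000) := D_2 (nat_lit 178) (nat_lit 191) (nat_lit 179) (nat_lit 2) (nat_lit 4) (nat_lit 11) (nat_lit 2) (nat_lit 5) (nat_lit 11) (by decide +kernel)
theorem L5214 : W_2 (nat_lit 2) (nat_lit 0x10000f800280000001000080000000000000000000000000000000) (nat_lit 0x0) (nat_lit 0x38000000000000000000000000000000000000000000000000000) := D_2 (nat_lit 208) (nat_lit 207) (nat_lit 209) (nat_lit 1) (nat_lit 7) (nat_lit 11) (nat_lit 1) (nat_lit 8) (nat_lit 11) (by decide +kernel)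
theorem L5215 : W_2 (nat_lit 3) (nat_lit 0x10000f000280000001000080000000000000000000000000000000) (nat_lit 0x0) (nat_lit 0xb8000800000000000000000000000000000000000000000000000) := T_2 (nat_lit 191) (nat_lit 211) (nat_lit 3) (nat_lit 4) (nat_lit 11) L5214 (by decide +kernel)
theorem L5216 : W_2 (nat_lit 4) (nat_lit 0xf000280000001000080000000000000000000000000000000) (nat_lit 0x0) (nat_lit 0x3b8000800000000000000000000000000000000000000000000000) := T_2 (nat_lit 212) (nat_lit 213) (nat_lit 3) (nat_lit 5) (nat_lit 11) L5215 (by decide +kernel)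
theorem L5217 : W_2 (nat_lit 5) (nat_lit 0xf000200000001000080000000000000000000000000000000) (nat_lit 0x0) (nat_lit 0x3b80008000c0000000000000000000000000000000000000000000) := T_2 (nat_lit 175) (nat_lit 174) (nat_lit 0) (nat_lit 8) (nat_lit 11) L5216 (by decide +kernel)
theorem L5221 : W_2 (nat_lit 5) (nat_lit 0x4000000010000f000600000001000080000000000000000000000000000000) (nat_lit 0x0) (nat_lit 0x8000700100000c0004000200000000000000000000000000000000000) := T_2 (nat_lit 175) (nat_lit 174) (nat_lit 0) (nat_lit 8) (nat_lit 11) L5220 (by decide +kernel)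
theorem L5222 : W_2 (nat_lit 6) (nat_lit 0x10000f000600000001000080000000000000000000000000000000) (nat_lit 0x0) (nat_lit 0x400028000700100000c0004000200000000000000000000000000000000000) := T_2 (nat_lit 246) (nat_lit 229) (nat_lit 4) (nat_lit 8) (nat_lit 14) L5221 (by decide +kernel)
theorem L5223 : W_2 (nat_lit 7) (nat_lit 0x10000f000200000001000080000000000000000000000000000000) (nat_lit 0x0) (nat_lit 0x40002800070010000cc0004000200000000000000000000000000000000000) := T_2 (nat_lit 178) (nat_lit 179) (nat_lit 2) (nat_lit 5) (nat_lit 11) L5222 (by decide +kernel)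
theorem L5224 : W_2 (nat_lit 8) (nat_lit 0xf000200000001000080000000000000000000000000000000) (nat_lit 0x0) (nat_lit 0x40002800370010000cc0004000200000000000000000000000000000000000) := T_2 (nat_lit 212) (nat_lit 213) (nat_lit 3) (nat_lit 5) (nat_lit 11) L5223 (by decide +kernel)
theorem L5226 : W_2 (nat_lit 2) (nat_lit 0x1000000004003e000200000001000080000000000000000000000000000000) (nat_lit 0x0) (nat_lit 0xe00000000000000000000000000000000000000000000000000000) := D_2 (nat_lit 214) (nat_lit 213) (nat_lit 215) (nat_lit 3) (nat_lit 6) (nat_lit 11) (nat_lit 3) (nat_lit 7) (nat_lit 11) (by decide +kernel)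
theorem L5227 : W_2 (nat_lit 3) (nat_lit 0x1000000004001e000200000001000080000000000000000000000000000000) (nat_lit 0x0) (nat_lit 0xe80020000000000000000000000000000000000000000000000000) := T_2 (nat_lit 197) (nat_lit 211) (nat_lit 1) (nat_lit 10) (nat_lit 11) L5226 (by decide +kernel)
theorem L5228 : W_2 (nat_lit 4) (nat_lit 0x1000000004000e000200000001000080000000000000000000000000000000) (nat_lit 0x0) (nat_lit 0xea0030000000000000000000000000000000000000000000000000) := T_2 (nat_lit 196) (nat_lit 209) (nat_lit 1) (nat_lit 9) (nat_lit 11) L5227 (by decide +kernel)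
theorem L5229 : W_2 (nat_lit 5) (nat_lit 0x4000e000200000001000080000000000000000000000000000000) (nat_lit 0x0) (nat_lit 0x10000800ea0030000000000000000000000000000000000000000000000000) := T_2 (nat_lit 244) (nat_lit 227) (nat_lit 6) (nat_lit 6) (nat_lit 14) L5228 (by decide +kernel)
theorem L5230 : W_2 (nat_lit 2) (nat_lit 0x4000e000200010001000080000000000000000000000000000000) (nat_lit 0x0) (nat_lit 0x10000800080000000000000000000000000000000000000000000000000000) := D_2 (nat_lit 227) (nat_lit 211) (nat_lit 244) (nat_lit 5) (nat_lit 7) (nat_lit 9) (nat_lit 6) (nat_lit 6) (nat_lit 14) (by decide +kernel)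
theorem L5231 : W_2 (nat_lit 3) (nat_lit 0x4000e000200000001000080000000000000000000000000000000) (nat_lit 0x0) (nat_lit 0x10000800080000000000010000800000000000000000000000000000000000) := T_2 (nat_lit 160) (nat_lit 143) (nat_lit 6) (nat_lit 7) (nat_lit 11) L5230 (by decide +kernel)
theorem L5245 : W_2 (nat_lit 2) (nat_lit 0x100000002400fe002a00000001000080000000000000000000000000000000) (nat_lit 0x0) (nat_lit 0x3800000000000000000000000000000000000000000000000000000) := D_2 (nat_lit 216) (nat_lit 215) (nat_lit 217) (nat_lit 3) (nat_lit 8) (nat_lit 11) (nat_lit 3) (nat_lit 9) (nat_lit 11) (by decide +kernel)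
theorem L5246 : W_2 (nat_lit 3) (nat_lit 0x1000000024007e002a00000001000080000000000000000000000000000000) (nat_lit 0x0) (nat_lit 0x3900080000000000000000000000000000000000000000000000000) := T_2 (nat_lit 199) (nat_lit 212) (nat_lit 1) (nat_lit 12) (nat_lit 11) L5245 (by decide +kernel)
theorem L5247 : W_2 (nat_lit 4) (nat_lit 0x1000000024007e000a00000001000080000000000000000000000000000000) (nat_lit 0x0) (nat_lit 0x3900080006000000000000000000000000000000000000000000000) := T_2 (nat_lit 181) (nat_lit 182) (nat_lit 2) (nat_lit 8) (nat_lit 11) L5246 (by decide +kernel)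
theorem L5248 : W_2 (nat_lit 5) (nat_lit 0x24007e000a00000001000080000000000000000000000000000000) (nat_lit 0x0) (nat_lit 0x10000803900080006000000000000000000000000000000000000000000000) := T_2 (nat_lit 244) (nat_lit 227) (nat_lit 6) (nat_lit 6) (nat_lit 14) L5247 (by decide +kernel)
theorem L5249 : W_2 (nat_lit 6) (nat_lit 0x24003e000a00000001000080000000000000000000000000000000) (nat_lit 0x0) (nat_lit 0x100008039000c0006400000000000000000000000000000000000000000000) := T_2 (nat_lit 198) (nat_lit 178) (nat_lit 0) (nat_lit 11) (nat_lit 11) L5248 (by decide +kernel)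
theorem L5250 : W_2 (nat_lit 7) (nat_lit 0x24001e000a00000001000080000000000000000000000000000000) (nat_lit 0x0) (nat_lit 0x100008039800e0006400000000000000000000000000000000000000000000) := T_2 (nat_lit 197) (nat_lit 211) (nat_lit 1) (nat_lit 10) (nat_lit 11) L5249 (by decide +kernel)
theorem L5251 : W_2 (nat_lit 8) (nat_lit 0x20001e000a00000001000080000000000000000000000000000000) (nat_lit 0x0) (nat_lit 0x100008039e00e0006400000000000000000000000000000000000000000000) := T_2 (nat_lit 210) (nat_lit 209) (nat_lit 1) (nat_lit 9) (nat_lit 11) L5250 (by decide +kernel)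
theorem L5252 : W_2 (nat_lit 9) (nat_lit 0x20001e000200000001000080000000000000000000000000000000) (nat_lit 0x0) (nat_lit 0x100008039e00e0007c00000000000000000000000000000000000000000000) := T_2 (nat_lit 179) (nat_lit 180) (nat_lit 2) (nat_lit 6) (nat_lit 11) L5251 (by decide +kernel)
theorem L5253 : W_2 (nat_lit 10) (nat_lit 0x1e000200000001000080000000000000000000000000000000) (nat_lit 0x0) (nat_lit 0x10000803fe00e0007c00000000000000000000000000000000000000000000) := T_2 (nat_lit 213) (nat_lit 214) (nat_lit 3) (nat_lit 6) (nat_lit 11) L5252 (by decide +kernel)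
theorem L5255 : W_2 (nat_lit 2) (nat_lit 0x9000000124007e001200010001000080000000000000000000000000000000) (nat_lit 0x0) (nat_lit 0x2100080000000000000000000000000000000000000000000000000) := D_2 (nat_lit 199) (nat_lit 212) (nat_lit 217) (nat_lit 1) (nat_lit 12) (nat_lit 11) (nat_lit 3) (nat_lit 9) (nat_lit 11) (by decide +kernel)
theorem L5256 : W_2 (nat_lit 3) (nat_lit 0x9000000024007e001200010001000080000000000000000000000000000000) (nat_lit 0x0) (nat_lit 0x3900080000000000000000000000000000000000000000000000000) := T_2 (nat_lit 216) (nat_lit 215) (nat_lit 3) (nat_lit 8) (nat_lit 11) L5255 (by decide +kernel)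
theorem L5257 : W_2 (nat_lit 4) (nat_lit 0x1000000024007e001200010001000080000000000000000000000000000000) (nat_lit 0x0) (nat_lit 0x80004003900080000000000000000000000000000000000000000000000000) := T_2 (nat_lit 247) (nat_lit 230) (nat_lit 6) (nat_lit 9) (nat_lit 14) L5256 (by decide +kernel)
theorem L5258 : W_2 (nat_lit 5) (nat_lit 0x1000000024003e001200010001000080000000000000000000000000000000) (nat_lit 0x0) (nat_lit 0x800040039000c0000400000000000000000000000000000000000000000000) := T_2 (nat_lit 198) (nat_lit 178) (nat_lit 0) (nat_lit 11) (nat_lit 11) L5257 (by decide +kernel)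
theorem L5259 : W_2 (nat_lit 6) (nat_lit 0x1000000024001e001200010001000080000000000000000000000000000000) (nat_lit 0x0) (nat_lit 0x800040039000e0002400000000000000000000000000000000000000000000) := T_2 (nat_lit 197) (nat_lit 181) (nat_lit 2) (nat_lit 7) (nat_lit 11) L5258 (by decide +kernel)
theorem L5260 : W_2 (nat_lit 7) (nat_lit 0x1000000024001e000200010001000080000000000000000000000000000000) (nat_lit 0x0) (nat_lit 0x800040039000e0003c00000000000000000000000000000000000000000000) := T_2 (nat_lit 180) (nat_lit 179) (nat_lit 2) (nat_lit 6) (nat_lit 11) L5259 (by decide +kernel)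
theorem L5261 : W_2 (nat_lit 8) (nat_lit 0x24001e000200010001000080000000000000000000000000000000) (nat_lit 0x0) (nat_lit 0x900048039000e0003c00000000000000000000000000000000000000000000) := T_2 (nat_lit 244) (nat_lit 227) (nat_lit 6) (nat_lit 6) (nat_lit 14) L5260 (by decide +kernel)
theorem L5262 : W_2 (nat_lit 9) (nat_lit 0x4001e000200010001000080000000000000000000000000000000) (nat_lit 0x0) (nat_lit 0x90004803f000e0003c00000000000000000000000000000000000000000000) := T_2 (nat_lit 213) (nat_lit 214) (nat_lit 3) (nat_lit 6) (nat_lit 11) L5261 (by decide +kernel)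
theorem L5263 : W_2 (nat_lit 10) (nat_lit 0x1e000200010001000080000000000000000000000000000000) (nat_lit 0x0) (nat_lit 0x90004803f600e0003c00000000000000000000000000000000000000000000) := T_2 (nat_lit 210) (nat_lit 209) (nat_lit 1) (nat_lit 9) (nat_lit 11) L5262 (by decide +kernel)
theorem L5264 : W_2 (nat_lit 11) (nat_lit 0x1e000200000001000080000000000000000000000000000000) (nat_lit 0x0) (nat_lit 0x90004803f600e0003c00010000800000000000000000000000000000000000) := T_2 (nat_lit 160) (nat_lit 143) (nat_lit 6) (nat_lit 7) (nat_lit 11) L5263 (by decide +kernel)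
theorem L5265 : W_2 (nat_lit 2) (nat_lit 0x24001e000200010001000080000000000000000000000000000000) (nat_lit 0x0) (nat_lit 0x800080020000000000000000000000000000000000000000000000000) := D_2 (nat_lit 211) (nat_lit 197) (nat_lit 227) (nat_lit 1) (nat_lit 10) (nat_lit 11) (nat_lit 5) (nat_lit 7) (nat_lit 9) (by decide +kernel)
theorem L5266 : W_2 (nat_lit 3) (nat_lit 0x20001e000200010001000080000000000000000000000000000000) (nat_lit 0x0) (nat_lit 0x8000e0020000000000000000000000000000000000000000000000000) := T_2 (nat_lit 210) (nat_lit 209) (nat_lit 1) (nat_lit 9) (nat_lit 11) L5265 (by decide +kernel)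
theorem L5267 : W_2 (nat_lit 4) (nat_lit 0x1e000200010001000080000000000000000000000000000000) (nat_lit 0x0) (nat_lit 0x8006e0020000000000000000000000000000000000000000000000000) := T_2 (nat_lit 213) (nat_lit 214) (nat_lit 3) (nat_lit 6) (nat_lit 11) L5266 (by decide +kernel)
theorem L5268 : W_2 (nat_lit 5) (nat_lit 0x1e000200000001000080000000000000000000000000000000) (nat_lit 0x0) (nat_lit 0x8006e0020000000010000800000000000000000000000000000000000) := T_2 (nat_lit 160) (nat_lit 143) (nat_lit 6) (nat_lit 7) (nat_lit 11) L5267 (by decide +kernel)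
theorem L5269 : W_2 (nat_lit 2) (nat_lit 0x3e001200010001000080000000000000000000000000000000) (nat_lit 0x0) (nat_lit 0xe00000000000000000000000000000000000000000000000000000) := D_2 (nat_lit 214) (nat_lit 213) (nat_lit 215) (nat_lit 3) (nat_lit 6) (nat_lit 11) (nat_lit 3) (nat_lit 7) (nat_lit 11) (by decide +kernel)
theorem L5270 : W_2 (nat_lit 3) (nat_lit 0x1e001200010001000080000000000000000000000000000000) (nat_lit 0x0) (nat_lit 0xe00020002000000000000000000000000000000000000000000000) := T_2 (nat_lit 197) (nat_lit 181) (nat_lit 2) (nat_lit 7) (nat_lit 11) L5269 (by decide +kernel)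
theorem L5271 : W_2 (nat_lit 4) (nat_lit 0x1e001200000001000080000000000000000000000000000000) (nat_lit 0x0) (nat_lit 0xe00020002000010000800000000000000000000000000000000000) := T_2 (nat_lit 160) (nat_lit 143) (nat_lit 6) (nat_lit 7) (nat_lit 11) L5270 (by decide +kernel)
theorem L5272 : W_2 (nat_lit 5) (nat_lit 0x1e000200000001000080000000000000000000000000000000) (nat_lit 0x0) (nat_lit 0xe00020003800010000800000000000000000000000000000000000) := T_2 (nat_lit 180) (nat_lit 179) (nat_lit 2) (nat_lit 6) (nat_lit 11) L5271 (by decide +kernel)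
theorem L5273 : W_2 (nat_lit 2) (nat_lit 0x4001e000a00010001000080000000000000000000000000000000) (nat_lit 0x0) (nat_lit 0x10000800080000000000000000000000000000000000000000000000000000) := D_2 (nat_lit 227) (nat_lit 211) (nat_lit 244) (nat_lit 5) (nat_lit 7) (nat_lit 9) (nat_lit 6) (nat_lit 6) (nat_lit 14) (by decide +kernel)
theorem L5274 : W_2 (nat_lit 3) (nat_lit 0x4001e000a00000001000080000000000000000000000000000000) (nat_lit 0x0) (nat_lit 0x10000800080000000000010000800000000000000000000000000000000000) := T_2 (nat_lit 160) (nat_lit 143) (nat_lit 6) (nat_lit 7) (nat_lit 11) L5273 (by decide +kernel)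
theorem L5275 : W_2 (nat_lit 4) (nat_lit 0x1e000a00000001000080000000000000000000000000000000) (nat_lit 0x0) (nat_lit 0x100008000e0000000000010000800000000000000000000000000000000000) := T_2 (nat_lit 210) (nat_lit 209) (nat_lit 1) (nat_lit 9) (nat_lit 11) L5274 (by decide +kernel)
theorem L5276 : W_2 (nat_lit 5) (nat_lit 0x1e000200000001000080000000000000000000000000000000) (nat_lit 0x0) (nat_lit 0x100008000e0000001800010000800000000000000000000000000000000000) := T_2 (nat_lit 179) (nat_lit 180) (nat_lit 2) (nat_lit 6) (nat_lit 11) L5275 (by decide +kernel)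
theorem L5283 : W_2 (nat_lit 3) (nat_lit 0x4000000012000f000280010001000080000000000000000000000000000000) (nat_lit 0x0) (nat_lit 0x10000800040010000000004000000000000000000000000000000000000000) := T_2 (nat_lit 210) (nat_lit 196) (nat_lit 1) (nat_lit 9) (nat_lit 11) L5282 (by decide +kernel)
theorem L5284 : W_2 (nat_lit 4) (nat_lit 0x4000000012000f000200010001000080000000000000000000000000000000) (nat_lit 0x0) (nat_lit 0x100008000400100000c0004000000000000000000000000000000000000000) := T_2 (nat_lit 175) (nat_lit 174) (nat_lit 0) (nat_lit 8) (nat_lit 11) L5283 (by decide +kernel)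
theorem L5285 : W_2 (nat_lit 5) (nat_lit 0x4000000010000f000200010001000080000000000000000000000000000000) (nat_lit 0x0) (nat_lit 0x100008000700100000c0004000000000000000000000000000000000000000) := T_2 (nat_lit 209) (nat_lit 208) (nat_lit 1) (nat_lit 8) (nat_lit 11) L5284 (by decide +kernel)
theorem L5286 : W_2 (nat_lit 6) (nat_lit 0x10000f000200010001000080000000000000000000000000000000) (nat_lit 0x0) (nat_lit 0x500028000700100000c0004000000000000000000000000000000000000000) := T_2 (nat_lit 246) (nat_lit 229) (nat_lit 4) (nat_lit 8) (nat_lit 14) L5285 (by decide +kernel)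
theorem L5287 : W_2 (nat_lit 7) (nat_lit 0x10000f000200000001000080000000000000000000000000000000) (nat_lit 0x0) (nat_lit 0x500028000700100000c0014000800000000000000000000000000000000000) := T_2 (nat_lit 160) (nat_lit 143) (nat_lit 7) (nat_lit 7) (nat_lit 8) L5286 (by decide +kernel)
theorem L5288 : W_2 (nat_lit 8) (nat_lit 0xf000200000001000080000000000000000000000000000000) (nat_lit 0x0) (nat_lit 0x500028003700100000c0014000800000000000000000000000000000000000) := T_2 (nat_lit 212) (nat_lit 213) (nat_lit 3) (nat_lit 5) (nat_lit 11) L5287 (by decide +kernel)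
theorem L5291 : W_2 (nat_lit 3) (nat_lit 0xf000200000001000080000000000000000000000000000000) (nat_lit 0x0) (nat_lit 0x380000800400000000000000000000000000000000000000000000) := T_2 (nat_lit 212) (nat_lit 213) (nat_lit 3) (nat_lit 5) (nat_lit 11) L5290 (by decide +kernel)
theorem L5292 : W_2 (nat_lit 2) (nat_lit 0xf800280000001000080000000000000000000000000000000) (nat_lit 0x0) (nat_lit 0x38000000000000000000000000000000000000000000000000000) := D_2 (nat_lit 208) (nat_lit 207) (nat_lit 209) (nat_lit 1) (nat_lit 7) (nat_lit 11) (nat_lit 1) (nat_lit 8) (nat_lit 11) (by decide +kernel)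
theorem L5293 : W_2 (nat_lit 3) (nat_lit 0xf000280000001000080000000000000000000000000000000) (nat_lit 0x0) (nat_lit 0x38000800400000000000000000000000000000000000000000000) := T_2 (nat_lit 191) (nat_lit 178) (nat_lit 2) (nat_lit 4) (nat_lit 11) L5292 (by decide +kernel)
theorem L5294 : W_2 (nat_lit 4) (nat_lit 0xf000200000001000080000000000000000000000000000000) (nat_lit 0x0) (nat_lit 0x380008004c0000000000000000000000000000000000000000000) := T_2 (nat_lit 175) (nat_lit 174) (nat_lit 0) (nat_lit 8) (nat_lit 11) L5293 (by decide +kernel)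
theorem L5296 : W_2 (nat_lit 2) (nat_lit 0x42001f001280010001000080000000000000000000000000000000) (nat_lit 0x0) (nat_lit 0x800020002000000000000000000000000000000000000000000000) := D_2 (nat_lit 197) (nat_lit 181) (nat_lit 215) (nat_lit 2) (nat_lit 7) (nat_lit 11) (nat_lit 3) (nat_lit 7) (nat_lit 11) (by decide +kernel)
theorem L5297 : W_2 (nat_lit 3) (nat_lit 0x2001f001280010001000080000000000000000000000000000000) (nat_lit 0x0) (nat_lit 0xe00020002000000000000000000000000000000000000000000000) := T_2 (nat_lit 214) (nat_lit 213) (nat_lit 3) (nat_lit 6) (nat_lit 11) L5296 (by decide +kernel)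
theorem L5298 : W_2 (nat_lit 4) (nat_lit 0x2001f000280010001000080000000000000000000000000000000) (nat_lit 0x0) (nat_lit 0xe00020003800000000000000000000000000000000000000000000) := T_2 (nat_lit 180) (nat_lit 179) (nat_lit 2) (nat_lit 6) (nat_lit 11) L5297 (by decide +kernel)
theorem L5299 : W_2 (nat_lit 5) (nat_lit 0x2000f000280010001000080000000000000000000000000000000) (nat_lit 0x0) (nat_lit 0xe40030003800000000000000000000000000000000000000000000) := T_2 (nat_lit 196) (nat_lit 210) (nat_lit 1) (nat_lit 9) (nat_lit 11) L5298 (by decide +kernel)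
theorem L5300 : W_2 (nat_lit 6) (nat_lit 0x2000f000200010001000080000000000000000000000000000000) (nat_lit 0x0) (nat_lit 0xe400300038c0000000000000000000000000000000000000000000) := T_2 (nat_lit 175) (nat_lit 174) (nat_lit 0) (nat_lit 8) (nat_lit 11) L5299 (by decide +kernel)
theorem L5301 : W_2 (nat_lit 7) (nat_lit 0xf000200010001000080000000000000000000000000000000) (nat_lit 0x0) (nat_lit 0xe700300038c0000000000000000000000000000000000000000000) := T_2 (nat_lit 209) (nat_lit 208) (nat_lit 1) (nat_lit 8) (nat_lit 11) L5300 (by decide +kernel)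
theorem L5302 : W_2 (nat_lit 8) (nat_lit 0xf000200000001000080000000000000000000000000000000) (nat_lit 0x0) (nat_lit 0xe700300038c0010000800000000000000000000000000000000000) := T_2 (nat_lit 160) (nat_lit 143) (nat_lit 6) (nat_lit 7) (nat_lit 11) L5301 (by decide +kernel)
theorem L5304 : W_2 (nat_lit 2) (nat_lit 0x6000f000280010001000080000000000000000000000000000000) (nat_lit 0x0) (nat_lit 0x10000800080000000000000000000000000000000000000000000000000000) := D_2 (nat_lit 227) (nat_lit 244) (nat_lit 211) (nat_lit 6) (nat_lit 6) (nat_lit 14) (nat_lit 5) (nat_lit 7) (nat_lit 9) (by decide +kernel)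
theorem L5305 : W_2 (nat_lit 3) (nat_lit 0x2000f000280010001000080000000000000000000000000000000) (nat_lit 0x0) (nat_lit 0x100008000c0010000000000000000000000000000000000000000000000000) := T_2 (nat_lit 210) (nat_lit 196) (nat_lit 1) (nat_lit 9) (nat_lit 11) L5304 (by decide +kernel)
theorem L5306 : W_2 (nat_lit 4) (nat_lit 0x2000f000200010001000080000000000000000000000000000000) (nat_lit 0x0) (nat_lit 0x100008000c00100000c0000000000000000000000000000000000000000000) := T_2 (nat_lit 175) (nat_lit 174) (nat_lit 0) (nat_lit 8) (nat_lit 11) L5305 (by decide +kernel)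
theorem L5307 : W_2 (nat_lit 5) (nat_lit 0xf000200010001000080000000000000000000000000000000) (nat_lit 0x0) (nat_lit 0x100008000f00100000c0000000000000000000000000000000000000000000) := T_2 (nat_lit 209) (nat_lit 208) (nat_lit 1) (nat_lit 8) (nat_lit 11) L5306 (by decide +kernel)
theorem L5308 : W_2 (nat_lit 6) (nat_lit 0xf000200000001000080000000000000000000000000000000) (nat_lit 0x0) (nat_lit 0x100008000f00100000c0010000800000000000000000000000000000000000) := T_2 (nat_lit 160) (nat_lit 143) (nat_lit 6) (nat_lit 7) (nat_lit 11) L5307 (by decide +kernel)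
theorem L5310 : W_2 (nat_lit 2) (nat_lit 0x10000f800200000001000080000000000000000000000000000000) (nat_lit 0x0) (nat_lit 0xe0000000000000000000000000000000000000000000) := D_2 (nat_lit 174) (nat_lit 175) (nat_lit 173) (nat_lit 0) (nat_lit 8) (nat_lit 11) (nat_lit 0) (nat_lit 7) (nat_lit 11) (by decide +kernel)
theorem L5311 : W_2 (nat_lit 3) (nat_lit 0x10000f000200000001000080000000000000000000000000000000) (nat_lit 0x0) (nat_lit 0x800008000e0000000000000000000000000000000000000000000) := T_2 (nat_lit 191) (nat_lit 211) (nat_lit 3) (nat_lit 4) (nat_lit 11) L5310 (by decide +kernel)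
theorem L5312 : W_2 (nat_lit 4) (nat_lit 0xf000200000001000080000000000000000000000000000000) (nat_lit 0x0) (nat_lit 0x3800008000e0000000000000000000000000000000000000000000) := T_2 (nat_lit 212) (nat_lit 213) (nat_lit 3) (nat_lit 5) (nat_lit 11) L5311 (by decide +kernel)
theorem L5315 : W_2 (nat_lit 2) (nat_lit 0xc000380000001000080000000000000000000000000000000) (nat_lit 0x0) (nat_lit 0x32000000000000000000000000000000000000000000000000) := D_2 (nat_lit 196) (nat_lit 197) (nat_lit 193) (nat_lit 0) (nat_lit 10) (nat_lit 11) (nat_lit 0) (nat_lit 9) (nat_lit 11) (by decide +kernel)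
theorem L5316 : W_2 (nat_lit 3) (nat_lit 0xc000300000001000080000000000000000000000000000000) (nat_lit 0x0) (nat_lit 0x320000c0000000000000000000000000000000000000000000) := T_2 (nat_lit 175) (nat_lit 174) (nat_lit 3) (nat_lit 4) (nat_lit 10) L5315 (by decide +kernel)
theorem L5317 : W_2 (nat_lit 2) (nat_lit 0xc000300010001400080000000000000000000000000000000) (nat_lit 0x0) (nat_lit 0x80000000000008000000020000000000000000000000000000000) := D_2 (nat_lit 159) (nat_lit 211) (nat_lit 125) (nat_lit 4) (nat_lit 7) (nat_lit 12) (nat_lit 7) (nat_lit 6) (nat_lit 7) (by decide +kernel)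
theorem L5318 : W_2 (nat_lit 3) (nat_lit 0xc000300000001400080000000000000000000000000000000) (nat_lit 0x0) (nat_lit 0x80000000000018000800020000000000000000000000000000000) := T_2 (nat_lit 160) (nat_lit 143) (nat_lit 6) (nat_lit 7) (nat_lit 11) L5317 (by decide +kernel)
theorem L5319 : W_2 (nat_lit 2) (nat_lit 0xc000300008001400080000000000000000000000000000000) (nat_lit 0x0) (nat_lit 0x1000080000000000010000000000000000000000000000000000000000) := D_2 (nat_lit 211) (nat_lit 228) (nat_lit 160) (nat_lit 4) (nat_lit 7) (nat_lit 13) (nat_lit 4) (nat_lit 7) (nat_lit 12) (by decide +kernel)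
theorem L5320 : W_2 (nat_lit 3) (nat_lit 0xc000300000001400080000000000000000000000000000000) (nat_lit 0x0) (nat_lit 0x1000080000000000018000000020000000000000000000000000000000) := T_2 (nat_lit 159) (nat_lit 125) (nat_lit 7) (nat_lit 6) (nat_lit 7) L5319 (by decide +kernel)
theorem L5322 : W_2 (nat_lit 3) (nat_lit 0xc000340000001400080000000000000000000000000000000) (nat_lit 0x0) (nat_lit 0x1000080002000000008000000020000000000000000000000000000000) := T_2 (nat_lit 159) (nat_lit 125) (nat_lit 7) (nat_lit 6) (nat_lit 7) L5321 (by decide +kernel)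
theorem L5323 : W_2 (nat_lit 4) (nat_lit 0xc000300000001400080000000000000000000000000000000) (nat_lit 0x0) (nat_lit 0x10000800020000c0008000000020000000000000000000000000000000) := T_2 (nat_lit 174) (nat_lit 175) (nat_lit 3) (nat_lit 4) (nat_lit 10) L5322 (by decide +kernel)
theorem L5338 : W_2 (nat_lit 2) (nat_lit 0x8000c000300010001000080000000000000000000000000000000) (nat_lit 0x0) (nat_lit 0x1000000000000000008000400000000000000000000000000000000000) := D_2 (nat_lit 159) (nat_lit 228) (nat_lit 142) (nat_lit 4) (nat_lit 7) (nat_lit 13) (nat_lit 4) (nat_lit 7) (nat_lit 12) (by decide +kernel)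
theorem L5339 : W_2 (nat_lit 3) (nat_lit 0x8000c000300000001000080000000000000000000000000000000) (nat_lit 0x0) (nat_lit 0x1000000000000000018000c00000000000000000000000000000000000) := T_2 (nat_lit 160) (nat_lit 143) (nat_lit 6) (nat_lit 7) (nat_lit 11) L5338 (by decide +kernel)
theorem L5340 : W_2 (nat_lit 2) (nat_lit 0x300008002c000300010001000080000000000000000000000000000000) (nat_lit 0x0) (nat_lit 0x10000800040000000000000000000000000000000000000000000000000000) := D_2 (nat_lit 227) (nat_lit 210) (nat_lit 244) (nat_lit 5) (nat_lit 7) (nat_lit 9) (nat_lit 5) (nat_lit 7) (nat_lit 10) (by decide +kernel)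
theorem L5341 : W_2 (nat_lit 3) (nat_lit 0x300008002c000300000001000080000000000000000000000000000000) (nat_lit 0x0) (nat_lit 0x10000800140000000000010000000000000000000000000000000000000000) := T_2 (nat_lit 160) (nat_lit 212) (nat_lit 7) (nat_lit 7) (nat_lit 9) L5340 (by decide +kernel)
theorem L5342 : W_2 (nat_lit 4) (nat_lit 0x100008002c000300000001000080000000000000000000000000000000) (nat_lit 0x0) (nat_lit 0x50002800140000000000010000000000000000000000000000000000000000) := T_2 (nat_lit 229) (nat_lit 246) (nat_lit 7) (nat_lit 7) (nat_lit 10) L5341 (by decide +kernel)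
theorem L5343 : W_2 (nat_lit 5) (nat_lit 0x100008000c000300000001000080000000000000000000000000000000) (nat_lit 0x0) (nat_lit 0x50002800140030000000010000000000000000000000000000000000000000) := T_2 (nat_lit 197) (nat_lit 196) (nat_lit 0) (nat_lit 10) (nat_lit 11) L5342 (by decide +kernel)
theorem L5344 : W_2 (nat_lit 6) (nat_lit 0x8000c000300000001000080000000000000000000000000000000) (nat_lit 0x0) (nat_lit 0x50003800140030000000018000000000000000000000000000000000000000) := T_2 (nat_lit 228) (nat_lit 159) (nat_lit 4) (nat_lit 7) (nat_lit 13) L5343 (by decide +kernel)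
theorem L5345 : W_2 (nat_lit 2) (nat_lit 0x60001c0018002c000300000001000080000000000000000000000000000000) (nat_lit 0x0) (nat_lit 0x640000000000000000000000000000000000000000000000000000) := D_2 (nat_lit 213) (nat_lit 214) (nat_lit 210) (nat_lit 1) (nat_lit 10) (nat_lit 12) (nat_lit 1) (nat_lit 9) (nat_lit 12) (by decide +kernel)
theorem L5346 : W_2 (nat_lit 3) (nat_lit 0x6000180018002c000300000001000080000000000000000000000000000000) (nat_lit 0x0) (nat_lit 0x600640000000000000000000000000000000000000000000000000000) := T_2 (nat_lit 226) (nat_lit 225) (nat_lit 3) (nat_lit 4) (nat_lit 13) L5345 (by decide +kernel)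
theorem L5347 : W_2 (nat_lit 4) (nat_lit 0x6000180008002c000300000001000080000000000000000000000000000000) (nat_lit 0x0) (nat_lit 0x400000000600740000000000000000000000000000000000000000000000000000) := T_2 (nat_lit 212) (nat_lit 262) (nat_lit 6) (nat_lit 7) (nat_lit 15) L5346 (by decide +kernel)
theorem L5348 : W_2 (nat_lit 5) (nat_lit 0x4000180008002c000300000001000080000000000000000000000000000000) (nat_lit 0x0) (nat_lit 0xc00020000600740000000000000000000000000000000000000000000000000000) := T_2 (nat_lit 245) (nat_lit 263) (nat_lit 7) (nat_lit 7) (nat_lit 11) L5347 (by decide +kernel)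
theorem L5349 : W_2 (nat_lit 6) (nat_lit 0x4000100008002c000300000001000080000000000000000000000000000000) (nat_lit 0x0) (nat_lit 0xc00030000e00740000000000000000000000000000000000000000000000000000) := T_2 (nat_lit 227) (nat_lit 244) (nat_lit 5) (nat_lit 7) (nat_lit 10) L5348 (by decide +kernel)
theorem L5350 : W_2 (nat_lit 7) (nat_lit 0x100008002c000300000001000080000000000000000000000000000000) (nat_lit 0x0) (nat_lit 0xc00070002e00740000000000000000000000000000000000000000000000000000) := T_2 (nat_lit 246) (nat_lit 229) (nat_lit 7) (nat_lit 7) (nat_lit 10) L5349 (by decide +kernel)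
theorem L5351 : W_2 (nat_lit 8) (nat_lit 0x100008000c000300000001000080000000000000000000000000000000) (nat_lit 0x0) (nat_lit 0xc00070002e00740030000000000000000000000000000000000000000000000000) := T_2 (nat_lit 197) (nat_lit 196) (nat_lit 0) (nat_lit 10) (nat_lit 11) L5350 (by decide +kernel)
theorem L5352 : W_2 (nat_lit 9) (nat_lit 0x8000c000300000001000080000000000000000000000000000000) (nat_lit 0x0) (nat_lit 0xc00070003e00740030000000008000000000000000000000000000000000000000) := T_2 (nat_lit 228) (nat_lit 159) (nat_lit 4) (nat_lit 7) (nat_lit 13) L5351 (by decide +kernel)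
theorem L5353 : W_2 (nat_lit 2) (nat_lit 0xe000c000340010001000080000000000000000000000000000000) (nat_lit 0x0) (nat_lit 0x100030000000000000000000000000000000000000000000000000) := D_2 (nat_lit 196) (nat_lit 197) (nat_lit 212) (nat_lit 1) (nat_lit 10) (nat_lit 11) (nat_lit 2) (nat_lit 5) (nat_lit 12) (by decide +kernel)
theorem L5354 : W_2 (nat_lit 3) (nat_lit 0xc000c000340010001000080000000000000000000000000000000) (nat_lit 0x0) (nat_lit 0x130030000000000000000000000000000000000000000000000000) := T_2 (nat_lit 209) (nat_lit 208) (nat_lit 2) (nat_lit 4) (nat_lit 12) L5353 (by decide +kernel)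
theorem L5355 : W_2 (nat_lit 4) (nat_lit 0x8000c000340010001000080000000000000000000000000000000) (nat_lit 0x0) (nat_lit 0x800170030000000000000000000000000000000000000000000000000) := T_2 (nat_lit 210) (nat_lit 227) (nat_lit 5) (nat_lit 7) (nat_lit 9) L5354 (by decide +kernel)
theorem L5356 : W_2 (nat_lit 5) (nat_lit 0x8000c000340000001000080000000000000000000000000000000) (nat_lit 0x0) (nat_lit 0x800170030000000010000800000000000000000000000000000000000) := T_2 (nat_lit 160) (nat_lit 143) (nat_lit 6) (nat_lit 7) (nat_lit 11) L5355 (by decide +kernel)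
theorem L5357 : W_2 (nat_lit 6) (nat_lit 0x8000c000300000001000080000000000000000000000000000000) (nat_lit 0x0) (nat_lit 0x8001700300000c0010000800000000000000000000000000000000000) := T_2 (nat_lit 174) (nat_lit 175) (nat_lit 3) (nat_lit 4) (nat_lit 10) L5356 (by decide +kernel)
theorem L5359 : W_2 (nat_lit 2) (nat_lit 0xc000300008001400080000000000000000000000000000000) (nat_lit 0x0) (nat_lit 0x1000080002000000000000000000000000000000000000000000000000) := D_2 (nat_lit 211) (nat_lit 228) (nat_lit 193) (nat_lit 4) (nat_lit 7) (nat_lit 13) (nat_lit 7) (nat_lit 6) (nat_lit 8) (by decide +kernel)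
theorem L5360 : W_2 (nat_lit 3) (nat_lit 0xc000300000001400080000000000000000000000000000000) (nat_lit 0x0) (nat_lit 0x1000080002000000008000000020000000000000000000000000000000) := T_2 (nat_lit 159) (nat_lit 125) (nat_lit 7) (nat_lit 6) (nat_lit 7) L5359 (by decide +kernel)
theorem L5379 : W_2 (nat_lit 2) (nat_lit 0xe000c000300010001000080000000000000000000000000000000) (nat_lit 0x0) (nat_lit 0x100030000000000000000000000000000000000000000000000000) := D_2 (nat_lit 196) (nat_lit 197) (nat_lit 212) (nat_lit 1) (nat_lit 10) (nat_lit 11) (nat_lit 2) (nat_lit 5) (nat_lit 12) (by decide +kernel)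
theorem L5380 : W_2 (nat_lit 3) (nat_lit 0xc000c000300010001000080000000000000000000000000000000) (nat_lit 0x0) (nat_lit 0x130030000000000000000000000000000000000000000000000000) := T_2 (nat_lit 209) (nat_lit 208) (nat_lit 2) (nat_lit 4) (nat_lit 12) L5379 (by decide +kernel)
theorem L5381 : W_2 (nat_lit 4) (nat_lit 0x8000c000300010001000080000000000000000000000000000000) (nat_lit 0x0) (nat_lit 0x800170030000000000000000000000000000000000000000000000000) := T_2 (nat_lit 210) (nat_lit 227) (nat_lit 5) (nat_lit 7) (nat_lit 9) L5380 (by decide +kernel)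
theorem L5382 : W_2 (nat_lit 5) (nat_lit 0x8000c000300000001000080000000000000000000000000000000) (nat_lit 0x0) (nat_lit 0x800170030000000010000800000000000000000000000000000000000) := T_2 (nat_lit 160) (nat_lit 143) (nat_lit 6) (nat_lit 7) (nat_lit 11) L5381 (by decide +kernel)
theorem L5384 : W_2 (nat_lit 2) (nat_lit 0x300008000c000340010001000080000000000000000000000000000000) (nat_lit 0x0) (nat_lit 0x10000800040000000000000000000000000000000000000000000000000000) := D_2 (nat_lit 227) (nat_lit 210) (nat_lit 244) (nat_lit 5) (nat_lit 7) (nat_lit 9) (nat_lit 5) (nat_lit 7) (nat_lit 10) (by decide +kernel)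
theorem L5385 : W_2 (nat_lit 3) (nat_lit 0x300008000c000340000001000080000000000000000000000000000000) (nat_lit 0x0) (nat_lit 0x10000800140000000000010000000000000000000000000000000000000000) := T_2 (nat_lit 160) (nat_lit 212) (nat_lit 7) (nat_lit 7) (nat_lit 9) L5384 (by decide +kernel)
theorem L5386 : W_2 (nat_lit 4) (nat_lit 0x100008000c000340000001000080000000000000000000000000000000) (nat_lit 0x0) (nat_lit 0x50002800140000000000010000000000000000000000000000000000000000) := T_2 (nat_lit 229) (nat_lit 246) (nat_lit 7) (nat_lit 7) (nat_lit 10) L5385 (by decide +kernel)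
theorem L5387 : W_2 (nat_lit 5) (nat_lit 0x100008000c000300000001000080000000000000000000000000000000) (nat_lit 0x0) (nat_lit 0x500028001400000000c0010000000000000000000000000000000000000000) := T_2 (nat_lit 174) (nat_lit 175) (nat_lit 3) (nat_lit 4) (nat_lit 10) L5386 (by decide +kernel)
theorem L5388 : W_2 (nat_lit 6) (nat_lit 0x8000c000300000001000080000000000000000000000000000000) (nat_lit 0x0) (nat_lit 0x500038001400000000c0018000000000000000000000000000000000000000) := T_2 (nat_lit 228) (nat_lit 159) (nat_lit 4) (nat_lit 7) (nat_lit 13) L5387 (by decide +kernel)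
theorem L5389 : W_2 (nat_lit 2) (nat_lit 0xe000200038000c000c000340000001000080000000000000000000000000000000) (nat_lit 0x0) (nat_lit 0x4000030000000000000000000000000000000000000000000000000000) := D_2 (nat_lit 209) (nat_lit 208) (nat_lit 230) (nat_lit 3) (nat_lit 4) (nat_lit 12) (nat_lit 0) (nat_lit 9) (nat_lit 13) (by decide +kernel)
theorem L5390 : W_2 (nat_lit 3) (nat_lit 0xe0002000380008000c000340000001000080000000000000000000000000000000) (nat_lit 0x0) (nat_lit 0x8000000000004000070000000000000000000000000000000000000000000000000000) := T_2 (nat_lit 210) (nat_lit 279) (nat_lit 4) (nat_lit 7) (nat_lit 16) L5389 (by decide +kernel)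
theorem L5391 : W_2 (nat_lit 4) (nat_lit 0x60002000380008000c000340000001000080000000000000000000000000000000) (nat_lit 0x0) (nat_lit 0x18000800000004000070000000000000000000000000000000000000000000000000000) := T_2 (nat_lit 263) (nat_lit 280) (nat_lit 7) (nat_lit 7) (nat_lit 12) L5390 (by decide +kernel)
theorem L5392 : W_2 (nat_lit 5) (nat_lit 0x40002000380008000c000340000001000080000000000000000000000000000000) (nat_lit 0x0) (nat_lit 0x1c000a00000004000070000000000000000000000000000000000000000000000000000) := T_2 (nat_lit 261) (nat_lit 278) (nat_lit 5) (nat_lit 7) (nat_lit 12) L5391 (by decide +kernel)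
theorem L5393 : W_2 (nat_lit 6) (nat_lit 0x2000380008000c000340000001000080000000000000000000000000000000) (nat_lit 0x0) (nat_lit 0x1c000e00000004000170000000000000000000000000000000000000000000000000000) := T_2 (nat_lit 262) (nat_lit 212) (nat_lit 6) (nat_lit 7) (nat_lit 15) L5392 (by decide +kernel)
theorem L5394 : W_2 (nat_lit 7) (nat_lit 0x380008000c000340000001000080000000000000000000000000000000) (nat_lit 0x0) (nat_lit 0x1c000e00020004000170000000400000000000000000000000000000000000000000000) := T_2 (nat_lit 245) (nat_lit 178) (nat_lit 6) (nat_lit 7) (nat_lit 14) L5393 (by decide +kernel)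
theorem L5395 : W_2 (nat_lit 8) (nat_lit 0x180008000c000340000001000080000000000000000000000000000000) (nat_lit 0x0) (nat_lit 0x1c000e00060006000170000000400000000000000000000000000000000000000000000) := T_2 (nat_lit 229) (nat_lit 246) (nat_lit 7) (nat_lit 7) (nat_lit 10) L5394 (by decide +kernel)
theorem L5396 : W_2 (nat_lit 9) (nat_lit 0x100008000c000340000001000080000000000000000000000000000000) (nat_lit 0x0) (nat_lit 0x1c000e00070006800170000000400000000000000000000000000000000000000000000) := T_2 (nat_lit 227) (nat_lit 244) (nat_lit 5) (nat_lit 7) (nat_lit 10) L5395 (by decide +kernel)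
theorem L5397 : W_2 (nat_lit 10) (nat_lit 0x8000c000340000001000080000000000000000000000000000000) (nat_lit 0x0) (nat_lit 0x1c000e00070007800170000000400008000000000000000000000000000000000000000) := T_2 (nat_lit 228) (nat_lit 159) (nat_lit 4) (nat_lit 7) (nat_lit 13) L5396 (by decide +kernel)
theorem L5398 : W_2 (nat_lit 11) (nat_lit 0x8000c000300000001000080000000000000000000000000000000) (nat_lit 0x0) (nat_lit 0x1c000e000700078001700000004c0008000000000000000000000000000000000000000) := T_2 (nat_lit 174) (nat_lit 175) (nat_lit 3) (nat_lit 4) (nat_lit 10) L5397 (by decide +kernel)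
theorem L5399 : W_2 (nat_lit 2) (nat_lit 0x4001e000d000300010001000080000000000000000000000000000000) (nat_lit 0x0) (nat_lit 0x80008000400000000000000000000000000000000000) := D_2 (nat_lit 159) (nat_lit 142) (nat_lit 175) (nat_lit 4) (nat_lit 7) (nat_lit 12) (nat_lit 6) (nat_lit 5) (nat_lit 13) (by decide +kernel)
theorem L5400 : W_2 (nat_lit 3) (nat_lit 0x4001e000c000300010001000080000000000000000000000000000000) (nat_lit 0x0) (nat_lit 0x1800080008000400000000000000000000000000000000000) := T_2 (nat_lit 192) (nat_lit 191) (nat_lit 0) (nat_lit 8) (nat_lit 12) L5399 (by decide +kernel)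
theorem L5401 : W_2 (nat_lit 4) (nat_lit 0x1e000c000300010001000080000000000000000000000000000000) (nat_lit 0x0) (nat_lit 0x600000001800080008000400000000000000000000000000000000000) := T_2 (nat_lit 226) (nat_lit 225) (nat_lit 1) (nat_lit 8) (nat_lit 12) L5400 (by decide +kernel)
theorem L5402 : W_2 (nat_lit 5) (nat_lit 0xe000c000300010001000080000000000000000000000000000000) (nat_lit 0x0) (nat_lit 0x2600100001800080008000400000000000000000000000000000000000) := T_2 (nat_lit 212) (nat_lit 229) (nat_lit 7) (nat_lit 7) (nat_lit 9) L5401 (by decide +kernel)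
theorem L5403 : W_2 (nat_lit 6) (nat_lit 0xc000c000300010001000080000000000000000000000000000000) (nat_lit 0x0) (nat_lit 0x2600130001800080008000400000000000000000000000000000000000) := T_2 (nat_lit 209) (nat_lit 208) (nat_lit 2) (nat_lit 4) (nat_lit 12) L5402 (by decide +kernel)
theorem L5404 : W_2 (nat_lit 7) (nat_lit 0x8000c000300010001000080000000000000000000000000000000) (nat_lit 0x0) (nat_lit 0x2e00170001800080008000400000000000000000000000000000000000) := T_2 (nat_lit 210) (nat_lit 227) (nat_lit 5) (nat_lit 7) (nat_lit 9) L5403 (by decide +kernel)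
theorem L5405 : W_2 (nat_lit 8) (nat_lit 0x8000c000300000001000080000000000000000000000000000000) (nat_lit 0x0) (nat_lit 0x2e00170001800080018000c00000000000000000000000000000000000) := T_2 (nat_lit 160) (nat_lit 143) (nat_lit 6) (nat_lit 7) (nat_lit 11) L5404 (by decide +kernel)
theorem L5406 : W_2 (nat_lit 2) (nat_lit 0x180018000c000300010001000080000000000000000000000000000000) (nat_lit 0x0) (nat_lit 0x400020000000000000000400000000000000000000000000000000000000000000) := D_2 (nat_lit 245) (nat_lit 178) (nat_lit 262) (nat_lit 6) (nat_lit 7) (nat_lit 14) (nat_lit 6) (nat_lit 7) (nat_lit 15) (by decide +kernel)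
theorem L5407 : W_2 (nat_lit 3) (nat_lit 0x80018000c000300010001000080000000000000000000000000000000) (nat_lit 0x0) (nat_lit 0x400030001000000000000400000000000000000000000000000000000000000000) := T_2 (nat_lit 228) (nat_lit 244) (nat_lit 5) (nat_lit 7) (nat_lit 10) L5406 (by decide +kernel)
theorem L5408 : W_2 (nat_lit 4) (nat_lit 0x80008000c000300010001000080000000000000000000000000000000) (nat_lit 0x0) (nat_lit 0x400030003000100000000400000000000000000000000000000000000000000000) := T_2 (nat_lit 212) (nat_lit 229) (nat_lit 7) (nat_lit 7) (nat_lit 9) L5407 (by decide +kernel)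
theorem L5409 : W_2 (nat_lit 5) (nat_lit 0x8000c000300010001000080000000000000000000000000000000) (nat_lit 0x0) (nat_lit 0x400030003800140000000400000000000000000000000000000000000000000000) := T_2 (nat_lit 227) (nat_lit 210) (nat_lit 5) (nat_lit 7) (nat_lit 9) L5408 (by decide +kernel)
theorem L5410 : W_2 (nat_lit 6) (nat_lit 0x8000c000300000001000080000000000000000000000000000000) (nat_lit 0x0) (nat_lit 0x400030003800140000000400010000800000000000000000000000000000000000) := T_2 (nat_lit 160) (nat_lit 143) (nat_lit 6) (nat_lit 7) (nat_lit 11) L5409 (by decide +kernel)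
theorem L5422 : W_2 (nat_lit 2) (nat_lit 0x100018000c000200018001000080000000000000000000000000000000) (nat_lit 0x0) (nat_lit 0x10000800040000000000000000000000000000000000000000000000000000) := D_2 (nat_lit 227) (nat_lit 210) (nat_lit 244) (nat_lit 5) (nat_lit 7) (nat_lit 9) (nat_lit 5) (nat_lit 7) (nat_lit 10) (by decide +kernel)
theorem L5423 : W_2 (nat_lit 3) (nat_lit 0x18000c000200018001000080000000000000000000000000000000) (nat_lit 0x0) (nat_lit 0x10001800040000000100000000000000000000000000000000000000000000) := T_2 (nat_lit 228) (nat_lit 176) (nat_lit 4) (nat_lit 7) (nat_lit 13) L5422 (by decide +kernel)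
theorem L5424 : W_2 (nat_lit 4) (nat_lit 0x8000c000200018001000080000000000000000000000000000000) (nat_lit 0x0) (nat_lit 0x10003800140000000100000000000000000000000000000000000000000000) := T_2 (nat_lit 212) (nat_lit 229) (nat_lit 7) (nat_lit 7) (nat_lit 9) L5423 (by decide +kernel)
theorem L5425 : W_2 (nat_lit 5) (nat_lit 0x8000c000200010001000080000000000000000000000000000000) (nat_lit 0x0) (nat_lit 0x10003800140000000100008000400000000000000000000000000000000000) := T_2 (nat_lit 159) (nat_lit 142) (nat_lit 4) (nat_lit 7) (nat_lit 12) L5424 (by decide +kernel)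
theorem L5426 : W_2 (nat_lit 2) (nat_lit 0x2000200030000d000c000200018001000080000000000000000000000000000000) (nat_lit 0x0) (nat_lit 0x4000400000000000000002000000000000000000000000000000000000000000000000) := D_2 (nat_lit 262) (nat_lit 193) (nat_lit 278) (nat_lit 4) (nat_lit 7) (nat_lit 15) (nat_lit 5) (nat_lit 7) (nat_lit 12) (by decide +kernel)
theorem L5427 : W_2 (nat_lit 3) (nat_lit 0x200030000d000c000200018001000080000000000000000000000000000000) (nat_lit 0x0) (nat_lit 0x4000600010000000000002000000000000000000000000000000000000000000000000) := T_2 (nat_lit 261) (nat_lit 244) (nat_lit 5) (nat_lit 7) (nat_lit 11) L5426 (by decide +kernel)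
theorem L5428 : W_2 (nat_lit 4) (nat_lit 0x30000d000c000200018001000080000000000000000000000000000000) (nat_lit 0x0) (nat_lit 0x4000600030000000000002000400000000000000000000000000000000000000000000) := T_2 (nat_lit 245) (nat_lit 178) (nat_lit 6) (nat_lit 7) (nat_lit 14) L5427 (by decide +kernel)
theorem L5429 : W_2 (nat_lit 5) (nat_lit 0x20000d000c000200018001000080000000000000000000000000000000) (nat_lit 0x0) (nat_lit 0x4000600070001000000002000400000000000000000000000000000000000000000000) := T_2 (nat_lit 228) (nat_lit 246) (nat_lit 7) (nat_lit 7) (nat_lit 10) L5428 (by decide +kernel)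
theorem L5430 : W_2 (nat_lit 6) (nat_lit 0x20000d000c000200010001000080000000000000000000000000000000) (nat_lit 0x0) (nat_lit 0x4000600070001000000002000400008000400000000000000000000000000000000000) := T_2 (nat_lit 159) (nat_lit 142) (nat_lit 4) (nat_lit 7) (nat_lit 12) L5429 (by decide +kernel)
theorem L5431 : W_2 (nat_lit 7) (nat_lit 0xd000c000200010001000080000000000000000000000000000000) (nat_lit 0x0) (nat_lit 0x4000600070003000100002000400008000400000000000000000000000000000000000) := T_2 (nat_lit 229) (nat_lit 212) (nat_lit 7) (nat_lit 7) (nat_lit 9) L5430 (by decide +kernel)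
theorem L5432 : W_2 (nat_lit 8) (nat_lit 0xc000c000200010001000080000000000000000000000000000000) (nat_lit 0x0) (nat_lit 0x4000600070003000130002000400008000400000000000000000000000000000000000) := T_2 (nat_lit 208) (nat_lit 209) (nat_lit 2) (nat_lit 4) (nat_lit 12) L5431 (by decide +kernel)
theorem L5433 : W_2 (nat_lit 9) (nat_lit 0x8000c000200010001000080000000000000000000000000000000) (nat_lit 0x0) (nat_lit 0x4000600070003800170002000400008000400000000000000000000000000000000000) := T_2 (nat_lit 210) (nat_lit 227) (nat_lit 5) (nat_lit 7) (nat_lit 9) L5432 (by decide +kernel)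
theorem L5434 : W_2 (nat_lit 2) (nat_lit 0x4007e000d000200010001000080000000000000000000000000000000) (nat_lit 0x0) (nat_lit 0x1c000000000000000000000000000000000000000000000000000000000) := D_2 (nat_lit 231) (nat_lit 230) (nat_lit 232) (nat_lit 3) (nat_lit 6) (nat_lit 12) (nat_lit 3) (nat_lit 7) (nat_lit 12) (by decide +kernel)
theorem L5435 : W_2 (nat_lit 3) (nat_lit 0x4003e000d000200010001000080000000000000000000000000000000) (nat_lit 0x0) (nat_lit 0x1c000c00000000000000000000000000000000000000000000000000000) := T_2 (nat_lit 214) (nat_lit 215) (nat_lit 0) (nat_lit 11) (nat_lit 12) L5434 (by decide +kernel)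
theorem L5436 : W_2 (nat_lit 4) (nat_lit 0x4001e000d000200010001000080000000000000000000000000000000) (nat_lit 0x0) (nat_lit 0x1c000e00002000000000000000000000000000000000000000000000000) := T_2 (nat_lit 213) (nat_lit 193) (nat_lit 3) (nat_lit 5) (nat_lit 11) L5435 (by decide +kernel)
theorem L5437 : W_2 (nat_lit 5) (nat_lit 0x4001e000c000200010001000080000000000000000000000000000000) (nat_lit 0x0) (nat_lit 0x1c000e00003800000000000000000000000000000000000000000000000) := T_2 (nat_lit 192) (nat_lit 191) (nat_lit 0) (nat_lit 8) (nat_lit 12) L5436 (by decide +kernel)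
theorem L5438 : W_2 (nat_lit 6) (nat_lit 0x1e000c000200010001000080000000000000000000000000000000) (nat_lit 0x0) (nat_lit 0x1c600e00003800000000000000000000000000000000000000000000000) := T_2 (nat_lit 226) (nat_lit 225) (nat_lit 1) (nat_lit 8) (nat_lit 12) L5437 (by decide +kernel)
theorem L5439 : W_2 (nat_lit 7) (nat_lit 0x1c000c000200010001000080000000000000000000000000000000) (nat_lit 0x0) (nat_lit 0x1c600e30003800000000000000000000000000000000000000000000000) := T_2 (nat_lit 209) (nat_lit 208) (nat_lit 2) (nat_lit 4) (nat_lit 12) L5438 (by decide +kernel)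
theorem L5440 : W_2 (nat_lit 8) (nat_lit 0x18000c000200010001000080000000000000000000000000000000) (nat_lit 0x0) (nat_lit 0x1ce00e70003800000000000000000000000000000000000000000000000) := T_2 (nat_lit 210) (nat_lit 227) (nat_lit 5) (nat_lit 7) (nat_lit 9) L5439 (by decide +kernel)
theorem L5441 : W_2 (nat_lit 9) (nat_lit 0x8000c000200010001000080000000000000000000000000000000) (nat_lit 0x0) (nat_lit 0x1ee00f70003800000000000000000000000000000000000000000000000) := T_2 (nat_lit 212) (nat_lit 229) (nat_lit 7) (nat_lit 7) (nat_lit 9) L5440 (by decide +kernel)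
theorem L5442 : W_2 (nat_lit 2) (nat_lit 0x100018000c000200018001000080000000000000000000000000000000) (nat_lit 0x0) (nat_lit 0x400020000000000000000400000000000000000000000000000000000000000000) := D_2 (nat_lit 245) (nat_lit 178) (nat_lit 262) (nat_lit 6) (nat_lit 7) (nat_lit 14) (nat_lit 6) (nat_lit 7) (nat_lit 15) (by decide +kernel)
theorem L5443 : W_2 (nat_lit 3) (nat_lit 0x18000c000200018001000080000000000000000000000000000000) (nat_lit 0x0) (nat_lit 0x400020001000000000000500000000000000000000000000000000000000000000) := T_2 (nat_lit 228) (nat_lit 176) (nat_lit 4) (nat_lit 7) (nat_lit 13) L5442 (by decide +kernel)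
theorem L5444 : W_2 (nat_lit 4) (nat_lit 0x8000c000200018001000080000000000000000000000000000000) (nat_lit 0x0) (nat_lit 0x400020003000100000000500000000000000000000000000000000000000000000) := T_2 (nat_lit 212) (nat_lit 229) (nat_lit 7) (nat_lit 7) (nat_lit 9) L5443 (by decide +kernel)
theorem L5445 : W_2 (nat_lit 5) (nat_lit 0x8000c000200010001000080000000000000000000000000000000) (nat_lit 0x0) (nat_lit 0x400020003000100000000500008000400000000000000000000000000000000000) := T_2 (nat_lit 159) (nat_lit 142) (nat_lit 4) (nat_lit 7) (nat_lit 12) L5444 (by decide +kernel)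
theorem L5446 : W_2 (nat_lit 2) (nat_lit 0x200010000d000c000200018001000080000000000000000000000000000000) (nat_lit 0x0) (nat_lit 0x400000000000100002000000000000000000000000000000000000000000000000) := D_2 (nat_lit 262) (nat_lit 193) (nat_lit 212) (nat_lit 4) (nat_lit 7) (nat_lit 15) (nat_lit 6) (nat_lit 7) (nat_lit 15) (by decide +kernel)
theorem L5447 : W_2 (nat_lit 3) (nat_lit 0x10000d000c000200018001000080000000000000000000000000000000) (nat_lit 0x0) (nat_lit 0x400020000000100002000400000000000000000000000000000000000000000000) := T_2 (nat_lit 245) (nat_lit 178) (nat_lit 6) (nat_lit 7) (nat_lit 14) L5446 (by decide +kernel)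
theorem L5448 : W_2 (nat_lit 4) (nat_lit 0xd000c000200018001000080000000000000000000000000000000) (nat_lit 0x0) (nat_lit 0x400020001000100002000500000000000000000000000000000000000000000000) := T_2 (nat_lit 228) (nat_lit 176) (nat_lit 4) (nat_lit 7) (nat_lit 13) L5447 (by decide +kernel)
theorem L5449 : W_2 (nat_lit 5) (nat_lit 0xc000c000200018001000080000000000000000000000000000000) (nat_lit 0x0) (nat_lit 0x400020001000130002000500000000000000000000000000000000000000000000) := T_2 (nat_lit 208) (nat_lit 209) (nat_lit 2) (nat_lit 4) (nat_lit 12) L5448 (by decide +kernel)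
theorem L5450 : W_2 (nat_lit 6) (nat_lit 0x8000c000200018001000080000000000000000000000000000000) (nat_lit 0x0) (nat_lit 0x400020001800170002000500000000000000000000000000000000000000000000) := T_2 (nat_lit 210) (nat_lit 227) (nat_lit 5) (nat_lit 7) (nat_lit 9) L5449 (by decide +kernel)
theorem L5451 : W_2 (nat_lit 7) (nat_lit 0x8000c000200010001000080000000000000000000000000000000) (nat_lit 0x0) (nat_lit 0x400020001800170002000500008000400000000000000000000000000000000000) := T_2 (nat_lit 159) (nat_lit 142) (nat_lit 4) (nat_lit 7) (nat_lit 12) L5450 (by decide +kernel)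
theorem L5452 : W_2 (nat_lit 2) (nat_lit 0x200010000d000c000200018001000080000000000000000000000000000000) (nat_lit 0x0) (nat_lit 0x800040002000000000000000000000000000000000000000000000000000000000) := D_2 (nat_lit 246) (nat_lit 229) (nat_lit 263) (nat_lit 7) (nat_lit 7) (nat_lit 10) (nat_lit 7) (nat_lit 7) (nat_lit 11) (by decide +kernel)
theorem L5453 : W_2 (nat_lit 3) (nat_lit 0x10000d000c000200018001000080000000000000000000000000000000) (nat_lit 0x0) (nat_lit 0x800060002000000000000400000000000000000000000000000000000000000000) := T_2 (nat_lit 245) (nat_lit 178) (nat_lit 6) (nat_lit 7) (nat_lit 14) L5452 (by decide +kernel)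
theorem L5454 : W_2 (nat_lit 4) (nat_lit 0xd000c000200018001000080000000000000000000000000000000) (nat_lit 0x0) (nat_lit 0x800060003000000000000500000000000000000000000000000000000000000000) := T_2 (nat_lit 228) (nat_lit 176) (nat_lit 4) (nat_lit 7) (nat_lit 13) L5453 (by decide +kernel)
theorem L5455 : W_2 (nat_lit 5) (nat_lit 0xc000c000200018001000080000000000000000000000000000000) (nat_lit 0x0) (nat_lit 0x800060003000030000000500000000000000000000000000000000000000000000) := T_2 (nat_lit 208) (nat_lit 209) (nat_lit 2) (nat_lit 4) (nat_lit 12) L5454 (by decide +kernel)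
theorem L5456 : W_2 (nat_lit 6) (nat_lit 0x8000c000200018001000080000000000000000000000000000000) (nat_lit 0x0) (nat_lit 0x800060003800070000000500000000000000000000000000000000000000000000) := T_2 (nat_lit 210) (nat_lit 227) (nat_lit 5) (nat_lit 7) (nat_lit 9) L5455 (by decide +kernel)
theorem L5457 : W_2 (nat_lit 7) (nat_lit 0x8000c000200010001000080000000000000000000000000000000) (nat_lit 0x0) (nat_lit 0x800060003800070000000500008000400000000000000000000000000000000000) := T_2 (nat_lit 159) (nat_lit 142) (nat_lit 4) (nat_lit 7) (nat_lit 12) L5456 (by decide +kernel)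
theorem L5460 : W_2 (nat_lit 2) (nat_lit 0x1f000a00010001000080000000000000000000000000000000) (nat_lit 0x0) (nat_lit 0x70000000000000000000000000000000000000000000000000000) := D_2 (nat_lit 209) (nat_lit 208) (nat_lit 210) (nat_lit 1) (nat_lit 8) (nat_lit 11) (nat_lit 1) (nat_lit 9) (nat_lit 11) (by decide +kernel)
theorem L5461 : W_2 (nat_lit 3) (nat_lit 0x1e000a00010001000080000000000000000000000000000000) (nat_lit 0x0) (nat_lit 0x70001000400000000000000000000000000000000000000000000) := T_2 (nat_lit 192) (nat_lit 178) (nat_lit 2) (nat_lit 5) (nat_lit 11) L5460 (by decide +kernel)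
theorem L5462 : W_2 (nat_lit 4) (nat_lit 0x1e000200010001000080000000000000000000000000000000) (nat_lit 0x0) (nat_lit 0x70001001c00000000000000000000000000000000000000000000) := T_2 (nat_lit 179) (nat_lit 180) (nat_lit 2) (nat_lit 6) (nat_lit 11) L5461 (by decide +kernel)
theorem L5463 : W_2 (nat_lit 5) (nat_lit 0x1e000200000001000080000000000000000000000000000000) (nat_lit 0x0) (nat_lit 0x70001001c00010000800000000000000000000000000000000000) := T_2 (nat_lit 160) (nat_lit 143) (nat_lit 6) (nat_lit 7) (nat_lit 11) L5462 (by decide +kernel)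
theorem L5467 : W_2 (nat_lit 4) (nat_lit 0x1c000200010001000080000000000000000000000000000000) (nat_lit 0x0) (nat_lit 0x1c00060000500000000000000000000000000000000000000000000) := T_2 (nat_lit 197) (nat_lit 176) (nat_lit 0) (nat_lit 10) (nat_lit 11) L5466 (by decide +kernel)
theorem L5468 : W_2 (nat_lit 5) (nat_lit 0x1c000200000001000080000000000000000000000000000000) (nat_lit 0x0) (nat_lit 0x1c00060000500010000800000000000000000000000000000000000) := T_2 (nat_lit 160) (nat_lit 143) (nat_lit 6) (nat_lit 7) (nat_lit 11) L5467 (by decide +kernel)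
theorem L5469 : W_2 (nat_lit 2) (nat_lit 0x24001e000a00010001000080000000000000000000000000000000) (nat_lit 0x0) (nat_lit 0x800000000000180000000000000000000000000000000000000000000) := D_2 (nat_lit 176) (nat_lit 175) (nat_lit 227) (nat_lit 0) (nat_lit 9) (nat_lit 11) (nat_lit 6) (nat_lit 6) (nat_lit 13) (by decide +kernel)
theorem L5470 : W_2 (nat_lit 3) (nat_lit 0x20001e000a00010001000080000000000000000000000000000000) (nat_lit 0x0) (nat_lit 0x800060000000180000000000000000000000000000000000000000000) := T_2 (nat_lit 210) (nat_lit 209) (nat_lit 1) (nat_lit 9) (nat_lit 11) L5469 (by decide +kernel)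
theorem L5471 : W_2 (nat_lit 4) (nat_lit 0x20001e000200010001000080000000000000000000000000000000) (nat_lit 0x0) (nat_lit 0x800060000001980000000000000000000000000000000000000000000) := T_2 (nat_lit 179) (nat_lit 180) (nat_lit 2) (nat_lit 6) (nat_lit 11) L5470 (by decide +kernel)
theorem L5475 : W_2 (nat_lit 2) (nat_lit 0x7c000200010001000080000000000000000000000000000000) (nat_lit 0x0) (nat_lit 0x7000000000000000000000000000000000000000000000) := D_2 (nat_lit 181) (nat_lit 180) (nat_lit 182) (nat_lit 2) (nat_lit 7) (nat_lit 11) (nat_lit 2) (nat_lit 8) (nat_lit 11) (by decide +kernel)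
theorem L5476 : W_2 (nat_lit 3) (nat_lit 0x3c000200010001000080000000000000000000000000000000) (nat_lit 0x0) (nat_lit 0x40007400000000000000000000000000000000000000000000) := T_2 (nat_lit 198) (nat_lit 178) (nat_lit 0) (nat_lit 11) (nat_lit 11) L5475 (by decide +kernel)
theorem L5477 : W_2 (nat_lit 4) (nat_lit 0x1c000200010001000080000000000000000000000000000000) (nat_lit 0x0) (nat_lit 0x60007500000000000000000000000000000000000000000000) := T_2 (nat_lit 197) (nat_lit 176) (nat_lit 0) (nat_lit 10) (nat_lit 11) L5476 (by decide +kernel)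
theorem L5478 : W_2 (nat_lit 5) (nat_lit 0x1c000200000001000080000000000000000000000000000000) (nat_lit 0x0) (nat_lit 0x60007500010000800000000000000000000000000000000000) := T_2 (nat_lit 160) (nat_lit 143) (nat_lit 6) (nat_lit 7) (nat_lit 11) L5477 (by decide +kernel)
theorem L5483 : W_2 (nat_lit 3) (nat_lit 0x4000200000001000080000000000000000000000000000000) (nat_lit 0x0) (nat_lit 0x80000000400030000800000000000000000000000000000000000) := T_2 (nat_lit 160) (nat_lit 143) (nat_lit 6) (nat_lit 7) (nat_lit 11) L5482 (by decide +kernel)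
theorem L5488 : W_2 (nat_lit 6) (nat_lit 0x4000200010001000080000000000000000000000000000000) (nat_lit 0x0) (nat_lit 0x400038001c0000000100028000400000000000000000000000000000000000) := T_2 (nat_lit 211) (nat_lit 161) (nat_lit 6) (nat_lit 7) (nat_lit 12) L5487 (by decide +kernel)
theorem L5489 : W_2 (nat_lit 7) (nat_lit 0x4000200000001000080000000000000000000000000000000) (nat_lit 0x0) (nat_lit 0x400038001c0000000100038000c00000000000000000000000000000000000) := T_2 (nat_lit 160) (nat_lit 143) (nat_lit 6) (nat_lit 7) (nat_lit 11) L5488 (by decide +kernel)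
theorem L5490 : W_2 (nat_lit 2) (nat_lit 0x4003e00000001000080000000000000000000000000000000) (nat_lit 0x0) (nat_lit 0xe0000000000000000000000000000000000000000000000000) := D_2 (nat_lit 198) (nat_lit 197) (nat_lit 199) (nat_lit 3) (nat_lit 7) (nat_lit 10) (nat_lit 3) (nat_lit 8) (nat_lit 10) (by decide +kernel)
theorem L5491 : W_2 (nat_lit 3) (nat_lit 0x4001e00000001000080000000000000000000000000000000) (nat_lit 0x0) (nat_lit 0xe8002000000000000000000000000000000000000000000000) := T_2 (nat_lit 181) (nat_lit 195) (nat_lit 1) (nat_lit 11) (nat_lit 10) L5490 (by decide +kernel)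
theorem L5492 : W_2 (nat_lit 4) (nat_lit 0x4000e00000001000080000000000000000000000000000000) (nat_lit 0x0) (nat_lit 0xea003000000000000000000000000000000000000000000000) := T_2 (nat_lit 180) (nat_lit 193) (nat_lit 1) (nat_lit 10) (nat_lit 10) L5491 (by decide +kernel)
theorem L5493 : W_2 (nat_lit 2) (nat_lit 0x4003e00010001000080000000000000000000000000000000) (nat_lit 0x0) (nat_lit 0xe0000000000000000000000000000000000000000000000000) := D_2 (nat_lit 198) (nat_lit 197) (nat_lit 199) (nat_lit 3) (nat_lit 7) (nat_lit 10) (nat_lit 3) (nat_lit 8) (nat_lit 10) (by decide +kernel)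
theorem L5494 : W_2 (nat_lit 3) (nat_lit 0x4001e00010001000080000000000000000000000000000000) (nat_lit 0x0) (nat_lit 0xe8002000000000000000000000000000000000000000000000) := T_2 (nat_lit 181) (nat_lit 195) (nat_lit 1) (nat_lit 11) (nat_lit 10) L5493 (by decide +kernel)
theorem L5495 : W_2 (nat_lit 4) (nat_lit 0x4000e00010001000080000000000000000000000000000000) (nat_lit 0x0) (nat_lit 0xe8003000008000000000000000000000000000000000000000) := T_2 (nat_lit 180) (nat_lit 159) (nat_lit 0) (nat_lit 10) (nat_lit 10) L5494 (by decide +kernel)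
theorem L5496 : W_2 (nat_lit 5) (nat_lit 0x4000e00000001000080000000000000000000000000000000) (nat_lit 0x0) (nat_lit 0xe8003000018000800000000000000000000000000000000000) := T_2 (nat_lit 160) (nat_lit 143) (nat_lit 6) (nat_lit 7) (nat_lit 11) L5495 (by decide +kernel)
theorem L5499 : W_2 (nat_lit 2) (nat_lit 0x14000f80050001000080000000000000000000000000000000) (nat_lit 0x0) (nat_lit 0xe000000000000000000000000000000000000000) := D_2 (nat_lit 158) (nat_lit 159) (nat_lit 157) (nat_lit 0) (nat_lit 9) (nat_lit 10) (nat_lit 0) (nat_lit 8) (nat_lit 10) (by decide +kernel)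
theorem L5500 : W_2 (nat_lit 3) (nat_lit 0x14000f00050001000080000000000000000000000000000000) (nat_lit 0x0) (nat_lit 0x800008000e000000000000000000000000000000000000000) := T_2 (nat_lit 175) (nat_lit 195) (nat_lit 3) (nat_lit 5) (nat_lit 10) L5499 (by decide +kernel)
theorem L5501 : W_2 (nat_lit 4) (nat_lit 0x4000f00050001000080000000000000000000000000000000) (nat_lit 0x0) (nat_lit 0x3800008000e000000000000000000000000000000000000000) := T_2 (nat_lit 196) (nat_lit 197) (nat_lit 3) (nat_lit 6) (nat_lit 10) L5500 (by decide +kernel)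
theorem L5502 : W_2 (nat_lit 5) (nat_lit 0x4000f00010001000080000000000000000000000000000000) (nat_lit 0x0) (nat_lit 0x380000800ce000000000000000000000000000000000000000) := T_2 (nat_lit 162) (nat_lit 163) (nat_lit 2) (nat_lit 6) (nat_lit 10) L5501 (by decide +kernel)
theorem L5503 : W_2 (nat_lit 6) (nat_lit 0x4000f00000001000080000000000000000000000000000000) (nat_lit 0x0) (nat_lit 0x380000800de000800000000000000000000000000000000000) := T_2 (nat_lit 160) (nat_lit 143) (nat_lit 6) (nat_lit 7) (nat_lit 11) L5502 (by decide +kernel)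
theorem L5538 : W_2 (nat_lit 4) (nat_lit 0x4000f00000001000080000000000000000000000000000000) (nat_lit 0x0) (nat_lit 0x3b800080000000000000000000000000000000000000000000) := T_2 (nat_lit 196) (nat_lit 197) (nat_lit 3) (nat_lit 6) (nat_lit 10) L5165 (by decide +kernel)
theorem L5559 : W_2 (nat_lit 2) (nat_lit 0x4000f00018001000080000000000000000000000000000000) (nat_lit 0x0) (nat_lit 0x80000000000000000400020000000000000000000000000000000) := D_2 (nat_lit 142) (nat_lit 125) (nat_lit 211) (nat_lit 7) (nat_lit 6) (nat_lit 7) (nat_lit 4) (nat_lit 7) (nat_lit 12) (by decide +kernel)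
theorem L5560 : W_2 (nat_lit 3) (nat_lit 0x4000f00010001000080000000000000000000000000000000) (nat_lit 0x0) (nat_lit 0x8000000000000c000400020000000000000000000000000000000) := T_2 (nat_lit 159) (nat_lit 158) (nat_lit 0) (nat_lit 9) (nat_lit 10) L5559 (by decide +kernel)
theorem L5561 : W_2 (nat_lit 4) (nat_lit 0x4000f00000001000080000000000000000000000000000000) (nat_lit 0x0) (nat_lit 0x8000000000001c000c00020000000000000000000000000000000) := T_2 (nat_lit 160) (nat_lit 143) (nat_lit 6) (nat_lit 7) (nat_lit 11) L5560 (by decide +kernel)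
theorem L5577 : W_2 (nat_lit 2) (nat_lit 0x11000f80040001000080000000000000000000000000000000) (nat_lit 0x0) (nat_lit 0xe000000000000000000000000000000000000000) := D_2 (nat_lit 158) (nat_lit 157) (nat_lit 159) (nat_lit 0) (nat_lit 8) (nat_lit 10) (nat_lit 0) (nat_lit 9) (nat_lit 10) (by decide +kernel)
theorem L5578 : W_2 (nat_lit 3) (nat_lit 0x11000f00040001000080000000000000000000000000000000) (nat_lit 0x0) (nat_lit 0x80008000e000000000000000000000000000000000000000) := T_2 (nat_lit 175) (nat_lit 191) (nat_lit 1) (nat_lit 8) (nat_lit 10) L5577 (by decide +kernel)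
theorem L5582 : W_2 (nat_lit 2) (nat_lit 0x1000f00004001000080000000000000000000000000000000) (nat_lit 0x0) (nat_lit 0x800080002000000000000000000000000000000000000000) := D_2 (nat_lit 175) (nat_lit 157) (nat_lit 191) (nat_lit 0) (nat_lit 8) (nat_lit 10) (nat_lit 1) (nat_lit 8) (nat_lit 10) (by decide +kernel)
theorem L5583 : W_2 (nat_lit 3) (nat_lit 0xf00004001000080000000000000000000000000000000) (nat_lit 0x0) (nat_lit 0x3800080002000000000000000000000000000000000000000) := T_2 (nat_lit 192) (nat_lit 193) (nat_lit 1) (nat_lit 9) (nat_lit 10) L5582 (by decide +kernel)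
theorem L5584 : W_2 (nat_lit 4) (nat_lit 0xf00000001000080000000000000000000000000000000) (nat_lit 0x0) (nat_lit 0x380008000e000000000000000000000000000000000000000) := T_2 (nat_lit 158) (nat_lit 159) (nat_lit 0) (nat_lit 9) (nat_lit 10) L5583 (by decide +kernel)
theorem L5610 : W_2 (nat_lit 2) (nat_lit 0x40001e00110001000080000000000000000000000000000000) (nat_lit 0x0) (nat_lit 0x80002000200000000000000000000000000000000000000000) := D_2 (nat_lit 181) (nat_lit 165) (nat_lit 199) (nat_lit 2) (nat_lit 8) (nat_lit 10) (nat_lit 3) (nat_lit 8) (nat_lit 10) (by decide +kernel)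
theorem L5611 : W_2 (nat_lit 3) (nat_lit 0x1e00110001000080000000000000000000000000000000) (nat_lit 0x0) (nat_lit 0xe0002000200000000000000000000000000000000000000000) := T_2 (nat_lit 198) (nat_lit 197) (nat_lit 3) (nat_lit 7) (nat_lit 10) L5610 (by decide +kernel)
theorem L5612 : W_2 (nat_lit 4) (nat_lit 0x1e00010001000080000000000000000000000000000000) (nat_lit 0x0) (nat_lit 0xe0002000380000000000000000000000000000000000000000) := T_2 (nat_lit 164) (nat_lit 163) (nat_lit 2) (nat_lit 7) (nat_lit 10) L5611 (by decide +kernel)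
theorem L5613 : W_2 (nat_lit 5) (nat_lit 0x1e00000001000080000000000000000000000000000000) (nat_lit 0x0) (nat_lit 0xe0002000398000000000000000000000000000000000000000) := T_2 (nat_lit 160) (nat_lit 159) (nat_lit 0) (nat_lit 10) (nat_lit 10) L5612 (by decide +kernel)
theorem L5615 : W_2 (nat_lit 2) (nat_lit 0x20001f00000001000080000000000000000000000000000000) (nat_lit 0x0) (nat_lit 0x1c0000000000000000000000000000000000000000) := D_2 (nat_lit 163) (nat_lit 162) (nat_lit 164) (nat_lit 2) (nat_lit 6) (nat_lit 10) (nat_lit 2) (nat_lit 7) (nat_lit 10) (by decide +kernel)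
theorem L5616 : W_2 (nat_lit 3) (nat_lit 0x20001e00000001000080000000000000000000000000000000) (nat_lit 0x0) (nat_lit 0x100001001c0000000000000000000000000000000000000000) := T_2 (nat_lit 176) (nat_lit 196) (nat_lit 3) (nat_lit 6) (nat_lit 10) L5615 (by decide +kernel)
theorem L5617 : W_2 (nat_lit 4) (nat_lit 0x1e00000001000080000000000000000000000000000000) (nat_lit 0x0) (nat_lit 0x700001001c0000000000000000000000000000000000000000) := T_2 (nat_lit 197) (nat_lit 198) (nat_lit 3) (nat_lit 7) (nat_lit 10) L5616 (by decide +kernel)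
theorem L5618 : W_2 (nat_lit 2) (nat_lit 0x1f00080001000080000000000000000000000000000000) (nat_lit 0x0) (nat_lit 0x7000000000000000000000000000000000000000000000000) := D_2 (nat_lit 193) (nat_lit 192) (nat_lit 194) (nat_lit 1) (nat_lit 9) (nat_lit 10) (nat_lit 1) (nat_lit 10) (nat_lit 10) (by decide +kernel)
theorem L5619 : W_2 (nat_lit 3) (nat_lit 0x1e00080001000080000000000000000000000000000000) (nat_lit 0x0) (nat_lit 0x7000100040000000000000000000000000000000000000000) := T_2 (nat_lit 176) (nat_lit 162) (nat_lit 2) (nat_lit 6) (nat_lit 10) L5618 (by decide +kernel)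
theorem L5620 : W_2 (nat_lit 4) (nat_lit 0x1e00000001000080000000000000000000000000000000) (nat_lit 0x0) (nat_lit 0x70001001c0000000000000000000000000000000000000000) := T_2 (nat_lit 163) (nat_lit 164) (nat_lit 2) (nat_lit 7) (nat_lit 10) L5619 (by decide +kernel)
theorem L5623 : W_2 (nat_lit 2) (nat_lit 0x10001f00008001000080000000000000000000000000000000) (nat_lit 0x0) (nat_lit 0x1c0000000000000000000000000000000000000000) := D_2 (nat_lit 163) (nat_lit 162) (nat_lit 164) (nat_lit 2) (nat_lit 6) (nat_lit 10) (nat_lit 2) (nat_lit 7) (nat_lit 10) (by decide +kernel)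
theorem L5624 : W_2 (nat_lit 3) (nat_lit 0x10000f00008001000080000000000000000000000000000000) (nat_lit 0x0) (nat_lit 0x10001d0000000000000000000000000000000000000000) := T_2 (nat_lit 180) (nat_lit 160) (nat_lit 0) (nat_lit 10) (nat_lit 10) L5623 (by decide +kernel)
theorem L5625 : W_2 (nat_lit 4) (nat_lit 0xf00008001000080000000000000000000000000000000) (nat_lit 0x0) (nat_lit 0x300010001d0000000000000000000000000000000000000000) := T_2 (nat_lit 196) (nat_lit 197) (nat_lit 3) (nat_lit 6) (nat_lit 10) L5624 (by decide +kernel)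
theorem L5626 : W_2 (nat_lit 5) (nat_lit 0xf00000001000080000000000000000000000000000000) (nat_lit 0x0) (nat_lit 0x300010001dc000000000000000000000000000000000000000) := T_2 (nat_lit 159) (nat_lit 158) (nat_lit 0) (nat_lit 9) (nat_lit 10) L5625 (by decide +kernel)
theorem L5632 : W_2 (nat_lit 2) (nat_lit 0x1f00048001000080000000000000000000000000000000) (nat_lit 0x0) (nat_lit 0x7000000000000000000000000000000000000000000000000) := D_2 (nat_lit 193) (nat_lit 192) (nat_lit 194) (nat_lit 1) (nat_lit 9) (nat_lit 10) (nat_lit 1) (nat_lit 10) (nat_lit 10) (by decide +kernel)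
theorem L5633 : W_2 (nat_lit 3) (nat_lit 0xf00048001000080000000000000000000000000000000) (nat_lit 0x0) (nat_lit 0x7001000010000000000000000000000000000000000000000) := T_2 (nat_lit 180) (nat_lit 160) (nat_lit 0) (nat_lit 10) (nat_lit 10) L5632 (by decide +kernel)
theorem L5634 : W_2 (nat_lit 4) (nat_lit 0xf00008001000080000000000000000000000000000000) (nat_lit 0x0) (nat_lit 0x70010000d0000000000000000000000000000000000000000) := T_2 (nat_lit 162) (nat_lit 163) (nat_lit 2) (nat_lit 6) (nat_lit 10) L5633 (by decide +kernel)
theorem L5635 : W_2 (nat_lit 5) (nat_lit 0xf00000001000080000000000000000000000000000000) (nat_lit 0x0) (nat_lit 0x70010000dc000000000000000000000000000000000000000) := T_2 (nat_lit 159) (nat_lit 158) (nat_lit 0) (nat_lit 9) (nat_lit 10) L5634 (by decide +kernel)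
theorem L5636 : W_2 (nat_lit 5) (nat_lit 0xf00040001000080000000000000000000000000000000) (nat_lit 0x0) (nat_lit 0x100008000400100001c000c00000000000000000000000000000000000) := T_2 (nat_lit 159) (nat_lit 158) (nat_lit 0) (nat_lit 9) (nat_lit 10) L4842 (by decide +kernel)
theorem L5637 : W_2 (nat_lit 6) (nat_lit 0xf00000001000080000000000000000000000000000000) (nat_lit 0x0) (nat_lit 0x10000800040010000dc000c00000000000000000000000000000000000) := T_2 (nat_lit 162) (nat_lit 163) (nat_lit 2) (nat_lit 6) (nat_lit 10) L5636 (by decide +kernel)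
theorem L5691 : W_2 (nat_lit 6) (nat_lit 0x2000f000280010000c0000000000000000000000000000000) (nat_lit 0x0) (nat_lit 0xe0003000390000000100008000000000000000000000000000) := T_2 (nat_lit 128) (nat_lit 111) (nat_lit 6) (nat_lit 8) (nat_lit 10) L4951 (by decide +kernel)
theorem L5692 : W_2 (nat_lit 7) (nat_lit 0x2000f000200010000c0000000000000000000000000000000) (nat_lit 0x0) (nat_lit 0xe000300039c000000100008000000000000000000000000000) := T_2 (nat_lit 159) (nat_lit 158) (nat_lit 0) (nat_lit 9) (nat_lit 10) L5691 (by decide +kernel)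
theorem L5693 : W_2 (nat_lit 8) (nat_lit 0xf000200010000c0000000000000000000000000000000) (nat_lit 0x0) (nat_lit 0xe300300039c000000100008000000000000000000000000000) := T_2 (nat_lit 193) (nat_lit 192) (nat_lit 1) (nat_lit 9) (nat_lit 10) L5692 (by decide +kernel)
theorem L5694 : W_2 (nat_lit 9) (nat_lit 0x7000200010000c0000000000000000000000000000000) (nat_lit 0x0) (nat_lit 0xf300380039c000000100008000000000000000000000000000) := T_2 (nat_lit 179) (nat_lit 196) (nat_lit 7) (nat_lit 8) (nat_lit 7) L5693 (by decide +kernel)
theorem L5695 : W_2 (nat_lit 10) (nat_lit 0x700020001000080000000000000000000000000000000) (nat_lit 0x0) (nat_lit 0xf300380039c00000014000a000000000000000000000000000) := T_2 (nat_lit 126) (nat_lit 109) (nat_lit 4) (nat_lit 8) (nat_lit 10) L5694 (by decide +kernel)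
theorem L5747 : W_2 (nat_lit 2) (nat_lit 0x11000f00004001000080000000000000000000000000000000) (nat_lit 0x0) (nat_lit 0x800080002000000000000000000000000000000000000000) := D_2 (nat_lit 175) (nat_lit 157) (nat_lit 191) (nat_lit 0) (nat_lit 8) (nat_lit 10) (nat_lit 1) (nat_lit 8) (nat_lit 10) (by decide +kernel)
theorem L5748 : W_2 (nat_lit 3) (nat_lit 0x10000f00004001000080000000000000000000000000000000) (nat_lit 0x0) (nat_lit 0x3800080002000000000000000000000000000000000000000) := T_2 (nat_lit 192) (nat_lit 193) (nat_lit 1) (nat_lit 9) (nat_lit 10) L5747 (by decide +kernel)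
theorem L5749 : W_2 (nat_lit 4) (nat_lit 0x10000f00000001000080000000000000000000000000000000) (nat_lit 0x0) (nat_lit 0x380008000e000000000000000000000000000000000000000) := T_2 (nat_lit 158) (nat_lit 159) (nat_lit 0) (nat_lit 9) (nat_lit 10) L5748 (by decide +kernel)
theorem L5750 : W_2 (nat_lit 5) (nat_lit 0xf00000001000080000000000000000000000000000000) (nat_lit 0x0) (nat_lit 0x3380008000e000000000000000000000000000000000000000) := T_2 (nat_lit 196) (nat_lit 197) (nat_lit 3) (nat_lit 6) (nat_lit 10) L5749 (by decide +kernel)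
theorem L5780 : W_2 (nat_lit 2) (nat_lit 0xf00058001800080000000000000000000000000000000) (nat_lit 0x0) (nat_lit 0x8000000000000000040002000000000000000000000000000) := D_2 (nat_lit 126) (nat_lit 109) (nat_lit 195) (nat_lit 5) (nat_lit 7) (nat_lit 6) (nat_lit 7) (nat_lit 7) (nat_lit 7) (by decide +kernel)
theorem L5781 : W_2 (nat_lit 3) (nat_lit 0xf00058001000080000000000000000000000000000000) (nat_lit 0x0) (nat_lit 0xc000000000000800040002000000000000000000000000000) := T_2 (nat_lit 143) (nat_lit 194) (nat_lit 6) (nat_lit 7) (nat_lit 11) L5780 (by decide +kernel)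
theorem L5782 : W_2 (nat_lit 4) (nat_lit 0xf00048001000080000000000000000000000000000000) (nat_lit 0x0) (nat_lit 0xc001000010000800040002000000000000000000000000000) := T_2 (nat_lit 160) (nat_lit 180) (nat_lit 0) (nat_lit 10) (nat_lit 10) L5781 (by decide +kernel)
theorem L5783 : W_2 (nat_lit 5) (nat_lit 0xf00008001000080000000000000000000000000000000) (nat_lit 0x0) (nat_lit 0xc0010000d0000800040002000000000000000000000000000) := T_2 (nat_lit 162) (nat_lit 163) (nat_lit 2) (nat_lit 6) (nat_lit 10) L5782 (by decide +kernel)
theorem L5784 : W_2 (nat_lit 6) (nat_lit 0xf00000001000080000000000000000000000000000000) (nat_lit 0x0) (nat_lit 0xc0010000dc000800040002000000000000000000000000000) := T_2 (nat_lit 159) (nat_lit 158) (nat_lit 0) (nat_lit 9) (nat_lit 10) L5783 (by decide +kernel)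
theorem L5791 : W_2 (nat_lit 2) (nat_lit 0x2000f00008001000080000000000000000000000000000000) (nat_lit 0x0) (nat_lit 0x4001000010000000000000000000000000000000000000000) := D_2 (nat_lit 180) (nat_lit 160) (nat_lit 194) (nat_lit 0) (nat_lit 10) (nat_lit 10) (nat_lit 1) (nat_lit 10) (nat_lit 10) (by decide +kernel)
theorem L5792 : W_2 (nat_lit 3) (nat_lit 0xf00008001000080000000000000000000000000000000) (nat_lit 0x0) (nat_lit 0x7001000010000000000000000000000000000000000000000) := T_2 (nat_lit 193) (nat_lit 192) (nat_lit 1) (nat_lit 9) (nat_lit 10) L5791 (by decide +kernel)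
theorem L5793 : W_2 (nat_lit 4) (nat_lit 0xf00000001000080000000000000000000000000000000) (nat_lit 0x0) (nat_lit 0x700100001c000000000000000000000000000000000000000) := T_2 (nat_lit 159) (nat_lit 158) (nat_lit 0) (nat_lit 9) (nat_lit 10) L5792 (by decide +kernel)
theorem L5796 : W_2 (nat_lit 2) (nat_lit 0x4001e00000001000080000000000000000000000000000000) (nat_lit 0x0) (nat_lit 0x18000800000000000000000000000000000000000) := D_2 (nat_lit 160) (nat_lit 159) (nat_lit 143) (nat_lit 0) (nat_lit 10) (nat_lit 10) (nat_lit 6) (nat_lit 7) (nat_lit 11) (by decide +kernel)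
theorem L5797 : W_2 (nat_lit 3) (nat_lit 0x4000e00000001000080000000000000000000000000000000) (nat_lit 0x0) (nat_lit 0x2001000018000800000000000000000000000000000000000) := T_2 (nat_lit 180) (nat_lit 193) (nat_lit 1) (nat_lit 10) (nat_lit 10) L5796 (by decide +kernel)
theorem L5798 : W_2 (nat_lit 4) (nat_lit 0xe00000001000080000000000000000000000000000000) (nat_lit 0x0) (nat_lit 0x6001000038000800000000000000000000000000000000000) := T_2 (nat_lit 194) (nat_lit 161) (nat_lit 5) (nat_lit 8) (nat_lit 7) L5797 (by decide +kernel)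
theorem L5843 : W_2 (nat_lit 2) (nat_lit 0x7000100018000c0002000000000000000000000000000) (nat_lit 0x0) (nat_lit 0x20001000080000000000000000000000) := D_2 (nat_lit 108) (nat_lit 91) (nat_lit 125) (nat_lit 4) (nat_lit 7) (nat_lit 9) (nat_lit 4) (nat_lit 7) (nat_lit 10) (by decide +kernel)
theorem L5844 : W_2 (nat_lit 3) (nat_lit 0x7000100018000c0000000000000000000000000000000) (nat_lit 0x0) (nat_lit 0x8000000020003000080000000000000000000000) := T_2 (nat_lit 109) (nat_lit 159) (nat_lit 5) (nat_lit 7) (nat_lit 6) L5843 (by decide +kernel)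
theorem L5845 : W_2 (nat_lit 4) (nat_lit 0x6000100018000c0000000000000000000000000000000) (nat_lit 0x0) (nat_lit 0x2000100008000000020003000080000000000000000000000) := T_2 (nat_lit 176) (nat_lit 193) (nat_lit 5) (nat_lit 7) (nat_lit 7) L5844 (by decide +kernel)
theorem L5846 : W_2 (nat_lit 5) (nat_lit 0x600010001800080000000000000000000000000000000) (nat_lit 0x0) (nat_lit 0xa000100008000000060003000080000000000000000000000) := T_2 (nat_lit 126) (nat_lit 195) (nat_lit 7) (nat_lit 7) (nat_lit 7) L5845 (by decide +kernel)
theorem L5868 : W_2 (nat_lit 2) (nat_lit 0x27000b00058003e8010000000000000000000000000000) (nat_lit 0x0) (nat_lit 0x40001800000000000000000000000000000000000000000000) := D_2 (nat_lit 180) (nat_lit 179) (nat_lit 198) (nat_lit 0) (nat_lit 11) (nat_lit 10) (nat_lit 7) (nat_lit 10) (nat_lit 7) (by decide +kernel)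
theorem L5869 : W_2 (nat_lit 3) (nat_lit 0x7000b00058003e8010000000000000000000000000000) (nat_lit 0x0) (nat_lit 0x40003800100000000000000000000000000000000000000000) := T_2 (nat_lit 181) (nat_lit 164) (nat_lit 7) (nat_lit 10) (nat_lit 6) L5868 (by decide +kernel)
theorem L5870 : W_2 (nat_lit 4) (nat_lit 0x7000b00058003e8000000000000000000000000000000) (nat_lit 0x0) (nat_lit 0x40003800100000000000030000000000000000000000000000) := T_2 (nat_lit 112) (nat_lit 113) (nat_lit 2) (nat_lit 7) (nat_lit 7) L5869 (by decide +kernel)
theorem L5871 : W_2 (nat_lit 5) (nat_lit 0x7000b00018003e8000000000000000000000000000000) (nat_lit 0x0) (nat_lit 0x4000380010000c000000030000000000000000000000000000) := T_2 (nat_lit 146) (nat_lit 147) (nat_lit 3) (nat_lit 7) (nat_lit 7) L5870 (by decide +kernel)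
theorem L5879 : W_2 (nat_lit 2) (nat_lit 0x740030001a005f0000800000000000000000000000000) (nat_lit 0x0) (nat_lit 0xe000000000000000000000000000000000000000) := D_2 (nat_lit 158) (nat_lit 157) (nat_lit 159) (nat_lit 5) (nat_lit 5) (nat_lit 6) (nat_lit 7) (nat_lit 5) (nat_lit 6) (by decide +kernel)
theorem L5880 : W_2 (nat_lit 3) (nat_lit 0x7400300018005f0000800000000000000000000000000) (nat_lit 0x0) (nat_lit 0xe000300000000000000000000000000000000000) := T_2 (nat_lit 141) (nat_lit 140) (nat_lit 1) (nat_lit 8) (nat_lit 7) L5879 (by decide +kernel)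
theorem L5881 : W_2 (nat_lit 4) (nat_lit 0x7400300018005f0000000000000000000000000000000) (nat_lit 0x0) (nat_lit 0xe000300000000c00000000000000000000000000) := T_2 (nat_lit 107) (nat_lit 106) (nat_lit 0) (nat_lit 8) (nat_lit 7) L5880 (by decide +kernel)
theorem L5921 : W_2 (nat_lit 2) (nat_lit 0xf000600058003c0010000000000000000000000000000) (nat_lit 0x0) (nat_lit 0x3000000010000000000000000000000000000000000000000) := D_2 (nat_lit 193) (nat_lit 192) (nat_lit 160) (nat_lit 1) (nat_lit 9) (nat_lit 10) (nat_lit 5) (nat_lit 7) (nat_lit 7) (by decide +kernel)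
theorem L5922 : W_2 (nat_lit 3) (nat_lit 0xe000600058003c0010000000000000000000000000000) (nat_lit 0x0) (nat_lit 0x3000180010000000000000000000000000000000000000000) := T_2 (nat_lit 176) (nat_lit 175) (nat_lit 2) (nat_lit 5) (nat_lit 10) L5921 (by decide +kernel)
theorem L5923 : W_2 (nat_lit 4) (nat_lit 0xe000200058003c0010000000000000000000000000000) (nat_lit 0x0) (nat_lit 0x30001800d0000000000000000000000000000000000000000) := T_2 (nat_lit 162) (nat_lit 163) (nat_lit 5) (nat_lit 10) (nat_lit 6) L5922 (by decide +kernel)
theorem L5932 : W_2 (nat_lit 9) (nat_lit 0x600000001000080000000000000000000000000000000) (nat_lit 0x0) (nat_lit 0x2000700038001c00000003000080014000a000000000000000000000000000) := T_2 (nat_lit 161) (nat_lit 194) (nat_lit 5) (nat_lit 8) (nat_lit 7) L534 (by decide +kernel)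
theorem L5950 : W_2 (nat_lit 2) (nat_lit 0x1000780024001000180000000000000000000000000000000) (nat_lit 0x0) (nat_lit 0x2000800008000000000000000000000000000000000000000) := D_2 (nat_lit 179) (nat_lit 193) (nat_lit 159) (nat_lit 1) (nat_lit 9) (nat_lit 10) (nat_lit 0) (nat_lit 9) (nat_lit 10) (by decide +kernel)
theorem L5951 : W_2 (nat_lit 3) (nat_lit 0x1000780020001000180000000000000000000000000000000) (nat_lit 0x0) (nat_lit 0x200080000e000000000000000000000000000000000000000) := T_2 (nat_lit 158) (nat_lit 157) (nat_lit 0) (nat_lit 8) (nat_lit 10) L5950 (by decide +kernel)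
theorem L5952 : W_2 (nat_lit 4) (nat_lit 0x780020001000180000000000000000000000000000000) (nat_lit 0x0) (nat_lit 0x380080000e000000000000000000000000000000000000000) := T_2 (nat_lit 192) (nat_lit 191) (nat_lit 1) (nat_lit 8) (nat_lit 10) L5951 (by decide +kernel)
theorem L5953 : W_2 (nat_lit 5) (nat_lit 0x700020001000180000000000000000000000000000000) (nat_lit 0x0) (nat_lit 0x380088004e000000000000000000000000000000000000000) := T_2 (nat_lit 175) (nat_lit 162) (nat_lit 2) (nat_lit 5) (nat_lit 10) L5952 (by decide +kernel)
theorem L5954 : W_2 (nat_lit 6) (nat_lit 0x700020001000080000000000000000000000000000000) (nat_lit 0x0) (nat_lit 0x380088004e000000100008000000000000000000000000000) := T_2 (nat_lit 128) (nat_lit 111) (nat_lit 6) (nat_lit 8) (nat_lit 10) L5953 (by decide +kernel)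
theorem L5961 : W_2 (nat_lit 6) (nat_lit 0x7000300018003e8000000000000000000000000000000) (nat_lit 0x0) (nat_lit 0x400038001c000c000000030000000000000000000000000000) := T_2 (nat_lit 163) (nat_lit 162) (nat_lit 1) (nat_lit 10) (nat_lit 9) L5871 (by decide +kernel)
theorem L5962 : W_2 (nat_lit 7) (nat_lit 0x7000300018003e0000000000000000000000000000000) (nat_lit 0x0) (nat_lit 0x400038001c000c000018030000000000000000000000000000) := T_2 (nat_lit 123) (nat_lit 124) (nat_lit 3) (nat_lit 4) (nat_lit 7) L5961 (by decide +kernel)
theorem L5963 : W_2 (nat_lit 8) (nat_lit 0x7000300018003c0000000000000000000000000000000) (nat_lit 0x0) (nat_lit 0x400038001c000c000038031000000000000000000000000000) := T_2 (nat_lit 125) (nat_lit 108) (nat_lit 4) (nat_lit 7) (nat_lit 10) L5962 (by decide +kernel)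
theorem L5964 : W_2 (nat_lit 9) (nat_lit 0x7000200018003c0000000000000000000000000000000) (nat_lit 0x0) (nat_lit 0x420038001d000c000038031000000000000000000000000000) := T_2 (nat_lit 160) (nat_lit 193) (nat_lit 5) (nat_lit 7) (nat_lit 7) L5963 (by decide +kernel)
theorem L5965 : W_2 (nat_lit 10) (nat_lit 0x7000200018001c0000000000000000000000000000000) (nat_lit 0x0) (nat_lit 0x420038001d000c000638031000000000000000000000000000) := T_2 (nat_lit 129) (nat_lit 130) (nat_lit 1) (nat_lit 11) (nat_lit 7) L5964 (by decide +kernel)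
theorem L5966 : W_2 (nat_lit 11) (nat_lit 0x7000200010001c0000000000000000000000000000000) (nat_lit 0x0) (nat_lit 0x4a0038001d000c800638031000000000000000000000000000) := T_2 (nat_lit 143) (nat_lit 195) (nat_lit 4) (nat_lit 8) (nat_lit 11) L5965 (by decide +kernel)
theorem L5969 : W_2 (nat_lit 5) (nat_lit 0x7000300018005f0000000000000000000000000000000) (nat_lit 0x0) (nat_lit 0xc000e000300000000c00000000000000000000000000) := T_2 (nat_lit 174) (nat_lit 175) (nat_lit 2) (nat_lit 4) (nat_lit 10) L5881 (by decide +kernel)
theorem L5970 : W_2 (nat_lit 6) (nat_lit 0x7000300018005e0000000000000000000000000000000) (nat_lit 0x0) (nat_lit 0xc000e000300018000c00000000000000000000000000) := T_2 (nat_lit 124) (nat_lit 123) (nat_lit 3) (nat_lit 4) (nat_lit 7) L5969 (by decide +kernel)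
theorem L5971 : W_2 (nat_lit 7) (nat_lit 0x7000300018005c0000000000000000000000000000000) (nat_lit 0x0) (nat_lit 0xc000e000300038001c00000000000000000000000000) := T_2 (nat_lit 125) (nat_lit 108) (nat_lit 4) (nat_lit 7) (nat_lit 10) L5970 (by decide +kernel)
theorem L5972 : W_2 (nat_lit 8) (nat_lit 0x7000200018005c0000000000000000000000000000000) (nat_lit 0x0) (nat_lit 0x20000c001e000300038001c00000000000000000000000000) := T_2 (nat_lit 160) (nat_lit 193) (nat_lit 5) (nat_lit 7) (nat_lit 7) L5971 (by decide +kernel)
theorem L5973 : W_2 (nat_lit 9) (nat_lit 0x7000200018001c0000000000000000000000000000000) (nat_lit 0x0) (nat_lit 0x20000c001e000300638001c00000000000000000000000000) := T_2 (nat_lit 130) (nat_lit 129) (nat_lit 1) (nat_lit 11) (nat_lit 7) L5972 (by decide +kernel)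
theorem L5974 : W_2 (nat_lit 10) (nat_lit 0x7000200010001c0000000000000000000000000000000) (nat_lit 0x0) (nat_lit 0xa0000c001e000b00638001c00000000000000000000000000) := T_2 (nat_lit 143) (nat_lit 195) (nat_lit 4) (nat_lit 8) (nat_lit 11) L5973 (by decide +kernel)
theorem L5978 : W_2 (nat_lit 5) (nat_lit 0x2000f000680010000c0000000000000000000000000000000) (nat_lit 0x0) (nat_lit 0xe0007000010000000100008000000000000000000000000000) := T_2 (nat_lit 128) (nat_lit 111) (nat_lit 6) (nat_lit 8) (nat_lit 10) L4941 (by decide +kernel)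
theorem L5979 : W_2 (nat_lit 6) (nat_lit 0x2000f000600010000c0000000000000000000000000000000) (nat_lit 0x0) (nat_lit 0xe000700001c000000100008000000000000000000000000000) := T_2 (nat_lit 159) (nat_lit 158) (nat_lit 0) (nat_lit 9) (nat_lit 10) L5978 (by decide +kernel)
theorem L5980 : W_2 (nat_lit 7) (nat_lit 0xf000600010000c0000000000000000000000000000000) (nat_lit 0x0) (nat_lit 0xe300700001c000000100008000000000000000000000000000) := T_2 (nat_lit 193) (nat_lit 192) (nat_lit 1) (nat_lit 9) (nat_lit 10) L5979 (by decide +kernel)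
theorem L5981 : W_2 (nat_lit 8) (nat_lit 0xf000200010000c0000000000000000000000000000000) (nat_lit 0x0) (nat_lit 0xe30070000dc000000100008000000000000000000000000000) := T_2 (nat_lit 162) (nat_lit 163) (nat_lit 2) (nat_lit 6) (nat_lit 10) L5980 (by decide +kernel)
theorem L5982 : W_2 (nat_lit 9) (nat_lit 0x7000200010000c0000000000000000000000000000000) (nat_lit 0x0) (nat_lit 0xf30078000dc000000100008000000000000000000000000000) := T_2 (nat_lit 179) (nat_lit 196) (nat_lit 7) (nat_lit 8) (nat_lit 7) L5981 (by decide +kernel)
theorem L5983 : W_2 (nat_lit 10) (nat_lit 0x700020001000080000000000000000000000000000000) (nat_lit 0x0) (nat_lit 0xf30078000dc00000014000a000000000000000000000000000) := T_2 (nat_lit 126) (nat_lit 109) (nat_lit 4) (nat_lit 8) (nat_lit 10) L5982 (by decide +kernel)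
theorem L5987 : W_2 (nat_lit 12) (nat_lit 0x2000f00028001000080000000000000000000000000000000) (nat_lit 0x0) (nat_lit 0x100008000e000300019003c800f000e8000000000000000000000000000) := T_2 (nat_lit 128) (nat_lit 111) (nat_lit 6) (nat_lit 8) (nat_lit 10) L4977 (by decide +kernel)
theorem L5988 : W_2 (nat_lit 13) (nat_lit 0x2000f00020001000080000000000000000000000000000000) (nat_lit 0x0) (nat_lit 0x100008000e000300019c03c800f000e8000000000000000000000000000) := T_2 (nat_lit 159) (nat_lit 158) (nat_lit 0) (nat_lit 9) (nat_lit 10) L5987 (by decide +kernel)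
theorem L5989 : W_2 (nat_lit 14) (nat_lit 0xf00020001000080000000000000000000000000000000) (nat_lit 0x0) (nat_lit 0x100008000e300300019c03c800f000e8000000000000000000000000000) := T_2 (nat_lit 193) (nat_lit 192) (nat_lit 1) (nat_lit 9) (nat_lit 10) L5988 (by decide +kernel)
theorem L5990 : W_2 (nat_lit 15) (nat_lit 0x700020001000080000000000000000000000000000000) (nat_lit 0x0) (nat_lit 0x100008000f300380019c03c800f000e8000000000000000000000000000) := T_2 (nat_lit 179) (nat_lit 196) (nat_lit 7) (nat_lit 8) (nat_lit 7) L5989 (by decide +kernel)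
theorem L6048 : W_2 (nat_lit 2) (nat_lit 0x600020003000080004000300000001000080000000000000000000000000000000) (nat_lit 0x0) (nat_lit 0x8000000000000000100008000000000000000000000000000000000000000000000000) := D_2 (nat_lit 212) (nat_lit 195) (nat_lit 279) (nat_lit 6) (nat_lit 7) (nat_lit 15) (nat_lit 6) (nat_lit 7) (nat_lit 16) (by decide +kernel)
theorem L6049 : W_2 (nat_lit 3) (nat_lit 0x200020003000080004000300000001000080000000000000000000000000000000) (nat_lit 0x0) (nat_lit 0xc000400000000000100008000000000000000000000000000000000000000000000000) := T_2 (nat_lit 262) (nat_lit 278) (nat_lit 5) (nat_lit 7) (nat_lit 12) L6048 (by decide +kernel)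
theorem L6050 : W_2 (nat_lit 4) (nat_lit 0x20003000080004000300000001000080000000000000000000000000000000) (nat_lit 0x0) (nat_lit 0xc000600010000000100008000000000000000000000000000000000000000000000000) := T_2 (nat_lit 261) (nat_lit 244) (nat_lit 5) (nat_lit 7) (nat_lit 11) L6049 (by decide +kernel)
theorem L6051 : W_2 (nat_lit 5) (nat_lit 0x3000080004000300000001000080000000000000000000000000000000) (nat_lit 0x0) (nat_lit 0xc00060003000000010000a000000000000000000000000000000000000000000000000) := T_2 (nat_lit 245) (nat_lit 193) (nat_lit 4) (nat_lit 7) (nat_lit 14) L6050 (by decide +kernel)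
theorem L6054 : W_2 (nat_lit 2) (nat_lit 0xc00020001c00180004000300000001000080000000000000000000000000000000) (nat_lit 0x0) (nat_lit 0x640000000000000000000000000000000000000000000000000000) := D_2 (nat_lit 213) (nat_lit 214) (nat_lit 210) (nat_lit 1) (nat_lit 10) (nat_lit 12) (nat_lit 1) (nat_lit 9) (nat_lit 12) (by decide +kernel)
theorem L6055 : W_2 (nat_lit 3) (nat_lit 0xc00020001800180004000300000001000080000000000000000000000000000000) (nat_lit 0x0) (nat_lit 0x600640000000000000000000000000000000000000000000000000000) := T_2 (nat_lit 226) (nat_lit 225) (nat_lit 2) (nat_lit 4) (nat_lit 13) L6054 (by decide +kernel)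
theorem L6056 : W_2 (nat_lit 4) (nat_lit 0xc00020001800080004000300000001000080000000000000000000000000000000) (nat_lit 0x0) (nat_lit 0x600740008000000000000000000000000000000000000000000000000) := T_2 (nat_lit 212) (nat_lit 195) (nat_lit 6) (nat_lit 7) (nat_lit 15) L6055 (by decide +kernel)
theorem L6057 : W_2 (nat_lit 5) (nat_lit 0x800020001800080004000300000001000080000000000000000000000000000000) (nat_lit 0x0) (nat_lit 0x10000400000000600740008000000000000000000000000000000000000000000000000) := T_2 (nat_lit 262) (nat_lit 280) (nat_lit 7) (nat_lit 7) (nat_lit 12) L6056 (by decide +kernel)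
theorem L6058 : W_2 (nat_lit 6) (nat_lit 0x20001800080004000300000001000080000000000000000000000000000000) (nat_lit 0x0) (nat_lit 0x10000c00040000600740008000000000000000000000000000000000000000000000000) := T_2 (nat_lit 263) (nat_lit 246) (nat_lit 7) (nat_lit 7) (nat_lit 11) L6057 (by decide +kernel)
theorem L6059 : W_2 (nat_lit 7) (nat_lit 0x1800080004000300000001000080000000000000000000000000000000) (nat_lit 0x0) (nat_lit 0x10000c0006000060074000a000000000000000000000000000000000000000000000000) := T_2 (nat_lit 245) (nat_lit 193) (nat_lit 4) (nat_lit 7) (nat_lit 14) L6058 (by decide +kernel)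
theorem L6060 : W_2 (nat_lit 8) (nat_lit 0x1000080004000300000001000080000000000000000000000000000000) (nat_lit 0x0) (nat_lit 0x10000c00070000e0074000a000000000000000000000000000000000000000000000000) := T_2 (nat_lit 227) (nat_lit 244) (nat_lit 5) (nat_lit 7) (nat_lit 10) L6059 (by decide +kernel)
theorem L6061 : W_2 (nat_lit 9) (nat_lit 0x1000080004000200000001000080000000000000000000000000000000) (nat_lit 0x0) (nat_lit 0x10000c00070000e0074000a000100008000000000000000000000000000000000000000) := T_2 (nat_lit 176) (nat_lit 159) (nat_lit 4) (nat_lit 7) (nat_lit 13) L6060 (by decide +kernel)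
theorem L6073 : W_2 (nat_lit 5) (nat_lit 0x80004000200000001000080000000000000000000000000000000) (nat_lit 0x0) (nat_lit 0x50003800140000000000030000000000000000000000000000000000000000) := T_2 (nat_lit 160) (nat_lit 161) (nat_lit 6) (nat_lit 7) (nat_lit 12) L6072 (by decide +kernel)
theorem L6090 : W_2 (nat_lit 2) (nat_lit 0x9000000024801f8004800200002001000080000000000000000000000000000000) (nat_lit 0x0) (nat_lit 0x840004000000000000000000000000000000000000000000000000000) := D_2 (nat_lit 206) (nat_lit 227) (nat_lit 222) (nat_lit 3) (nat_lit 2) (nat_lit 12) (nat_lit 1) (nat_lit 5) (nat_lit 12) (by decide +kernel)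
theorem L6091 : W_2 (nat_lit 3) (nat_lit 0x9000000024001f8004800200002001000080000000000000000000000000000000) (nat_lit 0x0) (nat_lit 0x9c0004000000000000000000000000000000000000000000000000000) := T_2 (nat_lit 223) (nat_lit 224) (nat_lit 1) (nat_lit 6) (nat_lit 12) L6090 (by decide +kernel)
theorem L6092 : W_2 (nat_lit 4) (nat_lit 0x9000000024001f0004800200002001000080000000000000000000000000000000) (nat_lit 0x0) (nat_lit 0x9c000c002000000000000000000000000000000000000000000000000) := T_2 (nat_lit 207) (nat_lit 193) (nat_lit 2) (nat_lit 3) (nat_lit 12) L6091 (by decide +kernel)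
theorem L6093 : W_2 (nat_lit 5) (nat_lit 0x8000000024001f0004800200002001000080000000000000000000000000000000) (nat_lit 0x0) (nat_lit 0x1000080009c000c002000000000000000000000000000000000000000000000000) := T_2 (nat_lit 260) (nat_lit 243) (nat_lit 4) (nat_lit 5) (nat_lit 15) L6092 (by decide +kernel)
theorem L6094 : W_2 (nat_lit 6) (nat_lit 0x8000000024001f0004800200000001000080000000000000000000000000000000) (nat_lit 0x0) (nat_lit 0x1000080009c000c002000040002000000000000000000000000000000000000000) := T_2 (nat_lit 157) (nat_lit 174) (nat_lit 7) (nat_lit 4) (nat_lit 9) L6093 (by decide +kernel)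
theorem L6095 : W_2 (nat_lit 7) (nat_lit 0x24001f0004800200000001000080000000000000000000000000000000) (nat_lit 0x0) (nat_lit 0x9000480009c000c002000040002000000000000000000000000000000000000000) := T_2 (nat_lit 263) (nat_lit 246) (nat_lit 4) (nat_lit 8) (nat_lit 15) L6094 (by decide +kernel)
theorem L6096 : W_2 (nat_lit 8) (nat_lit 0x24001e0004800200000001000080000000000000000000000000000000) (nat_lit 0x0) (nat_lit 0x9000480009c001c002400040002000000000000000000000000000000000000000) := T_2 (nat_lit 208) (nat_lit 190) (nat_lit 0) (nat_lit 7) (nat_lit 12) L6095 (by decide +kernel)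
theorem L6097 : W_2 (nat_lit 9) (nat_lit 0x4001e0004800200000001000080000000000000000000000000000000) (nat_lit 0x0) (nat_lit 0x9000480069c001c002400040002000000000000000000000000000000000000000) := T_2 (nat_lit 229) (nat_lit 230) (nat_lit 3) (nat_lit 5) (nat_lit 12) L6096 (by decide +kernel)
theorem L6098 : W_2 (nat_lit 10) (nat_lit 0x4001e0004000200000001000080000000000000000000000000000000) (nat_lit 0x0) (nat_lit 0x9000480069c001c003c00040002000000000000000000000000000000000000000) := T_2 (nat_lit 191) (nat_lit 192) (nat_lit 0) (nat_lit 8) (nat_lit 12) L6097 (by decide +kernel)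
theorem L6099 : W_2 (nat_lit 11) (nat_lit 0x1e0004000200000001000080000000000000000000000000000000) (nat_lit 0x0) (nat_lit 0x900048006fc001c003c00040002000000000000000000000000000000000000000) := T_2 (nat_lit 226) (nat_lit 225) (nat_lit 1) (nat_lit 8) (nat_lit 12) L6098 (by decide +kernel)
theorem L6100 : W_2 (nat_lit 2) (nat_lit 0x4001e0005000200000001000080000000000000000000000000000000) (nat_lit 0x0) (nat_lit 0x800200002000000000000000000000000000000000000000000000000) := D_2 (nat_lit 213) (nat_lit 193) (nat_lit 227) (nat_lit 0) (nat_lit 9) (nat_lit 12) (nat_lit 1) (nat_lit 9) (nat_lit 12) (by decide +kernel)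
theorem L6101 : W_2 (nat_lit 3) (nat_lit 0x1e0005000200000001000080000000000000000000000000000000) (nat_lit 0x0) (nat_lit 0xe00200002000000000000000000000000000000000000000000000000) := T_2 (nat_lit 226) (nat_lit 225) (nat_lit 1) (nat_lit 8) (nat_lit 12) L6100 (by decide +kernel)
theorem L6102 : W_2 (nat_lit 4) (nat_lit 0x1e0004000200000001000080000000000000000000000000000000) (nat_lit 0x0) (nat_lit 0xe00200003800000000000000000000000000000000000000000000000) := T_2 (nat_lit 192) (nat_lit 191) (nat_lit 0) (nat_lit 8) (nat_lit 12) L6101 (by decide +kernel)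
theorem L6103 : W_2 (nat_lit 2) (nat_lit 0x24001e0007000200000001000080000000000000000000000000000000) (nat_lit 0x0) (nat_lit 0x8000000000000000100008000000000000000000000000000000000000000) := D_2 (nat_lit 176) (nat_lit 159) (nat_lit 243) (nat_lit 5) (nat_lit 6) (nat_lit 9) (nat_lit 6) (nat_lit 5) (nat_lit 14) (by decide +kernel)
theorem L6104 : W_2 (nat_lit 3) (nat_lit 0x20001e0007000200000001000080000000000000000000000000000000) (nat_lit 0x0) (nat_lit 0x8000600000000000100008000000000000000000000000000000000000000) := T_2 (nat_lit 226) (nat_lit 225) (nat_lit 1) (nat_lit 8) (nat_lit 12) L6103 (by decide +kernel)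
theorem L6105 : W_2 (nat_lit 4) (nat_lit 0x20001e0005000200000001000080000000000000000000000000000000) (nat_lit 0x0) (nat_lit 0x8000600200002000100008000000000000000000000000000000000000000) := T_2 (nat_lit 193) (nat_lit 213) (nat_lit 0) (nat_lit 9) (nat_lit 12) L6104 (by decide +kernel)
theorem L6106 : W_2 (nat_lit 5) (nat_lit 0x1e0005000200000001000080000000000000000000000000000000) (nat_lit 0x0) (nat_lit 0x8006600200002000100008000000000000000000000000000000000000000) := T_2 (nat_lit 229) (nat_lit 230) (nat_lit 3) (nat_lit 5) (nat_lit 12) L6105 (by decide +kernel)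
theorem L6107 : W_2 (nat_lit 6) (nat_lit 0x1e0004000200000001000080000000000000000000000000000000) (nat_lit 0x0) (nat_lit 0x8006600200003800100008000000000000000000000000000000000000000) := T_2 (nat_lit 192) (nat_lit 191) (nat_lit 0) (nat_lit 8) (nat_lit 12) L6106 (by decide +kernel)
theorem L6112 : W_2 (nat_lit 2) (nat_lit 0xf8004000200000001000080000000000000000000000000000000) (nat_lit 0x0) (nat_lit 0x380000000000000000000000000000000000000000000000000000000) := D_2 (nat_lit 224) (nat_lit 223) (nat_lit 225) (nat_lit 1) (nat_lit 6) (nat_lit 12) (nat_lit 1) (nat_lit 7) (nat_lit 12) (by decide +kernel)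
theorem L6113 : W_2 (nat_lit 3) (nat_lit 0xf0004000200000001000080000000000000000000000000000000) (nat_lit 0x0) (nat_lit 0x380008002000000000000000000000000000000000000000000000000) := T_2 (nat_lit 207) (nat_lit 193) (nat_lit 2) (nat_lit 3) (nat_lit 12) L6112 (by decide +kernel)
theorem L6114 : W_2 (nat_lit 4) (nat_lit 0xe0004000200000001000080000000000000000000000000000000) (nat_lit 0x0) (nat_lit 0x38001800a000000000000000000000000000000000000000000000000) := T_2 (nat_lit 208) (nat_lit 195) (nat_lit 2) (nat_lit 4) (nat_lit 12) L6113 (by decide +kernel)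
theorem L6115 : W_2 (nat_lit 2) (nat_lit 0x2000f0004800200000001000080000000000000000000000000000000) (nat_lit 0x0) (nat_lit 0x400100001000000000000000000000000000000000000000000000000) := D_2 (nat_lit 212) (nat_lit 226) (nat_lit 192) (nat_lit 1) (nat_lit 8) (nat_lit 12) (nat_lit 0) (nat_lit 8) (nat_lit 12) (by decide +kernel)
theorem L6116 : W_2 (nat_lit 3) (nat_lit 0x2000f0004000200000001000080000000000000000000000000000000) (nat_lit 0x0) (nat_lit 0x400100001c00000000000000000000000000000000000000000000000) := T_2 (nat_lit 191) (nat_lit 190) (nat_lit 0) (nat_lit 7) (nat_lit 12) L6115 (by decide +kernel)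
theorem L6117 : W_2 (nat_lit 4) (nat_lit 0xf0004000200000001000080000000000000000000000000000000) (nat_lit 0x0) (nat_lit 0x700100001c00000000000000000000000000000000000000000000000) := T_2 (nat_lit 225) (nat_lit 224) (nat_lit 1) (nat_lit 7) (nat_lit 12) L6116 (by decide +kernel)
theorem L6118 : W_2 (nat_lit 5) (nat_lit 0xe0004000200000001000080000000000000000000000000000000) (nat_lit 0x0) (nat_lit 0x700110009c00000000000000000000000000000000000000000000000) := T_2 (nat_lit 208) (nat_lit 195) (nat_lit 2) (nat_lit 4) (nat_lit 12) L6117 (by decide +kernel)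
theorem L6119 : W_2 (nat_lit 2) (nat_lit 0x20001e0004000200000001000080000000000000000000000000000000) (nat_lit 0x0) (nat_lit 0x40000000000018000000000000000000000000000000000000000000000000) := D_2 (nat_lit 195) (nat_lit 196) (nat_lit 246) (nat_lit 2) (nat_lit 5) (nat_lit 12) (nat_lit 4) (nat_lit 8) (nat_lit 14) (by decide +kernel)
theorem L6120 : W_2 (nat_lit 3) (nat_lit 0x1e0004000200000001000080000000000000000000000000000000) (nat_lit 0x0) (nat_lit 0x40006000000018000000000000000000000000000000000000000000000000) := T_2 (nat_lit 229) (nat_lit 230) (nat_lit 3) (nat_lit 5) (nat_lit 12) L6119 (by decide +kernel)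
theorem L6122 : W_2 (nat_lit 2) (nat_lit 0xf8004000200000001000080000000000000000000000000000000) (nat_lit 0x0) (nat_lit 0xe00000000000000000000000000000000000000000000000) := D_2 (nat_lit 190) (nat_lit 191) (nat_lit 189) (nat_lit 0) (nat_lit 7) (nat_lit 12) (nat_lit 0) (nat_lit 6) (nat_lit 12) (by decide +kernel)
theorem L6123 : W_2 (nat_lit 3) (nat_lit 0xf0004000200000001000080000000000000000000000000000000) (nat_lit 0x0) (nat_lit 0x8002e00000000000000000000000000000000000000000000000) := T_2 (nat_lit 207) (nat_lit 193) (nat_lit 2) (nat_lit 3) (nat_lit 12) L6122 (by decide +kernel)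
theorem L6124 : W_2 (nat_lit 4) (nat_lit 0xe0004000200000001000080000000000000000000000000000000) (nat_lit 0x0) (nat_lit 0x1800ae00000000000000000000000000000000000000000000000) := T_2 (nat_lit 208) (nat_lit 195) (nat_lit 2) (nat_lit 4) (nat_lit 12) L6123 (by decide +kernel)
theorem L6159 : W_2 (nat_lit 2) (nat_lit 0x380018000c000200020001000080000000000000000000000000000000) (nat_lit 0x0) (nat_lit 0x600200000000000000000000000000000000000000000000000000000) := D_2 (nat_lit 226) (nat_lit 213) (nat_lit 225) (nat_lit 2) (nat_lit 5) (nat_lit 13) (nat_lit 2) (nat_lit 4) (nat_lit 13) (by decide +kernel)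
theorem L6160 : W_2 (nat_lit 3) (nat_lit 0x300018000c000200020001000080000000000000000000000000000000) (nat_lit 0x0) (nat_lit 0x10000e00200000000000000000000000000000000000000000000000000000) := T_2 (nat_lit 227) (nat_lit 244) (nat_lit 5) (nat_lit 7) (nat_lit 10) L6159 (by decide +kernel)
theorem L6161 : W_2 (nat_lit 4) (nat_lit 0x100018000c000200020001000080000000000000000000000000000000) (nat_lit 0x0) (nat_lit 0x50002e00200000000000000000000000000000000000000000000000000000) := T_2 (nat_lit 229) (nat_lit 246) (nat_lit 7) (nat_lit 7) (nat_lit 10) L6160 (by decide +kernel)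
theorem L6162 : W_2 (nat_lit 5) (nat_lit 0x100018000c000200000001000080000000000000000000000000000000) (nat_lit 0x0) (nat_lit 0x50002e00200000000400020000000000000000000000000000000000000000) := T_2 (nat_lit 161) (nat_lit 178) (nat_lit 6) (nat_lit 7) (nat_lit 13) L6161 (by decide +kernel)
theorem L6163 : W_2 (nat_lit 2) (nat_lit 0x1c0018000c000200000001000080000000000000000000000000000000) (nat_lit 0x0) (nat_lit 0x640000000000000000000000000000000000000000000000000000) := D_2 (nat_lit 213) (nat_lit 214) (nat_lit 210) (nat_lit 1) (nat_lit 10) (nat_lit 12) (nat_lit 1) (nat_lit 9) (nat_lit 12) (by decide +kernel)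
theorem L6164 : W_2 (nat_lit 3) (nat_lit 0x180018000c000200000001000080000000000000000000000000000000) (nat_lit 0x0) (nat_lit 0x600640000000000000000000000000000000000000000000000000000) := T_2 (nat_lit 226) (nat_lit 225) (nat_lit 2) (nat_lit 4) (nat_lit 13) L6163 (by decide +kernel)
theorem L6165 : W_2 (nat_lit 4) (nat_lit 0x100018000c000200000001000080000000000000000000000000000000) (nat_lit 0x0) (nat_lit 0x10000e00640000000000000000000000000000000000000000000000000000) := T_2 (nat_lit 227) (nat_lit 244) (nat_lit 5) (nat_lit 7) (nat_lit 10) L6164 (by decide +kernel)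
theorem L6173 : W_2 (nat_lit 2) (nat_lit 0x700018000c002e00000001000080000000000000000000000000000000) (nat_lit 0x0) (nat_lit 0x8000060000000000000000000000000000000000000000000000000000) := D_2 (nat_lit 210) (nat_lit 209) (nat_lit 231) (nat_lit 3) (nat_lit 5) (nat_lit 12) (nat_lit 0) (nat_lit 10) (nat_lit 13) (by decide +kernel)
theorem L6174 : W_2 (nat_lit 3) (nat_lit 0x300018000c002e00000001000080000000000000000000000000000000) (nat_lit 0x0) (nat_lit 0x8000c000060000000000000000000000000000000000000000000000000000) := T_2 (nat_lit 230) (nat_lit 247) (nat_lit 7) (nat_lit 8) (nat_lit 10) L6173 (by decide +kernel)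
theorem L6175 : W_2 (nat_lit 4) (nat_lit 0x300018000c000e00000001000080000000000000000000000000000000) (nat_lit 0x0) (nat_lit 0x8000c000060000003000000000000000000000000000000000000000000000) := T_2 (nat_lit 181) (nat_lit 180) (nat_lit 1) (nat_lit 11) (nat_lit 10) L6174 (by decide +kernel)
theorem L6176 : W_2 (nat_lit 5) (nat_lit 0x300018000c000600000001000080000000000000000000000000000000) (nat_lit 0x0) (nat_lit 0x8000c000060000003800040000000000000000000000000000000000000000) := T_2 (nat_lit 179) (nat_lit 162) (nat_lit 6) (nat_lit 8) (nat_lit 13) L6175 (by decide +kernel)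
theorem L6177 : W_2 (nat_lit 6) (nat_lit 0x300018000c000200000001000080000000000000000000000000000000) (nat_lit 0x0) (nat_lit 0x8000c000060000003c00060000000000000000000000000000000000000000) := T_2 (nat_lit 178) (nat_lit 161) (nat_lit 6) (nat_lit 7) (nat_lit 13) L6176 (by decide +kernel)
theorem L6178 : W_2 (nat_lit 7) (nat_lit 0x100018000c000200000001000080000000000000000000000000000000) (nat_lit 0x0) (nat_lit 0xc000e000060000003c00060000000000000000000000000000000000000000) := T_2 (nat_lit 229) (nat_lit 246) (nat_lit 7) (nat_lit 7) (nat_lit 10) L6177 (by decide +kernel)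
theorem L6206 : W_2 (nat_lit 2) (nat_lit 0x38000a000d000780004001000080000000000000000000000000000000) (nat_lit 0x0) (nat_lit 0x600010000000000000000000000000000000000000000000000000000) := D_2 (nat_lit 208) (nat_lit 225) (nat_lit 226) (nat_lit 5) (nat_lit 5) (nat_lit 9) (nat_lit 0) (nat_lit 8) (nat_lit 13) (by decide +kernel)
theorem L6207 : W_2 (nat_lit 3) (nat_lit 0x380008000d000780004001000080000000000000000000000000000000) (nat_lit 0x0) (nat_lit 0x600070000000000000000000000000000000000000000000000000000) := T_2 (nat_lit 209) (nat_lit 210) (nat_lit 7) (nat_lit 5) (nat_lit 9) L6206 (by decide +kernel)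
theorem L6224 : W_2 (nat_lit 2) (nat_lit 0x20001000080004000600000001000080000000000000000000000000000000) (nat_lit 0x0) (nat_lit 0x800040002000000000000000000000000000000000000000000000000000000000) := D_2 (nat_lit 246) (nat_lit 229) (nat_lit 263) (nat_lit 7) (nat_lit 7) (nat_lit 10) (nat_lit 7) (nat_lit 7) (nat_lit 11) (by decide +kernel)
theorem L6225 : W_2 (nat_lit 3) (nat_lit 0x1000080004000600000001000080000000000000000000000000000000) (nat_lit 0x0) (nat_lit 0x800060002000000008000000000000000000000000000000000000000000000000) := T_2 (nat_lit 245) (nat_lit 195) (nat_lit 6) (nat_lit 7) (nat_lit 14) L6224 (by decide +kernel)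
theorem L6226 : W_2 (nat_lit 4) (nat_lit 0x1000080004000200000001000080000000000000000000000000000000) (nat_lit 0x0) (nat_lit 0x800060002000000008000400020000000000000000000000000000000000000000) := T_2 (nat_lit 178) (nat_lit 161) (nat_lit 6) (nat_lit 7) (nat_lit 13) L6225 (by decide +kernel)
theorem L6227 : W_2 (nat_lit 2) (nat_lit 0x20001000080004000600000001000080000000000000000000000000000000) (nat_lit 0x0) (nat_lit 0x200010000800000000000000000000000000000000000000000000000000000000) := D_2 (nat_lit 244) (nat_lit 261) (nat_lit 227) (nat_lit 5) (nat_lit 7) (nat_lit 11) (nat_lit 5) (nat_lit 7) (nat_lit 10) (by decide +kernel)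
theorem L6228 : W_2 (nat_lit 3) (nat_lit 0x1000080004000600000001000080000000000000000000000000000000) (nat_lit 0x0) (nat_lit 0x200030000800000008000000000000000000000000000000000000000000000000) := T_2 (nat_lit 245) (nat_lit 195) (nat_lit 6) (nat_lit 7) (nat_lit 14) L6227 (by decide +kernel)
theorem L6229 : W_2 (nat_lit 4) (nat_lit 0x1000080004000200000001000080000000000000000000000000000000) (nat_lit 0x0) (nat_lit 0x200030000800000008000400020000000000000000000000000000000000000000) := T_2 (nat_lit 178) (nat_lit 161) (nat_lit 6) (nat_lit 7) (nat_lit 13) L6228 (by decide +kernel)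
theorem L6231 : W_2 (nat_lit 2) (nat_lit 0x3800180004000600000001000080000000000000000000000000000000) (nat_lit 0x0) (nat_lit 0x600200000000000000000000000000000000000000000000000000000) := D_2 (nat_lit 226) (nat_lit 213) (nat_lit 225) (nat_lit 2) (nat_lit 5) (nat_lit 13) (nat_lit 2) (nat_lit 4) (nat_lit 13) (by decide +kernel)
theorem L6232 : W_2 (nat_lit 3) (nat_lit 0x3000180004000600000001000080000000000000000000000000000000) (nat_lit 0x0) (nat_lit 0x10000e00200000000000000000000000000000000000000000000000000000) := T_2 (nat_lit 227) (nat_lit 244) (nat_lit 5) (nat_lit 7) (nat_lit 10) L6231 (by decide +kernel)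
theorem L6233 : W_2 (nat_lit 4) (nat_lit 0x3000180004000200000001000080000000000000000000000000000000) (nat_lit 0x0) (nat_lit 0x10000e00200000000400020000000000000000000000000000000000000000) := T_2 (nat_lit 178) (nat_lit 161) (nat_lit 6) (nat_lit 7) (nat_lit 13) L6232 (by decide +kernel)
theorem L6234 : W_2 (nat_lit 5) (nat_lit 0x1000180004000200000001000080000000000000000000000000000000) (nat_lit 0x0) (nat_lit 0x50002e00200000000400020000000000000000000000000000000000000000) := T_2 (nat_lit 229) (nat_lit 246) (nat_lit 7) (nat_lit 7) (nat_lit 10) L6233 (by decide +kernel)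
theorem L6238 : W_2 (nat_lit 2) (nat_lit 0x8007c001a0004000600000001000080000000000000000000000000000000) (nat_lit 0x0) (nat_lit 0x180000000000008000000000000000000000000000000000000000000000000) := D_2 (nat_lit 247) (nat_lit 195) (nat_lit 248) (nat_lit 7) (nat_lit 8) (nat_lit 10) (nat_lit 3) (nat_lit 6) (nat_lit 13) (by decide +kernel)
theorem L6239 : W_2 (nat_lit 3) (nat_lit 0x8003c001a0004000600000001000080000000000000000000000000000000) (nat_lit 0x0) (nat_lit 0x180004000040008000000000000000000000000000000000000000000000000) := T_2 (nat_lit 230) (nat_lit 210) (nat_lit 3) (nat_lit 5) (nat_lit 12) L6238 (by decide +kernel)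
theorem L6254 : W_2 (nat_lit 2) (nat_lit 0x3000380006000200000001000080000000000000000000000000000000) (nat_lit 0x0) (nat_lit 0x40001800000000000000000000000000000000000000000000000) := D_2 (nat_lit 192) (nat_lit 191) (nat_lit 210) (nat_lit 3) (nat_lit 4) (nat_lit 11) (nat_lit 0) (nat_lit 9) (nat_lit 12) (by decide +kernel)
theorem L6255 : W_2 (nat_lit 3) (nat_lit 0x3000180006000200000001000080000000000000000000000000000000) (nat_lit 0x0) (nat_lit 0x640001800000000000000000000000000000000000000000000000) := T_2 (nat_lit 213) (nat_lit 214) (nat_lit 0) (nat_lit 10) (nat_lit 12) L6254 (by decide +kernel)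
theorem L6256 : W_2 (nat_lit 4) (nat_lit 0x1000180006000200000001000080000000000000000000000000000000) (nat_lit 0x0) (nat_lit 0x40002000640001800000000000000000000000000000000000000000000000) := T_2 (nat_lit 229) (nat_lit 246) (nat_lit 7) (nat_lit 7) (nat_lit 10) L6255 (by decide +kernel)
theorem L6257 : W_2 (nat_lit 2) (nat_lit 0x700058000e000e00000001000080000000000000000000000000000000) (nat_lit 0x0) (nat_lit 0x8000060000000000000000000000000000000000000000000000000000) := D_2 (nat_lit 210) (nat_lit 209) (nat_lit 231) (nat_lit 3) (nat_lit 5) (nat_lit 12) (nat_lit 0) (nat_lit 10) (nat_lit 13) (by decide +kernel)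
theorem L6258 : W_2 (nat_lit 3) (nat_lit 0x300058000e000e00000001000080000000000000000000000000000000) (nat_lit 0x0) (nat_lit 0x8000c000060000000000000000000000000000000000000000000000000000) := T_2 (nat_lit 230) (nat_lit 247) (nat_lit 7) (nat_lit 8) (nat_lit 10) L6257 (by decide +kernel)
theorem L6259 : W_2 (nat_lit 4) (nat_lit 0x300018000e000e00000001000080000000000000000000000000000000) (nat_lit 0x0) (nat_lit 0x8000c000660000000000000000000000000000000000000000000000000000) := T_2 (nat_lit 214) (nat_lit 213) (nat_lit 0) (nat_lit 10) (nat_lit 12) L6258 (by decide +kernel)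
theorem L6260 : W_2 (nat_lit 5) (nat_lit 0x3000180006000e00000001000080000000000000000000000000000000) (nat_lit 0x0) (nat_lit 0x8000c000660008000000040000000000000000000000000000000000000000) := T_2 (nat_lit 195) (nat_lit 162) (nat_lit 6) (nat_lit 8) (nat_lit 13) L6259 (by decide +kernel)
theorem L6261 : W_2 (nat_lit 6) (nat_lit 0x1000180006000e00000001000080000000000000000000000000000000) (nat_lit 0x0) (nat_lit 0xc000e000660008000000040000000000000000000000000000000000000000) := T_2 (nat_lit 229) (nat_lit 246) (nat_lit 7) (nat_lit 7) (nat_lit 10) L6260 (by decide +kernel)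
theorem L6262 : W_2 (nat_lit 7) (nat_lit 0x1000180006000600000001000080000000000000000000000000000000) (nat_lit 0x0) (nat_lit 0xc000e000660008001800040000000000000000000000000000000000000000) := T_2 (nat_lit 179) (nat_lit 180) (nat_lit 1) (nat_lit 10) (nat_lit 10) L6261 (by decide +kernel)
theorem L6263 : W_2 (nat_lit 8) (nat_lit 0x1000180006000200000001000080000000000000000000000000000000) (nat_lit 0x0) (nat_lit 0xc000e000660008001c00060000000000000000000000000000000000000000) := T_2 (nat_lit 178) (nat_lit 161) (nat_lit 6) (nat_lit 7) (nat_lit 13) L6262 (by decide +kernel)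
theorem L6264 : W_2 (nat_lit 2) (nat_lit 0x700018000e800e00000001000080000000000000000000000000000000) (nat_lit 0x0) (nat_lit 0x8000060000000000000000000000000000000000000000000000000000) := D_2 (nat_lit 210) (nat_lit 209) (nat_lit 231) (nat_lit 3) (nat_lit 5) (nat_lit 12) (nat_lit 0) (nat_lit 10) (nat_lit 13) (by decide +kernel)
theorem L6265 : W_2 (nat_lit 3) (nat_lit 0x300018000e800e00000001000080000000000000000000000000000000) (nat_lit 0x0) (nat_lit 0x8000c000060000000000000000000000000000000000000000000000000000) := T_2 (nat_lit 230) (nat_lit 247) (nat_lit 7) (nat_lit 8) (nat_lit 10) L6264 (by decide +kernel)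
theorem L6266 : W_2 (nat_lit 4) (nat_lit 0x3000180006800e00000001000080000000000000000000000000000000) (nat_lit 0x0) (nat_lit 0x8000c000060008000000040000000000000000000000000000000000000000) := T_2 (nat_lit 195) (nat_lit 162) (nat_lit 6) (nat_lit 8) (nat_lit 13) L6265 (by decide +kernel)
theorem L6271 : W_2 (nat_lit 2) (nat_lit 0x700058000e800e00000001000080000000000000000000000000000000) (nat_lit 0x0) (nat_lit 0x18000800000000000000000000000000000000000000000000000000000) := D_2 (nat_lit 231) (nat_lit 215) (nat_lit 232) (nat_lit 2) (nat_lit 7) (nat_lit 13) (nat_lit 0) (nat_lit 11) (nat_lit 13) (by decide +kernel)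
theorem L6272 : W_2 (nat_lit 3) (nat_lit 0x300058000e800e00000001000080000000000000000000000000000000) (nat_lit 0x0) (nat_lit 0x8001c000800000000000000000000000000000000000000000000000000000) := T_2 (nat_lit 230) (nat_lit 247) (nat_lit 7) (nat_lit 8) (nat_lit 10) L6271 (by decide +kernel)
theorem L6273 : W_2 (nat_lit 4) (nat_lit 0x3000580006800e00000001000080000000000000000000000000000000) (nat_lit 0x0) (nat_lit 0x8001c000800008000000040000000000000000000000000000000000000000) := T_2 (nat_lit 195) (nat_lit 162) (nat_lit 6) (nat_lit 8) (nat_lit 13) L6272 (by decide +kernel)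
theorem L6286 : W_2 (nat_lit 3) (nat_lit 0x1000080006000600000001000080000000000000000000000000000000) (nat_lit 0x0) (nat_lit 0x1001900008000000000000000000000000000000000000000) := T_2 (nat_lit 176) (nat_lit 159) (nat_lit 4) (nat_lit 7) (nat_lit 13) L6285 (by decide +kernel)
theorem L6287 : W_2 (nat_lit 4) (nat_lit 0x1000080006000200000001000080000000000000000000000000000000) (nat_lit 0x0) (nat_lit 0x1001d00028000000000000000000000000000000000000000) := T_2 (nat_lit 178) (nat_lit 161) (nat_lit 6) (nat_lit 7) (nat_lit 13) L6286 (by decide +kernel)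
theorem L6327 : W_2 (nat_lit 2) (nat_lit 0x1c000c0006000300000001000080000000000000000000000000000000) (nat_lit 0x0) (nat_lit 0x300100000000000000000000000000000000000000000000000000000) := D_2 (nat_lit 225) (nat_lit 212) (nat_lit 224) (nat_lit 2) (nat_lit 4) (nat_lit 13) (nat_lit 2) (nat_lit 3) (nat_lit 13) (by decide +kernel)
theorem L6347 : W_2 (nat_lit 2) (nat_lit 0x80007000600000001000080000000000000000000000000000000) (nat_lit 0x0) (nat_lit 0x1900000000000000000000000000000000000000000000) := D_2 (nat_lit 179) (nat_lit 180) (nat_lit 176) (nat_lit 1) (nat_lit 10) (nat_lit 10) (nat_lit 1) (nat_lit 9) (nat_lit 10) (by decide +kernel)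
theorem L6348 : W_2 (nat_lit 3) (nat_lit 0x80006000600000001000080000000000000000000000000000000) (nat_lit 0x0) (nat_lit 0x1801900000000000000000000000000000000000000000000) := T_2 (nat_lit 192) (nat_lit 191) (nat_lit 2) (nat_lit 4) (nat_lit 11) L6347 (by decide +kernel)
theorem L6349 : W_2 (nat_lit 4) (nat_lit 0x80006000200000001000080000000000000000000000000000000) (nat_lit 0x0) (nat_lit 0x1801d00020000000000000000000000000000000000000000) := T_2 (nat_lit 178) (nat_lit 161) (nat_lit 5) (nat_lit 8) (nat_lit 7) L6348 (by decide +kernel)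
theorem L6351 : W_2 (nat_lit 3) (nat_lit 0x80006000600000001000080000000000000000000000000000000) (nat_lit 0x0) (nat_lit 0x9801800000000000000000000000000000000000000000000) := T_2 (nat_lit 192) (nat_lit 191) (nat_lit 2) (nat_lit 4) (nat_lit 11) L6350 (by decide +kernel)
theorem L6352 : W_2 (nat_lit 4) (nat_lit 0x80006000200000001000080000000000000000000000000000000) (nat_lit 0x0) (nat_lit 0x9801c00020000000000000000000000000000000000000000) := T_2 (nat_lit 178) (nat_lit 161) (nat_lit 5) (nat_lit 8) (nat_lit 7) L6351 (by decide +kernel)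
theorem L6368 : W_2 (nat_lit 2) (nat_lit 0x1e000f000200000001000080000000000000000000000000000000) (nat_lit 0x0) (nat_lit 0x40006000000000000000000000000000000000000000000000000000000000) := D_2 (nat_lit 229) (nat_lit 246) (nat_lit 230) (nat_lit 4) (nat_lit 8) (nat_lit 14) (nat_lit 3) (nat_lit 5) (nat_lit 12) (by decide +kernel)
theorem L6369 : W_2 (nat_lit 3) (nat_lit 0x1a000f000200000001000080000000000000000000000000000000) (nat_lit 0x0) (nat_lit 0x40006000040010000000000000000000000000000000000000000000000000) := T_2 (nat_lit 210) (nat_lit 196) (nat_lit 2) (nat_lit 5) (nat_lit 12) L6368 (by decide +kernel)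
theorem L6370 : W_2 (nat_lit 4) (nat_lit 0xa000f000200000001000080000000000000000000000000000000) (nat_lit 0x0) (nat_lit 0x40006000340010000000000000000000000000000000000000000000000000) := T_2 (nat_lit 212) (nat_lit 213) (nat_lit 3) (nat_lit 5) (nat_lit 11) L6369 (by decide +kernel)
theorem L6371 : W_2 (nat_lit 5) (nat_lit 0x8000f000200000001000080000000000000000000000000000000) (nat_lit 0x0) (nat_lit 0x40006000370010000000000000000000000000000000000000000000000000) := T_2 (nat_lit 209) (nat_lit 208) (nat_lit 1) (nat_lit 8) (nat_lit 11) L6370 (by decide +kernel)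
theorem L6428 : W_2 (nat_lit 2) (nat_lit 0x80006000700008001000080000000000000000000000000000000) (nat_lit 0x0) (nat_lit 0x1800004000000000000000000000000000000000000000) := D_2 (nat_lit 179) (nat_lit 180) (nat_lit 158) (nat_lit 1) (nat_lit 10) (nat_lit 10) (nat_lit 0) (nat_lit 9) (nat_lit 10) (by decide +kernel)
theorem L6451 : W_2 (nat_lit 2) (nat_lit 0x80006000e00000001000080000000000000000000000000000000) (nat_lit 0x0) (nat_lit 0x9000100000000000000000000000000000000000000000000) := D_2 (nat_lit 192) (nat_lit 176) (nat_lit 195) (nat_lit 1) (nat_lit 9) (nat_lit 10) (nat_lit 2) (nat_lit 5) (nat_lit 11) (by decide +kernel)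
theorem L6452 : W_2 (nat_lit 3) (nat_lit 0x80006000600000001000080000000000000000000000000000000) (nat_lit 0x0) (nat_lit 0x9001900000000000000000000000000000000000000000000) := T_2 (nat_lit 179) (nat_lit 180) (nat_lit 1) (nat_lit 10) (nat_lit 10) L6451 (by decide +kernel)
theorem L6453 : W_2 (nat_lit 4) (nat_lit 0x80006000200000001000080000000000000000000000000000000) (nat_lit 0x0) (nat_lit 0x9001d00020000000000000000000000000000000000000000) := T_2 (nat_lit 178) (nat_lit 161) (nat_lit 5) (nat_lit 8) (nat_lit 7) L6452 (by decide +kernel)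
theorem L6457 : W_2 (nat_lit 3) (nat_lit 0x80007800240000001000080000000000000000000000000000000) (nat_lit 0x0) (nat_lit 0x1c000400100000000000000000000000000000000000000000000) := T_2 (nat_lit 190) (nat_lit 176) (nat_lit 2) (nat_lit 3) (nat_lit 11) L6454 (by decide +kernel)
theorem L6458 : W_2 (nat_lit 4) (nat_lit 0x80007800200000001000080000000000000000000000000000000) (nat_lit 0x0) (nat_lit 0x1c000400160000000000000000000000000000000000000000000) := T_2 (nat_lit 174) (nat_lit 173) (nat_lit 0) (nat_lit 7) (nat_lit 11) L6457 (by decide +kernel)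
theorem L6501 : W_2 (nat_lit 2) (nat_lit 0x78000c002c000600000001000080000000000000000000000000000000) (nat_lit 0x0) (nat_lit 0x180000000100000000000000000000000000000000000000000000000000000) := D_2 (nat_lit 247) (nat_lit 248) (nat_lit 212) (nat_lit 3) (nat_lit 6) (nat_lit 13) (nat_lit 7) (nat_lit 8) (nat_lit 10) (by decide +kernel)
theorem L6502 : W_2 (nat_lit 3) (nat_lit 0x38000c002c000600000001000080000000000000000000000000000000) (nat_lit 0x0) (nat_lit 0x18000c000100000000000000000000000000000000000000000000000000000) := T_2 (nat_lit 230) (nat_lit 231) (nat_lit 0) (nat_lit 10) (nat_lit 13) L6501 (by decide +kernel)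
theorem L6503 : W_2 (nat_lit 4) (nat_lit 0x18000c002c000600000001000080000000000000000000000000000000) (nat_lit 0x0) (nat_lit 0x1c000e000100000000000000000000000000000000000000000000000000000) := T_2 (nat_lit 229) (nat_lit 246) (nat_lit 7) (nat_lit 7) (nat_lit 10) L6502 (by decide +kernel)
theorem L6521 : W_2 (nat_lit 2) (nat_lit 0x18000e000c000200020001000080000000000000000000000000000000) (nat_lit 0x0) (nat_lit 0x40006000000000000000000000000000000000000000000000000000000000) := D_2 (nat_lit 229) (nat_lit 246) (nat_lit 230) (nat_lit 7) (nat_lit 7) (nat_lit 10) (nat_lit 0) (nat_lit 9) (nat_lit 13) (by decide +kernel)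
theorem L6522 : W_2 (nat_lit 3) (nat_lit 0x18000c000c000200020001000080000000000000000000000000000000) (nat_lit 0x0) (nat_lit 0x40006000030000000000000000000000000000000000000000000000000000) := T_2 (nat_lit 209) (nat_lit 208) (nat_lit 2) (nat_lit 4) (nat_lit 12) L6521 (by decide +kernel)
theorem L6523 : W_2 (nat_lit 4) (nat_lit 0x18000c000c000200000001000080000000000000000000000000000000) (nat_lit 0x0) (nat_lit 0x40006000030000000400020000000000000000000000000000000000000000) := T_2 (nat_lit 161) (nat_lit 178) (nat_lit 6) (nat_lit 7) (nat_lit 13) L6522 (by decide +kernel)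
theorem L6524 : W_2 (nat_lit 5) (nat_lit 0x10000c000c000200000001000080000000000000000000000000000000) (nat_lit 0x0) (nat_lit 0x50006800030000000400020000000000000000000000000000000000000000) := T_2 (nat_lit 227) (nat_lit 244) (nat_lit 5) (nat_lit 7) (nat_lit 10) L6523 (by decide +kernel)
theorem L6531 : W_2 (nat_lit 2) (nat_lit 0x70002d001e000600000001000080000000000000000000000000000000) (nat_lit 0x0) (nat_lit 0x1001800000000000000000000000000000000000000000000) := D_2 (nat_lit 179) (nat_lit 180) (nat_lit 192) (nat_lit 2) (nat_lit 6) (nat_lit 11) (nat_lit 2) (nat_lit 5) (nat_lit 11) (by decide +kernel)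
theorem L6532 : W_2 (nat_lit 3) (nat_lit 0x70002d001c000600000001000080000000000000000000000000000000) (nat_lit 0x0) (nat_lit 0x400003001800000000000000000000000000000000000000000000) := T_2 (nat_lit 193) (nat_lit 214) (nat_lit 3) (nat_lit 6) (nat_lit 11) L6531 (by decide +kernel)
theorem L6533 : W_2 (nat_lit 4) (nat_lit 0x70000d001c000600000001000080000000000000000000000000000000) (nat_lit 0x0) (nat_lit 0x80000000600003001800000000000000000000000000000000000000000000) := T_2 (nat_lit 213) (nat_lit 247) (nat_lit 4) (nat_lit 9) (nat_lit 14) L6532 (by decide +kernel)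
theorem L6564 : W_2 (nat_lit 2) (nat_lit 0x300018000c000e00000001000080000000000000000000000000000000) (nat_lit 0x0) (nat_lit 0x3001000000000000000000000000000000000000000000000) := D_2 (nat_lit 193) (nat_lit 192) (nat_lit 180) (nat_lit 2) (nat_lit 5) (nat_lit 11) (nat_lit 1) (nat_lit 10) (nat_lit 10) (by decide +kernel)
theorem L6565 : W_2 (nat_lit 3) (nat_lit 0x300018000c000600000001000080000000000000000000000000000000) (nat_lit 0x0) (nat_lit 0x3001800040000000000000000000000000000000000000000) := T_2 (nat_lit 179) (nat_lit 162) (nat_lit 6) (nat_lit 8) (nat_lit 13) L6564 (by decide +kernel)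
theorem L6566 : W_2 (nat_lit 4) (nat_lit 0x100018000c000600000001000080000000000000000000000000000000) (nat_lit 0x0) (nat_lit 0x40002000000003001800040000000000000000000000000000000000000000) := T_2 (nat_lit 229) (nat_lit 246) (nat_lit 7) (nat_lit 7) (nat_lit 10) L6565 (by decide +kernel)
theorem L6567 : W_2 (nat_lit 5) (nat_lit 0x100018000c000200000001000080000000000000000000000000000000) (nat_lit 0x0) (nat_lit 0x40002000000003001c00060000000000000000000000000000000000000000) := T_2 (nat_lit 178) (nat_lit 161) (nat_lit 6) (nat_lit 7) (nat_lit 13) L6566 (by decide +kernel)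
theorem L6580 : W_2 (nat_lit 2) (nat_lit 0x1000180007000200000001000080000000000000000000000000000000) (nat_lit 0x0) (nat_lit 0x600008000000000000000000000000000000000000000000000000) := D_2 (nat_lit 213) (nat_lit 214) (nat_lit 195) (nat_lit 0) (nat_lit 10) (nat_lit 12) (nat_lit 3) (nat_lit 5) (nat_lit 11) (by decide +kernel)
theorem L6581 : W_2 (nat_lit 3) (nat_lit 0x1000180006000200000001000080000000000000000000000000000000) (nat_lit 0x0) (nat_lit 0x600009800000000000000000000000000000000000000000000000) := T_2 (nat_lit 192) (nat_lit 191) (nat_lit 3) (nat_lit 4) (nat_lit 11) L6580 (by decide +kernel)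
theorem L6637 : W_2 (nat_lit 2) (nat_lit 0x1800080007000600000001000080000000000000000000000000000000) (nat_lit 0x0) (nat_lit 0x8001800000000000000000000000000000000000000000000) := D_2 (nat_lit 179) (nat_lit 180) (nat_lit 195) (nat_lit 1) (nat_lit 10) (nat_lit 10) (nat_lit 2) (nat_lit 5) (nat_lit 11) (by decide +kernel)
theorem L6638 : W_2 (nat_lit 3) (nat_lit 0x1800080006000600000001000080000000000000000000000000000000) (nat_lit 0x0) (nat_lit 0x9801800000000000000000000000000000000000000000000) := T_2 (nat_lit 192) (nat_lit 191) (nat_lit 2) (nat_lit 4) (nat_lit 11) L6637 (by decide +kernel)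
theorem L6639 : W_2 (nat_lit 4) (nat_lit 0x1800080006000200000001000080000000000000000000000000000000) (nat_lit 0x0) (nat_lit 0x9801c00020000000000000000000000000000000000000000) := T_2 (nat_lit 178) (nat_lit 161) (nat_lit 6) (nat_lit 7) (nat_lit 13) L6638 (by decide +kernel)
theorem L6640 : W_2 (nat_lit 5) (nat_lit 0x1000080006000200000001000080000000000000000000000000000000) (nat_lit 0x0) (nat_lit 0x10000800000009801c00020000000000000000000000000000000000000000) := T_2 (nat_lit 227) (nat_lit 244) (nat_lit 5) (nat_lit 7) (nat_lit 10) L6639 (by decide +kernel)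
theorem L6720 : W_2 (nat_lit 2) (nat_lit 0x80004000200000001000080000000000000000000000000000000) (nat_lit 0x0) (nat_lit 0x400030000000000000000000000000000000000000000) := D_2 (nat_lit 161) (nat_lit 178) (nat_lit 160) (nat_lit 5) (nat_lit 8) (nat_lit 7) (nat_lit 6) (nat_lit 7) (nat_lit 12) (by decide +kernel)
theorem L6840 : W_2 (nat_lit 2) (nat_lit 0x3000d000280004001200080000000000000000000000000000000) (nat_lit 0x0) (nat_lit 0x2000100008000000000000000000000000000000) := D_2 (nat_lit 140) (nat_lit 123) (nat_lit 157) (nat_lit 4) (nat_lit 5) (nat_lit 11) (nat_lit 4) (nat_lit 5) (nat_lit 12) (by decide +kernel)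
theorem L6841 : W_2 (nat_lit 3) (nat_lit 0x3000d000280004001000080000000000000000000000000000000) (nat_lit 0x0) (nat_lit 0x800000002000300008000000000000000000000000000000) := T_2 (nat_lit 141) (nat_lit 191) (nat_lit 5) (nat_lit 5) (nat_lit 8) L6840 (by decide +kernel)
theorem L7387 : W_2 (nat_lit 2) (nat_lit 0x44003c0021001000080000000000000000000000000000000) (nat_lit 0x0) (nat_lit 0x200020000800000000000000000000000000000000000000) := D_2 (nat_lit 173) (nat_lit 189) (nat_lit 155) (nat_lit 1) (nat_lit 6) (nat_lit 10) (nat_lit 0) (nat_lit 6) (nat_lit 10) (by decide +kernel)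
theorem L7388 : W_2 (nat_lit 3) (nat_lit 0x44003c0020001000080000000000000000000000000000000) (nat_lit 0x0) (nat_lit 0x200020003800000000000000000000000000000000000000) := T_2 (nat_lit 156) (nat_lit 157) (nat_lit 0) (nat_lit 7) (nat_lit 10) L7387 (by decide +kernel)
theorem L7389 : W_2 (nat_lit 4) (nat_lit 0x40003c0020001000080000000000000000000000000000000) (nat_lit 0x0) (nat_lit 0xe00020003800000000000000000000000000000000000000) := T_2 (nat_lit 190) (nat_lit 191) (nat_lit 1) (nat_lit 7) (nat_lit 10) L7388 (by decide +kernel)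
theorem L7392 : W_2 (nat_lit 5) (nat_lit 0x4000380020001000080000000000000000000000000000000) (nat_lit 0x0) (nat_lit 0x8e00060003800000000000000000000000000000000000000) := T_2 (nat_lit 174) (nat_lit 195) (nat_lit 3) (nat_lit 4) (nat_lit 10) L7389 (by decide +kernel)
theorem L7393 : W_2 (nat_lit 6) (nat_lit 0x4000380000001000080000000000000000000000000000000) (nat_lit 0x0) (nat_lit 0x8e00460023800000000000000000000000000000000000000) := T_2 (nat_lit 161) (nat_lit 178) (nat_lit 5) (nat_lit 8) (nat_lit 7) L7392 (by decide +kernel)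
theorem L7398 : W_2 (nat_lit 2) (nat_lit 0xd001f80004001000080000000000000000000000000000000) (nat_lit 0x0) (nat_lit 0x1c0000000000000000000000000000000000000000) := D_2 (nat_lit 163) (nat_lit 162) (nat_lit 164) (nat_lit 2) (nat_lit 6) (nat_lit 10) (nat_lit 2) (nat_lit 7) (nat_lit 10) (by decide +kernel)
theorem L7399 : W_2 (nat_lit 3) (nat_lit 0xd000f80004001000080000000000000000000000000000000) (nat_lit 0x0) (nat_lit 0x30001c0000000000000000000000000000000000000000) := T_2 (nat_lit 180) (nat_lit 181) (nat_lit 1) (nat_lit 11) (nat_lit 10) L7398 (by decide +kernel)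
theorem L7400 : W_2 (nat_lit 4) (nat_lit 0xd000780004001000080000000000000000000000000000000) (nat_lit 0x0) (nat_lit 0x38001c8000000000000000000000000000000000000000) := T_2 (nat_lit 179) (nat_lit 159) (nat_lit 0) (nat_lit 9) (nat_lit 10) L7399 (by decide +kernel)
theorem L7401 : W_2 (nat_lit 5) (nat_lit 0xd000780000001000080000000000000000000000000000000) (nat_lit 0x0) (nat_lit 0x38001ce000000000000000000000000000000000000000) := T_2 (nat_lit 158) (nat_lit 157) (nat_lit 0) (nat_lit 8) (nat_lit 10) L7400 (by decide +kernel)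
theorem L7402 : W_2 (nat_lit 6) (nat_lit 0xc000780000001000080000000000000000000000000000000) (nat_lit 0x0) (nat_lit 0x18038001ce000000000000000000000000000000000000000) := T_2 (nat_lit 192) (nat_lit 191) (nat_lit 1) (nat_lit 8) (nat_lit 10) L7401 (by decide +kernel)
theorem L7405 : W_2 (nat_lit 2) (nat_lit 0x4000380020001000080000000000000000000000000000000) (nat_lit 0x0) (nat_lit 0x8000040010000000000000000000000000000000000000000) := D_2 (nat_lit 174) (nat_lit 160) (nat_lit 195) (nat_lit 2) (nat_lit 4) (nat_lit 10) (nat_lit 3) (nat_lit 4) (nat_lit 10) (by decide +kernel)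
theorem L7406 : W_2 (nat_lit 3) (nat_lit 0x4000380000001000080000000000000000000000000000000) (nat_lit 0x0) (nat_lit 0x8000440030000000000000000000000000000000000000000) := T_2 (nat_lit 161) (nat_lit 178) (nat_lit 5) (nat_lit 8) (nat_lit 7) L7405 (by decide +kernel)
theorem L7407 : W_2 (nat_lit 2) (nat_lit 0x40003e0010001000080000000000000000000000000000000) (nat_lit 0x0) (nat_lit 0xe00000000000000000000000000000000000000000000000) := D_2 (nat_lit 190) (nat_lit 189) (nat_lit 191) (nat_lit 1) (nat_lit 6) (nat_lit 10) (nat_lit 1) (nat_lit 7) (nat_lit 10) (by decide +kernel)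
theorem L7412 : W_2 (nat_lit 2) (nat_lit 0x5000780004001000080000000000000000000000000000000) (nat_lit 0x0) (nat_lit 0x2000800008000000000000000000000000000000000000000) := D_2 (nat_lit 179) (nat_lit 193) (nat_lit 159) (nat_lit 1) (nat_lit 9) (nat_lit 10) (nat_lit 0) (nat_lit 9) (nat_lit 10) (by decide +kernel)
theorem L7413 : W_2 (nat_lit 3) (nat_lit 0x5000780000001000080000000000000000000000000000000) (nat_lit 0x0) (nat_lit 0x200080000e000000000000000000000000000000000000000) := T_2 (nat_lit 158) (nat_lit 157) (nat_lit 0) (nat_lit 8) (nat_lit 10) L7412 (by decide +kernel)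
theorem L7414 : W_2 (nat_lit 4) (nat_lit 0x4000780000001000080000000000000000000000000000000) (nat_lit 0x0) (nat_lit 0x380080000e000000000000000000000000000000000000000) := T_2 (nat_lit 192) (nat_lit 191) (nat_lit 1) (nat_lit 8) (nat_lit 10) L7413 (by decide +kernel)
theorem L7659 : W_2 (nat_lit 3) (nat_lit 0xd000f80000001000080000000000000000000000000000000) (nat_lit 0x0) (nat_lit 0x30001c0000000000000000000000000000000000000000) := T_2 (nat_lit 163) (nat_lit 162) (nat_lit 2) (nat_lit 6) (nat_lit 10) L7658 (by decide +kernel)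
theorem L7660 : W_2 (nat_lit 4) (nat_lit 0xd000780000001000080000000000000000000000000000000) (nat_lit 0x0) (nat_lit 0x20038001c0000000000000000000000000000000000000000) := T_2 (nat_lit 179) (nat_lit 193) (nat_lit 2) (nat_lit 5) (nat_lit 11) L7659 (by decide +kernel)
theorem L7661 : W_2 (nat_lit 5) (nat_lit 0xc000780000001000080000000000000000000000000000000) (nat_lit 0x0) (nat_lit 0x38038001c0000000000000000000000000000000000000000) := T_2 (nat_lit 192) (nat_lit 191) (nat_lit 1) (nat_lit 8) (nat_lit 10) L7660 (by decide +kernel)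
theorem L7667 : W_2 (nat_lit 2) (nat_lit 0x1700078000c001700080000000000000000000000000000000) (nat_lit 0x0) (nat_lit 0x100000c0000000000000000000000000000000000) := D_2 (nat_lit 139) (nat_lit 160) (nat_lit 138) (nat_lit 3) (nat_lit 3) (nat_lit 8) (nat_lit 3) (nat_lit 2) (nat_lit 8) (by decide +kernel)
theorem L7668 : W_2 (nat_lit 3) (nat_lit 0x1700078000c001600080000000000000000000000000000000) (nat_lit 0x0) (nat_lit 0x100001c0008000000000000000000000000000000) := T_2 (nat_lit 140) (nat_lit 123) (nat_lit 4) (nat_lit 5) (nat_lit 11) L7667 (by decide +kernel)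
theorem L7675 : W_2 (nat_lit 2) (nat_lit 0x40006800780004001000080000000000000000000000000000000) (nat_lit 0x0) (nat_lit 0x8000200010000000000000000000000000000000) := D_2 (nat_lit 141) (nat_lit 124) (nat_lit 159) (nat_lit 7) (nat_lit 5) (nat_lit 7) (nat_lit 4) (nat_lit 6) (nat_lit 12) (by decide +kernel)
theorem L7676 : W_2 (nat_lit 3) (nat_lit 0x6800780004001000080000000000000000000000000000000) (nat_lit 0x0) (nat_lit 0x800040000000000008000200010000000000000000000000000000000) := T_2 (nat_lit 210) (nat_lit 227) (nat_lit 4) (nat_lit 6) (nat_lit 13) L7675 (by decide +kernel)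
theorem L7679 : W_2 (nat_lit 2) (nat_lit 0x7000780004001000080000000000000000000000000000000) (nat_lit 0x0) (nat_lit 0x800040000000000000000200000000000000000000000000000000000) := D_2 (nat_lit 210) (nat_lit 227) (nat_lit 141) (nat_lit 4) (nat_lit 6) (nat_lit 13) (nat_lit 7) (nat_lit 5) (nat_lit 8) (by decide +kernel)
theorem L7680 : W_2 (nat_lit 3) (nat_lit 0x7000780000001000080000000000000000000000000000000) (nat_lit 0x0) (nat_lit 0x800040000000000006000200000000000000000000000000000000000) := T_2 (nat_lit 158) (nat_lit 157) (nat_lit 0) (nat_lit 8) (nat_lit 10) L7679 (by decide +kernel)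
theorem L7689 : W_2 (nat_lit 4) (nat_lit 0x6000780004001000080000000000000000000000000000000) (nat_lit 0x0) (nat_lit 0x800040018000000008000200010000000000000000000000000000000) := T_2 (nat_lit 195) (nat_lit 196) (nat_lit 3) (nat_lit 5) (nat_lit 10) L7688 (by decide +kernel)
theorem L7690 : W_2 (nat_lit 5) (nat_lit 0x6000780000001000080000000000000000000000000000000) (nat_lit 0x0) (nat_lit 0x80004001800000000e000200010000000000000000000000000000000) := T_2 (nat_lit 158) (nat_lit 157) (nat_lit 0) (nat_lit 8) (nat_lit 10) L7689 (by decide +kernel)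
theorem L7715 : W_2 (nat_lit 2) (nat_lit 0x50003e0000001000080000000000000000000000000000000) (nat_lit 0x0) (nat_lit 0x3800000000000000000000000000000000000000) := D_2 (nat_lit 156) (nat_lit 157) (nat_lit 155) (nat_lit 0) (nat_lit 7) (nat_lit 10) (nat_lit 0) (nat_lit 6) (nat_lit 10) (by decide +kernel)
theorem L7716 : W_2 (nat_lit 3) (nat_lit 0x50003c0000001000080000000000000000000000000000000) (nat_lit 0x0) (nat_lit 0x2000020003800000000000000000000000000000000000000) := T_2 (nat_lit 173) (nat_lit 193) (nat_lit 3) (nat_lit 3) (nat_lit 10) L7715 (by decide +kernel)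
theorem L7720 : W_2 (nat_lit 2) (nat_lit 0x50003f0008001000080000000000000000000000000000000) (nat_lit 0x0) (nat_lit 0x700000000000000000000000000000000000000000000000) := D_2 (nat_lit 189) (nat_lit 188) (nat_lit 190) (nat_lit 1) (nat_lit 5) (nat_lit 10) (nat_lit 1) (nat_lit 6) (nat_lit 10) (by decide +kernel)
theorem L7721 : W_2 (nat_lit 3) (nat_lit 0x50003e0008001000080000000000000000000000000000000) (nat_lit 0x0) (nat_lit 0x700010004000000000000000000000000000000000000000) := T_2 (nat_lit 172) (nat_lit 158) (nat_lit 2) (nat_lit 2) (nat_lit 10) L7720 (by decide +kernel)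
theorem L7722 : W_2 (nat_lit 4) (nat_lit 0x50003e0000001000080000000000000000000000000000000) (nat_lit 0x0) (nat_lit 0x70001001c000000000000000000000000000000000000000) := T_2 (nat_lit 159) (nat_lit 160) (nat_lit 2) (nat_lit 3) (nat_lit 10) L7721 (by decide +kernel)
theorem L7723 : W_2 (nat_lit 5) (nat_lit 0x50003c0000001000080000000000000000000000000000000) (nat_lit 0x0) (nat_lit 0x270003001c000000000000000000000000000000000000000) := T_2 (nat_lit 173) (nat_lit 193) (nat_lit 3) (nat_lit 3) (nat_lit 10) L7722 (by decide +kernel)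
theorem L7752 : W_2 (nat_lit 2) (nat_lit 0x5000f80004001000080000000000000000000000000000000) (nat_lit 0x0) (nat_lit 0x38000000000000000000000000000000000000000000000000) := D_2 (nat_lit 196) (nat_lit 195) (nat_lit 197) (nat_lit 3) (nat_lit 5) (nat_lit 10) (nat_lit 3) (nat_lit 6) (nat_lit 10) (by decide +kernel)
theorem L7796 : W_2 (nat_lit 2) (nat_lit 0x20001f000300000001000080000000000000000000000000000000) (nat_lit 0x0) (nat_lit 0x800c00000000000000000000000000000000000000000000) := D_2 (nat_lit 178) (nat_lit 179) (nat_lit 191) (nat_lit 2) (nat_lit 5) (nat_lit 11) (nat_lit 2) (nat_lit 4) (nat_lit 11) (by decide +kernel)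
theorem L7797 : W_2 (nat_lit 3) (nat_lit 0x20001e000300000001000080000000000000000000000000000000) (nat_lit 0x0) (nat_lit 0x100001800c00000000000000000000000000000000000000000000) := T_2 (nat_lit 192) (nat_lit 212) (nat_lit 3) (nat_lit 5) (nat_lit 11) L7796 (by decide +kernel)
theorem L7798 : W_2 (nat_lit 4) (nat_lit 0x1e000300000001000080000000000000000000000000000000) (nat_lit 0x0) (nat_lit 0x700001800c00000000000000000000000000000000000000000000) := T_2 (nat_lit 213) (nat_lit 214) (nat_lit 3) (nat_lit 6) (nat_lit 11) L7797 (by decide +kernel)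
theorem L7799 : W_2 (nat_lit 5) (nat_lit 0x1e000200000001000080000000000000000000000000000000) (nat_lit 0x0) (nat_lit 0x700001800d80000000000000000000000000000000000000000000) := T_2 (nat_lit 176) (nat_lit 175) (nat_lit 0) (nat_lit 9) (nat_lit 11) L7798 (by decide +kernel)
theorem L7800 : W_2 (nat_lit 2) (nat_lit 0x1f000a00000001000080000000000000000000000000000000) (nat_lit 0x0) (nat_lit 0x70000000000000000000000000000000000000000000000000000) := D_2 (nat_lit 209) (nat_lit 208) (nat_lit 210) (nat_lit 1) (nat_lit 8) (nat_lit 11) (nat_lit 1) (nat_lit 9) (nat_lit 11) (by decide +kernel)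
theorem L7801 : W_2 (nat_lit 3) (nat_lit 0x1e000a00000001000080000000000000000000000000000000) (nat_lit 0x0) (nat_lit 0x70001000400000000000000000000000000000000000000000000) := T_2 (nat_lit 192) (nat_lit 178) (nat_lit 2) (nat_lit 5) (nat_lit 11) L7800 (by decide +kernel)
theorem L7802 : W_2 (nat_lit 4) (nat_lit 0x1e000200000001000080000000000000000000000000000000) (nat_lit 0x0) (nat_lit 0x70001001c00000000000000000000000000000000000000000000) := T_2 (nat_lit 179) (nat_lit 180) (nat_lit 2) (nat_lit 6) (nat_lit 11) L7801 (by decide +kernel)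
theorem L7806 : W_2 (nat_lit 2) (nat_lit 0xc0034001e000b00000001000080000000000000000000000000000000) (nat_lit 0x0) (nat_lit 0x20003000000000000000000000000000000000000000000000000000000000) := D_2 (nat_lit 228) (nat_lit 245) (nat_lit 229) (nat_lit 7) (nat_lit 6) (nat_lit 10) (nat_lit 2) (nat_lit 5) (nat_lit 13) (by decide +kernel)
theorem L7807 : W_2 (nat_lit 3) (nat_lit 0xc0024001e000b00000001000080000000000000000000000000000000) (nat_lit 0x0) (nat_lit 0x20003000180000000000000000000000000000000000000000000000000000) := T_2 (nat_lit 212) (nat_lit 211) (nat_lit 1) (nat_lit 9) (nat_lit 12) L7806 (by decide +kernel)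
theorem L7808 : W_2 (nat_lit 4) (nat_lit 0x80024001e000b00000001000080000000000000000000000000000000) (nat_lit 0x0) (nat_lit 0x28003400180000000000000000000000000000000000000000000000000000) := T_2 (nat_lit 226) (nat_lit 243) (nat_lit 5) (nat_lit 6) (nat_lit 10) L7807 (by decide +kernel)
theorem L7809 : W_2 (nat_lit 5) (nat_lit 0x24001e000b00000001000080000000000000000000000000000000) (nat_lit 0x0) (nat_lit 0x38003c00180000000000000000000000000000000000000000000000000000) := T_2 (nat_lit 227) (nat_lit 244) (nat_lit 6) (nat_lit 6) (nat_lit 14) L7808 (by decide +kernel)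
theorem L7810 : W_2 (nat_lit 6) (nat_lit 0x20001e000b00000001000080000000000000000000000000000000) (nat_lit 0x0) (nat_lit 0x38003c001e0000000000000000000000000000000000000000000000000000) := T_2 (nat_lit 210) (nat_lit 209) (nat_lit 1) (nat_lit 9) (nat_lit 11) L7809 (by decide +kernel)
theorem L7811 : W_2 (nat_lit 7) (nat_lit 0x20001e000300000001000080000000000000000000000000000000) (nat_lit 0x0) (nat_lit 0x38003c001e0000001800000000000000000000000000000000000000000000) := T_2 (nat_lit 179) (nat_lit 180) (nat_lit 2) (nat_lit 6) (nat_lit 11) L7810 (by decide +kernel)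
theorem L7812 : W_2 (nat_lit 8) (nat_lit 0x1e000300000001000080000000000000000000000000000000) (nat_lit 0x0) (nat_lit 0x38003c007e0000001800000000000000000000000000000000000000000000) := T_2 (nat_lit 213) (nat_lit 214) (nat_lit 3) (nat_lit 6) (nat_lit 11) L7811 (by decide +kernel)
theorem L7813 : W_2 (nat_lit 9) (nat_lit 0x1e000200000001000080000000000000000000000000000000) (nat_lit 0x0) (nat_lit 0x38003c007e0000001980000000000000000000000000000000000000000000) := T_2 (nat_lit 176) (nat_lit 175) (nat_lit 0) (nat_lit 9) (nat_lit 11) L7812 (by decide +kernel)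
theorem L7823 : W_2 (nat_lit 2) (nat_lit 0x40003e000200000001000080000000000000000000000000000000) (nat_lit 0x0) (nat_lit 0x3800000000000000000000000000000000000000000000) := D_2 (nat_lit 180) (nat_lit 179) (nat_lit 181) (nat_lit 2) (nat_lit 6) (nat_lit 11) (nat_lit 2) (nat_lit 7) (nat_lit 11) (by decide +kernel)
theorem L7824 : W_2 (nat_lit 3) (nat_lit 0x40003c000200000001000080000000000000000000000000000000) (nat_lit 0x0) (nat_lit 0x200002003800000000000000000000000000000000000000000000) := T_2 (nat_lit 193) (nat_lit 213) (nat_lit 3) (nat_lit 6) (nat_lit 11) L7823 (by decide +kernel)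
theorem L7825 : W_2 (nat_lit 4) (nat_lit 0x3c000200000001000080000000000000000000000000000000) (nat_lit 0x0) (nat_lit 0xe00002003800000000000000000000000000000000000000000000) := T_2 (nat_lit 214) (nat_lit 215) (nat_lit 3) (nat_lit 7) (nat_lit 11) L7824 (by decide +kernel)
theorem L7826 : W_2 (nat_lit 2) (nat_lit 0x68007c004200000001000080000000000000000000000000000000) (nat_lit 0x0) (nat_lit 0x180008000000000000000000000000000000000000000000000) := D_2 (nat_lit 199) (nat_lit 200) (nat_lit 183) (nat_lit 1) (nat_lit 13) (nat_lit 11) (nat_lit 2) (nat_lit 9) (nat_lit 11) (by decide +kernel)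
theorem L7827 : W_2 (nat_lit 3) (nat_lit 0x68007c000200000001000080000000000000000000000000000000) (nat_lit 0x0) (nat_lit 0x18000e000000000000000000000000000000000000000000000) := T_2 (nat_lit 182) (nat_lit 181) (nat_lit 2) (nat_lit 8) (nat_lit 11) L7826 (by decide +kernel)
theorem L7828 : W_2 (nat_lit 4) (nat_lit 0x68003c000200000001000080000000000000000000000000000000) (nat_lit 0x0) (nat_lit 0x1001c000e000000000000000000000000000000000000000000000) := T_2 (nat_lit 198) (nat_lit 212) (nat_lit 2) (nat_lit 7) (nat_lit 12) L7827 (by decide +kernel)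
theorem L7829 : W_2 (nat_lit 5) (nat_lit 0x48003c000200000001000080000000000000000000000000000000) (nat_lit 0x0) (nat_lit 0x3001c200e000000000000000000000000000000000000000000000) := T_2 (nat_lit 213) (nat_lit 193) (nat_lit 3) (nat_lit 6) (nat_lit 11) L7828 (by decide +kernel)
theorem L7830 : W_2 (nat_lit 6) (nat_lit 0x8003c000200000001000080000000000000000000000000000000) (nat_lit 0x0) (nat_lit 0xf001c200e000000000000000000000000000000000000000000000) := T_2 (nat_lit 214) (nat_lit 215) (nat_lit 3) (nat_lit 7) (nat_lit 11) L7829 (by decide +kernel)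
theorem L7831 : W_2 (nat_lit 7) (nat_lit 0x3c000200000001000080000000000000000000000000000000) (nat_lit 0x0) (nat_lit 0xfc01c200e000000000000000000000000000000000000000000000) := T_2 (nat_lit 211) (nat_lit 210) (nat_lit 1) (nat_lit 10) (nat_lit 11) L7830 (by decide +kernel)
theorem L7832 : W_2 (nat_lit 2) (nat_lit 0x900078003c000200000001000080000000000000000000000000000000) (nat_lit 0x0) (nat_lit 0x2000100000000000000000800000000000000000000000000000000000000000000) := D_2 (nat_lit 248) (nat_lit 179) (nat_lit 265) (nat_lit 4) (nat_lit 10) (nat_lit 14) (nat_lit 4) (nat_lit 10) (nat_lit 15) (by decide +kernel)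
theorem L7833 : W_2 (nat_lit 3) (nat_lit 0x100078003c000200000001000080000000000000000000000000000000) (nat_lit 0x0) (nat_lit 0x2000100018000000000000800000000000000000000000000000000000000000000) := T_2 (nat_lit 231) (nat_lit 232) (nat_lit 3) (nat_lit 7) (nat_lit 12) L7832 (by decide +kernel)
theorem L7834 : W_2 (nat_lit 4) (nat_lit 0x78003c000200000001000080000000000000000000000000000000) (nat_lit 0x0) (nat_lit 0x2000100019800000000000800000000000000000000000000000000000000000000) := T_2 (nat_lit 228) (nat_lit 227) (nat_lit 1) (nat_lit 10) (nat_lit 12) L7833 (by decide +kernel)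
theorem L7835 : W_2 (nat_lit 5) (nat_lit 0x68003c000200000001000080000000000000000000000000000000) (nat_lit 0x0) (nat_lit 0x2000100019800100040000800000000000000000000000000000000000000000000) := T_2 (nat_lit 212) (nat_lit 198) (nat_lit 2) (nat_lit 7) (nat_lit 12) L7834 (by decide +kernel)
theorem L7836 : W_2 (nat_lit 6) (nat_lit 0x48003c000200000001000080000000000000000000000000000000) (nat_lit 0x0) (nat_lit 0x2000100019800300042000800000000000000000000000000000000000000000000) := T_2 (nat_lit 213) (nat_lit 193) (nat_lit 3) (nat_lit 6) (nat_lit 11) L7835 (by decide +kernel)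
theorem L7837 : W_2 (nat_lit 7) (nat_lit 0x8003c000200000001000080000000000000000000000000000000) (nat_lit 0x0) (nat_lit 0x2000100019800f00042000800000000000000000000000000000000000000000000) := T_2 (nat_lit 214) (nat_lit 215) (nat_lit 3) (nat_lit 7) (nat_lit 11) L7836 (by decide +kernel)
theorem L7838 : W_2 (nat_lit 8) (nat_lit 0x3c000200000001000080000000000000000000000000000000) (nat_lit 0x0) (nat_lit 0x2000100019800fc0042000800000000000000000000000000000000000000000000) := T_2 (nat_lit 211) (nat_lit 210) (nat_lit 1) (nat_lit 10) (nat_lit 11) L7837 (by decide +kernel)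
theorem L7840 : W_2 (nat_lit 5) (nat_lit 0x1c000200000001000080000000000000000000000000000000) (nat_lit 0x0) (nat_lit 0xe00022003900000000000000000000000000000000000000000000) := T_2 (nat_lit 197) (nat_lit 176) (nat_lit 0) (nat_lit 10) (nat_lit 11) L7825 (by decide +kernel)
theorem L7846 : W_2 (nat_lit 2) (nat_lit 0x180004001e000b00008001400080000000000000000000000000000000) (nat_lit 0x0) (nat_lit 0x4000200010000000000000000000000000000000) := D_2 (nat_lit 141) (nat_lit 158) (nat_lit 124) (nat_lit 4) (nat_lit 6) (nat_lit 12) (nat_lit 4) (nat_lit 6) (nat_lit 11) (by decide +kernel)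
theorem L7847 : W_2 (nat_lit 3) (nat_lit 0x180004001e000b00008001000080000000000000000000000000000000) (nat_lit 0x0) (nat_lit 0x4000600030000000000000000000000000000000) := T_2 (nat_lit 142) (nat_lit 125) (nat_lit 7) (nat_lit 6) (nat_lit 7) L7846 (by decide +kernel)
theorem L7848 : W_2 (nat_lit 4) (nat_lit 0x180004001e000b00000001000080000000000000000000000000000000) (nat_lit 0x0) (nat_lit 0x8000000000000c000600030000000000000000000000000000000) := T_2 (nat_lit 159) (nat_lit 211) (nat_lit 7) (nat_lit 6) (nat_lit 9) L7847 (by decide +kernel)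
theorem L7849 : W_2 (nat_lit 5) (nat_lit 0x80004001e000b00000001000080000000000000000000000000000000) (nat_lit 0x0) (nat_lit 0x2000100008000000000000c000600030000000000000000000000000000000) := T_2 (nat_lit 228) (nat_lit 245) (nat_lit 7) (nat_lit 6) (nat_lit 10) L7848 (by decide +kernel)
theorem L7855 : W_2 (nat_lit 9) (nat_lit 0x1c000200000001000080000000000000000000000000000000) (nat_lit 0x0) (nat_lit 0x2000100019800fc0062000900000000000000000000000000000000000000000000) := T_2 (nat_lit 197) (nat_lit 176) (nat_lit 0) (nat_lit 10) (nat_lit 11) L7838 (by decide +kernel)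
theorem L7880 : W_2 (nat_lit 8) (nat_lit 0x1e000300020001000080000000000000000000000000000000) (nat_lit 0x0) (nat_lit 0x38001c000e000000000000c000600030000000000000000000000000000000) := T_2 (nat_lit 210) (nat_lit 209) (nat_lit 1) (nat_lit 9) (nat_lit 11) L5188 (by decide +kernel)
theorem L7881 : W_2 (nat_lit 9) (nat_lit 0x1e000300000001000080000000000000000000000000000000) (nat_lit 0x0) (nat_lit 0x38001c000e000000040002c000600030000000000000000000000000000000) := T_2 (nat_lit 161) (nat_lit 178) (nat_lit 5) (nat_lit 8) (nat_lit 7) L7880 (by decide +kernel)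
theorem L7882 : W_2 (nat_lit 10) (nat_lit 0x1e000200000001000080000000000000000000000000000000) (nat_lit 0x0) (nat_lit 0x38001c000e000000058002c000600030000000000000000000000000000000) := T_2 (nat_lit 176) (nat_lit 175) (nat_lit 0) (nat_lit 9) (nat_lit 11) L7881 (by decide +kernel)
theorem L7890 : W_2 (nat_lit 2) (nat_lit 0x108007c004200020001000080000000000000000000000000000000) (nat_lit 0x0) (nat_lit 0x2000080008000000000000000000000000000000000000000000000) := D_2 (nat_lit 199) (nat_lit 183) (nat_lit 217) (nat_lit 2) (nat_lit 9) (nat_lit 11) (nat_lit 3) (nat_lit 9) (nat_lit 11) (by decide +kernel)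
theorem L7891 : W_2 (nat_lit 3) (nat_lit 0x8007c004200020001000080000000000000000000000000000000) (nat_lit 0x0) (nat_lit 0x3800080008000000000000000000000000000000000000000000000) := T_2 (nat_lit 216) (nat_lit 215) (nat_lit 3) (nat_lit 8) (nat_lit 11) L7890 (by decide +kernel)
theorem L7892 : W_2 (nat_lit 4) (nat_lit 0x8007c000200020001000080000000000000000000000000000000) (nat_lit 0x0) (nat_lit 0x380008000e000000000000000000000000000000000000000000000) := T_2 (nat_lit 182) (nat_lit 181) (nat_lit 2) (nat_lit 8) (nat_lit 11) L7891 (by decide +kernel)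
theorem L7893 : W_2 (nat_lit 5) (nat_lit 0x8003c000200020001000080000000000000000000000000000000) (nat_lit 0x0) (nat_lit 0x39000c000e000000000000000000000000000000000000000000000) := T_2 (nat_lit 198) (nat_lit 212) (nat_lit 1) (nat_lit 11) (nat_lit 11) L7892 (by decide +kernel)
theorem L7894 : W_2 (nat_lit 6) (nat_lit 0x3c000200020001000080000000000000000000000000000000) (nat_lit 0x0) (nat_lit 0x39c00c000e000000000000000000000000000000000000000000000) := T_2 (nat_lit 211) (nat_lit 210) (nat_lit 1) (nat_lit 10) (nat_lit 11) L7893 (by decide +kernel)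
theorem L7895 : W_2 (nat_lit 7) (nat_lit 0x1c000200020001000080000000000000000000000000000000) (nat_lit 0x0) (nat_lit 0x39c00e000e100000000000000000000000000000000000000000000) := T_2 (nat_lit 197) (nat_lit 176) (nat_lit 0) (nat_lit 10) (nat_lit 11) L7894 (by decide +kernel)
theorem L7896 : W_2 (nat_lit 8) (nat_lit 0x1c000200000001000080000000000000000000000000000000) (nat_lit 0x0) (nat_lit 0x39c00e000e500020000000000000000000000000000000000000000) := T_2 (nat_lit 161) (nat_lit 178) (nat_lit 5) (nat_lit 8) (nat_lit 7) L7895 (by decide +kernel)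
theorem L7898 : W_2 (nat_lit 2) (nat_lit 0x1e000a00000001000080000000000000000000000000000000) (nat_lit 0x0) (nat_lit 0x1000400020000000000000000000000000000000000000000) := D_2 (nat_lit 178) (nat_lit 192) (nat_lit 161) (nat_lit 2) (nat_lit 5) (nat_lit 11) (nat_lit 7) (nat_lit 8) (nat_lit 7) (by decide +kernel)
theorem L7899 : W_2 (nat_lit 3) (nat_lit 0x1e000200000001000080000000000000000000000000000000) (nat_lit 0x0) (nat_lit 0x1001c00020000000000000000000000000000000000000000) := T_2 (nat_lit 179) (nat_lit 180) (nat_lit 2) (nat_lit 6) (nat_lit 11) L7898 (by decide +kernel)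
theorem L7916 : W_2 (nat_lit 2) (nat_lit 0x4001e000d000300010001000080000000000000000000000000000000) (nat_lit 0x0) (nat_lit 0x8000000200002000000000000000000000000000000000000000000000000) := D_2 (nat_lit 193) (nat_lit 213) (nat_lit 243) (nat_lit 3) (nat_lit 5) (nat_lit 11) (nat_lit 6) (nat_lit 5) (nat_lit 14) (by decide +kernel)
theorem L7917 : W_2 (nat_lit 3) (nat_lit 0x4001e000c000300010001000080000000000000000000000000000000) (nat_lit 0x0) (nat_lit 0x8000000200003800000000000000000000000000000000000000000000000) := T_2 (nat_lit 192) (nat_lit 191) (nat_lit 0) (nat_lit 8) (nat_lit 12) L7916 (by decide +kernel)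
theorem L7918 : W_2 (nat_lit 4) (nat_lit 0x1e000c000300010001000080000000000000000000000000000000) (nat_lit 0x0) (nat_lit 0x8000600200003800000000000000000000000000000000000000000000000) := T_2 (nat_lit 226) (nat_lit 225) (nat_lit 1) (nat_lit 8) (nat_lit 12) L7917 (by decide +kernel)
theorem L7924 : W_2 (nat_lit 2) (nat_lit 0x60001c0018002c000340000001000080000000000000000000000000000000) (nat_lit 0x0) (nat_lit 0x640000000000000000000000000000000000000000000000000000) := D_2 (nat_lit 213) (nat_lit 214) (nat_lit 210) (nat_lit 1) (nat_lit 10) (nat_lit 12) (nat_lit 1) (nat_lit 9) (nat_lit 12) (by decide +kernel)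
theorem L7925 : W_2 (nat_lit 3) (nat_lit 0x6000180018002c000340000001000080000000000000000000000000000000) (nat_lit 0x0) (nat_lit 0x600640000000000000000000000000000000000000000000000000000) := T_2 (nat_lit 226) (nat_lit 225) (nat_lit 3) (nat_lit 4) (nat_lit 13) L7924 (by decide +kernel)
theorem L7926 : W_2 (nat_lit 4) (nat_lit 0x6000180008002c000340000001000080000000000000000000000000000000) (nat_lit 0x0) (nat_lit 0x400000000600740000000000000000000000000000000000000000000000000000) := T_2 (nat_lit 212) (nat_lit 262) (nat_lit 6) (nat_lit 7) (nat_lit 15) L7925 (by decide +kernel)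
theorem L7927 : W_2 (nat_lit 5) (nat_lit 0x4000180008002c000340000001000080000000000000000000000000000000) (nat_lit 0x0) (nat_lit 0xc00020000600740000000000000000000000000000000000000000000000000000) := T_2 (nat_lit 245) (nat_lit 263) (nat_lit 7) (nat_lit 7) (nat_lit 11) L7926 (by decide +kernel)
theorem L7952 : W_2 (nat_lit 2) (nat_lit 0x2000300008000c000340000001000080000000000000000000000000000000) (nat_lit 0x0) (nat_lit 0x200010000800000000000000000000000000000000000000000000000000000000) := D_2 (nat_lit 244) (nat_lit 261) (nat_lit 227) (nat_lit 5) (nat_lit 7) (nat_lit 11) (nat_lit 5) (nat_lit 7) (nat_lit 10) (by decide +kernel)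
theorem L7953 : W_2 (nat_lit 3) (nat_lit 0x300008000c000340000001000080000000000000000000000000000000) (nat_lit 0x0) (nat_lit 0x200030000800000000000400000000000000000000000000000000000000000000) := T_2 (nat_lit 245) (nat_lit 178) (nat_lit 6) (nat_lit 7) (nat_lit 14) L7952 (by decide +kernel)
theorem L7954 : W_2 (nat_lit 4) (nat_lit 0x100008000c000340000001000080000000000000000000000000000000) (nat_lit 0x0) (nat_lit 0x200070002800000000000400000000000000000000000000000000000000000000) := T_2 (nat_lit 229) (nat_lit 246) (nat_lit 7) (nat_lit 7) (nat_lit 10) L7953 (by decide +kernel)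
theorem L7955 : W_2 (nat_lit 5) (nat_lit 0x100008000c000300000001000080000000000000000000000000000000) (nat_lit 0x0) (nat_lit 0x2000700028000000000004c0000000000000000000000000000000000000000000) := T_2 (nat_lit 174) (nat_lit 175) (nat_lit 3) (nat_lit 4) (nat_lit 10) L7954 (by decide +kernel)
theorem L7956 : W_2 (nat_lit 6) (nat_lit 0x8000c000300000001000080000000000000000000000000000000) (nat_lit 0x0) (nat_lit 0x2000700038000000000004c0008000000000000000000000000000000000000000) := T_2 (nat_lit 228) (nat_lit 159) (nat_lit 4) (nat_lit 7) (nat_lit 13) L7955 (by decide +kernel)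
theorem L7963 : W_2 (nat_lit 2) (nat_lit 0x1e000c000380018001000080000000000000000000000000000000) (nat_lit 0x0) (nat_lit 0x600000001000000000000000000000000000000000000000000000000) := D_2 (nat_lit 226) (nat_lit 225) (nat_lit 192) (nat_lit 1) (nat_lit 8) (nat_lit 12) (nat_lit 6) (nat_lit 5) (nat_lit 13) (by decide +kernel)
theorem L7973 : W_2 (nat_lit 4) (nat_lit 0x100008002c000300000001000080000000000000000000000000000000) (nat_lit 0x0) (nat_lit 0x200070002800000000000400000000000000000000000000000000000000000000) := T_2 (nat_lit 229) (nat_lit 246) (nat_lit 7) (nat_lit 7) (nat_lit 10) L7972 (by decide +kernel)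
theorem L7974 : W_2 (nat_lit 5) (nat_lit 0x100008000c000300000001000080000000000000000000000000000000) (nat_lit 0x0) (nat_lit 0x200070002800000030000400000000000000000000000000000000000000000000) := T_2 (nat_lit 197) (nat_lit 196) (nat_lit 0) (nat_lit 10) (nat_lit 11) L7973 (by decide +kernel)
theorem L7975 : W_2 (nat_lit 6) (nat_lit 0x8000c000300000001000080000000000000000000000000000000) (nat_lit 0x0) (nat_lit 0x200070003800000030000400008000000000000000000000000000000000000000) := T_2 (nat_lit 228) (nat_lit 159) (nat_lit 4) (nat_lit 7) (nat_lit 13) L7974 (by decide +kernel)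
theorem L7976 : W_2 (nat_lit 2) (nat_lit 0xc001c000300010001000080000000000000000000000000000000) (nat_lit 0x0) (nat_lit 0x130000000000000000000000000000000000000000000000000000) := D_2 (nat_lit 209) (nat_lit 212) (nat_lit 208) (nat_lit 2) (nat_lit 5) (nat_lit 12) (nat_lit 2) (nat_lit 4) (nat_lit 12) (by decide +kernel)
theorem L7977 : W_2 (nat_lit 3) (nat_lit 0x8001c000300010001000080000000000000000000000000000000) (nat_lit 0x0) (nat_lit 0x800170000000000000000000000000000000000000000000000000000) := T_2 (nat_lit 210) (nat_lit 227) (nat_lit 5) (nat_lit 7) (nat_lit 9) L7976 (by decide +kernel)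
theorem L7978 : W_2 (nat_lit 4) (nat_lit 0x8001c000300000001000080000000000000000000000000000000) (nat_lit 0x0) (nat_lit 0x800170000000000010000800000000000000000000000000000000000) := T_2 (nat_lit 160) (nat_lit 143) (nat_lit 6) (nat_lit 7) (nat_lit 11) L7977 (by decide +kernel)
theorem L7979 : W_2 (nat_lit 5) (nat_lit 0x8000c000300000001000080000000000000000000000000000000) (nat_lit 0x0) (nat_lit 0x800170030000000010000800000000000000000000000000000000000) := T_2 (nat_lit 196) (nat_lit 197) (nat_lit 0) (nat_lit 10) (nat_lit 11) L7978 (by decide +kernel)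
theorem L7983 : W_2 (nat_lit 2) (nat_lit 0x34001e000a00010001000080000000000000000000000000000000) (nat_lit 0x0) (nat_lit 0x40002000000000000000040000000000000000000000000000000000000000) := D_2 (nat_lit 229) (nat_lit 246) (nat_lit 162) (nat_lit 6) (nat_lit 8) (nat_lit 14) (nat_lit 5) (nat_lit 9) (nat_lit 9) (by decide +kernel)
theorem L7984 : W_2 (nat_lit 3) (nat_lit 0x24001e000a00010001000080000000000000000000000000000000) (nat_lit 0x0) (nat_lit 0x40002000100001000000040000000000000000000000000000000000000000) := T_2 (nat_lit 212) (nat_lit 192) (nat_lit 3) (nat_lit 5) (nat_lit 11) L7983 (by decide +kernel)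
theorem L7985 : W_2 (nat_lit 4) (nat_lit 0x4001e000a00010001000080000000000000000000000000000000) (nat_lit 0x0) (nat_lit 0x40002000700001000000040000000000000000000000000000000000000000) := T_2 (nat_lit 213) (nat_lit 214) (nat_lit 3) (nat_lit 6) (nat_lit 11) L7984 (by decide +kernel)
theorem L7986 : W_2 (nat_lit 5) (nat_lit 0x4001e000200010001000080000000000000000000000000000000) (nat_lit 0x0) (nat_lit 0x40002000700001001800040000000000000000000000000000000000000000) := T_2 (nat_lit 179) (nat_lit 180) (nat_lit 2) (nat_lit 6) (nat_lit 11) L7985 (by decide +kernel)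
theorem L7987 : W_2 (nat_lit 6) (nat_lit 0x4001e000200000001000080000000000000000000000000000000) (nat_lit 0x0) (nat_lit 0x40002000700001001800050000800000000000000000000000000000000000) := T_2 (nat_lit 160) (nat_lit 143) (nat_lit 6) (nat_lit 7) (nat_lit 11) L7986 (by decide +kernel)
theorem L7988 : W_2 (nat_lit 7) (nat_lit 0x4000e000200000001000080000000000000000000000000000000) (nat_lit 0x0) (nat_lit 0x40002000720011001800050000800000000000000000000000000000000000) := T_2 (nat_lit 196) (nat_lit 209) (nat_lit 1) (nat_lit 9) (nat_lit 11) L7987 (by decide +kernel)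
theorem L7995 : W_2 (nat_lit 2) (nat_lit 0x24001e000a00010001000080000000000000000000000000000000) (nat_lit 0x0) (nat_lit 0x10000800080000000000000000000000000000000000000000000000000000) := D_2 (nat_lit 227) (nat_lit 211) (nat_lit 244) (nat_lit 5) (nat_lit 7) (nat_lit 9) (nat_lit 6) (nat_lit 6) (nat_lit 14) (by decide +kernel)
theorem L7996 : W_2 (nat_lit 3) (nat_lit 0x20001e000a00010001000080000000000000000000000000000000) (nat_lit 0x0) (nat_lit 0x100008000e0000000000000000000000000000000000000000000000000000) := T_2 (nat_lit 210) (nat_lit 209) (nat_lit 1) (nat_lit 9) (nat_lit 11) L7995 (by decide +kernel)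
theorem L8042 : W_2 (nat_lit 6) (nat_lit 0x4000000012000f000200010001000080000000000000000000000000000000) (nat_lit 0x0) (nat_lit 0x4e000e001e0000000000000000000000000000000000000000000) := T_2 (nat_lit 174) (nat_lit 175) (nat_lit 0) (nat_lit 8) (nat_lit 11) L8041 (by decide +kernel)
theorem L8043 : W_2 (nat_lit 7) (nat_lit 0x4000000010000f000200010001000080000000000000000000000000000000) (nat_lit 0x0) (nat_lit 0x7e000e001e0000000000000000000000000000000000000000000) := T_2 (nat_lit 209) (nat_lit 208) (nat_lit 1) (nat_lit 8) (nat_lit 11) L8042 (by decide +kernel)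
theorem L8044 : W_2 (nat_lit 8) (nat_lit 0x10000f000200010001000080000000000000000000000000000000) (nat_lit 0x0) (nat_lit 0x4000200007e000e001e0000000000000000000000000000000000000000000) := T_2 (nat_lit 246) (nat_lit 229) (nat_lit 4) (nat_lit 8) (nat_lit 14) L8043 (by decide +kernel)
theorem L8045 : W_2 (nat_lit 9) (nat_lit 0x10000f000200000001000080000000000000000000000000000000) (nat_lit 0x0) (nat_lit 0x4000200007e000e001e0010000800000000000000000000000000000000000) := T_2 (nat_lit 160) (nat_lit 143) (nat_lit 7) (nat_lit 7) (nat_lit 8) L8044 (by decide +kernel)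
theorem L8046 : W_2 (nat_lit 10) (nat_lit 0xf000200000001000080000000000000000000000000000000) (nat_lit 0x0) (nat_lit 0x4000200037e000e001e0010000800000000000000000000000000000000000) := T_2 (nat_lit 212) (nat_lit 213) (nat_lit 3) (nat_lit 5) (nat_lit 11) L8045 (by decide +kernel)
theorem L8053 : W_2 (nat_lit 2) (nat_lit 0x2000f000280010001000080000000000000000000000000000000) (nat_lit 0x0) (nat_lit 0x40010000100000000000000000000000000000000000000000000) := D_2 (nat_lit 196) (nat_lit 210) (nat_lit 176) (nat_lit 1) (nat_lit 9) (nat_lit 11) (nat_lit 0) (nat_lit 9) (nat_lit 11) (by decide +kernel)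
theorem L8054 : W_2 (nat_lit 3) (nat_lit 0x2000f000200010001000080000000000000000000000000000000) (nat_lit 0x0) (nat_lit 0x400100001c0000000000000000000000000000000000000000000) := T_2 (nat_lit 175) (nat_lit 174) (nat_lit 0) (nat_lit 8) (nat_lit 11) L8053 (by decide +kernel)
theorem L8055 : W_2 (nat_lit 4) (nat_lit 0xf000200010001000080000000000000000000000000000000) (nat_lit 0x0) (nat_lit 0x700100001c0000000000000000000000000000000000000000000) := T_2 (nat_lit 209) (nat_lit 208) (nat_lit 1) (nat_lit 8) (nat_lit 11) L8054 (by decide +kernel)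
theorem L8056 : W_2 (nat_lit 5) (nat_lit 0xf000200000001000080000000000000000000000000000000) (nat_lit 0x0) (nat_lit 0x700100001c0010000800000000000000000000000000000000000) := T_2 (nat_lit 160) (nat_lit 143) (nat_lit 6) (nat_lit 7) (nat_lit 11) L8055 (by decide +kernel)
theorem L8129 : W_2 (nat_lit 4) (nat_lit 0x4000300000001c00080000000000000000000000000000000) (nat_lit 0x0) (nat_lit 0x2000000008000200138000000000000000000000000000000) := T_2 (nat_lit 159) (nat_lit 125) (nat_lit 7) (nat_lit 6) (nat_lit 7) L8128 (by decide +kernel)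
theorem L8130 : W_2 (nat_lit 2) (nat_lit 0x1001f800340008001c00080000000000000000000000000000000) (nat_lit 0x0) (nat_lit 0x700000000000000000000000000000000000000000000000000000) := D_2 (nat_lit 213) (nat_lit 212) (nat_lit 214) (nat_lit 3) (nat_lit 5) (nat_lit 11) (nat_lit 3) (nat_lit 6) (nat_lit 11) (by decide +kernel)
theorem L8131 : W_2 (nat_lit 3) (nat_lit 0x1000f800340008001c00080000000000000000000000000000000) (nat_lit 0x0) (nat_lit 0x700030000000000000000000000000000000000000000000000000) := T_2 (nat_lit 196) (nat_lit 197) (nat_lit 0) (nat_lit 10) (nat_lit 11) L8130 (by decide +kernel)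
theorem L8132 : W_2 (nat_lit 4) (nat_lit 0x10007800340008001c00080000000000000000000000000000000) (nat_lit 0x0) (nat_lit 0x700038000080000000000000000000000000000000000000000000) := T_2 (nat_lit 195) (nat_lit 175) (nat_lit 3) (nat_lit 4) (nat_lit 10) L8131 (by decide +kernel)
theorem L8133 : W_2 (nat_lit 5) (nat_lit 0x10007800300008001c00080000000000000000000000000000000) (nat_lit 0x0) (nat_lit 0x7000380000e0000000000000000000000000000000000000000000) := T_2 (nat_lit 174) (nat_lit 173) (nat_lit 0) (nat_lit 7) (nat_lit 11) L8132 (by decide +kernel)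
theorem L8134 : W_2 (nat_lit 6) (nat_lit 0x7800300008001c00080000000000000000000000000000000) (nat_lit 0x0) (nat_lit 0x7180380000e0000000000000000000000000000000000000000000) := T_2 (nat_lit 208) (nat_lit 207) (nat_lit 1) (nat_lit 7) (nat_lit 11) L8133 (by decide +kernel)
theorem L8135 : W_2 (nat_lit 7) (nat_lit 0x7000300008001c00080000000000000000000000000000000) (nat_lit 0x0) (nat_lit 0x718038c000e0000000000000000000000000000000000000000000) := T_2 (nat_lit 191) (nat_lit 190) (nat_lit 2) (nat_lit 3) (nat_lit 11) L8134 (by decide +kernel)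
theorem L8136 : W_2 (nat_lit 8) (nat_lit 0x6000300008001c00080000000000000000000000000000000) (nat_lit 0x0) (nat_lit 0x738039c000e0000000000000000000000000000000000000000000) := T_2 (nat_lit 192) (nat_lit 209) (nat_lit 5) (nat_lit 6) (nat_lit 8) L8135 (by decide +kernel)
theorem L8137 : W_2 (nat_lit 9) (nat_lit 0x4000300008001c00080000000000000000000000000000000) (nat_lit 0x0) (nat_lit 0x73803bc000e0000000000040000000000000000000000000000000) := T_2 (nat_lit 193) (nat_lit 126) (nat_lit 6) (nat_lit 6) (nat_lit 11) L8136 (by decide +kernel)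
theorem L8138 : W_2 (nat_lit 10) (nat_lit 0x4000300000001c00080000000000000000000000000000000) (nat_lit 0x0) (nat_lit 0x73803bc000e0008000000060000000000000000000000000000000) := T_2 (nat_lit 159) (nat_lit 125) (nat_lit 7) (nat_lit 6) (nat_lit 7) L8137 (by decide +kernel)
theorem L8148 : W_2 (nat_lit 2) (nat_lit 0xe000700000001000080000000000000000000000000000000) (nat_lit 0x0) (nat_lit 0x1800800000000000000000000000000000000000000000000) := D_2 (nat_lit 192) (nat_lit 179) (nat_lit 191) (nat_lit 2) (nat_lit 5) (nat_lit 11) (nat_lit 2) (nat_lit 4) (nat_lit 11) (by decide +kernel)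
theorem L8149 : W_2 (nat_lit 3) (nat_lit 0xe000300000001000080000000000000000000000000000000) (nat_lit 0x0) (nat_lit 0x1800c00020000000000000000000000000000000000000000) := T_2 (nat_lit 178) (nat_lit 161) (nat_lit 5) (nat_lit 8) (nat_lit 7) L8148 (by decide +kernel)
theorem L8167 : W_2 (nat_lit 2) (nat_lit 0x4000380030001000080000000000000000000000000000000) (nat_lit 0x0) (nat_lit 0xc8000000000000000000000000000000000000000) := D_2 (nat_lit 162) (nat_lit 163) (nat_lit 159) (nat_lit 1) (nat_lit 10) (nat_lit 9) (nat_lit 1) (nat_lit 9) (nat_lit 9) (by decide +kernel)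
theorem L8168 : W_2 (nat_lit 3) (nat_lit 0x4000300030001000080000000000000000000000000000000) (nat_lit 0x0) (nat_lit 0xc00c8000000000000000000000000000000000000000) := T_2 (nat_lit 175) (nat_lit 174) (nat_lit 2) (nat_lit 4) (nat_lit 10) L8167 (by decide +kernel)
theorem L8169 : W_2 (nat_lit 4) (nat_lit 0x4000300020001000080000000000000000000000000000000) (nat_lit 0x0) (nat_lit 0xc00d8000800000000000000000000000000000000000) := T_2 (nat_lit 160) (nat_lit 143) (nat_lit 6) (nat_lit 7) (nat_lit 11) L8168 (by decide +kernel)
theorem L8170 : W_2 (nat_lit 5) (nat_lit 0x4000300000001000080000000000000000000000000000000) (nat_lit 0x0) (nat_lit 0x4c00f8000800000000000000000000000000000000000) := T_2 (nat_lit 161) (nat_lit 178) (nat_lit 5) (nat_lit 8) (nat_lit 7) L8169 (by decide +kernel)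
theorem L8171 : W_2 (nat_lit 2) (nat_lit 0x200000000d000f80090001000080000000000000000000000000000000) (nat_lit 0x0) (nat_lit 0x3000100000000000000000000000000000000000000000) := D_2 (nat_lit 180) (nat_lit 181) (nat_lit 164) (nat_lit 1) (nat_lit 11) (nat_lit 10) (nat_lit 2) (nat_lit 7) (nat_lit 10) (by decide +kernel)
theorem L8172 : W_2 (nat_lit 3) (nat_lit 0x200000000d000f80010001000080000000000000000000000000000000) (nat_lit 0x0) (nat_lit 0x30001c0000000000000000000000000000000000000000) := T_2 (nat_lit 163) (nat_lit 162) (nat_lit 2) (nat_lit 6) (nat_lit 10) L8171 (by decide +kernel)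
theorem L8173 : W_2 (nat_lit 4) (nat_lit 0x200000000d000780010001000080000000000000000000000000000000) (nat_lit 0x0) (nat_lit 0x20038001c0000000000000000000000000000000000000000) := T_2 (nat_lit 179) (nat_lit 193) (nat_lit 2) (nat_lit 5) (nat_lit 11) L8172 (by decide +kernel)
theorem L8174 : W_2 (nat_lit 5) (nat_lit 0x200000000c000780010001000080000000000000000000000000000000) (nat_lit 0x0) (nat_lit 0x38038001c0000000000000000000000000000000000000000) := T_2 (nat_lit 192) (nat_lit 191) (nat_lit 1) (nat_lit 8) (nat_lit 10) L8173 (by decide +kernel)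
theorem L8175 : W_2 (nat_lit 6) (nat_lit 0xc000780010001000080000000000000000000000000000000) (nat_lit 0x0) (nat_lit 0x20001000038038001c0000000000000000000000000000000000000000) := T_2 (nat_lit 229) (nat_lit 212) (nat_lit 4) (nat_lit 8) (nat_lit 13) L8174 (by decide +kernel)
theorem L8176 : W_2 (nat_lit 7) (nat_lit 0xc000780000001000080000000000000000000000000000000) (nat_lit 0x0) (nat_lit 0x20001000038038001d0000800000000000000000000000000000000000) := T_2 (nat_lit 160) (nat_lit 143) (nat_lit 6) (nat_lit 7) (nat_lit 11) L8175 (by decide +kernel)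
theorem L8244 : W_2 (nat_lit 2) (nat_lit 0x4000780000001000080000000000000000000000000000000) (nat_lit 0x0) (nat_lit 0x18000040000000000000000000000000000000000000000000) := D_2 (nat_lit 195) (nat_lit 174) (nat_lit 196) (nat_lit 3) (nat_lit 4) (nat_lit 10) (nat_lit 3) (nat_lit 5) (nat_lit 10) (by decide +kernel)
theorem L8267 : W_2 (nat_lit 2) (nat_lit 0x6000300008001c00080000000000000000000000000000000) (nat_lit 0x0) (nat_lit 0x200110000000000000000000000000000000) := D_2 (nat_lit 141) (nat_lit 128) (nat_lit 124) (nat_lit 2) (nat_lit 5) (nat_lit 8) (nat_lit 4) (nat_lit 6) (nat_lit 11) (by decide +kernel)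
theorem L8268 : W_2 (nat_lit 3) (nat_lit 0x6000300008001400080000000000000000000000000000000) (nat_lit 0x0) (nat_lit 0xa00150000000000000000000000000000000) := T_2 (nat_lit 143) (nat_lit 126) (nat_lit 6) (nat_lit 6) (nat_lit 11) L8267 (by decide +kernel)
theorem L8270 : W_2 (nat_lit 2) (nat_lit 0x40007400300008001600080000000000000000000000000000000) (nat_lit 0x0) (nat_lit 0x10000800000000000000010000000000000000000000000000000000000000) := D_2 (nat_lit 227) (nat_lit 160) (nat_lit 244) (nat_lit 6) (nat_lit 6) (nat_lit 13) (nat_lit 6) (nat_lit 6) (nat_lit 14) (by decide +kernel)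
theorem L8271 : W_2 (nat_lit 3) (nat_lit 0x7400300008001600080000000000000000000000000000000) (nat_lit 0x0) (nat_lit 0x10000800040000000000014000000000000000000000000000000000000000) := T_2 (nat_lit 210) (nat_lit 158) (nat_lit 4) (nat_lit 6) (nat_lit 12) L8270 (by decide +kernel)
theorem L8272 : W_2 (nat_lit 4) (nat_lit 0x7400300008001400080000000000000000000000000000000) (nat_lit 0x0) (nat_lit 0x10000800040000000000014000200010000000000000000000000000000000) := T_2 (nat_lit 141) (nat_lit 124) (nat_lit 4) (nat_lit 6) (nat_lit 11) L8271 (by decide +kernel)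
theorem L8273 : W_2 (nat_lit 5) (nat_lit 0x7000300008001400080000000000000000000000000000000) (nat_lit 0x0) (nat_lit 0x10000800040000c00000014000200010000000000000000000000000000000) := T_2 (nat_lit 190) (nat_lit 191) (nat_lit 2) (nat_lit 3) (nat_lit 11) L8272 (by decide +kernel)
theorem L8274 : W_2 (nat_lit 6) (nat_lit 0x6000300008001400080000000000000000000000000000000) (nat_lit 0x0) (nat_lit 0x10000800060001c00000014000200010000000000000000000000000000000) := T_2 (nat_lit 192) (nat_lit 209) (nat_lit 5) (nat_lit 6) (nat_lit 8) L8273 (by decide +kernel)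
theorem L8292 : W_2 (nat_lit 2) (nat_lit 0x800000007000300018001400080000000000000000000000000000000) (nat_lit 0x0) (nat_lit 0xc00400000000000000000000000000000000000000000000) := D_2 (nat_lit 191) (nat_lit 178) (nat_lit 190) (nat_lit 2) (nat_lit 4) (nat_lit 11) (nat_lit 2) (nat_lit 3) (nat_lit 11) (by decide +kernel)
theorem L8293 : W_2 (nat_lit 3) (nat_lit 0x800000006000300018001400080000000000000000000000000000000) (nat_lit 0x0) (nat_lit 0x20001c00400000000000000000000000000000000000000000000) := T_2 (nat_lit 192) (nat_lit 209) (nat_lit 5) (nat_lit 6) (nat_lit 8) L8292 (by decide +kernel)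
theorem L8294 : W_2 (nat_lit 4) (nat_lit 0x800000006000300018001000080000000000000000000000000000000) (nat_lit 0x0) (nat_lit 0x20001c00400000000400020000000000000000000000000000000) := T_2 (nat_lit 142) (nat_lit 125) (nat_lit 7) (nat_lit 6) (nat_lit 7) L8293 (by decide +kernel)
theorem L8295 : W_2 (nat_lit 5) (nat_lit 0x6000300018001000080000000000000000000000000000000) (nat_lit 0x0) (nat_lit 0x800060001c00400000000400020000000000000000000000000000000) := T_2 (nat_lit 227) (nat_lit 210) (nat_lit 6) (nat_lit 6) (nat_lit 13) L8294 (by decide +kernel)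
theorem L8296 : W_2 (nat_lit 6) (nat_lit 0x6000300008001000080000000000000000000000000000000) (nat_lit 0x0) (nat_lit 0x800060001c00400010000c00020000000000000000000000000000000) := T_2 (nat_lit 160) (nat_lit 143) (nat_lit 6) (nat_lit 7) (nat_lit 11) L8295 (by decide +kernel)
theorem L8297 : W_2 (nat_lit 4) (nat_lit 0x6000300008001000080000000000000000000000000000000) (nat_lit 0x0) (nat_lit 0xe00170000000000000000000000000000000) := T_2 (nat_lit 142) (nat_lit 125) (nat_lit 7) (nat_lit 6) (nat_lit 7) L8268 (by decide +kernel)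
theorem L8298 : W_2 (nat_lit 7) (nat_lit 0x6000300008001000080000000000000000000000000000000) (nat_lit 0x0) (nat_lit 0x10000800060001c00000014000600030000000000000000000000000000000) := T_2 (nat_lit 142) (nat_lit 125) (nat_lit 7) (nat_lit 6) (nat_lit 7) L8274 (by decide +kernel)
theorem L8318 : W_2 (nat_lit 2) (nat_lit 0x2000700008001c00080000000000000000000000000000000) (nat_lit 0x0) (nat_lit 0x80004000000000000000020000000000000000000000000000000) := D_2 (nat_lit 194) (nat_lit 125) (nat_lit 211) (nat_lit 7) (nat_lit 6) (nat_lit 7) (nat_lit 7) (nat_lit 6) (nat_lit 8) (by decide +kernel)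
theorem L8353 : W_2 (nat_lit 2) (nat_lit 0x80007c0000001000080000000000000000000000000000000) (nat_lit 0x0) (nat_lit 0x1c00000000000000000000000000000000000000000000000) := D_2 (nat_lit 191) (nat_lit 190) (nat_lit 192) (nat_lit 1) (nat_lit 7) (nat_lit 10) (nat_lit 1) (nat_lit 8) (nat_lit 10) (by decide +kernel)
theorem L8354 : W_2 (nat_lit 3) (nat_lit 0x8000780000001000080000000000000000000000000000000) (nat_lit 0x0) (nat_lit 0x5c00040000000000000000000000000000000000000000000) := T_2 (nat_lit 174) (nat_lit 194) (nat_lit 3) (nat_lit 4) (nat_lit 10) L8353 (by decide +kernel)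
theorem L8355 : W_2 (nat_lit 4) (nat_lit 0x780000001000080000000000000000000000000000000) (nat_lit 0x0) (nat_lit 0x1dc00040000000000000000000000000000000000000000000) := T_2 (nat_lit 195) (nat_lit 196) (nat_lit 3) (nat_lit 5) (nat_lit 10) L8354 (by decide +kernel)
theorem L8376 : W_2 (nat_lit 4) (nat_lit 0x18000f00000001000080000000000000000000000000000000) (nat_lit 0x0) (nat_lit 0x40070001c0000000000000000000000000000000000000000) := T_2 (nat_lit 163) (nat_lit 162) (nat_lit 2) (nat_lit 6) (nat_lit 10) L8375 (by decide +kernel)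
theorem L8377 : W_2 (nat_lit 5) (nat_lit 0x10000f00000001000080000000000000000000000000000000) (nat_lit 0x0) (nat_lit 0xc0070801c0000000000000000000000000000000000000000) := T_2 (nat_lit 195) (nat_lit 175) (nat_lit 3) (nat_lit 5) (nat_lit 10) L8376 (by decide +kernel)
theorem L8378 : W_2 (nat_lit 6) (nat_lit 0xf00000001000080000000000000000000000000000000) (nat_lit 0x0) (nat_lit 0x3c0070801c0000000000000000000000000000000000000000) := T_2 (nat_lit 196) (nat_lit 197) (nat_lit 3) (nat_lit 6) (nat_lit 10) L8377 (by decide +kernel)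
theorem L8379 : W_2 (nat_lit 2) (nat_lit 0x22000f00040001000080000000000000000000000000000000) (nat_lit 0x0) (nat_lit 0x44001000000000000000000000000000000000000000000000) := D_2 (nat_lit 180) (nat_lit 194) (nat_lit 198) (nat_lit 1) (nat_lit 10) (nat_lit 10) (nat_lit 3) (nat_lit 7) (nat_lit 10) (by decide +kernel)
theorem L8380 : W_2 (nat_lit 3) (nat_lit 0x2000f00040001000080000000000000000000000000000000) (nat_lit 0x0) (nat_lit 0x74001000000000000000000000000000000000000000000000) := T_2 (nat_lit 197) (nat_lit 196) (nat_lit 3) (nat_lit 6) (nat_lit 10) L8379 (by decide +kernel)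
theorem L8381 : W_2 (nat_lit 4) (nat_lit 0xf00040001000080000000000000000000000000000000) (nat_lit 0x0) (nat_lit 0x77001000000000000000000000000000000000000000000000) := T_2 (nat_lit 193) (nat_lit 192) (nat_lit 1) (nat_lit 9) (nat_lit 10) L8380 (by decide +kernel)
theorem L8382 : W_2 (nat_lit 5) (nat_lit 0xf00000001000080000000000000000000000000000000) (nat_lit 0x0) (nat_lit 0x770010000c0000000000000000000000000000000000000000) := T_2 (nat_lit 162) (nat_lit 163) (nat_lit 2) (nat_lit 6) (nat_lit 10) L8381 (by decide +kernel)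
theorem L8439 : W_2 (nat_lit 2) (nat_lit 0x20001f00010001a001f0010800000000000000000000000000) (nat_lit 0x0) (nat_lit 0x600020000000000000000000000000000) := D_2 (nat_lit 129) (nat_lit 130) (nat_lit 113) (nat_lit 1) (nat_lit 11) (nat_lit 7) (nat_lit 2) (nat_lit 7) (nat_lit 7) (by decide +kernel)
theorem L8440 : W_2 (nat_lit 3) (nat_lit 0x20001f00010001a001f0000800000000000000000000000000) (nat_lit 0x0) (nat_lit 0x600038000000000000000000000000000) := T_2 (nat_lit 112) (nat_lit 111) (nat_lit 2) (nat_lit 6) (nat_lit 7) L8439 (by decide +kernel)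
theorem L8441 : W_2 (nat_lit 4) (nat_lit 0x20001f00010001a000f0000800000000000000000000000000) (nat_lit 0x0) (nat_lit 0x400700038000000000000000000000000000) := T_2 (nat_lit 128) (nat_lit 142) (nat_lit 2) (nat_lit 5) (nat_lit 8) L8440 (by decide +kernel)
theorem L8442 : W_2 (nat_lit 5) (nat_lit 0x20001f00010001a000f0000000000000000000000000000000) (nat_lit 0x0) (nat_lit 0x400700038c00000000000000000000000000) := T_2 (nat_lit 107) (nat_lit 106) (nat_lit 0) (nat_lit 8) (nat_lit 7) L8441 (by decide +kernel)
theorem L8443 : W_2 (nat_lit 6) (nat_lit 0x20001f000100018000f0000000000000000000000000000000) (nat_lit 0x0) (nat_lit 0x700700038c00000000000000000000000000) := T_2 (nat_lit 141) (nat_lit 140) (nat_lit 1) (nat_lit 8) (nat_lit 7) L8442 (by decide +kernel)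
theorem L8444 : W_2 (nat_lit 7) (nat_lit 0x20001f000100018000e0000000000000000000000000000000) (nat_lit 0x0) (nat_lit 0x700718038c00000000000000000000000000) := T_2 (nat_lit 124) (nat_lit 123) (nat_lit 3) (nat_lit 4) (nat_lit 7) L8443 (by decide +kernel)
theorem L8445 : W_2 (nat_lit 8) (nat_lit 0x20001f000100018000c0000000000000000000000000000000) (nat_lit 0x0) (nat_lit 0x700738039c00000000000000000000000000) := T_2 (nat_lit 125) (nat_lit 108) (nat_lit 4) (nat_lit 7) (nat_lit 10) L8444 (by decide +kernel)
theorem L8446 : W_2 (nat_lit 9) (nat_lit 0x20001f00010001800080000000000000000000000000000000) (nat_lit 0x0) (nat_lit 0x8000000000000700778039c00000000000000000000000000) := T_2 (nat_lit 126) (nat_lit 195) (nat_lit 7) (nat_lit 7) (nat_lit 7) L8445 (by decide +kernel)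
theorem L8447 : W_2 (nat_lit 10) (nat_lit 0x20001f00010001000080000000000000000000000000000000) (nat_lit 0x0) (nat_lit 0xc000000000000f00778039c00000000000000000000000000) := T_2 (nat_lit 143) (nat_lit 194) (nat_lit 6) (nat_lit 7) (nat_lit 11) L8446 (by decide +kernel)
theorem L8452 : W_2 (nat_lit 2) (nat_lit 0x2000f00040001c000c0000000000000000000000000000000) (nat_lit 0x0) (nat_lit 0x300100000000000000000000000000000000) := D_2 (nat_lit 141) (nat_lit 128) (nat_lit 140) (nat_lit 2) (nat_lit 5) (nat_lit 8) (nat_lit 2) (nat_lit 4) (nat_lit 8) (by decide +kernel)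
theorem L8453 : W_2 (nat_lit 3) (nat_lit 0x2000f000400018000c0000000000000000000000000000000) (nat_lit 0x0) (nat_lit 0x8000700100000000000000000000000000000000) := T_2 (nat_lit 142) (nat_lit 159) (nat_lit 6) (nat_lit 6) (nat_lit 11) L8452 (by decide +kernel)
theorem L8454 : W_2 (nat_lit 4) (nat_lit 0x2000f00040001800080000000000000000000000000000000) (nat_lit 0x0) (nat_lit 0x18000700140000000000000000000000000000000) := T_2 (nat_lit 126) (nat_lit 160) (nat_lit 5) (nat_lit 7) (nat_lit 7) L8453 (by decide +kernel)
theorem L8455 : W_2 (nat_lit 5) (nat_lit 0x2000f00000001800080000000000000000000000000000000) (nat_lit 0x0) (nat_lit 0xd8000700140000000000000000000000000000000) := T_2 (nat_lit 162) (nat_lit 163) (nat_lit 2) (nat_lit 6) (nat_lit 10) L8454 (by decide +kernel)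
theorem L8456 : W_2 (nat_lit 6) (nat_lit 0xf00000001800080000000000000000000000000000000) (nat_lit 0x0) (nat_lit 0x30000000d8000700140000000000000000000000000000000) := T_2 (nat_lit 193) (nat_lit 192) (nat_lit 1) (nat_lit 9) (nat_lit 10) L8455 (by decide +kernel)
theorem L8457 : W_2 (nat_lit 2) (nat_lit 0x400000021001f80088001f00088000000000000000000000000000000) (nat_lit 0x0) (nat_lit 0x40003000000000000000000000000000000000000000) := D_2 (nat_lit 157) (nat_lit 156) (nat_lit 174) (nat_lit 1) (nat_lit 7) (nat_lit 8) (nat_lit 7) (nat_lit 4) (nat_lit 7) (by decide +kernel)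
theorem L8458 : W_2 (nat_lit 3) (nat_lit 0x400000021001f80088001e00088000000000000000000000000000000) (nat_lit 0x0) (nat_lit 0x40003000100004000000000000000000000000000000) := T_2 (nat_lit 140) (nat_lit 122) (nat_lit 0) (nat_lit 7) (nat_lit 8) L8457 (by decide +kernel)
theorem L8459 : W_2 (nat_lit 4) (nat_lit 0x400000021001f80088001e00080000000000000000000000000000000) (nat_lit 0x0) (nat_lit 0x4000300010001c000000000000000000000000000000) := T_2 (nat_lit 123) (nat_lit 124) (nat_lit 0) (nat_lit 8) (nat_lit 8) L8458 (by decide +kernel)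
theorem L8460 : W_2 (nat_lit 5) (nat_lit 0x400000021001f80088001c00080000000000000000000000000000000) (nat_lit 0x0) (nat_lit 0x4000300030011c000000000000000000000000000000) := T_2 (nat_lit 141) (nat_lit 128) (nat_lit 2) (nat_lit 5) (nat_lit 8) L8459 (by decide +kernel)
theorem L8469 : W_2 (nat_lit 2) (nat_lit 0x10000000042003f00080001800380000000000000000000000000000000) (nat_lit 0x0) (nat_lit 0x600040000000000000000000000000000000) := D_2 (nat_lit 142) (nat_lit 126) (nat_lit 141) (nat_lit 1) (nat_lit 10) (nat_lit 7) (nat_lit 2) (nat_lit 5) (nat_lit 8) (by decide +kernel)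
theorem L8470 : W_2 (nat_lit 3) (nat_lit 0x10000000042003f00080001800280000000000000000000000000000000) (nat_lit 0x0) (nat_lit 0x600540000000000000000000000000000000) := T_2 (nat_lit 128) (nat_lit 130) (nat_lit 1) (nat_lit 11) (nat_lit 7) L8469 (by decide +kernel)
theorem L8471 : W_2 (nat_lit 4) (nat_lit 0x10000000042003f00080001800080000000000000000000000000000000) (nat_lit 0x0) (nat_lit 0x4600740000000000000000000000000000000) := T_2 (nat_lit 129) (nat_lit 146) (nat_lit 7) (nat_lit 10) (nat_lit 7) L8470 (by decide +kernel)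
theorem L8472 : W_2 (nat_lit 5) (nat_lit 0x42003f00080001800080000000000000000000000000000000) (nat_lit 0x0) (nat_lit 0x10000800000000000000004600740000000000000000000000000000000) := T_2 (nat_lit 232) (nat_lit 215) (nat_lit 4) (nat_lit 11) (nat_lit 13) L8471 (by decide +kernel)
theorem L8473 : W_2 (nat_lit 6) (nat_lit 0x42001f00080001800080000000000000000000000000000000) (nat_lit 0x0) (nat_lit 0x10000800080002000000004600740000000000000000000000000000000) := T_2 (nat_lit 181) (nat_lit 199) (nat_lit 3) (nat_lit 8) (nat_lit 10) L8472 (by decide +kernel)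
theorem L8474 : W_2 (nat_lit 7) (nat_lit 0x2001f00080001800080000000000000000000000000000000) (nat_lit 0x0) (nat_lit 0x100008000e0002000000004600740000000000000000000000000000000) := T_2 (nat_lit 198) (nat_lit 197) (nat_lit 3) (nat_lit 7) (nat_lit 10) L8473 (by decide +kernel)
theorem L8475 : W_2 (nat_lit 8) (nat_lit 0x2000f00080001800080000000000000000000000000000000) (nat_lit 0x0) (nat_lit 0x100008000e0003000100004600740000000000000000000000000000000) := T_2 (nat_lit 180) (nat_lit 164) (nat_lit 2) (nat_lit 7) (nat_lit 10) L8474 (by decide +kernel)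
theorem L8476 : W_2 (nat_lit 9) (nat_lit 0xf00080001800080000000000000000000000000000000) (nat_lit 0x0) (nat_lit 0x100008000e3003000100004600740000000000000000000000000000000) := T_2 (nat_lit 193) (nat_lit 192) (nat_lit 1) (nat_lit 9) (nat_lit 10) L8475 (by decide +kernel)
theorem L8477 : W_2 (nat_lit 10) (nat_lit 0xf00000001800080000000000000000000000000000000) (nat_lit 0x0) (nat_lit 0x100008000e30030001c0004600740000000000000000000000000000000) := T_2 (nat_lit 163) (nat_lit 162) (nat_lit 2) (nat_lit 6) (nat_lit 10) L8476 (by decide +kernel)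
theorem L8482 : W_2 (nat_lit 2) (nat_lit 0x2000f00050001800080000000000000000000000000000000) (nat_lit 0x0) (nat_lit 0x40000001000008000000000000000000000000000000000000000) := D_2 (nat_lit 159) (nat_lit 180) (nat_lit 210) (nat_lit 0) (nat_lit 10) (nat_lit 10) (nat_lit 6) (nat_lit 6) (nat_lit 12) (by decide +kernel)
theorem L8483 : W_2 (nat_lit 3) (nat_lit 0x2000f00040001800080000000000000000000000000000000) (nat_lit 0x0) (nat_lit 0x40000001000018000000040000000000000000000000000000000) := T_2 (nat_lit 160) (nat_lit 126) (nat_lit 5) (nat_lit 7) (nat_lit 7) L8482 (by decide +kernel)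
theorem L8484 : W_2 (nat_lit 4) (nat_lit 0xf00040001800080000000000000000000000000000000) (nat_lit 0x0) (nat_lit 0x40003001000018000000040000000000000000000000000000000) := T_2 (nat_lit 193) (nat_lit 192) (nat_lit 1) (nat_lit 9) (nat_lit 10) L8483 (by decide +kernel)
theorem L8485 : W_2 (nat_lit 5) (nat_lit 0xf00000001800080000000000000000000000000000000) (nat_lit 0x0) (nat_lit 0x400030010000d8000000040000000000000000000000000000000) := T_2 (nat_lit 162) (nat_lit 163) (nat_lit 2) (nat_lit 6) (nat_lit 10) L8484 (by decide +kernel)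
theorem L8486 : W_2 (nat_lit 2) (nat_lit 0x2000f00000001c000c0000000000000000000000000000000) (nat_lit 0x0) (nat_lit 0x300100000000000000000000000000000000) := D_2 (nat_lit 141) (nat_lit 128) (nat_lit 140) (nat_lit 2) (nat_lit 5) (nat_lit 8) (nat_lit 2) (nat_lit 4) (nat_lit 8) (by decide +kernel)
theorem L8487 : W_2 (nat_lit 3) (nat_lit 0x2000f000000018000c0000000000000000000000000000000) (nat_lit 0x0) (nat_lit 0x8000700100000000000000000000000000000000) := T_2 (nat_lit 142) (nat_lit 159) (nat_lit 6) (nat_lit 6) (nat_lit 11) L8486 (by decide +kernel)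
theorem L8488 : W_2 (nat_lit 4) (nat_lit 0x2000f00000001800080000000000000000000000000000000) (nat_lit 0x0) (nat_lit 0x18000700140000000000000000000000000000000) := T_2 (nat_lit 126) (nat_lit 160) (nat_lit 5) (nat_lit 7) (nat_lit 7) L8487 (by decide +kernel)
theorem L8489 : W_2 (nat_lit 5) (nat_lit 0xf00000001800080000000000000000000000000000000) (nat_lit 0x0) (nat_lit 0x3000000018000700140000000000000000000000000000000) := T_2 (nat_lit 193) (nat_lit 192) (nat_lit 1) (nat_lit 9) (nat_lit 10) L8488 (by decide +kernel)
theorem L8494 : W_2 (nat_lit 2) (nat_lit 0x400000009001f80088001f00088000000000000000000000000000000) (nat_lit 0x0) (nat_lit 0x40003000000000000000000000000000000000000000) := D_2 (nat_lit 157) (nat_lit 156) (nat_lit 174) (nat_lit 1) (nat_lit 7) (nat_lit 8) (nat_lit 7) (nat_lit 4) (nat_lit 7) (by decide +kernel)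
theorem L8495 : W_2 (nat_lit 3) (nat_lit 0x400000009001f80088001e00088000000000000000000000000000000) (nat_lit 0x0) (nat_lit 0x40003000100004000000000000000000000000000000) := T_2 (nat_lit 140) (nat_lit 122) (nat_lit 0) (nat_lit 7) (nat_lit 8) L8494 (by decide +kernel)
theorem L8496 : W_2 (nat_lit 4) (nat_lit 0x400000009001f80088001e00080000000000000000000000000000000) (nat_lit 0x0) (nat_lit 0x4000300010001c000000000000000000000000000000) := T_2 (nat_lit 123) (nat_lit 124) (nat_lit 0) (nat_lit 8) (nat_lit 8) L8495 (by decide +kernel)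
theorem L8497 : W_2 (nat_lit 5) (nat_lit 0x400000009001f80088001c00080000000000000000000000000000000) (nat_lit 0x0) (nat_lit 0x4000300030011c000000000000000000000000000000) := T_2 (nat_lit 141) (nat_lit 128) (nat_lit 2) (nat_lit 5) (nat_lit 8) L8496 (by decide +kernel)
theorem L8498 : W_2 (nat_lit 6) (nat_lit 0x400000009001f80088001800080000000000000000000000000000000) (nat_lit 0x0) (nat_lit 0x4000300070013c000000000000000000000000000000) := T_2 (nat_lit 142) (nat_lit 125) (nat_lit 5) (nat_lit 6) (nat_lit 7) L8497 (by decide +kernel)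
theorem L8499 : W_2 (nat_lit 7) (nat_lit 0x9001f80088001800080000000000000000000000000000000) (nat_lit 0x0) (nat_lit 0x40002000000004000300070013c000000000000000000000000000000) := T_2 (nat_lit 226) (nat_lit 209) (nat_lit 6) (nat_lit 5) (nat_lit 13) L8498 (by decide +kernel)
theorem L8500 : W_2 (nat_lit 8) (nat_lit 0x1001f80088001800080000000000000000000000000000000) (nat_lit 0x0) (nat_lit 0x40002001800004000300070013c000000000000000000000000000000) := T_2 (nat_lit 195) (nat_lit 196) (nat_lit 3) (nat_lit 5) (nat_lit 10) L8499 (by decide +kernel)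
theorem L8506 : W_2 (nat_lit 2) (nat_lit 0x11001f80080001800380000000000000000000000000000000) (nat_lit 0x0) (nat_lit 0x600040000000000000000000000000000000) := D_2 (nat_lit 142) (nat_lit 126) (nat_lit 141) (nat_lit 1) (nat_lit 10) (nat_lit 7) (nat_lit 2) (nat_lit 5) (nat_lit 8) (by decide +kernel)
theorem L8507 : W_2 (nat_lit 3) (nat_lit 0x11001f80080001800280000000000000000000000000000000) (nat_lit 0x0) (nat_lit 0x600540000000000000000000000000000000) := T_2 (nat_lit 128) (nat_lit 130) (nat_lit 1) (nat_lit 11) (nat_lit 7) L8506 (by decide +kernel)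
theorem L8508 : W_2 (nat_lit 4) (nat_lit 0x11001f80080001800080000000000000000000000000000000) (nat_lit 0x0) (nat_lit 0x4600740000000000000000000000000000000) := T_2 (nat_lit 129) (nat_lit 146) (nat_lit 5) (nat_lit 10) (nat_lit 7) L8507 (by decide +kernel)
theorem L8509 : W_2 (nat_lit 5) (nat_lit 0x1001f80080001800080000000000000000000000000000000) (nat_lit 0x0) (nat_lit 0x18000000000004600740000000000000000000000000000000) := T_2 (nat_lit 196) (nat_lit 195) (nat_lit 3) (nat_lit 5) (nat_lit 10) L8508 (by decide +kernel)
theorem L8514 : W_2 (nat_lit 2) (nat_lit 0x1f00090001a001f0008800000000000000000000000000) (nat_lit 0x0) (nat_lit 0x4000600000000000000000000000000000000) := D_2 (nat_lit 129) (nat_lit 130) (nat_lit 146) (nat_lit 1) (nat_lit 11) (nat_lit 7) (nat_lit 4) (nat_lit 10) (nat_lit 10) (by decide +kernel)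
theorem L8515 : W_2 (nat_lit 3) (nat_lit 0x1f00090001a001f0000800000000000000000000000000) (nat_lit 0x0) (nat_lit 0x4000600018000000000000000000000000000) := T_2 (nat_lit 111) (nat_lit 112) (nat_lit 2) (nat_lit 6) (nat_lit 7) L8514 (by decide +kernel)
theorem L8516 : W_2 (nat_lit 4) (nat_lit 0x1f00090001a000f0000800000000000000000000000000) (nat_lit 0x0) (nat_lit 0x4400700018000000000000000000000000000) := T_2 (nat_lit 128) (nat_lit 142) (nat_lit 2) (nat_lit 5) (nat_lit 8) L8515 (by decide +kernel)
theorem L8517 : W_2 (nat_lit 5) (nat_lit 0x1f00090001a000f0000000000000000000000000000000) (nat_lit 0x0) (nat_lit 0x4400700018c00000000000000000000000000) := T_2 (nat_lit 107) (nat_lit 106) (nat_lit 0) (nat_lit 8) (nat_lit 7) L8516 (by decide +kernel)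
theorem L8518 : W_2 (nat_lit 6) (nat_lit 0x1f000900018000f0000000000000000000000000000000) (nat_lit 0x0) (nat_lit 0x4700700018c00000000000000000000000000) := T_2 (nat_lit 141) (nat_lit 140) (nat_lit 1) (nat_lit 8) (nat_lit 7) L8517 (by decide +kernel)
theorem L8519 : W_2 (nat_lit 7) (nat_lit 0x1f000900018000e0000000000000000000000000000000) (nat_lit 0x0) (nat_lit 0x4700718018c00000000000000000000000000) := T_2 (nat_lit 124) (nat_lit 123) (nat_lit 3) (nat_lit 4) (nat_lit 7) L8518 (by decide +kernel)
theorem L8520 : W_2 (nat_lit 8) (nat_lit 0x1f000900018000c0000000000000000000000000000000) (nat_lit 0x0) (nat_lit 0x4700738019c00000000000000000000000000) := T_2 (nat_lit 125) (nat_lit 108) (nat_lit 4) (nat_lit 7) (nat_lit 10) L8519 (by decide +kernel)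
theorem L8521 : W_2 (nat_lit 9) (nat_lit 0x1f00090001800080000000000000000000000000000000) (nat_lit 0x0) (nat_lit 0x8000000000004700778019c00000000000000000000000000) := T_2 (nat_lit 126) (nat_lit 195) (nat_lit 7) (nat_lit 7) (nat_lit 7) L8520 (by decide +kernel)
theorem L8522 : W_2 (nat_lit 10) (nat_lit 0x1f00080001800080000000000000000000000000000000) (nat_lit 0x0) (nat_lit 0x8000000018004700778019c00000000000000000000000000) := T_2 (nat_lit 160) (nat_lit 159) (nat_lit 0) (nat_lit 10) (nat_lit 10) L8521 (by decide +kernel)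
theorem L8523 : W_2 (nat_lit 11) (nat_lit 0xf00080001800080000000000000000000000000000000) (nat_lit 0x0) (nat_lit 0x8001000118004700778019c00000000000000000000000000) := T_2 (nat_lit 180) (nat_lit 164) (nat_lit 2) (nat_lit 7) (nat_lit 10) L8522 (by decide +kernel)
theorem L8524 : W_2 (nat_lit 12) (nat_lit 0xf00000001800080000000000000000000000000000000) (nat_lit 0x0) (nat_lit 0x80010001d8004700778019c00000000000000000000000000) := T_2 (nat_lit 163) (nat_lit 162) (nat_lit 2) (nat_lit 6) (nat_lit 10) L8523 (by decide +kernel)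
theorem L8530 : W_2 (nat_lit 2) (nat_lit 0x8000780000001f00080000000000000000000000000000000) (nat_lit 0x0) (nat_lit 0x1c000000000000000000000000000000) := D_2 (nat_lit 123) (nat_lit 124) (nat_lit 122) (nat_lit 0) (nat_lit 8) (nat_lit 8) (nat_lit 0) (nat_lit 7) (nat_lit 8) (by decide +kernel)
theorem L8531 : W_2 (nat_lit 3) (nat_lit 0x8000780000001e00080000000000000000000000000000000) (nat_lit 0x0) (nat_lit 0x10005c000000000000000000000000000000) := T_2 (nat_lit 140) (nat_lit 126) (nat_lit 2) (nat_lit 4) (nat_lit 8) L8530 (by decide +kernel)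
theorem L8532 : W_2 (nat_lit 4) (nat_lit 0x8000780000001c00080000000000000000000000000000000) (nat_lit 0x0) (nat_lit 0x30015c000000000000000000000000000000) := T_2 (nat_lit 141) (nat_lit 128) (nat_lit 2) (nat_lit 5) (nat_lit 8) L8531 (by decide +kernel)
theorem L8533 : W_2 (nat_lit 5) (nat_lit 0x780000001c00080000000000000000000000000000000) (nat_lit 0x0) (nat_lit 0x1800000000000030015c000000000000000000000000000000) := T_2 (nat_lit 195) (nat_lit 196) (nat_lit 3) (nat_lit 5) (nat_lit 10) L8532 (by decide +kernel)
theorem L8539 : W_2 (nat_lit 2) (nat_lit 0x780000001f00080000000000000000000000000000000) (nat_lit 0x0) (nat_lit 0x1c000000000000000000000000000000) := D_2 (nat_lit 123) (nat_lit 124) (nat_lit 122) (nat_lit 0) (nat_lit 8) (nat_lit 8) (nat_lit 0) (nat_lit 7) (nat_lit 8) (by decide +kernel)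
theorem L8540 : W_2 (nat_lit 3) (nat_lit 0x780000001e00080000000000000000000000000000000) (nat_lit 0x0) (nat_lit 0x10005c000000000000000000000000000000) := T_2 (nat_lit 140) (nat_lit 126) (nat_lit 2) (nat_lit 4) (nat_lit 8) L8539 (by decide +kernel)
theorem L8541 : W_2 (nat_lit 4) (nat_lit 0x780000001c00080000000000000000000000000000000) (nat_lit 0x0) (nat_lit 0x30015c000000000000000000000000000000) := T_2 (nat_lit 141) (nat_lit 128) (nat_lit 2) (nat_lit 5) (nat_lit 8) L8540 (by decide +kernel)
theorem L8542 : W_2 (nat_lit 2) (nat_lit 0x8000780008001c000c0000000000000000000000000000000) (nat_lit 0x0) (nat_lit 0x1000000000000000020002000000000000000000000000000) := D_2 (nat_lit 125) (nat_lit 109) (nat_lit 192) (nat_lit 6) (nat_lit 6) (nat_lit 10) (nat_lit 5) (nat_lit 6) (nat_lit 7) (by decide +kernel)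
theorem L8543 : W_2 (nat_lit 3) (nat_lit 0x8000780000001c000c0000000000000000000000000000000) (nat_lit 0x0) (nat_lit 0x3000000008000000020002000000000000000000000000000) := T_2 (nat_lit 159) (nat_lit 193) (nat_lit 6) (nat_lit 6) (nat_lit 11) L8542 (by decide +kernel)
theorem L8544 : W_2 (nat_lit 4) (nat_lit 0x8000780000001c00080000000000000000000000000000000) (nat_lit 0x0) (nat_lit 0x3000000018000000060002000000000000000000000000000) := T_2 (nat_lit 126) (nat_lit 160) (nat_lit 7) (nat_lit 7) (nat_lit 7) L8543 (by decide +kernel)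
theorem L8545 : W_2 (nat_lit 5) (nat_lit 0x780000001c00080000000000000000000000000000000) (nat_lit 0x0) (nat_lit 0x1b000000018000000060002000000000000000000000000000) := T_2 (nat_lit 195) (nat_lit 196) (nat_lit 3) (nat_lit 5) (nat_lit 10) L8544 (by decide +kernel)
theorem L8555 : W_2 (nat_lit 4) (nat_lit 0x780000001a00080000000000000000000000000000000) (nat_lit 0x0) (nat_lit 0x50015c000000000000000000000000000000) := T_2 (nat_lit 142) (nat_lit 128) (nat_lit 2) (nat_lit 5) (nat_lit 8) L8540 (by decide +kernel)
theorem L8556 : W_2 (nat_lit 2) (nat_lit 0x88007c0002001a000c0000000000000000000000000000000) (nat_lit 0x0) (nat_lit 0x500010000000000000000000000000000000) := D_2 (nat_lit 140) (nat_lit 142) (nat_lit 124) (nat_lit 2) (nat_lit 4) (nat_lit 8) (nat_lit 6) (nat_lit 4) (nat_lit 11) (by decide +kernel)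
theorem L8557 : W_2 (nat_lit 3) (nat_lit 0x88007c0002001a00080000000000000000000000000000000) (nat_lit 0x0) (nat_lit 0x10000500050000000000000000000000000000000) := T_2 (nat_lit 126) (nat_lit 160) (nat_lit 7) (nat_lit 7) (nat_lit 7) L8556 (by decide +kernel)
theorem L8558 : W_2 (nat_lit 4) (nat_lit 0x88007c0000001a00080000000000000000000000000000000) (nat_lit 0x0) (nat_lit 0x13000500050000000000000000000000000000000) := T_2 (nat_lit 157) (nat_lit 156) (nat_lit 0) (nat_lit 7) (nat_lit 10) L8557 (by decide +kernel)
theorem L8559 : W_2 (nat_lit 5) (nat_lit 0x8800780000001a00080000000000000000000000000000000) (nat_lit 0x0) (nat_lit 0x400040013000500050000000000000000000000000000000) := T_2 (nat_lit 174) (nat_lit 190) (nat_lit 1) (nat_lit 7) (nat_lit 10) L8558 (by decide +kernel)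
theorem L8560 : W_2 (nat_lit 6) (nat_lit 0x800780000001a00080000000000000000000000000000000) (nat_lit 0x0) (nat_lit 0x18400040013000500050000000000000000000000000000000) := T_2 (nat_lit 195) (nat_lit 196) (nat_lit 3) (nat_lit 5) (nat_lit 10) L8559 (by decide +kernel)
theorem L8561 : W_2 (nat_lit 7) (nat_lit 0x780000001a00080000000000000000000000000000000) (nat_lit 0x0) (nat_lit 0x19c00040013000500050000000000000000000000000000000) := T_2 (nat_lit 191) (nat_lit 192) (nat_lit 1) (nat_lit 8) (nat_lit 10) L8560 (by decide +kernel)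
theorem L8562 : W_2 (nat_lit 2) (nat_lit 0x88007c0002001a003f0000800000000000000000000000000) (nat_lit 0x0) (nat_lit 0x38000000000000000000000000000) := D_2 (nat_lit 112) (nat_lit 111) (nat_lit 113) (nat_lit 2) (nat_lit 6) (nat_lit 7) (nat_lit 2) (nat_lit 7) (nat_lit 7) (by decide +kernel)
theorem L8563 : W_2 (nat_lit 3) (nat_lit 0x88007c0002001a001f0000800000000000000000000000000) (nat_lit 0x0) (nat_lit 0x600038000000000000000000000000000) := T_2 (nat_lit 129) (nat_lit 130) (nat_lit 1) (nat_lit 11) (nat_lit 7) L8562 (by decide +kernel)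
theorem L8564 : W_2 (nat_lit 4) (nat_lit 0x88007c0002001a000f0000800000000000000000000000000) (nat_lit 0x0) (nat_lit 0x700039000000000000000000000000000) := T_2 (nat_lit 128) (nat_lit 108) (nat_lit 0) (nat_lit 9) (nat_lit 7) L8563 (by decide +kernel)
theorem L8565 : W_2 (nat_lit 5) (nat_lit 0x88007c0002001a000f0000000000000000000000000000000) (nat_lit 0x0) (nat_lit 0x700039c00000000000000000000000000) := T_2 (nat_lit 107) (nat_lit 106) (nat_lit 0) (nat_lit 8) (nat_lit 7) L8564 (by decide +kernel)
theorem L8566 : W_2 (nat_lit 6) (nat_lit 0x88007c0002001a000d0000000000000000000000000000000) (nat_lit 0x0) (nat_lit 0x728039c00000000000000000000000000) := T_2 (nat_lit 125) (nat_lit 123) (nat_lit 3) (nat_lit 4) (nat_lit 7) L8565 (by decide +kernel)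
theorem L8567 : W_2 (nat_lit 7) (nat_lit 0x88007c0002001a000c0000000000000000000000000000000) (nat_lit 0x0) (nat_lit 0x100738039c00000000000000000000000000) := T_2 (nat_lit 124) (nat_lit 140) (nat_lit 6) (nat_lit 4) (nat_lit 11) L8566 (by decide +kernel)
theorem L8568 : W_2 (nat_lit 8) (nat_lit 0x88007c0002001a00080000000000000000000000000000000) (nat_lit 0x0) (nat_lit 0x10000100778039c00000000000000000000000000) := T_2 (nat_lit 126) (nat_lit 160) (nat_lit 7) (nat_lit 7) (nat_lit 7) L8567 (by decide +kernel)
theorem L8569 : W_2 (nat_lit 9) (nat_lit 0x88007c0000001a00080000000000000000000000000000000) (nat_lit 0x0) (nat_lit 0x13000100778039c00000000000000000000000000) := T_2 (nat_lit 157) (nat_lit 156) (nat_lit 0) (nat_lit 7) (nat_lit 10) L8568 (by decide +kernel)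
theorem L8570 : W_2 (nat_lit 10) (nat_lit 0x8800780000001a00080000000000000000000000000000000) (nat_lit 0x0) (nat_lit 0x400040013000100778039c00000000000000000000000000) := T_2 (nat_lit 174) (nat_lit 190) (nat_lit 1) (nat_lit 7) (nat_lit 10) L8569 (by decide +kernel)
theorem L8573 : W_2 (nat_lit 2) (nat_lit 0x8000780000001e00080000000000000000000000000000000) (nat_lit 0x0) (nat_lit 0x10000100040000000000000000000000000000000) := D_2 (nat_lit 126) (nat_lit 140) (nat_lit 160) (nat_lit 2) (nat_lit 4) (nat_lit 8) (nat_lit 7) (nat_lit 7) (nat_lit 7) (by decide +kernel)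
theorem L8574 : W_2 (nat_lit 3) (nat_lit 0x8000780000001a00080000000000000000000000000000000) (nat_lit 0x0) (nat_lit 0x10000500140000000000000000000000000000000) := T_2 (nat_lit 142) (nat_lit 128) (nat_lit 2) (nat_lit 5) (nat_lit 8) L8573 (by decide +kernel)
theorem L8575 : W_2 (nat_lit 4) (nat_lit 0x780000001a00080000000000000000000000000000000) (nat_lit 0x0) (nat_lit 0x18000000010000500140000000000000000000000000000000) := T_2 (nat_lit 195) (nat_lit 196) (nat_lit 3) (nat_lit 5) (nat_lit 10) L8574 (by decide +kernel)
theorem L8585 : W_2 (nat_lit 2) (nat_lit 0x7c0000001800080000000000000000000000000000000) (nat_lit 0x0) (nat_lit 0x1c00000000000000000000000000000000000000000000000) := D_2 (nat_lit 191) (nat_lit 192) (nat_lit 190) (nat_lit 1) (nat_lit 8) (nat_lit 10) (nat_lit 1) (nat_lit 7) (nat_lit 10) (by decide +kernel)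
theorem L8614 : W_2 (nat_lit 2) (nat_lit 0x9000780008001c00080000000000000000000000000000000) (nat_lit 0x0) (nat_lit 0x20002000000000000000040000000000000000000000000000000) := D_2 (nat_lit 193) (nat_lit 209) (nat_lit 126) (nat_lit 5) (nat_lit 6) (nat_lit 8) (nat_lit 6) (nat_lit 6) (nat_lit 11) (by decide +kernel)
theorem L8615 : W_2 (nat_lit 3) (nat_lit 0x9000780000001c00080000000000000000000000000000000) (nat_lit 0x0) (nat_lit 0x20002000000008000000060000000000000000000000000000000) := T_2 (nat_lit 159) (nat_lit 125) (nat_lit 5) (nat_lit 6) (nat_lit 7) L8614 (by decide +kernel)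
theorem L8643 : W_2 (nat_lit 2) (nat_lit 0x8000780008001c000c0000000000000000000000000000000) (nat_lit 0x0) (nat_lit 0x20002000100000000000000000000000) := D_2 (nat_lit 109) (nat_lit 125) (nat_lit 92) (nat_lit 6) (nat_lit 6) (nat_lit 10) (nat_lit 5) (nat_lit 7) (nat_lit 5) (by decide +kernel)
theorem L8644 : W_2 (nat_lit 3) (nat_lit 0x8000780000001c000c0000000000000000000000000000000) (nat_lit 0x0) (nat_lit 0x2000000008000000020002000100000000000000000000000) := T_2 (nat_lit 159) (nat_lit 193) (nat_lit 6) (nat_lit 6) (nat_lit 11) L8643 (by decide +kernel)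
theorem L8645 : W_2 (nat_lit 4) (nat_lit 0x8000780000001c00080000000000000000000000000000000) (nat_lit 0x0) (nat_lit 0x2000000018000000060002000100000000000000000000000) := T_2 (nat_lit 126) (nat_lit 160) (nat_lit 7) (nat_lit 7) (nat_lit 7) L8644 (by decide +kernel)
theorem L8646 : W_2 (nat_lit 5) (nat_lit 0x780000001c00080000000000000000000000000000000) (nat_lit 0x0) (nat_lit 0x1a000000018000000060002000100000000000000000000000) := T_2 (nat_lit 195) (nat_lit 196) (nat_lit 3) (nat_lit 5) (nat_lit 10) L8645 (by decide +kernel)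
theorem L8651 : W_2 (nat_lit 2) (nat_lit 0x4000780000001f00080000000000000000000000000000000) (nat_lit 0x0) (nat_lit 0x1c000000000000000000000000000000) := D_2 (nat_lit 123) (nat_lit 124) (nat_lit 122) (nat_lit 0) (nat_lit 8) (nat_lit 8) (nat_lit 0) (nat_lit 7) (nat_lit 8) (by decide +kernel)
theorem L8652 : W_2 (nat_lit 3) (nat_lit 0x4000780000001e00080000000000000000000000000000000) (nat_lit 0x0) (nat_lit 0x10005c000000000000000000000000000000) := T_2 (nat_lit 140) (nat_lit 126) (nat_lit 2) (nat_lit 4) (nat_lit 8) L8651 (by decide +kernel)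
theorem L8705 : W_2 (nat_lit 2) (nat_lit 0x24001e00110001000080000000000000000000000000000000) (nat_lit 0x0) (nat_lit 0x8002000200000000000000000000000000000000000000000) := D_2 (nat_lit 181) (nat_lit 165) (nat_lit 195) (nat_lit 2) (nat_lit 8) (nat_lit 10) (nat_lit 1) (nat_lit 11) (nat_lit 10) (by decide +kernel)
theorem L8706 : W_2 (nat_lit 3) (nat_lit 0x20001e00110001000080000000000000000000000000000000) (nat_lit 0x0) (nat_lit 0xe002000200000000000000000000000000000000000000000) := T_2 (nat_lit 194) (nat_lit 193) (nat_lit 1) (nat_lit 10) (nat_lit 10) L8705 (by decide +kernel)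
theorem L8707 : W_2 (nat_lit 4) (nat_lit 0x20001e00010001000080000000000000000000000000000000) (nat_lit 0x0) (nat_lit 0xe002000380000000000000000000000000000000000000000) := T_2 (nat_lit 164) (nat_lit 163) (nat_lit 2) (nat_lit 7) (nat_lit 10) L8706 (by decide +kernel)
theorem L8708 : W_2 (nat_lit 5) (nat_lit 0x1e00010001000080000000000000000000000000000000) (nat_lit 0x0) (nat_lit 0x6e002000380000000000000000000000000000000000000000) := T_2 (nat_lit 197) (nat_lit 198) (nat_lit 3) (nat_lit 7) (nat_lit 10) L8707 (by decide +kernel)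
theorem L8709 : W_2 (nat_lit 6) (nat_lit 0x1e00000001000080000000000000000000000000000000) (nat_lit 0x0) (nat_lit 0x6e002000398000000000000000000000000000000000000000) := T_2 (nat_lit 160) (nat_lit 159) (nat_lit 0) (nat_lit 10) (nat_lit 10) L8708 (by decide +kernel)
theorem L8720 : W_2 (nat_lit 2) (nat_lit 0x2000f000600018001c0000000000000000000000000000000) (nat_lit 0x0) (nat_lit 0x600200000000000000000000000000000000) := D_2 (nat_lit 142) (nat_lit 141) (nat_lit 129) (nat_lit 3) (nat_lit 5) (nat_lit 8) (nat_lit 1) (nat_lit 10) (nat_lit 7) (by decide +kernel)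
theorem L8721 : W_2 (nat_lit 3) (nat_lit 0x2000f000600010001c0000000000000000000000000000000) (nat_lit 0x0) (nat_lit 0x10000e00200000000000000000000000000000000) := T_2 (nat_lit 143) (nat_lit 160) (nat_lit 5) (nat_lit 7) (nat_lit 7) L8720 (by decide +kernel)
theorem L8722 : W_2 (nat_lit 4) (nat_lit 0x2000f000600010000c0000000000000000000000000000000) (nat_lit 0x0) (nat_lit 0x10000e00300008000000000000000000000000000) := T_2 (nat_lit 128) (nat_lit 111) (nat_lit 6) (nat_lit 8) (nat_lit 10) L8721 (by decide +kernel)
theorem L8727 : W_2 (nat_lit 2) (nat_lit 0x2000f000200018001c0000000000000000000000000000000) (nat_lit 0x0) (nat_lit 0x600200000000000000000000000000000000) := D_2 (nat_lit 142) (nat_lit 141) (nat_lit 129) (nat_lit 2) (nat_lit 5) (nat_lit 8) (nat_lit 1) (nat_lit 10) (nat_lit 7) (by decide +kernel)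
theorem L8728 : W_2 (nat_lit 3) (nat_lit 0x2000f000200010001c0000000000000000000000000000000) (nat_lit 0x0) (nat_lit 0x10000e00200000000000000000000000000000000) := T_2 (nat_lit 143) (nat_lit 160) (nat_lit 5) (nat_lit 7) (nat_lit 7) L8727 (by decide +kernel)
theorem L8729 : W_2 (nat_lit 4) (nat_lit 0xf000200010001c0000000000000000000000000000000) (nat_lit 0x0) (nat_lit 0x3000000010000e00200000000000000000000000000000000) := T_2 (nat_lit 193) (nat_lit 192) (nat_lit 1) (nat_lit 9) (nat_lit 10) L8728 (by decide +kernel)
theorem L8730 : W_2 (nat_lit 5) (nat_lit 0x7000200010001c0000000000000000000000000000000) (nat_lit 0x0) (nat_lit 0x13000800010000e00200000000000000000000000000000000) := T_2 (nat_lit 179) (nat_lit 196) (nat_lit 7) (nat_lit 8) (nat_lit 7) L8729 (by decide +kernel)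
theorem L9038 : W_2 (nat_lit 2) (nat_lit 0x8000c000c000200000001000080000000000000000000000000000000) (nat_lit 0x0) (nat_lit 0x200010000000000002000000000000000000000000000000000000000000000000) := D_2 (nat_lit 244) (nat_lit 261) (nat_lit 193) (nat_lit 6) (nat_lit 6) (nat_lit 15) (nat_lit 6) (nat_lit 6) (nat_lit 14) (by decide +kernel)
theorem L9045 : W_2 (nat_lit 2) (nat_lit 0x8001e000c000200000001000080000000000000000000000000000000) (nat_lit 0x0) (nat_lit 0x40006000000000000000000000000000000000000000000000000000000000) := D_2 (nat_lit 229) (nat_lit 246) (nat_lit 230) (nat_lit 4) (nat_lit 8) (nat_lit 14) (nat_lit 3) (nat_lit 5) (nat_lit 12) (by decide +kernel)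
theorem L9046 : W_2 (nat_lit 3) (nat_lit 0x8001c000c000200000001000080000000000000000000000000000000) (nat_lit 0x0) (nat_lit 0x40006000030000000000000000000000000000000000000000000000000000) := T_2 (nat_lit 209) (nat_lit 208) (nat_lit 2) (nat_lit 4) (nat_lit 12) L9045 (by decide +kernel)
theorem L9061 : W_2 (nat_lit 2) (nat_lit 0x7e002c000c000200000001000080000000000000000000000000000000) (nat_lit 0x0) (nat_lit 0xe000000000000000000000000000000000000000000000000000000000000) := D_2 (nat_lit 242) (nat_lit 243) (nat_lit 241) (nat_lit 1) (nat_lit 8) (nat_lit 13) (nat_lit 1) (nat_lit 7) (nat_lit 13) (by decide +kernel)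
theorem L9062 : W_2 (nat_lit 3) (nat_lit 0x7c002c000c000200000001000080000000000000000000000000000000) (nat_lit 0x0) (nat_lit 0xe000300000000000000000000000000000000000000000000000000000000) := T_2 (nat_lit 225) (nat_lit 224) (nat_lit 2) (nat_lit 3) (nat_lit 13) L9061 (by decide +kernel)
theorem L9063 : W_2 (nat_lit 4) (nat_lit 0x78002c000c000200000001000080000000000000000000000000000000) (nat_lit 0x0) (nat_lit 0xe000700100000000000000000000000000000000000000000000000000000) := T_2 (nat_lit 226) (nat_lit 212) (nat_lit 2) (nat_lit 5) (nat_lit 13) L9062 (by decide +kernel)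
theorem L9064 : W_2 (nat_lit 5) (nat_lit 0x78000c000c000200000001000080000000000000000000000000000000) (nat_lit 0x0) (nat_lit 0xe000700700000000000000000000000000000000000000000000000000000) := T_2 (nat_lit 213) (nat_lit 214) (nat_lit 2) (nat_lit 6) (nat_lit 13) L9063 (by decide +kernel)
theorem L9065 : W_2 (nat_lit 6) (nat_lit 0x38000c000c000200000001000080000000000000000000000000000000) (nat_lit 0x0) (nat_lit 0xe00c700700000000000000000000000000000000000000000000000000000) := T_2 (nat_lit 230) (nat_lit 231) (nat_lit 0) (nat_lit 10) (nat_lit 13) L9064 (by decide +kernel)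
theorem L9066 : W_2 (nat_lit 2) (nat_lit 0x300010000c002c000200000001000080000000000000000000000000000000) (nat_lit 0x0) (nat_lit 0x400000000000100002000000000000000000000000000000000000000000000000) := D_2 (nat_lit 262) (nat_lit 193) (nat_lit 212) (nat_lit 4) (nat_lit 7) (nat_lit 15) (nat_lit 6) (nat_lit 7) (nat_lit 15) (by decide +kernel)
theorem L9067 : W_2 (nat_lit 3) (nat_lit 0x100010000c002c000200000001000080000000000000000000000000000000) (nat_lit 0x0) (nat_lit 0x600020000000100002000000000000000000000000000000000000000000000000) := T_2 (nat_lit 245) (nat_lit 261) (nat_lit 5) (nat_lit 7) (nat_lit 11) L9066 (by decide +kernel)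
theorem L9068 : W_2 (nat_lit 2) (nat_lit 0x600010000c002c000200000001000080000000000000000000000000000000) (nat_lit 0x0) (nat_lit 0x400000000000100002000000000000000000000000000000000000000000000000) := D_2 (nat_lit 262) (nat_lit 212) (nat_lit 193) (nat_lit 6) (nat_lit 7) (nat_lit 15) (nat_lit 4) (nat_lit 7) (nat_lit 15) (by decide +kernel)
theorem L9069 : W_2 (nat_lit 3) (nat_lit 0x400010000c002c000200000001000080000000000000000000000000000000) (nat_lit 0x0) (nat_lit 0xc00020000000100002000000000000000000000000000000000000000000000000) := T_2 (nat_lit 245) (nat_lit 263) (nat_lit 7) (nat_lit 7) (nat_lit 11) L9068 (by decide +kernel)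
theorem L9070 : W_2 (nat_lit 4) (nat_lit 0x10000c002c000200000001000080000000000000000000000000000000) (nat_lit 0x0) (nat_lit 0xc00060002000100002000000000000000000000000000000000000000000000000) := T_2 (nat_lit 246) (nat_lit 229) (nat_lit 7) (nat_lit 7) (nat_lit 10) L9069 (by decide +kernel)
theorem L9071 : W_2 (nat_lit 5) (nat_lit 0x10000c000c000200000001000080000000000000000000000000000000) (nat_lit 0x0) (nat_lit 0xc00060002000100032000000000000000000000000000000000000000000000000) := T_2 (nat_lit 197) (nat_lit 196) (nat_lit 1) (nat_lit 10) (nat_lit 11) L9070 (by decide +kernel)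
theorem L9076 : W_2 (nat_lit 2) (nat_lit 0x7e002c002c000200000001000080000000000000000000000000000000) (nat_lit 0x0) (nat_lit 0xe000000000000000000000000000000000000000000000000000000000000) := D_2 (nat_lit 242) (nat_lit 243) (nat_lit 241) (nat_lit 1) (nat_lit 8) (nat_lit 13) (nat_lit 1) (nat_lit 7) (nat_lit 13) (by decide +kernel)
theorem L9077 : W_2 (nat_lit 3) (nat_lit 0x7c002c002c000200000001000080000000000000000000000000000000) (nat_lit 0x0) (nat_lit 0xe000300000000000000000000000000000000000000000000000000000000) := T_2 (nat_lit 225) (nat_lit 224) (nat_lit 2) (nat_lit 3) (nat_lit 13) L9076 (by decide +kernel)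
theorem L9078 : W_2 (nat_lit 4) (nat_lit 0x78002c002c000200000001000080000000000000000000000000000000) (nat_lit 0x0) (nat_lit 0xe000700100000000000000000000000000000000000000000000000000000) := T_2 (nat_lit 226) (nat_lit 212) (nat_lit 2) (nat_lit 5) (nat_lit 13) L9077 (by decide +kernel)
theorem L9079 : W_2 (nat_lit 5) (nat_lit 0x78000c002c000200000001000080000000000000000000000000000000) (nat_lit 0x0) (nat_lit 0xe000700700000000000000000000000000000000000000000000000000000) := T_2 (nat_lit 213) (nat_lit 214) (nat_lit 2) (nat_lit 6) (nat_lit 13) L9078 (by decide +kernel)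
theorem L9080 : W_2 (nat_lit 6) (nat_lit 0x38000c002c000200000001000080000000000000000000000000000000) (nat_lit 0x0) (nat_lit 0xe00c700700000000000000000000000000000000000000000000000000000) := T_2 (nat_lit 230) (nat_lit 231) (nat_lit 0) (nat_lit 10) (nat_lit 13) L9079 (by decide +kernel)
theorem L9081 : W_2 (nat_lit 7) (nat_lit 0x18000c002c000200000001000080000000000000000000000000000000) (nat_lit 0x0) (nat_lit 0x4e00e700700000000000000000000000000000000000000000000000000000) := T_2 (nat_lit 229) (nat_lit 246) (nat_lit 7) (nat_lit 7) (nat_lit 10) L9080 (by decide +kernel)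
theorem L9097 : W_2 (nat_lit 2) (nat_lit 0x10000e000c000200000001000080000000000000000000000000000000) (nat_lit 0x0) (nat_lit 0x32000000000000000000000000000000000000000000000000) := D_2 (nat_lit 196) (nat_lit 197) (nat_lit 193) (nat_lit 1) (nat_lit 10) (nat_lit 11) (nat_lit 1) (nat_lit 9) (nat_lit 11) (by decide +kernel)
theorem L9110 : W_2 (nat_lit 2) (nat_lit 0x380018000c000200000001000080000000000000000000000000000000) (nat_lit 0x0) (nat_lit 0x600200000000000000000000000000000000000000000000000000000) := D_2 (nat_lit 226) (nat_lit 213) (nat_lit 225) (nat_lit 2) (nat_lit 5) (nat_lit 13) (nat_lit 2) (nat_lit 4) (nat_lit 13) (by decide +kernel)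
theorem L9111 : W_2 (nat_lit 3) (nat_lit 0x300018000c000200000001000080000000000000000000000000000000) (nat_lit 0x0) (nat_lit 0x10000e00200000000000000000000000000000000000000000000000000000) := T_2 (nat_lit 227) (nat_lit 244) (nat_lit 5) (nat_lit 7) (nat_lit 10) L9110 (by decide +kernel)
theorem L9112 : W_2 (nat_lit 4) (nat_lit 0x100018000c000200000001000080000000000000000000000000000000) (nat_lit 0x0) (nat_lit 0x50002e00200000000000000000000000000000000000000000000000000000) := T_2 (nat_lit 229) (nat_lit 246) (nat_lit 7) (nat_lit 7) (nat_lit 10) L9111 (by decide +kernel)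
theorem L9118 : W_2 (nat_lit 2) (nat_lit 0x8003c000200000001000080000000000000000000000000000000) (nat_lit 0x0) (nat_lit 0x100040000400000000000000000000000000000000000000000000) := D_2 (nat_lit 198) (nat_lit 178) (nat_lit 212) (nat_lit 0) (nat_lit 11) (nat_lit 11) (nat_lit 1) (nat_lit 11) (nat_lit 11) (by decide +kernel)
theorem L9120 : W_2 (nat_lit 2) (nat_lit 0x8001e000a00020001000080000000000000000000000000000000) (nat_lit 0x0) (nat_lit 0x600000000000040000000000000000000000000000000000000000) := D_2 (nat_lit 213) (nat_lit 214) (nat_lit 162) (nat_lit 3) (nat_lit 6) (nat_lit 11) (nat_lit 4) (nat_lit 9) (nat_lit 12) (by decide +kernel)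
theorem L9121 : W_2 (nat_lit 3) (nat_lit 0x8001e000200020001000080000000000000000000000000000000) (nat_lit 0x0) (nat_lit 0x600000001800040000000000000000000000000000000000000000) := T_2 (nat_lit 179) (nat_lit 180) (nat_lit 2) (nat_lit 6) (nat_lit 11) L9120 (by decide +kernel)
theorem L9122 : W_2 (nat_lit 4) (nat_lit 0x8001e000200000001000080000000000000000000000000000000) (nat_lit 0x0) (nat_lit 0x600000001c00060000000000000000000000000000000000000000) := T_2 (nat_lit 161) (nat_lit 178) (nat_lit 5) (nat_lit 8) (nat_lit 7) L9121 (by decide +kernel)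
theorem L9130 : W_2 (nat_lit 2) (nat_lit 0x28001f000200000001000080000000000000000000000000000000) (nat_lit 0x0) (nat_lit 0x800400020000000000000000000000000000000000000000) := D_2 (nat_lit 178) (nat_lit 191) (nat_lit 161) (nat_lit 2) (nat_lit 4) (nat_lit 11) (nat_lit 7) (nat_lit 8) (nat_lit 8) (by decide +kernel)
theorem L9131 : W_2 (nat_lit 3) (nat_lit 0x28001e000200000001000080000000000000000000000000000000) (nat_lit 0x0) (nat_lit 0x100001800400020000000000000000000000000000000000000000) := T_2 (nat_lit 192) (nat_lit 212) (nat_lit 3) (nat_lit 5) (nat_lit 11) L9130 (by decide +kernel)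
theorem L9132 : W_2 (nat_lit 4) (nat_lit 0x8001e000200000001000080000000000000000000000000000000) (nat_lit 0x0) (nat_lit 0x700001800400020000000000000000000000000000000000000000) := T_2 (nat_lit 213) (nat_lit 214) (nat_lit 3) (nat_lit 6) (nat_lit 11) L9131 (by decide +kernel)
theorem L9236 : W_2 (nat_lit 2) (nat_lit 0x40006000100008000c000200000001000080000000000000000000000000000000) (nat_lit 0x0) (nat_lit 0x4000200010000000000000000000000000000000000000000000000000000000000000) := D_2 (nat_lit 261) (nat_lit 278) (nat_lit 244) (nat_lit 5) (nat_lit 7) (nat_lit 12) (nat_lit 5) (nat_lit 7) (nat_lit 11) (by decide +kernel)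
theorem L9237 : W_2 (nat_lit 3) (nat_lit 0x6000100008000c000200000001000080000000000000000000000000000000) (nat_lit 0x0) (nat_lit 0x4000600010000000100000000000000000000000000000000000000000000000000000) := T_2 (nat_lit 262) (nat_lit 212) (nat_lit 6) (nat_lit 7) (nat_lit 15) L9236 (by decide +kernel)
theorem L9238 : W_2 (nat_lit 4) (nat_lit 0x4000100008000c000200000001000080000000000000000000000000000000) (nat_lit 0x0) (nat_lit 0x4000e00030000000100000000000000000000000000000000000000000000000000000) := T_2 (nat_lit 245) (nat_lit 263) (nat_lit 7) (nat_lit 7) (nat_lit 11) L9237 (by decide +kernel)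
theorem L9239 : W_2 (nat_lit 5) (nat_lit 0x100008000c000200000001000080000000000000000000000000000000) (nat_lit 0x0) (nat_lit 0x4000e00070002000100000000000000000000000000000000000000000000000000000) := T_2 (nat_lit 246) (nat_lit 229) (nat_lit 7) (nat_lit 7) (nat_lit 10) L9238 (by decide +kernel)
theorem L9745 : W_2 (nat_lit 2) (nat_lit 0x60001c000c000600000001000080000000000000000000000000000000) (nat_lit 0x0) (nat_lit 0x18000200000000000000000000000000000000000000000000000000000) := D_2 (nat_lit 231) (nat_lit 232) (nat_lit 213) (nat_lit 0) (nat_lit 11) (nat_lit 13) (nat_lit 3) (nat_lit 6) (nat_lit 12) (by decide +kernel)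
theorem L9746 : W_2 (nat_lit 3) (nat_lit 0x600018000c000600000001000080000000000000000000000000000000) (nat_lit 0x0) (nat_lit 0x18000260000000000000000000000000000000000000000000000000000) := T_2 (nat_lit 210) (nat_lit 209) (nat_lit 3) (nat_lit 5) (nat_lit 12) L9745 (by decide +kernel)
theorem L9747 : W_2 (nat_lit 4) (nat_lit 0x200018000c000600000001000080000000000000000000000000000000) (nat_lit 0x0) (nat_lit 0x8001c000260000000000000000000000000000000000000000000000000000) := T_2 (nat_lit 230) (nat_lit 247) (nat_lit 7) (nat_lit 8) (nat_lit 10) L9746 (by decide +kernel)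
theorem L9762 : W_2 (nat_lit 2) (nat_lit 0x30000e000c000200000001000080000000000000000000000000000000) (nat_lit 0x0) (nat_lit 0xc800000000000000000000000000000000000000000000000000000000) := D_2 (nat_lit 230) (nat_lit 231) (nat_lit 227) (nat_lit 0) (nat_lit 10) (nat_lit 13) (nat_lit 0) (nat_lit 9) (nat_lit 13) (by decide +kernel)
theorem L9763 : W_2 (nat_lit 3) (nat_lit 0x30000c000c000200000001000080000000000000000000000000000000) (nat_lit 0x0) (nat_lit 0xc800030000000000000000000000000000000000000000000000000000) := T_2 (nat_lit 209) (nat_lit 208) (nat_lit 3) (nat_lit 4) (nat_lit 12) L9762 (by decide +kernel)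
theorem L9819 : W_2 (nat_lit 2) (nat_lit 0x10000f00058000c002e00000001000080000000000000000000000000000000) (nat_lit 0x0) (nat_lit 0x70000000000000000000000000000000000000000000000000) := D_2 (nat_lit 197) (nat_lit 196) (nat_lit 198) (nat_lit 4) (nat_lit 10) (nat_lit 14) (nat_lit 6) (nat_lit 10) (nat_lit 14) (by decide +kernel)
theorem L9820 : W_2 (nat_lit 3) (nat_lit 0xf00058000c002e00000001000080000000000000000000000000000000) (nat_lit 0x0) (nat_lit 0x300000000000070000000000000000000000000000000000000000000000000) := T_2 (nat_lit 248) (nat_lit 249) (nat_lit 3) (nat_lit 7) (nat_lit 13) L9819 (by decide +kernel)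
theorem L9821 : W_2 (nat_lit 4) (nat_lit 0xf00018000c002e00000001000080000000000000000000000000000000) (nat_lit 0x0) (nat_lit 0x300000000c00070000000000000000000000000000000000000000000000000) := T_2 (nat_lit 214) (nat_lit 215) (nat_lit 2) (nat_lit 7) (nat_lit 13) L9820 (by decide +kernel)
theorem L9822 : W_2 (nat_lit 5) (nat_lit 0x700018000c002e00000001000080000000000000000000000000000000) (nat_lit 0x0) (nat_lit 0x300018000c00070000000000000000000000000000000000000000000000000) := T_2 (nat_lit 231) (nat_lit 232) (nat_lit 0) (nat_lit 11) (nat_lit 13) L9821 (by decide +kernel)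
theorem L9823 : W_2 (nat_lit 6) (nat_lit 0x300018000c002e00000001000080000000000000000000000000000000) (nat_lit 0x0) (nat_lit 0x38001c000c00070000000000000000000000000000000000000000000000000) := T_2 (nat_lit 230) (nat_lit 247) (nat_lit 7) (nat_lit 8) (nat_lit 10) L9822 (by decide +kernel)
theorem L9824 : W_2 (nat_lit 7) (nat_lit 0x300018000c000e00000001000080000000000000000000000000000000) (nat_lit 0x0) (nat_lit 0x38001c000c00070003000000000000000000000000000000000000000000000) := T_2 (nat_lit 181) (nat_lit 180) (nat_lit 1) (nat_lit 11) (nat_lit 10) L9823 (by decide +kernel)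
theorem L9825 : W_2 (nat_lit 8) (nat_lit 0x300018000c000600000001000080000000000000000000000000000000) (nat_lit 0x0) (nat_lit 0x38001c000c00070003800040000000000000000000000000000000000000000) := T_2 (nat_lit 179) (nat_lit 162) (nat_lit 6) (nat_lit 8) (nat_lit 13) L9824 (by decide +kernel)
theorem L9826 : W_2 (nat_lit 9) (nat_lit 0x300018000c000200000001000080000000000000000000000000000000) (nat_lit 0x0) (nat_lit 0x38001c000c00070003c00060000000000000000000000000000000000000000) := T_2 (nat_lit 178) (nat_lit 161) (nat_lit 6) (nat_lit 7) (nat_lit 13) L9825 (by decide +kernel)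
theorem L9927 : W_2 (nat_lit 2) (nat_lit 0x68003c001600000001000080000000000000000000000000000000) (nat_lit 0x0) (nat_lit 0x80004000000000000000080000000000000000000000000000000000000000) := D_2 (nat_lit 230) (nat_lit 247) (nat_lit 163) (nat_lit 6) (nat_lit 9) (nat_lit 14) (nat_lit 5) (nat_lit 10) (nat_lit 9) (by decide +kernel)
theorem L9928 : W_2 (nat_lit 3) (nat_lit 0x68003c000600000001000080000000000000000000000000000000) (nat_lit 0x0) (nat_lit 0x80004000000000003000080000000000000000000000000000000000000000) := T_2 (nat_lit 180) (nat_lit 181) (nat_lit 2) (nat_lit 7) (nat_lit 11) L9927 (by decide +kernel)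
theorem L9929 : W_2 (nat_lit 4) (nat_lit 0x48003c000600000001000080000000000000000000000000000000) (nat_lit 0x0) (nat_lit 0x80004000200002003000080000000000000000000000000000000000000000) := T_2 (nat_lit 213) (nat_lit 193) (nat_lit 3) (nat_lit 6) (nat_lit 11) L9928 (by decide +kernel)
theorem L9930 : W_2 (nat_lit 5) (nat_lit 0x8003c000600000001000080000000000000000000000000000000) (nat_lit 0x0) (nat_lit 0x80004000e00002003000080000000000000000000000000000000000000000) := T_2 (nat_lit 214) (nat_lit 215) (nat_lit 3) (nat_lit 7) (nat_lit 11) L9929 (by decide +kernel)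
theorem L9931 : W_2 (nat_lit 6) (nat_lit 0x3c000600000001000080000000000000000000000000000000) (nat_lit 0x0) (nat_lit 0x80004000ec0002003000080000000000000000000000000000000000000000) := T_2 (nat_lit 211) (nat_lit 210) (nat_lit 1) (nat_lit 10) (nat_lit 11) L9930 (by decide +kernel)
theorem L9932 : W_2 (nat_lit 7) (nat_lit 0x1c000600000001000080000000000000000000000000000000) (nat_lit 0x0) (nat_lit 0x80004000ec0062003000080000000000000000000000000000000000000000) := T_2 (nat_lit 197) (nat_lit 198) (nat_lit 0) (nat_lit 11) (nat_lit 11) L9931 (by decide +kernel)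
theorem L9933 : W_2 (nat_lit 8) (nat_lit 0x1c000200000001000080000000000000000000000000000000) (nat_lit 0x0) (nat_lit 0x80004000ec00620034000a0000000000000000000000000000000000000000) := T_2 (nat_lit 178) (nat_lit 161) (nat_lit 5) (nat_lit 8) (nat_lit 7) L9932 (by decide +kernel)
theorem L10003 : W_2 (nat_lit 3) (nat_lit 0x80007000200010001000080000000000000000000000000000000) (nat_lit 0x0) (nat_lit 0x2800340000000000000000000000000000000000000000000000000000) := T_2 (nat_lit 210) (nat_lit 227) (nat_lit 5) (nat_lit 7) (nat_lit 9) L9948 (by decide +kernel)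
theorem L10004 : W_2 (nat_lit 4) (nat_lit 0x80007000200000001000080000000000000000000000000000000) (nat_lit 0x0) (nat_lit 0x2800340000000000010000800000000000000000000000000000000000) := T_2 (nat_lit 160) (nat_lit 143) (nat_lit 6) (nat_lit 7) (nat_lit 11) L10003 (by decide +kernel)
theorem L10030 : W_2 (nat_lit 2) (nat_lit 0x90007c00200000001000080000000000000000000000000000000) (nat_lit 0x0) (nat_lit 0x70000000000000000000000000000000000000000000) := D_2 (nat_lit 173) (nat_lit 172) (nat_lit 174) (nat_lit 0) (nat_lit 6) (nat_lit 11) (nat_lit 0) (nat_lit 7) (nat_lit 11) (by decide +kernel)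
theorem L10031 : W_2 (nat_lit 3) (nat_lit 0x90007800200000001000080000000000000000000000000000000) (nat_lit 0x0) (nat_lit 0x40000400070000000000000000000000000000000000000000000) := T_2 (nat_lit 190) (nat_lit 210) (nat_lit 3) (nat_lit 3) (nat_lit 11) L10030 (by decide +kernel)
theorem L10032 : W_2 (nat_lit 4) (nat_lit 0x10007800200000001000080000000000000000000000000000000) (nat_lit 0x0) (nat_lit 0x1c0000400070000000000000000000000000000000000000000000) := T_2 (nat_lit 211) (nat_lit 212) (nat_lit 3) (nat_lit 4) (nat_lit 11) L10031 (by decide +kernel)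
theorem L10033 : W_2 (nat_lit 5) (nat_lit 0x7800200000001000080000000000000000000000000000000) (nat_lit 0x0) (nat_lit 0x1d8000400070000000000000000000000000000000000000000000) := T_2 (nat_lit 208) (nat_lit 207) (nat_lit 1) (nat_lit 7) (nat_lit 11) L10032 (by decide +kernel)
theorem L10034 : W_2 (nat_lit 6) (nat_lit 0x7000200000001000080000000000000000000000000000000) (nat_lit 0x0) (nat_lit 0x1d8000c00470000000000000000000000000000000000000000000) := T_2 (nat_lit 191) (nat_lit 178) (nat_lit 2) (nat_lit 4) (nat_lit 11) L10033 (by decide +kernel)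
theorem L10125 : W_2 (nat_lit 2) (nat_lit 0x60007000200000001000080000000000000000000000000000000) (nat_lit 0x0) (nat_lit 0x18008000000000000000000000000000000000000000000000000) := D_2 (nat_lit 208) (nat_lit 207) (nat_lit 195) (nat_lit 2) (nat_lit 3) (nat_lit 12) (nat_lit 1) (nat_lit 8) (nat_lit 11) (by decide +kernel)
theorem L10463 : W_2 (nat_lit 2) (nat_lit 0x4001f000a00000001000080000000000000000000000000000000) (nat_lit 0x0) (nat_lit 0x700000000000000000000000000000000000000000000000000000) := D_2 (nat_lit 213) (nat_lit 212) (nat_lit 214) (nat_lit 3) (nat_lit 5) (nat_lit 11) (nat_lit 3) (nat_lit 6) (nat_lit 11) (by decide +kernel)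
theorem L10464 : W_2 (nat_lit 3) (nat_lit 0x4001e000a00000001000080000000000000000000000000000000) (nat_lit 0x0) (nat_lit 0x700001000400000000000000000000000000000000000000000000) := T_2 (nat_lit 192) (nat_lit 178) (nat_lit 2) (nat_lit 5) (nat_lit 11) L10463 (by decide +kernel)
theorem L10465 : W_2 (nat_lit 4) (nat_lit 0x4001e000200000001000080000000000000000000000000000000) (nat_lit 0x0) (nat_lit 0x700001001c00000000000000000000000000000000000000000000) := T_2 (nat_lit 179) (nat_lit 180) (nat_lit 2) (nat_lit 6) (nat_lit 11) L10464 (by decide +kernel)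
theorem L10505 : W_2 (nat_lit 5) (nat_lit 0xc0007800200000001000080000000000000000000000000000000) (nat_lit 0x0) (nat_lit 0x100008000200380000e0000000000000000000000000000000000000000000) := T_2 (nat_lit 244) (nat_lit 227) (nat_lit 6) (nat_lit 6) (nat_lit 14) L10504 (by decide +kernel)
theorem L10522 : W_2 (nat_lit 5) (nat_lit 0x4000200010001000080000000000000000000000000000000) (nat_lit 0x0) (nat_lit 0x500038001c0000000000020000000000000000000000000000000000000000) := T_2 (nat_lit 211) (nat_lit 161) (nat_lit 6) (nat_lit 7) (nat_lit 12) L6072 (by decide +kernel)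
theorem L10523 : W_2 (nat_lit 6) (nat_lit 0x4000200000001000080000000000000000000000000000000) (nat_lit 0x0) (nat_lit 0x500038001c0000000000030000800000000000000000000000000000000000) := T_2 (nat_lit 160) (nat_lit 143) (nat_lit 6) (nat_lit 7) (nat_lit 11) L10522 (by decide +kernel)
theorem L10672 : W_2 (nat_lit 2) (nat_lit 0xe000600000001000080000000000000000000000000000000) (nat_lit 0x0) (nat_lit 0x1800800000000000000000000000000000000000000000000) := D_2 (nat_lit 192) (nat_lit 179) (nat_lit 191) (nat_lit 2) (nat_lit 5) (nat_lit 11) (nat_lit 2) (nat_lit 4) (nat_lit 11) (by decide +kernel)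
theorem L10673 : W_2 (nat_lit 3) (nat_lit 0xe000200000001000080000000000000000000000000000000) (nat_lit 0x0) (nat_lit 0x1800c00020000000000000000000000000000000000000000) := T_2 (nat_lit 178) (nat_lit 161) (nat_lit 5) (nat_lit 8) (nat_lit 7) L10672 (by decide +kernel)
theorem L10805 : W_2 (nat_lit 2) (nat_lit 0xc0001c000200000001000080000000000000000000000000000000) (nat_lit 0x0) (nat_lit 0x1300000000000000000000000000000000000000000000000000000) := D_2 (nat_lit 213) (nat_lit 216) (nat_lit 212) (nat_lit 0) (nat_lit 12) (nat_lit 12) (nat_lit 0) (nat_lit 11) (nat_lit 12) (by decide +kernel)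
theorem L10806 : W_2 (nat_lit 3) (nat_lit 0x40001c000200000001000080000000000000000000000000000000) (nat_lit 0x0) (nat_lit 0x1b00020000000000000000000000000000000000000000000000000) := T_2 (nat_lit 215) (nat_lit 197) (nat_lit 3) (nat_lit 7) (nat_lit 11) L10805 (by decide +kernel)
theorem L10810 : W_2 (nat_lit 2) (nat_lit 0x40003c001a00000001000080000000000000000000000000000000) (nat_lit 0x0) (nat_lit 0x100008000000000000000040000000000000000000000000000000000000000) := D_2 (nat_lit 231) (nat_lit 162) (nat_lit 248) (nat_lit 4) (nat_lit 10) (nat_lit 13) (nat_lit 4) (nat_lit 10) (nat_lit 14) (by decide +kernel)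
theorem L10811 : W_2 (nat_lit 3) (nat_lit 0x40003c001200000001000080000000000000000000000000000000) (nat_lit 0x0) (nat_lit 0x100008000000002000800040000000000000000000000000000000000000000) := T_2 (nat_lit 179) (nat_lit 193) (nat_lit 2) (nat_lit 6) (nat_lit 11) L10810 (by decide +kernel)
theorem L10812 : W_2 (nat_lit 4) (nat_lit 0x40003c000200000001000080000000000000000000000000000000) (nat_lit 0x0) (nat_lit 0x100008000000002003800040000000000000000000000000000000000000000) := T_2 (nat_lit 180) (nat_lit 181) (nat_lit 2) (nat_lit 7) (nat_lit 11) L10811 (by decide +kernel)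
theorem L10813 : W_2 (nat_lit 5) (nat_lit 0x40001c000200000001000080000000000000000000000000000000) (nat_lit 0x0) (nat_lit 0x100008000800022003800040000000000000000000000000000000000000000) := T_2 (nat_lit 197) (nat_lit 215) (nat_lit 3) (nat_lit 7) (nat_lit 11) L10812 (by decide +kernel)
theorem L10837 : W_2 (nat_lit 2) (nat_lit 0x1c000300000001000080000000000000000000000000000000) (nat_lit 0x0) (nat_lit 0x4c0000000000000000000000000000000000000000000) := D_2 (nat_lit 175) (nat_lit 174) (nat_lit 178) (nat_lit 3) (nat_lit 4) (nat_lit 10) (nat_lit 3) (nat_lit 5) (nat_lit 10) (by decide +kernel)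
theorem L10838 : W_2 (nat_lit 3) (nat_lit 0xc000300000001000080000000000000000000000000000000) (nat_lit 0x0) (nat_lit 0x300004c0000000000000000000000000000000000000000000) := T_2 (nat_lit 196) (nat_lit 197) (nat_lit 0) (nat_lit 10) (nat_lit 11) L10837 (by decide +kernel)
theorem L10848 : W_2 (nat_lit 2) (nat_lit 0x4400000011000f800280000001f00080000000000000000000000000000000) (nat_lit 0x0) (nat_lit 0x1c000000000000000000000000000000) := D_2 (nat_lit 123) (nat_lit 124) (nat_lit 122) (nat_lit 0) (nat_lit 8) (nat_lit 8) (nat_lit 0) (nat_lit 7) (nat_lit 8) (by decide +kernel)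
theorem L10849 : W_2 (nat_lit 3) (nat_lit 0x4400000011000f800280000001e00080000000000000000000000000000000) (nat_lit 0x0) (nat_lit 0x10005c000000000000000000000000000000) := T_2 (nat_lit 140) (nat_lit 126) (nat_lit 2) (nat_lit 4) (nat_lit 8) L10848 (by decide +kernel)
theorem L10850 : W_2 (nat_lit 4) (nat_lit 0x4400000011000f800280000001a00080000000000000000000000000000000) (nat_lit 0x0) (nat_lit 0x50015c000000000000000000000000000000) := T_2 (nat_lit 142) (nat_lit 128) (nat_lit 2) (nat_lit 5) (nat_lit 8) L10849 (by decide +kernel)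
theorem L10851 : W_2 (nat_lit 5) (nat_lit 0x4400000011000f800280000001800080000000000000000000000000000000) (nat_lit 0x0) (nat_lit 0x400070015c000000000000000000000000000000) := T_2 (nat_lit 141) (nat_lit 158) (nat_lit 5) (nat_lit 5) (nat_lit 8) L10850 (by decide +kernel)
theorem L11050 : W_2 (nat_lit 2) (nat_lit 0xf000780004001000080000000000000000000000000000000) (nat_lit 0x0) (nat_lit 0x40000000000000000200010000000000000000000000000000000) := D_2 (nat_lit 141) (nat_lit 210) (nat_lit 124) (nat_lit 7) (nat_lit 5) (nat_lit 8) (nat_lit 7) (nat_lit 5) (nat_lit 7) (by decide +kernel)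
theorem L11051 : W_2 (nat_lit 3) (nat_lit 0xd000780004001000080000000000000000000000000000000) (nat_lit 0x0) (nat_lit 0x40002000800000000200010000000000000000000000000000000) := T_2 (nat_lit 193) (nat_lit 179) (nat_lit 2) (nat_lit 5) (nat_lit 11) L11050 (by decide +kernel)
theorem L11052 : W_2 (nat_lit 4) (nat_lit 0xd000780000001000080000000000000000000000000000000) (nat_lit 0x0) (nat_lit 0x40002000800006000200010000000000000000000000000000000) := T_2 (nat_lit 158) (nat_lit 157) (nat_lit 0) (nat_lit 8) (nat_lit 10) L11051 (by decide +kernel)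
theorem L11053 : W_2 (nat_lit 5) (nat_lit 0xc000780000001000080000000000000000000000000000000) (nat_lit 0x0) (nat_lit 0x40003800800006000200010000000000000000000000000000000) := T_2 (nat_lit 192) (nat_lit 191) (nat_lit 1) (nat_lit 8) (nat_lit 10) L11052 (by decide +kernel)
theorem L11061 : W_2 (nat_lit 2) (nat_lit 0xd0007800040013000a0000000000000000000000000000000) (nat_lit 0x0) (nat_lit 0x50001000000000000000000000000000) := D_2 (nat_lit 124) (nat_lit 108) (nat_lit 126) (nat_lit 6) (nat_lit 5) (nat_lit 10) (nat_lit 1) (nat_lit 8) (nat_lit 7) (by decide +kernel)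
theorem L11062 : W_2 (nat_lit 3) (nat_lit 0xd000780004001300080000000000000000000000000000000) (nat_lit 0x0) (nat_lit 0x400070001000000000000000000000000000) := T_2 (nat_lit 125) (nat_lit 142) (nat_lit 6) (nat_lit 5) (nat_lit 11) L11061 (by decide +kernel)
theorem L11063 : W_2 (nat_lit 4) (nat_lit 0xd000780004001200080000000000000000000000000000000) (nat_lit 0x0) (nat_lit 0x500078001000000000000000000000000000) := T_2 (nat_lit 140) (nat_lit 123) (nat_lit 4) (nat_lit 5) (nat_lit 11) L11062 (by decide +kernel)
theorem L11064 : W_2 (nat_lit 5) (nat_lit 0xd000780000001200080000000000000000000000000000000) (nat_lit 0x0) (nat_lit 0x6000500078001000000000000000000000000000) := T_2 (nat_lit 158) (nat_lit 157) (nat_lit 0) (nat_lit 8) (nat_lit 10) L11063 (by decide +kernel)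
theorem L11071 : W_2 (nat_lit 2) (nat_lit 0xd000780004001a00098000000000000000000000000000000) (nat_lit 0x0) (nat_lit 0x60001000000000000000000000000000) := D_2 (nat_lit 125) (nat_lit 126) (nat_lit 108) (nat_lit 3) (nat_lit 4) (nat_lit 7) (nat_lit 6) (nat_lit 5) (nat_lit 10) (by decide +kernel)
theorem L11072 : W_2 (nat_lit 3) (nat_lit 0xd000780004001a00088000000000000000000000000000000) (nat_lit 0x0) (nat_lit 0x70001400000000000000000000000000) := T_2 (nat_lit 124) (nat_lit 106) (nat_lit 4) (nat_lit 5) (nat_lit 10) L11071 (by decide +kernel)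
theorem L11073 : W_2 (nat_lit 4) (nat_lit 0xd000780004001a00080000000000000000000000000000000) (nat_lit 0x0) (nat_lit 0x100078001400000000000000000000000000) := T_2 (nat_lit 123) (nat_lit 140) (nat_lit 4) (nat_lit 5) (nat_lit 11) L11072 (by decide +kernel)
theorem L11074 : W_2 (nat_lit 5) (nat_lit 0xd000780000001a00080000000000000000000000000000000) (nat_lit 0x0) (nat_lit 0x6000100078001400000000000000000000000000) := T_2 (nat_lit 158) (nat_lit 157) (nat_lit 0) (nat_lit 8) (nat_lit 10) L11073 (by decide +kernel)
theorem L11080 : W_2 (nat_lit 2) (nat_lit 0xc0007800040012000f0000000000000000000000000000000) (nat_lit 0x0) (nat_lit 0x8000c00000000000000000000000000) := D_2 (nat_lit 106) (nat_lit 107) (nat_lit 123) (nat_lit 0) (nat_lit 8) (nat_lit 7) (nat_lit 4) (nat_lit 5) (nat_lit 10) (by decide +kernel)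
theorem L11081 : W_2 (nat_lit 3) (nat_lit 0xc0007800040012000b0000000000000000000000000000000) (nat_lit 0x0) (nat_lit 0x100048000c00000000000000000000000000) := T_2 (nat_lit 126) (nat_lit 140) (nat_lit 1) (nat_lit 8) (nat_lit 7) L11080 (by decide +kernel)
theorem L11082 : W_2 (nat_lit 4) (nat_lit 0xc000780004001200090000000000000000000000000000000) (nat_lit 0x0) (nat_lit 0x100068001c00000000000000000000000000) := T_2 (nat_lit 125) (nat_lit 108) (nat_lit 6) (nat_lit 5) (nat_lit 10) L11081 (by decide +kernel)
theorem L11083 : W_2 (nat_lit 5) (nat_lit 0xc000780004001200080000000000000000000000000000000) (nat_lit 0x0) (nat_lit 0x2000000000000100078001c00000000000000000000000000) := T_2 (nat_lit 124) (nat_lit 193) (nat_lit 7) (nat_lit 5) (nat_lit 7) L11082 (by decide +kernel)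
theorem L11084 : W_2 (nat_lit 6) (nat_lit 0xc000780000001200080000000000000000000000000000000) (nat_lit 0x0) (nat_lit 0x2000000006000100078001c00000000000000000000000000) := T_2 (nat_lit 158) (nat_lit 157) (nat_lit 0) (nat_lit 8) (nat_lit 10) L11083 (by decide +kernel)
theorem L11219 : W_2 (nat_lit 3) (nat_lit 0x200000003c001e00010001000080000000000000000000000000000000) (nat_lit 0x0) (nat_lit 0x100008000c00000000000040000000000000000000000000000000000000000) := T_2 (nat_lit 214) (nat_lit 215) (nat_lit 3) (nat_lit 7) (nat_lit 11) L11218 (by decide +kernel)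
theorem L11227 : W_2 (nat_lit 2) (nat_lit 0x1e000300010001000080000000000000000000000000000000) (nat_lit 0x0) (nat_lit 0x800060000000000000000000000000000000000000000000000000000) := D_2 (nat_lit 210) (nat_lit 209) (nat_lit 227) (nat_lit 1) (nat_lit 9) (nat_lit 11) (nat_lit 6) (nat_lit 6) (nat_lit 13) (by decide +kernel)
theorem L11228 : W_2 (nat_lit 3) (nat_lit 0x1e000200010001000080000000000000000000000000000000) (nat_lit 0x0) (nat_lit 0x800060000000180000000000000000000000000000000000000000000) := T_2 (nat_lit 176) (nat_lit 175) (nat_lit 0) (nat_lit 9) (nat_lit 11) L11227 (by decide +kernel)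
theorem L11229 : W_2 (nat_lit 4) (nat_lit 0x1e000200000001000080000000000000000000000000000000) (nat_lit 0x0) (nat_lit 0x800060000000180010000800000000000000000000000000000000000) := T_2 (nat_lit 160) (nat_lit 143) (nat_lit 6) (nat_lit 7) (nat_lit 11) L11228 (by decide +kernel)
theorem L11232 : W_2 (nat_lit 2) (nat_lit 0x200040003f001600010001000080000000000000000000000000000000) (nat_lit 0x0) (nat_lit 0x70000000000000000000000000000000000000000000000000000) := D_2 (nat_lit 209) (nat_lit 210) (nat_lit 208) (nat_lit 1) (nat_lit 9) (nat_lit 11) (nat_lit 1) (nat_lit 8) (nat_lit 11) (by decide +kernel)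
theorem L11233 : W_2 (nat_lit 3) (nat_lit 0x200040003e001600010001000080000000000000000000000000000000) (nat_lit 0x0) (nat_lit 0x70001800000000000000000000000000000000000000000000000) := T_2 (nat_lit 192) (nat_lit 191) (nat_lit 2) (nat_lit 4) (nat_lit 11) L11232 (by decide +kernel)
theorem L11234 : W_2 (nat_lit 4) (nat_lit 0x200040003c001600010001000080000000000000000000000000000000) (nat_lit 0x0) (nat_lit 0x270003800000000000000000000000000000000000000000000000) := T_2 (nat_lit 193) (nat_lit 213) (nat_lit 3) (nat_lit 6) (nat_lit 11) L11233 (by decide +kernel)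
theorem L11235 : W_2 (nat_lit 5) (nat_lit 0x200000003c001600010001000080000000000000000000000000000000) (nat_lit 0x0) (nat_lit 0xe70003800000000000000000000000000000000000000000000000) := T_2 (nat_lit 214) (nat_lit 215) (nat_lit 3) (nat_lit 7) (nat_lit 11) L11234 (by decide +kernel)
theorem L11236 : W_2 (nat_lit 6) (nat_lit 0x200000003c000600010001000080000000000000000000000000000000) (nat_lit 0x0) (nat_lit 0xe70003803000000000000000000000000000000000000000000000) := T_2 (nat_lit 180) (nat_lit 181) (nat_lit 2) (nat_lit 7) (nat_lit 11) L11235 (by decide +kernel)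
theorem L11237 : W_2 (nat_lit 7) (nat_lit 0x200000001c000600010001000080000000000000000000000000000000) (nat_lit 0x0) (nat_lit 0xe70063803000000000000000000000000000000000000000000000) := T_2 (nat_lit 197) (nat_lit 198) (nat_lit 0) (nat_lit 11) (nat_lit 11) L11236 (by decide +kernel)
theorem L11238 : W_2 (nat_lit 8) (nat_lit 0x1c000600010001000080000000000000000000000000000000) (nat_lit 0x0) (nat_lit 0x2000f70063803000000000000000000000000000000000000000000000) := T_2 (nat_lit 229) (nat_lit 212) (nat_lit 4) (nat_lit 8) (nat_lit 13) L11237 (by decide +kernel)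
theorem L11239 : W_2 (nat_lit 9) (nat_lit 0x1c000200010001000080000000000000000000000000000000) (nat_lit 0x0) (nat_lit 0x2000f70063803400020000000000000000000000000000000000000000) := T_2 (nat_lit 178) (nat_lit 161) (nat_lit 5) (nat_lit 8) (nat_lit 7) L11238 (by decide +kernel)
theorem L11240 : W_2 (nat_lit 10) (nat_lit 0x1c000200000001000080000000000000000000000000000000) (nat_lit 0x0) (nat_lit 0x2000f70063803400030000800000000000000000000000000000000000) := T_2 (nat_lit 160) (nat_lit 143) (nat_lit 6) (nat_lit 7) (nat_lit 11) L11239 (by decide +kernel)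
theorem L11244 : W_2 (nat_lit 2) (nat_lit 0x4001e000300020001000080000000000000000000000000000000) (nat_lit 0x0) (nat_lit 0x10000800000000000000010000000000000000000000000000000000000000) := D_2 (nat_lit 227) (nat_lit 160) (nat_lit 244) (nat_lit 6) (nat_lit 6) (nat_lit 13) (nat_lit 6) (nat_lit 6) (nat_lit 14) (by decide +kernel)
theorem L11245 : W_2 (nat_lit 3) (nat_lit 0x1e000300020001000080000000000000000000000000000000) (nat_lit 0x0) (nat_lit 0x10000800060000000000010000000000000000000000000000000000000000) := T_2 (nat_lit 210) (nat_lit 209) (nat_lit 1) (nat_lit 9) (nat_lit 11) L11244 (by decide +kernel)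
theorem L11246 : W_2 (nat_lit 4) (nat_lit 0xe000300020001000080000000000000000000000000000000) (nat_lit 0x0) (nat_lit 0x10000800060030000000010000000000000000000000000000000000000000) := T_2 (nat_lit 196) (nat_lit 197) (nat_lit 0) (nat_lit 10) (nat_lit 11) L11245 (by decide +kernel)
theorem L11247 : W_2 (nat_lit 5) (nat_lit 0xe000300000001000080000000000000000000000000000000) (nat_lit 0x0) (nat_lit 0x10000800060030000400030000000000000000000000000000000000000000) := T_2 (nat_lit 161) (nat_lit 178) (nat_lit 5) (nat_lit 8) (nat_lit 7) L11246 (by decide +kernel)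
theorem L11256 : W_2 (nat_lit 2) (nat_lit 0x780004001e00080000000000000000000000000000000) (nat_lit 0x0) (nat_lit 0x2000000000000000018000000000000000000000000000000) := D_2 (nat_lit 124) (nat_lit 123) (nat_lit 193) (nat_lit 0) (nat_lit 8) (nat_lit 8) (nat_lit 7) (nat_lit 5) (nat_lit 7) (by decide +kernel)
theorem L11311 : W_2 (nat_lit 2) (nat_lit 0x800780002001000080000000000000000000000000000000) (nat_lit 0x0) (nat_lit 0x400040001000000000000000000000000000000000000000) := D_2 (nat_lit 174) (nat_lit 190) (nat_lit 156) (nat_lit 1) (nat_lit 7) (nat_lit 10) (nat_lit 0) (nat_lit 7) (nat_lit 10) (by decide +kernel)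
theorem L11312 : W_2 (nat_lit 3) (nat_lit 0x800780000001000080000000000000000000000000000000) (nat_lit 0x0) (nat_lit 0x400040007000000000000000000000000000000000000000) := T_2 (nat_lit 157) (nat_lit 158) (nat_lit 0) (nat_lit 8) (nat_lit 10) L11311 (by decide +kernel)
theorem L11313 : W_2 (nat_lit 4) (nat_lit 0x780000001000080000000000000000000000000000000) (nat_lit 0x0) (nat_lit 0x1c00040007000000000000000000000000000000000000000) := T_2 (nat_lit 191) (nat_lit 192) (nat_lit 1) (nat_lit 8) (nat_lit 10) L11312 (by decide +kernel)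
theorem L11374 : W_2 (nat_lit 2) (nat_lit 0x20000f00088001000080000000000000000000000000000000) (nat_lit 0x0) (nat_lit 0x40001000100000000000000000000000000000000000000000) := D_2 (nat_lit 180) (nat_lit 164) (nat_lit 198) (nat_lit 2) (nat_lit 7) (nat_lit 10) (nat_lit 3) (nat_lit 7) (nat_lit 10) (by decide +kernel)
theorem L11375 : W_2 (nat_lit 3) (nat_lit 0xf00088001000080000000000000000000000000000000) (nat_lit 0x0) (nat_lit 0x70001000100000000000000000000000000000000000000000) := T_2 (nat_lit 197) (nat_lit 196) (nat_lit 3) (nat_lit 6) (nat_lit 10) L11374 (by decide +kernel)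
theorem L11376 : W_2 (nat_lit 4) (nat_lit 0xf00008001000080000000000000000000000000000000) (nat_lit 0x0) (nat_lit 0x700010001c0000000000000000000000000000000000000000) := T_2 (nat_lit 163) (nat_lit 162) (nat_lit 2) (nat_lit 6) (nat_lit 10) L11375 (by decide +kernel)
theorem L11377 : W_2 (nat_lit 5) (nat_lit 0xf00000001000080000000000000000000000000000000) (nat_lit 0x0) (nat_lit 0x700010001cc000000000000000000000000000000000000000) := T_2 (nat_lit 159) (nat_lit 158) (nat_lit 0) (nat_lit 9) (nat_lit 10) L11376 (by decide +kernel)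
theorem L11382 : W_2 (nat_lit 2) (nat_lit 0x2001f00008001000080000000000000000000000000000000) (nat_lit 0x0) (nat_lit 0x70000000000000000000000000000000000000000000000000) := D_2 (nat_lit 197) (nat_lit 196) (nat_lit 198) (nat_lit 3) (nat_lit 6) (nat_lit 10) (nat_lit 3) (nat_lit 7) (nat_lit 10) (by decide +kernel)
theorem L11429 : W_2 (nat_lit 2) (nat_lit 0x10000f80040001000080000000000000000000000000000000) (nat_lit 0x0) (nat_lit 0xe000000000000000000000000000000000000000) := D_2 (nat_lit 158) (nat_lit 157) (nat_lit 159) (nat_lit 0) (nat_lit 8) (nat_lit 10) (nat_lit 0) (nat_lit 9) (nat_lit 10) (by decide +kernel)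
theorem L11430 : W_2 (nat_lit 3) (nat_lit 0x10000f00040001000080000000000000000000000000000000) (nat_lit 0x0) (nat_lit 0x800008000e000000000000000000000000000000000000000) := T_2 (nat_lit 175) (nat_lit 195) (nat_lit 3) (nat_lit 5) (nat_lit 10) L11429 (by decide +kernel)
theorem L11431 : W_2 (nat_lit 4) (nat_lit 0xf00040001000080000000000000000000000000000000) (nat_lit 0x0) (nat_lit 0x3800008000e000000000000000000000000000000000000000) := T_2 (nat_lit 196) (nat_lit 197) (nat_lit 3) (nat_lit 6) (nat_lit 10) L11430 (by decide +kernel)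
theorem L11432 : W_2 (nat_lit 5) (nat_lit 0xf00000001000080000000000000000000000000000000) (nat_lit 0x0) (nat_lit 0x380000800ce000000000000000000000000000000000000000) := T_2 (nat_lit 162) (nat_lit 163) (nat_lit 2) (nat_lit 6) (nat_lit 10) L11431 (by decide +kernel)
theorem L11462 : W_2 (nat_lit 2) (nat_lit 0x7800200010000c0000000000000000000000000000000) (nat_lit 0x0) (nat_lit 0x18000800000000000000000000000000000000000000000000) := D_2 (nat_lit 196) (nat_lit 179) (nat_lit 195) (nat_lit 7) (nat_lit 8) (nat_lit 7) (nat_lit 3) (nat_lit 5) (nat_lit 10) (by decide +kernel)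
theorem L11463 : W_2 (nat_lit 3) (nat_lit 0x7000200010000c0000000000000000000000000000000) (nat_lit 0x0) (nat_lit 0x18000880040000000000000000000000000000000000000000) := T_2 (nat_lit 175) (nat_lit 162) (nat_lit 2) (nat_lit 5) (nat_lit 10) L11462 (by decide +kernel)
theorem L11464 : W_2 (nat_lit 4) (nat_lit 0x700020001000080000000000000000000000000000000) (nat_lit 0x0) (nat_lit 0x18000880040000000040002000000000000000000000000000) := T_2 (nat_lit 126) (nat_lit 109) (nat_lit 4) (nat_lit 8) (nat_lit 10) L11463 (by decide +kernel)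
theorem L11465 : W_2 (nat_lit 2) (nat_lit 0x780020001000080000000000000000000000000000000) (nat_lit 0x0) (nat_lit 0x18000800000000000000000000000000000000000000000000) := D_2 (nat_lit 196) (nat_lit 179) (nat_lit 195) (nat_lit 7) (nat_lit 8) (nat_lit 7) (nat_lit 3) (nat_lit 5) (nat_lit 10) (by decide +kernel)
theorem L11466 : W_2 (nat_lit 3) (nat_lit 0x700020001000080000000000000000000000000000000) (nat_lit 0x0) (nat_lit 0x18000880040000000000000000000000000000000000000000) := T_2 (nat_lit 175) (nat_lit 162) (nat_lit 2) (nat_lit 5) (nat_lit 10) L11465 (by decide +kernel)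
theorem L11486 : W_2 (nat_lit 2) (nat_lit 0x42003f002280010001c0000000000000000000000000000000) (nat_lit 0x0) (nat_lit 0x4000440000000000000000000000000000000000000000) := D_2 (nat_lit 182) (nat_lit 162) (nat_lit 166) (nat_lit 0) (nat_lit 12) (nat_lit 10) (nat_lit 2) (nat_lit 9) (nat_lit 10) (by decide +kernel)
theorem L11487 : W_2 (nat_lit 3) (nat_lit 0x42003f000280010001c0000000000000000000000000000000) (nat_lit 0x0) (nat_lit 0x4000740000000000000000000000000000000000000000) := T_2 (nat_lit 165) (nat_lit 164) (nat_lit 2) (nat_lit 8) (nat_lit 10) L11486 (by decide +kernel)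
theorem L11488 : W_2 (nat_lit 4) (nat_lit 0x42001f000280010001c0000000000000000000000000000000) (nat_lit 0x0) (nat_lit 0x80006000740000000000000000000000000000000000000000) := T_2 (nat_lit 181) (nat_lit 199) (nat_lit 3) (nat_lit 8) (nat_lit 10) L11487 (by decide +kernel)
theorem L11489 : W_2 (nat_lit 5) (nat_lit 0x2001f000280010001c0000000000000000000000000000000) (nat_lit 0x0) (nat_lit 0xe0006000740000000000000000000000000000000000000000) := T_2 (nat_lit 198) (nat_lit 197) (nat_lit 3) (nat_lit 7) (nat_lit 10) L11488 (by decide +kernel)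
theorem L11525 : W_2 (nat_lit 2) (nat_lit 0xe00160009000780020000000000000000000000000000) (nat_lit 0x0) (nat_lit 0x2000000000000000010000800000000000000000000000) := D_2 (nat_lit 112) (nat_lit 181) (nat_lit 95) (nat_lit 4) (nat_lit 11) (nat_lit 10) (nat_lit 4) (nat_lit 11) (nat_lit 9) (by decide +kernel)
theorem L11574 : W_2 (nat_lit 2) (nat_lit 0x2000f000680014001c0000000000000000000000000000000) (nat_lit 0x0) (nat_lit 0x200030000000000000000000000000000000) := D_2 (nat_lit 141) (nat_lit 124) (nat_lit 125) (nat_lit 4) (nat_lit 6) (nat_lit 11) (nat_lit 1) (nat_lit 9) (nat_lit 7) (by decide +kernel)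
theorem L11575 : W_2 (nat_lit 3) (nat_lit 0x2000f000680010001c0000000000000000000000000000000) (nat_lit 0x0) (nat_lit 0xe00030000000000000000000000000000000) := T_2 (nat_lit 142) (nat_lit 143) (nat_lit 6) (nat_lit 6) (nat_lit 11) L11574 (by decide +kernel)
theorem L11576 : W_2 (nat_lit 4) (nat_lit 0x2000f000680010000c0000000000000000000000000000000) (nat_lit 0x0) (nat_lit 0xe00130008000000000000000000000000000) := T_2 (nat_lit 128) (nat_lit 111) (nat_lit 6) (nat_lit 8) (nat_lit 10) L11575 (by decide +kernel)
theorem L11819 : W_2 (nat_lit 2) (nat_lit 0x380008002c000300000001000080000000000000000000000000000000) (nat_lit 0x0) (nat_lit 0x40000000000010000800000000000000000000000000000000000) := D_2 (nat_lit 160) (nat_lit 210) (nat_lit 143) (nat_lit 5) (nat_lit 7) (nat_lit 9) (nat_lit 6) (nat_lit 7) (nat_lit 11) (by decide +kernel)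
theorem L11820 : W_2 (nat_lit 3) (nat_lit 0x300008002c000300000001000080000000000000000000000000000000) (nat_lit 0x0) (nat_lit 0x10000800040000000000010000800000000000000000000000000000000000) := T_2 (nat_lit 227) (nat_lit 244) (nat_lit 5) (nat_lit 7) (nat_lit 10) L11819 (by decide +kernel)
theorem L11821 : W_2 (nat_lit 4) (nat_lit 0x100008002c000300000001000080000000000000000000000000000000) (nat_lit 0x0) (nat_lit 0x50002800040000000000010000800000000000000000000000000000000000) := T_2 (nat_lit 229) (nat_lit 246) (nat_lit 7) (nat_lit 7) (nat_lit 10) L11820 (by decide +kernel)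
theorem L11822 : W_2 (nat_lit 5) (nat_lit 0x100008000c000300000001000080000000000000000000000000000000) (nat_lit 0x0) (nat_lit 0x50002800040030000000010000800000000000000000000000000000000000) := T_2 (nat_lit 197) (nat_lit 196) (nat_lit 0) (nat_lit 10) (nat_lit 11) L11821 (by decide +kernel)
theorem L11823 : W_2 (nat_lit 6) (nat_lit 0x8000c000300000001000080000000000000000000000000000000) (nat_lit 0x0) (nat_lit 0x50003800040030000000018000800000000000000000000000000000000000) := T_2 (nat_lit 228) (nat_lit 159) (nat_lit 4) (nat_lit 7) (nat_lit 13) L11822 (by decide +kernel)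
theorem L11887 : W_2 (nat_lit 2) (nat_lit 0x2800080004000300010001000080000000000000000000000000000000) (nat_lit 0x0) (nat_lit 0x50001000000000000000000000000000000000000000000000000000000000) := D_2 (nat_lit 228) (nat_lit 244) (nat_lit 246) (nat_lit 5) (nat_lit 7) (nat_lit 10) (nat_lit 7) (nat_lit 7) (nat_lit 10) (by decide +kernel)
theorem L11888 : W_2 (nat_lit 3) (nat_lit 0x800080004000300010001000080000000000000000000000000000000) (nat_lit 0x0) (nat_lit 0x50003000100000000000000000000000000000000000000000000000000000) := T_2 (nat_lit 229) (nat_lit 212) (nat_lit 7) (nat_lit 7) (nat_lit 9) L11887 (by decide +kernel)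
theorem L11889 : W_2 (nat_lit 4) (nat_lit 0x80004000300010001000080000000000000000000000000000000) (nat_lit 0x0) (nat_lit 0x50003800140000000000000000000000000000000000000000000000000000) := T_2 (nat_lit 227) (nat_lit 210) (nat_lit 5) (nat_lit 7) (nat_lit 9) L11888 (by decide +kernel)
theorem L11890 : W_2 (nat_lit 5) (nat_lit 0x80004000300000001000080000000000000000000000000000000) (nat_lit 0x0) (nat_lit 0x50003800140000000000010000800000000000000000000000000000000000) := T_2 (nat_lit 160) (nat_lit 143) (nat_lit 6) (nat_lit 7) (nat_lit 11) L11889 (by decide +kernel)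
theorem L11922 : W_2 (nat_lit 2) (nat_lit 0x20001000080004000300000001000080000000000000000000000000000000) (nat_lit 0x0) (nat_lit 0x800040002000000000000000000000000000000000000000000000000000000000) := D_2 (nat_lit 246) (nat_lit 229) (nat_lit 263) (nat_lit 7) (nat_lit 7) (nat_lit 10) (nat_lit 7) (nat_lit 7) (nat_lit 11) (by decide +kernel)
theorem L11923 : W_2 (nat_lit 3) (nat_lit 0x1000080004000300000001000080000000000000000000000000000000) (nat_lit 0x0) (nat_lit 0x800060002000000002000000000000000000000000000000000000000000000000) := T_2 (nat_lit 245) (nat_lit 193) (nat_lit 4) (nat_lit 7) (nat_lit 14) L11922 (by decide +kernel)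
theorem L11924 : W_2 (nat_lit 4) (nat_lit 0x80004000300000001000080000000000000000000000000000000) (nat_lit 0x0) (nat_lit 0x800060003000000002000000008000000000000000000000000000000000000000) := T_2 (nat_lit 228) (nat_lit 159) (nat_lit 4) (nat_lit 7) (nat_lit 13) L11923 (by decide +kernel)
theorem L11953 : W_2 (nat_lit 2) (nat_lit 0x180018002c000300010001000080000000000000000000000000000000) (nat_lit 0x0) (nat_lit 0x400020000000000000000400000000000000000000000000000000000000000000) := D_2 (nat_lit 245) (nat_lit 178) (nat_lit 262) (nat_lit 6) (nat_lit 7) (nat_lit 14) (nat_lit 6) (nat_lit 7) (nat_lit 15) (by decide +kernel)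
theorem L11954 : W_2 (nat_lit 3) (nat_lit 0x80018002c000300010001000080000000000000000000000000000000) (nat_lit 0x0) (nat_lit 0x400030001000000000000400000000000000000000000000000000000000000000) := T_2 (nat_lit 228) (nat_lit 244) (nat_lit 5) (nat_lit 7) (nat_lit 10) L11953 (by decide +kernel)
theorem L11996 : W_2 (nat_lit 2) (nat_lit 0x180018000c000340010001000080000000000000000000000000000000) (nat_lit 0x0) (nat_lit 0x400020000000000000000400000000000000000000000000000000000000000000) := D_2 (nat_lit 245) (nat_lit 178) (nat_lit 262) (nat_lit 6) (nat_lit 7) (nat_lit 14) (nat_lit 6) (nat_lit 7) (nat_lit 15) (by decide +kernel)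
theorem L11997 : W_2 (nat_lit 3) (nat_lit 0x80018000c000340010001000080000000000000000000000000000000) (nat_lit 0x0) (nat_lit 0x400030001000000000000400000000000000000000000000000000000000000000) := T_2 (nat_lit 228) (nat_lit 244) (nat_lit 5) (nat_lit 7) (nat_lit 10) L11996 (by decide +kernel)
theorem L12266 : W_2 (nat_lit 2) (nat_lit 0x5e000600030001d001000080000000000000000000000000000000) (nat_lit 0x0) (nat_lit 0x18008000000000000000000000000000000000000000000000000) := D_2 (nat_lit 208) (nat_lit 195) (nat_lit 207) (nat_lit 2) (nat_lit 4) (nat_lit 12) (nat_lit 2) (nat_lit 3) (nat_lit 12) (by decide +kernel)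
theorem L12267 : W_2 (nat_lit 3) (nat_lit 0x5c000600030001d001000080000000000000000000000000000000) (nat_lit 0x0) (nat_lit 0x400038008000000000000000000000000000000000000000000000000) := T_2 (nat_lit 209) (nat_lit 226) (nat_lit 5) (nat_lit 6) (nat_lit 9) L12266 (by decide +kernel)
theorem L12490 : W_2 (nat_lit 2) (nat_lit 0x300000001f00080000000000000000000000000000000) (nat_lit 0x0) (nat_lit 0x7000000000000000000000000000000000000000) := D_2 (nat_lit 157) (nat_lit 156) (nat_lit 158) (nat_lit 1) (nat_lit 7) (nat_lit 8) (nat_lit 1) (nat_lit 8) (nat_lit 8) (by decide +kernel)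
theorem L12491 : W_2 (nat_lit 3) (nat_lit 0x300000001e00080000000000000000000000000000000) (nat_lit 0x0) (nat_lit 0x7000100040000000000000000000000000000000) := T_2 (nat_lit 140) (nat_lit 126) (nat_lit 2) (nat_lit 4) (nat_lit 8) L12490 (by decide +kernel)
theorem L12492 : W_2 (nat_lit 4) (nat_lit 0x300000001c00080000000000000000000000000000000) (nat_lit 0x0) (nat_lit 0x7000300140000000000000000000000000000000) := T_2 (nat_lit 141) (nat_lit 128) (nat_lit 2) (nat_lit 5) (nat_lit 8) L12491 (by decide +kernel)
theorem L12493 : W_2 (nat_lit 2) (nat_lit 0x300004001e00090000000000000000000000000000000) (nat_lit 0x0) (nat_lit 0x2000080008000000000000000000000000000000000000000) := D_2 (nat_lit 193) (nat_lit 159) (nat_lit 175) (nat_lit 4) (nat_lit 6) (nat_lit 11) (nat_lit 7) (nat_lit 5) (nat_lit 7) (by decide +kernel)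
theorem L12494 : W_2 (nat_lit 3) (nat_lit 0x300004001e00080000000000000000000000000000000) (nat_lit 0x0) (nat_lit 0x2000080008000000018000000000000000000000000000000) := T_2 (nat_lit 124) (nat_lit 123) (nat_lit 0) (nat_lit 8) (nat_lit 8) L12493 (by decide +kernel)
theorem L12495 : W_2 (nat_lit 4) (nat_lit 0x300000001e00080000000000000000000000000000000) (nat_lit 0x0) (nat_lit 0x200008000e000000018000000000000000000000000000000) := T_2 (nat_lit 158) (nat_lit 157) (nat_lit 1) (nat_lit 8) (nat_lit 8) L12494 (by decide +kernel)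
theorem L12496 : W_2 (nat_lit 5) (nat_lit 0x300000001c00080000000000000000000000000000000) (nat_lit 0x0) (nat_lit 0x200008000e000200118000000000000000000000000000000) := T_2 (nat_lit 141) (nat_lit 128) (nat_lit 2) (nat_lit 5) (nat_lit 8) L12495 (by decide +kernel)
theorem L12497 : W_2 (nat_lit 2) (nat_lit 0x2000300008001c00080000000000000000000000000000000) (nat_lit 0x0) (nat_lit 0x80004000000000000000020000000000000000000000000000000) := D_2 (nat_lit 194) (nat_lit 125) (nat_lit 211) (nat_lit 7) (nat_lit 6) (nat_lit 7) (nat_lit 7) (nat_lit 6) (nat_lit 8) (by decide +kernel)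
theorem L12498 : W_2 (nat_lit 3) (nat_lit 0x300008001c00080000000000000000000000000000000) (nat_lit 0x0) (nat_lit 0x80006000000000000000060000000000000000000000000000000) := T_2 (nat_lit 193) (nat_lit 126) (nat_lit 6) (nat_lit 6) (nat_lit 11) L12497 (by decide +kernel)
theorem L12499 : W_2 (nat_lit 2) (nat_lit 0x3000300008001c000a0000000000000000000000000000000) (nat_lit 0x0) (nat_lit 0x200010000800000000000000000000000000) := D_2 (nat_lit 124) (nat_lit 107) (nat_lit 141) (nat_lit 4) (nat_lit 6) (nat_lit 10) (nat_lit 4) (nat_lit 6) (nat_lit 11) (by decide +kernel)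
theorem L12500 : W_2 (nat_lit 3) (nat_lit 0x3000300008001c00080000000000000000000000000000000) (nat_lit 0x0) (nat_lit 0x80000000200030000800000000000000000000000000) := T_2 (nat_lit 125) (nat_lit 175) (nat_lit 5) (nat_lit 6) (nat_lit 7) L12499 (by decide +kernel)
theorem L12501 : W_2 (nat_lit 4) (nat_lit 0x2000300008001c00080000000000000000000000000000000) (nat_lit 0x0) (nat_lit 0x20001000080000000200030000800000000000000000000000000) := T_2 (nat_lit 192) (nat_lit 209) (nat_lit 5) (nat_lit 6) (nat_lit 8) L12500 (by decide +kernel)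
theorem L12502 : W_2 (nat_lit 5) (nat_lit 0x300008001c00080000000000000000000000000000000) (nat_lit 0x0) (nat_lit 0x20003000080000000200070000800000000000000000000000000) := T_2 (nat_lit 193) (nat_lit 126) (nat_lit 6) (nat_lit 6) (nat_lit 11) L12501 (by decide +kernel)
theorem L12503 : W_2 (nat_lit 2) (nat_lit 0x300008001c000e0000000000000000000000000000000) (nat_lit 0x0) (nat_lit 0x18000800000000000000000000000000) := D_2 (nat_lit 124) (nat_lit 123) (nat_lit 107) (nat_lit 3) (nat_lit 4) (nat_lit 7) (nat_lit 4) (nat_lit 6) (nat_lit 10) (by decide +kernel)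
theorem L12504 : W_2 (nat_lit 3) (nat_lit 0x300008001c000a0000000000000000000000000000000) (nat_lit 0x0) (nat_lit 0x58002800000000000000000000000000) := T_2 (nat_lit 126) (nat_lit 109) (nat_lit 6) (nat_lit 6) (nat_lit 10) L12503 (by decide +kernel)
theorem L12505 : W_2 (nat_lit 4) (nat_lit 0x300008001c00080000000000000000000000000000000) (nat_lit 0x0) (nat_lit 0x4000000000000000078002800000000000000000000000000) := T_2 (nat_lit 125) (nat_lit 194) (nat_lit 7) (nat_lit 6) (nat_lit 7) L12504 (by decide +kernel)
theorem L12512 : W_2 (nat_lit 2) (nat_lit 0x380008001c000a0001000000000000000000000000000) (nat_lit 0x0) (nat_lit 0x10000800040000000000000000000000) := D_2 (nat_lit 107) (nat_lit 90) (nat_lit 124) (nat_lit 4) (nat_lit 6) (nat_lit 9) (nat_lit 4) (nat_lit 6) (nat_lit 10) (by decide +kernel)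
theorem L12513 : W_2 (nat_lit 3) (nat_lit 0x380008001c000a0000000000000000000000000000000) (nat_lit 0x0) (nat_lit 0x4000000010001800040000000000000000000000) := T_2 (nat_lit 108) (nat_lit 158) (nat_lit 5) (nat_lit 6) (nat_lit 6) L12512 (by decide +kernel)
theorem L12514 : W_2 (nat_lit 4) (nat_lit 0x300008001c000a0000000000000000000000000000000) (nat_lit 0x0) (nat_lit 0x1000080004000000010001800040000000000000000000000) := T_2 (nat_lit 175) (nat_lit 192) (nat_lit 5) (nat_lit 6) (nat_lit 7) L12513 (by decide +kernel)
theorem L12515 : W_2 (nat_lit 5) (nat_lit 0x300008001c00080000000000000000000000000000000) (nat_lit 0x0) (nat_lit 0x5000080004000000030001800040000000000000000000000) := T_2 (nat_lit 125) (nat_lit 194) (nat_lit 7) (nat_lit 6) (nat_lit 7) L12514 (by decide +kernel)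
theorem L12517 : W_2 (nat_lit 2) (nat_lit 0x300000001f00080000000000000000000000000000000) (nat_lit 0x0) (nat_lit 0x1c000000000000000000000000000000) := D_2 (nat_lit 123) (nat_lit 124) (nat_lit 122) (nat_lit 0) (nat_lit 8) (nat_lit 8) (nat_lit 0) (nat_lit 7) (nat_lit 8) (by decide +kernel)
theorem L12518 : W_2 (nat_lit 3) (nat_lit 0x300000001e00080000000000000000000000000000000) (nat_lit 0x0) (nat_lit 0x10005c000000000000000000000000000000) := T_2 (nat_lit 140) (nat_lit 126) (nat_lit 2) (nat_lit 4) (nat_lit 8) L12517 (by decide +kernel)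
theorem L12519 : W_2 (nat_lit 4) (nat_lit 0x300000001c00080000000000000000000000000000000) (nat_lit 0x0) (nat_lit 0x30015c000000000000000000000000000000) := T_2 (nat_lit 141) (nat_lit 128) (nat_lit 2) (nat_lit 5) (nat_lit 8) L12518 (by decide +kernel)
theorem L12520 : W_2 (nat_lit 2) (nat_lit 0x300008001c000c0000000000000000000000000000000) (nat_lit 0x0) (nat_lit 0x20002000100000000000000000000000) := D_2 (nat_lit 109) (nat_lit 125) (nat_lit 92) (nat_lit 6) (nat_lit 6) (nat_lit 10) (nat_lit 5) (nat_lit 7) (nat_lit 5) (by decide +kernel)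
theorem L12521 : W_2 (nat_lit 3) (nat_lit 0x300008001c00080000000000000000000000000000000) (nat_lit 0x0) (nat_lit 0x2000000000000000060002000100000000000000000000000) := T_2 (nat_lit 126) (nat_lit 193) (nat_lit 6) (nat_lit 6) (nat_lit 11) L12520 (by decide +kernel)
theorem L12522 : W_2 (nat_lit 7) (nat_lit 0x3800300008001c00080000000000000000000000000000000) (nat_lit 0x0) (nat_lit 0x79803c0000e0000000000000000000000000000000000000000000) := T_2 (nat_lit 194) (nat_lit 211) (nat_lit 7) (nat_lit 6) (nat_lit 8) L8134 (by decide +kernel)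
theorem L12523 : W_2 (nat_lit 8) (nat_lit 0x3000300008001c00080000000000000000000000000000000) (nat_lit 0x0) (nat_lit 0x79803cc000e0000000000000000000000000000000000000000000) := T_2 (nat_lit 191) (nat_lit 190) (nat_lit 2) (nat_lit 3) (nat_lit 11) L12522 (by decide +kernel)
theorem L12524 : W_2 (nat_lit 9) (nat_lit 0x2000300008001c00080000000000000000000000000000000) (nat_lit 0x0) (nat_lit 0x7b803dc000e0000000000000000000000000000000000000000000) := T_2 (nat_lit 192) (nat_lit 209) (nat_lit 5) (nat_lit 6) (nat_lit 8) L12523 (by decide +kernel)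
theorem L12525 : W_2 (nat_lit 10) (nat_lit 0x300008001c00080000000000000000000000000000000) (nat_lit 0x0) (nat_lit 0x7b803fc000e0000000000040000000000000000000000000000000) := T_2 (nat_lit 193) (nat_lit 126) (nat_lit 6) (nat_lit 6) (nat_lit 11) L12524 (by decide +kernel)
theorem L12528 : W_2 (nat_lit 2) (nat_lit 0x300010001a001f0010800000000000000000000000000) (nat_lit 0x0) (nat_lit 0x600020000000000000000000000000000) := D_2 (nat_lit 129) (nat_lit 130) (nat_lit 113) (nat_lit 1) (nat_lit 11) (nat_lit 7) (nat_lit 2) (nat_lit 7) (nat_lit 7) (by decide +kernel)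
theorem L12529 : W_2 (nat_lit 3) (nat_lit 0x300010001a001f0000800000000000000000000000000) (nat_lit 0x0) (nat_lit 0x600038000000000000000000000000000) := T_2 (nat_lit 112) (nat_lit 111) (nat_lit 2) (nat_lit 6) (nat_lit 7) L12528 (by decide +kernel)
theorem L12530 : W_2 (nat_lit 4) (nat_lit 0x300010001a000f0000800000000000000000000000000) (nat_lit 0x0) (nat_lit 0x400700038000000000000000000000000000) := T_2 (nat_lit 128) (nat_lit 142) (nat_lit 2) (nat_lit 5) (nat_lit 8) L12529 (by decide +kernel)
theorem L12531 : W_2 (nat_lit 5) (nat_lit 0x300010001a000f0000000000000000000000000000000) (nat_lit 0x0) (nat_lit 0x400700038c00000000000000000000000000) := T_2 (nat_lit 107) (nat_lit 106) (nat_lit 0) (nat_lit 8) (nat_lit 7) L12530 (by decide +kernel)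
theorem L12532 : W_2 (nat_lit 6) (nat_lit 0x3000100018000f0000000000000000000000000000000) (nat_lit 0x0) (nat_lit 0x700700038c00000000000000000000000000) := T_2 (nat_lit 141) (nat_lit 140) (nat_lit 1) (nat_lit 8) (nat_lit 7) L12531 (by decide +kernel)
theorem L12533 : W_2 (nat_lit 7) (nat_lit 0x3000100018000e0000000000000000000000000000000) (nat_lit 0x0) (nat_lit 0x700718038c00000000000000000000000000) := T_2 (nat_lit 124) (nat_lit 123) (nat_lit 3) (nat_lit 4) (nat_lit 7) L12532 (by decide +kernel)
theorem L12534 : W_2 (nat_lit 8) (nat_lit 0x3000100018000c0000000000000000000000000000000) (nat_lit 0x0) (nat_lit 0x700738039c00000000000000000000000000) := T_2 (nat_lit 125) (nat_lit 108) (nat_lit 4) (nat_lit 7) (nat_lit 10) L12533 (by decide +kernel)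
theorem L12535 : W_2 (nat_lit 9) (nat_lit 0x300010001800080000000000000000000000000000000) (nat_lit 0x0) (nat_lit 0x2000000000000700778039c00000000000000000000000000) := T_2 (nat_lit 126) (nat_lit 193) (nat_lit 5) (nat_lit 7) (nat_lit 7) L12534 (by decide +kernel)
theorem L12536 : W_2 (nat_lit 10) (nat_lit 0x300000001800080000000000000000000000000000000) (nat_lit 0x0) (nat_lit 0x6000000010000700778039c00000000000000000000000000) := T_2 (nat_lit 160) (nat_lit 194) (nat_lit 6) (nat_lit 7) (nat_lit 11) L12535 (by decide +kernel)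
theorem L12537 : W_2 (nat_lit 9) (nat_lit 0x3000000018000c0000000000000000000000000000000) (nat_lit 0x0) (nat_lit 0x2000000010000700738039c00000000000000000000000000) := T_2 (nat_lit 160) (nat_lit 193) (nat_lit 5) (nat_lit 7) (nat_lit 7) L12534 (by decide +kernel)
theorem L12555 : W_2 (nat_lit 2) (nat_lit 0x3000100018000c0002000080000000000000000000000) (nat_lit 0x0) (nat_lit 0x10000c000000000000000000) := D_2 (nat_lit 92) (nat_lit 75) (nat_lit 74) (nat_lit 7) (nat_lit 7) (nat_lit 4) (nat_lit 4) (nat_lit 7) (nat_lit 8) (by decide +kernel)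
theorem L12556 : W_2 (nat_lit 3) (nat_lit 0x3000100018000c0002000000000000000000000000000) (nat_lit 0x0) (nat_lit 0x100018000c000000000000000000) := T_2 (nat_lit 91) (nat_lit 108) (nat_lit 4) (nat_lit 7) (nat_lit 9) L12555 (by decide +kernel)
theorem L12557 : W_2 (nat_lit 4) (nat_lit 0x3000100018000c0000000000000000000000000000000) (nat_lit 0x0) (nat_lit 0x800000000000300018000c000000000000000000) := T_2 (nat_lit 109) (nat_lit 159) (nat_lit 5) (nat_lit 7) (nat_lit 6) L12556 (by decide +kernel)
theorem L12558 : W_2 (nat_lit 5) (nat_lit 0x3000000018000c0000000000000000000000000000000) (nat_lit 0x0) (nat_lit 0x200000001800000000000300018000c000000000000000000) := T_2 (nat_lit 160) (nat_lit 193) (nat_lit 5) (nat_lit 7) (nat_lit 7) L12557 (by decide +kernel)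
theorem L12559 : W_2 (nat_lit 2) (nat_lit 0x300000001c000c0000000000000000000000000000000) (nat_lit 0x0) (nat_lit 0x200300000000000000000000000000000000) := D_2 (nat_lit 128) (nat_lit 129) (nat_lit 141) (nat_lit 1) (nat_lit 10) (nat_lit 7) (nat_lit 2) (nat_lit 5) (nat_lit 8) (by decide +kernel)
theorem L12560 : W_2 (nat_lit 2) (nat_lit 0x2000300004001e000c0000000000000000000000000000000) (nat_lit 0x0) (nat_lit 0x80000000000018000000000000000000000000000000) := D_2 (nat_lit 124) (nat_lit 123) (nat_lit 175) (nat_lit 0) (nat_lit 8) (nat_lit 8) (nat_lit 7) (nat_lit 5) (nat_lit 7) (by decide +kernel)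
theorem L12561 : W_2 (nat_lit 3) (nat_lit 0x2000300000001e000c0000000000000000000000000000000) (nat_lit 0x0) (nat_lit 0x80006000000018000000000000000000000000000000) := T_2 (nat_lit 158) (nat_lit 157) (nat_lit 1) (nat_lit 8) (nat_lit 8) L12560 (by decide +kernel)
theorem L12562 : W_2 (nat_lit 4) (nat_lit 0x2000300000001c000c0000000000000000000000000000000) (nat_lit 0x0) (nat_lit 0x80006000300018000000000000000000000000000000) := T_2 (nat_lit 141) (nat_lit 140) (nat_lit 2) (nat_lit 4) (nat_lit 8) L12561 (by decide +kernel)
theorem L12563 : W_2 (nat_lit 5) (nat_lit 0x300000001c000c0000000000000000000000000000000) (nat_lit 0x0) (nat_lit 0x200008000e000300018000000000000000000000000000000) := T_2 (nat_lit 193) (nat_lit 159) (nat_lit 6) (nat_lit 6) (nat_lit 11) L12562 (by decide +kernel)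
theorem L12564 : W_2 (nat_lit 2) (nat_lit 0x300008001c002c0000000000000000000000000000000) (nat_lit 0x0) (nat_lit 0x20002000100000000000000000000000) := D_2 (nat_lit 109) (nat_lit 125) (nat_lit 92) (nat_lit 6) (nat_lit 6) (nat_lit 10) (nat_lit 5) (nat_lit 7) (nat_lit 5) (by decide +kernel)
theorem L12565 : W_2 (nat_lit 3) (nat_lit 0x300000001c002c0000000000000000000000000000000) (nat_lit 0x0) (nat_lit 0x2000000008000000020002000100000000000000000000000) := T_2 (nat_lit 159) (nat_lit 193) (nat_lit 6) (nat_lit 6) (nat_lit 11) L12564 (by decide +kernel)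
theorem L12566 : W_2 (nat_lit 4) (nat_lit 0x300000001c000c0000000000000000000000000000000) (nat_lit 0x0) (nat_lit 0x2000000008000000320002000100000000000000000000000) := T_2 (nat_lit 129) (nat_lit 128) (nat_lit 1) (nat_lit 10) (nat_lit 7) L12565 (by decide +kernel)
theorem L12569 : W_2 (nat_lit 2) (nat_lit 0x4000300004001e000b0000000000000000000000000000000) (nat_lit 0x0) (nat_lit 0x1000080000000000000001000000000000000000000000000) := D_2 (nat_lit 175) (nat_lit 192) (nat_lit 108) (nat_lit 6) (nat_lit 5) (nat_lit 11) (nat_lit 6) (nat_lit 5) (nat_lit 10) (by decide +kernel)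
theorem L12570 : W_2 (nat_lit 3) (nat_lit 0x4000300004001e000a0000000000000000000000000000000) (nat_lit 0x0) (nat_lit 0x1000080000000000018001000000000000000000000000000) := T_2 (nat_lit 124) (nat_lit 123) (nat_lit 0) (nat_lit 8) (nat_lit 8) L12569 (by decide +kernel)
theorem L12571 : W_2 (nat_lit 4) (nat_lit 0x4000300000001e000a0000000000000000000000000000000) (nat_lit 0x0) (nat_lit 0x1000080006000000018001000000000000000000000000000) := T_2 (nat_lit 158) (nat_lit 157) (nat_lit 1) (nat_lit 8) (nat_lit 8) L12570 (by decide +kernel)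
theorem L12572 : W_2 (nat_lit 5) (nat_lit 0x4000300000001c000a0000000000000000000000000000000) (nat_lit 0x0) (nat_lit 0x1000080006000200118001000000000000000000000000000) := T_2 (nat_lit 141) (nat_lit 128) (nat_lit 2) (nat_lit 5) (nat_lit 8) L12571 (by decide +kernel)
theorem L12573 : W_2 (nat_lit 6) (nat_lit 0x4000300000001c00080000000000000000000000000000000) (nat_lit 0x0) (nat_lit 0x100008000e000200138001000000000000000000000000000) := T_2 (nat_lit 125) (nat_lit 159) (nat_lit 7) (nat_lit 6) (nat_lit 7) L12572 (by decide +kernel)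
theorem L12574 : W_2 (nat_lit 7) (nat_lit 0x300000001c00080000000000000000000000000000000) (nat_lit 0x0) (nat_lit 0x500008001e000200138001000000000000000000000000000) := T_2 (nat_lit 194) (nat_lit 160) (nat_lit 6) (nat_lit 7) (nat_lit 11) L12573 (by decide +kernel)
theorem L12589 : W_2 (nat_lit 2) (nat_lit 0x300000001f000a0000000000000000000000000000000) (nat_lit 0x0) (nat_lit 0x7000000000000000000000000000000000000000) := D_2 (nat_lit 157) (nat_lit 156) (nat_lit 158) (nat_lit 1) (nat_lit 7) (nat_lit 8) (nat_lit 1) (nat_lit 8) (nat_lit 8) (by decide +kernel)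
theorem L12590 : W_2 (nat_lit 3) (nat_lit 0x300000001e000a0000000000000000000000000000000) (nat_lit 0x0) (nat_lit 0x7000100040000000000000000000000000000000) := T_2 (nat_lit 140) (nat_lit 126) (nat_lit 2) (nat_lit 4) (nat_lit 8) L12589 (by decide +kernel)
theorem L12598 : W_2 (nat_lit 5) (nat_lit 0x300000001c000a0000000000000000000000000000000) (nat_lit 0x0) (nat_lit 0x500008000c000000010001800040000000000000000000000) := T_2 (nat_lit 159) (nat_lit 194) (nat_lit 7) (nat_lit 6) (nat_lit 7) L12514 (by decide +kernel)
theorem L12629 : W_2 (nat_lit 5) (nat_lit 0x300010001800080000000000000000000000000000000) (nat_lit 0x0) (nat_lit 0x200000000800000004000300018000c000000000000000000) := T_2 (nat_lit 126) (nat_lit 193) (nat_lit 5) (nat_lit 7) (nat_lit 7) L12557 (by decide +kernel)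
theorem L12630 : W_2 (nat_lit 6) (nat_lit 0x300000001800080000000000000000000000000000000) (nat_lit 0x0) (nat_lit 0x600000001800000004000300018000c000000000000000000) := T_2 (nat_lit 160) (nat_lit 194) (nat_lit 6) (nat_lit 7) (nat_lit 11) L12629 (by decide +kernel)
theorem L12631 : W_2 (nat_lit 2) (nat_lit 0x4000380004001e00090000000000000000000000000000000) (nat_lit 0x0) (nat_lit 0x1000000000000000020001000000000000000000000000000) := D_2 (nat_lit 125) (nat_lit 192) (nat_lit 108) (nat_lit 6) (nat_lit 5) (nat_lit 11) (nat_lit 6) (nat_lit 5) (nat_lit 10) (by decide +kernel)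
theorem L12632 : W_2 (nat_lit 3) (nat_lit 0x4000300004001e00090000000000000000000000000000000) (nat_lit 0x0) (nat_lit 0x3000080000000000020001000000000000000000000000000) := T_2 (nat_lit 175) (nat_lit 193) (nat_lit 7) (nat_lit 5) (nat_lit 7) L12631 (by decide +kernel)
theorem L12633 : W_2 (nat_lit 4) (nat_lit 0x4000300004001e00080000000000000000000000000000000) (nat_lit 0x0) (nat_lit 0x3000080000000000038001000000000000000000000000000) := T_2 (nat_lit 124) (nat_lit 123) (nat_lit 0) (nat_lit 8) (nat_lit 8) L12632 (by decide +kernel)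
theorem L12634 : W_2 (nat_lit 5) (nat_lit 0x4000300000001e00080000000000000000000000000000000) (nat_lit 0x0) (nat_lit 0x3000080006000000038001000000000000000000000000000) := T_2 (nat_lit 158) (nat_lit 157) (nat_lit 1) (nat_lit 8) (nat_lit 8) L12633 (by decide +kernel)
theorem L12635 : W_2 (nat_lit 6) (nat_lit 0x4000300000001c00080000000000000000000000000000000) (nat_lit 0x0) (nat_lit 0x3000080006000200138001000000000000000000000000000) := T_2 (nat_lit 141) (nat_lit 128) (nat_lit 2) (nat_lit 5) (nat_lit 8) L12634 (by decide +kernel)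
theorem L12636 : W_2 (nat_lit 7) (nat_lit 0x300000001c00080000000000000000000000000000000) (nat_lit 0x0) (nat_lit 0x7000080016000200138001000000000000000000000000000) := T_2 (nat_lit 194) (nat_lit 160) (nat_lit 6) (nat_lit 7) (nat_lit 11) L12635 (by decide +kernel)
theorem L12641 : W_2 (nat_lit 2) (nat_lit 0x4000300008001c00080000000000000000000000000000000) (nat_lit 0x0) (nat_lit 0x1000080002000000000000000000000000000000000000000000000000) := D_2 (nat_lit 211) (nat_lit 228) (nat_lit 193) (nat_lit 4) (nat_lit 7) (nat_lit 13) (nat_lit 7) (nat_lit 6) (nat_lit 8) (by decide +kernel)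
theorem L12642 : W_2 (nat_lit 3) (nat_lit 0x4000300000001c00080000000000000000000000000000000) (nat_lit 0x0) (nat_lit 0x1000080002000000008000000020000000000000000000000000000000) := T_2 (nat_lit 159) (nat_lit 125) (nat_lit 7) (nat_lit 6) (nat_lit 7) L12641 (by decide +kernel)
theorem L12643 : W_2 (nat_lit 4) (nat_lit 0x300000001c00080000000000000000000000000000000) (nat_lit 0x0) (nat_lit 0x1000080006000000018000000020000000000000000000000000000000) := T_2 (nat_lit 194) (nat_lit 160) (nat_lit 6) (nat_lit 7) (nat_lit 11) L12642 (by decide +kernel)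
theorem L12645 : W_2 (nat_lit 2) (nat_lit 0x2000300010001800080000000000000000000000000000000) (nat_lit 0x0) (nat_lit 0x800040000000000008000000000000000000000000000000000000000) := D_2 (nat_lit 210) (nat_lit 159) (nat_lit 227) (nat_lit 6) (nat_lit 6) (nat_lit 12) (nat_lit 6) (nat_lit 6) (nat_lit 13) (by decide +kernel)
theorem L12646 : W_2 (nat_lit 3) (nat_lit 0x300010001800080000000000000000000000000000000) (nat_lit 0x0) (nat_lit 0x800040002000000008000000040000000000000000000000000000000) := T_2 (nat_lit 193) (nat_lit 126) (nat_lit 5) (nat_lit 7) (nat_lit 7) L12645 (by decide +kernel)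
theorem L12647 : W_2 (nat_lit 4) (nat_lit 0x300000001800080000000000000000000000000000000) (nat_lit 0x0) (nat_lit 0x800040006000000018000000040000000000000000000000000000000) := T_2 (nat_lit 160) (nat_lit 194) (nat_lit 6) (nat_lit 7) (nat_lit 11) L12646 (by decide +kernel)
theorem L12649 : W_2 (nat_lit 2) (nat_lit 0x3800300008001c00080000000000000000000000000000000) (nat_lit 0x0) (nat_lit 0xc80000000000000000000000000000000000000000000) := D_2 (nat_lit 178) (nat_lit 179) (nat_lit 175) (nat_lit 1) (nat_lit 9) (nat_lit 10) (nat_lit 1) (nat_lit 8) (nat_lit 10) (by decide +kernel)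
theorem L12650 : W_2 (nat_lit 3) (nat_lit 0x3000300008001c00080000000000000000000000000000000) (nat_lit 0x0) (nat_lit 0xc00c80000000000000000000000000000000000000000000) := T_2 (nat_lit 191) (nat_lit 190) (nat_lit 2) (nat_lit 3) (nat_lit 11) L12649 (by decide +kernel)
theorem L12651 : W_2 (nat_lit 4) (nat_lit 0x2000300008001c00080000000000000000000000000000000) (nat_lit 0x0) (nat_lit 0x20001c00c80000000000000000000000000000000000000000000) := T_2 (nat_lit 192) (nat_lit 209) (nat_lit 5) (nat_lit 6) (nat_lit 8) L12650 (by decide +kernel)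
theorem L12652 : W_2 (nat_lit 5) (nat_lit 0x300008001c00080000000000000000000000000000000) (nat_lit 0x0) (nat_lit 0x20003c00c80000000000040000000000000000000000000000000) := T_2 (nat_lit 193) (nat_lit 126) (nat_lit 6) (nat_lit 6) (nat_lit 11) L12651 (by decide +kernel)
theorem L12656 : W_2 (nat_lit 2) (nat_lit 0x8003c0006001000080000000000000000000000000000000) (nat_lit 0x0) (nat_lit 0x10000000000000000200010000000000000000000000000000000) := D_2 (nat_lit 141) (nat_lit 124) (nat_lit 208) (nat_lit 5) (nat_lit 5) (nat_lit 7) (nat_lit 6) (nat_lit 4) (nat_lit 12) (by decide +kernel)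
theorem L12657 : W_2 (nat_lit 3) (nat_lit 0x8003c0002001000080000000000000000000000000000000) (nat_lit 0x0) (nat_lit 0x10000000400004000200010000000000000000000000000000000) := T_2 (nat_lit 158) (nat_lit 178) (nat_lit 0) (nat_lit 8) (nat_lit 10) L12656 (by decide +kernel)
theorem L12658 : W_2 (nat_lit 4) (nat_lit 0x8003c0000001000080000000000000000000000000000000) (nat_lit 0x0) (nat_lit 0x10000000400007000200010000000000000000000000000000000) := T_2 (nat_lit 157) (nat_lit 156) (nat_lit 0) (nat_lit 7) (nat_lit 10) L12657 (by decide +kernel)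
theorem L12660 : W_2 (nat_lit 2) (nat_lit 0xc00380000001000080000000000000000000000000000000) (nat_lit 0x0) (nat_lit 0x3200000000000000000000000000000000000000000000000) := D_2 (nat_lit 192) (nat_lit 189) (nat_lit 193) (nat_lit 2) (nat_lit 2) (nat_lit 11) (nat_lit 2) (nat_lit 3) (nat_lit 11) (by decide +kernel)
theorem L12661 : W_2 (nat_lit 3) (nat_lit 0x800380000001000080000000000000000000000000000000) (nat_lit 0x0) (nat_lit 0x3600040000000000000000000000000000000000000000000) := T_2 (nat_lit 190) (nat_lit 174) (nat_lit 1) (nat_lit 7) (nat_lit 10) L12660 (by decide +kernel)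
theorem L12662 : W_2 (nat_lit 2) (nat_lit 0x1800380000001000080000000000000000000000000000000) (nat_lit 0x0) (nat_lit 0x2600000000000000000000000000000000000000000000000) := D_2 (nat_lit 190) (nat_lit 189) (nat_lit 193) (nat_lit 2) (nat_lit 2) (nat_lit 11) (nat_lit 2) (nat_lit 3) (nat_lit 11) (by decide +kernel)
theorem L12663 : W_2 (nat_lit 3) (nat_lit 0x800380000001000080000000000000000000000000000000) (nat_lit 0x0) (nat_lit 0x3600400000000000000000000000000000000000000000000) := T_2 (nat_lit 192) (nat_lit 178) (nat_lit 1) (nat_lit 8) (nat_lit 10) L12662 (by decide +kernel)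
theorem L12665 : W_2 (nat_lit 2) (nat_lit 0x800380004001200080000000000000000000000000000000) (nat_lit 0x0) (nat_lit 0x2000040000000000010000000000000000000000000000000) := D_2 (nat_lit 124) (nat_lit 174) (nat_lit 193) (nat_lit 5) (nat_lit 5) (nat_lit 7) (nat_lit 7) (nat_lit 5) (nat_lit 7) (by decide +kernel)
theorem L12670 : W_2 (nat_lit 2) (nat_lit 0x20003800380004001700080000000000000000000000000000000) (nat_lit 0x0) (nat_lit 0x800140000000000000000000000000000000) := D_2 (nat_lit 143) (nat_lit 128) (nat_lit 126) (nat_lit 2) (nat_lit 5) (nat_lit 8) (nat_lit 2) (nat_lit 4) (nat_lit 8) (by decide +kernel)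
theorem L12671 : W_2 (nat_lit 3) (nat_lit 0x20003800380004001300080000000000000000000000000000000) (nat_lit 0x0) (nat_lit 0xc00160000000000000000000000000000000) := T_2 (nat_lit 142) (nat_lit 125) (nat_lit 6) (nat_lit 5) (nat_lit 11) L12670 (by decide +kernel)
theorem L12672 : W_2 (nat_lit 4) (nat_lit 0x3800380004001300080000000000000000000000000000000) (nat_lit 0x0) (nat_lit 0x20000000000002000c00160000000000000000000000000000000) := T_2 (nat_lit 209) (nat_lit 157) (nat_lit 4) (nat_lit 5) (nat_lit 12) L12671 (by decide +kernel)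
theorem L12673 : W_2 (nat_lit 5) (nat_lit 0x1800380004001300080000000000000000000000000000000) (nat_lit 0x0) (nat_lit 0x60002000000002000c00160000000000000000000000000000000) := T_2 (nat_lit 193) (nat_lit 210) (nat_lit 7) (nat_lit 5) (nat_lit 8) L12672 (by decide +kernel)
theorem L12674 : W_2 (nat_lit 6) (nat_lit 0x1800380004001200080000000000000000000000000000000) (nat_lit 0x0) (nat_lit 0x60002000000002000d00168000000000000000000000000000000) := T_2 (nat_lit 140) (nat_lit 123) (nat_lit 4) (nat_lit 5) (nat_lit 11) L12673 (by decide +kernel)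
theorem L12675 : W_2 (nat_lit 7) (nat_lit 0x800380004001200080000000000000000000000000000000) (nat_lit 0x0) (nat_lit 0x70003000000002000d00168000000000000000000000000000000) := T_2 (nat_lit 192) (nat_lit 208) (nat_lit 5) (nat_lit 5) (nat_lit 8) L12674 (by decide +kernel)
theorem L12677 : W_2 (nat_lit 2) (nat_lit 0x800380006001000080000000000000000000000000000000) (nat_lit 0x0) (nat_lit 0x40001800000000000000000000000000000000000000) := D_2 (nat_lit 156) (nat_lit 174) (nat_lit 155) (nat_lit 0) (nat_lit 7) (nat_lit 10) (nat_lit 3) (nat_lit 2) (nat_lit 9) (by decide +kernel)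
theorem L12678 : W_2 (nat_lit 3) (nat_lit 0x800380004001000080000000000000000000000000000000) (nat_lit 0x0) (nat_lit 0x440003800000000000000000000000000000000000000) := T_2 (nat_lit 157) (nat_lit 178) (nat_lit 0) (nat_lit 8) (nat_lit 10) L12677 (by decide +kernel)
theorem L12679 : W_2 (nat_lit 2) (nat_lit 0x1800380004001200080000000000000000000000000000000) (nat_lit 0x0) (nat_lit 0x2000040000000000010000000000000000000000000000000) := D_2 (nat_lit 124) (nat_lit 174) (nat_lit 193) (nat_lit 5) (nat_lit 5) (nat_lit 7) (nat_lit 7) (nat_lit 5) (nat_lit 7) (by decide +kernel)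
theorem L12680 : W_2 (nat_lit 3) (nat_lit 0x1800380004001000080000000000000000000000000000000) (nat_lit 0x0) (nat_lit 0x10002000040000000200010000000000000000000000000000000) := T_2 (nat_lit 141) (nat_lit 208) (nat_lit 5) (nat_lit 5) (nat_lit 8) L12679 (by decide +kernel)
theorem L12681 : W_2 (nat_lit 4) (nat_lit 0x800380004001000080000000000000000000000000000000) (nat_lit 0x0) (nat_lit 0x10003000440000000200010000000000000000000000000000000) := T_2 (nat_lit 192) (nat_lit 178) (nat_lit 1) (nat_lit 8) (nat_lit 10) L12680 (by decide +kernel)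
theorem L12692 : W_2 (nat_lit 2) (nat_lit 0x24003f8002001000080000000000000000000000000000000) (nat_lit 0x0) (nat_lit 0xe00000000000000000000000000000000000000) := D_2 (nat_lit 154) (nat_lit 155) (nat_lit 153) (nat_lit 0) (nat_lit 5) (nat_lit 10) (nat_lit 0) (nat_lit 4) (nat_lit 10) (by decide +kernel)
theorem L12693 : W_2 (nat_lit 3) (nat_lit 0x24003f0002001000080000000000000000000000000000000) (nat_lit 0x0) (nat_lit 0x8004e00000000000000000000000000000000000000) := T_2 (nat_lit 171) (nat_lit 158) (nat_lit 2) (nat_lit 1) (nat_lit 10) L12692 (by decide +kernel)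
theorem L12694 : W_2 (nat_lit 4) (nat_lit 0x24003e0002001000080000000000000000000000000000000) (nat_lit 0x0) (nat_lit 0x1000018004e00000000000000000000000000000000000000) := T_2 (nat_lit 172) (nat_lit 192) (nat_lit 3) (nat_lit 2) (nat_lit 10) L12693 (by decide +kernel)
theorem L12695 : W_2 (nat_lit 5) (nat_lit 0x4003e0002001000080000000000000000000000000000000) (nat_lit 0x0) (nat_lit 0x7000018004e00000000000000000000000000000000000000) := T_2 (nat_lit 193) (nat_lit 194) (nat_lit 3) (nat_lit 3) (nat_lit 10) L12694 (by decide +kernel)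
theorem L12696 : W_2 (nat_lit 6) (nat_lit 0x4003c0002001000080000000000000000000000000000000) (nat_lit 0x0) (nat_lit 0x7200038004e00000000000000000000000000000000000000) := T_2 (nat_lit 173) (nat_lit 189) (nat_lit 1) (nat_lit 6) (nat_lit 10) L12695 (by decide +kernel)
theorem L12703 : W_2 (nat_lit 2) (nat_lit 0x8003c00120019000e8000000000000000000000000000000) (nat_lit 0x0) (nat_lit 0x80004000200000000000000000000000000) := D_2 (nat_lit 122) (nat_lit 105) (nat_lit 139) (nat_lit 4) (nat_lit 4) (nat_lit 10) (nat_lit 4) (nat_lit 4) (nat_lit 11) (by decide +kernel)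
theorem L12704 : W_2 (nat_lit 3) (nat_lit 0x8003c00120018000e8000000000000000000000000000000) (nat_lit 0x0) (nat_lit 0x1000000000000180004000200000000000000000000000000) := T_2 (nat_lit 140) (nat_lit 192) (nat_lit 7) (nat_lit 4) (nat_lit 7) L12703 (by decide +kernel)
theorem L12705 : W_2 (nat_lit 4) (nat_lit 0x8003c00120018000e0000000000000000000000000000000) (nat_lit 0x0) (nat_lit 0x100000000000018001c000200000000000000000000000000) := T_2 (nat_lit 123) (nat_lit 124) (nat_lit 3) (nat_lit 4) (nat_lit 7) L12704 (by decide +kernel)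
theorem L12706 : W_2 (nat_lit 5) (nat_lit 0x8003c00120018000c0000000000000000000000000000000) (nat_lit 0x0) (nat_lit 0x100000000000018003c001200000000000000000000000000) := T_2 (nat_lit 125) (nat_lit 108) (nat_lit 4) (nat_lit 7) (nat_lit 10) L12705 (by decide +kernel)
theorem L12707 : W_2 (nat_lit 6) (nat_lit 0x8003c0012001800080000000000000000000000000000000) (nat_lit 0x0) (nat_lit 0x300000000000018007c001200000000000000000000000000) := T_2 (nat_lit 126) (nat_lit 193) (nat_lit 5) (nat_lit 7) (nat_lit 7) L12706 (by decide +kernel)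
theorem L12711 : W_2 (nat_lit 2) (nat_lit 0x3c0002001a00080000000000000000000000000000000) (nat_lit 0x0) (nat_lit 0x4000400100000000000000000000000000000000) := D_2 (nat_lit 142) (nat_lit 128) (nat_lit 158) (nat_lit 2) (nat_lit 5) (nat_lit 8) (nat_lit 1) (nat_lit 8) (nat_lit 8) (by decide +kernel)
theorem L12712 : W_2 (nat_lit 3) (nat_lit 0x3c0000001a00080000000000000000000000000000000) (nat_lit 0x0) (nat_lit 0x7000400100000000000000000000000000000000) := T_2 (nat_lit 157) (nat_lit 156) (nat_lit 0) (nat_lit 7) (nat_lit 10) L12711 (by decide +kernel)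
theorem L12720 : W_2 (nat_lit 2) (nat_lit 0x8003c0002001a00080000000000000000000000000000000) (nat_lit 0x0) (nat_lit 0x4000100010000000000000000000000000000000) := D_2 (nat_lit 124) (nat_lit 158) (nat_lit 140) (nat_lit 5) (nat_lit 5) (nat_lit 7) (nat_lit 6) (nat_lit 4) (nat_lit 11) (by decide +kernel)
theorem L12721 : W_2 (nat_lit 3) (nat_lit 0x8003c0000001a00080000000000000000000000000000000) (nat_lit 0x0) (nat_lit 0x7000100010000000000000000000000000000000) := T_2 (nat_lit 157) (nat_lit 156) (nat_lit 0) (nat_lit 7) (nat_lit 10) L12720 (by decide +kernel)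
theorem L12722 : W_2 (nat_lit 4) (nat_lit 0x3c0000001a00080000000000000000000000000000000) (nat_lit 0x0) (nat_lit 0xc00000007000100010000000000000000000000000000000) := T_2 (nat_lit 191) (nat_lit 190) (nat_lit 1) (nat_lit 7) (nat_lit 10) L12721 (by decide +kernel)
theorem L12728 : W_2 (nat_lit 2) (nat_lit 0x49003f0010801000080000000000000000000000000000000) (nat_lit 0x0) (nat_lit 0x1080008000000000000000000000000000000000000000000) := D_2 (nat_lit 171) (nat_lit 192) (nat_lit 187) (nat_lit 3) (nat_lit 1) (nat_lit 10) (nat_lit 1) (nat_lit 4) (nat_lit 10) (by decide +kernel)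
theorem L12729 : W_2 (nat_lit 3) (nat_lit 0x48003f0010801000080000000000000000000000000000000) (nat_lit 0x0) (nat_lit 0x1380008000000000000000000000000000000000000000000) := T_2 (nat_lit 188) (nat_lit 189) (nat_lit 1) (nat_lit 5) (nat_lit 10) L12728 (by decide +kernel)
theorem L12730 : W_2 (nat_lit 4) (nat_lit 0x48003e0010801000080000000000000000000000000000000) (nat_lit 0x0) (nat_lit 0x1380018000400000000000000000000000000000000000000) := T_2 (nat_lit 172) (nat_lit 154) (nat_lit 0) (nat_lit 5) (nat_lit 10) L12729 (by decide +kernel)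
theorem L12774 : W_2 (nat_lit 2) (nat_lit 0x21000f80084001000080000000000000000000000000000000) (nat_lit 0x0) (nat_lit 0x40001000100000000000000000000000000000000000000000) := D_2 (nat_lit 180) (nat_lit 164) (nat_lit 198) (nat_lit 2) (nat_lit 7) (nat_lit 10) (nat_lit 3) (nat_lit 7) (nat_lit 10) (by decide +kernel)
theorem L12775 : W_2 (nat_lit 3) (nat_lit 0x1000f80084001000080000000000000000000000000000000) (nat_lit 0x0) (nat_lit 0x70001000100000000000000000000000000000000000000000) := T_2 (nat_lit 197) (nat_lit 196) (nat_lit 3) (nat_lit 6) (nat_lit 10) L12774 (by decide +kernel)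
theorem L12776 : W_2 (nat_lit 4) (nat_lit 0x1000f80004001000080000000000000000000000000000000) (nat_lit 0x0) (nat_lit 0x700010001c0000000000000000000000000000000000000000) := T_2 (nat_lit 163) (nat_lit 162) (nat_lit 2) (nat_lit 6) (nat_lit 10) L12775 (by decide +kernel)
theorem L12777 : W_2 (nat_lit 5) (nat_lit 0x1000780004001000080000000000000000000000000000000) (nat_lit 0x0) (nat_lit 0x720018001c0000000000000000000000000000000000000000) := T_2 (nat_lit 179) (nat_lit 193) (nat_lit 1) (nat_lit 9) (nat_lit 10) L12776 (by decide +kernel)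
theorem L12781 : W_2 (nat_lit 2) (nat_lit 0x21000f80080001000080000000000000000000000000000000) (nat_lit 0x0) (nat_lit 0x40001000100000000000000000000000000000000000000000) := D_2 (nat_lit 180) (nat_lit 164) (nat_lit 198) (nat_lit 2) (nat_lit 7) (nat_lit 10) (nat_lit 3) (nat_lit 7) (nat_lit 10) (by decide +kernel)
theorem L12782 : W_2 (nat_lit 3) (nat_lit 0x1000f80080001000080000000000000000000000000000000) (nat_lit 0x0) (nat_lit 0x70001000100000000000000000000000000000000000000000) := T_2 (nat_lit 197) (nat_lit 196) (nat_lit 3) (nat_lit 6) (nat_lit 10) L12781 (by decide +kernel)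
theorem L12783 : W_2 (nat_lit 4) (nat_lit 0x1000f80000001000080000000000000000000000000000000) (nat_lit 0x0) (nat_lit 0x700010001c0000000000000000000000000000000000000000) := T_2 (nat_lit 163) (nat_lit 162) (nat_lit 2) (nat_lit 6) (nat_lit 10) L12782 (by decide +kernel)
theorem L12925 : W_2 (nat_lit 2) (nat_lit 0xc000380010001000080000000000000000000000000000000) (nat_lit 0x0) (nat_lit 0x30000400000000000000000000000000000000000000000000) := D_2 (nat_lit 196) (nat_lit 197) (nat_lit 178) (nat_lit 0) (nat_lit 10) (nat_lit 11) (nat_lit 3) (nat_lit 5) (nat_lit 10) (by decide +kernel)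
theorem L13198 : W_2 (nat_lit 3) (nat_lit 0x3c0006001000080000000000000000000000000000000) (nat_lit 0x0) (nat_lit 0x10000c00000000000200010000000000000000000000000000000) := T_2 (nat_lit 191) (nat_lit 190) (nat_lit 1) (nat_lit 7) (nat_lit 10) L12656 (by decide +kernel)
theorem L13199 : W_2 (nat_lit 4) (nat_lit 0x3c0004001000080000000000000000000000000000000) (nat_lit 0x0) (nat_lit 0x10000c00000003000200010000000000000000000000000000000) := T_2 (nat_lit 157) (nat_lit 156) (nat_lit 0) (nat_lit 7) (nat_lit 10) L13198 (by decide +kernel)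
theorem L13200 : W_2 (nat_lit 2) (nat_lit 0x380008003c0006001100088000000000000000000000000000000) (nat_lit 0x0) (nat_lit 0x80004000200000000000000000000000000) := D_2 (nat_lit 122) (nat_lit 139) (nat_lit 105) (nat_lit 4) (nat_lit 4) (nat_lit 11) (nat_lit 4) (nat_lit 4) (nat_lit 10) (by decide +kernel)
theorem L13201 : W_2 (nat_lit 3) (nat_lit 0x380008003c0006001100080000000000000000000000000000000) (nat_lit 0x0) (nat_lit 0x8000c000600000000000000000000000000) := T_2 (nat_lit 123) (nat_lit 106) (nat_lit 7) (nat_lit 4) (nat_lit 6) L13200 (by decide +kernel)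
theorem L13202 : W_2 (nat_lit 4) (nat_lit 0x380008003c0006001000080000000000000000000000000000000) (nat_lit 0x0) (nat_lit 0x100000000000018000c000600000000000000000000000000) := T_2 (nat_lit 140) (nat_lit 192) (nat_lit 7) (nat_lit 4) (nat_lit 8) L13201 (by decide +kernel)
theorem L13203 : W_2 (nat_lit 5) (nat_lit 0x180008003c0006001000080000000000000000000000000000000) (nat_lit 0x0) (nat_lit 0x40002000100000000000018000c000600000000000000000000000000) := T_2 (nat_lit 209) (nat_lit 226) (nat_lit 7) (nat_lit 4) (nat_lit 9) L13202 (by decide +kernel)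
theorem L13204 : W_2 (nat_lit 6) (nat_lit 0x100008003c0006001000080000000000000000000000000000000) (nat_lit 0x0) (nat_lit 0x50002800100000000000018000c000600000000000000000000000000) := T_2 (nat_lit 207) (nat_lit 224) (nat_lit 5) (nat_lit 4) (nat_lit 9) L13203 (by decide +kernel)
theorem L13205 : W_2 (nat_lit 7) (nat_lit 0x8003c0006001000080000000000000000000000000000000) (nat_lit 0x0) (nat_lit 0x70003800100000000000018000c000600000000000000000000000000) := T_2 (nat_lit 208) (nat_lit 225) (nat_lit 6) (nat_lit 4) (nat_lit 13) L13204 (by decide +kernel)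
theorem L13206 : W_2 (nat_lit 8) (nat_lit 0x8003c0004001000080000000000000000000000000000000) (nat_lit 0x0) (nat_lit 0x70003800100000000300018000c000600000000000000000000000000) := T_2 (nat_lit 157) (nat_lit 156) (nat_lit 0) (nat_lit 7) (nat_lit 10) L13205 (by decide +kernel)
theorem L13207 : W_2 (nat_lit 9) (nat_lit 0x3c0004001000080000000000000000000000000000000) (nat_lit 0x0) (nat_lit 0x700038001c0000000300018000c000600000000000000000000000000) := T_2 (nat_lit 191) (nat_lit 190) (nat_lit 1) (nat_lit 7) (nat_lit 10) L13206 (by decide +kernel)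
theorem L13208 : W_2 (nat_lit 2) (nat_lit 0x3c0006001200080000000000000000000000000000000) (nat_lit 0x0) (nat_lit 0x2000000000000000010000800000000000000000000000000) := D_2 (nat_lit 124) (nat_lit 193) (nat_lit 107) (nat_lit 7) (nat_lit 5) (nat_lit 7) (nat_lit 5) (nat_lit 5) (nat_lit 6) (by decide +kernel)
theorem L13209 : W_2 (nat_lit 3) (nat_lit 0x3c0004001200080000000000000000000000000000000) (nat_lit 0x0) (nat_lit 0x2000000003000000010000800000000000000000000000000) := T_2 (nat_lit 157) (nat_lit 156) (nat_lit 0) (nat_lit 7) (nat_lit 10) L13208 (by decide +kernel)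
theorem L13210 : W_2 (nat_lit 2) (nat_lit 0x3c000e001a000b0000000000000000000000000000000) (nat_lit 0x0) (nat_lit 0x48000400000000000000000000000000) := D_2 (nat_lit 123) (nat_lit 126) (nat_lit 106) (nat_lit 3) (nat_lit 4) (nat_lit 7) (nat_lit 4) (nat_lit 5) (nat_lit 10) (by decide +kernel)
theorem L13211 : W_2 (nat_lit 3) (nat_lit 0x3c000e001a00090000000000000000000000000000000) (nat_lit 0x0) (nat_lit 0x68001400000000000000000000000000) := T_2 (nat_lit 125) (nat_lit 108) (nat_lit 6) (nat_lit 5) (nat_lit 10) L13210 (by decide +kernel)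
theorem L13212 : W_2 (nat_lit 4) (nat_lit 0x3c0006001a00090000000000000000000000000000000) (nat_lit 0x0) (nat_lit 0x18000000068001400000000000000000000000000) := T_2 (nat_lit 159) (nat_lit 160) (nat_lit 2) (nat_lit 4) (nat_lit 9) L13211 (by decide +kernel)
theorem L13213 : W_2 (nat_lit 5) (nat_lit 0x3c0006001a00080000000000000000000000000000000) (nat_lit 0x0) (nat_lit 0x18000000078001c00000000000000000000000000) := T_2 (nat_lit 124) (nat_lit 107) (nat_lit 5) (nat_lit 5) (nat_lit 6) L13212 (by decide +kernel)
theorem L13214 : W_2 (nat_lit 6) (nat_lit 0x3c0006001200080000000000000000000000000000000) (nat_lit 0x0) (nat_lit 0x18000c00078001c00000000000000000000000000) := T_2 (nat_lit 143) (nat_lit 142) (nat_lit 1) (nat_lit 8) (nat_lit 8) L13213 (by decide +kernel)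
theorem L13215 : W_2 (nat_lit 7) (nat_lit 0x3c0004001200080000000000000000000000000000000) (nat_lit 0x0) (nat_lit 0x1b000c00078001c00000000000000000000000000) := T_2 (nat_lit 157) (nat_lit 156) (nat_lit 0) (nat_lit 7) (nat_lit 10) L13214 (by decide +kernel)
theorem L13220 : W_2 (nat_lit 2) (nat_lit 0x20003c0016001a00080000000000000000000000000000000) (nat_lit 0x0) (nat_lit 0x800040001000000000000000000000000000000000000000000000000) := D_2 (nat_lit 210) (nat_lit 227) (nat_lit 192) (nat_lit 6) (nat_lit 6) (nat_lit 13) (nat_lit 7) (nat_lit 5) (nat_lit 8) (by decide +kernel)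
theorem L13221 : W_2 (nat_lit 3) (nat_lit 0x3c0016001a00080000000000000000000000000000000) (nat_lit 0x0) (nat_lit 0x800040003000000000000000040000000000000000000000000000000) := T_2 (nat_lit 193) (nat_lit 126) (nat_lit 5) (nat_lit 7) (nat_lit 7) L13220 (by decide +kernel)
theorem L13222 : W_2 (nat_lit 4) (nat_lit 0x3c0006001a00080000000000000000000000000000000) (nat_lit 0x0) (nat_lit 0x800040003000000018000000040000000000000000000000000000000) := T_2 (nat_lit 160) (nat_lit 159) (nat_lit 2) (nat_lit 4) (nat_lit 9) L13221 (by decide +kernel)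
theorem L13223 : W_2 (nat_lit 5) (nat_lit 0x3c0006001200080000000000000000000000000000000) (nat_lit 0x0) (nat_lit 0x800040003000000018000c00040000000000000000000000000000000) := T_2 (nat_lit 143) (nat_lit 142) (nat_lit 1) (nat_lit 8) (nat_lit 8) L13222 (by decide +kernel)
theorem L13224 : W_2 (nat_lit 6) (nat_lit 0x3c0004001200080000000000000000000000000000000) (nat_lit 0x0) (nat_lit 0x80004000300000001b000c00040000000000000000000000000000000) := T_2 (nat_lit 157) (nat_lit 156) (nat_lit 0) (nat_lit 7) (nat_lit 10) L13223 (by decide +kernel)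
theorem L13229 : W_2 (nat_lit 2) (nat_lit 0x8003c0004001200080000000000000000000000000000000) (nat_lit 0x0) (nat_lit 0x200010001000000000000000000000000000000000000000000000000) := D_2 (nat_lit 208) (nat_lit 225) (nat_lit 192) (nat_lit 6) (nat_lit 4) (nat_lit 13) (nat_lit 5) (nat_lit 5) (nat_lit 8) (by decide +kernel)
theorem L13230 : W_2 (nat_lit 3) (nat_lit 0x8003c0004001000080000000000000000000000000000000) (nat_lit 0x0) (nat_lit 0x200010001000000000000200010000000000000000000000000000000) := T_2 (nat_lit 141) (nat_lit 124) (nat_lit 5) (nat_lit 5) (nat_lit 7) L13229 (by decide +kernel)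
theorem L13231 : W_2 (nat_lit 4) (nat_lit 0x3c0004001000080000000000000000000000000000000) (nat_lit 0x0) (nat_lit 0x200010001c00000000000200010000000000000000000000000000000) := T_2 (nat_lit 191) (nat_lit 190) (nat_lit 1) (nat_lit 7) (nat_lit 10) L13230 (by decide +kernel)
theorem L13238 : W_2 (nat_lit 2) (nat_lit 0x11003f0009001000080000000000000000000000000000000) (nat_lit 0x0) (nat_lit 0x880008000000000000000000000000000000000000000000) := D_2 (nat_lit 171) (nat_lit 191) (nat_lit 187) (nat_lit 3) (nat_lit 1) (nat_lit 10) (nat_lit 1) (nat_lit 4) (nat_lit 10) (by decide +kernel)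
theorem L13239 : W_2 (nat_lit 3) (nat_lit 0x1003f0009001000080000000000000000000000000000000) (nat_lit 0x0) (nat_lit 0x3880008000000000000000000000000000000000000000000) := T_2 (nat_lit 192) (nat_lit 193) (nat_lit 3) (nat_lit 2) (nat_lit 10) L13238 (by decide +kernel)
theorem L13240 : W_2 (nat_lit 4) (nat_lit 0x3f0009001000080000000000000000000000000000000) (nat_lit 0x0) (nat_lit 0x3b80008000000000000000000000000000000000000000000) := T_2 (nat_lit 188) (nat_lit 189) (nat_lit 1) (nat_lit 5) (nat_lit 10) L13239 (by decide +kernel)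
theorem L13241 : W_2 (nat_lit 5) (nat_lit 0x3e0009001000080000000000000000000000000000000) (nat_lit 0x0) (nat_lit 0x3b80018004000000000000000000000000000000000000000) := T_2 (nat_lit 172) (nat_lit 158) (nat_lit 2) (nat_lit 2) (nat_lit 10) L13240 (by decide +kernel)
theorem L13242 : W_2 (nat_lit 6) (nat_lit 0x3e0001001000080000000000000000000000000000000) (nat_lit 0x0) (nat_lit 0x3b8001801c000000000000000000000000000000000000000) := T_2 (nat_lit 159) (nat_lit 160) (nat_lit 2) (nat_lit 3) (nat_lit 10) L13241 (by decide +kernel)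
theorem L13243 : W_2 (nat_lit 7) (nat_lit 0x3c0001001000080000000000000000000000000000000) (nat_lit 0x0) (nat_lit 0x3b8003801c800000000000000000000000000000000000000) := T_2 (nat_lit 173) (nat_lit 155) (nat_lit 0) (nat_lit 6) (nat_lit 10) L13242 (by decide +kernel)
theorem L13244 : W_2 (nat_lit 8) (nat_lit 0x3c0000001000080000000000000000000000000000000) (nat_lit 0x0) (nat_lit 0x3b8003801f800000000000000000000000000000000000000) := T_2 (nat_lit 156) (nat_lit 157) (nat_lit 0) (nat_lit 7) (nat_lit 10) L13243 (by decide +kernel)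
theorem L13246 : W_2 (nat_lit 2) (nat_lit 0x3f0008001000080000000000000000000000000000000) (nat_lit 0x0) (nat_lit 0x700000000000000000000000000000000000000000000000) := D_2 (nat_lit 189) (nat_lit 188) (nat_lit 190) (nat_lit 1) (nat_lit 5) (nat_lit 10) (nat_lit 1) (nat_lit 6) (nat_lit 10) (by decide +kernel)
theorem L13247 : W_2 (nat_lit 3) (nat_lit 0x3e0008001000080000000000000000000000000000000) (nat_lit 0x0) (nat_lit 0x700010004000000000000000000000000000000000000000) := T_2 (nat_lit 172) (nat_lit 158) (nat_lit 2) (nat_lit 2) (nat_lit 10) L13246 (by decide +kernel)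
theorem L13248 : W_2 (nat_lit 4) (nat_lit 0x3e0000001000080000000000000000000000000000000) (nat_lit 0x0) (nat_lit 0x70001001c000000000000000000000000000000000000000) := T_2 (nat_lit 159) (nat_lit 160) (nat_lit 2) (nat_lit 3) (nat_lit 10) L13247 (by decide +kernel)
theorem L13249 : W_2 (nat_lit 2) (nat_lit 0x12003f8008001000080000000000000000000000000000000) (nat_lit 0x0) (nat_lit 0xe00000000000000000000000000000000000000) := D_2 (nat_lit 154) (nat_lit 153) (nat_lit 155) (nat_lit 0) (nat_lit 4) (nat_lit 10) (nat_lit 0) (nat_lit 5) (nat_lit 10) (by decide +kernel)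
theorem L13250 : W_2 (nat_lit 3) (nat_lit 0x12003f0008001000080000000000000000000000000000000) (nat_lit 0x0) (nat_lit 0x800008000e00000000000000000000000000000000000000) := T_2 (nat_lit 171) (nat_lit 191) (nat_lit 3) (nat_lit 1) (nat_lit 10) L13249 (by decide +kernel)
theorem L13251 : W_2 (nat_lit 4) (nat_lit 0x2003f0008001000080000000000000000000000000000000) (nat_lit 0x0) (nat_lit 0x3800008000e00000000000000000000000000000000000000) := T_2 (nat_lit 192) (nat_lit 193) (nat_lit 3) (nat_lit 2) (nat_lit 10) L13250 (by decide +kernel)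
theorem L13252 : W_2 (nat_lit 5) (nat_lit 0x3f0008001000080000000000000000000000000000000) (nat_lit 0x0) (nat_lit 0x3b00008000e00000000000000000000000000000000000000) := T_2 (nat_lit 189) (nat_lit 188) (nat_lit 1) (nat_lit 5) (nat_lit 10) L13251 (by decide +kernel)
theorem L13253 : W_2 (nat_lit 6) (nat_lit 0x3e0008001000080000000000000000000000000000000) (nat_lit 0x0) (nat_lit 0x3b00018004e00000000000000000000000000000000000000) := T_2 (nat_lit 172) (nat_lit 158) (nat_lit 2) (nat_lit 2) (nat_lit 10) L13252 (by decide +kernel)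
theorem L13254 : W_2 (nat_lit 7) (nat_lit 0x3e0000001000080000000000000000000000000000000) (nat_lit 0x0) (nat_lit 0x3b0001801ce00000000000000000000000000000000000000) := T_2 (nat_lit 159) (nat_lit 160) (nat_lit 2) (nat_lit 3) (nat_lit 10) L13253 (by decide +kernel)
theorem L13255 : W_2 (nat_lit 2) (nat_lit 0x10003f0008801000080000000000000000000000000000000) (nat_lit 0x0) (nat_lit 0xc00008000000000000000000000000000000000000000000) := D_2 (nat_lit 191) (nat_lit 171) (nat_lit 190) (nat_lit 3) (nat_lit 1) (nat_lit 10) (nat_lit 1) (nat_lit 7) (nat_lit 10) (by decide +kernel)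
theorem L13256 : W_2 (nat_lit 3) (nat_lit 0x3f0008801000080000000000000000000000000000000) (nat_lit 0x0) (nat_lit 0x3c00008000000000000000000000000000000000000000000) := T_2 (nat_lit 192) (nat_lit 193) (nat_lit 3) (nat_lit 2) (nat_lit 10) L13255 (by decide +kernel)
theorem L13257 : W_2 (nat_lit 4) (nat_lit 0x3f0008001000080000000000000000000000000000000) (nat_lit 0x0) (nat_lit 0x3c00008000c00000000000000000000000000000000000000) := T_2 (nat_lit 155) (nat_lit 154) (nat_lit 0) (nat_lit 5) (nat_lit 10) L13256 (by decide +kernel)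
theorem L13258 : W_2 (nat_lit 5) (nat_lit 0x3e0008001000080000000000000000000000000000000) (nat_lit 0x0) (nat_lit 0x3c00018004c00000000000000000000000000000000000000) := T_2 (nat_lit 172) (nat_lit 158) (nat_lit 2) (nat_lit 2) (nat_lit 10) L13257 (by decide +kernel)
theorem L13259 : W_2 (nat_lit 6) (nat_lit 0x3e0000001000080000000000000000000000000000000) (nat_lit 0x0) (nat_lit 0x3c0001801cc00000000000000000000000000000000000000) := T_2 (nat_lit 159) (nat_lit 160) (nat_lit 2) (nat_lit 3) (nat_lit 10) L13258 (by decide +kernel)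
theorem L13262 : W_2 (nat_lit 4) (nat_lit 0x3c0002001000080000000000000000000000000000000) (nat_lit 0x0) (nat_lit 0x10000c00400004000200010000000000000000000000000000000) := T_2 (nat_lit 191) (nat_lit 190) (nat_lit 1) (nat_lit 7) (nat_lit 10) L12657 (by decide +kernel)
theorem L13263 : W_2 (nat_lit 5) (nat_lit 0x3c0000001000080000000000000000000000000000000) (nat_lit 0x0) (nat_lit 0x10000c00400007000200010000000000000000000000000000000) := T_2 (nat_lit 157) (nat_lit 156) (nat_lit 0) (nat_lit 7) (nat_lit 10) L13262 (by decide +kernel)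
theorem L13280 : W_2 (nat_lit 2) (nat_lit 0x11000780000001000080000000000000000000000000000000) (nat_lit 0x0) (nat_lit 0x22000800000000000000000000000000000000000000000000) := D_2 (nat_lit 179) (nat_lit 197) (nat_lit 193) (nat_lit 3) (nat_lit 6) (nat_lit 10) (nat_lit 1) (nat_lit 9) (nat_lit 10) (by decide +kernel)
theorem L13281 : W_2 (nat_lit 3) (nat_lit 0x10000780000001000080000000000000000000000000000000) (nat_lit 0x0) (nat_lit 0x23800800000000000000000000000000000000000000000000) := T_2 (nat_lit 192) (nat_lit 191) (nat_lit 1) (nat_lit 8) (nat_lit 10) L13280 (by decide +kernel)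
theorem L13282 : W_2 (nat_lit 4) (nat_lit 0x780000001000080000000000000000000000000000000) (nat_lit 0x0) (nat_lit 0x3b800800000000000000000000000000000000000000000000) := T_2 (nat_lit 196) (nat_lit 195) (nat_lit 3) (nat_lit 5) (nat_lit 10) L13281 (by decide +kernel)
theorem L13295 : W_2 (nat_lit 2) (nat_lit 0x1003f0008401000080000000000000000000000000000000) (nat_lit 0x0) (nat_lit 0x80008000200000000000000000000000000000000000000) := D_2 (nat_lit 171) (nat_lit 187) (nat_lit 153) (nat_lit 1) (nat_lit 4) (nat_lit 10) (nat_lit 0) (nat_lit 4) (nat_lit 10) (by decide +kernel)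
theorem L13296 : W_2 (nat_lit 3) (nat_lit 0x1003f0008001000080000000000000000000000000000000) (nat_lit 0x0) (nat_lit 0x80008000e00000000000000000000000000000000000000) := T_2 (nat_lit 154) (nat_lit 155) (nat_lit 0) (nat_lit 5) (nat_lit 10) L13295 (by decide +kernel)
theorem L13297 : W_2 (nat_lit 4) (nat_lit 0x3f0008001000080000000000000000000000000000000) (nat_lit 0x0) (nat_lit 0x380008000e00000000000000000000000000000000000000) := T_2 (nat_lit 188) (nat_lit 189) (nat_lit 1) (nat_lit 5) (nat_lit 10) L13296 (by decide +kernel)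
theorem L13298 : W_2 (nat_lit 5) (nat_lit 0x3e0008001000080000000000000000000000000000000) (nat_lit 0x0) (nat_lit 0x380018004e00000000000000000000000000000000000000) := T_2 (nat_lit 172) (nat_lit 158) (nat_lit 2) (nat_lit 2) (nat_lit 10) L13297 (by decide +kernel)
theorem L13299 : W_2 (nat_lit 6) (nat_lit 0x3e0000001000080000000000000000000000000000000) (nat_lit 0x0) (nat_lit 0x38001801ce00000000000000000000000000000000000000) := T_2 (nat_lit 159) (nat_lit 160) (nat_lit 2) (nat_lit 3) (nat_lit 10) L13298 (by decide +kernel)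
theorem L13300 : W_2 (nat_lit 2) (nat_lit 0x3e000c001000080000000000000000000000000000000) (nat_lit 0x0) (nat_lit 0x400003000000000000000000000000000000000000000) := D_2 (nat_lit 157) (nat_lit 156) (nat_lit 178) (nat_lit 3) (nat_lit 3) (nat_lit 9) (nat_lit 0) (nat_lit 8) (nat_lit 10) (by decide +kernel)
theorem L13301 : W_2 (nat_lit 3) (nat_lit 0x3e0008001000080000000000000000000000000000000) (nat_lit 0x0) (nat_lit 0x410007000000000000000000000000000000000000000) := T_2 (nat_lit 158) (nat_lit 172) (nat_lit 2) (nat_lit 2) (nat_lit 10) L13300 (by decide +kernel)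
theorem L13302 : W_2 (nat_lit 4) (nat_lit 0x3e0000001000080000000000000000000000000000000) (nat_lit 0x0) (nat_lit 0x41001f000000000000000000000000000000000000000) := T_2 (nat_lit 159) (nat_lit 160) (nat_lit 2) (nat_lit 3) (nat_lit 10) L13301 (by decide +kernel)
theorem L13304 : W_2 (nat_lit 2) (nat_lit 0x4003e000c001000080000000000000000000000000000000) (nat_lit 0x0) (nat_lit 0xc00002000000000000000000000000000000000000000) := D_2 (nat_lit 178) (nat_lit 179) (nat_lit 157) (nat_lit 0) (nat_lit 9) (nat_lit 10) (nat_lit 0) (nat_lit 8) (nat_lit 10) (by decide +kernel)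
theorem L13305 : W_2 (nat_lit 3) (nat_lit 0x4003e0008001000080000000000000000000000000000000) (nat_lit 0x0) (nat_lit 0xc10006000000000000000000000000000000000000000) := T_2 (nat_lit 158) (nat_lit 172) (nat_lit 2) (nat_lit 2) (nat_lit 10) L13304 (by decide +kernel)
theorem L13306 : W_2 (nat_lit 4) (nat_lit 0x4003e0000001000080000000000000000000000000000000) (nat_lit 0x0) (nat_lit 0xc1001e000000000000000000000000000000000000000) := T_2 (nat_lit 159) (nat_lit 160) (nat_lit 2) (nat_lit 3) (nat_lit 10) L13305 (by decide +kernel)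
theorem L13307 : W_2 (nat_lit 5) (nat_lit 0x4003c0000001000080000000000000000000000000000000) (nat_lit 0x0) (nat_lit 0x200c3001e000000000000000000000000000000000000000) := T_2 (nat_lit 173) (nat_lit 189) (nat_lit 1) (nat_lit 6) (nat_lit 10) L13306 (by decide +kernel)
theorem L13308 : W_2 (nat_lit 6) (nat_lit 0x3c0000001000080000000000000000000000000000000) (nat_lit 0x0) (nat_lit 0xe00c3001e000000000000000000000000000000000000000) := T_2 (nat_lit 190) (nat_lit 191) (nat_lit 1) (nat_lit 7) (nat_lit 10) L13307 (by decide +kernel)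
theorem L13311 : W_2 (nat_lit 2) (nat_lit 0x3800100018000c0002000000000000000000000000000) (nat_lit 0x0) (nat_lit 0x20001000080000000000000000000000) := D_2 (nat_lit 108) (nat_lit 91) (nat_lit 125) (nat_lit 4) (nat_lit 7) (nat_lit 9) (nat_lit 4) (nat_lit 7) (nat_lit 10) (by decide +kernel)
theorem L13312 : W_2 (nat_lit 3) (nat_lit 0x3800100018000c0000000000000000000000000000000) (nat_lit 0x0) (nat_lit 0x8000000020003000080000000000000000000000) := T_2 (nat_lit 109) (nat_lit 159) (nat_lit 5) (nat_lit 7) (nat_lit 6) L13311 (by decide +kernel)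
theorem L13313 : W_2 (nat_lit 4) (nat_lit 0x3800000018000c0000000000000000000000000000000) (nat_lit 0x0) (nat_lit 0x2000000018000000020003000080000000000000000000000) := T_2 (nat_lit 160) (nat_lit 193) (nat_lit 5) (nat_lit 7) (nat_lit 7) L13312 (by decide +kernel)
theorem L13314 : W_2 (nat_lit 2) (nat_lit 0x780010001a001f0010800000000000000000000000000) (nat_lit 0x0) (nat_lit 0x600020000000000000000000000000000) := D_2 (nat_lit 129) (nat_lit 130) (nat_lit 113) (nat_lit 1) (nat_lit 11) (nat_lit 7) (nat_lit 2) (nat_lit 7) (nat_lit 7) (by decide +kernel)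
theorem L13315 : W_2 (nat_lit 3) (nat_lit 0x780010001a001f0000800000000000000000000000000) (nat_lit 0x0) (nat_lit 0x600038000000000000000000000000000) := T_2 (nat_lit 112) (nat_lit 111) (nat_lit 2) (nat_lit 6) (nat_lit 7) L13314 (by decide +kernel)
theorem L13316 : W_2 (nat_lit 4) (nat_lit 0x780010001a000f0000800000000000000000000000000) (nat_lit 0x0) (nat_lit 0x400700038000000000000000000000000000) := T_2 (nat_lit 128) (nat_lit 142) (nat_lit 2) (nat_lit 5) (nat_lit 8) L13315 (by decide +kernel)
theorem L13317 : W_2 (nat_lit 5) (nat_lit 0x7800100018000f0000800000000000000000000000000) (nat_lit 0x0) (nat_lit 0x700700038000000000000000000000000000) := T_2 (nat_lit 141) (nat_lit 140) (nat_lit 1) (nat_lit 8) (nat_lit 7) L13316 (by decide +kernel)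
theorem L13318 : W_2 (nat_lit 6) (nat_lit 0x7800100018000f0000000000000000000000000000000) (nat_lit 0x0) (nat_lit 0x700700038c00000000000000000000000000) := T_2 (nat_lit 107) (nat_lit 106) (nat_lit 0) (nat_lit 8) (nat_lit 7) L13317 (by decide +kernel)
theorem L13319 : W_2 (nat_lit 7) (nat_lit 0x3800100018000f0000000000000000000000000000000) (nat_lit 0x0) (nat_lit 0x8000400000000700700038c00000000000000000000000000) := T_2 (nat_lit 178) (nat_lit 195) (nat_lit 7) (nat_lit 7) (nat_lit 7) L13318 (by decide +kernel)
theorem L13320 : W_2 (nat_lit 8) (nat_lit 0x3800100018000e0000000000000000000000000000000) (nat_lit 0x0) (nat_lit 0x8000400000000700718038c00000000000000000000000000) := T_2 (nat_lit 124) (nat_lit 123) (nat_lit 3) (nat_lit 4) (nat_lit 7) L13319 (by decide +kernel)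
theorem L13321 : W_2 (nat_lit 9) (nat_lit 0x3800100018000c0000000000000000000000000000000) (nat_lit 0x0) (nat_lit 0x8000400000000700738039c00000000000000000000000000) := T_2 (nat_lit 125) (nat_lit 108) (nat_lit 4) (nat_lit 7) (nat_lit 10) L13320 (by decide +kernel)
theorem L13322 : W_2 (nat_lit 10) (nat_lit 0x3800000018000c0000000000000000000000000000000) (nat_lit 0x0) (nat_lit 0xa000400010000700738039c00000000000000000000000000) := T_2 (nat_lit 160) (nat_lit 193) (nat_lit 5) (nat_lit 7) (nat_lit 7) L13321 (by decide +kernel)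
theorem L13352 : W_2 (nat_lit 2) (nat_lit 0x3800100018000c0002000080000000000000000000000) (nat_lit 0x0) (nat_lit 0x10000c000000000000000000) := D_2 (nat_lit 92) (nat_lit 75) (nat_lit 74) (nat_lit 7) (nat_lit 7) (nat_lit 4) (nat_lit 4) (nat_lit 7) (nat_lit 8) (by decide +kernel)
theorem L13353 : W_2 (nat_lit 3) (nat_lit 0x3800100018000c0002000000000000000000000000000) (nat_lit 0x0) (nat_lit 0x100018000c000000000000000000) := T_2 (nat_lit 91) (nat_lit 108) (nat_lit 4) (nat_lit 7) (nat_lit 9) L13352 (by decide +kernel)
theorem L13354 : W_2 (nat_lit 4) (nat_lit 0x3800100018000c0000000000000000000000000000000) (nat_lit 0x0) (nat_lit 0x800000000000300018000c000000000000000000) := T_2 (nat_lit 109) (nat_lit 159) (nat_lit 5) (nat_lit 7) (nat_lit 6) L13353 (by decide +kernel)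
theorem L13355 : W_2 (nat_lit 5) (nat_lit 0x3800000018000c0000000000000000000000000000000) (nat_lit 0x0) (nat_lit 0x200000001800000000000300018000c000000000000000000) := T_2 (nat_lit 160) (nat_lit 193) (nat_lit 5) (nat_lit 7) (nat_lit 7) L13354 (by decide +kernel)
theorem L13356 : W_2 (nat_lit 2) (nat_lit 0x380008001c000c0000000000000000000000000000000) (nat_lit 0x0) (nat_lit 0x20002000100000000000000000000000) := D_2 (nat_lit 109) (nat_lit 125) (nat_lit 92) (nat_lit 6) (nat_lit 6) (nat_lit 10) (nat_lit 5) (nat_lit 7) (nat_lit 5) (by decide +kernel)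
theorem L13357 : W_2 (nat_lit 3) (nat_lit 0x380000001c000c0000000000000000000000000000000) (nat_lit 0x0) (nat_lit 0x2000000008000000020002000100000000000000000000000) := T_2 (nat_lit 159) (nat_lit 193) (nat_lit 6) (nat_lit 6) (nat_lit 11) L13356 (by decide +kernel)
theorem L13370 : W_2 (nat_lit 2) (nat_lit 0x11000780000001800080000000000000000000000000000000) (nat_lit 0x0) (nat_lit 0x22000800000000000000000000000000000000000000000000) := D_2 (nat_lit 179) (nat_lit 193) (nat_lit 197) (nat_lit 1) (nat_lit 9) (nat_lit 10) (nat_lit 3) (nat_lit 6) (nat_lit 10) (by decide +kernel)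
theorem L13371 : W_2 (nat_lit 3) (nat_lit 0x1000780000001800080000000000000000000000000000000) (nat_lit 0x0) (nat_lit 0x3a000800000000000000000000000000000000000000000000) := T_2 (nat_lit 196) (nat_lit 195) (nat_lit 3) (nat_lit 5) (nat_lit 10) L13370 (by decide +kernel)
theorem L13372 : W_2 (nat_lit 4) (nat_lit 0x780000001800080000000000000000000000000000000) (nat_lit 0x0) (nat_lit 0x3b800800000000000000000000000000000000000000000000) := T_2 (nat_lit 192) (nat_lit 191) (nat_lit 1) (nat_lit 8) (nat_lit 10) L13371 (by decide +kernel)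
theorem L13373 : W_2 (nat_lit 2) (nat_lit 0x88007c0000001e00090000000000000000000000000000000) (nat_lit 0x0) (nat_lit 0x3000100000000000000000000000000000000000) := D_2 (nat_lit 157) (nat_lit 156) (nat_lit 140) (nat_lit 0) (nat_lit 7) (nat_lit 10) (nat_lit 6) (nat_lit 4) (nat_lit 11) (by decide +kernel)
theorem L13374 : W_2 (nat_lit 3) (nat_lit 0x8800780000001e00090000000000000000000000000000000) (nat_lit 0x0) (nat_lit 0x400040003000100000000000000000000000000000000000) := T_2 (nat_lit 174) (nat_lit 190) (nat_lit 1) (nat_lit 7) (nat_lit 10) L13373 (by decide +kernel)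
theorem L13375 : W_2 (nat_lit 4) (nat_lit 0x8000780000001e00090000000000000000000000000000000) (nat_lit 0x0) (nat_lit 0x1c00040003000100000000000000000000000000000000000) := T_2 (nat_lit 191) (nat_lit 192) (nat_lit 1) (nat_lit 8) (nat_lit 10) L13374 (by decide +kernel)
theorem L13376 : W_2 (nat_lit 5) (nat_lit 0x8000780000001e00080000000000000000000000000000000) (nat_lit 0x0) (nat_lit 0x1c00040003000100018000000000000000000000000000000) := T_2 (nat_lit 124) (nat_lit 123) (nat_lit 0) (nat_lit 8) (nat_lit 8) L13375 (by decide +kernel)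
theorem L13377 : W_2 (nat_lit 6) (nat_lit 0x8000780000001a00080000000000000000000000000000000) (nat_lit 0x0) (nat_lit 0x1c00040003000500118000000000000000000000000000000) := T_2 (nat_lit 142) (nat_lit 128) (nat_lit 2) (nat_lit 5) (nat_lit 8) L13376 (by decide +kernel)
theorem L13378 : W_2 (nat_lit 7) (nat_lit 0x780000001a00080000000000000000000000000000000) (nat_lit 0x0) (nat_lit 0x19c00040003000500118000000000000000000000000000000) := T_2 (nat_lit 195) (nat_lit 196) (nat_lit 3) (nat_lit 5) (nat_lit 10) L13377 (by decide +kernel)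
theorem L13379 : W_2 (nat_lit 2) (nat_lit 0x1000780000001f00080000000000000000000000000000000) (nat_lit 0x0) (nat_lit 0x1c000000000000000000000000000000) := D_2 (nat_lit 123) (nat_lit 124) (nat_lit 122) (nat_lit 0) (nat_lit 8) (nat_lit 8) (nat_lit 0) (nat_lit 7) (nat_lit 8) (by decide +kernel)
theorem L13380 : W_2 (nat_lit 3) (nat_lit 0x1000780000001e00080000000000000000000000000000000) (nat_lit 0x0) (nat_lit 0x10005c000000000000000000000000000000) := T_2 (nat_lit 140) (nat_lit 126) (nat_lit 2) (nat_lit 4) (nat_lit 8) L13379 (by decide +kernel)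
theorem L13381 : W_2 (nat_lit 4) (nat_lit 0x1000780000001a00080000000000000000000000000000000) (nat_lit 0x0) (nat_lit 0x50015c000000000000000000000000000000) := T_2 (nat_lit 142) (nat_lit 128) (nat_lit 2) (nat_lit 5) (nat_lit 8) L13380 (by decide +kernel)
theorem L13382 : W_2 (nat_lit 5) (nat_lit 0x780000001a00080000000000000000000000000000000) (nat_lit 0x0) (nat_lit 0x180000000000050015c000000000000000000000000000000) := T_2 (nat_lit 192) (nat_lit 191) (nat_lit 1) (nat_lit 8) (nat_lit 10) L13381 (by decide +kernel)
theorem L13403 : W_2 (nat_lit 2) (nat_lit 0x10001f80080001800380000000000000000000000000000000) (nat_lit 0x0) (nat_lit 0x600040000000000000000000000000000000) := D_2 (nat_lit 142) (nat_lit 126) (nat_lit 141) (nat_lit 1) (nat_lit 10) (nat_lit 7) (nat_lit 2) (nat_lit 5) (nat_lit 8) (by decide +kernel)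
theorem L13404 : W_2 (nat_lit 3) (nat_lit 0x10001f80080001800280000000000000000000000000000000) (nat_lit 0x0) (nat_lit 0x600540000000000000000000000000000000) := T_2 (nat_lit 128) (nat_lit 130) (nat_lit 1) (nat_lit 11) (nat_lit 7) L13403 (by decide +kernel)
theorem L13405 : W_2 (nat_lit 4) (nat_lit 0x10001f80080001800080000000000000000000000000000000) (nat_lit 0x0) (nat_lit 0x4600740000000000000000000000000000000) := T_2 (nat_lit 129) (nat_lit 146) (nat_lit 5) (nat_lit 10) (nat_lit 7) L13404 (by decide +kernel)
theorem L13406 : W_2 (nat_lit 5) (nat_lit 0x10000f80080001800080000000000000000000000000000000) (nat_lit 0x0) (nat_lit 0x1000100004600740000000000000000000000000000000) := T_2 (nat_lit 180) (nat_lit 164) (nat_lit 2) (nat_lit 7) (nat_lit 10) L13405 (by decide +kernel)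
theorem L13407 : W_2 (nat_lit 6) (nat_lit 0x10000f80000001800080000000000000000000000000000000) (nat_lit 0x0) (nat_lit 0x10001c0004600740000000000000000000000000000000) := T_2 (nat_lit 163) (nat_lit 162) (nat_lit 2) (nat_lit 6) (nat_lit 10) L13406 (by decide +kernel)
theorem L13408 : W_2 (nat_lit 7) (nat_lit 0x10000780000001800080000000000000000000000000000000) (nat_lit 0x0) (nat_lit 0x200018001c0004600740000000000000000000000000000000) := T_2 (nat_lit 179) (nat_lit 197) (nat_lit 3) (nat_lit 6) (nat_lit 10) L13407 (by decide +kernel)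
theorem L13409 : W_2 (nat_lit 8) (nat_lit 0x780000001800080000000000000000000000000000000) (nat_lit 0x0) (nat_lit 0x380018001c0004600740000000000000000000000000000000) := T_2 (nat_lit 196) (nat_lit 195) (nat_lit 3) (nat_lit 5) (nat_lit 10) L13408 (by decide +kernel)
theorem L13410 : W_2 (nat_lit 2) (nat_lit 0x10000000041003f80080001800380000000000000000000000000000000) (nat_lit 0x0) (nat_lit 0x600040000000000000000000000000000000) := D_2 (nat_lit 142) (nat_lit 126) (nat_lit 141) (nat_lit 1) (nat_lit 10) (nat_lit 7) (nat_lit 2) (nat_lit 5) (nat_lit 8) (by decide +kernel)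
theorem L13411 : W_2 (nat_lit 3) (nat_lit 0x10000000041003f80080001800280000000000000000000000000000000) (nat_lit 0x0) (nat_lit 0x600540000000000000000000000000000000) := T_2 (nat_lit 128) (nat_lit 130) (nat_lit 1) (nat_lit 11) (nat_lit 7) L13410 (by decide +kernel)
theorem L13412 : W_2 (nat_lit 4) (nat_lit 0x10000000041003f80080001800080000000000000000000000000000000) (nat_lit 0x0) (nat_lit 0x4600740000000000000000000000000000000) := T_2 (nat_lit 129) (nat_lit 146) (nat_lit 7) (nat_lit 10) (nat_lit 7) L13411 (by decide +kernel)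
theorem L13413 : W_2 (nat_lit 5) (nat_lit 0x41003f80080001800080000000000000000000000000000000) (nat_lit 0x0) (nat_lit 0x10000800000000000000004600740000000000000000000000000000000) := T_2 (nat_lit 232) (nat_lit 215) (nat_lit 4) (nat_lit 11) (nat_lit 13) L13412 (by decide +kernel)
theorem L13414 : W_2 (nat_lit 6) (nat_lit 0x41001f80080001800080000000000000000000000000000000) (nat_lit 0x0) (nat_lit 0x10000800080002000000004600740000000000000000000000000000000) := T_2 (nat_lit 181) (nat_lit 199) (nat_lit 3) (nat_lit 8) (nat_lit 10) L13413 (by decide +kernel)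
theorem L13415 : W_2 (nat_lit 7) (nat_lit 0x1001f80080001800080000000000000000000000000000000) (nat_lit 0x0) (nat_lit 0x100008000e0002000000004600740000000000000000000000000000000) := T_2 (nat_lit 198) (nat_lit 197) (nat_lit 3) (nat_lit 7) (nat_lit 10) L13414 (by decide +kernel)
theorem L13416 : W_2 (nat_lit 8) (nat_lit 0x1000f80080001800080000000000000000000000000000000) (nat_lit 0x0) (nat_lit 0x100008000e0003000100004600740000000000000000000000000000000) := T_2 (nat_lit 180) (nat_lit 164) (nat_lit 2) (nat_lit 7) (nat_lit 10) L13415 (by decide +kernel)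
theorem L13417 : W_2 (nat_lit 9) (nat_lit 0x1000f80000001800080000000000000000000000000000000) (nat_lit 0x0) (nat_lit 0x100008000e00030001c0004600740000000000000000000000000000000) := T_2 (nat_lit 163) (nat_lit 162) (nat_lit 2) (nat_lit 6) (nat_lit 10) L13416 (by decide +kernel)
theorem L13418 : W_2 (nat_lit 10) (nat_lit 0x1000780000001800080000000000000000000000000000000) (nat_lit 0x0) (nat_lit 0x100008000e20038001c0004600740000000000000000000000000000000) := T_2 (nat_lit 179) (nat_lit 193) (nat_lit 1) (nat_lit 9) (nat_lit 10) L13417 (by decide +kernel)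
theorem L13419 : W_2 (nat_lit 11) (nat_lit 0x780000001800080000000000000000000000000000000) (nat_lit 0x0) (nat_lit 0x100008000e38038001c0004600740000000000000000000000000000000) := T_2 (nat_lit 192) (nat_lit 191) (nat_lit 1) (nat_lit 8) (nat_lit 10) L13418 (by decide +kernel)
theorem L13428 : W_2 (nat_lit 2) (nat_lit 0x380010001a001f0010800000000000000000000000000) (nat_lit 0x0) (nat_lit 0x600020000000000000000000000000000) := D_2 (nat_lit 129) (nat_lit 130) (nat_lit 113) (nat_lit 1) (nat_lit 11) (nat_lit 7) (nat_lit 2) (nat_lit 7) (nat_lit 7) (by decide +kernel)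
theorem L13429 : W_2 (nat_lit 3) (nat_lit 0x380010001a001f0000800000000000000000000000000) (nat_lit 0x0) (nat_lit 0x600038000000000000000000000000000) := T_2 (nat_lit 112) (nat_lit 111) (nat_lit 2) (nat_lit 6) (nat_lit 7) L13428 (by decide +kernel)
theorem L13430 : W_2 (nat_lit 4) (nat_lit 0x380010001a000f0000800000000000000000000000000) (nat_lit 0x0) (nat_lit 0x400700038000000000000000000000000000) := T_2 (nat_lit 128) (nat_lit 142) (nat_lit 2) (nat_lit 5) (nat_lit 8) L13429 (by decide +kernel)
theorem L13431 : W_2 (nat_lit 5) (nat_lit 0x380010001a000f0000000000000000000000000000000) (nat_lit 0x0) (nat_lit 0x400700038c00000000000000000000000000) := T_2 (nat_lit 107) (nat_lit 106) (nat_lit 0) (nat_lit 8) (nat_lit 7) L13430 (by decide +kernel)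
theorem L13432 : W_2 (nat_lit 6) (nat_lit 0x3800100018000f0000000000000000000000000000000) (nat_lit 0x0) (nat_lit 0x700700038c00000000000000000000000000) := T_2 (nat_lit 141) (nat_lit 140) (nat_lit 1) (nat_lit 8) (nat_lit 7) L13431 (by decide +kernel)
theorem L13433 : W_2 (nat_lit 7) (nat_lit 0x3800100018000e0000000000000000000000000000000) (nat_lit 0x0) (nat_lit 0x700718038c00000000000000000000000000) := T_2 (nat_lit 124) (nat_lit 123) (nat_lit 3) (nat_lit 4) (nat_lit 7) L13432 (by decide +kernel)
theorem L13434 : W_2 (nat_lit 8) (nat_lit 0x3800100018000c0000000000000000000000000000000) (nat_lit 0x0) (nat_lit 0x700738039c00000000000000000000000000) := T_2 (nat_lit 125) (nat_lit 108) (nat_lit 4) (nat_lit 7) (nat_lit 10) L13433 (by decide +kernel)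
theorem L13435 : W_2 (nat_lit 9) (nat_lit 0x3800000018000c0000000000000000000000000000000) (nat_lit 0x0) (nat_lit 0x2000000010000700738039c00000000000000000000000000) := T_2 (nat_lit 160) (nat_lit 193) (nat_lit 5) (nat_lit 7) (nat_lit 7) L13434 (by decide +kernel)
theorem L13454 : W_2 (nat_lit 2) (nat_lit 0x4000000010801fc0090001800380000000000000000000000000000000) (nat_lit 0x0) (nat_lit 0x600040000000000000000000000000000000) := D_2 (nat_lit 142) (nat_lit 126) (nat_lit 141) (nat_lit 1) (nat_lit 10) (nat_lit 7) (nat_lit 2) (nat_lit 5) (nat_lit 8) (by decide +kernel)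
theorem L13455 : W_2 (nat_lit 3) (nat_lit 0x4000000010801fc0090001800280000000000000000000000000000000) (nat_lit 0x0) (nat_lit 0x600540000000000000000000000000000000) := T_2 (nat_lit 128) (nat_lit 130) (nat_lit 1) (nat_lit 11) (nat_lit 7) L13454 (by decide +kernel)
theorem L13456 : W_2 (nat_lit 4) (nat_lit 0x4000000010801fc0090001800080000000000000000000000000000000) (nat_lit 0x0) (nat_lit 0x4600740000000000000000000000000000000) := T_2 (nat_lit 129) (nat_lit 146) (nat_lit 5) (nat_lit 10) (nat_lit 7) L13455 (by decide +kernel)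
theorem L13457 : W_2 (nat_lit 5) (nat_lit 0x10801fc0090001800080000000000000000000000000000000) (nat_lit 0x0) (nat_lit 0x4000200000000000000004600740000000000000000000000000000000) := T_2 (nat_lit 230) (nat_lit 213) (nat_lit 6) (nat_lit 9) (nat_lit 13) L13456 (by decide +kernel)
theorem L13458 : W_2 (nat_lit 6) (nat_lit 0x10801fc0080001800080000000000000000000000000000000) (nat_lit 0x0) (nat_lit 0x4000200000000000018004600740000000000000000000000000000000) := T_2 (nat_lit 160) (nat_lit 159) (nat_lit 0) (nat_lit 10) (nat_lit 10) L13457 (by decide +kernel)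
theorem L13459 : W_2 (nat_lit 7) (nat_lit 0x10800fc0080001800080000000000000000000000000000000) (nat_lit 0x0) (nat_lit 0x4000200000001000118004600740000000000000000000000000000000) := T_2 (nat_lit 180) (nat_lit 164) (nat_lit 2) (nat_lit 7) (nat_lit 10) L13458 (by decide +kernel)
theorem L13460 : W_2 (nat_lit 8) (nat_lit 0x10800fc0000001800080000000000000000000000000000000) (nat_lit 0x0) (nat_lit 0x40002000000010001d8004600740000000000000000000000000000000) := T_2 (nat_lit 163) (nat_lit 162) (nat_lit 2) (nat_lit 6) (nat_lit 10) L13459 (by decide +kernel)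
theorem L13461 : W_2 (nat_lit 9) (nat_lit 0x108007c0000001800080000000000000000000000000000000) (nat_lit 0x0) (nat_lit 0x40002000200018001d8004600740000000000000000000000000000000) := T_2 (nat_lit 179) (nat_lit 197) (nat_lit 3) (nat_lit 6) (nat_lit 10) L13460 (by decide +kernel)
theorem L13462 : W_2 (nat_lit 10) (nat_lit 0x8007c0000001800080000000000000000000000000000000) (nat_lit 0x0) (nat_lit 0x40002000380018001d8004600740000000000000000000000000000000) := T_2 (nat_lit 196) (nat_lit 195) (nat_lit 3) (nat_lit 5) (nat_lit 10) L13461 (by decide +kernel)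
theorem L13463 : W_2 (nat_lit 11) (nat_lit 0x8003c0000001800080000000000000000000000000000000) (nat_lit 0x0) (nat_lit 0x4000200039001c001d8004600740000000000000000000000000000000) := T_2 (nat_lit 178) (nat_lit 192) (nat_lit 1) (nat_lit 8) (nat_lit 10) L13462 (by decide +kernel)
theorem L13464 : W_2 (nat_lit 12) (nat_lit 0x3c0000001800080000000000000000000000000000000) (nat_lit 0x0) (nat_lit 0x4000200039c01c001d8004600740000000000000000000000000000000) := T_2 (nat_lit 191) (nat_lit 190) (nat_lit 1) (nat_lit 7) (nat_lit 10) L13463 (by decide +kernel)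
theorem L13468 : W_2 (nat_lit 2) (nat_lit 0x3c0000001f00080000000000000000000000000000000) (nat_lit 0x0) (nat_lit 0x1c000000000000000000000000000000) := D_2 (nat_lit 123) (nat_lit 122) (nat_lit 124) (nat_lit 0) (nat_lit 7) (nat_lit 8) (nat_lit 0) (nat_lit 8) (nat_lit 8) (by decide +kernel)
theorem L13469 : W_2 (nat_lit 3) (nat_lit 0x3c0000001e00080000000000000000000000000000000) (nat_lit 0x0) (nat_lit 0x10005c000000000000000000000000000000) := T_2 (nat_lit 140) (nat_lit 126) (nat_lit 2) (nat_lit 4) (nat_lit 8) L13468 (by decide +kernel)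
theorem L13470 : W_2 (nat_lit 4) (nat_lit 0x3c0000001c00080000000000000000000000000000000) (nat_lit 0x0) (nat_lit 0x30015c000000000000000000000000000000) := T_2 (nat_lit 141) (nat_lit 128) (nat_lit 2) (nat_lit 5) (nat_lit 8) L13469 (by decide +kernel)
theorem L13485 : W_2 (nat_lit 2) (nat_lit 0x4003e0009001c000b0000000000000000000000000000000) (nat_lit 0x0) (nat_lit 0x4c000000000000000000000000000000) := D_2 (nat_lit 123) (nat_lit 126) (nat_lit 122) (nat_lit 3) (nat_lit 4) (nat_lit 7) (nat_lit 3) (nat_lit 3) (nat_lit 7) (by decide +kernel)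
theorem L13486 : W_2 (nat_lit 3) (nat_lit 0x4003e0009001c000a0000000000000000000000000000000) (nat_lit 0x0) (nat_lit 0x5c000800000000000000000000000000) := T_2 (nat_lit 124) (nat_lit 107) (nat_lit 4) (nat_lit 6) (nat_lit 10) L13485 (by decide +kernel)
theorem L13487 : W_2 (nat_lit 4) (nat_lit 0x4003e0009001c00080000000000000000000000000000000) (nat_lit 0x0) (nat_lit 0x100000000000000007c000800000000000000000000000000) := T_2 (nat_lit 125) (nat_lit 192) (nat_lit 5) (nat_lit 6) (nat_lit 7) L13486 (by decide +kernel)
theorem L13488 : W_2 (nat_lit 5) (nat_lit 0x4003e0001001c00080000000000000000000000000000000) (nat_lit 0x0) (nat_lit 0x100000001800000007c000800000000000000000000000000) := T_2 (nat_lit 159) (nat_lit 160) (nat_lit 2) (nat_lit 3) (nat_lit 10) L13487 (by decide +kernel)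
theorem L13489 : W_2 (nat_lit 6) (nat_lit 0x3e0001001c00080000000000000000000000000000000) (nat_lit 0x0) (nat_lit 0x160000001800000007c000800000000000000000000000000) := T_2 (nat_lit 190) (nat_lit 189) (nat_lit 1) (nat_lit 6) (nat_lit 10) L13488 (by decide +kernel)
theorem L13490 : W_2 (nat_lit 7) (nat_lit 0x3c0001001c00080000000000000000000000000000000) (nat_lit 0x0) (nat_lit 0x160002001880000007c000800000000000000000000000000) := T_2 (nat_lit 173) (nat_lit 155) (nat_lit 0) (nat_lit 6) (nat_lit 10) L13489 (by decide +kernel)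
theorem L13491 : W_2 (nat_lit 8) (nat_lit 0x3c0000001c00080000000000000000000000000000000) (nat_lit 0x0) (nat_lit 0x160002001b80000007c000800000000000000000000000000) := T_2 (nat_lit 156) (nat_lit 157) (nat_lit 0) (nat_lit 7) (nat_lit 10) L13490 (by decide +kernel)
theorem L13492 : W_2 (nat_lit 2) (nat_lit 0x3c0002001f00080000000000000000000000000000000) (nat_lit 0x0) (nat_lit 0x100000000000000000c000000000000000000000000000000) := D_2 (nat_lit 123) (nat_lit 122) (nat_lit 192) (nat_lit 0) (nat_lit 7) (nat_lit 8) (nat_lit 7) (nat_lit 4) (nat_lit 7) (by decide +kernel)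
theorem L13493 : W_2 (nat_lit 3) (nat_lit 0x3c0002001e00080000000000000000000000000000000) (nat_lit 0x0) (nat_lit 0x100000000000010004c000000000000000000000000000000) := T_2 (nat_lit 140) (nat_lit 126) (nat_lit 2) (nat_lit 4) (nat_lit 8) L13492 (by decide +kernel)
theorem L13494 : W_2 (nat_lit 4) (nat_lit 0x3c0002001c00080000000000000000000000000000000) (nat_lit 0x0) (nat_lit 0x100000000000030014c000000000000000000000000000000) := T_2 (nat_lit 141) (nat_lit 128) (nat_lit 2) (nat_lit 5) (nat_lit 8) L13493 (by decide +kernel)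
theorem L13495 : W_2 (nat_lit 5) (nat_lit 0x3c0000001c00080000000000000000000000000000000) (nat_lit 0x0) (nat_lit 0x100000000300030014c000000000000000000000000000000) := T_2 (nat_lit 157) (nat_lit 156) (nat_lit 0) (nat_lit 7) (nat_lit 10) L13494 (by decide +kernel)
theorem L13496 : W_2 (nat_lit 2) (nat_lit 0x3c0001001f00080000000000000000000000000000000) (nat_lit 0x0) (nat_lit 0x20000800080000000000000000000000000000000000) := D_2 (nat_lit 155) (nat_lit 173) (nat_lit 139) (nat_lit 0) (nat_lit 6) (nat_lit 10) (nat_lit 1) (nat_lit 6) (nat_lit 8) (by decide +kernel)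
theorem L13497 : W_2 (nat_lit 3) (nat_lit 0x3c0000001f00080000000000000000000000000000000) (nat_lit 0x0) (nat_lit 0x20003800080000000000000000000000000000000000) := T_2 (nat_lit 156) (nat_lit 157) (nat_lit 1) (nat_lit 7) (nat_lit 8) L13496 (by decide +kernel)
theorem L13498 : W_2 (nat_lit 4) (nat_lit 0x3c0000001e00080000000000000000000000000000000) (nat_lit 0x0) (nat_lit 0x20003800180040000000000000000000000000000000) := T_2 (nat_lit 140) (nat_lit 126) (nat_lit 2) (nat_lit 4) (nat_lit 8) L13497 (by decide +kernel)
theorem L13499 : W_2 (nat_lit 5) (nat_lit 0x3c0000001c00080000000000000000000000000000000) (nat_lit 0x0) (nat_lit 0x20003800380140000000000000000000000000000000) := T_2 (nat_lit 141) (nat_lit 128) (nat_lit 2) (nat_lit 5) (nat_lit 8) L13498 (by decide +kernel)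
theorem L13505 : W_2 (nat_lit 2) (nat_lit 0x24000000090017c0018001e00088000000000000000000000000000000) (nat_lit 0x0) (nat_lit 0x180004000000000000000000000000000000) := D_2 (nat_lit 140) (nat_lit 139) (nat_lit 122) (nat_lit 3) (nat_lit 3) (nat_lit 8) (nat_lit 0) (nat_lit 7) (nat_lit 8) (by decide +kernel)
theorem L13506 : W_2 (nat_lit 3) (nat_lit 0x24000000090017c0018001e00080000000000000000000000000000000) (nat_lit 0x0) (nat_lit 0x18001c000000000000000000000000000000) := T_2 (nat_lit 123) (nat_lit 124) (nat_lit 0) (nat_lit 8) (nat_lit 8) L13505 (by decide +kernel)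
theorem L13507 : W_2 (nat_lit 4) (nat_lit 0x24000000090017c0018001c00080000000000000000000000000000000) (nat_lit 0x0) (nat_lit 0x38011c000000000000000000000000000000) := T_2 (nat_lit 141) (nat_lit 128) (nat_lit 2) (nat_lit 5) (nat_lit 8) L13506 (by decide +kernel)
theorem L13508 : W_2 (nat_lit 5) (nat_lit 0x24000000090017c0018001800080000000000000000000000000000000) (nat_lit 0x0) (nat_lit 0x78013c000000000000000000000000000000) := T_2 (nat_lit 142) (nat_lit 125) (nat_lit 5) (nat_lit 6) (nat_lit 7) L13507 (by decide +kernel)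
theorem L13509 : W_2 (nat_lit 6) (nat_lit 0x20000000090017c0018001800080000000000000000000000000000000) (nat_lit 0x0) (nat_lit 0x40002000000000000000078013c000000000000000000000000000000) := T_2 (nat_lit 226) (nat_lit 209) (nat_lit 6) (nat_lit 5) (nat_lit 13) L13508 (by decide +kernel)
theorem L13510 : W_2 (nat_lit 7) (nat_lit 0x20000000090007c0018001800080000000000000000000000000000000) (nat_lit 0x0) (nat_lit 0x40002000000180000000078013c000000000000000000000000000000) := T_2 (nat_lit 180) (nat_lit 179) (nat_lit 0) (nat_lit 10) (nat_lit 10) L13509 (by decide +kernel)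
theorem L13511 : W_2 (nat_lit 8) (nat_lit 0x20000000090007c0010001800080000000000000000000000000000000) (nat_lit 0x0) (nat_lit 0x40002000000182000800078013c000000000000000000000000000000) := T_2 (nat_lit 159) (nat_lit 173) (nat_lit 2) (nat_lit 3) (nat_lit 10) L13510 (by decide +kernel)
theorem L13512 : W_2 (nat_lit 9) (nat_lit 0x90007c0010001800080000000000000000000000000000000) (nat_lit 0x0) (nat_lit 0x240012000000182000800078013c000000000000000000000000000000) := T_2 (nat_lit 229) (nat_lit 212) (nat_lit 4) (nat_lit 8) (nat_lit 13) L13511 (by decide +kernel)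
theorem L13513 : W_2 (nat_lit 10) (nat_lit 0x90007c0000001800080000000000000000000000000000000) (nat_lit 0x0) (nat_lit 0x240012000000182001800078017c000000000000000000000000000000) := T_2 (nat_lit 160) (nat_lit 126) (nat_lit 7) (nat_lit 7) (nat_lit 7) L13512 (by decide +kernel)
theorem L13514 : W_2 (nat_lit 11) (nat_lit 0x80007c0000001800080000000000000000000000000000000) (nat_lit 0x0) (nat_lit 0x240012000180182001800078017c000000000000000000000000000000) := T_2 (nat_lit 192) (nat_lit 191) (nat_lit 1) (nat_lit 8) (nat_lit 10) L13513 (by decide +kernel)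
theorem L13515 : W_2 (nat_lit 12) (nat_lit 0x7c0000001800080000000000000000000000000000000) (nat_lit 0x0) (nat_lit 0x240012001980182001800078017c000000000000000000000000000000) := T_2 (nat_lit 195) (nat_lit 196) (nat_lit 3) (nat_lit 5) (nat_lit 10) L13514 (by decide +kernel)
theorem L13516 : W_2 (nat_lit 2) (nat_lit 0x4000000010007e0009001f00080000000000000000000000000000000) (nat_lit 0x0) (nat_lit 0x1c000000000000000000000000000000) := D_2 (nat_lit 123) (nat_lit 122) (nat_lit 124) (nat_lit 0) (nat_lit 7) (nat_lit 8) (nat_lit 0) (nat_lit 8) (nat_lit 8) (by decide +kernel)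
theorem L13517 : W_2 (nat_lit 3) (nat_lit 0x4000000010007e0009001e00080000000000000000000000000000000) (nat_lit 0x0) (nat_lit 0x10005c000000000000000000000000000000) := T_2 (nat_lit 140) (nat_lit 126) (nat_lit 2) (nat_lit 4) (nat_lit 8) L13516 (by decide +kernel)
theorem L13518 : W_2 (nat_lit 4) (nat_lit 0x4000000010007e0009001c00080000000000000000000000000000000) (nat_lit 0x0) (nat_lit 0x30015c000000000000000000000000000000) := T_2 (nat_lit 141) (nat_lit 128) (nat_lit 2) (nat_lit 5) (nat_lit 8) L13517 (by decide +kernel)
theorem L13519 : W_2 (nat_lit 5) (nat_lit 0x10007e0009001c00080000000000000000000000000000000) (nat_lit 0x0) (nat_lit 0x40002000000000000000030015c000000000000000000000000000000) := T_2 (nat_lit 226) (nat_lit 209) (nat_lit 6) (nat_lit 5) (nat_lit 13) L13518 (by decide +kernel)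
theorem L13520 : W_2 (nat_lit 6) (nat_lit 0x10007e0009001800080000000000000000000000000000000) (nat_lit 0x0) (nat_lit 0x40002000000000000000070017c000000000000000000000000000000) := T_2 (nat_lit 142) (nat_lit 125) (nat_lit 5) (nat_lit 6) (nat_lit 7) L13519 (by decide +kernel)
theorem L13521 : W_2 (nat_lit 7) (nat_lit 0x10007e0001001800080000000000000000000000000000000) (nat_lit 0x0) (nat_lit 0x40002000000000001800070017c000000000000000000000000000000) := T_2 (nat_lit 159) (nat_lit 160) (nat_lit 2) (nat_lit 3) (nat_lit 10) L13520 (by decide +kernel)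
theorem L13522 : W_2 (nat_lit 8) (nat_lit 0x10007c0001001800080000000000000000000000000000000) (nat_lit 0x0) (nat_lit 0x40002000000002001880070017c000000000000000000000000000000) := T_2 (nat_lit 173) (nat_lit 155) (nat_lit 0) (nat_lit 6) (nat_lit 10) L13521 (by decide +kernel)
theorem L13552 : W_2 (nat_lit 2) (nat_lit 0x4800000012003f0009001e00084000000000000000000000000000000) (nat_lit 0x0) (nat_lit 0x100018000000000000000000000000000000) := D_2 (nat_lit 123) (nat_lit 124) (nat_lit 140) (nat_lit 0) (nat_lit 8) (nat_lit 8) (nat_lit 0) (nat_lit 7) (nat_lit 8) (by decide +kernel)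
theorem L13553 : W_2 (nat_lit 3) (nat_lit 0x4800000012003f0009001c00084000000000000000000000000000000) (nat_lit 0x0) (nat_lit 0x300118000000000000000000000000000000) := T_2 (nat_lit 141) (nat_lit 128) (nat_lit 2) (nat_lit 5) (nat_lit 8) L13552 (by decide +kernel)
theorem L13554 : W_2 (nat_lit 4) (nat_lit 0x4800000012003f0009001c00080000000000000000000000000000000) (nat_lit 0x0) (nat_lit 0x38011c000000000000000000000000000000) := T_2 (nat_lit 122) (nat_lit 139) (nat_lit 5) (nat_lit 3) (nat_lit 7) L13553 (by decide +kernel)
theorem L13555 : W_2 (nat_lit 5) (nat_lit 0x4800000012003f0009001800080000000000000000000000000000000) (nat_lit 0x0) (nat_lit 0x78013c000000000000000000000000000000) := T_2 (nat_lit 142) (nat_lit 125) (nat_lit 5) (nat_lit 6) (nat_lit 7) L13554 (by decide +kernel)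
theorem L13556 : W_2 (nat_lit 6) (nat_lit 0x800000012003f0009001800080000000000000000000000000000000) (nat_lit 0x0) (nat_lit 0x40002000000000000000078013c000000000000000000000000000000) := T_2 (nat_lit 226) (nat_lit 209) (nat_lit 6) (nat_lit 5) (nat_lit 13) L13555 (by decide +kernel)
theorem L13557 : W_2 (nat_lit 7) (nat_lit 0x12003f0009001800080000000000000000000000000000000) (nat_lit 0x0) (nat_lit 0x48002400000000000000078013c000000000000000000000000000000) := T_2 (nat_lit 223) (nat_lit 206) (nat_lit 6) (nat_lit 2) (nat_lit 13) L13556 (by decide +kernel)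
theorem L13558 : W_2 (nat_lit 8) (nat_lit 0x2003f0009001800080000000000000000000000000000000) (nat_lit 0x0) (nat_lit 0x48002400300000000000078013c000000000000000000000000000000) := T_2 (nat_lit 192) (nat_lit 193) (nat_lit 3) (nat_lit 2) (nat_lit 10) L13557 (by decide +kernel)
theorem L13559 : W_2 (nat_lit 9) (nat_lit 0x2003e0009001800080000000000000000000000000000000) (nat_lit 0x0) (nat_lit 0x48002400310001000000078013c000000000000000000000000000000) := T_2 (nat_lit 172) (nat_lit 188) (nat_lit 1) (nat_lit 5) (nat_lit 10) L13558 (by decide +kernel)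
theorem L13563 : W_2 (nat_lit 2) (nat_lit 0x12003f0008801800080000000000000000000000000000000) (nat_lit 0x0) (nat_lit 0x800408000000000000000000000000000000000000000000) := D_2 (nat_lit 191) (nat_lit 171) (nat_lit 178) (nat_lit 3) (nat_lit 1) (nat_lit 10) (nat_lit 1) (nat_lit 8) (nat_lit 10) (by decide +kernel)
theorem L13564 : W_2 (nat_lit 3) (nat_lit 0x2003f0008801800080000000000000000000000000000000) (nat_lit 0x0) (nat_lit 0x3800408000000000000000000000000000000000000000000) := T_2 (nat_lit 192) (nat_lit 193) (nat_lit 3) (nat_lit 2) (nat_lit 10) L13563 (by decide +kernel)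
theorem L13565 : W_2 (nat_lit 4) (nat_lit 0x3f0008801800080000000000000000000000000000000) (nat_lit 0x0) (nat_lit 0x3b00408000000000000000000000000000000000000000000) := T_2 (nat_lit 189) (nat_lit 188) (nat_lit 1) (nat_lit 5) (nat_lit 10) L13564 (by decide +kernel)
theorem L13566 : W_2 (nat_lit 5) (nat_lit 0x3e0008801800080000000000000000000000000000000) (nat_lit 0x0) (nat_lit 0x3b00418000400000000000000000000000000000000000000) := T_2 (nat_lit 172) (nat_lit 154) (nat_lit 0) (nat_lit 5) (nat_lit 10) L13565 (by decide +kernel)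
theorem L13575 : W_2 (nat_lit 10) (nat_lit 0x2003e0001001800080000000000000000000000000000000) (nat_lit 0x0) (nat_lit 0x48002400310001001800078013c000000000000000000000000000000) := T_2 (nat_lit 159) (nat_lit 160) (nat_lit 2) (nat_lit 3) (nat_lit 10) L13559 (by decide +kernel)
theorem L13576 : W_2 (nat_lit 11) (nat_lit 0x3e0001001800080000000000000000000000000000000) (nat_lit 0x0) (nat_lit 0x48002400370001001800078013c000000000000000000000000000000) := T_2 (nat_lit 189) (nat_lit 190) (nat_lit 1) (nat_lit 6) (nat_lit 10) L13575 (by decide +kernel)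
theorem L13577 : W_2 (nat_lit 12) (nat_lit 0x3c0001001800080000000000000000000000000000000) (nat_lit 0x0) (nat_lit 0x48002400370003001880078013c000000000000000000000000000000) := T_2 (nat_lit 173) (nat_lit 155) (nat_lit 0) (nat_lit 6) (nat_lit 10) L13576 (by decide +kernel)
theorem L13578 : W_2 (nat_lit 13) (nat_lit 0x3c0000001800080000000000000000000000000000000) (nat_lit 0x0) (nat_lit 0x48002400370003001b80078013c000000000000000000000000000000) := T_2 (nat_lit 156) (nat_lit 157) (nat_lit 0) (nat_lit 7) (nat_lit 10) L13577 (by decide +kernel)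
theorem L13579 : W_2 (nat_lit 2) (nat_lit 0x18003c0002001800080000000000000000000000000000000) (nat_lit 0x0) (nat_lit 0x400020000000000000000100000000000000000000000000000000000) := D_2 (nat_lit 209) (nat_lit 226) (nat_lit 140) (nat_lit 4) (nat_lit 5) (nat_lit 13) (nat_lit 7) (nat_lit 4) (nat_lit 8) (by decide +kernel)
theorem L13580 : W_2 (nat_lit 3) (nat_lit 0x8003c0002001800080000000000000000000000000000000) (nat_lit 0x0) (nat_lit 0x400020001000400000000100000000000000000000000000000000000) := T_2 (nat_lit 192) (nat_lit 178) (nat_lit 1) (nat_lit 8) (nat_lit 10) L13579 (by decide +kernel)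
theorem L13583 : W_2 (nat_lit 2) (nat_lit 0x1000fc0000001800080000000000000000000000000000000) (nat_lit 0x0) (nat_lit 0x38000000000000000000000000000000000000000000000000) := D_2 (nat_lit 196) (nat_lit 195) (nat_lit 197) (nat_lit 3) (nat_lit 5) (nat_lit 10) (nat_lit 3) (nat_lit 6) (nat_lit 10) (by decide +kernel)
theorem L13584 : W_2 (nat_lit 3) (nat_lit 0x10007c0000001800080000000000000000000000000000000) (nat_lit 0x0) (nat_lit 0x3a000800000000000000000000000000000000000000000000) := T_2 (nat_lit 179) (nat_lit 193) (nat_lit 1) (nat_lit 9) (nat_lit 10) L13583 (by decide +kernel)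
theorem L13585 : W_2 (nat_lit 4) (nat_lit 0x10003c0000001800080000000000000000000000000000000) (nat_lit 0x0) (nat_lit 0x3a800c00000000000000000000000000000000000000000000) := T_2 (nat_lit 178) (nat_lit 191) (nat_lit 1) (nat_lit 8) (nat_lit 10) L13584 (by decide +kernel)
theorem L13586 : W_2 (nat_lit 2) (nat_lit 0x200010003c0002001800080000000000000000000000000000000) (nat_lit 0x0) (nat_lit 0x800000000000100008000000000000000000000000000000) := D_2 (nat_lit 140) (nat_lit 123) (nat_lit 191) (nat_lit 7) (nat_lit 4) (nat_lit 7) (nat_lit 7) (nat_lit 4) (nat_lit 8) (by decide +kernel)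
theorem L13587 : W_2 (nat_lit 3) (nat_lit 0x10003c0002001800080000000000000000000000000000000) (nat_lit 0x0) (nat_lit 0x400020000800000000000100008000000000000000000000000000000) := T_2 (nat_lit 209) (nat_lit 226) (nat_lit 4) (nat_lit 5) (nat_lit 13) L13586 (by decide +kernel)
theorem L13588 : W_2 (nat_lit 4) (nat_lit 0x10003c0000001800080000000000000000000000000000000) (nat_lit 0x0) (nat_lit 0x400020000800000003000100008000000000000000000000000000000) := T_2 (nat_lit 157) (nat_lit 156) (nat_lit 0) (nat_lit 7) (nat_lit 10) L13587 (by decide +kernel)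
theorem L13589 : W_2 (nat_lit 8) (nat_lit 0x10003f0009001800080000000000000000000000000000000) (nat_lit 0x0) (nat_lit 0x48002400030000000000078013c000000000000000000000000000000) := T_2 (nat_lit 189) (nat_lit 188) (nat_lit 1) (nat_lit 5) (nat_lit 10) L13557 (by decide +kernel)
theorem L13590 : W_2 (nat_lit 9) (nat_lit 0x10003e0009001800080000000000000000000000000000000) (nat_lit 0x0) (nat_lit 0x48002400230001000000078013c000000000000000000000000000000) := T_2 (nat_lit 172) (nat_lit 193) (nat_lit 3) (nat_lit 2) (nat_lit 10) L13589 (by decide +kernel)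
theorem L13591 : W_2 (nat_lit 10) (nat_lit 0x10003e0001001800080000000000000000000000000000000) (nat_lit 0x0) (nat_lit 0x48002400230001001800078013c000000000000000000000000000000) := T_2 (nat_lit 159) (nat_lit 160) (nat_lit 2) (nat_lit 3) (nat_lit 10) L13590 (by decide +kernel)
theorem L13592 : W_2 (nat_lit 11) (nat_lit 0x10003c0001001800080000000000000000000000000000000) (nat_lit 0x0) (nat_lit 0x48002400230003001880078013c000000000000000000000000000000) := T_2 (nat_lit 173) (nat_lit 155) (nat_lit 0) (nat_lit 6) (nat_lit 10) L13591 (by decide +kernel)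
theorem L13593 : W_2 (nat_lit 12) (nat_lit 0x10003c0000001800080000000000000000000000000000000) (nat_lit 0x0) (nat_lit 0x48002400230003001b80078013c000000000000000000000000000000) := T_2 (nat_lit 156) (nat_lit 157) (nat_lit 0) (nat_lit 7) (nat_lit 10) L13592 (by decide +kernel)
theorem L13595 : W_2 (nat_lit 2) (nat_lit 0x3c0008001e00090000000000000000000000000000000) (nat_lit 0x0) (nat_lit 0x1000000000000000020000800000000000000000000000000) := D_2 (nat_lit 125) (nat_lit 107) (nat_lit 192) (nat_lit 4) (nat_lit 6) (nat_lit 10) (nat_lit 5) (nat_lit 6) (nat_lit 7) (by decide +kernel)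
theorem L13596 : W_2 (nat_lit 3) (nat_lit 0x3c0000001e00090000000000000000000000000000000) (nat_lit 0x0) (nat_lit 0x3000000008000000020000800000000000000000000000000) := T_2 (nat_lit 159) (nat_lit 193) (nat_lit 4) (nat_lit 6) (nat_lit 11) L13595 (by decide +kernel)
theorem L13597 : W_2 (nat_lit 4) (nat_lit 0x3c0000001e00080000000000000000000000000000000) (nat_lit 0x0) (nat_lit 0x3000000008000000038000800000000000000000000000000) := T_2 (nat_lit 124) (nat_lit 123) (nat_lit 0) (nat_lit 8) (nat_lit 8) L13596 (by decide +kernel)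
theorem L13598 : W_2 (nat_lit 5) (nat_lit 0x3c0000001c00080000000000000000000000000000000) (nat_lit 0x0) (nat_lit 0x3000000008000200138000800000000000000000000000000) := T_2 (nat_lit 141) (nat_lit 128) (nat_lit 2) (nat_lit 5) (nat_lit 8) L13597 (by decide +kernel)
theorem L13599 : W_2 (nat_lit 2) (nat_lit 0x8003c0008001e00090000000000000000000000000000000) (nat_lit 0x0) (nat_lit 0x20000800040000000000000000000000) := D_2 (nat_lit 107) (nat_lit 125) (nat_lit 90) (nat_lit 4) (nat_lit 6) (nat_lit 10) (nat_lit 7) (nat_lit 5) (nat_lit 5) (by decide +kernel)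
theorem L13600 : W_2 (nat_lit 3) (nat_lit 0x8003c0000001e00090000000000000000000000000000000) (nat_lit 0x0) (nat_lit 0x2000000008000000020000800040000000000000000000000) := T_2 (nat_lit 159) (nat_lit 193) (nat_lit 4) (nat_lit 6) (nat_lit 11) L13599 (by decide +kernel)
theorem L13601 : W_2 (nat_lit 4) (nat_lit 0x3c0000001e00090000000000000000000000000000000) (nat_lit 0x0) (nat_lit 0x2c00000008000000020000800040000000000000000000000) := T_2 (nat_lit 191) (nat_lit 190) (nat_lit 1) (nat_lit 7) (nat_lit 10) L13600 (by decide +kernel)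
theorem L13602 : W_2 (nat_lit 5) (nat_lit 0x3c0000001e00080000000000000000000000000000000) (nat_lit 0x0) (nat_lit 0x2c00000008000000038000800040000000000000000000000) := T_2 (nat_lit 124) (nat_lit 123) (nat_lit 0) (nat_lit 8) (nat_lit 8) L13601 (by decide +kernel)
theorem L13603 : W_2 (nat_lit 6) (nat_lit 0x3c0000001c00080000000000000000000000000000000) (nat_lit 0x0) (nat_lit 0x2c00000008000200138000800040000000000000000000000) := T_2 (nat_lit 141) (nat_lit 128) (nat_lit 2) (nat_lit 5) (nat_lit 8) L13602 (by decide +kernel)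
theorem L13604 : W_2 (nat_lit 2) (nat_lit 0x18003c0000001e00088000000000000000000000000000000) (nat_lit 0x0) (nat_lit 0x2000100004000000000000000000000000000000) := D_2 (nat_lit 140) (nat_lit 122) (nat_lit 157) (nat_lit 0) (nat_lit 7) (nat_lit 8) (nat_lit 7) (nat_lit 4) (nat_lit 7) (by decide +kernel)
theorem L13605 : W_2 (nat_lit 3) (nat_lit 0x8003c0000001e00088000000000000000000000000000000) (nat_lit 0x0) (nat_lit 0x1000400002000100004000000000000000000000000000000) := T_2 (nat_lit 192) (nat_lit 178) (nat_lit 1) (nat_lit 8) (nat_lit 10) L13604 (by decide +kernel)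
theorem L13606 : W_2 (nat_lit 4) (nat_lit 0x8003c0000001e00080000000000000000000000000000000) (nat_lit 0x0) (nat_lit 0x100040000200010001c000000000000000000000000000000) := T_2 (nat_lit 123) (nat_lit 124) (nat_lit 0) (nat_lit 8) (nat_lit 8) L13605 (by decide +kernel)
theorem L13607 : W_2 (nat_lit 5) (nat_lit 0x8003c0000001c00080000000000000000000000000000000) (nat_lit 0x0) (nat_lit 0x100040000200030011c000000000000000000000000000000) := T_2 (nat_lit 141) (nat_lit 128) (nat_lit 2) (nat_lit 5) (nat_lit 8) L13606 (by decide +kernel)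
theorem L13608 : W_2 (nat_lit 6) (nat_lit 0x3c0000001c00080000000000000000000000000000000) (nat_lit 0x0) (nat_lit 0x1c0040000200030011c000000000000000000000000000000) := T_2 (nat_lit 191) (nat_lit 190) (nat_lit 1) (nat_lit 7) (nat_lit 10) L13607 (by decide +kernel)
theorem L13609 : W_2 (nat_lit 2) (nat_lit 0x18003c0008001c00080000000000000000000000000000000) (nat_lit 0x0) (nat_lit 0x400020002000000000000000000000000000000000000000000000000) := D_2 (nat_lit 209) (nat_lit 193) (nat_lit 226) (nat_lit 5) (nat_lit 6) (nat_lit 8) (nat_lit 6) (nat_lit 5) (nat_lit 13) (by decide +kernel)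
theorem L13610 : W_2 (nat_lit 3) (nat_lit 0x18003c0000001c00080000000000000000000000000000000) (nat_lit 0x0) (nat_lit 0x400020002000000008000000020000000000000000000000000000000) := T_2 (nat_lit 159) (nat_lit 125) (nat_lit 5) (nat_lit 6) (nat_lit 7) L13609 (by decide +kernel)
theorem L13611 : W_2 (nat_lit 4) (nat_lit 0x8003c0000001c00080000000000000000000000000000000) (nat_lit 0x0) (nat_lit 0x400020003000400008000000020000000000000000000000000000000) := T_2 (nat_lit 192) (nat_lit 178) (nat_lit 1) (nat_lit 8) (nat_lit 10) L13610 (by decide +kernel)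
theorem L13612 : W_2 (nat_lit 5) (nat_lit 0x3c0000001c00080000000000000000000000000000000) (nat_lit 0x0) (nat_lit 0x400020003c00400008000000020000000000000000000000000000000) := T_2 (nat_lit 191) (nat_lit 190) (nat_lit 1) (nat_lit 7) (nat_lit 10) L13611 (by decide +kernel)
theorem L13615 : W_2 (nat_lit 2) (nat_lit 0x800000022003f0009001c00080000000000000000000000000000000) (nat_lit 0x0) (nat_lit 0x200110000000000000000000000000000000) := D_2 (nat_lit 141) (nat_lit 124) (nat_lit 128) (nat_lit 4) (nat_lit 6) (nat_lit 11) (nat_lit 2) (nat_lit 5) (nat_lit 8) (by decide +kernel)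
theorem L13616 : W_2 (nat_lit 3) (nat_lit 0x800000022003f0009001800080000000000000000000000000000000) (nat_lit 0x0) (nat_lit 0x600150000000000000000000000000000000) := T_2 (nat_lit 142) (nat_lit 126) (nat_lit 6) (nat_lit 6) (nat_lit 11) L13615 (by decide +kernel)
theorem L13617 : W_2 (nat_lit 4) (nat_lit 0x22003f0009001800080000000000000000000000000000000) (nat_lit 0x0) (nat_lit 0x80004000000000000000600150000000000000000000000000000000) := T_2 (nat_lit 223) (nat_lit 206) (nat_lit 6) (nat_lit 2) (nat_lit 13) L13616 (by decide +kernel)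
theorem L13618 : W_2 (nat_lit 5) (nat_lit 0x2003f0009001800080000000000000000000000000000000) (nat_lit 0x0) (nat_lit 0x80004003000000000000600150000000000000000000000000000000) := T_2 (nat_lit 193) (nat_lit 192) (nat_lit 3) (nat_lit 2) (nat_lit 10) L13617 (by decide +kernel)
theorem L13619 : W_2 (nat_lit 6) (nat_lit 0x2003e0009001800080000000000000000000000000000000) (nat_lit 0x0) (nat_lit 0x80004003100010000000600150000000000000000000000000000000) := T_2 (nat_lit 172) (nat_lit 188) (nat_lit 1) (nat_lit 5) (nat_lit 10) L13618 (by decide +kernel)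
theorem L13620 : W_2 (nat_lit 7) (nat_lit 0x2003e0001001800080000000000000000000000000000000) (nat_lit 0x0) (nat_lit 0x80004003100010018000600150000000000000000000000000000000) := T_2 (nat_lit 159) (nat_lit 160) (nat_lit 2) (nat_lit 3) (nat_lit 10) L13619 (by decide +kernel)
theorem L13621 : W_2 (nat_lit 8) (nat_lit 0x3e0001001800080000000000000000000000000000000) (nat_lit 0x0) (nat_lit 0x80004003700010018000600150000000000000000000000000000000) := T_2 (nat_lit 189) (nat_lit 190) (nat_lit 1) (nat_lit 6) (nat_lit 10) L13620 (by decide +kernel)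
theorem L13622 : W_2 (nat_lit 9) (nat_lit 0x3c0001001800080000000000000000000000000000000) (nat_lit 0x0) (nat_lit 0x80004003700030018800600150000000000000000000000000000000) := T_2 (nat_lit 173) (nat_lit 155) (nat_lit 0) (nat_lit 6) (nat_lit 10) L13621 (by decide +kernel)
theorem L13623 : W_2 (nat_lit 10) (nat_lit 0x3c0000001800080000000000000000000000000000000) (nat_lit 0x0) (nat_lit 0x8000400370003001b800600150000000000000000000000000000000) := T_2 (nat_lit 156) (nat_lit 157) (nat_lit 0) (nat_lit 7) (nat_lit 10) L13622 (by decide +kernel)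
theorem L13624 : W_2 (nat_lit 2) (nat_lit 0x30003e0011001800080000000000000000000000000000000) (nat_lit 0x0) (nat_lit 0x800c00000000000000000000000000000000000000000000) := D_2 (nat_lit 178) (nat_lit 179) (nat_lit 191) (nat_lit 1) (nat_lit 9) (nat_lit 10) (nat_lit 1) (nat_lit 8) (nat_lit 10) (by decide +kernel)
theorem L13625 : W_2 (nat_lit 3) (nat_lit 0x20003e0011001800080000000000000000000000000000000) (nat_lit 0x0) (nat_lit 0x1800c10000000000000000000000000000000000000000000) := T_2 (nat_lit 192) (nat_lit 172) (nat_lit 3) (nat_lit 2) (nat_lit 10) L13624 (by decide +kernel)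
theorem L13626 : W_2 (nat_lit 4) (nat_lit 0x3e0011001800080000000000000000000000000000000) (nat_lit 0x0) (nat_lit 0x3800c10000000000040000000000000000000000000000000) := T_2 (nat_lit 193) (nat_lit 126) (nat_lit 5) (nat_lit 7) (nat_lit 7) L13625 (by decide +kernel)
theorem L13627 : W_2 (nat_lit 5) (nat_lit 0x3e0001001800080000000000000000000000000000000) (nat_lit 0x0) (nat_lit 0x3800c10018000000040000000000000000000000000000000) := T_2 (nat_lit 160) (nat_lit 159) (nat_lit 2) (nat_lit 3) (nat_lit 10) L13626 (by decide +kernel)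
theorem L13628 : W_2 (nat_lit 6) (nat_lit 0x3c0001001800080000000000000000000000000000000) (nat_lit 0x0) (nat_lit 0x3800c30018800000040000000000000000000000000000000) := T_2 (nat_lit 173) (nat_lit 155) (nat_lit 0) (nat_lit 6) (nat_lit 10) L13627 (by decide +kernel)
theorem L13629 : W_2 (nat_lit 7) (nat_lit 0x3c0000001800080000000000000000000000000000000) (nat_lit 0x0) (nat_lit 0x3800c3001b800000040000000000000000000000000000000) := T_2 (nat_lit 156) (nat_lit 157) (nat_lit 0) (nat_lit 7) (nat_lit 10) L13628 (by decide +kernel)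
theorem L13631 : W_2 (nat_lit 2) (nat_lit 0x4007e00110018800ec000000000000000000000000000000) (nat_lit 0x0) (nat_lit 0x40002000100000000000000000000000000) := D_2 (nat_lit 121) (nat_lit 104) (nat_lit 138) (nat_lit 4) (nat_lit 3) (nat_lit 10) (nat_lit 4) (nat_lit 3) (nat_lit 11) (by decide +kernel)
theorem L13632 : W_2 (nat_lit 3) (nat_lit 0x4007e00110018800e8000000000000000000000000000000) (nat_lit 0x0) (nat_lit 0x40006000500000000000000000000000000) := T_2 (nat_lit 122) (nat_lit 106) (nat_lit 6) (nat_lit 3) (nat_lit 10) L13631 (by decide +kernel)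
theorem L13633 : W_2 (nat_lit 4) (nat_lit 0x4007e00110018000e8000000000000000000000000000000) (nat_lit 0x0) (nat_lit 0x1c0006000500000000000000000000000000) := T_2 (nat_lit 139) (nat_lit 140) (nat_lit 6) (nat_lit 3) (nat_lit 11) L13632 (by decide +kernel)
theorem L13634 : W_2 (nat_lit 5) (nat_lit 0x4003e00110018000e8000000000000000000000000000000) (nat_lit 0x0) (nat_lit 0x80004000000001c0006000500000000000000000000000000) := T_2 (nat_lit 178) (nat_lit 195) (nat_lit 7) (nat_lit 7) (nat_lit 7) L13633 (by decide +kernel)
theorem L13635 : W_2 (nat_lit 6) (nat_lit 0x4003e00110018000e0000000000000000000000000000000) (nat_lit 0x0) (nat_lit 0x80004000000001c001e000500000000000000000000000000) := T_2 (nat_lit 123) (nat_lit 124) (nat_lit 3) (nat_lit 4) (nat_lit 7) L13634 (by decide +kernel)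
theorem L13636 : W_2 (nat_lit 7) (nat_lit 0x4003e00110018000c0000000000000000000000000000000) (nat_lit 0x0) (nat_lit 0x80004000000001c003e001500000000000000000000000000) := T_2 (nat_lit 125) (nat_lit 108) (nat_lit 4) (nat_lit 7) (nat_lit 10) L13635 (by decide +kernel)
theorem L13637 : W_2 (nat_lit 8) (nat_lit 0x4003e0011001800080000000000000000000000000000000) (nat_lit 0x0) (nat_lit 0xa0004000000001c007e001500000000000000000000000000) := T_2 (nat_lit 126) (nat_lit 193) (nat_lit 5) (nat_lit 7) (nat_lit 7) L13636 (by decide +kernel)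
theorem L13638 : W_2 (nat_lit 9) (nat_lit 0x4003e0001001800080000000000000000000000000000000) (nat_lit 0x0) (nat_lit 0xa0004000180001c007e001500000000000000000000000000) := T_2 (nat_lit 160) (nat_lit 159) (nat_lit 2) (nat_lit 3) (nat_lit 10) L13637 (by decide +kernel)
theorem L13642 : W_2 (nat_lit 10) (nat_lit 0x3e0001001800080000000000000000000000000000000) (nat_lit 0x0) (nat_lit 0xa6004000180001c007e001500000000000000000000000000) := T_2 (nat_lit 190) (nat_lit 189) (nat_lit 1) (nat_lit 6) (nat_lit 10) L13638 (by decide +kernel)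
theorem L13643 : W_2 (nat_lit 11) (nat_lit 0x3c0001001800080000000000000000000000000000000) (nat_lit 0x0) (nat_lit 0xa6004200188001c007e001500000000000000000000000000) := T_2 (nat_lit 173) (nat_lit 155) (nat_lit 0) (nat_lit 6) (nat_lit 10) L13642 (by decide +kernel)
theorem L13644 : W_2 (nat_lit 12) (nat_lit 0x3c0000001800080000000000000000000000000000000) (nat_lit 0x0) (nat_lit 0xa60042001b8001c007e001500000000000000000000000000) := T_2 (nat_lit 156) (nat_lit 157) (nat_lit 0) (nat_lit 7) (nat_lit 10) L13643 (by decide +kernel)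
theorem L13645 : W_2 (nat_lit 2) (nat_lit 0x3c00100018000c0000000000000000000000000000000) (nat_lit 0x0) (nat_lit 0x20008000000000002000000000000000000000000000) := D_2 (nat_lit 159) (nat_lit 109) (nat_lit 173) (nat_lit 5) (nat_lit 7) (nat_lit 6) (nat_lit 2) (nat_lit 3) (nat_lit 10) (by decide +kernel)
theorem L13646 : W_2 (nat_lit 3) (nat_lit 0x3c0010001800080000000000000000000000000000000) (nat_lit 0x0) (nat_lit 0x2000020008000000040002000000000000000000000000000) := T_2 (nat_lit 126) (nat_lit 193) (nat_lit 5) (nat_lit 7) (nat_lit 7) L13645 (by decide +kernel)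
theorem L13656 : W_2 (nat_lit 2) (nat_lit 0x18003e0010001800080000000000000000000000000000000) (nat_lit 0x0) (nat_lit 0x2000018000000000000000000000000000000000000000000) := D_2 (nat_lit 172) (nat_lit 171) (nat_lit 193) (nat_lit 3) (nat_lit 1) (nat_lit 10) (nat_lit 3) (nat_lit 2) (nat_lit 10) (by decide +kernel)
theorem L13657 : W_2 (nat_lit 3) (nat_lit 0x8003e0010001800080000000000000000000000000000000) (nat_lit 0x0) (nat_lit 0x3000418000000000000000000000000000000000000000000) := T_2 (nat_lit 192) (nat_lit 178) (nat_lit 1) (nat_lit 8) (nat_lit 10) L13656 (by decide +kernel)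
theorem L13658 : W_2 (nat_lit 4) (nat_lit 0x8003c0010001800080000000000000000000000000000000) (nat_lit 0x0) (nat_lit 0x3000438008000000000000000000000000000000000000000) := T_2 (nat_lit 173) (nat_lit 159) (nat_lit 2) (nat_lit 3) (nat_lit 10) L13657 (by decide +kernel)
theorem L13659 : W_2 (nat_lit 5) (nat_lit 0x3c0010001800080000000000000000000000000000000) (nat_lit 0x0) (nat_lit 0x3c00438008000000000000000000000000000000000000000) := T_2 (nat_lit 191) (nat_lit 190) (nat_lit 1) (nat_lit 7) (nat_lit 10) L13658 (by decide +kernel)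
theorem L13663 : W_2 (nat_lit 2) (nat_lit 0x1000380000001f00080000000000000000000000000000000) (nat_lit 0x0) (nat_lit 0x1c000000000000000000000000000000) := D_2 (nat_lit 123) (nat_lit 124) (nat_lit 122) (nat_lit 0) (nat_lit 8) (nat_lit 8) (nat_lit 0) (nat_lit 7) (nat_lit 8) (by decide +kernel)
theorem L13664 : W_2 (nat_lit 3) (nat_lit 0x1000380000001e00080000000000000000000000000000000) (nat_lit 0x0) (nat_lit 0x10005c000000000000000000000000000000) := T_2 (nat_lit 140) (nat_lit 126) (nat_lit 2) (nat_lit 4) (nat_lit 8) L13663 (by decide +kernel)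
theorem L13665 : W_2 (nat_lit 4) (nat_lit 0x1000380000001c00080000000000000000000000000000000) (nat_lit 0x0) (nat_lit 0x30015c000000000000000000000000000000) := T_2 (nat_lit 141) (nat_lit 128) (nat_lit 2) (nat_lit 5) (nat_lit 8) L13664 (by decide +kernel)
theorem L13671 : W_2 (nat_lit 2) (nat_lit 0x1000380008001c00080000000000000000000000000000000) (nat_lit 0x0) (nat_lit 0x20002000000000000000040000000000000000000000000000000) := D_2 (nat_lit 193) (nat_lit 209) (nat_lit 126) (nat_lit 5) (nat_lit 6) (nat_lit 8) (nat_lit 6) (nat_lit 6) (nat_lit 11) (by decide +kernel)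
theorem L13672 : W_2 (nat_lit 3) (nat_lit 0x1000380000001c00080000000000000000000000000000000) (nat_lit 0x0) (nat_lit 0x20002000000008000000060000000000000000000000000000000) := T_2 (nat_lit 159) (nat_lit 125) (nat_lit 5) (nat_lit 6) (nat_lit 7) L13671 (by decide +kernel)
theorem L13676 : W_2 (nat_lit 2) (nat_lit 0x7800000018000c0000000000000000000000000000000) (nat_lit 0x0) (nat_lit 0xa000000010000000000000000000000000000000000000000) := D_2 (nat_lit 160) (nat_lit 193) (nat_lit 195) (nat_lit 5) (nat_lit 7) (nat_lit 7) (nat_lit 7) (nat_lit 7) (nat_lit 7) (by decide +kernel)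
theorem L13680 : W_2 (nat_lit 2) (nat_lit 0x10000000049003f800800018002c0000000000000000000000000000000) (nat_lit 0x0) (nat_lit 0x400500000000000000000000000000000000) := D_2 (nat_lit 128) (nat_lit 130) (nat_lit 142) (nat_lit 1) (nat_lit 11) (nat_lit 7) (nat_lit 1) (nat_lit 10) (nat_lit 7) (by decide +kernel)
theorem L13681 : W_2 (nat_lit 3) (nat_lit 0x10000000049003f800800018000c0000000000000000000000000000000) (nat_lit 0x0) (nat_lit 0x4400700000000000000000000000000000000) := T_2 (nat_lit 129) (nat_lit 146) (nat_lit 7) (nat_lit 10) (nat_lit 7) L13680 (by decide +kernel)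
theorem L13682 : W_2 (nat_lit 4) (nat_lit 0x49003f800800018000c0000000000000000000000000000000) (nat_lit 0x0) (nat_lit 0x10000800000000000000004400700000000000000000000000000000000) := T_2 (nat_lit 232) (nat_lit 215) (nat_lit 4) (nat_lit 11) (nat_lit 13) L13681 (by decide +kernel)
theorem L13683 : W_2 (nat_lit 5) (nat_lit 0x49001f800800018000c0000000000000000000000000000000) (nat_lit 0x0) (nat_lit 0x10000800080002000000004400700000000000000000000000000000000) := T_2 (nat_lit 181) (nat_lit 199) (nat_lit 3) (nat_lit 8) (nat_lit 10) L13682 (by decide +kernel)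
theorem L13684 : W_2 (nat_lit 6) (nat_lit 0x9001f800800018000c0000000000000000000000000000000) (nat_lit 0x0) (nat_lit 0x100008000e0002000000004400700000000000000000000000000000000) := T_2 (nat_lit 198) (nat_lit 197) (nat_lit 3) (nat_lit 7) (nat_lit 10) L13683 (by decide +kernel)
theorem L13685 : W_2 (nat_lit 7) (nat_lit 0x9000f800800018000c0000000000000000000000000000000) (nat_lit 0x0) (nat_lit 0x100008000e0003000100004400700000000000000000000000000000000) := T_2 (nat_lit 180) (nat_lit 164) (nat_lit 2) (nat_lit 7) (nat_lit 10) L13684 (by decide +kernel)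
theorem L13686 : W_2 (nat_lit 8) (nat_lit 0x9000f800000018000c0000000000000000000000000000000) (nat_lit 0x0) (nat_lit 0x100008000e00030001c0004400700000000000000000000000000000000) := T_2 (nat_lit 163) (nat_lit 162) (nat_lit 2) (nat_lit 6) (nat_lit 10) L13685 (by decide +kernel)
theorem L13687 : W_2 (nat_lit 9) (nat_lit 0x90007800000018000c0000000000000000000000000000000) (nat_lit 0x0) (nat_lit 0x100008000e20038001c0004400700000000000000000000000000000000) := T_2 (nat_lit 179) (nat_lit 193) (nat_lit 1) (nat_lit 9) (nat_lit 10) L13686 (by decide +kernel)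
theorem L13691 : W_2 (nat_lit 4) (nat_lit 0x3800000018000c0002000000000000000000000000000) (nat_lit 0x0) (nat_lit 0x1800000000000100018000c000000000000000000) := T_2 (nat_lit 160) (nat_lit 159) (nat_lit 5) (nat_lit 7) (nat_lit 6) L13353 (by decide +kernel)
theorem L13692 : W_2 (nat_lit 2) (nat_lit 0x3800000018000c0003000380000000000000000000000) (nat_lit 0x0) (nat_lit 0xc00400000000000000000000000) := D_2 (nat_lit 107) (nat_lit 106) (nat_lit 94) (nat_lit 3) (nat_lit 4) (nat_lit 6) (nat_lit 1) (nat_lit 9) (nat_lit 5) (by decide +kernel)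
theorem L13693 : W_2 (nat_lit 3) (nat_lit 0x3800000018000c0002000380000000000000000000000) (nat_lit 0x0) (nat_lit 0x10000000000001c00400000000000000000000000) := T_2 (nat_lit 108) (nat_lit 160) (nat_lit 4) (nat_lit 7) (nat_lit 9) L13692 (by decide +kernel)
theorem L13694 : W_2 (nat_lit 4) (nat_lit 0x3800000018000c0002000300000000000000000000000) (nat_lit 0x0) (nat_lit 0x10000000000001c00480004000000000000000000) := T_2 (nat_lit 91) (nat_lit 74) (nat_lit 4) (nat_lit 7) (nat_lit 8) L13693 (by decide +kernel)
theorem L13695 : W_2 (nat_lit 5) (nat_lit 0x3800000018000c0002000100000000000000000000000) (nat_lit 0x0) (nat_lit 0x10000000000001c00680014000000000000000000) := T_2 (nat_lit 93) (nat_lit 76) (nat_lit 6) (nat_lit 7) (nat_lit 8) L13694 (by decide +kernel)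
theorem L13696 : W_2 (nat_lit 6) (nat_lit 0x3800000018000c0002000000000000000000000000000) (nat_lit 0x0) (nat_lit 0x10000000000001c0078001c000000000000000000) := T_2 (nat_lit 92) (nat_lit 75) (nat_lit 7) (nat_lit 7) (nat_lit 4) L13695 (by decide +kernel)
theorem L13697 : W_2 (nat_lit 2) (nat_lit 0x380000001c000c0002000300000000000000000000000) (nat_lit 0x0) (nat_lit 0x300100000000000000000000000000000000) := D_2 (nat_lit 141) (nat_lit 128) (nat_lit 140) (nat_lit 2) (nat_lit 5) (nat_lit 8) (nat_lit 2) (nat_lit 4) (nat_lit 8) (by decide +kernel)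
theorem L13698 : W_2 (nat_lit 3) (nat_lit 0x3800000018000c0002000300000000000000000000000) (nat_lit 0x0) (nat_lit 0x8000700100000000000000000000000000000000) := T_2 (nat_lit 142) (nat_lit 159) (nat_lit 5) (nat_lit 7) (nat_lit 5) L13697 (by decide +kernel)
theorem L13699 : W_2 (nat_lit 4) (nat_lit 0x3800000018000c0002000100000000000000000000000) (nat_lit 0x0) (nat_lit 0x8000700100000000200010000000000000000000) := T_2 (nat_lit 93) (nat_lit 76) (nat_lit 6) (nat_lit 7) (nat_lit 8) L13698 (by decide +kernel)
theorem L13700 : W_2 (nat_lit 5) (nat_lit 0x3800000018000c0002000000000000000000000000000) (nat_lit 0x0) (nat_lit 0x8000700100000000300018000000000000000000) := T_2 (nat_lit 92) (nat_lit 75) (nat_lit 7) (nat_lit 7) (nat_lit 4) L13699 (by decide +kernel)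
theorem L13701 : W_2 (nat_lit 3) (nat_lit 0x3800000018000c0002000000000000000000000000000) (nat_lit 0x0) (nat_lit 0x18000000020001000080000000000000000000000) := T_2 (nat_lit 160) (nat_lit 159) (nat_lit 5) (nat_lit 7) (nat_lit 6) L13311 (by decide +kernel)
theorem L13737 : W_2 (nat_lit 2) (nat_lit 0x380006001000080000000000000000000000000000000) (nat_lit 0x0) (nat_lit 0x40001800000000000000000000000000000000000000) := D_2 (nat_lit 156) (nat_lit 174) (nat_lit 155) (nat_lit 0) (nat_lit 7) (nat_lit 10) (nat_lit 3) (nat_lit 2) (nat_lit 9) (by decide +kernel)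
theorem L13739 : W_2 (nat_lit 2) (nat_lit 0x380006001000080000000000000000000000000000000) (nat_lit 0x0) (nat_lit 0x9800000000000000000000000000000000000000) := D_2 (nat_lit 156) (nat_lit 159) (nat_lit 155) (nat_lit 3) (nat_lit 3) (nat_lit 9) (nat_lit 3) (nat_lit 2) (nat_lit 9) (by decide +kernel)
theorem L13740 : W_2 (nat_lit 2) (nat_lit 0x380006001a00090000000000000000000000000000000) (nat_lit 0x0) (nat_lit 0x40008000000000000800000000000000000000000000) := D_2 (nat_lit 107) (nat_lit 159) (nat_lit 174) (nat_lit 7) (nat_lit 5) (nat_lit 6) (nat_lit 5) (nat_lit 5) (nat_lit 6) (by decide +kernel)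
theorem L13741 : W_2 (nat_lit 3) (nat_lit 0x380006001a00080000000000000000000000000000000) (nat_lit 0x0) (nat_lit 0x2000040008000000010000800000000000000000000000000) := T_2 (nat_lit 124) (nat_lit 193) (nat_lit 7) (nat_lit 5) (nat_lit 7) L13740 (by decide +kernel)
theorem L13742 : W_2 (nat_lit 4) (nat_lit 0x380006001200080000000000000000000000000000000) (nat_lit 0x0) (nat_lit 0x2000040008000c00010000800000000000000000000000000) := T_2 (nat_lit 143) (nat_lit 142) (nat_lit 1) (nat_lit 8) (nat_lit 8) L13741 (by decide +kernel)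
theorem L13752 : W_2 (nat_lit 2) (nat_lit 0x380006001200090000000000000000000000000000000) (nat_lit 0x0) (nat_lit 0x40008000000000000800000000000000000000000000) := D_2 (nat_lit 107) (nat_lit 159) (nat_lit 174) (nat_lit 7) (nat_lit 5) (nat_lit 6) (nat_lit 5) (nat_lit 5) (nat_lit 6) (by decide +kernel)
theorem L13753 : W_2 (nat_lit 3) (nat_lit 0x380006001200080000000000000000000000000000000) (nat_lit 0x0) (nat_lit 0x2000040008000000010000800000000000000000000000000) := T_2 (nat_lit 124) (nat_lit 193) (nat_lit 7) (nat_lit 5) (nat_lit 7) L13752 (by decide +kernel)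
theorem L13760 : W_2 (nat_lit 2) (nat_lit 0x380004001200090000800000000000000000000000000) (nat_lit 0x0) (nat_lit 0x20001000080000000000000000000000) := D_2 (nat_lit 108) (nat_lit 91) (nat_lit 125) (nat_lit 6) (nat_lit 5) (nat_lit 9) (nat_lit 6) (nat_lit 5) (nat_lit 10) (by decide +kernel)
theorem L13761 : W_2 (nat_lit 3) (nat_lit 0x380004001200090000000000000000000000000000000) (nat_lit 0x0) (nat_lit 0x8000000020001800080000000000000000000000) := T_2 (nat_lit 107) (nat_lit 159) (nat_lit 7) (nat_lit 5) (nat_lit 6) L13760 (by decide +kernel)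
theorem L13762 : W_2 (nat_lit 4) (nat_lit 0x380004001200080000000000000000000000000000000) (nat_lit 0x0) (nat_lit 0x2000000008000000030001800080000000000000000000000) := T_2 (nat_lit 124) (nat_lit 193) (nat_lit 7) (nat_lit 5) (nat_lit 7) L13761 (by decide +kernel)
theorem L13763 : W_2 (nat_lit 2) (nat_lit 0x3800040012000f0000000000000000000000000000000) (nat_lit 0x0) (nat_lit 0x8000c00000000000000000000000000) := D_2 (nat_lit 106) (nat_lit 107) (nat_lit 123) (nat_lit 0) (nat_lit 8) (nat_lit 7) (nat_lit 4) (nat_lit 5) (nat_lit 10) (by decide +kernel)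
theorem L13764 : W_2 (nat_lit 3) (nat_lit 0x3800040012000b0000000000000000000000000000000) (nat_lit 0x0) (nat_lit 0x100048000c00000000000000000000000000) := T_2 (nat_lit 126) (nat_lit 140) (nat_lit 1) (nat_lit 8) (nat_lit 7) L13763 (by decide +kernel)
theorem L13765 : W_2 (nat_lit 4) (nat_lit 0x380004001200090000000000000000000000000000000) (nat_lit 0x0) (nat_lit 0x100068001c00000000000000000000000000) := T_2 (nat_lit 125) (nat_lit 108) (nat_lit 6) (nat_lit 5) (nat_lit 10) L13764 (by decide +kernel)
theorem L13766 : W_2 (nat_lit 5) (nat_lit 0x380004001200080000000000000000000000000000000) (nat_lit 0x0) (nat_lit 0x2000000000000100078001c00000000000000000000000000) := T_2 (nat_lit 124) (nat_lit 193) (nat_lit 7) (nat_lit 5) (nat_lit 7) L13765 (by decide +kernel)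
theorem L13773 : W_2 (nat_lit 2) (nat_lit 0x3800040012000f0000000000000000000000000000000) (nat_lit 0x0) (nat_lit 0x1000000000000400100000000000000000000000000000000) := D_2 (nat_lit 142) (nat_lit 192) (nat_lit 128) (nat_lit 6) (nat_lit 5) (nat_lit 11) (nat_lit 1) (nat_lit 9) (nat_lit 7) (by decide +kernel)
theorem L13774 : W_2 (nat_lit 3) (nat_lit 0x3800040012000b0000000000000000000000000000000) (nat_lit 0x0) (nat_lit 0x1000000000000500140000000000000000000000000000000) := T_2 (nat_lit 126) (nat_lit 140) (nat_lit 1) (nat_lit 8) (nat_lit 7) L13773 (by decide +kernel)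
theorem L13775 : W_2 (nat_lit 4) (nat_lit 0x380004001200090000000000000000000000000000000) (nat_lit 0x0) (nat_lit 0x1000000000000500160001000000000000000000000000000) := T_2 (nat_lit 125) (nat_lit 108) (nat_lit 6) (nat_lit 5) (nat_lit 10) L13774 (by decide +kernel)
theorem L13776 : W_2 (nat_lit 2) (nat_lit 0x380004001200090000800000000000000000000000000) (nat_lit 0x0) (nat_lit 0x8000400020000000000000000000000) := D_2 (nat_lit 106) (nat_lit 89) (nat_lit 123) (nat_lit 4) (nat_lit 5) (nat_lit 9) (nat_lit 4) (nat_lit 5) (nat_lit 10) (by decide +kernel)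
theorem L13777 : W_2 (nat_lit 3) (nat_lit 0x380004001200090000000000000000000000000000000) (nat_lit 0x0) (nat_lit 0x8000000008000c00020000000000000000000000) := T_2 (nat_lit 107) (nat_lit 159) (nat_lit 7) (nat_lit 5) (nat_lit 6) L13776 (by decide +kernel)
theorem L13786 : W_2 (nat_lit 2) (nat_lit 0x20001000380004001600080000000000000000000000000000000) (nat_lit 0x0) (nat_lit 0x800040002000000000000000000000000000000000000000000000000) := D_2 (nat_lit 210) (nat_lit 193) (nat_lit 227) (nat_lit 7) (nat_lit 5) (nat_lit 8) (nat_lit 7) (nat_lit 5) (nat_lit 9) (by decide +kernel)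
theorem L13787 : W_2 (nat_lit 3) (nat_lit 0x1000380004001600080000000000000000000000000000000) (nat_lit 0x0) (nat_lit 0x800060002000000008000000000000000000000000000000000000000) := T_2 (nat_lit 209) (nat_lit 159) (nat_lit 6) (nat_lit 5) (nat_lit 12) L13786 (by decide +kernel)
theorem L13788 : W_2 (nat_lit 4) (nat_lit 0x1000380004001200080000000000000000000000000000000) (nat_lit 0x0) (nat_lit 0x800060002000000008000400020000000000000000000000000000000) := T_2 (nat_lit 142) (nat_lit 125) (nat_lit 6) (nat_lit 5) (nat_lit 11) L13787 (by decide +kernel)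
theorem L13795 : W_2 (nat_lit 2) (nat_lit 0x60001000380004001300080000000000000000000000000000000) (nat_lit 0x0) (nat_lit 0x400000000000000008000400000000000000000000000000000000000) := D_2 (nat_lit 159) (nat_lit 226) (nat_lit 142) (nat_lit 6) (nat_lit 5) (nat_lit 13) (nat_lit 6) (nat_lit 5) (nat_lit 12) (by decide +kernel)
theorem L13796 : W_2 (nat_lit 3) (nat_lit 0x40001000380004001300080000000000000000000000000000000) (nat_lit 0x0) (nat_lit 0xc00020000000000008000400000000000000000000000000000000000) := T_2 (nat_lit 209) (nat_lit 227) (nat_lit 7) (nat_lit 5) (nat_lit 9) L13795 (by decide +kernel)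
theorem L13797 : W_2 (nat_lit 4) (nat_lit 0x1000380004001300080000000000000000000000000000000) (nat_lit 0x0) (nat_lit 0xc00060002000000008000400000000000000000000000000000000000) := T_2 (nat_lit 210) (nat_lit 193) (nat_lit 7) (nat_lit 5) (nat_lit 8) L13796 (by decide +kernel)
theorem L13798 : W_2 (nat_lit 5) (nat_lit 0x1000380004001200080000000000000000000000000000000) (nat_lit 0x0) (nat_lit 0xc00060002000000008000500008000000000000000000000000000000) := T_2 (nat_lit 140) (nat_lit 123) (nat_lit 4) (nat_lit 5) (nat_lit 11) L13797 (by decide +kernel)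
theorem L13804 : W_2 (nat_lit 2) (nat_lit 0x400060001000380004001300080000000000000000000000000000000) (nat_lit 0x0) (nat_lit 0x4000200010000000000000000000000000000000000000000000000000000) := D_2 (nat_lit 225) (nat_lit 242) (nat_lit 208) (nat_lit 5) (nat_lit 5) (nat_lit 10) (nat_lit 5) (nat_lit 5) (nat_lit 9) (by decide +kernel)
theorem L13805 : W_2 (nat_lit 3) (nat_lit 0x60001000380004001300080000000000000000000000000000000) (nat_lit 0x0) (nat_lit 0x4000600010000000000008000000000000000000000000000000000000000) := T_2 (nat_lit 226) (nat_lit 159) (nat_lit 6) (nat_lit 5) (nat_lit 13) L13804 (by decide +kernel)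
theorem L13806 : W_2 (nat_lit 4) (nat_lit 0x40001000380004001300080000000000000000000000000000000) (nat_lit 0x0) (nat_lit 0x4000e00030000000000008000000000000000000000000000000000000000) := T_2 (nat_lit 209) (nat_lit 227) (nat_lit 7) (nat_lit 5) (nat_lit 9) L13805 (by decide +kernel)
theorem L13812 : W_2 (nat_lit 2) (nat_lit 0x10000f80088001000080000000000000000000000000000000) (nat_lit 0x0) (nat_lit 0x1000110000000000000000000000000000000000000000) := D_2 (nat_lit 180) (nat_lit 164) (nat_lit 160) (nat_lit 2) (nat_lit 7) (nat_lit 10) (nat_lit 0) (nat_lit 10) (nat_lit 10) (by decide +kernel)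
theorem L13813 : W_2 (nat_lit 3) (nat_lit 0x10000f80080001000080000000000000000000000000000000) (nat_lit 0x0) (nat_lit 0x100011c000000000000000000000000000000000000000) := T_2 (nat_lit 159) (nat_lit 158) (nat_lit 0) (nat_lit 9) (nat_lit 10) L13812 (by decide +kernel)
theorem L13814 : W_2 (nat_lit 4) (nat_lit 0x10000f80000001000080000000000000000000000000000000) (nat_lit 0x0) (nat_lit 0x10001dc000000000000000000000000000000000000000) := T_2 (nat_lit 163) (nat_lit 162) (nat_lit 2) (nat_lit 6) (nat_lit 10) L13813 (by decide +kernel)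
theorem L13815 : W_2 (nat_lit 5) (nat_lit 0x10000780000001000080000000000000000000000000000000) (nat_lit 0x0) (nat_lit 0x200018001dc000000000000000000000000000000000000000) := T_2 (nat_lit 179) (nat_lit 197) (nat_lit 3) (nat_lit 6) (nat_lit 10) L13814 (by decide +kernel)
theorem L13816 : W_2 (nat_lit 6) (nat_lit 0x780000001000080000000000000000000000000000000) (nat_lit 0x0) (nat_lit 0x380018001dc000000000000000000000000000000000000000) := T_2 (nat_lit 196) (nat_lit 195) (nat_lit 3) (nat_lit 5) (nat_lit 10) L13815 (by decide +kernel)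
theorem L13817 : W_2 (nat_lit 5) (nat_lit 0x1000780000001000080000000000000000000000000000000) (nat_lit 0x0) (nat_lit 0x720018001c0000000000000000000000000000000000000000) := T_2 (nat_lit 179) (nat_lit 193) (nat_lit 1) (nat_lit 9) (nat_lit 10) L12783 (by decide +kernel)
theorem L13818 : W_2 (nat_lit 6) (nat_lit 0x780000001000080000000000000000000000000000000) (nat_lit 0x0) (nat_lit 0x738018001c0000000000000000000000000000000000000000) := T_2 (nat_lit 192) (nat_lit 191) (nat_lit 1) (nat_lit 8) (nat_lit 10) L13817 (by decide +kernel)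
theorem L13819 : W_2 (nat_lit 2) (nat_lit 0x8000780000001e00090000000000000000000000000000000) (nat_lit 0x0) (nat_lit 0x200000000c000000000000000000000000000000000000000) := D_2 (nat_lit 193) (nat_lit 159) (nat_lit 158) (nat_lit 4) (nat_lit 6) (nat_lit 11) (nat_lit 7) (nat_lit 5) (nat_lit 7) (by decide +kernel)
theorem L13820 : W_2 (nat_lit 3) (nat_lit 0x8000780000001e00080000000000000000000000000000000) (nat_lit 0x0) (nat_lit 0x200000000c000000018000000000000000000000000000000) := T_2 (nat_lit 124) (nat_lit 123) (nat_lit 0) (nat_lit 8) (nat_lit 8) L13819 (by decide +kernel)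
theorem L13821 : W_2 (nat_lit 4) (nat_lit 0x8000780000001c00080000000000000000000000000000000) (nat_lit 0x0) (nat_lit 0x200000000c000200118000000000000000000000000000000) := T_2 (nat_lit 141) (nat_lit 128) (nat_lit 2) (nat_lit 5) (nat_lit 8) L13820 (by decide +kernel)
theorem L13822 : W_2 (nat_lit 5) (nat_lit 0x780000001c00080000000000000000000000000000000) (nat_lit 0x0) (nat_lit 0x1a00000000c000200118000000000000000000000000000000) := T_2 (nat_lit 195) (nat_lit 196) (nat_lit 3) (nat_lit 5) (nat_lit 10) L13821 (by decide +kernel)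
theorem L13826 : W_2 (nat_lit 2) (nat_lit 0xa000780000001e000c0000000000000000000000000000000) (nat_lit 0x0) (nat_lit 0x4000000018000000000000000000000000000000) := D_2 (nat_lit 124) (nat_lit 123) (nat_lit 158) (nat_lit 0) (nat_lit 8) (nat_lit 8) (nat_lit 7) (nat_lit 5) (nat_lit 7) (by decide +kernel)
theorem L13827 : W_2 (nat_lit 3) (nat_lit 0xa000780000001c000c0000000000000000000000000000000) (nat_lit 0x0) (nat_lit 0x4000300018000000000000000000000000000000) := T_2 (nat_lit 141) (nat_lit 140) (nat_lit 2) (nat_lit 4) (nat_lit 8) L13826 (by decide +kernel)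
theorem L13828 : W_2 (nat_lit 4) (nat_lit 0x8000780000001c000c0000000000000000000000000000000) (nat_lit 0x0) (nat_lit 0x200000000c000300018000000000000000000000000000000) := T_2 (nat_lit 193) (nat_lit 159) (nat_lit 6) (nat_lit 6) (nat_lit 11) L13827 (by decide +kernel)
theorem L13829 : W_2 (nat_lit 5) (nat_lit 0x8000780000001c00080000000000000000000000000000000) (nat_lit 0x0) (nat_lit 0x200000001c000300058000000000000000000000000000000) := T_2 (nat_lit 126) (nat_lit 160) (nat_lit 7) (nat_lit 7) (nat_lit 7) L13828 (by decide +kernel)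
theorem L13830 : W_2 (nat_lit 6) (nat_lit 0x780000001c00080000000000000000000000000000000) (nat_lit 0x0) (nat_lit 0x1a00000001c000300058000000000000000000000000000000) := T_2 (nat_lit 195) (nat_lit 196) (nat_lit 3) (nat_lit 5) (nat_lit 10) L13829 (by decide +kernel)
theorem L13836 : W_2 (nat_lit 2) (nat_lit 0x1000780000001f000a0000000000000000000000000000000) (nat_lit 0x0) (nat_lit 0x1c000000000000000000000000000000) := D_2 (nat_lit 123) (nat_lit 122) (nat_lit 124) (nat_lit 0) (nat_lit 7) (nat_lit 8) (nat_lit 0) (nat_lit 8) (nat_lit 8) (by decide +kernel)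
theorem L13837 : W_2 (nat_lit 3) (nat_lit 0x1000780000001e000a0000000000000000000000000000000) (nat_lit 0x0) (nat_lit 0x10005c000000000000000000000000000000) := T_2 (nat_lit 140) (nat_lit 126) (nat_lit 2) (nat_lit 4) (nat_lit 8) L13836 (by decide +kernel)
theorem L13838 : W_2 (nat_lit 4) (nat_lit 0x1000780000001c000a0000000000000000000000000000000) (nat_lit 0x0) (nat_lit 0x400030005c000000000000000000000000000000) := T_2 (nat_lit 141) (nat_lit 158) (nat_lit 6) (nat_lit 5) (nat_lit 11) L13837 (by decide +kernel)
theorem L13839 : W_2 (nat_lit 5) (nat_lit 0x1000780000001c00080000000000000000000000000000000) (nat_lit 0x0) (nat_lit 0xc00030007c000000000000000000000000000000) := T_2 (nat_lit 125) (nat_lit 159) (nat_lit 5) (nat_lit 6) (nat_lit 7) L13838 (by decide +kernel)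
theorem L13840 : W_2 (nat_lit 6) (nat_lit 0x780000001c00080000000000000000000000000000000) (nat_lit 0x0) (nat_lit 0x180000000c00030007c000000000000000000000000000000) := T_2 (nat_lit 192) (nat_lit 191) (nat_lit 1) (nat_lit 8) (nat_lit 10) L13839 (by decide +kernel)
theorem L13845 : W_2 (nat_lit 2) (nat_lit 0x1000780000001e00090000000000000000000000000000000) (nat_lit 0x0) (nat_lit 0x2000000004000000020000000000000000000000000000000) := D_2 (nat_lit 158) (nat_lit 125) (nat_lit 193) (nat_lit 6) (nat_lit 5) (nat_lit 11) (nat_lit 7) (nat_lit 5) (nat_lit 7) (by decide +kernel)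
theorem L13846 : W_2 (nat_lit 3) (nat_lit 0x1000780000001e00080000000000000000000000000000000) (nat_lit 0x0) (nat_lit 0x2000000004000000038000000000000000000000000000000) := T_2 (nat_lit 124) (nat_lit 123) (nat_lit 0) (nat_lit 8) (nat_lit 8) L13845 (by decide +kernel)
theorem L13847 : W_2 (nat_lit 4) (nat_lit 0x1000780000001a00080000000000000000000000000000000) (nat_lit 0x0) (nat_lit 0x2000000004000400138000000000000000000000000000000) := T_2 (nat_lit 142) (nat_lit 128) (nat_lit 2) (nat_lit 5) (nat_lit 8) L13846 (by decide +kernel)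
theorem L13848 : W_2 (nat_lit 5) (nat_lit 0x780000001a00080000000000000000000000000000000) (nat_lit 0x0) (nat_lit 0x3800000004000400138000000000000000000000000000000) := T_2 (nat_lit 192) (nat_lit 191) (nat_lit 1) (nat_lit 8) (nat_lit 10) L13847 (by decide +kernel)
theorem L13849 : W_2 (nat_lit 2) (nat_lit 0x9000780000001b000d0000000000000000000000000000000) (nat_lit 0x0) (nat_lit 0x2000000004000000008000000000000000000000000000000) := D_2 (nat_lit 158) (nat_lit 123) (nat_lit 193) (nat_lit 4) (nat_lit 5) (nat_lit 11) (nat_lit 7) (nat_lit 5) (nat_lit 7) (by decide +kernel)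
theorem L13850 : W_2 (nat_lit 3) (nat_lit 0x9000780000001b000c0000000000000000000000000000000) (nat_lit 0x0) (nat_lit 0x2000000004000000038000000000000000000000000000000) := T_2 (nat_lit 124) (nat_lit 125) (nat_lit 1) (nat_lit 8) (nat_lit 7) L13849 (by decide +kernel)
theorem L13851 : W_2 (nat_lit 4) (nat_lit 0x9000780000001a000c0000000000000000000000000000000) (nat_lit 0x0) (nat_lit 0x2000000004000500038000000000000000000000000000000) := T_2 (nat_lit 140) (nat_lit 142) (nat_lit 2) (nat_lit 4) (nat_lit 8) L13850 (by decide +kernel)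
theorem L13852 : W_2 (nat_lit 5) (nat_lit 0x9000780000001a00080000000000000000000000000000000) (nat_lit 0x0) (nat_lit 0x2000000014000500078000000000000000000000000000000) := T_2 (nat_lit 126) (nat_lit 160) (nat_lit 7) (nat_lit 7) (nat_lit 7) L13851 (by decide +kernel)
theorem L13853 : W_2 (nat_lit 6) (nat_lit 0x1000780000001a00080000000000000000000000000000000) (nat_lit 0x0) (nat_lit 0x1a000000014000500078000000000000000000000000000000) := T_2 (nat_lit 195) (nat_lit 196) (nat_lit 3) (nat_lit 5) (nat_lit 10) L13852 (by decide +kernel)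
theorem L13854 : W_2 (nat_lit 7) (nat_lit 0x780000001a00080000000000000000000000000000000) (nat_lit 0x0) (nat_lit 0x1b800000014000500078000000000000000000000000000000) := T_2 (nat_lit 192) (nat_lit 191) (nat_lit 1) (nat_lit 8) (nat_lit 10) L13853 (by decide +kernel)
theorem L13855 : W_2 (nat_lit 2) (nat_lit 0x88007c0000001a000d0000000000000000000000000000000) (nat_lit 0x0) (nat_lit 0x100028000000000000000000000000000000) := D_2 (nat_lit 125) (nat_lit 123) (nat_lit 140) (nat_lit 3) (nat_lit 4) (nat_lit 7) (nat_lit 1) (nat_lit 8) (nat_lit 7) (by decide +kernel)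
theorem L13856 : W_2 (nat_lit 3) (nat_lit 0x88007c0000001a000c0000000000000000000000000000000) (nat_lit 0x0) (nat_lit 0x4000100038000000000000000000000000000000) := T_2 (nat_lit 124) (nat_lit 158) (nat_lit 5) (nat_lit 5) (nat_lit 7) L13855 (by decide +kernel)
theorem L13857 : W_2 (nat_lit 4) (nat_lit 0x8800780000001a000c0000000000000000000000000000000) (nat_lit 0x0) (nat_lit 0x400040004000100038000000000000000000000000000000) := T_2 (nat_lit 174) (nat_lit 190) (nat_lit 1) (nat_lit 7) (nat_lit 10) L13856 (by decide +kernel)
theorem L13858 : W_2 (nat_lit 5) (nat_lit 0x8800780000001a00080000000000000000000000000000000) (nat_lit 0x0) (nat_lit 0x400040014000100078000000000000000000000000000000) := T_2 (nat_lit 126) (nat_lit 160) (nat_lit 7) (nat_lit 7) (nat_lit 7) L13857 (by decide +kernel)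
theorem L13859 : W_2 (nat_lit 6) (nat_lit 0x8000780000001a00080000000000000000000000000000000) (nat_lit 0x0) (nat_lit 0x1c00040014000100078000000000000000000000000000000) := T_2 (nat_lit 191) (nat_lit 192) (nat_lit 1) (nat_lit 8) (nat_lit 10) L13858 (by decide +kernel)
theorem L13860 : W_2 (nat_lit 7) (nat_lit 0x780000001a00080000000000000000000000000000000) (nat_lit 0x0) (nat_lit 0x19c00040014000100078000000000000000000000000000000) := T_2 (nat_lit 195) (nat_lit 196) (nat_lit 3) (nat_lit 5) (nat_lit 10) L13859 (by decide +kernel)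
theorem L13862 : W_2 (nat_lit 2) (nat_lit 0x1000780008001c00580000000000000000000000000000000) (nat_lit 0x0) (nat_lit 0x400020000000000004000000000000000000000000000000000000000) := D_2 (nat_lit 209) (nat_lit 158) (nat_lit 226) (nat_lit 6) (nat_lit 5) (nat_lit 12) (nat_lit 6) (nat_lit 5) (nat_lit 13) (by decide +kernel)
theorem L13863 : W_2 (nat_lit 3) (nat_lit 0x1000780000001c00580000000000000000000000000000000) (nat_lit 0x0) (nat_lit 0x40002000000000000c000000020000000000000000000000000000000) := T_2 (nat_lit 159) (nat_lit 125) (nat_lit 5) (nat_lit 6) (nat_lit 7) L13862 (by decide +kernel)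
theorem L13873 : W_2 (nat_lit 2) (nat_lit 0x9000780000001c001f0000000000000000000000000000000) (nat_lit 0x0) (nat_lit 0x1c00000000000000000000000000) := D_2 (nat_lit 107) (nat_lit 108) (nat_lit 106) (nat_lit 0) (nat_lit 9) (nat_lit 7) (nat_lit 0) (nat_lit 8) (nat_lit 7) (by decide +kernel)
theorem L13874 : W_2 (nat_lit 3) (nat_lit 0x9000780000001c001e0000000000000000000000000000000) (nat_lit 0x0) (nat_lit 0x18001c00000000000000000000000000) := T_2 (nat_lit 124) (nat_lit 123) (nat_lit 3) (nat_lit 4) (nat_lit 7) L13873 (by decide +kernel)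
theorem L13898 : W_2 (nat_lit 2) (nat_lit 0x9000780008001c00080000000000000000000000000000000) (nat_lit 0x0) (nat_lit 0x20002000000004000000000000000000000000000000000000000) := D_2 (nat_lit 209) (nat_lit 193) (nat_lit 158) (nat_lit 5) (nat_lit 6) (nat_lit 8) (nat_lit 6) (nat_lit 5) (nat_lit 12) (by decide +kernel)
theorem L13899 : W_2 (nat_lit 3) (nat_lit 0x9000780000001c00080000000000000000000000000000000) (nat_lit 0x0) (nat_lit 0x2000200000000c000000020000000000000000000000000000000) := T_2 (nat_lit 159) (nat_lit 125) (nat_lit 5) (nat_lit 6) (nat_lit 7) L13898 (by decide +kernel)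
theorem L13900 : W_2 (nat_lit 4) (nat_lit 0x8000780000001c00080000000000000000000000000000000) (nat_lit 0x0) (nat_lit 0x2000380000000c000000020000000000000000000000000000000) := T_2 (nat_lit 192) (nat_lit 191) (nat_lit 1) (nat_lit 8) (nat_lit 10) L13899 (by decide +kernel)
theorem L13901 : W_2 (nat_lit 5) (nat_lit 0x780000001c00080000000000000000000000000000000) (nat_lit 0x0) (nat_lit 0x2001b80000000c000000020000000000000000000000000000000) := T_2 (nat_lit 195) (nat_lit 196) (nat_lit 3) (nat_lit 5) (nat_lit 10) L13900 (by decide +kernel)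
theorem L13907 : W_2 (nat_lit 2) (nat_lit 0x9000780008001c000c0000000000000000000000000000000) (nat_lit 0x0) (nat_lit 0x400020000000000004000000000000000000000000000000000000000) := D_2 (nat_lit 209) (nat_lit 226) (nat_lit 158) (nat_lit 6) (nat_lit 5) (nat_lit 13) (nat_lit 6) (nat_lit 5) (nat_lit 12) (by decide +kernel)
theorem L13908 : W_2 (nat_lit 3) (nat_lit 0x9000780000001c000c0000000000000000000000000000000) (nat_lit 0x0) (nat_lit 0x40002000200000000c000000000000000000000000000000000000000) := T_2 (nat_lit 159) (nat_lit 193) (nat_lit 6) (nat_lit 6) (nat_lit 11) L13907 (by decide +kernel)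
theorem L13909 : W_2 (nat_lit 4) (nat_lit 0x9000780000001c00080000000000000000000000000000000) (nat_lit 0x0) (nat_lit 0x40002000200000001c000000040000000000000000000000000000000) := T_2 (nat_lit 126) (nat_lit 160) (nat_lit 7) (nat_lit 7) (nat_lit 7) L13908 (by decide +kernel)
theorem L13913 : W_2 (nat_lit 3) (nat_lit 0x9000780008001800080000000000000000000000000000000) (nat_lit 0x0) (nat_lit 0x20002000000004000400020000000000000000000000000000000) := T_2 (nat_lit 142) (nat_lit 125) (nat_lit 5) (nat_lit 6) (nat_lit 7) L13898 (by decide +kernel)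
theorem L13914 : W_2 (nat_lit 4) (nat_lit 0x8000780008001800080000000000000000000000000000000) (nat_lit 0x0) (nat_lit 0x20003800000004000400020000000000000000000000000000000) := T_2 (nat_lit 192) (nat_lit 191) (nat_lit 1) (nat_lit 8) (nat_lit 10) L13913 (by decide +kernel)
theorem L13915 : W_2 (nat_lit 5) (nat_lit 0x780008001800080000000000000000000000000000000) (nat_lit 0x0) (nat_lit 0x2001b800000004000400020000000000000000000000000000000) := T_2 (nat_lit 195) (nat_lit 196) (nat_lit 3) (nat_lit 5) (nat_lit 10) L13914 (by decide +kernel)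
theorem L13918 : W_2 (nat_lit 2) (nat_lit 0x400000009000780008001a000f0000000000000000000000000000000) (nat_lit 0x0) (nat_lit 0x4000000000000c00000000000000000000000000) := D_2 (nat_lit 107) (nat_lit 106) (nat_lit 158) (nat_lit 0) (nat_lit 8) (nat_lit 7) (nat_lit 7) (nat_lit 5) (nat_lit 6) (by decide +kernel)
theorem L13919 : W_2 (nat_lit 3) (nat_lit 0x4000000090007800080018000f0000000000000000000000000000000) (nat_lit 0x0) (nat_lit 0x4000300000000c00000000000000000000000000) := T_2 (nat_lit 141) (nat_lit 140) (nat_lit 1) (nat_lit 8) (nat_lit 7) L13918 (by decide +kernel)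
theorem L13920 : W_2 (nat_lit 4) (nat_lit 0x4000000090007800080018000e0000000000000000000000000000000) (nat_lit 0x0) (nat_lit 0x4000300018000c00000000000000000000000000) := T_2 (nat_lit 124) (nat_lit 123) (nat_lit 3) (nat_lit 4) (nat_lit 7) L13919 (by decide +kernel)
theorem L13921 : W_2 (nat_lit 5) (nat_lit 0x4000000090007800080018000c0000000000000000000000000000000) (nat_lit 0x0) (nat_lit 0x4000700038000c00000000000000000000000000) := T_2 (nat_lit 125) (nat_lit 142) (nat_lit 5) (nat_lit 6) (nat_lit 7) L13920 (by decide +kernel)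
theorem L13926 : W_2 (nat_lit 2) (nat_lit 0x400000009000780008001e000d0000000100000000000000000000000) (nat_lit 0x0) (nat_lit 0x4000000000000800040000000000000000000000) := D_2 (nat_lit 107) (nat_lit 90) (nat_lit 158) (nat_lit 7) (nat_lit 5) (nat_lit 5) (nat_lit 7) (nat_lit 5) (nat_lit 6) (by decide +kernel)
theorem L13927 : W_2 (nat_lit 3) (nat_lit 0x400000009000780008001e000c0000000100000000000000000000000) (nat_lit 0x0) (nat_lit 0x4000000018000800040000000000000000000000) := T_2 (nat_lit 124) (nat_lit 123) (nat_lit 0) (nat_lit 8) (nat_lit 8) L13926 (by decide +kernel)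
theorem L13928 : W_2 (nat_lit 4) (nat_lit 0x400000009000780008001c000c0000000100000000000000000000000) (nat_lit 0x0) (nat_lit 0x4000300018000800040000000000000000000000) := T_2 (nat_lit 141) (nat_lit 140) (nat_lit 2) (nat_lit 4) (nat_lit 8) L13927 (by decide +kernel)
theorem L13929 : W_2 (nat_lit 5) (nat_lit 0x400000009000780008001c000c0000000000000000000000000000000) (nat_lit 0x0) (nat_lit 0x4000300018002800140000000000000000000000) := T_2 (nat_lit 92) (nat_lit 109) (nat_lit 5) (nat_lit 7) (nat_lit 5) L13928 (by decide +kernel)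
theorem L13930 : W_2 (nat_lit 6) (nat_lit 0x4000000090007800080018000c0000000000000000000000000000000) (nat_lit 0x0) (nat_lit 0x2000000004000700018002800140000000000000000000000) := T_2 (nat_lit 142) (nat_lit 193) (nat_lit 6) (nat_lit 6) (nat_lit 11) L13929 (by decide +kernel)
theorem L13931 : W_2 (nat_lit 7) (nat_lit 0x400000009000780008001800080000000000000000000000000000000) (nat_lit 0x0) (nat_lit 0x2000000014000700058002800140000000000000000000000) := T_2 (nat_lit 126) (nat_lit 160) (nat_lit 7) (nat_lit 7) (nat_lit 7) L13930 (by decide +kernel)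
theorem L13932 : W_2 (nat_lit 8) (nat_lit 0x9000780008001800080000000000000000000000000000000) (nat_lit 0x0) (nat_lit 0x400020002000000014000700058002800140000000000000000000000) := T_2 (nat_lit 226) (nat_lit 209) (nat_lit 6) (nat_lit 5) (nat_lit 13) L13931 (by decide +kernel)
theorem L13933 : W_2 (nat_lit 9) (nat_lit 0x1000780008001800080000000000000000000000000000000) (nat_lit 0x0) (nat_lit 0x40002001a000000014000700058002800140000000000000000000000) := T_2 (nat_lit 195) (nat_lit 196) (nat_lit 3) (nat_lit 5) (nat_lit 10) L13932 (by decide +kernel)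
theorem L13934 : W_2 (nat_lit 10) (nat_lit 0x780008001800080000000000000000000000000000000) (nat_lit 0x0) (nat_lit 0x40002001b800000014000700058002800140000000000000000000000) := T_2 (nat_lit 192) (nat_lit 191) (nat_lit 1) (nat_lit 8) (nat_lit 10) L13933 (by decide +kernel)
theorem L13935 : W_2 (nat_lit 3) (nat_lit 0x80007800080018000c0000000000000000000000000000000) (nat_lit 0x0) (nat_lit 0x2000000000000400020002000100000000000000000000000) := T_2 (nat_lit 142) (nat_lit 193) (nat_lit 6) (nat_lit 6) (nat_lit 11) L8643 (by decide +kernel)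
theorem L13936 : W_2 (nat_lit 4) (nat_lit 0x8000780008001800080000000000000000000000000000000) (nat_lit 0x0) (nat_lit 0x2000000010000400060002000100000000000000000000000) := T_2 (nat_lit 126) (nat_lit 160) (nat_lit 7) (nat_lit 7) (nat_lit 7) L13935 (by decide +kernel)
theorem L13937 : W_2 (nat_lit 5) (nat_lit 0x780008001800080000000000000000000000000000000) (nat_lit 0x0) (nat_lit 0x1a000000010000400060002000100000000000000000000000) := T_2 (nat_lit 195) (nat_lit 196) (nat_lit 3) (nat_lit 5) (nat_lit 10) L13936 (by decide +kernel)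
theorem L13956 : W_2 (nat_lit 2) (nat_lit 0x84007f0008801c000c2000000000000000000000000000000) (nat_lit 0x0) (nat_lit 0x20002000100000000000000000000000) := D_2 (nat_lit 109) (nat_lit 125) (nat_lit 92) (nat_lit 6) (nat_lit 6) (nat_lit 10) (nat_lit 5) (nat_lit 7) (nat_lit 5) (by decide +kernel)
theorem L13957 : W_2 (nat_lit 3) (nat_lit 0x84007f00088018000c2000000000000000000000000000000) (nat_lit 0x0) (nat_lit 0x2000000000000400020002000100000000000000000000000) := T_2 (nat_lit 142) (nat_lit 193) (nat_lit 6) (nat_lit 6) (nat_lit 11) L13956 (by decide +kernel)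
theorem L13958 : W_2 (nat_lit 4) (nat_lit 0x84007f00088018000c0000000000000000000000000000000) (nat_lit 0x0) (nat_lit 0x2000000000000440022002000100000000000000000000000) := T_2 (nat_lit 121) (nat_lit 138) (nat_lit 7) (nat_lit 2) (nat_lit 7) L13957 (by decide +kernel)
theorem L13959 : W_2 (nat_lit 5) (nat_lit 0x84007f00008018000c0000000000000000000000000000000) (nat_lit 0x0) (nat_lit 0x200000000c000440022002000100000000000000000000000) := T_2 (nat_lit 159) (nat_lit 158) (nat_lit 2) (nat_lit 2) (nat_lit 10) L13958 (by decide +kernel)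
theorem L13960 : W_2 (nat_lit 6) (nat_lit 0x84007e00008018000c0000000000000000000000000000000) (nat_lit 0x0) (nat_lit 0x200001000c400440022002000100000000000000000000000) := T_2 (nat_lit 172) (nat_lit 154) (nat_lit 0) (nat_lit 5) (nat_lit 10) L13959 (by decide +kernel)
theorem L13961 : W_2 (nat_lit 7) (nat_lit 0x84007e00000018000c0000000000000000000000000000000) (nat_lit 0x0) (nat_lit 0x200001000dc00440022002000100000000000000000000000) := T_2 (nat_lit 155) (nat_lit 156) (nat_lit 0) (nat_lit 6) (nat_lit 10) L13960 (by decide +kernel)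
theorem L13962 : W_2 (nat_lit 8) (nat_lit 0x84007c00000018000c0000000000000000000000000000000) (nat_lit 0x0) (nat_lit 0x220003000dc00440022002000100000000000000000000000) := T_2 (nat_lit 173) (nat_lit 189) (nat_lit 1) (nat_lit 6) (nat_lit 10) L13961 (by decide +kernel)
theorem L13963 : W_2 (nat_lit 9) (nat_lit 0x84007c0000001800080000000000000000000000000000000) (nat_lit 0x0) (nat_lit 0x220003001dc00440062002000100000000000000000000000) := T_2 (nat_lit 126) (nat_lit 160) (nat_lit 7) (nat_lit 7) (nat_lit 7) L13962 (by decide +kernel)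
theorem L13964 : W_2 (nat_lit 10) (nat_lit 0x80007c0000001800080000000000000000000000000000000) (nat_lit 0x0) (nat_lit 0x2e0003001dc00440062002000100000000000000000000000) := T_2 (nat_lit 190) (nat_lit 191) (nat_lit 1) (nat_lit 7) (nat_lit 10) L13963 (by decide +kernel)
theorem L13965 : W_2 (nat_lit 11) (nat_lit 0x7c0000001800080000000000000000000000000000000) (nat_lit 0x0) (nat_lit 0x1ae0003001dc00440062002000100000000000000000000000) := T_2 (nat_lit 195) (nat_lit 196) (nat_lit 3) (nat_lit 5) (nat_lit 10) L13964 (by decide +kernel)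
theorem L13966 : W_2 (nat_lit 2) (nat_lit 0x20000000082007e0010801800080000000000000000000000000000000) (nat_lit 0x0) (nat_lit 0x100010000400000000000000000000000000000000000000) := D_2 (nat_lit 172) (nat_lit 188) (nat_lit 154) (nat_lit 1) (nat_lit 5) (nat_lit 10) (nat_lit 0) (nat_lit 5) (nat_lit 10) (by decide +kernel)
theorem L13967 : W_2 (nat_lit 3) (nat_lit 0x20000000082007e0010001800080000000000000000000000000000000) (nat_lit 0x0) (nat_lit 0x100010001c00000000000000000000000000000000000000) := T_2 (nat_lit 155) (nat_lit 156) (nat_lit 0) (nat_lit 6) (nat_lit 10) L13966 (by decide +kernel)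
theorem L13968 : W_2 (nat_lit 4) (nat_lit 0x20000000080007e0010001800080000000000000000000000000000000) (nat_lit 0x0) (nat_lit 0x700010001c00000000000000000000000000000000000000) := T_2 (nat_lit 189) (nat_lit 190) (nat_lit 1) (nat_lit 6) (nat_lit 10) L13967 (by decide +kernel)
theorem L13969 : W_2 (nat_lit 5) (nat_lit 0x20000000080007c0010001800080000000000000000000000000000000) (nat_lit 0x0) (nat_lit 0x700030009c00000000000000000000000000000000000000) := T_2 (nat_lit 173) (nat_lit 159) (nat_lit 2) (nat_lit 3) (nat_lit 10) L13968 (by decide +kernel)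
theorem L13970 : W_2 (nat_lit 6) (nat_lit 0x80007c0010001800080000000000000000000000000000000) (nat_lit 0x0) (nat_lit 0x2000100000700030009c00000000000000000000000000000000000000) := T_2 (nat_lit 229) (nat_lit 212) (nat_lit 4) (nat_lit 8) (nat_lit 13) L13969 (by decide +kernel)
theorem L13971 : W_2 (nat_lit 7) (nat_lit 0x80007c0000001800080000000000000000000000000000000) (nat_lit 0x0) (nat_lit 0x2000100000700030019c00000040000000000000000000000000000000) := T_2 (nat_lit 160) (nat_lit 126) (nat_lit 7) (nat_lit 7) (nat_lit 7) L13970 (by decide +kernel)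
theorem L13972 : W_2 (nat_lit 8) (nat_lit 0x7c0000001800080000000000000000000000000000000) (nat_lit 0x0) (nat_lit 0x2000100018700030019c00000040000000000000000000000000000000) := T_2 (nat_lit 195) (nat_lit 196) (nat_lit 3) (nat_lit 5) (nat_lit 10) L13971 (by decide +kernel)
theorem L13973 : W_2 (nat_lit 2) (nat_lit 0x20000000090007e0010801800080000000000000000000000000000000) (nat_lit 0x0) (nat_lit 0x2000010000400000000000000000000000000000000000000) := D_2 (nat_lit 172) (nat_lit 193) (nat_lit 154) (nat_lit 3) (nat_lit 2) (nat_lit 10) (nat_lit 0) (nat_lit 5) (nat_lit 10) (by decide +kernel)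
theorem L13974 : W_2 (nat_lit 3) (nat_lit 0x20000000090007e0010001800080000000000000000000000000000000) (nat_lit 0x0) (nat_lit 0x2000010001c00000000000000000000000000000000000000) := T_2 (nat_lit 155) (nat_lit 156) (nat_lit 0) (nat_lit 6) (nat_lit 10) L13973 (by decide +kernel)
theorem L13975 : W_2 (nat_lit 4) (nat_lit 0x20000000090007c0010001800080000000000000000000000000000000) (nat_lit 0x0) (nat_lit 0x2000030009c00000000000000000000000000000000000000) := T_2 (nat_lit 173) (nat_lit 159) (nat_lit 2) (nat_lit 3) (nat_lit 10) L13974 (by decide +kernel)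
theorem L13976 : W_2 (nat_lit 5) (nat_lit 0x90007c0010001800080000000000000000000000000000000) (nat_lit 0x0) (nat_lit 0x2000100002000030009c00000000000000000000000000000000000000) := T_2 (nat_lit 229) (nat_lit 212) (nat_lit 4) (nat_lit 8) (nat_lit 13) L13975 (by decide +kernel)
theorem L13977 : W_2 (nat_lit 6) (nat_lit 0x90007c0000001800080000000000000000000000000000000) (nat_lit 0x0) (nat_lit 0x2000100002000030019c00000040000000000000000000000000000000) := T_2 (nat_lit 160) (nat_lit 126) (nat_lit 7) (nat_lit 7) (nat_lit 7) L13976 (by decide +kernel)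
theorem L13978 : W_2 (nat_lit 7) (nat_lit 0x80007c0000001800080000000000000000000000000000000) (nat_lit 0x0) (nat_lit 0x2000100003800030019c00000040000000000000000000000000000000) := T_2 (nat_lit 192) (nat_lit 191) (nat_lit 1) (nat_lit 8) (nat_lit 10) L13977 (by decide +kernel)
theorem L13979 : W_2 (nat_lit 8) (nat_lit 0x7c0000001800080000000000000000000000000000000) (nat_lit 0x0) (nat_lit 0x200010001b800030019c00000040000000000000000000000000000000) := T_2 (nat_lit 195) (nat_lit 196) (nat_lit 3) (nat_lit 5) (nat_lit 10) L13978 (by decide +kernel)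
theorem L13980 : W_2 (nat_lit 12) (nat_lit 0x780000001800080000000000000000000000000000000) (nat_lit 0x0) (nat_lit 0x200010001bf0007001dc00440062002000100000000000000000000000) := Q_2 (nat_lit 174) (C_2 L8585 (C_2 L13965 (C_2 L13972 (C_2 L13979 N_2)))) (by decide +kernel)
theorem L13981 : W_2 (nat_lit 9) (nat_lit 0x780000001800080000000000000000000000000000000) (nat_lit 0x0) (nat_lit 0x200010001bf00070019c00000040000000000000000000000000000000) := Q_2 (nat_lit 174) (C_2 L8585 (C_2 L13979 (C_2 L13972 N_2))) (by decide +kernel)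
theorem L13983 : W_2 (nat_lit 2) (nat_lit 0x1000f80088001000080000000000000000000000000000000) (nat_lit 0x0) (nat_lit 0x1000110000000000000000000000000000000000000000) := D_2 (nat_lit 180) (nat_lit 160) (nat_lit 164) (nat_lit 0) (nat_lit 10) (nat_lit 10) (nat_lit 2) (nat_lit 7) (nat_lit 10) (by decide +kernel)
theorem L13984 : W_2 (nat_lit 3) (nat_lit 0x1000f80008001000080000000000000000000000000000000) (nat_lit 0x0) (nat_lit 0x10001d0000000000000000000000000000000000000000) := T_2 (nat_lit 163) (nat_lit 162) (nat_lit 2) (nat_lit 6) (nat_lit 10) L13983 (by decide +kernel)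
theorem L13985 : W_2 (nat_lit 4) (nat_lit 0x1000f80000001000080000000000000000000000000000000) (nat_lit 0x0) (nat_lit 0x10001dc000000000000000000000000000000000000000) := T_2 (nat_lit 159) (nat_lit 158) (nat_lit 0) (nat_lit 9) (nat_lit 10) L13984 (by decide +kernel)
theorem L13986 : W_2 (nat_lit 5) (nat_lit 0x1000780000001000080000000000000000000000000000000) (nat_lit 0x0) (nat_lit 0x20018001dc000000000000000000000000000000000000000) := T_2 (nat_lit 179) (nat_lit 193) (nat_lit 1) (nat_lit 9) (nat_lit 10) L13985 (by decide +kernel)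
theorem L13987 : W_2 (nat_lit 6) (nat_lit 0x780000001000080000000000000000000000000000000) (nat_lit 0x0) (nat_lit 0x38018001dc000000000000000000000000000000000000000) := T_2 (nat_lit 192) (nat_lit 191) (nat_lit 1) (nat_lit 8) (nat_lit 10) L13986 (by decide +kernel)
theorem L14271 : W_2 (nat_lit 2) (nat_lit 0x40003e0004001e000a0000000080000000000000000000000) (nat_lit 0x0) (nat_lit 0xe00000000000000000000000000000000000000000000000) := D_2 (nat_lit 190) (nat_lit 189) (nat_lit 191) (nat_lit 1) (nat_lit 6) (nat_lit 10) (nat_lit 1) (nat_lit 7) (nat_lit 10) (by decide +kernel)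
theorem L14272 : W_2 (nat_lit 3) (nat_lit 0x40003c0004001e000a0000000080000000000000000000000) (nat_lit 0x0) (nat_lit 0x2e00020000000000000000000000000000000000000000000) := T_2 (nat_lit 173) (nat_lit 193) (nat_lit 3) (nat_lit 3) (nat_lit 10) L14271 (by decide +kernel)
theorem L14273 : W_2 (nat_lit 4) (nat_lit 0x4000380004001e000a0000000080000000000000000000000) (nat_lit 0x0) (nat_lit 0xae00060000000000000000000000000000000000000000000) := T_2 (nat_lit 174) (nat_lit 195) (nat_lit 3) (nat_lit 4) (nat_lit 10) L14272 (by decide +kernel)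
theorem L14286 : W_2 (nat_lit 3) (nat_lit 0x300008001c00080000000000000000000000000000000) (nat_lit 0x0) (nat_lit 0x1000080006000000000000000020000000000000000000000000000000) := T_2 (nat_lit 194) (nat_lit 125) (nat_lit 7) (nat_lit 6) (nat_lit 7) L12641 (by decide +kernel)
theorem L14328 : W_2 (nat_lit 4) (nat_lit 0x300000001c000a0000000000000000000000000000000) (nat_lit 0x0) (nat_lit 0x4000000008000000058002800000000000000000000000000) := T_2 (nat_lit 159) (nat_lit 194) (nat_lit 7) (nat_lit 6) (nat_lit 7) L12504 (by decide +kernel)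
theorem L14513 : W_2 (nat_lit 2) (nat_lit 0x22003e0001001000080000000000000000000000000000000) (nat_lit 0x0) (nat_lit 0x1100010000000000000000000000000000000000000000000) := D_2 (nat_lit 172) (nat_lit 192) (nat_lit 188) (nat_lit 3) (nat_lit 2) (nat_lit 10) (nat_lit 1) (nat_lit 5) (nat_lit 10) (by decide +kernel)
theorem L14514 : W_2 (nat_lit 3) (nat_lit 0x2003e0001001000080000000000000000000000000000000) (nat_lit 0x0) (nat_lit 0x7100010000000000000000000000000000000000000000000) := T_2 (nat_lit 193) (nat_lit 194) (nat_lit 3) (nat_lit 3) (nat_lit 10) L14513 (by decide +kernel)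
theorem L14515 : W_2 (nat_lit 4) (nat_lit 0x3e0001001000080000000000000000000000000000000) (nat_lit 0x0) (nat_lit 0x7700010000000000000000000000000000000000000000000) := T_2 (nat_lit 189) (nat_lit 190) (nat_lit 1) (nat_lit 6) (nat_lit 10) L14514 (by decide +kernel)
theorem L14516 : W_2 (nat_lit 5) (nat_lit 0x3c0001001000080000000000000000000000000000000) (nat_lit 0x0) (nat_lit 0x7700030000800000000000000000000000000000000000000) := T_2 (nat_lit 173) (nat_lit 155) (nat_lit 0) (nat_lit 6) (nat_lit 10) L14515 (by decide +kernel)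
theorem L14517 : W_2 (nat_lit 6) (nat_lit 0x3c0000001000080000000000000000000000000000000) (nat_lit 0x0) (nat_lit 0x7700030003800000000000000000000000000000000000000) := T_2 (nat_lit 156) (nat_lit 157) (nat_lit 0) (nat_lit 7) (nat_lit 10) L14516 (by decide +kernel)
theorem L14570 : W_2 (nat_lit 2) (nat_lit 0x1800380000001000080000000000000000000000000000000) (nat_lit 0x0) (nat_lit 0x600040000000000000000000000000000000000000000000) := D_2 (nat_lit 190) (nat_lit 174) (nat_lit 189) (nat_lit 1) (nat_lit 7) (nat_lit 10) (nat_lit 2) (nat_lit 2) (nat_lit 11) (by decide +kernel)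
theorem L14615 : W_2 (nat_lit 2) (nat_lit 0x2000380008001e00080000000000000000000000000000000) (nat_lit 0x0) (nat_lit 0x40000000000006000000000000000000000000000000000000000) := D_2 (nat_lit 158) (nat_lit 157) (nat_lit 210) (nat_lit 1) (nat_lit 8) (nat_lit 8) (nat_lit 4) (nat_lit 6) (nat_lit 12) (by decide +kernel)
theorem L14621 : W_2 (nat_lit 2) (nat_lit 0x380000001f00080000000000000000000000000000000) (nat_lit 0x0) (nat_lit 0x1c000000000000000000000000000000) := D_2 (nat_lit 123) (nat_lit 124) (nat_lit 122) (nat_lit 0) (nat_lit 8) (nat_lit 8) (nat_lit 0) (nat_lit 7) (nat_lit 8) (by decide +kernel)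
theorem L14622 : W_2 (nat_lit 3) (nat_lit 0x380000001e00080000000000000000000000000000000) (nat_lit 0x0) (nat_lit 0x10005c000000000000000000000000000000) := T_2 (nat_lit 140) (nat_lit 126) (nat_lit 2) (nat_lit 4) (nat_lit 8) L14621 (by decide +kernel)
theorem L14641 : W_2 (nat_lit 2) (nat_lit 0x380004001a00090000800000000000000000000000000) (nat_lit 0x0) (nat_lit 0x20001000080000000000000000000000) := D_2 (nat_lit 108) (nat_lit 91) (nat_lit 125) (nat_lit 6) (nat_lit 5) (nat_lit 9) (nat_lit 6) (nat_lit 5) (nat_lit 10) (by decide +kernel)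
theorem L14642 : W_2 (nat_lit 3) (nat_lit 0x380004001a00090000000000000000000000000000000) (nat_lit 0x0) (nat_lit 0x8000000020001800080000000000000000000000) := T_2 (nat_lit 107) (nat_lit 159) (nat_lit 7) (nat_lit 5) (nat_lit 6) L14641 (by decide +kernel)
theorem L14643 : W_2 (nat_lit 4) (nat_lit 0x380004001a00080000000000000000000000000000000) (nat_lit 0x0) (nat_lit 0x2000000008000000030001800080000000000000000000000) := T_2 (nat_lit 124) (nat_lit 193) (nat_lit 7) (nat_lit 5) (nat_lit 7) L14642 (by decide +kernel)
theorem L14645 : W_2 (nat_lit 2) (nat_lit 0x10001f80084001800380000000000000000000000000000000) (nat_lit 0x0) (nat_lit 0x600040000000000000000000000000000000) := D_2 (nat_lit 142) (nat_lit 126) (nat_lit 141) (nat_lit 1) (nat_lit 10) (nat_lit 7) (nat_lit 2) (nat_lit 5) (nat_lit 8) (by decide +kernel)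
theorem L14646 : W_2 (nat_lit 3) (nat_lit 0x10001f80084001800280000000000000000000000000000000) (nat_lit 0x0) (nat_lit 0x600540000000000000000000000000000000) := T_2 (nat_lit 128) (nat_lit 130) (nat_lit 1) (nat_lit 11) (nat_lit 7) L14645 (by decide +kernel)
theorem L14647 : W_2 (nat_lit 4) (nat_lit 0x10001f80084001800080000000000000000000000000000000) (nat_lit 0x0) (nat_lit 0x4600740000000000000000000000000000000) := T_2 (nat_lit 129) (nat_lit 146) (nat_lit 5) (nat_lit 10) (nat_lit 7) L14646 (by decide +kernel)
theorem L14648 : W_2 (nat_lit 5) (nat_lit 0x10000f80084001800080000000000000000000000000000000) (nat_lit 0x0) (nat_lit 0x1000100004600740000000000000000000000000000000) := T_2 (nat_lit 180) (nat_lit 164) (nat_lit 2) (nat_lit 7) (nat_lit 10) L14647 (by decide +kernel)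
theorem L14723 : W_2 (nat_lit 4) (nat_lit 0x3c0000001a00080000000000000000000000000000000) (nat_lit 0x0) (nat_lit 0x50015c000000000000000000000000000000) := T_2 (nat_lit 142) (nat_lit 128) (nat_lit 2) (nat_lit 5) (nat_lit 8) L13469 (by decide +kernel)
theorem L14833 : W_2 (nat_lit 2) (nat_lit 0x4000300018001000080000000000000000000000000000000) (nat_lit 0x0) (nat_lit 0x1000080000000000000000400000000000000000000000000000000000) := D_2 (nat_lit 211) (nat_lit 142) (nat_lit 228) (nat_lit 4) (nat_lit 7) (nat_lit 12) (nat_lit 4) (nat_lit 7) (nat_lit 13) (by decide +kernel)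
theorem L14834 : W_2 (nat_lit 3) (nat_lit 0x4000300008001000080000000000000000000000000000000) (nat_lit 0x0) (nat_lit 0x1000080000000000010000c00000000000000000000000000000000000) := T_2 (nat_lit 160) (nat_lit 143) (nat_lit 6) (nat_lit 7) (nat_lit 11) L14833 (by decide +kernel)
theorem L15287 : W_2 (nat_lit 2) (nat_lit 0x80006000300000001000080000000000000000000000000000000) (nat_lit 0x0) (nat_lit 0x20001000000000000000008000000000000000000000000000000000000000) := D_2 (nat_lit 228) (nat_lit 159) (nat_lit 245) (nat_lit 4) (nat_lit 7) (nat_lit 13) (nat_lit 4) (nat_lit 7) (nat_lit 14) (by decide +kernel)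
theorem L15480 : W_2 (nat_lit 2) (nat_lit 0x7000300008001c00080000000000000000000000000000000) (nat_lit 0x0) (nat_lit 0xc00400000000000000000000000000000000000000000000) := D_2 (nat_lit 191) (nat_lit 178) (nat_lit 190) (nat_lit 2) (nat_lit 4) (nat_lit 11) (nat_lit 2) (nat_lit 3) (nat_lit 11) (by decide +kernel)
theorem L15481 : W_2 (nat_lit 3) (nat_lit 0x6000300008001c00080000000000000000000000000000000) (nat_lit 0x0) (nat_lit 0x20001c00400000000000000000000000000000000000000000000) := T_2 (nat_lit 192) (nat_lit 209) (nat_lit 5) (nat_lit 6) (nat_lit 8) L15480 (by decide +kernel)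
theorem L15482 : W_2 (nat_lit 4) (nat_lit 0x4000300008001c00080000000000000000000000000000000) (nat_lit 0x0) (nat_lit 0x20003c00400000000000040000000000000000000000000000000) := T_2 (nat_lit 193) (nat_lit 126) (nat_lit 6) (nat_lit 6) (nat_lit 11) L15481 (by decide +kernel)
theorem L15485 : W_2 (nat_lit 2) (nat_lit 0x70006000300018001000080000000000000000000000000000000) (nat_lit 0x0) (nat_lit 0x19000000000000000000000000000000000000000000000000) := D_2 (nat_lit 195) (nat_lit 196) (nat_lit 192) (nat_lit 1) (nat_lit 9) (nat_lit 11) (nat_lit 1) (nat_lit 8) (nat_lit 11) (by decide +kernel)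
theorem L15486 : W_2 (nat_lit 3) (nat_lit 0x60006000300018001000080000000000000000000000000000000) (nat_lit 0x0) (nat_lit 0x18019000000000000000000000000000000000000000000000000) := T_2 (nat_lit 208) (nat_lit 207) (nat_lit 2) (nat_lit 3) (nat_lit 12) L15485 (by decide +kernel)
theorem L15487 : W_2 (nat_lit 4) (nat_lit 0x40006000300018001000080000000000000000000000000000000) (nat_lit 0x0) (nat_lit 0x400038019000000000000000000000000000000000000000000000000) := T_2 (nat_lit 209) (nat_lit 226) (nat_lit 5) (nat_lit 6) (nat_lit 9) L15486 (by decide +kernel)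
theorem L15488 : W_2 (nat_lit 5) (nat_lit 0x6000300018001000080000000000000000000000000000000) (nat_lit 0x0) (nat_lit 0xc00078019000000000000000000000000000000000000000000000000) := T_2 (nat_lit 210) (nat_lit 227) (nat_lit 6) (nat_lit 6) (nat_lit 13) L15487 (by decide +kernel)
theorem L15489 : W_2 (nat_lit 6) (nat_lit 0x6000300008001000080000000000000000000000000000000) (nat_lit 0x0) (nat_lit 0xc00078019000000010000800000000000000000000000000000000000) := T_2 (nat_lit 160) (nat_lit 143) (nat_lit 6) (nat_lit 7) (nat_lit 11) L15488 (by decide +kernel)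
theorem L15500 : W_2 (nat_lit 2) (nat_lit 0x4000700018001000080000000000000000000000000000000) (nat_lit 0x0) (nat_lit 0x800006000000000000000000000000000000000000000) := D_2 (nat_lit 158) (nat_lit 157) (nat_lit 179) (nat_lit 3) (nat_lit 4) (nat_lit 9) (nat_lit 0) (nat_lit 9) (nat_lit 10) (by decide +kernel)
theorem L15501 : W_2 (nat_lit 3) (nat_lit 0x4000700008001000080000000000000000000000000000000) (nat_lit 0x0) (nat_lit 0x800016000800000000000000000000000000000000000) := T_2 (nat_lit 160) (nat_lit 143) (nat_lit 6) (nat_lit 7) (nat_lit 11) L15500 (by decide +kernel)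
theorem L15509 : W_2 (nat_lit 2) (nat_lit 0x1000000004000f00008001000080000000000000000000000000000000) (nat_lit 0x0) (nat_lit 0x3001000000000000000000000000000000000000000000000) := D_2 (nat_lit 193) (nat_lit 192) (nat_lit 180) (nat_lit 1) (nat_lit 9) (nat_lit 10) (nat_lit 1) (nat_lit 10) (nat_lit 10) (by decide +kernel)
theorem L15510 : W_2 (nat_lit 3) (nat_lit 0x1000000004000700008001000080000000000000000000000000000000) (nat_lit 0x0) (nat_lit 0x3001800004000000000000000000000000000000000000000) := T_2 (nat_lit 179) (nat_lit 158) (nat_lit 0) (nat_lit 9) (nat_lit 10) L15509 (by decide +kernel)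
theorem L15511 : W_2 (nat_lit 4) (nat_lit 0x4000700008001000080000000000000000000000000000000) (nat_lit 0x0) (nat_lit 0x1000080003001800004000000000000000000000000000000000000000) := T_2 (nat_lit 228) (nat_lit 211) (nat_lit 4) (nat_lit 7) (nat_lit 13) L15510 (by decide +kernel)
theorem L15777 : W_2 (nat_lit 2) (nat_lit 0x2c000300008001400080000000000000000000000000000000) (nat_lit 0x0) (nat_lit 0x1000080000000000010000000000000000000000000000000000000000) := D_2 (nat_lit 211) (nat_lit 228) (nat_lit 160) (nat_lit 4) (nat_lit 7) (nat_lit 13) (nat_lit 4) (nat_lit 7) (nat_lit 12) (by decide +kernel)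
theorem L15778 : W_2 (nat_lit 3) (nat_lit 0x2c000300000001400080000000000000000000000000000000) (nat_lit 0x0) (nat_lit 0x1000080000000000018000000020000000000000000000000000000000) := T_2 (nat_lit 159) (nat_lit 125) (nat_lit 7) (nat_lit 6) (nat_lit 7) L15777 (by decide +kernel)
theorem L15779 : W_2 (nat_lit 4) (nat_lit 0xc000300000001400080000000000000000000000000000000) (nat_lit 0x0) (nat_lit 0x1000080030000000018000000020000000000000000000000000000000) := T_2 (nat_lit 197) (nat_lit 196) (nat_lit 0) (nat_lit 10) (nat_lit 11) L15778 (by decide +kernel)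
theorem L15871 : W_2 (nat_lit 2) (nat_lit 0x5003f80094001000080000000000000000000000000000000) (nat_lit 0x0) (nat_lit 0xe0000000000000000000000000000000000000000000000000) := D_2 (nat_lit 198) (nat_lit 197) (nat_lit 199) (nat_lit 3) (nat_lit 7) (nat_lit 10) (nat_lit 3) (nat_lit 8) (nat_lit 10) (by decide +kernel)
theorem L15872 : W_2 (nat_lit 3) (nat_lit 0x5001f80094001000080000000000000000000000000000000) (nat_lit 0x0) (nat_lit 0xe8002000000000000000000000000000000000000000000000) := T_2 (nat_lit 181) (nat_lit 195) (nat_lit 1) (nat_lit 11) (nat_lit 10) L15871 (by decide +kernel)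
theorem L15873 : W_2 (nat_lit 4) (nat_lit 0x5000f80094001000080000000000000000000000000000000) (nat_lit 0x0) (nat_lit 0xe8003000100000000000000000000000000000000000000000) := T_2 (nat_lit 180) (nat_lit 164) (nat_lit 2) (nat_lit 7) (nat_lit 10) L15872 (by decide +kernel)
theorem L15874 : W_2 (nat_lit 5) (nat_lit 0x5000f80014001000080000000000000000000000000000000) (nat_lit 0x0) (nat_lit 0xe80030001c0000000000000000000000000000000000000000) := T_2 (nat_lit 163) (nat_lit 162) (nat_lit 2) (nat_lit 6) (nat_lit 10) L15873 (by decide +kernel)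
theorem L15875 : W_2 (nat_lit 6) (nat_lit 0x5000780014001000080000000000000000000000000000000) (nat_lit 0x0) (nat_lit 0xe80038001c8000000000000000000000000000000000000000) := T_2 (nat_lit 179) (nat_lit 159) (nat_lit 0) (nat_lit 9) (nat_lit 10) L15874 (by decide +kernel)
theorem L15925 : W_2 (nat_lit 2) (nat_lit 0x1000000004001f00008001000080000000000000000000000000000000) (nat_lit 0x0) (nat_lit 0x70000000000000000000000000000000000000000000000000) := D_2 (nat_lit 197) (nat_lit 196) (nat_lit 198) (nat_lit 3) (nat_lit 6) (nat_lit 10) (nat_lit 3) (nat_lit 7) (nat_lit 10) (by decide +kernel)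
theorem L15995 : W_2 (nat_lit 3) (nat_lit 0xc000600030001d001000080000000000000000000000000000000) (nat_lit 0x0) (nat_lit 0x2000300001800000000000000000000000000000000000000000000000) := T_2 (nat_lit 212) (nat_lit 229) (nat_lit 7) (nat_lit 7) (nat_lit 9) L15994 (by decide +kernel)
theorem L15996 : W_2 (nat_lit 4) (nat_lit 0xc000400030001d001000080000000000000000000000000000000) (nat_lit 0x0) (nat_lit 0x2000300003800000000000200000000000000000000000000000000000) := T_2 (nat_lit 193) (nat_lit 141) (nat_lit 4) (nat_lit 6) (nat_lit 12) L15995 (by decide +kernel)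
theorem L15997 : W_2 (nat_lit 5) (nat_lit 0x8000400030001d001000080000000000000000000000000000000) (nat_lit 0x0) (nat_lit 0x2800340003800000000000200000000000000000000000000000000000) := T_2 (nat_lit 210) (nat_lit 227) (nat_lit 5) (nat_lit 7) (nat_lit 9) L15996 (by decide +kernel)
theorem L16492 : W_2 (nat_lit 2) (nat_lit 0x20001f000b00000001000080000000000000000000000000000000) (nat_lit 0x0) (nat_lit 0x70000000000000000000000000000000000000000000000000000) := D_2 (nat_lit 209) (nat_lit 210) (nat_lit 208) (nat_lit 1) (nat_lit 9) (nat_lit 11) (nat_lit 1) (nat_lit 8) (nat_lit 11) (by decide +kernel)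
theorem L16493 : W_2 (nat_lit 3) (nat_lit 0x20001e000b00000001000080000000000000000000000000000000) (nat_lit 0x0) (nat_lit 0x170001000000000000000000000000000000000000000000000000) := T_2 (nat_lit 192) (nat_lit 212) (nat_lit 3) (nat_lit 5) (nat_lit 11) L16492 (by decide +kernel)
theorem L16494 : W_2 (nat_lit 4) (nat_lit 0x1e000b00000001000080000000000000000000000000000000) (nat_lit 0x0) (nat_lit 0x770001000000000000000000000000000000000000000000000000) := T_2 (nat_lit 213) (nat_lit 214) (nat_lit 3) (nat_lit 6) (nat_lit 11) L16493 (by decide +kernel)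
theorem L16495 : W_2 (nat_lit 5) (nat_lit 0x1e000a00000001000080000000000000000000000000000000) (nat_lit 0x0) (nat_lit 0x770001000180000000000000000000000000000000000000000000) := T_2 (nat_lit 176) (nat_lit 175) (nat_lit 0) (nat_lit 9) (nat_lit 11) L16494 (by decide +kernel)
theorem L16496 : W_2 (nat_lit 6) (nat_lit 0x1e000200000001000080000000000000000000000000000000) (nat_lit 0x0) (nat_lit 0x770001001980000000000000000000000000000000000000000000) := T_2 (nat_lit 179) (nat_lit 180) (nat_lit 2) (nat_lit 6) (nat_lit 11) L16495 (by decide +kernel)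
theorem L16575 : W_2 (nat_lit 2) (nat_lit 0x16000f00008001000080000000000000000000000000000000) (nat_lit 0x0) (nat_lit 0x1000080000000000000000400000000000000000000000000000000000) := D_2 (nat_lit 211) (nat_lit 228) (nat_lit 142) (nat_lit 4) (nat_lit 7) (nat_lit 13) (nat_lit 7) (nat_lit 6) (nat_lit 8) (by decide +kernel)
theorem L16576 : W_2 (nat_lit 3) (nat_lit 0x16000f00000001000080000000000000000000000000000000) (nat_lit 0x0) (nat_lit 0x100008000000000000c000400000000000000000000000000000000000) := T_2 (nat_lit 159) (nat_lit 158) (nat_lit 0) (nat_lit 9) (nat_lit 10) L16575 (by decide +kernel)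
theorem L16604 : W_2 (nat_lit 2) (nat_lit 0x180004001e000300028001400080000000000000000000000000000000) (nat_lit 0x0) (nat_lit 0x4000200010000000000000000000000000000000) := D_2 (nat_lit 141) (nat_lit 158) (nat_lit 124) (nat_lit 4) (nat_lit 6) (nat_lit 12) (nat_lit 4) (nat_lit 6) (nat_lit 11) (by decide +kernel)
theorem L16605 : W_2 (nat_lit 3) (nat_lit 0x180004001e000300028001000080000000000000000000000000000000) (nat_lit 0x0) (nat_lit 0x4000600030000000000000000000000000000000) := T_2 (nat_lit 142) (nat_lit 125) (nat_lit 7) (nat_lit 6) (nat_lit 7) L16604 (by decide +kernel)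
theorem L16606 : W_2 (nat_lit 4) (nat_lit 0x180004001e000300020001000080000000000000000000000000000000) (nat_lit 0x0) (nat_lit 0x8000000000000c000600030000000000000000000000000000000) := T_2 (nat_lit 159) (nat_lit 211) (nat_lit 7) (nat_lit 6) (nat_lit 9) L16605 (by decide +kernel)
theorem L16607 : W_2 (nat_lit 5) (nat_lit 0x80004001e000300020001000080000000000000000000000000000000) (nat_lit 0x0) (nat_lit 0x2000100008000000000000c000600030000000000000000000000000000000) := T_2 (nat_lit 228) (nat_lit 245) (nat_lit 7) (nat_lit 6) (nat_lit 10) L16606 (by decide +kernel)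
theorem L16608 : W_2 (nat_lit 6) (nat_lit 0x80004001e000300000001000080000000000000000000000000000000) (nat_lit 0x0) (nat_lit 0x2000100008000000040002c000600030000000000000000000000000000000) := T_2 (nat_lit 161) (nat_lit 178) (nat_lit 5) (nat_lit 8) (nat_lit 7) L16607 (by decide +kernel)
theorem L16609 : W_2 (nat_lit 7) (nat_lit 0x4001e000300000001000080000000000000000000000000000000) (nat_lit 0x0) (nat_lit 0x3000180008000000040002c000600030000000000000000000000000000000) := T_2 (nat_lit 227) (nat_lit 244) (nat_lit 6) (nat_lit 6) (nat_lit 14) L16608 (by decide +kernel)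
theorem L16610 : W_2 (nat_lit 8) (nat_lit 0x4001e000200000001000080000000000000000000000000000000) (nat_lit 0x0) (nat_lit 0x3000180008000000058002c000600030000000000000000000000000000000) := T_2 (nat_lit 176) (nat_lit 175) (nat_lit 0) (nat_lit 9) (nat_lit 11) L16609 (by decide +kernel)
theorem L16611 : W_2 (nat_lit 9) (nat_lit 0x1e000200000001000080000000000000000000000000000000) (nat_lit 0x0) (nat_lit 0x300018000e000000058002c000600030000000000000000000000000000000) := T_2 (nat_lit 210) (nat_lit 209) (nat_lit 1) (nat_lit 9) (nat_lit 11) L16610 (by decide +kernel)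
theorem L16622 : W_2 (nat_lit 2) (nat_lit 0x10000e000200010001000080000000000000000000000000000000) (nat_lit 0x0) (nat_lit 0x40002000080000000000000000000000000000000000000000000000000000) := D_2 (nat_lit 229) (nat_lit 211) (nat_lit 246) (nat_lit 7) (nat_lit 7) (nat_lit 9) (nat_lit 4) (nat_lit 8) (nat_lit 14) (by decide +kernel)
theorem L16623 : W_2 (nat_lit 3) (nat_lit 0x10000e000200000001000080000000000000000000000000000000) (nat_lit 0x0) (nat_lit 0x40002000080000000000010000800000000000000000000000000000000000) := T_2 (nat_lit 160) (nat_lit 143) (nat_lit 7) (nat_lit 7) (nat_lit 8) L16622 (by decide +kernel)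
theorem L16624 : W_2 (nat_lit 2) (nat_lit 0x4000000010000f000200000001000080000000000000000000000000000000) (nat_lit 0x0) (nat_lit 0x80000800400000000000000000000000000000000000000000000) := D_2 (nat_lit 191) (nat_lit 211) (nat_lit 178) (nat_lit 3) (nat_lit 4) (nat_lit 11) (nat_lit 2) (nat_lit 4) (nat_lit 11) (by decide +kernel)
theorem L16625 : W_2 (nat_lit 3) (nat_lit 0x4000000010000e000200000001000080000000000000000000000000000000) (nat_lit 0x0) (nat_lit 0x280001800400000000000000000000000000000000000000000000) := T_2 (nat_lit 192) (nat_lit 213) (nat_lit 3) (nat_lit 5) (nat_lit 11) L16624 (by decide +kernel)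
theorem L16626 : W_2 (nat_lit 4) (nat_lit 0x10000e000200000001000080000000000000000000000000000000) (nat_lit 0x0) (nat_lit 0x40002000280001800400000000000000000000000000000000000000000000) := T_2 (nat_lit 246) (nat_lit 229) (nat_lit 4) (nat_lit 8) (nat_lit 14) L16625 (by decide +kernel)
theorem L16670 : W_2 (nat_lit 2) (nat_lit 0xc000340000001f000a0000000000000000000000000000000) (nat_lit 0x0) (nat_lit 0x7000000000000000000000000000000000000000) := D_2 (nat_lit 157) (nat_lit 156) (nat_lit 158) (nat_lit 1) (nat_lit 7) (nat_lit 8) (nat_lit 1) (nat_lit 8) (nat_lit 8) (by decide +kernel)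
theorem L16671 : W_2 (nat_lit 3) (nat_lit 0xc000340000001e000a0000000000000000000000000000000) (nat_lit 0x0) (nat_lit 0x7000100040000000000000000000000000000000) := T_2 (nat_lit 140) (nat_lit 126) (nat_lit 2) (nat_lit 4) (nat_lit 8) L16670 (by decide +kernel)
theorem L16672 : W_2 (nat_lit 4) (nat_lit 0xc000340000001c000a0000000000000000000000000000000) (nat_lit 0x0) (nat_lit 0x7000300140000000000000000000000000000000) := T_2 (nat_lit 141) (nat_lit 128) (nat_lit 2) (nat_lit 5) (nat_lit 8) L16671 (by decide +kernel)
theorem L16673 : W_2 (nat_lit 5) (nat_lit 0xc000300000001c000a0000000000000000000000000000000) (nat_lit 0x0) (nat_lit 0xc0007000300140000000000000000000000000000000) := T_2 (nat_lit 174) (nat_lit 175) (nat_lit 3) (nat_lit 4) (nat_lit 10) L16672 (by decide +kernel)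
theorem L16674 : W_2 (nat_lit 6) (nat_lit 0xc0003000000014000a0000000000000000000000000000000) (nat_lit 0x0) (nat_lit 0xc0017000b00140000000000000000000000000000000) := T_2 (nat_lit 143) (nat_lit 160) (nat_lit 6) (nat_lit 7) (nat_lit 11) L16673 (by decide +kernel)
theorem L16675 : W_2 (nat_lit 7) (nat_lit 0xc000300000001400080000000000000000000000000000000) (nat_lit 0x0) (nat_lit 0xc001f000b00160000000000000000000000000000000) := T_2 (nat_lit 125) (nat_lit 159) (nat_lit 7) (nat_lit 6) (nat_lit 7) L16674 (by decide +kernel)
theorem L16676 : W_2 (nat_lit 2) (nat_lit 0xc000340000001f00080000000000000000000000000000000) (nat_lit 0x0) (nat_lit 0x7000000000000000000000000000000000000000) := D_2 (nat_lit 157) (nat_lit 156) (nat_lit 158) (nat_lit 1) (nat_lit 7) (nat_lit 8) (nat_lit 1) (nat_lit 8) (nat_lit 8) (by decide +kernel)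
theorem L16677 : W_2 (nat_lit 3) (nat_lit 0xc000340000001e00080000000000000000000000000000000) (nat_lit 0x0) (nat_lit 0x7000100040000000000000000000000000000000) := T_2 (nat_lit 140) (nat_lit 126) (nat_lit 2) (nat_lit 4) (nat_lit 8) L16676 (by decide +kernel)
theorem L16678 : W_2 (nat_lit 4) (nat_lit 0xc000340000001c00080000000000000000000000000000000) (nat_lit 0x0) (nat_lit 0x7000300140000000000000000000000000000000) := T_2 (nat_lit 141) (nat_lit 128) (nat_lit 2) (nat_lit 5) (nat_lit 8) L16677 (by decide +kernel)
theorem L16679 : W_2 (nat_lit 5) (nat_lit 0xc000300000001c00080000000000000000000000000000000) (nat_lit 0x0) (nat_lit 0xc0007000300140000000000000000000000000000000) := T_2 (nat_lit 174) (nat_lit 175) (nat_lit 3) (nat_lit 4) (nat_lit 10) L16678 (by decide +kernel)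
theorem L16680 : W_2 (nat_lit 6) (nat_lit 0xc000300000001400080000000000000000000000000000000) (nat_lit 0x0) (nat_lit 0xc0017000b00140000000000000000000000000000000) := T_2 (nat_lit 143) (nat_lit 160) (nat_lit 6) (nat_lit 7) (nat_lit 11) L16679 (by decide +kernel)
theorem L16711 : W_2 (nat_lit 2) (nat_lit 0x1000000024001f000a80000001f00080000000000000000000000000000000) (nat_lit 0x0) (nat_lit 0x1c000000000000000000000000000000) := D_2 (nat_lit 123) (nat_lit 124) (nat_lit 122) (nat_lit 0) (nat_lit 8) (nat_lit 8) (nat_lit 0) (nat_lit 7) (nat_lit 8) (by decide +kernel)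
theorem L16712 : W_2 (nat_lit 3) (nat_lit 0x1000000024001f000a80000001e00080000000000000000000000000000000) (nat_lit 0x0) (nat_lit 0x10005c000000000000000000000000000000) := T_2 (nat_lit 140) (nat_lit 126) (nat_lit 2) (nat_lit 4) (nat_lit 8) L16711 (by decide +kernel)
theorem L16713 : W_2 (nat_lit 4) (nat_lit 0x1000000024001f000a80000001a00080000000000000000000000000000000) (nat_lit 0x0) (nat_lit 0x50015c000000000000000000000000000000) := T_2 (nat_lit 142) (nat_lit 128) (nat_lit 2) (nat_lit 5) (nat_lit 8) L16712 (by decide +kernel)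
theorem L16731 : W_2 (nat_lit 2) (nat_lit 0x2c000300000001f00080000000000000000000000000000000) (nat_lit 0x0) (nat_lit 0x7000000000000000000000000000000000000000) := D_2 (nat_lit 157) (nat_lit 156) (nat_lit 158) (nat_lit 1) (nat_lit 7) (nat_lit 8) (nat_lit 1) (nat_lit 8) (nat_lit 8) (by decide +kernel)
theorem L16732 : W_2 (nat_lit 3) (nat_lit 0x2c000300000001e00080000000000000000000000000000000) (nat_lit 0x0) (nat_lit 0x7000100040000000000000000000000000000000) := T_2 (nat_lit 140) (nat_lit 126) (nat_lit 2) (nat_lit 4) (nat_lit 8) L16731 (by decide +kernel)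
theorem L16733 : W_2 (nat_lit 4) (nat_lit 0x2c000300000001c00080000000000000000000000000000000) (nat_lit 0x0) (nat_lit 0x7000300140000000000000000000000000000000) := T_2 (nat_lit 141) (nat_lit 128) (nat_lit 2) (nat_lit 5) (nat_lit 8) L16732 (by decide +kernel)
theorem L16739 : W_2 (nat_lit 2) (nat_lit 0x4000300000001f00080000000000000000000000000000000) (nat_lit 0x0) (nat_lit 0x7000000000000000000000000000000000000000) := D_2 (nat_lit 157) (nat_lit 156) (nat_lit 158) (nat_lit 1) (nat_lit 7) (nat_lit 8) (nat_lit 1) (nat_lit 8) (nat_lit 8) (by decide +kernel)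
theorem L16740 : W_2 (nat_lit 3) (nat_lit 0x4000300000001e00080000000000000000000000000000000) (nat_lit 0x0) (nat_lit 0x7000100040000000000000000000000000000000) := T_2 (nat_lit 140) (nat_lit 126) (nat_lit 2) (nat_lit 4) (nat_lit 8) L16739 (by decide +kernel)
theorem L16741 : W_2 (nat_lit 4) (nat_lit 0x4000300000001c00080000000000000000000000000000000) (nat_lit 0x0) (nat_lit 0x7000300140000000000000000000000000000000) := T_2 (nat_lit 141) (nat_lit 128) (nat_lit 2) (nat_lit 5) (nat_lit 8) L16740 (by decide +kernel)
theorem L16855 : W_2 (nat_lit 2) (nat_lit 0x6000700000001000080000000000000000000000000000000) (nat_lit 0x0) (nat_lit 0x1800800000000000000000000000000000000000000000000) := D_2 (nat_lit 192) (nat_lit 191) (nat_lit 179) (nat_lit 2) (nat_lit 4) (nat_lit 11) (nat_lit 1) (nat_lit 9) (nat_lit 10) (by decide +kernel)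
theorem L16856 : W_2 (nat_lit 3) (nat_lit 0x6000300000001000080000000000000000000000000000000) (nat_lit 0x0) (nat_lit 0x1800c00020000000000000000000000000000000000000000) := T_2 (nat_lit 178) (nat_lit 161) (nat_lit 5) (nat_lit 8) (nat_lit 7) L16855 (by decide +kernel)
theorem L16857 : W_2 (nat_lit 2) (nat_lit 0x800000006000f80014001000080000000000000000000000000000000) (nat_lit 0x0) (nat_lit 0x8000060000000000000000000000000000000000000000000) := D_2 (nat_lit 174) (nat_lit 173) (nat_lit 195) (nat_lit 3) (nat_lit 3) (nat_lit 10) (nat_lit 3) (nat_lit 4) (nat_lit 10) (by decide +kernel)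
theorem L16858 : W_2 (nat_lit 3) (nat_lit 0x800000006000f00014001000080000000000000000000000000000000) (nat_lit 0x0) (nat_lit 0x80000e0002000000000000000000000000000000000000000) := T_2 (nat_lit 175) (nat_lit 157) (nat_lit 0) (nat_lit 8) (nat_lit 10) L16857 (by decide +kernel)
theorem L16859 : W_2 (nat_lit 4) (nat_lit 0x800000006000f00010001000080000000000000000000000000000000) (nat_lit 0x0) (nat_lit 0x80000e000e000000000000000000000000000000000000000) := T_2 (nat_lit 158) (nat_lit 159) (nat_lit 0) (nat_lit 9) (nat_lit 10) L16858 (by decide +kernel)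
theorem L16889 : W_2 (nat_lit 2) (nat_lit 0x6000f00008001800080000000000000000000000000000000) (nat_lit 0x0) (nat_lit 0x400060000000000000000000000000000000) := D_2 (nat_lit 142) (nat_lit 126) (nat_lit 125) (nat_lit 6) (nat_lit 6) (nat_lit 11) (nat_lit 7) (nat_lit 6) (nat_lit 7) (by decide +kernel)
theorem L16890 : W_2 (nat_lit 3) (nat_lit 0x6000f00000001800080000000000000000000000000000000) (nat_lit 0x0) (nat_lit 0xc000400060000000000000000000000000000000) := T_2 (nat_lit 159) (nat_lit 158) (nat_lit 0) (nat_lit 9) (nat_lit 10) L16889 (by decide +kernel)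
theorem L16891 : W_2 (nat_lit 4) (nat_lit 0x6000700000001800080000000000000000000000000000000) (nat_lit 0x0) (nat_lit 0x180000c000400060000000000000000000000000000000) := T_2 (nat_lit 179) (nat_lit 180) (nat_lit 1) (nat_lit 10) (nat_lit 10) L16890 (by decide +kernel)
theorem L17014 : W_2 (nat_lit 3) (nat_lit 0x1e00000001000080000000000000000000000000000000) (nat_lit 0x0) (nat_lit 0x6000000018000800000000000000000000000000000000000) := T_2 (nat_lit 194) (nat_lit 193) (nat_lit 1) (nat_lit 10) (nat_lit 10) L5796 (by decide +kernel)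
theorem L17034 : W_2 (nat_lit 3) (nat_lit 0x2000f00008001000080000000000000000000000000000000) (nat_lit 0x0) (nat_lit 0x70001000010000000000000000000000000000000000000000) := T_2 (nat_lit 180) (nat_lit 160) (nat_lit 0) (nat_lit 10) (nat_lit 10) L11382 (by decide +kernel)
theorem L17035 : W_2 (nat_lit 4) (nat_lit 0xf00008001000080000000000000000000000000000000) (nat_lit 0x0) (nat_lit 0x73001000010000000000000000000000000000000000000000) := T_2 (nat_lit 193) (nat_lit 192) (nat_lit 1) (nat_lit 9) (nat_lit 10) L17034 (by decide +kernel)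
theorem L17036 : W_2 (nat_lit 5) (nat_lit 0xf00000001000080000000000000000000000000000000) (nat_lit 0x0) (nat_lit 0x7300100001c000000000000000000000000000000000000000) := T_2 (nat_lit 159) (nat_lit 158) (nat_lit 0) (nat_lit 9) (nat_lit 10) L17035 (by decide +kernel)
theorem L17083 : W_2 (nat_lit 2) (nat_lit 0x1000f00004001000080000000000000000000000000000000) (nat_lit 0x0) (nat_lit 0x800080002000000000000000000000000000000000000000) := D_2 (nat_lit 175) (nat_lit 191) (nat_lit 157) (nat_lit 1) (nat_lit 8) (nat_lit 10) (nat_lit 0) (nat_lit 8) (nat_lit 10) (by decide +kernel)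
theorem L17084 : W_2 (nat_lit 3) (nat_lit 0x1000f00000001000080000000000000000000000000000000) (nat_lit 0x0) (nat_lit 0x80008000e000000000000000000000000000000000000000) := T_2 (nat_lit 158) (nat_lit 159) (nat_lit 0) (nat_lit 9) (nat_lit 10) L17083 (by decide +kernel)
theorem L17085 : W_2 (nat_lit 4) (nat_lit 0xf00000001000080000000000000000000000000000000) (nat_lit 0x0) (nat_lit 0x380008000e000000000000000000000000000000000000000) := T_2 (nat_lit 192) (nat_lit 193) (nat_lit 1) (nat_lit 9) (nat_lit 10) L17084 (by decide +kernel)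
theorem L17164 : W_2 (nat_lit 2) (nat_lit 0x1e000600000001000080000000000000000000000000000000) (nat_lit 0x0) (nat_lit 0x1001800000000000000000000000000000000000000000000) := D_2 (nat_lit 179) (nat_lit 180) (nat_lit 192) (nat_lit 2) (nat_lit 6) (nat_lit 11) (nat_lit 2) (nat_lit 5) (nat_lit 11) (by decide +kernel)
theorem L17165 : W_2 (nat_lit 3) (nat_lit 0x1e000200000001000080000000000000000000000000000000) (nat_lit 0x0) (nat_lit 0x1001c00020000000000000000000000000000000000000000) := T_2 (nat_lit 178) (nat_lit 161) (nat_lit 5) (nat_lit 8) (nat_lit 7) L17164 (by decide +kernel)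
theorem L17191 : W_2 (nat_lit 2) (nat_lit 0x1a001f001200000001000080000000000000000000000000000000) (nat_lit 0x0) (nat_lit 0x60002000000000000000000000000000000000000000000000) := D_2 (nat_lit 197) (nat_lit 198) (nat_lit 181) (nat_lit 1) (nat_lit 11) (nat_lit 11) (nat_lit 2) (nat_lit 7) (nat_lit 11) (by decide +kernel)
theorem L17192 : W_2 (nat_lit 3) (nat_lit 0x1a001f000200000001000080000000000000000000000000000000) (nat_lit 0x0) (nat_lit 0x60003800000000000000000000000000000000000000000000) := T_2 (nat_lit 180) (nat_lit 179) (nat_lit 2) (nat_lit 6) (nat_lit 11) L17191 (by decide +kernel)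
theorem L17193 : W_2 (nat_lit 4) (nat_lit 0x1a000f000200000001000080000000000000000000000000000000) (nat_lit 0x0) (nat_lit 0x40070003800000000000000000000000000000000000000000000) := T_2 (nat_lit 196) (nat_lit 210) (nat_lit 2) (nat_lit 5) (nat_lit 12) L17192 (by decide +kernel)
theorem L17194 : W_2 (nat_lit 5) (nat_lit 0x12000f000200000001000080000000000000000000000000000000) (nat_lit 0x0) (nat_lit 0xc0070803800000000000000000000000000000000000000000000) := T_2 (nat_lit 211) (nat_lit 191) (nat_lit 3) (nat_lit 4) (nat_lit 11) L17193 (by decide +kernel)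
theorem L17195 : W_2 (nat_lit 6) (nat_lit 0x2000f000200000001000080000000000000000000000000000000) (nat_lit 0x0) (nat_lit 0x3c0070803800000000000000000000000000000000000000000000) := T_2 (nat_lit 212) (nat_lit 213) (nat_lit 3) (nat_lit 5) (nat_lit 11) L17194 (by decide +kernel)
theorem L17196 : W_2 (nat_lit 7) (nat_lit 0xf000200000001000080000000000000000000000000000000) (nat_lit 0x0) (nat_lit 0x3f0070803800000000000000000000000000000000000000000000) := T_2 (nat_lit 209) (nat_lit 208) (nat_lit 1) (nat_lit 8) (nat_lit 11) L17195 (by decide +kernel)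
theorem L17211 : W_2 (nat_lit 2) (nat_lit 0x24001e000a00010001000080000000000000000000000000000000) (nat_lit 0x0) (nat_lit 0x800080020000000000000000000000000000000000000000000000000) := D_2 (nat_lit 211) (nat_lit 197) (nat_lit 227) (nat_lit 1) (nat_lit 10) (nat_lit 11) (nat_lit 5) (nat_lit 7) (nat_lit 9) (by decide +kernel)
theorem L17212 : W_2 (nat_lit 3) (nat_lit 0x20001e000a00010001000080000000000000000000000000000000) (nat_lit 0x0) (nat_lit 0x8000e0020000000000000000000000000000000000000000000000000) := T_2 (nat_lit 210) (nat_lit 209) (nat_lit 1) (nat_lit 9) (nat_lit 11) L17211 (by decide +kernel)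
theorem L17213 : W_2 (nat_lit 4) (nat_lit 0x20001e000200010001000080000000000000000000000000000000) (nat_lit 0x0) (nat_lit 0x8000e0020001800000000000000000000000000000000000000000000) := T_2 (nat_lit 179) (nat_lit 180) (nat_lit 2) (nat_lit 6) (nat_lit 11) L17212 (by decide +kernel)
theorem L17214 : W_2 (nat_lit 5) (nat_lit 0x1e000200010001000080000000000000000000000000000000) (nat_lit 0x0) (nat_lit 0x8006e0020001800000000000000000000000000000000000000000000) := T_2 (nat_lit 213) (nat_lit 214) (nat_lit 3) (nat_lit 6) (nat_lit 11) L17213 (by decide +kernel)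
theorem L17215 : W_2 (nat_lit 6) (nat_lit 0x1e000200000001000080000000000000000000000000000000) (nat_lit 0x0) (nat_lit 0x8006e0020001800010000800000000000000000000000000000000000) := T_2 (nat_lit 160) (nat_lit 143) (nat_lit 6) (nat_lit 7) (nat_lit 11) L17214 (by decide +kernel)
theorem L17216 : W_2 (nat_lit 2) (nat_lit 0x1000000024003e000200000001000080000000000000000000000000000000) (nat_lit 0x0) (nat_lit 0x3800000000000000000000000000000000000000000000) := D_2 (nat_lit 180) (nat_lit 179) (nat_lit 181) (nat_lit 2) (nat_lit 6) (nat_lit 11) (nat_lit 2) (nat_lit 7) (nat_lit 11) (by decide +kernel)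
theorem L17217 : W_2 (nat_lit 3) (nat_lit 0x1000000024001e000200000001000080000000000000000000000000000000) (nat_lit 0x0) (nat_lit 0x80020003800000000000000000000000000000000000000000000) := T_2 (nat_lit 197) (nat_lit 211) (nat_lit 1) (nat_lit 10) (nat_lit 11) L17216 (by decide +kernel)
theorem L17218 : W_2 (nat_lit 4) (nat_lit 0x24001e000200000001000080000000000000000000000000000000) (nat_lit 0x0) (nat_lit 0x10000800080020003800000000000000000000000000000000000000000000) := T_2 (nat_lit 244) (nat_lit 227) (nat_lit 6) (nat_lit 6) (nat_lit 14) L17217 (by decide +kernel)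
theorem L17219 : W_2 (nat_lit 5) (nat_lit 0x4001e000200000001000080000000000000000000000000000000) (nat_lit 0x0) (nat_lit 0x10000800680020003800000000000000000000000000000000000000000000) := T_2 (nat_lit 213) (nat_lit 214) (nat_lit 3) (nat_lit 6) (nat_lit 11) L17218 (by decide +kernel)
theorem L17220 : W_2 (nat_lit 6) (nat_lit 0x1e000200000001000080000000000000000000000000000000) (nat_lit 0x0) (nat_lit 0x100008006e0020003800000000000000000000000000000000000000000000) := T_2 (nat_lit 210) (nat_lit 209) (nat_lit 1) (nat_lit 9) (nat_lit 11) L17219 (by decide +kernel)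
theorem L17221 : W_2 (nat_lit 8) (nat_lit 0x1000000004001e000200010001000080000000000000000000000000000000) (nat_lit 0x0) (nat_lit 0x80004003f000e0003c00000000000000000000000000000000000000000000) := T_2 (nat_lit 213) (nat_lit 214) (nat_lit 3) (nat_lit 6) (nat_lit 11) L5260 (by decide +kernel)
theorem L17222 : W_2 (nat_lit 9) (nat_lit 0x4001e000200010001000080000000000000000000000000000000) (nat_lit 0x0) (nat_lit 0x90004803f000e0003c00000000000000000000000000000000000000000000) := T_2 (nat_lit 244) (nat_lit 227) (nat_lit 6) (nat_lit 6) (nat_lit 14) L17221 (by decide +kernel)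
theorem L17223 : W_2 (nat_lit 10) (nat_lit 0x4001e000200000001000080000000000000000000000000000000) (nat_lit 0x0) (nat_lit 0x90004803f000e0003c00010000800000000000000000000000000000000000) := T_2 (nat_lit 160) (nat_lit 143) (nat_lit 6) (nat_lit 7) (nat_lit 11) L17222 (by decide +kernel)
theorem L17224 : W_2 (nat_lit 11) (nat_lit 0x1e000200000001000080000000000000000000000000000000) (nat_lit 0x0) (nat_lit 0x90004803f600e0003c00010000800000000000000000000000000000000000) := T_2 (nat_lit 210) (nat_lit 209) (nat_lit 1) (nat_lit 9) (nat_lit 11) L17223 (by decide +kernel)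
theorem L17257 : W_2 (nat_lit 2) (nat_lit 0x1000000004007e001200010001000080000000000000000000000000000000) (nat_lit 0x0) (nat_lit 0x1c00000000000000000000000000000000000000000000000000000) := D_2 (nat_lit 215) (nat_lit 214) (nat_lit 216) (nat_lit 3) (nat_lit 7) (nat_lit 11) (nat_lit 3) (nat_lit 8) (nat_lit 11) (by decide +kernel)
theorem L17258 : W_2 (nat_lit 3) (nat_lit 0x1000000004003e001200010001000080000000000000000000000000000000) (nat_lit 0x0) (nat_lit 0x1c00040000400000000000000000000000000000000000000000000) := T_2 (nat_lit 198) (nat_lit 178) (nat_lit 0) (nat_lit 11) (nat_lit 11) L17257 (by decide +kernel)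
theorem L17259 : W_2 (nat_lit 4) (nat_lit 0x1000000004001e001200010001000080000000000000000000000000000000) (nat_lit 0x0) (nat_lit 0x1c00060002400000000000000000000000000000000000000000000) := T_2 (nat_lit 197) (nat_lit 181) (nat_lit 2) (nat_lit 7) (nat_lit 11) L17258 (by decide +kernel)
theorem L17260 : W_2 (nat_lit 5) (nat_lit 0x4001e001200010001000080000000000000000000000000000000) (nat_lit 0x0) (nat_lit 0x10000801c00060002400000000000000000000000000000000000000000000) := T_2 (nat_lit 244) (nat_lit 227) (nat_lit 6) (nat_lit 6) (nat_lit 14) L17259 (by decide +kernel)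
theorem L17261 : W_2 (nat_lit 6) (nat_lit 0x4001e000200010001000080000000000000000000000000000000) (nat_lit 0x0) (nat_lit 0x10000801c00060003c00000000000000000000000000000000000000000000) := T_2 (nat_lit 180) (nat_lit 179) (nat_lit 2) (nat_lit 6) (nat_lit 11) L17260 (by decide +kernel)
theorem L17262 : W_2 (nat_lit 7) (nat_lit 0x4001e000200000001000080000000000000000000000000000000) (nat_lit 0x0) (nat_lit 0x10000801c00060003c00010000800000000000000000000000000000000000) := T_2 (nat_lit 160) (nat_lit 143) (nat_lit 6) (nat_lit 7) (nat_lit 11) L17261 (by decide +kernel)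
theorem L17263 : W_2 (nat_lit 8) (nat_lit 0x4000e000200000001000080000000000000000000000000000000) (nat_lit 0x0) (nat_lit 0x10000801c20070003c00010000800000000000000000000000000000000000) := T_2 (nat_lit 196) (nat_lit 209) (nat_lit 1) (nat_lit 9) (nat_lit 11) L17262 (by decide +kernel)
theorem L17285 : W_2 (nat_lit 4) (nat_lit 0x18000c000200010001000080000000000000000000000000000000) (nat_lit 0x0) (nat_lit 0x400020001000000000000500008000400000000000000000000000000000000000) := T_2 (nat_lit 159) (nat_lit 142) (nat_lit 4) (nat_lit 7) (nat_lit 12) L5443 (by decide +kernel)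
theorem L17286 : W_2 (nat_lit 5) (nat_lit 0x8000c000200010001000080000000000000000000000000000000) (nat_lit 0x0) (nat_lit 0x400020003000100000000500008000400000000000000000000000000000000000) := T_2 (nat_lit 212) (nat_lit 229) (nat_lit 7) (nat_lit 7) (nat_lit 9) L17285 (by decide +kernel)
theorem L17387 : W_2 (nat_lit 2) (nat_lit 0x50001000080004000200000001000080000000000000000000000000000000) (nat_lit 0x0) (nat_lit 0xa00020000000000000000000000000000000000000000000000000000000000000) := D_2 (nat_lit 245) (nat_lit 263) (nat_lit 261) (nat_lit 7) (nat_lit 7) (nat_lit 11) (nat_lit 5) (nat_lit 7) (nat_lit 11) (by decide +kernel)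
theorem L17388 : W_2 (nat_lit 3) (nat_lit 0x40001000080004000200000001000080000000000000000000000000000000) (nat_lit 0x0) (nat_lit 0xa00030000800000000000000000000000000000000000000000000000000000000) := T_2 (nat_lit 244) (nat_lit 227) (nat_lit 5) (nat_lit 7) (nat_lit 10) L17387 (by decide +kernel)
theorem L17389 : W_2 (nat_lit 4) (nat_lit 0x1000080004000200000001000080000000000000000000000000000000) (nat_lit 0x0) (nat_lit 0xa00070002800000000000000000000000000000000000000000000000000000000) := T_2 (nat_lit 246) (nat_lit 229) (nat_lit 7) (nat_lit 7) (nat_lit 10) L17388 (by decide +kernel)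
theorem L17397 : W_2 (nat_lit 4) (nat_lit 0x8003c001a0004000200000001000080000000000000000000000000000000) (nat_lit 0x0) (nat_lit 0x180004000040008000400020000000000000000000000000000000000000000) := T_2 (nat_lit 178) (nat_lit 161) (nat_lit 6) (nat_lit 7) (nat_lit 13) L6239 (by decide +kernel)
theorem L17398 : W_2 (nat_lit 5) (nat_lit 0x8003c00180004000200000001000080000000000000000000000000000000) (nat_lit 0x0) (nat_lit 0x180004000070008000400020000000000000000000000000000000000000000) := T_2 (nat_lit 209) (nat_lit 208) (nat_lit 0) (nat_lit 8) (nat_lit 13) L17397 (by decide +kernel)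
theorem L17399 : W_2 (nat_lit 6) (nat_lit 0x3c00180004000200000001000080000000000000000000000000000000) (nat_lit 0x0) (nat_lit 0x18c004000070008000400020000000000000000000000000000000000000000) := T_2 (nat_lit 243) (nat_lit 242) (nat_lit 1) (nat_lit 8) (nat_lit 13) L17398 (by decide +kernel)
theorem L17400 : W_2 (nat_lit 7) (nat_lit 0x1c00180004000200000001000080000000000000000000000000000000) (nat_lit 0x0) (nat_lit 0x1cc006000070008000400020000000000000000000000000000000000000000) := T_2 (nat_lit 229) (nat_lit 246) (nat_lit 7) (nat_lit 7) (nat_lit 10) L17399 (by decide +kernel)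
theorem L17401 : W_2 (nat_lit 8) (nat_lit 0x1800180004000200000001000080000000000000000000000000000000) (nat_lit 0x0) (nat_lit 0x1cc006600070008000400020000000000000000000000000000000000000000) := T_2 (nat_lit 226) (nat_lit 225) (nat_lit 2) (nat_lit 4) (nat_lit 13) L17400 (by decide +kernel)
theorem L17402 : W_2 (nat_lit 9) (nat_lit 0x1000180004000200000001000080000000000000000000000000000000) (nat_lit 0x0) (nat_lit 0x1dc006e00070008000400020000000000000000000000000000000000000000) := T_2 (nat_lit 227) (nat_lit 244) (nat_lit 5) (nat_lit 7) (nat_lit 10) L17401 (by decide +kernel)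
theorem L17422 : W_2 (nat_lit 2) (nat_lit 0x6000200030000e0004000600000001000080000000000000000000000000000000) (nat_lit 0x0) (nat_lit 0x8000000000004000100000000000000000000000000000000000000000000000000000) := D_2 (nat_lit 212) (nat_lit 279) (nat_lit 230) (nat_lit 6) (nat_lit 7) (nat_lit 16) (nat_lit 3) (nat_lit 5) (nat_lit 12) (by decide +kernel)
theorem L17423 : W_2 (nat_lit 3) (nat_lit 0x6000200030000c0004000600000001000080000000000000000000000000000000) (nat_lit 0x0) (nat_lit 0x8000000000004000130000000000000000000000000000000000000000000000000000) := T_2 (nat_lit 209) (nat_lit 208) (nat_lit 3) (nat_lit 4) (nat_lit 12) L17422 (by decide +kernel)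
theorem L17424 : W_2 (nat_lit 4) (nat_lit 0x600020003000080004000600000001000080000000000000000000000000000000) (nat_lit 0x0) (nat_lit 0x8000000000004000170002000000000000000000000000000000000000000000000000) := T_2 (nat_lit 210) (nat_lit 193) (nat_lit 4) (nat_lit 7) (nat_lit 15) L17423 (by decide +kernel)
theorem L17425 : W_2 (nat_lit 5) (nat_lit 0x200020003000080004000600000001000080000000000000000000000000000000) (nat_lit 0x0) (nat_lit 0xc000400000004000170002000000000000000000000000000000000000000000000000) := T_2 (nat_lit 262) (nat_lit 278) (nat_lit 5) (nat_lit 7) (nat_lit 12) L17424 (by decide +kernel)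
theorem L17426 : W_2 (nat_lit 6) (nat_lit 0x20003000080004000600000001000080000000000000000000000000000000) (nat_lit 0x0) (nat_lit 0xc000600010004000170002000000000000000000000000000000000000000000000000) := T_2 (nat_lit 261) (nat_lit 244) (nat_lit 5) (nat_lit 7) (nat_lit 11) L17425 (by decide +kernel)
theorem L17427 : W_2 (nat_lit 7) (nat_lit 0x3000080004000600000001000080000000000000000000000000000000) (nat_lit 0x0) (nat_lit 0xc00060003000400017000a000000000000000000000000000000000000000000000000) := T_2 (nat_lit 245) (nat_lit 195) (nat_lit 6) (nat_lit 7) (nat_lit 14) L17426 (by decide +kernel)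
theorem L17481 : W_2 (nat_lit 4) (nat_lit 0x80007000200000001000080000000000000000000000000000000) (nat_lit 0x0) (nat_lit 0x15c000c00000000000000000000000000000000000000000000000) := T_2 (nat_lit 191) (nat_lit 212) (nat_lit 3) (nat_lit 4) (nat_lit 11) L17480 (by decide +kernel)
theorem L17528 : W_2 (nat_lit 2) (nat_lit 0x8003c001e000a00000001000080000000000000000000000000000000) (nat_lit 0x0) (nat_lit 0x40002000000000000000040000000000000000000000000000000000000000) := D_2 (nat_lit 229) (nat_lit 246) (nat_lit 162) (nat_lit 6) (nat_lit 8) (nat_lit 14) (nat_lit 5) (nat_lit 9) (nat_lit 9) (by decide +kernel)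
theorem L17529 : W_2 (nat_lit 3) (nat_lit 0x8002c001e000a00000001000080000000000000000000000000000000) (nat_lit 0x0) (nat_lit 0x40002400100000000000040000000000000000000000000000000000000000) := T_2 (nat_lit 212) (nat_lit 226) (nat_lit 1) (nat_lit 9) (nat_lit 12) L17528 (by decide +kernel)
theorem L17530 : W_2 (nat_lit 4) (nat_lit 0x2c001e000a00000001000080000000000000000000000000000000) (nat_lit 0x0) (nat_lit 0x50002c00100000000000040000000000000000000000000000000000000000) := T_2 (nat_lit 227) (nat_lit 244) (nat_lit 6) (nat_lit 6) (nat_lit 14) L17529 (by decide +kernel)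
theorem L17540 : W_2 (nat_lit 2) (nat_lit 0x400048003c001e000200020001000080000000000000000000000000000000) (nat_lit 0x0) (nat_lit 0x1800080000000000000000000000000000000000000000000000000000000000000) := D_2 (nat_lit 247) (nat_lit 264) (nat_lit 263) (nat_lit 4) (nat_lit 9) (nat_lit 15) (nat_lit 5) (nat_lit 9) (nat_lit 11) (by decide +kernel)
theorem L17541 : W_2 (nat_lit 3) (nat_lit 0x48003c001e000200020001000080000000000000000000000000000000) (nat_lit 0x0) (nat_lit 0x18000c0002000000000000000000000000000000000000000000000000000000000) := T_2 (nat_lit 246) (nat_lit 229) (nat_lit 4) (nat_lit 8) (nat_lit 14) L17540 (by decide +kernel)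
theorem L17542 : W_2 (nat_lit 4) (nat_lit 0x8003c001e000200020001000080000000000000000000000000000000) (nat_lit 0x0) (nat_lit 0x18000c000e000000000000000000000000000000000000000000000000000000000) := T_2 (nat_lit 230) (nat_lit 231) (nat_lit 3) (nat_lit 6) (nat_lit 12) L17541 (by decide +kernel)
theorem L17543 : W_2 (nat_lit 5) (nat_lit 0x8002c001e000200020001000080000000000000000000000000000000) (nat_lit 0x0) (nat_lit 0x18000c000e400100000000000000000000000000000000000000000000000000000) := T_2 (nat_lit 212) (nat_lit 226) (nat_lit 1) (nat_lit 9) (nat_lit 12) L17542 (by decide +kernel)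
theorem L17952 : W_2 (nat_lit 2) (nat_lit 0x60003c001200020001000080000000000000000000000000000000) (nat_lit 0x0) (nat_lit 0x4000000000000000080004000000000000000000000000000000000000) := D_2 (nat_lit 163) (nat_lit 146) (nat_lit 230) (nat_lit 5) (nat_lit 10) (nat_lit 8) (nat_lit 5) (nat_lit 10) (nat_lit 9) (by decide +kernel)
theorem L23848 : W_2 (nat_lit 5) (nat_lit 0xf000680010001000080000000000000000000000000000000) (nat_lit 0x0) (nat_lit 0xe70070000000000000000000000000000000000000000000000000) := T_2 (nat_lit 209) (nat_lit 208) (nat_lit 1) (nat_lit 8) (nat_lit 11) L23847 (by decide +kernel)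
theorem L31807 : W_2 (nat_lit 2) (nat_lit 0x200010001a000e0000000000000000000000000000000) (nat_lit 0x0) (nat_lit 0x100018000000000000000000000000000000) := D_2 (nat_lit 124) (nat_lit 123) (nat_lit 140) (nat_lit 3) (nat_lit 4) (nat_lit 7) (nat_lit 1) (nat_lit 8) (nat_lit 7) (by decide +kernel)
theorem L31808 : W_2 (nat_lit 3) (nat_lit 0x200010001a000c0000000000000000000000000000000) (nat_lit 0x0) (nat_lit 0x100038001000000000000000000000000000) := T_2 (nat_lit 125) (nat_lit 108) (nat_lit 4) (nat_lit 7) (nat_lit 10) L31807 (by decide +kernel)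
theorem L31814 : W_2 (nat_lit 2) (nat_lit 0x300010001a000c0002000000000000000000000000000) (nat_lit 0x0) (nat_lit 0x20001000080000000000000000000000) := D_2 (nat_lit 108) (nat_lit 91) (nat_lit 125) (nat_lit 4) (nat_lit 7) (nat_lit 9) (nat_lit 4) (nat_lit 7) (nat_lit 10) (by decide +kernel)
theorem L31815 : W_2 (nat_lit 3) (nat_lit 0x300010001a000c0000000000000000000000000000000) (nat_lit 0x0) (nat_lit 0x8000000020003000080000000000000000000000) := T_2 (nat_lit 109) (nat_lit 159) (nat_lit 5) (nat_lit 7) (nat_lit 6) L31814 (by decide +kernel)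
theorem L31816 : W_2 (nat_lit 4) (nat_lit 0x200010001a000c0000000000000000000000000000000) (nat_lit 0x0) (nat_lit 0x2000100008000000020003000080000000000000000000000) := T_2 (nat_lit 176) (nat_lit 193) (nat_lit 5) (nat_lit 7) (nat_lit 7) L31815 (by decide +kernel)
theorem L31819 : W_2 (nat_lit 2) (nat_lit 0x4000200000001f00080000000000000000000000000000000) (nat_lit 0x0) (nat_lit 0x7000000000000000000000000000000000000000) := D_2 (nat_lit 157) (nat_lit 156) (nat_lit 158) (nat_lit 1) (nat_lit 7) (nat_lit 8) (nat_lit 1) (nat_lit 8) (nat_lit 8) (by decide +kernel)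
theorem L31820 : W_2 (nat_lit 3) (nat_lit 0x4000200000001e00080000000000000000000000000000000) (nat_lit 0x0) (nat_lit 0x7000100040000000000000000000000000000000) := T_2 (nat_lit 140) (nat_lit 126) (nat_lit 2) (nat_lit 4) (nat_lit 8) L31819 (by decide +kernel)
theorem L31823 : W_2 (nat_lit 2) (nat_lit 0x200000001f00080000000000000000000000000000000) (nat_lit 0x0) (nat_lit 0x7000000000000000000000000000000000000000) := D_2 (nat_lit 157) (nat_lit 156) (nat_lit 158) (nat_lit 1) (nat_lit 7) (nat_lit 8) (nat_lit 1) (nat_lit 8) (nat_lit 8) (by decide +kernel)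
theorem L31824 : W_2 (nat_lit 3) (nat_lit 0x200000001e00080000000000000000000000000000000) (nat_lit 0x0) (nat_lit 0x7000100040000000000000000000000000000000) := T_2 (nat_lit 140) (nat_lit 126) (nat_lit 2) (nat_lit 4) (nat_lit 8) L31823 (by decide +kernel)
theorem L31825 : W_2 (nat_lit 4) (nat_lit 0x200000001a00080000000000000000000000000000000) (nat_lit 0x0) (nat_lit 0x7000500140000000000000000000000000000000) := T_2 (nat_lit 142) (nat_lit 128) (nat_lit 2) (nat_lit 5) (nat_lit 8) L31824 (by decide +kernel)
theorem L31868 : W_2 (nat_lit 2) (nat_lit 0x500020002c001e000b0000800000000000000000000000000) (nat_lit 0x0) (nat_lit 0x40000400020000000000000000000000) := D_2 (nat_lit 106) (nat_lit 89) (nat_lit 126) (nat_lit 4) (nat_lit 5) (nat_lit 9) (nat_lit 0) (nat_lit 8) (nat_lit 7) (by decide +kernel)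
theorem L31869 : W_2 (nat_lit 3) (nat_lit 0x500020002c001e000b0000000000000000000000000000000) (nat_lit 0x0) (nat_lit 0x40000c00060000000000000000000000) := T_2 (nat_lit 107) (nat_lit 90) (nat_lit 7) (nat_lit 5) (nat_lit 5) L31868 (by decide +kernel)
theorem L31870 : W_2 (nat_lit 4) (nat_lit 0x5000200024001e000b0000000000000000000000000000000) (nat_lit 0x0) (nat_lit 0x100008000000040000c00060000000000000000000000) := T_2 (nat_lit 159) (nat_lit 176) (nat_lit 7) (nat_lit 6) (nat_lit 7) L31869 (by decide +kernel)
theorem L31988 : W_2 (nat_lit 2) (nat_lit 0x2000010017800b40008000e0000000000000000000000) (nat_lit 0x0) (nat_lit 0x8000600000000000000000000000000) := D_2 (nat_lit 106) (nat_lit 123) (nat_lit 105) (nat_lit 5) (nat_lit 4) (nat_lit 5) (nat_lit 6) (nat_lit 3) (nat_lit 9) (by decide +kernel)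
theorem L31989 : W_2 (nat_lit 3) (nat_lit 0x2000010017800b00008000e0000000000000000000000) (nat_lit 0x0) (nat_lit 0xe000600000000000000000000000000) := T_2 (nat_lit 122) (nat_lit 121) (nat_lit 0) (nat_lit 6) (nat_lit 8) L31988 (by decide +kernel)
theorem L31990 : W_2 (nat_lit 4) (nat_lit 0x2000000017800b00008000e0000000000000000000000) (nat_lit 0x0) (nat_lit 0x180000000e000600000000000000000000000000) := T_2 (nat_lit 156) (nat_lit 155) (nat_lit 1) (nat_lit 6) (nat_lit 8) L31989 (by decide +kernel)
theorem L31991 : W_2 (nat_lit 5) (nat_lit 0x2000000013800b00008000e0000000000000000000000) (nat_lit 0x0) (nat_lit 0x980040000e000600000000000000000000000000) := T_2 (nat_lit 142) (nat_lit 159) (nat_lit 7) (nat_lit 5) (nat_lit 5) L31990 (by decide +kernel)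
theorem L32054 : W_2 (nat_lit 2) (nat_lit 0x800280004001200098000000000000000000000000000000) (nat_lit 0x0) (nat_lit 0x10001000000000000100000000000000000000000000000000000) := D_2 (nat_lit 192) (nat_lit 140) (nat_lit 208) (nat_lit 4) (nat_lit 5) (nat_lit 11) (nat_lit 5) (nat_lit 5) (nat_lit 8) (by decide +kernel)
theorem L32055 : W_2 (nat_lit 3) (nat_lit 0x280004001200098000000000000000000000000000000) (nat_lit 0x0) (nat_lit 0x10001800040000000100000000000000000000000000000000000) := T_2 (nat_lit 191) (nat_lit 174) (nat_lit 5) (nat_lit 5) (nat_lit 7) L32054 (by decide +kernel)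
theorem L32056 : W_2 (nat_lit 4) (nat_lit 0x280004001200090000000000000000000000000000000) (nat_lit 0x0) (nat_lit 0x10001800040000000100008000400000000000000000000000000) := T_2 (nat_lit 123) (nat_lit 106) (nat_lit 4) (nat_lit 5) (nat_lit 10) L32055 (by decide +kernel)
theorem L32057 : W_2 (nat_lit 2) (nat_lit 0x40003c00040012000d0000c00000000000000000000000000) (nat_lit 0x0) (nat_lit 0x30000800000000000000000000000000000000000) := D_2 (nat_lit 160) (nat_lit 161) (nat_lit 143) (nat_lit 2) (nat_lit 4) (nat_lit 10) (nat_lit 6) (nat_lit 7) (nat_lit 11) (by decide +kernel)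
theorem L32058 : W_2 (nat_lit 3) (nat_lit 0x3c00040012000d0000c00000000000000000000000000) (nat_lit 0x0) (nat_lit 0xc000000030000800000000000000000000000000000000000) := T_2 (nat_lit 194) (nat_lit 195) (nat_lit 3) (nat_lit 4) (nat_lit 10) L32057 (by decide +kernel)
theorem L32059 : W_2 (nat_lit 4) (nat_lit 0x3800040012000d0000c00000000000000000000000000) (nat_lit 0x0) (nat_lit 0xc800040030000800000000000000000000000000000000000) := T_2 (nat_lit 174) (nat_lit 191) (nat_lit 5) (nat_lit 5) (nat_lit 7) L32058 (by decide +kernel)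
theorem L32335 : W_2 (nat_lit 2) (nat_lit 0x4000200021001f80092000000000000000000000000000000) (nat_lit 0x0) (nat_lit 0x40021000000000000000000000000000000) := D_2 (nat_lit 138) (nat_lit 125) (nat_lit 120) (nat_lit 2) (nat_lit 2) (nat_lit 8) (nat_lit 0) (nat_lit 5) (nat_lit 8) (by decide +kernel)
theorem L32336 : W_2 (nat_lit 3) (nat_lit 0x4000200021001f80090000000000000000000000000000000) (nat_lit 0x0) (nat_lit 0x40027000000000000000000000000000000) := T_2 (nat_lit 121) (nat_lit 122) (nat_lit 0) (nat_lit 6) (nat_lit 8) L32335 (by decide +kernel)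
theorem L32337 : W_2 (nat_lit 4) (nat_lit 0x4000200021001f00090000000000000000000000000000000) (nat_lit 0x0) (nat_lit 0x8000c0027000000000000000000000000000000) := T_2 (nat_lit 139) (nat_lit 155) (nat_lit 1) (nat_lit 6) (nat_lit 8) L32336 (by decide +kernel)
theorem L32338 : W_2 (nat_lit 5) (nat_lit 0x4000200001001f00090000000000000000000000000000000) (nat_lit 0x0) (nat_lit 0x608000c0027000000000000000000000000000000) := T_2 (nat_lit 161) (nat_lit 162) (nat_lit 3) (nat_lit 5) (nat_lit 8) L32337 (by decide +kernel)
theorem L32339 : W_2 (nat_lit 6) (nat_lit 0x4000200000001f00090000000000000000000000000000000) (nat_lit 0x0) (nat_lit 0x638000c0027000000000000000000000000000000) := T_2 (nat_lit 156) (nat_lit 157) (nat_lit 1) (nat_lit 7) (nat_lit 8) L32338 (by decide +kernel)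
theorem L32340 : W_2 (nat_lit 7) (nat_lit 0x4000200000001e00090000000000000000000000000000000) (nat_lit 0x0) (nat_lit 0x638001c0067000000000000000000000000000000) := T_2 (nat_lit 140) (nat_lit 126) (nat_lit 2) (nat_lit 4) (nat_lit 8) L32339 (by decide +kernel)
theorem L32743 : W_2 (nat_lit 2) (nat_lit 0x1000380004001a00098000000000000000000000000000000) (nat_lit 0x0) (nat_lit 0x10000800040000000000000000000000000000000000000000000) := D_2 (nat_lit 191) (nat_lit 174) (nat_lit 208) (nat_lit 5) (nat_lit 5) (nat_lit 7) (nat_lit 5) (nat_lit 5) (nat_lit 8) (by decide +kernel)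
theorem L32744 : W_2 (nat_lit 3) (nat_lit 0x380004001a00098000000000000000000000000000000) (nat_lit 0x0) (nat_lit 0x10001800040000000100000000000000000000000000000000000) := T_2 (nat_lit 192) (nat_lit 140) (nat_lit 4) (nat_lit 5) (nat_lit 11) L32743 (by decide +kernel)
theorem L32793 : W_2 (nat_lit 2) (nat_lit 0x4000200000001f00090000000000000000000000000000000) (nat_lit 0x0) (nat_lit 0x7000000000000000000000000000000000000000) := D_2 (nat_lit 157) (nat_lit 156) (nat_lit 158) (nat_lit 1) (nat_lit 7) (nat_lit 8) (nat_lit 1) (nat_lit 8) (nat_lit 8) (by decide +kernel)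
theorem L32794 : W_2 (nat_lit 3) (nat_lit 0x4000200000001e00090000000000000000000000000000000) (nat_lit 0x0) (nat_lit 0x7000100040000000000000000000000000000000) := T_2 (nat_lit 140) (nat_lit 126) (nat_lit 2) (nat_lit 4) (nat_lit 8) L32793 (by decide +kernel)
theorem L32805 : W_2 (nat_lit 2) (nat_lit 0x2000000012000b0000c000e0000000000000000000000) (nat_lit 0x0) (nat_lit 0x300100000000000000000000000) := D_2 (nat_lit 105) (nat_lit 104) (nat_lit 92) (nat_lit 3) (nat_lit 2) (nat_lit 6) (nat_lit 1) (nat_lit 7) (nat_lit 5) (by decide +kernel)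
theorem L32806 : W_2 (nat_lit 3) (nat_lit 0x2000000012000b00008000e0000000000000000000000) (nat_lit 0x0) (nat_lit 0x4000000000000700100000000000000000000000) := T_2 (nat_lit 106) (nat_lit 158) (nat_lit 4) (nat_lit 5) (nat_lit 9) L32805 (by decide +kernel)
theorem L32807 : W_2 (nat_lit 4) (nat_lit 0x2000000012000b0000800060000000000000000000000) (nat_lit 0x0) (nat_lit 0x4000000000000700180004000000000000000000) := T_2 (nat_lit 91) (nat_lit 74) (nat_lit 6) (nat_lit 5) (nat_lit 8) L32806 (by decide +kernel)
theorem L32808 : W_2 (nat_lit 5) (nat_lit 0x2000000012000b0000800040000000000000000000000) (nat_lit 0x0) (nat_lit 0x40000000000007001a0005000000000000000000) := T_2 (nat_lit 89) (nat_lit 72) (nat_lit 4) (nat_lit 5) (nat_lit 8) L32807 (by decide +kernel)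
theorem L32813 : W_2 (nat_lit 2) (nat_lit 0x2000000013000b0000800040002000000000000000000) (nat_lit 0x0) (nat_lit 0x80004000200000000000000) := D_2 (nat_lit 74) (nat_lit 91) (nat_lit 57) (nat_lit 6) (nat_lit 5) (nat_lit 8) (nat_lit 6) (nat_lit 5) (nat_lit 7) (by decide +kernel)
theorem L32814 : W_2 (nat_lit 3) (nat_lit 0x2000000013000b0000800040000000000000000000000) (nat_lit 0x0) (nat_lit 0x8000000080006000200000000000000) := T_2 (nat_lit 73) (nat_lit 123) (nat_lit 5) (nat_lit 5) (nat_lit 4) L32813 (by decide +kernel)
theorem L32815 : W_2 (nat_lit 4) (nat_lit 0x2000000012000b0000800040000000000000000000000) (nat_lit 0x0) (nat_lit 0x2000100008000000080006000200000000000000) := T_2 (nat_lit 140) (nat_lit 157) (nat_lit 5) (nat_lit 5) (nat_lit 5) L32814 (by decide +kernel)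
theorem L32823 : W_2 (nat_lit 2) (nat_lit 0x2000000016000b0000800000000000000000000000000) (nat_lit 0x0) (nat_lit 0x8000000000000000040002000000000000000000) := D_2 (nat_lit 90) (nat_lit 159) (nat_lit 73) (nat_lit 7) (nat_lit 5) (nat_lit 5) (nat_lit 7) (nat_lit 5) (nat_lit 4) (by decide +kernel)
theorem L32825 : W_2 (nat_lit 2) (nat_lit 0x2000000012000b0000800040000000000000000000000) (nat_lit 0x0) (nat_lit 0x8000400000000000000002000000000000000000) := D_2 (nat_lit 142) (nat_lit 73) (nat_lit 159) (nat_lit 7) (nat_lit 5) (nat_lit 4) (nat_lit 7) (nat_lit 5) (nat_lit 5) (by decide +kernel)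
theorem L32827 : W_2 (nat_lit 2) (nat_lit 0x2800040012000b0000d00000000000000000000000000) (nat_lit 0x0) (nat_lit 0x800040002000000000000000000000000000000000000000) := D_2 (nat_lit 174) (nat_lit 157) (nat_lit 191) (nat_lit 5) (nat_lit 5) (nat_lit 6) (nat_lit 5) (nat_lit 5) (nat_lit 7) (by decide +kernel)
theorem L32828 : W_2 (nat_lit 3) (nat_lit 0x2000040012000b0000d00000000000000000000000000) (nat_lit 0x0) (nat_lit 0x8000c0002000000008000000000000000000000000000000) := T_2 (nat_lit 175) (nat_lit 123) (nat_lit 4) (nat_lit 5) (nat_lit 10) L32827 (by decide +kernel)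
theorem L32829 : W_2 (nat_lit 4) (nat_lit 0x2000040012000b0000c00000000000000000000000000) (nat_lit 0x0) (nat_lit 0x8000c0002000000008000300000000000000000000000000) := T_2 (nat_lit 104) (nat_lit 105) (nat_lit 3) (nat_lit 2) (nat_lit 6) L32828 (by decide +kernel)
theorem L32830 : W_2 (nat_lit 5) (nat_lit 0x2000040012000b0000800000000000000000000000000) (nat_lit 0x0) (nat_lit 0x8000c0002000000008000700020000000000000000000000) := T_2 (nat_lit 106) (nat_lit 89) (nat_lit 4) (nat_lit 5) (nat_lit 9) L32829 (by decide +kernel)
theorem L32881 : W_2 (nat_lit 2) (nat_lit 0x280034001e000b0000000000000000000000000000000) (nat_lit 0x0) (nat_lit 0x800040008000000000000000000000000000000000000000) := D_2 (nat_lit 174) (nat_lit 191) (nat_lit 159) (nat_lit 5) (nat_lit 5) (nat_lit 7) (nat_lit 1) (nat_lit 8) (nat_lit 9) (by decide +kernel)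
theorem L32882 : W_2 (nat_lit 3) (nat_lit 0x200034001e000b0000000000000000000000000000000) (nat_lit 0x0) (nat_lit 0x18000c0008000000000000000000000000000000000000000) := T_2 (nat_lit 175) (nat_lit 192) (nat_lit 6) (nat_lit 5) (nat_lit 11) L32881 (by decide +kernel)
theorem L32893 : W_2 (nat_lit 2) (nat_lit 0x2000000016000f0000800000000000000000000000000) (nat_lit 0x0) (nat_lit 0x8000000000000000040002000000000000000000) := D_2 (nat_lit 90) (nat_lit 73) (nat_lit 159) (nat_lit 7) (nat_lit 5) (nat_lit 4) (nat_lit 7) (nat_lit 5) (nat_lit 5) (by decide +kernel)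
theorem L32983 : W_2 (nat_lit 2) (nat_lit 0x42003e0005001a000b8000000000000000000000000000000) (nat_lit 0x0) (nat_lit 0x100010008000000000000000000000000000000000000000) := D_2 (nat_lit 172) (nat_lit 159) (nat_lit 188) (nat_lit 2) (nat_lit 2) (nat_lit 10) (nat_lit 1) (nat_lit 5) (nat_lit 10) (by decide +kernel)
theorem L32984 : W_2 (nat_lit 3) (nat_lit 0x40003e0005001a000b8000000000000000000000000000000) (nat_lit 0x0) (nat_lit 0x700010008000000000000000000000000000000000000000) := T_2 (nat_lit 189) (nat_lit 190) (nat_lit 1) (nat_lit 6) (nat_lit 10) L32983 (by decide +kernel)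
theorem L32985 : W_2 (nat_lit 4) (nat_lit 0x40003c0005001a000b8000000000000000000000000000000) (nat_lit 0x0) (nat_lit 0x700030008800000000000000000000000000000000000000) := T_2 (nat_lit 173) (nat_lit 155) (nat_lit 0) (nat_lit 6) (nat_lit 10) L32984 (by decide +kernel)
theorem L32986 : W_2 (nat_lit 5) (nat_lit 0x40003c0004001a000b8000000000000000000000000000000) (nat_lit 0x0) (nat_lit 0x70003000b800000000000000000000000000000000000000) := T_2 (nat_lit 156) (nat_lit 157) (nat_lit 0) (nat_lit 7) (nat_lit 10) L32985 (by decide +kernel)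
theorem L33146 : W_2 (nat_lit 2) (nat_lit 0x200014001e00090000000000000000000000000000000) (nat_lit 0x0) (nat_lit 0x60000100000000000000000000000000000000000) := D_2 (nat_lit 161) (nat_lit 162) (nat_lit 140) (nat_lit 3) (nat_lit 5) (nat_lit 8) (nat_lit 3) (nat_lit 4) (nat_lit 8) (by decide +kernel)
theorem L33147 : W_2 (nat_lit 3) (nat_lit 0x200004001e00090000000000000000000000000000000) (nat_lit 0x0) (nat_lit 0x4000000070000100000000000000000000000000000000000) := T_2 (nat_lit 160) (nat_lit 194) (nat_lit 6) (nat_lit 7) (nat_lit 11) L33146 (by decide +kernel)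
theorem L33148 : W_2 (nat_lit 4) (nat_lit 0x200000001e00090000000000000000000000000000000) (nat_lit 0x0) (nat_lit 0x4000000076000100000000000000000000000000000000000) := T_2 (nat_lit 158) (nat_lit 157) (nat_lit 1) (nat_lit 8) (nat_lit 8) L33147 (by decide +kernel)
theorem L33157 : W_2 (nat_lit 2) (nat_lit 0x28003c001e00090000000040000000000000000000000) (nat_lit 0x0) (nat_lit 0x20001000000000000000020000000000000000000000000000000) := D_2 (nat_lit 192) (nat_lit 209) (nat_lit 125) (nat_lit 6) (nat_lit 5) (nat_lit 12) (nat_lit 6) (nat_lit 5) (nat_lit 11) (by decide +kernel)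
theorem L33158 : W_2 (nat_lit 3) (nat_lit 0x20003c001e00090000000040000000000000000000000) (nat_lit 0x0) (nat_lit 0x200010000c0000000000020000000000000000000000000000000) := T_2 (nat_lit 175) (nat_lit 174) (nat_lit 1) (nat_lit 8) (nat_lit 9) L33157 (by decide +kernel)
theorem L33375 : W_2 (nat_lit 2) (nat_lit 0x380004001200090000800000000000000000000000000) (nat_lit 0x0) (nat_lit 0x8000400020000000000000000000000) := D_2 (nat_lit 106) (nat_lit 123) (nat_lit 89) (nat_lit 4) (nat_lit 5) (nat_lit 10) (nat_lit 4) (nat_lit 5) (nat_lit 9) (by decide +kernel)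
theorem L33376 : W_2 (nat_lit 3) (nat_lit 0x380004001200090000000000000000000000000000000) (nat_lit 0x0) (nat_lit 0x8000000008000c00020000000000000000000000) := T_2 (nat_lit 107) (nat_lit 159) (nat_lit 7) (nat_lit 5) (nat_lit 6) L33375 (by decide +kernel)
theorem L33478 : W_2 (nat_lit 2) (nat_lit 0x8003c0002001300080000000000000000000000000000000) (nat_lit 0x0) (nat_lit 0x20001000000000000000008000000000000000000000000000000) := D_2 (nat_lit 192) (nat_lit 123) (nat_lit 209) (nat_lit 7) (nat_lit 4) (nat_lit 7) (nat_lit 7) (nat_lit 4) (nat_lit 8) (by decide +kernel)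
theorem L33479 : W_2 (nat_lit 3) (nat_lit 0x8003c0002001200080000000000000000000000000000000) (nat_lit 0x0) (nat_lit 0x20001000000000000100018000000000000000000000000000000) := T_2 (nat_lit 140) (nat_lit 124) (nat_lit 6) (nat_lit 4) (nat_lit 11) L33478 (by decide +kernel)
theorem L38170 : W_2 (nat_lit 2) (nat_lit 0x200000001f00080000000000000000000000000000000) (nat_lit 0x0) (nat_lit 0x1c000000000000000000000000000000) := D_2 (nat_lit 123) (nat_lit 124) (nat_lit 122) (nat_lit 0) (nat_lit 8) (nat_lit 8) (nat_lit 0) (nat_lit 7) (nat_lit 8) (by decide +kernel)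
theorem L38650 : W_2 (nat_lit 2) (nat_lit 0x20001c001300080000000000000000000000000000000) (nat_lit 0x0) (nat_lit 0x4c0000000000000000000000000000000000) := D_2 (nat_lit 139) (nat_lit 138) (nat_lit 142) (nat_lit 3) (nat_lit 2) (nat_lit 8) (nat_lit 3) (nat_lit 3) (nat_lit 8) (by decide +kernel)
theorem L38697 : W_2 (nat_lit 2) (nat_lit 0x3000380004001300080000000000000000000000000000000) (nat_lit 0x0) (nat_lit 0x10000c00000000000000000000000000000000000000000000000) := D_2 (nat_lit 191) (nat_lit 190) (nat_lit 208) (nat_lit 2) (nat_lit 3) (nat_lit 11) (nat_lit 5) (nat_lit 5) (nat_lit 8) (by decide +kernel)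
theorem L38698 : W_2 (nat_lit 3) (nat_lit 0x1000380004001300080000000000000000000000000000000) (nat_lit 0x0) (nat_lit 0x50002c00000000000000000000000000000000000000000000000) := T_2 (nat_lit 193) (nat_lit 210) (nat_lit 7) (nat_lit 5) (nat_lit 8) L38697 (by decide +kernel)
theorem L38699 : W_2 (nat_lit 4) (nat_lit 0x1000380004001200080000000000000000000000000000000) (nat_lit 0x0) (nat_lit 0x50002c00000000000100008000000000000000000000000000000) := T_2 (nat_lit 140) (nat_lit 123) (nat_lit 4) (nat_lit 5) (nat_lit 11) L38698 (by decide +kernel)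
theorem L38700 : W_2 (nat_lit 2) (nat_lit 0x3000380004001200080000000000000000000000000000000) (nat_lit 0x0) (nat_lit 0x10000c00000000000000000000000000000000000000000000000) := D_2 (nat_lit 191) (nat_lit 190) (nat_lit 208) (nat_lit 2) (nat_lit 3) (nat_lit 11) (nat_lit 5) (nat_lit 5) (nat_lit 8) (by decide +kernel)
theorem L38701 : W_2 (nat_lit 3) (nat_lit 0x1000380004001200080000000000000000000000000000000) (nat_lit 0x0) (nat_lit 0x50002c00000000000000000000000000000000000000000000000) := T_2 (nat_lit 193) (nat_lit 210) (nat_lit 7) (nat_lit 5) (nat_lit 8) L38700 (by decide +kernel)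
theorem L38702 : W_2 (nat_lit 2) (nat_lit 0x20001000380004001600080000000000000000000000000000000) (nat_lit 0x0) (nat_lit 0x200010000800000000000000000000000000000000000000000000000) := D_2 (nat_lit 208) (nat_lit 225) (nat_lit 191) (nat_lit 5) (nat_lit 5) (nat_lit 9) (nat_lit 5) (nat_lit 5) (nat_lit 8) (by decide +kernel)
theorem L38703 : W_2 (nat_lit 3) (nat_lit 0x1000380004001600080000000000000000000000000000000) (nat_lit 0x0) (nat_lit 0x200030000800000008000000000000000000000000000000000000000) := T_2 (nat_lit 209) (nat_lit 159) (nat_lit 6) (nat_lit 5) (nat_lit 12) L38702 (by decide +kernel)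
theorem L38704 : W_2 (nat_lit 4) (nat_lit 0x1000380004001200080000000000000000000000000000000) (nat_lit 0x0) (nat_lit 0x200030000800000008000400020000000000000000000000000000000) := T_2 (nat_lit 142) (nat_lit 125) (nat_lit 6) (nat_lit 5) (nat_lit 11) L38703 (by decide +kernel)
theorem L38710 : W_2 (nat_lit 4) (nat_lit 0x380004001200080000000000000000000000000000000) (nat_lit 0x0) (nat_lit 0x2000000008000000018000c00020000000000000000000000) := T_2 (nat_lit 124) (nat_lit 193) (nat_lit 7) (nat_lit 5) (nat_lit 7) L33376 (by decide +kernel)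
theorem L38715 : W_2 (nat_lit 2) (nat_lit 0x400020001a00380004001300080000000000000000000000000000000) (nat_lit 0x0) (nat_lit 0x10000800040000000000000000000000000000000000000000000000000000) := D_2 (nat_lit 227) (nat_lit 210) (nat_lit 244) (nat_lit 7) (nat_lit 5) (nat_lit 9) (nat_lit 7) (nat_lit 5) (nat_lit 10) (by decide +kernel)
theorem L38716 : W_2 (nat_lit 3) (nat_lit 0x20001a00380004001300080000000000000000000000000000000) (nat_lit 0x0) (nat_lit 0x10000c00040000000000008000000000000000000000000000000000000000) := T_2 (nat_lit 226) (nat_lit 159) (nat_lit 6) (nat_lit 5) (nat_lit 13) L38715 (by decide +kernel)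
theorem L38717 : W_2 (nat_lit 4) (nat_lit 0x1a00380004001300080000000000000000000000000000000) (nat_lit 0x0) (nat_lit 0x10000c0006000000000000a000000000000000000000000000000000000000) := T_2 (nat_lit 209) (nat_lit 157) (nat_lit 4) (nat_lit 5) (nat_lit 12) L38716 (by decide +kernel)
theorem L38740 : W_2 (nat_lit 2) (nat_lit 0x8003c0002001200080000000000000000000000000000000) (nat_lit 0x0) (nat_lit 0x4000100010000000000000000000000000000000) := D_2 (nat_lit 124) (nat_lit 158) (nat_lit 140) (nat_lit 5) (nat_lit 5) (nat_lit 7) (nat_lit 6) (nat_lit 4) (nat_lit 11) (by decide +kernel)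
theorem L38741 : W_2 (nat_lit 3) (nat_lit 0x8003c0000001200080000000000000000000000000000000) (nat_lit 0x0) (nat_lit 0x7000100010000000000000000000000000000000) := T_2 (nat_lit 157) (nat_lit 156) (nat_lit 0) (nat_lit 7) (nat_lit 10) L38740 (by decide +kernel)
theorem L38742 : W_2 (nat_lit 4) (nat_lit 0x3c0000001200080000000000000000000000000000000) (nat_lit 0x0) (nat_lit 0xc00000007000100010000000000000000000000000000000) := T_2 (nat_lit 191) (nat_lit 190) (nat_lit 1) (nat_lit 7) (nat_lit 10) L38741 (by decide +kernel)
theorem L38795 : W_2 (nat_lit 2) (nat_lit 0x2000380008001600080000000000000000000000000000000) (nat_lit 0x0) (nat_lit 0x20001000000000000000020000000000000000000000000000000) := D_2 (nat_lit 192) (nat_lit 125) (nat_lit 209) (nat_lit 5) (nat_lit 6) (nat_lit 7) (nat_lit 5) (nat_lit 6) (nat_lit 8) (by decide +kernel)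
theorem L38796 : W_2 (nat_lit 3) (nat_lit 0x380008001600080000000000000000000000000000000) (nat_lit 0x0) (nat_lit 0x20003000000000000000030000000000000000000000000000000) := T_2 (nat_lit 193) (nat_lit 124) (nat_lit 4) (nat_lit 6) (nat_lit 11) L38795 (by decide +kernel)
theorem L38856 : W_2 (nat_lit 2) (nat_lit 0x3c0000001200090000000000000000000000000000000) (nat_lit 0x0) (nat_lit 0x2800000004000000000000000000000000000000000000000) := D_2 (nat_lit 158) (nat_lit 191) (nat_lit 193) (nat_lit 5) (nat_lit 5) (nat_lit 7) (nat_lit 7) (nat_lit 5) (nat_lit 7) (by decide +kernel)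
theorem L38862 : W_2 (nat_lit 2) (nat_lit 0x3c0002001200090000000000000000000000000000000) (nat_lit 0x0) (nat_lit 0x2000000004000000000000800000000000000000000000000) := D_2 (nat_lit 158) (nat_lit 193) (nat_lit 107) (nat_lit 7) (nat_lit 5) (nat_lit 7) (nat_lit 5) (nat_lit 5) (nat_lit 6) (by decide +kernel)
theorem L38863 : W_2 (nat_lit 3) (nat_lit 0x3c0000001200090000000000000000000000000000000) (nat_lit 0x0) (nat_lit 0x2000000007000000000000800000000000000000000000000) := T_2 (nat_lit 157) (nat_lit 156) (nat_lit 0) (nat_lit 7) (nat_lit 10) L38862 (by decide +kernel)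
theorem L39020 : W_2 (nat_lit 2) (nat_lit 0x8003c0012001300080000000000000000000000000000000) (nat_lit 0x0) (nat_lit 0x20001000000000000000008000000000000000000000000000000) := D_2 (nat_lit 192) (nat_lit 123) (nat_lit 209) (nat_lit 7) (nat_lit 4) (nat_lit 7) (nat_lit 7) (nat_lit 4) (nat_lit 8) (by decide +kernel)
theorem L39021 : W_2 (nat_lit 3) (nat_lit 0x8003c0012001200080000000000000000000000000000000) (nat_lit 0x0) (nat_lit 0x20001000000000000100018000000000000000000000000000000) := T_2 (nat_lit 140) (nat_lit 124) (nat_lit 6) (nat_lit 4) (nat_lit 11) L39020 (by decide +kernel)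
theorem L39026 : W_2 (nat_lit 2) (nat_lit 0x380018003c0012001200080000000000000000000000000000000) (nat_lit 0x0) (nat_lit 0x6002000000000000000000000000000000000000000000000000) := D_2 (nat_lit 206) (nat_lit 205) (nat_lit 193) (nat_lit 2) (nat_lit 1) (nat_lit 12) (nat_lit 2) (nat_lit 2) (nat_lit 12) (by decide +kernel)
theorem L39027 : W_2 (nat_lit 3) (nat_lit 0x380008003c0012001200080000000000000000000000000000000) (nat_lit 0x0) (nat_lit 0x6003000000000000100000000000000000000000000000000000) := T_2 (nat_lit 192) (nat_lit 140) (nat_lit 7) (nat_lit 4) (nat_lit 8) L39026 (by decide +kernel)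
theorem L39028 : W_2 (nat_lit 4) (nat_lit 0x180008003c0012001200080000000000000000000000000000000) (nat_lit 0x0) (nat_lit 0x400026003000000000000100000000000000000000000000000000000) := T_2 (nat_lit 209) (nat_lit 226) (nat_lit 7) (nat_lit 4) (nat_lit 9) L39027 (by decide +kernel)
theorem L39029 : W_2 (nat_lit 5) (nat_lit 0x100008003c0012001200080000000000000000000000000000000) (nat_lit 0x0) (nat_lit 0x50002e003000000000000100000000000000000000000000000000000) := T_2 (nat_lit 207) (nat_lit 224) (nat_lit 5) (nat_lit 4) (nat_lit 9) L39028 (by decide +kernel)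
theorem L39030 : W_2 (nat_lit 6) (nat_lit 0x8003c0012001200080000000000000000000000000000000) (nat_lit 0x0) (nat_lit 0x50003e003000000004000100000000000000000000000000000000000) := T_2 (nat_lit 208) (nat_lit 158) (nat_lit 6) (nat_lit 4) (nat_lit 12) L39029 (by decide +kernel)
theorem L39044 : W_2 (nat_lit 2) (nat_lit 0x8003c0014001200080000000000000000000000000000000) (nat_lit 0x0) (nat_lit 0x200010001000000000000000000000000000000000000000000000000) := D_2 (nat_lit 208) (nat_lit 192) (nat_lit 225) (nat_lit 5) (nat_lit 5) (nat_lit 8) (nat_lit 6) (nat_lit 4) (nat_lit 13) (by decide +kernel)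
theorem L39045 : W_2 (nat_lit 3) (nat_lit 0x8003c0010001200080000000000000000000000000000000) (nat_lit 0x0) (nat_lit 0x200010001000000004000000010000000000000000000000000000000) := T_2 (nat_lit 158) (nat_lit 124) (nat_lit 5) (nat_lit 5) (nat_lit 7) L39044 (by decide +kernel)
theorem L39048 : W_2 (nat_lit 2) (nat_lit 0x10003c0016001600080000000000000000000000000000000) (nat_lit 0x0) (nat_lit 0x400020000000000000000100000000000000000000000000000000000) := D_2 (nat_lit 209) (nat_lit 226) (nat_lit 140) (nat_lit 4) (nat_lit 5) (nat_lit 13) (nat_lit 4) (nat_lit 5) (nat_lit 12) (by decide +kernel)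
theorem L39049 : W_2 (nat_lit 3) (nat_lit 0x3c0016001600080000000000000000000000000000000) (nat_lit 0x0) (nat_lit 0x400020001000000000000100020000000000000000000000000000000) := T_2 (nat_lit 192) (nat_lit 125) (nat_lit 6) (nat_lit 5) (nat_lit 11) L39048 (by decide +kernel)
theorem L39050 : W_2 (nat_lit 4) (nat_lit 0x3c0016001200080000000000000000000000000000000) (nat_lit 0x0) (nat_lit 0x400020001000000000000d00020000000000000000000000000000000) := T_2 (nat_lit 142) (nat_lit 143) (nat_lit 1) (nat_lit 8) (nat_lit 8) L39049 (by decide +kernel)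
theorem L39051 : W_2 (nat_lit 5) (nat_lit 0x3c0006001200080000000000000000000000000000000) (nat_lit 0x0) (nat_lit 0x400020001000000030000d00020000000000000000000000000000000) := T_2 (nat_lit 160) (nat_lit 161) (nat_lit 2) (nat_lit 4) (nat_lit 10) L39050 (by decide +kernel)
theorem L39052 : W_2 (nat_lit 6) (nat_lit 0x3c0004001200080000000000000000000000000000000) (nat_lit 0x0) (nat_lit 0x400020001000000033000d00020000000000000000000000000000000) := T_2 (nat_lit 157) (nat_lit 156) (nat_lit 0) (nat_lit 7) (nat_lit 10) L39051 (by decide +kernel)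
theorem L39053 : W_2 (nat_lit 2) (nat_lit 0x3c00040012000b8000000000000000000000000000000) (nat_lit 0x0) (nat_lit 0x1000000000000c00000000000000000000000000000000000) := D_2 (nat_lit 142) (nat_lit 143) (nat_lit 192) (nat_lit 0) (nat_lit 8) (nat_lit 8) (nat_lit 6) (nat_lit 5) (nat_lit 11) (by decide +kernel)
theorem L39054 : W_2 (nat_lit 3) (nat_lit 0x3c00040012000b0000000000000000000000000000000) (nat_lit 0x0) (nat_lit 0x1000000000000c00008000400000000000000000000000000) := T_2 (nat_lit 123) (nat_lit 106) (nat_lit 4) (nat_lit 5) (nat_lit 10) L39053 (by decide +kernel)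
theorem L39055 : W_2 (nat_lit 4) (nat_lit 0x3c0004001200090000000000000000000000000000000) (nat_lit 0x0) (nat_lit 0x1000000000000c00028001400000000000000000000000000) := T_2 (nat_lit 125) (nat_lit 108) (nat_lit 6) (nat_lit 5) (nat_lit 10) L39054 (by decide +kernel)
theorem L39056 : W_2 (nat_lit 5) (nat_lit 0x3c0004001200080000000000000000000000000000000) (nat_lit 0x0) (nat_lit 0x3000000000000c00038001400000000000000000000000000) := T_2 (nat_lit 124) (nat_lit 193) (nat_lit 7) (nat_lit 5) (nat_lit 7) L39055 (by decide +kernel)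
theorem L39077 : W_2 (nat_lit 2) (nat_lit 0x2000380004001200080000000000000000000000000000000) (nat_lit 0x0) (nat_lit 0x800040001000000000000000000000000000000000000000000000000) := D_2 (nat_lit 210) (nat_lit 227) (nat_lit 192) (nat_lit 4) (nat_lit 6) (nat_lit 13) (nat_lit 7) (nat_lit 5) (nat_lit 8) (by decide +kernel)
theorem L39078 : W_2 (nat_lit 3) (nat_lit 0x380004001200080000000000000000000000000000000) (nat_lit 0x0) (nat_lit 0x800040003000000000000000010000000000000000000000000000000) := T_2 (nat_lit 193) (nat_lit 124) (nat_lit 7) (nat_lit 5) (nat_lit 7) L39077 (by decide +kernel)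
theorem L39079 : W_2 (nat_lit 2) (nat_lit 0x10001000380004001700080000000000000000000000000000000) (nat_lit 0x0) (nat_lit 0x200020000000000002000000000000000000000000000000000000000) := D_2 (nat_lit 209) (nat_lit 225) (nat_lit 157) (nat_lit 5) (nat_lit 5) (nat_lit 9) (nat_lit 4) (nat_lit 5) (nat_lit 12) (by decide +kernel)
theorem L39080 : W_2 (nat_lit 3) (nat_lit 0x10001000380004001600080000000000000000000000000000000) (nat_lit 0x0) (nat_lit 0x200020000000000002000100008000000000000000000000000000000) := T_2 (nat_lit 140) (nat_lit 123) (nat_lit 4) (nat_lit 5) (nat_lit 11) L39079 (by decide +kernel)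
theorem L39081 : W_2 (nat_lit 4) (nat_lit 0x1000380004001600080000000000000000000000000000000) (nat_lit 0x0) (nat_lit 0x200030000800000002000100008000000000000000000000000000000) := T_2 (nat_lit 208) (nat_lit 191) (nat_lit 5) (nat_lit 5) (nat_lit 8) L39080 (by decide +kernel)
theorem L39082 : W_2 (nat_lit 5) (nat_lit 0x380004001600080000000000000000000000000000000) (nat_lit 0x0) (nat_lit 0x200030001800000002000100028000000000000000000000000000000) := T_2 (nat_lit 192) (nat_lit 125) (nat_lit 6) (nat_lit 5) (nat_lit 11) L39081 (by decide +kernel)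
theorem L39083 : W_2 (nat_lit 2) (nat_lit 0x380004001600080000000000000000000000000000000) (nat_lit 0x0) (nat_lit 0x2000800100000000000000000000000000000000) := D_2 (nat_lit 143) (nat_lit 157) (nat_lit 128) (nat_lit 1) (nat_lit 8) (nat_lit 8) (nat_lit 2) (nat_lit 5) (nat_lit 8) (by decide +kernel)
theorem L39102 : W_2 (nat_lit 2) (nat_lit 0x3800080016000a0001000140000000000000000000000) (nat_lit 0x0) (nat_lit 0x8000a000000000000000000) := D_2 (nat_lit 91) (nat_lit 75) (nat_lit 73) (nat_lit 6) (nat_lit 6) (nat_lit 8) (nat_lit 4) (nat_lit 6) (nat_lit 8) (by decide +kernel)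
theorem L39103 : W_2 (nat_lit 3) (nat_lit 0x3800080016000a0001000100000000000000000000000) (nat_lit 0x0) (nat_lit 0x8000c000a000000000000000000) := T_2 (nat_lit 90) (nat_lit 107) (nat_lit 4) (nat_lit 6) (nat_lit 9) L39102 (by decide +kernel)
theorem L39104 : W_2 (nat_lit 4) (nat_lit 0x3800080016000a0001000000000000000000000000000) (nat_lit 0x0) (nat_lit 0x28001c000a000000000000000000) := T_2 (nat_lit 92) (nat_lit 109) (nat_lit 6) (nat_lit 6) (nat_lit 9) L39103 (by decide +kernel)
theorem L39105 : W_2 (nat_lit 5) (nat_lit 0x3800080016000a0000000000000000000000000000000) (nat_lit 0x0) (nat_lit 0x40000000000038001c000a000000000000000000) := T_2 (nat_lit 108) (nat_lit 158) (nat_lit 5) (nat_lit 6) (nat_lit 6) L39104 (by decide +kernel)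
theorem L39106 : W_2 (nat_lit 6) (nat_lit 0x3000080016000a0000000000000000000000000000000) (nat_lit 0x0) (nat_lit 0x10000800040000000000038001c000a000000000000000000) := T_2 (nat_lit 175) (nat_lit 192) (nat_lit 5) (nat_lit 6) (nat_lit 7) L39105 (by decide +kernel)
theorem L39162 : W_2 (nat_lit 2) (nat_lit 0x300024001e00090000000000000000000000000000000) (nat_lit 0x0) (nat_lit 0x2000080008000000000000000000000000000000000000000) := D_2 (nat_lit 193) (nat_lit 159) (nat_lit 175) (nat_lit 4) (nat_lit 6) (nat_lit 11) (nat_lit 7) (nat_lit 5) (nat_lit 7) (by decide +kernel)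
theorem L39163 : W_2 (nat_lit 3) (nat_lit 0x300024001e00080000000000000000000000000000000) (nat_lit 0x0) (nat_lit 0x2000080008000000018000000000000000000000000000000) := T_2 (nat_lit 124) (nat_lit 123) (nat_lit 0) (nat_lit 8) (nat_lit 8) L39162 (by decide +kernel)
theorem L39164 : W_2 (nat_lit 4) (nat_lit 0x300004001e00080000000000000000000000000000000) (nat_lit 0x0) (nat_lit 0x2000080068000000018000000000000000000000000000000) := T_2 (nat_lit 161) (nat_lit 162) (nat_lit 3) (nat_lit 5) (nat_lit 8) L39163 (by decide +kernel)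
theorem L39165 : W_2 (nat_lit 5) (nat_lit 0x300000001e00080000000000000000000000000000000) (nat_lit 0x0) (nat_lit 0x200008006e000000018000000000000000000000000000000) := T_2 (nat_lit 158) (nat_lit 157) (nat_lit 1) (nat_lit 8) (nat_lit 8) L39164 (by decide +kernel)
theorem L39239 : W_2 (nat_lit 2) (nat_lit 0x20003000380004001300080000000000000000000000000000000) (nat_lit 0x0) (nat_lit 0x8000400000000000000008000000000000000000000000000000000000000) := D_2 (nat_lit 226) (nat_lit 159) (nat_lit 243) (nat_lit 6) (nat_lit 5) (nat_lit 13) (nat_lit 6) (nat_lit 5) (nat_lit 14) (by decide +kernel)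
theorem L39240 : W_2 (nat_lit 3) (nat_lit 0x3000380004001300080000000000000000000000000000000) (nat_lit 0x0) (nat_lit 0x800040002000000000000a000000000000000000000000000000000000000) := T_2 (nat_lit 209) (nat_lit 157) (nat_lit 4) (nat_lit 5) (nat_lit 12) L39239 (by decide +kernel)
theorem L39241 : W_2 (nat_lit 4) (nat_lit 0x1000380004001300080000000000000000000000000000000) (nat_lit 0x0) (nat_lit 0x800040006000200000000a000000000000000000000000000000000000000) := T_2 (nat_lit 193) (nat_lit 210) (nat_lit 7) (nat_lit 5) (nat_lit 8) L39240 (by decide +kernel)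
theorem L39242 : W_2 (nat_lit 5) (nat_lit 0x1000380004001200080000000000000000000000000000000) (nat_lit 0x0) (nat_lit 0x800040006000200000000a000100008000000000000000000000000000000) := T_2 (nat_lit 140) (nat_lit 123) (nat_lit 4) (nat_lit 5) (nat_lit 11) L39241 (by decide +kernel)
theorem L39243 : W_2 (nat_lit 2) (nat_lit 0x1800380004001300080000000000000000000000000000000) (nat_lit 0x0) (nat_lit 0x2600000000000000000000000000000000000000000000000) := D_2 (nat_lit 190) (nat_lit 193) (nat_lit 189) (nat_lit 2) (nat_lit 3) (nat_lit 11) (nat_lit 2) (nat_lit 2) (nat_lit 11) (by decide +kernel)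
theorem L39244 : W_2 (nat_lit 3) (nat_lit 0x1000380004001300080000000000000000000000000000000) (nat_lit 0x0) (nat_lit 0x10002e00000000000000000000000000000000000000000000000) := T_2 (nat_lit 191) (nat_lit 208) (nat_lit 5) (nat_lit 5) (nat_lit 8) L39243 (by decide +kernel)
theorem L39245 : W_2 (nat_lit 4) (nat_lit 0x1000380004001200080000000000000000000000000000000) (nat_lit 0x0) (nat_lit 0x10002e00000000000100008000000000000000000000000000000) := T_2 (nat_lit 140) (nat_lit 123) (nat_lit 4) (nat_lit 5) (nat_lit 11) L39244 (by decide +kernel)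
theorem L39289 : W_2 (nat_lit 2) (nat_lit 0x3000380016800a0000000000000000000000000000000) (nat_lit 0x0) (nat_lit 0x10000c0000000000000000000000000000000000000000000) := D_2 (nat_lit 175) (nat_lit 174) (nat_lit 192) (nat_lit 2) (nat_lit 4) (nat_lit 10) (nat_lit 5) (nat_lit 6) (nat_lit 7) (by decide +kernel)
theorem L39290 : W_2 (nat_lit 3) (nat_lit 0x300038001680080000000000000000000000000000000) (nat_lit 0x0) (nat_lit 0x10000c0000000000020001000000000000000000000000000) := T_2 (nat_lit 125) (nat_lit 108) (nat_lit 7) (nat_lit 6) (nat_lit 6) L39289 (by decide +kernel)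
theorem L39291 : W_2 (nat_lit 4) (nat_lit 0x300018001680080000000000000000000000000000000) (nat_lit 0x0) (nat_lit 0x10000c0060000000020001000000000000000000000000000) := T_2 (nat_lit 161) (nat_lit 162) (nat_lit 0) (nat_lit 9) (nat_lit 9) L39290 (by decide +kernel)
theorem L39292 : W_2 (nat_lit 5) (nat_lit 0x300018001600080000000000000000000000000000000) (nat_lit 0x0) (nat_lit 0x10000c0060000180020001000000000000000000000000000) := T_2 (nat_lit 139) (nat_lit 140) (nat_lit 3) (nat_lit 3) (nat_lit 8) L39291 (by decide +kernel)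
theorem L39454 : W_2 (nat_lit 2) (nat_lit 0x8003c0002001200080000000000000000000000000000000) (nat_lit 0x0) (nat_lit 0x10000000000004000000010000000000000000000000000000000) := D_2 (nat_lit 158) (nat_lit 124) (nat_lit 208) (nat_lit 5) (nat_lit 5) (nat_lit 7) (nat_lit 6) (nat_lit 4) (nat_lit 12) (by decide +kernel)
theorem L39455 : W_2 (nat_lit 3) (nat_lit 0x3c0002001200080000000000000000000000000000000) (nat_lit 0x0) (nat_lit 0x10000c00000004000000010000000000000000000000000000000) := T_2 (nat_lit 191) (nat_lit 190) (nat_lit 1) (nat_lit 7) (nat_lit 10) L39454 (by decide +kernel)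
theorem L39456 : W_2 (nat_lit 4) (nat_lit 0x3c0000001200080000000000000000000000000000000) (nat_lit 0x0) (nat_lit 0x10000c00000007000000010000000000000000000000000000000) := T_2 (nat_lit 157) (nat_lit 156) (nat_lit 0) (nat_lit 7) (nat_lit 10) L39455 (by decide +kernel)
theorem L39498 : W_2 (nat_lit 2) (nat_lit 0x3800000016000a0000000000000000000000000000000) (nat_lit 0x0) (nat_lit 0x5000000008000000000000000000000000000000000000000) := D_2 (nat_lit 159) (nat_lit 192) (nat_lit 194) (nat_lit 5) (nat_lit 6) (nat_lit 7) (nat_lit 7) (nat_lit 6) (nat_lit 7) (by decide +kernel)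
theorem L39574 : W_2 (nat_lit 2) (nat_lit 0x2000040012000d0000c00000000000000000000000000) (nat_lit 0x0) (nat_lit 0x3000080000000000000000000000) := D_2 (nat_lit 108) (nat_lit 91) (nat_lit 109) (nat_lit 6) (nat_lit 5) (nat_lit 9) (nat_lit 3) (nat_lit 4) (nat_lit 6) (by decide +kernel)
theorem L39575 : W_2 (nat_lit 3) (nat_lit 0x200004001200090000c00000000000000000000000000) (nat_lit 0x0) (nat_lit 0x60003000080000000000000000000000) := T_2 (nat_lit 126) (nat_lit 125) (nat_lit 0) (nat_lit 8) (nat_lit 7) L39574 (by decide +kernel)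
theorem L39576 : W_2 (nat_lit 4) (nat_lit 0x200004001200090000800000000000000000000000000) (nat_lit 0x0) (nat_lit 0x600034000a0000000000000000000000) := T_2 (nat_lit 106) (nat_lit 89) (nat_lit 4) (nat_lit 5) (nat_lit 9) L39575 (by decide +kernel)
theorem L39586 : W_2 (nat_lit 2) (nat_lit 0x2800040012000d0000c00000000000000000000000000) (nat_lit 0x0) (nat_lit 0x800040002000000000000000000000000000000000000000) := D_2 (nat_lit 174) (nat_lit 157) (nat_lit 191) (nat_lit 5) (nat_lit 5) (nat_lit 6) (nat_lit 5) (nat_lit 5) (nat_lit 7) (by decide +kernel)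
theorem L39587 : W_2 (nat_lit 3) (nat_lit 0x2000040012000d0000c00000000000000000000000000) (nat_lit 0x0) (nat_lit 0x8000c0002000000008000000000000000000000000000000) := T_2 (nat_lit 175) (nat_lit 123) (nat_lit 4) (nat_lit 5) (nat_lit 10) L39586 (by decide +kernel)
theorem L39588 : W_2 (nat_lit 4) (nat_lit 0x200004001200090000c00000000000000000000000000) (nat_lit 0x0) (nat_lit 0x8000c0002000000068000000000000000000000000000000) := T_2 (nat_lit 126) (nat_lit 125) (nat_lit 0) (nat_lit 8) (nat_lit 7) L39587 (by decide +kernel)
theorem L39589 : W_2 (nat_lit 5) (nat_lit 0x200004001200090000800000000000000000000000000) (nat_lit 0x0) (nat_lit 0x8000c0002000000068000400020000000000000000000000) := T_2 (nat_lit 106) (nat_lit 89) (nat_lit 4) (nat_lit 5) (nat_lit 9) L39588 (by decide +kernel)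
theorem L39664 : W_2 (nat_lit 2) (nat_lit 0x200006001200090000800040000000000000000000000) (nat_lit 0x0) (nat_lit 0x1000080004000000000000000000) := D_2 (nat_lit 91) (nat_lit 108) (nat_lit 74) (nat_lit 6) (nat_lit 5) (nat_lit 9) (nat_lit 6) (nat_lit 5) (nat_lit 8) (by decide +kernel)
theorem L39665 : W_2 (nat_lit 3) (nat_lit 0x200006001200090000800000000000000000000000000) (nat_lit 0x0) (nat_lit 0x1000000010000c0004000000000000000000) := T_2 (nat_lit 90) (nat_lit 140) (nat_lit 5) (nat_lit 5) (nat_lit 5) L39664 (by decide +kernel)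
theorem L39666 : W_2 (nat_lit 4) (nat_lit 0x200004001200090000800000000000000000000000000) (nat_lit 0x0) (nat_lit 0x400020001000000010000c0004000000000000000000) := T_2 (nat_lit 157) (nat_lit 174) (nat_lit 5) (nat_lit 5) (nat_lit 6) L39665 (by decide +kernel)
theorem L39887 : W_2 (nat_lit 2) (nat_lit 0x2800040012000b8000000000000000000000000000000) (nat_lit 0x0) (nat_lit 0x900040000000000000000000000000000000) := D_2 (nat_lit 126) (nat_lit 143) (nat_lit 140) (nat_lit 3) (nat_lit 4) (nat_lit 7) (nat_lit 1) (nat_lit 8) (nat_lit 7) (by decide +kernel)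
theorem L39888 : W_2 (nat_lit 3) (nat_lit 0x280004001200098000000000000000000000000000000) (nat_lit 0x0) (nat_lit 0x900060001000000000000000000000000000) := T_2 (nat_lit 125) (nat_lit 108) (nat_lit 6) (nat_lit 5) (nat_lit 10) L39887 (by decide +kernel)
theorem L39889 : W_2 (nat_lit 4) (nat_lit 0x280004001200090000000000000000000000000000000) (nat_lit 0x0) (nat_lit 0x900068001400000000000000000000000000) := T_2 (nat_lit 123) (nat_lit 106) (nat_lit 4) (nat_lit 5) (nat_lit 10) L39888 (by decide +kernel)
theorem L40004 : W_2 (nat_lit 2) (nat_lit 0x200004001200090003c00000000000000000000000000) (nat_lit 0x0) (nat_lit 0x8000000000000c000000000000000000000000000000) := D_2 (nat_lit 123) (nat_lit 175) (nat_lit 122) (nat_lit 4) (nat_lit 5) (nat_lit 10) (nat_lit 1) (nat_lit 7) (nat_lit 6) (by decide +kernel)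
theorem L40005 : W_2 (nat_lit 3) (nat_lit 0x200004001200090001c00000000000000000000000000) (nat_lit 0x0) (nat_lit 0x8000000000004c002000000000000000000000000000) := T_2 (nat_lit 109) (nat_lit 126) (nat_lit 3) (nat_lit 4) (nat_lit 6) L40004 (by decide +kernel)
theorem L40006 : W_2 (nat_lit 4) (nat_lit 0x200004001200090000c00000000000000000000000000) (nat_lit 0x0) (nat_lit 0x8000000000004c003000080000000000000000000000) := T_2 (nat_lit 108) (nat_lit 91) (nat_lit 6) (nat_lit 5) (nat_lit 9) L40005 (by decide +kernel)
theorem L40007 : W_2 (nat_lit 5) (nat_lit 0x200004001200090000800000000000000000000000000) (nat_lit 0x0) (nat_lit 0x8000000000004c0034000a0000000000000000000000) := T_2 (nat_lit 106) (nat_lit 89) (nat_lit 4) (nat_lit 5) (nat_lit 9) L40006 (by decide +kernel)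
theorem L40328 : W_2 (nat_lit 2) (nat_lit 0x300014001e000c0002000000000000000000000000000) (nat_lit 0x0) (nat_lit 0x20000000000000000100008000000000000000000) := D_2 (nat_lit 92) (nat_lit 161) (nat_lit 75) (nat_lit 7) (nat_lit 7) (nat_lit 5) (nat_lit 7) (nat_lit 7) (nat_lit 4) (by decide +kernel)
theorem L40329 : W_2 (nat_lit 3) (nat_lit 0x300014001e000c0000000000000000000000000000000) (nat_lit 0x0) (nat_lit 0x28000000000002000100008000000000000000000) := T_2 (nat_lit 109) (nat_lit 159) (nat_lit 5) (nat_lit 7) (nat_lit 6) L40328 (by decide +kernel)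
theorem L40330 : W_2 (nat_lit 4) (nat_lit 0x200014001e000c0000000000000000000000000000000) (nat_lit 0x0) (nat_lit 0x2000100028000000000002000100008000000000000000000) := T_2 (nat_lit 176) (nat_lit 193) (nat_lit 5) (nat_lit 7) (nat_lit 7) L40329 (by decide +kernel)
theorem L40331 : W_2 (nat_lit 5) (nat_lit 0x200010001e000c0000000000000000000000000000000) (nat_lit 0x0) (nat_lit 0x200010002e000000000002000100008000000000000000000) := T_2 (nat_lit 158) (nat_lit 157) (nat_lit 1) (nat_lit 8) (nat_lit 8) L40330 (by decide +kernel)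
theorem L40402 : W_2 (nat_lit 2) (nat_lit 0x4000300004001e00090000000000000000000000000000000) (nat_lit 0x0) (nat_lit 0x8000000020000800000000000000000000000000) := D_2 (nat_lit 159) (nat_lit 125) (nat_lit 107) (nat_lit 7) (nat_lit 6) (nat_lit 7) (nat_lit 7) (nat_lit 5) (nat_lit 6) (by decide +kernel)
theorem L40403 : W_2 (nat_lit 3) (nat_lit 0x300004001e00090000000000000000000000000000000) (nat_lit 0x0) (nat_lit 0x4000000018000000020000800000000000000000000000000) := T_2 (nat_lit 194) (nat_lit 160) (nat_lit 6) (nat_lit 7) (nat_lit 11) L40402 (by decide +kernel)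
theorem L40422 : W_2 (nat_lit 2) (nat_lit 0x200016001a000d0000c00000000000000000000000000) (nat_lit 0x0) (nat_lit 0x3000080000000000000000000000) := D_2 (nat_lit 108) (nat_lit 91) (nat_lit 109) (nat_lit 6) (nat_lit 5) (nat_lit 9) (nat_lit 3) (nat_lit 4) (nat_lit 6) (by decide +kernel)
theorem L40423 : W_2 (nat_lit 3) (nat_lit 0x200016001a00090000c00000000000000000000000000) (nat_lit 0x0) (nat_lit 0x60003000080000000000000000000000) := T_2 (nat_lit 126) (nat_lit 125) (nat_lit 0) (nat_lit 8) (nat_lit 7) L40422 (by decide +kernel)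
theorem L40424 : W_2 (nat_lit 4) (nat_lit 0x200016001a00090000800000000000000000000000000) (nat_lit 0x0) (nat_lit 0x600034000a0000000000000000000000) := T_2 (nat_lit 106) (nat_lit 89) (nat_lit 4) (nat_lit 5) (nat_lit 9) L40423 (by decide +kernel)
theorem L40425 : W_2 (nat_lit 5) (nat_lit 0x200016001a00090000000000000000000000000000000) (nat_lit 0x0) (nat_lit 0x40000000000060003c000a0000000000000000000000) := T_2 (nat_lit 107) (nat_lit 174) (nat_lit 5) (nat_lit 5) (nat_lit 6) L40424 (by decide +kernel)
theorem L40426 : W_2 (nat_lit 6) (nat_lit 0x200014001a00090000000000000000000000000000000) (nat_lit 0x0) (nat_lit 0x4000a000000060003c000a0000000000000000000000) := T_2 (nat_lit 157) (nat_lit 159) (nat_lit 2) (nat_lit 4) (nat_lit 9) L40425 (by decide +kernel)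
theorem L40461 : W_2 (nat_lit 2) (nat_lit 0x2800140013400b0000000000000000000000000000000) (nat_lit 0x0) (nat_lit 0x1000000000000000008000400000000000000000000000000) := D_2 (nat_lit 123) (nat_lit 192) (nat_lit 106) (nat_lit 4) (nat_lit 5) (nat_lit 11) (nat_lit 4) (nat_lit 5) (nat_lit 10) (by decide +kernel)
theorem L40462 : W_2 (nat_lit 3) (nat_lit 0x2000140013400b0000000000000000000000000000000) (nat_lit 0x0) (nat_lit 0x1000080000000000008001400000000000000000000000000) := T_2 (nat_lit 175) (nat_lit 108) (nat_lit 6) (nat_lit 5) (nat_lit 10) L40461 (by decide +kernel)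
theorem L40463 : W_2 (nat_lit 4) (nat_lit 0x2000140013000b0000000000000000000000000000000) (nat_lit 0x0) (nat_lit 0x10000800000000c0008001400000000000000000000000000) := T_2 (nat_lit 138) (nat_lit 139) (nat_lit 2) (nat_lit 2) (nat_lit 8) L40462 (by decide +kernel)
theorem L40464 : W_2 (nat_lit 5) (nat_lit 0x200014001300090000000000000000000000000000000) (nat_lit 0x0) (nat_lit 0x10000800000000c0068001400000000000000000000000000) := T_2 (nat_lit 125) (nat_lit 126) (nat_lit 1) (nat_lit 8) (nat_lit 7) L40463 (by decide +kernel)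
theorem L51404 : W_2 (nat_lit 2) (nat_lit 0x280034001200080000000000000000000000000000000) (nat_lit 0x0) (nat_lit 0x140008000000000000000000000000000000000000000) := D_2 (nat_lit 174) (nat_lit 176) (nat_lit 159) (nat_lit 2) (nat_lit 4) (nat_lit 10) (nat_lit 1) (nat_lit 8) (nat_lit 9) (by decide +kernel)
theorem L51408 : W_2 (nat_lit 2) (nat_lit 0x280034001200080000000000000000000000000000000) (nat_lit 0x0) (nat_lit 0x40008000100000000000000000000000000000000000) := D_2 (nat_lit 159) (nat_lit 140) (nat_lit 174) (nat_lit 0) (nat_lit 8) (nat_lit 9) (nat_lit 1) (nat_lit 8) (nat_lit 9) (by decide +kernel)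
theorem L51451 : W_2 (nat_lit 2) (nat_lit 0x2c0034001200090000800000000000000000000000000) (nat_lit 0x0) (nat_lit 0x20001000080000000000000000000000) := D_2 (nat_lit 108) (nat_lit 125) (nat_lit 91) (nat_lit 6) (nat_lit 5) (nat_lit 10) (nat_lit 6) (nat_lit 5) (nat_lit 9) (by decide +kernel)
theorem L51452 : W_2 (nat_lit 3) (nat_lit 0x2c0034001200090000000000000000000000000000000) (nat_lit 0x0) (nat_lit 0x2000000020001800080000000000000000000000) := T_2 (nat_lit 107) (nat_lit 157) (nat_lit 5) (nat_lit 5) (nat_lit 6) L51451 (by decide +kernel)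
theorem L51576 : W_2 (nat_lit 2) (nat_lit 0x3800280014001200080000000000000000000000000000000) (nat_lit 0x0) (nat_lit 0x400100000000000010000000000000000000000000000000) := D_2 (nat_lit 176) (nat_lit 190) (nat_lit 124) (nat_lit 2) (nat_lit 3) (nat_lit 11) (nat_lit 7) (nat_lit 5) (nat_lit 7) (by decide +kernel)
theorem L51660 : W_2 (nat_lit 2) (nat_lit 0x8002c0034001200080000000000000000000000000000000) (nat_lit 0x0) (nat_lit 0x200010001000000000000000000000000000000000000000000000000) := D_2 (nat_lit 208) (nat_lit 192) (nat_lit 225) (nat_lit 5) (nat_lit 5) (nat_lit 8) (nat_lit 6) (nat_lit 4) (nat_lit 13) (by decide +kernel)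
theorem L51661 : W_2 (nat_lit 3) (nat_lit 0x2c0034001200080000000000000000000000000000000) (nat_lit 0x0) (nat_lit 0x200010001800000000000000010000000000000000000000000000000) := T_2 (nat_lit 191) (nat_lit 124) (nat_lit 5) (nat_lit 5) (nat_lit 7) L51660 (by decide +kernel)
theorem L51830 : W_2 (nat_lit 2) (nat_lit 0x2c0014001200080000000000000000000000000000000) (nat_lit 0x0) (nat_lit 0x100028000000000000000000000000000000000000000) := D_2 (nat_lit 161) (nat_lit 159) (nat_lit 176) (nat_lit 1) (nat_lit 8) (nat_lit 9) (nat_lit 2) (nat_lit 4) (nat_lit 10) (by decide +kernel)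
theorem L54621 : W_2 (nat_lit 2) (nat_lit 0x3c0014001200090000000000000000000000000000000) (nat_lit 0x0) (nat_lit 0x3000000000000800000000000000000000000000) := D_2 (nat_lit 157) (nat_lit 107) (nat_lit 156) (nat_lit 5) (nat_lit 5) (nat_lit 6) (nat_lit 0) (nat_lit 7) (nat_lit 10) (by decide +kernel)
theorem L54662 : W_2 (nat_lit 2) (nat_lit 0x40003c0014001200080000000000000000000000000000000) (nat_lit 0x0) (nat_lit 0x2000020000000000010000000000000000000000000000000) := D_2 (nat_lit 193) (nat_lit 173) (nat_lit 124) (nat_lit 3) (nat_lit 3) (nat_lit 10) (nat_lit 7) (nat_lit 5) (nat_lit 7) (by decide +kernel)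
theorem L54742 : W_2 (nat_lit 2) (nat_lit 0x3800140012000b0000800000000000000000000000000) (nat_lit 0x0) (nat_lit 0x8000400020000000000000000000000) := D_2 (nat_lit 106) (nat_lit 89) (nat_lit 123) (nat_lit 4) (nat_lit 5) (nat_lit 9) (nat_lit 4) (nat_lit 5) (nat_lit 10) (by decide +kernel)
theorem L54743 : W_2 (nat_lit 3) (nat_lit 0x3800140012000b0000000000000000000000000000000) (nat_lit 0x0) (nat_lit 0x8000000008000c00020000000000000000000000) := T_2 (nat_lit 107) (nat_lit 159) (nat_lit 7) (nat_lit 5) (nat_lit 6) L54742 (by decide +kernel)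
theorem L59808 : W_2 (nat_lit 2) (nat_lit 0x200020001e00090000000000000000000000000000000) (nat_lit 0x0) (nat_lit 0x4000000010000100000000000000000000000000000000000) := D_2 (nat_lit 160) (nat_lit 140) (nat_lit 194) (nat_lit 3) (nat_lit 4) (nat_lit 8) (nat_lit 6) (nat_lit 7) (nat_lit 11) (by decide +kernel)
theorem L59809 : W_2 (nat_lit 3) (nat_lit 0x200000001e00090000000000000000000000000000000) (nat_lit 0x0) (nat_lit 0x4000000070000100000000000000000000000000000000000) := T_2 (nat_lit 161) (nat_lit 162) (nat_lit 3) (nat_lit 5) (nat_lit 8) L59808 (by decide +kernel)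
theorem L59810 : W_2 (nat_lit 4) (nat_lit 0x200000001e00080000000000000000000000000000000) (nat_lit 0x0) (nat_lit 0x4000000070000100018000000000000000000000000000000) := T_2 (nat_lit 124) (nat_lit 123) (nat_lit 0) (nat_lit 8) (nat_lit 8) L59809 (by decide +kernel)
theorem L59832 : W_2 (nat_lit 3) (nat_lit 0x200000001e00080000000000000000000000000000000) (nat_lit 0x0) (nat_lit 0x10005c000000000000000000000000000000) := T_2 (nat_lit 140) (nat_lit 126) (nat_lit 2) (nat_lit 4) (nat_lit 8) L38170 (by decide +kernel)
theorem L59833 : W_2 (nat_lit 4) (nat_lit 0x200000001a00080000000000000000000000000000000) (nat_lit 0x0) (nat_lit 0x50015c000000000000000000000000000000) := T_2 (nat_lit 142) (nat_lit 128) (nat_lit 2) (nat_lit 5) (nat_lit 8) L59832 (by decide +kernel)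
theorem L60897 : W_2 (nat_lit 2) (nat_lit 0x2000040012000bc001e00010000000000000000000000) (nat_lit 0x0) (nat_lit 0x100000000000000000800040000000000000) := D_2 (nat_lit 71) (nat_lit 54) (nat_lit 140) (nat_lit 7) (nat_lit 3) (nat_lit 3) (nat_lit 7) (nat_lit 3) (nat_lit 4) (by decide +kernel)
theorem L60898 : W_2 (nat_lit 3) (nat_lit 0x2000040012000b4001e00010000000000000000000000) (nat_lit 0x0) (nat_lit 0x100008002000000000800040000000000000) := T_2 (nat_lit 123) (nat_lit 109) (nat_lit 2) (nat_lit 3) (nat_lit 7) L60897 (by decide +kernel)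
theorem L60899 : W_2 (nat_lit 4) (nat_lit 0x2000040012000b4001e00000000000000000000000000) (nat_lit 0x0) (nat_lit 0x100008002000018000800040000000000000) := T_2 (nat_lit 88) (nat_lit 87) (nat_lit 0) (nat_lit 6) (nat_lit 6) L60898 (by decide +kernel)
theorem L60900 : W_2 (nat_lit 5) (nat_lit 0x2000040012000b0001e00000000000000000000000000) (nat_lit 0x0) (nat_lit 0x10000e002000018000800040000000000000) := T_2 (nat_lit 122) (nat_lit 121) (nat_lit 1) (nat_lit 6) (nat_lit 6) L60899 (by decide +kernel)
theorem L61536 : W_2 (nat_lit 2) (nat_lit 0x3c000d0016000b0000000000000000000000000000000) (nat_lit 0x0) (nat_lit 0x30000800000000000000000000000000000000000000) := D_2 (nat_lit 173) (nat_lit 172) (nat_lit 155) (nat_lit 2) (nat_lit 2) (nat_lit 10) (nat_lit 0) (nat_lit 6) (nat_lit 10) (by decide +kernel)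
theorem L61537 : W_2 (nat_lit 3) (nat_lit 0x38000d0016000b0000000000000000000000000000000) (nat_lit 0x0) (nat_lit 0x800070000800000000000000000000000000000000000000) := T_2 (nat_lit 174) (nat_lit 191) (nat_lit 5) (nat_lit 5) (nat_lit 7) L61536 (by decide +kernel)
theorem L61538 : W_2 (nat_lit 4) (nat_lit 0x38000c0016000b0000000000000000000000000000000) (nat_lit 0x0) (nat_lit 0x800070003800000000000000000000000000000000000000) := T_2 (nat_lit 156) (nat_lit 157) (nat_lit 3) (nat_lit 3) (nat_lit 9) L61537 (by decide +kernel)
theorem L61544 : W_2 (nat_lit 2) (nat_lit 0x2000000016000e0000000000000000000000000000000) (nat_lit 0x0) (nat_lit 0x180010000000000000000000000000000000) := D_2 (nat_lit 140) (nat_lit 124) (nat_lit 139) (nat_lit 1) (nat_lit 8) (nat_lit 7) (nat_lit 2) (nat_lit 3) (nat_lit 8) (by decide +kernel)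
theorem L61545 : W_2 (nat_lit 3) (nat_lit 0x2000000016000a0000000000000000000000000000000) (nat_lit 0x0) (nat_lit 0x180150000000000000000000000000000000) := T_2 (nat_lit 126) (nat_lit 128) (nat_lit 1) (nat_lit 9) (nat_lit 7) L61544 (by decide +kernel)
theorem L61600 : W_2 (nat_lit 2) (nat_lit 0x3000080016001a0001000000000000000000000000000) (nat_lit 0x0) (nat_lit 0x1000080004000000000000000000000000000000000000000) := D_2 (nat_lit 175) (nat_lit 192) (nat_lit 158) (nat_lit 5) (nat_lit 6) (nat_lit 7) (nat_lit 5) (nat_lit 6) (nat_lit 6) (by decide +kernel)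
theorem L61601 : W_2 (nat_lit 3) (nat_lit 0x2000080016001a0001000000000000000000000000000) (nat_lit 0x0) (nat_lit 0x5000180004000000000000000000000000000000000000000) := T_2 (nat_lit 176) (nat_lit 194) (nat_lit 7) (nat_lit 6) (nat_lit 7) L61600 (by decide +kernel)
theorem L61602 : W_2 (nat_lit 4) (nat_lit 0x2000080016000a0001000000000000000000000000000) (nat_lit 0x0) (nat_lit 0x5000180004000000140000000000000000000000000000000) := T_2 (nat_lit 128) (nat_lit 126) (nat_lit 1) (nat_lit 9) (nat_lit 7) L61601 (by decide +kernel)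
theorem L61613 : W_2 (nat_lit 4) (nat_lit 0x200000001600080000000000000000000000000000000) (nat_lit 0x0) (nat_lit 0x7000900140000000000000000000000000000000) := T_2 (nat_lit 143) (nat_lit 128) (nat_lit 2) (nat_lit 5) (nat_lit 8) L31824 (by decide +kernel)
theorem L61614 : W_2 (nat_lit 4) (nat_lit 0x200000001600080000000000000000000000000000000) (nat_lit 0x0) (nat_lit 0x90015c000000000000000000000000000000) := T_2 (nat_lit 143) (nat_lit 128) (nat_lit 2) (nat_lit 5) (nat_lit 8) L59832 (by decide +kernel)
theorem L61819 : W_2 (nat_lit 2) (nat_lit 0x2000040012000b0000800000000000000000000000000) (nat_lit 0x0) (nat_lit 0x80000000000000001000080000000000000000000000) := D_2 (nat_lit 108) (nat_lit 91) (nat_lit 175) (nat_lit 6) (nat_lit 5) (nat_lit 9) (nat_lit 6) (nat_lit 5) (nat_lit 10) (by decide +kernel)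
theorem L61828 : W_2 (nat_lit 2) (nat_lit 0x2000000012000b0000800000000000000000000000000) (nat_lit 0x0) (nat_lit 0x100040000400000000000000000000000000) := D_2 (nat_lit 126) (nat_lit 106) (nat_lit 140) (nat_lit 0) (nat_lit 8) (nat_lit 7) (nat_lit 1) (nat_lit 8) (nat_lit 7) (by decide +kernel)
theorem L62597 : W_2 (nat_lit 2) (nat_lit 0x2000080016000a0003800000000000000000000000000) (nat_lit 0x0) (nat_lit 0x4000100000000000010000000000000000000000000000000) := D_2 (nat_lit 176) (nat_lit 194) (nat_lit 124) (nat_lit 7) (nat_lit 6) (nat_lit 7) (nat_lit 4) (nat_lit 6) (nat_lit 10) (by decide +kernel)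
theorem L62598 : W_2 (nat_lit 3) (nat_lit 0x2000080016000a0003000000000000000000000000000) (nat_lit 0x0) (nat_lit 0x4000100000000000010000800040000000000000000000000) := T_2 (nat_lit 107) (nat_lit 90) (nat_lit 4) (nat_lit 6) (nat_lit 9) L62597 (by decide +kernel)
theorem L62599 : W_2 (nat_lit 4) (nat_lit 0x2000080016000a0001000000000000000000000000000) (nat_lit 0x0) (nat_lit 0x4000100000000000010002800140000000000000000000000) := T_2 (nat_lit 109) (nat_lit 92) (nat_lit 6) (nat_lit 6) (nat_lit 9) L62598 (by decide +kernel)
theorem L62600 : W_2 (nat_lit 5) (nat_lit 0x2000080016000a0000000000000000000000000000000) (nat_lit 0x0) (nat_lit 0x4000100010000000010003800140000000000000000000000) := T_2 (nat_lit 108) (nat_lit 160) (nat_lit 7) (nat_lit 6) (nat_lit 6) L62599 (by decide +kernel)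
theorem L62605 : W_2 (nat_lit 2) (nat_lit 0x3800080016000a0000000000000000000000000000000) (nat_lit 0x0) (nat_lit 0x14000000000001000000000000000000000000000) := D_2 (nat_lit 108) (nat_lit 158) (nat_lit 160) (nat_lit 5) (nat_lit 6) (nat_lit 6) (nat_lit 7) (nat_lit 6) (nat_lit 6) (by decide +kernel)
theorem L62606 : W_2 (nat_lit 3) (nat_lit 0x3000080016000a0000000000000000000000000000000) (nat_lit 0x0) (nat_lit 0x1000080014000000000001000000000000000000000000000) := T_2 (nat_lit 175) (nat_lit 192) (nat_lit 5) (nat_lit 6) (nat_lit 7) L62605 (by decide +kernel)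
theorem L62607 : W_2 (nat_lit 4) (nat_lit 0x2000080016000a0000000000000000000000000000000) (nat_lit 0x0) (nat_lit 0x5000180014000000000001000000000000000000000000000) := T_2 (nat_lit 176) (nat_lit 194) (nat_lit 7) (nat_lit 6) (nat_lit 7) L62606 (by decide +kernel)
theorem L62610 : W_2 (nat_lit 2) (nat_lit 0x40002000180017000a0000000000000000000000000000000) (nat_lit 0x0) (nat_lit 0x64000000000000000000000000000000000000000) := D_2 (nat_lit 161) (nat_lit 162) (nat_lit 158) (nat_lit 0) (nat_lit 9) (nat_lit 9) (nat_lit 0) (nat_lit 8) (nat_lit 9) (by decide +kernel)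
theorem L62611 : W_2 (nat_lit 3) (nat_lit 0x40002000180016000a0000000000000000000000000000000) (nat_lit 0x0) (nat_lit 0x64000180000000000000000000000000000000000) := T_2 (nat_lit 140) (nat_lit 139) (nat_lit 3) (nat_lit 3) (nat_lit 8) L62610 (by decide +kernel)
theorem L62612 : W_2 (nat_lit 4) (nat_lit 0x40002000080016000a0000000000000000000000000000000) (nat_lit 0x0) (nat_lit 0x80000000000074000180000000000000000000000000000000000) := T_2 (nat_lit 160) (nat_lit 211) (nat_lit 4) (nat_lit 7) (nat_lit 12) L62611 (by decide +kernel)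
theorem L62613 : W_2 (nat_lit 5) (nat_lit 0x2000080016000a0000000000000000000000000000000) (nat_lit 0x0) (nat_lit 0x80004000100074000180000000000000000000000000000000000) := T_2 (nat_lit 194) (nat_lit 176) (nat_lit 7) (nat_lit 6) (nat_lit 7) L62612 (by decide +kernel)
theorem L62620 : W_2 (nat_lit 2) (nat_lit 0x2000000016000a0001000080004000000000000000000) (nat_lit 0x0) (nat_lit 0x40002000100000000000000) := D_2 (nat_lit 73) (nat_lit 56) (nat_lit 90) (nat_lit 4) (nat_lit 6) (nat_lit 7) (nat_lit 4) (nat_lit 6) (nat_lit 8) (by decide +kernel)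
theorem L62621 : W_2 (nat_lit 3) (nat_lit 0x2000000016000a0001000080000000000000000000000) (nat_lit 0x0) (nat_lit 0x10000000040006000100000000000000) := T_2 (nat_lit 74) (nat_lit 124) (nat_lit 5) (nat_lit 6) (nat_lit 4) L62620 (by decide +kernel)
theorem L62622 : W_2 (nat_lit 4) (nat_lit 0x2000000016000a0001000000000000000000000000000) (nat_lit 0x0) (nat_lit 0x40000000100000000c0006000100000000000000) := T_2 (nat_lit 91) (nat_lit 158) (nat_lit 5) (nat_lit 6) (nat_lit 5) L62621 (by decide +kernel)
theorem L62625 : W_2 (nat_lit 2) (nat_lit 0x200020001f00090000000000000000000000000000000) (nat_lit 0x0) (nat_lit 0x7000000000000000000000000000000000000000) := D_2 (nat_lit 157) (nat_lit 156) (nat_lit 158) (nat_lit 1) (nat_lit 7) (nat_lit 8) (nat_lit 1) (nat_lit 8) (nat_lit 8) (by decide +kernel)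
theorem L62641 : W_2 (nat_lit 2) (nat_lit 0x200020001e00080000000000000000000000000000000) (nat_lit 0x0) (nat_lit 0x10000100040000000000000000000000000000000) := D_2 (nat_lit 140) (nat_lit 160) (nat_lit 126) (nat_lit 3) (nat_lit 4) (nat_lit 8) (nat_lit 2) (nat_lit 4) (nat_lit 8) (by decide +kernel)
theorem L62642 : W_2 (nat_lit 3) (nat_lit 0x200000001e00080000000000000000000000000000000) (nat_lit 0x0) (nat_lit 0x70000100040000000000000000000000000000000) := T_2 (nat_lit 161) (nat_lit 162) (nat_lit 3) (nat_lit 5) (nat_lit 8) L62641 (by decide +kernel)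
theorem L62681 : W_2 (nat_lit 2) (nat_lit 0x200004001e000b0000000000000000000000000000000) (nat_lit 0x0) (nat_lit 0x1000080000000000000001000000000000000000000000000) := D_2 (nat_lit 175) (nat_lit 192) (nat_lit 108) (nat_lit 6) (nat_lit 5) (nat_lit 11) (nat_lit 6) (nat_lit 5) (nat_lit 10) (by decide +kernel)
theorem L62682 : W_2 (nat_lit 3) (nat_lit 0x200004001e000a0000000000000000000000000000000) (nat_lit 0x0) (nat_lit 0x1000080000000000018001000000000000000000000000000) := T_2 (nat_lit 124) (nat_lit 123) (nat_lit 0) (nat_lit 8) (nat_lit 8) L62681 (by decide +kernel)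
theorem L62683 : W_2 (nat_lit 4) (nat_lit 0x200000001e000a0000000000000000000000000000000) (nat_lit 0x0) (nat_lit 0x1000080006000000018001000000000000000000000000000) := T_2 (nat_lit 158) (nat_lit 157) (nat_lit 1) (nat_lit 8) (nat_lit 8) L62682 (by decide +kernel)
theorem L62685 : W_2 (nat_lit 2) (nat_lit 0x200014001fc0090000000000000000000000000000000) (nat_lit 0x0) (nat_lit 0x1c00000000000000000000000000000000000000) := D_2 (nat_lit 155) (nat_lit 154) (nat_lit 156) (nat_lit 1) (nat_lit 5) (nat_lit 8) (nat_lit 1) (nat_lit 6) (nat_lit 8) (by decide +kernel)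
theorem L62686 : W_2 (nat_lit 3) (nat_lit 0x200014001f80090000000000000000000000000000000) (nat_lit 0x0) (nat_lit 0x1c00040020000000000000000000000000000000) := T_2 (nat_lit 138) (nat_lit 125) (nat_lit 2) (nat_lit 2) (nat_lit 8) L62685 (by decide +kernel)
theorem L62687 : W_2 (nat_lit 4) (nat_lit 0x200014001f00090000000000000000000000000000000) (nat_lit 0x0) (nat_lit 0x9c000c0020000000000000000000000000000000) := T_2 (nat_lit 139) (nat_lit 159) (nat_lit 3) (nat_lit 3) (nat_lit 8) L62686 (by decide +kernel)
theorem L62688 : W_2 (nat_lit 5) (nat_lit 0x200014001e00090000000000000000000000000000000) (nat_lit 0x0) (nat_lit 0x9c001c0060000000000000000000000000000000) := T_2 (nat_lit 140) (nat_lit 126) (nat_lit 2) (nat_lit 4) (nat_lit 8) L62687 (by decide +kernel)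
theorem L62765 : W_2 (nat_lit 2) (nat_lit 0x1000200024001e000a0001000000000000000000000000000) (nat_lit 0x0) (nat_lit 0x18000000040000000000000000000000000000000) := D_2 (nat_lit 160) (nat_lit 126) (nat_lit 159) (nat_lit 4) (nat_lit 7) (nat_lit 10) (nat_lit 7) (nat_lit 6) (nat_lit 6) (by decide +kernel)
theorem L62766 : W_2 (nat_lit 3) (nat_lit 0x1000200024001e000a0000000000000000000000000000000) (nat_lit 0x0) (nat_lit 0x18000000040001000080000000000000000000000) := T_2 (nat_lit 108) (nat_lit 91) (nat_lit 5) (nat_lit 6) (nat_lit 5) L62765 (by decide +kernel)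
theorem L62767 : W_2 (nat_lit 4) (nat_lit 0x200024001e000a0000000000000000000000000000000) (nat_lit 0x0) (nat_lit 0x1000080018000000040001000080000000000000000000000) := T_2 (nat_lit 192) (nat_lit 175) (nat_lit 6) (nat_lit 5) (nat_lit 11) L62766 (by decide +kernel)
theorem L62768 : W_2 (nat_lit 5) (nat_lit 0x200004001e000a0000000000000000000000000000000) (nat_lit 0x0) (nat_lit 0x1000080078000000040001000080000000000000000000000) := T_2 (nat_lit 161) (nat_lit 162) (nat_lit 3) (nat_lit 5) (nat_lit 8) L62767 (by decide +kernel)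
theorem L62769 : W_2 (nat_lit 6) (nat_lit 0x200000001e000a0000000000000000000000000000000) (nat_lit 0x0) (nat_lit 0x100008007e000000040001000080000000000000000000000) := T_2 (nat_lit 158) (nat_lit 157) (nat_lit 1) (nat_lit 8) (nat_lit 8) L62768 (by decide +kernel)
theorem L62858 : W_2 (nat_lit 2) (nat_lit 0x3e0014001200080000000000000000000000000000000) (nat_lit 0x0) (nat_lit 0xe00000000000000000000000000000000000000000000000) := D_2 (nat_lit 190) (nat_lit 189) (nat_lit 191) (nat_lit 1) (nat_lit 6) (nat_lit 10) (nat_lit 1) (nat_lit 7) (nat_lit 10) (by decide +kernel)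
theorem L62859 : W_2 (nat_lit 3) (nat_lit 0x3c0014001200080000000000000000000000000000000) (nat_lit 0x0) (nat_lit 0xe00020008000000000000000000000000000000000000000) := T_2 (nat_lit 173) (nat_lit 159) (nat_lit 2) (nat_lit 3) (nat_lit 10) L62858 (by decide +kernel)
theorem L63089 : W_2 (nat_lit 2) (nat_lit 0x2c0034001200090000800000000000000000000000000) (nat_lit 0x0) (nat_lit 0x8000400020000000000000000000000) := D_2 (nat_lit 106) (nat_lit 89) (nat_lit 123) (nat_lit 4) (nat_lit 5) (nat_lit 9) (nat_lit 4) (nat_lit 5) (nat_lit 10) (by decide +kernel)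
theorem L63090 : W_2 (nat_lit 3) (nat_lit 0x2c0034001200090000000000000000000000000000000) (nat_lit 0x0) (nat_lit 0x2000000008000c00020000000000000000000000) := T_2 (nat_lit 107) (nat_lit 157) (nat_lit 5) (nat_lit 5) (nat_lit 6) L63089 (by decide +kernel)
theorem L63148 : W_2 (nat_lit 2) (nat_lit 0x200012001fc0090000000000000000000000000000000) (nat_lit 0x0) (nat_lit 0x7000000000000000000000000000000) := D_2 (nat_lit 121) (nat_lit 122) (nat_lit 120) (nat_lit 0) (nat_lit 6) (nat_lit 8) (nat_lit 0) (nat_lit 5) (nat_lit 8) (by decide +kernel)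
theorem L63149 : W_2 (nat_lit 3) (nat_lit 0x200012001f80090000000000000000000000000000000) (nat_lit 0x0) (nat_lit 0x40027000000000000000000000000000000) := T_2 (nat_lit 138) (nat_lit 125) (nat_lit 2) (nat_lit 2) (nat_lit 8) L63148 (by decide +kernel)
theorem L63150 : W_2 (nat_lit 4) (nat_lit 0x200012001f00090000000000000000000000000000000) (nat_lit 0x0) (nat_lit 0x80000c0027000000000000000000000000000000) := T_2 (nat_lit 139) (nat_lit 159) (nat_lit 3) (nat_lit 3) (nat_lit 8) L63149 (by decide +kernel)
theorem L63151 : W_2 (nat_lit 5) (nat_lit 0x200012001e00090000000000000000000000000000000) (nat_lit 0x0) (nat_lit 0x90001c0027000000000000000000000000000000) := T_2 (nat_lit 140) (nat_lit 156) (nat_lit 1) (nat_lit 7) (nat_lit 8) L63150 (by decide +kernel)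
theorem L63315 : W_2 (nat_lit 2) (nat_lit 0x200010001e000a0000000000000000000000000000000) (nat_lit 0x0) (nat_lit 0x40001000080000000000000000000000) := D_2 (nat_lit 108) (nat_lit 126) (nat_lit 91) (nat_lit 4) (nat_lit 7) (nat_lit 10) (nat_lit 7) (nat_lit 6) (nat_lit 5) (by decide +kernel)
theorem L64429 : W_2 (nat_lit 2) (nat_lit 0x8003c001e001100080000000000000000000000000000000) (nat_lit 0x0) (nat_lit 0x20001000000000000000008000000000000000000000000000000) := D_2 (nat_lit 192) (nat_lit 209) (nat_lit 123) (nat_lit 7) (nat_lit 4) (nat_lit 8) (nat_lit 7) (nat_lit 4) (nat_lit 7) (by decide +kernel)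
theorem L64430 : W_2 (nat_lit 3) (nat_lit 0x8003c001e001000080000000000000000000000000000000) (nat_lit 0x0) (nat_lit 0x20001000000000000180008000000000000000000000000000000) := T_2 (nat_lit 140) (nat_lit 139) (nat_lit 0) (nat_lit 7) (nat_lit 9) L64429 (by decide +kernel)
theorem L65093 : W_2 (nat_lit 2) (nat_lit 0x380030001000080000000000000000000000000000000) (nat_lit 0x0) (nat_lit 0xc8000000000000000000000000000000000000000) := D_2 (nat_lit 162) (nat_lit 163) (nat_lit 159) (nat_lit 1) (nat_lit 10) (nat_lit 9) (nat_lit 1) (nat_lit 9) (nat_lit 9) (by decide +kernel)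
theorem L65386 : W_2 (nat_lit 2) (nat_lit 0x300070001000080000000000000000000000000000000) (nat_lit 0x0) (nat_lit 0xc0008000000000000000000000000000000000000000) := D_2 (nat_lit 175) (nat_lit 174) (nat_lit 159) (nat_lit 2) (nat_lit 4) (nat_lit 10) (nat_lit 1) (nat_lit 9) (nat_lit 9) (by decide +kernel)
theorem L65387 : W_2 (nat_lit 3) (nat_lit 0x300030001000080000000000000000000000000000000) (nat_lit 0x0) (nat_lit 0xc00c8000000000000000000000000000000000000000) := T_2 (nat_lit 162) (nat_lit 163) (nat_lit 1) (nat_lit 10) (nat_lit 9) L65386 (by decide +kernel)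
theorem L65424 : W_2 (nat_lit 2) (nat_lit 0x3800300018000e8000000100000000000000000000000) (nat_lit 0x0) (nat_lit 0xc8000000000000000000000000000000000000000) := D_2 (nat_lit 162) (nat_lit 163) (nat_lit 159) (nat_lit 1) (nat_lit 10) (nat_lit 9) (nat_lit 1) (nat_lit 9) (nat_lit 9) (by decide +kernel)
theorem L65425 : W_2 (nat_lit 3) (nat_lit 0x3000300018000e8000000100000000000000000000000) (nat_lit 0x0) (nat_lit 0xc00c8000000000000000000000000000000000000000) := T_2 (nat_lit 175) (nat_lit 174) (nat_lit 2) (nat_lit 4) (nat_lit 10) L65424 (by decide +kernel)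
theorem L65426 : W_2 (nat_lit 4) (nat_lit 0x2000300018000e8000000100000000000000000000000) (nat_lit 0x0) (nat_lit 0x20001c00c8000000000000000000000000000000000000000) := T_2 (nat_lit 176) (nat_lit 193) (nat_lit 5) (nat_lit 7) (nat_lit 7) L65425 (by decide +kernel)
theorem L65427 : W_2 (nat_lit 5) (nat_lit 0x2000300018000e8000000000000000000000000000000) (nat_lit 0x0) (nat_lit 0x20001c00c8000000000002000100000000000000000000000) := T_2 (nat_lit 92) (nat_lit 109) (nat_lit 7) (nat_lit 7) (nat_lit 5) L65426 (by decide +kernel)
theorem L65428 : W_2 (nat_lit 6) (nat_lit 0x2000300018000e0000000000000000000000000000000) (nat_lit 0x0) (nat_lit 0x20001c00c8000000018002000100000000000000000000000) := T_2 (nat_lit 123) (nat_lit 124) (nat_lit 3) (nat_lit 4) (nat_lit 7) L65427 (by decide +kernel)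
theorem L65535 : W_2 (nat_lit 2) (nat_lit 0x200078001200080000000000000000000000000000000) (nat_lit 0x0) (nat_lit 0x180080000000000000000000000000000000000000000) := D_2 (nat_lit 176) (nat_lit 175) (nat_lit 163) (nat_lit 1) (nat_lit 9) (nat_lit 9) (nat_lit 1) (nat_lit 10) (nat_lit 9) (by decide +kernel)
theorem L65536 : W_2 (nat_lit 3) (nat_lit 0x200038001200080000000000000000000000000000000) (nat_lit 0x0) (nat_lit 0x1800c0000400000000000000000000000000000000000) := T_2 (nat_lit 162) (nat_lit 142) (nat_lit 0) (nat_lit 9) (nat_lit 9) L65535 (by decide +kernel)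
theorem L65684 : W_2 (nat_lit 2) (nat_lit 0x4000700008001c00080000000000000000000000000000000) (nat_lit 0x0) (nat_lit 0x1000080002000000000000000000000000000000000000000000000000) := D_2 (nat_lit 211) (nat_lit 228) (nat_lit 193) (nat_lit 4) (nat_lit 7) (nat_lit 13) (nat_lit 7) (nat_lit 6) (nat_lit 8) (by decide +kernel)
theorem L65705 : W_2 (nat_lit 2) (nat_lit 0x12000f00048001c00080000000000000000000000000000000) (nat_lit 0x0) (nat_lit 0x200110000000000000000000000000000000) := D_2 (nat_lit 141) (nat_lit 124) (nat_lit 128) (nat_lit 4) (nat_lit 6) (nat_lit 11) (nat_lit 2) (nat_lit 5) (nat_lit 8) (by decide +kernel)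
theorem L65706 : W_2 (nat_lit 3) (nat_lit 0x12000f00048001800080000000000000000000000000000000) (nat_lit 0x0) (nat_lit 0x600150000000000000000000000000000000) := T_2 (nat_lit 142) (nat_lit 126) (nat_lit 6) (nat_lit 6) (nat_lit 11) L65705 (by decide +kernel)
theorem L65707 : W_2 (nat_lit 4) (nat_lit 0x10000f00048001800080000000000000000000000000000000) (nat_lit 0x0) (nat_lit 0x3000000000000600150000000000000000000000000000000) := T_2 (nat_lit 193) (nat_lit 192) (nat_lit 1) (nat_lit 9) (nat_lit 10) L65706 (by decide +kernel)
theorem L65708 : W_2 (nat_lit 5) (nat_lit 0x10000f00008001800080000000000000000000000000000000) (nat_lit 0x0) (nat_lit 0x30000000c0000600150000000000000000000000000000000) := T_2 (nat_lit 162) (nat_lit 163) (nat_lit 2) (nat_lit 6) (nat_lit 10) L65707 (by decide +kernel)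
theorem L65709 : W_2 (nat_lit 6) (nat_lit 0xf00008001800080000000000000000000000000000000) (nat_lit 0x0) (nat_lit 0x330000000c0000600150000000000000000000000000000000) := T_2 (nat_lit 196) (nat_lit 197) (nat_lit 3) (nat_lit 6) (nat_lit 10) L65708 (by decide +kernel)
theorem L65710 : W_2 (nat_lit 7) (nat_lit 0xf00000001800080000000000000000000000000000000) (nat_lit 0x0) (nat_lit 0x330000000cc000600150000000000000000000000000000000) := T_2 (nat_lit 159) (nat_lit 158) (nat_lit 0) (nat_lit 9) (nat_lit 10) L65709 (by decide +kernel)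
theorem L65712 : W_2 (nat_lit 2) (nat_lit 0x2000000088007c0004001f80084000000000000000000000000000000) (nat_lit 0x0) (nat_lit 0x20001800000000000000000000000000000000000000) := D_2 (nat_lit 156) (nat_lit 155) (nat_lit 173) (nat_lit 1) (nat_lit 6) (nat_lit 8) (nat_lit 7) (nat_lit 3) (nat_lit 7) (by decide +kernel)
theorem L65713 : W_2 (nat_lit 3) (nat_lit 0x2000000088007c0004001f00084000000000000000000000000000000) (nat_lit 0x0) (nat_lit 0x20001800080002000000000000000000000000000000) := T_2 (nat_lit 139) (nat_lit 121) (nat_lit 0) (nat_lit 6) (nat_lit 8) L65712 (by decide +kernel)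
theorem L65714 : W_2 (nat_lit 4) (nat_lit 0x2000000088007c0004001f00080000000000000000000000000000000) (nat_lit 0x0) (nat_lit 0x2000180008000e000000000000000000000000000000) := T_2 (nat_lit 122) (nat_lit 123) (nat_lit 0) (nat_lit 7) (nat_lit 8) L65713 (by decide +kernel)
theorem L65715 : W_2 (nat_lit 5) (nat_lit 0x2000000088007c0004001e00080000000000000000000000000000000) (nat_lit 0x0) (nat_lit 0x2000180018004e000000000000000000000000000000) := T_2 (nat_lit 140) (nat_lit 126) (nat_lit 2) (nat_lit 4) (nat_lit 8) L65714 (by decide +kernel)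
theorem L65716 : W_2 (nat_lit 6) (nat_lit 0x2000000088007c0004001a00080000000000000000000000000000000) (nat_lit 0x0) (nat_lit 0x2000180058014e000000000000000000000000000000) := T_2 (nat_lit 142) (nat_lit 128) (nat_lit 2) (nat_lit 5) (nat_lit 8) L65715 (by decide +kernel)
theorem L65717 : W_2 (nat_lit 7) (nat_lit 0x88007c0004001a00080000000000000000000000000000000) (nat_lit 0x0) (nat_lit 0x20001000000002000180058014e000000000000000000000000000000) := T_2 (nat_lit 225) (nat_lit 208) (nat_lit 6) (nat_lit 4) (nat_lit 13) L65716 (by decide +kernel)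
theorem L65718 : W_2 (nat_lit 8) (nat_lit 0x88007c0004001800080000000000000000000000000000000) (nat_lit 0x0) (nat_lit 0x20001000000002000180078015e000000000000000000000000000000) := T_2 (nat_lit 141) (nat_lit 124) (nat_lit 5) (nat_lit 5) (nat_lit 7) L65717 (by decide +kernel)
theorem L65735 : W_2 (nat_lit 2) (nat_lit 0x2000f00048001c00080000000000000000000000000000000) (nat_lit 0x0) (nat_lit 0x200110000000000000000000000000000000) := D_2 (nat_lit 141) (nat_lit 124) (nat_lit 128) (nat_lit 4) (nat_lit 6) (nat_lit 11) (nat_lit 2) (nat_lit 5) (nat_lit 8) (by decide +kernel)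
theorem L65736 : W_2 (nat_lit 3) (nat_lit 0x2000f00048001800080000000000000000000000000000000) (nat_lit 0x0) (nat_lit 0x600150000000000000000000000000000000) := T_2 (nat_lit 142) (nat_lit 126) (nat_lit 6) (nat_lit 6) (nat_lit 11) L65735 (by decide +kernel)
theorem L65756 : W_2 (nat_lit 2) (nat_lit 0x10007800240018001c0000000000000000000000000000000) (nat_lit 0x0) (nat_lit 0x600200000000000000000000000000000000) := D_2 (nat_lit 142) (nat_lit 141) (nat_lit 129) (nat_lit 2) (nat_lit 5) (nat_lit 8) (nat_lit 1) (nat_lit 10) (nat_lit 7) (by decide +kernel)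
theorem L65763 : W_2 (nat_lit 2) (nat_lit 0x10000f00004001800080000000000000000000000000000000) (nat_lit 0x0) (nat_lit 0x8000080002000000000000000000000000000000000000000) := D_2 (nat_lit 175) (nat_lit 195) (nat_lit 157) (nat_lit 3) (nat_lit 5) (nat_lit 10) (nat_lit 0) (nat_lit 8) (nat_lit 10) (by decide +kernel)
theorem L65764 : W_2 (nat_lit 3) (nat_lit 0xf00004001800080000000000000000000000000000000) (nat_lit 0x0) (nat_lit 0x38000080002000000000000000000000000000000000000000) := T_2 (nat_lit 196) (nat_lit 197) (nat_lit 3) (nat_lit 6) (nat_lit 10) L65763 (by decide +kernel)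
theorem L65765 : W_2 (nat_lit 4) (nat_lit 0xf00000001800080000000000000000000000000000000) (nat_lit 0x0) (nat_lit 0x3800008000e000000000000000000000000000000000000000) := T_2 (nat_lit 158) (nat_lit 159) (nat_lit 0) (nat_lit 9) (nat_lit 10) L65764 (by decide +kernel)
theorem L65782 : W_2 (nat_lit 2) (nat_lit 0x100078000c001800080000000000000000000000000000000) (nat_lit 0x0) (nat_lit 0x20000000000000000400020000000000000000000000000000000) := D_2 (nat_lit 142) (nat_lit 125) (nat_lit 209) (nat_lit 5) (nat_lit 6) (nat_lit 7) (nat_lit 6) (nat_lit 5) (nat_lit 12) (by decide +kernel)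
theorem L65791 : W_2 (nat_lit 2) (nat_lit 0x200020001e000f00048001c00080000000000000000000000000000000) (nat_lit 0x0) (nat_lit 0xc0004000000000000000000000000000000000000000000000000000000000) := D_2 (nat_lit 230) (nat_lit 247) (nat_lit 246) (nat_lit 4) (nat_lit 9) (nat_lit 14) (nat_lit 5) (nat_lit 9) (nat_lit 10) (by decide +kernel)
theorem L65792 : W_2 (nat_lit 3) (nat_lit 0x200000001e000f00048001c00080000000000000000000000000000000) (nat_lit 0x0) (nat_lit 0xc0004000600000000000000000000000000000000000000000000000000000) := T_2 (nat_lit 213) (nat_lit 214) (nat_lit 3) (nat_lit 6) (nat_lit 11) L65791 (by decide +kernel)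
theorem L65793 : W_2 (nat_lit 4) (nat_lit 0x1e000f00048001c00080000000000000000000000000000000) (nat_lit 0x0) (nat_lit 0xc0006000700000000000000000000000000000000000000000000000000000) := T_2 (nat_lit 229) (nat_lit 212) (nat_lit 6) (nat_lit 8) (nat_lit 13) L65792 (by decide +kernel)
theorem L65794 : W_2 (nat_lit 5) (nat_lit 0x16000f00048001c00080000000000000000000000000000000) (nat_lit 0x0) (nat_lit 0xc0006000700008000080000000000000000000000000000000000000000000) := T_2 (nat_lit 195) (nat_lit 175) (nat_lit 3) (nat_lit 5) (nat_lit 10) L65793 (by decide +kernel)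
theorem L65795 : W_2 (nat_lit 6) (nat_lit 0x6000f00048001c00080000000000000000000000000000000) (nat_lit 0x0) (nat_lit 0xc0006000700038000080000000000000000000000000000000000000000000) := T_2 (nat_lit 196) (nat_lit 197) (nat_lit 3) (nat_lit 6) (nat_lit 10) L65794 (by decide +kernel)
theorem L65796 : W_2 (nat_lit 7) (nat_lit 0x6000f00008001c00080000000000000000000000000000000) (nat_lit 0x0) (nat_lit 0xc00060007000380000800c0000000000000000000000000000000000000000) := T_2 (nat_lit 162) (nat_lit 163) (nat_lit 2) (nat_lit 6) (nat_lit 10) L65795 (by decide +kernel)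
theorem L66073 : W_2 (nat_lit 2) (nat_lit 0x4000200020001f00080000000000000000000000000000000) (nat_lit 0x0) (nat_lit 0x7000000000000000000000000000000000000000) := D_2 (nat_lit 157) (nat_lit 156) (nat_lit 158) (nat_lit 1) (nat_lit 7) (nat_lit 8) (nat_lit 1) (nat_lit 8) (nat_lit 8) (by decide +kernel)
theorem L66074 : W_2 (nat_lit 3) (nat_lit 0x4000200020001e00080000000000000000000000000000000) (nat_lit 0x0) (nat_lit 0x7000100040000000000000000000000000000000) := T_2 (nat_lit 140) (nat_lit 126) (nat_lit 2) (nat_lit 4) (nat_lit 8) L66073 (by decide +kernel)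
theorem L66229 : W_2 (nat_lit 2) (nat_lit 0x1400040002000f00048001800080000000000000000000000000000000) (nat_lit 0x0) (nat_lit 0x28000800000000000000000000000000000000000000000000000000000000) := D_2 (nat_lit 227) (nat_lit 243) (nat_lit 245) (nat_lit 5) (nat_lit 6) (nat_lit 10) (nat_lit 7) (nat_lit 6) (nat_lit 10) (by decide +kernel)
theorem L66230 : W_2 (nat_lit 3) (nat_lit 0x400040002000f00048001800080000000000000000000000000000000) (nat_lit 0x0) (nat_lit 0x28001800080000000000000000000000000000000000000000000000000000) := T_2 (nat_lit 228) (nat_lit 211) (nat_lit 7) (nat_lit 6) (nat_lit 9) L66229 (by decide +kernel)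
theorem L66231 : W_2 (nat_lit 4) (nat_lit 0x40002000f00048001800080000000000000000000000000000000) (nat_lit 0x0) (nat_lit 0x28001c000a0000000000000000000000000000000000000000000000000000) := T_2 (nat_lit 226) (nat_lit 209) (nat_lit 5) (nat_lit 6) (nat_lit 9) L66230 (by decide +kernel)
theorem L66232 : W_2 (nat_lit 5) (nat_lit 0x2000f00048001800080000000000000000000000000000000) (nat_lit 0x0) (nat_lit 0x28001c000e0000000000010000000000000000000000000000000000000000) := T_2 (nat_lit 210) (nat_lit 160) (nat_lit 6) (nat_lit 6) (nat_lit 12) L66231 (by decide +kernel)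
theorem L66648 : W_2 (nat_lit 2) (nat_lit 0x4000380024001e000a0000000000000000000000000000000) (nat_lit 0x0) (nat_lit 0x10001000080000000000000000000000) := D_2 (nat_lit 108) (nat_lit 91) (nat_lit 124) (nat_lit 5) (nat_lit 6) (nat_lit 5) (nat_lit 6) (nat_lit 5) (nat_lit 10) (by decide +kernel)
theorem L66649 : W_2 (nat_lit 3) (nat_lit 0x4000300024001e000a0000000000000000000000000000000) (nat_lit 0x0) (nat_lit 0x1000080000000000010001000080000000000000000000000) := T_2 (nat_lit 175) (nat_lit 192) (nat_lit 6) (nat_lit 5) (nat_lit 11) L66648 (by decide +kernel)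
theorem L66650 : W_2 (nat_lit 4) (nat_lit 0x4000300004001e000a0000000000000000000000000000000) (nat_lit 0x0) (nat_lit 0x1000080060000000010001000080000000000000000000000) := T_2 (nat_lit 161) (nat_lit 162) (nat_lit 3) (nat_lit 5) (nat_lit 8) L66649 (by decide +kernel)
theorem L66651 : W_2 (nat_lit 5) (nat_lit 0x4000300000001e000a0000000000000000000000000000000) (nat_lit 0x0) (nat_lit 0x1000080066000000010001000080000000000000000000000) := T_2 (nat_lit 158) (nat_lit 157) (nat_lit 1) (nat_lit 8) (nat_lit 8) L66650 (by decide +kernel)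
theorem L66652 : W_2 (nat_lit 6) (nat_lit 0x4000300000001c000a0000000000000000000000000000000) (nat_lit 0x0) (nat_lit 0x1000080066000200110001000080000000000000000000000) := T_2 (nat_lit 141) (nat_lit 128) (nat_lit 2) (nat_lit 5) (nat_lit 8) L66651 (by decide +kernel)
theorem L66653 : W_2 (nat_lit 7) (nat_lit 0x4000300000001c00080000000000000000000000000000000) (nat_lit 0x0) (nat_lit 0x100008006e000200130001000080000000000000000000000) := T_2 (nat_lit 125) (nat_lit 159) (nat_lit 7) (nat_lit 6) (nat_lit 7) L66652 (by decide +kernel)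
theorem L67109 : W_2 (nat_lit 2) (nat_lit 0x700008001c000c0000000000000000000000000000000) (nat_lit 0x0) (nat_lit 0x20002000100000000000000000000000) := D_2 (nat_lit 109) (nat_lit 125) (nat_lit 92) (nat_lit 6) (nat_lit 6) (nat_lit 10) (nat_lit 5) (nat_lit 7) (nat_lit 5) (by decide +kernel)
theorem L67143 : W_2 (nat_lit 2) (nat_lit 0x700010001a001f0010800000000000000000000000000) (nat_lit 0x0) (nat_lit 0x600020000000000000000000000000000) := D_2 (nat_lit 129) (nat_lit 130) (nat_lit 113) (nat_lit 1) (nat_lit 11) (nat_lit 7) (nat_lit 2) (nat_lit 7) (nat_lit 7) (by decide +kernel)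
theorem L67144 : W_2 (nat_lit 3) (nat_lit 0x700010001a001f0000800000000000000000000000000) (nat_lit 0x0) (nat_lit 0x600038000000000000000000000000000) := T_2 (nat_lit 112) (nat_lit 111) (nat_lit 2) (nat_lit 6) (nat_lit 7) L67143 (by decide +kernel)
theorem L67145 : W_2 (nat_lit 4) (nat_lit 0x700010001a000f0000800000000000000000000000000) (nat_lit 0x0) (nat_lit 0x400700038000000000000000000000000000) := T_2 (nat_lit 128) (nat_lit 142) (nat_lit 2) (nat_lit 5) (nat_lit 8) L67144 (by decide +kernel)
theorem L67291 : W_2 (nat_lit 2) (nat_lit 0x1f00080001000080000000000000000000000000000000) (nat_lit 0x0) (nat_lit 0x1c000000000000000000000000000000000000000) := D_2 (nat_lit 159) (nat_lit 158) (nat_lit 160) (nat_lit 0) (nat_lit 9) (nat_lit 10) (nat_lit 0) (nat_lit 10) (nat_lit 10) (by decide +kernel)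
theorem L67292 : W_2 (nat_lit 3) (nat_lit 0x1e00080001000080000000000000000000000000000000) (nat_lit 0x0) (nat_lit 0x10005c000000000000000000000000000000000000000) := T_2 (nat_lit 176) (nat_lit 162) (nat_lit 2) (nat_lit 6) (nat_lit 10) L67291 (by decide +kernel)
theorem L67293 : W_2 (nat_lit 4) (nat_lit 0x1e00000001000080000000000000000000000000000000) (nat_lit 0x0) (nat_lit 0x1001dc000000000000000000000000000000000000000) := T_2 (nat_lit 163) (nat_lit 164) (nat_lit 2) (nat_lit 7) (nat_lit 10) L67292 (by decide +kernel)
theorem L67381 : W_2 (nat_lit 2) (nat_lit 0x3f000680010001c0000000000000000000000000000000) (nat_lit 0x0) (nat_lit 0xe0000000000000000000000000000000000000000000000000) := D_2 (nat_lit 198) (nat_lit 197) (nat_lit 199) (nat_lit 3) (nat_lit 7) (nat_lit 10) (nat_lit 3) (nat_lit 8) (nat_lit 10) (by decide +kernel)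
theorem L67382 : W_2 (nat_lit 3) (nat_lit 0x1f000680010001c0000000000000000000000000000000) (nat_lit 0x0) (nat_lit 0xe0006000000000000000000000000000000000000000000000) := T_2 (nat_lit 181) (nat_lit 182) (nat_lit 0) (nat_lit 12) (nat_lit 10) L67381 (by decide +kernel)
theorem L67383 : W_2 (nat_lit 4) (nat_lit 0xf000680010001c0000000000000000000000000000000) (nat_lit 0x0) (nat_lit 0xe0007000010000000000000000000000000000000000000000) := T_2 (nat_lit 180) (nat_lit 160) (nat_lit 3) (nat_lit 6) (nat_lit 9) L67382 (by decide +kernel)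
theorem L67384 : W_2 (nat_lit 5) (nat_lit 0xf000600010001c0000000000000000000000000000000) (nat_lit 0x0) (nat_lit 0xe000700001c000000000000000000000000000000000000000) := T_2 (nat_lit 159) (nat_lit 158) (nat_lit 0) (nat_lit 9) (nat_lit 10) L67383 (by decide +kernel)
theorem L67390 : W_2 (nat_lit 2) (nat_lit 0x600060001c00080000000000000000000000000000000) (nat_lit 0x0) (nat_lit 0x190000000000000000000000000000000000000000) := D_2 (nat_lit 163) (nat_lit 164) (nat_lit 160) (nat_lit 1) (nat_lit 11) (nat_lit 9) (nat_lit 0) (nat_lit 10) (nat_lit 9) (by decide +kernel)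
theorem L67391 : W_2 (nat_lit 3) (nat_lit 0x600060001800080000000000000000000000000000000) (nat_lit 0x0) (nat_lit 0x190000600000000000000000000000000000000000) := T_2 (nat_lit 142) (nat_lit 141) (nat_lit 3) (nat_lit 5) (nat_lit 8) L67390 (by decide +kernel)
theorem L69285 : W_2 (nat_lit 2) (nat_lit 0x7000000012000f0000800000000000000000000000000) (nat_lit 0x0) (nat_lit 0xc000400000000000000000000000000000000000) := D_2 (nat_lit 159) (nat_lit 142) (nat_lit 158) (nat_lit 4) (nat_lit 6) (nat_lit 10) (nat_lit 7) (nat_lit 5) (nat_lit 6) (by decide +kernel)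
theorem L69548 : W_2 (nat_lit 2) (nat_lit 0xe000f0005a00380000000000000000000000000000000) (nat_lit 0x0) (nat_lit 0x3000008000000000000000000000000000000000000000) := D_2 (nat_lit 180) (nat_lit 181) (nat_lit 159) (nat_lit 3) (nat_lit 7) (nat_lit 9) (nat_lit 3) (nat_lit 6) (nat_lit 9) (by decide +kernel)
theorem L69549 : W_2 (nat_lit 3) (nat_lit 0xe000e0005a00380000000000000000000000000000000) (nat_lit 0x0) (nat_lit 0x3000018008000000000000000000000000000000000000) := T_2 (nat_lit 160) (nat_lit 147) (nat_lit 2) (nat_lit 7) (nat_lit 9) L69548 (by decide +kernel)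
theorem L69550 : W_2 (nat_lit 4) (nat_lit 0xe000e0001a00380000000000000000000000000000000) (nat_lit 0x0) (nat_lit 0x300001800c000000010000000000000000000000000000) := T_2 (nat_lit 146) (nat_lit 112) (nat_lit 5) (nat_lit 10) (nat_lit 6) L69549 (by decide +kernel)
theorem L71646 : W_2 (nat_lit 2) (nat_lit 0x3e0010001000080000000000000000000000000000000) (nat_lit 0x0) (nat_lit 0x3800000000000000000000000000000000000000) := D_2 (nat_lit 156) (nat_lit 155) (nat_lit 157) (nat_lit 0) (nat_lit 6) (nat_lit 10) (nat_lit 0) (nat_lit 7) (nat_lit 10) (by decide +kernel)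
theorem L71647 : W_2 (nat_lit 3) (nat_lit 0x3c0010001000080000000000000000000000000000000) (nat_lit 0x0) (nat_lit 0x2000b800000000000000000000000000000000000000) := T_2 (nat_lit 173) (nat_lit 159) (nat_lit 2) (nat_lit 3) (nat_lit 10) L71646 (by decide +kernel)
theorem L71648 : W_2 (nat_lit 4) (nat_lit 0x3c0000001000080000000000000000000000000000000) (nat_lit 0x0) (nat_lit 0x2003b800000000000000000000000000000000000000) := T_2 (nat_lit 160) (nat_lit 161) (nat_lit 2) (nat_lit 4) (nat_lit 10) L71647 (by decide +kernel)
theorem L72811 : W_2 (nat_lit 2) (nat_lit 0xf00000001000080000000000000000000000000000000) (nat_lit 0x0) (nat_lit 0x30000000020000000000000000000000000000000000000000) := D_2 (nat_lit 196) (nat_lit 161) (nat_lit 197) (nat_lit 7) (nat_lit 8) (nat_lit 7) (nat_lit 3) (nat_lit 6) (nat_lit 10) (by decide +kernel)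
theorem L72855 : W_2 (nat_lit 2) (nat_lit 0x42003f00248001000080000000000000000000000000000000) (nat_lit 0x0) (nat_lit 0x4000420000000000000000000000000000000000000000) := D_2 (nat_lit 182) (nat_lit 161) (nat_lit 166) (nat_lit 0) (nat_lit 12) (nat_lit 10) (nat_lit 2) (nat_lit 9) (nat_lit 10) (by decide +kernel)
theorem L72856 : W_2 (nat_lit 3) (nat_lit 0x42003f00048001000080000000000000000000000000000000) (nat_lit 0x0) (nat_lit 0x4000720000000000000000000000000000000000000000) := T_2 (nat_lit 165) (nat_lit 164) (nat_lit 2) (nat_lit 8) (nat_lit 10) L72855 (by decide +kernel)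
theorem L72857 : W_2 (nat_lit 4) (nat_lit 0x42001f00048001000080000000000000000000000000000000) (nat_lit 0x0) (nat_lit 0x80006000720000000000000000000000000000000000000000) := T_2 (nat_lit 181) (nat_lit 199) (nat_lit 3) (nat_lit 8) (nat_lit 10) L72856 (by decide +kernel)
theorem L72858 : W_2 (nat_lit 5) (nat_lit 0x2001f00048001000080000000000000000000000000000000) (nat_lit 0x0) (nat_lit 0xe0006000720000000000000000000000000000000000000000) := T_2 (nat_lit 198) (nat_lit 197) (nat_lit 3) (nat_lit 7) (nat_lit 10) L72857 (by decide +kernel)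
theorem L72859 : W_2 (nat_lit 6) (nat_lit 0x2000f00048001000080000000000000000000000000000000) (nat_lit 0x0) (nat_lit 0xe0007000730000000000000000000000000000000000000000) := T_2 (nat_lit 180) (nat_lit 160) (nat_lit 0) (nat_lit 10) (nat_lit 10) L72858 (by decide +kernel)
theorem L72871 : W_2 (nat_lit 4) (nat_lit 0x780000001000080000000000000000000000000000000) (nat_lit 0x0) (nat_lit 0x1c00040070000000000000000000000000000000000000000) := T_2 (nat_lit 161) (nat_lit 162) (nat_lit 2) (nat_lit 5) (nat_lit 10) L4937 (by decide +kernel)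
theorem L72880 : W_2 (nat_lit 2) (nat_lit 0x42001f00108001000080000000000000000000000000000000) (nat_lit 0x0) (nat_lit 0x80002000200000000000000000000000000000000000000000) := D_2 (nat_lit 181) (nat_lit 165) (nat_lit 199) (nat_lit 2) (nat_lit 8) (nat_lit 10) (nat_lit 3) (nat_lit 8) (nat_lit 10) (by decide +kernel)
theorem L72881 : W_2 (nat_lit 3) (nat_lit 0x2001f00108001000080000000000000000000000000000000) (nat_lit 0x0) (nat_lit 0xe0002000200000000000000000000000000000000000000000) := T_2 (nat_lit 198) (nat_lit 197) (nat_lit 3) (nat_lit 7) (nat_lit 10) L72880 (by decide +kernel)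
theorem L72882 : W_2 (nat_lit 4) (nat_lit 0x2001f00008001000080000000000000000000000000000000) (nat_lit 0x0) (nat_lit 0xe0002000380000000000000000000000000000000000000000) := T_2 (nat_lit 164) (nat_lit 163) (nat_lit 2) (nat_lit 7) (nat_lit 10) L72881 (by decide +kernel)
theorem L72883 : W_2 (nat_lit 5) (nat_lit 0x2000f00008001000080000000000000000000000000000000) (nat_lit 0x0) (nat_lit 0xe0003000390000000000000000000000000000000000000000) := T_2 (nat_lit 180) (nat_lit 160) (nat_lit 0) (nat_lit 10) (nat_lit 10) L72882 (by decide +kernel)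
theorem L72884 : W_2 (nat_lit 6) (nat_lit 0xf00008001000080000000000000000000000000000000) (nat_lit 0x0) (nat_lit 0xe3003000390000000000000000000000000000000000000000) := T_2 (nat_lit 193) (nat_lit 192) (nat_lit 1) (nat_lit 9) (nat_lit 10) L72883 (by decide +kernel)
theorem L72885 : W_2 (nat_lit 7) (nat_lit 0xf00000001000080000000000000000000000000000000) (nat_lit 0x0) (nat_lit 0xe300300039c000000000000000000000000000000000000000) := T_2 (nat_lit 159) (nat_lit 158) (nat_lit 0) (nat_lit 9) (nat_lit 10) L72884 (by decide +kernel)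
theorem L72896 : W_2 (nat_lit 2) (nat_lit 0x22001f00000001000080000000000000000000000000000000) (nat_lit 0x0) (nat_lit 0x1c0000000000000000000000000000000000000000) := D_2 (nat_lit 163) (nat_lit 164) (nat_lit 162) (nat_lit 2) (nat_lit 7) (nat_lit 10) (nat_lit 2) (nat_lit 6) (nat_lit 10) (by decide +kernel)
theorem L72897 : W_2 (nat_lit 3) (nat_lit 0x22000f00000001000080000000000000000000000000000000) (nat_lit 0x0) (nat_lit 0x400010001c0000000000000000000000000000000000000000) := T_2 (nat_lit 180) (nat_lit 198) (nat_lit 3) (nat_lit 7) (nat_lit 10) L72896 (by decide +kernel)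
theorem L72898 : W_2 (nat_lit 4) (nat_lit 0x20000f00000001000080000000000000000000000000000000) (nat_lit 0x0) (nat_lit 0x430010001c0000000000000000000000000000000000000000) := T_2 (nat_lit 193) (nat_lit 192) (nat_lit 1) (nat_lit 9) (nat_lit 10) L72897 (by decide +kernel)
theorem L72899 : W_2 (nat_lit 5) (nat_lit 0xf00000001000080000000000000000000000000000000) (nat_lit 0x0) (nat_lit 0x730010001c0000000000000000000000000000000000000000) := T_2 (nat_lit 197) (nat_lit 196) (nat_lit 3) (nat_lit 6) (nat_lit 10) L72898 (by decide +kernel)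
theorem L72938 : W_2 (nat_lit 2) (nat_lit 0x1000f800200018001c0000000000000000000000000000000) (nat_lit 0x0) (nat_lit 0x600200000000000000000000000000000000) := D_2 (nat_lit 142) (nat_lit 141) (nat_lit 129) (nat_lit 2) (nat_lit 5) (nat_lit 8) (nat_lit 1) (nat_lit 10) (nat_lit 7) (by decide +kernel)
theorem L72939 : W_2 (nat_lit 3) (nat_lit 0x1000f800200010001c0000000000000000000000000000000) (nat_lit 0x0) (nat_lit 0x8000000000000e00200000000000000000000000000000000) := T_2 (nat_lit 143) (nat_lit 195) (nat_lit 4) (nat_lit 8) (nat_lit 11) L72938 (by decide +kernel)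
theorem L72940 : W_2 (nat_lit 4) (nat_lit 0x1000f80020001000180000000000000000000000000000000) (nat_lit 0x0) (nat_lit 0x8000000000000e00240002000000000000000000000000000) := T_2 (nat_lit 126) (nat_lit 109) (nat_lit 4) (nat_lit 8) (nat_lit 10) L72939 (by decide +kernel)
theorem L72941 : W_2 (nat_lit 5) (nat_lit 0x1000780020001000180000000000000000000000000000000) (nat_lit 0x0) (nat_lit 0xa000800000000e00240002000000000000000000000000000) := T_2 (nat_lit 179) (nat_lit 193) (nat_lit 1) (nat_lit 9) (nat_lit 10) L72940 (by decide +kernel)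
theorem L72942 : W_2 (nat_lit 6) (nat_lit 0x1000780020001000080000000000000000000000000000000) (nat_lit 0x0) (nat_lit 0xa000800000000e0034000a000000000000000000000000000) := T_2 (nat_lit 128) (nat_lit 111) (nat_lit 6) (nat_lit 8) (nat_lit 10) L72941 (by decide +kernel)
theorem L72943 : W_2 (nat_lit 7) (nat_lit 0x780020001000080000000000000000000000000000000) (nat_lit 0x0) (nat_lit 0xb800800000000e0034000a000000000000000000000000000) := T_2 (nat_lit 192) (nat_lit 191) (nat_lit 1) (nat_lit 8) (nat_lit 10) L72942 (by decide +kernel)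
theorem L72944 : W_2 (nat_lit 8) (nat_lit 0x780000001000080000000000000000000000000000000) (nat_lit 0x0) (nat_lit 0xb800800060000e0034000a000000000000000000000000000) := T_2 (nat_lit 161) (nat_lit 162) (nat_lit 2) (nat_lit 5) (nat_lit 10) L72943 (by decide +kernel)
theorem L72945 : W_2 (nat_lit 2) (nat_lit 0xf800240018001c0000000000000000000000000000000) (nat_lit 0x0) (nat_lit 0x600200000000000000000000000000000000) := D_2 (nat_lit 142) (nat_lit 141) (nat_lit 129) (nat_lit 2) (nat_lit 5) (nat_lit 8) (nat_lit 1) (nat_lit 10) (nat_lit 7) (by decide +kernel)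
theorem L72946 : W_2 (nat_lit 3) (nat_lit 0xf800240010001c0000000000000000000000000000000) (nat_lit 0x0) (nat_lit 0x8000000000000e00200000000000000000000000000000000) := T_2 (nat_lit 143) (nat_lit 195) (nat_lit 4) (nat_lit 8) (nat_lit 11) L72945 (by decide +kernel)
theorem L72947 : W_2 (nat_lit 4) (nat_lit 0xf80024001000180000000000000000000000000000000) (nat_lit 0x0) (nat_lit 0x8000000000000e00240002000000000000000000000000000) := T_2 (nat_lit 126) (nat_lit 109) (nat_lit 4) (nat_lit 8) (nat_lit 10) L72946 (by decide +kernel)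
theorem L73585 : W_2 (nat_lit 2) (nat_lit 0x2000f00058001000080000000000000000000000000000000) (nat_lit 0x0) (nat_lit 0x40000000000000000800040000000000000000000000000000000) := D_2 (nat_lit 143) (nat_lit 126) (nat_lit 210) (nat_lit 5) (nat_lit 7) (nat_lit 7) (nat_lit 6) (nat_lit 6) (nat_lit 12) (by decide +kernel)
theorem L73586 : W_2 (nat_lit 3) (nat_lit 0x2000f00048001000080000000000000000000000000000000) (nat_lit 0x0) (nat_lit 0x40000001000010000800040000000000000000000000000000000) := T_2 (nat_lit 160) (nat_lit 180) (nat_lit 0) (nat_lit 10) (nat_lit 10) L73585 (by decide +kernel)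
theorem L73587 : W_2 (nat_lit 4) (nat_lit 0x2000f00040001000080000000000000000000000000000000) (nat_lit 0x0) (nat_lit 0x4000000100001c000800040000000000000000000000000000000) := T_2 (nat_lit 159) (nat_lit 158) (nat_lit 0) (nat_lit 9) (nat_lit 10) L73586 (by decide +kernel)
theorem L73598 : W_2 (nat_lit 2) (nat_lit 0x7000200018001c0000000000000000000000000000000) (nat_lit 0x0) (nat_lit 0x600200000000000000000000000000000000) := D_2 (nat_lit 142) (nat_lit 141) (nat_lit 129) (nat_lit 2) (nat_lit 5) (nat_lit 8) (nat_lit 1) (nat_lit 10) (nat_lit 7) (by decide +kernel)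
theorem L73839 : W_2 (nat_lit 2) (nat_lit 0x400000041001f80108001000080000000000000000000000000000000) (nat_lit 0x0) (nat_lit 0x80002000200000000000000000000000000000000000000000) := D_2 (nat_lit 181) (nat_lit 199) (nat_lit 165) (nat_lit 3) (nat_lit 8) (nat_lit 10) (nat_lit 2) (nat_lit 8) (nat_lit 10) (by decide +kernel)
theorem L73840 : W_2 (nat_lit 3) (nat_lit 0x400000041001f80008001000080000000000000000000000000000000) (nat_lit 0x0) (nat_lit 0x80002000380000000000000000000000000000000000000000) := T_2 (nat_lit 164) (nat_lit 163) (nat_lit 2) (nat_lit 7) (nat_lit 10) L73839 (by decide +kernel)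
theorem L73841 : W_2 (nat_lit 4) (nat_lit 0x400000001001f80008001000080000000000000000000000000000000) (nat_lit 0x0) (nat_lit 0xe0002000380000000000000000000000000000000000000000) := T_2 (nat_lit 198) (nat_lit 197) (nat_lit 3) (nat_lit 7) (nat_lit 10) L73840 (by decide +kernel)
theorem L73842 : W_2 (nat_lit 5) (nat_lit 0x1001f80008001000080000000000000000000000000000000) (nat_lit 0x0) (nat_lit 0x4000200e0002000380000000000000000000000000000000000000000) := T_2 (nat_lit 226) (nat_lit 209) (nat_lit 6) (nat_lit 5) (nat_lit 13) L73841 (by decide +kernel)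
theorem L73843 : W_2 (nat_lit 6) (nat_lit 0x1000f80008001000080000000000000000000000000000000) (nat_lit 0x0) (nat_lit 0x4000200e0003000390000000000000000000000000000000000000000) := T_2 (nat_lit 180) (nat_lit 160) (nat_lit 0) (nat_lit 10) (nat_lit 10) L73842 (by decide +kernel)
theorem L73844 : W_2 (nat_lit 7) (nat_lit 0x1000f80000001000080000000000000000000000000000000) (nat_lit 0x0) (nat_lit 0x4000200e000300039c000000000000000000000000000000000000000) := T_2 (nat_lit 159) (nat_lit 158) (nat_lit 0) (nat_lit 9) (nat_lit 10) L73843 (by decide +kernel)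
theorem L73845 : W_2 (nat_lit 8) (nat_lit 0x1000780000001000080000000000000000000000000000000) (nat_lit 0x0) (nat_lit 0x4000200e200380039c000000000000000000000000000000000000000) := T_2 (nat_lit 179) (nat_lit 193) (nat_lit 1) (nat_lit 9) (nat_lit 10) L73844 (by decide +kernel)
theorem L73846 : W_2 (nat_lit 9) (nat_lit 0x780000001000080000000000000000000000000000000) (nat_lit 0x0) (nat_lit 0x4000200e380380039c000000000000000000000000000000000000000) := T_2 (nat_lit 192) (nat_lit 191) (nat_lit 1) (nat_lit 8) (nat_lit 10) L73845 (by decide +kernel)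
theorem L73922 : W_2 (nat_lit 2) (nat_lit 0x7c0020001000080000000000000000000000000000000) (nat_lit 0x0) (nat_lit 0x7000000000000000000000000000000000000000) := D_2 (nat_lit 157) (nat_lit 156) (nat_lit 158) (nat_lit 0) (nat_lit 7) (nat_lit 10) (nat_lit 0) (nat_lit 8) (nat_lit 10) (by decide +kernel)
theorem L73923 : W_2 (nat_lit 3) (nat_lit 0x780020001000080000000000000000000000000000000) (nat_lit 0x0) (nat_lit 0x40017000000000000000000000000000000000000000) := T_2 (nat_lit 174) (nat_lit 160) (nat_lit 2) (nat_lit 4) (nat_lit 10) L73922 (by decide +kernel)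
theorem L73924 : W_2 (nat_lit 4) (nat_lit 0x780000001000080000000000000000000000000000000) (nat_lit 0x0) (nat_lit 0x40077000000000000000000000000000000000000000) := T_2 (nat_lit 161) (nat_lit 162) (nat_lit 2) (nat_lit 5) (nat_lit 10) L73923 (by decide +kernel)
theorem L73937 : W_2 (nat_lit 4) (nat_lit 0x700020001000080000000000000000000000000000000) (nat_lit 0x0) (nat_lit 0xc0057000000000000000000000000000000000000000) := T_2 (nat_lit 175) (nat_lit 162) (nat_lit 2) (nat_lit 5) (nat_lit 10) L73923 (by decide +kernel)
theorem L74010 : W_2 (nat_lit 5) (nat_lit 0x700000001000080000000000000000000000000000000) (nat_lit 0x0) (nat_lit 0x40000c0077000000000000000000000000000000000000000) := T_2 (nat_lit 161) (nat_lit 194) (nat_lit 5) (nat_lit 8) (nat_lit 7) L73937 (by decide +kernel)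
theorem L74026 : W_2 (nat_lit 4) (nat_lit 0x300010001800080000000000000000000000000000000) (nat_lit 0x0) (nat_lit 0x2000000008000000060003000080000000000000000000000) := T_2 (nat_lit 126) (nat_lit 193) (nat_lit 5) (nat_lit 7) (nat_lit 7) L12539 (by decide +kernel)
theorem L74027 : W_2 (nat_lit 5) (nat_lit 0x300000001800080000000000000000000000000000000) (nat_lit 0x0) (nat_lit 0x6000000018000000060003000080000000000000000000000) := T_2 (nat_lit 160) (nat_lit 194) (nat_lit 6) (nat_lit 7) (nat_lit 11) L74026 (by decide +kernel)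
theorem L74051 : W_2 (nat_lit 2) (nat_lit 0x300034001e000f0000800000000000000000000000000) (nat_lit 0x0) (nat_lit 0x10000c0000000000000000000000000000000000000000000) := D_2 (nat_lit 175) (nat_lit 174) (nat_lit 192) (nat_lit 2) (nat_lit 4) (nat_lit 10) (nat_lit 6) (nat_lit 5) (nat_lit 11) (by decide +kernel)
theorem L74052 : W_2 (nat_lit 3) (nat_lit 0x300014001e000f0000800000000000000000000000000) (nat_lit 0x0) (nat_lit 0x10000c0060000000000000000000000000000000000000000) := T_2 (nat_lit 161) (nat_lit 162) (nat_lit 3) (nat_lit 5) (nat_lit 8) L74051 (by decide +kernel)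
theorem L74053 : W_2 (nat_lit 4) (nat_lit 0x300010001e000f0000800000000000000000000000000) (nat_lit 0x0) (nat_lit 0x10000c0066000000000000000000000000000000000000000) := T_2 (nat_lit 158) (nat_lit 157) (nat_lit 1) (nat_lit 8) (nat_lit 8) L74052 (by decide +kernel)
theorem L74054 : W_2 (nat_lit 5) (nat_lit 0x300010001a000f0000800000000000000000000000000) (nat_lit 0x0) (nat_lit 0x10000c0066000400100000000000000000000000000000000) := T_2 (nat_lit 142) (nat_lit 128) (nat_lit 2) (nat_lit 5) (nat_lit 8) L74053 (by decide +kernel)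
theorem L74055 : W_2 (nat_lit 6) (nat_lit 0x300010001a000f0000000000000000000000000000000) (nat_lit 0x0) (nat_lit 0x10000c0066000400100000c00000000000000000000000000) := T_2 (nat_lit 107) (nat_lit 106) (nat_lit 0) (nat_lit 8) (nat_lit 7) L74054 (by decide +kernel)
theorem L74056 : W_2 (nat_lit 7) (nat_lit 0x3000100018000f0000000000000000000000000000000) (nat_lit 0x0) (nat_lit 0x10000c0066000700100000c00000000000000000000000000) := T_2 (nat_lit 141) (nat_lit 140) (nat_lit 1) (nat_lit 8) (nat_lit 7) L74055 (by decide +kernel)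
theorem L74057 : W_2 (nat_lit 8) (nat_lit 0x3000100018000e0000000000000000000000000000000) (nat_lit 0x0) (nat_lit 0x10000c0066000700118000c00000000000000000000000000) := T_2 (nat_lit 124) (nat_lit 123) (nat_lit 3) (nat_lit 4) (nat_lit 7) L74056 (by decide +kernel)
theorem L74058 : W_2 (nat_lit 9) (nat_lit 0x3000100018000c0000000000000000000000000000000) (nat_lit 0x0) (nat_lit 0x10000c0066000700138001c00000000000000000000000000) := T_2 (nat_lit 125) (nat_lit 108) (nat_lit 4) (nat_lit 7) (nat_lit 10) L74057 (by decide +kernel)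
theorem L74059 : W_2 (nat_lit 10) (nat_lit 0x300010001800080000000000000000000000000000000) (nat_lit 0x0) (nat_lit 0x30000c0066000700178001c00000000000000000000000000) := T_2 (nat_lit 126) (nat_lit 193) (nat_lit 5) (nat_lit 7) (nat_lit 7) L74058 (by decide +kernel)
theorem L74060 : W_2 (nat_lit 11) (nat_lit 0x300000001800080000000000000000000000000000000) (nat_lit 0x0) (nat_lit 0x70000c0076000700178001c00000000000000000000000000) := T_2 (nat_lit 160) (nat_lit 194) (nat_lit 6) (nat_lit 7) (nat_lit 11) L74059 (by decide +kernel)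
theorem L74061 : W_2 (nat_lit 2) (nat_lit 0x3000100018000c0002000000000000000000000000000) (nat_lit 0x0) (nat_lit 0x20000000000000000100008000000000000000000) := D_2 (nat_lit 92) (nat_lit 75) (nat_lit 161) (nat_lit 7) (nat_lit 7) (nat_lit 4) (nat_lit 7) (nat_lit 7) (nat_lit 5) (by decide +kernel)
theorem L74062 : W_2 (nat_lit 3) (nat_lit 0x3000100018000c0000000000000000000000000000000) (nat_lit 0x0) (nat_lit 0x28000000000002000100008000000000000000000) := T_2 (nat_lit 109) (nat_lit 159) (nat_lit 5) (nat_lit 7) (nat_lit 6) L74061 (by decide +kernel)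
theorem L74063 : W_2 (nat_lit 4) (nat_lit 0x300010001800080000000000000000000000000000000) (nat_lit 0x0) (nat_lit 0x2000000028000000040002000100008000000000000000000) := T_2 (nat_lit 126) (nat_lit 193) (nat_lit 5) (nat_lit 7) (nat_lit 7) L74062 (by decide +kernel)
theorem L74064 : W_2 (nat_lit 5) (nat_lit 0x300000001800080000000000000000000000000000000) (nat_lit 0x0) (nat_lit 0x6000000038000000040002000100008000000000000000000) := T_2 (nat_lit 160) (nat_lit 194) (nat_lit 6) (nat_lit 7) (nat_lit 11) L74063 (by decide +kernel)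
theorem L74067 : W_2 (nat_lit 2) (nat_lit 0x3000100018000e8002000000000000000000000000000) (nat_lit 0x0) (nat_lit 0x20000000000000000100008000000000000000000) := D_2 (nat_lit 92) (nat_lit 161) (nat_lit 75) (nat_lit 7) (nat_lit 7) (nat_lit 5) (nat_lit 7) (nat_lit 7) (nat_lit 4) (by decide +kernel)
theorem L74068 : W_2 (nat_lit 3) (nat_lit 0x3000100018000e8000000000000000000000000000000) (nat_lit 0x0) (nat_lit 0x28000000000002000100008000000000000000000) := T_2 (nat_lit 109) (nat_lit 159) (nat_lit 5) (nat_lit 7) (nat_lit 6) L74067 (by decide +kernel)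
theorem L74072 : W_2 (nat_lit 4) (nat_lit 0x300000001c000a0000000000000000000000000000000) (nat_lit 0x0) (nat_lit 0x7000300140000000000000000000000000000000) := T_2 (nat_lit 141) (nat_lit 128) (nat_lit 2) (nat_lit 5) (nat_lit 8) L12590 (by decide +kernel)
theorem L74074 : W_2 (nat_lit 9) (nat_lit 0x3000100018000a0000000000000000000000000000000) (nat_lit 0x0) (nat_lit 0x10000c0066000700158001c00000000000000000000000000) := T_2 (nat_lit 126) (nat_lit 108) (nat_lit 4) (nat_lit 7) (nat_lit 10) L74057 (by decide +kernel)
theorem L74075 : W_2 (nat_lit 10) (nat_lit 0x3000000018000a0000000000000000000000000000000) (nat_lit 0x0) (nat_lit 0x50000c0076000700158001c00000000000000000000000000) := T_2 (nat_lit 160) (nat_lit 194) (nat_lit 6) (nat_lit 7) (nat_lit 11) L74074 (by decide +kernel)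
theorem L74076 : W_2 (nat_lit 2) (nat_lit 0x4000300000001f000a0000000000000000000000000000000) (nat_lit 0x0) (nat_lit 0x7000000000000000000000000000000000000000) := D_2 (nat_lit 157) (nat_lit 156) (nat_lit 158) (nat_lit 1) (nat_lit 7) (nat_lit 8) (nat_lit 1) (nat_lit 8) (nat_lit 8) (by decide +kernel)
theorem L74077 : W_2 (nat_lit 3) (nat_lit 0x4000300000001e000a0000000000000000000000000000000) (nat_lit 0x0) (nat_lit 0x7000100040000000000000000000000000000000) := T_2 (nat_lit 140) (nat_lit 126) (nat_lit 2) (nat_lit 4) (nat_lit 8) L74076 (by decide +kernel)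
theorem L74078 : W_2 (nat_lit 4) (nat_lit 0x4000300000001c000a0000000000000000000000000000000) (nat_lit 0x0) (nat_lit 0x7000300140000000000000000000000000000000) := T_2 (nat_lit 141) (nat_lit 128) (nat_lit 2) (nat_lit 5) (nat_lit 8) L74077 (by decide +kernel)
theorem L74079 : W_2 (nat_lit 5) (nat_lit 0x40003000000018000a0000000000000000000000000000000) (nat_lit 0x0) (nat_lit 0xf000700140000000000000000000000000000000) := T_2 (nat_lit 142) (nat_lit 159) (nat_lit 7) (nat_lit 6) (nat_lit 7) L74078 (by decide +kernel)
theorem L74080 : W_2 (nat_lit 6) (nat_lit 0x3000000018000a0000000000000000000000000000000) (nat_lit 0x0) (nat_lit 0x400000001f000700140000000000000000000000000000000) := T_2 (nat_lit 194) (nat_lit 160) (nat_lit 6) (nat_lit 7) (nat_lit 11) L74079 (by decide +kernel)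
theorem L74081 : W_2 (nat_lit 4) (nat_lit 0x3000000018000e8000000000000000000000000000000) (nat_lit 0x0) (nat_lit 0x38000000000003000100008000000000000000000) := T_2 (nat_lit 160) (nat_lit 108) (nat_lit 4) (nat_lit 7) (nat_lit 10) L74068 (by decide +kernel)
theorem L74082 : W_2 (nat_lit 5) (nat_lit 0x3000000018000e0000000000000000000000000000000) (nat_lit 0x0) (nat_lit 0x38000000018003000100008000000000000000000) := T_2 (nat_lit 123) (nat_lit 124) (nat_lit 3) (nat_lit 4) (nat_lit 7) L74081 (by decide +kernel)
theorem L74083 : W_2 (nat_lit 2) (nat_lit 0x300000001a000f0000800000000000000000000000000) (nat_lit 0x0) (nat_lit 0x8000400100000000000000000000000000000000) := D_2 (nat_lit 142) (nat_lit 128) (nat_lit 159) (nat_lit 2) (nat_lit 5) (nat_lit 8) (nat_lit 4) (nat_lit 6) (nat_lit 10) (by decide +kernel)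
theorem L74084 : W_2 (nat_lit 3) (nat_lit 0x300000001a000f0000000000000000000000000000000) (nat_lit 0x0) (nat_lit 0x8000400100000c00000000000000000000000000) := T_2 (nat_lit 107) (nat_lit 106) (nat_lit 0) (nat_lit 8) (nat_lit 7) L74083 (by decide +kernel)
theorem L74085 : W_2 (nat_lit 4) (nat_lit 0x3000000018000f0000000000000000000000000000000) (nat_lit 0x0) (nat_lit 0x8000700100000c00000000000000000000000000) := T_2 (nat_lit 141) (nat_lit 140) (nat_lit 1) (nat_lit 8) (nat_lit 7) L74084 (by decide +kernel)
theorem L74086 : W_2 (nat_lit 5) (nat_lit 0x3000000018000e0000000000000000000000000000000) (nat_lit 0x0) (nat_lit 0x8000700118000c00000000000000000000000000) := T_2 (nat_lit 124) (nat_lit 123) (nat_lit 3) (nat_lit 4) (nat_lit 7) L74085 (by decide +kernel)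
theorem L74087 : W_2 (nat_lit 2) (nat_lit 0x3000000018001e8001000000000000000000000000000) (nat_lit 0x0) (nat_lit 0x400200002000000000000000000000000000) := D_2 (nat_lit 129) (nat_lit 109) (nat_lit 142) (nat_lit 0) (nat_lit 10) (nat_lit 7) (nat_lit 1) (nat_lit 10) (nat_lit 7) (by decide +kernel)
theorem L74088 : W_2 (nat_lit 3) (nat_lit 0x3000000018000e8001000000000000000000000000000) (nat_lit 0x0) (nat_lit 0x400300002800000000000000000000000000) := T_2 (nat_lit 128) (nat_lit 107) (nat_lit 0) (nat_lit 9) (nat_lit 7) L74087 (by decide +kernel)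
theorem L74089 : W_2 (nat_lit 4) (nat_lit 0x3000000018000e8000000000000000000000000000000) (nat_lit 0x0) (nat_lit 0x10000400300003800000000000000000000000000) := T_2 (nat_lit 108) (nat_lit 160) (nat_lit 4) (nat_lit 7) (nat_lit 10) L74088 (by decide +kernel)
theorem L74090 : W_2 (nat_lit 5) (nat_lit 0x3000000018000e0000000000000000000000000000000) (nat_lit 0x0) (nat_lit 0x10000400318003800000000000000000000000000) := T_2 (nat_lit 123) (nat_lit 124) (nat_lit 3) (nat_lit 4) (nat_lit 7) L74089 (by decide +kernel)
theorem L74091 : W_2 (nat_lit 2) (nat_lit 0x3000100018000e0002000000000000000000000000000) (nat_lit 0x0) (nat_lit 0x20000000000000000100008000000000000000000) := D_2 (nat_lit 92) (nat_lit 161) (nat_lit 75) (nat_lit 7) (nat_lit 7) (nat_lit 5) (nat_lit 7) (nat_lit 7) (nat_lit 4) (by decide +kernel)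
theorem L74092 : W_2 (nat_lit 3) (nat_lit 0x3000100018000e0000000000000000000000000000000) (nat_lit 0x0) (nat_lit 0x28000000000002000100008000000000000000000) := T_2 (nat_lit 109) (nat_lit 159) (nat_lit 5) (nat_lit 7) (nat_lit 6) L74091 (by decide +kernel)
theorem L74093 : W_2 (nat_lit 4) (nat_lit 0x3000000018000e0000000000000000000000000000000) (nat_lit 0x0) (nat_lit 0x38000000000003000100008000000000000000000) := T_2 (nat_lit 160) (nat_lit 108) (nat_lit 4) (nat_lit 7) (nat_lit 10) L74092 (by decide +kernel)
theorem L74097 : W_2 (nat_lit 2) (nat_lit 0x3000000018000c0002000000000000000000000000000) (nat_lit 0x0) (nat_lit 0x20000000000000000100008000000000000000000) := D_2 (nat_lit 92) (nat_lit 75) (nat_lit 161) (nat_lit 7) (nat_lit 7) (nat_lit 4) (nat_lit 7) (nat_lit 7) (nat_lit 5) (by decide +kernel)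
theorem L74098 : W_2 (nat_lit 3) (nat_lit 0x3000000018000c0002000000000000000000000000000) (nat_lit 0x0) (nat_lit 0x18000000020001000080000000000000000000000) := T_2 (nat_lit 160) (nat_lit 159) (nat_lit 5) (nat_lit 7) (nat_lit 6) L12538 (by decide +kernel)
theorem L74100 : W_2 (nat_lit 10) (nat_lit 0x3000000018000c0000000000000000000000000000000) (nat_lit 0x0) (nat_lit 0x30000c0076000700138001c00000000000000000000000000) := T_2 (nat_lit 160) (nat_lit 193) (nat_lit 5) (nat_lit 7) (nat_lit 7) L74058 (by decide +kernel)
theorem L74124 : W_2 (nat_lit 6) (nat_lit 0x40003000000018000a0000000000000000000000000000000) (nat_lit 0x0) (nat_lit 0x100008000e000600118001000000000000000000000000000) := T_2 (nat_lit 142) (nat_lit 159) (nat_lit 7) (nat_lit 6) (nat_lit 7) L12572 (by decide +kernel)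
theorem L74125 : W_2 (nat_lit 7) (nat_lit 0x3000000018000a0000000000000000000000000000000) (nat_lit 0x0) (nat_lit 0x500008001e000600118001000000000000000000000000000) := T_2 (nat_lit 194) (nat_lit 160) (nat_lit 6) (nat_lit 7) (nat_lit 11) L74124 (by decide +kernel)
theorem L74200 : W_2 (nat_lit 2) (nat_lit 0x8003c0002001000080000000000000000000000000000000) (nat_lit 0x0) (nat_lit 0x1000400004000000000000000000000000000000000000000) := D_2 (nat_lit 178) (nat_lit 158) (nat_lit 192) (nat_lit 0) (nat_lit 8) (nat_lit 10) (nat_lit 1) (nat_lit 8) (nat_lit 10) (by decide +kernel)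
theorem L74201 : W_2 (nat_lit 3) (nat_lit 0x3c0002001000080000000000000000000000000000000) (nat_lit 0x0) (nat_lit 0x1c00400004000000000000000000000000000000000000000) := T_2 (nat_lit 191) (nat_lit 190) (nat_lit 1) (nat_lit 7) (nat_lit 10) L74200 (by decide +kernel)
theorem L74202 : W_2 (nat_lit 4) (nat_lit 0x3c0000001000080000000000000000000000000000000) (nat_lit 0x0) (nat_lit 0x1c00400007000000000000000000000000000000000000000) := T_2 (nat_lit 157) (nat_lit 156) (nat_lit 0) (nat_lit 7) (nat_lit 10) L74201 (by decide +kernel)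
theorem L74225 : W_2 (nat_lit 2) (nat_lit 0x4003c0021001000080000000000000000000000000000000) (nat_lit 0x0) (nat_lit 0x200020000800000000000000000000000000000000000000) := D_2 (nat_lit 173) (nat_lit 189) (nat_lit 155) (nat_lit 1) (nat_lit 6) (nat_lit 10) (nat_lit 0) (nat_lit 6) (nat_lit 10) (by decide +kernel)
theorem L74226 : W_2 (nat_lit 3) (nat_lit 0x4003c0020001000080000000000000000000000000000000) (nat_lit 0x0) (nat_lit 0x200020003800000000000000000000000000000000000000) := T_2 (nat_lit 156) (nat_lit 157) (nat_lit 0) (nat_lit 7) (nat_lit 10) L74225 (by decide +kernel)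
theorem L74227 : W_2 (nat_lit 4) (nat_lit 0x3c0020001000080000000000000000000000000000000) (nat_lit 0x0) (nat_lit 0xe00020003800000000000000000000000000000000000000) := T_2 (nat_lit 190) (nat_lit 191) (nat_lit 1) (nat_lit 7) (nat_lit 10) L74226 (by decide +kernel)
theorem L74228 : W_2 (nat_lit 5) (nat_lit 0x380020001000080000000000000000000000000000000) (nat_lit 0x0) (nat_lit 0xe00060013800000000000000000000000000000000000000) := T_2 (nat_lit 174) (nat_lit 160) (nat_lit 2) (nat_lit 4) (nat_lit 10) L74227 (by decide +kernel)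
theorem L74260 : W_2 (nat_lit 2) (nat_lit 0x6000300028001c00080000000000000000000000000000000) (nat_lit 0x0) (nat_lit 0x40000200010000000000000000000000000000000) := D_2 (nat_lit 141) (nat_lit 162) (nat_lit 124) (nat_lit 3) (nat_lit 5) (nat_lit 8) (nat_lit 4) (nat_lit 6) (nat_lit 11) (by decide +kernel)
theorem L74261 : W_2 (nat_lit 3) (nat_lit 0x6000300028001400080000000000000000000000000000000) (nat_lit 0x0) (nat_lit 0x40000a00050000000000000000000000000000000) := T_2 (nat_lit 143) (nat_lit 126) (nat_lit 6) (nat_lit 6) (nat_lit 11) L74260 (by decide +kernel)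
theorem L74265 : W_2 (nat_lit 2) (nat_lit 0x4000f000080010000a0000000000000000000000000000000) (nat_lit 0x0) (nat_lit 0x3001000000000000000000000000000000000000000000000) := D_2 (nat_lit 193) (nat_lit 192) (nat_lit 180) (nat_lit 1) (nat_lit 9) (nat_lit 10) (nat_lit 1) (nat_lit 10) (nat_lit 10) (by decide +kernel)
theorem L74266 : W_2 (nat_lit 3) (nat_lit 0x40007000080010000a0000000000000000000000000000000) (nat_lit 0x0) (nat_lit 0x3001800004000000000000000000000000000000000000000) := T_2 (nat_lit 179) (nat_lit 158) (nat_lit 0) (nat_lit 9) (nat_lit 10) L74265 (by decide +kernel)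
theorem L74267 : W_2 (nat_lit 4) (nat_lit 0x40003000080010000a0000000000000000000000000000000) (nat_lit 0x0) (nat_lit 0x3001c00024000000000000000000000000000000000000000) := T_2 (nat_lit 178) (nat_lit 161) (nat_lit 5) (nat_lit 8) (nat_lit 7) L74266 (by decide +kernel)
theorem L74268 : W_2 (nat_lit 5) (nat_lit 0x4000300008001000080000000000000000000000000000000) (nat_lit 0x0) (nat_lit 0x3001c00024000400020000000000000000000000000000000) := T_2 (nat_lit 125) (nat_lit 142) (nat_lit 7) (nat_lit 6) (nat_lit 7) L74267 (by decide +kernel)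
theorem L74270 : W_2 (nat_lit 2) (nat_lit 0x20001000080004000300020001000080000000000000000000000000000000) (nat_lit 0x0) (nat_lit 0x800040002000000000000000000000000000000000000000000000000000000000) := D_2 (nat_lit 246) (nat_lit 229) (nat_lit 263) (nat_lit 7) (nat_lit 7) (nat_lit 10) (nat_lit 7) (nat_lit 7) (nat_lit 11) (by decide +kernel)
theorem L74271 : W_2 (nat_lit 3) (nat_lit 0x1000080004000300020001000080000000000000000000000000000000) (nat_lit 0x0) (nat_lit 0x800060002000000002000000000000000000000000000000000000000000000000) := T_2 (nat_lit 245) (nat_lit 193) (nat_lit 4) (nat_lit 7) (nat_lit 14) L74270 (by decide +kernel)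
theorem L74272 : W_2 (nat_lit 4) (nat_lit 0x80004000300020001000080000000000000000000000000000000) (nat_lit 0x0) (nat_lit 0x800060003000000002000000008000000000000000000000000000000000000000) := T_2 (nat_lit 228) (nat_lit 159) (nat_lit 4) (nat_lit 7) (nat_lit 13) L74271 (by decide +kernel)
theorem L74273 : W_2 (nat_lit 5) (nat_lit 0x4000300020001000080000000000000000000000000000000) (nat_lit 0x0) (nat_lit 0x800060003000080002000000018000000000000000000000000000000000000000) := T_2 (nat_lit 211) (nat_lit 160) (nat_lit 6) (nat_lit 7) (nat_lit 12) L74272 (by decide +kernel)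
theorem L74274 : W_2 (nat_lit 6) (nat_lit 0x4000300000001000080000000000000000000000000000000) (nat_lit 0x0) (nat_lit 0x800060003000080002000400038000000000000000000000000000000000000000) := T_2 (nat_lit 161) (nat_lit 178) (nat_lit 5) (nat_lit 8) (nat_lit 7) L74273 (by decide +kernel)
theorem L74275 : W_2 (nat_lit 2) (nat_lit 0x80004000300010001000080000000000000000000000000000000) (nat_lit 0x0) (nat_lit 0x1000000000000000008000400000000000000000000000000000000000) := D_2 (nat_lit 159) (nat_lit 142) (nat_lit 228) (nat_lit 4) (nat_lit 7) (nat_lit 12) (nat_lit 4) (nat_lit 7) (nat_lit 13) (by decide +kernel)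
theorem L74276 : W_2 (nat_lit 3) (nat_lit 0x4000300010001000080000000000000000000000000000000) (nat_lit 0x0) (nat_lit 0x1000080000000000028000400000000000000000000000000000000000) := T_2 (nat_lit 211) (nat_lit 161) (nat_lit 6) (nat_lit 7) (nat_lit 12) L74275 (by decide +kernel)
theorem L74277 : W_2 (nat_lit 4) (nat_lit 0x4000300000001000080000000000000000000000000000000) (nat_lit 0x0) (nat_lit 0x1000080000000000038000c00000000000000000000000000000000000) := T_2 (nat_lit 160) (nat_lit 143) (nat_lit 6) (nat_lit 7) (nat_lit 11) L74276 (by decide +kernel)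
theorem L74278 : W_2 (nat_lit 3) (nat_lit 0x80004000300000001000080000000000000000000000000000000) (nat_lit 0x0) (nat_lit 0x1000000000000000018000c00000000000000000000000000000000000) := T_2 (nat_lit 160) (nat_lit 143) (nat_lit 6) (nat_lit 7) (nat_lit 11) L74275 (by decide +kernel)
theorem L74279 : W_2 (nat_lit 2) (nat_lit 0x80004000300000001400080000000000000000000000000000000) (nat_lit 0x0) (nat_lit 0x2000000018000000000000000000000000000000000000000) := D_2 (nat_lit 159) (nat_lit 193) (nat_lit 160) (nat_lit 7) (nat_lit 6) (nat_lit 8) (nat_lit 4) (nat_lit 7) (nat_lit 12) (by decide +kernel)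
theorem L74287 : W_2 (nat_lit 2) (nat_lit 0x4000300010001000080000000000000000000000000000000) (nat_lit 0x0) (nat_lit 0x80000000400020000000000000000000000000000000000000000) := D_2 (nat_lit 161) (nat_lit 178) (nat_lit 211) (nat_lit 5) (nat_lit 8) (nat_lit 7) (nat_lit 6) (nat_lit 7) (nat_lit 12) (by decide +kernel)
theorem L74288 : W_2 (nat_lit 3) (nat_lit 0x4000300000001000080000000000000000000000000000000) (nat_lit 0x0) (nat_lit 0x80000000400030000800000000000000000000000000000000000) := T_2 (nat_lit 160) (nat_lit 143) (nat_lit 6) (nat_lit 7) (nat_lit 11) L74287 (by decide +kernel)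
theorem L74289 : W_2 (nat_lit 2) (nat_lit 0x7400300038001600080000000000000000000000000000000) (nat_lit 0x0) (nat_lit 0x800040000000000004000000000000000000000000000000000000000) := D_2 (nat_lit 210) (nat_lit 158) (nat_lit 227) (nat_lit 4) (nat_lit 6) (nat_lit 12) (nat_lit 6) (nat_lit 6) (nat_lit 13) (by decide +kernel)
theorem L74290 : W_2 (nat_lit 3) (nat_lit 0x7400300028001600080000000000000000000000000000000) (nat_lit 0x0) (nat_lit 0x800040000000000054000000000000000000000000000000000000000) := T_2 (nat_lit 160) (nat_lit 162) (nat_lit 0) (nat_lit 9) (nat_lit 9) L74289 (by decide +kernel)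
theorem L74291 : W_2 (nat_lit 4) (nat_lit 0x7400300028001400080000000000000000000000000000000) (nat_lit 0x0) (nat_lit 0x800040000000000054000200010000000000000000000000000000000) := T_2 (nat_lit 141) (nat_lit 124) (nat_lit 4) (nat_lit 6) (nat_lit 11) L74290 (by decide +kernel)
theorem L74292 : W_2 (nat_lit 5) (nat_lit 0x7000300028001400080000000000000000000000000000000) (nat_lit 0x0) (nat_lit 0x800040000c00000054000200010000000000000000000000000000000) := T_2 (nat_lit 190) (nat_lit 191) (nat_lit 2) (nat_lit 3) (nat_lit 11) L74291 (by decide +kernel)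
theorem L74293 : W_2 (nat_lit 6) (nat_lit 0x6000300028001400080000000000000000000000000000000) (nat_lit 0x0) (nat_lit 0x800060001c00000054000200010000000000000000000000000000000) := T_2 (nat_lit 192) (nat_lit 209) (nat_lit 5) (nat_lit 6) (nat_lit 8) L74292 (by decide +kernel)
theorem L74294 : W_2 (nat_lit 7) (nat_lit 0x6000300028001000080000000000000000000000000000000) (nat_lit 0x0) (nat_lit 0x800060001c00000054000600030000000000000000000000000000000) := T_2 (nat_lit 142) (nat_lit 125) (nat_lit 7) (nat_lit 6) (nat_lit 7) L74293 (by decide +kernel)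
theorem L74295 : W_2 (nat_lit 8) (nat_lit 0x6000300008001000080000000000000000000000000000000) (nat_lit 0x0) (nat_lit 0x800060001c00400074000600030000000000000000000000000000000) := T_2 (nat_lit 161) (nat_lit 178) (nat_lit 5) (nat_lit 8) (nat_lit 7) L74294 (by decide +kernel)
theorem L74296 : W_2 (nat_lit 2) (nat_lit 0x680060003400be001100080000000000000000000000000000000) (nat_lit 0x0) (nat_lit 0x1c00000000000000000000000000000000000000000000000) := D_2 (nat_lit 191) (nat_lit 190) (nat_lit 192) (nat_lit 5) (nat_lit 4) (nat_lit 8) (nat_lit 7) (nat_lit 4) (nat_lit 8) (by decide +kernel)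
theorem L74297 : W_2 (nat_lit 3) (nat_lit 0x680060003000be001100080000000000000000000000000000000) (nat_lit 0x0) (nat_lit 0x1c00060000000000000000000000000000000000000000000) := T_2 (nat_lit 174) (nat_lit 173) (nat_lit 1) (nat_lit 7) (nat_lit 9) L74296 (by decide +kernel)
theorem L74298 : W_2 (nat_lit 4) (nat_lit 0x680060003000be001000080000000000000000000000000000000) (nat_lit 0x0) (nat_lit 0x1c00060000000180000000000000000000000000000000000) := T_2 (nat_lit 140) (nat_lit 139) (nat_lit 0) (nat_lit 7) (nat_lit 9) L74297 (by decide +kernel)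
theorem L74299 : W_2 (nat_lit 5) (nat_lit 0x600060003000be001000080000000000000000000000000000000) (nat_lit 0x0) (nat_lit 0x18001c00060000000180000000000000000000000000000000000) := T_2 (nat_lit 207) (nat_lit 208) (nat_lit 2) (nat_lit 3) (nat_lit 12) L74298 (by decide +kernel)
theorem L74300 : W_2 (nat_lit 6) (nat_lit 0x400060003000be001000080000000000000000000000000000000) (nat_lit 0x0) (nat_lit 0x400038001c00060000000180000000000000000000000000000000000) := T_2 (nat_lit 209) (nat_lit 226) (nat_lit 5) (nat_lit 6) (nat_lit 9) L74299 (by decide +kernel)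
theorem L74301 : W_2 (nat_lit 7) (nat_lit 0x400060003000bc001000080000000000000000000000000000000) (nat_lit 0x0) (nat_lit 0x400038001c00060003000180000000000000000000000000000000000) := T_2 (nat_lit 157) (nat_lit 156) (nat_lit 3) (nat_lit 3) (nat_lit 9) L74300 (by decide +kernel)
theorem L74302 : W_2 (nat_lit 8) (nat_lit 0x400060003000b8001000080000000000000000000000000000000) (nat_lit 0x0) (nat_lit 0x400038001c00060007000380000000000000000000000000000000000) := T_2 (nat_lit 158) (nat_lit 141) (nat_lit 4) (nat_lit 6) (nat_lit 12) L74301 (by decide +kernel)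
theorem L74303 : W_2 (nat_lit 9) (nat_lit 0x40006000300038001000080000000000000000000000000000000) (nat_lit 0x0) (nat_lit 0x400038001c000600c7000380000000000000000000000000000000000) := T_2 (nat_lit 163) (nat_lit 162) (nat_lit 1) (nat_lit 10) (nat_lit 9) L74302 (by decide +kernel)
theorem L74304 : W_2 (nat_lit 10) (nat_lit 0x40006000300018001000080000000000000000000000000000000) (nat_lit 0x0) (nat_lit 0x400038001c004600e7000380000000000000000000000000000000000) := T_2 (nat_lit 161) (nat_lit 178) (nat_lit 5) (nat_lit 8) (nat_lit 7) L74303 (by decide +kernel)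
theorem L74305 : W_2 (nat_lit 11) (nat_lit 0x6000300018001000080000000000000000000000000000000) (nat_lit 0x0) (nat_lit 0xc00078001c004600e7000380000000000000000000000000000000000) := T_2 (nat_lit 210) (nat_lit 227) (nat_lit 6) (nat_lit 6) (nat_lit 13) L74304 (by decide +kernel)
theorem L74306 : W_2 (nat_lit 12) (nat_lit 0x6000300008001000080000000000000000000000000000000) (nat_lit 0x0) (nat_lit 0xc00078001c004600f7000b80000000000000000000000000000000000) := T_2 (nat_lit 160) (nat_lit 143) (nat_lit 6) (nat_lit 7) (nat_lit 11) L74305 (by decide +kernel)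
theorem L74307 : W_2 (nat_lit 2) (nat_lit 0x6800600034001e0011000a0000000000000000000000000000000) (nat_lit 0x0) (nat_lit 0x1c00000000000000000000000000000000000000000000000) := D_2 (nat_lit 191) (nat_lit 190) (nat_lit 192) (nat_lit 5) (nat_lit 4) (nat_lit 8) (nat_lit 7) (nat_lit 4) (nat_lit 8) (by decide +kernel)
theorem L74308 : W_2 (nat_lit 3) (nat_lit 0x6800600034001e0010000a0000000000000000000000000000000) (nat_lit 0x0) (nat_lit 0x1c00000000000180000000000000000000000000000000000) := T_2 (nat_lit 140) (nat_lit 139) (nat_lit 0) (nat_lit 7) (nat_lit 9) L74307 (by decide +kernel)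
theorem L74309 : W_2 (nat_lit 4) (nat_lit 0x6800600030001e0010000a0000000000000000000000000000000) (nat_lit 0x0) (nat_lit 0x1c00060000000180000000000000000000000000000000000) := T_2 (nat_lit 174) (nat_lit 173) (nat_lit 1) (nat_lit 7) (nat_lit 9) L74308 (by decide +kernel)
theorem L74310 : W_2 (nat_lit 5) (nat_lit 0x6800600030001c0010000a0000000000000000000000000000000) (nat_lit 0x0) (nat_lit 0x1c00060003000180000000000000000000000000000000000) := T_2 (nat_lit 157) (nat_lit 156) (nat_lit 3) (nat_lit 3) (nat_lit 9) L74309 (by decide +kernel)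
theorem L74311 : W_2 (nat_lit 6) (nat_lit 0x680060003000180010000a0000000000000000000000000000000) (nat_lit 0x0) (nat_lit 0x1c00060007000380000000000000000000000000000000000) := T_2 (nat_lit 158) (nat_lit 141) (nat_lit 4) (nat_lit 6) (nat_lit 12) L74310 (by decide +kernel)
theorem L74312 : W_2 (nat_lit 7) (nat_lit 0x600060003000180010000a0000000000000000000000000000000) (nat_lit 0x0) (nat_lit 0x18001c00060007000380000000000000000000000000000000000) := T_2 (nat_lit 207) (nat_lit 208) (nat_lit 2) (nat_lit 3) (nat_lit 12) L74311 (by decide +kernel)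
theorem L74313 : W_2 (nat_lit 8) (nat_lit 0x400060003000180010000a0000000000000000000000000000000) (nat_lit 0x0) (nat_lit 0x400038001c00060007000380000000000000000000000000000000000) := T_2 (nat_lit 209) (nat_lit 226) (nat_lit 5) (nat_lit 6) (nat_lit 9) L74312 (by decide +kernel)
theorem L74314 : W_2 (nat_lit 9) (nat_lit 0x60003000180010000a0000000000000000000000000000000) (nat_lit 0x0) (nat_lit 0xc00078001c00060007000380000000000000000000000000000000000) := T_2 (nat_lit 210) (nat_lit 227) (nat_lit 6) (nat_lit 6) (nat_lit 13) L74313 (by decide +kernel)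
theorem L74315 : W_2 (nat_lit 10) (nat_lit 0x60003000080010000a0000000000000000000000000000000) (nat_lit 0x0) (nat_lit 0xc00078001c00060017000b80000000000000000000000000000000000) := T_2 (nat_lit 160) (nat_lit 143) (nat_lit 6) (nat_lit 7) (nat_lit 11) L74314 (by decide +kernel)
theorem L74316 : W_2 (nat_lit 11) (nat_lit 0x6000300008001000080000000000000000000000000000000) (nat_lit 0x0) (nat_lit 0xc00078001c00060017000f80020000000000000000000000000000000) := T_2 (nat_lit 125) (nat_lit 142) (nat_lit 7) (nat_lit 6) (nat_lit 7) L74315 (by decide +kernel)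
theorem L74317 : W_2 (nat_lit 4) (nat_lit 0x6000300028001000080000000000000000000000000000000) (nat_lit 0x0) (nat_lit 0x40000e00070000000000000000000000000000000) := T_2 (nat_lit 142) (nat_lit 125) (nat_lit 7) (nat_lit 6) (nat_lit 7) L74261 (by decide +kernel)
theorem L74318 : W_2 (nat_lit 5) (nat_lit 0x6000300008001000080000000000000000000000000000000) (nat_lit 0x0) (nat_lit 0x400060000e00070000000000000000000000000000000) := T_2 (nat_lit 161) (nat_lit 178) (nat_lit 5) (nat_lit 8) (nat_lit 7) L74317 (by decide +kernel)
theorem L74322 : W_2 (nat_lit 2) (nat_lit 0x6800600034001e001100080000000000000000000000000000000) (nat_lit 0x0) (nat_lit 0x1c00000000000000000000000000000000000000000000000) := D_2 (nat_lit 191) (nat_lit 190) (nat_lit 192) (nat_lit 5) (nat_lit 4) (nat_lit 8) (nat_lit 7) (nat_lit 4) (nat_lit 8) (by decide +kernel)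
theorem L74323 : W_2 (nat_lit 3) (nat_lit 0x6800600034001e001000080000000000000000000000000000000) (nat_lit 0x0) (nat_lit 0x1c00000000000180000000000000000000000000000000000) := T_2 (nat_lit 140) (nat_lit 139) (nat_lit 0) (nat_lit 7) (nat_lit 9) L74322 (by decide +kernel)
theorem L74324 : W_2 (nat_lit 4) (nat_lit 0x6800600030001e001000080000000000000000000000000000000) (nat_lit 0x0) (nat_lit 0x1c00060000000180000000000000000000000000000000000) := T_2 (nat_lit 174) (nat_lit 173) (nat_lit 1) (nat_lit 7) (nat_lit 9) L74323 (by decide +kernel)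
theorem L74325 : W_2 (nat_lit 5) (nat_lit 0x6800600030001c001000080000000000000000000000000000000) (nat_lit 0x0) (nat_lit 0x1c00060003000180000000000000000000000000000000000) := T_2 (nat_lit 157) (nat_lit 156) (nat_lit 3) (nat_lit 3) (nat_lit 9) L74324 (by decide +kernel)
theorem L74326 : W_2 (nat_lit 6) (nat_lit 0x68006000300018001000080000000000000000000000000000000) (nat_lit 0x0) (nat_lit 0x1c00060007000380000000000000000000000000000000000) := T_2 (nat_lit 158) (nat_lit 141) (nat_lit 4) (nat_lit 6) (nat_lit 12) L74325 (by decide +kernel)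
theorem L74327 : W_2 (nat_lit 7) (nat_lit 0x60006000300018001000080000000000000000000000000000000) (nat_lit 0x0) (nat_lit 0x18001c00060007000380000000000000000000000000000000000) := T_2 (nat_lit 207) (nat_lit 208) (nat_lit 2) (nat_lit 3) (nat_lit 12) L74326 (by decide +kernel)
theorem L74328 : W_2 (nat_lit 8) (nat_lit 0x40006000300018001000080000000000000000000000000000000) (nat_lit 0x0) (nat_lit 0x400038001c00060007000380000000000000000000000000000000000) := T_2 (nat_lit 209) (nat_lit 226) (nat_lit 5) (nat_lit 6) (nat_lit 9) L74327 (by decide +kernel)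
theorem L74329 : W_2 (nat_lit 9) (nat_lit 0x6000300018001000080000000000000000000000000000000) (nat_lit 0x0) (nat_lit 0xc00078001c00060007000380000000000000000000000000000000000) := T_2 (nat_lit 210) (nat_lit 227) (nat_lit 6) (nat_lit 6) (nat_lit 13) L74328 (by decide +kernel)
theorem L74330 : W_2 (nat_lit 10) (nat_lit 0x6000300008001000080000000000000000000000000000000) (nat_lit 0x0) (nat_lit 0xc00078001c00060017000b80000000000000000000000000000000000) := T_2 (nat_lit 160) (nat_lit 143) (nat_lit 6) (nat_lit 7) (nat_lit 11) L74329 (by decide +kernel)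
theorem L74332 : W_2 (nat_lit 5) (nat_lit 0x6000300000001800080000000000000000000000000000000) (nat_lit 0x0) (nat_lit 0x1c0002c000400060000000000000000000000000000000) := T_2 (nat_lit 178) (nat_lit 161) (nat_lit 5) (nat_lit 8) (nat_lit 7) L16891 (by decide +kernel)
theorem L74333 : W_2 (nat_lit 6) (nat_lit 0x6000300000001000080000000000000000000000000000000) (nat_lit 0x0) (nat_lit 0x1c0003c000c00060000000000000000000000000000000) := T_2 (nat_lit 143) (nat_lit 160) (nat_lit 6) (nat_lit 7) (nat_lit 11) L74332 (by decide +kernel)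
theorem L74371 : W_2 (nat_lit 2) (nat_lit 0x2000f00000001800080000000000000000000000000000000) (nat_lit 0x0) (nat_lit 0x4000000010000000040000000000000000000000000000000) := D_2 (nat_lit 160) (nat_lit 194) (nat_lit 126) (nat_lit 6) (nat_lit 7) (nat_lit 11) (nat_lit 5) (nat_lit 7) (nat_lit 7) (by decide +kernel)
theorem L74372 : W_2 (nat_lit 3) (nat_lit 0xf00000001800080000000000000000000000000000000) (nat_lit 0x0) (nat_lit 0x7000000010000000040000000000000000000000000000000) := T_2 (nat_lit 193) (nat_lit 192) (nat_lit 1) (nat_lit 9) (nat_lit 10) L74371 (by decide +kernel)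
theorem L74401 : W_2 (nat_lit 7) (nat_lit 0x700000001000080000000000000000000000000000000) (nat_lit 0x0) (nat_lit 0x5c000c007000000014000a000000000000000000000000000) := T_2 (nat_lit 161) (nat_lit 194) (nat_lit 5) (nat_lit 8) (nat_lit 7) L5673 (by decide +kernel)
theorem L75050 : W_2 (nat_lit 11) (nat_lit 0x20001e00010001000080000000000000000000000000000000) (nat_lit 0x0) (nat_lit 0x1c000100000000f00778039c00000000000000000000000000) := T_2 (nat_lit 176) (nat_lit 196) (nat_lit 3) (nat_lit 6) (nat_lit 10) L8447 (by decide +kernel)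
theorem L75051 : W_2 (nat_lit 12) (nat_lit 0x1e00010001000080000000000000000000000000000000) (nat_lit 0x0) (nat_lit 0x7c000100000000f00778039c00000000000000000000000000) := T_2 (nat_lit 197) (nat_lit 198) (nat_lit 3) (nat_lit 7) (nat_lit 10) L75050 (by decide +kernel)
theorem L75052 : W_2 (nat_lit 13) (nat_lit 0x1e00000001000080000000000000000000000000000000) (nat_lit 0x0) (nat_lit 0x7c000100018000f00778039c00000000000000000000000000) := T_2 (nat_lit 160) (nat_lit 159) (nat_lit 0) (nat_lit 10) (nat_lit 10) L75051 (by decide +kernel)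
theorem L75074 : W_2 (nat_lit 2) (nat_lit 0x600060001c00180000000000000000000000000000000) (nat_lit 0x0) (nat_lit 0x640000000000000000000000000000000) := D_2 (nat_lit 129) (nat_lit 130) (nat_lit 126) (nat_lit 1) (nat_lit 11) (nat_lit 7) (nat_lit 1) (nat_lit 10) (nat_lit 7) (by decide +kernel)
theorem L75077 : W_2 (nat_lit 2) (nat_lit 0xe000e00018003c0000000000000000000000000000000) (nat_lit 0x0) (nat_lit 0x4000000030000000000000000000000000000) := D_2 (nat_lit 112) (nat_lit 113) (nat_lit 146) (nat_lit 2) (nat_lit 7) (nat_lit 7) (nat_lit 5) (nat_lit 10) (nat_lit 6) (by decide +kernel)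
theorem L75078 : W_2 (nat_lit 3) (nat_lit 0xe000e00018001c0000000000000000000000000000000) (nat_lit 0x0) (nat_lit 0x4000600030000000000000000000000000000) := T_2 (nat_lit 129) (nat_lit 130) (nat_lit 1) (nat_lit 11) (nat_lit 7) L75077 (by decide +kernel)
theorem L75079 : W_2 (nat_lit 4) (nat_lit 0xe000e00018000c0000000000000000000000000000000) (nat_lit 0x0) (nat_lit 0x4000700038000000000000000000000000000) := T_2 (nat_lit 128) (nat_lit 111) (nat_lit 6) (nat_lit 8) (nat_lit 10) L75078 (by decide +kernel)
end Crest.Agent.Helper32.Snaky.R1_0
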