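import Crest.Agent.Helper32.Snaky.Gen.R1_0_p15
set_option autoImplicit false
set_option maxRecDepth 100000
set_option linter.all false
set_option Elab.async false
namespace Crest.Agent.Helper32.Snaky.R1_0
@[reducible] def W_20 (d M Bz Z : Nat) : Prop := Crest.Agent.Helper32.Snaky.Wins (nat_lit 17) d M Bz Z
theorem D_20 {d M Bz Z : Nat} (m t1 t2 o1 x1 y1 o2 x2 y2 : Nat) (h : Crest.Agent.Helper32.Snaky.chkDoubleC (nat_lit 17) d M Bz Z m t1 t2 o1 x1 y1 o2 x2 y2 = true) : W_20 d M Bz Z := Crest.Agent.Helper32.Snaky.doubleC m t1 t2 o1 x1 y1 o2 x2 y2 h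
theorem T_20 {d M Bz Z cd cM cBz cZ : Nat} (m t o x y : Nat) (child : W_20 cd cM cBz cZ) (h : Crest.Agent.Helper32.Snaky.chkThreatC (nat_lit 17) d M Bz Z cd cM cBz cZ m t o x y = true) : W_20 d M Bz Z := Crest.Agent.Helper32.Snaky.threatC m t o x y child h
theorem Q_20 {d M Bz Z : Nat} (m : Nat) {l : List Crest.Agent.Helper32.Snaky.Spec} (kids : Crest.Agent.Helper32.Snaky.AllWins (nat_lit 17) l) (h : Crest.Agent.Helper32.Snaky.chkQuiet d M Bz Z m l = true) : W_20 d M Bz Z := Crest.Agent.Helper32.Snaky.quiet m kids h
theorem C_20 {cd cM cBz cZ : Nat} {l : List Crest.Agent.Helper32.Snaky.Spec} (h : W_20 cd cM cBz cZ) (hl : Crest.Agent.Helper32.Snaky.AllWins (nat_lit 17) l) : Crest.Agent.Helper32.Snaky.AllWins (nat_lit 17) ((cd, cM, cBz, cZ) :: l) := Crest.Agent.Helper32.Snaky.AllWins.cons h hl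
theorem N_20 : Crest.Agent.Helper32.Snaky.AllWins (nat_lit 17) [] := Crest.Agent.Helper32.Snaky.AllWins.nil
theorem L18104 : W_20 (nat_lit 2) (nat_lit 0x1000180007000200020001000080000000000000000000000000000000) (nat_lit 0x0) (nat_lit 0x240008000000000000000000000000000000000000000000000000) := D_20 (nat_lit 213) (nat_lit 210) (nat_lit 195) (nat_lit 0) (nat_lit 9) (nat_lit 12) (nat_lit 3) (nat_lit 5) (nat_lit 11) (by decide +kernel)
theorem L18105 : W_20 (nat_lit 3) (nat_lit 0x1000180006000200020001000080000000000000000000000000000000) (nat_lit 0x0) (nat_lit 0x240009800000000000000000000000000000000000000000000000) := T_20 (nat_lit 192) (nat_lit 191) (nat_lit 3) (nat_lit 4) (nat_lit 11) L18104 (by decide +kernel)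
theorem L18106 : W_20 (nat_lit 4) (nat_lit 0x1000180006000200000001000080000000000000000000000000000000) (nat_lit 0x0) (nat_lit 0x240009800400020000000000000000000000000000000000000000) := T_20 (nat_lit 161) (nat_lit 178) (nat_lit 6) (nat_lit 7) (nat_lit 13) L18105 (by decide +kernel)
theorem L18107 : W_20 (nat_lit 5) (nat_lit 0x1000580006800e00000001000080000000000000000000000000000000) (nat_lit 0x0) (nat_lit 0xc001e000800008000000040000000000000000000000000000000000000000) := T_20 (nat_lit 229) (nat_lit 246) (nat_lit 7) (nat_lit 7) (nat_lit 10) L6273 (by decide +kernel)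
theorem L18108 : W_20 (nat_lit 6) (nat_lit 0x1000580006800600000001000080000000000000000000000000000000) (nat_lit 0x0) (nat_lit 0xc001e000800008001800040000000000000000000000000000000000000000) := T_20 (nat_lit 179) (nat_lit 180) (nat_lit 1) (nat_lit 10) (nat_lit 10) L18107 (by decide +kernel)
theorem L18109 : W_20 (nat_lit 7) (nat_lit 0x1000580006800200000001000080000000000000000000000000000000) (nat_lit 0x0) (nat_lit 0xc001e000800008001c00060000000000000000000000000000000000000000) := T_20 (nat_lit 178) (nat_lit 161) (nat_lit 6) (nat_lit 7) (nat_lit 13) L18108 (by decide +kernel)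
theorem L18110 : W_20 (nat_lit 8) (nat_lit 0x1000580006000200000001000080000000000000000000000000000000) (nat_lit 0x0) (nat_lit 0xc001e000800009801c00060000000000000000000000000000000000000000) := T_20 (nat_lit 191) (nat_lit 192) (nat_lit 3) (nat_lit 4) (nat_lit 11) L18109 (by decide +kernel)
theorem L18111 : W_20 (nat_lit 9) (nat_lit 0x1000180006000200000001000080000000000000000000000000000000) (nat_lit 0x0) (nat_lit 0xc001e000e00009801c00060000000000000000000000000000000000000000) := T_20 (nat_lit 214) (nat_lit 213) (nat_lit 0) (nat_lit 10) (nat_lit 12) L18110 (by decide +kernel)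
theorem L18112 : W_20 (nat_lit 5) (nat_lit 0x3000180006800600000001000080000000000000000000000000000000) (nat_lit 0x0) (nat_lit 0x8000c000060008001800040000000000000000000000000000000000000000) := T_20 (nat_lit 179) (nat_lit 180) (nat_lit 1) (nat_lit 10) (nat_lit 10) L6266 (by decide +kernel)
theorem L18113 : W_20 (nat_lit 6) (nat_lit 0x3000180006800200000001000080000000000000000000000000000000) (nat_lit 0x0) (nat_lit 0x8000c000060008001c00060000000000000000000000000000000000000000) := T_20 (nat_lit 178) (nat_lit 161) (nat_lit 6) (nat_lit 7) (nat_lit 13) L18112 (by decide +kernel)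
theorem L18114 : W_20 (nat_lit 7) (nat_lit 0x3000180006000200000001000080000000000000000000000000000000) (nat_lit 0x0) (nat_lit 0x8000c000060009801c00060000000000000000000000000000000000000000) := T_20 (nat_lit 191) (nat_lit 192) (nat_lit 3) (nat_lit 4) (nat_lit 11) L18113 (by decide +kernel)
theorem L18115 : W_20 (nat_lit 8) (nat_lit 0x1000180006000200000001000080000000000000000000000000000000) (nat_lit 0x0) (nat_lit 0xc000e000060009801c00060000000000000000000000000000000000000000) := T_20 (nat_lit 229) (nat_lit 246) (nat_lit 7) (nat_lit 7) (nat_lit 10) L18114 (by decide +kernel)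
theorem L18116 : W_20 (nat_lit 10) (nat_lit 0x1000180004000200000001000080000000000000000000000000000000) (nat_lit 0x0) (nat_lit 0xc001e000e6000b801c00060000000000000000000000000000000000000000) := Q_20 (nat_lit 193) (C_20 L18106 (C_20 L6256 (C_20 L6263 (C_20 L18111 (C_20 L18115 N_20))))) (by decide +kernel)
theorem L18117 : W_20 (nat_lit 2) (nat_lit 0x1c00180004000200020001000080000000000000000000000000000000) (nat_lit 0x0) (nat_lit 0x640000000000000000000000000000000000000000000000000000) := D_20 (nat_lit 213) (nat_lit 214) (nat_lit 210) (nat_lit 1) (nat_lit 10) (nat_lit 12) (nat_lit 1) (nat_lit 9) (nat_lit 12) (by decide +kernel)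
theorem L18118 : W_20 (nat_lit 3) (nat_lit 0x1800180004000200020001000080000000000000000000000000000000) (nat_lit 0x0) (nat_lit 0x600640000000000000000000000000000000000000000000000000000) := T_20 (nat_lit 226) (nat_lit 225) (nat_lit 2) (nat_lit 4) (nat_lit 13) L18117 (by decide +kernel)
theorem L18119 : W_20 (nat_lit 4) (nat_lit 0x1000180004000200020001000080000000000000000000000000000000) (nat_lit 0x0) (nat_lit 0x10000e00640000000000000000000000000000000000000000000000000000) := T_20 (nat_lit 227) (nat_lit 244) (nat_lit 5) (nat_lit 7) (nat_lit 10) L18118 (by decide +kernel)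
theorem L18120 : W_20 (nat_lit 5) (nat_lit 0x1000180004000200000001000080000000000000000000000000000000) (nat_lit 0x0) (nat_lit 0x10000e00640000000400020000000000000000000000000000000000000000) := T_20 (nat_lit 161) (nat_lit 178) (nat_lit 6) (nat_lit 7) (nat_lit 13) L18119 (by decide +kernel)
theorem L18121 : W_20 (nat_lit 11) (nat_lit 0x1000080004000200000001000080000000000000000000000000000000) (nat_lit 0x0) (nat_lit 0x1dc01ee00f7000b801c00060000000000000000000000000000000000000000) := Q_20 (nat_lit 212) (C_20 L18116 (C_20 L18120 (C_20 L6237 (C_20 L6234 (C_20 L17402 N_20))))) (by decide +kernel)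
theorem L18122 : W_20 (nat_lit 2) (nat_lit 0x50001000080004000200020001000080000000000000000000000000000000) (nat_lit 0x0) (nat_lit 0xa00020000000000000000000000000000000000000000000000000000000000000) := D_20 (nat_lit 245) (nat_lit 261) (nat_lit 263) (nat_lit 5) (nat_lit 7) (nat_lit 11) (nat_lit 7) (nat_lit 7) (nat_lit 11) (by decide +kernel)
theorem L18123 : W_20 (nat_lit 3) (nat_lit 0x10001000080004000200020001000080000000000000000000000000000000) (nat_lit 0x0) (nat_lit 0xa00060002000000000000000000000000000000000000000000000000000000000) := T_20 (nat_lit 246) (nat_lit 229) (nat_lit 7) (nat_lit 7) (nat_lit 10) L18122 (by decide +kernel)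
theorem L18124 : W_20 (nat_lit 4) (nat_lit 0x1000080004000200020001000080000000000000000000000000000000) (nat_lit 0x0) (nat_lit 0xa00070002800000000000000000000000000000000000000000000000000000000) := T_20 (nat_lit 244) (nat_lit 227) (nat_lit 5) (nat_lit 7) (nat_lit 10) L18123 (by decide +kernel)
theorem L18125 : W_20 (nat_lit 5) (nat_lit 0x1000080004000200000001000080000000000000000000000000000000) (nat_lit 0x0) (nat_lit 0xa00070002800000000000400020000000000000000000000000000000000000000) := T_20 (nat_lit 161) (nat_lit 178) (nat_lit 6) (nat_lit 7) (nat_lit 13) L18124 (by decide +kernel)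
theorem L18126 : W_20 (nat_lit 2) (nat_lit 0xc00020001800080004000600000001000080000000000000000000000000000000) (nat_lit 0x0) (nat_lit 0x8000000000000000040002000000000000000000000000000000000000000000000000) := D_20 (nat_lit 210) (nat_lit 193) (nat_lit 279) (nat_lit 4) (nat_lit 7) (nat_lit 15) (nat_lit 4) (nat_lit 7) (nat_lit 16) (by decide +kernel)
theorem L18127 : W_20 (nat_lit 3) (nat_lit 0x800020001800080004000600000001000080000000000000000000000000000000) (nat_lit 0x0) (nat_lit 0x18000400000000000040002000000000000000000000000000000000000000000000000) := T_20 (nat_lit 262) (nat_lit 280) (nat_lit 7) (nat_lit 7) (nat_lit 12) L18126 (by decide +kernel)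
theorem L18128 : W_20 (nat_lit 4) (nat_lit 0x20001800080004000600000001000080000000000000000000000000000000) (nat_lit 0x0) (nat_lit 0x18000c00040000000040002000000000000000000000000000000000000000000000000) := T_20 (nat_lit 263) (nat_lit 246) (nat_lit 7) (nat_lit 7) (nat_lit 11) L18127 (by decide +kernel)
theorem L18129 : W_20 (nat_lit 5) (nat_lit 0x1800080004000600000001000080000000000000000000000000000000) (nat_lit 0x0) (nat_lit 0x18000c0006000000004000a000000000000000000000000000000000000000000000000) := T_20 (nat_lit 245) (nat_lit 195) (nat_lit 6) (nat_lit 7) (nat_lit 14) L18128 (by decide +kernel)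
theorem L18130 : W_20 (nat_lit 6) (nat_lit 0x1800080004000200000001000080000000000000000000000000000000) (nat_lit 0x0) (nat_lit 0x18000c0006000000004000a000400020000000000000000000000000000000000000000) := T_20 (nat_lit 178) (nat_lit 161) (nat_lit 6) (nat_lit 7) (nat_lit 13) L18129 (by decide +kernel)
theorem L18131 : W_20 (nat_lit 7) (nat_lit 0x1000080004000200000001000080000000000000000000000000000000) (nat_lit 0x0) (nat_lit 0x18000c0007000080004000a000400020000000000000000000000000000000000000000) := T_20 (nat_lit 227) (nat_lit 244) (nat_lit 5) (nat_lit 7) (nat_lit 10) L18130 (by decide +kernel)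
theorem L18132 : W_20 (nat_lit 2) (nat_lit 0x400060001a0008000c000200000001000080000000000000000000000000000000) (nat_lit 0x0) (nat_lit 0x8000000000000000040002000000000000000000000000000000000000000000000000) := D_20 (nat_lit 210) (nat_lit 193) (nat_lit 279) (nat_lit 4) (nat_lit 7) (nat_lit 15) (nat_lit 4) (nat_lit 7) (nat_lit 16) (by decide +kernel)
theorem L18133 : W_20 (nat_lit 3) (nat_lit 0x60001a0008000c000200000001000080000000000000000000000000000000) (nat_lit 0x0) (nat_lit 0x8000400000000000140002000000000000000000000000000000000000000000000000) := T_20 (nat_lit 262) (nat_lit 212) (nat_lit 6) (nat_lit 7) (nat_lit 15) L18132 (by decide +kernel)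
theorem L18134 : W_20 (nat_lit 4) (nat_lit 0x6000180008000c000200000001000080000000000000000000000000000000) (nat_lit 0x0) (nat_lit 0x8000400000000600140002000000000000000000000000000000000000000000000000) := T_20 (nat_lit 225) (nat_lit 226) (nat_lit 3) (nat_lit 4) (nat_lit 13) L18133 (by decide +kernel)
theorem L18135 : W_20 (nat_lit 5) (nat_lit 0x60001800080004000200000001000080000000000000000000000000000000) (nat_lit 0x0) (nat_lit 0x800040000000060014000a000400000000000000000000000000000000000000000000) := T_20 (nat_lit 195) (nat_lit 178) (nat_lit 6) (nat_lit 7) (nat_lit 14) L18134 (by decide +kernel)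
theorem L18136 : W_20 (nat_lit 6) (nat_lit 0x40001800080004000200000001000080000000000000000000000000000000) (nat_lit 0x0) (nat_lit 0x8000c0002000060014000a000400000000000000000000000000000000000000000000) := T_20 (nat_lit 245) (nat_lit 263) (nat_lit 7) (nat_lit 7) (nat_lit 11) L18135 (by decide +kernel)
theorem L18137 : W_20 (nat_lit 7) (nat_lit 0x1800080004000200000001000080000000000000000000000000000000) (nat_lit 0x0) (nat_lit 0x8000c0006000260014000a000400000000000000000000000000000000000000000000) := T_20 (nat_lit 246) (nat_lit 229) (nat_lit 7) (nat_lit 7) (nat_lit 10) L18136 (by decide +kernel)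
theorem L18138 : W_20 (nat_lit 8) (nat_lit 0x1000080004000200000001000080000000000000000000000000000000) (nat_lit 0x0) (nat_lit 0x8000c00070002e0014000a000400000000000000000000000000000000000000000000) := T_20 (nat_lit 227) (nat_lit 244) (nat_lit 5) (nat_lit 7) (nat_lit 10) L18137 (by decide +kernel)
theorem L18139 : W_20 (nat_lit 8) (nat_lit 0x3000080004000200000001000080000000000000000000000000000000) (nat_lit 0x0) (nat_lit 0xc00060003000400017000a000400020000000000000000000000000000000000000000) := T_20 (nat_lit 178) (nat_lit 161) (nat_lit 6) (nat_lit 7) (nat_lit 13) L17427 (by decide +kernel)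
theorem L18140 : W_20 (nat_lit 9) (nat_lit 0x1000080004000200000001000080000000000000000000000000000000) (nat_lit 0x0) (nat_lit 0xc00060007000600017000a000400020000000000000000000000000000000000000000) := T_20 (nat_lit 229) (nat_lit 246) (nat_lit 7) (nat_lit 7) (nat_lit 10) L18139 (by decide +kernel)
theorem L18141 : W_20 (nat_lit 2) (nat_lit 0x40001000080004000600000001000080000000000000000000000000000000) (nat_lit 0x0) (nat_lit 0x800020000000000008000000000000000000000000000000000000000000000000) := D_20 (nat_lit 245) (nat_lit 263) (nat_lit 195) (nat_lit 7) (nat_lit 7) (nat_lit 11) (nat_lit 6) (nat_lit 7) (nat_lit 14) (by decide +kernel)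
theorem L18142 : W_20 (nat_lit 3) (nat_lit 0x40001000080004000200000001000080000000000000000000000000000000) (nat_lit 0x0) (nat_lit 0x800020000000000008000400020000000000000000000000000000000000000000) := T_20 (nat_lit 178) (nat_lit 161) (nat_lit 6) (nat_lit 7) (nat_lit 13) L18141 (by decide +kernel)
theorem L18143 : W_20 (nat_lit 4) (nat_lit 0x1000080004000200000001000080000000000000000000000000000000) (nat_lit 0x0) (nat_lit 0x800060002000000008000400020000000000000000000000000000000000000000) := T_20 (nat_lit 246) (nat_lit 229) (nat_lit 7) (nat_lit 7) (nat_lit 10) L18142 (by decide +kernel)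
theorem L18144 : W_20 (nat_lit 12) (nat_lit 0x80004000200000001000080000000000000000000000000000000) (nat_lit 0x0) (nat_lit 0x1c000e001fc01fe00f7000b801c00060000000000000000000000000000000000000000) := Q_20 (nat_lit 228) (C_20 L18121 (C_20 L18125 (C_20 L18131 (C_20 L18138 (C_20 L17389 (C_20 L18140 (C_20 L6229 (C_20 L18143 N_20)))))))) (by decide +kernel)
theorem L18149 : W_20 (nat_lit 2) (nat_lit 0xe000200010000c000c000200000001000080000000000000000000000000000000) (nat_lit 0x0) (nat_lit 0x8000000000000800000000000000010000000000000000000000000000000000000000) := D_20 (nat_lit 227) (nat_lit 279) (nat_lit 160) (nat_lit 4) (nat_lit 7) (nat_lit 16) (nat_lit 5) (nat_lit 7) (nat_lit 9) (by decide +kernel)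
theorem L18150 : W_20 (nat_lit 3) (nat_lit 0xe0002000100008000c000200000001000080000000000000000000000000000000) (nat_lit 0x0) (nat_lit 0x8000000000000800040002000000010000000000000000000000000000000000000000) := T_20 (nat_lit 210) (nat_lit 193) (nat_lit 4) (nat_lit 7) (nat_lit 15) L18149 (by decide +kernel)
theorem L18151 : W_20 (nat_lit 4) (nat_lit 0x60002000100008000c000200000001000080000000000000000000000000000000) (nat_lit 0x0) (nat_lit 0x18000800000000800040002000000010000000000000000000000000000000000000000) := T_20 (nat_lit 263) (nat_lit 280) (nat_lit 7) (nat_lit 7) (nat_lit 12) L18150 (by decide +kernel)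
theorem L18152 : W_20 (nat_lit 5) (nat_lit 0x40002000100008000c000200000001000080000000000000000000000000000000) (nat_lit 0x0) (nat_lit 0x1c000a00000000800040002000000010000000000000000000000000000000000000000) := T_20 (nat_lit 261) (nat_lit 278) (nat_lit 5) (nat_lit 7) (nat_lit 12) L18151 (by decide +kernel)
theorem L18153 : W_20 (nat_lit 6) (nat_lit 0x2000100008000c000200000001000080000000000000000000000000000000) (nat_lit 0x0) (nat_lit 0x1c000e00000000800140002000000010000000000000000000000000000000000000000) := T_20 (nat_lit 262) (nat_lit 212) (nat_lit 6) (nat_lit 7) (nat_lit 15) L18152 (by decide +kernel)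
theorem L18154 : W_20 (nat_lit 7) (nat_lit 0x20001000080004000200000001000080000000000000000000000000000000) (nat_lit 0x0) (nat_lit 0x1c000e0000000080014000a000400010000000000000000000000000000000000000000) := T_20 (nat_lit 195) (nat_lit 178) (nat_lit 6) (nat_lit 7) (nat_lit 14) L18153 (by decide +kernel)
theorem L18155 : W_20 (nat_lit 2) (nat_lit 0x2000180008000c000200010001000080000000000000000000000000000000) (nat_lit 0x0) (nat_lit 0x400000002000100000000000000000000000000000000000000000000000000000) := D_20 (nat_lit 212) (nat_lit 262) (nat_lit 229) (nat_lit 6) (nat_lit 7) (nat_lit 15) (nat_lit 7) (nat_lit 7) (nat_lit 9) (by decide +kernel)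
theorem L18156 : W_20 (nat_lit 3) (nat_lit 0x2000180008000c000200000001000080000000000000000000000000000000) (nat_lit 0x0) (nat_lit 0x400000002000140000000000010000000000000000000000000000000000000000) := T_20 (nat_lit 160) (nat_lit 210) (nat_lit 5) (nat_lit 7) (nat_lit 9) L18155 (by decide +kernel)
theorem L18157 : W_20 (nat_lit 4) (nat_lit 0x2000100008000c000200000001000080000000000000000000000000000000) (nat_lit 0x0) (nat_lit 0x400010002800140000000000010000000000000000000000000000000000000000) := T_20 (nat_lit 227) (nat_lit 244) (nat_lit 5) (nat_lit 7) (nat_lit 10) L18156 (by decide +kernel)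
theorem L18158 : W_20 (nat_lit 5) (nat_lit 0x20001000080004000200000001000080000000000000000000000000000000) (nat_lit 0x0) (nat_lit 0x400010002800140008000400010000000000000000000000000000000000000000) := T_20 (nat_lit 195) (nat_lit 178) (nat_lit 6) (nat_lit 7) (nat_lit 14) L18157 (by decide +kernel)
theorem L18159 : W_20 (nat_lit 8) (nat_lit 0x1000080004000200000001000080000000000000000000000000000000) (nat_lit 0x0) (nat_lit 0x1c000e0003000280014000a000400010000000000000000000000000000000000000000) := Q_20 (nat_lit 245) (C_20 L18145 (C_20 L18148 (C_20 L18154 (C_20 L18158 N_20)))) (by decide +kernel)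
theorem L18160 : W_20 (nat_lit 2) (nat_lit 0x3000080004000200010001000080000000000000000000000000000000) (nat_lit 0x0) (nat_lit 0x10000800040000000000000000000000000000000000000000000000000000) := D_20 (nat_lit 227) (nat_lit 210) (nat_lit 244) (nat_lit 5) (nat_lit 7) (nat_lit 9) (nat_lit 5) (nat_lit 7) (nat_lit 10) (by decide +kernel)
theorem L18161 : W_20 (nat_lit 3) (nat_lit 0x3000080004000200000001000080000000000000000000000000000000) (nat_lit 0x0) (nat_lit 0x10000800140000000000010000000000000000000000000000000000000000) := T_20 (nat_lit 160) (nat_lit 212) (nat_lit 7) (nat_lit 7) (nat_lit 9) L18160 (by decide +kernel)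
theorem L18162 : W_20 (nat_lit 4) (nat_lit 0x1000080004000200000001000080000000000000000000000000000000) (nat_lit 0x0) (nat_lit 0x50002800140000000000010000000000000000000000000000000000000000) := T_20 (nat_lit 229) (nat_lit 246) (nat_lit 7) (nat_lit 7) (nat_lit 10) L18161 (by decide +kernel)
theorem L18163 : W_20 (nat_lit 11) (nat_lit 0x80004000200000001000080000000000000000000000000000000) (nat_lit 0x0) (nat_lit 0x1c000f801f000380014000a000400010000000000000000000000000000000000000000) := Q_20 (nat_lit 228) (C_20 L18159 (C_20 L6682 (C_20 L17389 (C_20 L6677 (C_20 L6691 (C_20 L18162 N_20)))))) (by decide +kernel)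
theorem L18164 : W_20 (nat_lit 13) (nat_lit 0x4000200000001000080000000000000000000000000000000) (nat_lit 0x0) (nat_lit 0x1c000f801fc01fe00ff000b801c00070000000000000000000000000000000000000000) := Q_20 (nat_lit 211) (C_20 L18144 (C_20 L18163 (C_20 L6720 (C_20 L6073 N_20)))) (by decide +kernel)
theorem L23826 : W_20 (nat_lit 2) (nat_lit 0x16000f000680010001000080000000000000000000000000000000) (nat_lit 0x0) (nat_lit 0x10000800000000000000004000000000000000000000000000000000000000) := D_20 (nat_lit 227) (nat_lit 244) (nat_lit 158) (nat_lit 6) (nat_lit 6) (nat_lit 14) (nat_lit 7) (nat_lit 5) (nat_lit 9) (by decide +kernel)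
theorem L23827 : W_20 (nat_lit 3) (nat_lit 0x12000f000680010001000080000000000000000000000000000000) (nat_lit 0x0) (nat_lit 0x10000800040010000000004000000000000000000000000000000000000000) := T_20 (nat_lit 210) (nat_lit 196) (nat_lit 1) (nat_lit 9) (nat_lit 11) L23826 (by decide +kernel)
theorem L23828 : W_20 (nat_lit 4) (nat_lit 0x12000f000600010001000080000000000000000000000000000000) (nat_lit 0x0) (nat_lit 0x100008000400100000c0004000000000000000000000000000000000000000) := T_20 (nat_lit 175) (nat_lit 174) (nat_lit 0) (nat_lit 8) (nat_lit 11) L23827 (by decide +kernel)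
theorem L23829 : W_20 (nat_lit 5) (nat_lit 0x10000f000600010001000080000000000000000000000000000000) (nat_lit 0x0) (nat_lit 0x100008000700100000c0004000000000000000000000000000000000000000) := T_20 (nat_lit 209) (nat_lit 208) (nat_lit 1) (nat_lit 8) (nat_lit 11) L23828 (by decide +kernel)
theorem L23830 : W_20 (nat_lit 6) (nat_lit 0x10000f000200010001000080000000000000000000000000000000) (nat_lit 0x0) (nat_lit 0x10000800070010000cc0004000000000000000000000000000000000000000) := T_20 (nat_lit 178) (nat_lit 179) (nat_lit 2) (nat_lit 5) (nat_lit 11) L23829 (by decide +kernel)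
theorem L23831 : W_20 (nat_lit 7) (nat_lit 0xf000200010001000080000000000000000000000000000000) (nat_lit 0x0) (nat_lit 0x10000800370010000cc0004000000000000000000000000000000000000000) := T_20 (nat_lit 212) (nat_lit 213) (nat_lit 3) (nat_lit 5) (nat_lit 11) L23830 (by decide +kernel)
theorem L23832 : W_20 (nat_lit 8) (nat_lit 0xf000200000001000080000000000000000000000000000000) (nat_lit 0x0) (nat_lit 0x10000800370010000cc0014000800000000000000000000000000000000000) := T_20 (nat_lit 160) (nat_lit 143) (nat_lit 6) (nat_lit 7) (nat_lit 11) L23831 (by decide +kernel)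
theorem L23833 : W_20 (nat_lit 2) (nat_lit 0x12001f000200000001000080000000000000000000000000000000) (nat_lit 0x0) (nat_lit 0x1c00000000000000000000000000000000000000000000) := D_20 (nat_lit 179) (nat_lit 178) (nat_lit 180) (nat_lit 2) (nat_lit 5) (nat_lit 11) (nat_lit 2) (nat_lit 6) (nat_lit 11) (by decide +kernel)
theorem L23834 : W_20 (nat_lit 3) (nat_lit 0x12000f000200000001000080000000000000000000000000000000) (nat_lit 0x0) (nat_lit 0x40010001c00000000000000000000000000000000000000000000) := T_20 (nat_lit 196) (nat_lit 210) (nat_lit 1) (nat_lit 9) (nat_lit 11) L23833 (by decide +kernel)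
theorem L23835 : W_20 (nat_lit 4) (nat_lit 0x2000f000200000001000080000000000000000000000000000000) (nat_lit 0x0) (nat_lit 0x340010001c00000000000000000000000000000000000000000000) := T_20 (nat_lit 212) (nat_lit 213) (nat_lit 3) (nat_lit 5) (nat_lit 11) L23834 (by decide +kernel)
theorem L23836 : W_20 (nat_lit 5) (nat_lit 0xf000200000001000080000000000000000000000000000000) (nat_lit 0x0) (nat_lit 0x370010001c00000000000000000000000000000000000000000000) := T_20 (nat_lit 209) (nat_lit 208) (nat_lit 1) (nat_lit 8) (nat_lit 11) L23835 (by decide +kernel)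
theorem L23837 : W_20 (nat_lit 2) (nat_lit 0x16000f000280000001800080000000000000000000000000000000) (nat_lit 0x0) (nat_lit 0x10000800000000000000004000000000000000000000000000000000000000) := D_20 (nat_lit 227) (nat_lit 244) (nat_lit 158) (nat_lit 6) (nat_lit 6) (nat_lit 14) (nat_lit 7) (nat_lit 5) (nat_lit 9) (by decide +kernel)
theorem L23838 : W_20 (nat_lit 3) (nat_lit 0x16000f000200000001800080000000000000000000000000000000) (nat_lit 0x0) (nat_lit 0x100008000000000000c0004000000000000000000000000000000000000000) := T_20 (nat_lit 175) (nat_lit 174) (nat_lit 0) (nat_lit 8) (nat_lit 11) L23837 (by decide +kernel)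
theorem L23839 : W_20 (nat_lit 4) (nat_lit 0x12000f000200000001800080000000000000000000000000000000) (nat_lit 0x0) (nat_lit 0x100008000400100000c0004000000000000000000000000000000000000000) := T_20 (nat_lit 210) (nat_lit 196) (nat_lit 1) (nat_lit 9) (nat_lit 11) L23838 (by decide +kernel)
theorem L23840 : W_20 (nat_lit 5) (nat_lit 0x12000f000200000001000080000000000000000000000000000000) (nat_lit 0x0) (nat_lit 0x100008000400100000c0014000800000000000000000000000000000000000) := T_20 (nat_lit 143) (nat_lit 160) (nat_lit 7) (nat_lit 7) (nat_lit 8) L23839 (by decide +kernel)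
theorem L23841 : W_20 (nat_lit 6) (nat_lit 0x10000f000200000001000080000000000000000000000000000000) (nat_lit 0x0) (nat_lit 0x100008000700100000c0014000800000000000000000000000000000000000) := T_20 (nat_lit 209) (nat_lit 208) (nat_lit 1) (nat_lit 8) (nat_lit 11) L23840 (by decide +kernel)
theorem L23842 : W_20 (nat_lit 7) (nat_lit 0xf000200000001000080000000000000000000000000000000) (nat_lit 0x0) (nat_lit 0x100008003700100000c0014000800000000000000000000000000000000000) := T_20 (nat_lit 212) (nat_lit 213) (nat_lit 3) (nat_lit 5) (nat_lit 11) L23841 (by decide +kernel)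
theorem L23843 : W_20 (nat_lit 2) (nat_lit 0x2000f000600010001000080000000000000000000000000000000) (nat_lit 0x0) (nat_lit 0x2000300000000000000000000000000000000000000000000000000000) := D_20 (nat_lit 212) (nat_lit 229) (nat_lit 213) (nat_lit 4) (nat_lit 8) (nat_lit 13) (nat_lit 3) (nat_lit 5) (nat_lit 11) (by decide +kernel)
theorem L23844 : W_20 (nat_lit 3) (nat_lit 0x2000f000600000001000080000000000000000000000000000000) (nat_lit 0x0) (nat_lit 0x2000300000000000010000800000000000000000000000000000000000) := T_20 (nat_lit 160) (nat_lit 143) (nat_lit 6) (nat_lit 7) (nat_lit 11) L23843 (by decide +kernel)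
theorem L23845 : W_20 (nat_lit 4) (nat_lit 0x2000f000200000001000080000000000000000000000000000000) (nat_lit 0x0) (nat_lit 0x2000300000000c00010000800000000000000000000000000000000000) := T_20 (nat_lit 178) (nat_lit 179) (nat_lit 2) (nat_lit 5) (nat_lit 11) L23844 (by decide +kernel)
theorem L23846 : W_20 (nat_lit 5) (nat_lit 0xf000200000001000080000000000000000000000000000000) (nat_lit 0x0) (nat_lit 0x2000330000000c00010000800000000000000000000000000000000000) := T_20 (nat_lit 209) (nat_lit 208) (nat_lit 1) (nat_lit 8) (nat_lit 11) L23845 (by decide +kernel)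
theorem L23849 : W_20 (nat_lit 6) (nat_lit 0xf000600010001000080000000000000000000000000000000) (nat_lit 0x0) (nat_lit 0xe700700000c0000000000000000000000000000000000000000000) := T_20 (nat_lit 175) (nat_lit 174) (nat_lit 0) (nat_lit 8) (nat_lit 11) L23848 (by decide +kernel)
theorem L23850 : W_20 (nat_lit 7) (nat_lit 0xf000200010001000080000000000000000000000000000000) (nat_lit 0x0) (nat_lit 0xe70070000cc0000000000000000000000000000000000000000000) := T_20 (nat_lit 178) (nat_lit 179) (nat_lit 2) (nat_lit 5) (nat_lit 11) L23849 (by decide +kernel)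
theorem L23851 : W_20 (nat_lit 8) (nat_lit 0xf000200000001000080000000000000000000000000000000) (nat_lit 0x0) (nat_lit 0xe70070000cc0010000800000000000000000000000000000000000) := T_20 (nat_lit 160) (nat_lit 143) (nat_lit 6) (nat_lit 7) (nat_lit 11) L23850 (by decide +kernel)
theorem L23852 : W_20 (nat_lit 2) (nat_lit 0x10000f000200010001000080000000000000000000000000000000) (nat_lit 0x0) (nat_lit 0x40002000000000000400000000000000000000000000000000000000000000) := D_20 (nat_lit 229) (nat_lit 178) (nat_lit 246) (nat_lit 4) (nat_lit 8) (nat_lit 13) (nat_lit 4) (nat_lit 8) (nat_lit 14) (by decide +kernel)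
theorem L23853 : W_20 (nat_lit 3) (nat_lit 0x10000f000200000001000080000000000000000000000000000000) (nat_lit 0x0) (nat_lit 0x40002000000000000400010000800000000000000000000000000000000000) := T_20 (nat_lit 160) (nat_lit 143) (nat_lit 7) (nat_lit 7) (nat_lit 8) L23852 (by decide +kernel)
theorem L23854 : W_20 (nat_lit 4) (nat_lit 0xf000200000001000080000000000000000000000000000000) (nat_lit 0x0) (nat_lit 0x40002000300000000400010000800000000000000000000000000000000000) := T_20 (nat_lit 212) (nat_lit 213) (nat_lit 3) (nat_lit 5) (nat_lit 11) L23853 (by decide +kernel)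
theorem L23859 : W_20 (nat_lit 9) (nat_lit 0x7000200000001000080000000000000000000000000000000) (nat_lit 0x0) (nat_lit 0x50002800f70078001cc0014000800000000000000000000000000000000000) := Q_20 (nat_lit 195) (C_20 L23832 (C_20 L23836 (C_20 L23842 (C_20 L23846 (C_20 L23851 (C_20 L23854 (C_20 L23858 N_20))))))) (by decide +kernel)
theorem L23869 : W_20 (nat_lit 2) (nat_lit 0x4000000016000f000280000001000080000000000000000000000000000000) (nat_lit 0x0) (nat_lit 0x10000800000000000000004000000000000000000000000000000000000000) := D_20 (nat_lit 227) (nat_lit 244) (nat_lit 158) (nat_lit 6) (nat_lit 6) (nat_lit 14) (nat_lit 7) (nat_lit 5) (nat_lit 9) (by decide +kernel)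
theorem L23870 : W_20 (nat_lit 3) (nat_lit 0x4000000016000f000200000001000080000000000000000000000000000000) (nat_lit 0x0) (nat_lit 0x100008000000000000c0004000000000000000000000000000000000000000) := T_20 (nat_lit 175) (nat_lit 174) (nat_lit 0) (nat_lit 8) (nat_lit 11) L23869 (by decide +kernel)
theorem L23871 : W_20 (nat_lit 4) (nat_lit 0x4000000012000f000200000001000080000000000000000000000000000000) (nat_lit 0x0) (nat_lit 0x100008000400100000c0004000000000000000000000000000000000000000) := T_20 (nat_lit 210) (nat_lit 196) (nat_lit 1) (nat_lit 9) (nat_lit 11) L23870 (by decide +kernel)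
theorem L23872 : W_20 (nat_lit 5) (nat_lit 0x12000f000200000001000080000000000000000000000000000000) (nat_lit 0x0) (nat_lit 0x500028000400100000c0004000000000000000000000000000000000000000) := T_20 (nat_lit 246) (nat_lit 229) (nat_lit 4) (nat_lit 8) (nat_lit 14) L23871 (by decide +kernel)
theorem L23873 : W_20 (nat_lit 6) (nat_lit 0x10000f000200000001000080000000000000000000000000000000) (nat_lit 0x0) (nat_lit 0x500028000700100000c0004000000000000000000000000000000000000000) := T_20 (nat_lit 209) (nat_lit 208) (nat_lit 1) (nat_lit 8) (nat_lit 11) L23872 (by decide +kernel)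
theorem L23874 : W_20 (nat_lit 7) (nat_lit 0xf000200000001000080000000000000000000000000000000) (nat_lit 0x0) (nat_lit 0x500028003700100000c0004000000000000000000000000000000000000000) := T_20 (nat_lit 212) (nat_lit 213) (nat_lit 3) (nat_lit 5) (nat_lit 11) L23873 (by decide +kernel)
theorem L23875 : W_20 (nat_lit 6) (nat_lit 0x400000011000f800280000001800080000000000000000000000000000000) (nat_lit 0x0) (nat_lit 0x4000200000000000000000400070015c000000000000000000000000000000) := T_20 (nat_lit 246) (nat_lit 229) (nat_lit 4) (nat_lit 8) (nat_lit 14) L10851 (by decide +kernel)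
theorem L23876 : W_20 (nat_lit 7) (nat_lit 0x400000011000f800280000001000080000000000000000000000000000000) (nat_lit 0x0) (nat_lit 0x40002000000000000000014000f0015c000000000000000000000000000000) := T_20 (nat_lit 143) (nat_lit 160) (nat_lit 7) (nat_lit 7) (nat_lit 8) L23875 (by decide +kernel)
theorem L23877 : W_20 (nat_lit 8) (nat_lit 0x11000f800280000001000080000000000000000000000000000000) (nat_lit 0x0) (nat_lit 0x44002200000000000000014000f0015c000000000000000000000000000000) := T_20 (nat_lit 242) (nat_lit 225) (nat_lit 6) (nat_lit 4) (nat_lit 14) L23876 (by decide +kernel)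
theorem L23878 : W_20 (nat_lit 9) (nat_lit 0x1000f800280000001000080000000000000000000000000000000) (nat_lit 0x0) (nat_lit 0x44002200300000000000014000f0015c000000000000000000000000000000) := T_20 (nat_lit 212) (nat_lit 213) (nat_lit 3) (nat_lit 5) (nat_lit 11) L23877 (by decide +kernel)
theorem L23879 : W_20 (nat_lit 10) (nat_lit 0x1000f000280000001000080000000000000000000000000000000) (nat_lit 0x0) (nat_lit 0x44002200308000800000014000f0015c000000000000000000000000000000) := T_20 (nat_lit 191) (nat_lit 207) (nat_lit 1) (nat_lit 7) (nat_lit 11) L23878 (by decide +kernel)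
theorem L23880 : W_20 (nat_lit 11) (nat_lit 0x1000f000200000001000080000000000000000000000000000000) (nat_lit 0x0) (nat_lit 0x440022003080008000c0014000f0015c000000000000000000000000000000) := T_20 (nat_lit 175) (nat_lit 174) (nat_lit 0) (nat_lit 8) (nat_lit 11) L23879 (by decide +kernel)
theorem L23881 : W_20 (nat_lit 12) (nat_lit 0xf000200000001000080000000000000000000000000000000) (nat_lit 0x0) (nat_lit 0x440022003380008000c0014000f0015c000000000000000000000000000000) := T_20 (nat_lit 208) (nat_lit 209) (nat_lit 1) (nat_lit 8) (nat_lit 11) L23880 (by decide +kernel)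
theorem L23882 : W_20 (nat_lit 6) (nat_lit 0xf000280010001000080000000000000000000000000000000) (nat_lit 0x0) (nat_lit 0xe70030003800000000000000000000000000000000000000000000) := T_20 (nat_lit 209) (nat_lit 208) (nat_lit 1) (nat_lit 8) (nat_lit 11) L5299 (by decide +kernel)
theorem L23883 : W_20 (nat_lit 7) (nat_lit 0xf000280000001000080000000000000000000000000000000) (nat_lit 0x0) (nat_lit 0xe70030003800010000800000000000000000000000000000000000) := T_20 (nat_lit 160) (nat_lit 143) (nat_lit 6) (nat_lit 7) (nat_lit 11) L23882 (by decide +kernel)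
theorem L23884 : W_20 (nat_lit 8) (nat_lit 0xf000200000001000080000000000000000000000000000000) (nat_lit 0x0) (nat_lit 0xe700300038c0010000800000000000000000000000000000000000) := T_20 (nat_lit 175) (nat_lit 174) (nat_lit 0) (nat_lit 8) (nat_lit 11) L23883 (by decide +kernel)
theorem L23885 : W_20 (nat_lit 2) (nat_lit 0x40001f001280000001000080000000000000000000000000000000) (nat_lit 0x0) (nat_lit 0x800020002000000000000000000000000000000000000000000000) := D_20 (nat_lit 197) (nat_lit 181) (nat_lit 215) (nat_lit 2) (nat_lit 7) (nat_lit 11) (nat_lit 3) (nat_lit 7) (nat_lit 11) (by decide +kernel)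
theorem L23886 : W_20 (nat_lit 3) (nat_lit 0x1f001280000001000080000000000000000000000000000000) (nat_lit 0x0) (nat_lit 0xe00020002000000000000000000000000000000000000000000000) := T_20 (nat_lit 214) (nat_lit 213) (nat_lit 3) (nat_lit 6) (nat_lit 11) L23885 (by decide +kernel)
theorem L23887 : W_20 (nat_lit 4) (nat_lit 0x1f000280000001000080000000000000000000000000000000) (nat_lit 0x0) (nat_lit 0xe00020003800000000000000000000000000000000000000000000) := T_20 (nat_lit 180) (nat_lit 179) (nat_lit 2) (nat_lit 6) (nat_lit 11) L23886 (by decide +kernel)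
theorem L23888 : W_20 (nat_lit 5) (nat_lit 0x1f000200000001000080000000000000000000000000000000) (nat_lit 0x0) (nat_lit 0xe000200038c0000000000000000000000000000000000000000000) := T_20 (nat_lit 175) (nat_lit 174) (nat_lit 0) (nat_lit 8) (nat_lit 11) L23887 (by decide +kernel)
theorem L23889 : W_20 (nat_lit 2) (nat_lit 0x44001f001200000001000080000000000000000000000000000000) (nat_lit 0x0) (nat_lit 0x800020002000000000000000000000000000000000000000000000) := D_20 (nat_lit 197) (nat_lit 215) (nat_lit 181) (nat_lit 3) (nat_lit 7) (nat_lit 11) (nat_lit 2) (nat_lit 7) (nat_lit 11) (by decide +kernel)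
theorem L23890 : W_20 (nat_lit 3) (nat_lit 0x44001f000200000001000080000000000000000000000000000000) (nat_lit 0x0) (nat_lit 0x800020003800000000000000000000000000000000000000000000) := T_20 (nat_lit 180) (nat_lit 179) (nat_lit 2) (nat_lit 6) (nat_lit 11) L23889 (by decide +kernel)
theorem L23891 : W_20 (nat_lit 4) (nat_lit 0x4001f000200000001000080000000000000000000000000000000) (nat_lit 0x0) (nat_lit 0xe00020003800000000000000000000000000000000000000000000) := T_20 (nat_lit 214) (nat_lit 213) (nat_lit 3) (nat_lit 6) (nat_lit 11) L23890 (by decide +kernel)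
theorem L23892 : W_20 (nat_lit 2) (nat_lit 0x20000f001200000001000080000000000000000000000000000000) (nat_lit 0x0) (nat_lit 0x400010000800000000000000000000000000000000000000000000) := D_20 (nat_lit 196) (nat_lit 179) (nat_lit 214) (nat_lit 2) (nat_lit 6) (nat_lit 11) (nat_lit 3) (nat_lit 6) (nat_lit 11) (by decide +kernel)
theorem L23893 : W_20 (nat_lit 3) (nat_lit 0xf001200000001000080000000000000000000000000000000) (nat_lit 0x0) (nat_lit 0x700010000800000000000000000000000000000000000000000000) := T_20 (nat_lit 213) (nat_lit 212) (nat_lit 3) (nat_lit 5) (nat_lit 11) L23892 (by decide +kernel)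
theorem L23894 : W_20 (nat_lit 2) (nat_lit 0x1f001200000001f00080000000000000000000000000000000) (nat_lit 0x0) (nat_lit 0x7000000000000000000000000000000000000000) := D_20 (nat_lit 157) (nat_lit 156) (nat_lit 158) (nat_lit 1) (nat_lit 7) (nat_lit 8) (nat_lit 1) (nat_lit 8) (nat_lit 8) (by decide +kernel)
theorem L23895 : W_20 (nat_lit 3) (nat_lit 0x1f001200000001e00080000000000000000000000000000000) (nat_lit 0x0) (nat_lit 0x7000100040000000000000000000000000000000) := T_20 (nat_lit 140) (nat_lit 126) (nat_lit 2) (nat_lit 4) (nat_lit 8) L23894 (by decide +kernel)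
theorem L23896 : W_20 (nat_lit 4) (nat_lit 0x1f001200000001a00080000000000000000000000000000000) (nat_lit 0x0) (nat_lit 0x7000500140000000000000000000000000000000) := T_20 (nat_lit 142) (nat_lit 128) (nat_lit 2) (nat_lit 5) (nat_lit 8) L23895 (by decide +kernel)
theorem L23897 : W_20 (nat_lit 5) (nat_lit 0xf001200000001a00080000000000000000000000000000000) (nat_lit 0x0) (nat_lit 0x10000800007000500140000000000000000000000000000000) := T_20 (nat_lit 196) (nat_lit 179) (nat_lit 2) (nat_lit 6) (nat_lit 11) L23896 (by decide +kernel)
theorem L23898 : W_20 (nat_lit 6) (nat_lit 0xf001200000001200080000000000000000000000000000000) (nat_lit 0x0) (nat_lit 0x10000800017000d00140000000000000000000000000000000) := T_20 (nat_lit 143) (nat_lit 160) (nat_lit 6) (nat_lit 7) (nat_lit 11) L23897 (by decide +kernel)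
theorem L23899 : W_20 (nat_lit 2) (nat_lit 0x3f001280004001600080000000000000000000000000000000) (nat_lit 0x0) (nat_lit 0x2000800100000000000000000000000000000000) := D_20 (nat_lit 143) (nat_lit 128) (nat_lit 157) (nat_lit 2) (nat_lit 5) (nat_lit 8) (nat_lit 1) (nat_lit 8) (nat_lit 8) (by decide +kernel)
theorem L23900 : W_20 (nat_lit 3) (nat_lit 0x3f001280004001200080000000000000000000000000000000) (nat_lit 0x0) (nat_lit 0x2000c00120000000000000000000000000000000) := T_20 (nat_lit 142) (nat_lit 125) (nat_lit 6) (nat_lit 5) (nat_lit 11) L23899 (by decide +kernel)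
theorem L23901 : W_20 (nat_lit 4) (nat_lit 0x3f001280000001200080000000000000000000000000000000) (nat_lit 0x0) (nat_lit 0x40000000000006000c00120000000000000000000000000000000) := T_20 (nat_lit 158) (nat_lit 210) (nat_lit 7) (nat_lit 5) (nat_lit 8) L23900 (by decide +kernel)
theorem L23902 : W_20 (nat_lit 5) (nat_lit 0x1f001280000001200080000000000000000000000000000000) (nat_lit 0x0) (nat_lit 0x40020002000006000c00120000000000000000000000000000000) := T_20 (nat_lit 197) (nat_lit 181) (nat_lit 2) (nat_lit 7) (nat_lit 11) L23901 (by decide +kernel)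
theorem L23903 : W_20 (nat_lit 6) (nat_lit 0x1f001200000001200080000000000000000000000000000000) (nat_lit 0x0) (nat_lit 0x400200020c0006000c00120000000000000000000000000000000) := T_20 (nat_lit 175) (nat_lit 174) (nat_lit 0) (nat_lit 8) (nat_lit 11) L23902 (by decide +kernel)
theorem L23904 : W_20 (nat_lit 7) (nat_lit 0xf001200000001200080000000000000000000000000000000) (nat_lit 0x0) (nat_lit 0x400300028c0006000c00120000000000000000000000000000000) := T_20 (nat_lit 196) (nat_lit 179) (nat_lit 2) (nat_lit 6) (nat_lit 11) L23903 (by decide +kernel)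
theorem L23905 : W_20 (nat_lit 2) (nat_lit 0x40003f8012800140012000b0000000000000000000000000000000) (nat_lit 0x0) (nat_lit 0x100008000400000000000000000000000000) := D_20 (nat_lit 123) (nat_lit 106) (nat_lit 140) (nat_lit 4) (nat_lit 5) (nat_lit 10) (nat_lit 4) (nat_lit 5) (nat_lit 11) (by decide +kernel)
theorem L23906 : W_20 (nat_lit 3) (nat_lit 0x40003f8012800140012000a0000000000000000000000000000000) (nat_lit 0x0) (nat_lit 0x100018001400000000000000000000000000) := T_20 (nat_lit 124) (nat_lit 108) (nat_lit 6) (nat_lit 5) (nat_lit 10) L23905 (by decide +kernel)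
theorem L23907 : W_20 (nat_lit 4) (nat_lit 0x40003f0012800140012000a0000000000000000000000000000000) (nat_lit 0x0) (nat_lit 0x10000800000000000100018001400000000000000000000000000) := T_20 (nat_lit 191) (nat_lit 208) (nat_lit 5) (nat_lit 5) (nat_lit 8) L23906 (by decide +kernel)
theorem L23908 : W_20 (nat_lit 5) (nat_lit 0x40003f001280014001200080000000000000000000000000000000) (nat_lit 0x0) (nat_lit 0x10000800000000000500038001400000000000000000000000000) := T_20 (nat_lit 125) (nat_lit 142) (nat_lit 6) (nat_lit 5) (nat_lit 11) L23907 (by decide +kernel)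
theorem L23909 : W_20 (nat_lit 6) (nat_lit 0x40003f001280010001200080000000000000000000000000000000) (nat_lit 0x0) (nat_lit 0x50000800000004000500038001400000000000000000000000000) := T_20 (nat_lit 158) (nat_lit 210) (nat_lit 7) (nat_lit 5) (nat_lit 8) L23908 (by decide +kernel)
theorem L23910 : W_20 (nat_lit 7) (nat_lit 0x3f001280010001200080000000000000000000000000000000) (nat_lit 0x0) (nat_lit 0xc50000800000004000500038001400000000000000000000000000) := T_20 (nat_lit 214) (nat_lit 215) (nat_lit 3) (nat_lit 7) (nat_lit 11) L23909 (by decide +kernel)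
theorem L23911 : W_20 (nat_lit 8) (nat_lit 0x3f001200010001200080000000000000000000000000000000) (nat_lit 0x0) (nat_lit 0xc500008000c0004000500038001400000000000000000000000000) := T_20 (nat_lit 175) (nat_lit 174) (nat_lit 0) (nat_lit 8) (nat_lit 11) L23910 (by decide +kernel)
theorem L23912 : W_20 (nat_lit 9) (nat_lit 0x1f001200010001200080000000000000000000000000000000) (nat_lit 0x0) (nat_lit 0xc500208020c0004000500038001400000000000000000000000000) := T_20 (nat_lit 197) (nat_lit 181) (nat_lit 2) (nat_lit 7) (nat_lit 11) L23911 (by decide +kernel)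
theorem L23913 : W_20 (nat_lit 10) (nat_lit 0x1f001200000001200080000000000000000000000000000000) (nat_lit 0x0) (nat_lit 0xc500208020c0014000d00038001400000000000000000000000000) := T_20 (nat_lit 160) (nat_lit 143) (nat_lit 6) (nat_lit 7) (nat_lit 11) L23912 (by decide +kernel)
theorem L23914 : W_20 (nat_lit 11) (nat_lit 0xf001200000001200080000000000000000000000000000000) (nat_lit 0x0) (nat_lit 0xc500308028c0014000d00038001400000000000000000000000000) := T_20 (nat_lit 196) (nat_lit 179) (nat_lit 2) (nat_lit 6) (nat_lit 11) L23913 (by decide +kernel)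
theorem L23915 : W_20 (nat_lit 2) (nat_lit 0xf801280014801780082000000000000000000000000000000) (nat_lit 0x0) (nat_lit 0x400040001000000000000000000000000000000) := D_20 (nat_lit 138) (nat_lit 154) (nat_lit 120) (nat_lit 1) (nat_lit 5) (nat_lit 8) (nat_lit 0) (nat_lit 5) (nat_lit 8) (by decide +kernel)
theorem L23916 : W_20 (nat_lit 3) (nat_lit 0xf801280014801780080000000000000000000000000000000) (nat_lit 0x0) (nat_lit 0x400040007000000000000000000000000000000) := T_20 (nat_lit 121) (nat_lit 122) (nat_lit 0) (nat_lit 6) (nat_lit 8) L23915 (by decide +kernel)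
theorem L23917 : W_20 (nat_lit 4) (nat_lit 0xf801280014001780080000000000000000000000000000000) (nat_lit 0x0) (nat_lit 0x1c00040007000000000000000000000000000000) := T_20 (nat_lit 155) (nat_lit 156) (nat_lit 1) (nat_lit 6) (nat_lit 8) L23916 (by decide +kernel)
theorem L23918 : W_20 (nat_lit 5) (nat_lit 0xf801280014001700080000000000000000000000000000000) (nat_lit 0x0) (nat_lit 0x9c000c0007000000000000000000000000000000) := T_20 (nat_lit 139) (nat_lit 159) (nat_lit 3) (nat_lit 3) (nat_lit 8) L23917 (by decide +kernel)
theorem L23919 : W_20 (nat_lit 6) (nat_lit 0xf801280014001600080000000000000000000000000000000) (nat_lit 0x0) (nat_lit 0x9c001c000f000000000000000000000000000000) := T_20 (nat_lit 140) (nat_lit 123) (nat_lit 4) (nat_lit 5) (nat_lit 11) L23918 (by decide +kernel)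
theorem L23920 : W_20 (nat_lit 7) (nat_lit 0xf001280014001600080000000000000000000000000000000) (nat_lit 0x0) (nat_lit 0x10000800000009c001c000f000000000000000000000000000000) := T_20 (nat_lit 191) (nat_lit 208) (nat_lit 5) (nat_lit 5) (nat_lit 8) L23919 (by decide +kernel)
theorem L23921 : W_20 (nat_lit 8) (nat_lit 0xf001280014001200080000000000000000000000000000000) (nat_lit 0x0) (nat_lit 0x10000800000009c005c002f000000000000000000000000000000) := T_20 (nat_lit 142) (nat_lit 125) (nat_lit 6) (nat_lit 5) (nat_lit 11) L23920 (by decide +kernel)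
theorem L23922 : W_20 (nat_lit 9) (nat_lit 0xf001280010001200080000000000000000000000000000000) (nat_lit 0x0) (nat_lit 0x5000080000000dc005c002f000000000000000000000000000000) := T_20 (nat_lit 158) (nat_lit 210) (nat_lit 7) (nat_lit 5) (nat_lit 8) L23921 (by decide +kernel)
theorem L23923 : W_20 (nat_lit 10) (nat_lit 0xf001280000001200080000000000000000000000000000000) (nat_lit 0x0) (nat_lit 0x5000080000001dc00dc002f000000000000000000000000000000) := T_20 (nat_lit 160) (nat_lit 143) (nat_lit 6) (nat_lit 7) (nat_lit 11) L23922 (by decide +kernel)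
theorem L23924 : W_20 (nat_lit 11) (nat_lit 0xf001200000001200080000000000000000000000000000000) (nat_lit 0x0) (nat_lit 0x500008000c001dc00dc002f000000000000000000000000000000) := T_20 (nat_lit 175) (nat_lit 174) (nat_lit 0) (nat_lit 8) (nat_lit 11) L23923 (by decide +kernel)
theorem L23925 : W_20 (nat_lit 2) (nat_lit 0x1f8012800040012000b0000000000000000000000000000000) (nat_lit 0x0) (nat_lit 0x100008000400000000000000000000000000) := D_20 (nat_lit 123) (nat_lit 106) (nat_lit 140) (nat_lit 4) (nat_lit 5) (nat_lit 10) (nat_lit 4) (nat_lit 5) (nat_lit 11) (by decide +kernel)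
theorem L23926 : W_20 (nat_lit 3) (nat_lit 0x1f8012800040012000a0000000000000000000000000000000) (nat_lit 0x0) (nat_lit 0x100018001400000000000000000000000000) := T_20 (nat_lit 124) (nat_lit 108) (nat_lit 6) (nat_lit 5) (nat_lit 10) L23925 (by decide +kernel)
theorem L23927 : W_20 (nat_lit 4) (nat_lit 0x1f0012800040012000a0000000000000000000000000000000) (nat_lit 0x0) (nat_lit 0x10000800000000000100018001400000000000000000000000000) := T_20 (nat_lit 191) (nat_lit 208) (nat_lit 5) (nat_lit 5) (nat_lit 8) L23926 (by decide +kernel)
theorem L23928 : W_20 (nat_lit 5) (nat_lit 0x1f001280004001200080000000000000000000000000000000) (nat_lit 0x0) (nat_lit 0x10000800000000000500038001400000000000000000000000000) := T_20 (nat_lit 125) (nat_lit 142) (nat_lit 6) (nat_lit 5) (nat_lit 11) L23927 (by decide +kernel)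
theorem L23929 : W_20 (nat_lit 6) (nat_lit 0x1f001280000001200080000000000000000000000000000000) (nat_lit 0x0) (nat_lit 0x50000800000004000500038001400000000000000000000000000) := T_20 (nat_lit 158) (nat_lit 210) (nat_lit 7) (nat_lit 5) (nat_lit 8) L23928 (by decide +kernel)
theorem L23930 : W_20 (nat_lit 7) (nat_lit 0xf001280000001200080000000000000000000000000000000) (nat_lit 0x0) (nat_lit 0x50010800800004000500038001400000000000000000000000000) := T_20 (nat_lit 196) (nat_lit 179) (nat_lit 2) (nat_lit 6) (nat_lit 11) L23929 (by decide +kernel)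
theorem L23931 : W_20 (nat_lit 8) (nat_lit 0xf001200000001200080000000000000000000000000000000) (nat_lit 0x0) (nat_lit 0x500108008c0004000500038001400000000000000000000000000) := T_20 (nat_lit 175) (nat_lit 174) (nat_lit 0) (nat_lit 8) (nat_lit 11) L23930 (by decide +kernel)
theorem L23932 : W_20 (nat_lit 2) (nat_lit 0x41003f801240012001300080000000000000000000000000000000) (nat_lit 0x0) (nat_lit 0x1000080004000000000000000000000000000000) := D_20 (nat_lit 139) (nat_lit 122) (nat_lit 156) (nat_lit 4) (nat_lit 4) (nat_lit 11) (nat_lit 4) (nat_lit 4) (nat_lit 12) (by decide +kernel)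
theorem L23933 : W_20 (nat_lit 3) (nat_lit 0x41003f801240012001200080000000000000000000000000000000) (nat_lit 0x0) (nat_lit 0x1000180014000000000000000000000000000000) := T_20 (nat_lit 140) (nat_lit 124) (nat_lit 6) (nat_lit 4) (nat_lit 11) L23932 (by decide +kernel)
theorem L23934 : W_20 (nat_lit 4) (nat_lit 0x41003f801240010001200080000000000000000000000000000000) (nat_lit 0x0) (nat_lit 0x7000180014000000000000000000000000000000) := T_20 (nat_lit 157) (nat_lit 158) (nat_lit 6) (nat_lit 4) (nat_lit 12) L23933 (by decide +kernel)
theorem L23935 : W_20 (nat_lit 5) (nat_lit 0x40003f801240010001200080000000000000000000000000000000) (nat_lit 0x0) (nat_lit 0x18000000000007000180014000000000000000000000000000000) := T_20 (nat_lit 208) (nat_lit 207) (nat_lit 1) (nat_lit 7) (nat_lit 11) L23934 (by decide +kernel)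
theorem L23936 : W_20 (nat_lit 6) (nat_lit 0x40003f001240010001200080000000000000000000000000000000) (nat_lit 0x0) (nat_lit 0x18000800020007000180014000000000000000000000000000000) := T_20 (nat_lit 191) (nat_lit 173) (nat_lit 0) (nat_lit 7) (nat_lit 11) L23935 (by decide +kernel)
theorem L23937 : W_20 (nat_lit 7) (nat_lit 0x3f001240010001200080000000000000000000000000000000) (nat_lit 0x0) (nat_lit 0xc18000800020007000180014000000000000000000000000000000) := T_20 (nat_lit 214) (nat_lit 215) (nat_lit 3) (nat_lit 7) (nat_lit 11) L23936 (by decide +kernel)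
theorem L23938 : W_20 (nat_lit 8) (nat_lit 0x3f001200010001200080000000000000000000000000000000) (nat_lit 0x0) (nat_lit 0xc180008000e0007000180014000000000000000000000000000000) := T_20 (nat_lit 174) (nat_lit 175) (nat_lit 0) (nat_lit 8) (nat_lit 11) L23937 (by decide +kernel)
theorem L23939 : W_20 (nat_lit 9) (nat_lit 0x1f001200010001200080000000000000000000000000000000) (nat_lit 0x0) (nat_lit 0xc180208020e0007000180014000000000000000000000000000000) := T_20 (nat_lit 197) (nat_lit 181) (nat_lit 2) (nat_lit 7) (nat_lit 11) L23938 (by decide +kernel)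
theorem L23940 : W_20 (nat_lit 10) (nat_lit 0x1f001200000001200080000000000000000000000000000000) (nat_lit 0x0) (nat_lit 0xc180208020e0017000980014000000000000000000000000000000) := T_20 (nat_lit 160) (nat_lit 143) (nat_lit 6) (nat_lit 7) (nat_lit 11) L23939 (by decide +kernel)
theorem L23941 : W_20 (nat_lit 11) (nat_lit 0xf001200000001200080000000000000000000000000000000) (nat_lit 0x0) (nat_lit 0xc180308028e0017000980014000000000000000000000000000000) := T_20 (nat_lit 196) (nat_lit 179) (nat_lit 2) (nat_lit 6) (nat_lit 11) L23940 (by decide +kernel)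
theorem L23942 : W_20 (nat_lit 2) (nat_lit 0x3f001200000001f00080000000000000000000000000000000) (nat_lit 0x0) (nat_lit 0x1c000000000000000000000000000000) := D_20 (nat_lit 123) (nat_lit 124) (nat_lit 122) (nat_lit 0) (nat_lit 8) (nat_lit 8) (nat_lit 0) (nat_lit 7) (nat_lit 8) (by decide +kernel)
theorem L23943 : W_20 (nat_lit 3) (nat_lit 0x3f001200000001e00080000000000000000000000000000000) (nat_lit 0x0) (nat_lit 0x10005c000000000000000000000000000000) := T_20 (nat_lit 140) (nat_lit 126) (nat_lit 2) (nat_lit 4) (nat_lit 8) L23942 (by decide +kernel)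
theorem L23944 : W_20 (nat_lit 4) (nat_lit 0x3f001200000001a00080000000000000000000000000000000) (nat_lit 0x0) (nat_lit 0x50015c000000000000000000000000000000) := T_20 (nat_lit 142) (nat_lit 128) (nat_lit 2) (nat_lit 5) (nat_lit 8) L23943 (by decide +kernel)
theorem L23945 : W_20 (nat_lit 5) (nat_lit 0x1f001200000001a00080000000000000000000000000000000) (nat_lit 0x0) (nat_lit 0x2000200000000050015c000000000000000000000000000000) := T_20 (nat_lit 197) (nat_lit 181) (nat_lit 2) (nat_lit 7) (nat_lit 11) L23944 (by decide +kernel)
theorem L23946 : W_20 (nat_lit 6) (nat_lit 0x1f001200000001200080000000000000000000000000000000) (nat_lit 0x0) (nat_lit 0x20002000010000d0015c000000000000000000000000000000) := T_20 (nat_lit 143) (nat_lit 160) (nat_lit 6) (nat_lit 7) (nat_lit 11) L23945 (by decide +kernel)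
theorem L23947 : W_20 (nat_lit 7) (nat_lit 0xf001200000001200080000000000000000000000000000000) (nat_lit 0x0) (nat_lit 0x30002800010000d0015c000000000000000000000000000000) := T_20 (nat_lit 196) (nat_lit 179) (nat_lit 2) (nat_lit 6) (nat_lit 11) L23946 (by decide +kernel)
theorem L23948 : W_20 (nat_lit 12) (nat_lit 0xf001200000001000080000000000000000000000000000000) (nat_lit 0x0) (nat_lit 0xc580308028e001fc00fc017f001400000000000000000000000000) := Q_20 (nat_lit 141) (C_20 L23898 (C_20 L23904 (C_20 L23914 (C_20 L23924 (C_20 L23931 (C_20 L23941 (C_20 L23947 N_20))))))) (by decide +kernel)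
theorem L23949 : W_20 (nat_lit 2) (nat_lit 0x10000f001200000001f00080000000000000000000000000000000) (nat_lit 0x0) (nat_lit 0x7000000000000000000000000000000000000000) := D_20 (nat_lit 157) (nat_lit 156) (nat_lit 158) (nat_lit 1) (nat_lit 7) (nat_lit 8) (nat_lit 1) (nat_lit 8) (nat_lit 8) (by decide +kernel)
theorem L23950 : W_20 (nat_lit 3) (nat_lit 0x10000f001200000001e00080000000000000000000000000000000) (nat_lit 0x0) (nat_lit 0x7000100040000000000000000000000000000000) := T_20 (nat_lit 140) (nat_lit 126) (nat_lit 2) (nat_lit 4) (nat_lit 8) L23949 (by decide +kernel)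
theorem L23951 : W_20 (nat_lit 4) (nat_lit 0x10000f001200000001a00080000000000000000000000000000000) (nat_lit 0x0) (nat_lit 0x7000500140000000000000000000000000000000) := T_20 (nat_lit 142) (nat_lit 128) (nat_lit 2) (nat_lit 5) (nat_lit 8) L23950 (by decide +kernel)
theorem L23952 : W_20 (nat_lit 5) (nat_lit 0xf001200000001a00080000000000000000000000000000000) (nat_lit 0x0) (nat_lit 0x300000000000007000500140000000000000000000000000000000) := T_20 (nat_lit 212) (nat_lit 213) (nat_lit 3) (nat_lit 5) (nat_lit 11) L23951 (by decide +kernel)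
theorem L23953 : W_20 (nat_lit 6) (nat_lit 0xf001200000001200080000000000000000000000000000000) (nat_lit 0x0) (nat_lit 0x300000000000017000d00140000000000000000000000000000000) := T_20 (nat_lit 143) (nat_lit 160) (nat_lit 6) (nat_lit 7) (nat_lit 11) L23952 (by decide +kernel)
theorem L23954 : W_20 (nat_lit 2) (nat_lit 0x4000000010000f001280004001600080000000000000000000000000000000) (nat_lit 0x0) (nat_lit 0x2000800100000000000000000000000000000000) := D_20 (nat_lit 143) (nat_lit 128) (nat_lit 157) (nat_lit 2) (nat_lit 5) (nat_lit 8) (nat_lit 1) (nat_lit 8) (nat_lit 8) (by decide +kernel)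
theorem L23955 : W_20 (nat_lit 3) (nat_lit 0x4000000010000f001280004001200080000000000000000000000000000000) (nat_lit 0x0) (nat_lit 0x2000c00120000000000000000000000000000000) := T_20 (nat_lit 142) (nat_lit 125) (nat_lit 6) (nat_lit 5) (nat_lit 11) L23954 (by decide +kernel)
theorem L23956 : W_20 (nat_lit 4) (nat_lit 0x4000000010000f001280000001200080000000000000000000000000000000) (nat_lit 0x0) (nat_lit 0x40000000000006000c00120000000000000000000000000000000) := T_20 (nat_lit 158) (nat_lit 210) (nat_lit 7) (nat_lit 5) (nat_lit 8) L23955 (by decide +kernel)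
theorem L23957 : W_20 (nat_lit 5) (nat_lit 0x10000f001280000001200080000000000000000000000000000000) (nat_lit 0x0) (nat_lit 0x40002000040000000000006000c00120000000000000000000000000000000) := T_20 (nat_lit 246) (nat_lit 229) (nat_lit 4) (nat_lit 8) (nat_lit 14) L23956 (by decide +kernel)
theorem L23958 : W_20 (nat_lit 6) (nat_lit 0x10000f001200000001200080000000000000000000000000000000) (nat_lit 0x0) (nat_lit 0x400020000400000000c0006000c00120000000000000000000000000000000) := T_20 (nat_lit 175) (nat_lit 174) (nat_lit 0) (nat_lit 8) (nat_lit 11) L23957 (by decide +kernel)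
theorem L23959 : W_20 (nat_lit 7) (nat_lit 0xf001200000001200080000000000000000000000000000000) (nat_lit 0x0) (nat_lit 0x400020003400000000c0006000c00120000000000000000000000000000000) := T_20 (nat_lit 212) (nat_lit 213) (nat_lit 3) (nat_lit 5) (nat_lit 11) L23958 (by decide +kernel)
theorem L23960 : W_20 (nat_lit 2) (nat_lit 0x10000f8012800040012000b0000000000000000000000000000000) (nat_lit 0x0) (nat_lit 0x100008000400000000000000000000000000) := D_20 (nat_lit 123) (nat_lit 106) (nat_lit 140) (nat_lit 4) (nat_lit 5) (nat_lit 10) (nat_lit 4) (nat_lit 5) (nat_lit 11) (by decide +kernel)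
theorem L23961 : W_20 (nat_lit 3) (nat_lit 0x10000f8012800040012000a0000000000000000000000000000000) (nat_lit 0x0) (nat_lit 0x100018001400000000000000000000000000) := T_20 (nat_lit 124) (nat_lit 108) (nat_lit 6) (nat_lit 5) (nat_lit 10) L23960 (by decide +kernel)
theorem L23962 : W_20 (nat_lit 4) (nat_lit 0x10000f0012800040012000a0000000000000000000000000000000) (nat_lit 0x0) (nat_lit 0x10000800000000000100018001400000000000000000000000000) := T_20 (nat_lit 191) (nat_lit 208) (nat_lit 5) (nat_lit 5) (nat_lit 8) L23961 (by decide +kernel)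
theorem L23963 : W_20 (nat_lit 5) (nat_lit 0x10000f001280004001200080000000000000000000000000000000) (nat_lit 0x0) (nat_lit 0x10000800000000000500038001400000000000000000000000000) := T_20 (nat_lit 125) (nat_lit 142) (nat_lit 6) (nat_lit 5) (nat_lit 11) L23962 (by decide +kernel)
theorem L23964 : W_20 (nat_lit 6) (nat_lit 0x10000f001280000001200080000000000000000000000000000000) (nat_lit 0x0) (nat_lit 0x50000800000004000500038001400000000000000000000000000) := T_20 (nat_lit 158) (nat_lit 210) (nat_lit 7) (nat_lit 5) (nat_lit 8) L23963 (by decide +kernel)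
theorem L23965 : W_20 (nat_lit 7) (nat_lit 0xf001280000001200080000000000000000000000000000000) (nat_lit 0x0) (nat_lit 0x350000800000004000500038001400000000000000000000000000) := T_20 (nat_lit 212) (nat_lit 213) (nat_lit 3) (nat_lit 5) (nat_lit 11) L23964 (by decide +kernel)
theorem L23966 : W_20 (nat_lit 8) (nat_lit 0xf001200000001200080000000000000000000000000000000) (nat_lit 0x0) (nat_lit 0x3500008000c0004000500038001400000000000000000000000000) := T_20 (nat_lit 175) (nat_lit 174) (nat_lit 0) (nat_lit 8) (nat_lit 11) L23965 (by decide +kernel)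
theorem L23967 : W_20 (nat_lit 2) (nat_lit 0x4000000011000f801240012001300080000000000000000000000000000000) (nat_lit 0x0) (nat_lit 0x1000080004000000000000000000000000000000) := D_20 (nat_lit 139) (nat_lit 122) (nat_lit 156) (nat_lit 4) (nat_lit 4) (nat_lit 11) (nat_lit 4) (nat_lit 4) (nat_lit 12) (by decide +kernel)
theorem L23968 : W_20 (nat_lit 3) (nat_lit 0x4000000011000f801240012001200080000000000000000000000000000000) (nat_lit 0x0) (nat_lit 0x1000180014000000000000000000000000000000) := T_20 (nat_lit 140) (nat_lit 124) (nat_lit 6) (nat_lit 4) (nat_lit 11) L23967 (by decide +kernel)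
theorem L23969 : W_20 (nat_lit 4) (nat_lit 0x4000000011000f801240010001200080000000000000000000000000000000) (nat_lit 0x0) (nat_lit 0x7000180014000000000000000000000000000000) := T_20 (nat_lit 157) (nat_lit 158) (nat_lit 6) (nat_lit 4) (nat_lit 12) L23968 (by decide +kernel)
theorem L23970 : W_20 (nat_lit 5) (nat_lit 0x4000000010000f801240010001200080000000000000000000000000000000) (nat_lit 0x0) (nat_lit 0x18000000000007000180014000000000000000000000000000000) := T_20 (nat_lit 208) (nat_lit 207) (nat_lit 1) (nat_lit 7) (nat_lit 11) L23969 (by decide +kernel)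
theorem L23971 : W_20 (nat_lit 6) (nat_lit 0x4000000010000f001240010001200080000000000000000000000000000000) (nat_lit 0x0) (nat_lit 0x18000800020007000180014000000000000000000000000000000) := T_20 (nat_lit 191) (nat_lit 173) (nat_lit 0) (nat_lit 7) (nat_lit 11) L23970 (by decide +kernel)
theorem L23972 : W_20 (nat_lit 7) (nat_lit 0x4000000010000f001200010001200080000000000000000000000000000000) (nat_lit 0x0) (nat_lit 0x180008000e0007000180014000000000000000000000000000000) := T_20 (nat_lit 174) (nat_lit 175) (nat_lit 0) (nat_lit 8) (nat_lit 11) L23971 (by decide +kernel)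
theorem L23973 : W_20 (nat_lit 8) (nat_lit 0x10000f001200010001200080000000000000000000000000000000) (nat_lit 0x0) (nat_lit 0x400020000180008000e0007000180014000000000000000000000000000000) := T_20 (nat_lit 246) (nat_lit 229) (nat_lit 4) (nat_lit 8) (nat_lit 14) L23972 (by decide +kernel)
theorem L23974 : W_20 (nat_lit 9) (nat_lit 0x10000f001200000001200080000000000000000000000000000000) (nat_lit 0x0) (nat_lit 0x400020000180008000e0017000980014000000000000000000000000000000) := T_20 (nat_lit 160) (nat_lit 143) (nat_lit 7) (nat_lit 7) (nat_lit 8) L23973 (by decide +kernel)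
theorem L23975 : W_20 (nat_lit 10) (nat_lit 0xf001200000001200080000000000000000000000000000000) (nat_lit 0x0) (nat_lit 0x400020003180008000e0017000980014000000000000000000000000000000) := T_20 (nat_lit 212) (nat_lit 213) (nat_lit 3) (nat_lit 5) (nat_lit 11) L23974 (by decide +kernel)
theorem L23976 : W_20 (nat_lit 2) (nat_lit 0x10000f001280000001f00080000000000000000000000000000000) (nat_lit 0x0) (nat_lit 0x1c000000000000000000000000000000) := D_20 (nat_lit 123) (nat_lit 124) (nat_lit 122) (nat_lit 0) (nat_lit 8) (nat_lit 8) (nat_lit 0) (nat_lit 7) (nat_lit 8) (by decide +kernel)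
theorem L23977 : W_20 (nat_lit 3) (nat_lit 0x10000f001280000001e00080000000000000000000000000000000) (nat_lit 0x0) (nat_lit 0x10005c000000000000000000000000000000) := T_20 (nat_lit 140) (nat_lit 126) (nat_lit 2) (nat_lit 4) (nat_lit 8) L23976 (by decide +kernel)
theorem L23978 : W_20 (nat_lit 4) (nat_lit 0x10000f001280000001a00080000000000000000000000000000000) (nat_lit 0x0) (nat_lit 0x50015c000000000000000000000000000000) := T_20 (nat_lit 142) (nat_lit 128) (nat_lit 2) (nat_lit 5) (nat_lit 8) L23977 (by decide +kernel)
theorem L23979 : W_20 (nat_lit 5) (nat_lit 0xf001280000001a00080000000000000000000000000000000) (nat_lit 0x0) (nat_lit 0x30000000000000000050015c000000000000000000000000000000) := T_20 (nat_lit 212) (nat_lit 213) (nat_lit 3) (nat_lit 5) (nat_lit 11) L23978 (by decide +kernel)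
theorem L23980 : W_20 (nat_lit 6) (nat_lit 0xf001280000001200080000000000000000000000000000000) (nat_lit 0x0) (nat_lit 0x300000000000010000d0015c000000000000000000000000000000) := T_20 (nat_lit 143) (nat_lit 160) (nat_lit 6) (nat_lit 7) (nat_lit 11) L23979 (by decide +kernel)
theorem L23981 : W_20 (nat_lit 7) (nat_lit 0xf001200000001200080000000000000000000000000000000) (nat_lit 0x0) (nat_lit 0x3000000000c0010000d0015c000000000000000000000000000000) := T_20 (nat_lit 175) (nat_lit 174) (nat_lit 0) (nat_lit 8) (nat_lit 11) L23980 (by decide +kernel)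
theorem L23982 : W_20 (nat_lit 12) (nat_lit 0xf001200000001000080000000000000000000000000000000) (nat_lit 0x0) (nat_lit 0x400020003580008000e001fc00fc017f001400000000000000000000000000) := Q_20 (nat_lit 141) (C_20 L23953 (C_20 L23959 (C_20 L23924 (C_20 L23966 (C_20 L23975 (C_20 L23981 N_20)))))) (by decide +kernel)
theorem L23983 : W_20 (nat_lit 13) (nat_lit 0xf000200000001000080000000000000000000000000000000) (nat_lit 0x0) (nat_lit 0x40002000f580308038e001fc00fc017f001400000000000000000000000000) := Q_20 (nat_lit 180) (C_20 L23893 (C_20 L23948 (C_20 L23982 N_20))) (by decide +kernel)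
theorem L23984 : W_20 (nat_lit 5) (nat_lit 0x1000000024001f000a80000001800080000000000000000000000000000000) (nat_lit 0x0) (nat_lit 0x400070015c000000000000000000000000000000) := T_20 (nat_lit 141) (nat_lit 158) (nat_lit 7) (nat_lit 5) (nat_lit 8) L16713 (by decide +kernel)
theorem L23985 : W_20 (nat_lit 6) (nat_lit 0x24001f000a80000001800080000000000000000000000000000000) (nat_lit 0x0) (nat_lit 0x1000080000000000000000400070015c000000000000000000000000000000) := T_20 (nat_lit 244) (nat_lit 227) (nat_lit 6) (nat_lit 6) (nat_lit 14) L23984 (by decide +kernel)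
theorem L23986 : W_20 (nat_lit 7) (nat_lit 0x20001f000a80000001800080000000000000000000000000000000) (nat_lit 0x0) (nat_lit 0x1000080006000000000000400070015c000000000000000000000000000000) := T_20 (nat_lit 210) (nat_lit 209) (nat_lit 1) (nat_lit 9) (nat_lit 11) L23985 (by decide +kernel)
theorem L23987 : W_20 (nat_lit 8) (nat_lit 0x20001f000280000001800080000000000000000000000000000000) (nat_lit 0x0) (nat_lit 0x1000080006000000180000400070015c000000000000000000000000000000) := T_20 (nat_lit 179) (nat_lit 180) (nat_lit 2) (nat_lit 6) (nat_lit 11) L23986 (by decide +kernel)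
theorem L23988 : W_20 (nat_lit 9) (nat_lit 0x20000f000280000001800080000000000000000000000000000000) (nat_lit 0x0) (nat_lit 0x1000080046001000180000400070015c000000000000000000000000000000) := T_20 (nat_lit 196) (nat_lit 214) (nat_lit 3) (nat_lit 6) (nat_lit 11) L23987 (by decide +kernel)
theorem L23989 : W_20 (nat_lit 10) (nat_lit 0xf000280000001800080000000000000000000000000000000) (nat_lit 0x0) (nat_lit 0x1000080076001000180000400070015c000000000000000000000000000000) := T_20 (nat_lit 213) (nat_lit 212) (nat_lit 3) (nat_lit 5) (nat_lit 11) L23988 (by decide +kernel)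
theorem L23990 : W_20 (nat_lit 11) (nat_lit 0xf000200000001800080000000000000000000000000000000) (nat_lit 0x0) (nat_lit 0x100008007600100018c000400070015c000000000000000000000000000000) := T_20 (nat_lit 175) (nat_lit 174) (nat_lit 0) (nat_lit 8) (nat_lit 11) L23989 (by decide +kernel)
theorem L23991 : W_20 (nat_lit 12) (nat_lit 0xf000200000001000080000000000000000000000000000000) (nat_lit 0x0) (nat_lit 0x100008007600100018c0014000f0015c000000000000000000000000000000) := T_20 (nat_lit 143) (nat_lit 160) (nat_lit 6) (nat_lit 7) (nat_lit 11) L23990 (by decide +kernel)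
theorem L23992 : W_20 (nat_lit 2) (nat_lit 0x22000f000200000001000080000000000000000000000000000000) (nat_lit 0x0) (nat_lit 0x440010000000000000000000000000000000000000000000000000) := D_20 (nat_lit 196) (nat_lit 214) (nat_lit 210) (nat_lit 3) (nat_lit 6) (nat_lit 11) (nat_lit 1) (nat_lit 9) (nat_lit 11) (by decide +kernel)
theorem L23993 : W_20 (nat_lit 3) (nat_lit 0x20000f000200000001000080000000000000000000000000000000) (nat_lit 0x0) (nat_lit 0x470010000000000000000000000000000000000000000000000000) := T_20 (nat_lit 209) (nat_lit 208) (nat_lit 1) (nat_lit 8) (nat_lit 11) L23992 (by decide +kernel)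
theorem L23994 : W_20 (nat_lit 4) (nat_lit 0xf000200000001000080000000000000000000000000000000) (nat_lit 0x0) (nat_lit 0x770010000000000000000000000000000000000000000000000000) := T_20 (nat_lit 213) (nat_lit 212) (nat_lit 3) (nat_lit 5) (nat_lit 11) L23993 (by decide +kernel)
theorem L23995 : W_20 (nat_lit 14) (nat_lit 0x7000200000001000080000000000000000000000000000000) (nat_lit 0x0) (nat_lit 0x54002a00f780388038e001fc00fc017f001400000000000000000000000000) := Q_20 (nat_lit 195) (C_20 L23842 (C_20 L23874 (C_20 L23881 (C_20 L23884 (C_20 L23983 (C_20 L18989 (C_20 L23991 (C_20 L23994 N_20)))))))) (by decide +kernel)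
theorem L23996 : W_20 (nat_lit 2) (nat_lit 0x7000600010001000080000000000000000000000000000000) (nat_lit 0x0) (nat_lit 0x8001800000000000000000000000000000000000000000000) := D_20 (nat_lit 179) (nat_lit 180) (nat_lit 195) (nat_lit 1) (nat_lit 10) (nat_lit 10) (nat_lit 2) (nat_lit 5) (nat_lit 11) (by decide +kernel)
theorem L23997 : W_20 (nat_lit 3) (nat_lit 0x7000200010001000080000000000000000000000000000000) (nat_lit 0x0) (nat_lit 0x8801c00000000000000000000000000000000000000000000) := T_20 (nat_lit 178) (nat_lit 191) (nat_lit 2) (nat_lit 4) (nat_lit 11) L23996 (by decide +kernel)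
theorem L23998 : W_20 (nat_lit 4) (nat_lit 0x7000200000001000080000000000000000000000000000000) (nat_lit 0x0) (nat_lit 0x8801c00010000800000000000000000000000000000000000) := T_20 (nat_lit 160) (nat_lit 143) (nat_lit 6) (nat_lit 7) (nat_lit 11) L23997 (by decide +kernel)
theorem L23999 : W_20 (nat_lit 15) (nat_lit 0x5000200000001000080000000000000000000000000000000) (nat_lit 0x0) (nat_lit 0x54002a00f7c07ac03cf001fc00fc017f001400000000000000000000000000) := Q_20 (nat_lit 193) (C_20 L23859 (C_20 L23864 (C_20 L23868 (C_20 L23995 (C_20 L23998 N_20))))) (by decide +kernel)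
theorem L24000 : W_20 (nat_lit 2) (nat_lit 0x20001f000280000001000080000000000000000000000000000000) (nat_lit 0x0) (nat_lit 0x1c00000000000000000000000000000000000000000000) := D_20 (nat_lit 179) (nat_lit 180) (nat_lit 178) (nat_lit 2) (nat_lit 6) (nat_lit 11) (nat_lit 2) (nat_lit 5) (nat_lit 11) (by decide +kernel)
theorem L24001 : W_20 (nat_lit 3) (nat_lit 0x20000f000280000001000080000000000000000000000000000000) (nat_lit 0x0) (nat_lit 0x400010001c00000000000000000000000000000000000000000000) := T_20 (nat_lit 196) (nat_lit 214) (nat_lit 3) (nat_lit 6) (nat_lit 11) L24000 (by decide +kernel)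
theorem L24002 : W_20 (nat_lit 4) (nat_lit 0x20000f000200000001000080000000000000000000000000000000) (nat_lit 0x0) (nat_lit 0x400010001cc0000000000000000000000000000000000000000000) := T_20 (nat_lit 175) (nat_lit 174) (nat_lit 0) (nat_lit 8) (nat_lit 11) L24001 (by decide +kernel)
theorem L24003 : W_20 (nat_lit 5) (nat_lit 0xf000200000001000080000000000000000000000000000000) (nat_lit 0x0) (nat_lit 0x700010001cc0000000000000000000000000000000000000000000) := T_20 (nat_lit 213) (nat_lit 212) (nat_lit 3) (nat_lit 5) (nat_lit 11) L24002 (by decide +kernel)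
theorem L24004 : W_20 (nat_lit 10) (nat_lit 0x7000200000001000080000000000000000000000000000000) (nat_lit 0x0) (nat_lit 0xf00078007f0018001cc0004000000000000000000000000000000000000000) := Q_20 (nat_lit 195) (C_20 L23994 (C_20 L23822 (C_20 L24003 (C_20 L18989 N_20)))) (by decide +kernel)
theorem L24005 : W_20 (nat_lit 2) (nat_lit 0x84007c002c0000001000080000000000000000000000000000000) (nat_lit 0x0) (nat_lit 0x2000300000000000000000000000000000000000000000000000) := D_20 (nat_lit 189) (nat_lit 205) (nat_lit 188) (nat_lit 1) (nat_lit 5) (nat_lit 11) (nat_lit 2) (nat_lit 1) (nat_lit 11) (by decide +kernel)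
theorem L24006 : W_20 (nat_lit 3) (nat_lit 0x84007c00240000001000080000000000000000000000000000000) (nat_lit 0x0) (nat_lit 0x2008300080000000000000000000000000000000000000000000) := T_20 (nat_lit 175) (nat_lit 195) (nat_lit 0) (nat_lit 8) (nat_lit 11) L24005 (by decide +kernel)
theorem L24007 : W_20 (nat_lit 4) (nat_lit 0x80007c00240000001000080000000000000000000000000000000) (nat_lit 0x0) (nat_lit 0xe008300080000000000000000000000000000000000000000000) := T_20 (nat_lit 206) (nat_lit 207) (nat_lit 1) (nat_lit 6) (nat_lit 11) L24006 (by decide +kernel)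
theorem L24008 : W_20 (nat_lit 5) (nat_lit 0x80007800240000001000080000000000000000000000000000000) (nat_lit 0x0) (nat_lit 0x4e008700080000000000000000000000000000000000000000000) := T_20 (nat_lit 190) (nat_lit 210) (nat_lit 3) (nat_lit 3) (nat_lit 11) L24007 (by decide +kernel)
theorem L24009 : W_20 (nat_lit 6) (nat_lit 0x7800240000001000080000000000000000000000000000000) (nat_lit 0x0) (nat_lit 0x1ce008700080000000000000000000000000000000000000000000) := T_20 (nat_lit 211) (nat_lit 212) (nat_lit 3) (nat_lit 4) (nat_lit 11) L24008 (by decide +kernel)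
theorem L24010 : W_20 (nat_lit 7) (nat_lit 0x7800200000001000080000000000000000000000000000000) (nat_lit 0x0) (nat_lit 0x1ce0087000e0000000000000000000000000000000000000000000) := T_20 (nat_lit 174) (nat_lit 173) (nat_lit 0) (nat_lit 7) (nat_lit 11) L24009 (by decide +kernel)
theorem L24011 : W_20 (nat_lit 2) (nat_lit 0xc000f800240000001000080000000000000000000000000000000) (nat_lit 0x0) (nat_lit 0x30010000000000000000000000000000000000000000000000000) := D_20 (nat_lit 209) (nat_lit 208) (nat_lit 196) (nat_lit 2) (nat_lit 4) (nat_lit 12) (nat_lit 1) (nat_lit 9) (nat_lit 11) (by decide +kernel)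
theorem L24012 : W_20 (nat_lit 3) (nat_lit 0xc0007800240000001000080000000000000000000000000000000) (nat_lit 0x0) (nat_lit 0x30018000080000000000000000000000000000000000000000000) := T_20 (nat_lit 195) (nat_lit 175) (nat_lit 0) (nat_lit 8) (nat_lit 11) L24011 (by decide +kernel)
theorem L24013 : W_20 (nat_lit 4) (nat_lit 0x80007800240000001000080000000000000000000000000000000) (nat_lit 0x0) (nat_lit 0x70018400080000000000000000000000000000000000000000000) := T_20 (nat_lit 210) (nat_lit 190) (nat_lit 3) (nat_lit 3) (nat_lit 11) L24012 (by decide +kernel)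
theorem L24014 : W_20 (nat_lit 5) (nat_lit 0x7800240000001000080000000000000000000000000000000) (nat_lit 0x0) (nat_lit 0x1f0018400080000000000000000000000000000000000000000000) := T_20 (nat_lit 211) (nat_lit 212) (nat_lit 3) (nat_lit 4) (nat_lit 11) L24013 (by decide +kernel)
theorem L24015 : W_20 (nat_lit 6) (nat_lit 0x7800200000001000080000000000000000000000000000000) (nat_lit 0x0) (nat_lit 0x1f00184000e0000000000000000000000000000000000000000000) := T_20 (nat_lit 174) (nat_lit 173) (nat_lit 0) (nat_lit 7) (nat_lit 11) L24014 (by decide +kernel)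
theorem L24016 : W_20 (nat_lit 2) (nat_lit 0xb0007c00210000001000080000000000000000000000000000000) (nat_lit 0x0) (nat_lit 0x300008000000000000000000000000000000000000000000) := D_20 (nat_lit 189) (nat_lit 171) (nat_lit 188) (nat_lit 0) (nat_lit 5) (nat_lit 11) (nat_lit 3) (nat_lit 1) (nat_lit 11) (by decide +kernel)
theorem L24017 : W_20 (nat_lit 3) (nat_lit 0x90007c00210000001000080000000000000000000000000000000) (nat_lit 0x0) (nat_lit 0x20008300008000000000000000000000000000000000000000000) := T_20 (nat_lit 209) (nat_lit 195) (nat_lit 1) (nat_lit 8) (nat_lit 11) L24016 (by decide +kernel)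
theorem L24018 : W_20 (nat_lit 4) (nat_lit 0x90007c00200000001000080000000000000000000000000000000) (nat_lit 0x0) (nat_lit 0x20008300038000000000000000000000000000000000000000000) := T_20 (nat_lit 172) (nat_lit 173) (nat_lit 0) (nat_lit 6) (nat_lit 11) L24017 (by decide +kernel)
theorem L24019 : W_20 (nat_lit 5) (nat_lit 0x90007800200000001000080000000000000000000000000000000) (nat_lit 0x0) (nat_lit 0x60008700038000000000000000000000000000000000000000000) := T_20 (nat_lit 190) (nat_lit 210) (nat_lit 3) (nat_lit 3) (nat_lit 11) L24018 (by decide +kernel)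
theorem L24020 : W_20 (nat_lit 6) (nat_lit 0x10007800200000001000080000000000000000000000000000000) (nat_lit 0x0) (nat_lit 0x1e0008700038000000000000000000000000000000000000000000) := T_20 (nat_lit 211) (nat_lit 212) (nat_lit 3) (nat_lit 4) (nat_lit 11) L24019 (by decide +kernel)
theorem L24021 : W_20 (nat_lit 7) (nat_lit 0x7800200000001000080000000000000000000000000000000) (nat_lit 0x0) (nat_lit 0x1f8008700038000000000000000000000000000000000000000000) := T_20 (nat_lit 208) (nat_lit 207) (nat_lit 1) (nat_lit 7) (nat_lit 11) L24020 (by decide +kernel)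
theorem L24022 : W_20 (nat_lit 2) (nat_lit 0x2000f0007800200000001000080000000000000000000000000000000) (nat_lit 0x0) (nat_lit 0x4000000000000000080004000000000000000000000000000000000000000) := D_20 (nat_lit 175) (nat_lit 158) (nat_lit 242) (nat_lit 5) (nat_lit 5) (nat_lit 9) (nat_lit 6) (nat_lit 4) (nat_lit 14) (by decide +kernel)
theorem L24023 : W_20 (nat_lit 3) (nat_lit 0xf0007800200000001000080000000000000000000000000000000) (nat_lit 0x0) (nat_lit 0x4000300000000000080004000000000000000000000000000000000000000) := T_20 (nat_lit 225) (nat_lit 224) (nat_lit 1) (nat_lit 7) (nat_lit 12) L24022 (by decide +kernel)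
theorem L24024 : W_20 (nat_lit 4) (nat_lit 0xd0007800200000001000080000000000000000000000000000000) (nat_lit 0x0) (nat_lit 0x4000300020008000080004000000000000000000000000000000000000000) := T_20 (nat_lit 209) (nat_lit 195) (nat_lit 2) (nat_lit 4) (nat_lit 12) L24023 (by decide +kernel)
theorem L24025 : W_20 (nat_lit 5) (nat_lit 0x90007800200000001000080000000000000000000000000000000) (nat_lit 0x0) (nat_lit 0x4000300060008400080004000000000000000000000000000000000000000) := T_20 (nat_lit 210) (nat_lit 190) (nat_lit 3) (nat_lit 3) (nat_lit 11) L24024 (by decide +kernel)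
theorem L24026 : W_20 (nat_lit 6) (nat_lit 0x10007800200000001000080000000000000000000000000000000) (nat_lit 0x0) (nat_lit 0x40003001e0008400080004000000000000000000000000000000000000000) := T_20 (nat_lit 211) (nat_lit 212) (nat_lit 3) (nat_lit 4) (nat_lit 11) L24025 (by decide +kernel)
theorem L24027 : W_20 (nat_lit 7) (nat_lit 0x7800200000001000080000000000000000000000000000000) (nat_lit 0x0) (nat_lit 0x40003001f8008400080004000000000000000000000000000000000000000) := T_20 (nat_lit 208) (nat_lit 207) (nat_lit 1) (nat_lit 7) (nat_lit 11) L24026 (by decide +kernel)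
theorem L24028 : W_20 (nat_lit 8) (nat_lit 0x7000200000001000080000000000000000000000000000000) (nat_lit 0x0) (nat_lit 0x40003001fe018f000f8004000000000000000000000000000000000000000) := Q_20 (nat_lit 191) (C_20 L23867 (C_20 L10033 (C_20 L24010 (C_20 L24015 (C_20 L24021 (C_20 L24027 N_20)))))) (by decide +kernel)
theorem L24029 : W_20 (nat_lit 8) (nat_lit 0x7000200000001000080000000000000000000000000000000) (nat_lit 0x0) (nat_lit 0x1ce008f004e0000000000000000000000000000000000000000000) := T_20 (nat_lit 191) (nat_lit 178) (nat_lit 2) (nat_lit 4) (nat_lit 11) L24010 (by decide +kernel)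
theorem L24030 : W_20 (nat_lit 8) (nat_lit 0x7000200000001000080000000000000000000000000000000) (nat_lit 0x0) (nat_lit 0x40003001f8008c00480004000000000000000000000000000000000000000) := T_20 (nat_lit 191) (nat_lit 178) (nat_lit 2) (nat_lit 4) (nat_lit 11) L24027 (by decide +kernel)
theorem L24031 : W_20 (nat_lit 11) (nat_lit 0x5000200000001000080000000000000000000000000000000) (nat_lit 0x0) (nat_lit 0xf4007b007fe01af01cf8004000000000000000000000000000000000000000) := Q_20 (nat_lit 193) (C_20 L24004 (C_20 L10034 (C_20 L24028 (C_20 L23868 (C_20 L24029 (C_20 L24030 N_20)))))) (by decide +kernel)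
theorem L24032 : W_20 (nat_lit 2) (nat_lit 0x80006000a00050002c0004001700080000000000000000000000000000000) (nat_lit 0x0) (nat_lit 0x800140000000000000000000000000000000) := D_20 (nat_lit 143) (nat_lit 126) (nat_lit 128) (nat_lit 2) (nat_lit 4) (nat_lit 8) (nat_lit 2) (nat_lit 5) (nat_lit 8) (by decide +kernel)
theorem L24033 : W_20 (nat_lit 3) (nat_lit 0x80006000a00050002c0004001600080000000000000000000000000000000) (nat_lit 0x0) (nat_lit 0x900148000000000000000000000000000000) := T_20 (nat_lit 140) (nat_lit 123) (nat_lit 4) (nat_lit 5) (nat_lit 11) L24032 (by decide +kernel)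
theorem L24034 : W_20 (nat_lit 4) (nat_lit 0x80006000a00050002c0004001400080000000000000000000000000000000) (nat_lit 0x0) (nat_lit 0xb00168000000000000000000000000000000) := T_20 (nat_lit 141) (nat_lit 125) (nat_lit 6) (nat_lit 5) (nat_lit 11) L24033 (by decide +kernel)
theorem L24035 : W_20 (nat_lit 5) (nat_lit 0x80006000a00050002c0004001000080000000000000000000000000000000) (nat_lit 0x0) (nat_lit 0x8000f00168000000000000000000000000000000) := T_20 (nat_lit 142) (nat_lit 159) (nat_lit 6) (nat_lit 5) (nat_lit 12) L24034 (by decide +kernel)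
theorem L24036 : W_20 (nat_lit 6) (nat_lit 0x6000a00050002c0004001000080000000000000000000000000000000) (nat_lit 0x0) (nat_lit 0x8000000000000800000008000f00168000000000000000000000000000000) := T_20 (nat_lit 243) (nat_lit 191) (nat_lit 4) (nat_lit 5) (nat_lit 14) L24035 (by decide +kernel)
theorem L24037 : W_20 (nat_lit 7) (nat_lit 0x6000a00050002c0000001000080000000000000000000000000000000) (nat_lit 0x0) (nat_lit 0x800000001000080000000c000f00168000000000000000000000000000000) := T_20 (nat_lit 158) (nat_lit 208) (nat_lit 5) (nat_lit 5) (nat_lit 9) L24036 (by decide +kernel)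
theorem L24038 : W_20 (nat_lit 8) (nat_lit 0x4000a00050002c0000001000080000000000000000000000000000000) (nat_lit 0x0) (nat_lit 0xc00020001000080000000c000f00168000000000000000000000000000000) := T_20 (nat_lit 225) (nat_lit 242) (nat_lit 5) (nat_lit 5) (nat_lit 10) L24037 (by decide +kernel)
theorem L24039 : W_20 (nat_lit 9) (nat_lit 0x4000a0005000280000001000080000000000000000000000000000000) (nat_lit 0x0) (nat_lit 0xc00020001000080004000e000f00168000000000000000000000000000000) := T_20 (nat_lit 174) (nat_lit 157) (nat_lit 4) (nat_lit 5) (nat_lit 13) L24038 (by decide +kernel)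
theorem L24040 : W_20 (nat_lit 2) (nat_lit 0x80006800e00050002c0004001600088000000000000000000000000000000) (nat_lit 0x0) (nat_lit 0x800010000400000000000000000000000000) := D_20 (nat_lit 124) (nat_lit 106) (nat_lit 143) (nat_lit 4) (nat_lit 5) (nat_lit 10) (nat_lit 0) (nat_lit 8) (nat_lit 8) (by decide +kernel)
theorem L24041 : W_20 (nat_lit 3) (nat_lit 0x80006800e00050002c0004001600080000000000000000000000000000000) (nat_lit 0x0) (nat_lit 0x900018000400000000000000000000000000) := T_20 (nat_lit 123) (nat_lit 140) (nat_lit 4) (nat_lit 5) (nat_lit 11) L24040 (by decide +kernel)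
theorem L24042 : W_20 (nat_lit 4) (nat_lit 0x80006800e00050002c0004001400080000000000000000000000000000000) (nat_lit 0x0) (nat_lit 0xb00038000400000000000000000000000000) := T_20 (nat_lit 141) (nat_lit 125) (nat_lit 6) (nat_lit 5) (nat_lit 11) L24041 (by decide +kernel)
theorem L24043 : W_20 (nat_lit 5) (nat_lit 0x80006800e00050002c0004001000080000000000000000000000000000000) (nat_lit 0x0) (nat_lit 0x8000f00038000400000000000000000000000000) := T_20 (nat_lit 142) (nat_lit 159) (nat_lit 6) (nat_lit 5) (nat_lit 12) L24042 (by decide +kernel)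
theorem L24044 : W_20 (nat_lit 6) (nat_lit 0x80006000e00050002c0004001000080000000000000000000000000000000) (nat_lit 0x0) (nat_lit 0x180000000000000008000f00038000400000000000000000000000000) := T_20 (nat_lit 223) (nat_lit 224) (nat_lit 2) (nat_lit 2) (nat_lit 13) L24043 (by decide +kernel)
theorem L24045 : W_20 (nat_lit 7) (nat_lit 0x80006000a00050002c0004001000080000000000000000000000000000000) (nat_lit 0x0) (nat_lit 0x980040000000000008000f00038000400000000000000000000000000) := T_20 (nat_lit 210) (nat_lit 227) (nat_lit 7) (nat_lit 5) (nat_lit 9) L24044 (by decide +kernel)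
theorem L24046 : W_20 (nat_lit 8) (nat_lit 0x6000a00050002c0004001000080000000000000000000000000000000) (nat_lit 0x0) (nat_lit 0x8000980040000800000008000f00038000400000000000000000000000000) := T_20 (nat_lit 243) (nat_lit 191) (nat_lit 4) (nat_lit 5) (nat_lit 14) L24045 (by decide +kernel)
theorem L24047 : W_20 (nat_lit 9) (nat_lit 0x6000a00050002c0000001000080000000000000000000000000000000) (nat_lit 0x0) (nat_lit 0x800098005000080000000c000f00038000400000000000000000000000000) := T_20 (nat_lit 158) (nat_lit 208) (nat_lit 5) (nat_lit 5) (nat_lit 9) L24046 (by decide +kernel)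
theorem L24048 : W_20 (nat_lit 10) (nat_lit 0x4000a00050002c0000001000080000000000000000000000000000000) (nat_lit 0x0) (nat_lit 0xc000b8005000080000000c000f00038000400000000000000000000000000) := T_20 (nat_lit 225) (nat_lit 242) (nat_lit 5) (nat_lit 5) (nat_lit 10) L24047 (by decide +kernel)
theorem L24049 : W_20 (nat_lit 11) (nat_lit 0x4000a0005000280000001000080000000000000000000000000000000) (nat_lit 0x0) (nat_lit 0xc000b8005000080004000e000f00038000400000000000000000000000000) := T_20 (nat_lit 174) (nat_lit 157) (nat_lit 4) (nat_lit 5) (nat_lit 13) L24048 (by decide +kernel)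
theorem L24050 : W_20 (nat_lit 2) (nat_lit 0x6800e0005a002c0004001700080000000000000000000000000000000) (nat_lit 0x0) (nat_lit 0x800140000000000000000000000000000000) := D_20 (nat_lit 143) (nat_lit 126) (nat_lit 128) (nat_lit 2) (nat_lit 4) (nat_lit 8) (nat_lit 2) (nat_lit 5) (nat_lit 8) (by decide +kernel)
theorem L24051 : W_20 (nat_lit 3) (nat_lit 0x6800e0005a002c0004001600080000000000000000000000000000000) (nat_lit 0x0) (nat_lit 0x900148000000000000000000000000000000) := T_20 (nat_lit 140) (nat_lit 123) (nat_lit 4) (nat_lit 5) (nat_lit 11) L24050 (by decide +kernel)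
theorem L24052 : W_20 (nat_lit 4) (nat_lit 0x6800e0005a002c0004001200080000000000000000000000000000000) (nat_lit 0x0) (nat_lit 0x8000d00148000000000000000000000000000000) := T_20 (nat_lit 142) (nat_lit 159) (nat_lit 6) (nat_lit 5) (nat_lit 12) L24051 (by decide +kernel)
theorem L24053 : W_20 (nat_lit 5) (nat_lit 0x6800e0005a002c0004001000080000000000000000000000000000000) (nat_lit 0x0) (nat_lit 0x8000f00158000000000000000000000000000000) := T_20 (nat_lit 141) (nat_lit 124) (nat_lit 5) (nat_lit 5) (nat_lit 7) L24052 (by decide +kernel)
theorem L24054 : W_20 (nat_lit 6) (nat_lit 0x6000e0005a002c0004001000080000000000000000000000000000000) (nat_lit 0x0) (nat_lit 0x180000000000000008000f00158000000000000000000000000000000) := T_20 (nat_lit 223) (nat_lit 224) (nat_lit 2) (nat_lit 2) (nat_lit 13) L24053 (by decide +kernel)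
theorem L24055 : W_20 (nat_lit 7) (nat_lit 0x6000e00058002c0004001000080000000000000000000000000000000) (nat_lit 0x0) (nat_lit 0x180000000600000008000f00158000000000000000000000000000000) := T_20 (nat_lit 189) (nat_lit 190) (nat_lit 3) (nat_lit 2) (nat_lit 11) L24054 (by decide +kernel)
theorem L24056 : W_20 (nat_lit 8) (nat_lit 0x6000a00058002c0004001000080000000000000000000000000000000) (nat_lit 0x0) (nat_lit 0x980040000600000008000f00158000000000000000000000000000000) := T_20 (nat_lit 210) (nat_lit 227) (nat_lit 7) (nat_lit 5) (nat_lit 9) L24055 (by decide +kernel)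
theorem L24057 : W_20 (nat_lit 9) (nat_lit 0x6000a00050002c0004001000080000000000000000000000000000000) (nat_lit 0x0) (nat_lit 0x8000980040000e00000008000f00158000000000000000000000000000000) := T_20 (nat_lit 191) (nat_lit 243) (nat_lit 4) (nat_lit 5) (nat_lit 14) L24056 (by decide +kernel)
theorem L24058 : W_20 (nat_lit 10) (nat_lit 0x6000a00050002c0000001000080000000000000000000000000000000) (nat_lit 0x0) (nat_lit 0x8000980050000e0000000c000f00158000000000000000000000000000000) := T_20 (nat_lit 158) (nat_lit 208) (nat_lit 5) (nat_lit 5) (nat_lit 9) L24057 (by decide +kernel)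
theorem L24059 : W_20 (nat_lit 11) (nat_lit 0x4000a00050002c0000001000080000000000000000000000000000000) (nat_lit 0x0) (nat_lit 0xc000b80050000e0000000c000f00158000000000000000000000000000000) := T_20 (nat_lit 225) (nat_lit 242) (nat_lit 5) (nat_lit 5) (nat_lit 10) L24058 (by decide +kernel)
theorem L24060 : W_20 (nat_lit 12) (nat_lit 0x4000a0005000280000001000080000000000000000000000000000000) (nat_lit 0x0) (nat_lit 0xc000b80050000e0004000e000f00158000000000000000000000000000000) := T_20 (nat_lit 174) (nat_lit 157) (nat_lit 4) (nat_lit 5) (nat_lit 13) L24059 (by decide +kernel)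
theorem L24061 : W_20 (nat_lit 2) (nat_lit 0x6000b00050002c0000001000080000000000000000000000000000000) (nat_lit 0x0) (nat_lit 0x100040008000000000000000000000000000000000000000000000000) := D_20 (nat_lit 210) (nat_lit 195) (nat_lit 224) (nat_lit 2) (nat_lit 4) (nat_lit 12) (nat_lit 1) (nat_lit 7) (nat_lit 12) (by decide +kernel)
theorem L24062 : W_20 (nat_lit 3) (nat_lit 0x6000a00050002c0000001000080000000000000000000000000000000) (nat_lit 0x0) (nat_lit 0x100050008000000004000000000000000000000000000000000000000) := T_20 (nat_lit 208) (nat_lit 158) (nat_lit 5) (nat_lit 5) (nat_lit 9) L24061 (by decide +kernel)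
theorem L24063 : W_20 (nat_lit 4) (nat_lit 0x4000a00050002c0000001000080000000000000000000000000000000) (nat_lit 0x0) (nat_lit 0x4000300050008000000004000000000000000000000000000000000000000) := T_20 (nat_lit 225) (nat_lit 242) (nat_lit 5) (nat_lit 5) (nat_lit 10) L24062 (by decide +kernel)
theorem L24064 : W_20 (nat_lit 5) (nat_lit 0x4000a0005000280000001000080000000000000000000000000000000) (nat_lit 0x0) (nat_lit 0x4000300050008000040006000000000000000000000000000000000000000) := T_20 (nat_lit 174) (nat_lit 157) (nat_lit 4) (nat_lit 5) (nat_lit 13) L24063 (by decide +kernel)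
theorem L24065 : W_20 (nat_lit 2) (nat_lit 0x40004000a00050002c0000001000080000000000000000000000000000000) (nat_lit 0x0) (nat_lit 0x80008000000000000800000000000000000000000000000000000000000000000) := D_20 (nat_lit 243) (nat_lit 191) (nat_lit 259) (nat_lit 4) (nat_lit 5) (nat_lit 14) (nat_lit 5) (nat_lit 5) (nat_lit 11) (by decide +kernel)
theorem L24066 : W_20 (nat_lit 3) (nat_lit 0x4000a00050002c0000001000080000000000000000000000000000000) (nat_lit 0x0) (nat_lit 0x8000c000200000000800000000000000000000000000000000000000000000000) := T_20 (nat_lit 242) (nat_lit 225) (nat_lit 5) (nat_lit 5) (nat_lit 10) L24065 (by decide +kernel)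
theorem L24067 : W_20 (nat_lit 4) (nat_lit 0x4000a0005000280000001000080000000000000000000000000000000) (nat_lit 0x0) (nat_lit 0x8000c000200000000800040002000000000000000000000000000000000000000) := T_20 (nat_lit 174) (nat_lit 157) (nat_lit 4) (nat_lit 5) (nat_lit 13) L24066 (by decide +kernel)
theorem L24068 : W_20 (nat_lit 2) (nat_lit 0x4000f000500028000e001000080000000000000000000000000000000) (nat_lit 0x0) (nat_lit 0xc00000000000200000000000000000000000000000000000) := D_20 (nat_lit 191) (nat_lit 190) (nat_lit 141) (nat_lit 0) (nat_lit 7) (nat_lit 12) (nat_lit 5) (nat_lit 5) (nat_lit 8) (by decide +kernel)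
theorem L24069 : W_20 (nat_lit 3) (nat_lit 0x4000e000500028000e001000080000000000000000000000000000000) (nat_lit 0x0) (nat_lit 0x10008c00000000000200000000000000000000000000000000000) := T_20 (nat_lit 208) (nat_lit 195) (nat_lit 2) (nat_lit 4) (nat_lit 12) L24068 (by decide +kernel)
theorem L24070 : W_20 (nat_lit 4) (nat_lit 0x4000a000500028000e001000080000000000000000000000000000000) (nat_lit 0x0) (nat_lit 0x800050008c00000000000200000000000000000000000000000000000) := T_20 (nat_lit 210) (nat_lit 227) (nat_lit 7) (nat_lit 5) (nat_lit 9) L24069 (by decide +kernel)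
theorem L24071 : W_20 (nat_lit 5) (nat_lit 0x4000a0005000280006001000080000000000000000000000000000000) (nat_lit 0x0) (nat_lit 0x800050008c00000008000600000000000000000000000000000000000) := T_20 (nat_lit 159) (nat_lit 142) (nat_lit 6) (nat_lit 5) (nat_lit 12) L24070 (by decide +kernel)
theorem L24072 : W_20 (nat_lit 6) (nat_lit 0x4000a0005000280002001000080000000000000000000000000000000) (nat_lit 0x0) (nat_lit 0x800050008c0000000c000700000000000000000000000000000000000) := T_20 (nat_lit 158) (nat_lit 140) (nat_lit 4) (nat_lit 5) (nat_lit 12) L24071 (by decide +kernel)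
theorem L24073 : W_20 (nat_lit 7) (nat_lit 0x4000a0005000280000001000080000000000000000000000000000000) (nat_lit 0x0) (nat_lit 0x800050008c0004000e000700000000000000000000000000000000000) := T_20 (nat_lit 157) (nat_lit 174) (nat_lit 4) (nat_lit 5) (nat_lit 13) L24072 (by decide +kernel)
theorem L24074 : W_20 (nat_lit 2) (nat_lit 0x6800e0005000280006001400080000000000000000000000000000000) (nat_lit 0x0) (nat_lit 0xa00020000000000000000000000000000000) := D_20 (nat_lit 141) (nat_lit 125) (nat_lit 143) (nat_lit 6) (nat_lit 5) (nat_lit 11) (nat_lit 1) (nat_lit 8) (nat_lit 8) (by decide +kernel)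
theorem L24075 : W_20 (nat_lit 3) (nat_lit 0x6800e0005000280006001000080000000000000000000000000000000) (nat_lit 0x0) (nat_lit 0x8000e00020000000000000000000000000000000) := T_20 (nat_lit 142) (nat_lit 159) (nat_lit 6) (nat_lit 5) (nat_lit 12) L24074 (by decide +kernel)
theorem L24076 : W_20 (nat_lit 4) (nat_lit 0x6000e0005000280006001000080000000000000000000000000000000) (nat_lit 0x0) (nat_lit 0x180000000000000008000e00020000000000000000000000000000000) := T_20 (nat_lit 223) (nat_lit 224) (nat_lit 2) (nat_lit 2) (nat_lit 13) L24075 (by decide +kernel)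
theorem L24077 : W_20 (nat_lit 5) (nat_lit 0x6000a0005000280006001000080000000000000000000000000000000) (nat_lit 0x0) (nat_lit 0x980040000000000008000e00020000000000000000000000000000000) := T_20 (nat_lit 210) (nat_lit 227) (nat_lit 7) (nat_lit 5) (nat_lit 9) L24076 (by decide +kernel)
theorem L24078 : W_20 (nat_lit 6) (nat_lit 0x6000a0005000280004001000080000000000000000000000000000000) (nat_lit 0x0) (nat_lit 0x98004000000000000a000f00020000000000000000000000000000000) := T_20 (nat_lit 157) (nat_lit 140) (nat_lit 4) (nat_lit 5) (nat_lit 12) L24077 (by decide +kernel)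
theorem L24079 : W_20 (nat_lit 7) (nat_lit 0x6000a0005000280000001000080000000000000000000000000000000) (nat_lit 0x0) (nat_lit 0x98005000000000000e000f00020000000000000000000000000000000) := T_20 (nat_lit 158) (nat_lit 208) (nat_lit 5) (nat_lit 5) (nat_lit 9) L24078 (by decide +kernel)
theorem L24080 : W_20 (nat_lit 8) (nat_lit 0x4000a0005000280000001000080000000000000000000000000000000) (nat_lit 0x0) (nat_lit 0x4000b8005000000000000e000f00020000000000000000000000000000000) := T_20 (nat_lit 225) (nat_lit 242) (nat_lit 5) (nat_lit 5) (nat_lit 10) L24079 (by decide +kernel)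
theorem L24081 : W_20 (nat_lit 2) (nat_lit 0x6800e0005000280004001700080000000000000000000000000000000) (nat_lit 0x0) (nat_lit 0x800140000000000000000000000000000000) := D_20 (nat_lit 143) (nat_lit 126) (nat_lit 128) (nat_lit 2) (nat_lit 4) (nat_lit 8) (nat_lit 2) (nat_lit 5) (nat_lit 8) (by decide +kernel)
theorem L24082 : W_20 (nat_lit 3) (nat_lit 0x6800e0005000280004001600080000000000000000000000000000000) (nat_lit 0x0) (nat_lit 0x900148000000000000000000000000000000) := T_20 (nat_lit 140) (nat_lit 123) (nat_lit 4) (nat_lit 5) (nat_lit 11) L24081 (by decide +kernel)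
theorem L24083 : W_20 (nat_lit 4) (nat_lit 0x6800e0005000280004001400080000000000000000000000000000000) (nat_lit 0x0) (nat_lit 0xb00168000000000000000000000000000000) := T_20 (nat_lit 141) (nat_lit 125) (nat_lit 6) (nat_lit 5) (nat_lit 11) L24082 (by decide +kernel)
theorem L24084 : W_20 (nat_lit 5) (nat_lit 0x6000e0005000280004001400080000000000000000000000000000000) (nat_lit 0x0) (nat_lit 0x180000000000000000000b00168000000000000000000000000000000) := T_20 (nat_lit 223) (nat_lit 224) (nat_lit 2) (nat_lit 2) (nat_lit 13) L24083 (by decide +kernel)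
theorem L24085 : W_20 (nat_lit 6) (nat_lit 0x6000a0005000280004001400080000000000000000000000000000000) (nat_lit 0x0) (nat_lit 0x980040000000000000000b00168000000000000000000000000000000) := T_20 (nat_lit 210) (nat_lit 227) (nat_lit 7) (nat_lit 5) (nat_lit 9) L24084 (by decide +kernel)
theorem L24086 : W_20 (nat_lit 7) (nat_lit 0x6000a0005000280004001000080000000000000000000000000000000) (nat_lit 0x0) (nat_lit 0x980040000000000008000f00168000000000000000000000000000000) := T_20 (nat_lit 142) (nat_lit 159) (nat_lit 6) (nat_lit 5) (nat_lit 12) L24085 (by decide +kernel)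
theorem L24087 : W_20 (nat_lit 8) (nat_lit 0x6000a0005000280000001000080000000000000000000000000000000) (nat_lit 0x0) (nat_lit 0x98005000000000000c000f00168000000000000000000000000000000) := T_20 (nat_lit 158) (nat_lit 208) (nat_lit 5) (nat_lit 5) (nat_lit 9) L24086 (by decide +kernel)
theorem L24088 : W_20 (nat_lit 9) (nat_lit 0x4000a0005000280000001000080000000000000000000000000000000) (nat_lit 0x0) (nat_lit 0x4000b8005000000000000c000f00168000000000000000000000000000000) := T_20 (nat_lit 225) (nat_lit 242) (nat_lit 5) (nat_lit 5) (nat_lit 10) L24087 (by decide +kernel)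
theorem L24089 : W_20 (nat_lit 13) (nat_lit 0x4000a0005000200000001000080000000000000000000000000000000) (nat_lit 0x0) (nat_lit 0x8000c000b80050008e000c000e000f00178000400000000000000000000000000) := Q_20 (nat_lit 175) (C_20 L24039 (C_20 L24049 (C_20 L24060 (C_20 L24064 (C_20 L24067 (C_20 L24073 (C_20 L24080 (C_20 L24088 N_20)))))))) (by decide +kernel)
theorem L24090 : W_20 (nat_lit 2) (nat_lit 0x1000180004000a0005800200000001000080000000000000000000000000000000) (nat_lit 0x0) (nat_lit 0x1000080004000000000000000000000000000000000000000000000000000000000000) := D_20 (nat_lit 259) (nat_lit 242) (nat_lit 276) (nat_lit 5) (nat_lit 5) (nat_lit 11) (nat_lit 5) (nat_lit 5) (nat_lit 12) (by decide +kernel)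
theorem L24091 : W_20 (nat_lit 3) (nat_lit 0x180004000a0005800200000001000080000000000000000000000000000000) (nat_lit 0x0) (nat_lit 0x1000180004000000010000000000000000000000000000000000000000000000000000) := T_20 (nat_lit 260) (nat_lit 208) (nat_lit 4) (nat_lit 5) (nat_lit 15) L24090 (by decide +kernel)
theorem L24092 : W_20 (nat_lit 4) (nat_lit 0x80004000a0005800200000001000080000000000000000000000000000000) (nat_lit 0x0) (nat_lit 0x1000380014000000010000000000000000000000000000000000000000000000000000) := T_20 (nat_lit 244) (nat_lit 261) (nat_lit 7) (nat_lit 5) (nat_lit 11) L24091 (by decide +kernel)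
theorem L24093 : W_20 (nat_lit 5) (nat_lit 0x80004000a0005000200000001000080000000000000000000000000000000) (nat_lit 0x0) (nat_lit 0x1000380014000000010000800040000000000000000000000000000000000000000000) := T_20 (nat_lit 191) (nat_lit 174) (nat_lit 4) (nat_lit 5) (nat_lit 14) L24092 (by decide +kernel)
theorem L24094 : W_20 (nat_lit 2) (nat_lit 0xc0004000a0005000280000001000080000000000000000000000000000000) (nat_lit 0x0) (nat_lit 0x800040002000000000000000000000000000000000000000) := D_20 (nat_lit 174) (nat_lit 157) (nat_lit 191) (nat_lit 4) (nat_lit 5) (nat_lit 13) (nat_lit 4) (nat_lit 5) (nat_lit 14) (by decide +kernel)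
theorem L24095 : W_20 (nat_lit 3) (nat_lit 0xc0004000a0005000200000001000080000000000000000000000000000000) (nat_lit 0x0) (nat_lit 0x2000000008000c0002000000000000000000000000000000000000000) := T_20 (nat_lit 175) (nat_lit 225) (nat_lit 5) (nat_lit 5) (nat_lit 10) L24094 (by decide +kernel)
theorem L24096 : W_20 (nat_lit 4) (nat_lit 0x80004000a0005000200000001000080000000000000000000000000000000) (nat_lit 0x0) (nat_lit 0x800040002000000008000c0002000000000000000000000000000000000000000) := T_20 (nat_lit 242) (nat_lit 259) (nat_lit 5) (nat_lit 5) (nat_lit 11) L24095 (by decide +kernel)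
theorem L24097 : W_20 (nat_lit 2) (nat_lit 0x1c0004000a0005000280006001400080000000000000000000000000000000) (nat_lit 0x0) (nat_lit 0xa00020000000000000000000000000000000) := D_20 (nat_lit 141) (nat_lit 125) (nat_lit 143) (nat_lit 6) (nat_lit 5) (nat_lit 11) (nat_lit 1) (nat_lit 8) (nat_lit 8) (by decide +kernel)
theorem L24098 : W_20 (nat_lit 3) (nat_lit 0x1c0004000a0005000280006001000080000000000000000000000000000000) (nat_lit 0x0) (nat_lit 0x8000e00020000000000000000000000000000000) := T_20 (nat_lit 142) (nat_lit 159) (nat_lit 6) (nat_lit 5) (nat_lit 12) L24097 (by decide +kernel)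
theorem L24099 : W_20 (nat_lit 4) (nat_lit 0x1c0004000a0005000280002001000080000000000000000000000000000000) (nat_lit 0x0) (nat_lit 0xc000f00020000000000000000000000000000000) := T_20 (nat_lit 158) (nat_lit 140) (nat_lit 4) (nat_lit 5) (nat_lit 12) L24098 (by decide +kernel)
theorem L24100 : W_20 (nat_lit 5) (nat_lit 0x1c0004000a0005000280000001000080000000000000000000000000000000) (nat_lit 0x0) (nat_lit 0x4000e000f00020000000000000000000000000000000) := T_20 (nat_lit 157) (nat_lit 174) (nat_lit 4) (nat_lit 5) (nat_lit 13) L24099 (by decide +kernel)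
theorem L24101 : W_20 (nat_lit 6) (nat_lit 0x1c0004000a0005000200000001000080000000000000000000000000000000) (nat_lit 0x0) (nat_lit 0x2000000000000c000e000f00020000000000000000000000000000000) := T_20 (nat_lit 175) (nat_lit 225) (nat_lit 5) (nat_lit 5) (nat_lit 10) L24100 (by decide +kernel)
theorem L24102 : W_20 (nat_lit 7) (nat_lit 0x180004000a0005000200000001000080000000000000000000000000000000) (nat_lit 0x0) (nat_lit 0x800040002000000000000c000e000f00020000000000000000000000000000000) := T_20 (nat_lit 242) (nat_lit 259) (nat_lit 5) (nat_lit 5) (nat_lit 11) L24101 (by decide +kernel)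
theorem L24103 : W_20 (nat_lit 8) (nat_lit 0x80004000a0005000200000001000080000000000000000000000000000000) (nat_lit 0x0) (nat_lit 0x2800140002000000000000c000e000f00020000000000000000000000000000000) := T_20 (nat_lit 244) (nat_lit 261) (nat_lit 7) (nat_lit 5) (nat_lit 11) L24102 (by decide +kernel)
theorem L24104 : W_20 (nat_lit 2) (nat_lit 0x1c0006000a0005000200000001000080000000000000000000000000000000) (nat_lit 0x0) (nat_lit 0x20000180000000000000000000000000000000000000000000000000000000) := D_20 (nat_lit 224) (nat_lit 223) (nat_lit 245) (nat_lit 3) (nat_lit 2) (nat_lit 13) (nat_lit 0) (nat_lit 7) (nat_lit 14) (by decide +kernel)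
theorem L24105 : W_20 (nat_lit 3) (nat_lit 0xc0006000a0005000200000001000080000000000000000000000000000000) (nat_lit 0x0) (nat_lit 0x200030000180000000000000000000000000000000000000000000000000000000) := T_20 (nat_lit 244) (nat_lit 261) (nat_lit 7) (nat_lit 5) (nat_lit 11) L24104 (by decide +kernel)
theorem L24106 : W_20 (nat_lit 4) (nat_lit 0xc0004000a0005000200000001000080000000000000000000000000000000) (nat_lit 0x0) (nat_lit 0x200030000380000000000080000000000000000000000000000000000000000000) := T_20 (nat_lit 225) (nat_lit 175) (nat_lit 5) (nat_lit 5) (nat_lit 10) L24105 (by decide +kernel)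
theorem L24107 : W_20 (nat_lit 5) (nat_lit 0x80004000a0005000200000001000080000000000000000000000000000000) (nat_lit 0x0) (nat_lit 0x280034000380000000000080000000000000000000000000000000000000000000) := T_20 (nat_lit 242) (nat_lit 259) (nat_lit 5) (nat_lit 5) (nat_lit 11) L24106 (by decide +kernel)
theorem L24108 : W_20 (nat_lit 2) (nat_lit 0x180004000b0005800200000001000080000000000000000000000000000000) (nat_lit 0x0) (nat_lit 0x40008400000000000000000000000000000000000000000000000) := D_20 (nat_lit 210) (nat_lit 195) (nat_lit 190) (nat_lit 2) (nat_lit 4) (nat_lit 12) (nat_lit 0) (nat_lit 7) (nat_lit 12) (by decide +kernel)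
theorem L24109 : W_20 (nat_lit 3) (nat_lit 0x180004000a0005800200000001000080000000000000000000000000000000) (nat_lit 0x0) (nat_lit 0x100000000000050008400000000000000000000000000000000000000000000000) := T_20 (nat_lit 208) (nat_lit 260) (nat_lit 4) (nat_lit 5) (nat_lit 15) L24108 (by decide +kernel)
theorem L24110 : W_20 (nat_lit 4) (nat_lit 0x180004000a0005000200000001000080000000000000000000000000000000) (nat_lit 0x0) (nat_lit 0x100000000000050008c00040000000000000000000000000000000000000000000) := T_20 (nat_lit 191) (nat_lit 174) (nat_lit 4) (nat_lit 5) (nat_lit 14) L24109 (by decide +kernel)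
theorem L24111 : W_20 (nat_lit 5) (nat_lit 0x80004000a0005000200000001000080000000000000000000000000000000) (nat_lit 0x0) (nat_lit 0x300010000000050008c00040000000000000000000000000000000000000000000) := T_20 (nat_lit 244) (nat_lit 261) (nat_lit 7) (nat_lit 5) (nat_lit 11) L24110 (by decide +kernel)
theorem L24112 : W_20 (nat_lit 9) (nat_lit 0x4000a0005000200000001000080000000000000000000000000000000) (nat_lit 0x0) (nat_lit 0x100038003c000380050008c000c000e000f00020000000000000000000000000000000) := Q_20 (nat_lit 243) (C_20 L24093 (C_20 L24096 (C_20 L24103 (C_20 L24107 (C_20 L24111 N_20))))) (by decide +kernel)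
theorem L24113 : W_20 (nat_lit 2) (nat_lit 0x100014000a0005000200000001000080000000000000000000000000000000) (nat_lit 0x0) (nat_lit 0x200028000000000000000000000000000000000000000000000000000000000000) := D_20 (nat_lit 261) (nat_lit 243) (nat_lit 245) (nat_lit 7) (nat_lit 5) (nat_lit 11) (nat_lit 5) (nat_lit 7) (nat_lit 11) (by decide +kernel)
theorem L24114 : W_20 (nat_lit 3) (nat_lit 0x100004000a0005000200000001000080000000000000000000000000000000) (nat_lit 0x0) (nat_lit 0x200028001800000000000000000000000000000000000000000000000000000000) := T_20 (nat_lit 228) (nat_lit 227) (nat_lit 5) (nat_lit 7) (nat_lit 10) L24113 (by decide +kernel)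
theorem L24115 : W_20 (nat_lit 8) (nat_lit 0x100004000a0005000200000001000080000000000000000000000000000000) (nat_lit 0x0) (nat_lit 0x28000c0002000000000000c000e000f00020000000000000000000000000000000) := T_20 (nat_lit 243) (nat_lit 261) (nat_lit 7) (nat_lit 5) (nat_lit 11) L24102 (by decide +kernel)
theorem L24116 : W_20 (nat_lit 2) (nat_lit 0x100004000a0005000200000001000080000000000000000000000000000000) (nat_lit 0x0) (nat_lit 0x1800000000000080000000000000000000000000000000000000000000) := D_20 (nat_lit 227) (nat_lit 175) (nat_lit 228) (nat_lit 7) (nat_lit 5) (nat_lit 10) (nat_lit 5) (nat_lit 7) (nat_lit 10) (by decide +kernel)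
theorem L24117 : W_20 (nat_lit 9) (nat_lit 0x4000a0005000200000001000080000000000000000000000000000000) (nat_lit 0x0) (nat_lit 0x28003c001a000000000000c000e000f00020000000000000000000000000000000) := Q_20 (nat_lit 244) (C_20 L24114 (C_20 L24115 (C_20 L24116 N_20))) (by decide +kernel)
theorem L24118 : W_20 (nat_lit 2) (nat_lit 0x100006000a0005000280004001000080000000000000000000000000000000) (nat_lit 0x0) (nat_lit 0x40002000100000000000000000000000000000000000) := D_20 (nat_lit 157) (nat_lit 140) (nat_lit 174) (nat_lit 4) (nat_lit 5) (nat_lit 12) (nat_lit 4) (nat_lit 5) (nat_lit 13) (by decide +kernel)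
theorem L24119 : W_20 (nat_lit 3) (nat_lit 0x100006000a0005000280000001000080000000000000000000000000000000) (nat_lit 0x0) (nat_lit 0x10000000040006000100000000000000000000000000000000000) := T_20 (nat_lit 158) (nat_lit 208) (nat_lit 5) (nat_lit 5) (nat_lit 9) L24118 (by decide +kernel)
theorem L24120 : W_20 (nat_lit 4) (nat_lit 0x100004000a0005000280000001000080000000000000000000000000000000) (nat_lit 0x0) (nat_lit 0x4000200010000000040006000100000000000000000000000000000000000) := T_20 (nat_lit 225) (nat_lit 242) (nat_lit 5) (nat_lit 5) (nat_lit 10) L24119 (by decide +kernel)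
theorem L24121 : W_20 (nat_lit 5) (nat_lit 0x100004000a0005000200000001000080000000000000000000000000000000) (nat_lit 0x0) (nat_lit 0x4000a000100000000c0006000100000000000000000000000000000000000) := T_20 (nat_lit 175) (nat_lit 227) (nat_lit 7) (nat_lit 5) (nat_lit 10) L24120 (by decide +kernel)
theorem L24122 : W_20 (nat_lit 5) (nat_lit 0x100004000a0005000200000001000080000000000000000000000000000000) (nat_lit 0x0) (nat_lit 0x300008000000050008c00040000000000000000000000000000000000000000000) := T_20 (nat_lit 243) (nat_lit 261) (nat_lit 7) (nat_lit 5) (nat_lit 11) L24110 (by decide +kernel)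
theorem L24123 : W_20 (nat_lit 6) (nat_lit 0x4000a0005000200000001000080000000000000000000000000000000) (nat_lit 0x0) (nat_lit 0x30003c001a00050008c000c0006000100000000000000000000000000000000000) := Q_20 (nat_lit 244) (C_20 L24114 (C_20 L24116 (C_20 L24121 (C_20 L24122 N_20)))) (by decide +kernel)
theorem L24124 : W_20 (nat_lit 6) (nat_lit 0x4000a0005000200000001000080000000000000000000000000000000) (nat_lit 0x0) (nat_lit 0x300018001800050008c000c0000000000000000000000000000000000000000000) := Q_20 (nat_lit 244) (C_20 L24122 (C_20 L24116 N_20)) (by decide +kernel)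
theorem L24125 : W_20 (nat_lit 2) (nat_lit 0xc0004000b0005800200000001000080000000000000000000000000000000) (nat_lit 0x0) (nat_lit 0x40008400000000000000000000000000000000000000000000000) := D_20 (nat_lit 210) (nat_lit 195) (nat_lit 190) (nat_lit 2) (nat_lit 4) (nat_lit 12) (nat_lit 0) (nat_lit 7) (nat_lit 12) (by decide +kernel)
theorem L24126 : W_20 (nat_lit 3) (nat_lit 0xc0004000a0005800200000001000080000000000000000000000000000000) (nat_lit 0x0) (nat_lit 0x100000000000050008400000000000000000000000000000000000000000000000) := T_20 (nat_lit 208) (nat_lit 260) (nat_lit 4) (nat_lit 5) (nat_lit 15) L24125 (by decide +kernel)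
theorem L24127 : W_20 (nat_lit 4) (nat_lit 0x80004000a0005800200000001000080000000000000000000000000000000) (nat_lit 0x0) (nat_lit 0x180004000000050008400000000000000000000000000000000000000000000000) := T_20 (nat_lit 242) (nat_lit 259) (nat_lit 5) (nat_lit 5) (nat_lit 11) L24126 (by decide +kernel)
theorem L24128 : W_20 (nat_lit 5) (nat_lit 0x80004000a0005000200000001000080000000000000000000000000000000) (nat_lit 0x0) (nat_lit 0x180004000000050008c00040000000000000000000000000000000000000000000) := T_20 (nat_lit 191) (nat_lit 174) (nat_lit 4) (nat_lit 5) (nat_lit 14) L24127 (by decide +kernel)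
theorem L24129 : W_20 (nat_lit 2) (nat_lit 0x1c0014000a0005000200000001000080000000000000000000000000000000) (nat_lit 0x0) (nat_lit 0x60002000000000000000000000000000000000000000000000000000000000) := D_20 (nat_lit 229) (nat_lit 245) (nat_lit 246) (nat_lit 2) (nat_lit 4) (nat_lit 14) (nat_lit 7) (nat_lit 7) (nat_lit 10) (by decide +kernel)
theorem L24130 : W_20 (nat_lit 3) (nat_lit 0x180014000a0005000200000001000080000000000000000000000000000000) (nat_lit 0x0) (nat_lit 0x80064002000000000000000000000000000000000000000000000000000000000) := T_20 (nat_lit 242) (nat_lit 259) (nat_lit 5) (nat_lit 5) (nat_lit 11) L24129 (by decide +kernel)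
theorem L24131 : W_20 (nat_lit 4) (nat_lit 0x180004000a0005000200000001000080000000000000000000000000000000) (nat_lit 0x0) (nat_lit 0x80064003800000000000000000000000000000000000000000000000000000000) := T_20 (nat_lit 228) (nat_lit 227) (nat_lit 5) (nat_lit 7) (nat_lit 10) L24130 (by decide +kernel)
theorem L24132 : W_20 (nat_lit 5) (nat_lit 0x80004000a0005000200000001000080000000000000000000000000000000) (nat_lit 0x0) (nat_lit 0x280074003800000000000000000000000000000000000000000000000000000000) := T_20 (nat_lit 244) (nat_lit 261) (nat_lit 7) (nat_lit 5) (nat_lit 11) L24131 (by decide +kernel)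
theorem L24133 : W_20 (nat_lit 6) (nat_lit 0x4000a0005000200000001000080000000000000000000000000000000) (nat_lit 0x0) (nat_lit 0x100038007c003800050008c00040000000000000000000000000000000000000000000) := Q_20 (nat_lit 243) (C_20 L24128 (C_20 L24093 (C_20 L24132 (C_20 L24111 N_20)))) (by decide +kernel)
theorem L24134 : W_20 (nat_lit 2) (nat_lit 0xe000a00050002c0004001600090000000000000000000000000000000) (nat_lit 0x0) (nat_lit 0x100008000400000000000000000000000000) := D_20 (nat_lit 123) (nat_lit 106) (nat_lit 140) (nat_lit 4) (nat_lit 5) (nat_lit 10) (nat_lit 4) (nat_lit 5) (nat_lit 11) (by decide +kernel)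
theorem L24135 : W_20 (nat_lit 3) (nat_lit 0xe000a00050002c0004001600080000000000000000000000000000000) (nat_lit 0x0) (nat_lit 0x800000000000100018000400000000000000000000000000) := T_20 (nat_lit 124) (nat_lit 191) (nat_lit 5) (nat_lit 5) (nat_lit 7) L24134 (by decide +kernel)
theorem L24136 : W_20 (nat_lit 4) (nat_lit 0xe000a00050002c0004001400080000000000000000000000000000000) (nat_lit 0x0) (nat_lit 0x800000000000300038000400000000000000000000000000) := T_20 (nat_lit 141) (nat_lit 125) (nat_lit 6) (nat_lit 5) (nat_lit 11) L24135 (by decide +kernel)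
theorem L24137 : W_20 (nat_lit 5) (nat_lit 0xe000a00050002c0004001000080000000000000000000000000000000) (nat_lit 0x0) (nat_lit 0x800000008000700038000400000000000000000000000000) := T_20 (nat_lit 142) (nat_lit 159) (nat_lit 6) (nat_lit 5) (nat_lit 12) L24136 (by decide +kernel)
theorem L24138 : W_20 (nat_lit 6) (nat_lit 0xe000a00050002c0000001000080000000000000000000000000000000) (nat_lit 0x0) (nat_lit 0x1000080000000c000700038000400000000000000000000000000) := T_20 (nat_lit 158) (nat_lit 208) (nat_lit 5) (nat_lit 5) (nat_lit 9) L24137 (by decide +kernel)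
theorem L24139 : W_20 (nat_lit 7) (nat_lit 0xc000a00050002c0000001000080000000000000000000000000000000) (nat_lit 0x0) (nat_lit 0x400020001000080000000c000700038000400000000000000000000000000) := T_20 (nat_lit 225) (nat_lit 242) (nat_lit 5) (nat_lit 5) (nat_lit 10) L24138 (by decide +kernel)
theorem L24140 : W_20 (nat_lit 8) (nat_lit 0x4000a00050002c0000001000080000000000000000000000000000000) (nat_lit 0x0) (nat_lit 0x14000a0001000080000000c000700038000400000000000000000000000000) := T_20 (nat_lit 227) (nat_lit 244) (nat_lit 7) (nat_lit 5) (nat_lit 10) L24139 (by decide +kernel)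
theorem L24141 : W_20 (nat_lit 9) (nat_lit 0x4000a0005000280000001000080000000000000000000000000000000) (nat_lit 0x0) (nat_lit 0x14000a0001000080004000e000700038000400000000000000000000000000) := T_20 (nat_lit 174) (nat_lit 157) (nat_lit 4) (nat_lit 5) (nat_lit 13) L24140 (by decide +kernel)
theorem L24142 : W_20 (nat_lit 2) (nat_lit 0xe000a00050002c0000001000080000000000000000000000000000000) (nat_lit 0x0) (nat_lit 0x100040000000000004000000000000000000000000000000000000000) := D_20 (nat_lit 210) (nat_lit 158) (nat_lit 224) (nat_lit 7) (nat_lit 5) (nat_lit 9) (nat_lit 2) (nat_lit 3) (nat_lit 13) (by decide +kernel)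
theorem L24143 : W_20 (nat_lit 3) (nat_lit 0x6000a00050002c0000001000080000000000000000000000000000000) (nat_lit 0x0) (nat_lit 0x10000900040000000000004000000000000000000000000000000000000000) := T_20 (nat_lit 227) (nat_lit 244) (nat_lit 7) (nat_lit 5) (nat_lit 10) L24142 (by decide +kernel)
theorem L24144 : W_20 (nat_lit 4) (nat_lit 0x6000a0005000280000001000080000000000000000000000000000000) (nat_lit 0x0) (nat_lit 0x10000900040000000040006000000000000000000000000000000000000000) := T_20 (nat_lit 174) (nat_lit 157) (nat_lit 4) (nat_lit 5) (nat_lit 13) L24143 (by decide +kernel)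
theorem L24145 : W_20 (nat_lit 5) (nat_lit 0x4000a0005000280000001000080000000000000000000000000000000) (nat_lit 0x0) (nat_lit 0x14000b00040000000040006000000000000000000000000000000000000000) := T_20 (nat_lit 225) (nat_lit 242) (nat_lit 5) (nat_lit 5) (nat_lit 10) L24144 (by decide +kernel)
theorem L24146 : W_20 (nat_lit 2) (nat_lit 0x2000f000a80050002c0000001000080000000000000000000000000000000) (nat_lit 0x0) (nat_lit 0x1000010000800000000000000000000000000000000000000000000000) := D_20 (nat_lit 208) (nat_lit 228) (nat_lit 191) (nat_lit 0) (nat_lit 7) (nat_lit 13) (nat_lit 5) (nat_lit 4) (nat_lit 10) (by decide +kernel)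
theorem L24147 : W_20 (nat_lit 3) (nat_lit 0x2000f000a8005000280000001000080000000000000000000000000000000) (nat_lit 0x0) (nat_lit 0x1000010000800040002000000000000000000000000000000000000000) := T_20 (nat_lit 174) (nat_lit 157) (nat_lit 4) (nat_lit 5) (nat_lit 13) L24146 (by decide +kernel)
theorem L24148 : W_20 (nat_lit 4) (nat_lit 0x2000f000a0005000280000001000080000000000000000000000000000000) (nat_lit 0x0) (nat_lit 0x100001c000800040002000000000000000000000000000000000000000) := T_20 (nat_lit 207) (nat_lit 206) (nat_lit 0) (nat_lit 6) (nat_lit 13) L24147 (by decide +kernel)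
theorem L24149 : W_20 (nat_lit 5) (nat_lit 0xf000a0005000280000001000080000000000000000000000000000000) (nat_lit 0x0) (nat_lit 0x300100001c000800040002000000000000000000000000000000000000000) := T_20 (nat_lit 241) (nat_lit 240) (nat_lit 1) (nat_lit 6) (nat_lit 13) L24148 (by decide +kernel)
theorem L24150 : W_20 (nat_lit 6) (nat_lit 0xe000a0005000280000001000080000000000000000000000000000000) (nat_lit 0x0) (nat_lit 0x300110005c000800040002000000000000000000000000000000000000000) := T_20 (nat_lit 224) (nat_lit 210) (nat_lit 2) (nat_lit 3) (nat_lit 13) L24149 (by decide +kernel)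
theorem L24151 : W_20 (nat_lit 7) (nat_lit 0xc000a0005000280000001000080000000000000000000000000000000) (nat_lit 0x0) (nat_lit 0x700130005c000800040002000000000000000000000000000000000000000) := T_20 (nat_lit 225) (nat_lit 242) (nat_lit 5) (nat_lit 5) (nat_lit 10) L24150 (by decide +kernel)
theorem L24152 : W_20 (nat_lit 8) (nat_lit 0x4000a0005000280000001000080000000000000000000000000000000) (nat_lit 0x0) (nat_lit 0x17001b0005c000800040002000000000000000000000000000000000000000) := T_20 (nat_lit 227) (nat_lit 244) (nat_lit 7) (nat_lit 5) (nat_lit 10) L24151 (by decide +kernel)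
theorem L24153 : W_20 (nat_lit 10) (nat_lit 0x4000a0005000200000001000080000000000000000000000000000000) (nat_lit 0x0) (nat_lit 0x17001b8005c008c000c000e000f00178000400000000000000000000000000) := Q_20 (nat_lit 175) (C_20 L24088 (C_20 L24080 (C_20 L24073 (C_20 L24064 (C_20 L24141 (C_20 L24145 (C_20 L24152 N_20))))))) (by decide +kernel)
theorem L24154 : W_20 (nat_lit 2) (nat_lit 0x100006000a0005000280006001400080000000000000000000000000000000) (nat_lit 0x0) (nat_lit 0xa00020000000000000000000000000000000) := D_20 (nat_lit 141) (nat_lit 125) (nat_lit 143) (nat_lit 6) (nat_lit 5) (nat_lit 11) (nat_lit 1) (nat_lit 8) (nat_lit 8) (by decide +kernel)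
theorem L24155 : W_20 (nat_lit 3) (nat_lit 0x100006000a0005000280006001000080000000000000000000000000000000) (nat_lit 0x0) (nat_lit 0x8000e00020000000000000000000000000000000) := T_20 (nat_lit 142) (nat_lit 159) (nat_lit 6) (nat_lit 5) (nat_lit 12) L24154 (by decide +kernel)
theorem L24156 : W_20 (nat_lit 4) (nat_lit 0x100006000a0005000280004001000080000000000000000000000000000000) (nat_lit 0x0) (nat_lit 0xa000f00020000000000000000000000000000000) := T_20 (nat_lit 157) (nat_lit 140) (nat_lit 4) (nat_lit 5) (nat_lit 12) L24155 (by decide +kernel)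
theorem L24157 : W_20 (nat_lit 5) (nat_lit 0x100006000a0005000280000001000080000000000000000000000000000000) (nat_lit 0x0) (nat_lit 0x1000000000000e000f00020000000000000000000000000000000) := T_20 (nat_lit 158) (nat_lit 208) (nat_lit 5) (nat_lit 5) (nat_lit 9) L24156 (by decide +kernel)
theorem L24158 : W_20 (nat_lit 6) (nat_lit 0x100004000a0005000280000001000080000000000000000000000000000000) (nat_lit 0x0) (nat_lit 0x400020001000000000000e000f00020000000000000000000000000000000) := T_20 (nat_lit 225) (nat_lit 242) (nat_lit 5) (nat_lit 5) (nat_lit 10) L24157 (by decide +kernel)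
theorem L24159 : W_20 (nat_lit 7) (nat_lit 0x100004000a0005000200000001000080000000000000000000000000000000) (nat_lit 0x0) (nat_lit 0x4000a0001000000008000e000f00020000000000000000000000000000000) := T_20 (nat_lit 175) (nat_lit 227) (nat_lit 7) (nat_lit 5) (nat_lit 10) L24158 (by decide +kernel)
theorem L24160 : W_20 (nat_lit 3) (nat_lit 0x1c0004000a0005000200000001000080000000000000000000000000000000) (nat_lit 0x0) (nat_lit 0x20000380000000000080000000000000000000000000000000000000000000) := T_20 (nat_lit 225) (nat_lit 175) (nat_lit 5) (nat_lit 5) (nat_lit 10) L24104 (by decide +kernel)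
theorem L24161 : W_20 (nat_lit 4) (nat_lit 0x180004000a0005000200000001000080000000000000000000000000000000) (nat_lit 0x0) (nat_lit 0x80024000380000000000080000000000000000000000000000000000000000000) := T_20 (nat_lit 242) (nat_lit 259) (nat_lit 5) (nat_lit 5) (nat_lit 11) L24160 (by decide +kernel)
theorem L24162 : W_20 (nat_lit 5) (nat_lit 0x100004000a0005000200000001000080000000000000000000000000000000) (nat_lit 0x0) (nat_lit 0x28002c000380000000000080000000000000000000000000000000000000000000) := T_20 (nat_lit 243) (nat_lit 261) (nat_lit 7) (nat_lit 5) (nat_lit 11) L24161 (by decide +kernel)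
theorem L24163 : W_20 (nat_lit 8) (nat_lit 0x4000a0005000200000001000080000000000000000000000000000000) (nat_lit 0x0) (nat_lit 0x28003c001b8001000000008000e000f00020000000000000000000000000000000) := Q_20 (nat_lit 244) (C_20 L24114 (C_20 L24116 (C_20 L24159 (C_20 L24162 N_20)))) (by decide +kernel)
theorem L24164 : W_20 (nat_lit 14) (nat_lit 0xa0005000200000001000080000000000000000000000000000000) (nat_lit 0x0) (nat_lit 0x100038007f003f8005c008e000c000e000f00178000400000000000000000000000000) := Q_20 (nat_lit 226) (C_20 L24089 (C_20 L24112 (C_20 L24117 (C_20 L24123 (C_20 L24124 (C_20 L24133 (C_20 L24153 (C_20 L24163 N_20)))))))) (by decide +kernel)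
theorem L24166 : W_20 (nat_lit 3) (nat_lit 0xe0005000200000001000080000000000000000000000000000000) (nat_lit 0x0) (nat_lit 0x110018800000000000000000000000000000000000000000000000) := T_20 (nat_lit 212) (nat_lit 191) (nat_lit 0) (nat_lit 8) (nat_lit 12) L24165 (by decide +kernel)
theorem L24167 : W_20 (nat_lit 2) (nat_lit 0x2c001e0005000200000001000080000000000000000000000000000000) (nat_lit 0x0) (nat_lit 0x200010000000000000000080000000000000000000000000000000000000000000) := D_20 (nat_lit 244) (nat_lit 261) (nat_lit 175) (nat_lit 6) (nat_lit 6) (nat_lit 15) (nat_lit 7) (nat_lit 5) (nat_lit 10) (by decide +kernel)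
theorem L24168 : W_20 (nat_lit 3) (nat_lit 0x24001e0005000200000001000080000000000000000000000000000000) (nat_lit 0x0) (nat_lit 0x200010000800200000000080000000000000000000000000000000000000000000) := T_20 (nat_lit 227) (nat_lit 213) (nat_lit 1) (nat_lit 9) (nat_lit 12) L24167 (by decide +kernel)
theorem L24169 : W_20 (nat_lit 4) (nat_lit 0x4001e0005000200000001000080000000000000000000000000000000) (nat_lit 0x0) (nat_lit 0x200010006800200000000080000000000000000000000000000000000000000000) := T_20 (nat_lit 229) (nat_lit 230) (nat_lit 3) (nat_lit 5) (nat_lit 12) L24168 (by decide +kernel)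
theorem L24170 : W_20 (nat_lit 5) (nat_lit 0x1e0005000200000001000080000000000000000000000000000000) (nat_lit 0x0) (nat_lit 0x200010006e00200000000080000000000000000000000000000000000000000000) := T_20 (nat_lit 226) (nat_lit 225) (nat_lit 1) (nat_lit 8) (nat_lit 12) L24169 (by decide +kernel)
theorem L24171 : W_20 (nat_lit 6) (nat_lit 0xe0005000200000001000080000000000000000000000000000000) (nat_lit 0x0) (nat_lit 0x200010006e00300000800080000000000000000000000000000000000000000000) := T_20 (nat_lit 212) (nat_lit 191) (nat_lit 0) (nat_lit 8) (nat_lit 12) L24170 (by decide +kernel)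
theorem L24172 : W_20 (nat_lit 2) (nat_lit 0x2000f0005800200000001000080000000000000000000000000000000) (nat_lit 0x0) (nat_lit 0x80004000000000000000080000000000000000000000000000000000000000000) := D_20 (nat_lit 242) (nat_lit 259) (nat_lit 175) (nat_lit 6) (nat_lit 4) (nat_lit 15) (nat_lit 6) (nat_lit 4) (nat_lit 14) (by decide +kernel)
theorem L24173 : W_20 (nat_lit 3) (nat_lit 0x2000f0005000200000001000080000000000000000000000000000000) (nat_lit 0x0) (nat_lit 0x80004000000000000c00080000000000000000000000000000000000000000000) := T_20 (nat_lit 191) (nat_lit 190) (nat_lit 0) (nat_lit 7) (nat_lit 12) L24172 (by decide +kernel)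
theorem L24174 : W_20 (nat_lit 4) (nat_lit 0xf0005000200000001000080000000000000000000000000000000) (nat_lit 0x0) (nat_lit 0x80004000300000000c00080000000000000000000000000000000000000000000) := T_20 (nat_lit 225) (nat_lit 224) (nat_lit 1) (nat_lit 7) (nat_lit 12) L24173 (by decide +kernel)
theorem L24175 : W_20 (nat_lit 5) (nat_lit 0xe0005000200000001000080000000000000000000000000000000) (nat_lit 0x0) (nat_lit 0x80004000300010008c00080000000000000000000000000000000000000000000) := T_20 (nat_lit 208) (nat_lit 195) (nat_lit 2) (nat_lit 4) (nat_lit 12) L24174 (by decide +kernel)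
theorem L24176 : W_20 (nat_lit 2) (nat_lit 0x6000f0005000200000001000080000000000000000000000000000000) (nat_lit 0x0) (nat_lit 0x80004000000000000000080000000000000000000000000000000000000000000) := D_20 (nat_lit 242) (nat_lit 259) (nat_lit 175) (nat_lit 6) (nat_lit 4) (nat_lit 15) (nat_lit 5) (nat_lit 5) (nat_lit 10) (by decide +kernel)
theorem L24177 : W_20 (nat_lit 3) (nat_lit 0x2000f0005000200000001000080000000000000000000000000000000) (nat_lit 0x0) (nat_lit 0x80004000400100000000080000000000000000000000000000000000000000000) := T_20 (nat_lit 226) (nat_lit 212) (nat_lit 1) (nat_lit 8) (nat_lit 12) L24176 (by decide +kernel)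
theorem L24178 : W_20 (nat_lit 4) (nat_lit 0xf0005000200000001000080000000000000000000000000000000) (nat_lit 0x0) (nat_lit 0x80004000700100000000080000000000000000000000000000000000000000000) := T_20 (nat_lit 225) (nat_lit 224) (nat_lit 1) (nat_lit 7) (nat_lit 12) L24177 (by decide +kernel)
theorem L24179 : W_20 (nat_lit 5) (nat_lit 0xe0005000200000001000080000000000000000000000000000000) (nat_lit 0x0) (nat_lit 0x80004000700110008000080000000000000000000000000000000000000000000) := T_20 (nat_lit 208) (nat_lit 195) (nat_lit 2) (nat_lit 4) (nat_lit 12) L24178 (by decide +kernel)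
theorem L24180 : W_20 (nat_lit 7) (nat_lit 0xa0005000200000001000080000000000000000000000000000000) (nat_lit 0x0) (nat_lit 0x280014006f00350018c00080000000000000000000000000000000000000000000) := Q_20 (nat_lit 210) (C_20 L24166 (C_20 L24171 (C_20 L24175 (C_20 L24179 N_20)))) (by decide +kernel)
theorem L24181 : W_20 (nat_lit 2) (nat_lit 0x24001e0005000200000001000080000000000000000000000000000000) (nat_lit 0x0) (nat_lit 0x40001000010000000000000000000000000000000000000000000000000000) := D_20 (nat_lit 228) (nat_lit 208) (nat_lit 246) (nat_lit 3) (nat_lit 4) (nat_lit 12) (nat_lit 7) (nat_lit 7) (nat_lit 10) (by decide +kernel)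
theorem L24182 : W_20 (nat_lit 3) (nat_lit 0x4001e0005000200000001000080000000000000000000000000000000) (nat_lit 0x0) (nat_lit 0x40007000010000000000000000000000000000000000000000000000000000) := T_20 (nat_lit 229) (nat_lit 230) (nat_lit 3) (nat_lit 5) (nat_lit 12) L24181 (by decide +kernel)
theorem L24183 : W_20 (nat_lit 4) (nat_lit 0x1e0005000200000001000080000000000000000000000000000000) (nat_lit 0x0) (nat_lit 0x40007600010000000000000000000000000000000000000000000000000000) := T_20 (nat_lit 226) (nat_lit 225) (nat_lit 1) (nat_lit 8) (nat_lit 12) L24182 (by decide +kernel)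
theorem L24184 : W_20 (nat_lit 5) (nat_lit 0xe0005000200000001000080000000000000000000000000000000) (nat_lit 0x0) (nat_lit 0x40007600110000800000000000000000000000000000000000000000000000) := T_20 (nat_lit 212) (nat_lit 191) (nat_lit 0) (nat_lit 8) (nat_lit 12) L24183 (by decide +kernel)
theorem L24185 : W_20 (nat_lit 2) (nat_lit 0x24001e0005000200000001000080000000000000000000000000000000) (nat_lit 0x0) (nat_lit 0x40000000000018000000000000000000000000000000000000000000000000) := D_20 (nat_lit 195) (nat_lit 196) (nat_lit 246) (nat_lit 2) (nat_lit 5) (nat_lit 12) (nat_lit 4) (nat_lit 8) (nat_lit 14) (by decide +kernel)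
theorem L24186 : W_20 (nat_lit 3) (nat_lit 0x4001e0005000200000001000080000000000000000000000000000000) (nat_lit 0x0) (nat_lit 0x40006000000018000000000000000000000000000000000000000000000000) := T_20 (nat_lit 229) (nat_lit 230) (nat_lit 3) (nat_lit 5) (nat_lit 12) L24185 (by decide +kernel)
theorem L24187 : W_20 (nat_lit 4) (nat_lit 0x1e0005000200000001000080000000000000000000000000000000) (nat_lit 0x0) (nat_lit 0x40006600000018000000000000000000000000000000000000000000000000) := T_20 (nat_lit 226) (nat_lit 225) (nat_lit 1) (nat_lit 8) (nat_lit 12) L24186 (by decide +kernel)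
theorem L24188 : W_20 (nat_lit 5) (nat_lit 0xe0005000200000001000080000000000000000000000000000000) (nat_lit 0x0) (nat_lit 0x40006600100018800000000000000000000000000000000000000000000000) := T_20 (nat_lit 212) (nat_lit 191) (nat_lit 0) (nat_lit 8) (nat_lit 12) L24187 (by decide +kernel)
theorem L24189 : W_20 (nat_lit 6) (nat_lit 0xa0005000200000001000080000000000000000000000000000000) (nat_lit 0x0) (nat_lit 0x80044007700150018c00080000000000000000000000000000000000000000000) := Q_20 (nat_lit 210) (C_20 L24179 (C_20 L24184 (C_20 L24175 (C_20 L24188 (C_20 L24166 N_20))))) (by decide +kernel)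
theorem L24190 : W_20 (nat_lit 2) (nat_lit 0x10000f0005800200000001000080000000000000000000000000000000) (nat_lit 0x0) (nat_lit 0x10000800008000000000000000000000000000000000000000000000000000) := D_20 (nat_lit 227) (nat_lit 207) (nat_lit 244) (nat_lit 3) (nat_lit 3) (nat_lit 12) (nat_lit 5) (nat_lit 7) (nat_lit 10) (by decide +kernel)
theorem L24191 : W_20 (nat_lit 3) (nat_lit 0xf0005800200000001000080000000000000000000000000000000) (nat_lit 0x0) (nat_lit 0x10003800008000000000000000000000000000000000000000000000000000) := T_20 (nat_lit 228) (nat_lit 229) (nat_lit 3) (nat_lit 4) (nat_lit 12) L24190 (by decide +kernel)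
theorem L24192 : W_20 (nat_lit 4) (nat_lit 0xf0005000200000001000080000000000000000000000000000000) (nat_lit 0x0) (nat_lit 0x10003800008000c00000000000000000000000000000000000000000000000) := T_20 (nat_lit 191) (nat_lit 190) (nat_lit 0) (nat_lit 7) (nat_lit 12) L24191 (by decide +kernel)
theorem L24193 : W_20 (nat_lit 2) (nat_lit 0x10000f0005000200000001000080000000000000000000000000000000) (nat_lit 0x0) (nat_lit 0x10000800008000000000000000000000000000000000000000000000000000) := D_20 (nat_lit 227) (nat_lit 207) (nat_lit 244) (nat_lit 3) (nat_lit 3) (nat_lit 12) (nat_lit 5) (nat_lit 7) (nat_lit 10) (by decide +kernel)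
theorem L24194 : W_20 (nat_lit 3) (nat_lit 0xf0005000200000001000080000000000000000000000000000000) (nat_lit 0x0) (nat_lit 0x10003800008000000000000000000000000000000000000000000000000000) := T_20 (nat_lit 228) (nat_lit 229) (nat_lit 3) (nat_lit 4) (nat_lit 12) L24193 (by decide +kernel)
theorem L24195 : W_20 (nat_lit 5) (nat_lit 0xe0005000200000001000080000000000000000000000000000000) (nat_lit 0x0) (nat_lit 0x80014003b00018000c00080000000000000000000000000000000000000000000) := Q_20 (nat_lit 208) (C_20 L24174 (C_20 L24192 (C_20 L24194 N_20))) (by decide +kernel)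
theorem L24196 : W_20 (nat_lit 2) (nat_lit 0x10000e0005000200000001000080000000000000000000000000000000) (nat_lit 0x0) (nat_lit 0x40002000010000000000000000000000000000000000000000000000000000) := D_20 (nat_lit 229) (nat_lit 208) (nat_lit 246) (nat_lit 3) (nat_lit 4) (nat_lit 12) (nat_lit 7) (nat_lit 7) (nat_lit 10) (by decide +kernel)
theorem L24197 : W_20 (nat_lit 3) (nat_lit 0x10000e0005000200000001000080000000000000000000000000000000) (nat_lit 0x0) (nat_lit 0x10002800018000000000000000000000000000000000000000000000000000) := T_20 (nat_lit 208) (nat_lit 229) (nat_lit 3) (nat_lit 4) (nat_lit 12) L24193 (by decide +kernel)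
theorem L24198 : W_20 (nat_lit 2) (nat_lit 0x1e000f0005000200004001000080000000000000000000000000000000) (nat_lit 0x0) (nat_lit 0x80006000000000000000000000000000000000000000000000000000000000000) := D_20 (nat_lit 242) (nat_lit 241) (nat_lit 259) (nat_lit 1) (nat_lit 7) (nat_lit 13) (nat_lit 6) (nat_lit 4) (nat_lit 15) (by decide +kernel)
theorem L24199 : W_20 (nat_lit 3) (nat_lit 0x1a000f0005000200004001000080000000000000000000000000000000) (nat_lit 0x0) (nat_lit 0x80006000400100000000000000000000000000000000000000000000000000000) := T_20 (nat_lit 226) (nat_lit 212) (nat_lit 2) (nat_lit 4) (nat_lit 13) L24198 (by decide +kernel)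
theorem L24200 : W_20 (nat_lit 4) (nat_lit 0x18000f0005000200004001000080000000000000000000000000000000) (nat_lit 0x0) (nat_lit 0x80006000700100000000000000000000000000000000000000000000000000000) := T_20 (nat_lit 225) (nat_lit 224) (nat_lit 1) (nat_lit 7) (nat_lit 12) L24199 (by decide +kernel)
theorem L24201 : W_20 (nat_lit 5) (nat_lit 0x18000e0005000200004001000080000000000000000000000000000000) (nat_lit 0x0) (nat_lit 0x80006000700118000000000000000000000000000000000000000000000000000) := T_20 (nat_lit 208) (nat_lit 207) (nat_lit 3) (nat_lit 3) (nat_lit 12) L24200 (by decide +kernel)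
theorem L24202 : W_20 (nat_lit 6) (nat_lit 0x18000e0005000200000001000080000000000000000000000000000000) (nat_lit 0x0) (nat_lit 0x80006000700118000000080004000000000000000000000000000000000000000) := T_20 (nat_lit 158) (nat_lit 175) (nat_lit 7) (nat_lit 5) (nat_lit 9) L24201 (by decide +kernel)
theorem L24203 : W_20 (nat_lit 7) (nat_lit 0x10000e0005000200000001000080000000000000000000000000000000) (nat_lit 0x0) (nat_lit 0x80016000f00118000000080004000000000000000000000000000000000000000) := T_20 (nat_lit 227) (nat_lit 244) (nat_lit 5) (nat_lit 7) (nat_lit 10) L24202 (by decide +kernel)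
theorem L24204 : W_20 (nat_lit 2) (nat_lit 0x18000e0005000200000001000080000000000000000000000000000000) (nat_lit 0x0) (nat_lit 0x40006000000000000000000000000000000000000000000000000000000000) := D_20 (nat_lit 229) (nat_lit 246) (nat_lit 230) (nat_lit 7) (nat_lit 7) (nat_lit 10) (nat_lit 0) (nat_lit 9) (nat_lit 13) (by decide +kernel)
theorem L24205 : W_20 (nat_lit 3) (nat_lit 0x10000e0005000200000001000080000000000000000000000000000000) (nat_lit 0x0) (nat_lit 0x50006800000000000000000000000000000000000000000000000000000000) := T_20 (nat_lit 227) (nat_lit 244) (nat_lit 5) (nat_lit 7) (nat_lit 10) L24204 (by decide +kernel)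
theorem L24206 : W_20 (nat_lit 8) (nat_lit 0xe0005000200000001000080000000000000000000000000000000) (nat_lit 0x0) (nat_lit 0x80056007f00118000000080004000000000000000000000000000000000000000) := Q_20 (nat_lit 228) (C_20 L24196 (C_20 L24197 (C_20 L24203 (C_20 L24205 N_20)))) (by decide +kernel)
theorem L24211 : W_20 (nat_lit 6) (nat_lit 0x1e0005000200000001000080000000000000000000000000000000) (nat_lit 0x0) (nat_lit 0x1ce00600070000000000000000000000000000000000000000000000000) := T_20 (nat_lit 226) (nat_lit 225) (nat_lit 1) (nat_lit 8) (nat_lit 12) L24210 (by decide +kernel)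
theorem L24212 : W_20 (nat_lit 7) (nat_lit 0xe0005000200000001000080000000000000000000000000000000) (nat_lit 0x0) (nat_lit 0x1ce00700070800000000000000000000000000000000000000000000000) := T_20 (nat_lit 212) (nat_lit 191) (nat_lit 0) (nat_lit 8) (nat_lit 12) L24211 (by decide +kernel)
theorem L24213 : W_20 (nat_lit 2) (nat_lit 0x20001e0005000200000001000080000000000000000000000000000000) (nat_lit 0x0) (nat_lit 0x40001000010000000000000000000000000000000000000000000000000000) := D_20 (nat_lit 228) (nat_lit 208) (nat_lit 246) (nat_lit 3) (nat_lit 4) (nat_lit 12) (nat_lit 7) (nat_lit 7) (nat_lit 10) (by decide +kernel)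
theorem L24214 : W_20 (nat_lit 3) (nat_lit 0x1e0005000200000001000080000000000000000000000000000000) (nat_lit 0x0) (nat_lit 0x40007000010000000000000000000000000000000000000000000000000000) := T_20 (nat_lit 229) (nat_lit 230) (nat_lit 3) (nat_lit 5) (nat_lit 12) L24213 (by decide +kernel)
theorem L24215 : W_20 (nat_lit 4) (nat_lit 0xe0005000200000001000080000000000000000000000000000000) (nat_lit 0x0) (nat_lit 0x40007000110000800000000000000000000000000000000000000000000000) := T_20 (nat_lit 212) (nat_lit 191) (nat_lit 0) (nat_lit 8) (nat_lit 12) L24214 (by decide +kernel)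
theorem L24216 : W_20 (nat_lit 9) (nat_lit 0xa0005000200000001000080000000000000000000000000000000) (nat_lit 0x0) (nat_lit 0x28005601ff00758070c00080004000000000000000000000000000000000000000) := Q_20 (nat_lit 210) (C_20 L24195 (C_20 L24184 (C_20 L24171 (C_20 L24206 (C_20 L24212 (C_20 L24215 N_20)))))) (by decide +kernel)
theorem L24217 : W_20 (nat_lit 2) (nat_lit 0x6000a00050002c0004001700080000000000000000000000000000000) (nat_lit 0x0) (nat_lit 0x800140000000000000000000000000000000) := D_20 (nat_lit 143) (nat_lit 126) (nat_lit 128) (nat_lit 2) (nat_lit 4) (nat_lit 8) (nat_lit 2) (nat_lit 5) (nat_lit 8) (by decide +kernel)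
theorem L24218 : W_20 (nat_lit 3) (nat_lit 0x6000a00050002c0004001600080000000000000000000000000000000) (nat_lit 0x0) (nat_lit 0x900148000000000000000000000000000000) := T_20 (nat_lit 140) (nat_lit 123) (nat_lit 4) (nat_lit 5) (nat_lit 11) L24217 (by decide +kernel)
theorem L24219 : W_20 (nat_lit 4) (nat_lit 0x6000a00050002c0004001400080000000000000000000000000000000) (nat_lit 0x0) (nat_lit 0xb00168000000000000000000000000000000) := T_20 (nat_lit 141) (nat_lit 125) (nat_lit 6) (nat_lit 5) (nat_lit 11) L24218 (by decide +kernel)
theorem L24220 : W_20 (nat_lit 5) (nat_lit 0x6000a00050002c0004001000080000000000000000000000000000000) (nat_lit 0x0) (nat_lit 0x8000f00168000000000000000000000000000000) := T_20 (nat_lit 142) (nat_lit 159) (nat_lit 6) (nat_lit 5) (nat_lit 12) L24219 (by decide +kernel)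
theorem L24221 : W_20 (nat_lit 6) (nat_lit 0x6000a00050002c0000001000080000000000000000000000000000000) (nat_lit 0x0) (nat_lit 0x1000000000000c000f00168000000000000000000000000000000) := T_20 (nat_lit 158) (nat_lit 208) (nat_lit 5) (nat_lit 5) (nat_lit 9) L24220 (by decide +kernel)
theorem L24222 : W_20 (nat_lit 7) (nat_lit 0x4000a00050002c0000001000080000000000000000000000000000000) (nat_lit 0x0) (nat_lit 0x400020001000000000000c000f00168000000000000000000000000000000) := T_20 (nat_lit 225) (nat_lit 242) (nat_lit 5) (nat_lit 5) (nat_lit 10) L24221 (by decide +kernel)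
theorem L24223 : W_20 (nat_lit 8) (nat_lit 0x4000a0005000280000001000080000000000000000000000000000000) (nat_lit 0x0) (nat_lit 0x400020001000000004000e000f00168000000000000000000000000000000) := T_20 (nat_lit 174) (nat_lit 157) (nat_lit 4) (nat_lit 5) (nat_lit 13) L24222 (by decide +kernel)
theorem L24224 : W_20 (nat_lit 2) (nat_lit 0x4000a0005000280006001400080000000000000000000000000000000) (nat_lit 0x0) (nat_lit 0xa00020000000000000000000000000000000) := D_20 (nat_lit 141) (nat_lit 125) (nat_lit 143) (nat_lit 6) (nat_lit 5) (nat_lit 11) (nat_lit 1) (nat_lit 8) (nat_lit 8) (by decide +kernel)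
theorem L24225 : W_20 (nat_lit 3) (nat_lit 0x4000a0005000280006001000080000000000000000000000000000000) (nat_lit 0x0) (nat_lit 0x8000e00020000000000000000000000000000000) := T_20 (nat_lit 142) (nat_lit 159) (nat_lit 6) (nat_lit 5) (nat_lit 12) L24224 (by decide +kernel)
theorem L24226 : W_20 (nat_lit 4) (nat_lit 0x4000a0005000280002001000080000000000000000000000000000000) (nat_lit 0x0) (nat_lit 0xc000f00020000000000000000000000000000000) := T_20 (nat_lit 158) (nat_lit 140) (nat_lit 4) (nat_lit 5) (nat_lit 12) L24225 (by decide +kernel)
theorem L24227 : W_20 (nat_lit 5) (nat_lit 0x4000a0005000280000001000080000000000000000000000000000000) (nat_lit 0x0) (nat_lit 0x4000e000f00020000000000000000000000000000000) := T_20 (nat_lit 157) (nat_lit 174) (nat_lit 4) (nat_lit 5) (nat_lit 13) L24226 (by decide +kernel)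
theorem L24228 : W_20 (nat_lit 2) (nat_lit 0x6000a0005000280006001400080000000000000000000000000000000) (nat_lit 0x0) (nat_lit 0xa00020000000000000000000000000000000) := D_20 (nat_lit 141) (nat_lit 125) (nat_lit 143) (nat_lit 6) (nat_lit 5) (nat_lit 11) (nat_lit 1) (nat_lit 8) (nat_lit 8) (by decide +kernel)
theorem L24229 : W_20 (nat_lit 3) (nat_lit 0x6000a0005000280006001000080000000000000000000000000000000) (nat_lit 0x0) (nat_lit 0x8000e00020000000000000000000000000000000) := T_20 (nat_lit 142) (nat_lit 159) (nat_lit 6) (nat_lit 5) (nat_lit 12) L24228 (by decide +kernel)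
theorem L24230 : W_20 (nat_lit 4) (nat_lit 0x6000a0005000280004001000080000000000000000000000000000000) (nat_lit 0x0) (nat_lit 0xa000f00020000000000000000000000000000000) := T_20 (nat_lit 157) (nat_lit 140) (nat_lit 4) (nat_lit 5) (nat_lit 12) L24229 (by decide +kernel)
theorem L24231 : W_20 (nat_lit 5) (nat_lit 0x6000a0005000280000001000080000000000000000000000000000000) (nat_lit 0x0) (nat_lit 0x1000000000000e000f00020000000000000000000000000000000) := T_20 (nat_lit 158) (nat_lit 208) (nat_lit 5) (nat_lit 5) (nat_lit 9) L24230 (by decide +kernel)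
theorem L24232 : W_20 (nat_lit 6) (nat_lit 0x4000a0005000280000001000080000000000000000000000000000000) (nat_lit 0x0) (nat_lit 0x400020001000000000000e000f00020000000000000000000000000000000) := T_20 (nat_lit 225) (nat_lit 242) (nat_lit 5) (nat_lit 5) (nat_lit 10) L24231 (by decide +kernel)
theorem L24233 : W_20 (nat_lit 2) (nat_lit 0x6000a0005000280004001700080000000000000000000000000000000) (nat_lit 0x0) (nat_lit 0x800140000000000000000000000000000000) := D_20 (nat_lit 143) (nat_lit 126) (nat_lit 128) (nat_lit 2) (nat_lit 4) (nat_lit 8) (nat_lit 2) (nat_lit 5) (nat_lit 8) (by decide +kernel)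
theorem L24234 : W_20 (nat_lit 3) (nat_lit 0x6000a0005000280004001600080000000000000000000000000000000) (nat_lit 0x0) (nat_lit 0x900148000000000000000000000000000000) := T_20 (nat_lit 140) (nat_lit 123) (nat_lit 4) (nat_lit 5) (nat_lit 11) L24233 (by decide +kernel)
theorem L24235 : W_20 (nat_lit 4) (nat_lit 0x6000a0005000280004001400080000000000000000000000000000000) (nat_lit 0x0) (nat_lit 0xb00168000000000000000000000000000000) := T_20 (nat_lit 141) (nat_lit 125) (nat_lit 6) (nat_lit 5) (nat_lit 11) L24234 (by decide +kernel)
theorem L24236 : W_20 (nat_lit 5) (nat_lit 0x6000a0005000280004001000080000000000000000000000000000000) (nat_lit 0x0) (nat_lit 0x8000f00168000000000000000000000000000000) := T_20 (nat_lit 142) (nat_lit 159) (nat_lit 6) (nat_lit 5) (nat_lit 12) L24235 (by decide +kernel)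
theorem L24237 : W_20 (nat_lit 6) (nat_lit 0x6000a0005000280000001000080000000000000000000000000000000) (nat_lit 0x0) (nat_lit 0x1000000000000c000f00168000000000000000000000000000000) := T_20 (nat_lit 158) (nat_lit 208) (nat_lit 5) (nat_lit 5) (nat_lit 9) L24236 (by decide +kernel)
theorem L24238 : W_20 (nat_lit 7) (nat_lit 0x4000a0005000280000001000080000000000000000000000000000000) (nat_lit 0x0) (nat_lit 0x400020001000000000000c000f00168000000000000000000000000000000) := T_20 (nat_lit 225) (nat_lit 242) (nat_lit 5) (nat_lit 5) (nat_lit 10) L24237 (by decide +kernel)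
theorem L24239 : W_20 (nat_lit 9) (nat_lit 0x4000a0005000200000001000080000000000000000000000000000000) (nat_lit 0x0) (nat_lit 0x8000c0002000100008000c000e000f00168000000000000000000000000000000) := Q_20 (nat_lit 175) (C_20 L24067 (C_20 L24223 (C_20 L24227 (C_20 L24232 (C_20 L24238 N_20))))) (by decide +kernel)
theorem L24240 : W_20 (nat_lit 2) (nat_lit 0x180004000a0005800200000001000080000000000000000000000000000000) (nat_lit 0x0) (nat_lit 0x1800000000000080000000000000000000000000000000000000000000) := D_20 (nat_lit 227) (nat_lit 175) (nat_lit 228) (nat_lit 7) (nat_lit 5) (nat_lit 10) (nat_lit 5) (nat_lit 7) (nat_lit 10) (by decide +kernel)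
theorem L24241 : W_20 (nat_lit 3) (nat_lit 0x80004000a0005800200000001000080000000000000000000000000000000) (nat_lit 0x0) (nat_lit 0x200010001800000000000080000000000000000000000000000000000000000000) := T_20 (nat_lit 244) (nat_lit 261) (nat_lit 7) (nat_lit 5) (nat_lit 11) L24240 (by decide +kernel)
theorem L24242 : W_20 (nat_lit 4) (nat_lit 0x80004000a0005000200000001000080000000000000000000000000000000) (nat_lit 0x0) (nat_lit 0x2000100018000000008000c0000000000000000000000000000000000000000000) := T_20 (nat_lit 191) (nat_lit 174) (nat_lit 4) (nat_lit 5) (nat_lit 14) L24241 (by decide +kernel)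
theorem L24243 : W_20 (nat_lit 6) (nat_lit 0x4000a0005000200000001000080000000000000000000000000000000) (nat_lit 0x0) (nat_lit 0x28007c003a000000008000c0002000000000000000000000000000000000000000) := Q_20 (nat_lit 243) (C_20 L24096 (C_20 L24132 (C_20 L24242 N_20))) (by decide +kernel)
theorem L24244 : W_20 (nat_lit 2) (nat_lit 0x800080004000a0005800200000001000080000000000000000000000000000000) (nat_lit 0x0) (nat_lit 0x1000100000000000010000000000000000000000000000000000000000000000000000) := D_20 (nat_lit 260) (nat_lit 208) (nat_lit 276) (nat_lit 4) (nat_lit 5) (nat_lit 15) (nat_lit 5) (nat_lit 5) (nat_lit 12) (by decide +kernel)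
theorem L24245 : W_20 (nat_lit 3) (nat_lit 0x80004000a0005800200000001000080000000000000000000000000000000) (nat_lit 0x0) (nat_lit 0x1000180004000000010000000000000000000000000000000000000000000000000000) := T_20 (nat_lit 259) (nat_lit 242) (nat_lit 5) (nat_lit 5) (nat_lit 11) L24244 (by decide +kernel)
theorem L24246 : W_20 (nat_lit 4) (nat_lit 0x80004000a0005000200000001000080000000000000000000000000000000) (nat_lit 0x0) (nat_lit 0x1000180004000000010000800040000000000000000000000000000000000000000000) := T_20 (nat_lit 191) (nat_lit 174) (nat_lit 4) (nat_lit 5) (nat_lit 14) L24245 (by decide +kernel)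
theorem L24247 : W_20 (nat_lit 2) (nat_lit 0x580014000a0005800200000001000080000000000000000000000000000000) (nat_lit 0x0) (nat_lit 0x800020000200000000000000000000000000000000000000000000000000000000) := D_20 (nat_lit 245) (nat_lit 225) (nat_lit 263) (nat_lit 0) (nat_lit 8) (nat_lit 14) (nat_lit 7) (nat_lit 7) (nat_lit 11) (by decide +kernel)
theorem L24248 : W_20 (nat_lit 3) (nat_lit 0x180014000a0005800200000001000080000000000000000000000000000000) (nat_lit 0x0) (nat_lit 0x800060002200000000000000000000000000000000000000000000000000000000) := T_20 (nat_lit 246) (nat_lit 229) (nat_lit 7) (nat_lit 7) (nat_lit 10) L24247 (by decide +kernel)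
theorem L24249 : W_20 (nat_lit 4) (nat_lit 0x180014000a0005000200000001000080000000000000000000000000000000) (nat_lit 0x0) (nat_lit 0x800060002200000000800040000000000000000000000000000000000000000000) := T_20 (nat_lit 191) (nat_lit 174) (nat_lit 4) (nat_lit 5) (nat_lit 14) L24248 (by decide +kernel)
theorem L24250 : W_20 (nat_lit 5) (nat_lit 0x180004000a0005000200000001000080000000000000000000000000000000) (nat_lit 0x0) (nat_lit 0x800060003a00000000800040000000000000000000000000000000000000000000) := T_20 (nat_lit 228) (nat_lit 227) (nat_lit 5) (nat_lit 7) (nat_lit 10) L24249 (by decide +kernel)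
theorem L24251 : W_20 (nat_lit 6) (nat_lit 0x80004000a0005000200000001000080000000000000000000000000000000) (nat_lit 0x0) (nat_lit 0xa00070003a00000000800040000000000000000000000000000000000000000000) := T_20 (nat_lit 244) (nat_lit 261) (nat_lit 7) (nat_lit 5) (nat_lit 11) L24250 (by decide +kernel)
theorem L24252 : W_20 (nat_lit 7) (nat_lit 0x4000a0005000200000001000080000000000000000000000000000000) (nat_lit 0x0) (nat_lit 0x1000b8007c003a00010000800040000000000000000000000000000000000000000000) := Q_20 (nat_lit 243) (C_20 L24246 (C_20 L24132 (C_20 L24251 N_20))) (by decide +kernel)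
theorem L24253 : W_20 (nat_lit 6) (nat_lit 0x4000a0005000200000001000080000000000000000000000000000000) (nat_lit 0x0) (nat_lit 0x100038007c0038000100008000c0000000000000000000000000000000000000000000) := Q_20 (nat_lit 243) (C_20 L24246 (C_20 L24132 (C_20 L24242 N_20))) (by decide +kernel)
theorem L24254 : W_20 (nat_lit 2) (nat_lit 0x1e000a00050002c0004001000080000000000000000000000000000000) (nat_lit 0x0) (nat_lit 0x60002000000000000000000000000000000000000000000000000000000000) := D_20 (nat_lit 246) (nat_lit 245) (nat_lit 229) (nat_lit 3) (nat_lit 4) (nat_lit 13) (nat_lit 7) (nat_lit 7) (nat_lit 10) (by decide +kernel)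
theorem L24255 : W_20 (nat_lit 3) (nat_lit 0xe000a00050002c0004001000080000000000000000000000000000000) (nat_lit 0x0) (nat_lit 0x60003000100000000000000000000000000000000000000000000000000000) := T_20 (nat_lit 228) (nat_lit 212) (nat_lit 2) (nat_lit 4) (nat_lit 13) L24254 (by decide +kernel)
theorem L24256 : W_20 (nat_lit 4) (nat_lit 0xe000a00050002c0000001000080000000000000000000000000000000) (nat_lit 0x0) (nat_lit 0x60003000110000000000004000000000000000000000000000000000000000) := T_20 (nat_lit 158) (nat_lit 208) (nat_lit 5) (nat_lit 5) (nat_lit 9) L24255 (by decide +kernel)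
theorem L24257 : W_20 (nat_lit 5) (nat_lit 0xc000a00050002c0000001000080000000000000000000000000000000) (nat_lit 0x0) (nat_lit 0x64003200110000000000004000000000000000000000000000000000000000) := T_20 (nat_lit 225) (nat_lit 242) (nat_lit 5) (nat_lit 5) (nat_lit 10) L24256 (by decide +kernel)
theorem L24258 : W_20 (nat_lit 6) (nat_lit 0x4000a00050002c0000001000080000000000000000000000000000000) (nat_lit 0x0) (nat_lit 0x74003a00110000000000004000000000000000000000000000000000000000) := T_20 (nat_lit 227) (nat_lit 244) (nat_lit 7) (nat_lit 5) (nat_lit 10) L24257 (by decide +kernel)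
theorem L24259 : W_20 (nat_lit 7) (nat_lit 0x4000a0005000280000001000080000000000000000000000000000000) (nat_lit 0x0) (nat_lit 0x74003a00110000000040006000000000000000000000000000000000000000) := T_20 (nat_lit 174) (nat_lit 157) (nat_lit 4) (nat_lit 5) (nat_lit 13) L24258 (by decide +kernel)
theorem L24260 : W_20 (nat_lit 2) (nat_lit 0x1e000a00050002c0000001000080000000000000000000000000000000) (nat_lit 0x0) (nat_lit 0x40002000010000000000000000000000000000000000000000000000000000) := D_20 (nat_lit 229) (nat_lit 208) (nat_lit 246) (nat_lit 0) (nat_lit 8) (nat_lit 13) (nat_lit 7) (nat_lit 7) (nat_lit 10) (by decide +kernel)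
theorem L24261 : W_20 (nat_lit 3) (nat_lit 0xe000a00050002c0000001000080000000000000000000000000000000) (nat_lit 0x0) (nat_lit 0x40003000110000000000000000000000000000000000000000000000000000) := T_20 (nat_lit 228) (nat_lit 212) (nat_lit 2) (nat_lit 4) (nat_lit 13) L24260 (by decide +kernel)
theorem L24262 : W_20 (nat_lit 4) (nat_lit 0x6000a00050002c0000001000080000000000000000000000000000000) (nat_lit 0x0) (nat_lit 0x50003800110000000000000000000000000000000000000000000000000000) := T_20 (nat_lit 227) (nat_lit 244) (nat_lit 7) (nat_lit 5) (nat_lit 10) L24261 (by decide +kernel)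
theorem L24263 : W_20 (nat_lit 5) (nat_lit 0x6000a0005000280000001000080000000000000000000000000000000) (nat_lit 0x0) (nat_lit 0x50003800110000000040002000000000000000000000000000000000000000) := T_20 (nat_lit 174) (nat_lit 157) (nat_lit 4) (nat_lit 5) (nat_lit 13) L24262 (by decide +kernel)
theorem L24264 : W_20 (nat_lit 6) (nat_lit 0x4000a0005000280000001000080000000000000000000000000000000) (nat_lit 0x0) (nat_lit 0x54003a00110000000040002000000000000000000000000000000000000000) := T_20 (nat_lit 225) (nat_lit 242) (nat_lit 5) (nat_lit 5) (nat_lit 10) L24263 (by decide +kernel)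
theorem L24265 : W_20 (nat_lit 8) (nat_lit 0x4000a0005000200000001000080000000000000000000000000000000) (nat_lit 0x0) (nat_lit 0x74003a001100000000c000e000f00168000000000000000000000000000000) := Q_20 (nat_lit 175) (C_20 L24238 (C_20 L24232 (C_20 L24259 (C_20 L24227 (C_20 L24264 N_20))))) (by decide +kernel)
theorem L24266 : W_20 (nat_lit 2) (nat_lit 0x3c000a0005000200000001000080000000000000000000000000000000) (nat_lit 0x0) (nat_lit 0x200300000000000000000000000000000000000000000000000000000) := D_20 (nat_lit 212) (nat_lit 225) (nat_lit 213) (nat_lit 2) (nat_lit 4) (nat_lit 13) (nat_lit 2) (nat_lit 5) (nat_lit 13) (by decide +kernel)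
theorem L24267 : W_20 (nat_lit 3) (nat_lit 0x34000a0005000200000001000080000000000000000000000000000000) (nat_lit 0x0) (nat_lit 0xa00310000000000000000000000000000000000000000000000000000) := T_20 (nat_lit 227) (nat_lit 208) (nat_lit 0) (nat_lit 8) (nat_lit 13) L24266 (by decide +kernel)
theorem L24268 : W_20 (nat_lit 4) (nat_lit 0x14000a0005000200000001000080000000000000000000000000000000) (nat_lit 0x0) (nat_lit 0x40002a00310000000000000000000000000000000000000000000000000000) := T_20 (nat_lit 229) (nat_lit 246) (nat_lit 7) (nat_lit 7) (nat_lit 10) L24267 (by decide +kernel)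
theorem L24269 : W_20 (nat_lit 2) (nat_lit 0x1e000a0005000200000001000080000000000000000000000000000000) (nat_lit 0x0) (nat_lit 0x2000018000000000000000000000000000000000000000000000000000) := D_20 (nat_lit 208) (nat_lit 207) (nat_lit 229) (nat_lit 0) (nat_lit 7) (nat_lit 13) (nat_lit 0) (nat_lit 8) (nat_lit 13) (by decide +kernel)
theorem L24270 : W_20 (nat_lit 3) (nat_lit 0x1c000a0005000200000001000080000000000000000000000000000000) (nat_lit 0x0) (nat_lit 0x2200118000000000000000000000000000000000000000000000000000) := T_20 (nat_lit 225) (nat_lit 212) (nat_lit 2) (nat_lit 4) (nat_lit 13) L24269 (by decide +kernel)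
theorem L24271 : W_20 (nat_lit 4) (nat_lit 0x14000a0005000200000001000080000000000000000000000000000000) (nat_lit 0x0) (nat_lit 0x10002a00118000000000000000000000000000000000000000000000000000) := T_20 (nat_lit 227) (nat_lit 244) (nat_lit 5) (nat_lit 7) (nat_lit 10) L24270 (by decide +kernel)
theorem L24272 : W_20 (nat_lit 2) (nat_lit 0x1c000a0005000200000001000080000000000000000000000000000000) (nat_lit 0x0) (nat_lit 0x40002000010000000000000000000000000000000000000000000000000000) := D_20 (nat_lit 229) (nat_lit 208) (nat_lit 246) (nat_lit 0) (nat_lit 8) (nat_lit 13) (nat_lit 7) (nat_lit 7) (nat_lit 10) (by decide +kernel)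
theorem L24273 : W_20 (nat_lit 3) (nat_lit 0x14000a0005000200000001000080000000000000000000000000000000) (nat_lit 0x0) (nat_lit 0x50002800010000000000000000000000000000000000000000000000000000) := T_20 (nat_lit 227) (nat_lit 244) (nat_lit 5) (nat_lit 7) (nat_lit 10) L24272 (by decide +kernel)
theorem L24274 : W_20 (nat_lit 3) (nat_lit 0x14000a0005000200000001000080000000000000000000000000000000) (nat_lit 0x0) (nat_lit 0x200038000800000000000000000000000000000000000000000000000000000000) := T_20 (nat_lit 244) (nat_lit 227) (nat_lit 5) (nat_lit 7) (nat_lit 10) L24113 (by decide +kernel)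
theorem L24275 : W_20 (nat_lit 2) (nat_lit 0x4000780014000a000d800200000001000080000000000000000000000000000000) (nat_lit 0x0) (nat_lit 0x180000000000010000000000000000000000000000000000000000000000000000) := D_20 (nat_lit 260) (nat_lit 259) (nat_lit 208) (nat_lit 1) (nat_lit 8) (nat_lit 14) (nat_lit 4) (nat_lit 5) (nat_lit 15) (by decide +kernel)
theorem L24276 : W_20 (nat_lit 3) (nat_lit 0x4000780014000a000d000200000001000080000000000000000000000000000000) (nat_lit 0x0) (nat_lit 0x180000000000010000800040000000000000000000000000000000000000000000) := T_20 (nat_lit 191) (nat_lit 174) (nat_lit 4) (nat_lit 5) (nat_lit 14) L24275 (by decide +kernel)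
theorem L24277 : W_20 (nat_lit 4) (nat_lit 0x780014000a000d000200000001000080000000000000000000000000000000) (nat_lit 0x0) (nat_lit 0x580000000000110000800040000000000000000000000000000000000000000000) := T_20 (nat_lit 262) (nat_lit 212) (nat_lit 6) (nat_lit 7) (nat_lit 15) L24276 (by decide +kernel)
theorem L24278 : W_20 (nat_lit 5) (nat_lit 0x700014000a000d000200000001000080000000000000000000000000000000) (nat_lit 0x0) (nat_lit 0x580008000200110000800040000000000000000000000000000000000000000000) := T_20 (nat_lit 243) (nat_lit 225) (nat_lit 0) (nat_lit 8) (nat_lit 14) L24277 (by decide +kernel)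
theorem L24279 : W_20 (nat_lit 6) (nat_lit 0x600014000a000d000200000001000080000000000000000000000000000000) (nat_lit 0x0) (nat_lit 0x780018000200110000800040000000000000000000000000000000000000000000) := T_20 (nat_lit 244) (nat_lit 261) (nat_lit 5) (nat_lit 7) (nat_lit 11) L24278 (by decide +kernel)
theorem L24280 : W_20 (nat_lit 7) (nat_lit 0x600014000a0005000200000001000080000000000000000000000000000000) (nat_lit 0x0) (nat_lit 0x780018000200110008800440000000000000000000000000000000000000000000) := T_20 (nat_lit 195) (nat_lit 178) (nat_lit 6) (nat_lit 7) (nat_lit 14) L24279 (by decide +kernel)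
theorem L24281 : W_20 (nat_lit 8) (nat_lit 0x400014000a0005000200000001000080000000000000000000000000000000) (nat_lit 0x0) (nat_lit 0xf80038000200110008800440000000000000000000000000000000000000000000) := T_20 (nat_lit 245) (nat_lit 263) (nat_lit 7) (nat_lit 7) (nat_lit 11) L24280 (by decide +kernel)
theorem L24282 : W_20 (nat_lit 9) (nat_lit 0x14000a0005000200000001000080000000000000000000000000000000) (nat_lit 0x0) (nat_lit 0xf80078002200110008800440000000000000000000000000000000000000000000) := T_20 (nat_lit 246) (nat_lit 229) (nat_lit 7) (nat_lit 7) (nat_lit 10) L24281 (by decide +kernel)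
theorem L24283 : W_20 (nat_lit 10) (nat_lit 0x4000a0005000200000001000080000000000000000000000000000000) (nat_lit 0x0) (nat_lit 0xf80078003a00318008800440000000000000000000000000000000000000000000) := Q_20 (nat_lit 228) (C_20 L24268 (C_20 L24271 (C_20 L24273 (C_20 L24274 (C_20 L24282 N_20))))) (by decide +kernel)
theorem L24284 : W_20 (nat_lit 11) (nat_lit 0xa0005000200000001000080000000000000000000000000000000) (nat_lit 0x0) (nat_lit 0x1000f8007c003f803180088004c000e000f00168000000000000000000000000000000) := Q_20 (nat_lit 226) (C_20 L24239 (C_20 L24163 (C_20 L24243 (C_20 L24252 (C_20 L24253 (C_20 L24265 (C_20 L24283 N_20))))))) (by decide +kernel)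
theorem L24285 : W_20 (nat_lit 2) (nat_lit 0x30000e0005000200000001000080000000000000000000000000000000) (nat_lit 0x0) (nat_lit 0x4800100000000000000000000000000000000000000000000000000000) := D_20 (nat_lit 230) (nat_lit 212) (nat_lit 227) (nat_lit 3) (nat_lit 5) (nat_lit 12) (nat_lit 0) (nat_lit 9) (nat_lit 13) (by decide +kernel)
theorem L24286 : W_20 (nat_lit 3) (nat_lit 0x30000a0005000200000001000080000000000000000000000000000000) (nat_lit 0x0) (nat_lit 0x4800150000000000000000000000000000000000000000000000000000) := T_20 (nat_lit 210) (nat_lit 208) (nat_lit 3) (nat_lit 4) (nat_lit 12) L24285 (by decide +kernel)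
theorem L24287 : W_20 (nat_lit 4) (nat_lit 0x10000a0005000200000001000080000000000000000000000000000000) (nat_lit 0x0) (nat_lit 0x40006800150000000000000000000000000000000000000000000000000000) := T_20 (nat_lit 229) (nat_lit 246) (nat_lit 7) (nat_lit 7) (nat_lit 10) L24286 (by decide +kernel)
theorem L24288 : W_20 (nat_lit 2) (nat_lit 0x30000e0005000200000001000080000000000000000000000000000000) (nat_lit 0x0) (nat_lit 0xc000100000000000000000000000000000000000000000000000000000) := D_20 (nat_lit 230) (nat_lit 212) (nat_lit 231) (nat_lit 3) (nat_lit 5) (nat_lit 12) (nat_lit 0) (nat_lit 10) (nat_lit 13) (by decide +kernel)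
theorem L24289 : W_20 (nat_lit 3) (nat_lit 0x30000a0005000200000001000080000000000000000000000000000000) (nat_lit 0x0) (nat_lit 0xc000150000000000000000000000000000000000000000000000000000) := T_20 (nat_lit 210) (nat_lit 208) (nat_lit 3) (nat_lit 4) (nat_lit 12) L24288 (by decide +kernel)
theorem L24290 : W_20 (nat_lit 4) (nat_lit 0x10000a0005000200000001000080000000000000000000000000000000) (nat_lit 0x0) (nat_lit 0x4000e000150000000000000000000000000000000000000000000000000000) := T_20 (nat_lit 229) (nat_lit 246) (nat_lit 7) (nat_lit 7) (nat_lit 10) L24289 (by decide +kernel)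
theorem L24291 : W_20 (nat_lit 3) (nat_lit 0x38000a0005000200000001000080000000000000000000000000000000) (nat_lit 0x0) (nat_lit 0x600310000000000000000000000000000000000000000000000000000) := T_20 (nat_lit 226) (nat_lit 208) (nat_lit 0) (nat_lit 8) (nat_lit 13) L24266 (by decide +kernel)
theorem L24292 : W_20 (nat_lit 4) (nat_lit 0x30000a0005000200000001000080000000000000000000000000000000) (nat_lit 0x0) (nat_lit 0x10000e00310000000000000000000000000000000000000000000000000000) := T_20 (nat_lit 227) (nat_lit 244) (nat_lit 5) (nat_lit 7) (nat_lit 10) L24291 (by decide +kernel)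
theorem L24293 : W_20 (nat_lit 5) (nat_lit 0x10000a0005000200000001000080000000000000000000000000000000) (nat_lit 0x0) (nat_lit 0x50002e00310000000000000000000000000000000000000000000000000000) := T_20 (nat_lit 229) (nat_lit 246) (nat_lit 7) (nat_lit 7) (nat_lit 10) L24292 (by decide +kernel)
theorem L24294 : W_20 (nat_lit 2) (nat_lit 0xc000340012000b000d000200000001000080000000000000000000000000000000) (nat_lit 0x0) (nat_lit 0x400000000000080004000000000000000000000000000000000000000) := D_20 (nat_lit 175) (nat_lit 226) (nat_lit 158) (nat_lit 5) (nat_lit 5) (nat_lit 10) (nat_lit 5) (nat_lit 5) (nat_lit 9) (by decide +kernel)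
theorem L24295 : W_20 (nat_lit 3) (nat_lit 0xc000340010000b000d000200000001000080000000000000000000000000000000) (nat_lit 0x0) (nat_lit 0x80000000600000000000080004000000000000000000000000000000000000000) := T_20 (nat_lit 225) (nat_lit 259) (nat_lit 6) (nat_lit 4) (nat_lit 15) L24294 (by decide +kernel)
theorem L24296 : W_20 (nat_lit 4) (nat_lit 0xc000300010000b000d000200000001000080000000000000000000000000000000) (nat_lit 0x0) (nat_lit 0x8000c000600000000000080004000000000000000000000000000000000000000) := T_20 (nat_lit 242) (nat_lit 243) (nat_lit 3) (nat_lit 4) (nat_lit 14) L24295 (by decide +kernel)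
theorem L24297 : W_20 (nat_lit 5) (nat_lit 0x4000300010000b000d000200000001000080000000000000000000000000000000) (nat_lit 0x0) (nat_lit 0x1000088000c000600000000000080004000000000000000000000000000000000000000) := T_20 (nat_lit 263) (nat_lit 280) (nat_lit 7) (nat_lit 7) (nat_lit 12) L24296 (by decide +kernel)
theorem L24298 : W_20 (nat_lit 6) (nat_lit 0x300010000b000d000200000001000080000000000000000000000000000000) (nat_lit 0x0) (nat_lit 0x10000c8000c000600100000000080004000000000000000000000000000000000000000) := T_20 (nat_lit 262) (nat_lit 212) (nat_lit 6) (nat_lit 7) (nat_lit 15) L24297 (by decide +kernel)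
theorem L24299 : W_20 (nat_lit 7) (nat_lit 0x300010000a000d000200000001000080000000000000000000000000000000) (nat_lit 0x0) (nat_lit 0x10000c8000c000600150000000080004000000000000000000000000000000000000000) := T_20 (nat_lit 208) (nat_lit 210) (nat_lit 2) (nat_lit 4) (nat_lit 12) L24298 (by decide +kernel)
theorem L24300 : W_20 (nat_lit 8) (nat_lit 0x300010000a0005000200000001000080000000000000000000000000000000) (nat_lit 0x0) (nat_lit 0x10000c8000c000600150008000480004000000000000000000000000000000000000000) := T_20 (nat_lit 195) (nat_lit 178) (nat_lit 6) (nat_lit 7) (nat_lit 14) L24299 (by decide +kernel)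
theorem L24301 : W_20 (nat_lit 9) (nat_lit 0x100010000a0005000200000001000080000000000000000000000000000000) (nat_lit 0x0) (nat_lit 0x10000e8002c000600150008000480004000000000000000000000000000000000000000) := T_20 (nat_lit 245) (nat_lit 261) (nat_lit 5) (nat_lit 7) (nat_lit 11) L24300 (by decide +kernel)
theorem L24302 : W_20 (nat_lit 10) (nat_lit 0x10000a0005000200000001000080000000000000000000000000000000) (nat_lit 0x0) (nat_lit 0x10000e8003c000e00150008000480004000000000000000000000000000000000000000) := T_20 (nat_lit 244) (nat_lit 227) (nat_lit 5) (nat_lit 7) (nat_lit 10) L24301 (by decide +kernel)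
theorem L24303 : W_20 (nat_lit 2) (nat_lit 0x38000a0005000200000001000080000000000000000000000000000000) (nat_lit 0x0) (nat_lit 0x400050000000000000000000000000000000000000000000000000000) := D_20 (nat_lit 208) (nat_lit 210) (nat_lit 226) (nat_lit 3) (nat_lit 4) (nat_lit 12) (nat_lit 0) (nat_lit 8) (nat_lit 13) (by decide +kernel)
theorem L24304 : W_20 (nat_lit 3) (nat_lit 0x18000a0005000200000001000080000000000000000000000000000000) (nat_lit 0x0) (nat_lit 0x40002400050000000000000000000000000000000000000000000000000000) := T_20 (nat_lit 229) (nat_lit 246) (nat_lit 7) (nat_lit 7) (nat_lit 10) L24303 (by decide +kernel)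
theorem L24305 : W_20 (nat_lit 4) (nat_lit 0x10000a0005000200000001000080000000000000000000000000000000) (nat_lit 0x0) (nat_lit 0x50002c00050000000000000000000000000000000000000000000000000000) := T_20 (nat_lit 227) (nat_lit 244) (nat_lit 5) (nat_lit 7) (nat_lit 10) L24304 (by decide +kernel)
theorem L24306 : W_20 (nat_lit 2) (nat_lit 0x84007c002a0005000200000001000080000000000000000000000000000000) (nat_lit 0x0) (nat_lit 0x2000200000000000080000000000000000000000000000000000000000000) := D_20 (nat_lit 225) (nat_lit 241) (nat_lit 175) (nat_lit 1) (nat_lit 7) (nat_lit 13) (nat_lit 5) (nat_lit 5) (nat_lit 10) (by decide +kernel)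
theorem L24307 : W_20 (nat_lit 3) (nat_lit 0x80007c002a0005000200000001000080000000000000000000000000000000) (nat_lit 0x0) (nat_lit 0xe000200000000000080000000000000000000000000000000000000000000) := T_20 (nat_lit 242) (nat_lit 243) (nat_lit 1) (nat_lit 8) (nat_lit 13) L24306 (by decide +kernel)
theorem L24308 : W_20 (nat_lit 4) (nat_lit 0x800078002a0005000200000001000080000000000000000000000000000000) (nat_lit 0x0) (nat_lit 0xe000600100000000080000000000000000000000000000000000000000000) := T_20 (nat_lit 226) (nat_lit 212) (nat_lit 2) (nat_lit 5) (nat_lit 13) L24307 (by decide +kernel)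
theorem L24309 : W_20 (nat_lit 5) (nat_lit 0x800078000a0005000200000001000080000000000000000000000000000000) (nat_lit 0x0) (nat_lit 0xe000600700000000080000000000000000000000000000000000000000000) := T_20 (nat_lit 213) (nat_lit 214) (nat_lit 2) (nat_lit 6) (nat_lit 13) L24308 (by decide +kernel)
theorem L24310 : W_20 (nat_lit 6) (nat_lit 0x78000a0005000200000001000080000000000000000000000000000000) (nat_lit 0x0) (nat_lit 0x18e000600700000000080000000000000000000000000000000000000000000) := T_20 (nat_lit 247) (nat_lit 248) (nat_lit 3) (nat_lit 6) (nat_lit 13) L24309 (by decide +kernel)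
theorem L24311 : W_20 (nat_lit 7) (nat_lit 0x38000a0005000200000001000080000000000000000000000000000000) (nat_lit 0x0) (nat_lit 0x18e004600740000000080000000000000000000000000000000000000000000) := T_20 (nat_lit 230) (nat_lit 210) (nat_lit 0) (nat_lit 9) (nat_lit 13) L24310 (by decide +kernel)
theorem L24312 : W_20 (nat_lit 8) (nat_lit 0x30000a0005000200000001000080000000000000000000000000000000) (nat_lit 0x0) (nat_lit 0x19e004e00740000000080000000000000000000000000000000000000000000) := T_20 (nat_lit 227) (nat_lit 244) (nat_lit 5) (nat_lit 7) (nat_lit 10) L24311 (by decide +kernel)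
theorem L24313 : W_20 (nat_lit 9) (nat_lit 0x10000a0005000200000001000080000000000000000000000000000000) (nat_lit 0x0) (nat_lit 0x1de006e00740000000080000000000000000000000000000000000000000000) := T_20 (nat_lit 229) (nat_lit 246) (nat_lit 7) (nat_lit 7) (nat_lit 10) L24312 (by decide +kernel)
theorem L24314 : W_20 (nat_lit 11) (nat_lit 0xa0005000200000001000080000000000000000000000000000000) (nat_lit 0x0) (nat_lit 0x10000e801fe00fe00750008000480004000000000000000000000000000000000000000) := Q_20 (nat_lit 228) (C_20 L24287 (C_20 L24290 (C_20 L24293 (C_20 L24302 (C_20 L24305 (C_20 L24313 N_20)))))) (by decide +kernel)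
theorem L24315 : W_20 (nat_lit 8) (nat_lit 0xa0005000200000001000080000000000000000000000000000000) (nat_lit 0x0) (nat_lit 0x8000401cf00750078c00080000000000000000000000000000000000000000000) := Q_20 (nat_lit 210) (C_20 L24212 (C_20 L24179 (C_20 L24175 (C_20 L24166 N_20)))) (by decide +kernel)
theorem L24316 : W_20 (nat_lit 4) (nat_lit 0xe0005000200000001000080000000000000000000000000000000) (nat_lit 0x0) (nat_lit 0x10003800018008000000000000000000000000000000000000000000000000) := T_20 (nat_lit 208) (nat_lit 195) (nat_lit 2) (nat_lit 4) (nat_lit 12) L24194 (by decide +kernel)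
theorem L24317 : W_20 (nat_lit 2) (nat_lit 0x1e000d000200000001000080000000000000000000000000000000) (nat_lit 0x0) (nat_lit 0x40006000000000000000000000000000000000000000000000000000000000) := D_20 (nat_lit 229) (nat_lit 246) (nat_lit 230) (nat_lit 4) (nat_lit 8) (nat_lit 14) (nat_lit 3) (nat_lit 5) (nat_lit 12) (by decide +kernel)
theorem L24318 : W_20 (nat_lit 3) (nat_lit 0x1e0005000200000001000080000000000000000000000000000000) (nat_lit 0x0) (nat_lit 0x40006000000018000000000000000000000000000000000000000000000000) := T_20 (nat_lit 195) (nat_lit 196) (nat_lit 2) (nat_lit 5) (nat_lit 12) L24317 (by decide +kernel)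
theorem L24319 : W_20 (nat_lit 4) (nat_lit 0xe0005000200000001000080000000000000000000000000000000) (nat_lit 0x0) (nat_lit 0x40006000100018800000000000000000000000000000000000000000000000) := T_20 (nat_lit 212) (nat_lit 191) (nat_lit 0) (nat_lit 8) (nat_lit 12) L24318 (by decide +kernel)
theorem L24320 : W_20 (nat_lit 6) (nat_lit 0xa0005000200000001000080000000000000000000000000000000) (nat_lit 0x0) (nat_lit 0x80054007b00158018c00080000000000000000000000000000000000000000000) := Q_20 (nat_lit 210) (C_20 L24215 (C_20 L24175 (C_20 L24316 (C_20 L24319 N_20)))) (by decide +kernel)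
theorem L24321 : W_20 (nat_lit 2) (nat_lit 0x600010001a000d000200000001000080000000000000000000000000000000) (nat_lit 0x0) (nat_lit 0x40010800000000000000000000000000000000000000000000000) := D_20 (nat_lit 210) (nat_lit 196) (nat_lit 191) (nat_lit 2) (nat_lit 5) (nat_lit 12) (nat_lit 0) (nat_lit 8) (nat_lit 12) (by decide +kernel)
theorem L24322 : W_20 (nat_lit 3) (nat_lit 0x600010000a000d000200000001000080000000000000000000000000000000) (nat_lit 0x0) (nat_lit 0x400000000000140010800000000000000000000000000000000000000000000000) := T_20 (nat_lit 212) (nat_lit 262) (nat_lit 6) (nat_lit 7) (nat_lit 15) L24321 (by decide +kernel)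
theorem L24323 : W_20 (nat_lit 4) (nat_lit 0x600010000a0005000200000001000080000000000000000000000000000000) (nat_lit 0x0) (nat_lit 0x400000000000140018800400000000000000000000000000000000000000000000) := T_20 (nat_lit 195) (nat_lit 178) (nat_lit 6) (nat_lit 7) (nat_lit 14) L24322 (by decide +kernel)
theorem L24324 : W_20 (nat_lit 5) (nat_lit 0x400010000a0005000200000001000080000000000000000000000000000000) (nat_lit 0x0) (nat_lit 0xc00020000000140018800400000000000000000000000000000000000000000000) := T_20 (nat_lit 245) (nat_lit 263) (nat_lit 7) (nat_lit 7) (nat_lit 11) L24323 (by decide +kernel)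
theorem L24325 : W_20 (nat_lit 6) (nat_lit 0x10000a0005000200000001000080000000000000000000000000000000) (nat_lit 0x0) (nat_lit 0xc00060002000140018800400000000000000000000000000000000000000000000) := T_20 (nat_lit 246) (nat_lit 229) (nat_lit 7) (nat_lit 7) (nat_lit 10) L24324 (by decide +kernel)
theorem L24326 : W_20 (nat_lit 2) (nat_lit 0x500010000a0005000200000001000080000000000000000000000000000000) (nat_lit 0x0) (nat_lit 0xa00020000000000000000000000000000000000000000000000000000000000000) := D_20 (nat_lit 245) (nat_lit 263) (nat_lit 261) (nat_lit 7) (nat_lit 7) (nat_lit 11) (nat_lit 5) (nat_lit 7) (nat_lit 11) (by decide +kernel)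
theorem L24327 : W_20 (nat_lit 3) (nat_lit 0x400010000a0005000200000001000080000000000000000000000000000000) (nat_lit 0x0) (nat_lit 0xa00030000800000000000000000000000000000000000000000000000000000000) := T_20 (nat_lit 244) (nat_lit 227) (nat_lit 5) (nat_lit 7) (nat_lit 10) L24326 (by decide +kernel)
theorem L24328 : W_20 (nat_lit 4) (nat_lit 0x10000a0005000200000001000080000000000000000000000000000000) (nat_lit 0x0) (nat_lit 0xa00070002800000000000000000000000000000000000000000000000000000000) := T_20 (nat_lit 246) (nat_lit 229) (nat_lit 7) (nat_lit 7) (nat_lit 10) L24327 (by decide +kernel)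
theorem L24329 : W_20 (nat_lit 2) (nat_lit 0x300010001a000d000200000001000080000000000000000000000000000000) (nat_lit 0x0) (nat_lit 0x40010800000000000000000000000000000000000000000000000) := D_20 (nat_lit 210) (nat_lit 196) (nat_lit 191) (nat_lit 2) (nat_lit 5) (nat_lit 12) (nat_lit 0) (nat_lit 8) (nat_lit 12) (by decide +kernel)
theorem L24330 : W_20 (nat_lit 3) (nat_lit 0x300010000a000d000200000001000080000000000000000000000000000000) (nat_lit 0x0) (nat_lit 0x400000000000140010800000000000000000000000000000000000000000000000) := T_20 (nat_lit 212) (nat_lit 262) (nat_lit 6) (nat_lit 7) (nat_lit 15) L24329 (by decide +kernel)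
theorem L24331 : W_20 (nat_lit 4) (nat_lit 0x300010000a0005000200000001000080000000000000000000000000000000) (nat_lit 0x0) (nat_lit 0x400000000000140018800400000000000000000000000000000000000000000000) := T_20 (nat_lit 195) (nat_lit 178) (nat_lit 6) (nat_lit 7) (nat_lit 14) L24330 (by decide +kernel)
theorem L24332 : W_20 (nat_lit 5) (nat_lit 0x100010000a0005000200000001000080000000000000000000000000000000) (nat_lit 0x0) (nat_lit 0x600020000000140018800400000000000000000000000000000000000000000000) := T_20 (nat_lit 245) (nat_lit 261) (nat_lit 5) (nat_lit 7) (nat_lit 11) L24331 (by decide +kernel)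
theorem L24333 : W_20 (nat_lit 6) (nat_lit 0x10000a0005000200000001000080000000000000000000000000000000) (nat_lit 0x0) (nat_lit 0x600030000800140018800400000000000000000000000000000000000000000000) := T_20 (nat_lit 244) (nat_lit 227) (nat_lit 5) (nat_lit 7) (nat_lit 10) L24332 (by decide +kernel)
theorem L24334 : W_20 (nat_lit 10) (nat_lit 0xa0005000200000001000080000000000000000000000000000000) (nat_lit 0x0) (nat_lit 0xe001fe007e00740018800480000000000000000000000000000000000000000000) := Q_20 (nat_lit 228) (C_20 L24325 (C_20 L24313 (C_20 L24328 (C_20 L24333 N_20)))) (by decide +kernel)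
theorem L24335 : W_20 (nat_lit 8) (nat_lit 0xa0005000200000001000080000000000000000000000000000000) (nat_lit 0x0) (nat_lit 0x5001fe00758078800000000000000000000000000000000000000000000000) := Q_20 (nat_lit 210) (C_20 L24319 (C_20 L24215 (C_20 L24316 (C_20 L24212 N_20)))) (by decide +kernel)
theorem L24336 : W_20 (nat_lit 5) (nat_lit 0xa0005000200000001000080000000000000000000000000000000) (nat_lit 0x0) (nat_lit 0x50007800158018800000000000000000000000000000000000000000000000) := Q_20 (nat_lit 210) (C_20 L24319 (C_20 L24215 (C_20 L24316 (C_20 L24166 N_20)))) (by decide +kernel)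
theorem L24337 : W_20 (nat_lit 15) (nat_lit 0x80005000200000001000080000000000000000000000000000000) (nat_lit 0x0) (nat_lit 0x11000f801ff01ff8077c078e004c000e000f00178000400000000000000000000000000) := Q_20 (nat_lit 209) (C_20 L24164 (C_20 L24180 (C_20 L24189 (C_20 L24216 (C_20 L24284 (C_20 L24314 (C_20 L24315 (C_20 L24320 (C_20 L24334 (C_20 L24335 (C_20 L24336 N_20))))))))))) (by decide +kernel)
theorem L24338 : W_20 (nat_lit 2) (nat_lit 0x2800080005000200010001000080000000000000000000000000000000) (nat_lit 0x0) (nat_lit 0x50001000000000000000000000000000000000000000000000000000000000) := D_20 (nat_lit 228) (nat_lit 244) (nat_lit 246) (nat_lit 5) (nat_lit 7) (nat_lit 10) (nat_lit 7) (nat_lit 7) (nat_lit 10) (by decide +kernel)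
theorem L24339 : W_20 (nat_lit 3) (nat_lit 0x800080005000200010001000080000000000000000000000000000000) (nat_lit 0x0) (nat_lit 0x50003000100000000000000000000000000000000000000000000000000000) := T_20 (nat_lit 229) (nat_lit 212) (nat_lit 7) (nat_lit 7) (nat_lit 9) L24338 (by decide +kernel)
theorem L24340 : W_20 (nat_lit 4) (nat_lit 0x80005000200010001000080000000000000000000000000000000) (nat_lit 0x0) (nat_lit 0x50003800140000000000000000000000000000000000000000000000000000) := T_20 (nat_lit 227) (nat_lit 210) (nat_lit 5) (nat_lit 7) (nat_lit 9) L24339 (by decide +kernel)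
theorem L24341 : W_20 (nat_lit 5) (nat_lit 0x80005000200000001000080000000000000000000000000000000) (nat_lit 0x0) (nat_lit 0x50003800140000000000010000800000000000000000000000000000000000) := T_20 (nat_lit 160) (nat_lit 143) (nat_lit 6) (nat_lit 7) (nat_lit 11) L24340 (by decide +kernel)
theorem L24342 : W_20 (nat_lit 2) (nat_lit 0x1e0005000200010001000080000000000000000000000000000000) (nat_lit 0x0) (nat_lit 0x10018000000000000000000000000000000000000000000000000) := D_20 (nat_lit 195) (nat_lit 208) (nat_lit 196) (nat_lit 2) (nat_lit 4) (nat_lit 12) (nat_lit 2) (nat_lit 5) (nat_lit 12) (by decide +kernel)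
theorem L24343 : W_20 (nat_lit 3) (nat_lit 0x1c0005000200010001000080000000000000000000000000000000) (nat_lit 0x0) (nat_lit 0x30018800000000000000000000000000000000000000000000000) := T_20 (nat_lit 209) (nat_lit 191) (nat_lit 0) (nat_lit 8) (nat_lit 12) L24342 (by decide +kernel)
theorem L24344 : W_20 (nat_lit 4) (nat_lit 0xc0005000200010001000080000000000000000000000000000000) (nat_lit 0x0) (nat_lit 0x2000130018800000000000000000000000000000000000000000000000) := T_20 (nat_lit 212) (nat_lit 229) (nat_lit 7) (nat_lit 7) (nat_lit 9) L24343 (by decide +kernel)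
theorem L24345 : W_20 (nat_lit 5) (nat_lit 0x80005000200010001000080000000000000000000000000000000) (nat_lit 0x0) (nat_lit 0x2800170018800000000000000000000000000000000000000000000000) := T_20 (nat_lit 210) (nat_lit 227) (nat_lit 5) (nat_lit 7) (nat_lit 9) L24344 (by decide +kernel)
theorem L24346 : W_20 (nat_lit 6) (nat_lit 0x80005000200000001000080000000000000000000000000000000) (nat_lit 0x0) (nat_lit 0x2800170018800000010000800000000000000000000000000000000000) := T_20 (nat_lit 160) (nat_lit 143) (nat_lit 6) (nat_lit 7) (nat_lit 11) L24345 (by decide +kernel)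
theorem L24347 : W_20 (nat_lit 2) (nat_lit 0x1000080005000200010001000080000000000000000000000000000000) (nat_lit 0x0) (nat_lit 0x40002000100000000000000000000000000000000000000000000000000000) := D_20 (nat_lit 229) (nat_lit 246) (nat_lit 212) (nat_lit 7) (nat_lit 7) (nat_lit 10) (nat_lit 7) (nat_lit 7) (nat_lit 9) (by decide +kernel)
theorem L24348 : W_20 (nat_lit 3) (nat_lit 0x1000080005000200000001000080000000000000000000000000000000) (nat_lit 0x0) (nat_lit 0x40002000100000000000010000800000000000000000000000000000000000) := T_20 (nat_lit 160) (nat_lit 143) (nat_lit 6) (nat_lit 7) (nat_lit 11) L24347 (by decide +kernel)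
theorem L24349 : W_20 (nat_lit 2) (nat_lit 0x50001000080005000200000001000080000000000000000000000000000000) (nat_lit 0x0) (nat_lit 0xa00020000000000000000000000000000000000000000000000000000000000000) := D_20 (nat_lit 245) (nat_lit 261) (nat_lit 263) (nat_lit 5) (nat_lit 7) (nat_lit 11) (nat_lit 7) (nat_lit 7) (nat_lit 11) (by decide +kernel)
theorem L24350 : W_20 (nat_lit 3) (nat_lit 0x10001000080005000200000001000080000000000000000000000000000000) (nat_lit 0x0) (nat_lit 0xa00060002000000000000000000000000000000000000000000000000000000000) := T_20 (nat_lit 246) (nat_lit 229) (nat_lit 7) (nat_lit 7) (nat_lit 10) L24349 (by decide +kernel)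
theorem L24351 : W_20 (nat_lit 4) (nat_lit 0x1000080005000200000001000080000000000000000000000000000000) (nat_lit 0x0) (nat_lit 0xa00070002800000000000000000000000000000000000000000000000000000000) := T_20 (nat_lit 244) (nat_lit 227) (nat_lit 5) (nat_lit 7) (nat_lit 10) L24350 (by decide +kernel)
theorem L24352 : W_20 (nat_lit 2) (nat_lit 0x30001000180005000200018001000080000000000000000000000000000000) (nat_lit 0x0) (nat_lit 0x400000000000000008000400000000000000000000000000000000000000000000) := D_20 (nat_lit 195) (nat_lit 178) (nat_lit 262) (nat_lit 6) (nat_lit 7) (nat_lit 14) (nat_lit 6) (nat_lit 7) (nat_lit 15) (by decide +kernel)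
theorem L24353 : W_20 (nat_lit 3) (nat_lit 0x10001000180005000200018001000080000000000000000000000000000000) (nat_lit 0x0) (nat_lit 0x600020000000000008000400000000000000000000000000000000000000000000) := T_20 (nat_lit 245) (nat_lit 261) (nat_lit 5) (nat_lit 7) (nat_lit 11) L24352 (by decide +kernel)
theorem L24354 : W_20 (nat_lit 4) (nat_lit 0x10001000080005000200018001000080000000000000000000000000000000) (nat_lit 0x0) (nat_lit 0x600020002000100008000400000000000000000000000000000000000000000000) := T_20 (nat_lit 212) (nat_lit 229) (nat_lit 7) (nat_lit 7) (nat_lit 9) L24353 (by decide +kernel)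
theorem L24355 : W_20 (nat_lit 5) (nat_lit 0x10001000080005000200010001000080000000000000000000000000000000) (nat_lit 0x0) (nat_lit 0x600020002000100008000400008000400000000000000000000000000000000000) := T_20 (nat_lit 159) (nat_lit 142) (nat_lit 4) (nat_lit 7) (nat_lit 12) L24354 (by decide +kernel)
theorem L24356 : W_20 (nat_lit 6) (nat_lit 0x10001000080005000200000001000080000000000000000000000000000000) (nat_lit 0x0) (nat_lit 0x600020002000100008000400018000c00000000000000000000000000000000000) := T_20 (nat_lit 160) (nat_lit 143) (nat_lit 6) (nat_lit 7) (nat_lit 11) L24355 (by decide +kernel)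
theorem L24357 : W_20 (nat_lit 7) (nat_lit 0x1000080005000200000001000080000000000000000000000000000000) (nat_lit 0x0) (nat_lit 0x600030002800100008000400018000c00000000000000000000000000000000000) := T_20 (nat_lit 244) (nat_lit 227) (nat_lit 5) (nat_lit 7) (nat_lit 10) L24356 (by decide +kernel)
theorem L24358 : W_20 (nat_lit 2) (nat_lit 0x80003000100008000d000200018001000080000000000000000000000000000000) (nat_lit 0x0) (nat_lit 0x10000400000000000100000000000000000000000000000000000000000000000000000) := D_20 (nat_lit 262) (nat_lit 212) (nat_lit 280) (nat_lit 6) (nat_lit 7) (nat_lit 15) (nat_lit 7) (nat_lit 7) (nat_lit 12) (by decide +kernel)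
theorem L24359 : W_20 (nat_lit 3) (nat_lit 0x3000100008000d000200018001000080000000000000000000000000000000) (nat_lit 0x0) (nat_lit 0x10000c00040000000100000000000000000000000000000000000000000000000000000) := T_20 (nat_lit 263) (nat_lit 246) (nat_lit 7) (nat_lit 7) (nat_lit 11) L24358 (by decide +kernel)
theorem L24360 : W_20 (nat_lit 4) (nat_lit 0x30001000080005000200018001000080000000000000000000000000000000) (nat_lit 0x0) (nat_lit 0x10000c00040000000100008000400000000000000000000000000000000000000000000) := T_20 (nat_lit 195) (nat_lit 178) (nat_lit 6) (nat_lit 7) (nat_lit 14) L24359 (by decide +kernel)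
theorem L24361 : W_20 (nat_lit 5) (nat_lit 0x10001000080005000200018001000080000000000000000000000000000000) (nat_lit 0x0) (nat_lit 0x10000e00060000000100008000400000000000000000000000000000000000000000000) := T_20 (nat_lit 245) (nat_lit 261) (nat_lit 5) (nat_lit 7) (nat_lit 11) L24360 (by decide +kernel)
theorem L24362 : W_20 (nat_lit 6) (nat_lit 0x10001000080005000200010001000080000000000000000000000000000000) (nat_lit 0x0) (nat_lit 0x10000e00060000000100008000400008000400000000000000000000000000000000000) := T_20 (nat_lit 159) (nat_lit 142) (nat_lit 4) (nat_lit 7) (nat_lit 12) L24361 (by decide +kernel)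
theorem L24363 : W_20 (nat_lit 7) (nat_lit 0x10001000080005000200000001000080000000000000000000000000000000) (nat_lit 0x0) (nat_lit 0x10000e00060000000100008000400018000c00000000000000000000000000000000000) := T_20 (nat_lit 160) (nat_lit 143) (nat_lit 6) (nat_lit 7) (nat_lit 11) L24362 (by decide +kernel)
theorem L24364 : W_20 (nat_lit 8) (nat_lit 0x1000080005000200000001000080000000000000000000000000000000) (nat_lit 0x0) (nat_lit 0x10000e00070000800100008000400018000c00000000000000000000000000000000000) := T_20 (nat_lit 244) (nat_lit 227) (nat_lit 5) (nat_lit 7) (nat_lit 10) L24363 (by decide +kernel)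
theorem L24365 : W_20 (nat_lit 9) (nat_lit 0x80005000200000001000080000000000000000000000000000000) (nat_lit 0x0) (nat_lit 0x10000e00070003800100008000400018000c00000000000000000000000000000000000) := Q_20 (nat_lit 228) (C_20 L24348 (C_20 L24351 (C_20 L24357 (C_20 L24364 N_20)))) (by decide +kernel)
theorem L24366 : W_20 (nat_lit 2) (nat_lit 0x20006000100008000d000200000001000080000000000000000000000000000000) (nat_lit 0x0) (nat_lit 0x4000400000000000100000000000000000000000000000000000000000000000000000) := D_20 (nat_lit 262) (nat_lit 212) (nat_lit 278) (nat_lit 6) (nat_lit 7) (nat_lit 15) (nat_lit 5) (nat_lit 7) (nat_lit 12) (by decide +kernel)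
theorem L24367 : W_20 (nat_lit 3) (nat_lit 0x6000100008000d000200000001000080000000000000000000000000000000) (nat_lit 0x0) (nat_lit 0x4000600010000000100000000000000000000000000000000000000000000000000000) := T_20 (nat_lit 261) (nat_lit 244) (nat_lit 5) (nat_lit 7) (nat_lit 11) L24366 (by decide +kernel)
theorem L24368 : W_20 (nat_lit 4) (nat_lit 0x60001000080005000200000001000080000000000000000000000000000000) (nat_lit 0x0) (nat_lit 0x4000600010000000100008000400000000000000000000000000000000000000000000) := T_20 (nat_lit 195) (nat_lit 178) (nat_lit 6) (nat_lit 7) (nat_lit 14) L24367 (by decide +kernel)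
theorem L24369 : W_20 (nat_lit 5) (nat_lit 0x40001000080005000200000001000080000000000000000000000000000000) (nat_lit 0x0) (nat_lit 0x4000e00030000000100008000400000000000000000000000000000000000000000000) := T_20 (nat_lit 245) (nat_lit 263) (nat_lit 7) (nat_lit 7) (nat_lit 11) L24368 (by decide +kernel)
theorem L24370 : W_20 (nat_lit 6) (nat_lit 0x1000080005000200000001000080000000000000000000000000000000) (nat_lit 0x0) (nat_lit 0x4000e00070002000100008000400000000000000000000000000000000000000000000) := T_20 (nat_lit 246) (nat_lit 229) (nat_lit 7) (nat_lit 7) (nat_lit 10) L24369 (by decide +kernel)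
theorem L24371 : W_20 (nat_lit 2) (nat_lit 0x10001e0005000200018001000080000000000000000000000000000000) (nat_lit 0x0) (nat_lit 0x10018000000000000000000000000000000000000000000000000) := D_20 (nat_lit 195) (nat_lit 208) (nat_lit 196) (nat_lit 2) (nat_lit 4) (nat_lit 12) (nat_lit 2) (nat_lit 5) (nat_lit 12) (by decide +kernel)
theorem L24372 : W_20 (nat_lit 3) (nat_lit 0x10001c0005000200018001000080000000000000000000000000000000) (nat_lit 0x0) (nat_lit 0x30018800000000000000000000000000000000000000000000000) := T_20 (nat_lit 209) (nat_lit 191) (nat_lit 0) (nat_lit 8) (nat_lit 12) L24371 (by decide +kernel)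
theorem L24373 : W_20 (nat_lit 4) (nat_lit 0x10000c0005000200018001000080000000000000000000000000000000) (nat_lit 0x0) (nat_lit 0x2000130018800000000000000000000000000000000000000000000000) := T_20 (nat_lit 212) (nat_lit 229) (nat_lit 7) (nat_lit 7) (nat_lit 9) L24372 (by decide +kernel)
theorem L24374 : W_20 (nat_lit 5) (nat_lit 0x10000c0005000200010001000080000000000000000000000000000000) (nat_lit 0x0) (nat_lit 0x2000130018800000008000400000000000000000000000000000000000) := T_20 (nat_lit 159) (nat_lit 142) (nat_lit 4) (nat_lit 7) (nat_lit 12) L24373 (by decide +kernel)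
theorem L24375 : W_20 (nat_lit 6) (nat_lit 0x10000c0005000200000001000080000000000000000000000000000000) (nat_lit 0x0) (nat_lit 0x2800130018800000018000400000000000000000000000000000000000) := T_20 (nat_lit 160) (nat_lit 227) (nat_lit 5) (nat_lit 7) (nat_lit 9) L24374 (by decide +kernel)
theorem L24376 : W_20 (nat_lit 2) (nat_lit 0x10000e0005000200000001000080000000000000000000000000000000) (nat_lit 0x0) (nat_lit 0x2000010008000000000000000000000000000000000000000000000000) := D_20 (nat_lit 208) (nat_lit 195) (nat_lit 229) (nat_lit 2) (nat_lit 4) (nat_lit 12) (nat_lit 3) (nat_lit 4) (nat_lit 12) (by decide +kernel)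
theorem L24377 : W_20 (nat_lit 2) (nat_lit 0x10001e0005000200000001000080000000000000000000000000000000) (nat_lit 0x0) (nat_lit 0x6000010000000000000000000000000000000000000000000000000000) := D_20 (nat_lit 229) (nat_lit 208) (nat_lit 230) (nat_lit 3) (nat_lit 4) (nat_lit 12) (nat_lit 3) (nat_lit 5) (nat_lit 12) (by decide +kernel)
theorem L24378 : W_20 (nat_lit 3) (nat_lit 0x10000e0005000200000001000080000000000000000000000000000000) (nat_lit 0x0) (nat_lit 0x6000110000800000000000000000000000000000000000000000000000) := T_20 (nat_lit 212) (nat_lit 191) (nat_lit 0) (nat_lit 8) (nat_lit 12) L24377 (by decide +kernel)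
theorem L24379 : W_20 (nat_lit 2) (nat_lit 0x10000f0005000200000001000080000000000000000000000000000000) (nat_lit 0x0) (nat_lit 0x100000c00000000000000000000000000000000000000000000000) := D_20 (nat_lit 191) (nat_lit 212) (nat_lit 190) (nat_lit 0) (nat_lit 8) (nat_lit 12) (nat_lit 0) (nat_lit 7) (nat_lit 12) (by decide +kernel)
theorem L24380 : W_20 (nat_lit 3) (nat_lit 0x10000e0005000200000001000080000000000000000000000000000000) (nat_lit 0x0) (nat_lit 0x110008c00000000000000000000000000000000000000000000000) := T_20 (nat_lit 208) (nat_lit 195) (nat_lit 2) (nat_lit 4) (nat_lit 12) L24379 (by decide +kernel)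
theorem L24381 : W_20 (nat_lit 2) (nat_lit 0x10001e0005000200000001000080000000000000000000000000000000) (nat_lit 0x0) (nat_lit 0x6000000000000000010000000000000000000000000000000000000000) := D_20 (nat_lit 229) (nat_lit 230) (nat_lit 160) (nat_lit 3) (nat_lit 5) (nat_lit 12) (nat_lit 7) (nat_lit 7) (nat_lit 9) (by decide +kernel)
theorem L24382 : W_20 (nat_lit 3) (nat_lit 0x10000e0005000200000001000080000000000000000000000000000000) (nat_lit 0x0) (nat_lit 0x6000100000800000010000000000000000000000000000000000000000) := T_20 (nat_lit 212) (nat_lit 191) (nat_lit 0) (nat_lit 8) (nat_lit 12) L24381 (by decide +kernel)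
theorem L24383 : W_20 (nat_lit 4) (nat_lit 0x10000c0005000200000001000080000000000000000000000000000000) (nat_lit 0x0) (nat_lit 0x6000130008c00000010000000000000000000000000000000000000000) := Q_20 (nat_lit 209) (C_20 L24376 (C_20 L24378 (C_20 L24380 (C_20 L24382 N_20)))) (by decide +kernel)
theorem L24384 : W_20 (nat_lit 2) (nat_lit 0x300010000e000d000200000001000080000000000000000000000000000000) (nat_lit 0x0) (nat_lit 0x400000000000100000800000000000000000000000000000000000000000000000) := D_20 (nat_lit 212) (nat_lit 262) (nat_lit 191) (nat_lit 6) (nat_lit 7) (nat_lit 15) (nat_lit 0) (nat_lit 8) (nat_lit 12) (by decide +kernel)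
theorem L24385 : W_20 (nat_lit 3) (nat_lit 0x300010000c000d000200000001000080000000000000000000000000000000) (nat_lit 0x0) (nat_lit 0x400000000000130000800000000000000000000000000000000000000000000000) := T_20 (nat_lit 209) (nat_lit 208) (nat_lit 2) (nat_lit 4) (nat_lit 12) L24384 (by decide +kernel)
theorem L24386 : W_20 (nat_lit 4) (nat_lit 0x300010000c0005000200000001000080000000000000000000000000000000) (nat_lit 0x0) (nat_lit 0x400000000000130008800400000000000000000000000000000000000000000000) := T_20 (nat_lit 195) (nat_lit 178) (nat_lit 6) (nat_lit 7) (nat_lit 14) L24385 (by decide +kernel)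
theorem L24387 : W_20 (nat_lit 5) (nat_lit 0x100010000c0005000200000001000080000000000000000000000000000000) (nat_lit 0x0) (nat_lit 0x600020000000130008800400000000000000000000000000000000000000000000) := T_20 (nat_lit 245) (nat_lit 261) (nat_lit 5) (nat_lit 7) (nat_lit 11) L24386 (by decide +kernel)
theorem L24388 : W_20 (nat_lit 6) (nat_lit 0x10000c0005000200000001000080000000000000000000000000000000) (nat_lit 0x0) (nat_lit 0x600030000800130008800400000000000000000000000000000000000000000000) := T_20 (nat_lit 244) (nat_lit 227) (nat_lit 5) (nat_lit 7) (nat_lit 10) L24387 (by decide +kernel)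
theorem L24389 : W_20 (nat_lit 2) (nat_lit 0x10000c0005000200000001000080000000000000000000000000000000) (nat_lit 0x0) (nat_lit 0x10000800000000000000010000000000000000000000000000000000000000) := D_20 (nat_lit 227) (nat_lit 244) (nat_lit 160) (nat_lit 5) (nat_lit 7) (nat_lit 10) (nat_lit 5) (nat_lit 7) (nat_lit 9) (by decide +kernel)
theorem L24390 : W_20 (nat_lit 7) (nat_lit 0x1000080005000200000001000080000000000000000000000000000000) (nat_lit 0x0) (nat_lit 0x600030006800170018c00400018000400000000000000000000000000000000000) := Q_20 (nat_lit 210) (C_20 L24375 (C_20 L24383 (C_20 L24388 (C_20 L24389 N_20)))) (by decide +kernel)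
theorem L24391 : W_20 (nat_lit 2) (nat_lit 0x1000180005000200000001000080000000000000000000000000000000) (nat_lit 0x0) (nat_lit 0x40002000000000000000010000000000000000000000000000000000000000) := D_20 (nat_lit 229) (nat_lit 246) (nat_lit 160) (nat_lit 7) (nat_lit 7) (nat_lit 10) (nat_lit 7) (nat_lit 7) (nat_lit 9) (by decide +kernel)
theorem L24392 : W_20 (nat_lit 2) (nat_lit 0x60001000180005000200000001000080000000000000000000000000000000) (nat_lit 0x0) (nat_lit 0x400000000000000008000400000000000000000000000000000000000000000000) := D_20 (nat_lit 195) (nat_lit 262) (nat_lit 178) (nat_lit 6) (nat_lit 7) (nat_lit 15) (nat_lit 6) (nat_lit 7) (nat_lit 14) (by decide +kernel)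
theorem L24393 : W_20 (nat_lit 3) (nat_lit 0x40001000180005000200000001000080000000000000000000000000000000) (nat_lit 0x0) (nat_lit 0xc00020000000000008000400000000000000000000000000000000000000000000) := T_20 (nat_lit 245) (nat_lit 263) (nat_lit 7) (nat_lit 7) (nat_lit 11) L24392 (by decide +kernel)
theorem L24394 : W_20 (nat_lit 4) (nat_lit 0x1000180005000200000001000080000000000000000000000000000000) (nat_lit 0x0) (nat_lit 0xc00060002000000008000400000000000000000000000000000000000000000000) := T_20 (nat_lit 246) (nat_lit 229) (nat_lit 7) (nat_lit 7) (nat_lit 10) L24393 (by decide +kernel)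
theorem L24395 : W_20 (nat_lit 2) (nat_lit 0x10001e0005000200010001000080000000000000000000000000000000) (nat_lit 0x0) (nat_lit 0x10018000000000000000000000000000000000000000000000000) := D_20 (nat_lit 195) (nat_lit 208) (nat_lit 196) (nat_lit 2) (nat_lit 4) (nat_lit 12) (nat_lit 2) (nat_lit 5) (nat_lit 12) (by decide +kernel)
theorem L24396 : W_20 (nat_lit 3) (nat_lit 0x10001c0005000200010001000080000000000000000000000000000000) (nat_lit 0x0) (nat_lit 0x30018800000000000000000000000000000000000000000000000) := T_20 (nat_lit 209) (nat_lit 191) (nat_lit 0) (nat_lit 8) (nat_lit 12) L24395 (by decide +kernel)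
theorem L24397 : W_20 (nat_lit 4) (nat_lit 0x1000180005000200010001000080000000000000000000000000000000) (nat_lit 0x0) (nat_lit 0x800070018800000000000000000000000000000000000000000000000) := T_20 (nat_lit 210) (nat_lit 227) (nat_lit 5) (nat_lit 7) (nat_lit 9) L24396 (by decide +kernel)
theorem L24398 : W_20 (nat_lit 5) (nat_lit 0x1000180005000200000001000080000000000000000000000000000000) (nat_lit 0x0) (nat_lit 0x2800070018800000010000000000000000000000000000000000000000) := T_20 (nat_lit 160) (nat_lit 229) (nat_lit 7) (nat_lit 7) (nat_lit 9) L24397 (by decide +kernel)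
theorem L24399 : W_20 (nat_lit 2) (nat_lit 0x10001e0005000200000001000080000000000000000000000000000000) (nat_lit 0x0) (nat_lit 0x10018000000000000000000000000000000000000000000000000) := D_20 (nat_lit 195) (nat_lit 208) (nat_lit 196) (nat_lit 2) (nat_lit 4) (nat_lit 12) (nat_lit 2) (nat_lit 5) (nat_lit 12) (by decide +kernel)
theorem L24400 : W_20 (nat_lit 3) (nat_lit 0x10001c0005000200000001000080000000000000000000000000000000) (nat_lit 0x0) (nat_lit 0x30018800000000000000000000000000000000000000000000000) := T_20 (nat_lit 209) (nat_lit 191) (nat_lit 0) (nat_lit 8) (nat_lit 12) L24399 (by decide +kernel)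
theorem L24401 : W_20 (nat_lit 2) (nat_lit 0x12001f000500022001e001080080000000000000000000000000000000) (nat_lit 0x0) (nat_lit 0x10001000040000000000000000000000000000000000) := D_20 (nat_lit 156) (nat_lit 172) (nat_lit 138) (nat_lit 1) (nat_lit 6) (nat_lit 9) (nat_lit 0) (nat_lit 6) (nat_lit 9) (by decide +kernel)
theorem L24402 : W_20 (nat_lit 3) (nat_lit 0x12001f000500022001e001000080000000000000000000000000000000) (nat_lit 0x0) (nat_lit 0x100010001c0000000000000000000000000000000000) := T_20 (nat_lit 139) (nat_lit 140) (nat_lit 0) (nat_lit 7) (nat_lit 9) L24401 (by decide +kernel)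
theorem L24403 : W_20 (nat_lit 4) (nat_lit 0x12001f000500020001e001000080000000000000000000000000000000) (nat_lit 0x0) (nat_lit 0x700010001c0000000000000000000000000000000000) := T_20 (nat_lit 173) (nat_lit 174) (nat_lit 1) (nat_lit 7) (nat_lit 9) L24402 (by decide +kernel)
theorem L24404 : W_20 (nat_lit 5) (nat_lit 0x12001f000500020001c001000080000000000000000000000000000000) (nat_lit 0x0) (nat_lit 0x4700030001c0000000000000000000000000000000000) := T_20 (nat_lit 157) (nat_lit 178) (nat_lit 3) (nat_lit 4) (nat_lit 9) L24403 (by decide +kernel)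
theorem L24405 : W_20 (nat_lit 6) (nat_lit 0x12001f0005000200018001000080000000000000000000000000000000) (nat_lit 0x0) (nat_lit 0x4f00070001c0000000000000000000000000000000000) := T_20 (nat_lit 158) (nat_lit 175) (nat_lit 5) (nat_lit 5) (nat_lit 9) L24404 (by decide +kernel)
theorem L24406 : W_20 (nat_lit 7) (nat_lit 0x12001e0005000200018001000080000000000000000000000000000000) (nat_lit 0x0) (nat_lit 0x1000100000004f00070001c0000000000000000000000000000000000) := T_20 (nat_lit 208) (nat_lit 224) (nat_lit 1) (nat_lit 7) (nat_lit 12) L24405 (by decide +kernel)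
theorem L24407 : W_20 (nat_lit 8) (nat_lit 0x10001e0005000200018001000080000000000000000000000000000000) (nat_lit 0x0) (nat_lit 0x7000100000004f00070001c0000000000000000000000000000000000) := T_20 (nat_lit 225) (nat_lit 226) (nat_lit 1) (nat_lit 8) (nat_lit 12) L24406 (by decide +kernel)
theorem L24408 : W_20 (nat_lit 9) (nat_lit 0x10001c0005000200018001000080000000000000000000000000000000) (nat_lit 0x0) (nat_lit 0x7000300008004f00070001c0000000000000000000000000000000000) := T_20 (nat_lit 209) (nat_lit 191) (nat_lit 0) (nat_lit 8) (nat_lit 12) L24407 (by decide +kernel)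
theorem L24409 : W_20 (nat_lit 10) (nat_lit 0x10001c0005000200010001000080000000000000000000000000000000) (nat_lit 0x0) (nat_lit 0x7000300008004f000f0005c0000000000000000000000000000000000) := T_20 (nat_lit 159) (nat_lit 142) (nat_lit 4) (nat_lit 7) (nat_lit 12) L24408 (by decide +kernel)
theorem L24410 : W_20 (nat_lit 11) (nat_lit 0x10001c0005000200000001000080000000000000000000000000000000) (nat_lit 0x0) (nat_lit 0xf000300008004f001f0005c0000000000000000000000000000000000) := T_20 (nat_lit 160) (nat_lit 227) (nat_lit 5) (nat_lit 7) (nat_lit 9) L24409 (by decide +kernel)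
theorem L24411 : W_20 (nat_lit 2) (nat_lit 0x18001c0005000200000001000080000000000000000000000000000000) (nat_lit 0x0) (nat_lit 0x600200000000000000000000000000000000000000000000000000000) := D_20 (nat_lit 226) (nat_lit 225) (nat_lit 213) (nat_lit 2) (nat_lit 4) (nat_lit 13) (nat_lit 1) (nat_lit 9) (nat_lit 12) (by decide +kernel)
theorem L24412 : W_20 (nat_lit 3) (nat_lit 0x10001c0005000200000001000080000000000000000000000000000000) (nat_lit 0x0) (nat_lit 0xe00200000000000010000000000000000000000000000000000000000) := T_20 (nat_lit 227) (nat_lit 160) (nat_lit 5) (nat_lit 7) (nat_lit 9) L24411 (by decide +kernel)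
theorem L24413 : W_20 (nat_lit 12) (nat_lit 0x1000180005000200000001000080000000000000000000000000000000) (nat_lit 0x0) (nat_lit 0xf002700188004f001f0005c0000000000000000000000000000000000) := Q_20 (nat_lit 210) (C_20 L24400 (C_20 L24410 (C_20 L24412 N_20))) (by decide +kernel)
theorem L24414 : W_20 (nat_lit 13) (nat_lit 0x1000080005000200000001000080000000000000000000000000000000) (nat_lit 0x0) (nat_lit 0xc00060002f003700188004f001f0005c0000000000000000000000000000000000) := Q_20 (nat_lit 212) (C_20 L24391 (C_20 L24394 (C_20 L24398 (C_20 L24413 N_20)))) (by decide +kernel)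
theorem L24415 : W_20 (nat_lit 2) (nat_lit 0x80003000100008000d000200000001000080000000000000000000000000000000) (nat_lit 0x0) (nat_lit 0x10000400000000000100000000000000000000000000000000000000000000000000000) := D_20 (nat_lit 262) (nat_lit 212) (nat_lit 280) (nat_lit 6) (nat_lit 7) (nat_lit 15) (nat_lit 7) (nat_lit 7) (nat_lit 12) (by decide +kernel)
theorem L24416 : W_20 (nat_lit 3) (nat_lit 0x3000100008000d000200000001000080000000000000000000000000000000) (nat_lit 0x0) (nat_lit 0x10000c00040000000100000000000000000000000000000000000000000000000000000) := T_20 (nat_lit 263) (nat_lit 246) (nat_lit 7) (nat_lit 7) (nat_lit 11) L24415 (by decide +kernel)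
theorem L24417 : W_20 (nat_lit 4) (nat_lit 0x30001000080005000200000001000080000000000000000000000000000000) (nat_lit 0x0) (nat_lit 0x10000c00040000000100008000400000000000000000000000000000000000000000000) := T_20 (nat_lit 195) (nat_lit 178) (nat_lit 6) (nat_lit 7) (nat_lit 14) L24416 (by decide +kernel)
theorem L24418 : W_20 (nat_lit 5) (nat_lit 0x10001000080005000200000001000080000000000000000000000000000000) (nat_lit 0x0) (nat_lit 0x10000e00060000000100008000400000000000000000000000000000000000000000000) := T_20 (nat_lit 245) (nat_lit 261) (nat_lit 5) (nat_lit 7) (nat_lit 11) L24417 (by decide +kernel)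
theorem L24419 : W_20 (nat_lit 6) (nat_lit 0x1000080005000200000001000080000000000000000000000000000000) (nat_lit 0x0) (nat_lit 0x10000e00070000800100008000400000000000000000000000000000000000000000000) := T_20 (nat_lit 244) (nat_lit 227) (nat_lit 5) (nat_lit 7) (nat_lit 10) L24418 (by decide +kernel)
theorem L24420 : W_20 (nat_lit 2) (nat_lit 0x1800080005000200010001000080000000000000000000000000000000) (nat_lit 0x0) (nat_lit 0x40002000100000000000000000000000000000000000000000000000000000) := D_20 (nat_lit 229) (nat_lit 246) (nat_lit 212) (nat_lit 7) (nat_lit 7) (nat_lit 10) (nat_lit 7) (nat_lit 7) (nat_lit 9) (by decide +kernel)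
theorem L24421 : W_20 (nat_lit 3) (nat_lit 0x1800080005000200000001000080000000000000000000000000000000) (nat_lit 0x0) (nat_lit 0x40002000140000000000010000000000000000000000000000000000000000) := T_20 (nat_lit 160) (nat_lit 210) (nat_lit 5) (nat_lit 7) (nat_lit 9) L24420 (by decide +kernel)
theorem L24422 : W_20 (nat_lit 4) (nat_lit 0x1000080005000200000001000080000000000000000000000000000000) (nat_lit 0x0) (nat_lit 0x50002800140000000000010000000000000000000000000000000000000000) := T_20 (nat_lit 227) (nat_lit 244) (nat_lit 5) (nat_lit 7) (nat_lit 10) L24421 (by decide +kernel)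
theorem L24423 : W_20 (nat_lit 14) (nat_lit 0x80005000200000001000080000000000000000000000000000000) (nat_lit 0x0) (nat_lit 0x14000e00070007f00370018c004f001f0005c0000000000000000000000000000000000) := Q_20 (nat_lit 228) (C_20 L24370 (C_20 L24351 (C_20 L24390 (C_20 L24414 (C_20 L24419 (C_20 L24422 N_20)))))) (by decide +kernel)
theorem L24424 : W_20 (nat_lit 2) (nat_lit 0x2000f0005800200010001000080000000000000000000000000000000) (nat_lit 0x0) (nat_lit 0x80004000000000000000080000000000000000000000000000000000000000000) := D_20 (nat_lit 242) (nat_lit 259) (nat_lit 175) (nat_lit 6) (nat_lit 4) (nat_lit 15) (nat_lit 6) (nat_lit 4) (nat_lit 14) (by decide +kernel)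
theorem L24425 : W_20 (nat_lit 3) (nat_lit 0x2000f0005000200010001000080000000000000000000000000000000) (nat_lit 0x0) (nat_lit 0x80004000000000000c00080000000000000000000000000000000000000000000) := T_20 (nat_lit 191) (nat_lit 190) (nat_lit 0) (nat_lit 7) (nat_lit 12) L24424 (by decide +kernel)
theorem L24426 : W_20 (nat_lit 4) (nat_lit 0xf0005000200010001000080000000000000000000000000000000) (nat_lit 0x0) (nat_lit 0x80004000300000000c00080000000000000000000000000000000000000000000) := T_20 (nat_lit 225) (nat_lit 224) (nat_lit 1) (nat_lit 7) (nat_lit 12) L24425 (by decide +kernel)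
theorem L24427 : W_20 (nat_lit 5) (nat_lit 0xe0005000200010001000080000000000000000000000000000000) (nat_lit 0x0) (nat_lit 0x80004000300010008c00080000000000000000000000000000000000000000000) := T_20 (nat_lit 208) (nat_lit 195) (nat_lit 2) (nat_lit 4) (nat_lit 12) L24426 (by decide +kernel)
theorem L24428 : W_20 (nat_lit 6) (nat_lit 0xa0005000200010001000080000000000000000000000000000000) (nat_lit 0x0) (nat_lit 0x80004000b00050008c00080000000000000000000000000000000000000000000) := T_20 (nat_lit 210) (nat_lit 227) (nat_lit 5) (nat_lit 7) (nat_lit 9) L24427 (by decide +kernel)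
theorem L24429 : W_20 (nat_lit 7) (nat_lit 0xa0005000200000001000080000000000000000000000000000000) (nat_lit 0x0) (nat_lit 0x80004000b00050008c00080010000800000000000000000000000000000000000) := T_20 (nat_lit 160) (nat_lit 143) (nat_lit 6) (nat_lit 7) (nat_lit 11) L24428 (by decide +kernel)
theorem L24430 : W_20 (nat_lit 2) (nat_lit 0x800000012000f000500024001e001000080000000000000000000000000000000) (nat_lit 0x0) (nat_lit 0x800000000000180000000000000000000000000000000000) := D_20 (nat_lit 140) (nat_lit 139) (nat_lit 191) (nat_lit 0) (nat_lit 7) (nat_lit 9) (nat_lit 7) (nat_lit 4) (nat_lit 8) (by decide +kernel)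
theorem L24431 : W_20 (nat_lit 3) (nat_lit 0x800000012000f000500020001e001000080000000000000000000000000000000) (nat_lit 0x0) (nat_lit 0x800060000000180000000000000000000000000000000000) := T_20 (nat_lit 174) (nat_lit 173) (nat_lit 1) (nat_lit 7) (nat_lit 9) L24430 (by decide +kernel)
theorem L24432 : W_20 (nat_lit 4) (nat_lit 0x800000012000f000500020001c001000080000000000000000000000000000000) (nat_lit 0x0) (nat_lit 0x800460002000180000000000000000000000000000000000) := T_20 (nat_lit 157) (nat_lit 178) (nat_lit 3) (nat_lit 4) (nat_lit 9) L24431 (by decide +kernel)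
theorem L24433 : W_20 (nat_lit 5) (nat_lit 0x800000012000f0005000200018001000080000000000000000000000000000000) (nat_lit 0x0) (nat_lit 0x8004e0006000180000000000000000000000000000000000) := T_20 (nat_lit 158) (nat_lit 175) (nat_lit 5) (nat_lit 5) (nat_lit 9) L24432 (by decide +kernel)
theorem L24434 : W_20 (nat_lit 6) (nat_lit 0x12000f0005000200018001000080000000000000000000000000000000) (nat_lit 0x0) (nat_lit 0x800040000000000008004e0006000180000000000000000000000000000000000) := T_20 (nat_lit 259) (nat_lit 242) (nat_lit 6) (nat_lit 4) (nat_lit 15) L24433 (by decide +kernel)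
theorem L24435 : W_20 (nat_lit 7) (nat_lit 0x2000f0005000200018001000080000000000000000000000000000000) (nat_lit 0x0) (nat_lit 0x800040030000000008004e0006000180000000000000000000000000000000000) := T_20 (nat_lit 228) (nat_lit 229) (nat_lit 3) (nat_lit 4) (nat_lit 12) L24434 (by decide +kernel)
theorem L24436 : W_20 (nat_lit 8) (nat_lit 0xf0005000200018001000080000000000000000000000000000000) (nat_lit 0x0) (nat_lit 0x800040033000000008004e0006000180000000000000000000000000000000000) := T_20 (nat_lit 225) (nat_lit 224) (nat_lit 1) (nat_lit 7) (nat_lit 12) L24435 (by decide +kernel)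
theorem L24437 : W_20 (nat_lit 9) (nat_lit 0xb0005000200018001000080000000000000000000000000000000) (nat_lit 0x0) (nat_lit 0x800040033000400088004e0006000180000000000000000000000000000000000) := T_20 (nat_lit 210) (nat_lit 195) (nat_lit 2) (nat_lit 4) (nat_lit 12) L24436 (by decide +kernel)
theorem L24438 : W_20 (nat_lit 10) (nat_lit 0xb0005000200010001000080000000000000000000000000000000) (nat_lit 0x0) (nat_lit 0x800040033000400088004e000e000580000000000000000000000000000000000) := T_20 (nat_lit 159) (nat_lit 142) (nat_lit 4) (nat_lit 7) (nat_lit 12) L24437 (by decide +kernel)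
theorem L24439 : W_20 (nat_lit 11) (nat_lit 0xb0005000200000001000080000000000000000000000000000000) (nat_lit 0x0) (nat_lit 0x800040033000400088004e001e000d80000000000000000000000000000000000) := T_20 (nat_lit 160) (nat_lit 143) (nat_lit 6) (nat_lit 7) (nat_lit 11) L24438 (by decide +kernel)
theorem L24440 : W_20 (nat_lit 5) (nat_lit 0xb0005000200000001000080000000000000000000000000000000) (nat_lit 0x0) (nat_lit 0x80004000300040008c00080000000000000000000000000000000000000000000) := T_20 (nat_lit 210) (nat_lit 195) (nat_lit 2) (nat_lit 4) (nat_lit 12) L24174 (by decide +kernel)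
theorem L24441 : W_20 (nat_lit 2) (nat_lit 0x800000002000b000500024001e001000080000000000000000000000000000000) (nat_lit 0x0) (nat_lit 0x800000000000180000000000000000000000000000000000) := D_20 (nat_lit 140) (nat_lit 139) (nat_lit 191) (nat_lit 0) (nat_lit 7) (nat_lit 9) (nat_lit 7) (nat_lit 4) (nat_lit 8) (by decide +kernel)
theorem L24442 : W_20 (nat_lit 3) (nat_lit 0x800000002000b000500020001e001000080000000000000000000000000000000) (nat_lit 0x0) (nat_lit 0x800060000000180000000000000000000000000000000000) := T_20 (nat_lit 174) (nat_lit 173) (nat_lit 1) (nat_lit 7) (nat_lit 9) L24441 (by decide +kernel)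
theorem L24443 : W_20 (nat_lit 4) (nat_lit 0x800000002000b000500020001c001000080000000000000000000000000000000) (nat_lit 0x0) (nat_lit 0x800460002000180000000000000000000000000000000000) := T_20 (nat_lit 157) (nat_lit 178) (nat_lit 3) (nat_lit 4) (nat_lit 9) L24442 (by decide +kernel)
theorem L24444 : W_20 (nat_lit 5) (nat_lit 0x800000002000b0005000200018001000080000000000000000000000000000000) (nat_lit 0x0) (nat_lit 0x8004e0006000180000000000000000000000000000000000) := T_20 (nat_lit 158) (nat_lit 175) (nat_lit 5) (nat_lit 5) (nat_lit 9) L24443 (by decide +kernel)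
theorem L24445 : W_20 (nat_lit 6) (nat_lit 0x2000b0005000200018001000080000000000000000000000000000000) (nat_lit 0x0) (nat_lit 0x800040000000000008004e0006000180000000000000000000000000000000000) := T_20 (nat_lit 259) (nat_lit 242) (nat_lit 6) (nat_lit 4) (nat_lit 15) L24444 (by decide +kernel)
theorem L24446 : W_20 (nat_lit 7) (nat_lit 0x2000b0005000200010001000080000000000000000000000000000000) (nat_lit 0x0) (nat_lit 0x800040000000000008004e000e000580000000000000000000000000000000000) := T_20 (nat_lit 159) (nat_lit 142) (nat_lit 4) (nat_lit 7) (nat_lit 12) L24445 (by decide +kernel)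
theorem L24447 : W_20 (nat_lit 8) (nat_lit 0x2000b0005000200000001000080000000000000000000000000000000) (nat_lit 0x0) (nat_lit 0x800040000000000008004e001e000d80000000000000000000000000000000000) := T_20 (nat_lit 160) (nat_lit 143) (nat_lit 6) (nat_lit 7) (nat_lit 11) L24446 (by decide +kernel)
theorem L24448 : W_20 (nat_lit 2) (nat_lit 0xc0012000f000580024001a001000080000000000000000000000000000000) (nat_lit 0x0) (nat_lit 0x20005000000000000000000000000000000000000000) := D_20 (nat_lit 173) (nat_lit 156) (nat_lit 158) (nat_lit 4) (nat_lit 4) (nat_lit 13) (nat_lit 1) (nat_lit 7) (nat_lit 9) (by decide +kernel)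
theorem L24449 : W_20 (nat_lit 3) (nat_lit 0xc0012000f0005800240018001000080000000000000000000000000000000) (nat_lit 0x0) (nat_lit 0x20007000100000000000000000000000000000000000) := T_20 (nat_lit 157) (nat_lit 140) (nat_lit 7) (nat_lit 4) (nat_lit 8) L24448 (by decide +kernel)
theorem L24450 : W_20 (nat_lit 4) (nat_lit 0xc0012000f0005800200018001000080000000000000000000000000000000) (nat_lit 0x0) (nat_lit 0x400000000000060007000100000000000000000000000000000000000) := T_20 (nat_lit 174) (nat_lit 226) (nat_lit 7) (nat_lit 4) (nat_lit 10) L24449 (by decide +kernel)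
theorem L24451 : W_20 (nat_lit 5) (nat_lit 0x40012000f0005800200018001000080000000000000000000000000000000) (nat_lit 0x0) (nat_lit 0x100008000400000000000060007000100000000000000000000000000000000000) := T_20 (nat_lit 243) (nat_lit 260) (nat_lit 7) (nat_lit 4) (nat_lit 11) L24450 (by decide +kernel)
theorem L24452 : W_20 (nat_lit 6) (nat_lit 0x40012000f0005800200010001000080000000000000000000000000000000) (nat_lit 0x0) (nat_lit 0x10000800040000000000006000f000500000000000000000000000000000000000) := T_20 (nat_lit 159) (nat_lit 142) (nat_lit 4) (nat_lit 7) (nat_lit 12) L24451 (by decide +kernel)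
theorem L24453 : W_20 (nat_lit 7) (nat_lit 0x40012000f0005800200000001000080000000000000000000000000000000) (nat_lit 0x0) (nat_lit 0x10000800040000000000006001f000d00000000000000000000000000000000000) := T_20 (nat_lit 160) (nat_lit 143) (nat_lit 6) (nat_lit 7) (nat_lit 11) L24452 (by decide +kernel)
theorem L24454 : W_20 (nat_lit 8) (nat_lit 0x12000f0005800200000001000080000000000000000000000000000000) (nat_lit 0x0) (nat_lit 0x18000c00040000000000006001f000d00000000000000000000000000000000000) := T_20 (nat_lit 242) (nat_lit 259) (nat_lit 6) (nat_lit 4) (nat_lit 15) L24453 (by decide +kernel)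
theorem L24455 : W_20 (nat_lit 9) (nat_lit 0x2000f0005800200000001000080000000000000000000000000000000) (nat_lit 0x0) (nat_lit 0x18000c00340000000000006001f000d00000000000000000000000000000000000) := T_20 (nat_lit 228) (nat_lit 229) (nat_lit 3) (nat_lit 4) (nat_lit 12) L24454 (by decide +kernel)
theorem L24456 : W_20 (nat_lit 10) (nat_lit 0x2000f0005000200000001000080000000000000000000000000000000) (nat_lit 0x0) (nat_lit 0x18000c003400000000c0006001f000d00000000000000000000000000000000000) := T_20 (nat_lit 191) (nat_lit 190) (nat_lit 0) (nat_lit 7) (nat_lit 12) L24455 (by decide +kernel)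
theorem L24457 : W_20 (nat_lit 11) (nat_lit 0x2000b0005000200000001000080000000000000000000000000000000) (nat_lit 0x0) (nat_lit 0x18000c003500040000c0006001f000d00000000000000000000000000000000000) := T_20 (nat_lit 210) (nat_lit 224) (nat_lit 1) (nat_lit 7) (nat_lit 12) L24456 (by decide +kernel)
theorem L24458 : W_20 (nat_lit 2) (nat_lit 0xe0012000f0005800240004001000080000000000000000000000000000000) (nat_lit 0x0) (nat_lit 0x2000300000000000000000000000000000000000) := D_20 (nat_lit 157) (nat_lit 140) (nat_lit 141) (nat_lit 7) (nat_lit 4) (nat_lit 8) (nat_lit 6) (nat_lit 4) (nat_lit 12) (by decide +kernel)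
theorem L24459 : W_20 (nat_lit 3) (nat_lit 0xe0012000f0005800200004001000080000000000000000000000000000000) (nat_lit 0x0) (nat_lit 0x400000000000040002000300000000000000000000000000000000000) := T_20 (nat_lit 174) (nat_lit 226) (nat_lit 7) (nat_lit 4) (nat_lit 10) L24458 (by decide +kernel)
theorem L24460 : W_20 (nat_lit 4) (nat_lit 0x60012000f0005800200004001000080000000000000000000000000000000) (nat_lit 0x0) (nat_lit 0x100008000400000000000040002000300000000000000000000000000000000000) := T_20 (nat_lit 243) (nat_lit 260) (nat_lit 7) (nat_lit 4) (nat_lit 11) L24459 (by decide +kernel)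
theorem L24461 : W_20 (nat_lit 5) (nat_lit 0x40012000f0005800200004001000080000000000000000000000000000000) (nat_lit 0x0) (nat_lit 0x14000a000400000000000040002000300000000000000000000000000000000000) := T_20 (nat_lit 241) (nat_lit 258) (nat_lit 5) (nat_lit 4) (nat_lit 11) L24460 (by decide +kernel)
theorem L24462 : W_20 (nat_lit 6) (nat_lit 0x12000f0005800200004001000080000000000000000000000000000000) (nat_lit 0x0) (nat_lit 0x1c000e000400000000000040002000300000000000000000000000000000000000) := T_20 (nat_lit 242) (nat_lit 259) (nat_lit 6) (nat_lit 4) (nat_lit 15) L24461 (by decide +kernel)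
theorem L24463 : W_20 (nat_lit 7) (nat_lit 0x2000f0005800200004001000080000000000000000000000000000000) (nat_lit 0x0) (nat_lit 0x1c000e003400000000000040002000300000000000000000000000000000000000) := T_20 (nat_lit 228) (nat_lit 229) (nat_lit 3) (nat_lit 4) (nat_lit 12) L24462 (by decide +kernel)
theorem L24464 : W_20 (nat_lit 8) (nat_lit 0x2000f0005000200004001000080000000000000000000000000000000) (nat_lit 0x0) (nat_lit 0x1c000e003400000000c00040002000300000000000000000000000000000000000) := T_20 (nat_lit 191) (nat_lit 190) (nat_lit 0) (nat_lit 7) (nat_lit 12) L24463 (by decide +kernel)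
theorem L24465 : W_20 (nat_lit 9) (nat_lit 0x2000b0005000200004001000080000000000000000000000000000000) (nat_lit 0x0) (nat_lit 0x1c000e003500040000c00040002000300000000000000000000000000000000000) := T_20 (nat_lit 210) (nat_lit 224) (nat_lit 1) (nat_lit 7) (nat_lit 12) L24464 (by decide +kernel)
theorem L24466 : W_20 (nat_lit 10) (nat_lit 0x2000b0005000200000001000080000000000000000000000000000000) (nat_lit 0x0) (nat_lit 0x1c000e003500040000c000c0006000300000000000000000000000000000000000) := T_20 (nat_lit 158) (nat_lit 175) (nat_lit 5) (nat_lit 5) (nat_lit 9) L24465 (by decide +kernel)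
theorem L24467 : W_20 (nat_lit 2) (nat_lit 0x800000002000b000500022001e001080080000000000000000000000000000000) (nat_lit 0x0) (nat_lit 0x10001000040000000000000000000000000000000000) := D_20 (nat_lit 156) (nat_lit 172) (nat_lit 138) (nat_lit 1) (nat_lit 6) (nat_lit 9) (nat_lit 0) (nat_lit 6) (nat_lit 9) (by decide +kernel)
theorem L24468 : W_20 (nat_lit 3) (nat_lit 0x800000002000b000500022001e001000080000000000000000000000000000000) (nat_lit 0x0) (nat_lit 0x100010001c0000000000000000000000000000000000) := T_20 (nat_lit 139) (nat_lit 140) (nat_lit 0) (nat_lit 7) (nat_lit 9) L24467 (by decide +kernel)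
theorem L24469 : W_20 (nat_lit 4) (nat_lit 0x800000002000b000500020001e001000080000000000000000000000000000000) (nat_lit 0x0) (nat_lit 0x700010001c0000000000000000000000000000000000) := T_20 (nat_lit 173) (nat_lit 174) (nat_lit 1) (nat_lit 7) (nat_lit 9) L24468 (by decide +kernel)
theorem L24470 : W_20 (nat_lit 5) (nat_lit 0x800000002000b000500020001c001000080000000000000000000000000000000) (nat_lit 0x0) (nat_lit 0x4700030001c0000000000000000000000000000000000) := T_20 (nat_lit 157) (nat_lit 178) (nat_lit 3) (nat_lit 4) (nat_lit 9) L24469 (by decide +kernel)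
theorem L24471 : W_20 (nat_lit 6) (nat_lit 0x800000002000b0005000200018001000080000000000000000000000000000000) (nat_lit 0x0) (nat_lit 0x4f00070001c0000000000000000000000000000000000) := T_20 (nat_lit 158) (nat_lit 175) (nat_lit 5) (nat_lit 5) (nat_lit 9) L24470 (by decide +kernel)
theorem L24472 : W_20 (nat_lit 7) (nat_lit 0x800000002000b0005000200010001000080000000000000000000000000000000) (nat_lit 0x0) (nat_lit 0x4f000f0005c0000000000000000000000000000000000) := T_20 (nat_lit 159) (nat_lit 142) (nat_lit 4) (nat_lit 7) (nat_lit 12) L24471 (by decide +kernel)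
theorem L24473 : W_20 (nat_lit 8) (nat_lit 0x800000002000b0005000200000001000080000000000000000000000000000000) (nat_lit 0x0) (nat_lit 0x4f001f000dc0000000000000000000000000000000000) := T_20 (nat_lit 160) (nat_lit 143) (nat_lit 6) (nat_lit 7) (nat_lit 11) L24472 (by decide +kernel)
theorem L24474 : W_20 (nat_lit 9) (nat_lit 0x2000b0005000200000001000080000000000000000000000000000000) (nat_lit 0x0) (nat_lit 0x800040000000000000004f001f000dc0000000000000000000000000000000000) := T_20 (nat_lit 259) (nat_lit 242) (nat_lit 6) (nat_lit 4) (nat_lit 15) L24473 (by decide +kernel)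
theorem L24475 : W_20 (nat_lit 4) (nat_lit 0x2000b0005000200000001000080000000000000000000000000000000) (nat_lit 0x0) (nat_lit 0x80004000100040000c00080000000000000000000000000000000000000000000) := T_20 (nat_lit 210) (nat_lit 224) (nat_lit 1) (nat_lit 7) (nat_lit 12) L24173 (by decide +kernel)
theorem L24476 : W_20 (nat_lit 2) (nat_lit 0x12000f000580020001e001000080000000000000000000000000000000) (nat_lit 0x0) (nat_lit 0x60000000200000000000000000000000000000000000) := D_20 (nat_lit 174) (nat_lit 173) (nat_lit 141) (nat_lit 1) (nat_lit 7) (nat_lit 9) (nat_lit 6) (nat_lit 4) (nat_lit 12) (by decide +kernel)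
theorem L24477 : W_20 (nat_lit 3) (nat_lit 0x12000f000580020001c001000080000000000000000000000000000000) (nat_lit 0x0) (nat_lit 0x460002000200000000000000000000000000000000000) := T_20 (nat_lit 157) (nat_lit 178) (nat_lit 3) (nat_lit 4) (nat_lit 9) L24476 (by decide +kernel)
theorem L24478 : W_20 (nat_lit 4) (nat_lit 0x12000f0005800200018001000080000000000000000000000000000000) (nat_lit 0x0) (nat_lit 0x4e0006000200000000000000000000000000000000000) := T_20 (nat_lit 158) (nat_lit 175) (nat_lit 5) (nat_lit 5) (nat_lit 9) L24477 (by decide +kernel)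
theorem L24479 : W_20 (nat_lit 5) (nat_lit 0x12000f0005800200010001000080000000000000000000000000000000) (nat_lit 0x0) (nat_lit 0x4e000e000600000000000000000000000000000000000) := T_20 (nat_lit 159) (nat_lit 142) (nat_lit 4) (nat_lit 7) (nat_lit 12) L24478 (by decide +kernel)
theorem L24480 : W_20 (nat_lit 6) (nat_lit 0x12000f0005800200000001000080000000000000000000000000000000) (nat_lit 0x0) (nat_lit 0x4e001e000e00000000000000000000000000000000000) := T_20 (nat_lit 160) (nat_lit 143) (nat_lit 6) (nat_lit 7) (nat_lit 11) L24479 (by decide +kernel)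
theorem L24481 : W_20 (nat_lit 7) (nat_lit 0x2000f0005800200000001000080000000000000000000000000000000) (nat_lit 0x0) (nat_lit 0x30000000000004e001e000e00000000000000000000000000000000000) := T_20 (nat_lit 228) (nat_lit 229) (nat_lit 3) (nat_lit 4) (nat_lit 12) L24480 (by decide +kernel)
theorem L24482 : W_20 (nat_lit 8) (nat_lit 0x2000f0005000200000001000080000000000000000000000000000000) (nat_lit 0x0) (nat_lit 0x3000000000c004e001e000e00000000000000000000000000000000000) := T_20 (nat_lit 191) (nat_lit 190) (nat_lit 0) (nat_lit 7) (nat_lit 12) L24481 (by decide +kernel)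
theorem L24483 : W_20 (nat_lit 9) (nat_lit 0x2000b0005000200000001000080000000000000000000000000000000) (nat_lit 0x0) (nat_lit 0x3100040000c004e001e000e00000000000000000000000000000000000) := T_20 (nat_lit 210) (nat_lit 224) (nat_lit 1) (nat_lit 7) (nat_lit 12) L24482 (by decide +kernel)
theorem L24484 : W_20 (nat_lit 12) (nat_lit 0xb0005000200000001000080000000000000000000000000000000) (nat_lit 0x0) (nat_lit 0x1c000e003700040000c004f001f000fc0000000000000000000000000000000000) := Q_20 (nat_lit 225) (C_20 L24447 (C_20 L24457 (C_20 L24466 (C_20 L24474 (C_20 L24475 (C_20 L24483 N_20)))))) (by decide +kernel)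
theorem L24485 : W_20 (nat_lit 2) (nat_lit 0xb000500020001e001000080000000000000000000000000000000) (nat_lit 0x0) (nat_lit 0x200000000000080000000100000000000000000000000000000000000) := D_20 (nat_lit 175) (nat_lit 225) (nat_lit 140) (nat_lit 5) (nat_lit 5) (nat_lit 9) (nat_lit 4) (nat_lit 5) (nat_lit 12) (by decide +kernel)
theorem L24486 : W_20 (nat_lit 3) (nat_lit 0xb000500020001c001000080000000000000000000000000000000) (nat_lit 0x0) (nat_lit 0x200000000000480002000100000000000000000000000000000000000) := T_20 (nat_lit 157) (nat_lit 178) (nat_lit 3) (nat_lit 4) (nat_lit 9) L24485 (by decide +kernel)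
theorem L24487 : W_20 (nat_lit 4) (nat_lit 0xb0005000200014001000080000000000000000000000000000000) (nat_lit 0x0) (nat_lit 0x20000000000048000a000500000000000000000000000000000000000) := T_20 (nat_lit 159) (nat_lit 142) (nat_lit 4) (nat_lit 7) (nat_lit 12) L24486 (by decide +kernel)
theorem L24488 : W_20 (nat_lit 5) (nat_lit 0xb0005000200004001000080000000000000000000000000000000) (nat_lit 0x0) (nat_lit 0x20000000000048001a000d00000000000000000000000000000000000) := T_20 (nat_lit 160) (nat_lit 143) (nat_lit 6) (nat_lit 7) (nat_lit 11) L24487 (by decide +kernel)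
theorem L24489 : W_20 (nat_lit 2) (nat_lit 0xb000500024001e001000080000000000000000000000000000000) (nat_lit 0x0) (nat_lit 0x800000000000180000000000000000000000000000000000) := D_20 (nat_lit 140) (nat_lit 139) (nat_lit 191) (nat_lit 0) (nat_lit 7) (nat_lit 9) (nat_lit 7) (nat_lit 4) (nat_lit 8) (by decide +kernel)
theorem L24490 : W_20 (nat_lit 3) (nat_lit 0xb000500020001e001000080000000000000000000000000000000) (nat_lit 0x0) (nat_lit 0x800060000000180000000000000000000000000000000000) := T_20 (nat_lit 174) (nat_lit 173) (nat_lit 1) (nat_lit 7) (nat_lit 9) L24489 (by decide +kernel)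
theorem L24491 : W_20 (nat_lit 4) (nat_lit 0xb000500020001c001000080000000000000000000000000000000) (nat_lit 0x0) (nat_lit 0x800460002000180000000000000000000000000000000000) := T_20 (nat_lit 157) (nat_lit 178) (nat_lit 3) (nat_lit 4) (nat_lit 9) L24490 (by decide +kernel)
theorem L24492 : W_20 (nat_lit 5) (nat_lit 0xb0005000200014001000080000000000000000000000000000000) (nat_lit 0x0) (nat_lit 0x80046000a000580000000000000000000000000000000000) := T_20 (nat_lit 159) (nat_lit 142) (nat_lit 4) (nat_lit 7) (nat_lit 12) L24491 (by decide +kernel)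
theorem L24493 : W_20 (nat_lit 6) (nat_lit 0xb0005000200004001000080000000000000000000000000000000) (nat_lit 0x0) (nat_lit 0x80046001a000d80000000000000000000000000000000000) := T_20 (nat_lit 160) (nat_lit 143) (nat_lit 6) (nat_lit 7) (nat_lit 11) L24492 (by decide +kernel)
theorem L24494 : W_20 (nat_lit 2) (nat_lit 0xb0005000280004001200080000000000000000000000000000000) (nat_lit 0x0) (nat_lit 0x2000100008000000000000000000000000000000) := D_20 (nat_lit 140) (nat_lit 123) (nat_lit 157) (nat_lit 4) (nat_lit 5) (nat_lit 11) (nat_lit 4) (nat_lit 5) (nat_lit 12) (by decide +kernel)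
theorem L24495 : W_20 (nat_lit 3) (nat_lit 0xb0005000280004001000080000000000000000000000000000000) (nat_lit 0x0) (nat_lit 0x800000002000300008000000000000000000000000000000) := T_20 (nat_lit 141) (nat_lit 191) (nat_lit 5) (nat_lit 5) (nat_lit 8) L24494 (by decide +kernel)
theorem L24496 : W_20 (nat_lit 4) (nat_lit 0xb0005000200004001000080000000000000000000000000000000) (nat_lit 0x0) (nat_lit 0x200000000800080002000300008000000000000000000000000000000) := T_20 (nat_lit 175) (nat_lit 225) (nat_lit 5) (nat_lit 5) (nat_lit 9) L24495 (by decide +kernel)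
theorem L24497 : W_20 (nat_lit 2) (nat_lit 0xb0005000280004001200080000000000000000000000000000000) (nat_lit 0x0) (nat_lit 0x8000400020000000000000000000000000000000) := D_20 (nat_lit 142) (nat_lit 159) (nat_lit 125) (nat_lit 6) (nat_lit 5) (nat_lit 12) (nat_lit 6) (nat_lit 5) (nat_lit 11) (by decide +kernel)
theorem L24498 : W_20 (nat_lit 3) (nat_lit 0xb0005000280004001000080000000000000000000000000000000) (nat_lit 0x0) (nat_lit 0x800000008000600020000000000000000000000000000000) := T_20 (nat_lit 141) (nat_lit 191) (nat_lit 5) (nat_lit 5) (nat_lit 8) L24497 (by decide +kernel)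
theorem L24499 : W_20 (nat_lit 4) (nat_lit 0xb0005000200004001000080000000000000000000000000000000) (nat_lit 0x0) (nat_lit 0x200000000800080008000600020000000000000000000000000000000) := T_20 (nat_lit 175) (nat_lit 225) (nat_lit 5) (nat_lit 5) (nat_lit 9) L24498 (by decide +kernel)
theorem L24500 : W_20 (nat_lit 7) (nat_lit 0xb0005000200000001000080000000000000000000000000000000) (nat_lit 0x0) (nat_lit 0x2000000008004e001e000f80028000000000000000000000000000000) := Q_20 (nat_lit 158) (C_20 L24488 (C_20 L24493 (C_20 L24496 (C_20 L24499 N_20)))) (by decide +kernel)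
theorem L24501 : W_20 (nat_lit 2) (nat_lit 0x800000012000f000500022001e001080080000000000000000000000000000000) (nat_lit 0x0) (nat_lit 0x10001000040000000000000000000000000000000000) := D_20 (nat_lit 156) (nat_lit 172) (nat_lit 138) (nat_lit 1) (nat_lit 6) (nat_lit 9) (nat_lit 0) (nat_lit 6) (nat_lit 9) (by decide +kernel)
theorem L24502 : W_20 (nat_lit 3) (nat_lit 0x800000012000f000500022001e001000080000000000000000000000000000000) (nat_lit 0x0) (nat_lit 0x100010001c0000000000000000000000000000000000) := T_20 (nat_lit 139) (nat_lit 140) (nat_lit 0) (nat_lit 7) (nat_lit 9) L24501 (by decide +kernel)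
theorem L24503 : W_20 (nat_lit 4) (nat_lit 0x800000012000f000500020001e001000080000000000000000000000000000000) (nat_lit 0x0) (nat_lit 0x700010001c0000000000000000000000000000000000) := T_20 (nat_lit 173) (nat_lit 174) (nat_lit 1) (nat_lit 7) (nat_lit 9) L24502 (by decide +kernel)
theorem L24504 : W_20 (nat_lit 5) (nat_lit 0x800000012000f000500020001c001000080000000000000000000000000000000) (nat_lit 0x0) (nat_lit 0x4700030001c0000000000000000000000000000000000) := T_20 (nat_lit 157) (nat_lit 178) (nat_lit 3) (nat_lit 4) (nat_lit 9) L24503 (by decide +kernel)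
theorem L24505 : W_20 (nat_lit 6) (nat_lit 0x800000012000f0005000200018001000080000000000000000000000000000000) (nat_lit 0x0) (nat_lit 0x4f00070001c0000000000000000000000000000000000) := T_20 (nat_lit 158) (nat_lit 175) (nat_lit 5) (nat_lit 5) (nat_lit 9) L24504 (by decide +kernel)
theorem L24506 : W_20 (nat_lit 7) (nat_lit 0x12000f0005000200018001000080000000000000000000000000000000) (nat_lit 0x0) (nat_lit 0x800040000000000000004f00070001c0000000000000000000000000000000000) := T_20 (nat_lit 259) (nat_lit 242) (nat_lit 6) (nat_lit 4) (nat_lit 15) L24505 (by decide +kernel)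
theorem L24507 : W_20 (nat_lit 8) (nat_lit 0x2000f0005000200018001000080000000000000000000000000000000) (nat_lit 0x0) (nat_lit 0x800040030000000000004f00070001c0000000000000000000000000000000000) := T_20 (nat_lit 228) (nat_lit 229) (nat_lit 3) (nat_lit 4) (nat_lit 12) L24506 (by decide +kernel)
theorem L24508 : W_20 (nat_lit 9) (nat_lit 0xf0005000200018001000080000000000000000000000000000000) (nat_lit 0x0) (nat_lit 0x800040033000000000004f00070001c0000000000000000000000000000000000) := T_20 (nat_lit 225) (nat_lit 224) (nat_lit 1) (nat_lit 7) (nat_lit 12) L24507 (by decide +kernel)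
theorem L24509 : W_20 (nat_lit 10) (nat_lit 0xb0005000200018001000080000000000000000000000000000000) (nat_lit 0x0) (nat_lit 0x800040033000400080004f00070001c0000000000000000000000000000000000) := T_20 (nat_lit 210) (nat_lit 195) (nat_lit 2) (nat_lit 4) (nat_lit 12) L24508 (by decide +kernel)
theorem L24510 : W_20 (nat_lit 11) (nat_lit 0xb0005000200010001000080000000000000000000000000000000) (nat_lit 0x0) (nat_lit 0x800040033000400080004f000f0005c0000000000000000000000000000000000) := T_20 (nat_lit 159) (nat_lit 142) (nat_lit 4) (nat_lit 7) (nat_lit 12) L24509 (by decide +kernel)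
theorem L24511 : W_20 (nat_lit 12) (nat_lit 0xb0005000200000001000080000000000000000000000000000000) (nat_lit 0x0) (nat_lit 0x800040033000400080004f001f000dc0000000000000000000000000000000000) := T_20 (nat_lit 160) (nat_lit 143) (nat_lit 6) (nat_lit 7) (nat_lit 11) L24510 (by decide +kernel)
theorem L24512 : W_20 (nat_lit 11) (nat_lit 0xf0005000200000001000080000000000000000000000000000000) (nat_lit 0x0) (nat_lit 0x18000c003700000000c0006001f000d00000000000000000000000000000000000) := T_20 (nat_lit 225) (nat_lit 224) (nat_lit 1) (nat_lit 7) (nat_lit 12) L24456 (by decide +kernel)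
theorem L24513 : W_20 (nat_lit 12) (nat_lit 0xb0005000200000001000080000000000000000000000000000000) (nat_lit 0x0) (nat_lit 0x18000c003700040008c0006001f000d00000000000000000000000000000000000) := T_20 (nat_lit 210) (nat_lit 195) (nat_lit 2) (nat_lit 4) (nat_lit 12) L24512 (by decide +kernel)
theorem L24514 : W_20 (nat_lit 2) (nat_lit 0xf0005800200002001000080000000000000000000000000000000) (nat_lit 0x0) (nat_lit 0x400000000000040000000100000000000000000000000000000000000) := D_20 (nat_lit 174) (nat_lit 226) (nat_lit 140) (nat_lit 7) (nat_lit 4) (nat_lit 9) (nat_lit 7) (nat_lit 4) (nat_lit 8) (by decide +kernel)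
theorem L24515 : W_20 (nat_lit 3) (nat_lit 0xf0005000200002001000080000000000000000000000000000000) (nat_lit 0x0) (nat_lit 0x400000000c00040000000100000000000000000000000000000000000) := T_20 (nat_lit 191) (nat_lit 190) (nat_lit 0) (nat_lit 7) (nat_lit 12) L24514 (by decide +kernel)
theorem L24516 : W_20 (nat_lit 4) (nat_lit 0xb0005000200002001000080000000000000000000000000000000) (nat_lit 0x0) (nat_lit 0x400040008c00040000000100000000000000000000000000000000000) := T_20 (nat_lit 210) (nat_lit 195) (nat_lit 2) (nat_lit 4) (nat_lit 12) L24515 (by decide +kernel)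
theorem L24517 : W_20 (nat_lit 4) (nat_lit 0xb000500020001a001000080000000000000000000000000000000) (nat_lit 0x0) (nat_lit 0x800460004000180000000000000000000000000000000000) := T_20 (nat_lit 158) (nat_lit 178) (nat_lit 3) (nat_lit 4) (nat_lit 9) L24490 (by decide +kernel)
theorem L24518 : W_20 (nat_lit 5) (nat_lit 0xb0005000200012001000080000000000000000000000000000000) (nat_lit 0x0) (nat_lit 0x80046000c000580000000000000000000000000000000000) := T_20 (nat_lit 159) (nat_lit 142) (nat_lit 4) (nat_lit 7) (nat_lit 12) L24517 (by decide +kernel)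
theorem L24519 : W_20 (nat_lit 6) (nat_lit 0xb0005000200002001000080000000000000000000000000000000) (nat_lit 0x0) (nat_lit 0x80046001c000d80000000000000000000000000000000000) := T_20 (nat_lit 160) (nat_lit 143) (nat_lit 6) (nat_lit 7) (nat_lit 11) L24518 (by decide +kernel)
theorem L24520 : W_20 (nat_lit 2) (nat_lit 0xb000500020001e001000080000000000000000000000000000000) (nat_lit 0x0) (nat_lit 0x80000000180000000000000000000000000000000000) := D_20 (nat_lit 140) (nat_lit 139) (nat_lit 175) (nat_lit 0) (nat_lit 7) (nat_lit 9) (nat_lit 4) (nat_lit 5) (nat_lit 12) (by decide +kernel)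
theorem L24521 : W_20 (nat_lit 3) (nat_lit 0xb000500020001a001000080000000000000000000000000000000) (nat_lit 0x0) (nat_lit 0x480004000180000000000000000000000000000000000) := T_20 (nat_lit 158) (nat_lit 178) (nat_lit 3) (nat_lit 4) (nat_lit 9) L24520 (by decide +kernel)
theorem L24522 : W_20 (nat_lit 4) (nat_lit 0xb0005000200012001000080000000000000000000000000000000) (nat_lit 0x0) (nat_lit 0x48000c000580000000000000000000000000000000000) := T_20 (nat_lit 159) (nat_lit 142) (nat_lit 4) (nat_lit 7) (nat_lit 12) L24521 (by decide +kernel)
theorem L24523 : W_20 (nat_lit 5) (nat_lit 0xb0005000200002001000080000000000000000000000000000000) (nat_lit 0x0) (nat_lit 0x48001c000d80000000000000000000000000000000000) := T_20 (nat_lit 160) (nat_lit 143) (nat_lit 6) (nat_lit 7) (nat_lit 11) L24522 (by decide +kernel)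
theorem L24524 : W_20 (nat_lit 2) (nat_lit 0x10000fa005800240017001000080000000000000000000000000000000) (nat_lit 0x0) (nat_lit 0x20008000400000000000000000000000000000000000) := D_20 (nat_lit 159) (nat_lit 142) (nat_lit 173) (nat_lit 4) (nat_lit 7) (nat_lit 12) (nat_lit 1) (nat_lit 7) (nat_lit 9) (by decide +kernel)
theorem L24525 : W_20 (nat_lit 3) (nat_lit 0x10000fa005800240007001000080000000000000000000000000000000) (nat_lit 0x0) (nat_lit 0x20018000c00000000000000000000000000000000000) := T_20 (nat_lit 160) (nat_lit 143) (nat_lit 6) (nat_lit 7) (nat_lit 11) L24524 (by decide +kernel)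
theorem L24526 : W_20 (nat_lit 4) (nat_lit 0x10000fa005800240006001000080000000000000000000000000000000) (nat_lit 0x0) (nat_lit 0x20019000c80000000000000000000000000000000000) := T_20 (nat_lit 156) (nat_lit 139) (nat_lit 4) (nat_lit 4) (nat_lit 12) L24525 (by decide +kernel)
theorem L24527 : W_20 (nat_lit 5) (nat_lit 0x10000f8005800240006001000080000000000000000000000000000000) (nat_lit 0x0) (nat_lit 0x6000000020019000c80000000000000000000000000000000000) := T_20 (nat_lit 205) (nat_lit 206) (nat_lit 2) (nat_lit 1) (nat_lit 12) L24526 (by decide +kernel)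
theorem L24528 : W_20 (nat_lit 6) (nat_lit 0x10000f0005800240006001000080000000000000000000000000000000) (nat_lit 0x0) (nat_lit 0x10000e000000020019000c80000000000000000000000000000000000) := T_20 (nat_lit 207) (nat_lit 224) (nat_lit 5) (nat_lit 4) (nat_lit 9) L24527 (by decide +kernel)
theorem L24529 : W_20 (nat_lit 7) (nat_lit 0x10000f0005800240002001000080000000000000000000000000000000) (nat_lit 0x0) (nat_lit 0x10000e00000002001d000e80000000000000000000000000000000000) := T_20 (nat_lit 158) (nat_lit 141) (nat_lit 6) (nat_lit 4) (nat_lit 12) L24528 (by decide +kernel)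
theorem L24530 : W_20 (nat_lit 8) (nat_lit 0x10000f0005800200002001000080000000000000000000000000000000) (nat_lit 0x0) (nat_lit 0x50000e00000006001d000e80000000000000000000000000000000000) := T_20 (nat_lit 174) (nat_lit 226) (nat_lit 7) (nat_lit 4) (nat_lit 9) L24529 (by decide +kernel)
theorem L24531 : W_20 (nat_lit 9) (nat_lit 0xf0005800200002001000080000000000000000000000000000000) (nat_lit 0x0) (nat_lit 0x350000e00000006001d000e80000000000000000000000000000000000) := T_20 (nat_lit 228) (nat_lit 229) (nat_lit 3) (nat_lit 4) (nat_lit 12) L24530 (by decide +kernel)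
theorem L24532 : W_20 (nat_lit 10) (nat_lit 0xf0005000200002001000080000000000000000000000000000000) (nat_lit 0x0) (nat_lit 0x350000e000c0006001d000e80000000000000000000000000000000000) := T_20 (nat_lit 191) (nat_lit 190) (nat_lit 0) (nat_lit 7) (nat_lit 12) L24531 (by decide +kernel)
theorem L24533 : W_20 (nat_lit 11) (nat_lit 0xb0005000200002001000080000000000000000000000000000000) (nat_lit 0x0) (nat_lit 0x350004e008c0006001d000e80000000000000000000000000000000000) := T_20 (nat_lit 210) (nat_lit 195) (nat_lit 2) (nat_lit 4) (nat_lit 12) L24532 (by decide +kernel)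
theorem L24534 : W_20 (nat_lit 12) (nat_lit 0xb0005000200000001000080000000000000000000000000000000) (nat_lit 0x0) (nat_lit 0x350004e008c004e001f000f80000000000000000000000000000000000) := Q_20 (nat_lit 157) (C_20 L24516 (C_20 L24519 (C_20 L24523 (C_20 L24533 N_20)))) (by decide +kernel)
theorem L24535 : W_20 (nat_lit 13) (nat_lit 0xa0005000200000001000080000000000000000000000000000000) (nat_lit 0x0) (nat_lit 0x1c000e00370005e008c004f001f000fc0028000000000000000000000000000000) := Q_20 (nat_lit 208) (C_20 L24439 (C_20 L24440 (C_20 L24484 (C_20 L24500 (C_20 L24511 (C_20 L24513 (C_20 L24534 N_20))))))) (by decide +kernel)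
theorem L24536 : W_20 (nat_lit 2) (nat_lit 0x8003c000a000500024001a001000080000000000000000000000000000000) (nat_lit 0x0) (nat_lit 0x420004000000000000000000000000000000000000000) := D_20 (nat_lit 158) (nat_lit 178) (nat_lit 173) (nat_lit 3) (nat_lit 4) (nat_lit 9) (nat_lit 1) (nat_lit 7) (nat_lit 9) (by decide +kernel)
theorem L24537 : W_20 (nat_lit 3) (nat_lit 0x8003c000a0005000240018001000080000000000000000000000000000000) (nat_lit 0x0) (nat_lit 0x4a0006000000000000000000000000000000000000000) := T_20 (nat_lit 157) (nat_lit 175) (nat_lit 4) (nat_lit 5) (nat_lit 13) L24536 (by decide +kernel)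
theorem L24538 : W_20 (nat_lit 4) (nat_lit 0x8003c000a0005000200018001000080000000000000000000000000000000) (nat_lit 0x0) (nat_lit 0x8004e0006000000000000000000000000000000000000000) := T_20 (nat_lit 174) (nat_lit 191) (nat_lit 4) (nat_lit 5) (nat_lit 14) L24537 (by decide +kernel)
theorem L24539 : W_20 (nat_lit 5) (nat_lit 0x3c000a0005000200018001000080000000000000000000000000000000) (nat_lit 0x0) (nat_lit 0xc0000000000008004e0006000000000000000000000000000000000000000) := T_20 (nat_lit 243) (nat_lit 242) (nat_lit 1) (nat_lit 8) (nat_lit 13) L24538 (by decide +kernel)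
theorem L24540 : W_20 (nat_lit 6) (nat_lit 0x38000a0005000200018001000080000000000000000000000000000000) (nat_lit 0x0) (nat_lit 0xc0004000100008004e0006000000000000000000000000000000000000000) := T_20 (nat_lit 226) (nat_lit 208) (nat_lit 0) (nat_lit 8) (nat_lit 13) L24539 (by decide +kernel)
theorem L24541 : W_20 (nat_lit 7) (nat_lit 0x18000a0005000200018001000080000000000000000000000000000000) (nat_lit 0x0) (nat_lit 0x4c0024000100008004e0006000000000000000000000000000000000000000) := T_20 (nat_lit 229) (nat_lit 246) (nat_lit 7) (nat_lit 7) (nat_lit 10) L24540 (by decide +kernel)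
theorem L24542 : W_20 (nat_lit 8) (nat_lit 0x8000a0005000200018001000080000000000000000000000000000000) (nat_lit 0x0) (nat_lit 0x5c0034000100008004e0006000000000000000000000000000000000000000) := T_20 (nat_lit 228) (nat_lit 244) (nat_lit 5) (nat_lit 7) (nat_lit 10) L24541 (by decide +kernel)
theorem L24543 : W_20 (nat_lit 9) (nat_lit 0x8000a0005000200010001000080000000000000000000000000000000) (nat_lit 0x0) (nat_lit 0x5c0034000100008004e000e000400000000000000000000000000000000000) := T_20 (nat_lit 159) (nat_lit 142) (nat_lit 4) (nat_lit 7) (nat_lit 12) L24542 (by decide +kernel)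
theorem L24544 : W_20 (nat_lit 10) (nat_lit 0xa0005000200010001000080000000000000000000000000000000) (nat_lit 0x0) (nat_lit 0x5c003c000500008004e000e000400000000000000000000000000000000000) := T_20 (nat_lit 227) (nat_lit 210) (nat_lit 5) (nat_lit 7) (nat_lit 9) L24543 (by decide +kernel)
theorem L24545 : W_20 (nat_lit 11) (nat_lit 0xa0005000200000001000080000000000000000000000000000000) (nat_lit 0x0) (nat_lit 0x5c003c000500008004e001e000c00000000000000000000000000000000000) := T_20 (nat_lit 160) (nat_lit 143) (nat_lit 6) (nat_lit 7) (nat_lit 11) L24544 (by decide +kernel)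
theorem L24546 : W_20 (nat_lit 2) (nat_lit 0x4000a000500020001e001000080000000000000000000000000000000) (nat_lit 0x0) (nat_lit 0xe0000000000000000000000000000000000000000000) := D_20 (nat_lit 174) (nat_lit 173) (nat_lit 175) (nat_lit 1) (nat_lit 7) (nat_lit 9) (nat_lit 4) (nat_lit 5) (nat_lit 13) (by decide +kernel)
theorem L24547 : W_20 (nat_lit 3) (nat_lit 0x4000a000500020001a001000080000000000000000000000000000000) (nat_lit 0x0) (nat_lit 0x4e0004000000000000000000000000000000000000000) := T_20 (nat_lit 158) (nat_lit 178) (nat_lit 3) (nat_lit 4) (nat_lit 9) L24546 (by decide +kernel)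
theorem L24548 : W_20 (nat_lit 4) (nat_lit 0x4000a0005000200012001000080000000000000000000000000000000) (nat_lit 0x0) (nat_lit 0x4e000c000400000000000000000000000000000000000) := T_20 (nat_lit 159) (nat_lit 142) (nat_lit 4) (nat_lit 7) (nat_lit 12) L24547 (by decide +kernel)
theorem L24549 : W_20 (nat_lit 5) (nat_lit 0x4000a0005000200002001000080000000000000000000000000000000) (nat_lit 0x0) (nat_lit 0x4e001c000c00000000000000000000000000000000000) := T_20 (nat_lit 160) (nat_lit 143) (nat_lit 6) (nat_lit 7) (nat_lit 11) L24548 (by decide +kernel)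
theorem L24550 : W_20 (nat_lit 2) (nat_lit 0x4000a000500024001e001000080000000000000000000000000000000) (nat_lit 0x0) (nat_lit 0x800000000000180000000000000000000000000000000000) := D_20 (nat_lit 140) (nat_lit 139) (nat_lit 191) (nat_lit 0) (nat_lit 7) (nat_lit 9) (nat_lit 7) (nat_lit 4) (nat_lit 8) (by decide +kernel)
theorem L24551 : W_20 (nat_lit 3) (nat_lit 0x4000a000500020001e001000080000000000000000000000000000000) (nat_lit 0x0) (nat_lit 0x800060000000180000000000000000000000000000000000) := T_20 (nat_lit 174) (nat_lit 173) (nat_lit 1) (nat_lit 7) (nat_lit 9) L24550 (by decide +kernel)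
theorem L24552 : W_20 (nat_lit 4) (nat_lit 0x4000a000500020001a001000080000000000000000000000000000000) (nat_lit 0x0) (nat_lit 0x800460004000180000000000000000000000000000000000) := T_20 (nat_lit 158) (nat_lit 178) (nat_lit 3) (nat_lit 4) (nat_lit 9) L24551 (by decide +kernel)
theorem L24553 : W_20 (nat_lit 5) (nat_lit 0x4000a0005000200012001000080000000000000000000000000000000) (nat_lit 0x0) (nat_lit 0x80046000c000580000000000000000000000000000000000) := T_20 (nat_lit 159) (nat_lit 142) (nat_lit 4) (nat_lit 7) (nat_lit 12) L24552 (by decide +kernel)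
theorem L24554 : W_20 (nat_lit 6) (nat_lit 0x4000a0005000200002001000080000000000000000000000000000000) (nat_lit 0x0) (nat_lit 0x80046001c000d80000000000000000000000000000000000) := T_20 (nat_lit 160) (nat_lit 143) (nat_lit 6) (nat_lit 7) (nat_lit 11) L24553 (by decide +kernel)
theorem L24555 : W_20 (nat_lit 5) (nat_lit 0x4000a0005000200002001000080000000000000000000000000000000) (nat_lit 0x0) (nat_lit 0xc000c000f00020000000000000000000000000000000) := T_20 (nat_lit 175) (nat_lit 174) (nat_lit 4) (nat_lit 5) (nat_lit 13) L24226 (by decide +kernel)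
theorem L24556 : W_20 (nat_lit 2) (nat_lit 0x4000a0005000280006001000080000000000000000000000000000000) (nat_lit 0x0) (nat_lit 0x4000200010000000000000000000000000000000000000000000000000000) := D_20 (nat_lit 225) (nat_lit 242) (nat_lit 208) (nat_lit 5) (nat_lit 5) (nat_lit 10) (nat_lit 5) (nat_lit 5) (nat_lit 9) (by decide +kernel)
theorem L24557 : W_20 (nat_lit 3) (nat_lit 0x4000a0005000280002001000080000000000000000000000000000000) (nat_lit 0x0) (nat_lit 0x4000200010000000000004000100000000000000000000000000000000000) := T_20 (nat_lit 158) (nat_lit 140) (nat_lit 4) (nat_lit 5) (nat_lit 12) L24556 (by decide +kernel)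
theorem L24558 : W_20 (nat_lit 4) (nat_lit 0x4000a0005000200002001000080000000000000000000000000000000) (nat_lit 0x0) (nat_lit 0x40002000100000000c0004000100000000000000000000000000000000000) := T_20 (nat_lit 175) (nat_lit 174) (nat_lit 4) (nat_lit 5) (nat_lit 13) L24557 (by decide +kernel)
theorem L24559 : W_20 (nat_lit 2) (nat_lit 0x4000a0005000240002001000080000000000000000000000000000000) (nat_lit 0x0) (nat_lit 0x10000800000000000100000000000000000000000000000000000) := D_20 (nat_lit 191) (nat_lit 140) (nat_lit 208) (nat_lit 7) (nat_lit 4) (nat_lit 8) (nat_lit 7) (nat_lit 4) (nat_lit 9) (by decide +kernel)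
theorem L24560 : W_20 (nat_lit 3) (nat_lit 0x4000a0005000200002001000080000000000000000000000000000000) (nat_lit 0x0) (nat_lit 0x100008000c0000000100000000000000000000000000000000000) := T_20 (nat_lit 174) (nat_lit 175) (nat_lit 4) (nat_lit 5) (nat_lit 13) L24559 (by decide +kernel)
theorem L24561 : W_20 (nat_lit 2) (nat_lit 0x4000a000500020001e001000080000000000000000000000000000000) (nat_lit 0x0) (nat_lit 0x80000000180000000000000000000000000000000000) := D_20 (nat_lit 140) (nat_lit 139) (nat_lit 175) (nat_lit 0) (nat_lit 7) (nat_lit 9) (nat_lit 4) (nat_lit 5) (nat_lit 12) (by decide +kernel)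
theorem L24562 : W_20 (nat_lit 3) (nat_lit 0x4000a000500020001a001000080000000000000000000000000000000) (nat_lit 0x0) (nat_lit 0x480004000180000000000000000000000000000000000) := T_20 (nat_lit 158) (nat_lit 178) (nat_lit 3) (nat_lit 4) (nat_lit 9) L24561 (by decide +kernel)
theorem L24563 : W_20 (nat_lit 4) (nat_lit 0x4000a0005000200012001000080000000000000000000000000000000) (nat_lit 0x0) (nat_lit 0x48000c000580000000000000000000000000000000000) := T_20 (nat_lit 159) (nat_lit 142) (nat_lit 4) (nat_lit 7) (nat_lit 12) L24562 (by decide +kernel)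
theorem L24564 : W_20 (nat_lit 5) (nat_lit 0x4000a0005000200002001000080000000000000000000000000000000) (nat_lit 0x0) (nat_lit 0x48001c000d80000000000000000000000000000000000) := T_20 (nat_lit 160) (nat_lit 143) (nat_lit 6) (nat_lit 7) (nat_lit 11) L24563 (by decide +kernel)
theorem L24565 : W_20 (nat_lit 7) (nat_lit 0x4000a0005000200000001000080000000000000000000000000000000) (nat_lit 0x0) (nat_lit 0x40002000100008004e001e000f80020000000000000000000000000000000) := Q_20 (nat_lit 157) (C_20 L24549 (C_20 L24554 (C_20 L24555 (C_20 L24558 (C_20 L24560 (C_20 L24564 N_20)))))) (by decide +kernel)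
theorem L24566 : W_20 (nat_lit 7) (nat_lit 0x4000a0005000200000001000080000000000000000000000000000000) (nat_lit 0x0) (nat_lit 0x100008004e001e000d80000000000000000000000000000000000) := Q_20 (nat_lit 157) (C_20 L24564 (C_20 L24554 (C_20 L24560 (C_20 L24549 N_20)))) (by decide +kernel)
theorem L24567 : W_20 (nat_lit 10) (nat_lit 0xa0005000200000001000080000000000000000000000000000000) (nat_lit 0x0) (nat_lit 0x1000b8007c003f800100008004e001e000f80168000000000000000000000000000000) := Q_20 (nat_lit 226) (C_20 L24253 (C_20 L24239 (C_20 L24163 (C_20 L24243 (C_20 L24252 (C_20 L24565 (C_20 L24566 N_20))))))) (by decide +kernel)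
theorem L24568 : W_20 (nat_lit 2) (nat_lit 0x8000e0005000200000001000080000000000000000000000000000000) (nat_lit 0x0) (nat_lit 0x200010001000000000000000000000000000000000000000000000000000000000) := D_20 (nat_lit 244) (nat_lit 261) (nat_lit 228) (nat_lit 6) (nat_lit 6) (nat_lit 15) (nat_lit 5) (nat_lit 7) (nat_lit 10) (by decide +kernel)
theorem L24569 : W_20 (nat_lit 3) (nat_lit 0xe0005000200000001000080000000000000000000000000000000) (nat_lit 0x0) (nat_lit 0x200010001800000000000000010000000000000000000000000000000000000000) := T_20 (nat_lit 227) (nat_lit 160) (nat_lit 5) (nat_lit 7) (nat_lit 9) L24568 (by decide +kernel)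
theorem L24570 : W_20 (nat_lit 6) (nat_lit 0xa0005000200000001000080000000000000000000000000000000) (nat_lit 0x0) (nat_lit 0x280014003b00058008c00080010000000000000000000000000000000000000000) := Q_20 (nat_lit 210) (C_20 L24316 (C_20 L24175 (C_20 L24195 (C_20 L24569 N_20)))) (by decide +kernel)
theorem L24571 : W_20 (nat_lit 6) (nat_lit 0x800000012000f0005000200014001000080000000000000000000000000000000) (nat_lit 0x0) (nat_lit 0x47000b0005c0000000000000000000000000000000000) := T_20 (nat_lit 159) (nat_lit 142) (nat_lit 4) (nat_lit 7) (nat_lit 12) L24504 (by decide +kernel)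
theorem L24572 : W_20 (nat_lit 7) (nat_lit 0x800000012000f0005000200010001000080000000000000000000000000000000) (nat_lit 0x0) (nat_lit 0x4f000f0005c0000000000000000000000000000000000) := T_20 (nat_lit 158) (nat_lit 175) (nat_lit 5) (nat_lit 5) (nat_lit 9) L24571 (by decide +kernel)
theorem L24573 : W_20 (nat_lit 8) (nat_lit 0x12000f0005000200010001000080000000000000000000000000000000) (nat_lit 0x0) (nat_lit 0x800040000000000000004f000f0005c0000000000000000000000000000000000) := T_20 (nat_lit 259) (nat_lit 242) (nat_lit 6) (nat_lit 4) (nat_lit 15) L24572 (by decide +kernel)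
theorem L24574 : W_20 (nat_lit 9) (nat_lit 0x2000f0005000200010001000080000000000000000000000000000000) (nat_lit 0x0) (nat_lit 0x800040030000000000004f000f0005c0000000000000000000000000000000000) := T_20 (nat_lit 228) (nat_lit 229) (nat_lit 3) (nat_lit 4) (nat_lit 12) L24573 (by decide +kernel)
theorem L24575 : W_20 (nat_lit 10) (nat_lit 0xf0005000200010001000080000000000000000000000000000000) (nat_lit 0x0) (nat_lit 0x800040033000000000004f000f0005c0000000000000000000000000000000000) := T_20 (nat_lit 225) (nat_lit 224) (nat_lit 1) (nat_lit 7) (nat_lit 12) L24574 (by decide +kernel)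
theorem L24576 : W_20 (nat_lit 11) (nat_lit 0xe0005000200010001000080000000000000000000000000000000) (nat_lit 0x0) (nat_lit 0x800040033000100080004f000f0005c0000000000000000000000000000000000) := T_20 (nat_lit 208) (nat_lit 195) (nat_lit 2) (nat_lit 4) (nat_lit 12) L24575 (by decide +kernel)
theorem L24577 : W_20 (nat_lit 12) (nat_lit 0xa0005000200010001000080000000000000000000000000000000) (nat_lit 0x0) (nat_lit 0x80004003b000500080004f000f0005c0000000000000000000000000000000000) := T_20 (nat_lit 210) (nat_lit 227) (nat_lit 5) (nat_lit 7) (nat_lit 9) L24576 (by decide +kernel)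
theorem L24578 : W_20 (nat_lit 13) (nat_lit 0xa0005000200000001000080000000000000000000000000000000) (nat_lit 0x0) (nat_lit 0x80004003b000500080004f001f000dc0000000000000000000000000000000000) := T_20 (nat_lit 160) (nat_lit 143) (nat_lit 6) (nat_lit 7) (nat_lit 11) L24577 (by decide +kernel)
theorem L24579 : W_20 (nat_lit 2) (nat_lit 0x160001c000a000500164001a001000080000000000000000000000000000000) (nat_lit 0x0) (nat_lit 0x8000000000000800000000000100000000000000000000000000000000000) := D_20 (nat_lit 191) (nat_lit 243) (nat_lit 140) (nat_lit 4) (nat_lit 5) (nat_lit 14) (nat_lit 7) (nat_lit 4) (nat_lit 8) (by decide +kernel)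
theorem L24580 : W_20 (nat_lit 3) (nat_lit 0x160001c000a000500160001a001000080000000000000000000000000000000) (nat_lit 0x0) (nat_lit 0x80000000000008000c0000000100000000000000000000000000000000000) := T_20 (nat_lit 174) (nat_lit 175) (nat_lit 4) (nat_lit 5) (nat_lit 13) L24579 (by decide +kernel)
theorem L24581 : W_20 (nat_lit 4) (nat_lit 0x60001c000a000500160001a001000080000000000000000000000000000000) (nat_lit 0x0) (nat_lit 0x1880000000000008000c0000000100000000000000000000000000000000000) := T_20 (nat_lit 248) (nat_lit 247) (nat_lit 0) (nat_lit 10) (nat_lit 14) L24580 (by decide +kernel)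
theorem L24582 : W_20 (nat_lit 5) (nat_lit 0x60001c000a0005001600018001000080000000000000000000000000000000) (nat_lit 0x0) (nat_lit 0x1880000000000008000c0006000100000000000000000000000000000000000) := T_20 (nat_lit 157) (nat_lit 158) (nat_lit 3) (nat_lit 4) (nat_lit 9) L24581 (by decide +kernel)
theorem L24583 : W_20 (nat_lit 6) (nat_lit 0x60001c000a0005000600018001000080000000000000000000000000000000) (nat_lit 0x0) (nat_lit 0x1880000000000008018c0006000100000000000000000000000000000000000) := T_20 (nat_lit 180) (nat_lit 179) (nat_lit 0) (nat_lit 10) (nat_lit 10) L24582 (by decide +kernel)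
theorem L24584 : W_20 (nat_lit 7) (nat_lit 0x600018000a0005000600018001000080000000000000000000000000000000) (nat_lit 0x0) (nat_lit 0x1880006000000008018c0006000100000000000000000000000000000000000) := T_20 (nat_lit 226) (nat_lit 225) (nat_lit 3) (nat_lit 4) (nat_lit 13) L24583 (by decide +kernel)
theorem L24585 : W_20 (nat_lit 8) (nat_lit 0x600018000a0005000200018001000080000000000000000000000000000000) (nat_lit 0x0) (nat_lit 0x188000600000008801cc0006000100000000000000000000000000000000000) := T_20 (nat_lit 178) (nat_lit 195) (nat_lit 6) (nat_lit 7) (nat_lit 14) L24584 (by decide +kernel)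
theorem L24586 : W_20 (nat_lit 9) (nat_lit 0x400018000a0005000200018001000080000000000000000000000000000000) (nat_lit 0x0) (nat_lit 0x8001a8000600000008801cc0006000100000000000000000000000000000000000) := T_20 (nat_lit 245) (nat_lit 263) (nat_lit 7) (nat_lit 7) (nat_lit 11) L24585 (by decide +kernel)
theorem L24587 : W_20 (nat_lit 10) (nat_lit 0x18000a0005000200018001000080000000000000000000000000000000) (nat_lit 0x0) (nat_lit 0x8001e8002600000008801cc0006000100000000000000000000000000000000000) := T_20 (nat_lit 246) (nat_lit 229) (nat_lit 7) (nat_lit 7) (nat_lit 10) L24586 (by decide +kernel)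
theorem L24588 : W_20 (nat_lit 11) (nat_lit 0x8000a0005000200018001000080000000000000000000000000000000) (nat_lit 0x0) (nat_lit 0x8001f8003600000008801cc0006000100000000000000000000000000000000000) := T_20 (nat_lit 228) (nat_lit 244) (nat_lit 5) (nat_lit 7) (nat_lit 10) L24587 (by decide +kernel)
theorem L24589 : W_20 (nat_lit 12) (nat_lit 0x8000a0005000200010001000080000000000000000000000000000000) (nat_lit 0x0) (nat_lit 0x8001f8003600000008801cc000e000500000000000000000000000000000000000) := T_20 (nat_lit 159) (nat_lit 142) (nat_lit 4) (nat_lit 7) (nat_lit 12) L24588 (by decide +kernel)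
theorem L24590 : W_20 (nat_lit 13) (nat_lit 0xa0005000200010001000080000000000000000000000000000000) (nat_lit 0x0) (nat_lit 0x8001f8003e00040008801cc000e000500000000000000000000000000000000000) := T_20 (nat_lit 227) (nat_lit 210) (nat_lit 5) (nat_lit 7) (nat_lit 9) L24589 (by decide +kernel)
theorem L24591 : W_20 (nat_lit 14) (nat_lit 0xa0005000200000001000080000000000000000000000000000000) (nat_lit 0x0) (nat_lit 0x8001f8003e00040008801cc001e000d00000000000000000000000000000000000) := T_20 (nat_lit 160) (nat_lit 143) (nat_lit 6) (nat_lit 7) (nat_lit 11) L24590 (by decide +kernel)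
theorem L24592 : W_20 (nat_lit 7) (nat_lit 0x40012000f0005000200010001000080000000000000000000000000000000) (nat_lit 0x0) (nat_lit 0x100008000400000000c0006000f000500000000000000000000000000000000000) := T_20 (nat_lit 191) (nat_lit 190) (nat_lit 0) (nat_lit 7) (nat_lit 12) L24452 (by decide +kernel)
theorem L24593 : W_20 (nat_lit 8) (nat_lit 0x12000f0005000200010001000080000000000000000000000000000000) (nat_lit 0x0) (nat_lit 0x18000c000400000000c0006000f000500000000000000000000000000000000000) := T_20 (nat_lit 242) (nat_lit 259) (nat_lit 6) (nat_lit 4) (nat_lit 15) L24592 (by decide +kernel)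
theorem L24594 : W_20 (nat_lit 9) (nat_lit 0x2000f0005000200010001000080000000000000000000000000000000) (nat_lit 0x0) (nat_lit 0x18000c003400000000c0006000f000500000000000000000000000000000000000) := T_20 (nat_lit 228) (nat_lit 229) (nat_lit 3) (nat_lit 4) (nat_lit 12) L24593 (by decide +kernel)
theorem L24595 : W_20 (nat_lit 10) (nat_lit 0xf0005000200010001000080000000000000000000000000000000) (nat_lit 0x0) (nat_lit 0x18000c003700000000c0006000f000500000000000000000000000000000000000) := T_20 (nat_lit 225) (nat_lit 224) (nat_lit 1) (nat_lit 7) (nat_lit 12) L24594 (by decide +kernel)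
theorem L24596 : W_20 (nat_lit 11) (nat_lit 0xe0005000200010001000080000000000000000000000000000000) (nat_lit 0x0) (nat_lit 0x18000c003700010008c0006000f000500000000000000000000000000000000000) := T_20 (nat_lit 208) (nat_lit 195) (nat_lit 2) (nat_lit 4) (nat_lit 12) L24595 (by decide +kernel)
theorem L24597 : W_20 (nat_lit 12) (nat_lit 0xa0005000200010001000080000000000000000000000000000000) (nat_lit 0x0) (nat_lit 0x18000c003f00050008c0006000f000500000000000000000000000000000000000) := T_20 (nat_lit 210) (nat_lit 227) (nat_lit 5) (nat_lit 7) (nat_lit 9) L24596 (by decide +kernel)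
theorem L24598 : W_20 (nat_lit 13) (nat_lit 0xa0005000200000001000080000000000000000000000000000000) (nat_lit 0x0) (nat_lit 0x18000c003f00050008c0006001f000d00000000000000000000000000000000000) := T_20 (nat_lit 160) (nat_lit 143) (nat_lit 6) (nat_lit 7) (nat_lit 11) L24597 (by decide +kernel)
theorem L24599 : W_20 (nat_lit 15) (nat_lit 0x80005000200000001000080000000000000000000000000000000) (nat_lit 0x0) (nat_lit 0x1000bc01ff003f8007e008e01cf001f000fc0178000400000000000000000000000000) := Q_20 (nat_lit 209) (C_20 L24429 (C_20 L24535 (C_20 L24164 (C_20 L24545 (C_20 L24567 (C_20 L24570 (C_20 L24578 (C_20 L24591 (C_20 L24598 N_20))))))))) (by decide +kernel)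
theorem L24600 : W_20 (nat_lit 2) (nat_lit 0xc0005000200000001000080000000000000000000000000000000) (nat_lit 0x0) (nat_lit 0x800000000000000010000800000000000000000000000000000000000) := D_20 (nat_lit 160) (nat_lit 143) (nat_lit 227) (nat_lit 6) (nat_lit 7) (nat_lit 11) (nat_lit 5) (nat_lit 7) (nat_lit 9) (by decide +kernel)
theorem L24608 : W_20 (nat_lit 9) (nat_lit 0xe0005000200018001000080000000000000000000000000000000) (nat_lit 0x0) (nat_lit 0x7001100008004f00070001c0000000000000000000000000000000000) := T_20 (nat_lit 212) (nat_lit 191) (nat_lit 0) (nat_lit 8) (nat_lit 12) L24607 (by decide +kernel)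
theorem L24609 : W_20 (nat_lit 10) (nat_lit 0xe0005000200010001000080000000000000000000000000000000) (nat_lit 0x0) (nat_lit 0x7001100008004f000f0005c0000000000000000000000000000000000) := T_20 (nat_lit 159) (nat_lit 142) (nat_lit 4) (nat_lit 7) (nat_lit 12) L24608 (by decide +kernel)
theorem L24610 : W_20 (nat_lit 11) (nat_lit 0xe0005000200000001000080000000000000000000000000000000) (nat_lit 0x0) (nat_lit 0x7001100008004f001f000dc0000000000000000000000000000000000) := T_20 (nat_lit 160) (nat_lit 143) (nat_lit 6) (nat_lit 7) (nat_lit 11) L24609 (by decide +kernel)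
theorem L24611 : W_20 (nat_lit 2) (nat_lit 0x1e000500020001e001000080000000000000000000000000000000) (nat_lit 0x0) (nat_lit 0x80000000180000000000000000000000000000000000) := D_20 (nat_lit 140) (nat_lit 139) (nat_lit 175) (nat_lit 0) (nat_lit 7) (nat_lit 9) (nat_lit 4) (nat_lit 5) (nat_lit 12) (by decide +kernel)
theorem L24612 : W_20 (nat_lit 3) (nat_lit 0x1e000500020001a001000080000000000000000000000000000000) (nat_lit 0x0) (nat_lit 0x480004000180000000000000000000000000000000000) := T_20 (nat_lit 158) (nat_lit 178) (nat_lit 3) (nat_lit 4) (nat_lit 9) L24611 (by decide +kernel)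
theorem L24613 : W_20 (nat_lit 4) (nat_lit 0x1e0005000200012001000080000000000000000000000000000000) (nat_lit 0x0) (nat_lit 0x48000c000580000000000000000000000000000000000) := T_20 (nat_lit 159) (nat_lit 142) (nat_lit 4) (nat_lit 7) (nat_lit 12) L24612 (by decide +kernel)
theorem L24614 : W_20 (nat_lit 5) (nat_lit 0x1e0005000200002001000080000000000000000000000000000000) (nat_lit 0x0) (nat_lit 0x48001c000d80000000000000000000000000000000000) := T_20 (nat_lit 160) (nat_lit 143) (nat_lit 6) (nat_lit 7) (nat_lit 11) L24613 (by decide +kernel)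
theorem L24615 : W_20 (nat_lit 6) (nat_lit 0xe0005000200002001000080000000000000000000000000000000) (nat_lit 0x0) (nat_lit 0x10000080048001c000d80000000000000000000000000000000000) := T_20 (nat_lit 212) (nat_lit 191) (nat_lit 0) (nat_lit 8) (nat_lit 12) L24614 (by decide +kernel)
theorem L24616 : W_20 (nat_lit 2) (nat_lit 0xe000500024001e001000080000000000000000000000000000000) (nat_lit 0x0) (nat_lit 0x800000000000180000000000000000000000000000000000) := D_20 (nat_lit 140) (nat_lit 139) (nat_lit 191) (nat_lit 0) (nat_lit 7) (nat_lit 9) (nat_lit 7) (nat_lit 4) (nat_lit 8) (by decide +kernel)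
theorem L24617 : W_20 (nat_lit 3) (nat_lit 0xe000500020001e001000080000000000000000000000000000000) (nat_lit 0x0) (nat_lit 0x800060000000180000000000000000000000000000000000) := T_20 (nat_lit 174) (nat_lit 173) (nat_lit 1) (nat_lit 7) (nat_lit 9) L24616 (by decide +kernel)
theorem L24618 : W_20 (nat_lit 4) (nat_lit 0xe000500020001a001000080000000000000000000000000000000) (nat_lit 0x0) (nat_lit 0x800460004000180000000000000000000000000000000000) := T_20 (nat_lit 158) (nat_lit 178) (nat_lit 3) (nat_lit 4) (nat_lit 9) L24617 (by decide +kernel)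
theorem L24619 : W_20 (nat_lit 5) (nat_lit 0xe0005000200012001000080000000000000000000000000000000) (nat_lit 0x0) (nat_lit 0x80046000c000580000000000000000000000000000000000) := T_20 (nat_lit 159) (nat_lit 142) (nat_lit 4) (nat_lit 7) (nat_lit 12) L24618 (by decide +kernel)
theorem L24620 : W_20 (nat_lit 6) (nat_lit 0xe0005000200002001000080000000000000000000000000000000) (nat_lit 0x0) (nat_lit 0x80046001c000d80000000000000000000000000000000000) := T_20 (nat_lit 160) (nat_lit 143) (nat_lit 6) (nat_lit 7) (nat_lit 11) L24619 (by decide +kernel)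
theorem L24621 : W_20 (nat_lit 2) (nat_lit 0x4001e000d000280006001400080000000000000000000000000000000) (nat_lit 0x0) (nat_lit 0xa00020000000000000000000000000000000) := D_20 (nat_lit 141) (nat_lit 125) (nat_lit 143) (nat_lit 6) (nat_lit 5) (nat_lit 11) (nat_lit 1) (nat_lit 8) (nat_lit 8) (by decide +kernel)
theorem L24622 : W_20 (nat_lit 3) (nat_lit 0x4001e000d000280006001000080000000000000000000000000000000) (nat_lit 0x0) (nat_lit 0x8000e00020000000000000000000000000000000) := T_20 (nat_lit 142) (nat_lit 159) (nat_lit 6) (nat_lit 5) (nat_lit 12) L24621 (by decide +kernel)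
theorem L24623 : W_20 (nat_lit 4) (nat_lit 0x4001e000d000280002001000080000000000000000000000000000000) (nat_lit 0x0) (nat_lit 0xc000f00020000000000000000000000000000000) := T_20 (nat_lit 158) (nat_lit 140) (nat_lit 4) (nat_lit 5) (nat_lit 12) L24622 (by decide +kernel)
theorem L24624 : W_20 (nat_lit 5) (nat_lit 0x4001e000d000200002001000080000000000000000000000000000000) (nat_lit 0x0) (nat_lit 0xc000c000f00020000000000000000000000000000000) := T_20 (nat_lit 175) (nat_lit 174) (nat_lit 4) (nat_lit 5) (nat_lit 13) L24623 (by decide +kernel)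
theorem L24625 : W_20 (nat_lit 6) (nat_lit 0x4001e0005000200002001000080000000000000000000000000000000) (nat_lit 0x0) (nat_lit 0x180000c000c000f00020000000000000000000000000000000) := T_20 (nat_lit 195) (nat_lit 196) (nat_lit 2) (nat_lit 5) (nat_lit 12) L24624 (by decide +kernel)
theorem L24626 : W_20 (nat_lit 7) (nat_lit 0x1e0005000200002001000080000000000000000000000000000000) (nat_lit 0x0) (nat_lit 0x6000000180000c000c000f00020000000000000000000000000000000) := T_20 (nat_lit 226) (nat_lit 225) (nat_lit 1) (nat_lit 8) (nat_lit 12) L24625 (by decide +kernel)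
theorem L24627 : W_20 (nat_lit 8) (nat_lit 0xe0005000200002001000080000000000000000000000000000000) (nat_lit 0x0) (nat_lit 0x6001000188000c000c000f00020000000000000000000000000000000) := T_20 (nat_lit 212) (nat_lit 191) (nat_lit 0) (nat_lit 8) (nat_lit 12) L24626 (by decide +kernel)
theorem L24628 : W_20 (nat_lit 2) (nat_lit 0xe0005a00240002001000080000000000000000000000000000000) (nat_lit 0x0) (nat_lit 0x8000400000000000080000000000000000000000000000000000000000000) := D_20 (nat_lit 226) (nat_lit 243) (nat_lit 175) (nat_lit 4) (nat_lit 5) (nat_lit 14) (nat_lit 4) (nat_lit 5) (nat_lit 13) (by decide +kernel)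
theorem L24629 : W_20 (nat_lit 3) (nat_lit 0xe0005a00200002001000080000000000000000000000000000000) (nat_lit 0x0) (nat_lit 0x80004000000000000c0000000100000000000000000000000000000000000) := T_20 (nat_lit 174) (nat_lit 140) (nat_lit 7) (nat_lit 4) (nat_lit 8) L24628 (by decide +kernel)
theorem L24630 : W_20 (nat_lit 4) (nat_lit 0xe0005800200002001000080000000000000000000000000000000) (nat_lit 0x0) (nat_lit 0x80004000000006000c0000000100000000000000000000000000000000000) := T_20 (nat_lit 189) (nat_lit 190) (nat_lit 3) (nat_lit 2) (nat_lit 11) L24629 (by decide +kernel)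
theorem L24631 : W_20 (nat_lit 5) (nat_lit 0xe0005000200002001000080000000000000000000000000000000) (nat_lit 0x0) (nat_lit 0x8000400100000e000c0000000100000000000000000000000000000000000) := T_20 (nat_lit 191) (nat_lit 212) (nat_lit 0) (nat_lit 8) (nat_lit 12) L24630 (by decide +kernel)
theorem L24632 : W_20 (nat_lit 2) (nat_lit 0xe000500020001e001000080000000000000000000000000000000) (nat_lit 0x0) (nat_lit 0x80000000180000000000000000000000000000000000) := D_20 (nat_lit 140) (nat_lit 139) (nat_lit 175) (nat_lit 0) (nat_lit 7) (nat_lit 9) (nat_lit 4) (nat_lit 5) (nat_lit 12) (by decide +kernel)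
theorem L24633 : W_20 (nat_lit 3) (nat_lit 0xe000500020001a001000080000000000000000000000000000000) (nat_lit 0x0) (nat_lit 0x480004000180000000000000000000000000000000000) := T_20 (nat_lit 158) (nat_lit 178) (nat_lit 3) (nat_lit 4) (nat_lit 9) L24632 (by decide +kernel)
theorem L24634 : W_20 (nat_lit 4) (nat_lit 0xe0005000200012001000080000000000000000000000000000000) (nat_lit 0x0) (nat_lit 0x48000c000580000000000000000000000000000000000) := T_20 (nat_lit 159) (nat_lit 142) (nat_lit 4) (nat_lit 7) (nat_lit 12) L24633 (by decide +kernel)
theorem L24635 : W_20 (nat_lit 5) (nat_lit 0xe0005000200002001000080000000000000000000000000000000) (nat_lit 0x0) (nat_lit 0x48001c000d80000000000000000000000000000000000) := T_20 (nat_lit 160) (nat_lit 143) (nat_lit 6) (nat_lit 7) (nat_lit 11) L24634 (by decide +kernel)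
theorem L24636 : W_20 (nat_lit 2) (nat_lit 0x1e000500024001e001000080000000000000000000000000000000) (nat_lit 0x0) (nat_lit 0x600000000000080000000000000000000000000000000000000000000) := D_20 (nat_lit 226) (nat_lit 175) (nat_lit 225) (nat_lit 4) (nat_lit 5) (nat_lit 13) (nat_lit 1) (nat_lit 8) (nat_lit 12) (by decide +kernel)
theorem L24637 : W_20 (nat_lit 3) (nat_lit 0xe000500024001e001000080000000000000000000000000000000) (nat_lit 0x0) (nat_lit 0x600100000800080000000000000000000000000000000000000000000) := T_20 (nat_lit 212) (nat_lit 191) (nat_lit 0) (nat_lit 8) (nat_lit 12) L24636 (by decide +kernel)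
theorem L24638 : W_20 (nat_lit 4) (nat_lit 0xe000500020001e001000080000000000000000000000000000000) (nat_lit 0x0) (nat_lit 0x6001000008000e0000000000000000000000000000000000000000000) := T_20 (nat_lit 174) (nat_lit 173) (nat_lit 1) (nat_lit 7) (nat_lit 9) L24637 (by decide +kernel)
theorem L24639 : W_20 (nat_lit 5) (nat_lit 0xe000500020001a001000080000000000000000000000000000000) (nat_lit 0x0) (nat_lit 0x6001000008004e0004000000000000000000000000000000000000000) := T_20 (nat_lit 158) (nat_lit 178) (nat_lit 3) (nat_lit 4) (nat_lit 9) L24638 (by decide +kernel)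
theorem L24640 : W_20 (nat_lit 6) (nat_lit 0xe0005000200012001000080000000000000000000000000000000) (nat_lit 0x0) (nat_lit 0x6001000008004e000c000400000000000000000000000000000000000) := T_20 (nat_lit 159) (nat_lit 142) (nat_lit 4) (nat_lit 7) (nat_lit 12) L24639 (by decide +kernel)
theorem L24641 : W_20 (nat_lit 7) (nat_lit 0xe0005000200002001000080000000000000000000000000000000) (nat_lit 0x0) (nat_lit 0x6001000008004e001c000c00000000000000000000000000000000000) := T_20 (nat_lit 160) (nat_lit 143) (nat_lit 6) (nat_lit 7) (nat_lit 11) L24640 (by decide +kernel)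
theorem L24642 : W_20 (nat_lit 9) (nat_lit 0xe0005000200000001000080000000000000000000000000000000) (nat_lit 0x0) (nat_lit 0x8000600100018e004e001e000f80020000000000000000000000000000000) := Q_20 (nat_lit 157) (C_20 L24615 (C_20 L24620 (C_20 L24627 (C_20 L24631 (C_20 L24635 (C_20 L24641 N_20)))))) (by decide +kernel)
theorem L24643 : W_20 (nat_lit 12) (nat_lit 0xc0005000200000001000080000000000000000000000000000000) (nat_lit 0x0) (nat_lit 0x8000c000700130018e004f001f000fc0020000000000000000000000000000000) := Q_20 (nat_lit 209) (C_20 L24179 (C_20 L24610 (C_20 L24175 (C_20 L24642 (C_20 L24166 N_20))))) (by decide +kernel)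
theorem L24644 : W_20 (nat_lit 8) (nat_lit 0xc0005000200000001000080000000000000000000000000000000) (nat_lit 0x0) (nat_lit 0x8000401cf00730078c00080000000000000000000000000000000000000000000) := Q_20 (nat_lit 209) (C_20 L24212 (C_20 L24179 (C_20 L24175 (C_20 L24166 N_20)))) (by decide +kernel)
theorem L24645 : W_20 (nat_lit 13) (nat_lit 0x80005000200000001000080000000000000000000000000000000) (nat_lit 0x0) (nat_lit 0x8000c01cf00770078e004f001f000fc0020000000000000000000000000000000) := Q_20 (nat_lit 210) (C_20 L24600 (C_20 L24643 (C_20 L24644 N_20))) (by decide +kernel)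
theorem L24646 : W_20 (nat_lit 9) (nat_lit 0x1a0005000200018001000080000000000000000000000000000000) (nat_lit 0x0) (nat_lit 0x7000500008004f00070001c0000000000000000000000000000000000) := T_20 (nat_lit 210) (nat_lit 191) (nat_lit 0) (nat_lit 8) (nat_lit 12) L24607 (by decide +kernel)
theorem L24647 : W_20 (nat_lit 10) (nat_lit 0xa0005000200018001000080000000000000000000000000000000) (nat_lit 0x0) (nat_lit 0x27001500008004f00070001c0000000000000000000000000000000000) := T_20 (nat_lit 212) (nat_lit 229) (nat_lit 7) (nat_lit 7) (nat_lit 9) L24646 (by decide +kernel)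
theorem L24648 : W_20 (nat_lit 11) (nat_lit 0xa0005000200010001000080000000000000000000000000000000) (nat_lit 0x0) (nat_lit 0x27001500008004f000f0005c0000000000000000000000000000000000) := T_20 (nat_lit 159) (nat_lit 142) (nat_lit 4) (nat_lit 7) (nat_lit 12) L24647 (by decide +kernel)
theorem L24649 : W_20 (nat_lit 12) (nat_lit 0xa0005000200000001000080000000000000000000000000000000) (nat_lit 0x0) (nat_lit 0x27001500008004f001f000dc0000000000000000000000000000000000) := T_20 (nat_lit 160) (nat_lit 143) (nat_lit 6) (nat_lit 7) (nat_lit 11) L24648 (by decide +kernel)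
theorem L24650 : W_20 (nat_lit 2) (nat_lit 0x4000a000500028000e001000080000000000000000000000000000000) (nat_lit 0x0) (nat_lit 0x4000200010000000000000000000000000000000000000000000000000000) := D_20 (nat_lit 225) (nat_lit 208) (nat_lit 242) (nat_lit 5) (nat_lit 5) (nat_lit 9) (nat_lit 5) (nat_lit 5) (nat_lit 10) (by decide +kernel)
theorem L24651 : W_20 (nat_lit 3) (nat_lit 0xa000500028000e001000080000000000000000000000000000000) (nat_lit 0x0) (nat_lit 0x4000600010000000040000000000000000000000000000000000000000000) := T_20 (nat_lit 226) (nat_lit 174) (nat_lit 4) (nat_lit 5) (nat_lit 13) L24650 (by decide +kernel)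
theorem L24652 : W_20 (nat_lit 4) (nat_lit 0xa0005000280006001000080000000000000000000000000000000) (nat_lit 0x0) (nat_lit 0x4000600010000000040008000400000000000000000000000000000000000) := T_20 (nat_lit 159) (nat_lit 142) (nat_lit 6) (nat_lit 5) (nat_lit 12) L24651 (by decide +kernel)
theorem L24653 : W_20 (nat_lit 5) (nat_lit 0xa0005000280004001000080000000000000000000000000000000) (nat_lit 0x0) (nat_lit 0x400060001000000004000a000500000000000000000000000000000000000) := T_20 (nat_lit 157) (nat_lit 140) (nat_lit 4) (nat_lit 5) (nat_lit 12) L24652 (by decide +kernel)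
theorem L24654 : W_20 (nat_lit 4) (nat_lit 0xa0005000280004001000080000000000000000000000000000000) (nat_lit 0x0) (nat_lit 0x200010000800000002000300008000000000000000000000000000000) := T_20 (nat_lit 208) (nat_lit 225) (nat_lit 5) (nat_lit 5) (nat_lit 9) L24495 (by decide +kernel)
theorem L24655 : W_20 (nat_lit 2) (nat_lit 0x580026800a00050002d000c001000080000000000000000000000000000000) (nat_lit 0x0) (nat_lit 0x800000000000100008000000000000000000000000000000000000000000000000) := D_20 (nat_lit 212) (nat_lit 263) (nat_lit 195) (nat_lit 4) (nat_lit 8) (nat_lit 15) (nat_lit 4) (nat_lit 8) (nat_lit 14) (by decide +kernel)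
theorem L24656 : W_20 (nat_lit 3) (nat_lit 0x580006800a00050002d000c001000080000000000000000000000000000000) (nat_lit 0x0) (nat_lit 0x800000003000100008000000000000000000000000000000000000000000000000) := T_20 (nat_lit 229) (nat_lit 228) (nat_lit 7) (nat_lit 7) (nat_lit 10) L24655 (by decide +kernel)
theorem L24657 : W_20 (nat_lit 4) (nat_lit 0x180006800a00050002d000c001000080000000000000000000000000000000) (nat_lit 0x0) (nat_lit 0x800060003000100008000000000000000000000000000000000000000000000000) := T_20 (nat_lit 246) (nat_lit 245) (nat_lit 0) (nat_lit 8) (nat_lit 14) L24656 (by decide +kernel)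
theorem L24658 : W_20 (nat_lit 5) (nat_lit 0x180006000a00050002d000c001000080000000000000000000000000000000) (nat_lit 0x0) (nat_lit 0x800060003180100008000000000000000000000000000000000000000000000000) := T_20 (nat_lit 223) (nat_lit 224) (nat_lit 3) (nat_lit 2) (nat_lit 13) L24657 (by decide +kernel)
theorem L24659 : W_20 (nat_lit 6) (nat_lit 0x80006000a00050002d000c001000080000000000000000000000000000000) (nat_lit 0x0) (nat_lit 0xa00070003180100008000000000000000000000000000000000000000000000000) := T_20 (nat_lit 244) (nat_lit 261) (nat_lit 7) (nat_lit 5) (nat_lit 11) L24658 (by decide +kernel)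
theorem L24660 : W_20 (nat_lit 7) (nat_lit 0x6000a00050002d000c001000080000000000000000000000000000000) (nat_lit 0x0) (nat_lit 0xa00078003180100008800000000000000000000000000000000000000000000000) := T_20 (nat_lit 243) (nat_lit 191) (nat_lit 4) (nat_lit 5) (nat_lit 14) L24659 (by decide +kernel)
theorem L24661 : W_20 (nat_lit 8) (nat_lit 0x6000a00050002c000c001000080000000000000000000000000000000) (nat_lit 0x0) (nat_lit 0xa00078003180100008800030000000000000000000000000000000000000000000) := T_20 (nat_lit 172) (nat_lit 173) (nat_lit 2) (nat_lit 2) (nat_lit 10) L24660 (by decide +kernel)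
theorem L24662 : W_20 (nat_lit 9) (nat_lit 0x6000a000500028000c001000080000000000000000000000000000000) (nat_lit 0x0) (nat_lit 0xa00078003180100008800070002000000000000000000000000000000000000000) := T_20 (nat_lit 174) (nat_lit 157) (nat_lit 4) (nat_lit 5) (nat_lit 13) L24661 (by decide +kernel)
theorem L24663 : W_20 (nat_lit 10) (nat_lit 0x2000a000500028000c001000080000000000000000000000000000000) (nat_lit 0x0) (nat_lit 0xa0007c003580100008800070002000000000000000000000000000000000000000) := T_20 (nat_lit 226) (nat_lit 242) (nat_lit 5) (nat_lit 5) (nat_lit 10) L24662 (by decide +kernel)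
theorem L24664 : W_20 (nat_lit 11) (nat_lit 0xa000500028000c001000080000000000000000000000000000000) (nat_lit 0x0) (nat_lit 0xa0007c003780110008800070002000000000000000000000000000000000000000) := T_20 (nat_lit 225) (nat_lit 208) (nat_lit 5) (nat_lit 5) (nat_lit 9) L24663 (by decide +kernel)
theorem L24665 : W_20 (nat_lit 12) (nat_lit 0xa0005000280004001000080000000000000000000000000000000) (nat_lit 0x0) (nat_lit 0xa0007c00378011000880007000a000400000000000000000000000000000000000) := T_20 (nat_lit 159) (nat_lit 142) (nat_lit 6) (nat_lit 5) (nat_lit 12) L24664 (by decide +kernel)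
theorem L24666 : W_20 (nat_lit 2) (nat_lit 0xa0005000280006001400080000000000000000000000000000000) (nat_lit 0x0) (nat_lit 0xa00020000000000000000000000000000000) := D_20 (nat_lit 141) (nat_lit 125) (nat_lit 143) (nat_lit 6) (nat_lit 5) (nat_lit 11) (nat_lit 1) (nat_lit 8) (nat_lit 8) (by decide +kernel)
theorem L24667 : W_20 (nat_lit 3) (nat_lit 0xa0005000280006001000080000000000000000000000000000000) (nat_lit 0x0) (nat_lit 0x8000e00020000000000000000000000000000000) := T_20 (nat_lit 142) (nat_lit 159) (nat_lit 6) (nat_lit 5) (nat_lit 12) L24666 (by decide +kernel)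
theorem L24668 : W_20 (nat_lit 4) (nat_lit 0xa0005000280004001000080000000000000000000000000000000) (nat_lit 0x0) (nat_lit 0xa000f00020000000000000000000000000000000) := T_20 (nat_lit 157) (nat_lit 140) (nat_lit 4) (nat_lit 5) (nat_lit 12) L24667 (by decide +kernel)
theorem L24669 : W_20 (nat_lit 4) (nat_lit 0xa0005000280004001000080000000000000000000000000000000) (nat_lit 0x0) (nat_lit 0x200010000800000008000600020000000000000000000000000000000) := T_20 (nat_lit 208) (nat_lit 225) (nat_lit 5) (nat_lit 5) (nat_lit 9) L24498 (by decide +kernel)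
theorem L24670 : W_20 (nat_lit 13) (nat_lit 0xa0005000200004001000080000000000000000000000000000000) (nat_lit 0x0) (nat_lit 0xa0007c0037801100088000f000a000f00028000000000000000000000000000000) := Q_20 (nat_lit 175) (C_20 L24653 (C_20 L24654 (C_20 L24665 (C_20 L24668 (C_20 L24669 N_20))))) (by decide +kernel)
theorem L24671 : W_20 (nat_lit 2) (nat_lit 0xa000500020001e001000080000000000000000000000000000000) (nat_lit 0x0) (nat_lit 0x80000000180000000000000000000000000000000000) := D_20 (nat_lit 140) (nat_lit 139) (nat_lit 175) (nat_lit 0) (nat_lit 7) (nat_lit 9) (nat_lit 4) (nat_lit 5) (nat_lit 12) (by decide +kernel)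
theorem L24672 : W_20 (nat_lit 3) (nat_lit 0xa000500020001c001000080000000000000000000000000000000) (nat_lit 0x0) (nat_lit 0x480002000180000000000000000000000000000000000) := T_20 (nat_lit 157) (nat_lit 178) (nat_lit 3) (nat_lit 4) (nat_lit 9) L24671 (by decide +kernel)
theorem L24673 : W_20 (nat_lit 4) (nat_lit 0xa0005000200014001000080000000000000000000000000000000) (nat_lit 0x0) (nat_lit 0x48000a000580000000000000000000000000000000000) := T_20 (nat_lit 159) (nat_lit 142) (nat_lit 4) (nat_lit 7) (nat_lit 12) L24672 (by decide +kernel)
theorem L24674 : W_20 (nat_lit 5) (nat_lit 0xa0005000200004001000080000000000000000000000000000000) (nat_lit 0x0) (nat_lit 0x48001a000d80000000000000000000000000000000000) := T_20 (nat_lit 160) (nat_lit 143) (nat_lit 6) (nat_lit 7) (nat_lit 11) L24673 (by decide +kernel)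
theorem L24675 : W_20 (nat_lit 2) (nat_lit 0xa000500028001e001000080000000000000000000000000000000) (nat_lit 0x0) (nat_lit 0x400000000000060000000000000000000000000000000000000000000) := D_20 (nat_lit 174) (nat_lit 173) (nat_lit 226) (nat_lit 1) (nat_lit 7) (nat_lit 9) (nat_lit 4) (nat_lit 5) (nat_lit 13) (by decide +kernel)
theorem L24676 : W_20 (nat_lit 3) (nat_lit 0xa000500028000e001000080000000000000000000000000000000) (nat_lit 0x0) (nat_lit 0x400000000000460010000000000000000000000000000000000000000) := T_20 (nat_lit 160) (nat_lit 178) (nat_lit 3) (nat_lit 4) (nat_lit 9) L24675 (by decide +kernel)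
theorem L24677 : W_20 (nat_lit 4) (nat_lit 0xa0005000280006001000080000000000000000000000000000000) (nat_lit 0x0) (nat_lit 0x400000000000460018000400000000000000000000000000000000000) := T_20 (nat_lit 159) (nat_lit 142) (nat_lit 6) (nat_lit 5) (nat_lit 12) L24676 (by decide +kernel)
theorem L24678 : W_20 (nat_lit 5) (nat_lit 0xa0005000280004001000080000000000000000000000000000000) (nat_lit 0x0) (nat_lit 0x40000000000046001a000500000000000000000000000000000000000) := T_20 (nat_lit 157) (nat_lit 140) (nat_lit 4) (nat_lit 5) (nat_lit 12) L24677 (by decide +kernel)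
theorem L24679 : W_20 (nat_lit 13) (nat_lit 0xa0005000200004001000080000000000000000000000000000000) (nat_lit 0x0) (nat_lit 0xa0007c0037801100088004f001a000700028000000000000000000000000000000) := Q_20 (nat_lit 175) (C_20 L24669 (C_20 L24665 (C_20 L24653 (C_20 L24654 (C_20 L24678 N_20))))) (by decide +kernel)
theorem L24680 : W_20 (nat_lit 2) (nat_lit 0x1b000500028001e001000080000000000000000000000000000000) (nat_lit 0x0) (nat_lit 0x400000000000060000000000000000000000000000000000000000000) := D_20 (nat_lit 174) (nat_lit 173) (nat_lit 226) (nat_lit 1) (nat_lit 7) (nat_lit 9) (nat_lit 4) (nat_lit 5) (nat_lit 13) (by decide +kernel)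
theorem L24681 : W_20 (nat_lit 3) (nat_lit 0x1b0005000280016001000080000000000000000000000000000000) (nat_lit 0x0) (nat_lit 0x400000000000460008000000000000000000000000000000000000000) := T_20 (nat_lit 159) (nat_lit 178) (nat_lit 3) (nat_lit 4) (nat_lit 9) L24680 (by decide +kernel)
theorem L24682 : W_20 (nat_lit 4) (nat_lit 0x1b0005000280014001000080000000000000000000000000000000) (nat_lit 0x0) (nat_lit 0x40000000000046000a000100000000000000000000000000000000000) := T_20 (nat_lit 157) (nat_lit 140) (nat_lit 4) (nat_lit 5) (nat_lit 12) L24681 (by decide +kernel)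
theorem L24683 : W_20 (nat_lit 5) (nat_lit 0xb0005000280014001000080000000000000000000000000000000) (nat_lit 0x0) (nat_lit 0x240010000000046000a000100000000000000000000000000000000000) := T_20 (nat_lit 212) (nat_lit 229) (nat_lit 7) (nat_lit 7) (nat_lit 9) L24682 (by decide +kernel)
theorem L24684 : W_20 (nat_lit 6) (nat_lit 0xa0005000280014001000080000000000000000000000000000000) (nat_lit 0x0) (nat_lit 0x260011000000046000a000100000000000000000000000000000000000) := T_20 (nat_lit 208) (nat_lit 225) (nat_lit 5) (nat_lit 5) (nat_lit 9) L24683 (by decide +kernel)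
theorem L24685 : W_20 (nat_lit 7) (nat_lit 0xa0005000280004001000080000000000000000000000000000000) (nat_lit 0x0) (nat_lit 0x260011000000046001a000900000000000000000000000000000000000) := T_20 (nat_lit 160) (nat_lit 143) (nat_lit 6) (nat_lit 7) (nat_lit 11) L24684 (by decide +kernel)
theorem L24686 : W_20 (nat_lit 2) (nat_lit 0x480026000a00050002c0014001000080000000000000000000000000000000) (nat_lit 0x0) (nat_lit 0x200030000000000000000000000000000000000000000000000000000000000000) := D_20 (nat_lit 244) (nat_lit 261) (nat_lit 245) (nat_lit 7) (nat_lit 5) (nat_lit 11) (nat_lit 0) (nat_lit 8) (nat_lit 14) (by decide +kernel)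
theorem L24687 : W_20 (nat_lit 3) (nat_lit 0x80026000a00050002c0014001000080000000000000000000000000000000) (nat_lit 0x0) (nat_lit 0x200070001000000000000000000000000000000000000000000000000000000000) := T_20 (nat_lit 246) (nat_lit 228) (nat_lit 7) (nat_lit 7) (nat_lit 10) L24686 (by decide +kernel)
theorem L24688 : W_20 (nat_lit 4) (nat_lit 0x26000a00050002c0014001000080000000000000000000000000000000) (nat_lit 0x0) (nat_lit 0x200078001000000000800000000000000000000000000000000000000000000000) := T_20 (nat_lit 243) (nat_lit 191) (nat_lit 4) (nat_lit 5) (nat_lit 14) L24687 (by decide +kernel)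
theorem L24689 : W_20 (nat_lit 5) (nat_lit 0x6000a00050002c0014001000080000000000000000000000000000000) (nat_lit 0x0) (nat_lit 0x200078003000100000800000000000000000000000000000000000000000000000) := T_20 (nat_lit 229) (nat_lit 212) (nat_lit 7) (nat_lit 7) (nat_lit 9) L24688 (by decide +kernel)
theorem L24690 : W_20 (nat_lit 6) (nat_lit 0x6000a0005000280014001000080000000000000000000000000000000) (nat_lit 0x0) (nat_lit 0x200078003000100000800040002000000000000000000000000000000000000000) := T_20 (nat_lit 174) (nat_lit 157) (nat_lit 4) (nat_lit 5) (nat_lit 13) L24689 (by decide +kernel)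
theorem L24691 : W_20 (nat_lit 7) (nat_lit 0x2000a0005000280014001000080000000000000000000000000000000) (nat_lit 0x0) (nat_lit 0x20007c003400100000800040002000000000000000000000000000000000000000) := T_20 (nat_lit 226) (nat_lit 242) (nat_lit 5) (nat_lit 5) (nat_lit 10) L24690 (by decide +kernel)
theorem L24692 : W_20 (nat_lit 8) (nat_lit 0x2000a0005000280004001000080000000000000000000000000000000) (nat_lit 0x0) (nat_lit 0x20007c003400100000800040012000800000000000000000000000000000000000) := T_20 (nat_lit 160) (nat_lit 143) (nat_lit 6) (nat_lit 7) (nat_lit 11) L24691 (by decide +kernel)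
theorem L24693 : W_20 (nat_lit 9) (nat_lit 0xa0005000280004001000080000000000000000000000000000000) (nat_lit 0x0) (nat_lit 0x20007c003600110000800040012000800000000000000000000000000000000000) := T_20 (nat_lit 225) (nat_lit 208) (nat_lit 5) (nat_lit 5) (nat_lit 9) L24692 (by decide +kernel)
theorem L24694 : W_20 (nat_lit 3) (nat_lit 0xa0005000280016001000080000000000000000000000000000000) (nat_lit 0x0) (nat_lit 0x400000000000460008000000000000000000000000000000000000000) := T_20 (nat_lit 159) (nat_lit 178) (nat_lit 3) (nat_lit 4) (nat_lit 9) L24675 (by decide +kernel)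
theorem L24695 : W_20 (nat_lit 4) (nat_lit 0xa0005000280014001000080000000000000000000000000000000) (nat_lit 0x0) (nat_lit 0x40000000000046000a000100000000000000000000000000000000000) := T_20 (nat_lit 157) (nat_lit 140) (nat_lit 4) (nat_lit 5) (nat_lit 12) L24694 (by decide +kernel)
theorem L24696 : W_20 (nat_lit 5) (nat_lit 0xa0005000280004001000080000000000000000000000000000000) (nat_lit 0x0) (nat_lit 0x40000000000046001a000900000000000000000000000000000000000) := T_20 (nat_lit 160) (nat_lit 143) (nat_lit 6) (nat_lit 7) (nat_lit 11) L24695 (by decide +kernel)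
theorem L24697 : W_20 (nat_lit 2) (nat_lit 0xb0005000280004001a00098000000000000000000000000000000) (nat_lit 0x0) (nat_lit 0x60001000000000000000000000000000) := D_20 (nat_lit 125) (nat_lit 126) (nat_lit 108) (nat_lit 3) (nat_lit 4) (nat_lit 7) (nat_lit 6) (nat_lit 5) (nat_lit 10) (by decide +kernel)
theorem L24698 : W_20 (nat_lit 3) (nat_lit 0xb0005000280004001a00088000000000000000000000000000000) (nat_lit 0x0) (nat_lit 0x70001400000000000000000000000000) := T_20 (nat_lit 124) (nat_lit 106) (nat_lit 4) (nat_lit 5) (nat_lit 10) L24697 (by decide +kernel)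
theorem L24699 : W_20 (nat_lit 4) (nat_lit 0xb0005000280004001200088000000000000000000000000000000) (nat_lit 0x0) (nat_lit 0x10000800070001400000000000000000000000000) := T_20 (nat_lit 143) (nat_lit 160) (nat_lit 6) (nat_lit 7) (nat_lit 11) L24698 (by decide +kernel)
theorem L24700 : W_20 (nat_lit 5) (nat_lit 0xb0005000280004001200080000000000000000000000000000000) (nat_lit 0x0) (nat_lit 0x10000900078001400000000000000000000000000) := T_20 (nat_lit 123) (nat_lit 140) (nat_lit 4) (nat_lit 5) (nat_lit 11) L24699 (by decide +kernel)
theorem L24701 : W_20 (nat_lit 6) (nat_lit 0xb0005000280004001000080000000000000000000000000000000) (nat_lit 0x0) (nat_lit 0x800000010000b00078001400000000000000000000000000) := T_20 (nat_lit 141) (nat_lit 191) (nat_lit 5) (nat_lit 5) (nat_lit 8) L24700 (by decide +kernel)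
theorem L24702 : W_20 (nat_lit 7) (nat_lit 0xa0005000280004001000080000000000000000000000000000000) (nat_lit 0x0) (nat_lit 0x200010000800000010000b00078001400000000000000000000000000) := T_20 (nat_lit 208) (nat_lit 225) (nat_lit 5) (nat_lit 5) (nat_lit 9) L24701 (by decide +kernel)
theorem L24703 : W_20 (nat_lit 10) (nat_lit 0xa0005000200004001000080000000000000000000000000000000) (nat_lit 0x0) (nat_lit 0x20007c0036001100008004e001a000b00078001400000000000000000000000000) := Q_20 (nat_lit 175) (C_20 L24654 (C_20 L24685 (C_20 L24693 (C_20 L24696 (C_20 L24702 N_20))))) (by decide +kernel)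
theorem L24706 : W_20 (nat_lit 4) (nat_lit 0xa000500024001e001000080000000000000000000000000000000) (nat_lit 0x0) (nat_lit 0x8002400110000800080000000000000000000000000000000000000000000) := T_20 (nat_lit 212) (nat_lit 229) (nat_lit 7) (nat_lit 7) (nat_lit 9) L24705 (by decide +kernel)
theorem L24707 : W_20 (nat_lit 5) (nat_lit 0xa000500020001e001000080000000000000000000000000000000) (nat_lit 0x0) (nat_lit 0x80024001100008000e0000000000000000000000000000000000000000000) := T_20 (nat_lit 174) (nat_lit 173) (nat_lit 1) (nat_lit 7) (nat_lit 9) L24706 (by decide +kernel)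
theorem L24708 : W_20 (nat_lit 6) (nat_lit 0xa000500020001c001000080000000000000000000000000000000) (nat_lit 0x0) (nat_lit 0x80024001100008004e0002000000000000000000000000000000000000000) := T_20 (nat_lit 157) (nat_lit 178) (nat_lit 3) (nat_lit 4) (nat_lit 9) L24707 (by decide +kernel)
theorem L24709 : W_20 (nat_lit 7) (nat_lit 0xa0005000200014001000080000000000000000000000000000000) (nat_lit 0x0) (nat_lit 0x80024001100008004e000a000400000000000000000000000000000000000) := T_20 (nat_lit 159) (nat_lit 142) (nat_lit 4) (nat_lit 7) (nat_lit 12) L24708 (by decide +kernel)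
theorem L24710 : W_20 (nat_lit 8) (nat_lit 0xa0005000200004001000080000000000000000000000000000000) (nat_lit 0x0) (nat_lit 0x80024001100008004e001a000c00000000000000000000000000000000000) := T_20 (nat_lit 160) (nat_lit 143) (nat_lit 6) (nat_lit 7) (nat_lit 11) L24709 (by decide +kernel)
theorem L24711 : W_20 (nat_lit 2) (nat_lit 0xa000500024001e001000080000000000000000000000000000000) (nat_lit 0x0) (nat_lit 0x800000000000180000000000000000000000000000000000) := D_20 (nat_lit 140) (nat_lit 139) (nat_lit 191) (nat_lit 0) (nat_lit 7) (nat_lit 9) (nat_lit 7) (nat_lit 4) (nat_lit 8) (by decide +kernel)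
theorem L24712 : W_20 (nat_lit 3) (nat_lit 0xa000500020001e001000080000000000000000000000000000000) (nat_lit 0x0) (nat_lit 0x800060000000180000000000000000000000000000000000) := T_20 (nat_lit 174) (nat_lit 173) (nat_lit 1) (nat_lit 7) (nat_lit 9) L24711 (by decide +kernel)
theorem L24713 : W_20 (nat_lit 4) (nat_lit 0xa000500020001c001000080000000000000000000000000000000) (nat_lit 0x0) (nat_lit 0x800460002000180000000000000000000000000000000000) := T_20 (nat_lit 157) (nat_lit 178) (nat_lit 3) (nat_lit 4) (nat_lit 9) L24712 (by decide +kernel)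
theorem L24714 : W_20 (nat_lit 5) (nat_lit 0xa0005000200014001000080000000000000000000000000000000) (nat_lit 0x0) (nat_lit 0x80046000a000580000000000000000000000000000000000) := T_20 (nat_lit 159) (nat_lit 142) (nat_lit 4) (nat_lit 7) (nat_lit 12) L24713 (by decide +kernel)
theorem L24715 : W_20 (nat_lit 6) (nat_lit 0xa0005000200004001000080000000000000000000000000000000) (nat_lit 0x0) (nat_lit 0x80046001a000d80000000000000000000000000000000000) := T_20 (nat_lit 160) (nat_lit 143) (nat_lit 6) (nat_lit 7) (nat_lit 11) L24714 (by decide +kernel)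
theorem L24716 : W_20 (nat_lit 2) (nat_lit 0x1b00050002800140013000a0000000000000000000000000000000) (nat_lit 0x0) (nat_lit 0x50001000000000000000000000000000) := D_20 (nat_lit 124) (nat_lit 108) (nat_lit 126) (nat_lit 6) (nat_lit 5) (nat_lit 10) (nat_lit 1) (nat_lit 8) (nat_lit 7) (by decide +kernel)
theorem L24717 : W_20 (nat_lit 3) (nat_lit 0x1b0005000280014001300080000000000000000000000000000000) (nat_lit 0x0) (nat_lit 0x400070001000000000000000000000000000) := T_20 (nat_lit 125) (nat_lit 142) (nat_lit 6) (nat_lit 5) (nat_lit 11) L24716 (by decide +kernel)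
theorem L24718 : W_20 (nat_lit 4) (nat_lit 0x1b0005000280014001100080000000000000000000000000000000) (nat_lit 0x0) (nat_lit 0x600078001000000000000000000000000000) := T_20 (nat_lit 141) (nat_lit 123) (nat_lit 4) (nat_lit 5) (nat_lit 11) L24717 (by decide +kernel)
theorem L24719 : W_20 (nat_lit 5) (nat_lit 0xb0005000280014001100080000000000000000000000000000000) (nat_lit 0x0) (nat_lit 0x2000100000000000000000600078001000000000000000000000000000) := T_20 (nat_lit 212) (nat_lit 229) (nat_lit 7) (nat_lit 7) (nat_lit 9) L24718 (by decide +kernel)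
theorem L24720 : W_20 (nat_lit 6) (nat_lit 0xb0005000280014001000080000000000000000000000000000000) (nat_lit 0x0) (nat_lit 0x2000100000000000002000700078001000000000000000000000000000) := T_20 (nat_lit 140) (nat_lit 157) (nat_lit 4) (nat_lit 5) (nat_lit 12) L24719 (by decide +kernel)
theorem L24721 : W_20 (nat_lit 7) (nat_lit 0xb0005000280004001000080000000000000000000000000000000) (nat_lit 0x0) (nat_lit 0x2000100000000000012000f00078001000000000000000000000000000) := T_20 (nat_lit 160) (nat_lit 143) (nat_lit 6) (nat_lit 7) (nat_lit 11) L24720 (by decide +kernel)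
theorem L24722 : W_20 (nat_lit 8) (nat_lit 0xa0005000280004001000080000000000000000000000000000000) (nat_lit 0x0) (nat_lit 0x2200110000000000012000f00078001000000000000000000000000000) := T_20 (nat_lit 208) (nat_lit 225) (nat_lit 5) (nat_lit 5) (nat_lit 9) L24721 (by decide +kernel)
theorem L24723 : W_20 (nat_lit 2) (nat_lit 0xc0034000a0005000280016001000080000000000000000000000000000000) (nat_lit 0x0) (nat_lit 0x200030000000000000000000000000000000000000000000000000000000000000) := D_20 (nat_lit 244) (nat_lit 245) (nat_lit 261) (nat_lit 2) (nat_lit 4) (nat_lit 14) (nat_lit 7) (nat_lit 5) (nat_lit 11) (by decide +kernel)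
theorem L24724 : W_20 (nat_lit 3) (nat_lit 0x40034000a0005000280016001000080000000000000000000000000000000) (nat_lit 0x0) (nat_lit 0x280038000000000000000000000000000000000000000000000000000000000000) := T_20 (nat_lit 243) (nat_lit 259) (nat_lit 5) (nat_lit 5) (nat_lit 11) L24723 (by decide +kernel)
theorem L24725 : W_20 (nat_lit 4) (nat_lit 0x34000a0005000280016001000080000000000000000000000000000000) (nat_lit 0x0) (nat_lit 0x28003c000200000000000000000000000000000000000000000000000000000000) := T_20 (nat_lit 242) (nat_lit 225) (nat_lit 5) (nat_lit 5) (nat_lit 10) L24724 (by decide +kernel)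
theorem L24726 : W_20 (nat_lit 5) (nat_lit 0x24000a0005000280016001000080000000000000000000000000000000) (nat_lit 0x0) (nat_lit 0x28007c001200000000000000000000000000000000000000000000000000000000) := T_20 (nat_lit 228) (nat_lit 246) (nat_lit 7) (nat_lit 7) (nat_lit 10) L24725 (by decide +kernel)
theorem L24727 : W_20 (nat_lit 6) (nat_lit 0x20000a0005000280016001000080000000000000000000000000000000) (nat_lit 0x0) (nat_lit 0x28007c001600000000000040000000000000000000000000000000000000000000) := T_20 (nat_lit 226) (nat_lit 174) (nat_lit 4) (nat_lit 5) (nat_lit 13) L24726 (by decide +kernel)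
theorem L24728 : W_20 (nat_lit 7) (nat_lit 0xa0005000280016001000080000000000000000000000000000000) (nat_lit 0x0) (nat_lit 0x28007c003600100000000040000000000000000000000000000000000000000000) := T_20 (nat_lit 229) (nat_lit 212) (nat_lit 7) (nat_lit 7) (nat_lit 9) L24727 (by decide +kernel)
theorem L24729 : W_20 (nat_lit 8) (nat_lit 0xa0005000280014001000080000000000000000000000000000000) (nat_lit 0x0) (nat_lit 0x28007c003600100000000040002000100000000000000000000000000000000000) := T_20 (nat_lit 157) (nat_lit 140) (nat_lit 4) (nat_lit 5) (nat_lit 12) L24728 (by decide +kernel)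
theorem L24730 : W_20 (nat_lit 9) (nat_lit 0xa0005000280004001000080000000000000000000000000000000) (nat_lit 0x0) (nat_lit 0x28007c003600100000000040012000900000000000000000000000000000000000) := T_20 (nat_lit 160) (nat_lit 143) (nat_lit 6) (nat_lit 7) (nat_lit 11) L24729 (by decide +kernel)
theorem L24731 : W_20 (nat_lit 2) (nat_lit 0xa00050002c0006001a00080000000000000000000000000000000) (nat_lit 0x0) (nat_lit 0x10000800000000000000010000000000000000000000000000000) := D_20 (nat_lit 191) (nat_lit 208) (nat_lit 124) (nat_lit 6) (nat_lit 4) (nat_lit 12) (nat_lit 5) (nat_lit 5) (nat_lit 7) (by decide +kernel)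
theorem L24732 : W_20 (nat_lit 3) (nat_lit 0xa00050002c0006001800080000000000000000000000000000000) (nat_lit 0x0) (nat_lit 0x10000800000000000600010000000000000000000000000000000) := T_20 (nat_lit 141) (nat_lit 142) (nat_lit 1) (nat_lit 8) (nat_lit 8) L24731 (by decide +kernel)
theorem L24733 : W_20 (nat_lit 4) (nat_lit 0xa0005000280006001800080000000000000000000000000000000) (nat_lit 0x0) (nat_lit 0x400010000800040000000600010000000000000000000000000000000) := T_20 (nat_lit 174) (nat_lit 226) (nat_lit 4) (nat_lit 5) (nat_lit 13) L24732 (by decide +kernel)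
theorem L24734 : W_20 (nat_lit 5) (nat_lit 0xa0005000280006001000080000000000000000000000000000000) (nat_lit 0x0) (nat_lit 0x400010000800040010000e00010000000000000000000000000000000) := T_20 (nat_lit 143) (nat_lit 160) (nat_lit 6) (nat_lit 7) (nat_lit 11) L24733 (by decide +kernel)
theorem L24735 : W_20 (nat_lit 6) (nat_lit 0xa0005000280004001000080000000000000000000000000000000) (nat_lit 0x0) (nat_lit 0x400010000800040012000f00010000000000000000000000000000000) := T_20 (nat_lit 157) (nat_lit 140) (nat_lit 4) (nat_lit 5) (nat_lit 12) L24734 (by decide +kernel)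
theorem L24736 : W_20 (nat_lit 10) (nat_lit 0xa0005000200004001000080000000000000000000000000000000) (nat_lit 0x0) (nat_lit 0x28007c0036001100008000c0012000f00078001400000000000000000000000000) := Q_20 (nat_lit 175) (C_20 L24702 (C_20 L24654 (C_20 L24693 (C_20 L24722 (C_20 L24730 (C_20 L24735 N_20)))))) (by decide +kernel)
theorem L24737 : W_20 (nat_lit 2) (nat_lit 0xa0005000200004001400080000000000000000000000000000000) (nat_lit 0x0) (nat_lit 0x18000800000000000000000000000000000000000) := D_20 (nat_lit 160) (nat_lit 143) (nat_lit 159) (nat_lit 6) (nat_lit 7) (nat_lit 11) (nat_lit 4) (nat_lit 7) (nat_lit 12) (by decide +kernel)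
theorem L24738 : W_20 (nat_lit 2) (nat_lit 0xa0005000280004001600080000000000000000000000000000000) (nat_lit 0x0) (nat_lit 0x200010000800000000000000000000000000000000000000000000000) := D_20 (nat_lit 208) (nat_lit 191) (nat_lit 225) (nat_lit 5) (nat_lit 5) (nat_lit 8) (nat_lit 5) (nat_lit 5) (nat_lit 9) (by decide +kernel)
theorem L24739 : W_20 (nat_lit 3) (nat_lit 0xa0005000280004001400080000000000000000000000000000000) (nat_lit 0x0) (nat_lit 0x200010000800000000000200020000000000000000000000000000000) := T_20 (nat_lit 141) (nat_lit 125) (nat_lit 6) (nat_lit 5) (nat_lit 11) L24738 (by decide +kernel)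
theorem L24740 : W_20 (nat_lit 4) (nat_lit 0xa0005000200004001400080000000000000000000000000000000) (nat_lit 0x0) (nat_lit 0x200010000800080008000200020000000000000000000000000000000) := T_20 (nat_lit 175) (nat_lit 159) (nat_lit 6) (nat_lit 5) (nat_lit 12) L24739 (by decide +kernel)
theorem L24741 : W_20 (nat_lit 2) (nat_lit 0xa0005000200004001f00080000000000000000000000000000000) (nat_lit 0x0) (nat_lit 0x1c000000000000000000000000000000) := D_20 (nat_lit 123) (nat_lit 122) (nat_lit 124) (nat_lit 0) (nat_lit 7) (nat_lit 8) (nat_lit 0) (nat_lit 8) (nat_lit 8) (by decide +kernel)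
theorem L24742 : W_20 (nat_lit 3) (nat_lit 0xa0005000200004001e00080000000000000000000000000000000) (nat_lit 0x0) (nat_lit 0x10005c000000000000000000000000000000) := T_20 (nat_lit 140) (nat_lit 126) (nat_lit 2) (nat_lit 4) (nat_lit 8) L24741 (by decide +kernel)
theorem L24743 : W_20 (nat_lit 4) (nat_lit 0xa0005000200004001c00080000000000000000000000000000000) (nat_lit 0x0) (nat_lit 0x30015c000000000000000000000000000000) := T_20 (nat_lit 141) (nat_lit 128) (nat_lit 2) (nat_lit 5) (nat_lit 8) L24742 (by decide +kernel)
theorem L24744 : W_20 (nat_lit 5) (nat_lit 0xa0005000200004001400080000000000000000000000000000000) (nat_lit 0x0) (nat_lit 0x10000b0015c000000000000000000000000000000) := T_20 (nat_lit 143) (nat_lit 160) (nat_lit 6) (nat_lit 7) (nat_lit 11) L24743 (by decide +kernel)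
theorem L24745 : W_20 (nat_lit 6) (nat_lit 0xa0005000200004001000080000000000000000000000000000000) (nat_lit 0x0) (nat_lit 0x200010000800080018000f0017c000000000000000000000000000000) := Q_20 (nat_lit 142) (C_20 L24737 (C_20 L24740 (C_20 L24744 N_20))) (by decide +kernel)
theorem L24746 : W_20 (nat_lit 14) (nat_lit 0xa0005000200000001000080000000000000000000000000000000) (nat_lit 0x0) (nat_lit 0xa8007c0037801100088004f001e000f8017c001400000000000000000000000000) := Q_20 (nat_lit 158) (C_20 L24670 (C_20 L24674 (C_20 L24679 (C_20 L24703 (C_20 L24710 (C_20 L24715 (C_20 L24736 (C_20 L24745 N_20)))))))) (by decide +kernel)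
theorem L24747 : W_20 (nat_lit 4) (nat_lit 0x20000a0005000200000001000080000000000000000000000000000000) (nat_lit 0x0) (nat_lit 0x4000d000150000000000000000000000000000000000000000000000000000) := T_20 (nat_lit 228) (nat_lit 246) (nat_lit 7) (nat_lit 7) (nat_lit 10) L24289 (by decide +kernel)
theorem L24748 : W_20 (nat_lit 2) (nat_lit 0x20000a0005000200000001000080000000000000000000000000000000) (nat_lit 0x0) (nat_lit 0x100000000000010000800000000000000000000000000000000000) := D_20 (nat_lit 160) (nat_lit 212) (nat_lit 143) (nat_lit 7) (nat_lit 7) (nat_lit 9) (nat_lit 6) (nat_lit 7) (nat_lit 11) (by decide +kernel)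
theorem L24749 : W_20 (nat_lit 2) (nat_lit 0x30000b000500028000e001000080000000000000000000000000000000) (nat_lit 0x0) (nat_lit 0x400010000800000000000000000000000000000000000) := D_20 (nat_lit 160) (nat_lit 178) (nat_lit 143) (nat_lit 3) (nat_lit 4) (nat_lit 9) (nat_lit 2) (nat_lit 4) (nat_lit 9) (by decide +kernel)
theorem L24750 : W_20 (nat_lit 3) (nat_lit 0x30000b0005000280006001000080000000000000000000000000000000) (nat_lit 0x0) (nat_lit 0x400018000c00000000000000000000000000000000000) := T_20 (nat_lit 159) (nat_lit 142) (nat_lit 6) (nat_lit 5) (nat_lit 12) L24749 (by decide +kernel)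
theorem L24751 : W_20 (nat_lit 4) (nat_lit 0x30000b0005000280004001000080000000000000000000000000000000) (nat_lit 0x0) (nat_lit 0x40001a000d00000000000000000000000000000000000) := T_20 (nat_lit 157) (nat_lit 140) (nat_lit 4) (nat_lit 5) (nat_lit 12) L24750 (by decide +kernel)
theorem L24752 : W_20 (nat_lit 5) (nat_lit 0x30000b0005000200004001000080000000000000000000000000000000) (nat_lit 0x0) (nat_lit 0x20000000000048001a000d00000000000000000000000000000000000) := T_20 (nat_lit 175) (nat_lit 225) (nat_lit 5) (nat_lit 5) (nat_lit 9) L24751 (by decide +kernel)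
theorem L24753 : W_20 (nat_lit 6) (nat_lit 0x30000a0005000200004001000080000000000000000000000000000000) (nat_lit 0x0) (nat_lit 0x20005000000048001a000d00000000000000000000000000000000000) := T_20 (nat_lit 208) (nat_lit 210) (nat_lit 3) (nat_lit 4) (nat_lit 12) L24752 (by decide +kernel)
theorem L24754 : W_20 (nat_lit 7) (nat_lit 0x20000a0005000200004001000080000000000000000000000000000000) (nat_lit 0x0) (nat_lit 0x4000120005000000048001a000d00000000000000000000000000000000000) := T_20 (nat_lit 228) (nat_lit 246) (nat_lit 7) (nat_lit 7) (nat_lit 10) L24753 (by decide +kernel)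
theorem L24755 : W_20 (nat_lit 2) (nat_lit 0x20000a000500022001e001080080000000000000000000000000000000) (nat_lit 0x0) (nat_lit 0x10001000040000000000000000000000000000000000) := D_20 (nat_lit 156) (nat_lit 172) (nat_lit 138) (nat_lit 1) (nat_lit 6) (nat_lit 9) (nat_lit 0) (nat_lit 6) (nat_lit 9) (by decide +kernel)
theorem L24756 : W_20 (nat_lit 3) (nat_lit 0x20000a000500022001e001000080000000000000000000000000000000) (nat_lit 0x0) (nat_lit 0x100010001c0000000000000000000000000000000000) := T_20 (nat_lit 139) (nat_lit 140) (nat_lit 0) (nat_lit 7) (nat_lit 9) L24755 (by decide +kernel)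
theorem L24757 : W_20 (nat_lit 4) (nat_lit 0x20000a000500020001e001000080000000000000000000000000000000) (nat_lit 0x0) (nat_lit 0x700010001c0000000000000000000000000000000000) := T_20 (nat_lit 173) (nat_lit 174) (nat_lit 1) (nat_lit 7) (nat_lit 9) L24756 (by decide +kernel)
theorem L24758 : W_20 (nat_lit 5) (nat_lit 0x20000a000500020001c001000080000000000000000000000000000000) (nat_lit 0x0) (nat_lit 0x4700030001c0000000000000000000000000000000000) := T_20 (nat_lit 157) (nat_lit 178) (nat_lit 3) (nat_lit 4) (nat_lit 9) L24757 (by decide +kernel)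
theorem L24759 : W_20 (nat_lit 6) (nat_lit 0x20000a0005000200014001000080000000000000000000000000000000) (nat_lit 0x0) (nat_lit 0x47000b0005c0000000000000000000000000000000000) := T_20 (nat_lit 159) (nat_lit 142) (nat_lit 4) (nat_lit 7) (nat_lit 12) L24758 (by decide +kernel)
theorem L24760 : W_20 (nat_lit 7) (nat_lit 0x20000a0005000200004001000080000000000000000000000000000000) (nat_lit 0x0) (nat_lit 0x47001b000dc0000000000000000000000000000000000) := T_20 (nat_lit 160) (nat_lit 143) (nat_lit 6) (nat_lit 7) (nat_lit 11) L24759 (by decide +kernel)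
theorem L24761 : W_20 (nat_lit 2) (nat_lit 0x30000b0005000280006001400080000000000000000000000000000000) (nat_lit 0x0) (nat_lit 0xa00020000000000000000000000000000000) := D_20 (nat_lit 141) (nat_lit 125) (nat_lit 143) (nat_lit 6) (nat_lit 5) (nat_lit 11) (nat_lit 1) (nat_lit 8) (nat_lit 8) (by decide +kernel)
theorem L24762 : W_20 (nat_lit 3) (nat_lit 0x30000b0005000280006001000080000000000000000000000000000000) (nat_lit 0x0) (nat_lit 0x8000e00020000000000000000000000000000000) := T_20 (nat_lit 142) (nat_lit 159) (nat_lit 6) (nat_lit 5) (nat_lit 12) L24761 (by decide +kernel)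
theorem L24763 : W_20 (nat_lit 4) (nat_lit 0x30000b0005000280004001000080000000000000000000000000000000) (nat_lit 0x0) (nat_lit 0xa000f00020000000000000000000000000000000) := T_20 (nat_lit 157) (nat_lit 140) (nat_lit 4) (nat_lit 5) (nat_lit 12) L24762 (by decide +kernel)
theorem L24764 : W_20 (nat_lit 5) (nat_lit 0x30000b0005000200004001000080000000000000000000000000000000) (nat_lit 0x0) (nat_lit 0x20000000000008000a000f00020000000000000000000000000000000) := T_20 (nat_lit 175) (nat_lit 225) (nat_lit 5) (nat_lit 5) (nat_lit 9) L24763 (by decide +kernel)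
theorem L24765 : W_20 (nat_lit 6) (nat_lit 0x30000a0005000200004001000080000000000000000000000000000000) (nat_lit 0x0) (nat_lit 0x20005000000008000a000f00020000000000000000000000000000000) := T_20 (nat_lit 208) (nat_lit 210) (nat_lit 3) (nat_lit 4) (nat_lit 12) L24764 (by decide +kernel)
theorem L24766 : W_20 (nat_lit 7) (nat_lit 0x20000a0005000200004001000080000000000000000000000000000000) (nat_lit 0x0) (nat_lit 0x4000120005000000008000a000f00020000000000000000000000000000000) := T_20 (nat_lit 228) (nat_lit 246) (nat_lit 7) (nat_lit 7) (nat_lit 10) L24765 (by decide +kernel)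
theorem L24767 : W_20 (nat_lit 2) (nat_lit 0x30000b000500028001e001000080000000000000000000000000000000) (nat_lit 0x0) (nat_lit 0x400000000000060000000000000000000000000000000000000000000) := D_20 (nat_lit 174) (nat_lit 173) (nat_lit 226) (nat_lit 1) (nat_lit 7) (nat_lit 9) (nat_lit 4) (nat_lit 5) (nat_lit 13) (by decide +kernel)
theorem L24768 : W_20 (nat_lit 3) (nat_lit 0x30000b000500028000e001000080000000000000000000000000000000) (nat_lit 0x0) (nat_lit 0x400000000000460010000000000000000000000000000000000000000) := T_20 (nat_lit 160) (nat_lit 178) (nat_lit 3) (nat_lit 4) (nat_lit 9) L24767 (by decide +kernel)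
theorem L24769 : W_20 (nat_lit 4) (nat_lit 0x30000b0005000280006001000080000000000000000000000000000000) (nat_lit 0x0) (nat_lit 0x400000000000460018000400000000000000000000000000000000000) := T_20 (nat_lit 159) (nat_lit 142) (nat_lit 6) (nat_lit 5) (nat_lit 12) L24768 (by decide +kernel)
theorem L24770 : W_20 (nat_lit 5) (nat_lit 0x30000b0005000280004001000080000000000000000000000000000000) (nat_lit 0x0) (nat_lit 0x40000000000046001a000500000000000000000000000000000000000) := T_20 (nat_lit 157) (nat_lit 140) (nat_lit 4) (nat_lit 5) (nat_lit 12) L24769 (by decide +kernel)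
theorem L24771 : W_20 (nat_lit 6) (nat_lit 0x30000b0005000200004001000080000000000000000000000000000000) (nat_lit 0x0) (nat_lit 0x6000000000004e001a000500000000000000000000000000000000000) := T_20 (nat_lit 175) (nat_lit 225) (nat_lit 5) (nat_lit 5) (nat_lit 9) L24770 (by decide +kernel)
theorem L24772 : W_20 (nat_lit 7) (nat_lit 0x30000a0005000200004001000080000000000000000000000000000000) (nat_lit 0x0) (nat_lit 0x6000500000004e001a000500000000000000000000000000000000000) := T_20 (nat_lit 208) (nat_lit 210) (nat_lit 3) (nat_lit 4) (nat_lit 12) L24771 (by decide +kernel)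
theorem L24773 : W_20 (nat_lit 8) (nat_lit 0x20000a0005000200004001000080000000000000000000000000000000) (nat_lit 0x0) (nat_lit 0x400016000500000004e001a000500000000000000000000000000000000000) := T_20 (nat_lit 228) (nat_lit 246) (nat_lit 7) (nat_lit 7) (nat_lit 10) L24772 (by decide +kernel)
theorem L24774 : W_20 (nat_lit 3) (nat_lit 0x30000b0005000280016001000080000000000000000000000000000000) (nat_lit 0x0) (nat_lit 0x400000000000460008000000000000000000000000000000000000000) := T_20 (nat_lit 159) (nat_lit 178) (nat_lit 3) (nat_lit 4) (nat_lit 9) L24767 (by decide +kernel)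
theorem L24775 : W_20 (nat_lit 4) (nat_lit 0x30000b0005000280006001000080000000000000000000000000000000) (nat_lit 0x0) (nat_lit 0x400000000000460018000800000000000000000000000000000000000) := T_20 (nat_lit 160) (nat_lit 143) (nat_lit 6) (nat_lit 7) (nat_lit 11) L24774 (by decide +kernel)
theorem L24776 : W_20 (nat_lit 5) (nat_lit 0x30000b0005000280004001000080000000000000000000000000000000) (nat_lit 0x0) (nat_lit 0x40000000000046001a000900000000000000000000000000000000000) := T_20 (nat_lit 157) (nat_lit 140) (nat_lit 4) (nat_lit 5) (nat_lit 12) L24775 (by decide +kernel)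
theorem L24777 : W_20 (nat_lit 6) (nat_lit 0x30000b0005000200004001000080000000000000000000000000000000) (nat_lit 0x0) (nat_lit 0x6000000000004e001a000900000000000000000000000000000000000) := T_20 (nat_lit 175) (nat_lit 225) (nat_lit 5) (nat_lit 5) (nat_lit 9) L24776 (by decide +kernel)
theorem L24778 : W_20 (nat_lit 7) (nat_lit 0x30000a0005000200004001000080000000000000000000000000000000) (nat_lit 0x0) (nat_lit 0x6000500000004e001a000900000000000000000000000000000000000) := T_20 (nat_lit 208) (nat_lit 210) (nat_lit 3) (nat_lit 4) (nat_lit 12) L24777 (by decide +kernel)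
theorem L24779 : W_20 (nat_lit 8) (nat_lit 0x20000a0005000200004001000080000000000000000000000000000000) (nat_lit 0x0) (nat_lit 0x400016000500000004e001a000900000000000000000000000000000000000) := T_20 (nat_lit 228) (nat_lit 246) (nat_lit 7) (nat_lit 7) (nat_lit 10) L24778 (by decide +kernel)
theorem L24780 : W_20 (nat_lit 2) (nat_lit 0x30000b000500024001e001000080000000000000000000000000000000) (nat_lit 0x0) (nat_lit 0x600000000000080000000000000000000000000000000000000000000) := D_20 (nat_lit 175) (nat_lit 225) (nat_lit 226) (nat_lit 5) (nat_lit 5) (nat_lit 9) (nat_lit 4) (nat_lit 5) (nat_lit 13) (by decide +kernel)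
theorem L24781 : W_20 (nat_lit 3) (nat_lit 0x30000a000500024001e001000080000000000000000000000000000000) (nat_lit 0x0) (nat_lit 0x600050000000080000000000000000000000000000000000000000000) := T_20 (nat_lit 208) (nat_lit 210) (nat_lit 3) (nat_lit 4) (nat_lit 12) L24780 (by decide +kernel)
theorem L24782 : W_20 (nat_lit 4) (nat_lit 0x20000a000500024001e001000080000000000000000000000000000000) (nat_lit 0x0) (nat_lit 0x40001600050000000080000000000000000000000000000000000000000000) := T_20 (nat_lit 228) (nat_lit 246) (nat_lit 7) (nat_lit 7) (nat_lit 10) L24781 (by decide +kernel)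
theorem L24783 : W_20 (nat_lit 5) (nat_lit 0x20000a000500020001e001000080000000000000000000000000000000) (nat_lit 0x0) (nat_lit 0x400016000500000000e0000000000000000000000000000000000000000000) := T_20 (nat_lit 174) (nat_lit 173) (nat_lit 1) (nat_lit 7) (nat_lit 9) L24782 (by decide +kernel)
theorem L24784 : W_20 (nat_lit 6) (nat_lit 0x20000a000500020001c001000080000000000000000000000000000000) (nat_lit 0x0) (nat_lit 0x400016000500000004e0002000000000000000000000000000000000000000) := T_20 (nat_lit 157) (nat_lit 178) (nat_lit 3) (nat_lit 4) (nat_lit 9) L24783 (by decide +kernel)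
theorem L24785 : W_20 (nat_lit 7) (nat_lit 0x20000a0005000200014001000080000000000000000000000000000000) (nat_lit 0x0) (nat_lit 0x400016000500000004e000a000400000000000000000000000000000000000) := T_20 (nat_lit 159) (nat_lit 142) (nat_lit 4) (nat_lit 7) (nat_lit 12) L24784 (by decide +kernel)
theorem L24786 : W_20 (nat_lit 8) (nat_lit 0x20000a0005000200004001000080000000000000000000000000000000) (nat_lit 0x0) (nat_lit 0x400016000500000004e001a000c00000000000000000000000000000000000) := T_20 (nat_lit 160) (nat_lit 143) (nat_lit 6) (nat_lit 7) (nat_lit 11) L24785 (by decide +kernel)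
theorem L24787 : W_20 (nat_lit 2) (nat_lit 0x30000b00050002c0006001a00098000000000000000000000000000000) (nat_lit 0x0) (nat_lit 0x60001000000000000000000000000000) := D_20 (nat_lit 125) (nat_lit 126) (nat_lit 108) (nat_lit 3) (nat_lit 4) (nat_lit 7) (nat_lit 6) (nat_lit 5) (nat_lit 10) (by decide +kernel)
theorem L24788 : W_20 (nat_lit 3) (nat_lit 0x30000b00050002c0006001a00090000000000000000000000000000000) (nat_lit 0x0) (nat_lit 0x68001400000000000000000000000000) := T_20 (nat_lit 123) (nat_lit 106) (nat_lit 4) (nat_lit 5) (nat_lit 10) L24787 (by decide +kernel)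
theorem L24789 : W_20 (nat_lit 4) (nat_lit 0x30000b00050002c0006001a00080000000000000000000000000000000) (nat_lit 0x0) (nat_lit 0x78001c00000000000000000000000000) := T_20 (nat_lit 124) (nat_lit 107) (nat_lit 5) (nat_lit 5) (nat_lit 6) L24788 (by decide +kernel)
theorem L24790 : W_20 (nat_lit 5) (nat_lit 0x30000b00050002c0006001800080000000000000000000000000000000) (nat_lit 0x0) (nat_lit 0x600078001c00000000000000000000000000) := T_20 (nat_lit 141) (nat_lit 142) (nat_lit 1) (nat_lit 8) (nat_lit 8) L24789 (by decide +kernel)
theorem L24791 : W_20 (nat_lit 6) (nat_lit 0x30000b0005000280006001800080000000000000000000000000000000) (nat_lit 0x0) (nat_lit 0x400000000000040000000600078001c00000000000000000000000000) := T_20 (nat_lit 174) (nat_lit 226) (nat_lit 4) (nat_lit 5) (nat_lit 13) L24790 (by decide +kernel)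
theorem L24792 : W_20 (nat_lit 7) (nat_lit 0x30000b0005000280006001000080000000000000000000000000000000) (nat_lit 0x0) (nat_lit 0x400000000000040010000e00078001c00000000000000000000000000) := T_20 (nat_lit 143) (nat_lit 160) (nat_lit 6) (nat_lit 7) (nat_lit 11) L24791 (by decide +kernel)
theorem L24793 : W_20 (nat_lit 8) (nat_lit 0x30000b0005000280004001000080000000000000000000000000000000) (nat_lit 0x0) (nat_lit 0x400000000000040012000f00078001c00000000000000000000000000) := T_20 (nat_lit 157) (nat_lit 140) (nat_lit 4) (nat_lit 5) (nat_lit 12) L24792 (by decide +kernel)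
theorem L24794 : W_20 (nat_lit 9) (nat_lit 0x30000b0005000200004001000080000000000000000000000000000000) (nat_lit 0x0) (nat_lit 0x6000000000000c0012000f00078001c00000000000000000000000000) := T_20 (nat_lit 175) (nat_lit 225) (nat_lit 5) (nat_lit 5) (nat_lit 9) L24793 (by decide +kernel)
theorem L24795 : W_20 (nat_lit 10) (nat_lit 0x30000a0005000200004001000080000000000000000000000000000000) (nat_lit 0x0) (nat_lit 0x6000500000000c0012000f00078001c00000000000000000000000000) := T_20 (nat_lit 208) (nat_lit 210) (nat_lit 3) (nat_lit 4) (nat_lit 12) L24794 (by decide +kernel)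
theorem L24796 : W_20 (nat_lit 11) (nat_lit 0x20000a0005000200004001000080000000000000000000000000000000) (nat_lit 0x0) (nat_lit 0x400016000500000000c0012000f00078001c00000000000000000000000000) := T_20 (nat_lit 228) (nat_lit 246) (nat_lit 7) (nat_lit 7) (nat_lit 10) L24795 (by decide +kernel)
theorem L24797 : W_20 (nat_lit 2) (nat_lit 0x30000b0005000280004001c00080000000000000000000000000000000) (nat_lit 0x0) (nat_lit 0x200120000000000000000000000000000000) := D_20 (nat_lit 141) (nat_lit 125) (nat_lit 128) (nat_lit 6) (nat_lit 5) (nat_lit 11) (nat_lit 2) (nat_lit 5) (nat_lit 8) (by decide +kernel)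
theorem L24798 : W_20 (nat_lit 3) (nat_lit 0x30000b0005000280004001800080000000000000000000000000000000) (nat_lit 0x0) (nat_lit 0x8000600120000000000000000000000000000000) := T_20 (nat_lit 142) (nat_lit 159) (nat_lit 6) (nat_lit 5) (nat_lit 12) L24797 (by decide +kernel)
theorem L24799 : W_20 (nat_lit 4) (nat_lit 0x30000b0005000200004001800080000000000000000000000000000000) (nat_lit 0x0) (nat_lit 0x200000000000080008000600120000000000000000000000000000000) := T_20 (nat_lit 175) (nat_lit 225) (nat_lit 5) (nat_lit 5) (nat_lit 9) L24798 (by decide +kernel)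
theorem L24800 : W_20 (nat_lit 5) (nat_lit 0x30000a0005000200004001800080000000000000000000000000000000) (nat_lit 0x0) (nat_lit 0x200050000000080008000600120000000000000000000000000000000) := T_20 (nat_lit 208) (nat_lit 210) (nat_lit 3) (nat_lit 4) (nat_lit 12) L24799 (by decide +kernel)
theorem L24801 : W_20 (nat_lit 6) (nat_lit 0x20000a0005000200004001800080000000000000000000000000000000) (nat_lit 0x0) (nat_lit 0x40001200050000000080008000600120000000000000000000000000000000) := T_20 (nat_lit 228) (nat_lit 246) (nat_lit 7) (nat_lit 7) (nat_lit 10) L24800 (by decide +kernel)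
theorem L24802 : W_20 (nat_lit 7) (nat_lit 0x20000a0005000200004001000080000000000000000000000000000000) (nat_lit 0x0) (nat_lit 0x40001200050000000080018000e00120000000000000000000000000000000) := T_20 (nat_lit 143) (nat_lit 160) (nat_lit 6) (nat_lit 7) (nat_lit 11) L24801 (by decide +kernel)
theorem L24803 : W_20 (nat_lit 12) (nat_lit 0x20000a0005000200000001000080000000000000000000000000000000) (nat_lit 0x0) (nat_lit 0x400016000500000004f001f000fc0178001c00000000000000000000000000) := Q_20 (nat_lit 158) (C_20 L24754 (C_20 L24760 (C_20 L24766 (C_20 L24773 (C_20 L24779 (C_20 L24786 (C_20 L24796 (C_20 L24802 N_20)))))))) (by decide +kernel)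
theorem L24804 : W_20 (nat_lit 13) (nat_lit 0xa0005000200000001000080000000000000000000000000000000) (nat_lit 0x0) (nat_lit 0x4000f6001500000004f001f000fc0178001c00000000000000000000000000) := Q_20 (nat_lit 229) (C_20 L24747 (C_20 L24748 (C_20 L24803 N_20))) (by decide +kernel)
theorem L24805 : W_20 (nat_lit 12) (nat_lit 0xa0005000200000001000080000000000000000000000000000000) (nat_lit 0x0) (nat_lit 0x8000c000700150018e004f001f000fc0020000000000000000000000000000000) := Q_20 (nat_lit 210) (C_20 L24179 (C_20 L24642 (C_20 L24610 (C_20 L24175 (C_20 L24166 N_20))))) (by decide +kernel)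
theorem L24808 : W_20 (nat_lit 4) (nat_lit 0xa0005000200018001000080000000000000000000000000000000) (nat_lit 0x0) (nat_lit 0x2000150018800000000000000000000000000000000000000000000000) := T_20 (nat_lit 212) (nat_lit 229) (nat_lit 7) (nat_lit 7) (nat_lit 9) L24807 (by decide +kernel)
theorem L24809 : W_20 (nat_lit 5) (nat_lit 0xa0005000200010001000080000000000000000000000000000000) (nat_lit 0x0) (nat_lit 0x2000150018800000008000400000000000000000000000000000000000) := T_20 (nat_lit 159) (nat_lit 142) (nat_lit 4) (nat_lit 7) (nat_lit 12) L24808 (by decide +kernel)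
theorem L24810 : W_20 (nat_lit 6) (nat_lit 0xa0005000200000001000080000000000000000000000000000000) (nat_lit 0x0) (nat_lit 0x2000150018800000018000c00000000000000000000000000000000000) := T_20 (nat_lit 160) (nat_lit 143) (nat_lit 6) (nat_lit 7) (nat_lit 11) L24809 (by decide +kernel)
theorem L24811 : W_20 (nat_lit 4) (nat_lit 0x1a0005000200000001000080000000000000000000000000000000) (nat_lit 0x0) (nat_lit 0x40006000040018800000000000000000000000000000000000000000000000) := T_20 (nat_lit 210) (nat_lit 191) (nat_lit 0) (nat_lit 8) (nat_lit 12) L24318 (by decide +kernel)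
theorem L24812 : W_20 (nat_lit 2) (nat_lit 0x1a0005000200000001000080000000000000000000000000000000) (nat_lit 0x0) (nat_lit 0x2000000000000000010000800000000000000000000000000000000000) := D_20 (nat_lit 160) (nat_lit 143) (nat_lit 229) (nat_lit 6) (nat_lit 7) (nat_lit 11) (nat_lit 7) (nat_lit 7) (nat_lit 9) (by decide +kernel)
theorem L24813 : W_20 (nat_lit 8) (nat_lit 0x1a0005000200002001000080000000000000000000000000000000) (nat_lit 0x0) (nat_lit 0x6000400188000c000c000f00020000000000000000000000000000000) := T_20 (nat_lit 210) (nat_lit 191) (nat_lit 0) (nat_lit 8) (nat_lit 12) L24626 (by decide +kernel)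
theorem L24816 : W_20 (nat_lit 4) (nat_lit 0x1a000500020001a001000080000000000000000000000000000000) (nat_lit 0x0) (nat_lit 0x800460004000180000000000000000000000000000000000) := T_20 (nat_lit 158) (nat_lit 178) (nat_lit 3) (nat_lit 4) (nat_lit 9) L24815 (by decide +kernel)
theorem L24817 : W_20 (nat_lit 5) (nat_lit 0x1a0005000200012001000080000000000000000000000000000000) (nat_lit 0x0) (nat_lit 0x80046000c000580000000000000000000000000000000000) := T_20 (nat_lit 159) (nat_lit 142) (nat_lit 4) (nat_lit 7) (nat_lit 12) L24816 (by decide +kernel)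
theorem L24818 : W_20 (nat_lit 6) (nat_lit 0x1a0005000200002001000080000000000000000000000000000000) (nat_lit 0x0) (nat_lit 0x80046001c000d80000000000000000000000000000000000) := T_20 (nat_lit 160) (nat_lit 143) (nat_lit 6) (nat_lit 7) (nat_lit 11) L24817 (by decide +kernel)
theorem L24819 : W_20 (nat_lit 2) (nat_lit 0x1a0005800240002001000080000000000000000000000000000000) (nat_lit 0x0) (nat_lit 0x8000400000000000080000000000000000000000000000000000000000000) := D_20 (nat_lit 226) (nat_lit 243) (nat_lit 175) (nat_lit 4) (nat_lit 5) (nat_lit 14) (nat_lit 4) (nat_lit 5) (nat_lit 13) (by decide +kernel)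
theorem L24820 : W_20 (nat_lit 3) (nat_lit 0x1a0005800200002001000080000000000000000000000000000000) (nat_lit 0x0) (nat_lit 0x80004000000000000c0000000100000000000000000000000000000000000) := T_20 (nat_lit 174) (nat_lit 140) (nat_lit 7) (nat_lit 4) (nat_lit 8) L24819 (by decide +kernel)
theorem L24821 : W_20 (nat_lit 4) (nat_lit 0x1a0005000200002001000080000000000000000000000000000000) (nat_lit 0x0) (nat_lit 0x80004000400008000c0000000100000000000000000000000000000000000) := T_20 (nat_lit 191) (nat_lit 210) (nat_lit 0) (nat_lit 8) (nat_lit 12) L24820 (by decide +kernel)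
theorem L24823 : W_20 (nat_lit 3) (nat_lit 0x1a000500020001a001000080000000000000000000000000000000) (nat_lit 0x0) (nat_lit 0x480004000180000000000000000000000000000000000) := T_20 (nat_lit 158) (nat_lit 178) (nat_lit 3) (nat_lit 4) (nat_lit 9) L24822 (by decide +kernel)
theorem L24824 : W_20 (nat_lit 4) (nat_lit 0x1a0005000200012001000080000000000000000000000000000000) (nat_lit 0x0) (nat_lit 0x48000c000580000000000000000000000000000000000) := T_20 (nat_lit 159) (nat_lit 142) (nat_lit 4) (nat_lit 7) (nat_lit 12) L24823 (by decide +kernel)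
theorem L24825 : W_20 (nat_lit 5) (nat_lit 0x1a0005000200002001000080000000000000000000000000000000) (nat_lit 0x0) (nat_lit 0x48001c000d80000000000000000000000000000000000) := T_20 (nat_lit 160) (nat_lit 143) (nat_lit 6) (nat_lit 7) (nat_lit 11) L24824 (by decide +kernel)
theorem L24826 : W_20 (nat_lit 3) (nat_lit 0x1a000500024001e001000080000000000000000000000000000000) (nat_lit 0x0) (nat_lit 0x600040000800080000000000000000000000000000000000000000000) := T_20 (nat_lit 210) (nat_lit 191) (nat_lit 0) (nat_lit 8) (nat_lit 12) L24636 (by decide +kernel)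
theorem L24827 : W_20 (nat_lit 4) (nat_lit 0x1a000500020001e001000080000000000000000000000000000000) (nat_lit 0x0) (nat_lit 0x6000400008000e0000000000000000000000000000000000000000000) := T_20 (nat_lit 174) (nat_lit 173) (nat_lit 1) (nat_lit 7) (nat_lit 9) L24826 (by decide +kernel)
theorem L24828 : W_20 (nat_lit 5) (nat_lit 0x1a000500020001a001000080000000000000000000000000000000) (nat_lit 0x0) (nat_lit 0x6000400008004e0004000000000000000000000000000000000000000) := T_20 (nat_lit 158) (nat_lit 178) (nat_lit 3) (nat_lit 4) (nat_lit 9) L24827 (by decide +kernel)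
theorem L24829 : W_20 (nat_lit 6) (nat_lit 0x1a0005000200012001000080000000000000000000000000000000) (nat_lit 0x0) (nat_lit 0x6000400008004e000c000400000000000000000000000000000000000) := T_20 (nat_lit 159) (nat_lit 142) (nat_lit 4) (nat_lit 7) (nat_lit 12) L24828 (by decide +kernel)
theorem L24830 : W_20 (nat_lit 7) (nat_lit 0x1a0005000200002001000080000000000000000000000000000000) (nat_lit 0x0) (nat_lit 0x6000400008004e001c000c00000000000000000000000000000000000) := T_20 (nat_lit 160) (nat_lit 143) (nat_lit 6) (nat_lit 7) (nat_lit 11) L24829 (by decide +kernel)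
theorem L24831 : W_20 (nat_lit 9) (nat_lit 0x1a0005000200000001000080000000000000000000000000000000) (nat_lit 0x0) (nat_lit 0x80006000400188004e001e000f80020000000000000000000000000000000) := Q_20 (nat_lit 157) (C_20 L24813 (C_20 L24818 (C_20 L24821 (C_20 L24825 (C_20 L24830 N_20))))) (by decide +kernel)
theorem L24832 : W_20 (nat_lit 10) (nat_lit 0xa0005000200000001000080000000000000000000000000000000) (nat_lit 0x0) (nat_lit 0x480066001400188004e001e000f80020000000000000000000000000000000) := Q_20 (nat_lit 212) (C_20 L24811 (C_20 L24812 (C_20 L24831 N_20))) (by decide +kernel)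
theorem L24833 : W_20 (nat_lit 15) (nat_lit 0x80005000200000001000080000000000000000000000000000000) (nat_lit 0x0) (nat_lit 0xbc007e00f78017e018e004f001f000fc017c001c00000000000000000000000000) := Q_20 (nat_lit 209) (C_20 L24649 (C_20 L24189 (C_20 L24746 (C_20 L24535 (C_20 L24804 (C_20 L24805 (C_20 L24810 (C_20 L24832 N_20)))))))) (by decide +kernel)
theorem L24834 : W_20 (nat_lit 16) (nat_lit 0x5000200000001000080000000000000000000000000000000) (nat_lit 0x0) (nat_lit 0x15000fc01ff01ff807fe078e01cf001f000fc017c001c00000000000000000000000000) := Q_20 (nat_lit 211) (C_20 L24337 (C_20 L24341 (C_20 L24346 (C_20 L24365 (C_20 L24423 (C_20 L24599 (C_20 L24645 (C_20 L24833 N_20)))))))) (by decide +kernel)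
theorem L24838 : W_20 (nat_lit 6) (nat_lit 0x7000200000001000080000000000000000000000000000000) (nat_lit 0x0) (nat_lit 0x500028007f00180000c0014000800000000000000000000000000000000000) := Q_20 (nat_lit 195) (C_20 L23994 (C_20 L24837 (C_20 L18989 N_20))) (by decide +kernel)
theorem L24840 : W_20 (nat_lit 2) (nat_lit 0x80007c00200000001000080000000000000000000000000000000) (nat_lit 0x0) (nat_lit 0x70000000000000000000000000000000000000000000) := D_20 (nat_lit 173) (nat_lit 174) (nat_lit 172) (nat_lit 0) (nat_lit 7) (nat_lit 11) (nat_lit 0) (nat_lit 6) (nat_lit 11) (by decide +kernel)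
theorem L24841 : W_20 (nat_lit 3) (nat_lit 0x80007800200000001000080000000000000000000000000000000) (nat_lit 0x0) (nat_lit 0x40000400070000000000000000000000000000000000000000000) := T_20 (nat_lit 190) (nat_lit 210) (nat_lit 3) (nat_lit 3) (nat_lit 11) L24840 (by decide +kernel)
theorem L24842 : W_20 (nat_lit 4) (nat_lit 0x7800200000001000080000000000000000000000000000000) (nat_lit 0x0) (nat_lit 0x1c0000400070000000000000000000000000000000000000000000) := T_20 (nat_lit 211) (nat_lit 212) (nat_lit 3) (nat_lit 4) (nat_lit 11) L24841 (by decide +kernel)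
theorem L24846 : W_20 (nat_lit 2) (nat_lit 0x3c00090007800240018001000080000000000000000000000000000000) (nat_lit 0x0) (nat_lit 0xc000200000000000000000000000000000000000000000000000000000000) := D_20 (nat_lit 243) (nat_lit 242) (nat_lit 225) (nat_lit 1) (nat_lit 8) (nat_lit 13) (nat_lit 7) (nat_lit 4) (nat_lit 10) (by decide +kernel)
theorem L24847 : W_20 (nat_lit 3) (nat_lit 0x3800090007800240018001000080000000000000000000000000000000) (nat_lit 0x0) (nat_lit 0xc000600020000000000000000000000000000000000000000000000000000) := T_20 (nat_lit 226) (nat_lit 209) (nat_lit 0) (nat_lit 8) (nat_lit 13) L24846 (by decide +kernel)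
theorem L24848 : W_20 (nat_lit 4) (nat_lit 0x1800090007800240018001000080000000000000000000000000000000) (nat_lit 0x0) (nat_lit 0x4c002600020000000000000000000000000000000000000000000000000000) := T_20 (nat_lit 229) (nat_lit 246) (nat_lit 7) (nat_lit 7) (nat_lit 10) L24847 (by decide +kernel)
theorem L24849 : W_20 (nat_lit 5) (nat_lit 0x1800080007800240018001000080000000000000000000000000000000) (nat_lit 0x0) (nat_lit 0x4c002600038000000000000000000000000000000000000000000000000000) := T_20 (nat_lit 208) (nat_lit 207) (nat_lit 1) (nat_lit 7) (nat_lit 11) L24848 (by decide +kernel)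
theorem L24850 : W_20 (nat_lit 6) (nat_lit 0x800080007800240018001000080000000000000000000000000000000) (nat_lit 0x0) (nat_lit 0x5c003600038000000000000000000000000000000000000000000000000000) := T_20 (nat_lit 228) (nat_lit 244) (nat_lit 5) (nat_lit 7) (nat_lit 10) L24849 (by decide +kernel)
theorem L24851 : W_20 (nat_lit 7) (nat_lit 0x800080007800240010001000080000000000000000000000000000000) (nat_lit 0x0) (nat_lit 0x5c003600038000000000008000400000000000000000000000000000000000) := T_20 (nat_lit 159) (nat_lit 142) (nat_lit 4) (nat_lit 7) (nat_lit 12) L24850 (by decide +kernel)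
theorem L24852 : W_20 (nat_lit 8) (nat_lit 0x80007800240010001000080000000000000000000000000000000) (nat_lit 0x0) (nat_lit 0x5c003e00078000000000008000400000000000000000000000000000000000) := T_20 (nat_lit 227) (nat_lit 210) (nat_lit 5) (nat_lit 7) (nat_lit 9) L24851 (by decide +kernel)
theorem L24853 : W_20 (nat_lit 9) (nat_lit 0x80007800240000001000080000000000000000000000000000000) (nat_lit 0x0) (nat_lit 0x5c003e00078000000000018000c00000000000000000000000000000000000) := T_20 (nat_lit 160) (nat_lit 143) (nat_lit 6) (nat_lit 7) (nat_lit 11) L24852 (by decide +kernel)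
theorem L24854 : W_20 (nat_lit 10) (nat_lit 0x80007800200000001000080000000000000000000000000000000) (nat_lit 0x0) (nat_lit 0x5c003e00078000000060018000c00000000000000000000000000000000000) := T_20 (nat_lit 174) (nat_lit 173) (nat_lit 0) (nat_lit 7) (nat_lit 11) L24853 (by decide +kernel)
theorem L24855 : W_20 (nat_lit 11) (nat_lit 0x7800200000001000080000000000000000000000000000000) (nat_lit 0x0) (nat_lit 0x5c003e001f8000000060018000c00000000000000000000000000000000000) := T_20 (nat_lit 211) (nat_lit 212) (nat_lit 3) (nat_lit 4) (nat_lit 11) L24854 (by decide +kernel)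
theorem L24856 : W_20 (nat_lit 12) (nat_lit 0x7000200000001000080000000000000000000000000000000) (nat_lit 0x0) (nat_lit 0x5c003e001fc000c00070018000c00000000000000000000000000000000000) := Q_20 (nat_lit 191) (C_20 L10033 (C_20 L24839 (C_20 L24842 (C_20 L24845 (C_20 L24855 N_20))))) (by decide +kernel)
theorem L24858 : W_20 (nat_lit 3) (nat_lit 0x100007800200010001000080000000000000000000000000000000) (nat_lit 0x0) (nat_lit 0x2000080000e0000000000000000000000000000000000000000000) := T_20 (nat_lit 195) (nat_lit 213) (nat_lit 3) (nat_lit 5) (nat_lit 11) L24857 (by decide +kernel)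
theorem L24859 : W_20 (nat_lit 4) (nat_lit 0x100007800200000001000080000000000000000000000000000000) (nat_lit 0x0) (nat_lit 0x2000080000e0010000800000000000000000000000000000000000) := T_20 (nat_lit 160) (nat_lit 143) (nat_lit 6) (nat_lit 7) (nat_lit 11) L24858 (by decide +kernel)
theorem L24860 : W_20 (nat_lit 5) (nat_lit 0x7800200000001000080000000000000000000000000000000) (nat_lit 0x0) (nat_lit 0x3800080000e0010000800000000000000000000000000000000000) := T_20 (nat_lit 212) (nat_lit 211) (nat_lit 3) (nat_lit 4) (nat_lit 11) L24859 (by decide +kernel)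
theorem L24861 : W_20 (nat_lit 2) (nat_lit 0x10000f800200010001000080000000000000000000000000000000) (nat_lit 0x0) (nat_lit 0x38000000000000000000000000000000000000000000000000000) := D_20 (nat_lit 208) (nat_lit 209) (nat_lit 207) (nat_lit 1) (nat_lit 8) (nat_lit 11) (nat_lit 1) (nat_lit 7) (nat_lit 11) (by decide +kernel)
theorem L24862 : W_20 (nat_lit 3) (nat_lit 0x100007800200010001000080000000000000000000000000000000) (nat_lit 0x0) (nat_lit 0x238008000000000000000000000000000000000000000000000000) := T_20 (nat_lit 195) (nat_lit 213) (nat_lit 3) (nat_lit 5) (nat_lit 11) L24861 (by decide +kernel)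
theorem L24863 : W_20 (nat_lit 4) (nat_lit 0x100007800200000001000080000000000000000000000000000000) (nat_lit 0x0) (nat_lit 0x238008000000010000800000000000000000000000000000000000) := T_20 (nat_lit 160) (nat_lit 143) (nat_lit 6) (nat_lit 7) (nat_lit 11) L24862 (by decide +kernel)
theorem L24864 : W_20 (nat_lit 5) (nat_lit 0x7800200000001000080000000000000000000000000000000) (nat_lit 0x0) (nat_lit 0x3b8008000000010000800000000000000000000000000000000000) := T_20 (nat_lit 212) (nat_lit 211) (nat_lit 3) (nat_lit 4) (nat_lit 11) L24863 (by decide +kernel)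
theorem L24865 : W_20 (nat_lit 6) (nat_lit 0x7000200000001000080000000000000000000000000000000) (nat_lit 0x0) (nat_lit 0x3bc008c000f0010000800000000000000000000000000000000000) := Q_20 (nat_lit 191) (C_20 L24839 (C_20 L23867 (C_20 L24860 (C_20 L24864 N_20)))) (by decide +kernel)
theorem L24866 : W_20 (nat_lit 2) (nat_lit 0x40007000200010001000080000000000000000000000000000000) (nat_lit 0x0) (nat_lit 0x10000800080000000000000000000000000000000000000000000000000000) := D_20 (nat_lit 227) (nat_lit 211) (nat_lit 244) (nat_lit 5) (nat_lit 7) (nat_lit 9) (nat_lit 6) (nat_lit 6) (nat_lit 14) (by decide +kernel)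
theorem L24867 : W_20 (nat_lit 3) (nat_lit 0x40007000200000001000080000000000000000000000000000000) (nat_lit 0x0) (nat_lit 0x10000800080000000000010000800000000000000000000000000000000000) := T_20 (nat_lit 160) (nat_lit 143) (nat_lit 6) (nat_lit 7) (nat_lit 11) L24866 (by decide +kernel)
theorem L24868 : W_20 (nat_lit 2) (nat_lit 0x60007800200000001000080000000000000000000000000000000) (nat_lit 0x0) (nat_lit 0x80000600000000000000000000000000000000000000000000000) := D_20 (nat_lit 190) (nat_lit 189) (nat_lit 211) (nat_lit 3) (nat_lit 2) (nat_lit 11) (nat_lit 3) (nat_lit 3) (nat_lit 11) (by decide +kernel)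
theorem L24871 : W_20 (nat_lit 2) (nat_lit 0x400068007800240010001000080000000000000000000000000000000) (nat_lit 0x0) (nat_lit 0x80002000100000000000000000000000000000000000) := D_20 (nat_lit 157) (nat_lit 140) (nat_lit 175) (nat_lit 7) (nat_lit 4) (nat_lit 8) (nat_lit 4) (nat_lit 5) (nat_lit 13) (by decide +kernel)
theorem L24872 : W_20 (nat_lit 3) (nat_lit 0x68007800240010001000080000000000000000000000000000000) (nat_lit 0x0) (nat_lit 0x8000400000000000080002000100000000000000000000000000000000000) := T_20 (nat_lit 226) (nat_lit 243) (nat_lit 4) (nat_lit 5) (nat_lit 14) L24871 (by decide +kernel)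
theorem L24873 : W_20 (nat_lit 4) (nat_lit 0x68007800240000001000080000000000000000000000000000000) (nat_lit 0x0) (nat_lit 0x8000400000000000080012000900000000000000000000000000000000000) := T_20 (nat_lit 160) (nat_lit 143) (nat_lit 6) (nat_lit 7) (nat_lit 11) L24872 (by decide +kernel)
theorem L24874 : W_20 (nat_lit 5) (nat_lit 0x68007800200000001000080000000000000000000000000000000) (nat_lit 0x0) (nat_lit 0x80004000000000000e0012000900000000000000000000000000000000000) := T_20 (nat_lit 174) (nat_lit 173) (nat_lit 0) (nat_lit 7) (nat_lit 11) L24873 (by decide +kernel)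
theorem L24875 : W_20 (nat_lit 6) (nat_lit 0x60007800200000001000080000000000000000000000000000000) (nat_lit 0x0) (nat_lit 0x80004000180000000e0012000900000000000000000000000000000000000) := T_20 (nat_lit 207) (nat_lit 208) (nat_lit 2) (nat_lit 3) (nat_lit 12) L24874 (by decide +kernel)
theorem L24876 : W_20 (nat_lit 7) (nat_lit 0x60007000200000001000080000000000000000000000000000000) (nat_lit 0x0) (nat_lit 0x800040009c000e000e0012000900000000000000000000000000000000000) := Q_20 (nat_lit 191) (C_20 L24868 (C_20 L24870 (C_20 L24875 N_20))) (by decide +kernel)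
theorem L24882 : W_20 (nat_lit 8) (nat_lit 0x40007000200000001000080000000000000000000000000000000) (nat_lit 0x0) (nat_lit 0x80004000bc018e000e0012000900000000000000000000000000000000000) := Q_20 (nat_lit 209) (C_20 L10125 (C_20 L24876 (C_20 L24881 N_20))) (by decide +kernel)
theorem L24883 : W_20 (nat_lit 2) (nat_lit 0xc000400068007000280000001000080000000000000000000000000000000) (nat_lit 0x0) (nat_lit 0x800040002000000000000000000000000000000000000000) := D_20 (nat_lit 174) (nat_lit 157) (nat_lit 191) (nat_lit 4) (nat_lit 5) (nat_lit 13) (nat_lit 4) (nat_lit 5) (nat_lit 14) (by decide +kernel)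
theorem L24884 : W_20 (nat_lit 3) (nat_lit 0xc000400068007000200000001000080000000000000000000000000000000) (nat_lit 0x0) (nat_lit 0x2000000008000c0002000000000000000000000000000000000000000) := T_20 (nat_lit 175) (nat_lit 225) (nat_lit 5) (nat_lit 5) (nat_lit 10) L24883 (by decide +kernel)
theorem L24885 : W_20 (nat_lit 4) (nat_lit 0x8000400068007000200000001000080000000000000000000000000000000) (nat_lit 0x0) (nat_lit 0x800040002000000008000c0002000000000000000000000000000000000000000) := T_20 (nat_lit 242) (nat_lit 259) (nat_lit 5) (nat_lit 5) (nat_lit 11) L24884 (by decide +kernel)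
theorem L24886 : W_20 (nat_lit 5) (nat_lit 0x400068007000200000001000080000000000000000000000000000000) (nat_lit 0x0) (nat_lit 0x18000c0002000000008000c0002000000000000000000000000000000000000000) := T_20 (nat_lit 243) (nat_lit 260) (nat_lit 6) (nat_lit 5) (nat_lit 15) L24885 (by decide +kernel)
theorem L24887 : W_20 (nat_lit 6) (nat_lit 0x400060007000200000001000080000000000000000000000000000000) (nat_lit 0x0) (nat_lit 0x18000c0002000180008000c0002000000000000000000000000000000000000000) := T_20 (nat_lit 207) (nat_lit 208) (nat_lit 2) (nat_lit 3) (nat_lit 12) L24886 (by decide +kernel)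
theorem L24888 : W_20 (nat_lit 2) (nat_lit 0x8000400060007000200000001000080000000000000000000000000000000) (nat_lit 0x0) (nat_lit 0x200010000800000000000000000000000000000000000000000000000000000000) := D_20 (nat_lit 244) (nat_lit 227) (nat_lit 261) (nat_lit 6) (nat_lit 6) (nat_lit 14) (nat_lit 7) (nat_lit 5) (nat_lit 11) (by decide +kernel)
theorem L24889 : W_20 (nat_lit 3) (nat_lit 0x400060007000200000001000080000000000000000000000000000000) (nat_lit 0x0) (nat_lit 0x300018000800000000000000000000000000000000000000000000000000000000) := T_20 (nat_lit 243) (nat_lit 260) (nat_lit 6) (nat_lit 5) (nat_lit 15) L24888 (by decide +kernel)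
theorem L24890 : W_20 (nat_lit 2) (nat_lit 0xe00068007000280000001000080000000000000000000000000000000) (nat_lit 0x0) (nat_lit 0x100084000000000000000000000000000000000000000000000000000) := D_20 (nat_lit 224) (nat_lit 211) (nat_lit 206) (nat_lit 2) (nat_lit 3) (nat_lit 13) (nat_lit 0) (nat_lit 6) (nat_lit 13) (by decide +kernel)
theorem L24891 : W_20 (nat_lit 3) (nat_lit 0xc00068007000280000001000080000000000000000000000000000000) (nat_lit 0x0) (nat_lit 0x4000300084000000000000000000000000000000000000000000000000000) := T_20 (nat_lit 225) (nat_lit 242) (nat_lit 5) (nat_lit 5) (nat_lit 10) L24890 (by decide +kernel)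
theorem L24892 : W_20 (nat_lit 4) (nat_lit 0xc00068007000200000001000080000000000000000000000000000000) (nat_lit 0x0) (nat_lit 0x4000300084000000080004000000000000000000000000000000000000000) := T_20 (nat_lit 175) (nat_lit 158) (nat_lit 7) (nat_lit 5) (nat_lit 9) L24891 (by decide +kernel)
theorem L24893 : W_20 (nat_lit 5) (nat_lit 0xc00060007000200000001000080000000000000000000000000000000) (nat_lit 0x0) (nat_lit 0x400030009c000000080004000000000000000000000000000000000000000) := T_20 (nat_lit 207) (nat_lit 208) (nat_lit 2) (nat_lit 3) (nat_lit 12) L24892 (by decide +kernel)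
theorem L24894 : W_20 (nat_lit 6) (nat_lit 0x400060007000200000001000080000000000000000000000000000000) (nat_lit 0x0) (nat_lit 0x14000b0009c000000080004000000000000000000000000000000000000000) := T_20 (nat_lit 227) (nat_lit 244) (nat_lit 6) (nat_lit 6) (nat_lit 14) L24893 (by decide +kernel)
theorem L24895 : W_20 (nat_lit 7) (nat_lit 0x60007000200000001000080000000000000000000000000000000) (nat_lit 0x0) (nat_lit 0x38001c000f0009c0008000c0006000000000000000000000000000000000000000) := Q_20 (nat_lit 226) (C_20 L24887 (C_20 L24889 (C_20 L24894 N_20))) (by decide +kernel)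
theorem L24896 : W_20 (nat_lit 2) (nat_lit 0x1000000006000f800240000001000080000000000000000000000000000000) (nat_lit 0x0) (nat_lit 0x80000600000000000000000000000000000000000000000000000) := D_20 (nat_lit 190) (nat_lit 189) (nat_lit 211) (nat_lit 3) (nat_lit 2) (nat_lit 11) (nat_lit 3) (nat_lit 3) (nat_lit 11) (by decide +kernel)
theorem L24897 : W_20 (nat_lit 3) (nat_lit 0x1000000006000f000240000001000080000000000000000000000000000000) (nat_lit 0x0) (nat_lit 0x80000e00020000000000000000000000000000000000000000000) := T_20 (nat_lit 191) (nat_lit 173) (nat_lit 0) (nat_lit 7) (nat_lit 11) L24896 (by decide +kernel)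
theorem L24898 : W_20 (nat_lit 4) (nat_lit 0x1000000006000f000200000001000080000000000000000000000000000000) (nat_lit 0x0) (nat_lit 0x80000e000e0000000000000000000000000000000000000000000) := T_20 (nat_lit 174) (nat_lit 175) (nat_lit 0) (nat_lit 8) (nat_lit 11) L24897 (by decide +kernel)
theorem L24899 : W_20 (nat_lit 5) (nat_lit 0x10000000060007000200000001000080000000000000000000000000000000) (nat_lit 0x0) (nat_lit 0x80018e000e0000000000000000000000000000000000000000000) := T_20 (nat_lit 195) (nat_lit 196) (nat_lit 1) (nat_lit 9) (nat_lit 11) L24898 (by decide +kernel)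
theorem L24900 : W_20 (nat_lit 6) (nat_lit 0x60007000200000001000080000000000000000000000000000000) (nat_lit 0x0) (nat_lit 0x10000800080018e000e0000000000000000000000000000000000000000000) := T_20 (nat_lit 244) (nat_lit 227) (nat_lit 6) (nat_lit 6) (nat_lit 14) L24899 (by decide +kernel)
theorem L24901 : W_20 (nat_lit 8) (nat_lit 0x40007000200000001000080000000000000000000000000000000) (nat_lit 0x0) (nat_lit 0x38001c000f000bc018e000e0006000000000000000000000000000000000000000) := Q_20 (nat_lit 209) (C_20 L10125 (C_20 L24895 (C_20 L24900 N_20))) (by decide +kernel)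
theorem L24902 : W_20 (nat_lit 2) (nat_lit 0xc000680070002c0000001800080000000000000000000000000000000) (nat_lit 0x0) (nat_lit 0x800030000000000000000000000000000000000000000000) := D_20 (nat_lit 173) (nat_lit 172) (nat_lit 191) (nat_lit 3) (nat_lit 2) (nat_lit 10) (nat_lit 0) (nat_lit 7) (nat_lit 11) (by decide +kernel)
theorem L24903 : W_20 (nat_lit 3) (nat_lit 0xc00068007000280000001800080000000000000000000000000000000) (nat_lit 0x0) (nat_lit 0x800070002000000000000000000000000000000000000000) := T_20 (nat_lit 174) (nat_lit 157) (nat_lit 4) (nat_lit 5) (nat_lit 13) L24902 (by decide +kernel)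
theorem L24904 : W_20 (nat_lit 4) (nat_lit 0xc00068007000280000001000080000000000000000000000000000000) (nat_lit 0x0) (nat_lit 0x800070012000800000000000000000000000000000000000) := T_20 (nat_lit 143) (nat_lit 160) (nat_lit 6) (nat_lit 7) (nat_lit 11) L24903 (by decide +kernel)
theorem L24905 : W_20 (nat_lit 5) (nat_lit 0xc00068007000200000001000080000000000000000000000000000000) (nat_lit 0x0) (nat_lit 0x8000f0016000800000000000000000000000000000000000) := T_20 (nat_lit 175) (nat_lit 158) (nat_lit 7) (nat_lit 5) (nat_lit 9) L24904 (by decide +kernel)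
theorem L24906 : W_20 (nat_lit 6) (nat_lit 0xc00060007000200000001000080000000000000000000000000000000) (nat_lit 0x0) (nat_lit 0x180008000f0016000800000000000000000000000000000000000) := T_20 (nat_lit 207) (nat_lit 208) (nat_lit 2) (nat_lit 3) (nat_lit 12) L24905 (by decide +kernel)
theorem L24907 : W_20 (nat_lit 7) (nat_lit 0x400060007000200000001000080000000000000000000000000000000) (nat_lit 0x0) (nat_lit 0x100008000180008000f0016000800000000000000000000000000000000000) := T_20 (nat_lit 227) (nat_lit 244) (nat_lit 6) (nat_lit 6) (nat_lit 14) L24906 (by decide +kernel)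
theorem L24908 : W_20 (nat_lit 8) (nat_lit 0x60007000200000001000080000000000000000000000000000000) (nat_lit 0x0) (nat_lit 0x38001c000e000180008000f0016000800000000000000000000000000000000000) := Q_20 (nat_lit 226) (C_20 L24887 (C_20 L24889 (C_20 L24907 N_20))) (by decide +kernel)
theorem L24909 : W_20 (nat_lit 2) (nat_lit 0x80006000f000200010001000080000000000000000000000000000000) (nat_lit 0x0) (nat_lit 0xc0004000000000000000000000000000000000000000) := D_20 (nat_lit 175) (nat_lit 158) (nat_lit 174) (nat_lit 7) (nat_lit 5) (nat_lit 9) (nat_lit 0) (nat_lit 8) (nat_lit 11) (by decide +kernel)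
theorem L24910 : W_20 (nat_lit 3) (nat_lit 0x800060007000200010001000080000000000000000000000000000000) (nat_lit 0x0) (nat_lit 0x180000c0004000000000000000000000000000000000000000) := T_20 (nat_lit 195) (nat_lit 196) (nat_lit 1) (nat_lit 9) (nat_lit 11) L24909 (by decide +kernel)
theorem L24911 : W_20 (nat_lit 4) (nat_lit 0x60007000200010001000080000000000000000000000000000000) (nat_lit 0x0) (nat_lit 0x100008000000180000c0004000000000000000000000000000000000000000) := T_20 (nat_lit 227) (nat_lit 244) (nat_lit 6) (nat_lit 6) (nat_lit 14) L24910 (by decide +kernel)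
theorem L24912 : W_20 (nat_lit 5) (nat_lit 0x60007000200000001000080000000000000000000000000000000) (nat_lit 0x0) (nat_lit 0x100008000000180000c0014000800000000000000000000000000000000000) := T_20 (nat_lit 160) (nat_lit 143) (nat_lit 6) (nat_lit 7) (nat_lit 11) L24911 (by decide +kernel)
theorem L24913 : W_20 (nat_lit 9) (nat_lit 0x40007000200000001000080000000000000000000000000000000) (nat_lit 0x0) (nat_lit 0x38001c000e000380188000f0016000800000000000000000000000000000000000) := Q_20 (nat_lit 209) (C_20 L24908 (C_20 L10125 (C_20 L24912 N_20))) (by decide +kernel)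
theorem L24914 : W_20 (nat_lit 10) (nat_lit 0x7000200000001000080000000000000000000000000000000) (nat_lit 0x0) (nat_lit 0x38001c000f000fc018e000f0016000900000000000000000000000000000000000) := Q_20 (nat_lit 210) (C_20 L24867 (C_20 L24882 (C_20 L24901 (C_20 L24913 N_20)))) (by decide +kernel)
theorem L24915 : W_20 (nat_lit 6) (nat_lit 0x7000200000001000080000000000000000000000000000000) (nat_lit 0x0) (nat_lit 0x8003dc008c000f0010000800000000000000000000000000000000000) := Q_20 (nat_lit 191) (C_20 L24860 (C_20 L24842 (C_20 L24839 (C_20 L24845 N_20)))) (by decide +kernel)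
theorem L24916 : W_20 (nat_lit 2) (nat_lit 0xc0007000200000001000080000000000000000000000000000000) (nat_lit 0x0) (nat_lit 0x100000c00000000000000000000000000000000000000000000000) := D_20 (nat_lit 191) (nat_lit 190) (nat_lit 212) (nat_lit 3) (nat_lit 3) (nat_lit 11) (nat_lit 3) (nat_lit 4) (nat_lit 11) (by decide +kernel)
theorem L24920 : W_20 (nat_lit 5) (nat_lit 0xc0007800200000001000080000000000000000000000000000000) (nat_lit 0x0) (nat_lit 0x200380000e0010000800000000000000000000000000000000000) := T_20 (nat_lit 143) (nat_lit 160) (nat_lit 6) (nat_lit 7) (nat_lit 11) L24919 (by decide +kernel)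
theorem L24921 : W_20 (nat_lit 6) (nat_lit 0xc0007000200000001000080000000000000000000000000000000) (nat_lit 0x0) (nat_lit 0x20038c000e0010000800000000000000000000000000000000000) := T_20 (nat_lit 191) (nat_lit 190) (nat_lit 3) (nat_lit 3) (nat_lit 11) L24920 (by decide +kernel)
theorem L24923 : W_20 (nat_lit 7) (nat_lit 0x40007000200000001000080000000000000000000000000000000) (nat_lit 0x0) (nat_lit 0x20003a0038c000e0010000800000000000000000000000000000000000) := Q_20 (nat_lit 211) (C_20 L24916 (C_20 L24921 (C_20 L24922 N_20))) (by decide +kernel)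
theorem L24924 : W_20 (nat_lit 6) (nat_lit 0xc0007000200000001000080000000000000000000000000000000) (nat_lit 0x0) (nat_lit 0x10000800020038c000e0000000000000000000000000000000000000000000) := T_20 (nat_lit 191) (nat_lit 190) (nat_lit 3) (nat_lit 3) (nat_lit 11) L10505 (by decide +kernel)
theorem L24925 : W_20 (nat_lit 2) (nat_lit 0x70000c0007000200000001000080000000000000000000000000000000) (nat_lit 0x0) (nat_lit 0x320000000000000000000000000000000000000000000000000000) := D_20 (nat_lit 212) (nat_lit 213) (nat_lit 209) (nat_lit 0) (nat_lit 9) (nat_lit 12) (nat_lit 3) (nat_lit 5) (nat_lit 12) (by decide +kernel)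
theorem L24926 : W_20 (nat_lit 3) (nat_lit 0x30000c0007000200000001000080000000000000000000000000000000) (nat_lit 0x0) (nat_lit 0xc000320000000000000000000000000000000000000000000000000000) := T_20 (nat_lit 230) (nat_lit 231) (nat_lit 0) (nat_lit 10) (nat_lit 13) L24925 (by decide +kernel)
theorem L24927 : W_20 (nat_lit 4) (nat_lit 0x10000c0007000200000001000080000000000000000000000000000000) (nat_lit 0x0) (nat_lit 0x4000e000320000000000000000000000000000000000000000000000000000) := T_20 (nat_lit 229) (nat_lit 246) (nat_lit 7) (nat_lit 7) (nat_lit 10) L24926 (by decide +kernel)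
theorem L24928 : W_20 (nat_lit 2) (nat_lit 0x200010000c0007000200000001000080000000000000000000000000000000) (nat_lit 0x0) (nat_lit 0x200010000800000000000000000000000000000000000000000000000000000000) := D_20 (nat_lit 244) (nat_lit 227) (nat_lit 261) (nat_lit 6) (nat_lit 6) (nat_lit 14) (nat_lit 5) (nat_lit 7) (nat_lit 11) (by decide +kernel)
theorem L24929 : W_20 (nat_lit 3) (nat_lit 0x10000c0007000200000001000080000000000000000000000000000000) (nat_lit 0x0) (nat_lit 0x600030000800000000000000000000000000000000000000000000000000000000) := T_20 (nat_lit 245) (nat_lit 262) (nat_lit 4) (nat_lit 7) (nat_lit 15) L24928 (by decide +kernel)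
theorem L24930 : W_20 (nat_lit 5) (nat_lit 0xc0007000200000001000080000000000000000000000000000000) (nat_lit 0x0) (nat_lit 0x60007000f800320000000000000000000000000000000000000000000000000000) := Q_20 (nat_lit 228) (C_20 L24927 (C_20 L24929 N_20)) (by decide +kernel)
theorem L24931 : W_20 (nat_lit 7) (nat_lit 0x40007000200000001000080000000000000000000000000000000) (nat_lit 0x0) (nat_lit 0x60007000f8003a0038c000e0000000000000000000000000000000000000000000) := Q_20 (nat_lit 211) (C_20 L24916 (C_20 L24924 (C_20 L24930 N_20))) (by decide +kernel)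
theorem L24932 : W_20 (nat_lit 2) (nat_lit 0x1000000004001f000280000001000080000000000000000000000000000000) (nat_lit 0x0) (nat_lit 0x700000000000000000000000000000000000000000000000000000) := D_20 (nat_lit 213) (nat_lit 212) (nat_lit 214) (nat_lit 3) (nat_lit 5) (nat_lit 11) (nat_lit 3) (nat_lit 6) (nat_lit 11) (by decide +kernel)
theorem L24933 : W_20 (nat_lit 3) (nat_lit 0x1000000004000f000280000001000080000000000000000000000000000000) (nat_lit 0x0) (nat_lit 0x720010000000000000000000000000000000000000000000000000) := T_20 (nat_lit 196) (nat_lit 209) (nat_lit 1) (nat_lit 9) (nat_lit 11) L24932 (by decide +kernel)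
theorem L24934 : W_20 (nat_lit 4) (nat_lit 0x1000000004000f000200000001000080000000000000000000000000000000) (nat_lit 0x0) (nat_lit 0x7200100000c0000000000000000000000000000000000000000000) := T_20 (nat_lit 175) (nat_lit 174) (nat_lit 0) (nat_lit 8) (nat_lit 11) L24933 (by decide +kernel)
theorem L24935 : W_20 (nat_lit 5) (nat_lit 0x4000f000200000001000080000000000000000000000000000000) (nat_lit 0x0) (nat_lit 0x100008007200100000c0000000000000000000000000000000000000000000) := T_20 (nat_lit 244) (nat_lit 227) (nat_lit 6) (nat_lit 6) (nat_lit 14) L24934 (by decide +kernel)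
theorem L24936 : W_20 (nat_lit 2) (nat_lit 0x4000f000280000001f00080000000000000000000000000000000) (nat_lit 0x0) (nat_lit 0x1c000000000000000000000000000000) := D_20 (nat_lit 123) (nat_lit 124) (nat_lit 122) (nat_lit 0) (nat_lit 8) (nat_lit 8) (nat_lit 0) (nat_lit 7) (nat_lit 8) (by decide +kernel)
theorem L24937 : W_20 (nat_lit 3) (nat_lit 0x4000f000280000001e00080000000000000000000000000000000) (nat_lit 0x0) (nat_lit 0x10005c000000000000000000000000000000) := T_20 (nat_lit 140) (nat_lit 126) (nat_lit 2) (nat_lit 4) (nat_lit 8) L24936 (by decide +kernel)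
theorem L24938 : W_20 (nat_lit 4) (nat_lit 0x4000f000280000001a00080000000000000000000000000000000) (nat_lit 0x0) (nat_lit 0x50015c000000000000000000000000000000) := T_20 (nat_lit 142) (nat_lit 128) (nat_lit 2) (nat_lit 5) (nat_lit 8) L24937 (by decide +kernel)
theorem L24939 : W_20 (nat_lit 5) (nat_lit 0x4000f000280000001800080000000000000000000000000000000) (nat_lit 0x0) (nat_lit 0x400070015c000000000000000000000000000000) := T_20 (nat_lit 141) (nat_lit 158) (nat_lit 7) (nat_lit 5) (nat_lit 8) L24938 (by decide +kernel)
theorem L24940 : W_20 (nat_lit 6) (nat_lit 0x4000f000280000001000080000000000000000000000000000000) (nat_lit 0x0) (nat_lit 0x14000f0015c000000000000000000000000000000) := T_20 (nat_lit 143) (nat_lit 160) (nat_lit 6) (nat_lit 7) (nat_lit 11) L24939 (by decide +kernel)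
theorem L24941 : W_20 (nat_lit 7) (nat_lit 0x4000f000200000001000080000000000000000000000000000000) (nat_lit 0x0) (nat_lit 0xc0014000f0015c000000000000000000000000000000) := T_20 (nat_lit 175) (nat_lit 174) (nat_lit 0) (nat_lit 8) (nat_lit 11) L24940 (by decide +kernel)
theorem L24942 : W_20 (nat_lit 5) (nat_lit 0x4000f000200000001000080000000000000000000000000000000) (nat_lit 0x0) (nat_lit 0xe20030003800000000000000000000000000000000000000000000) := T_20 (nat_lit 196) (nat_lit 209) (nat_lit 1) (nat_lit 9) (nat_lit 11) L23891 (by decide +kernel)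
theorem L24943 : W_20 (nat_lit 8) (nat_lit 0x40007000200000001000080000000000000000000000000000000) (nat_lit 0x0) (nat_lit 0x10000800f200380038c0014000f0015c000000000000000000000000000000) := Q_20 (nat_lit 195) (C_20 L24935 (C_20 L24941 (C_20 L24942 N_20))) (by decide +kernel)
theorem L24944 : W_20 (nat_lit 9) (nat_lit 0x7000200000001000080000000000000000000000000000000) (nat_lit 0x0) (nat_lit 0x60007000f800fe0038c038e0014000f0015c000000000000000000000000000000) := Q_20 (nat_lit 210) (C_20 L24867 (C_20 L24923 (C_20 L24931 (C_20 L24943 N_20)))) (by decide +kernel)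
theorem L24945 : W_20 (nat_lit 2) (nat_lit 0x80007000200010001000080000000000000000000000000000000) (nat_lit 0x0) (nat_lit 0x2000100000800000000000000000000000000000000000000000000000) := D_20 (nat_lit 212) (nat_lit 191) (nat_lit 229) (nat_lit 3) (nat_lit 4) (nat_lit 11) (nat_lit 7) (nat_lit 7) (nat_lit 9) (by decide +kernel)
theorem L24946 : W_20 (nat_lit 3) (nat_lit 0x80007000200000001000080000000000000000000000000000000) (nat_lit 0x0) (nat_lit 0x2000100000800000010000800000000000000000000000000000000000) := T_20 (nat_lit 160) (nat_lit 143) (nat_lit 6) (nat_lit 7) (nat_lit 11) L24945 (by decide +kernel)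
theorem L24947 : W_20 (nat_lit 2) (nat_lit 0x2000f0007800200018001000080000000000000000000000000000000) (nat_lit 0x0) (nat_lit 0x4000000000000000080004000000000000000000000000000000000000000) := D_20 (nat_lit 175) (nat_lit 158) (nat_lit 242) (nat_lit 5) (nat_lit 5) (nat_lit 9) (nat_lit 6) (nat_lit 4) (nat_lit 14) (by decide +kernel)
theorem L24948 : W_20 (nat_lit 3) (nat_lit 0xf0007800200018001000080000000000000000000000000000000) (nat_lit 0x0) (nat_lit 0x4000300000000000080004000000000000000000000000000000000000000) := T_20 (nat_lit 225) (nat_lit 224) (nat_lit 1) (nat_lit 7) (nat_lit 12) L24947 (by decide +kernel)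
theorem L24949 : W_20 (nat_lit 4) (nat_lit 0xd0007800200018001000080000000000000000000000000000000) (nat_lit 0x0) (nat_lit 0x4000300020008000080004000000000000000000000000000000000000000) := T_20 (nat_lit 209) (nat_lit 195) (nat_lit 2) (nat_lit 4) (nat_lit 12) L24948 (by decide +kernel)
theorem L24950 : W_20 (nat_lit 5) (nat_lit 0xc0007800200018001000080000000000000000000000000000000) (nat_lit 0x0) (nat_lit 0x4000300038008000080004000000000000000000000000000000000000000) := T_20 (nat_lit 208) (nat_lit 207) (nat_lit 1) (nat_lit 7) (nat_lit 11) L24949 (by decide +kernel)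
theorem L24951 : W_20 (nat_lit 6) (nat_lit 0xc0007800200010001000080000000000000000000000000000000) (nat_lit 0x0) (nat_lit 0x400030003800800008000c000400000000000000000000000000000000000) := T_20 (nat_lit 159) (nat_lit 142) (nat_lit 4) (nat_lit 7) (nat_lit 12) L24950 (by decide +kernel)
theorem L24952 : W_20 (nat_lit 7) (nat_lit 0xc0007000200010001000080000000000000000000000000000000) (nat_lit 0x0) (nat_lit 0x4000300038008c0008000c000400000000000000000000000000000000000) := T_20 (nat_lit 191) (nat_lit 190) (nat_lit 3) (nat_lit 3) (nat_lit 11) L24951 (by decide +kernel)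
theorem L24953 : W_20 (nat_lit 8) (nat_lit 0x80007000200010001000080000000000000000000000000000000) (nat_lit 0x0) (nat_lit 0x4000b00078008c0008000c000400000000000000000000000000000000000) := T_20 (nat_lit 210) (nat_lit 227) (nat_lit 5) (nat_lit 7) (nat_lit 9) L24952 (by decide +kernel)
theorem L24954 : W_20 (nat_lit 9) (nat_lit 0x80007000200000001000080000000000000000000000000000000) (nat_lit 0x0) (nat_lit 0x4000b00078008c0008001c000c00000000000000000000000000000000000) := T_20 (nat_lit 160) (nat_lit 143) (nat_lit 6) (nat_lit 7) (nat_lit 11) L24953 (by decide +kernel)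
theorem L24955 : W_20 (nat_lit 10) (nat_lit 0x7000200000001000080000000000000000000000000000000) (nat_lit 0x0) (nat_lit 0x4002b003fc008c0008001c000c00000000000000000000000000000000000) := Q_20 (nat_lit 211) (C_20 L24946 (C_20 L17481 (C_20 L24954 (C_20 L10004 N_20)))) (by decide +kernel)
theorem L24956 : W_20 (nat_lit 15) (nat_lit 0x5000200000001000080000000000000000000000000000000) (nat_lit 0x0) (nat_lit 0x78007c00ff00ffe03af038f801fc00fc017f001400000000000000000000000000) := Q_20 (nat_lit 193) (C_20 L24838 (C_20 L24856 (C_20 L24028 (C_20 L24865 (C_20 L23995 (C_20 L24914 (C_20 L24915 (C_20 L24944 (C_20 L24955 N_20))))))))) (by decide +kernel)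
theorem L24957 : W_20 (nat_lit 4) (nat_lit 0x5800200010001000080000000000000000000000000000000) (nat_lit 0x0) (nat_lit 0x8001c0002400400000000000000000000000000000000000000000000) := T_20 (nat_lit 193) (nat_lit 178) (nat_lit 2) (nat_lit 4) (nat_lit 11) L24844 (by decide +kernel)
theorem L24958 : W_20 (nat_lit 5) (nat_lit 0x5800200000001000080000000000000000000000000000000) (nat_lit 0x0) (nat_lit 0x8001c0002400400010000800000000000000000000000000000000000) := T_20 (nat_lit 160) (nat_lit 143) (nat_lit 6) (nat_lit 7) (nat_lit 11) L24957 (by decide +kernel)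
theorem L24959 : W_20 (nat_lit 2) (nat_lit 0x5800240002001100088000000000000000000000000000000) (nat_lit 0x0) (nat_lit 0x200010000800000000000000000000000000) := D_20 (nat_lit 124) (nat_lit 107) (nat_lit 141) (nat_lit 6) (nat_lit 4) (nat_lit 10) (nat_lit 6) (nat_lit 4) (nat_lit 11) (by decide +kernel)
theorem L24960 : W_20 (nat_lit 3) (nat_lit 0x5800240002001100080000000000000000000000000000000) (nat_lit 0x0) (nat_lit 0x80000000200018000800000000000000000000000000) := T_20 (nat_lit 123) (nat_lit 175) (nat_lit 7) (nat_lit 4) (nat_lit 7) L24959 (by decide +kernel)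
theorem L24961 : W_20 (nat_lit 4) (nat_lit 0x5800240002001000080000000000000000000000000000000) (nat_lit 0x0) (nat_lit 0x20000000080000000300018000800000000000000000000000000) := T_20 (nat_lit 140) (nat_lit 209) (nat_lit 7) (nat_lit 4) (nat_lit 8) L24960 (by decide +kernel)
theorem L24962 : W_20 (nat_lit 2) (nat_lit 0x5800240002001100088000000000000000000000000000000) (nat_lit 0x0) (nat_lit 0x80004000200000000000000000000000000) := D_20 (nat_lit 122) (nat_lit 139) (nat_lit 105) (nat_lit 4) (nat_lit 4) (nat_lit 11) (nat_lit 4) (nat_lit 4) (nat_lit 10) (by decide +kernel)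
theorem L24963 : W_20 (nat_lit 3) (nat_lit 0x5800240002001100080000000000000000000000000000000) (nat_lit 0x0) (nat_lit 0x8000000008000c000200000000000000000000000000) := T_20 (nat_lit 123) (nat_lit 175) (nat_lit 7) (nat_lit 4) (nat_lit 7) L24962 (by decide +kernel)
theorem L24964 : W_20 (nat_lit 4) (nat_lit 0x5800240002001000080000000000000000000000000000000) (nat_lit 0x0) (nat_lit 0x2000000008000000018000c000200000000000000000000000000) := T_20 (nat_lit 140) (nat_lit 209) (nat_lit 7) (nat_lit 4) (nat_lit 8) L24963 (by decide +kernel)
theorem L24965 : W_20 (nat_lit 2) (nat_lit 0x10005800240016001000080000000000000000000000000000000) (nat_lit 0x0) (nat_lit 0x420008000000000000000000000000000000000000000) := D_20 (nat_lit 159) (nat_lit 173) (nat_lit 178) (nat_lit 1) (nat_lit 7) (nat_lit 9) (nat_lit 3) (nat_lit 4) (nat_lit 9) (by decide +kernel)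
theorem L24966 : W_20 (nat_lit 3) (nat_lit 0x10005800240012001000080000000000000000000000000000000) (nat_lit 0x0) (nat_lit 0x42000c000200000000000000000000000000000000000) := T_20 (nat_lit 158) (nat_lit 141) (nat_lit 6) (nat_lit 4) (nat_lit 12) L24965 (by decide +kernel)
theorem L24967 : W_20 (nat_lit 4) (nat_lit 0x10005800240002001000080000000000000000000000000000000) (nat_lit 0x0) (nat_lit 0x42001c000a00000000000000000000000000000000000) := T_20 (nat_lit 160) (nat_lit 143) (nat_lit 6) (nat_lit 7) (nat_lit 11) L24966 (by decide +kernel)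
theorem L24968 : W_20 (nat_lit 2) (nat_lit 0x200010005800240006001000080000000000000000000000000000000) (nat_lit 0x0) (nat_lit 0x2000100008000000000000000000000000000000000000000000000000000) := D_20 (nat_lit 224) (nat_lit 241) (nat_lit 207) (nat_lit 5) (nat_lit 4) (nat_lit 10) (nat_lit 5) (nat_lit 4) (nat_lit 9) (by decide +kernel)
theorem L24969 : W_20 (nat_lit 3) (nat_lit 0x10005800240006001000080000000000000000000000000000000) (nat_lit 0x0) (nat_lit 0x2000300008000000080000000000000000000000000000000000000000000) := T_20 (nat_lit 225) (nat_lit 175) (nat_lit 6) (nat_lit 4) (nat_lit 13) L24968 (by decide +kernel)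
theorem L24970 : W_20 (nat_lit 4) (nat_lit 0x10005800240002001000080000000000000000000000000000000) (nat_lit 0x0) (nat_lit 0x2000300008000000080004000200000000000000000000000000000000000) := T_20 (nat_lit 158) (nat_lit 141) (nat_lit 6) (nat_lit 4) (nat_lit 12) L24969 (by decide +kernel)
theorem L24971 : W_20 (nat_lit 2) (nat_lit 0x18005800240012001100080000000000000000000000000000000) (nat_lit 0x0) (nat_lit 0x1000080004000000000000000000000000000000) := D_20 (nat_lit 139) (nat_lit 122) (nat_lit 156) (nat_lit 4) (nat_lit 4) (nat_lit 11) (nat_lit 4) (nat_lit 4) (nat_lit 12) (by decide +kernel)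
theorem L24972 : W_20 (nat_lit 3) (nat_lit 0x18005800240012001000080000000000000000000000000000000) (nat_lit 0x0) (nat_lit 0x400000001000180004000000000000000000000000000000) := T_20 (nat_lit 140) (nat_lit 190) (nat_lit 5) (nat_lit 4) (nat_lit 8) L24971 (by decide +kernel)
theorem L24973 : W_20 (nat_lit 4) (nat_lit 0x10005800240012001000080000000000000000000000000000000) (nat_lit 0x0) (nat_lit 0x100008000400000001000180004000000000000000000000000000000) := T_20 (nat_lit 207) (nat_lit 224) (nat_lit 5) (nat_lit 4) (nat_lit 9) L24972 (by decide +kernel)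
theorem L24974 : W_20 (nat_lit 5) (nat_lit 0x10005800240002001000080000000000000000000000000000000) (nat_lit 0x0) (nat_lit 0x100008000400000011000980004000000000000000000000000000000) := T_20 (nat_lit 160) (nat_lit 143) (nat_lit 6) (nat_lit 7) (nat_lit 11) L24973 (by decide +kernel)
theorem L24975 : W_20 (nat_lit 6) (nat_lit 0x5800240002001000080000000000000000000000000000000) (nat_lit 0x0) (nat_lit 0x20003000180004004a001d000b80004000000000000000000000000000000) := Q_20 (nat_lit 208) (C_20 L24967 (C_20 L24970 (C_20 L24974 N_20))) (by decide +kernel)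
theorem L24976 : W_20 (nat_lit 2) (nat_lit 0x20003a005800240013001000080000000000000000000000000000000) (nat_lit 0x0) (nat_lit 0x4000000000000000080004000000000000000000000000000000000000000) := D_20 (nat_lit 175) (nat_lit 158) (nat_lit 242) (nat_lit 6) (nat_lit 4) (nat_lit 13) (nat_lit 6) (nat_lit 4) (nat_lit 14) (by decide +kernel)
theorem L24977 : W_20 (nat_lit 3) (nat_lit 0x3a005800240013001000080000000000000000000000000000000) (nat_lit 0x0) (nat_lit 0x40002000000000000a0004000000000000000000000000000000000000000) := T_20 (nat_lit 225) (nat_lit 173) (nat_lit 4) (nat_lit 4) (nat_lit 13) L24976 (by decide +kernel)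
theorem L24978 : W_20 (nat_lit 4) (nat_lit 0x3a005800240012001000080000000000000000000000000000000) (nat_lit 0x0) (nat_lit 0x40002000000000000a0005000080000000000000000000000000000000000) := T_20 (nat_lit 156) (nat_lit 139) (nat_lit 4) (nat_lit 4) (nat_lit 12) L24977 (by decide +kernel)
theorem L24979 : W_20 (nat_lit 5) (nat_lit 0x38005800240012001000080000000000000000000000000000000) (nat_lit 0x0) (nat_lit 0x40002000060000000a0005000080000000000000000000000000000000000) := T_20 (nat_lit 205) (nat_lit 206) (nat_lit 2) (nat_lit 1) (nat_lit 12) L24978 (by decide +kernel)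
theorem L24980 : W_20 (nat_lit 6) (nat_lit 0x30005800240012001000080000000000000000000000000000000) (nat_lit 0x0) (nat_lit 0x400030000e0000000a0005000080000000000000000000000000000000000) := T_20 (nat_lit 207) (nat_lit 224) (nat_lit 5) (nat_lit 4) (nat_lit 9) L24979 (by decide +kernel)
theorem L24981 : W_20 (nat_lit 7) (nat_lit 0x10005800240012001000080000000000000000000000000000000) (nat_lit 0x0) (nat_lit 0x400070002e0000000a0005000080000000000000000000000000000000000) := T_20 (nat_lit 209) (nat_lit 226) (nat_lit 7) (nat_lit 4) (nat_lit 9) L24980 (by decide +kernel)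
theorem L24982 : W_20 (nat_lit 8) (nat_lit 0x10005800240002001000080000000000000000000000000000000) (nat_lit 0x0) (nat_lit 0x400070002e0000000a0015000880000000000000000000000000000000000) := T_20 (nat_lit 160) (nat_lit 143) (nat_lit 6) (nat_lit 7) (nat_lit 11) L24981 (by decide +kernel)
theorem L24983 : W_20 (nat_lit 2) (nat_lit 0x200010005800240013001000080000000000000000000000000000000) (nat_lit 0x0) (nat_lit 0x8000400020000000000000000000000000000000000000000000000000000) := D_20 (nat_lit 226) (nat_lit 209) (nat_lit 243) (nat_lit 7) (nat_lit 4) (nat_lit 9) (nat_lit 7) (nat_lit 4) (nat_lit 10) (by decide +kernel)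
theorem L24984 : W_20 (nat_lit 3) (nat_lit 0x10005800240013001000080000000000000000000000000000000) (nat_lit 0x0) (nat_lit 0x8000600020000000020000000000000000000000000000000000000000000) := T_20 (nat_lit 225) (nat_lit 173) (nat_lit 4) (nat_lit 4) (nat_lit 13) L24983 (by decide +kernel)
theorem L24985 : W_20 (nat_lit 4) (nat_lit 0x10005800240003001000080000000000000000000000000000000) (nat_lit 0x0) (nat_lit 0x8000600020000000020010000800000000000000000000000000000000000) := T_20 (nat_lit 160) (nat_lit 143) (nat_lit 6) (nat_lit 7) (nat_lit 11) L24984 (by decide +kernel)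
theorem L24986 : W_20 (nat_lit 5) (nat_lit 0x10005800240002001000080000000000000000000000000000000) (nat_lit 0x0) (nat_lit 0x8000600020000000020011000880000000000000000000000000000000000) := T_20 (nat_lit 156) (nat_lit 139) (nat_lit 4) (nat_lit 4) (nat_lit 12) L24985 (by decide +kernel)
theorem L24987 : W_20 (nat_lit 9) (nat_lit 0x5800240002001000080000000000000000000000000000000) (nat_lit 0x0) (nat_lit 0xe00070003e0000004a001d000a80000000000000000000000000000000000) := Q_20 (nat_lit 208) (C_20 L24970 (C_20 L24967 (C_20 L24982 (C_20 L24986 N_20)))) (by decide +kernel)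
theorem L24988 : W_20 (nat_lit 2) (nat_lit 0x5c00240012001300088000000000000000000000000000000) (nat_lit 0x0) (nat_lit 0x80004000200000000000000000000000000) := D_20 (nat_lit 122) (nat_lit 105) (nat_lit 139) (nat_lit 4) (nat_lit 4) (nat_lit 10) (nat_lit 4) (nat_lit 4) (nat_lit 11) (by decide +kernel)
theorem L24989 : W_20 (nat_lit 3) (nat_lit 0x5c00240012001300080000000000000000000000000000000) (nat_lit 0x0) (nat_lit 0x2000000008000c000200000000000000000000000000) := T_20 (nat_lit 123) (nat_lit 173) (nat_lit 5) (nat_lit 4) (nat_lit 7) L24988 (by decide +kernel)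
theorem L24990 : W_20 (nat_lit 4) (nat_lit 0x5800240012001300080000000000000000000000000000000) (nat_lit 0x0) (nat_lit 0x800040002000000008000c000200000000000000000000000000) := T_20 (nat_lit 190) (nat_lit 207) (nat_lit 5) (nat_lit 4) (nat_lit 8) L24989 (by decide +kernel)
theorem L24991 : W_20 (nat_lit 5) (nat_lit 0x5800240012001100080000000000000000000000000000000) (nat_lit 0x0) (nat_lit 0x800040002000000028001c000200000000000000000000000000) := T_20 (nat_lit 141) (nat_lit 124) (nat_lit 6) (nat_lit 4) (nat_lit 11) L24990 (by decide +kernel)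
theorem L24992 : W_20 (nat_lit 6) (nat_lit 0x5800240012001000080000000000000000000000000000000) (nat_lit 0x0) (nat_lit 0x2800040002000000038001c000200000000000000000000000000) := T_20 (nat_lit 140) (nat_lit 209) (nat_lit 7) (nat_lit 4) (nat_lit 8) L24991 (by decide +kernel)
theorem L24993 : W_20 (nat_lit 7) (nat_lit 0x5800240002001000080000000000000000000000000000000) (nat_lit 0x0) (nat_lit 0x28000400020010000b8001c000200000000000000000000000000) := T_20 (nat_lit 160) (nat_lit 143) (nat_lit 6) (nat_lit 7) (nat_lit 11) L24992 (by decide +kernel)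
theorem L24994 : W_20 (nat_lit 10) (nat_lit 0x5800200002001000080000000000000000000000000000000) (nat_lit 0x0) (nat_lit 0xe00070003e0004004e001d000b8001c000a00000000000000000000000000) := Q_20 (nat_lit 174) (C_20 L24961 (C_20 L24964 (C_20 L24975 (C_20 L24987 (C_20 L24993 N_20))))) (by decide +kernel)
theorem L24995 : W_20 (nat_lit 2) (nat_lit 0x5800240002001380080000000000000000000000000000000) (nat_lit 0x0) (nat_lit 0x10000000000005000000000000000000000000000000000000000) := D_20 (nat_lit 208) (nat_lit 156) (nat_lit 158) (nat_lit 4) (nat_lit 4) (nat_lit 12) (nat_lit 6) (nat_lit 4) (nat_lit 12) (by decide +kernel)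
theorem L24996 : W_20 (nat_lit 3) (nat_lit 0x5800240002001180080000000000000000000000000000000) (nat_lit 0x0) (nat_lit 0x10000000000005000200010000000000000000000000000000000) := T_20 (nat_lit 141) (nat_lit 124) (nat_lit 6) (nat_lit 4) (nat_lit 11) L24995 (by decide +kernel)
theorem L24997 : W_20 (nat_lit 4) (nat_lit 0x5800240002001100080000000000000000000000000000000) (nat_lit 0x0) (nat_lit 0x10000000000005000280014000000000000000000000000000000) := T_20 (nat_lit 139) (nat_lit 122) (nat_lit 4) (nat_lit 4) (nat_lit 11) L24996 (by decide +kernel)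
theorem L24998 : W_20 (nat_lit 5) (nat_lit 0x5800240002001000080000000000000000000000000000000) (nat_lit 0x0) (nat_lit 0x1000000008000500038001c000a00000000000000000000000000) := Q_20 (nat_lit 140) (C_20 L24963 (C_20 L24997 (C_20 L24960 N_20))) (by decide +kernel)
theorem L24999 : W_20 (nat_lit 2) (nat_lit 0x200030005800240003001000080000000000000000000000000000000) (nat_lit 0x0) (nat_lit 0x2000100008000000000000000000000000000000000000000000000000000) := D_20 (nat_lit 224) (nat_lit 207) (nat_lit 241) (nat_lit 5) (nat_lit 4) (nat_lit 9) (nat_lit 5) (nat_lit 4) (nat_lit 10) (by decide +kernel)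
theorem L25000 : W_20 (nat_lit 3) (nat_lit 0x30005800240003001000080000000000000000000000000000000) (nat_lit 0x0) (nat_lit 0x2000300008000000020000000000000000000000000000000000000000000) := T_20 (nat_lit 225) (nat_lit 173) (nat_lit 4) (nat_lit 4) (nat_lit 13) L24999 (by decide +kernel)
theorem L25001 : W_20 (nat_lit 4) (nat_lit 0x10005800240003001000080000000000000000000000000000000) (nat_lit 0x0) (nat_lit 0x2000700028000000020000000000000000000000000000000000000000000) := T_20 (nat_lit 209) (nat_lit 226) (nat_lit 7) (nat_lit 4) (nat_lit 9) L25000 (by decide +kernel)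
theorem L25002 : W_20 (nat_lit 5) (nat_lit 0x10005800240002001000080000000000000000000000000000000) (nat_lit 0x0) (nat_lit 0x2000700028000000020001000080000000000000000000000000000000000) := T_20 (nat_lit 156) (nat_lit 139) (nat_lit 4) (nat_lit 4) (nat_lit 12) L25001 (by decide +kernel)
theorem L25003 : W_20 (nat_lit 2) (nat_lit 0x8003c005a00240007001000080000000000000000000000000000000) (nat_lit 0x0) (nat_lit 0x400030000000000000000000000000000000000000000000) := D_20 (nat_lit 173) (nat_lit 190) (nat_lit 172) (nat_lit 5) (nat_lit 3) (nat_lit 9) (nat_lit 6) (nat_lit 2) (nat_lit 13) (by decide +kernel)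
theorem L25004 : W_20 (nat_lit 3) (nat_lit 0x8003c005800240007001000080000000000000000000000000000000) (nat_lit 0x0) (nat_lit 0x700030000000000000000000000000000000000000000000) := T_20 (nat_lit 189) (nat_lit 188) (nat_lit 0) (nat_lit 5) (nat_lit 12) L25003 (by decide +kernel)
theorem L25005 : W_20 (nat_lit 4) (nat_lit 0x3c005800240007001000080000000000000000000000000000000) (nat_lit 0x0) (nat_lit 0xc0000000700030000000000000000000000000000000000000000000) := T_20 (nat_lit 223) (nat_lit 222) (nat_lit 1) (nat_lit 5) (nat_lit 12) L25004 (by decide +kernel)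
theorem L25006 : W_20 (nat_lit 5) (nat_lit 0x38005800240007001000080000000000000000000000000000000) (nat_lit 0x0) (nat_lit 0xc0006000700030000000000000000000000000000000000000000000) := T_20 (nat_lit 206) (nat_lit 205) (nat_lit 2) (nat_lit 1) (nat_lit 12) L25005 (by decide +kernel)
theorem L25007 : W_20 (nat_lit 6) (nat_lit 0x30005800240007001000080000000000000000000000000000000) (nat_lit 0x0) (nat_lit 0x1c000e000700030000000000000000000000000000000000000000000) := T_20 (nat_lit 207) (nat_lit 224) (nat_lit 5) (nat_lit 4) (nat_lit 9) L25006 (by decide +kernel)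
theorem L25008 : W_20 (nat_lit 7) (nat_lit 0x30005800240006001000080000000000000000000000000000000) (nat_lit 0x0) (nat_lit 0x1c000e000700030001000080000000000000000000000000000000000) := T_20 (nat_lit 156) (nat_lit 139) (nat_lit 4) (nat_lit 4) (nat_lit 12) L25007 (by decide +kernel)
theorem L25009 : W_20 (nat_lit 8) (nat_lit 0x10005800240006001000080000000000000000000000000000000) (nat_lit 0x0) (nat_lit 0x5c002e000700030001000080000000000000000000000000000000000) := T_20 (nat_lit 209) (nat_lit 226) (nat_lit 7) (nat_lit 4) (nat_lit 9) L25008 (by decide +kernel)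
theorem L25010 : W_20 (nat_lit 9) (nat_lit 0x10005800240002001000080000000000000000000000000000000) (nat_lit 0x0) (nat_lit 0x5c002e000700030005000280000000000000000000000000000000000) := T_20 (nat_lit 158) (nat_lit 141) (nat_lit 6) (nat_lit 4) (nat_lit 12) L25009 (by decide +kernel)
theorem L25011 : W_20 (nat_lit 2) (nat_lit 0x200010005800240006001000080000000000000000000000000000000) (nat_lit 0x0) (nat_lit 0x8000400020000000000000000000000000000000000000000000000000000) := D_20 (nat_lit 226) (nat_lit 243) (nat_lit 209) (nat_lit 7) (nat_lit 4) (nat_lit 10) (nat_lit 7) (nat_lit 4) (nat_lit 9) (by decide +kernel)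
theorem L25012 : W_20 (nat_lit 3) (nat_lit 0x10005800240006001000080000000000000000000000000000000) (nat_lit 0x0) (nat_lit 0x8000600020000000080000000000000000000000000000000000000000000) := T_20 (nat_lit 225) (nat_lit 175) (nat_lit 6) (nat_lit 4) (nat_lit 13) L25011 (by decide +kernel)
theorem L25013 : W_20 (nat_lit 4) (nat_lit 0x10005800240002001000080000000000000000000000000000000) (nat_lit 0x0) (nat_lit 0x8000600020000000080004000200000000000000000000000000000000000) := T_20 (nat_lit 158) (nat_lit 141) (nat_lit 6) (nat_lit 4) (nat_lit 12) L25012 (by decide +kernel)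
theorem L25014 : W_20 (nat_lit 10) (nat_lit 0x5800240002001000080000000000000000000000000000000) (nat_lit 0x0) (nat_lit 0xa0007c003e0007000b0005000280000000000000000000000000000000000) := Q_20 (nat_lit 208) (C_20 L24970 (C_20 L25002 (C_20 L25010 (C_20 L25013 N_20)))) (by decide +kernel)
theorem L25015 : W_20 (nat_lit 5) (nat_lit 0x5800240002001000080000000000000000000000000000000) (nat_lit 0x0) (nat_lit 0x30000000000005000380014000000000000000000000000000000) := T_20 (nat_lit 140) (nat_lit 209) (nat_lit 7) (nat_lit 4) (nat_lit 8) L24997 (by decide +kernel)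
theorem L25016 : W_20 (nat_lit 11) (nat_lit 0x5800200002001000080000000000000000000000000000000) (nat_lit 0x0) (nat_lit 0xa0007c003e0007000f000500038001c000a00000000000000000000000000) := Q_20 (nat_lit 174) (C_20 L24964 (C_20 L24998 (C_20 L25014 (C_20 L25015 (C_20 L24961 N_20))))) (by decide +kernel)
theorem L25017 : W_20 (nat_lit 2) (nat_lit 0x5c00240012001100088000000000000000000000000000000) (nat_lit 0x0) (nat_lit 0x80004000200000000000000000000000000) := D_20 (nat_lit 122) (nat_lit 105) (nat_lit 139) (nat_lit 4) (nat_lit 4) (nat_lit 10) (nat_lit 4) (nat_lit 4) (nat_lit 11) (by decide +kernel)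
theorem L25018 : W_20 (nat_lit 3) (nat_lit 0x5c00240012001100080000000000000000000000000000000) (nat_lit 0x0) (nat_lit 0x2000000008000c000200000000000000000000000000) := T_20 (nat_lit 123) (nat_lit 173) (nat_lit 5) (nat_lit 4) (nat_lit 7) L25017 (by decide +kernel)
theorem L25019 : W_20 (nat_lit 4) (nat_lit 0x5800240012001100080000000000000000000000000000000) (nat_lit 0x0) (nat_lit 0x800040002000000008000c000200000000000000000000000000) := T_20 (nat_lit 190) (nat_lit 207) (nat_lit 5) (nat_lit 4) (nat_lit 8) L25018 (by decide +kernel)
theorem L25020 : W_20 (nat_lit 5) (nat_lit 0x5800240002001100080000000000000000000000000000000) (nat_lit 0x0) (nat_lit 0x800040002001000088000c000200000000000000000000000000) := T_20 (nat_lit 160) (nat_lit 143) (nat_lit 6) (nat_lit 7) (nat_lit 11) L25019 (by decide +kernel)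
theorem L25021 : W_20 (nat_lit 2) (nat_lit 0x5800240002001100088000000000000000000000000000000) (nat_lit 0x0) (nat_lit 0x8000400020000000000000000000000000000000000000000000) := D_20 (nat_lit 190) (nat_lit 207) (nat_lit 173) (nat_lit 5) (nat_lit 4) (nat_lit 8) (nat_lit 5) (nat_lit 4) (nat_lit 7) (by decide +kernel)
theorem L25022 : W_20 (nat_lit 3) (nat_lit 0x5800240002001100080000000000000000000000000000000) (nat_lit 0x0) (nat_lit 0x80004000a0000000000008000000000000000000000000000000) := T_20 (nat_lit 123) (nat_lit 175) (nat_lit 7) (nat_lit 4) (nat_lit 7) L25021 (by decide +kernel)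
theorem L25023 : W_20 (nat_lit 2) (nat_lit 0x1000580024001a001180080000000000000000000000000000000) (nat_lit 0x0) (nat_lit 0x100008000400000000000000000000000000000000000000000000000) := D_20 (nat_lit 207) (nat_lit 190) (nat_lit 224) (nat_lit 5) (nat_lit 4) (nat_lit 8) (nat_lit 5) (nat_lit 4) (nat_lit 9) (by decide +kernel)
theorem L25024 : W_20 (nat_lit 3) (nat_lit 0x580024001a001180080000000000000000000000000000000) (nat_lit 0x0) (nat_lit 0x100018000400000001000000000000000000000000000000000000000) := T_20 (nat_lit 208) (nat_lit 156) (nat_lit 4) (nat_lit 4) (nat_lit 12) L25023 (by decide +kernel)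
theorem L25025 : W_20 (nat_lit 4) (nat_lit 0x5800240012001180080000000000000000000000000000000) (nat_lit 0x0) (nat_lit 0x10001800040000000d000000000000000000000000000000000000000) := T_20 (nat_lit 159) (nat_lit 158) (nat_lit 0) (nat_lit 7) (nat_lit 9) L25024 (by decide +kernel)
theorem L25026 : W_20 (nat_lit 5) (nat_lit 0x5800240012001100080000000000000000000000000000000) (nat_lit 0x0) (nat_lit 0x10001800040000000d000080004000000000000000000000000000000) := T_20 (nat_lit 139) (nat_lit 122) (nat_lit 4) (nat_lit 4) (nat_lit 11) L25025 (by decide +kernel)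
theorem L25027 : W_20 (nat_lit 6) (nat_lit 0x5800240002001100080000000000000000000000000000000) (nat_lit 0x0) (nat_lit 0x10001800040000001d000880004000000000000000000000000000000) := T_20 (nat_lit 160) (nat_lit 143) (nat_lit 6) (nat_lit 7) (nat_lit 11) L25026 (by decide +kernel)
theorem L25028 : W_20 (nat_lit 7) (nat_lit 0x5800240002001000080000000000000000000000000000000) (nat_lit 0x0) (nat_lit 0x1000180004000a001d00098000c000200000000000000000000000000) := Q_20 (nat_lit 140) (C_20 L24963 (C_20 L25020 (C_20 L25022 (C_20 L25027 N_20)))) (by decide +kernel)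
theorem L25029 : W_20 (nat_lit 2) (nat_lit 0x20001a005800240013001000080000000000000000000000000000000) (nat_lit 0x0) (nat_lit 0x4000000000000000080004000000000000000000000000000000000000000) := D_20 (nat_lit 175) (nat_lit 158) (nat_lit 242) (nat_lit 6) (nat_lit 4) (nat_lit 13) (nat_lit 6) (nat_lit 4) (nat_lit 14) (by decide +kernel)
theorem L25030 : W_20 (nat_lit 3) (nat_lit 0x1a005800240013001000080000000000000000000000000000000) (nat_lit 0x0) (nat_lit 0x40002000000000000a0004000000000000000000000000000000000000000) := T_20 (nat_lit 225) (nat_lit 173) (nat_lit 4) (nat_lit 4) (nat_lit 13) L25029 (by decide +kernel)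
theorem L25031 : W_20 (nat_lit 4) (nat_lit 0x1a005800240012001000080000000000000000000000000000000) (nat_lit 0x0) (nat_lit 0x40002000000000000a0005000080000000000000000000000000000000000) := T_20 (nat_lit 156) (nat_lit 139) (nat_lit 4) (nat_lit 4) (nat_lit 12) L25030 (by decide +kernel)
theorem L25032 : W_20 (nat_lit 5) (nat_lit 0x18005800240012001000080000000000000000000000000000000) (nat_lit 0x0) (nat_lit 0x40002000060000000a0005000080000000000000000000000000000000000) := T_20 (nat_lit 205) (nat_lit 206) (nat_lit 2) (nat_lit 1) (nat_lit 12) L25031 (by decide +kernel)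
theorem L25033 : W_20 (nat_lit 6) (nat_lit 0x10005800240012001000080000000000000000000000000000000) (nat_lit 0x0) (nat_lit 0x400030000e0000000a0005000080000000000000000000000000000000000) := T_20 (nat_lit 207) (nat_lit 224) (nat_lit 5) (nat_lit 4) (nat_lit 9) L25032 (by decide +kernel)
theorem L25034 : W_20 (nat_lit 7) (nat_lit 0x10005800240002001000080000000000000000000000000000000) (nat_lit 0x0) (nat_lit 0x400030000e0000000a0015000880000000000000000000000000000000000) := T_20 (nat_lit 160) (nat_lit 143) (nat_lit 6) (nat_lit 7) (nat_lit 11) L25033 (by decide +kernel)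
theorem L25035 : W_20 (nat_lit 2) (nat_lit 0x8003c005a00240013001000080000000000000000000000000000000) (nat_lit 0x0) (nat_lit 0x400030000000000000000000000000000000000000000000) := D_20 (nat_lit 173) (nat_lit 190) (nat_lit 172) (nat_lit 5) (nat_lit 3) (nat_lit 9) (nat_lit 6) (nat_lit 2) (nat_lit 13) (by decide +kernel)
theorem L25036 : W_20 (nat_lit 3) (nat_lit 0x8003c005800240013001000080000000000000000000000000000000) (nat_lit 0x0) (nat_lit 0x700030000000000000000000000000000000000000000000) := T_20 (nat_lit 189) (nat_lit 188) (nat_lit 0) (nat_lit 5) (nat_lit 12) L25035 (by decide +kernel)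
theorem L25037 : W_20 (nat_lit 4) (nat_lit 0x3c005800240013001000080000000000000000000000000000000) (nat_lit 0x0) (nat_lit 0xc0000000700030000000000000000000000000000000000000000000) := T_20 (nat_lit 223) (nat_lit 222) (nat_lit 1) (nat_lit 5) (nat_lit 12) L25036 (by decide +kernel)
theorem L25038 : W_20 (nat_lit 5) (nat_lit 0x38005800240013001000080000000000000000000000000000000) (nat_lit 0x0) (nat_lit 0xc0006000700030000000000000000000000000000000000000000000) := T_20 (nat_lit 206) (nat_lit 205) (nat_lit 2) (nat_lit 1) (nat_lit 12) L25037 (by decide +kernel)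
theorem L25039 : W_20 (nat_lit 6) (nat_lit 0x30005800240013001000080000000000000000000000000000000) (nat_lit 0x0) (nat_lit 0x1c000e000700030000000000000000000000000000000000000000000) := T_20 (nat_lit 207) (nat_lit 224) (nat_lit 5) (nat_lit 4) (nat_lit 9) L25038 (by decide +kernel)
theorem L25040 : W_20 (nat_lit 7) (nat_lit 0x30005800240003001000080000000000000000000000000000000) (nat_lit 0x0) (nat_lit 0x1c000e000700030010000800000000000000000000000000000000000) := T_20 (nat_lit 160) (nat_lit 143) (nat_lit 6) (nat_lit 7) (nat_lit 11) L25039 (by decide +kernel)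
theorem L25041 : W_20 (nat_lit 8) (nat_lit 0x10005800240003001000080000000000000000000000000000000) (nat_lit 0x0) (nat_lit 0x5c002e000700030010000800000000000000000000000000000000000) := T_20 (nat_lit 209) (nat_lit 226) (nat_lit 7) (nat_lit 4) (nat_lit 9) L25040 (by decide +kernel)
theorem L25042 : W_20 (nat_lit 9) (nat_lit 0x10005800240002001000080000000000000000000000000000000) (nat_lit 0x0) (nat_lit 0x5c002e000700030011000880000000000000000000000000000000000) := T_20 (nat_lit 156) (nat_lit 139) (nat_lit 4) (nat_lit 4) (nat_lit 12) L25041 (by decide +kernel)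
theorem L25043 : W_20 (nat_lit 2) (nat_lit 0x60001a005800240012001000080000000000000000000000000000000) (nat_lit 0x0) (nat_lit 0x4000000000000000080004000000000000000000000000000000000000000) := D_20 (nat_lit 175) (nat_lit 242) (nat_lit 158) (nat_lit 6) (nat_lit 4) (nat_lit 14) (nat_lit 6) (nat_lit 4) (nat_lit 13) (by decide +kernel)
theorem L25044 : W_20 (nat_lit 3) (nat_lit 0x40001a005800240012001000080000000000000000000000000000000) (nat_lit 0x0) (nat_lit 0xc000200000000000080004000000000000000000000000000000000000000) := T_20 (nat_lit 225) (nat_lit 243) (nat_lit 7) (nat_lit 4) (nat_lit 10) L25043 (by decide +kernel)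
theorem L25045 : W_20 (nat_lit 4) (nat_lit 0x40001a005800240002001000080000000000000000000000000000000) (nat_lit 0x0) (nat_lit 0xc000200000000000080014000800000000000000000000000000000000000) := T_20 (nat_lit 160) (nat_lit 143) (nat_lit 6) (nat_lit 7) (nat_lit 11) L25044 (by decide +kernel)
theorem L25046 : W_20 (nat_lit 5) (nat_lit 0x1a005800240002001000080000000000000000000000000000000) (nat_lit 0x0) (nat_lit 0xc000600020000000080014000800000000000000000000000000000000000) := T_20 (nat_lit 226) (nat_lit 209) (nat_lit 7) (nat_lit 4) (nat_lit 9) L25045 (by decide +kernel)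
theorem L25047 : W_20 (nat_lit 6) (nat_lit 0x18005800240002001000080000000000000000000000000000000) (nat_lit 0x0) (nat_lit 0xc000600026000000080014000800000000000000000000000000000000000) := T_20 (nat_lit 205) (nat_lit 206) (nat_lit 2) (nat_lit 1) (nat_lit 12) L25046 (by decide +kernel)
theorem L25048 : W_20 (nat_lit 7) (nat_lit 0x10005800240002001000080000000000000000000000000000000) (nat_lit 0x0) (nat_lit 0xc00070002e000000080014000800000000000000000000000000000000000) := T_20 (nat_lit 207) (nat_lit 224) (nat_lit 5) (nat_lit 4) (nat_lit 9) L25047 (by decide +kernel)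
theorem L25049 : W_20 (nat_lit 10) (nat_lit 0x5800240002001000080000000000000000000000000000000) (nat_lit 0x0) (nat_lit 0xe0007c003e0007000b0015000880000000000000000000000000000000000) := Q_20 (nat_lit 208) (C_20 L25002 (C_20 L25034 (C_20 L25042 (C_20 L24986 (C_20 L25048 N_20))))) (by decide +kernel)
theorem L25050 : W_20 (nat_lit 6) (nat_lit 0x5800240012001000080000000000000000000000000000000) (nat_lit 0x0) (nat_lit 0x10003800040000000d000180004000000000000000000000000000000) := T_20 (nat_lit 140) (nat_lit 209) (nat_lit 7) (nat_lit 4) (nat_lit 8) L25026 (by decide +kernel)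
theorem L25051 : W_20 (nat_lit 7) (nat_lit 0x5800240002001000080000000000000000000000000000000) (nat_lit 0x0) (nat_lit 0x10003800040000001d000980004000000000000000000000000000000) := T_20 (nat_lit 160) (nat_lit 143) (nat_lit 6) (nat_lit 7) (nat_lit 11) L25050 (by decide +kernel)
theorem L25052 : W_20 (nat_lit 4) (nat_lit 0x5800240002001000080000000000000000000000000000000) (nat_lit 0x0) (nat_lit 0x280004000a0000000100008000000000000000000000000000000) := T_20 (nat_lit 140) (nat_lit 209) (nat_lit 7) (nat_lit 4) (nat_lit 8) L25022 (by decide +kernel)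
theorem L25053 : W_20 (nat_lit 11) (nat_lit 0x5800200002001000080000000000000000000000000000000) (nat_lit 0x0) (nat_lit 0xe0007c003e0007000f001d00098000c000200000000000000000000000000) := Q_20 (nat_lit 174) (C_20 L24964 (C_20 L25028 (C_20 L25049 (C_20 L25051 (C_20 L25052 N_20))))) (by decide +kernel)
theorem L25054 : W_20 (nat_lit 2) (nat_lit 0x400020001a005800240013001000080000000000000000000000000000000) (nat_lit 0x0) (nat_lit 0x100008000400000000000000000000000000000000000000000000000000000000) := D_20 (nat_lit 243) (nat_lit 226) (nat_lit 260) (nat_lit 7) (nat_lit 4) (nat_lit 10) (nat_lit 7) (nat_lit 4) (nat_lit 11) (by decide +kernel)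
theorem L25055 : W_20 (nat_lit 3) (nat_lit 0x20001a005800240013001000080000000000000000000000000000000) (nat_lit 0x0) (nat_lit 0x10000c000400000000000080000000000000000000000000000000000000000000) := T_20 (nat_lit 242) (nat_lit 175) (nat_lit 6) (nat_lit 4) (nat_lit 14) L25054 (by decide +kernel)
theorem L25056 : W_20 (nat_lit 4) (nat_lit 0x1a005800240013001000080000000000000000000000000000000) (nat_lit 0x0) (nat_lit 0x10000c0006000000000000a0000000000000000000000000000000000000000000) := T_20 (nat_lit 225) (nat_lit 173) (nat_lit 4) (nat_lit 4) (nat_lit 13) L25055 (by decide +kernel)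
theorem L25057 : W_20 (nat_lit 5) (nat_lit 0x1a005800240012001000080000000000000000000000000000000) (nat_lit 0x0) (nat_lit 0x10000c0006000000000000a0001000080000000000000000000000000000000000) := T_20 (nat_lit 156) (nat_lit 139) (nat_lit 4) (nat_lit 4) (nat_lit 12) L25056 (by decide +kernel)
theorem L25058 : W_20 (nat_lit 6) (nat_lit 0x18005800240012001000080000000000000000000000000000000) (nat_lit 0x0) (nat_lit 0x10000c0006000060000000a0001000080000000000000000000000000000000000) := T_20 (nat_lit 205) (nat_lit 206) (nat_lit 2) (nat_lit 1) (nat_lit 12) L25057 (by decide +kernel)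
theorem L25059 : W_20 (nat_lit 7) (nat_lit 0x10005800240012001000080000000000000000000000000000000) (nat_lit 0x0) (nat_lit 0x10000c00070000e0000000a0001000080000000000000000000000000000000000) := T_20 (nat_lit 207) (nat_lit 224) (nat_lit 5) (nat_lit 4) (nat_lit 9) L25058 (by decide +kernel)
theorem L25060 : W_20 (nat_lit 8) (nat_lit 0x10005800240002001000080000000000000000000000000000000) (nat_lit 0x0) (nat_lit 0x10000c00070000e0000000a0011000880000000000000000000000000000000000) := T_20 (nat_lit 160) (nat_lit 143) (nat_lit 6) (nat_lit 7) (nat_lit 11) L25059 (by decide +kernel)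
theorem L25061 : W_20 (nat_lit 9) (nat_lit 0x5800240002001000080000000000000000000000000000000) (nat_lit 0x0) (nat_lit 0x10000e00070001e0000004a001d000a80000000000000000000000000000000000) := Q_20 (nat_lit 208) (C_20 L25034 (C_20 L24967 (C_20 L24970 (C_20 L25060 N_20)))) (by decide +kernel)
theorem L25062 : W_20 (nat_lit 2) (nat_lit 0x5c00240012001380080000000000000000000000000000000) (nat_lit 0x0) (nat_lit 0xc000400000000000000000000000000000000000) := D_20 (nat_lit 159) (nat_lit 142) (nat_lit 158) (nat_lit 3) (nat_lit 3) (nat_lit 8) (nat_lit 0) (nat_lit 7) (nat_lit 9) (by decide +kernel)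
theorem L25063 : W_20 (nat_lit 3) (nat_lit 0x5c00240012001300080000000000000000000000000000000) (nat_lit 0x0) (nat_lit 0xc000480004000000000000000000000000000000) := T_20 (nat_lit 139) (nat_lit 122) (nat_lit 4) (nat_lit 4) (nat_lit 11) L25062 (by decide +kernel)
theorem L25064 : W_20 (nat_lit 4) (nat_lit 0x5800240012001300080000000000000000000000000000000) (nat_lit 0x0) (nat_lit 0x800040000000c000480004000000000000000000000000000000) := T_20 (nat_lit 190) (nat_lit 207) (nat_lit 5) (nat_lit 4) (nat_lit 8) L25063 (by decide +kernel)
theorem L25065 : W_20 (nat_lit 5) (nat_lit 0x5800240012001100080000000000000000000000000000000) (nat_lit 0x0) (nat_lit 0x800040000000c000680014000000000000000000000000000000) := T_20 (nat_lit 141) (nat_lit 124) (nat_lit 6) (nat_lit 4) (nat_lit 11) L25064 (by decide +kernel)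
theorem L25066 : W_20 (nat_lit 6) (nat_lit 0x5800240002001100080000000000000000000000000000000) (nat_lit 0x0) (nat_lit 0x800040000001c000e80014000000000000000000000000000000) := T_20 (nat_lit 160) (nat_lit 143) (nat_lit 6) (nat_lit 7) (nat_lit 11) L25065 (by decide +kernel)
theorem L25067 : W_20 (nat_lit 7) (nat_lit 0x5800240002001000080000000000000000000000000000000) (nat_lit 0x0) (nat_lit 0x80004000a001c000f8001c000200000000000000000000000000) := Q_20 (nat_lit 140) (C_20 L25022 (C_20 L25020 (C_20 L24963 (C_20 L25066 N_20)))) (by decide +kernel)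
theorem L25068 : W_20 (nat_lit 2) (nat_lit 0x5c00240012001100088000000000000000000000000000000) (nat_lit 0x0) (nat_lit 0x200010000800000000000000000000000000) := D_20 (nat_lit 124) (nat_lit 141) (nat_lit 107) (nat_lit 6) (nat_lit 4) (nat_lit 11) (nat_lit 6) (nat_lit 4) (nat_lit 10) (by decide +kernel)
theorem L25069 : W_20 (nat_lit 3) (nat_lit 0x5c00240012001100080000000000000000000000000000000) (nat_lit 0x0) (nat_lit 0x20000000200018000800000000000000000000000000) := T_20 (nat_lit 123) (nat_lit 173) (nat_lit 5) (nat_lit 4) (nat_lit 7) L25068 (by decide +kernel)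
theorem L25070 : W_20 (nat_lit 4) (nat_lit 0x5800240012001100080000000000000000000000000000000) (nat_lit 0x0) (nat_lit 0x8000400020000000200018000800000000000000000000000000) := T_20 (nat_lit 190) (nat_lit 207) (nat_lit 5) (nat_lit 4) (nat_lit 8) L25069 (by decide +kernel)
theorem L25071 : W_20 (nat_lit 5) (nat_lit 0x5800240002001100080000000000000000000000000000000) (nat_lit 0x0) (nat_lit 0x8000400020010000a00018000800000000000000000000000000) := T_20 (nat_lit 160) (nat_lit 143) (nat_lit 6) (nat_lit 7) (nat_lit 11) L25070 (by decide +kernel)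
theorem L25072 : W_20 (nat_lit 7) (nat_lit 0x5800240002001000080000000000000000000000000000000) (nat_lit 0x0) (nat_lit 0x10001800040002001d000f8001c000a00000000000000000000000000) := Q_20 (nat_lit 140) (C_20 L25066 (C_20 L24997 (C_20 L25027 (C_20 L25020 (C_20 L25071 N_20))))) (by decide +kernel)
theorem L25073 : W_20 (nat_lit 2) (nat_lit 0x5c00240012001780080000000000000000000000000000000) (nat_lit 0x0) (nat_lit 0x10000000000001800000000000000000000000000000000000000) := D_20 (nat_lit 156) (nat_lit 208) (nat_lit 155) (nat_lit 4) (nat_lit 4) (nat_lit 12) (nat_lit 1) (nat_lit 6) (nat_lit 8) (by decide +kernel)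
theorem L25074 : W_20 (nat_lit 3) (nat_lit 0x5c00240012001380080000000000000000000000000000000) (nat_lit 0x0) (nat_lit 0x10000000000009800400000000000000000000000000000000000) := T_20 (nat_lit 142) (nat_lit 159) (nat_lit 3) (nat_lit 3) (nat_lit 8) L25073 (by decide +kernel)
theorem L25075 : W_20 (nat_lit 4) (nat_lit 0x5c00240012001300080000000000000000000000000000000) (nat_lit 0x0) (nat_lit 0x10000000000009800480004000000000000000000000000000000) := T_20 (nat_lit 139) (nat_lit 122) (nat_lit 4) (nat_lit 4) (nat_lit 11) L25074 (by decide +kernel)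
theorem L25076 : W_20 (nat_lit 5) (nat_lit 0x5c00240002001300080000000000000000000000000000000) (nat_lit 0x0) (nat_lit 0x10000000000019800c80004000000000000000000000000000000) := T_20 (nat_lit 160) (nat_lit 143) (nat_lit 6) (nat_lit 7) (nat_lit 11) L25075 (by decide +kernel)
theorem L25077 : W_20 (nat_lit 6) (nat_lit 0x5c00240002001100080000000000000000000000000000000) (nat_lit 0x0) (nat_lit 0x10000000000019800e80014000000000000000000000000000000) := T_20 (nat_lit 141) (nat_lit 124) (nat_lit 6) (nat_lit 4) (nat_lit 11) L25076 (by decide +kernel)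
theorem L25078 : W_20 (nat_lit 7) (nat_lit 0x5800240002001100080000000000000000000000000000000) (nat_lit 0x0) (nat_lit 0x18000400000019800e80014000000000000000000000000000000) := T_20 (nat_lit 190) (nat_lit 207) (nat_lit 5) (nat_lit 4) (nat_lit 8) L25077 (by decide +kernel)
theorem L25079 : W_20 (nat_lit 8) (nat_lit 0x5800240002001000080000000000000000000000000000000) (nat_lit 0x0) (nat_lit 0x180004000a0019800f8001c000a00000000000000000000000000) := Q_20 (nat_lit 140) (C_20 L25071 (C_20 L25022 (C_20 L24963 (C_20 L25078 N_20)))) (by decide +kernel)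
theorem L25080 : W_20 (nat_lit 2) (nat_lit 0x5c00240016001300080000000000000000000000000000000) (nat_lit 0x0) (nat_lit 0x420008000000000000000000000000000000000000000) := D_20 (nat_lit 159) (nat_lit 178) (nat_lit 173) (nat_lit 3) (nat_lit 4) (nat_lit 9) (nat_lit 1) (nat_lit 7) (nat_lit 9) (by decide +kernel)
theorem L25081 : W_20 (nat_lit 3) (nat_lit 0x5c00240012001300080000000000000000000000000000000) (nat_lit 0x0) (nat_lit 0x1000000042000c000000000000000000000000000000000000000) := T_20 (nat_lit 158) (nat_lit 208) (nat_lit 6) (nat_lit 4) (nat_lit 12) L25080 (by decide +kernel)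
theorem L25082 : W_20 (nat_lit 4) (nat_lit 0x5c00240002001300080000000000000000000000000000000) (nat_lit 0x0) (nat_lit 0x1000000042001c000800000000000000000000000000000000000) := T_20 (nat_lit 160) (nat_lit 143) (nat_lit 6) (nat_lit 7) (nat_lit 11) L25081 (by decide +kernel)
theorem L25083 : W_20 (nat_lit 5) (nat_lit 0x5c00240002001100080000000000000000000000000000000) (nat_lit 0x0) (nat_lit 0x1000000042001c000a00010000000000000000000000000000000) := T_20 (nat_lit 141) (nat_lit 124) (nat_lit 6) (nat_lit 4) (nat_lit 11) L25082 (by decide +kernel)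
theorem L25084 : W_20 (nat_lit 6) (nat_lit 0x5800240002001100080000000000000000000000000000000) (nat_lit 0x0) (nat_lit 0x1800040042001c000a00010000000000000000000000000000000) := T_20 (nat_lit 190) (nat_lit 207) (nat_lit 5) (nat_lit 4) (nat_lit 8) L25083 (by decide +kernel)
theorem L25085 : W_20 (nat_lit 7) (nat_lit 0x5800240002001000080000000000000000000000000000000) (nat_lit 0x0) (nat_lit 0x180004004a001c000b00018000800000000000000000000000000) := Q_20 (nat_lit 140) (C_20 L25071 (C_20 L25022 (C_20 L24960 (C_20 L25084 N_20)))) (by decide +kernel)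
theorem L25086 : W_20 (nat_lit 10) (nat_lit 0x5800200002001000080000000000000000000000000000000) (nat_lit 0x0) (nat_lit 0x10000e00070001e0004004e001d800f8001c000a00000000000000000000000000) := Q_20 (nat_lit 174) (C_20 L24998 (C_20 L25028 (C_20 L25061 (C_20 L25067 (C_20 L25072 (C_20 L25079 (C_20 L25085 N_20))))))) (by decide +kernel)
theorem L25087 : W_20 (nat_lit 10) (nat_lit 0x10005800200002001000080000000000000000000000000000000) (nat_lit 0x0) (nat_lit 0xa0007c002e0007000f0005000280000000000000000000000000000000000) := Q_20 (nat_lit 174) (C_20 L25013 (C_20 L25010 (C_20 L25002 (C_20 L24970 N_20)))) (by decide +kernel)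
theorem L25088 : W_20 (nat_lit 10) (nat_lit 0x10005800200002001000080000000000000000000000000000000) (nat_lit 0x0) (nat_lit 0x10000e0007c002e0007000f0015000880000000000000000000000000000000000) := Q_20 (nat_lit 174) (C_20 L25060 (C_20 L25042 (C_20 L25002 (C_20 L25034 (C_20 L24986 (C_20 L25048 N_20)))))) (by decide +kernel)
theorem L25089 : W_20 (nat_lit 9) (nat_lit 0x10005800200002001000080000000000000000000000000000000) (nat_lit 0x0) (nat_lit 0x10000e00070000e0000004e001d000a80000000000000000000000000000000000) := Q_20 (nat_lit 174) (C_20 L25060 (C_20 L24967 (C_20 L24970 N_20))) (by decide +kernel)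
theorem L25090 : W_20 (nat_lit 2) (nat_lit 0x10005800200006001000080000000000000000000000000000000) (nat_lit 0x0) (nat_lit 0xc0000000200000000000000000000000000000000000) := D_20 (nat_lit 141) (nat_lit 175) (nat_lit 174) (nat_lit 5) (nat_lit 5) (nat_lit 8) (nat_lit 6) (nat_lit 4) (nat_lit 12) (by decide +kernel)
theorem L25091 : W_20 (nat_lit 2) (nat_lit 0x1000580020001e001000080000000000000000000000000000000) (nat_lit 0x0) (nat_lit 0x60000000200000000000000000000000000000000000) := D_20 (nat_lit 174) (nat_lit 173) (nat_lit 141) (nat_lit 1) (nat_lit 7) (nat_lit 9) (nat_lit 6) (nat_lit 4) (nat_lit 12) (by decide +kernel)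
theorem L25092 : W_20 (nat_lit 3) (nat_lit 0x10005800200016001000080000000000000000000000000000000) (nat_lit 0x0) (nat_lit 0x460008000200000000000000000000000000000000000) := T_20 (nat_lit 159) (nat_lit 178) (nat_lit 3) (nat_lit 4) (nat_lit 9) L25091 (by decide +kernel)
theorem L25093 : W_20 (nat_lit 4) (nat_lit 0x10005800200006001000080000000000000000000000000000000) (nat_lit 0x0) (nat_lit 0x460018000a00000000000000000000000000000000000) := T_20 (nat_lit 160) (nat_lit 143) (nat_lit 6) (nat_lit 7) (nat_lit 11) L25092 (by decide +kernel)
theorem L25094 : W_20 (nat_lit 2) (nat_lit 0x20009000580024001e001000080000000000000000000000000000000) (nat_lit 0x0) (nat_lit 0x2000100008000000000000000000000000000000000000000000000000000) := D_20 (nat_lit 224) (nat_lit 241) (nat_lit 207) (nat_lit 5) (nat_lit 4) (nat_lit 10) (nat_lit 5) (nat_lit 4) (nat_lit 9) (by decide +kernel)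
theorem L25095 : W_20 (nat_lit 3) (nat_lit 0x9000580024001e001000080000000000000000000000000000000) (nat_lit 0x0) (nat_lit 0x2000300008000000080000000000000000000000000000000000000000000) := T_20 (nat_lit 225) (nat_lit 175) (nat_lit 6) (nat_lit 4) (nat_lit 13) L25094 (by decide +kernel)
theorem L25096 : W_20 (nat_lit 4) (nat_lit 0x1000580024001e001000080000000000000000000000000000000) (nat_lit 0x0) (nat_lit 0x2000300088000000080000000400000000000000000000000000000000000) := T_20 (nat_lit 211) (nat_lit 142) (nat_lit 4) (nat_lit 7) (nat_lit 12) L25095 (by decide +kernel)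
theorem L25097 : W_20 (nat_lit 5) (nat_lit 0x1000580020001e001000080000000000000000000000000000000) (nat_lit 0x0) (nat_lit 0x20003000880000000e0000000400000000000000000000000000000000000) := T_20 (nat_lit 174) (nat_lit 173) (nat_lit 1) (nat_lit 7) (nat_lit 9) L25096 (by decide +kernel)
theorem L25098 : W_20 (nat_lit 6) (nat_lit 0x10005800200016001000080000000000000000000000000000000) (nat_lit 0x0) (nat_lit 0x20003000880000004e0008000400000000000000000000000000000000000) := T_20 (nat_lit 159) (nat_lit 178) (nat_lit 3) (nat_lit 4) (nat_lit 9) L25097 (by decide +kernel)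
theorem L25099 : W_20 (nat_lit 7) (nat_lit 0x10005800200006001000080000000000000000000000000000000) (nat_lit 0x0) (nat_lit 0x20003000880000004e0018000c00000000000000000000000000000000000) := T_20 (nat_lit 160) (nat_lit 143) (nat_lit 6) (nat_lit 7) (nat_lit 11) L25098 (by decide +kernel)
theorem L25100 : W_20 (nat_lit 2) (nat_lit 0xd000580020001e001200080000000000000000000000000000000) (nat_lit 0x0) (nat_lit 0x2000120000000000000000000000000000000000000000000000000000) := D_20 (nat_lit 212) (nat_lit 209) (nat_lit 229) (nat_lit 0) (nat_lit 8) (nat_lit 12) (nat_lit 7) (nat_lit 7) (nat_lit 9) (by decide +kernel)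
theorem L25101 : W_20 (nat_lit 3) (nat_lit 0x9000580020001e001200080000000000000000000000000000000) (nat_lit 0x0) (nat_lit 0x2800160000000000000000000000000000000000000000000000000000) := T_20 (nat_lit 210) (nat_lit 227) (nat_lit 5) (nat_lit 7) (nat_lit 9) L25100 (by decide +kernel)
theorem L25102 : W_20 (nat_lit 4) (nat_lit 0x1000580020001e001200080000000000000000000000000000000) (nat_lit 0x0) (nat_lit 0x28001e0000000000000000400000000000000000000000000000000000) := T_20 (nat_lit 211) (nat_lit 142) (nat_lit 4) (nat_lit 7) (nat_lit 12) L25101 (by decide +kernel)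
theorem L25103 : W_20 (nat_lit 5) (nat_lit 0x1000580020001e001000080000000000000000000000000000000) (nat_lit 0x0) (nat_lit 0x28001e0000000080000000600000000000000000000000000000000000) := T_20 (nat_lit 141) (nat_lit 175) (nat_lit 5) (nat_lit 5) (nat_lit 8) L25102 (by decide +kernel)
theorem L25104 : W_20 (nat_lit 6) (nat_lit 0x10005800200016001000080000000000000000000000000000000) (nat_lit 0x0) (nat_lit 0x28001e0000000480008000600000000000000000000000000000000000) := T_20 (nat_lit 159) (nat_lit 178) (nat_lit 3) (nat_lit 4) (nat_lit 9) L25103 (by decide +kernel)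
theorem L25105 : W_20 (nat_lit 7) (nat_lit 0x10005800200006001000080000000000000000000000000000000) (nat_lit 0x0) (nat_lit 0x28001e0000000480018000e00000000000000000000000000000000000) := T_20 (nat_lit 160) (nat_lit 143) (nat_lit 6) (nat_lit 7) (nat_lit 11) L25104 (by decide +kernel)
theorem L25106 : W_20 (nat_lit 8) (nat_lit 0x10005800200002001000080000000000000000000000000000000) (nat_lit 0x0) (nat_lit 0x2002b001e80000004e001c000e00000000000000000000000000000000000) := Q_20 (nat_lit 158) (C_20 L25090 (C_20 L25093 (C_20 L25099 (C_20 L25105 N_20)))) (by decide +kernel)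
theorem L25107 : W_20 (nat_lit 2) (nat_lit 0xba00580024001e001000080000000000000000000000000000000) (nat_lit 0x0) (nat_lit 0x2000140000000000000000000000000000000000000000000000000000) := D_20 (nat_lit 212) (nat_lit 210) (nat_lit 229) (nat_lit 0) (nat_lit 8) (nat_lit 12) (nat_lit 7) (nat_lit 7) (nat_lit 9) (by decide +kernel)
theorem L25108 : W_20 (nat_lit 3) (nat_lit 0x3a00580024001e001000080000000000000000000000000000000) (nat_lit 0x0) (nat_lit 0x20001c0000000000000000400000000000000000000000000000000000) := T_20 (nat_lit 211) (nat_lit 142) (nat_lit 4) (nat_lit 7) (nat_lit 12) L25107 (by decide +kernel)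
theorem L25109 : W_20 (nat_lit 4) (nat_lit 0x3800580024001e001000080000000000000000000000000000000) (nat_lit 0x0) (nat_lit 0x20001c6000000000000000400000000000000000000000000000000000) := T_20 (nat_lit 205) (nat_lit 206) (nat_lit 2) (nat_lit 1) (nat_lit 12) L25108 (by decide +kernel)
theorem L25110 : W_20 (nat_lit 5) (nat_lit 0x3000580024001e001000080000000000000000000000000000000) (nat_lit 0x0) (nat_lit 0x21001ce000000000000000400000000000000000000000000000000000) := T_20 (nat_lit 207) (nat_lit 224) (nat_lit 5) (nat_lit 4) (nat_lit 9) L25109 (by decide +kernel)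
theorem L25111 : W_20 (nat_lit 6) (nat_lit 0x30005800240016001000080000000000000000000000000000000) (nat_lit 0x0) (nat_lit 0x21001ce000000400008000400000000000000000000000000000000000) := T_20 (nat_lit 159) (nat_lit 178) (nat_lit 3) (nat_lit 4) (nat_lit 9) L25110 (by decide +kernel)
theorem L25112 : W_20 (nat_lit 7) (nat_lit 0x30005800240012001000080000000000000000000000000000000) (nat_lit 0x0) (nat_lit 0x21001ce00000040000c000600000000000000000000000000000000000) := T_20 (nat_lit 158) (nat_lit 141) (nat_lit 6) (nat_lit 4) (nat_lit 12) L25111 (by decide +kernel)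
theorem L25113 : W_20 (nat_lit 8) (nat_lit 0x10005800240012001000080000000000000000000000000000000) (nat_lit 0x0) (nat_lit 0x25001ee00000040000c000600000000000000000000000000000000000) := T_20 (nat_lit 209) (nat_lit 226) (nat_lit 7) (nat_lit 4) (nat_lit 9) L25112 (by decide +kernel)
theorem L25114 : W_20 (nat_lit 9) (nat_lit 0x10005800240002001000080000000000000000000000000000000) (nat_lit 0x0) (nat_lit 0x25001ee00000040001c000e00000000000000000000000000000000000) := T_20 (nat_lit 160) (nat_lit 143) (nat_lit 6) (nat_lit 7) (nat_lit 11) L25113 (by decide +kernel)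
theorem L25115 : W_20 (nat_lit 10) (nat_lit 0x10005800200002001000080000000000000000000000000000000) (nat_lit 0x0) (nat_lit 0x25c01ee00070047001d000e80000000000000000000000000000000000) := Q_20 (nat_lit 174) (C_20 L25042 (C_20 L25010 (C_20 L24967 (C_20 L25114 N_20)))) (by decide +kernel)
theorem L25116 : W_20 (nat_lit 6) (nat_lit 0x10005800200002001000080000000000000000000000000000000) (nat_lit 0x0) (nat_lit 0x80006000200000004e001d000a80000000000000000000000000000000000) := Q_20 (nat_lit 174) (C_20 L25013 (C_20 L24986 (C_20 L24967 N_20))) (by decide +kernel)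
theorem L25117 : W_20 (nat_lit 2) (nat_lit 0x400020001a005800240013001000080000000000000000000000000000000) (nat_lit 0x0) (nat_lit 0x80000000000020000400000000000000000000000000000000000000000000000) := D_20 (nat_lit 259) (nat_lit 190) (nat_lit 209) (nat_lit 4) (nat_lit 4) (nat_lit 15) (nat_lit 6) (nat_lit 4) (nat_lit 15) (by decide +kernel)
theorem L25118 : W_20 (nat_lit 3) (nat_lit 0x20001a005800240013001000080000000000000000000000000000000) (nat_lit 0x0) (nat_lit 0x80004000000020000400080000000000000000000000000000000000000000000) := T_20 (nat_lit 242) (nat_lit 175) (nat_lit 6) (nat_lit 4) (nat_lit 14) L25117 (by decide +kernel)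
theorem L25119 : W_20 (nat_lit 4) (nat_lit 0x1a005800240013001000080000000000000000000000000000000) (nat_lit 0x0) (nat_lit 0x800040002000200004000a0000000000000000000000000000000000000000000) := T_20 (nat_lit 225) (nat_lit 173) (nat_lit 4) (nat_lit 4) (nat_lit 13) L25118 (by decide +kernel)
theorem L25120 : W_20 (nat_lit 5) (nat_lit 0x1a005800240012001000080000000000000000000000000000000) (nat_lit 0x0) (nat_lit 0x800040002000200004000a0001000080000000000000000000000000000000000) := T_20 (nat_lit 156) (nat_lit 139) (nat_lit 4) (nat_lit 4) (nat_lit 12) L25119 (by decide +kernel)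
theorem L25121 : W_20 (nat_lit 6) (nat_lit 0x18005800240012001000080000000000000000000000000000000) (nat_lit 0x0) (nat_lit 0x800040002000260004000a0001000080000000000000000000000000000000000) := T_20 (nat_lit 205) (nat_lit 206) (nat_lit 2) (nat_lit 1) (nat_lit 12) L25120 (by decide +kernel)
theorem L25122 : W_20 (nat_lit 7) (nat_lit 0x10005800240012001000080000000000000000000000000000000) (nat_lit 0x0) (nat_lit 0x8000400030002e0004000a0001000080000000000000000000000000000000000) := T_20 (nat_lit 207) (nat_lit 224) (nat_lit 5) (nat_lit 4) (nat_lit 9) L25121 (by decide +kernel)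
theorem L25123 : W_20 (nat_lit 8) (nat_lit 0x10005800240002001000080000000000000000000000000000000) (nat_lit 0x0) (nat_lit 0x8000400030002e0004000a0011000880000000000000000000000000000000000) := T_20 (nat_lit 160) (nat_lit 143) (nat_lit 6) (nat_lit 7) (nat_lit 11) L25122 (by decide +kernel)
theorem L25124 : W_20 (nat_lit 2) (nat_lit 0x400060001a005800240012001000080000000000000000000000000000000) (nat_lit 0x0) (nat_lit 0x400020001000000000000000000000000000000000000000) := D_20 (nat_lit 173) (nat_lit 156) (nat_lit 190) (nat_lit 4) (nat_lit 4) (nat_lit 13) (nat_lit 4) (nat_lit 4) (nat_lit 14) (by decide +kernel)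
theorem L25125 : W_20 (nat_lit 3) (nat_lit 0x60001a005800240012001000080000000000000000000000000000000) (nat_lit 0x0) (nat_lit 0x40000000000004000a0001000000000000000000000000000000000000000) := T_20 (nat_lit 242) (nat_lit 175) (nat_lit 6) (nat_lit 4) (nat_lit 14) L25124 (by decide +kernel)
theorem L25126 : W_20 (nat_lit 4) (nat_lit 0x40001a005800240012001000080000000000000000000000000000000) (nat_lit 0x0) (nat_lit 0xc0002000000004000a0001000000000000000000000000000000000000000) := T_20 (nat_lit 225) (nat_lit 243) (nat_lit 7) (nat_lit 4) (nat_lit 10) L25125 (by decide +kernel)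
theorem L25127 : W_20 (nat_lit 5) (nat_lit 0x1a005800240012001000080000000000000000000000000000000) (nat_lit 0x0) (nat_lit 0xc0006000200004000a0001000000000000000000000000000000000000000) := T_20 (nat_lit 226) (nat_lit 209) (nat_lit 7) (nat_lit 4) (nat_lit 9) L25126 (by decide +kernel)
theorem L25128 : W_20 (nat_lit 6) (nat_lit 0x1a005800240002001000080000000000000000000000000000000) (nat_lit 0x0) (nat_lit 0xc0006000200004000a0011000800000000000000000000000000000000000) := T_20 (nat_lit 160) (nat_lit 143) (nat_lit 6) (nat_lit 7) (nat_lit 11) L25127 (by decide +kernel)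
theorem L25129 : W_20 (nat_lit 7) (nat_lit 0x18005800240002001000080000000000000000000000000000000) (nat_lit 0x0) (nat_lit 0xc0006000260004000a0011000800000000000000000000000000000000000) := T_20 (nat_lit 205) (nat_lit 206) (nat_lit 2) (nat_lit 1) (nat_lit 12) L25128 (by decide +kernel)
theorem L25130 : W_20 (nat_lit 8) (nat_lit 0x10005800240002001000080000000000000000000000000000000) (nat_lit 0x0) (nat_lit 0xc00070002e0004000a0011000800000000000000000000000000000000000) := T_20 (nat_lit 207) (nat_lit 224) (nat_lit 5) (nat_lit 4) (nat_lit 9) L25129 (by decide +kernel)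
theorem L25131 : W_20 (nat_lit 2) (nat_lit 0x8003c005e00250013801000080000000000000000000000000000000) (nat_lit 0x0) (nat_lit 0x80000400020000000000000000000000000000000000) := D_20 (nat_lit 154) (nat_lit 137) (nat_lit 175) (nat_lit 4) (nat_lit 2) (nat_lit 12) (nat_lit 3) (nat_lit 1) (nat_lit 9) (by decide +kernel)
theorem L25132 : W_20 (nat_lit 3) (nat_lit 0x8003c005e00250013001000080000000000000000000000000000000) (nat_lit 0x0) (nat_lit 0x80000c00060000000000000000000000000000000000) := T_20 (nat_lit 155) (nat_lit 138) (nat_lit 7) (nat_lit 2) (nat_lit 8) L25131 (by decide +kernel)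
theorem L25133 : W_20 (nat_lit 4) (nat_lit 0x8003c005e00240013001000080000000000000000000000000000000) (nat_lit 0x0) (nat_lit 0x98000c00060000000000000000000000000000000000) := T_20 (nat_lit 172) (nat_lit 171) (nat_lit 0) (nat_lit 5) (nat_lit 11) L25132 (by decide +kernel)
theorem L25134 : W_20 (nat_lit 5) (nat_lit 0x8003c005a00240013001000080000000000000000000000000000000) (nat_lit 0x0) (nat_lit 0x40000400098000c00060000000000000000000000000000000000) := T_20 (nat_lit 190) (nat_lit 210) (nat_lit 3) (nat_lit 2) (nat_lit 11) L25133 (by decide +kernel)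
theorem L25135 : W_20 (nat_lit 6) (nat_lit 0x3c005a00240013001000080000000000000000000000000000000) (nat_lit 0x0) (nat_lit 0xc0040000400098000c00060000000000000000000000000000000000) := T_20 (nat_lit 223) (nat_lit 222) (nat_lit 1) (nat_lit 5) (nat_lit 12) L25134 (by decide +kernel)
theorem L25136 : W_20 (nat_lit 7) (nat_lit 0x3c005800240013001000080000000000000000000000000000000) (nat_lit 0x0) (nat_lit 0xc0040000700098000c00060000000000000000000000000000000000) := T_20 (nat_lit 189) (nat_lit 188) (nat_lit 0) (nat_lit 5) (nat_lit 12) L25135 (by decide +kernel)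
theorem L25137 : W_20 (nat_lit 8) (nat_lit 0x3c005800240003001000080000000000000000000000000000000) (nat_lit 0x0) (nat_lit 0xc0040000700098010c00860000000000000000000000000000000000) := T_20 (nat_lit 160) (nat_lit 143) (nat_lit 6) (nat_lit 7) (nat_lit 11) L25136 (by decide +kernel)
theorem L25138 : W_20 (nat_lit 9) (nat_lit 0x38005800240003001000080000000000000000000000000000000) (nat_lit 0x0) (nat_lit 0xc0046000700098010c00860000000000000000000000000000000000) := T_20 (nat_lit 206) (nat_lit 205) (nat_lit 2) (nat_lit 1) (nat_lit 12) L25137 (by decide +kernel)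
theorem L25139 : W_20 (nat_lit 10) (nat_lit 0x30005800240003001000080000000000000000000000000000000) (nat_lit 0x0) (nat_lit 0x1c004e000700098010c00860000000000000000000000000000000000) := T_20 (nat_lit 207) (nat_lit 224) (nat_lit 5) (nat_lit 4) (nat_lit 9) L25138 (by decide +kernel)
theorem L25140 : W_20 (nat_lit 11) (nat_lit 0x30005800240002001000080000000000000000000000000000000) (nat_lit 0x0) (nat_lit 0x1c004e000700098011c008e0000000000000000000000000000000000) := T_20 (nat_lit 156) (nat_lit 139) (nat_lit 4) (nat_lit 4) (nat_lit 12) L25139 (by decide +kernel)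
theorem L25141 : W_20 (nat_lit 12) (nat_lit 0x10005800240002001000080000000000000000000000000000000) (nat_lit 0x0) (nat_lit 0x5c006e000700098011c008e0000000000000000000000000000000000) := T_20 (nat_lit 209) (nat_lit 226) (nat_lit 7) (nat_lit 4) (nat_lit 9) L25140 (by decide +kernel)
theorem L25142 : W_20 (nat_lit 2) (nat_lit 0x8007c005a00240012001000080000000000000000000000000000000) (nat_lit 0x0) (nat_lit 0x800180000000000000000000000000000000000000000000000000000) := D_20 (nat_lit 211) (nat_lit 212) (nat_lit 227) (nat_lit 0) (nat_lit 8) (nat_lit 12) (nat_lit 5) (nat_lit 7) (nat_lit 9) (by decide +kernel)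
theorem L25143 : W_20 (nat_lit 3) (nat_lit 0x8003c005a00240012001000080000000000000000000000000000000) (nat_lit 0x0) (nat_lit 0x8001c0000400000000000000000000000000000000000000000000000) := T_20 (nat_lit 210) (nat_lit 190) (nat_lit 3) (nat_lit 2) (nat_lit 11) L25142 (by decide +kernel)
theorem L25144 : W_20 (nat_lit 4) (nat_lit 0x8003c005800240012001000080000000000000000000000000000000) (nat_lit 0x0) (nat_lit 0x8001c0000700000000000000000000000000000000000000000000000) := T_20 (nat_lit 189) (nat_lit 188) (nat_lit 0) (nat_lit 5) (nat_lit 12) L25143 (by decide +kernel)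
theorem L25145 : W_20 (nat_lit 5) (nat_lit 0x3c005800240012001000080000000000000000000000000000000) (nat_lit 0x0) (nat_lit 0x8c01c0000700000000000000000000000000000000000000000000000) := T_20 (nat_lit 223) (nat_lit 222) (nat_lit 1) (nat_lit 5) (nat_lit 12) L25144 (by decide +kernel)
theorem L25146 : W_20 (nat_lit 6) (nat_lit 0x38005800240012001000080000000000000000000000000000000) (nat_lit 0x0) (nat_lit 0x8c01c6000700000000000000000000000000000000000000000000000) := T_20 (nat_lit 206) (nat_lit 205) (nat_lit 2) (nat_lit 1) (nat_lit 12) L25145 (by decide +kernel)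
theorem L25147 : W_20 (nat_lit 7) (nat_lit 0x30005800240012001000080000000000000000000000000000000) (nat_lit 0x0) (nat_lit 0x9c01ce000700000000000000000000000000000000000000000000000) := T_20 (nat_lit 207) (nat_lit 224) (nat_lit 5) (nat_lit 4) (nat_lit 9) L25146 (by decide +kernel)
theorem L25148 : W_20 (nat_lit 8) (nat_lit 0x10005800240012001000080000000000000000000000000000000) (nat_lit 0x0) (nat_lit 0xdc01ee000700000000000000000000000000000000000000000000000) := T_20 (nat_lit 209) (nat_lit 226) (nat_lit 7) (nat_lit 4) (nat_lit 9) L25147 (by decide +kernel)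
theorem L25149 : W_20 (nat_lit 9) (nat_lit 0x10005800240002001000080000000000000000000000000000000) (nat_lit 0x0) (nat_lit 0xdc01ee000700000010000800000000000000000000000000000000000) := T_20 (nat_lit 160) (nat_lit 143) (nat_lit 6) (nat_lit 7) (nat_lit 11) L25148 (by decide +kernel)
theorem L25150 : W_20 (nat_lit 13) (nat_lit 0x10005800200002001000080000000000000000000000000000000) (nat_lit 0x0) (nat_lit 0x18000e000fc01ee0007000f8011c008e0000000000000000000000000000000000) := Q_20 (nat_lit 174) (C_20 L25060 (C_20 L25042 (C_20 L25002 (C_20 L25123 (C_20 L24986 (C_20 L25130 (C_20 L25141 (C_20 L25149 N_20)))))))) (by decide +kernel)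
theorem L25151 : W_20 (nat_lit 2) (nat_lit 0xd000580020001e001000080000000000000000000000000000000) (nat_lit 0x0) (nat_lit 0x2000120000000000000000000000000000000000000000000000000000) := D_20 (nat_lit 212) (nat_lit 209) (nat_lit 229) (nat_lit 0) (nat_lit 8) (nat_lit 12) (nat_lit 7) (nat_lit 7) (nat_lit 9) (by decide +kernel)
theorem L25152 : W_20 (nat_lit 3) (nat_lit 0x9000580020001e001000080000000000000000000000000000000) (nat_lit 0x0) (nat_lit 0x2800160000000000000000000000000000000000000000000000000000) := T_20 (nat_lit 210) (nat_lit 227) (nat_lit 5) (nat_lit 7) (nat_lit 9) L25151 (by decide +kernel)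
theorem L25153 : W_20 (nat_lit 4) (nat_lit 0x1000580020001e001000080000000000000000000000000000000) (nat_lit 0x0) (nat_lit 0x28001e0000000000000000400000000000000000000000000000000000) := T_20 (nat_lit 211) (nat_lit 142) (nat_lit 4) (nat_lit 7) (nat_lit 12) L25152 (by decide +kernel)
theorem L25154 : W_20 (nat_lit 5) (nat_lit 0x10005800200016001000080000000000000000000000000000000) (nat_lit 0x0) (nat_lit 0x28001e0000000400008000400000000000000000000000000000000000) := T_20 (nat_lit 159) (nat_lit 178) (nat_lit 3) (nat_lit 4) (nat_lit 9) L25153 (by decide +kernel)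
theorem L25155 : W_20 (nat_lit 6) (nat_lit 0x10005800200006001000080000000000000000000000000000000) (nat_lit 0x0) (nat_lit 0x28001e0000000400018000c00000000000000000000000000000000000) := T_20 (nat_lit 160) (nat_lit 143) (nat_lit 6) (nat_lit 7) (nat_lit 11) L25154 (by decide +kernel)
theorem L25156 : W_20 (nat_lit 2) (nat_lit 0x10005800280006001000080000000000000000000000000000000) (nat_lit 0x0) (nat_lit 0x4000200020000000000000000000000000000000000000000000000000000) := D_20 (nat_lit 225) (nat_lit 209) (nat_lit 242) (nat_lit 5) (nat_lit 5) (nat_lit 9) (nat_lit 6) (nat_lit 4) (nat_lit 14) (by decide +kernel)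
theorem L25157 : W_20 (nat_lit 3) (nat_lit 0x10005800200006001000080000000000000000000000000000000) (nat_lit 0x0) (nat_lit 0x4000200020000000080000000200000000000000000000000000000000000) := T_20 (nat_lit 175) (nat_lit 141) (nat_lit 5) (nat_lit 5) (nat_lit 8) L25156 (by decide +kernel)
theorem L25158 : W_20 (nat_lit 2) (nat_lit 0x10005800200006001200080000000000000000000000000000000) (nat_lit 0x0) (nat_lit 0x10000c00000000000000000000000000000000000) := D_20 (nat_lit 143) (nat_lit 142) (nat_lit 160) (nat_lit 1) (nat_lit 8) (nat_lit 8) (nat_lit 6) (nat_lit 7) (nat_lit 11) (by decide +kernel)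
theorem L25159 : W_20 (nat_lit 3) (nat_lit 0x10005800200006001000080000000000000000000000000000000) (nat_lit 0x0) (nat_lit 0x80010000e00000000000000000000000000000000000) := T_20 (nat_lit 141) (nat_lit 175) (nat_lit 5) (nat_lit 5) (nat_lit 8) L25158 (by decide +kernel)
theorem L25160 : W_20 (nat_lit 8) (nat_lit 0x10005800200002001000080000000000000000000000000000000) (nat_lit 0x0) (nat_lit 0x4002a001e000000048001c000e00000000000000000000000000000000000) := Q_20 (nat_lit 158) (C_20 L25105 (C_20 L25155 (C_20 L25157 (C_20 L25159 N_20)))) (by decide +kernel)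
theorem L25161 : W_20 (nat_lit 14) (nat_lit 0x5800200002001000080000000000000000000000000000000) (nat_lit 0x0) (nat_lit 0x18000e002fc01fe0007004f801dc00ee0000000000000000000000000000000000) := Q_20 (nat_lit 208) (C_20 L25087 (C_20 L25088 (C_20 L25089 (C_20 L25106 (C_20 L25115 (C_20 L25116 (C_20 L25150 (C_20 L25160 N_20)))))))) (by decide +kernel)
theorem L25162 : W_20 (nat_lit 2) (nat_lit 0x20005800280006001000080000000000000000000000000000000) (nat_lit 0x0) (nat_lit 0x200010000000000000000200000000000000000000000000000000000) := D_20 (nat_lit 208) (nat_lit 141) (nat_lit 225) (nat_lit 5) (nat_lit 5) (nat_lit 8) (nat_lit 5) (nat_lit 5) (nat_lit 9) (by decide +kernel)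
theorem L25163 : W_20 (nat_lit 3) (nat_lit 0x5800280006001000080000000000000000000000000000000) (nat_lit 0x0) (nat_lit 0x200030000000000000000300000000000000000000000000000000000) := T_20 (nat_lit 209) (nat_lit 140) (nat_lit 4) (nat_lit 5) (nat_lit 12) L25162 (by decide +kernel)
theorem L25164 : W_20 (nat_lit 2) (nat_lit 0x70005800280006001000080000000000000000000000000000000) (nat_lit 0x0) (nat_lit 0x80000600000000000000000000000000000000000000000000000) := D_20 (nat_lit 190) (nat_lit 189) (nat_lit 211) (nat_lit 3) (nat_lit 2) (nat_lit 11) (nat_lit 0) (nat_lit 7) (nat_lit 12) (by decide +kernel)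
theorem L25165 : W_20 (nat_lit 3) (nat_lit 0x30005800280006001000080000000000000000000000000000000) (nat_lit 0x0) (nat_lit 0x8000c0000600000000000000000000000000000000000000000000000) := T_20 (nat_lit 210) (nat_lit 227) (nat_lit 7) (nat_lit 5) (nat_lit 9) L25164 (by decide +kernel)
theorem L25166 : W_20 (nat_lit 4) (nat_lit 0x20005800280006001000080000000000000000000000000000000) (nat_lit 0x0) (nat_lit 0xa000d0000600000000000000000000000000000000000000000000000) := T_20 (nat_lit 208) (nat_lit 225) (nat_lit 5) (nat_lit 5) (nat_lit 9) L25165 (by decide +kernel)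
theorem L25167 : W_20 (nat_lit 5) (nat_lit 0x5800280006001000080000000000000000000000000000000) (nat_lit 0x0) (nat_lit 0xa000f0000600000000000100000000000000000000000000000000000) := T_20 (nat_lit 209) (nat_lit 140) (nat_lit 4) (nat_lit 5) (nat_lit 12) L25166 (by decide +kernel)
theorem L25168 : W_20 (nat_lit 2) (nat_lit 0x5800280006001200080000000000000000000000000000000) (nat_lit 0x0) (nat_lit 0xc00020000000000000000000000000000000) := D_20 (nat_lit 142) (nat_lit 143) (nat_lit 125) (nat_lit 1) (nat_lit 8) (nat_lit 8) (nat_lit 6) (nat_lit 5) (nat_lit 11) (by decide +kernel)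
theorem L25169 : W_20 (nat_lit 3) (nat_lit 0x5800280006001000080000000000000000000000000000000) (nat_lit 0x0) (nat_lit 0x10000000000000000e00020000000000000000000000000000000) := T_20 (nat_lit 141) (nat_lit 208) (nat_lit 5) (nat_lit 5) (nat_lit 8) L25168 (by decide +kernel)
theorem L25170 : W_20 (nat_lit 2) (nat_lit 0x20005800280006001400080000000000000000000000000000000) (nat_lit 0x0) (nat_lit 0xa00020000000000000000000000000000000) := D_20 (nat_lit 141) (nat_lit 125) (nat_lit 143) (nat_lit 6) (nat_lit 5) (nat_lit 11) (nat_lit 1) (nat_lit 8) (nat_lit 8) (by decide +kernel)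
theorem L25171 : W_20 (nat_lit 3) (nat_lit 0x20005800280006001000080000000000000000000000000000000) (nat_lit 0x0) (nat_lit 0x8000e00020000000000000000000000000000000) := T_20 (nat_lit 142) (nat_lit 159) (nat_lit 6) (nat_lit 5) (nat_lit 12) L25170 (by decide +kernel)
theorem L25172 : W_20 (nat_lit 4) (nat_lit 0x5800280006001000080000000000000000000000000000000) (nat_lit 0x0) (nat_lit 0x20000000000008000f00020000000000000000000000000000000) := T_20 (nat_lit 209) (nat_lit 140) (nat_lit 4) (nat_lit 5) (nat_lit 12) L25171 (by decide +kernel)
theorem L25173 : W_20 (nat_lit 6) (nat_lit 0x5800200006001000080000000000000000000000000000000) (nat_lit 0x0) (nat_lit 0xa000f0000600080008000f00020000000000000000000000000000000) := Q_20 (nat_lit 175) (C_20 L25163 (C_20 L25167 (C_20 L25169 (C_20 L25172 N_20)))) (by decide +kernel)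
theorem L25174 : W_20 (nat_lit 2) (nat_lit 0x580024001e001000080000000000000000000000000000000) (nat_lit 0x0) (nat_lit 0x20000000000000000180000000000000000000000000000000000) := D_20 (nat_lit 140) (nat_lit 139) (nat_lit 209) (nat_lit 0) (nat_lit 7) (nat_lit 9) (nat_lit 7) (nat_lit 4) (nat_lit 8) (by decide +kernel)
theorem L25175 : W_20 (nat_lit 3) (nat_lit 0x580020001e001000080000000000000000000000000000000) (nat_lit 0x0) (nat_lit 0x20000000060000000180000000000000000000000000000000000) := T_20 (nat_lit 174) (nat_lit 173) (nat_lit 1) (nat_lit 7) (nat_lit 9) L25174 (by decide +kernel)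
theorem L25176 : W_20 (nat_lit 4) (nat_lit 0x5800200016001000080000000000000000000000000000000) (nat_lit 0x0) (nat_lit 0x20000000460008000180000000000000000000000000000000000) := T_20 (nat_lit 159) (nat_lit 178) (nat_lit 3) (nat_lit 4) (nat_lit 9) L25175 (by decide +kernel)
theorem L25177 : W_20 (nat_lit 5) (nat_lit 0x5800200006001000080000000000000000000000000000000) (nat_lit 0x0) (nat_lit 0x20000000460018000980000000000000000000000000000000000) := T_20 (nat_lit 160) (nat_lit 143) (nat_lit 6) (nat_lit 7) (nat_lit 11) L25176 (by decide +kernel)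
theorem L25178 : W_20 (nat_lit 2) (nat_lit 0x5800280006001200090000000000000000000000000000000) (nat_lit 0x0) (nat_lit 0x400020001000000000000000000000000000) := D_20 (nat_lit 125) (nat_lit 108) (nat_lit 142) (nat_lit 6) (nat_lit 5) (nat_lit 10) (nat_lit 6) (nat_lit 5) (nat_lit 11) (by decide +kernel)
theorem L25179 : W_20 (nat_lit 3) (nat_lit 0x5800280006001200080000000000000000000000000000000) (nat_lit 0x0) (nat_lit 0x40000000400030001000000000000000000000000000) := T_20 (nat_lit 124) (nat_lit 174) (nat_lit 5) (nat_lit 5) (nat_lit 7) L25178 (by decide +kernel)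
theorem L25180 : W_20 (nat_lit 4) (nat_lit 0x5800280006001000080000000000000000000000000000000) (nat_lit 0x0) (nat_lit 0x10000000040000000600030001000000000000000000000000000) := T_20 (nat_lit 141) (nat_lit 208) (nat_lit 5) (nat_lit 5) (nat_lit 8) L25179 (by decide +kernel)
theorem L25181 : W_20 (nat_lit 2) (nat_lit 0x160005c002a001f001040080000000000000000000000000000000) (nat_lit 0x0) (nat_lit 0x8000000000000800020000000000000000000000000000000000) := D_20 (nat_lit 155) (nat_lit 137) (nat_lit 207) (nat_lit 0) (nat_lit 5) (nat_lit 9) (nat_lit 4) (nat_lit 3) (nat_lit 12) (by decide +kernel)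
theorem L25182 : W_20 (nat_lit 3) (nat_lit 0x160005c002a001f001000080000000000000000000000000000000) (nat_lit 0x0) (nat_lit 0x80000000000008000e0000000000000000000000000000000000) := T_20 (nat_lit 138) (nat_lit 139) (nat_lit 0) (nat_lit 6) (nat_lit 9) L25181 (by decide +kernel)
theorem L25183 : W_20 (nat_lit 4) (nat_lit 0x160005c002a001e001000080000000000000000000000000000000) (nat_lit 0x0) (nat_lit 0x80000000100018000e0000000000000000000000000000000000) := T_20 (nat_lit 156) (nat_lit 172) (nat_lit 1) (nat_lit 6) (nat_lit 9) L25182 (by decide +kernel)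
theorem L25184 : W_20 (nat_lit 5) (nat_lit 0x60005c002a001e001000080000000000000000000000000000000) (nat_lit 0x0) (nat_lit 0x1880000000100018000e0000000000000000000000000000000000) := T_20 (nat_lit 212) (nat_lit 211) (nat_lit 0) (nat_lit 8) (nat_lit 12) L25183 (by decide +kernel)
theorem L25185 : W_20 (nat_lit 6) (nat_lit 0x600058002a001e001000080000000000000000000000000000000) (nat_lit 0x0) (nat_lit 0x1880006000100018000e0000000000000000000000000000000000) := T_20 (nat_lit 190) (nat_lit 189) (nat_lit 3) (nat_lit 2) (nat_lit 11) L25184 (by decide +kernel)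
theorem L25186 : W_20 (nat_lit 7) (nat_lit 0x200058002a001e001000080000000000000000000000000000000) (nat_lit 0x0) (nat_lit 0x8001c80006000100018000e0000000000000000000000000000000000) := T_20 (nat_lit 210) (nat_lit 227) (nat_lit 7) (nat_lit 5) (nat_lit 9) L25185 (by decide +kernel)
theorem L25187 : W_20 (nat_lit 8) (nat_lit 0x2000580028001e001000080000000000000000000000000000000) (nat_lit 0x0) (nat_lit 0x8001c80006000700018000e0000000000000000000000000000000000) := T_20 (nat_lit 173) (nat_lit 174) (nat_lit 1) (nat_lit 7) (nat_lit 9) L25186 (by decide +kernel)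
theorem L25188 : W_20 (nat_lit 9) (nat_lit 0x2000580028000e001000080000000000000000000000000000000) (nat_lit 0x0) (nat_lit 0x8001c80006004700118000e0000000000000000000000000000000000) := T_20 (nat_lit 160) (nat_lit 178) (nat_lit 3) (nat_lit 4) (nat_lit 9) L25187 (by decide +kernel)
theorem L25189 : W_20 (nat_lit 10) (nat_lit 0x20005800280006001000080000000000000000000000000000000) (nat_lit 0x0) (nat_lit 0x8001c80006004700198004e0000000000000000000000000000000000) := T_20 (nat_lit 159) (nat_lit 142) (nat_lit 6) (nat_lit 5) (nat_lit 12) L25188 (by decide +kernel)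
theorem L25190 : W_20 (nat_lit 11) (nat_lit 0x5800280006001000080000000000000000000000000000000) (nat_lit 0x0) (nat_lit 0x8001e80006004700198005e0000000000000000000000000000000000) := T_20 (nat_lit 209) (nat_lit 140) (nat_lit 4) (nat_lit 5) (nat_lit 12) L25189 (by decide +kernel)
theorem L25191 : W_20 (nat_lit 12) (nat_lit 0x5800200006001000080000000000000000000000000000000) (nat_lit 0x0) (nat_lit 0xa001f80006004f00198007e0030001000000000000000000000000000) := Q_20 (nat_lit 175) (C_20 L25167 (C_20 L25163 (C_20 L25180 (C_20 L25190 N_20)))) (by decide +kernel)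
theorem L25192 : W_20 (nat_lit 4) (nat_lit 0x8000580024001e001000080000000000000000000000000000000) (nat_lit 0x0) (nat_lit 0x2000300018000000080000000200000000000000000000000000000000000) := T_20 (nat_lit 208) (nat_lit 141) (nat_lit 6) (nat_lit 4) (nat_lit 12) L25095 (by decide +kernel)
theorem L25193 : W_20 (nat_lit 5) (nat_lit 0x580024001e001000080000000000000000000000000000000) (nat_lit 0x0) (nat_lit 0x2000300098000000080000000600000000000000000000000000000000000) := T_20 (nat_lit 211) (nat_lit 142) (nat_lit 4) (nat_lit 7) (nat_lit 12) L25192 (by decide +kernel)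
theorem L25194 : W_20 (nat_lit 6) (nat_lit 0x580020001e001000080000000000000000000000000000000) (nat_lit 0x0) (nat_lit 0x20003000980000000e0000000600000000000000000000000000000000000) := T_20 (nat_lit 174) (nat_lit 173) (nat_lit 1) (nat_lit 7) (nat_lit 9) L25193 (by decide +kernel)
theorem L25195 : W_20 (nat_lit 7) (nat_lit 0x5800200016001000080000000000000000000000000000000) (nat_lit 0x0) (nat_lit 0x20003000980000004e0008000600000000000000000000000000000000000) := T_20 (nat_lit 159) (nat_lit 178) (nat_lit 3) (nat_lit 4) (nat_lit 9) L25194 (by decide +kernel)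
theorem L25196 : W_20 (nat_lit 8) (nat_lit 0x5800200006001000080000000000000000000000000000000) (nat_lit 0x0) (nat_lit 0x20003000980000004e0018000e00000000000000000000000000000000000) := T_20 (nat_lit 160) (nat_lit 143) (nat_lit 6) (nat_lit 7) (nat_lit 11) L25195 (by decide +kernel)
theorem L25197 : W_20 (nat_lit 2) (nat_lit 0x5800200006001a00080000000000000000000000000000000) (nat_lit 0x0) (nat_lit 0x100000000c0000000000000000000000000000000000000000000) := D_20 (nat_lit 208) (nat_lit 174) (nat_lit 175) (nat_lit 6) (nat_lit 4) (nat_lit 12) (nat_lit 5) (nat_lit 5) (nat_lit 8) (by decide +kernel)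
theorem L25198 : W_20 (nat_lit 3) (nat_lit 0x5800200006001800080000000000000000000000000000000) (nat_lit 0x0) (nat_lit 0x100000000c0000000600000000000000000000000000000000000) := T_20 (nat_lit 141) (nat_lit 142) (nat_lit 1) (nat_lit 8) (nat_lit 8) L25197 (by decide +kernel)
theorem L25199 : W_20 (nat_lit 4) (nat_lit 0x5800200006001000080000000000000000000000000000000) (nat_lit 0x0) (nat_lit 0x100000000c0010000e00000000000000000000000000000000000) := T_20 (nat_lit 143) (nat_lit 160) (nat_lit 6) (nat_lit 7) (nat_lit 11) L25198 (by decide +kernel)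
theorem L25200 : W_20 (nat_lit 13) (nat_lit 0x5800200002001000080000000000000000000000000000000) (nat_lit 0x0) (nat_lit 0x2000b001f80006004f001d800fe0030001000000000000000000000000000) := Q_20 (nat_lit 158) (C_20 L25173 (C_20 L25177 (C_20 L25191 (C_20 L25196 (C_20 L25199 N_20))))) (by decide +kernel)
theorem L25201 : W_20 (nat_lit 4) (nat_lit 0x5800200002001100080000000000000000000000000000000) (nat_lit 0x0) (nat_lit 0x280004000e0000000000008000000000000000000000000000000) := T_20 (nat_lit 174) (nat_lit 209) (nat_lit 7) (nat_lit 4) (nat_lit 8) L25022 (by decide +kernel)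
theorem L25202 : W_20 (nat_lit 7) (nat_lit 0x5800200002001100080000000000000000000000000000000) (nat_lit 0x0) (nat_lit 0x80004000e001c000e8001c000a00000000000000000000000000) := Q_20 (nat_lit 174) (C_20 L25071 (C_20 L25022 (C_20 L24963 (C_20 L25066 N_20)))) (by decide +kernel)
theorem L25203 : W_20 (nat_lit 5) (nat_lit 0x5800200012001100080000000000000000000000000000000) (nat_lit 0x0) (nat_lit 0x28000400060000000200018000800000000000000000000000000) := T_20 (nat_lit 174) (nat_lit 209) (nat_lit 7) (nat_lit 4) (nat_lit 8) L25070 (by decide +kernel)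
theorem L25204 : W_20 (nat_lit 6) (nat_lit 0x5800200002001100080000000000000000000000000000000) (nat_lit 0x0) (nat_lit 0x28000400060010000a00018000800000000000000000000000000) := T_20 (nat_lit 160) (nat_lit 143) (nat_lit 6) (nat_lit 7) (nat_lit 11) L25203 (by decide +kernel)
theorem L25205 : W_20 (nat_lit 4) (nat_lit 0x5800200002001100080000000000000000000000000000000) (nat_lit 0x0) (nat_lit 0x200000000c000000008000c000200000000000000000000000000) := T_20 (nat_lit 174) (nat_lit 209) (nat_lit 7) (nat_lit 4) (nat_lit 8) L24963 (by decide +kernel)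
theorem L25206 : W_20 (nat_lit 6) (nat_lit 0x5800200012001100080000000000000000000000000000000) (nat_lit 0x0) (nat_lit 0x2800040004000c000680014000000000000000000000000000000) := T_20 (nat_lit 174) (nat_lit 209) (nat_lit 7) (nat_lit 4) (nat_lit 8) L25065 (by decide +kernel)
theorem L25207 : W_20 (nat_lit 7) (nat_lit 0x5800200002001100080000000000000000000000000000000) (nat_lit 0x0) (nat_lit 0x2800040004001c000e80014000000000000000000000000000000) := T_20 (nat_lit 160) (nat_lit 143) (nat_lit 6) (nat_lit 7) (nat_lit 11) L25206 (by decide +kernel)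
theorem L25208 : W_20 (nat_lit 2) (nat_lit 0x5800200016001100080000000000000000000000000000000) (nat_lit 0x0) (nat_lit 0x400008000080000000000000000000000000000000000) := D_20 (nat_lit 159) (nat_lit 178) (nat_lit 139) (nat_lit 3) (nat_lit 4) (nat_lit 9) (nat_lit 0) (nat_lit 7) (nat_lit 9) (by decide +kernel)
theorem L25209 : W_20 (nat_lit 3) (nat_lit 0x5800200006001100080000000000000000000000000000000) (nat_lit 0x0) (nat_lit 0x400018000880000000000000000000000000000000000) := T_20 (nat_lit 160) (nat_lit 143) (nat_lit 6) (nat_lit 7) (nat_lit 11) L25208 (by decide +kernel)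
theorem L25210 : W_20 (nat_lit 2) (nat_lit 0x5800280006001100080000000000000000000000000000000) (nat_lit 0x0) (nat_lit 0x200008000400000000000000000000000000) := D_20 (nat_lit 123) (nat_lit 141) (nat_lit 106) (nat_lit 4) (nat_lit 5) (nat_lit 11) (nat_lit 7) (nat_lit 4) (nat_lit 6) (by decide +kernel)
theorem L25211 : W_20 (nat_lit 3) (nat_lit 0x5800200006001100080000000000000000000000000000000) (nat_lit 0x0) (nat_lit 0x20000000080000000200008000400000000000000000000000000) := T_20 (nat_lit 175) (nat_lit 209) (nat_lit 4) (nat_lit 5) (nat_lit 12) L25210 (by decide +kernel)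
theorem L25212 : W_20 (nat_lit 4) (nat_lit 0x5800200002001100080000000000000000000000000000000) (nat_lit 0x0) (nat_lit 0x2000000048001c000a80008000400000000000000000000000000) := Q_20 (nat_lit 158) (C_20 L25209 (C_20 L25211 N_20)) (by decide +kernel)
theorem L25213 : W_20 (nat_lit 8) (nat_lit 0x5800200002001000080000000000000000000000000000000) (nat_lit 0x0) (nat_lit 0x280004004e001c000f8001c000e00000000000000000000000000) := Q_20 (nat_lit 140) (C_20 L25201 (C_20 L25202 (C_20 L25204 (C_20 L25205 (C_20 L25207 (C_20 L25212 N_20)))))) (by decide +kernel)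
theorem L25214 : W_20 (nat_lit 10) (nat_lit 0x5800240002001000080000000000000000000000000000000) (nat_lit 0x0) (nat_lit 0xdc01fe00070043001d000a80000000000000000000000000000000000) := Q_20 (nat_lit 208) (C_20 L25149 (C_20 L25010 (C_20 L24967 N_20))) (by decide +kernel)
theorem L25215 : W_20 (nat_lit 5) (nat_lit 0x5800240012001000080000000000000000000000000000000) (nat_lit 0x0) (nat_lit 0x28000400020000000300018000800000000000000000000000000) := T_20 (nat_lit 140) (nat_lit 209) (nat_lit 7) (nat_lit 4) (nat_lit 8) L25070 (by decide +kernel)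
theorem L25216 : W_20 (nat_lit 6) (nat_lit 0x5800240002001000080000000000000000000000000000000) (nat_lit 0x0) (nat_lit 0x28000400020010000b00018000800000000000000000000000000) := T_20 (nat_lit 160) (nat_lit 143) (nat_lit 6) (nat_lit 7) (nat_lit 11) L25215 (by decide +kernel)
theorem L25217 : W_20 (nat_lit 11) (nat_lit 0x5800200002001000080000000000000000000000000000000) (nat_lit 0x0) (nat_lit 0xdc01fe00070047001d000f8001c000a00000000000000000000000000) := Q_20 (nat_lit 174) (C_20 L25015 (C_20 L25072 (C_20 L25051 (C_20 L25214 (C_20 L24993 (C_20 L25216 N_20)))))) (by decide +kernel)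
theorem L25218 : W_20 (nat_lit 10) (nat_lit 0x5800240002001000080000000000000000000000000000000) (nat_lit 0x0) (nat_lit 0x18000e000fc01fe0007000a0011000880000000000000000000000000000000000) := Q_20 (nat_lit 208) (C_20 L25149 (C_20 L25002 (C_20 L25060 (C_20 L25123 (C_20 L24986 N_20))))) (by decide +kernel)
theorem L25219 : W_20 (nat_lit 11) (nat_lit 0x5800200002001000080000000000000000000000000000000) (nat_lit 0x0) (nat_lit 0x18000e000fc01fe0007000e0019800f8001c000a00000000000000000000000000) := Q_20 (nat_lit 174) (C_20 L25052 (C_20 L25216 (C_20 L25079 (C_20 L25218 (C_20 L24964 N_20))))) (by decide +kernel)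
theorem L25220 : W_20 (nat_lit 10) (nat_lit 0x5800240002001000080000000000000000000000000000000) (nat_lit 0x0) (nat_lit 0xa000fc01fe000700080014000a00000000000000000000000000000000000) := Q_20 (nat_lit 208) (C_20 L25149 (C_20 L25013 (C_20 L24970 N_20))) (by decide +kernel)
theorem L25221 : W_20 (nat_lit 11) (nat_lit 0x5800200002001000080000000000000000000000000000000) (nat_lit 0x0) (nat_lit 0xa000fc01fe0007004e001c000b00018000800000000000000000000000000) := Q_20 (nat_lit 174) (C_20 L25052 (C_20 L25216 (C_20 L25085 (C_20 L25220 (C_20 L24961 N_20))))) (by decide +kernel)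
theorem L25222 : W_20 (nat_lit 6) (nat_lit 0x5800240002001000080000000000000000000000000000000) (nat_lit 0x0) (nat_lit 0x80006000300000004a001d000a80000000000000000000000000000000000) := Q_20 (nat_lit 208) (C_20 L25013 (C_20 L24986 (C_20 L24967 N_20))) (by decide +kernel)
theorem L25223 : W_20 (nat_lit 7) (nat_lit 0x5800200002001000080000000000000000000000000000000) (nat_lit 0x0) (nat_lit 0x80006000300000004e001d000b8001c000a00000000000000000000000000) := Q_20 (nat_lit 174) (C_20 L25015 (C_20 L24964 (C_20 L24998 (C_20 L25222 (C_20 L24961 N_20))))) (by decide +kernel)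
theorem L25224 : W_20 (nat_lit 2) (nat_lit 0xa000580020001e001100080000000000000000000000000000000) (nat_lit 0x0) (nat_lit 0x2000140000000000000000000000000000000000000000000000000000) := D_20 (nat_lit 212) (nat_lit 210) (nat_lit 229) (nat_lit 0) (nat_lit 8) (nat_lit 12) (nat_lit 7) (nat_lit 7) (nat_lit 9) (by decide +kernel)
theorem L25225 : W_20 (nat_lit 3) (nat_lit 0x8000580020001e001100080000000000000000000000000000000) (nat_lit 0x0) (nat_lit 0x2000160000000080000000000000000000000000000000000000000000) := T_20 (nat_lit 209) (nat_lit 175) (nat_lit 4) (nat_lit 5) (nat_lit 12) L25224 (by decide +kernel)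
theorem L25226 : W_20 (nat_lit 4) (nat_lit 0x580020001e001100080000000000000000000000000000000) (nat_lit 0x0) (nat_lit 0x20001e0000000080000000400000000000000000000000000000000000) := T_20 (nat_lit 211) (nat_lit 142) (nat_lit 4) (nat_lit 7) (nat_lit 12) L25225 (by decide +kernel)
theorem L25227 : W_20 (nat_lit 5) (nat_lit 0x580020001e001000080000000000000000000000000000000) (nat_lit 0x0) (nat_lit 0x20001e0000000080000000580000000000000000000000000000000000) := T_20 (nat_lit 140) (nat_lit 139) (nat_lit 0) (nat_lit 7) (nat_lit 9) L25226 (by decide +kernel)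
theorem L25228 : W_20 (nat_lit 6) (nat_lit 0x5800200016001000080000000000000000000000000000000) (nat_lit 0x0) (nat_lit 0x20001e0000000480008000580000000000000000000000000000000000) := T_20 (nat_lit 159) (nat_lit 178) (nat_lit 3) (nat_lit 4) (nat_lit 9) L25227 (by decide +kernel)
theorem L25229 : W_20 (nat_lit 7) (nat_lit 0x5800200006001000080000000000000000000000000000000) (nat_lit 0x0) (nat_lit 0x20001e0000000480018000d80000000000000000000000000000000000) := T_20 (nat_lit 160) (nat_lit 143) (nat_lit 6) (nat_lit 7) (nat_lit 11) L25228 (by decide +kernel)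
theorem L25230 : W_20 (nat_lit 2) (nat_lit 0x8000580028001e001100080000000000000000000000000000000) (nat_lit 0x0) (nat_lit 0x10000000000000000200008000000000000000000000000000000) := D_20 (nat_lit 141) (nat_lit 123) (nat_lit 208) (nat_lit 4) (nat_lit 5) (nat_lit 11) (nat_lit 5) (nat_lit 5) (nat_lit 8) (by decide +kernel)
theorem L25231 : W_20 (nat_lit 3) (nat_lit 0x8000580020001e001100080000000000000000000000000000000) (nat_lit 0x0) (nat_lit 0x30000000080000000200008000000000000000000000000000000) := T_20 (nat_lit 175) (nat_lit 209) (nat_lit 4) (nat_lit 5) (nat_lit 12) L25230 (by decide +kernel)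
theorem L25232 : W_20 (nat_lit 4) (nat_lit 0x580020001e001100080000000000000000000000000000000) (nat_lit 0x0) (nat_lit 0xb0000000080000000600008000000000000000000000000000000) := T_20 (nat_lit 211) (nat_lit 142) (nat_lit 4) (nat_lit 7) (nat_lit 12) L25231 (by decide +kernel)
theorem L25233 : W_20 (nat_lit 5) (nat_lit 0x580020001e001000080000000000000000000000000000000) (nat_lit 0x0) (nat_lit 0xb0000000080000000780008000000000000000000000000000000) := T_20 (nat_lit 140) (nat_lit 139) (nat_lit 0) (nat_lit 7) (nat_lit 9) L25232 (by decide +kernel)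
theorem L25234 : W_20 (nat_lit 6) (nat_lit 0x5800200016001000080000000000000000000000000000000) (nat_lit 0x0) (nat_lit 0xb0000000480008000780008000000000000000000000000000000) := T_20 (nat_lit 159) (nat_lit 178) (nat_lit 3) (nat_lit 4) (nat_lit 9) L25233 (by decide +kernel)
theorem L25235 : W_20 (nat_lit 7) (nat_lit 0x5800200006001000080000000000000000000000000000000) (nat_lit 0x0) (nat_lit 0xb0000000480018000f80008000000000000000000000000000000) := T_20 (nat_lit 160) (nat_lit 143) (nat_lit 6) (nat_lit 7) (nat_lit 11) L25234 (by decide +kernel)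
theorem L25236 : W_20 (nat_lit 2) (nat_lit 0x580028001e001100080000000000000000000000000000000) (nat_lit 0x0) (nat_lit 0x10000000000000000200008000000000000000000000000000000) := D_20 (nat_lit 141) (nat_lit 123) (nat_lit 208) (nat_lit 4) (nat_lit 5) (nat_lit 11) (nat_lit 5) (nat_lit 5) (nat_lit 8) (by decide +kernel)
theorem L25237 : W_20 (nat_lit 3) (nat_lit 0x580020001e001100080000000000000000000000000000000) (nat_lit 0x0) (nat_lit 0x30000000080000000200008000000000000000000000000000000) := T_20 (nat_lit 175) (nat_lit 209) (nat_lit 4) (nat_lit 5) (nat_lit 12) L25236 (by decide +kernel)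
theorem L25238 : W_20 (nat_lit 4) (nat_lit 0x580020001e001000080000000000000000000000000000000) (nat_lit 0x0) (nat_lit 0x30000000080000000380008000000000000000000000000000000) := T_20 (nat_lit 140) (nat_lit 139) (nat_lit 0) (nat_lit 7) (nat_lit 9) L25237 (by decide +kernel)
theorem L25239 : W_20 (nat_lit 5) (nat_lit 0x5800200016001000080000000000000000000000000000000) (nat_lit 0x0) (nat_lit 0x30000000480008000380008000000000000000000000000000000) := T_20 (nat_lit 159) (nat_lit 178) (nat_lit 3) (nat_lit 4) (nat_lit 9) L25238 (by decide +kernel)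
theorem L25240 : W_20 (nat_lit 6) (nat_lit 0x5800200006001000080000000000000000000000000000000) (nat_lit 0x0) (nat_lit 0x30000000480018000b80008000000000000000000000000000000) := T_20 (nat_lit 160) (nat_lit 143) (nat_lit 6) (nat_lit 7) (nat_lit 11) L25239 (by decide +kernel)
theorem L25241 : W_20 (nat_lit 2) (nat_lit 0x58002800060013000a0000000000000000000000000000000) (nat_lit 0x0) (nat_lit 0x50001000000000000000000000000000) := D_20 (nat_lit 124) (nat_lit 108) (nat_lit 126) (nat_lit 6) (nat_lit 5) (nat_lit 10) (nat_lit 1) (nat_lit 8) (nat_lit 7) (by decide +kernel)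
theorem L25242 : W_20 (nat_lit 3) (nat_lit 0x5800280006001300080000000000000000000000000000000) (nat_lit 0x0) (nat_lit 0x400070001000000000000000000000000000) := T_20 (nat_lit 125) (nat_lit 142) (nat_lit 6) (nat_lit 5) (nat_lit 11) L25241 (by decide +kernel)
theorem L25243 : W_20 (nat_lit 4) (nat_lit 0x5800280006001200080000000000000000000000000000000) (nat_lit 0x0) (nat_lit 0x500078001000000000000000000000000000) := T_20 (nat_lit 140) (nat_lit 123) (nat_lit 4) (nat_lit 5) (nat_lit 11) L25242 (by decide +kernel)
theorem L25244 : W_20 (nat_lit 5) (nat_lit 0x5800280006001000080000000000000000000000000000000) (nat_lit 0x0) (nat_lit 0x10000000000000000700078001000000000000000000000000000) := T_20 (nat_lit 141) (nat_lit 208) (nat_lit 5) (nat_lit 5) (nat_lit 8) L25243 (by decide +kernel)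
theorem L25245 : W_20 (nat_lit 2) (nat_lit 0x580028000e801600080000000000000000000000000000000) (nat_lit 0x0) (nat_lit 0x80000000400010000000000000000000000000000000000000000) := D_20 (nat_lit 160) (nat_lit 211) (nat_lit 178) (nat_lit 4) (nat_lit 7) (nat_lit 12) (nat_lit 3) (nat_lit 4) (nat_lit 9) (by decide +kernel)
theorem L25246 : W_20 (nat_lit 3) (nat_lit 0x5800280006801600080000000000000000000000000000000) (nat_lit 0x0) (nat_lit 0xa0000000400018000000000000000000000000000000000000000) := T_20 (nat_lit 159) (nat_lit 209) (nat_lit 6) (nat_lit 5) (nat_lit 12) L25245 (by decide +kernel)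
theorem L25247 : W_20 (nat_lit 4) (nat_lit 0x5800280006001600080000000000000000000000000000000) (nat_lit 0x0) (nat_lit 0xa0000000400019800000000000000000000000000000000000000) := T_20 (nat_lit 155) (nat_lit 156) (nat_lit 2) (nat_lit 2) (nat_lit 9) L25246 (by decide +kernel)
theorem L25248 : W_20 (nat_lit 5) (nat_lit 0x5800280006001200080000000000000000000000000000000) (nat_lit 0x0) (nat_lit 0xa0000000400019800400020000000000000000000000000000000) := T_20 (nat_lit 142) (nat_lit 125) (nat_lit 6) (nat_lit 5) (nat_lit 11) L25247 (by decide +kernel)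
theorem L25249 : W_20 (nat_lit 6) (nat_lit 0x5800280006001000080000000000000000000000000000000) (nat_lit 0x0) (nat_lit 0xb0000000400019800600020000000000000000000000000000000) := T_20 (nat_lit 141) (nat_lit 208) (nat_lit 5) (nat_lit 5) (nat_lit 8) L25248 (by decide +kernel)
theorem L25250 : W_20 (nat_lit 3) (nat_lit 0x5800280006001000080000000000000000000000000000000) (nat_lit 0x0) (nat_lit 0x20000000000000000300008000400000000000000000000000000) := T_20 (nat_lit 140) (nat_lit 209) (nat_lit 4) (nat_lit 5) (nat_lit 12) L25210 (by decide +kernel)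
theorem L25251 : W_20 (nat_lit 7) (nat_lit 0x5800200006001000080000000000000000000000000000000) (nat_lit 0x0) (nat_lit 0xa000f0000600480019800700078001400000000000000000000000000) := Q_20 (nat_lit 175) (C_20 L25167 (C_20 L25163 (C_20 L25244 (C_20 L25249 (C_20 L25250 N_20))))) (by decide +kernel)
theorem L25252 : W_20 (nat_lit 2) (nat_lit 0x280008000580020001e001100080000000000000000000000000000000) (nat_lit 0x0) (nat_lit 0x50001000000000000000000000000000000000000000000000000000000000) := D_20 (nat_lit 228) (nat_lit 244) (nat_lit 246) (nat_lit 5) (nat_lit 7) (nat_lit 10) (nat_lit 7) (nat_lit 7) (nat_lit 10) (by decide +kernel)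
theorem L25253 : W_20 (nat_lit 3) (nat_lit 0x80008000580020001e001100080000000000000000000000000000000) (nat_lit 0x0) (nat_lit 0x50003000100000000000000000000000000000000000000000000000000000) := T_20 (nat_lit 229) (nat_lit 212) (nat_lit 7) (nat_lit 7) (nat_lit 9) L25252 (by decide +kernel)
theorem L25254 : W_20 (nat_lit 4) (nat_lit 0x8000580020001e001100080000000000000000000000000000000) (nat_lit 0x0) (nat_lit 0x50003800140000000000000000000000000000000000000000000000000000) := T_20 (nat_lit 227) (nat_lit 210) (nat_lit 5) (nat_lit 7) (nat_lit 9) L25253 (by decide +kernel)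
theorem L25255 : W_20 (nat_lit 5) (nat_lit 0x580020001e001100080000000000000000000000000000000) (nat_lit 0x0) (nat_lit 0x500038001c0000000000000000400000000000000000000000000000000000) := T_20 (nat_lit 211) (nat_lit 142) (nat_lit 4) (nat_lit 7) (nat_lit 12) L25254 (by decide +kernel)
theorem L25256 : W_20 (nat_lit 6) (nat_lit 0x580020001e001000080000000000000000000000000000000) (nat_lit 0x0) (nat_lit 0x500038001c0000000000000000580000000000000000000000000000000000) := T_20 (nat_lit 140) (nat_lit 139) (nat_lit 0) (nat_lit 7) (nat_lit 9) L25255 (by decide +kernel)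
theorem L25257 : W_20 (nat_lit 7) (nat_lit 0x5800200016001000080000000000000000000000000000000) (nat_lit 0x0) (nat_lit 0x500038001c0000000400008000580000000000000000000000000000000000) := T_20 (nat_lit 159) (nat_lit 178) (nat_lit 3) (nat_lit 4) (nat_lit 9) L25256 (by decide +kernel)
theorem L25258 : W_20 (nat_lit 8) (nat_lit 0x5800200006001000080000000000000000000000000000000) (nat_lit 0x0) (nat_lit 0x500038001c0000000400018000d80000000000000000000000000000000000) := T_20 (nat_lit 160) (nat_lit 143) (nat_lit 6) (nat_lit 7) (nat_lit 11) L25257 (by decide +kernel)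
theorem L25259 : W_20 (nat_lit 2) (nat_lit 0xc000580020001e001000080000000000000000000000000000000) (nat_lit 0x0) (nat_lit 0x2000120000000000000000000000000000000000000000000000000000) := D_20 (nat_lit 212) (nat_lit 209) (nat_lit 229) (nat_lit 0) (nat_lit 8) (nat_lit 12) (nat_lit 7) (nat_lit 7) (nat_lit 9) (by decide +kernel)
theorem L25260 : W_20 (nat_lit 3) (nat_lit 0x8000580020001e001000080000000000000000000000000000000) (nat_lit 0x0) (nat_lit 0x2800160000000000000000000000000000000000000000000000000000) := T_20 (nat_lit 210) (nat_lit 227) (nat_lit 5) (nat_lit 7) (nat_lit 9) L25259 (by decide +kernel)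
theorem L25261 : W_20 (nat_lit 4) (nat_lit 0x580020001e001000080000000000000000000000000000000) (nat_lit 0x0) (nat_lit 0x28001e0000000000000000400000000000000000000000000000000000) := T_20 (nat_lit 211) (nat_lit 142) (nat_lit 4) (nat_lit 7) (nat_lit 12) L25260 (by decide +kernel)
theorem L25262 : W_20 (nat_lit 5) (nat_lit 0x5800200016001000080000000000000000000000000000000) (nat_lit 0x0) (nat_lit 0x28001e0000000400008000400000000000000000000000000000000000) := T_20 (nat_lit 159) (nat_lit 178) (nat_lit 3) (nat_lit 4) (nat_lit 9) L25261 (by decide +kernel)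
theorem L25263 : W_20 (nat_lit 6) (nat_lit 0x5800200006001000080000000000000000000000000000000) (nat_lit 0x0) (nat_lit 0x28001e0000000400018000c00000000000000000000000000000000000) := T_20 (nat_lit 160) (nat_lit 143) (nat_lit 6) (nat_lit 7) (nat_lit 11) L25262 (by decide +kernel)
theorem L25264 : W_20 (nat_lit 2) (nat_lit 0x5800280006001a00080000000000000000000000000000000) (nat_lit 0x0) (nat_lit 0x20000000000000000100008000000000000000000000000000000) := D_20 (nat_lit 140) (nat_lit 209) (nat_lit 123) (nat_lit 4) (nat_lit 5) (nat_lit 12) (nat_lit 4) (nat_lit 5) (nat_lit 11) (by decide +kernel)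
theorem L25265 : W_20 (nat_lit 3) (nat_lit 0x5800200006001a00080000000000000000000000000000000) (nat_lit 0x0) (nat_lit 0x30000000080000000100008000000000000000000000000000000) := T_20 (nat_lit 175) (nat_lit 208) (nat_lit 5) (nat_lit 5) (nat_lit 8) L25264 (by decide +kernel)
theorem L25266 : W_20 (nat_lit 4) (nat_lit 0x5800200006001800080000000000000000000000000000000) (nat_lit 0x0) (nat_lit 0x30000000080000000700008000000000000000000000000000000) := T_20 (nat_lit 141) (nat_lit 142) (nat_lit 1) (nat_lit 8) (nat_lit 8) L25265 (by decide +kernel)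
theorem L25267 : W_20 (nat_lit 5) (nat_lit 0x5800200006001000080000000000000000000000000000000) (nat_lit 0x0) (nat_lit 0x30000000080010000f00008000000000000000000000000000000) := T_20 (nat_lit 143) (nat_lit 160) (nat_lit 6) (nat_lit 7) (nat_lit 11) L25266 (by decide +kernel)
theorem L25268 : W_20 (nat_lit 9) (nat_lit 0x5800200002001000080000000000000000000000000000000) (nat_lit 0x0) (nat_lit 0x50003a001f000060048001d800f80078001400000000000000000000000000) := Q_20 (nat_lit 158) (C_20 L25173 (C_20 L25229 (C_20 L25235 (C_20 L25240 (C_20 L25251 (C_20 L25258 (C_20 L25263 (C_20 L25267 N_20)))))))) (by decide +kernel)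
theorem L25269 : W_20 (nat_lit 15) (nat_lit 0x5800200000001000080000000000000000000000000000000) (nat_lit 0x0) (nat_lit 0x18005e003fc01fe0007004f801fc00fe007c001e00000000000000000000000000) := Q_20 (nat_lit 157) (C_20 L24994 (C_20 L25016 (C_20 L25053 (C_20 L25086 (C_20 L25161 (C_20 L25200 (C_20 L25213 (C_20 L25217 (C_20 L25219 (C_20 L25221 (C_20 L25223 (C_20 L25268 N_20)))))))))))) (by decide +kernel)
theorem L25270 : W_20 (nat_lit 5) (nat_lit 0x5800200000001000080000000000000000000000000000000) (nat_lit 0x0) (nat_lit 0x1c0002400470000000000000000000000000000000000000000000) := T_20 (nat_lit 193) (nat_lit 178) (nat_lit 2) (nat_lit 4) (nat_lit 11) L24842 (by decide +kernel)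
theorem L25271 : W_20 (nat_lit 12) (nat_lit 0x5800200000001000080000000000000000000000000000000) (nat_lit 0x0) (nat_lit 0x5c003e001fc002400070018000c00000000000000000000000000000000000) := Q_20 (nat_lit 193) (C_20 L24845 (C_20 L24842 (C_20 L24855 (C_20 L24839 N_20)))) (by decide +kernel)
theorem L25274 : W_20 (nat_lit 12) (nat_lit 0x5800200000001000080000000000000000000000000000000) (nat_lit 0x0) (nat_lit 0x5c003e001f8002000460018000c00000000000000000000000000000000000) := T_20 (nat_lit 193) (nat_lit 178) (nat_lit 2) (nat_lit 4) (nat_lit 11) L24855 (by decide +kernel)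
theorem L25275 : W_20 (nat_lit 16) (nat_lit 0x5000200000001000080000000000000000000000000000000) (nat_lit 0x0) (nat_lit 0x18005e003fc01fe002f004f801fc00fe007c001e00000000000000000000000000) := Q_20 (nat_lit 191) (C_20 L24958 (C_20 L25269 (C_20 L25270 (C_20 L25271 (C_20 L25273 (C_20 L25274 N_20)))))) (by decide +kernel)
theorem L25277 : W_20 (nat_lit 2) (nat_lit 0x40003f002280000001000080000000000000000000000000000000) (nat_lit 0x0) (nat_lit 0x40004400000000000000000000000000000000000000000000) := D_20 (nat_lit 198) (nat_lit 178) (nat_lit 182) (nat_lit 0) (nat_lit 11) (nat_lit 11) (nat_lit 2) (nat_lit 8) (nat_lit 11) (by decide +kernel)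
theorem L25278 : W_20 (nat_lit 3) (nat_lit 0x40003f000280000001000080000000000000000000000000000000) (nat_lit 0x0) (nat_lit 0x40007400000000000000000000000000000000000000000000) := T_20 (nat_lit 181) (nat_lit 180) (nat_lit 2) (nat_lit 7) (nat_lit 11) L25277 (by decide +kernel)
theorem L25279 : W_20 (nat_lit 4) (nat_lit 0x40001f000280000001000080000000000000000000000000000000) (nat_lit 0x0) (nat_lit 0x800060007400000000000000000000000000000000000000000000) := T_20 (nat_lit 197) (nat_lit 215) (nat_lit 3) (nat_lit 7) (nat_lit 11) L25278 (by decide +kernel)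
theorem L25280 : W_20 (nat_lit 5) (nat_lit 0x40001f000200000001000080000000000000000000000000000000) (nat_lit 0x0) (nat_lit 0x8000600074c0000000000000000000000000000000000000000000) := T_20 (nat_lit 175) (nat_lit 174) (nat_lit 0) (nat_lit 8) (nat_lit 11) L25279 (by decide +kernel)
theorem L25281 : W_20 (nat_lit 6) (nat_lit 0x1f000200000001000080000000000000000000000000000000) (nat_lit 0x0) (nat_lit 0xe000600074c0000000000000000000000000000000000000000000) := T_20 (nat_lit 214) (nat_lit 213) (nat_lit 3) (nat_lit 6) (nat_lit 11) L25280 (by decide +kernel)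
theorem L25282 : W_20 (nat_lit 2) (nat_lit 0x3f000600010001000080000000000000000000000000000000) (nat_lit 0x0) (nat_lit 0xe00000000000000000000000000000000000000000000000000000) := D_20 (nat_lit 214) (nat_lit 213) (nat_lit 215) (nat_lit 3) (nat_lit 6) (nat_lit 11) (nat_lit 3) (nat_lit 7) (nat_lit 11) (by decide +kernel)
theorem L25283 : W_20 (nat_lit 3) (nat_lit 0x1f000600010001000080000000000000000000000000000000) (nat_lit 0x0) (nat_lit 0xe00060000000000000000000000000000000000000000000000000) := T_20 (nat_lit 197) (nat_lit 198) (nat_lit 0) (nat_lit 11) (nat_lit 11) L25282 (by decide +kernel)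
theorem L25284 : W_20 (nat_lit 4) (nat_lit 0x1f000200010001000080000000000000000000000000000000) (nat_lit 0x0) (nat_lit 0xe00060000c00000000000000000000000000000000000000000000) := T_20 (nat_lit 178) (nat_lit 179) (nat_lit 2) (nat_lit 5) (nat_lit 11) L25283 (by decide +kernel)
theorem L25285 : W_20 (nat_lit 5) (nat_lit 0x1f000200000001000080000000000000000000000000000000) (nat_lit 0x0) (nat_lit 0xe00060000c00010000800000000000000000000000000000000000) := T_20 (nat_lit 160) (nat_lit 143) (nat_lit 6) (nat_lit 7) (nat_lit 11) L25284 (by decide +kernel)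
theorem L25286 : W_20 (nat_lit 7) (nat_lit 0xf000200000001000080000000000000000000000000000000) (nat_lit 0x0) (nat_lit 0xe00070007cc0010000800000000000000000000000000000000000) := Q_20 (nat_lit 196) (C_20 L23888 (C_20 L25276 (C_20 L25281 (C_20 L25285 N_20)))) (by decide +kernel)
theorem L25287 : W_20 (nat_lit 2) (nat_lit 0xf001200000001000080000000000000000000000000000000) (nat_lit 0x0) (nat_lit 0x10000c00000000000000000000000000000000000000000000) := D_20 (nat_lit 179) (nat_lit 196) (nat_lit 178) (nat_lit 2) (nat_lit 6) (nat_lit 11) (nat_lit 2) (nat_lit 5) (nat_lit 11) (by decide +kernel)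
theorem L25288 : W_20 (nat_lit 2) (nat_lit 0x1a001f001200010001400080000000000000000000000000000000) (nat_lit 0x0) (nat_lit 0x60002000000000000000000000000000000000000000000000) := D_20 (nat_lit 197) (nat_lit 198) (nat_lit 181) (nat_lit 1) (nat_lit 11) (nat_lit 11) (nat_lit 2) (nat_lit 7) (nat_lit 11) (by decide +kernel)
theorem L25289 : W_20 (nat_lit 3) (nat_lit 0xa001f001200010001400080000000000000000000000000000000) (nat_lit 0x0) (nat_lit 0x2000100060002000000000000000000000000000000000000000000000) := T_20 (nat_lit 212) (nat_lit 229) (nat_lit 7) (nat_lit 7) (nat_lit 9) L25288 (by decide +kernel)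
theorem L25290 : W_20 (nat_lit 4) (nat_lit 0xa000f001200010001400080000000000000000000000000000000) (nat_lit 0x0) (nat_lit 0x2000100070002800000000000000000000000000000000000000000000) := T_20 (nat_lit 196) (nat_lit 179) (nat_lit 2) (nat_lit 6) (nat_lit 11) L25289 (by decide +kernel)
theorem L25291 : W_20 (nat_lit 5) (nat_lit 0x2000f001200010001400080000000000000000000000000000000) (nat_lit 0x0) (nat_lit 0x2000180070002800008000000000000000000000000000000000000000) := T_20 (nat_lit 211) (nat_lit 159) (nat_lit 4) (nat_lit 7) (nat_lit 12) L25290 (by decide +kernel)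
theorem L25292 : W_20 (nat_lit 6) (nat_lit 0x2000f001200000001400080000000000000000000000000000000) (nat_lit 0x0) (nat_lit 0x2000180070002800018000800000000000000000000000000000000000) := T_20 (nat_lit 160) (nat_lit 143) (nat_lit 6) (nat_lit 7) (nat_lit 11) L25291 (by decide +kernel)
theorem L25293 : W_20 (nat_lit 7) (nat_lit 0xf001200000001400080000000000000000000000000000000) (nat_lit 0x0) (nat_lit 0x20001b0070002800018000800000000000000000000000000000000000) := T_20 (nat_lit 209) (nat_lit 208) (nat_lit 1) (nat_lit 8) (nat_lit 11) L25292 (by decide +kernel)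
theorem L25294 : W_20 (nat_lit 2) (nat_lit 0x42003f001280004001600080000000000000000000000000000000) (nat_lit 0x0) (nat_lit 0x2000100008000000000000000000000000000000) := D_20 (nat_lit 140) (nat_lit 123) (nat_lit 157) (nat_lit 4) (nat_lit 5) (nat_lit 11) (nat_lit 4) (nat_lit 5) (nat_lit 12) (by decide +kernel)
theorem L25295 : W_20 (nat_lit 3) (nat_lit 0x42003f001280004001400080000000000000000000000000000000) (nat_lit 0x0) (nat_lit 0x2000300028000000000000000000000000000000) := T_20 (nat_lit 141) (nat_lit 125) (nat_lit 6) (nat_lit 5) (nat_lit 11) L25294 (by decide +kernel)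
theorem L25296 : W_20 (nat_lit 4) (nat_lit 0x42003f001280000001400080000000000000000000000000000000) (nat_lit 0x0) (nat_lit 0xe000300028000000000000000000000000000000) := T_20 (nat_lit 158) (nat_lit 159) (nat_lit 6) (nat_lit 5) (nat_lit 12) L25295 (by decide +kernel)
theorem L25297 : W_20 (nat_lit 5) (nat_lit 0x2003f001280000001400080000000000000000000000000000000) (nat_lit 0x0) (nat_lit 0xc0000000000000e000300028000000000000000000000000000000) := T_20 (nat_lit 214) (nat_lit 215) (nat_lit 3) (nat_lit 7) (nat_lit 11) L25296 (by decide +kernel)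
theorem L25298 : W_20 (nat_lit 6) (nat_lit 0x2003f001200000001400080000000000000000000000000000000) (nat_lit 0x0) (nat_lit 0xc000000000c000e000300028000000000000000000000000000000) := T_20 (nat_lit 175) (nat_lit 174) (nat_lit 0) (nat_lit 8) (nat_lit 11) L25297 (by decide +kernel)
theorem L25299 : W_20 (nat_lit 7) (nat_lit 0x2001f001200000001400080000000000000000000000000000000) (nat_lit 0x0) (nat_lit 0xc000200020c000e000300028000000000000000000000000000000) := T_20 (nat_lit 197) (nat_lit 181) (nat_lit 2) (nat_lit 7) (nat_lit 11) L25298 (by decide +kernel)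
theorem L25300 : W_20 (nat_lit 8) (nat_lit 0x1f001200000001400080000000000000000000000000000000) (nat_lit 0x0) (nat_lit 0xc300200020c000e000300028000000000000000000000000000000) := T_20 (nat_lit 209) (nat_lit 208) (nat_lit 1) (nat_lit 8) (nat_lit 11) L25299 (by decide +kernel)
theorem L25301 : W_20 (nat_lit 9) (nat_lit 0xf001200000001400080000000000000000000000000000000) (nat_lit 0x0) (nat_lit 0xc300300028c000e000300028000000000000000000000000000000) := T_20 (nat_lit 196) (nat_lit 179) (nat_lit 2) (nat_lit 6) (nat_lit 11) L25300 (by decide +kernel)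
theorem L25302 : W_20 (nat_lit 2) (nat_lit 0x2000f001280010001400080000000000000000000000000000000) (nat_lit 0x0) (nat_lit 0x8000000000000c000000000000000000000000000000000000000) := D_20 (nat_lit 159) (nat_lit 211) (nat_lit 158) (nat_lit 4) (nat_lit 7) (nat_lit 12) (nat_lit 6) (nat_lit 5) (nat_lit 12) (by decide +kernel)
theorem L25303 : W_20 (nat_lit 3) (nat_lit 0x2000f001280000001400080000000000000000000000000000000) (nat_lit 0x0) (nat_lit 0x8000000000001c000800000000000000000000000000000000000) := T_20 (nat_lit 160) (nat_lit 143) (nat_lit 6) (nat_lit 7) (nat_lit 11) L25302 (by decide +kernel)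
theorem L25304 : W_20 (nat_lit 4) (nat_lit 0xf001280000001400080000000000000000000000000000000) (nat_lit 0x0) (nat_lit 0xb000000000001c000800000000000000000000000000000000000) := T_20 (nat_lit 209) (nat_lit 208) (nat_lit 1) (nat_lit 8) (nat_lit 11) L25303 (by decide +kernel)
theorem L25305 : W_20 (nat_lit 5) (nat_lit 0xf001200000001400080000000000000000000000000000000) (nat_lit 0x0) (nat_lit 0xb00000000c001c000800000000000000000000000000000000000) := T_20 (nat_lit 175) (nat_lit 174) (nat_lit 0) (nat_lit 8) (nat_lit 11) L25304 (by decide +kernel)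
theorem L25306 : W_20 (nat_lit 2) (nat_lit 0x18001f001280010001400080000000000000000000000000000000) (nat_lit 0x0) (nat_lit 0x60002000000000000000000000000000000000000000000000) := D_20 (nat_lit 197) (nat_lit 198) (nat_lit 181) (nat_lit 1) (nat_lit 11) (nat_lit 11) (nat_lit 2) (nat_lit 7) (nat_lit 11) (by decide +kernel)
theorem L25307 : W_20 (nat_lit 3) (nat_lit 0x18000f001280010001400080000000000000000000000000000000) (nat_lit 0x0) (nat_lit 0x70002800000000000000000000000000000000000000000000) := T_20 (nat_lit 196) (nat_lit 179) (nat_lit 2) (nat_lit 6) (nat_lit 11) L25306 (by decide +kernel)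
theorem L25308 : W_20 (nat_lit 4) (nat_lit 0x8000f001280010001400080000000000000000000000000000000) (nat_lit 0x0) (nat_lit 0x2000100070002800000000000000000000000000000000000000000000) := T_20 (nat_lit 212) (nat_lit 229) (nat_lit 7) (nat_lit 7) (nat_lit 9) L25307 (by decide +kernel)
theorem L25309 : W_20 (nat_lit 5) (nat_lit 0x8000f001200010001400080000000000000000000000000000000) (nat_lit 0x0) (nat_lit 0x20001000700028c0000000000000000000000000000000000000000000) := T_20 (nat_lit 175) (nat_lit 174) (nat_lit 0) (nat_lit 8) (nat_lit 11) L25308 (by decide +kernel)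
theorem L25310 : W_20 (nat_lit 6) (nat_lit 0xf001200010001400080000000000000000000000000000000) (nat_lit 0x0) (nat_lit 0x20001800700028c0008000000000000000000000000000000000000000) := T_20 (nat_lit 211) (nat_lit 159) (nat_lit 4) (nat_lit 7) (nat_lit 12) L25309 (by decide +kernel)
theorem L25311 : W_20 (nat_lit 7) (nat_lit 0xf001200000001400080000000000000000000000000000000) (nat_lit 0x0) (nat_lit 0x20001800700028c0018000800000000000000000000000000000000000) := T_20 (nat_lit 160) (nat_lit 143) (nat_lit 6) (nat_lit 7) (nat_lit 11) L25310 (by decide +kernel)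
theorem L25312 : W_20 (nat_lit 2) (nat_lit 0x42003f001280000001e00080000000000000000000000000000000) (nat_lit 0x0) (nat_lit 0x6000000020000000000000000000000000000000) := D_20 (nat_lit 158) (nat_lit 157) (nat_lit 125) (nat_lit 1) (nat_lit 8) (nat_lit 8) (nat_lit 6) (nat_lit 5) (nat_lit 11) (by decide +kernel)
theorem L25313 : W_20 (nat_lit 3) (nat_lit 0x42003f001280000001c00080000000000000000000000000000000) (nat_lit 0x0) (nat_lit 0x6000200120000000000000000000000000000000) := T_20 (nat_lit 141) (nat_lit 128) (nat_lit 2) (nat_lit 5) (nat_lit 8) L25312 (by decide +kernel)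
theorem L25314 : W_20 (nat_lit 4) (nat_lit 0x42003f001280000001400080000000000000000000000000000000) (nat_lit 0x0) (nat_lit 0x16000a00120000000000000000000000000000000) := T_20 (nat_lit 143) (nat_lit 160) (nat_lit 6) (nat_lit 7) (nat_lit 11) L25313 (by decide +kernel)
theorem L25315 : W_20 (nat_lit 5) (nat_lit 0x2003f001280000001400080000000000000000000000000000000) (nat_lit 0x0) (nat_lit 0xc00000000000016000a00120000000000000000000000000000000) := T_20 (nat_lit 214) (nat_lit 215) (nat_lit 3) (nat_lit 7) (nat_lit 11) L25314 (by decide +kernel)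
theorem L25316 : W_20 (nat_lit 6) (nat_lit 0x2003f001200000001400080000000000000000000000000000000) (nat_lit 0x0) (nat_lit 0xc000000000c0016000a00120000000000000000000000000000000) := T_20 (nat_lit 175) (nat_lit 174) (nat_lit 0) (nat_lit 8) (nat_lit 11) L25315 (by decide +kernel)
theorem L25317 : W_20 (nat_lit 7) (nat_lit 0x2001f001200000001400080000000000000000000000000000000) (nat_lit 0x0) (nat_lit 0xc000200020c0016000a00120000000000000000000000000000000) := T_20 (nat_lit 197) (nat_lit 181) (nat_lit 2) (nat_lit 7) (nat_lit 11) L25316 (by decide +kernel)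
theorem L25318 : W_20 (nat_lit 8) (nat_lit 0x1f001200000001400080000000000000000000000000000000) (nat_lit 0x0) (nat_lit 0xc300200020c0016000a00120000000000000000000000000000000) := T_20 (nat_lit 209) (nat_lit 208) (nat_lit 1) (nat_lit 8) (nat_lit 11) L25317 (by decide +kernel)
theorem L25319 : W_20 (nat_lit 9) (nat_lit 0xf001200000001400080000000000000000000000000000000) (nat_lit 0x0) (nat_lit 0xc300300028c0016000a00120000000000000000000000000000000) := T_20 (nat_lit 196) (nat_lit 179) (nat_lit 2) (nat_lit 6) (nat_lit 11) L25318 (by decide +kernel)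
theorem L25320 : W_20 (nat_lit 10) (nat_lit 0xf001200000001000080000000000000000000000000000000) (nat_lit 0x0) (nat_lit 0x2000db00700028c001e000f00128000000000000000000000000000000) := Q_20 (nat_lit 142) (C_20 L25293 (C_20 L25301 (C_20 L25305 (C_20 L25311 (C_20 L25319 N_20))))) (by decide +kernel)
theorem L25321 : W_20 (nat_lit 2) (nat_lit 0x20000a000f001600010001400080000000000000000000000000000000) (nat_lit 0x0) (nat_lit 0x60001000000000000000000000000000000000000000000000000000000000) := D_20 (nat_lit 228) (nat_lit 245) (nat_lit 246) (nat_lit 6) (nat_lit 7) (nat_lit 14) (nat_lit 7) (nat_lit 7) (nat_lit 10) (by decide +kernel)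
theorem L25322 : W_20 (nat_lit 3) (nat_lit 0x20000a000f001200010001400080000000000000000000000000000000) (nat_lit 0x0) (nat_lit 0x60001000000000000c00000000000000000000000000000000000000000000) := T_20 (nat_lit 178) (nat_lit 179) (nat_lit 2) (nat_lit 5) (nat_lit 11) L25321 (by decide +kernel)
theorem L25323 : W_20 (nat_lit 4) (nat_lit 0xa000f001200010001400080000000000000000000000000000000) (nat_lit 0x0) (nat_lit 0x60003000100000000c00000000000000000000000000000000000000000000) := T_20 (nat_lit 229) (nat_lit 212) (nat_lit 7) (nat_lit 7) (nat_lit 9) L25322 (by decide +kernel)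
theorem L25324 : W_20 (nat_lit 5) (nat_lit 0x8000f001200010001400080000000000000000000000000000000) (nat_lit 0x0) (nat_lit 0x60003000130000000c00000000000000000000000000000000000000000000) := T_20 (nat_lit 209) (nat_lit 208) (nat_lit 1) (nat_lit 8) (nat_lit 11) L25323 (by decide +kernel)
theorem L25325 : W_20 (nat_lit 6) (nat_lit 0xf001200010001400080000000000000000000000000000000) (nat_lit 0x0) (nat_lit 0x600030001b0000000c00008000000000000000000000000000000000000000) := T_20 (nat_lit 211) (nat_lit 159) (nat_lit 4) (nat_lit 7) (nat_lit 12) L25324 (by decide +kernel)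
theorem L25326 : W_20 (nat_lit 7) (nat_lit 0xf001200000001400080000000000000000000000000000000) (nat_lit 0x0) (nat_lit 0x600030001b0000000c00018000800000000000000000000000000000000000) := T_20 (nat_lit 160) (nat_lit 143) (nat_lit 6) (nat_lit 7) (nat_lit 11) L25325 (by decide +kernel)
theorem L25327 : W_20 (nat_lit 2) (nat_lit 0x2000f001680004001600080000000000000000000000000000000) (nat_lit 0x0) (nat_lit 0x2000100008000000000000000000000000000000) := D_20 (nat_lit 140) (nat_lit 123) (nat_lit 157) (nat_lit 4) (nat_lit 5) (nat_lit 11) (nat_lit 4) (nat_lit 5) (nat_lit 12) (by decide +kernel)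
theorem L25328 : W_20 (nat_lit 3) (nat_lit 0x2000f001680004001400080000000000000000000000000000000) (nat_lit 0x0) (nat_lit 0x2000300028000000000000000000000000000000) := T_20 (nat_lit 141) (nat_lit 125) (nat_lit 6) (nat_lit 5) (nat_lit 11) L25327 (by decide +kernel)
theorem L25329 : W_20 (nat_lit 4) (nat_lit 0x2000f001680000001400080000000000000000000000000000000) (nat_lit 0x0) (nat_lit 0xe000300028000000000000000000000000000000) := T_20 (nat_lit 158) (nat_lit 159) (nat_lit 6) (nat_lit 5) (nat_lit 12) L25328 (by decide +kernel)
theorem L25330 : W_20 (nat_lit 5) (nat_lit 0x2000f001600000001400080000000000000000000000000000000) (nat_lit 0x0) (nat_lit 0xc000e000300028000000000000000000000000000000) := T_20 (nat_lit 175) (nat_lit 174) (nat_lit 0) (nat_lit 8) (nat_lit 11) L25329 (by decide +kernel)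
theorem L25331 : W_20 (nat_lit 6) (nat_lit 0xf001600000001400080000000000000000000000000000000) (nat_lit 0x0) (nat_lit 0x300000000c000e000300028000000000000000000000000000000) := T_20 (nat_lit 209) (nat_lit 208) (nat_lit 1) (nat_lit 8) (nat_lit 11) L25330 (by decide +kernel)
theorem L25332 : W_20 (nat_lit 7) (nat_lit 0xf001200000001400080000000000000000000000000000000) (nat_lit 0x0) (nat_lit 0x30000000cc000e000300028000000000000000000000000000000) := T_20 (nat_lit 178) (nat_lit 179) (nat_lit 2) (nat_lit 5) (nat_lit 11) L25331 (by decide +kernel)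
theorem L25333 : W_20 (nat_lit 2) (nat_lit 0x200008000f001680010001400080000000000000000000000000000000) (nat_lit 0x0) (nat_lit 0x60001000000000000000000000000000000000000000000000000000000000) := D_20 (nat_lit 228) (nat_lit 245) (nat_lit 246) (nat_lit 6) (nat_lit 7) (nat_lit 14) (nat_lit 7) (nat_lit 7) (nat_lit 10) (by decide +kernel)
theorem L25334 : W_20 (nat_lit 3) (nat_lit 0x200000000f001680010001400080000000000000000000000000000000) (nat_lit 0x0) (nat_lit 0x60001000080000000000008000000000000000000000000000000000000000) := T_20 (nat_lit 211) (nat_lit 159) (nat_lit 4) (nat_lit 7) (nat_lit 12) L25333 (by decide +kernel)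
theorem L25335 : W_20 (nat_lit 4) (nat_lit 0xf001680010001400080000000000000000000000000000000) (nat_lit 0x0) (nat_lit 0x60003000180000000000008000000000000000000000000000000000000000) := T_20 (nat_lit 229) (nat_lit 212) (nat_lit 4) (nat_lit 8) (nat_lit 13) L25334 (by decide +kernel)
theorem L25336 : W_20 (nat_lit 5) (nat_lit 0xf001680000001400080000000000000000000000000000000) (nat_lit 0x0) (nat_lit 0x60003000180000000000018000800000000000000000000000000000000000) := T_20 (nat_lit 160) (nat_lit 143) (nat_lit 6) (nat_lit 7) (nat_lit 11) L25335 (by decide +kernel)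
theorem L25337 : W_20 (nat_lit 6) (nat_lit 0xf001280000001400080000000000000000000000000000000) (nat_lit 0x0) (nat_lit 0x60003000180000000c00018000800000000000000000000000000000000000) := T_20 (nat_lit 178) (nat_lit 179) (nat_lit 2) (nat_lit 5) (nat_lit 11) L25336 (by decide +kernel)
theorem L25338 : W_20 (nat_lit 7) (nat_lit 0xf001200000001400080000000000000000000000000000000) (nat_lit 0x0) (nat_lit 0x60003000180000000cc0018000800000000000000000000000000000000000) := T_20 (nat_lit 175) (nat_lit 174) (nat_lit 0) (nat_lit 8) (nat_lit 11) L25337 (by decide +kernel)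
theorem L25339 : W_20 (nat_lit 2) (nat_lit 0x2000f001200000001f00080000000000000000000000000000000) (nat_lit 0x0) (nat_lit 0x7000000000000000000000000000000000000000) := D_20 (nat_lit 157) (nat_lit 156) (nat_lit 158) (nat_lit 1) (nat_lit 7) (nat_lit 8) (nat_lit 1) (nat_lit 8) (nat_lit 8) (by decide +kernel)
theorem L25340 : W_20 (nat_lit 3) (nat_lit 0x2000f001200000001e00080000000000000000000000000000000) (nat_lit 0x0) (nat_lit 0x7000100040000000000000000000000000000000) := T_20 (nat_lit 140) (nat_lit 126) (nat_lit 2) (nat_lit 4) (nat_lit 8) L25339 (by decide +kernel)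
theorem L25341 : W_20 (nat_lit 4) (nat_lit 0x2000f001200000001c00080000000000000000000000000000000) (nat_lit 0x0) (nat_lit 0x7000300140000000000000000000000000000000) := T_20 (nat_lit 141) (nat_lit 128) (nat_lit 2) (nat_lit 5) (nat_lit 8) L25340 (by decide +kernel)
theorem L25342 : W_20 (nat_lit 5) (nat_lit 0xf001200000001c00080000000000000000000000000000000) (nat_lit 0x0) (nat_lit 0x30000000000007000300140000000000000000000000000000000) := T_20 (nat_lit 209) (nat_lit 208) (nat_lit 1) (nat_lit 8) (nat_lit 11) L25341 (by decide +kernel)
theorem L25343 : W_20 (nat_lit 6) (nat_lit 0xf001200000001400080000000000000000000000000000000) (nat_lit 0x0) (nat_lit 0x30000000000017000b00140000000000000000000000000000000) := T_20 (nat_lit 143) (nat_lit 160) (nat_lit 6) (nat_lit 7) (nat_lit 11) L25342 (by decide +kernel)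
theorem L25344 : W_20 (nat_lit 8) (nat_lit 0xf001200000001000080000000000000000000000000000000) (nat_lit 0x0) (nat_lit 0x600030001b0000000cc001f000f00168000000000000000000000000000000) := Q_20 (nat_lit 142) (C_20 L25305 (C_20 L25326 (C_20 L25332 (C_20 L25338 (C_20 L25343 N_20))))) (by decide +kernel)
theorem L25345 : W_20 (nat_lit 2) (nat_lit 0x2000f001280004001600080000000000000000000000000000000) (nat_lit 0x0) (nat_lit 0x2000100008000000000000000000000000000000) := D_20 (nat_lit 140) (nat_lit 123) (nat_lit 157) (nat_lit 4) (nat_lit 5) (nat_lit 11) (nat_lit 4) (nat_lit 5) (nat_lit 12) (by decide +kernel)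
theorem L25346 : W_20 (nat_lit 3) (nat_lit 0x2000f001280004001400080000000000000000000000000000000) (nat_lit 0x0) (nat_lit 0x2000300028000000000000000000000000000000) := T_20 (nat_lit 141) (nat_lit 125) (nat_lit 6) (nat_lit 5) (nat_lit 11) L25345 (by decide +kernel)
theorem L25347 : W_20 (nat_lit 4) (nat_lit 0x2000f001280000001400080000000000000000000000000000000) (nat_lit 0x0) (nat_lit 0xe000300028000000000000000000000000000000) := T_20 (nat_lit 158) (nat_lit 159) (nat_lit 6) (nat_lit 5) (nat_lit 12) L25346 (by decide +kernel)
theorem L25348 : W_20 (nat_lit 5) (nat_lit 0xf001280000001400080000000000000000000000000000000) (nat_lit 0x0) (nat_lit 0x3000000000000e000300028000000000000000000000000000000) := T_20 (nat_lit 209) (nat_lit 208) (nat_lit 1) (nat_lit 8) (nat_lit 11) L25347 (by decide +kernel)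
theorem L25349 : W_20 (nat_lit 6) (nat_lit 0xf001200000001400080000000000000000000000000000000) (nat_lit 0x0) (nat_lit 0x300000000c000e000300028000000000000000000000000000000) := T_20 (nat_lit 175) (nat_lit 174) (nat_lit 0) (nat_lit 8) (nat_lit 11) L25348 (by decide +kernel)
theorem L25350 : W_20 (nat_lit 2) (nat_lit 0x2000300008000f001280010001400080000000000000000000000000000000) (nat_lit 0x0) (nat_lit 0x200010000800000000000000000000000000000000000000000000000000000000) := D_20 (nat_lit 244) (nat_lit 261) (nat_lit 227) (nat_lit 5) (nat_lit 7) (nat_lit 11) (nat_lit 5) (nat_lit 7) (nat_lit 10) (by decide +kernel)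
theorem L25351 : W_20 (nat_lit 3) (nat_lit 0x300008000f001280010001400080000000000000000000000000000000) (nat_lit 0x0) (nat_lit 0x200030000800000000000400000000000000000000000000000000000000000000) := T_20 (nat_lit 245) (nat_lit 178) (nat_lit 6) (nat_lit 7) (nat_lit 14) L25350 (by decide +kernel)
theorem L25352 : W_20 (nat_lit 4) (nat_lit 0x200008000f001280010001400080000000000000000000000000000000) (nat_lit 0x0) (nat_lit 0x200070001800000000000400000000000000000000000000000000000000000000) := T_20 (nat_lit 228) (nat_lit 246) (nat_lit 7) (nat_lit 7) (nat_lit 10) L25351 (by decide +kernel)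
theorem L25353 : W_20 (nat_lit 5) (nat_lit 0x8000f001280010001400080000000000000000000000000000000) (nat_lit 0x0) (nat_lit 0x200070003800100000000400000000000000000000000000000000000000000000) := T_20 (nat_lit 229) (nat_lit 212) (nat_lit 7) (nat_lit 7) (nat_lit 9) L25352 (by decide +kernel)
theorem L25354 : W_20 (nat_lit 6) (nat_lit 0x8000f001200010001400080000000000000000000000000000000) (nat_lit 0x0) (nat_lit 0x2000700038001000000004c0000000000000000000000000000000000000000000) := T_20 (nat_lit 175) (nat_lit 174) (nat_lit 0) (nat_lit 8) (nat_lit 11) L25353 (by decide +kernel)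
theorem L25355 : W_20 (nat_lit 7) (nat_lit 0xf001200010001400080000000000000000000000000000000) (nat_lit 0x0) (nat_lit 0x2000700038001800000004c0008000000000000000000000000000000000000000) := T_20 (nat_lit 211) (nat_lit 159) (nat_lit 4) (nat_lit 7) (nat_lit 12) L25354 (by decide +kernel)
theorem L25356 : W_20 (nat_lit 8) (nat_lit 0xf001200000001400080000000000000000000000000000000) (nat_lit 0x0) (nat_lit 0x2000700038001800000004c0018000800000000000000000000000000000000000) := T_20 (nat_lit 160) (nat_lit 143) (nat_lit 6) (nat_lit 7) (nat_lit 11) L25355 (by decide +kernel)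
theorem L25357 : W_20 (nat_lit 9) (nat_lit 0xf001200000001000080000000000000000000000000000000) (nat_lit 0x0) (nat_lit 0x2000700038001b00000004c001f000f00168000000000000000000000000000000) := Q_20 (nat_lit 142) (C_20 L25343 (C_20 L25349 (C_20 L25305 (C_20 L25356 N_20)))) (by decide +kernel)
theorem L25358 : W_20 (nat_lit 11) (nat_lit 0xf000200000001000080000000000000000000000000000000) (nat_lit 0x0) (nat_lit 0x200070003800db0070003cc001f000f00168000000000000000000000000000000) := Q_20 (nat_lit 180) (C_20 L25287 (C_20 L25320 (C_20 L25344 (C_20 L25357 N_20)))) (by decide +kernel)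
theorem L25359 : W_20 (nat_lit 12) (nat_lit 0x7000200000001000080000000000000000000000000000000) (nat_lit 0x0) (nat_lit 0x200070003800fb0078007cc001f000f00168000000000000000000000000000000) := Q_20 (nat_lit 195) (C_20 L24837 (C_20 L24003 (C_20 L25286 (C_20 L25358 N_20)))) (by decide +kernel)
theorem L25360 : W_20 (nat_lit 13) (nat_lit 0x5000200000001000080000000000000000000000000000000) (nat_lit 0x0) (nat_lit 0x200070003800fbc07ac07cf001f000f00168000000000000000000000000000000) := Q_20 (nat_lit 193) (C_20 L25359 (C_20 L23864 (C_20 L23868 (C_20 L24865 (C_20 L23998 N_20))))) (by decide +kernel)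
theorem L25361 : W_20 (nat_lit 8) (nat_lit 0x7000200000001000080000000000000000000000000000000) (nat_lit 0x0) (nat_lit 0x10002800f70078007cc0014000800000000000000000000000000000000000) := Q_20 (nat_lit 195) (C_20 L25286 (C_20 L24003 (C_20 L23994 (C_20 L23846 (C_20 L18989 N_20))))) (by decide +kernel)
theorem L25362 : W_20 (nat_lit 11) (nat_lit 0x5000200000001000080000000000000000000000000000000) (nat_lit 0x0) (nat_lit 0x38001c002f00ffe07af07cf001e000d00000000000000000000000000000000000) := Q_20 (nat_lit 193) (C_20 L25361 (C_20 L10034 (C_20 L24955 (C_20 L24865 (C_20 L24914 (C_20 L24029 N_20)))))) (by decide +kernel)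
theorem L25363 : W_20 (nat_lit 2) (nat_lit 0x80006000f000600000001000080000000000000000000000000000000) (nat_lit 0x0) (nat_lit 0xc0004000000000000000000000000000000000000000) := D_20 (nat_lit 175) (nat_lit 174) (nat_lit 158) (nat_lit 0) (nat_lit 8) (nat_lit 11) (nat_lit 7) (nat_lit 5) (nat_lit 9) (by decide +kernel)
theorem L25364 : W_20 (nat_lit 3) (nat_lit 0x80004000f000600000001000080000000000000000000000000000000) (nat_lit 0x0) (nat_lit 0x300000000c0004000000000000000000000000000000000000000) := T_20 (nat_lit 209) (nat_lit 208) (nat_lit 1) (nat_lit 8) (nat_lit 11) L25363 (by decide +kernel)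
theorem L25365 : W_20 (nat_lit 4) (nat_lit 0x80004000f000200000001000080000000000000000000000000000000) (nat_lit 0x0) (nat_lit 0x30000000cc0004000000000000000000000000000000000000000) := T_20 (nat_lit 178) (nat_lit 179) (nat_lit 2) (nat_lit 5) (nat_lit 11) L25364 (by decide +kernel)
theorem L25366 : W_20 (nat_lit 5) (nat_lit 0x4000f000200000001000080000000000000000000000000000000) (nat_lit 0x0) (nat_lit 0x10000800030000000cc0004000000000000000000000000000000000000000) := T_20 (nat_lit 227) (nat_lit 244) (nat_lit 6) (nat_lit 6) (nat_lit 14) L25365 (by decide +kernel)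
theorem L25367 : W_20 (nat_lit 2) (nat_lit 0x80004000f000200000001000080000000000000000000000000000000) (nat_lit 0x0) (nat_lit 0x80000000000010000800000000000000000000000000000000000) := D_20 (nat_lit 160) (nat_lit 143) (nat_lit 211) (nat_lit 6) (nat_lit 7) (nat_lit 11) (nat_lit 5) (nat_lit 7) (nat_lit 9) (by decide +kernel)
theorem L25368 : W_20 (nat_lit 3) (nat_lit 0x4000f000200000001000080000000000000000000000000000000) (nat_lit 0x0) (nat_lit 0x10000800080000000000010000800000000000000000000000000000000000) := T_20 (nat_lit 227) (nat_lit 244) (nat_lit 6) (nat_lit 6) (nat_lit 14) L25367 (by decide +kernel)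
theorem L25369 : W_20 (nat_lit 8) (nat_lit 0xf000200000001000080000000000000000000000000000000) (nat_lit 0x0) (nat_lit 0x100008000f0000000cc0014000f0015c000000000000000000000000000000) := Q_20 (nat_lit 210) (C_20 L25366 (C_20 L24941 (C_20 L25368 N_20))) (by decide +kernel)
theorem L25370 : W_20 (nat_lit 9) (nat_lit 0x7000200000001000080000000000000000000000000000000) (nat_lit 0x0) (nat_lit 0x10000800ef0078007cc0014000f0015c000000000000000000000000000000) := Q_20 (nat_lit 195) (C_20 L25369 (C_20 L25286 (C_20 L18989 (C_20 L23858 N_20)))) (by decide +kernel)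
theorem L25371 : W_20 (nat_lit 11) (nat_lit 0x5000200000001000080000000000000000000000000000000) (nat_lit 0x0) (nat_lit 0x38001c000f00efc07ae07cf0016000f0015c000000000000000000000000000000) := Q_20 (nat_lit 193) (C_20 L25370 (C_20 L23864 (C_20 L23868 (C_20 L24914 (C_20 L23998 N_20))))) (by decide +kernel)
theorem L25372 : W_20 (nat_lit 8) (nat_lit 0x7000200000001000080000000000000000000000000000000) (nat_lit 0x0) (nat_lit 0x40002000ff0078007cc0010000800000000000000000000000000000000000) := Q_20 (nat_lit 195) (C_20 L25286 (C_20 L24003 (C_20 L24837 (C_20 L23858 N_20)))) (by decide +kernel)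
theorem L25373 : W_20 (nat_lit 11) (nat_lit 0x5000200000001000080000000000000000000000000000000) (nat_lit 0x0) (nat_lit 0x44002b00ffc07ac07cf001c000c00000000000000000000000000000000000) := Q_20 (nat_lit 193) (C_20 L25372 (C_20 L10034 (C_20 L24955 (C_20 L24865 (C_20 L23998 N_20))))) (by decide +kernel)
theorem L25374 : W_20 (nat_lit 2) (nat_lit 0x4001f000200000001000080000000000000000000000000000000) (nat_lit 0x0) (nat_lit 0x1c00000000000000000000000000000000000000000000) := D_20 (nat_lit 179) (nat_lit 178) (nat_lit 180) (nat_lit 2) (nat_lit 5) (nat_lit 11) (nat_lit 2) (nat_lit 6) (nat_lit 11) (by decide +kernel)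
theorem L25375 : W_20 (nat_lit 2) (nat_lit 0x1000000004003f000200000001000080000000000000000000000000000000) (nat_lit 0x0) (nat_lit 0x3800000000000000000000000000000000000000000000) := D_20 (nat_lit 180) (nat_lit 179) (nat_lit 181) (nat_lit 2) (nat_lit 6) (nat_lit 11) (nat_lit 2) (nat_lit 7) (nat_lit 11) (by decide +kernel)
theorem L25376 : W_20 (nat_lit 3) (nat_lit 0x1000000004001f000200000001000080000000000000000000000000000000) (nat_lit 0x0) (nat_lit 0x80020003800000000000000000000000000000000000000000000) := T_20 (nat_lit 197) (nat_lit 211) (nat_lit 1) (nat_lit 10) (nat_lit 11) L25375 (by decide +kernel)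
theorem L25377 : W_20 (nat_lit 4) (nat_lit 0x4001f000200000001000080000000000000000000000000000000) (nat_lit 0x0) (nat_lit 0x10000800080020003800000000000000000000000000000000000000000000) := T_20 (nat_lit 244) (nat_lit 227) (nat_lit 6) (nat_lit 6) (nat_lit 14) L25376 (by decide +kernel)
theorem L25378 : W_20 (nat_lit 2) (nat_lit 0x1000000004007f000200000001000080000000000000000000000000000000) (nat_lit 0x0) (nat_lit 0x1c00000000000000000000000000000000000000000000000000000) := D_20 (nat_lit 215) (nat_lit 214) (nat_lit 216) (nat_lit 3) (nat_lit 7) (nat_lit 11) (nat_lit 3) (nat_lit 8) (nat_lit 11) (by decide +kernel)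
theorem L25379 : W_20 (nat_lit 3) (nat_lit 0x1000000004003f000200000001000080000000000000000000000000000000) (nat_lit 0x0) (nat_lit 0x1c00040000400000000000000000000000000000000000000000000) := T_20 (nat_lit 198) (nat_lit 178) (nat_lit 0) (nat_lit 11) (nat_lit 11) L25378 (by decide +kernel)
theorem L25380 : W_20 (nat_lit 4) (nat_lit 0x1000000004001f000200000001000080000000000000000000000000000000) (nat_lit 0x0) (nat_lit 0x1c80060000400000000000000000000000000000000000000000000) := T_20 (nat_lit 197) (nat_lit 211) (nat_lit 1) (nat_lit 10) (nat_lit 11) L25379 (by decide +kernel)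
theorem L25381 : W_20 (nat_lit 5) (nat_lit 0x4001f000200000001000080000000000000000000000000000000) (nat_lit 0x0) (nat_lit 0x10000801c80060000400000000000000000000000000000000000000000000) := T_20 (nat_lit 244) (nat_lit 227) (nat_lit 6) (nat_lit 6) (nat_lit 14) L25380 (by decide +kernel)
theorem L25382 : W_20 (nat_lit 6) (nat_lit 0x4000f000200000001000080000000000000000000000000000000) (nat_lit 0x0) (nat_lit 0x10000801c80070003c00000000000000000000000000000000000000000000) := Q_20 (nat_lit 196) (C_20 L25374 (C_20 L25377 (C_20 L25381 N_20))) (by decide +kernel)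
theorem L25383 : W_20 (nat_lit 8) (nat_lit 0xf000200000001000080000000000000000000000000000000) (nat_lit 0x0) (nat_lit 0x10000801cc0070003cc0014000f0015c000000000000000000000000000000) := Q_20 (nat_lit 210) (C_20 L25382 (C_20 L24941 N_20)) (by decide +kernel)
theorem L25384 : W_20 (nat_lit 9) (nat_lit 0x7000200000001000080000000000000000000000000000000) (nat_lit 0x0) (nat_lit 0x50002801fc0078007cc0014000f0015c000000000000000000000000000000) := Q_20 (nat_lit 195) (C_20 L25286 (C_20 L24003 (C_20 L24837 (C_20 L25383 N_20)))) (by decide +kernel)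
theorem L25385 : W_20 (nat_lit 10) (nat_lit 0x5000200000001000080000000000000000000000000000000) (nat_lit 0x0) (nat_lit 0x50002801fdc07ac07cf0014000f0015c000000000000000000000000000000) := Q_20 (nat_lit 193) (C_20 L25384 (C_20 L10034 (C_20 L24915 (C_20 L23998 N_20)))) (by decide +kernel)
theorem L25386 : W_20 (nat_lit 9) (nat_lit 0xd000200000001000080000000000000000000000000000000) (nat_lit 0x0) (nat_lit 0x50002801fc0072007cc0014000f0015c000000000000000000000000000000) := Q_20 (nat_lit 193) (C_20 L25383 (C_20 L25286 (C_20 L24003 (C_20 L24837 N_20)))) (by decide +kernel)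
theorem L25387 : W_20 (nat_lit 2) (nat_lit 0xe000d000200010001000080000000000000000000000000000000) (nat_lit 0x0) (nat_lit 0x100030000000000000000000000000000000000000000000000000) := D_20 (nat_lit 196) (nat_lit 197) (nat_lit 212) (nat_lit 1) (nat_lit 10) (nat_lit 11) (nat_lit 2) (nat_lit 5) (nat_lit 12) (by decide +kernel)
theorem L25388 : W_20 (nat_lit 3) (nat_lit 0xc000d000200010001000080000000000000000000000000000000) (nat_lit 0x0) (nat_lit 0x130030000000000000000000000000000000000000000000000000) := T_20 (nat_lit 209) (nat_lit 208) (nat_lit 2) (nat_lit 4) (nat_lit 12) L25387 (by decide +kernel)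
theorem L25389 : W_20 (nat_lit 4) (nat_lit 0x8000d000200010001000080000000000000000000000000000000) (nat_lit 0x0) (nat_lit 0x800170030000000000000000000000000000000000000000000000000) := T_20 (nat_lit 210) (nat_lit 227) (nat_lit 5) (nat_lit 7) (nat_lit 9) L25388 (by decide +kernel)
theorem L25390 : W_20 (nat_lit 5) (nat_lit 0x8000d000200000001000080000000000000000000000000000000) (nat_lit 0x0) (nat_lit 0x800170030000000010000800000000000000000000000000000000000) := T_20 (nat_lit 160) (nat_lit 143) (nat_lit 6) (nat_lit 7) (nat_lit 11) L25389 (by decide +kernel)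
theorem L25391 : W_20 (nat_lit 2) (nat_lit 0x4000100008000d000200000001000080000000000000000000000000000000) (nat_lit 0x0) (nat_lit 0x800020000000000000000400000000000000000000000000000000000000000000) := D_20 (nat_lit 245) (nat_lit 178) (nat_lit 263) (nat_lit 6) (nat_lit 7) (nat_lit 14) (nat_lit 7) (nat_lit 7) (nat_lit 11) (by decide +kernel)
theorem L25392 : W_20 (nat_lit 3) (nat_lit 0x100008000d000200000001000080000000000000000000000000000000) (nat_lit 0x0) (nat_lit 0x800060002000000000000400000000000000000000000000000000000000000000) := T_20 (nat_lit 246) (nat_lit 229) (nat_lit 7) (nat_lit 7) (nat_lit 10) L25391 (by decide +kernel)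
theorem L25393 : W_20 (nat_lit 2) (nat_lit 0xe0005a003c000d000200000001000080000000000000000000000000000000) (nat_lit 0x0) (nat_lit 0x20030000000000000000000000000000000000000000000000000) := D_20 (nat_lit 196) (nat_lit 197) (nat_lit 209) (nat_lit 2) (nat_lit 6) (nat_lit 12) (nat_lit 2) (nat_lit 5) (nat_lit 12) (by decide +kernel)
theorem L25394 : W_20 (nat_lit 3) (nat_lit 0xe0005a0038000d000200000001000080000000000000000000000000000000) (nat_lit 0x0) (nat_lit 0x8000060030000000000000000000000000000000000000000000000000) := T_20 (nat_lit 210) (nat_lit 231) (nat_lit 3) (nat_lit 6) (nat_lit 12) L25393 (by decide +kernel)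
theorem L25395 : W_20 (nat_lit 4) (nat_lit 0xe0001a0038000d000200000001000080000000000000000000000000000000) (nat_lit 0x0) (nat_lit 0x100000000c000060030000000000000000000000000000000000000000000000000) := T_20 (nat_lit 230) (nat_lit 264) (nat_lit 4) (nat_lit 9) (nat_lit 15) L25394 (by decide +kernel)
theorem L25396 : W_20 (nat_lit 5) (nat_lit 0x60001a0038000d000200000001000080000000000000000000000000000000) (nat_lit 0x0) (nat_lit 0x100018000c000060030000000000000000000000000000000000000000000000000) := T_20 (nat_lit 247) (nat_lit 248) (nat_lit 0) (nat_lit 10) (nat_lit 14) L25395 (by decide +kernel)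
theorem L25397 : W_20 (nat_lit 6) (nat_lit 0x60001a0018000d000200000001000080000000000000000000000000000000) (nat_lit 0x0) (nat_lit 0x100018000c000660030000000000000000000000000000000000000000000000000) := T_20 (nat_lit 213) (nat_lit 214) (nat_lit 1) (nat_lit 10) (nat_lit 12) L25396 (by decide +kernel)
theorem L25398 : W_20 (nat_lit 7) (nat_lit 0x6000180018000d000200000001000080000000000000000000000000000000) (nat_lit 0x0) (nat_lit 0x100018000c600660030000000000000000000000000000000000000000000000000) := T_20 (nat_lit 225) (nat_lit 226) (nat_lit 3) (nat_lit 4) (nat_lit 13) L25397 (by decide +kernel)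
theorem L25399 : W_20 (nat_lit 8) (nat_lit 0x6000180008000d000200000001000080000000000000000000000000000000) (nat_lit 0x0) (nat_lit 0x140018000c600760030000000000000000000000000000000000000000000000000) := T_20 (nat_lit 212) (nat_lit 262) (nat_lit 6) (nat_lit 7) (nat_lit 15) L25398 (by decide +kernel)
theorem L25400 : W_20 (nat_lit 9) (nat_lit 0x4000180008000d000200000001000080000000000000000000000000000000) (nat_lit 0x0) (nat_lit 0x1c001a000c600760030000000000000000000000000000000000000000000000000) := T_20 (nat_lit 245) (nat_lit 263) (nat_lit 7) (nat_lit 7) (nat_lit 11) L25399 (by decide +kernel)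
theorem L25401 : W_20 (nat_lit 10) (nat_lit 0x180008000d000200000001000080000000000000000000000000000000) (nat_lit 0x0) (nat_lit 0x1c001e000e600760030000000000000000000000000000000000000000000000000) := T_20 (nat_lit 246) (nat_lit 229) (nat_lit 7) (nat_lit 7) (nat_lit 10) L25400 (by decide +kernel)
theorem L25402 : W_20 (nat_lit 11) (nat_lit 0x100008000d000200000001000080000000000000000000000000000000) (nat_lit 0x0) (nat_lit 0x1c001f000ee00760030000000000000000000000000000000000000000000000000) := T_20 (nat_lit 227) (nat_lit 244) (nat_lit 5) (nat_lit 7) (nat_lit 10) L25401 (by decide +kernel)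
theorem L25403 : W_20 (nat_lit 2) (nat_lit 0x2000100008000d000200000001000080000000000000000000000000000000) (nat_lit 0x0) (nat_lit 0x200010000800000000000000000000000000000000000000000000000000000000) := D_20 (nat_lit 244) (nat_lit 261) (nat_lit 227) (nat_lit 5) (nat_lit 7) (nat_lit 11) (nat_lit 5) (nat_lit 7) (nat_lit 10) (by decide +kernel)
theorem L25404 : W_20 (nat_lit 3) (nat_lit 0x100008000d000200000001000080000000000000000000000000000000) (nat_lit 0x0) (nat_lit 0x200030000800000000000400000000000000000000000000000000000000000000) := T_20 (nat_lit 245) (nat_lit 178) (nat_lit 6) (nat_lit 7) (nat_lit 14) L25403 (by decide +kernel)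
theorem L25405 : W_20 (nat_lit 2) (nat_lit 0x30000e000d000200000001000080000000000000000000000000000000) (nat_lit 0x0) (nat_lit 0x100030000000000000000000000000000000000000000000000000) := D_20 (nat_lit 196) (nat_lit 197) (nat_lit 212) (nat_lit 1) (nat_lit 10) (nat_lit 11) (nat_lit 2) (nat_lit 5) (nat_lit 12) (by decide +kernel)
theorem L25406 : W_20 (nat_lit 3) (nat_lit 0x30000c000d000200000001000080000000000000000000000000000000) (nat_lit 0x0) (nat_lit 0x130030000000000000000000000000000000000000000000000000) := T_20 (nat_lit 209) (nat_lit 208) (nat_lit 3) (nat_lit 4) (nat_lit 12) L25405 (by decide +kernel)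
theorem L25407 : W_20 (nat_lit 4) (nat_lit 0x10000c000d000200000001000080000000000000000000000000000000) (nat_lit 0x0) (nat_lit 0x40002000130030000000000000000000000000000000000000000000000000) := T_20 (nat_lit 229) (nat_lit 246) (nat_lit 7) (nat_lit 7) (nat_lit 10) L25406 (by decide +kernel)
theorem L25408 : W_20 (nat_lit 2) (nat_lit 0x38000c000d000200000001000080000000000000000000000000000000) (nat_lit 0x0) (nat_lit 0x4000030000000000000000000000000000000000000000000000000000) := D_20 (nat_lit 209) (nat_lit 208) (nat_lit 230) (nat_lit 3) (nat_lit 4) (nat_lit 12) (nat_lit 0) (nat_lit 9) (nat_lit 13) (by decide +kernel)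
theorem L25409 : W_20 (nat_lit 3) (nat_lit 0x18000c000d000200000001000080000000000000000000000000000000) (nat_lit 0x0) (nat_lit 0x40006000030000000000000000000000000000000000000000000000000000) := T_20 (nat_lit 229) (nat_lit 246) (nat_lit 7) (nat_lit 7) (nat_lit 10) L25408 (by decide +kernel)
theorem L25410 : W_20 (nat_lit 4) (nat_lit 0x10000c000d000200000001000080000000000000000000000000000000) (nat_lit 0x0) (nat_lit 0x50006800030000000000000000000000000000000000000000000000000000) := T_20 (nat_lit 227) (nat_lit 244) (nat_lit 5) (nat_lit 7) (nat_lit 10) L25409 (by decide +kernel)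
theorem L25411 : W_20 (nat_lit 2) (nat_lit 0x10000e000d000200000001000080000000000000000000000000000000) (nat_lit 0x0) (nat_lit 0x100030000000000000000000000000000000000000000000000000) := D_20 (nat_lit 196) (nat_lit 197) (nat_lit 212) (nat_lit 1) (nat_lit 10) (nat_lit 11) (nat_lit 2) (nat_lit 5) (nat_lit 12) (by decide +kernel)
theorem L25412 : W_20 (nat_lit 3) (nat_lit 0x10000c000d000200000001000080000000000000000000000000000000) (nat_lit 0x0) (nat_lit 0x130030000000000000000000000000000000000000000000000000) := T_20 (nat_lit 209) (nat_lit 208) (nat_lit 2) (nat_lit 4) (nat_lit 12) L25411 (by decide +kernel)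
theorem L25413 : W_20 (nat_lit 2) (nat_lit 0x800078002c002d000200000001000080000000000000000000000000000000) (nat_lit 0x0) (nat_lit 0x400100000000400000000000000000000000000000000000000000000) := D_20 (nat_lit 212) (nat_lit 226) (nat_lit 178) (nat_lit 2) (nat_lit 5) (nat_lit 13) (nat_lit 7) (nat_lit 8) (nat_lit 10) (by decide +kernel)
theorem L25414 : W_20 (nat_lit 3) (nat_lit 0x800078000c002d000200000001000080000000000000000000000000000000) (nat_lit 0x0) (nat_lit 0x400700000000400000000000000000000000000000000000000000000) := T_20 (nat_lit 213) (nat_lit 214) (nat_lit 2) (nat_lit 6) (nat_lit 13) L25413 (by decide +kernel)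
theorem L25415 : W_20 (nat_lit 4) (nat_lit 0x78000c002d000200000001000080000000000000000000000000000000) (nat_lit 0x0) (nat_lit 0x180000400700000000400000000000000000000000000000000000000000000) := T_20 (nat_lit 247) (nat_lit 248) (nat_lit 3) (nat_lit 6) (nat_lit 13) L25414 (by decide +kernel)
theorem L25416 : W_20 (nat_lit 5) (nat_lit 0x78000c000d000200000001000080000000000000000000000000000000) (nat_lit 0x0) (nat_lit 0x180000400700030000400000000000000000000000000000000000000000000) := T_20 (nat_lit 197) (nat_lit 196) (nat_lit 1) (nat_lit 10) (nat_lit 11) L25415 (by decide +kernel)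
theorem L25417 : W_20 (nat_lit 6) (nat_lit 0x38000c000d000200000001000080000000000000000000000000000000) (nat_lit 0x0) (nat_lit 0x18000c400700030000400000000000000000000000000000000000000000000) := T_20 (nat_lit 230) (nat_lit 231) (nat_lit 0) (nat_lit 10) (nat_lit 13) L25416 (by decide +kernel)
theorem L25418 : W_20 (nat_lit 7) (nat_lit 0x18000c000d000200000001000080000000000000000000000000000000) (nat_lit 0x0) (nat_lit 0x1c000e400700030000400000000000000000000000000000000000000000000) := T_20 (nat_lit 229) (nat_lit 246) (nat_lit 7) (nat_lit 7) (nat_lit 10) L25417 (by decide +kernel)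
theorem L25419 : W_20 (nat_lit 8) (nat_lit 0x10000c000d000200000001000080000000000000000000000000000000) (nat_lit 0x0) (nat_lit 0x1d000ec00700030000400000000000000000000000000000000000000000000) := T_20 (nat_lit 227) (nat_lit 244) (nat_lit 5) (nat_lit 7) (nat_lit 10) L25418 (by decide +kernel)
theorem L25420 : W_20 (nat_lit 9) (nat_lit 0x100008000d000200000001000080000000000000000000000000000000) (nat_lit 0x0) (nat_lit 0x1d000ec00770030000400000000000000000000000000000000000000000000) := Q_20 (nat_lit 210) (C_20 L25407 (C_20 L25410 (C_20 L25412 (C_20 L25419 N_20)))) (by decide +kernel)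
theorem L25421 : W_20 (nat_lit 12) (nat_lit 0x8000d000200000001000080000000000000000000000000000000) (nat_lit 0x0) (nat_lit 0x1e001f000fe00770030000400000000000000000000000000000000000000000000) := Q_20 (nat_lit 228) (C_20 L25392 (C_20 L25402 (C_20 L25404 (C_20 L25420 N_20)))) (by decide +kernel)
theorem L25422 : W_20 (nat_lit 2) (nat_lit 0x180018000d000200010001000080000000000000000000000000000000) (nat_lit 0x0) (nat_lit 0x400020000000000000000400000000000000000000000000000000000000000000) := D_20 (nat_lit 245) (nat_lit 178) (nat_lit 262) (nat_lit 6) (nat_lit 7) (nat_lit 14) (nat_lit 6) (nat_lit 7) (nat_lit 15) (by decide +kernel)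
theorem L25423 : W_20 (nat_lit 3) (nat_lit 0x80018000d000200010001000080000000000000000000000000000000) (nat_lit 0x0) (nat_lit 0x400030001000000000000400000000000000000000000000000000000000000000) := T_20 (nat_lit 228) (nat_lit 244) (nat_lit 5) (nat_lit 7) (nat_lit 10) L25422 (by decide +kernel)
theorem L25424 : W_20 (nat_lit 4) (nat_lit 0x80008000d000200010001000080000000000000000000000000000000) (nat_lit 0x0) (nat_lit 0x400030003000100000000400000000000000000000000000000000000000000000) := T_20 (nat_lit 212) (nat_lit 229) (nat_lit 7) (nat_lit 7) (nat_lit 9) L25423 (by decide +kernel)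
theorem L25425 : W_20 (nat_lit 5) (nat_lit 0x8000d000200010001000080000000000000000000000000000000) (nat_lit 0x0) (nat_lit 0x400030003800140000000400000000000000000000000000000000000000000000) := T_20 (nat_lit 227) (nat_lit 210) (nat_lit 5) (nat_lit 7) (nat_lit 9) L25424 (by decide +kernel)
theorem L25426 : W_20 (nat_lit 6) (nat_lit 0x8000d000200000001000080000000000000000000000000000000) (nat_lit 0x0) (nat_lit 0x400030003800140000000400010000800000000000000000000000000000000000) := T_20 (nat_lit 160) (nat_lit 143) (nat_lit 6) (nat_lit 7) (nat_lit 11) L25425 (by decide +kernel)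
theorem L25427 : W_20 (nat_lit 2) (nat_lit 0x2000300008000d000200018001000080000000000000000000000000000000) (nat_lit 0x0) (nat_lit 0x200010000800000000000000000000000000000000000000000000000000000000) := D_20 (nat_lit 244) (nat_lit 261) (nat_lit 227) (nat_lit 5) (nat_lit 7) (nat_lit 11) (nat_lit 5) (nat_lit 7) (nat_lit 10) (by decide +kernel)
theorem L25428 : W_20 (nat_lit 3) (nat_lit 0x300008000d000200018001000080000000000000000000000000000000) (nat_lit 0x0) (nat_lit 0x200030000800000000000400000000000000000000000000000000000000000000) := T_20 (nat_lit 245) (nat_lit 178) (nat_lit 6) (nat_lit 7) (nat_lit 14) L25427 (by decide +kernel)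
theorem L25429 : W_20 (nat_lit 4) (nat_lit 0x200008000d000200018001000080000000000000000000000000000000) (nat_lit 0x0) (nat_lit 0x200070001800000000000400000000000000000000000000000000000000000000) := T_20 (nat_lit 228) (nat_lit 246) (nat_lit 7) (nat_lit 7) (nat_lit 10) L25428 (by decide +kernel)
theorem L25430 : W_20 (nat_lit 5) (nat_lit 0x8000d000200018001000080000000000000000000000000000000) (nat_lit 0x0) (nat_lit 0x200070003800100000000400000000000000000000000000000000000000000000) := T_20 (nat_lit 229) (nat_lit 212) (nat_lit 7) (nat_lit 7) (nat_lit 9) L25429 (by decide +kernel)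
theorem L25431 : W_20 (nat_lit 6) (nat_lit 0x8000d000200010001000080000000000000000000000000000000) (nat_lit 0x0) (nat_lit 0x200070003800100000000400008000400000000000000000000000000000000000) := T_20 (nat_lit 159) (nat_lit 142) (nat_lit 4) (nat_lit 7) (nat_lit 12) L25430 (by decide +kernel)
theorem L25432 : W_20 (nat_lit 7) (nat_lit 0x8000d000200000001000080000000000000000000000000000000) (nat_lit 0x0) (nat_lit 0x200070003800100000000400018000c00000000000000000000000000000000000) := T_20 (nat_lit 160) (nat_lit 143) (nat_lit 6) (nat_lit 7) (nat_lit 11) L25431 (by decide +kernel)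
theorem L25433 : W_20 (nat_lit 2) (nat_lit 0x2000180008000d000200018001000080000000000000000000000000000000) (nat_lit 0x0) (nat_lit 0x800040002000000000000000000000000000000000000000000000000000000000) := D_20 (nat_lit 246) (nat_lit 229) (nat_lit 263) (nat_lit 7) (nat_lit 7) (nat_lit 10) (nat_lit 7) (nat_lit 7) (nat_lit 11) (by decide +kernel)
theorem L25434 : W_20 (nat_lit 3) (nat_lit 0x180008000d000200018001000080000000000000000000000000000000) (nat_lit 0x0) (nat_lit 0x800060002000000000000400000000000000000000000000000000000000000000) := T_20 (nat_lit 245) (nat_lit 178) (nat_lit 6) (nat_lit 7) (nat_lit 14) L25433 (by decide +kernel)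
theorem L25435 : W_20 (nat_lit 4) (nat_lit 0x80008000d000200018001000080000000000000000000000000000000) (nat_lit 0x0) (nat_lit 0x800070003000000000000400000000000000000000000000000000000000000000) := T_20 (nat_lit 228) (nat_lit 244) (nat_lit 5) (nat_lit 7) (nat_lit 10) L25434 (by decide +kernel)
theorem L25436 : W_20 (nat_lit 5) (nat_lit 0x80008000d000200010001000080000000000000000000000000000000) (nat_lit 0x0) (nat_lit 0x800070003000000000000400008000400000000000000000000000000000000000) := T_20 (nat_lit 159) (nat_lit 142) (nat_lit 4) (nat_lit 7) (nat_lit 12) L25435 (by decide +kernel)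
theorem L25437 : W_20 (nat_lit 6) (nat_lit 0x8000d000200010001000080000000000000000000000000000000) (nat_lit 0x0) (nat_lit 0x800070003800040000000400008000400000000000000000000000000000000000) := T_20 (nat_lit 227) (nat_lit 210) (nat_lit 5) (nat_lit 7) (nat_lit 9) L25436 (by decide +kernel)
theorem L25438 : W_20 (nat_lit 7) (nat_lit 0x8000d000200000001000080000000000000000000000000000000) (nat_lit 0x0) (nat_lit 0x800070003800040000000400018000c00000000000000000000000000000000000) := T_20 (nat_lit 160) (nat_lit 143) (nat_lit 6) (nat_lit 7) (nat_lit 11) L25437 (by decide +kernel)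
theorem L25439 : W_20 (nat_lit 2) (nat_lit 0x300008000d000200000001000080000000000000000000000000000000) (nat_lit 0x0) (nat_lit 0x100000000000010000800000000000000000000000000000000000) := D_20 (nat_lit 160) (nat_lit 212) (nat_lit 143) (nat_lit 7) (nat_lit 7) (nat_lit 9) (nat_lit 6) (nat_lit 7) (nat_lit 11) (by decide +kernel)
theorem L25440 : W_20 (nat_lit 3) (nat_lit 0x100008000d000200000001000080000000000000000000000000000000) (nat_lit 0x0) (nat_lit 0x40002000100000000000010000800000000000000000000000000000000000) := T_20 (nat_lit 229) (nat_lit 246) (nat_lit 7) (nat_lit 7) (nat_lit 10) L25439 (by decide +kernel)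
theorem L25441 : W_20 (nat_lit 2) (nat_lit 0x100018000d000200018001000080000000000000000000000000000000) (nat_lit 0x0) (nat_lit 0x400020000000000000000400000000000000000000000000000000000000000000) := D_20 (nat_lit 245) (nat_lit 262) (nat_lit 178) (nat_lit 6) (nat_lit 7) (nat_lit 15) (nat_lit 6) (nat_lit 7) (nat_lit 14) (by decide +kernel)
theorem L25442 : W_20 (nat_lit 3) (nat_lit 0x100008000d000200018001000080000000000000000000000000000000) (nat_lit 0x0) (nat_lit 0x400020002000100000000400000000000000000000000000000000000000000000) := T_20 (nat_lit 212) (nat_lit 229) (nat_lit 7) (nat_lit 7) (nat_lit 9) L25441 (by decide +kernel)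
theorem L25443 : W_20 (nat_lit 4) (nat_lit 0x100008000d000200010001000080000000000000000000000000000000) (nat_lit 0x0) (nat_lit 0x400020002000100000000400008000400000000000000000000000000000000000) := T_20 (nat_lit 159) (nat_lit 142) (nat_lit 4) (nat_lit 7) (nat_lit 12) L25442 (by decide +kernel)
theorem L25444 : W_20 (nat_lit 5) (nat_lit 0x100008000d000200000001000080000000000000000000000000000000) (nat_lit 0x0) (nat_lit 0x400020002000100000000400018000c00000000000000000000000000000000000) := T_20 (nat_lit 160) (nat_lit 143) (nat_lit 6) (nat_lit 7) (nat_lit 11) L25443 (by decide +kernel)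
theorem L25445 : W_20 (nat_lit 4) (nat_lit 0x2000100008000d000200000001000080000000000000000000000000000000) (nat_lit 0x0) (nat_lit 0x10000e00050000000100000000000000000000000000000000000000000000000000000) := T_20 (nat_lit 244) (nat_lit 261) (nat_lit 5) (nat_lit 7) (nat_lit 11) L24416 (by decide +kernel)
theorem L25446 : W_20 (nat_lit 5) (nat_lit 0x100008000d000200000001000080000000000000000000000000000000) (nat_lit 0x0) (nat_lit 0x10000e00070000000100000000400000000000000000000000000000000000000000000) := T_20 (nat_lit 245) (nat_lit 178) (nat_lit 6) (nat_lit 7) (nat_lit 14) L25445 (by decide +kernel)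
theorem L25447 : W_20 (nat_lit 6) (nat_lit 0x8000d000200000001000080000000000000000000000000000000) (nat_lit 0x0) (nat_lit 0x10000e00070003000100000000400018000c00000000000000000000000000000000000) := Q_20 (nat_lit 228) (C_20 L25392 (C_20 L25440 (C_20 L25444 (C_20 L25446 N_20)))) (by decide +kernel)
theorem L25448 : W_20 (nat_lit 13) (nat_lit 0xd000200000001000080000000000000000000000000000000) (nat_lit 0x0) (nat_lit 0x10001e001f000fe007f0030000400018000c00000000000000000000000000000000000) := Q_20 (nat_lit 211) (C_20 L25390 (C_20 L25421 (C_20 L25426 (C_20 L25432 (C_20 L25438 (C_20 L25447 N_20)))))) (by decide +kernel)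
theorem L25449 : W_20 (nat_lit 10) (nat_lit 0xd000200000001000080000000000000000000000000000000) (nat_lit 0x0) (nat_lit 0xf00078007f0012001cc0004000000000000000000000000000000000000000) := Q_20 (nat_lit 193) (C_20 L24003 (C_20 L23994 (C_20 L23822 (C_20 L18989 N_20)))) (by decide +kernel)
theorem L25450 : W_20 (nat_lit 6) (nat_lit 0xd000200000001000080000000000000000000000000000000) (nat_lit 0x0) (nat_lit 0x500028007f00120000c0014000800000000000000000000000000000000000) := Q_20 (nat_lit 193) (C_20 L23994 (C_20 L24837 (C_20 L18989 N_20))) (by decide +kernel)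
theorem L25451 : W_20 (nat_lit 10) (nat_lit 0xd000200000001000080000000000000000000000000000000) (nat_lit 0x0) (nat_lit 0xf00078003f0002000cc0014000f0015c000000000000000000000000000000) := Q_20 (nat_lit 193) (C_20 L25369 (C_20 L23822 (C_20 L24837 (C_20 L23854 N_20)))) (by decide +kernel)
theorem L25452 : W_20 (nat_lit 12) (nat_lit 0xd000200000001000080000000000000000000000000000000) (nat_lit 0x0) (nat_lit 0x200070003800fb0072007cc001f000f00168000000000000000000000000000000) := Q_20 (nat_lit 193) (C_20 L25286 (C_20 L25358 (C_20 L24003 (C_20 L24837 N_20)))) (by decide +kernel)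
theorem L25453 : W_20 (nat_lit 9) (nat_lit 0xd000200000001000080000000000000000000000000000000) (nat_lit 0x0) (nat_lit 0x10000801ff0072003cc0014000f0015c000000000000000000000000000000) := Q_20 (nat_lit 193) (C_20 L25383 (C_20 L24003 (C_20 L23994 (C_20 L25369 N_20)))) (by decide +kernel)
theorem L25454 : W_20 (nat_lit 8) (nat_lit 0xd000200000001000080000000000000000000000000000000) (nat_lit 0x0) (nat_lit 0x50002800f70072007cc0014000800000000000000000000000000000000000) := Q_20 (nat_lit 193) (C_20 L25286 (C_20 L24003 (C_20 L23994 (C_20 L23854 (C_20 L18989 N_20))))) (by decide +kernel)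
theorem L25455 : W_20 (nat_lit 9) (nat_lit 0xd000200000001000080000000000000000000000000000000) (nat_lit 0x0) (nat_lit 0x10000801ef0072007cc0014000f0015c000000000000000000000000000000) := Q_20 (nat_lit 193) (C_20 L25369 (C_20 L25383 (C_20 L18989 (C_20 L25286 (C_20 L23858 N_20))))) (by decide +kernel)
theorem L25456 : W_20 (nat_lit 8) (nat_lit 0xd000200000001000080000000000000000000000000000000) (nat_lit 0x0) (nat_lit 0x40002000ff0072007cc0010000800000000000000000000000000000000000) := Q_20 (nat_lit 193) (C_20 L25286 (C_20 L24003 (C_20 L24837 (C_20 L23858 N_20)))) (by decide +kernel)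
theorem L25457 : W_20 (nat_lit 12) (nat_lit 0xd000200000001000080000000000000000000000000000000) (nat_lit 0x0) (nat_lit 0x200070003801df0072003cc001f000f0017c000000000000000000000000000000) := Q_20 (nat_lit 193) (C_20 L25383 (C_20 L18989 (C_20 L25369 (C_20 L25358 (C_20 L23858 N_20))))) (by decide +kernel)
theorem L25458 : W_20 (nat_lit 14) (nat_lit 0x5000200000001000080000000000000000000000000000000) (nat_lit 0x0) (nat_lit 0x10001e001f000fe01ff007a007cc001f000f0017c000000000000000000000000000000) := Q_20 (nat_lit 195) (C_20 L25386 (C_20 L25448 (C_20 L25449 (C_20 L25450 (C_20 L25451 (C_20 L25452 (C_20 L25453 (C_20 L25454 (C_20 L25455 (C_20 L25456 (C_20 L25457 N_20))))))))))) (by decide +kernel)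
theorem L25459 : W_20 (nat_lit 9) (nat_lit 0x5000200000001000080000000000000000000000000000000) (nat_lit 0x0) (nat_lit 0x40002000ffc07ac07cf0010000800000000000000000000000000000000000) := Q_20 (nat_lit 193) (C_20 L25372 (C_20 L10034 (C_20 L24865 (C_20 L23998 N_20)))) (by decide +kernel)
theorem L25460 : W_20 (nat_lit 4) (nat_lit 0x7000200010001000080000000000000000000000000000000) (nat_lit 0x0) (nat_lit 0x8001c0000c00400000000000000000000000000000000000000000000) := T_20 (nat_lit 191) (nat_lit 178) (nat_lit 2) (nat_lit 4) (nat_lit 11) L24844 (by decide +kernel)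
theorem L25461 : W_20 (nat_lit 5) (nat_lit 0x7000200000001000080000000000000000000000000000000) (nat_lit 0x0) (nat_lit 0x8001c0000c00400010000800000000000000000000000000000000000) := T_20 (nat_lit 160) (nat_lit 143) (nat_lit 6) (nat_lit 7) (nat_lit 11) L25460 (by decide +kernel)
theorem L25462 : W_20 (nat_lit 10) (nat_lit 0x5000200000001000080000000000000000000000000000000) (nat_lit 0x0) (nat_lit 0x60007000f801fee07af07ce0014000f0015c000000000000000000000000000000) := Q_20 (nat_lit 193) (C_20 L25384 (C_20 L25461 (C_20 L24029 (C_20 L24944 (C_20 L23998 N_20))))) (by decide +kernel)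
theorem L25463 : W_20 (nat_lit 6) (nat_lit 0x7000200000001000080000000000000000000000000000000) (nat_lit 0x0) (nat_lit 0x400020007f0018001c00010000800000000000000000000000000000000000) := Q_20 (nat_lit 195) (C_20 L23994 (C_20 L24837 (C_20 L23858 N_20))) (by decide +kernel)
theorem L25464 : W_20 (nat_lit 13) (nat_lit 0x5000200000001000080000000000000000000000000000000) (nat_lit 0x0) (nat_lit 0x5c003e007fc01ac01c70018000c00000000000000000000000000000000000) := Q_20 (nat_lit 193) (C_20 L25463 (C_20 L25461 (C_20 L10034 (C_20 L24856 (C_20 L23998 N_20))))) (by decide +kernel)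
theorem L25465 : W_20 (nat_lit 11) (nat_lit 0x5000200000001000080000000000000000000000000000000) (nat_lit 0x0) (nat_lit 0x44002b007fc01ac01c8001c000c00000000000000000000000000000000000) := Q_20 (nat_lit 193) (C_20 L25463 (C_20 L25461 (C_20 L24030 (C_20 L24955 (C_20 L23998 N_20))))) (by decide +kernel)
theorem L25466 : W_20 (nat_lit 17) (nat_lit 0x4000200000001000080000000000000000000000000000000) (nat_lit 0x0) (nat_lit 0x15001fc01ff01ffc1ffe07bf07cf801fc00fe017f001e00000000000000000000000000) := Q_20 (nat_lit 192) (C_20 L23999 (C_20 L24031 (C_20 L24834 (C_20 L24956 (C_20 L25275 (C_20 L25360 (C_20 L25362 (C_20 L25371 (C_20 L25373 (C_20 L25385 (C_20 L25458 (C_20 L25459 (C_20 L25462 (C_20 L25464 (C_20 L25465 N_20))))))))))))))) (by decide +kernel)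
end Crest.Agent.Helper32.Snaky.R1_0
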